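import Vale.Agent.Lib.P154.PChain.BR.L

set_option linter.all false

namespace Vale.Agent.Lib.P154.PChain.BR.S0

open Vale.Agent.Lib.P154.Chain

noncomputable def pc0 : PT := (PT.nd (nat_lit 2916966) (PT.nd (nat_lit 2823210) (PT.nd (nat_lit 2760810) (PT.nd (nat_lit 2760654) (PT.nd (nat_lit 2729532) (PT.nd (nat_lit 2729454) PT.nil (PT.lf (nat_lit 76) (nat_lit 6) (nat_lit 1) (nat_lit 3) (nat_lit 106) (nat_lit 87) (nat_lit 107))) (PT.lf (nat_lit 76) (nat_lit 6) (nat_lit 1) (nat_lit 1) (nat_lit 107) (nat_lit 87) (nat_lit 106))) (PT.nd (nat_lit 78) (PT.lf (nat_lit 152) (nat_lit 6) (nat_lit 2) (nat_lit 3) (nat_lit 105) (nat_lit 88) (nat_lit 107)) (PT.lf (nat_lit 228) (nat_lit 3) (nat_lit 3) (nat_lit 1) (nat_lit 106) (nat_lit 88) (nat_lit 106)))) (PT.nd (nat_lit 31200) (PT.nd (nat_lit 31122) (PT.lf (nat_lit 152) (nat_lit 6) (nat_lit 2) (nat_lit 1) (nat_lit 107) (nat_lit 88) (nat_lit 105))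 (PT.lf (nat_lit 304) (nat_lit 6) (nat_lit 4) (nat_lit 3) (nat_lit 105) (nat_lit 89) (nat_lit 106))) (PT.nd (nat_lit 31122) (PT.lf (nat_lit 304) (nat_lit 6) (nat_lit 4) (nat_lit 1) (nat_lit 106) (nat_lit 89) (nat_lit 105)) (PT.lf (nat_lit 380) (nat_lit 6) (nat_lit 5) (nat_lit 3) (nat_lit 104) (nat_lit 90) (nat_lit 106))))) (PT.nd (nat_lit 62400) (PT.nd (nat_lit 31200) (PT.nd (nat_lit 78) (PT.lf (nat_lit 456) (nat_lit 3) (nat_lit 6) (nat_lit 1) (nat_lit 105) (nat_lit 90) (nat_lit 105)) (PT.lf (nat_lit 380) (nat_lit 6) (nat_lit 5) (nat_lit 1) (nat_lit 106) (nat_lit 90) (nat_lit 104))) (PT.nd (nat_lit 78) (PT.lf (nat_lit 532) (nat_lit 6) (nat_lit 7) (nat_lit 3) (nat_lit 104) (nat_lit 91) (nat_lit 105)) (PT.lf (nat_lit 532) (nat_lit 6) (nat_lit 7) (nat_lit 1) (nat_lit 105) (nat_lit 91) (nat_lit 104)))) (PT.nd (nat_lit 156) (PT.nd (nat_lit 78) (PT.lf (nat_lit 608) (nat_lit 6) (nat_lit 8)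 (nat_lit 3) (nat_lit 103) (nat_lit 92) (nat_lit 105)) (PT.lf (nat_lit 684) (nat_lit 3) (nat_lit 9) (nat_lit 1) (nat_lit 104) (nat_lit 92) (nat_lit 104))) (PT.nd (nat_lit 31044) (PT.lf (nat_lit 608) (nat_lit 6) (nat_lit 8) (nat_lit 1) (nat_lit 105) (nat_lit 92) (nat_lit 103)) (PT.nd (nat_lit 78) (PT.lf (nat_lit 760) (nat_lit 6) (nat_lit 10) (nat_lit 3) (nat_lit 102) (nat_lit 93) (nat_lit 105)) (PT.lf (nat_lit 836) (nat_lit 6) (nat_lit 11) (nat_lit 3) (nat_lit 103) (nat_lit 93) (nat_lit 104))))))) (PT.nd (nat_lit 62556) (PT.nd (nat_lit 31278) (PT.nd (nat_lit 31122) (PT.nd (nat_lit 78) (PT.lf (nat_lit 836) (nat_lit 6) (nat_lit 11) (nat_lit 1) (nat_lit 104) (nat_lit 93) (nat_lit 103)) (PT.lf (nat_lit 760) (nat_lit 6) (nat_lit 10) (nat_lit 1) (nat_lit 105) (nat_lit 93) (nat_lit 102))) (PT.nd (nat_lit 78) (PT.lf (nat_lit 912) (nat_lit 6) (nat_lit 12) (nat_lit 3) (nat_lit 102) (nat_lit 94)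 (nat_lit 104)) (PT.lf (nat_lit 988) (nat_lit 3) (nat_lit 13) (nat_lit 1) (nat_lit 103) (nat_lit 94) (nat_lit 103)))) (PT.nd (nat_lit 31122) (PT.nd (nat_lit 31044) (PT.lf (nat_lit 912) (nat_lit 6) (nat_lit 12) (nat_lit 1) (nat_lit 104) (nat_lit 94) (nat_lit 102)) (PT.lf (nat_lit 1064) (nat_lit 6) (nat_lit 14) (nat_lit 3) (nat_lit 101) (nat_lit 95) (nat_lit 104))) (PT.nd (nat_lit 78) (PT.lf (nat_lit 1140) (nat_lit 6) (nat_lit 15) (nat_lit 3) (nat_lit 102) (nat_lit 95) (nat_lit 103)) (PT.lf (nat_lit 1140) (nat_lit 6) (nat_lit 15) (nat_lit 1) (nat_lit 103) (nat_lit 95) (nat_lit 102))))) (PT.nd (nat_lit 31200) (PT.nd (nat_lit 31044) (PT.nd (nat_lit 30966) (PT.lf (nat_lit 1064) (nat_lit 6) (nat_lit 14) (nat_lit 1) (nat_lit 104) (nat_lit 95) (nat_lit 101)) (PT.lf (nat_lit 1292) (nat_lit 6) (nat_lit 17) (nat_lit 3) (nat_lit 100) (nat_lit 96) (nat_lit 104))) (PT.nd (nat_lit 78) (PT.lf (nat_lit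 1368) (nat_lit 6) (nat_lit 18) (nat_lit 3) (nat_lit 101) (nat_lit 96) (nat_lit 103)) (PT.lf (nat_lit 1444) (nat_lit 3) (nat_lit 19) (nat_lit 1) (nat_lit 102) (nat_lit 96) (nat_lit 102)))) (PT.nd (nat_lit 30966) (PT.nd (nat_lit 78) (PT.lf (nat_lit 1368) (nat_lit 6) (nat_lit 18) (nat_lit 1) (nat_lit 103) (nat_lit 96) (nat_lit 101)) (PT.lf (nat_lit 1292) (nat_lit 6) (nat_lit 17) (nat_lit 1) (nat_lit 104) (nat_lit 96) (nat_lit 100))) (PT.nd (nat_lit 78) (PT.lf (nat_lit 1216) (nat_lit 6) (nat_lit 16) (nat_lit 3) (nat_lit 99) (nat_lit 97) (nat_lit 104)) (PT.nd (nat_lit 78) (PT.lf (nat_lit 1596) (nat_lit 6) (nat_lit 21) (nat_lit 3) (nat_lit 100) (nat_lit 97) (nat_lit 103)) (PT.lf (nat_lit 1672) (nat_lit 6) (nat_lit 22) (nat_lit 3) (nat_lit 101) (nat_lit 97) (nat_lit 102))))))))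
noncomputable def pc1 : PT := (PT.nd (nat_lit 93444) (PT.nd (nat_lit 62166) (PT.nd (nat_lit 31122) (PT.nd (nat_lit 156) (PT.nd (nat_lit 78) (PT.lf (nat_lit 1672) (nat_lit 6) (nat_lit 22) (nat_lit 1) (nat_lit 102) (nat_lit 97) (nat_lit 101)) (PT.lf (nat_lit 1596) (nat_lit 6) (nat_lit 21) (nat_lit 1) (nat_lit 103) (nat_lit 97) (nat_lit 100))) (PT.nd (nat_lit 30888) (PT.lf (nat_lit 1216) (nat_lit 6) (nat_lit 16) (nat_lit 1) (nat_lit 104) (nat_lit 97) (nat_lit 99)) (PT.lf (nat_lit 1520) (nat_lit 6) (nat_lit 20) (nat_lit 3) (nat_lit 99) (nat_lit 98) (nat_lit 103)))) (PT.nd (nat_lit 156) (PT.nd (nat_lit 78) (PT.lf (nat_lit 1824) (nat_lit 6) (nat_lit 24) (nat_lit 3) (nat_lit 100) (nat_lit 98) (nat_lit 102)) (PT.lf (nat_lit 1900) (nat_lit 3) (nat_lit 25) (nat_lit 1) (nat_lit 101) (nat_lit 98) (nat_lit 101))) (PT.nd (nat_lit 78) (PT.lf (nat_lit 1824) (nat_lit 6) (nat_lit 24) (nat_lit 1) (nat_lit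 102) (nat_lit 98) (nat_lit 100)) (PT.lf (nat_lit 1520) (nat_lit 6) (nat_lit 20) (nat_lit 1) (nat_lit 103) (nat_lit 98) (nat_lit 99))))) (PT.nd (nat_lit 312) (PT.nd (nat_lit 156) (PT.nd (nat_lit 78) (PT.lf (nat_lit 1216) (nat_lit 6) (nat_lit 16) (nat_lit 5) (nat_lit 97) (nat_lit 99) (nat_lit 104)) (PT.lf (nat_lit 1520) (nat_lit 6) (nat_lit 20) (nat_lit 5) (nat_lit 98) (nat_lit 99) (nat_lit 103))) (PT.nd (nat_lit 78) (PT.lf (nat_lit 1748) (nat_lit 3) (nat_lit 23) (nat_lit 3) (nat_lit 99) (nat_lit 99) (nat_lit 102)) (PT.lf (nat_lit 1976) (nat_lit 6) (nat_lit 26) (nat_lit 3) (nat_lit 100) (nat_lit 99) (nat_lit 101)))) (PT.nd (nat_lit 156) (PT.nd (nat_lit 78) (PT.lf (nat_lit 1976) (nat_lit 6) (nat_lit 26) (nat_lit 1) (nat_lit 101) (nat_lit 99) (nat_lit 100)) (PT.lf (nat_lit 1748) (nat_lit 3) (nat_lit 23) (nat_lit 0) (nat_lit 102) (nat_lit 99) (nat_lit 99))) (PT.nd (nat_lit 78) (PT.lf (nat_lit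 1520) (nat_lit 6) (nat_lit 20) (nat_lit 0) (nat_lit 103) (nat_lit 99) (nat_lit 98)) (PT.nd (nat_lit 30654) (PT.lf (nat_lit 1216) (nat_lit 6) (nat_lit 16) (nat_lit 0) (nat_lit 104) (nat_lit 99) (nat_lit 97)) (PT.lf (nat_lit 1292) (nat_lit 6) (nat_lit 17) (nat_lit 5) (nat_lit 96) (nat_lit 100) (nat_lit 104))))))) (PT.nd (nat_lit 31122) (PT.nd (nat_lit 312) (PT.nd (nat_lit 156) (PT.nd (nat_lit 78) (PT.lf (nat_lit 1596) (nat_lit 6) (nat_lit 21) (nat_lit 5) (nat_lit 97) (nat_lit 100) (nat_lit 103)) (PT.lf (nat_lit 1824) (nat_lit 6) (nat_lit 24) (nat_lit 5) (nat_lit 98) (nat_lit 100) (nat_lit 102))) (PT.nd (nat_lit 78) (PT.lf (nat_lit 1976) (nat_lit 6) (nat_lit 26) (nat_lit 5) (nat_lit 99) (nat_lit 100) (nat_lit 101)) (PT.lf (nat_lit 2052) (nat_lit 1) (nat_lit 27) (nat_lit 0) (nat_lit 100) (nat_lit 100) (nat_lit 100)))) (PT.nd (nat_lit 156) (PT.nd (nat_lit 78) (PT.lf (nat_lit 1976) (nat_lit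 6) (nat_lit 26) (nat_lit 0) (nat_lit 101) (nat_lit 100) (nat_lit 99)) (PT.lf (nat_lit 1824) (nat_lit 6) (nat_lit 24) (nat_lit 0) (nat_lit 102) (nat_lit 100) (nat_lit 98))) (PT.nd (nat_lit 78) (PT.lf (nat_lit 1596) (nat_lit 6) (nat_lit 21) (nat_lit 0) (nat_lit 103) (nat_lit 100) (nat_lit 97)) (PT.lf (nat_lit 1292) (nat_lit 6) (nat_lit 17) (nat_lit 0) (nat_lit 104) (nat_lit 100) (nat_lit 96))))) (PT.nd (nat_lit 312) (PT.nd (nat_lit 156) (PT.nd (nat_lit 78) (PT.lf (nat_lit 1064) (nat_lit 6) (nat_lit 14) (nat_lit 5) (nat_lit 95) (nat_lit 101) (nat_lit 104)) (PT.lf (nat_lit 1368) (nat_lit 6) (nat_lit 18) (nat_lit 5) (nat_lit 96) (nat_lit 101) (nat_lit 103))) (PT.nd (nat_lit 78) (PT.lf (nat_lit 1672) (nat_lit 6) (nat_lit 22) (nat_lit 5) (nat_lit 97) (nat_lit 101) (nat_lit 102)) (PT.lf (nat_lit 1900) (nat_lit 3) (nat_lit 25) (nat_lit 4) (nat_lit 98) (nat_lit 101) (nat_lit 101)))) (PT.nd (nat_lit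 156) (PT.nd (nat_lit 78) (PT.lf (nat_lit 1976) (nat_lit 6) (nat_lit 26) (nat_lit 4) (nat_lit 99) (nat_lit 101) (nat_lit 100)) (PT.lf (nat_lit 1976) (nat_lit 6) (nat_lit 26) (nat_lit 2) (nat_lit 100) (nat_lit 101) (nat_lit 99))) (PT.nd (nat_lit 78) (PT.lf (nat_lit 1900) (nat_lit 3) (nat_lit 25) (nat_lit 0) (nat_lit 101) (nat_lit 101) (nat_lit 98)) (PT.nd (nat_lit 78) (PT.lf (nat_lit 1672) (nat_lit 6) (nat_lit 22) (nat_lit 0) (nat_lit 102) (nat_lit 101) (nat_lit 97)) (PT.lf (nat_lit 1368) (nat_lit 6) (nat_lit 18) (nat_lit 0) (nat_lit 103) (nat_lit 101) (nat_lit 96))))))))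
noncomputable def pc2 : PT := (PT.nd (nat_lit 61854) (PT.nd (nat_lit 30966) (PT.nd (nat_lit 30654) (PT.nd (nat_lit 30498) (PT.nd (nat_lit 30420) (PT.lf (nat_lit 1064) (nat_lit 6) (nat_lit 14) (nat_lit 0) (nat_lit 104) (nat_lit 101) (nat_lit 95)) (PT.lf (nat_lit 760) (nat_lit 6) (nat_lit 10) (nat_lit 5) (nat_lit 93) (nat_lit 102) (nat_lit 105))) (PT.nd (nat_lit 78) (PT.lf (nat_lit 912) (nat_lit 6) (nat_lit 12) (nat_lit 5) (nat_lit 94) (nat_lit 102) (nat_lit 104)) (PT.lf (nat_lit 1140) (nat_lit 6) (nat_lit 15) (nat_lit 5) (nat_lit 95) (nat_lit 102) (nat_lit 103)))) (PT.nd (nat_lit 156) (PT.nd (nat_lit 78) (PT.lf (nat_lit 1444) (nat_lit 3) (nat_lit 19) (nat_lit 4) (nat_lit 96) (nat_lit 102) (nat_lit 102)) (PT.lf (nat_lit 1672) (nat_lit 6) (nat_lit 22) (nat_lit 4) (nat_lit 97) (nat_lit 102) (nat_lit 101))) (PT.nd (nat_lit 78) (PT.lf (nat_lit 1824) (nat_lit 6) (nat_lit 24) (nat_lit 4) (nat_lit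 98) (nat_lit 102) (nat_lit 100)) (PT.lf (nat_lit 1748) (nat_lit 3) (nat_lit 23) (nat_lit 2) (nat_lit 99) (nat_lit 102) (nat_lit 99))))) (PT.nd (nat_lit 312) (PT.nd (nat_lit 156) (PT.nd (nat_lit 78) (PT.lf (nat_lit 1824) (nat_lit 6) (nat_lit 24) (nat_lit 2) (nat_lit 100) (nat_lit 102) (nat_lit 98)) (PT.lf (nat_lit 1672) (nat_lit 6) (nat_lit 22) (nat_lit 2) (nat_lit 101) (nat_lit 102) (nat_lit 97))) (PT.nd (nat_lit 78) (PT.lf (nat_lit 1444) (nat_lit 3) (nat_lit 19) (nat_lit 0) (nat_lit 102) (nat_lit 102) (nat_lit 96)) (PT.lf (nat_lit 1140) (nat_lit 6) (nat_lit 15) (nat_lit 0) (nat_lit 103) (nat_lit 102) (nat_lit 95)))) (PT.nd (nat_lit 30342) (PT.nd (nat_lit 78) (PT.lf (nat_lit 912) (nat_lit 6) (nat_lit 12) (nat_lit 0) (nat_lit 104) (nat_lit 102) (nat_lit 94)) (PT.lf (nat_lit 760) (nat_lit 6) (nat_lit 10) (nat_lit 0) (nat_lit 105) (nat_lit 102) (nat_lit 93))) (PT.nd (nat_lit 78) (PT.lf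 (nat_lit 608) (nat_lit 6) (nat_lit 8) (nat_lit 5) (nat_lit 92) (nat_lit 103) (nat_lit 105)) (PT.nd (nat_lit 78) (PT.lf (nat_lit 836) (nat_lit 6) (nat_lit 11) (nat_lit 5) (nat_lit 93) (nat_lit 103) (nat_lit 104)) (PT.lf (nat_lit 988) (nat_lit 3) (nat_lit 13) (nat_lit 4) (nat_lit 94) (nat_lit 103) (nat_lit 103))))))) (PT.nd (nat_lit 624) (PT.nd (nat_lit 312) (PT.nd (nat_lit 156) (PT.nd (nat_lit 78) (PT.lf (nat_lit 1140) (nat_lit 6) (nat_lit 15) (nat_lit 4) (nat_lit 95) (nat_lit 103) (nat_lit 102)) (PT.lf (nat_lit 1368) (nat_lit 6) (nat_lit 18) (nat_lit 4) (nat_lit 96) (nat_lit 103) (nat_lit 101))) (PT.nd (nat_lit 78) (PT.lf (nat_lit 1596) (nat_lit 6) (nat_lit 21) (nat_lit 4) (nat_lit 97) (nat_lit 103) (nat_lit 100)) (PT.lf (nat_lit 1520) (nat_lit 6) (nat_lit 20) (nat_lit 4) (nat_lit 98) (nat_lit 103) (nat_lit 99)))) (PT.nd (nat_lit 156) (PT.nd (nat_lit 78) (PT.lf (nat_lit 1520) (nat_lit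 6) (nat_lit 20) (nat_lit 2) (nat_lit 99) (nat_lit 103) (nat_lit 98)) (PT.lf (nat_lit 1596) (nat_lit 6) (nat_lit 21) (nat_lit 2) (nat_lit 100) (nat_lit 103) (nat_lit 97))) (PT.nd (nat_lit 78) (PT.lf (nat_lit 1368) (nat_lit 6) (nat_lit 18) (nat_lit 2) (nat_lit 101) (nat_lit 103) (nat_lit 96)) (PT.lf (nat_lit 1140) (nat_lit 6) (nat_lit 15) (nat_lit 2) (nat_lit 102) (nat_lit 103) (nat_lit 95))))) (PT.nd (nat_lit 30342) (PT.nd (nat_lit 156) (PT.nd (nat_lit 78) (PT.lf (nat_lit 988) (nat_lit 3) (nat_lit 13) (nat_lit 0) (nat_lit 103) (nat_lit 103) (nat_lit 94)) (PT.lf (nat_lit 836) (nat_lit 6) (nat_lit 11) (nat_lit 0) (nat_lit 104) (nat_lit 103) (nat_lit 93))) (PT.nd (nat_lit 30108) (PT.lf (nat_lit 608) (nat_lit 6) (nat_lit 8) (nat_lit 0) (nat_lit 105) (nat_lit 103) (nat_lit 92)) (PT.lf (nat_lit 380) (nat_lit 6) (nat_lit 5) (nat_lit 5) (nat_lit 90) (nat_lit 104) (nat_lit 106)))) (PT.nd (nat_lit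 156) (PT.nd (nat_lit 78) (PT.lf (nat_lit 532) (nat_lit 6) (nat_lit 7) (nat_lit 5) (nat_lit 91) (nat_lit 104) (nat_lit 105)) (PT.lf (nat_lit 684) (nat_lit 3) (nat_lit 9) (nat_lit 4) (nat_lit 92) (nat_lit 104) (nat_lit 104))) (PT.nd (nat_lit 78) (PT.lf (nat_lit 836) (nat_lit 6) (nat_lit 11) (nat_lit 4) (nat_lit 93) (nat_lit 104) (nat_lit 103)) (PT.nd (nat_lit 78) (PT.lf (nat_lit 912) (nat_lit 6) (nat_lit 12) (nat_lit 4) (nat_lit 94) (nat_lit 104) (nat_lit 102)) (PT.lf (nat_lit 1064) (nat_lit 6) (nat_lit 14) (nat_lit 4) (nat_lit 95) (nat_lit 104) (nat_lit 101))))))))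
noncomputable def pc3 : PT := (PT.nd (nat_lit 31824) (PT.nd (nat_lit 702) (PT.nd (nat_lit 390) (PT.nd (nat_lit 234) (PT.nd (nat_lit 78) (PT.lf (nat_lit 1292) (nat_lit 6) (nat_lit 17) (nat_lit 4) (nat_lit 96) (nat_lit 104) (nat_lit 100)) (PT.lf (nat_lit 1216) (nat_lit 6) (nat_lit 16) (nat_lit 4) (nat_lit 97) (nat_lit 104) (nat_lit 99))) (PT.nd (nat_lit 78) (PT.lf (nat_lit 1216) (nat_lit 6) (nat_lit 16) (nat_lit 2) (nat_lit 99) (nat_lit 104) (nat_lit 97)) (PT.lf (nat_lit 1292) (nat_lit 6) (nat_lit 17) (nat_lit 2) (nat_lit 100) (nat_lit 104) (nat_lit 96)))) (PT.nd (nat_lit 156) (PT.nd (nat_lit 78) (PT.lf (nat_lit 1064) (nat_lit 6) (nat_lit 14) (nat_lit 2) (nat_lit 101) (nat_lit 104) (nat_lit 95)) (PT.lf (nat_lit 912) (nat_lit 6) (nat_lit 12) (nat_lit 2) (nat_lit 102) (nat_lit 104) (nat_lit 94))) (PT.nd (nat_lit 78) (PT.lf (nat_lit 836) (nat_lit 6) (nat_lit 11) (nat_lit 2) (nat_lit 103)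 (nat_lit 104) (nat_lit 93)) (PT.lf (nat_lit 684) (nat_lit 3) (nat_lit 9) (nat_lit 0) (nat_lit 104) (nat_lit 104) (nat_lit 92))))) (PT.nd (nat_lit 30108) (PT.nd (nat_lit 29952) (PT.nd (nat_lit 78) (PT.lf (nat_lit 532) (nat_lit 6) (nat_lit 7) (nat_lit 0) (nat_lit 105) (nat_lit 104) (nat_lit 91)) (PT.lf (nat_lit 380) (nat_lit 6) (nat_lit 5) (nat_lit 0) (nat_lit 106) (nat_lit 104) (nat_lit 90))) (PT.nd (nat_lit 78) (PT.lf (nat_lit 152) (nat_lit 6) (nat_lit 2) (nat_lit 5) (nat_lit 88) (nat_lit 105) (nat_lit 107)) (PT.lf (nat_lit 304) (nat_lit 6) (nat_lit 4) (nat_lit 5) (nat_lit 89) (nat_lit 105) (nat_lit 106)))) (PT.nd (nat_lit 156) (PT.nd (nat_lit 78) (PT.lf (nat_lit 456) (nat_lit 3) (nat_lit 6) (nat_lit 4) (nat_lit 90) (nat_lit 105) (nat_lit 105)) (PT.lf (nat_lit 532) (nat_lit 6) (nat_lit 7) (nat_lit 4) (nat_lit 91) (nat_lit 105) (nat_lit 104))) (PT.nd (nat_lit 78) (PT.lf (nat_lit 608)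 (nat_lit 6) (nat_lit 8) (nat_lit 4) (nat_lit 92) (nat_lit 105) (nat_lit 103)) (PT.nd (nat_lit 702) (PT.lf (nat_lit 760) (nat_lit 6) (nat_lit 10) (nat_lit 4) (nat_lit 93) (nat_lit 105) (nat_lit 102)) (PT.lf (nat_lit 760) (nat_lit 6) (nat_lit 10) (nat_lit 2) (nat_lit 102) (nat_lit 105) (nat_lit 93))))))) (PT.nd (nat_lit 30264) (PT.nd (nat_lit 312) (PT.nd (nat_lit 156) (PT.nd (nat_lit 78) (PT.lf (nat_lit 608) (nat_lit 6) (nat_lit 8) (nat_lit 2) (nat_lit 103) (nat_lit 105) (nat_lit 92)) (PT.lf (nat_lit 532) (nat_lit 6) (nat_lit 7) (nat_lit 2) (nat_lit 104) (nat_lit 105) (nat_lit 91))) (PT.nd (nat_lit 78) (PT.lf (nat_lit 456) (nat_lit 3) (nat_lit 6) (nat_lit 0) (nat_lit 105) (nat_lit 105) (nat_lit 90)) (PT.lf (nat_lit 304) (nat_lit 6) (nat_lit 4) (nat_lit 0) (nat_lit 106) (nat_lit 105) (nat_lit 89)))) (PT.nd (nat_lit 29796) (PT.nd (nat_lit 29718) (PT.lf (nat_lit 152) (nat_lit 6) (nat_lit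 2) (nat_lit 0) (nat_lit 107) (nat_lit 105) (nat_lit 88)) (PT.lf (nat_lit 76) (nat_lit 6) (nat_lit 1) (nat_lit 5) (nat_lit 87) (nat_lit 106) (nat_lit 107))) (PT.nd (nat_lit 78) (PT.lf (nat_lit 228) (nat_lit 3) (nat_lit 3) (nat_lit 4) (nat_lit 88) (nat_lit 106) (nat_lit 106)) (PT.lf (nat_lit 304) (nat_lit 6) (nat_lit 4) (nat_lit 4) (nat_lit 89) (nat_lit 106) (nat_lit 105))))) (PT.nd (nat_lit 1326) (PT.nd (nat_lit 1170) (PT.nd (nat_lit 1092) (PT.lf (nat_lit 380) (nat_lit 6) (nat_lit 5) (nat_lit 4) (nat_lit 90) (nat_lit 106) (nat_lit 104)) (PT.lf (nat_lit 380) (nat_lit 6) (nat_lit 5) (nat_lit 2) (nat_lit 104) (nat_lit 106) (nat_lit 90))) (PT.nd (nat_lit 78) (PT.lf (nat_lit 304) (nat_lit 6) (nat_lit 4) (nat_lit 2) (nat_lit 105) (nat_lit 106) (nat_lit 89)) (PT.lf (nat_lit 228) (nat_lit 3) (nat_lit 3) (nat_lit 0) (nat_lit 106) (nat_lit 106) (nat_lit 88)))) (PT.nd (nat_lit 29796) (PT.nd (nat_lit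 29718) (PT.lf (nat_lit 76) (nat_lit 6) (nat_lit 1) (nat_lit 0) (nat_lit 107) (nat_lit 106) (nat_lit 87)) (PT.lf (nat_lit 76) (nat_lit 6) (nat_lit 1) (nat_lit 4) (nat_lit 87) (nat_lit 107) (nat_lit 106))) (PT.nd (nat_lit 1326) (PT.lf (nat_lit 152) (nat_lit 6) (nat_lit 2) (nat_lit 4) (nat_lit 88) (nat_lit 107) (nat_lit 105)) (PT.nd (nat_lit 78) (PT.lf (nat_lit 152) (nat_lit 6) (nat_lit 2) (nat_lit 2) (nat_lit 105) (nat_lit 107) (nat_lit 88)) (PT.lf (nat_lit 76) (nat_lit 6) (nat_lit 1) (nat_lit 2) (nat_lit 106) (nat_lit 107) (nat_lit 87))))))))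
noncomputable def xc0 : XT := (XT.nd (nat_lit 311376) (nat_lit 0) (nat_lit 0) (XT.nd (nat_lit 217932) (nat_lit 0) (nat_lit 0) (XT.nd (nat_lit 93522) (nat_lit 0) (nat_lit 0) (XT.nd (nat_lit 62322) (nat_lit 0) (nat_lit 0) (XT.nd (nat_lit 31200) (nat_lit 0) (nat_lit 0) (XT.nd (nat_lit 31122) (nat_lit 0) (nat_lit 0) (XT.lf (nat_lit 0) (nat_lit 92145916112032) (nat_lit 152) (nat_lit 60280113494955) (nat_lit 0) (nat_lit 92145916112032) (nat_lit 1) (nat_lit 5) (nat_lit 3) (nat_lit 4) (nat_lit 1) (nat_lit 4) (nat_lit 292) (nat_lit 154) (nat_lit 154)) (XT.lf (nat_lit 0) (nat_lit 69675526273201) (nat_lit 152) (nat_lit 45580479564199) (nat_lit 0) (nat_lit 69675526273201) (nat_lit 1) (nat_lit 5) (nat_lit 3) (nat_lit 4) (nat_lit 1) (nat_lit 4) (nat_lit 290) (nat_lit 155) (nat_lit 155))) (XT.nd (nat_lit 31044) (nat_lit 0) (nat_lit 0) (XT.lf (nat_lit 0) (nat_lit 160253742435321) (nat_lit 152) (nat_lit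 104835035782481) (nat_lit 0) (nat_lit 160253740412413) (nat_lit 1) (nat_lit 5) (nat_lit 3) (nat_lit 4) (nat_lit 1) (nat_lit 4) (nat_lit 291) (nat_lit 155) (nat_lit 154)) (XT.lf (nat_lit 0) (nat_lit 52684679595553) (nat_lit 152) (nat_lit 34465452478035) (nat_lit 0) (nat_lit 52684679595553) (nat_lit 1) (nat_lit 5) (nat_lit 3) (nat_lit 4) (nat_lit 1) (nat_lit 4) (nat_lit 288) (nat_lit 156) (nat_lit 156)))) (XT.nd (nat_lit 156) (nat_lit 0) (nat_lit 0) (XT.nd (nat_lit 78) (nat_lit 0) (nat_lit 0) (XT.lf (nat_lit 0) (nat_lit 121174799877773) (nat_lit 152) (nat_lit 79270463402027) (nat_lit 0) (nat_lit 121174797551430) (nat_lit 1) (nat_lit 5) (nat_lit 3) (nat_lit 4) (nat_lit 1) (nat_lit 4) (nat_lit 289) (nat_lit 156) (nat_lit 155)) (XT.lf (nat_lit 0) (nat_lit 139351053312141) (nat_lit 152) (nat_lit 91160962183633) (nat_lit 0) (nat_lit 139351048962891) (nat_lit 1) (nat_lit 5) (nat_lit 3) (nat_lit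 4) (nat_lit 1) (nat_lit 4) (nat_lit 290) (nat_lit 156) (nat_lit 154))) (XT.nd (nat_lit 30966) (nat_lit 0) (nat_lit 0) (XT.lf (nat_lit 0) (nat_lit 160253741844012) (nat_lit 152) (nat_lit 104835041494443) (nat_lit 0) (nat_lit 160253735735712) (nat_lit 1) (nat_lit 5) (nat_lit 3) (nat_lit 4) (nat_lit 1) (nat_lit 4) (nat_lit 291) (nat_lit 156) (nat_lit 153)) (XT.lf (nat_lit 0) (nat_lit 91625497044433) (nat_lit 152) (nat_lit 59939991137038) (nat_lit 0) (nat_lit 91625494369138) (nat_lit 1) (nat_lit 5) (nat_lit 3) (nat_lit 4) (nat_lit 1) (nat_lit 4) (nat_lit 287) (nat_lit 157) (nat_lit 156))))) (XT.nd (nat_lit 93210) (nat_lit 0) (nat_lit 0) (XT.nd (nat_lit 156) (nat_lit 0) (nat_lit 0) (XT.nd (nat_lit 78) (nat_lit 0) (nat_lit 0) (XT.lf (nat_lit 0) (nat_lit 105369360071705) (nat_lit 152) (nat_lit 68930908469591) (nat_lit 0) (nat_lit 105369355070067) (nat_lit 1) (nat_lit 5) (nat_lit 3) (nat_lit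 4) (nat_lit 1) (nat_lit 4) (nat_lit 288) (nat_lit 157) (nat_lit 155)) (XT.lf (nat_lit 0) (nat_lit 121174799197768) (nat_lit 152) (nat_lit 79270469970783) (nat_lit 0) (nat_lit 121174792173223) (nat_lit 1) (nat_lit 5) (nat_lit 3) (nat_lit 4) (nat_lit 1) (nat_lit 4) (nat_lit 289) (nat_lit 157) (nat_lit 154))) (XT.nd (nat_lit 61932) (nat_lit 0) (nat_lit 0) (XT.lf (nat_lit 0) (nat_lit 139351051275088) (nat_lit 152) (nat_lit 91160971409116) (nat_lit 0) (nat_lit 139351042491494) (nat_lit 1) (nat_lit 5) (nat_lit 3) (nat_lit 4) (nat_lit 1) (nat_lit 4) (nat_lit 290) (nat_lit 157) (nat_lit 153)) (XT.lf (nat_lit 0) (nat_lit 22776950726976) (nat_lit 152) (nat_lit 14900561693113) (nat_lit 0) (nat_lit 22776950726976) (nat_lit 1) (nat_lit 5) (nat_lit 3) (nat_lit 4) (nat_lit 1) (nat_lit 4) (nat_lit 282) (nat_lit 159) (nat_lit 159)))) (XT.nd (nat_lit 156) (nat_lit 0) (nat_lit 0) (XT.nd (nat_lit 78)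 (nat_lit 0) (nat_lit 0) (XT.lf (nat_lit 0) (nat_lit 17222597448094) (nat_lit 152) (nat_lit 11267072932921) (nat_lit 0) (nat_lit 17222597448094) (nat_lit 1) (nat_lit 5) (nat_lit 3) (nat_lit 4) (nat_lit 1) (nat_lit 4) (nat_lit 280) (nat_lit 160) (nat_lit 160)) (XT.lf (nat_lit 0) (nat_lit 39612038508042) (nat_lit 152) (nat_lit 25914132551989) (nat_lit 0) (nat_lit 39612034439254) (nat_lit 1) (nat_lit 5) (nat_lit 3) (nat_lit 4) (nat_lit 1) (nat_lit 4) (nat_lit 281) (nat_lit 160) (nat_lit 159))) (XT.nd (nat_lit 30966) (nat_lit 0) (nat_lit 0) (XT.lf (nat_lit 0) (nat_lit 45553902793233) (nat_lit 152) (nat_lit 29801128729853) (nat_lit 0) (nat_lit 45553895186368) (nat_lit 1) (nat_lit 5) (nat_lit 3) (nat_lit 4) (nat_lit 1) (nat_lit 4) (nat_lit 282) (nat_lit 160) (nat_lit 158)) (XT.lf (nat_lit 0) (nat_lit 13022700949673) (nat_lit 152) (nat_lit 8519649552133) (nat_lit 0) (nat_lit 13022700949673)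 (nat_lit 1) (nat_lit 5) (nat_lit 3) (nat_lit 4) (nat_lit 1) (nat_lit 4) (nat_lit 278) (nat_lit 161) (nat_lit 161)))))) (XT.nd (nat_lit 62166) (nat_lit 0) (nat_lit 0) (XT.nd (nat_lit 31122) (nat_lit 0) (nat_lit 0) (XT.nd (nat_lit 156) (nat_lit 0) (nat_lit 0) (XT.nd (nat_lit 78) (nat_lit 0) (nat_lit 0) (XT.lf (nat_lit 0) (nat_lit 29952286218288) (nat_lit 152) (nat_lit 19595038497119) (nat_lit 0) (nat_lit 29952281539181) (nat_lit 1) (nat_lit 5) (nat_lit 3) (nat_lit 4) (nat_lit 1) (nat_lit 4) (nat_lit 279) (nat_lit 161) (nat_lit 160)) (XT.lf (nat_lit 0) (nat_lit 34445196436363) (nat_lit 152) (nat_lit 22534152011012) (nat_lit 0) (nat_lit 34445187688467) (nat_lit 1) (nat_lit 5) (nat_lit 3) (nat_lit 4) (nat_lit 1) (nat_lit 4) (nat_lit 280) (nat_lit 161) (nat_lit 159))) (XT.nd (nat_lit 30888) (nat_lit 0) (nat_lit 0) (XT.lf (nat_lit 0) (nat_lit 39612037318709) (nat_lit 152) (nat_lit 25914144040784)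 (nat_lit 0) (nat_lit 39612025032736) (nat_lit 1) (nat_lit 5) (nat_lit 3) (nat_lit 4) (nat_lit 1) (nat_lit 4) (nat_lit 281) (nat_lit 161) (nat_lit 158)) (XT.lf (nat_lit 0) (nat_lit 9846967252324) (nat_lit 152) (nat_lit 6442221317108) (nat_lit 0) (nat_lit 9846967252324) (nat_lit 1) (nat_lit 5) (nat_lit 3) (nat_lit 4) (nat_lit 1) (nat_lit 4) (nat_lit 276) (nat_lit 162) (nat_lit 162)))) (XT.nd (nat_lit 156) (nat_lit 0) (nat_lit 0) (XT.nd (nat_lit 78) (nat_lit 0) (nat_lit 0) (XT.lf (nat_lit 0) (nat_lit 22648109819491) (nat_lit 152) (nat_lit 14816930235642) (nat_lit 0) (nat_lit 22648104438518) (nat_lit 1) (nat_lit 5) (nat_lit 3) (nat_lit 4) (nat_lit 1) (nat_lit 4) (nat_lit 277) (nat_lit 162) (nat_lit 161)) (XT.lf (nat_lit 0) (nat_lit 26045403670547) (nat_lit 152) (nat_lit 17039306171212) (nat_lit 0) (nat_lit 26045393610467) (nat_lit 1) (nat_lit 5) (nat_lit 3) (nat_lit 4) (nat_lit 1) (nat_lit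 4) (nat_lit 278) (nat_lit 162) (nat_lit 160))) (XT.nd (nat_lit 78) (nat_lit 0) (nat_lit 0) (XT.lf (nat_lit 0) (nat_lit 29952284850554) (nat_lit 152) (nat_lit 19595051709233) (nat_lit 0) (nat_lit 29952270721685) (nat_lit 1) (nat_lit 5) (nat_lit 3) (nat_lit 4) (nat_lit 1) (nat_lit 4) (nat_lit 279) (nat_lit 162) (nat_lit 159)) (XT.lf (nat_lit 0) (nat_lit 34445192339122) (nat_lit 152) (nat_lit 22534170566752) (nat_lit 0) (nat_lit 34445174672176) (nat_lit 1) (nat_lit 5) (nat_lit 3) (nat_lit 4) (nat_lit 1) (nat_lit 4) (nat_lit 280) (nat_lit 162) (nat_lit 158))))) (XT.nd (nat_lit 312) (nat_lit 0) (nat_lit 0) (XT.nd (nat_lit 156) (nat_lit 0) (nat_lit 0) (XT.nd (nat_lit 78) (nat_lit 0) (nat_lit 0) (XT.lf (nat_lit 0) (nat_lit 7445646487772) (nat_lit 152) (nat_lit 4871408452031) (nat_lit 0) (nat_lit 7445646487772) (nat_lit 1) (nat_lit 5) (nat_lit 3) (nat_lit 4) (nat_lit 1) (nat_lit 4) (nat_lit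 274) (nat_lit 163) (nat_lit 163)) (XT.lf (nat_lit 0) (nat_lit 17125084831893) (nat_lit 152) (nat_lit 11204033826909) (nat_lit 0) (nat_lit 17125078643774) (nat_lit 1) (nat_lit 5) (nat_lit 3) (nat_lit 4) (nat_lit 1) (nat_lit 4) (nat_lit 275) (nat_lit 163) (nat_lit 162))) (XT.nd (nat_lit 78) (nat_lit 0) (nat_lit 0) (XT.lf (nat_lit 0) (nat_lit 19693936541529) (nat_lit 152) (nat_lit 12884450761204) (nat_lit 0) (nat_lit 19693924972437) (nat_lit 1) (nat_lit 5) (nat_lit 3) (nat_lit 4) (nat_lit 1) (nat_lit 4) (nat_lit 276) (nat_lit 163) (nat_lit 161)) (XT.lf (nat_lit 0) (nat_lit 22648108246598) (nat_lit 152) (nat_lit 14816945429574) (nat_lit 0) (nat_lit 22648091998399) (nat_lit 1) (nat_lit 5) (nat_lit 3) (nat_lit 4) (nat_lit 1) (nat_lit 4) (nat_lit 277) (nat_lit 163) (nat_lit 160)))) (XT.nd (nat_lit 30810) (nat_lit 0) (nat_lit 0) (XT.nd (nat_lit 78) (nat_lit 0) (nat_lit 0) (XT.lf (nat_lit 0)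 (nat_lit 26045398958720) (nat_lit 152) (nat_lit 17039327510314) (nat_lit 0) (nat_lit 26045378641732) (nat_lit 1) (nat_lit 5) (nat_lit 3) (nat_lit 4) (nat_lit 1) (nat_lit 4) (nat_lit 278) (nat_lit 163) (nat_lit 159)) (XT.lf (nat_lit 0) (nat_lit 29952277409220) (nat_lit 152) (nat_lit 19595078391960) (nat_lit 0) (nat_lit 29952253554155) (nat_lit 1) (nat_lit 5) (nat_lit 3) (nat_lit 4) (nat_lit 1) (nat_lit 4) (nat_lit 279) (nat_lit 163) (nat_lit 158))) (XT.nd (nat_lit 78) (nat_lit 0) (nat_lit 0) (XT.lf (nat_lit 0) (nat_lit 5629891682186) (nat_lit 152) (nat_lit 3683672791562) (nat_lit 0) (nat_lit 5629891682186) (nat_lit 1) (nat_lit 5) (nat_lit 3) (nat_lit 4) (nat_lit 1) (nat_lit 4) (nat_lit 272) (nat_lit 164) (nat_lit 164)) (XT.lf (nat_lit 0) (nat_lit 12948863465546) (nat_lit 152) (nat_lit 8472210965914) (nat_lit 0) (nat_lit 12948856349209) (nat_lit 1) (nat_lit 5) (nat_lit 3) (nat_lit 4)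 (nat_lit 1) (nat_lit 4) (nat_lit 273) (nat_lit 164) (nat_lit 163))))))) (XT.nd (nat_lit 32214) (nat_lit 0) (nat_lit 0) (XT.nd (nat_lit 31200) (nat_lit 0) (nat_lit 0) (XT.nd (nat_lit 312) (nat_lit 0) (nat_lit 0) (XT.nd (nat_lit 156) (nat_lit 0) (nat_lit 0) (XT.nd (nat_lit 78) (nat_lit 0) (nat_lit 0) (XT.lf (nat_lit 0) (nat_lit 14891295317957) (nat_lit 152) (nat_lit 9742826250098) (nat_lit 0) (nat_lit 14891282013501) (nat_lit 1) (nat_lit 5) (nat_lit 3) (nat_lit 4) (nat_lit 1) (nat_lit 4) (nat_lit 274) (nat_lit 164) (nat_lit 162)) (XT.lf (nat_lit 0) (nat_lit 17125083023066) (nat_lit 152) (nat_lit 11204051299931) (nat_lit 0) (nat_lit 17125064337637) (nat_lit 1) (nat_lit 5) (nat_lit 3) (nat_lit 4) (nat_lit 1) (nat_lit 4) (nat_lit 275) (nat_lit 164) (nat_lit 161))) (XT.nd (nat_lit 78) (nat_lit 0) (nat_lit 0) (XT.lf (nat_lit 0) (nat_lit 19693931122928) (nat_lit 152) (nat_lit 12884475301170)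 (nat_lit 0) (nat_lit 19693907758392) (nat_lit 1) (nat_lit 5) (nat_lit 3) (nat_lit 4) (nat_lit 1) (nat_lit 4) (nat_lit 276) (nat_lit 164) (nat_lit 160)) (XT.lf (nat_lit 0) (nat_lit 22648099689064) (nat_lit 152) (nat_lit 14816976114709) (nat_lit 0) (nat_lit 22648072255739) (nat_lit 1) (nat_lit 5) (nat_lit 3) (nat_lit 4) (nat_lit 1) (nat_lit 4) (nat_lit 277) (nat_lit 164) (nat_lit 159)))) (XT.nd (nat_lit 30732) (nat_lit 0) (nat_lit 0) (XT.nd (nat_lit 30654) (nat_lit 0) (nat_lit 0) (XT.lf (nat_lit 0) (nat_lit 26045387671679) (nat_lit 152) (nat_lit 17039363539075) (nat_lit 0) (nat_lit 26045356700277) (nat_lit 1) (nat_lit 5) (nat_lit 3) (nat_lit 4) (nat_lit 1) (nat_lit 4) (nat_lit 278) (nat_lit 164) (nat_lit 158)) (XT.lf (nat_lit 0) (nat_lit 4256907170806) (nat_lit 152) (nat_lit 2785602214436) (nat_lit 0) (nat_lit 4256907170806) (nat_lit 1) (nat_lit 5) (nat_lit 3) (nat_lit 4) (nat_lit 1)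 (nat_lit 4) (nat_lit 270) (nat_lit 165) (nat_lit 165))) (XT.nd (nat_lit 78) (nat_lit 0) (nat_lit 0) (XT.lf (nat_lit 0) (nat_lit 9791015978851) (nat_lit 152) (nat_lit 6406613170324) (nat_lit 0) (nat_lit 9791007795064) (nat_lit 1) (nat_lit 5) (nat_lit 3) (nat_lit 4) (nat_lit 1) (nat_lit 4) (nat_lit 271) (nat_lit 165) (nat_lit 164)) (XT.lf (nat_lit 0) (nat_lit 11259786058145) (nat_lit 152) (nat_lit 7367356331064) (nat_lit 0) (nat_lit 11259770758021) (nat_lit 1) (nat_lit 5) (nat_lit 3) (nat_lit 4) (nat_lit 1) (nat_lit 4) (nat_lit 272) (nat_lit 165) (nat_lit 163))))) (XT.nd (nat_lit 312) (nat_lit 0) (nat_lit 0) (XT.nd (nat_lit 156) (nat_lit 0) (nat_lit 0) (XT.nd (nat_lit 78) (nat_lit 0) (nat_lit 0) (XT.lf (nat_lit 0) (nat_lit 12948861385394) (nat_lit 152) (nat_lit 8472231059889) (nat_lit 0) (nat_lit 12948839897151) (nat_lit 1) (nat_lit 5) (nat_lit 3) (nat_lit 4) (nat_lit 1) (nat_lit 4)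 (nat_lit 273) (nat_lit 165) (nat_lit 162)) (XT.lf (nat_lit 0) (nat_lit 14891289086566) (nat_lit 152) (nat_lit 9742854471059) (nat_lit 0) (nat_lit 14891262217350) (nat_lit 1) (nat_lit 5) (nat_lit 3) (nat_lit 4) (nat_lit 1) (nat_lit 4) (nat_lit 274) (nat_lit 165) (nat_lit 161))) (XT.nd (nat_lit 78) (nat_lit 0) (nat_lit 0) (XT.lf (nat_lit 0) (nat_lit 17125073181902) (nat_lit 152) (nat_lit 11204086587837) (nat_lit 0) (nat_lit 17125041633578) (nat_lit 1) (nat_lit 5) (nat_lit 3) (nat_lit 4) (nat_lit 1) (nat_lit 4) (nat_lit 275) (nat_lit 165) (nat_lit 160)) (XT.lf (nat_lit 0) (nat_lit 19693918142831) (nat_lit 152) (nat_lit 12884516734246) (nat_lit 0) (nat_lit 19693882525719) (nat_lit 1) (nat_lit 5) (nat_lit 3) (nat_lit 4) (nat_lit 1) (nat_lit 4) (nat_lit 276) (nat_lit 165) (nat_lit 159)))) (XT.nd (nat_lit 546) (nat_lit 0) (nat_lit 0) (XT.nd (nat_lit 468) (nat_lit 0) (nat_lit 0) (XT.lf (nat_lit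 0) (nat_lit 22648083979459) (nat_lit 152) (nat_lit 14817022891411) (nat_lit 0) (nat_lit 22648044824270) (nat_lit 1) (nat_lit 5) (nat_lit 3) (nat_lit 4) (nat_lit 1) (nat_lit 4) (nat_lit 277) (nat_lit 165) (nat_lit 158)) (XT.lf (nat_lit 0) (nat_lit 52386963952006) (nat_lit 152) (nat_lit 34271398136715) (nat_lit 0) (nat_lit 52386911407025) (nat_lit 1) (nat_lit 5) (nat_lit 3) (nat_lit 4) (nat_lit 1) (nat_lit 4) (nat_lit 283) (nat_lit 165) (nat_lit 152))) (XT.nd (nat_lit 78) (nat_lit 0) (nat_lit 0) (XT.lf (nat_lit 0) (nat_lit 60245062244835) (nat_lit 152) (nat_lit 39411984302461) (nat_lit 0) (nat_lit 60245008369759) (nat_lit 1) (nat_lit 5) (nat_lit 3) (nat_lit 4) (nat_lit 1) (nat_lit 4) (nat_lit 284) (nat_lit 165) (nat_lit 151)) (XT.lf (nat_lit 0) (nat_lit 69281873363184) (nat_lit 152) (nat_lit 45323662148776) (nat_lit 0) (nat_lit 69281818331505) (nat_lit 1) (nat_lit 5) (nat_lit 3) (nat_lit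 4) (nat_lit 1) (nat_lit 4) (nat_lit 285) (nat_lit 165) (nat_lit 150)))))) (XT.nd (nat_lit 30342) (nat_lit 0) (nat_lit 0) (XT.nd (nat_lit 30030) (nat_lit 0) (nat_lit 0) (XT.nd (nat_lit 29874) (nat_lit 0) (nat_lit 0) (XT.nd (nat_lit 78) (nat_lit 0) (nat_lit 0) (XT.lf (nat_lit 0) (nat_lit 79674204481109) (nat_lit 152) (nat_lit 52122094937872) (nat_lit 0) (nat_lit 79674148443688) (nat_lit 1) (nat_lit 5) (nat_lit 3) (nat_lit 4) (nat_lit 1) (nat_lit 4) (nat_lit 286) (nat_lit 165) (nat_lit 149)) (XT.lf (nat_lit 0) (nat_lit 91625383816134) (nat_lit 152) (nat_lit 59940295485186) (nat_lit 0) (nat_lit 91625326904154) (nat_lit 1) (nat_lit 5) (nat_lit 3) (nat_lit 4) (nat_lit 1) (nat_lit 4) (nat_lit 287) (nat_lit 165) (nat_lit 148))) (XT.nd (nat_lit 78) (nat_lit 0) (nat_lit 0) (XT.lf (nat_lit 0) (nat_lit 3218718661393) (nat_lit 152) (nat_lit 2106564288863) (nat_lit 0) (nat_lit 3218718661393) (nat_lit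 1) (nat_lit 5) (nat_lit 3) (nat_lit 4) (nat_lit 1) (nat_lit 4) (nat_lit 268) (nat_lit 166) (nat_lit 166)) (XT.lf (nat_lit 0) (nat_lit 7403201830101) (nat_lit 152) (nat_lit 4844785153073) (nat_lit 0) (nat_lit 7403192418746) (nat_lit 1) (nat_lit 5) (nat_lit 3) (nat_lit 4) (nat_lit 1) (nat_lit 4) (nat_lit 269) (nat_lit 166) (nat_lit 165)))) (XT.nd (nat_lit 156) (nat_lit 0) (nat_lit 0) (XT.nd (nat_lit 78) (nat_lit 0) (nat_lit 0) (XT.lf (nat_lit 0) (nat_lit 8513817439452) (nat_lit 152) (nat_lit 5571216789004) (nat_lit 0) (nat_lit 8513799844310) (nat_lit 1) (nat_lit 5) (nat_lit 3) (nat_lit 4) (nat_lit 1) (nat_lit 4) (nat_lit 270) (nat_lit 166) (nat_lit 164)) (XT.lf (nat_lit 0) (nat_lit 9791013586677) (nat_lit 152) (nat_lit 6406636278395) (nat_lit 0) (nat_lit 9790988875197) (nat_lit 1) (nat_lit 5) (nat_lit 3) (nat_lit 4) (nat_lit 1) (nat_lit 4) (nat_lit 271) (nat_lit 166) (nat_lit 163)))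 (XT.nd (nat_lit 78) (nat_lit 0) (nat_lit 0) (XT.lf (nat_lit 0) (nat_lit 11259778892046) (nat_lit 152) (nat_lit 7367388785169) (nat_lit 0) (nat_lit 11259747992447) (nat_lit 1) (nat_lit 5) (nat_lit 3) (nat_lit 4) (nat_lit 1) (nat_lit 4) (nat_lit 272) (nat_lit 166) (nat_lit 162)) (XT.lf (nat_lit 0) (nat_lit 12948850068056) (nat_lit 152) (nat_lit 8472271640981) (nat_lit 0) (nat_lit 12948813787484) (nat_lit 1) (nat_lit 5) (nat_lit 3) (nat_lit 4) (nat_lit 1) (nat_lit 4) (nat_lit 273) (nat_lit 166) (nat_lit 161))))) (XT.nd (nat_lit 624) (nat_lit 0) (nat_lit 0) (XT.nd (nat_lit 156) (nat_lit 0) (nat_lit 0) (XT.nd (nat_lit 78) (nat_lit 0) (nat_lit 0) (XT.lf (nat_lit 0) (nat_lit 14891274159454) (nat_lit 152) (nat_lit 9742902119097) (nat_lit 0) (nat_lit 14891233199775) (nat_lit 1) (nat_lit 5) (nat_lit 3) (nat_lit 4) (nat_lit 1) (nat_lit 4) (nat_lit 274) (nat_lit 166) (nat_lit 160)) (XT.lf (nat_lit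 0) (nat_lit 17125055115857) (nat_lit 152) (nat_lit 11204140381044) (nat_lit 0) (nat_lit 17125010087389) (nat_lit 1) (nat_lit 5) (nat_lit 3) (nat_lit 4) (nat_lit 1) (nat_lit 4) (nat_lit 275) (nat_lit 166) (nat_lit 159))) (XT.nd (nat_lit 390) (nat_lit 0) (nat_lit 0) (XT.lf (nat_lit 0) (nat_lit 19693897347279) (nat_lit 152) (nat_lit 12884575871078) (nat_lit 0) (nat_lit 19693848780734) (nat_lit 1) (nat_lit 5) (nat_lit 3) (nat_lit 4) (nat_lit 1) (nat_lit 4) (nat_lit 276) (nat_lit 166) (nat_lit 158)) (XT.lf (nat_lit 0) (nat_lit 39611948002573) (nat_lit 152) (nat_lit 25914389924656) (nat_lit 0) (nat_lit 39611887575845) (nat_lit 1) (nat_lit 5) (nat_lit 3) (nat_lit 4) (nat_lit 1) (nat_lit 4) (nat_lit 281) (nat_lit 166) (nat_lit 153)))) (XT.nd (nat_lit 156) (nat_lit 0) (nat_lit 0) (XT.nd (nat_lit 78) (nat_lit 0) (nat_lit 0) (XT.lf (nat_lit 0) (nat_lit 45553801957991) (nat_lit 152) (nat_lit 29801406325378)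 (nat_lit 0) (nat_lit 45553740001655) (nat_lit 1) (nat_lit 5) (nat_lit 3) (nat_lit 4) (nat_lit 1) (nat_lit 4) (nat_lit 282) (nat_lit 166) (nat_lit 152)) (XT.lf (nat_lit 0) (nat_lit 52386931800558) (nat_lit 152) (nat_lit 34271479505273) (nat_lit 0) (nat_lit 52386868514127) (nat_lit 1) (nat_lit 5) (nat_lit 3) (nat_lit 4) (nat_lit 1) (nat_lit 4) (nat_lit 283) (nat_lit 166) (nat_lit 151))) (XT.nd (nat_lit 78) (nat_lit 0) (nat_lit 0) (XT.lf (nat_lit 0) (nat_lit 60245029201106) (nat_lit 152) (nat_lit 39412067417860) (nat_lit 0) (nat_lit 60244964758071) (nat_lit 1) (nat_lit 5) (nat_lit 3) (nat_lit 4) (nat_lit 1) (nat_lit 4) (nat_lit 284) (nat_lit 166) (nat_lit 150)) (XT.lf (nat_lit 0) (nat_lit 69281839543559) (nat_lit 152) (nat_lit 45323746783167) (nat_lit 0) (nat_lit 69281774094782) (nat_lit 1) (nat_lit 5) (nat_lit 3) (nat_lit 4) (nat_lit 1) (nat_lit 4) (nat_lit 285) (nat_lit 166) (nat_lit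 149))))))))
noncomputable def xc1 : XT := (XT.nd (nat_lit 31122) (nat_lit 0) (nat_lit 0) (XT.nd (nat_lit 30186) (nat_lit 0) (nat_lit 0) (XT.nd (nat_lit 29874) (nat_lit 0) (nat_lit 0) (XT.nd (nat_lit 29718) (nat_lit 0) (nat_lit 0) (XT.nd (nat_lit 78) (nat_lit 0) (nat_lit 0) (XT.lf (nat_lit 0) (nat_lit 79674169986792) (nat_lit 152) (nat_lit 52122180893125) (nat_lit 0) (nat_lit 79674103663456) (nat_lit 1) (nat_lit 5) (nat_lit 3) (nat_lit 4) (nat_lit 1) (nat_lit 4) (nat_lit 286) (nat_lit 166) (nat_lit 148)) (XT.lf (nat_lit 0) (nat_lit 91625348735128) (nat_lit 152) (nat_lit 59940382589016) (nat_lit 0) (nat_lit 91625281651307) (nat_lit 1) (nat_lit 5) (nat_lit 3) (nat_lit 4) (nat_lit 1) (nat_lit 4) (nat_lit 287) (nat_lit 166) (nat_lit 147))) (XT.nd (nat_lit 78) (nat_lit 0) (nat_lit 0) (XT.lf (nat_lit 0) (nat_lit 2433681783828) (nat_lit 152) (nat_lit 1593151383808) (nat_lit 0) (nat_lit 2433681783828)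 (nat_lit 1) (nat_lit 5) (nat_lit 3) (nat_lit 4) (nat_lit 1) (nat_lit 4) (nat_lit 266) (nat_lit 167) (nat_lit 167)) (XT.lf (nat_lit 0) (nat_lit 5597639348036) (nat_lit 152) (nat_lit 3663888564749) (nat_lit 0) (nat_lit 5597628524977) (nat_lit 1) (nat_lit 5) (nat_lit 3) (nat_lit 4) (nat_lit 1) (nat_lit 4) (nat_lit 267) (nat_lit 167) (nat_lit 166)))) (XT.nd (nat_lit 156) (nat_lit 0) (nat_lit 0) (XT.nd (nat_lit 78) (nat_lit 0) (nat_lit 0) (XT.lf (nat_lit 0) (nat_lit 6437440885303) (nat_lit 152) (nat_lit 4213142791877) (nat_lit 0) (nat_lit 6437420650888) (nat_lit 1) (nat_lit 5) (nat_lit 3) (nat_lit 4) (nat_lit 1) (nat_lit 4) (nat_lit 268) (nat_lit 167) (nat_lit 165)) (XT.lf (nat_lit 0) (nat_lit 7403199079100) (nat_lit 152) (nat_lit 4844811727355) (nat_lit 0) (nat_lit 7403170660899) (nat_lit 1) (nat_lit 5) (nat_lit 3) (nat_lit 4) (nat_lit 1) (nat_lit 4) (nat_lit 269) (nat_lit 167) (nat_lit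 164))) (XT.nd (nat_lit 78) (nat_lit 0) (nat_lit 0) (XT.lf (nat_lit 0) (nat_lit 8513809198438) (nat_lit 152) (nat_lit 5571254111225) (nat_lit 0) (nat_lit 8513773663899) (nat_lit 1) (nat_lit 5) (nat_lit 3) (nat_lit 4) (nat_lit 1) (nat_lit 4) (nat_lit 270) (nat_lit 167) (nat_lit 163)) (XT.lf (nat_lit 0) (nat_lit 9791000571737) (nat_lit 152) (nat_lit 6406682946651) (nat_lit 0) (nat_lit 9790958849080) (nat_lit 1) (nat_lit 5) (nat_lit 3) (nat_lit 4) (nat_lit 1) (nat_lit 4) (nat_lit 271) (nat_lit 167) (nat_lit 162))))) (XT.nd (nat_lit 624) (nat_lit 0) (nat_lit 0) (XT.nd (nat_lit 156) (nat_lit 0) (nat_lit 0) (XT.nd (nat_lit 78) (nat_lit 0) (nat_lit 0) (XT.lf (nat_lit 0) (nat_lit 11259761725867) (nat_lit 152) (nat_lit 7367443580412) (nat_lit 0) (nat_lit 11259714622236) (nat_lit 1) (nat_lit 5) (nat_lit 3) (nat_lit 4) (nat_lit 1) (nat_lit 4) (nat_lit 272) (nat_lit 167) (nat_lit 161)) (XT.lf (nat_lit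 0) (nat_lit 12948829292103) (nat_lit 152) (nat_lit 8472333503169) (nat_lit 0) (nat_lit 12948777509366) (nat_lit 1) (nat_lit 5) (nat_lit 3) (nat_lit 4) (nat_lit 1) (nat_lit 4) (nat_lit 273) (nat_lit 167) (nat_lit 160))) (XT.nd (nat_lit 78) (nat_lit 0) (nat_lit 0) (XT.lf (nat_lit 0) (nat_lit 14891250244569) (nat_lit 152) (nat_lit 9742970126454) (nat_lit 0) (nat_lit 14891194393043) (nat_lit 1) (nat_lit 5) (nat_lit 3) (nat_lit 4) (nat_lit 1) (nat_lit 4) (nat_lit 274) (nat_lit 167) (nat_lit 159)) (XT.lf (nat_lit 0) (nat_lit 17125028471464) (nat_lit 152) (nat_lit 11204213732027) (nat_lit 0) (nat_lit 17124969081860) (nat_lit 1) (nat_lit 5) (nat_lit 3) (nat_lit 4) (nat_lit 1) (nat_lit 4) (nat_lit 275) (nat_lit 167) (nat_lit 158)))) (XT.nd (nat_lit 156) (nat_lit 0) (nat_lit 0) (XT.nd (nat_lit 78) (nat_lit 0) (nat_lit 0) (XT.lf (nat_lit 0) (nat_lit 34445080475834) (nat_lit 152) (nat_lit 22534471245866)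 (nat_lit 0) (nat_lit 34445009226047) (nat_lit 1) (nat_lit 5) (nat_lit 3) (nat_lit 4) (nat_lit 1) (nat_lit 4) (nat_lit 280) (nat_lit 167) (nat_lit 153)) (XT.lf (nat_lit 0) (nat_lit 39611911028408) (nat_lit 152) (nat_lit 25914483498497) (nat_lit 0) (nat_lit 39611838249012) (nat_lit 1) (nat_lit 5) (nat_lit 3) (nat_lit 4) (nat_lit 1) (nat_lit 4) (nat_lit 281) (nat_lit 167) (nat_lit 152))) (XT.nd (nat_lit 78) (nat_lit 0) (nat_lit 0) (XT.lf (nat_lit 0) (nat_lit 45553763957703) (nat_lit 152) (nat_lit 29801501908087) (nat_lit 0) (nat_lit 45553689848213) (nat_lit 1) (nat_lit 5) (nat_lit 3) (nat_lit 4) (nat_lit 1) (nat_lit 4) (nat_lit 282) (nat_lit 167) (nat_lit 151)) (XT.lf (nat_lit 0) (nat_lit 52386892907989) (nat_lit 152) (nat_lit 34271576834823) (nat_lit 0) (nat_lit 52386817641896) (nat_lit 1) (nat_lit 5) (nat_lit 3) (nat_lit 4) (nat_lit 1) (nat_lit 4) (nat_lit 283) (nat_lit 167) (nat_lit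 150)))))) (XT.nd (nat_lit 30030) (nat_lit 0) (nat_lit 0) (XT.nd (nat_lit 29718) (nat_lit 0) (nat_lit 0) (XT.nd (nat_lit 156) (nat_lit 0) (nat_lit 0) (XT.nd (nat_lit 78) (nat_lit 0) (nat_lit 0) (XT.lf (nat_lit 0) (nat_lit 60244989532641) (nat_lit 152) (nat_lit 39412166266401) (nat_lit 0) (nat_lit 60244913260805) (nat_lit 1) (nat_lit 5) (nat_lit 3) (nat_lit 4) (nat_lit 1) (nat_lit 4) (nat_lit 284) (nat_lit 167) (nat_lit 149)) (XT.lf (nat_lit 0) (nat_lit 69281799200402) (nat_lit 152) (nat_lit 45323846952571) (nat_lit 0) (nat_lit 69281722054007) (nat_lit 1) (nat_lit 5) (nat_lit 3) (nat_lit 4) (nat_lit 1) (nat_lit 4) (nat_lit 285) (nat_lit 167) (nat_lit 148))) (XT.nd (nat_lit 78) (nat_lit 0) (nat_lit 0) (XT.lf (nat_lit 0) (nat_lit 79674129056945) (nat_lit 152) (nat_lit 52122282211105) (nat_lit 0) (nat_lit 79674051150065) (nat_lit 1) (nat_lit 5) (nat_lit 3) (nat_lit 4) (nat_lit 1) (nat_lit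 4) (nat_lit 286) (nat_lit 167) (nat_lit 147)) (XT.lf (nat_lit 0) (nat_lit 91625307295117) (nat_lit 152) (nat_lit 59940484905757) (nat_lit 0) (nat_lit 91625228726945) (nat_lit 1) (nat_lit 5) (nat_lit 3) (nat_lit 4) (nat_lit 1) (nat_lit 4) (nat_lit 287) (nat_lit 167) (nat_lit 146)))) (XT.nd (nat_lit 156) (nat_lit 0) (nat_lit 0) (XT.nd (nat_lit 78) (nat_lit 0) (nat_lit 0) (XT.lf (nat_lit 0) (nat_lit 1840061327944) (nat_lit 152) (nat_lit 1204980387496) (nat_lit 0) (nat_lit 1840061327944) (nat_lit 1) (nat_lit 5) (nat_lit 3) (nat_lit 4) (nat_lit 1) (nat_lit 4) (nat_lit 264) (nat_lit 168) (nat_lit 168)) (XT.lf (nat_lit 0) (nat_lit 4232337986286) (nat_lit 152) (nat_lit 2771041330532) (nat_lit 0) (nat_lit 4232325539768) (nat_lit 1) (nat_lit 5) (nat_lit 3) (nat_lit 4) (nat_lit 1) (nat_lit 4) (nat_lit 265) (nat_lit 168) (nat_lit 167))) (XT.nd (nat_lit 78) (nat_lit 0) (nat_lit 0) (XT.lf (nat_lit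 0) (nat_lit 4867367664550) (nat_lit 152) (nat_lit 3186319113889) (nat_lit 0) (nat_lit 4867344394973) (nat_lit 1) (nat_lit 5) (nat_lit 3) (nat_lit 4) (nat_lit 1) (nat_lit 4) (nat_lit 266) (nat_lit 168) (nat_lit 166)) (XT.lf (nat_lit 0) (nat_lit 5597636184385) (nat_lit 152) (nat_lit 3663919125173) (nat_lit 0) (nat_lit 5597603503453) (nat_lit 1) (nat_lit 5) (nat_lit 3) (nat_lit 4) (nat_lit 1) (nat_lit 4) (nat_lit 267) (nat_lit 168) (nat_lit 165))))) (XT.nd (nat_lit 312) (nat_lit 0) (nat_lit 0) (XT.nd (nat_lit 156) (nat_lit 0) (nat_lit 0) (XT.nd (nat_lit 78) (nat_lit 0) (nat_lit 0) (XT.lf (nat_lit 0) (nat_lit 6437431408136) (nat_lit 152) (nat_lit 4213185712431) (nat_lit 0) (nat_lit 6437390543417) (nat_lit 1) (nat_lit 5) (nat_lit 3) (nat_lit 4) (nat_lit 1) (nat_lit 4) (nat_lit 268) (nat_lit 168) (nat_lit 164)) (XT.lf (nat_lit 0) (nat_lit 7403184111920) (nat_lit 152) (nat_lit 4844865395849)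 (nat_lit 0) (nat_lit 7403136130864) (nat_lit 1) (nat_lit 5) (nat_lit 3) (nat_lit 4) (nat_lit 1) (nat_lit 4) (nat_lit 269) (nat_lit 168) (nat_lit 163))) (XT.nd (nat_lit 78) (nat_lit 0) (nat_lit 0) (XT.lf (nat_lit 0) (nat_lit 8513789457332) (nat_lit 152) (nat_lit 5571317125754) (nat_lit 0) (nat_lit 8513735288157) (nat_lit 1) (nat_lit 5) (nat_lit 3) (nat_lit 4) (nat_lit 1) (nat_lit 4) (nat_lit 270) (nat_lit 168) (nat_lit 162)) (XT.lf (nat_lit 0) (nat_lit 9790976679392) (nat_lit 152) (nat_lit 6406754088167) (nat_lit 0) (nat_lit 9790917129244) (nat_lit 1) (nat_lit 5) (nat_lit 3) (nat_lit 4) (nat_lit 1) (nat_lit 4) (nat_lit 271) (nat_lit 168) (nat_lit 161)))) (XT.nd (nat_lit 156) (nat_lit 0) (nat_lit 0) (XT.nd (nat_lit 78) (nat_lit 0) (nat_lit 0) (XT.lf (nat_lit 0) (nat_lit 11259734223749) (nat_lit 152) (nat_lit 7367521788873) (nat_lit 0) (nat_lit 11259669994493) (nat_lit 1) (nat_lit 5)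 (nat_lit 3) (nat_lit 4) (nat_lit 1) (nat_lit 4) (nat_lit 272) (nat_lit 168) (nat_lit 160)) (XT.lf (nat_lit 0) (nat_lit 12948798651052) (nat_lit 152) (nat_lit 8472417856799) (nat_lit 0) (nat_lit 12948730353008) (nat_lit 1) (nat_lit 5) (nat_lit 3) (nat_lit 4) (nat_lit 1) (nat_lit 4) (nat_lit 273) (nat_lit 168) (nat_lit 159))) (XT.nd (nat_lit 78) (nat_lit 0) (nat_lit 0) (XT.lf (nat_lit 0) (nat_lit 14891216874010) (nat_lit 152) (nat_lit 9743059823710) (nat_lit 0) (nat_lit 14891145037889) (nat_lit 1) (nat_lit 5) (nat_lit 3) (nat_lit 4) (nat_lit 1) (nat_lit 4) (nat_lit 274) (nat_lit 168) (nat_lit 158)) (XT.lf (nat_lit 0) (nat_lit 17124992727421) (nat_lit 152) (nat_lit 11204308075914) (nat_lit 0) (nat_lit 17124917814711) (nat_lit 1) (nat_lit 5) (nat_lit 3) (nat_lit 4) (nat_lit 1) (nat_lit 4) (nat_lit 275) (nat_lit 168) (nat_lit 157)))))))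
noncomputable def xc2 : XT := (XT.nd (nat_lit 30576) (nat_lit 0) (nat_lit 0) (XT.nd (nat_lit 29952) (nat_lit 0) (nat_lit 0) (XT.nd (nat_lit 312) (nat_lit 0) (nat_lit 0) (XT.nd (nat_lit 156) (nat_lit 0) (nat_lit 0) (XT.nd (nat_lit 78) (nat_lit 0) (nat_lit 0) (XT.lf (nat_lit 0) (nat_lit 34445036775503) (nat_lit 152) (nat_lit 22534581165981) (nat_lit 0) (nat_lit 34444951549590) (nat_lit 1) (nat_lit 5) (nat_lit 3) (nat_lit 4) (nat_lit 1) (nat_lit 4) (nat_lit 280) (nat_lit 168) (nat_lit 152)) (XT.lf (nat_lit 0) (nat_lit 39611866301953) (nat_lit 152) (nat_lit 25914595427479) (nat_lit 0) (nat_lit 39611779745946) (nat_lit 1) (nat_lit 5) (nat_lit 3) (nat_lit 4) (nat_lit 1) (nat_lit 4) (nat_lit 281) (nat_lit 168) (nat_lit 151))) (XT.nd (nat_lit 78) (nat_lit 0) (nat_lit 0) (XT.lf (nat_lit 0) (nat_lit 45553718338968) (nat_lit 152) (nat_lit 29801615583910) (nat_lit 0) (nat_lit 45553630626357) (nat_lit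 1) (nat_lit 5) (nat_lit 3) (nat_lit 4) (nat_lit 1) (nat_lit 4) (nat_lit 282) (nat_lit 168) (nat_lit 150)) (XT.lf (nat_lit 0) (nat_lit 52386846513358) (nat_lit 152) (nat_lit 34271692029637) (nat_lit 0) (nat_lit 52386757795004) (nat_lit 1) (nat_lit 5) (nat_lit 3) (nat_lit 4) (nat_lit 1) (nat_lit 4) (nat_lit 283) (nat_lit 168) (nat_lit 149)))) (XT.nd (nat_lit 156) (nat_lit 0) (nat_lit 0) (XT.nd (nat_lit 78) (nat_lit 0) (nat_lit 0) (XT.lf (nat_lit 0) (nat_lit 60244942463317) (nat_lit 152) (nat_lit 39412282782078) (nat_lit 0) (nat_lit 60244852870405) (nat_lit 1) (nat_lit 5) (nat_lit 3) (nat_lit 4) (nat_lit 1) (nat_lit 4) (nat_lit 284) (nat_lit 168) (nat_lit 148)) (XT.lf (nat_lit 0) (nat_lit 69281751544389) (nat_lit 152) (nat_lit 45323964616824) (nat_lit 0) (nat_lit 69281661190991) (nat_lit 1) (nat_lit 5) (nat_lit 3) (nat_lit 4) (nat_lit 1) (nat_lit 4) (nat_lit 285) (nat_lit 168) (nat_lit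 147))) (XT.nd (nat_lit 29406) (nat_lit 0) (nat_lit 0) (XT.lf (nat_lit 0) (nat_lit 79674080890768) (nat_lit 152) (nat_lit 52122400874120) (nat_lit 0) (nat_lit 79673989876079) (nat_lit 1) (nat_lit 5) (nat_lit 3) (nat_lit 4) (nat_lit 1) (nat_lit 4) (nat_lit 286) (nat_lit 168) (nat_lit 146)) (XT.lf (nat_lit 0) (nat_lit 1391176218282) (nat_lit 152) (nat_lit 911516705445) (nat_lit 0) (nat_lit 1391176218282) (nat_lit 1) (nat_lit 5) (nat_lit 3) (nat_lit 4) (nat_lit 1) (nat_lit 4) (nat_lit 262) (nat_lit 169) (nat_lit 169))))) (XT.nd (nat_lit 312) (nat_lit 0) (nat_lit 0) (XT.nd (nat_lit 156) (nat_lit 0) (nat_lit 0) (XT.nd (nat_lit 78) (nat_lit 0) (nat_lit 0) (XT.lf (nat_lit 0) (nat_lit 3199931773866) (nat_lit 152) (nat_lit 2096012827707) (nat_lit 0) (nat_lit 3199917460371) (nat_lit 1) (nat_lit 5) (nat_lit 3) (nat_lit 4) (nat_lit 1) (nat_lit 4) (nat_lit 263) (nat_lit 169) (nat_lit 168)) (XT.lf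 (nat_lit 0) (nat_lit 3680127367315) (nat_lit 152) (nat_lit 2409979573207) (nat_lit 0) (nat_lit 3680100607302) (nat_lit 1) (nat_lit 5) (nat_lit 3) (nat_lit 4) (nat_lit 1) (nat_lit 4) (nat_lit 264) (nat_lit 169) (nat_lit 167))) (XT.nd (nat_lit 78) (nat_lit 0) (nat_lit 0) (XT.lf (nat_lit 0) (nat_lit 4232334348088) (nat_lit 152) (nat_lit 2771076475019) (nat_lit 0) (nat_lit 4232296765016) (nat_lit 1) (nat_lit 5) (nat_lit 3) (nat_lit 4) (nat_lit 1) (nat_lit 4) (nat_lit 265) (nat_lit 169) (nat_lit 166)) (XT.lf (nat_lit 0) (nat_lit 4867356765808) (nat_lit 152) (nat_lit 3186368472526) (nat_lit 0) (nat_lit 4867309771381) (nat_lit 1) (nat_lit 5) (nat_lit 3) (nat_lit 4) (nat_lit 1) (nat_lit 4) (nat_lit 266) (nat_lit 169) (nat_lit 165)))) (XT.nd (nat_lit 156) (nat_lit 0) (nat_lit 0) (XT.nd (nat_lit 78) (nat_lit 0) (nat_lit 0) (XT.lf (nat_lit 0) (nat_lit 5597618972127) (nat_lit 152) (nat_lit 3663980843942)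 (nat_lit 0) (nat_lit 5597563793913) (nat_lit 1) (nat_lit 5) (nat_lit 3) (nat_lit 4) (nat_lit 1) (nat_lit 4) (nat_lit 267) (nat_lit 169) (nat_lit 164)) (XT.lf (nat_lit 0) (nat_lit 6437408705865) (nat_lit 152) (nat_lit 4213258179140) (nat_lit 0) (nat_lit 6437346411313) (nat_lit 1) (nat_lit 5) (nat_lit 3) (nat_lit 4) (nat_lit 1) (nat_lit 4) (nat_lit 268) (nat_lit 169) (nat_lit 163))) (XT.nd (nat_lit 78) (nat_lit 0) (nat_lit 0) (XT.lf (nat_lit 0) (nat_lit 7403156635723) (nat_lit 152) (nat_lit 4844947208593) (nat_lit 0) (nat_lit 7403088153053) (nat_lit 1) (nat_lit 5) (nat_lit 3) (nat_lit 4) (nat_lit 1) (nat_lit 4) (nat_lit 269) (nat_lit 169) (nat_lit 162)) (XT.lf (nat_lit 0) (nat_lit 8513757829897) (nat_lit 152) (nat_lit 5571407065484) (nat_lit 0) (nat_lit 8513683966253) (nat_lit 1) (nat_lit 5) (nat_lit 3) (nat_lit 4) (nat_lit 1) (nat_lit 4) (nat_lit 270) (nat_lit 169) (nat_lit 161))))))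 (XT.nd (nat_lit 858) (nat_lit 0) (nat_lit 0) (XT.nd (nat_lit 312) (nat_lit 0) (nat_lit 0) (XT.nd (nat_lit 156) (nat_lit 0) (nat_lit 0) (XT.nd (nat_lit 78) (nat_lit 0) (nat_lit 0) (XT.lf (nat_lit 0) (nat_lit 9790941442183) (nat_lit 152) (nat_lit 6406851094842) (nat_lit 0) (nat_lit 9790862899432) (nat_lit 1) (nat_lit 5) (nat_lit 3) (nat_lit 4) (nat_lit 1) (nat_lit 4) (nat_lit 271) (nat_lit 169) (nat_lit 160)) (XT.lf (nat_lit 0) (nat_lit 11259695847606) (nat_lit 152) (nat_lit 7367624940717) (nat_lit 0) (nat_lit 11259613236067) (nat_lit 1) (nat_lit 5) (nat_lit 3) (nat_lit 4) (nat_lit 1) (nat_lit 4) (nat_lit 272) (nat_lit 169) (nat_lit 159))) (XT.nd (nat_lit 78) (nat_lit 0) (nat_lit 0) (XT.lf (nat_lit 0) (nat_lit 12948757545403) (nat_lit 152) (nat_lit 8472526352269) (nat_lit 0) (nat_lit 12948671395786) (nat_lit 1) (nat_lit 5) (nat_lit 3) (nat_lit 4) (nat_lit 1) (nat_lit 4) (nat_lit 273)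 (nat_lit 169) (nat_lit 158)) (XT.lf (nat_lit 0) (nat_lit 14891173394876) (nat_lit 152) (nat_lit 9743172965811) (nat_lit 0) (nat_lit 14891084168671) (nat_lit 1) (nat_lit 5) (nat_lit 3) (nat_lit 4) (nat_lit 1) (nat_lit 4) (nat_lit 274) (nat_lit 169) (nat_lit 157)))) (XT.nd (nat_lit 390) (nat_lit 0) (nat_lit 0) (XT.nd (nat_lit 312) (nat_lit 0) (nat_lit 0) (XT.lf (nat_lit 0) (nat_lit 17124947184387) (nat_lit 152) (nat_lit 11204425258564) (nat_lit 0) (nat_lit 17124855282887) (nat_lit 1) (nat_lit 5) (nat_lit 3) (nat_lit 4) (nat_lit 1) (nat_lit 4) (nat_lit 275) (nat_lit 169) (nat_lit 156)) (XT.lf (nat_lit 0) (nat_lit 29952088181285) (nat_lit 152) (nat_lit 19595570803932) (nat_lit 0) (nat_lit 29951988641877) (nat_lit 1) (nat_lit 5) (nat_lit 3) (nat_lit 4) (nat_lit 1) (nat_lit 4) (nat_lit 279) (nat_lit 169) (nat_lit 152))) (XT.nd (nat_lit 78) (nat_lit 0) (nat_lit 0) (XT.lf (nat_lit 0) (nat_lit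 34444984313958) (nat_lit 152) (nat_lit 22534711893177) (nat_lit 0) (nat_lit 34444883444455) (nat_lit 1) (nat_lit 5) (nat_lit 3) (nat_lit 4) (nat_lit 1) (nat_lit 4) (nat_lit 280) (nat_lit 169) (nat_lit 151)) (XT.lf (nat_lit 0) (nat_lit 39611812948128) (nat_lit 152) (nat_lit 25914727901516) (nat_lit 0) (nat_lit 39611710922021) (nat_lit 1) (nat_lit 5) (nat_lit 3) (nat_lit 4) (nat_lit 1) (nat_lit 4) (nat_lit 281) (nat_lit 169) (nat_lit 150))))) (XT.nd (nat_lit 29562) (nat_lit 0) (nat_lit 0) (XT.nd (nat_lit 156) (nat_lit 0) (nat_lit 0) (XT.nd (nat_lit 78) (nat_lit 0) (nat_lit 0) (XT.lf (nat_lit 0) (nat_lit 45553664209246) (nat_lit 152) (nat_lit 29801749576938) (nat_lit 0) (nat_lit 45553561177397) (nat_lit 1) (nat_lit 5) (nat_lit 3) (nat_lit 4) (nat_lit 1) (nat_lit 4) (nat_lit 282) (nat_lit 169) (nat_lit 149)) (XT.lf (nat_lit 0) (nat_lit 52386791708943) (nat_lit 152) (nat_lit 34271827343528)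 (nat_lit 0) (nat_lit 52386687802536) (nat_lit 1) (nat_lit 5) (nat_lit 3) (nat_lit 4) (nat_lit 1) (nat_lit 4) (nat_lit 283) (nat_lit 169) (nat_lit 148))) (XT.nd (nat_lit 78) (nat_lit 0) (nat_lit 0) (XT.lf (nat_lit 0) (nat_lit 60244887072214) (nat_lit 152) (nat_lit 39412419244546) (nat_lit 0) (nat_lit 60244782405321) (nat_lit 1) (nat_lit 5) (nat_lit 3) (nat_lit 4) (nat_lit 1) (nat_lit 4) (nat_lit 284) (nat_lit 169) (nat_lit 147)) (XT.lf (nat_lit 0) (nat_lit 69281695643121) (nat_lit 152) (nat_lit 45324102078053) (nat_lit 0) (nat_lit 69281590314936) (nat_lit 1) (nat_lit 5) (nat_lit 3) (nat_lit 4) (nat_lit 1) (nat_lit 4) (nat_lit 285) (nat_lit 169) (nat_lit 146)))) (XT.nd (nat_lit 156) (nat_lit 0) (nat_lit 0) (XT.nd (nat_lit 78) (nat_lit 0) (nat_lit 0) (XT.lf (nat_lit 0) (nat_lit 1051728409925) (nat_lit 152) (nat_lit 689672763113) (nat_lit 0) (nat_lit 1051728409925) (nat_lit 1) (nat_lit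 5) (nat_lit 3) (nat_lit 4) (nat_lit 1) (nat_lit 4) (nat_lit 260) (nat_lit 170) (nat_lit 170)) (XT.lf (nat_lit 0) (nat_lit 2419235785418) (nat_lit 152) (nat_lit 1585700421122) (nat_lit 0) (nat_lit 2419219324898) (nat_lit 1) (nat_lit 5) (nat_lit 3) (nat_lit 4) (nat_lit 1) (nat_lit 4) (nat_lit 261) (nat_lit 170) (nat_lit 169))) (XT.nd (nat_lit 78) (nat_lit 0) (nat_lit 0) (XT.lf (nat_lit 0) (nat_lit 2782357854705) (nat_lit 152) (nat_lit 1823055028836) (nat_lit 0) (nat_lit 2782327080690) (nat_lit 1) (nat_lit 5) (nat_lit 3) (nat_lit 4) (nat_lit 1) (nat_lit 4) (nat_lit 262) (nat_lit 170) (nat_lit 168)) (XT.nd (nat_lit 78) (nat_lit 0) (nat_lit 0) (XT.lf (nat_lit 0) (nat_lit 3199927589938) (nat_lit 152) (nat_lit 2096053243867) (nat_lit 0) (nat_lit 3199884369405) (nat_lit 1) (nat_lit 5) (nat_lit 3) (nat_lit 4) (nat_lit 1) (nat_lit 4) (nat_lit 263) (nat_lit 170) (nat_lit 167)) (XT.lf (nat_lit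 0) (nat_lit 3680114833762) (nat_lit 152) (nat_lit 2410036335640) (nat_lit 0) (nat_lit 3680060790171) (nat_lit 1) (nat_lit 5) (nat_lit 3) (nat_lit 4) (nat_lit 1) (nat_lit 4) (nat_lit 264) (nat_lit 170) (nat_lit 166))))))))
noncomputable def xc3 : XT := (XT.nd (nat_lit 31902) (nat_lit 0) (nat_lit 0) (XT.nd (nat_lit 1482) (nat_lit 0) (nat_lit 0) (XT.nd (nat_lit 624) (nat_lit 0) (nat_lit 0) (XT.nd (nat_lit 312) (nat_lit 0) (nat_lit 0) (XT.nd (nat_lit 156) (nat_lit 0) (nat_lit 0) (XT.nd (nat_lit 78) (nat_lit 0) (nat_lit 0) (XT.lf (nat_lit 0) (nat_lit 4232314553992) (nat_lit 152) (nat_lit 2771147451603) (nat_lit 0) (nat_lit 4232251099045) (nat_lit 1) (nat_lit 5) (nat_lit 3) (nat_lit 4) (nat_lit 1) (nat_lit 4) (nat_lit 265) (nat_lit 170) (nat_lit 165)) (XT.lf (nat_lit 0) (nat_lit 4867330658196) (nat_lit 152) (nat_lit 3186451809241) (nat_lit 0) (nat_lit 4867259019462) (nat_lit 1) (nat_lit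 5) (nat_lit 3) (nat_lit 4) (nat_lit 1) (nat_lit 4) (nat_lit 266) (nat_lit 170) (nat_lit 164))) (XT.nd (nat_lit 78) (nat_lit 0) (nat_lit 0) (XT.lf (nat_lit 0) (nat_lit 5597587374501) (nat_lit 152) (nat_lit 3664074928596) (nat_lit 0) (nat_lit 5597508619430) (nat_lit 1) (nat_lit 5) (nat_lit 3) (nat_lit 4) (nat_lit 1) (nat_lit 4) (nat_lit 267) (nat_lit 170) (nat_lit 163)) (XT.lf (nat_lit 0) (nat_lit 6437372334313) (nat_lit 152) (nat_lit 4213361609829) (nat_lit 0) (nat_lit 6437287391123) (nat_lit 1) (nat_lit 5) (nat_lit 3) (nat_lit 4) (nat_lit 1) (nat_lit 4) (nat_lit 268) (nat_lit 170) (nat_lit 162)))) (XT.nd (nat_lit 156) (nat_lit 0) (nat_lit 0) (XT.nd (nat_lit 78) (nat_lit 0) (nat_lit 0) (XT.lf (nat_lit 0) (nat_lit 7403116112933) (nat_lit 152) (nat_lit 4845058766269) (nat_lit 0) (nat_lit 7403025788770) (nat_lit 1) (nat_lit 5) (nat_lit 3) (nat_lit 4) (nat_lit 1) (nat_lit 4) (nat_lit 269)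 (nat_lit 170) (nat_lit 161)) (XT.lf (nat_lit 0) (nat_lit 8513713697333) (nat_lit 152) (nat_lit 5571525690106) (nat_lit 0) (nat_lit 8513618694063) (nat_lit 1) (nat_lit 5) (nat_lit 3) (nat_lit 4) (nat_lit 1) (nat_lit 4) (nat_lit 270) (nat_lit 170) (nat_lit 160))) (XT.nd (nat_lit 78) (nat_lit 0) (nat_lit 0) (XT.lf (nat_lit 0) (nat_lit 9790894170686) (nat_lit 152) (nat_lit 6406975864633) (nat_lit 0) (nat_lit 9790795098627) (nat_lit 1) (nat_lit 5) (nat_lit 3) (nat_lit 4) (nat_lit 1) (nat_lit 4) (nat_lit 271) (nat_lit 170) (nat_lit 159)) (XT.lf (nat_lit 0) (nat_lit 11259645846602) (nat_lit 152) (nat_lit 7367755054134) (nat_lit 0) (nat_lit 11259543236466) (nat_lit 1) (nat_lit 5) (nat_lit 3) (nat_lit 4) (nat_lit 1) (nat_lit 4) (nat_lit 272) (nat_lit 170) (nat_lit 158))))) (XT.nd (nat_lit 546) (nat_lit 0) (nat_lit 0) (XT.nd (nat_lit 156) (nat_lit 0) (nat_lit 0) (XT.nd (nat_lit 78) (nat_lit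 0) (nat_lit 0) (XT.lf (nat_lit 0) (nat_lit 12948705170914) (nat_lit 152) (nat_lit 8472661112317) (nat_lit 0) (nat_lit 12948599484189) (nat_lit 1) (nat_lit 5) (nat_lit 3) (nat_lit 4) (nat_lit 1) (nat_lit 4) (nat_lit 273) (nat_lit 170) (nat_lit 157)) (XT.lf (nat_lit 0) (nat_lit 14891118956488) (nat_lit 152) (nat_lit 9743311766407) (nat_lit 0) (nat_lit 14891010594468) (nat_lit 1) (nat_lit 5) (nat_lit 3) (nat_lit 4) (nat_lit 1) (nat_lit 4) (nat_lit 274) (nat_lit 170) (nat_lit 156))) (XT.nd (nat_lit 312) (nat_lit 0) (nat_lit 0) (XT.lf (nat_lit 0) (nat_lit 17124890951304) (nat_lit 152) (nat_lit 11204567572680) (nat_lit 0) (nat_lit 17124780262941) (nat_lit 1) (nat_lit 5) (nat_lit 3) (nat_lit 4) (nat_lit 1) (nat_lit 4) (nat_lit 275) (nat_lit 170) (nat_lit 155)) (XT.lf (nat_lit 0) (nat_lit 29952026824386) (nat_lit 152) (nat_lit 19595723149074) (nat_lit 0) (nat_lit 29951909494363) (nat_lit 1)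 (nat_lit 5) (nat_lit 3) (nat_lit 4) (nat_lit 1) (nat_lit 4) (nat_lit 279) (nat_lit 170) (nat_lit 151)))) (XT.nd (nat_lit 156) (nat_lit 0) (nat_lit 0) (XT.nd (nat_lit 78) (nat_lit 0) (nat_lit 0) (XT.lf (nat_lit 0) (nat_lit 34444922064777) (nat_lit 152) (nat_lit 22534865985160) (nat_lit 0) (nat_lit 34444803578151) (nat_lit 1) (nat_lit 5) (nat_lit 3) (nat_lit 4) (nat_lit 1) (nat_lit 4) (nat_lit 280) (nat_lit 170) (nat_lit 150)) (XT.lf (nat_lit 0) (nat_lit 39611749923051) (nat_lit 152) (nat_lit 25914883512491) (nat_lit 0) (nat_lit 39611630430683) (nat_lit 1) (nat_lit 5) (nat_lit 3) (nat_lit 4) (nat_lit 1) (nat_lit 4) (nat_lit 281) (nat_lit 170) (nat_lit 149))) (XT.nd (nat_lit 78) (nat_lit 0) (nat_lit 0) (XT.lf (nat_lit 0) (nat_lit 45553600509477) (nat_lit 152) (nat_lit 29801906508775) (nat_lit 0) (nat_lit 45553480142550) (nat_lit 1) (nat_lit 5) (nat_lit 3) (nat_lit 4) (nat_lit 1) (nat_lit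 4) (nat_lit 282) (nat_lit 170) (nat_lit 148)) (XT.lf (nat_lit 0) (nat_lit 52386727422485) (nat_lit 152) (nat_lit 34271985423942) (nat_lit 0) (nat_lit 52386606295072) (nat_lit 1) (nat_lit 5) (nat_lit 3) (nat_lit 4) (nat_lit 1) (nat_lit 4) (nat_lit 283) (nat_lit 170) (nat_lit 147)))))) (XT.nd (nat_lit 29796) (nat_lit 0) (nat_lit 0) (XT.nd (nat_lit 29484) (nat_lit 0) (nat_lit 0) (XT.nd (nat_lit 29328) (nat_lit 0) (nat_lit 0) (XT.nd (nat_lit 29250) (nat_lit 0) (nat_lit 0) (XT.lf (nat_lit 0) (nat_lit 60244822275591) (nat_lit 152) (nat_lit 39412578323721) (nat_lit 0) (nat_lit 60244700486886) (nat_lit 1) (nat_lit 5) (nat_lit 3) (nat_lit 4) (nat_lit 1) (nat_lit 4) (nat_lit 284) (nat_lit 170) (nat_lit 146)) (XT.lf (nat_lit 0) (nat_lit 795026997615) (nat_lit 152) (nat_lit 521992147790) (nat_lit 0) (nat_lit 795026997615) (nat_lit 1) (nat_lit 5) (nat_lit 3) (nat_lit 4) (nat_lit 1) (nat_lit 4)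 (nat_lit 258) (nat_lit 171) (nat_lit 171))) (XT.nd (nat_lit 78) (nat_lit 0) (nat_lit 0) (XT.lf (nat_lit 0) (nat_lit 1828861603493) (nat_lit 152) (nat_lit 1199952965772) (nat_lit 0) (nat_lit 1828842673896) (nat_lit 1) (nat_lit 5) (nat_lit 3) (nat_lit 4) (nat_lit 1) (nat_lit 4) (nat_lit 259) (nat_lit 171) (nat_lit 170)) (XT.lf (nat_lit 0) (nat_lit 2103463050713) (nat_lit 152) (nat_lit 1379370386865) (nat_lit 0) (nat_lit 2103427660596) (nat_lit 1) (nat_lit 5) (nat_lit 3) (nat_lit 4) (nat_lit 1) (nat_lit 4) (nat_lit 260) (nat_lit 171) (nat_lit 169)))) (XT.nd (nat_lit 156) (nat_lit 0) (nat_lit 0) (XT.nd (nat_lit 78) (nat_lit 0) (nat_lit 0) (XT.lf (nat_lit 0) (nat_lit 2419230973901) (nat_lit 152) (nat_lit 1585746899706) (nat_lit 0) (nat_lit 2419181270288) (nat_lit 1) (nat_lit 5) (nat_lit 3) (nat_lit 4) (nat_lit 1) (nat_lit 4) (nat_lit 261) (nat_lit 171) (nat_lit 168)) (XT.lf (nat_lit 0)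 (nat_lit 2782343441120) (nat_lit 152) (nat_lit 1823120305634) (nat_lit 0) (nat_lit 2782281290989) (nat_lit 1) (nat_lit 5) (nat_lit 3) (nat_lit 4) (nat_lit 1) (nat_lit 4) (nat_lit 262) (nat_lit 171) (nat_lit 167))) (XT.nd (nat_lit 78) (nat_lit 0) (nat_lit 0) (XT.lf (nat_lit 0) (nat_lit 3199904826727) (nat_lit 152) (nat_lit 2096134866939) (nat_lit 0) (nat_lit 3199831853538) (nat_lit 1) (nat_lit 5) (nat_lit 3) (nat_lit 4) (nat_lit 1) (nat_lit 4) (nat_lit 263) (nat_lit 171) (nat_lit 166)) (XT.lf (nat_lit 0) (nat_lit 3680084810008) (nat_lit 152) (nat_lit 2410132172862) (nat_lit 0) (nat_lit 3680002425464) (nat_lit 1) (nat_lit 5) (nat_lit 3) (nat_lit 4) (nat_lit 1) (nat_lit 4) (nat_lit 264) (nat_lit 171) (nat_lit 165))))) (XT.nd (nat_lit 312) (nat_lit 0) (nat_lit 0) (XT.nd (nat_lit 156) (nat_lit 0) (nat_lit 0) (XT.nd (nat_lit 78) (nat_lit 0) (nat_lit 0) (XT.lf (nat_lit 0) (nat_lit 4232278216722)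 (nat_lit 152) (nat_lit 2771255648956) (nat_lit 0) (nat_lit 4232187648390) (nat_lit 1) (nat_lit 5) (nat_lit 3) (nat_lit 4) (nat_lit 1) (nat_lit 4) (nat_lit 265) (nat_lit 171) (nat_lit 164)) (XT.lf (nat_lit 0) (nat_lit 4867288830912) (nat_lit 152) (nat_lit 3186570754534) (nat_lit 0) (nat_lit 4867191146243) (nat_lit 1) (nat_lit 5) (nat_lit 3) (nat_lit 4) (nat_lit 1) (nat_lit 4) (nat_lit 266) (nat_lit 171) (nat_lit 163))) (XT.nd (nat_lit 78) (nat_lit 0) (nat_lit 0) (XT.lf (nat_lit 0) (nat_lit 5597540773292) (nat_lit 152) (nat_lit 3664203219924) (nat_lit 0) (nat_lit 5597436900504) (nat_lit 1) (nat_lit 5) (nat_lit 3) (nat_lit 4) (nat_lit 1) (nat_lit 4) (nat_lit 267) (nat_lit 171) (nat_lit 162)) (XT.lf (nat_lit 0) (nat_lit 6437321581865) (nat_lit 152) (nat_lit 4213498028144) (nat_lit 0) (nat_lit 6437212328104) (nat_lit 1) (nat_lit 5) (nat_lit 3) (nat_lit 4) (nat_lit 1) (nat_lit 4) (nat_lit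 268) (nat_lit 171) (nat_lit 161)))) (XT.nd (nat_lit 156) (nat_lit 0) (nat_lit 0) (XT.nd (nat_lit 78) (nat_lit 0) (nat_lit 0) (XT.lf (nat_lit 0) (nat_lit 7403061750711) (nat_lit 152) (nat_lit 4845202251528) (nat_lit 0) (nat_lit 7402947817843) (nat_lit 1) (nat_lit 5) (nat_lit 3) (nat_lit 4) (nat_lit 1) (nat_lit 4) (nat_lit 269) (nat_lit 171) (nat_lit 160)) (XT.lf (nat_lit 0) (nat_lit 8513656196178) (nat_lit 152) (nat_lit 5571675320534) (nat_lit 0) (nat_lit 8513538194521) (nat_lit 1) (nat_lit 5) (nat_lit 3) (nat_lit 4) (nat_lit 1) (nat_lit 4) (nat_lit 270) (nat_lit 171) (nat_lit 159))) (XT.nd (nat_lit 78) (nat_lit 0) (nat_lit 0) (XT.lf (nat_lit 0) (nat_lit 9790833940024) (nat_lit 152) (nat_lit 6407130838687) (nat_lit 0) (nat_lit 9790712400290) (nat_lit 1) (nat_lit 5) (nat_lit 3) (nat_lit 4) (nat_lit 1) (nat_lit 4) (nat_lit 271) (nat_lit 171) (nat_lit 158)) (XT.lf (nat_lit 0) (nat_lit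 11259583242456) (nat_lit 152) (nat_lit 7367914674819) (nat_lit 0) (nat_lit 11259458626133) (nat_lit 1) (nat_lit 5) (nat_lit 3) (nat_lit 4) (nat_lit 1) (nat_lit 4) (nat_lit 272) (nat_lit 171) (nat_lit 157))))))) (XT.nd (nat_lit 30498) (nat_lit 0) (nat_lit 0) (XT.nd (nat_lit 780) (nat_lit 0) (nat_lit 0) (XT.nd (nat_lit 468) (nat_lit 0) (nat_lit 0) (XT.nd (nat_lit 156) (nat_lit 0) (nat_lit 0) (XT.nd (nat_lit 78) (nat_lit 0) (nat_lit 0) (XT.lf (nat_lit 0) (nat_lit 12948640502868) (nat_lit 152) (nat_lit 8472824773551) (nat_lit 0) (nat_lit 12948513211251) (nat_lit 1) (nat_lit 5) (nat_lit 3) (nat_lit 4) (nat_lit 1) (nat_lit 4) (nat_lit 273) (nat_lit 171) (nat_lit 156)) (XT.lf (nat_lit 0) (nat_lit 14891052493747) (nat_lit 152) (nat_lit 9743478941162) (nat_lit 0) (nat_lit 14890922875786) (nat_lit 1) (nat_lit 5) (nat_lit 3) (nat_lit 4) (nat_lit 1) (nat_lit 4) (nat_lit 274) (nat_lit 171) (nat_lit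 155))) (XT.nd (nat_lit 78) (nat_lit 0) (nat_lit 0) (XT.lf (nat_lit 0) (nat_lit 17124822927958) (nat_lit 152) (nat_lit 11204737802671) (nat_lit 0) (nat_lit 17124691287090) (nat_lit 1) (nat_lit 5) (nat_lit 3) (nat_lit 4) (nat_lit 1) (nat_lit 4) (nat_lit 275) (nat_lit 171) (nat_lit 154)) (XT.lf (nat_lit 0) (nat_lit 19693656009648) (nat_lit 152) (nat_lit 12885191205367) (nat_lit 0) (nat_lit 19693522609731) (nat_lit 1) (nat_lit 5) (nat_lit 3) (nat_lit 4) (nat_lit 1) (nat_lit 4) (nat_lit 276) (nat_lit 171) (nat_lit 153)))) (XT.nd (nat_lit 156) (nat_lit 0) (nat_lit 0) (XT.nd (nat_lit 78) (nat_lit 0) (nat_lit 0) (XT.lf (nat_lit 0) (nat_lit 29951954345547) (nat_lit 152) (nat_lit 19595902101695) (nat_lit 0) (nat_lit 29951816929324) (nat_lit 1) (nat_lit 5) (nat_lit 3) (nat_lit 4) (nat_lit 1) (nat_lit 4) (nat_lit 279) (nat_lit 171) (nat_lit 150)) (XT.lf (nat_lit 0) (nat_lit 34444848810043) (nat_lit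 152) (nat_lit 22535046456773) (nat_lit 0) (nat_lit 34444710388077) (nat_lit 1) (nat_lit 5) (nat_lit 3) (nat_lit 4) (nat_lit 1) (nat_lit 4) (nat_lit 280) (nat_lit 171) (nat_lit 149))) (XT.nd (nat_lit 78) (nat_lit 0) (nat_lit 0) (XT.lf (nat_lit 0) (nat_lit 39611675993624) (nat_lit 152) (nat_lit 25915065304966) (nat_lit 0) (nat_lit 39611536697100) (nat_lit 1) (nat_lit 5) (nat_lit 3) (nat_lit 4) (nat_lit 1) (nat_lit 4) (nat_lit 281) (nat_lit 171) (nat_lit 148)) (XT.lf (nat_lit 0) (nat_lit 45553525993361) (nat_lit 152) (nat_lit 29802089449827) (nat_lit 0) (nat_lit 45553385936351) (nat_lit 1) (nat_lit 5) (nat_lit 3) (nat_lit 4) (nat_lit 1) (nat_lit 4) (nat_lit 282) (nat_lit 171) (nat_lit 147))))) (XT.nd (nat_lit 29406) (nat_lit 0) (nat_lit 0) (XT.nd (nat_lit 29250) (nat_lit 0) (nat_lit 0) (XT.nd (nat_lit 29172) (nat_lit 0) (nat_lit 0) (XT.lf (nat_lit 0) (nat_lit 52386652396204) (nat_lit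 152) (nat_lit 34272169363755) (nat_lit 0) (nat_lit 52386511677902) (nat_lit 1) (nat_lit 5) (nat_lit 3) (nat_lit 4) (nat_lit 1) (nat_lit 4) (nat_lit 283) (nat_lit 171) (nat_lit 146)) (XT.lf (nat_lit 0) (nat_lit 600889233421) (nat_lit 152) (nat_lit 395276580702) (nat_lit 0) (nat_lit 600889233421) (nat_lit 1) (nat_lit 5) (nat_lit 3) (nat_lit 4) (nat_lit 1) (nat_lit 4) (nat_lit 256) (nat_lit 172) (nat_lit 172))) (XT.nd (nat_lit 78) (nat_lit 0) (nat_lit 0) (XT.lf (nat_lit 0) (nat_lit 1382389672193) (nat_lit 152) (nat_lit 908412815350) (nat_lit 0) (nat_lit 1382367903156) (nat_lit 1) (nat_lit 5) (nat_lit 3) (nat_lit 4) (nat_lit 1) (nat_lit 4) (nat_lit 257) (nat_lit 172) (nat_lit 171)) (XT.lf (nat_lit 0) (nat_lit 1590061160722) (nat_lit 152) (nat_lit 1044012885314) (nat_lit 0) (nat_lit 1590020462087) (nat_lit 1) (nat_lit 5) (nat_lit 3) (nat_lit 4) (nat_lit 1) (nat_lit 4) (nat_lit 258) (nat_lit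 172) (nat_lit 170)))) (XT.nd (nat_lit 156) (nat_lit 0) (nat_lit 0) (XT.nd (nat_lit 78) (nat_lit 0) (nat_lit 0) (XT.lf (nat_lit 0) (nat_lit 1828856070249) (nat_lit 152) (nat_lit 1200006416144) (nat_lit 0) (nat_lit 1828798911094) (nat_lit 1) (nat_lit 5) (nat_lit 3) (nat_lit 4) (nat_lit 1) (nat_lit 4) (nat_lit 259) (nat_lit 172) (nat_lit 169)) (XT.lf (nat_lit 0) (nat_lit 2103446475089) (nat_lit 152) (nat_lit 1379445455183) (nat_lit 0) (nat_lit 2103375002440) (nat_lit 1) (nat_lit 5) (nat_lit 3) (nat_lit 4) (nat_lit 1) (nat_lit 4) (nat_lit 260) (nat_lit 172) (nat_lit 168))) (XT.nd (nat_lit 78) (nat_lit 0) (nat_lit 0) (XT.lf (nat_lit 0) (nat_lit 2419204796209) (nat_lit 152) (nat_lit 1585840766239) (nat_lit 0) (nat_lit 2419120877041) (nat_lit 1) (nat_lit 5) (nat_lit 3) (nat_lit 4) (nat_lit 1) (nat_lit 4) (nat_lit 261) (nat_lit 172) (nat_lit 167)) (XT.lf (nat_lit 0) (nat_lit 2782308913802)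 (nat_lit 152) (nat_lit 1823230518440) (nat_lit 0) (nat_lit 2782214171576) (nat_lit 1) (nat_lit 5) (nat_lit 3) (nat_lit 4) (nat_lit 1) (nat_lit 4) (nat_lit 262) (nat_lit 172) (nat_lit 166)))))) (XT.nd (nat_lit 624) (nat_lit 0) (nat_lit 0) (XT.nd (nat_lit 312) (nat_lit 0) (nat_lit 0) (XT.nd (nat_lit 156) (nat_lit 0) (nat_lit 0) (XT.nd (nat_lit 78) (nat_lit 0) (nat_lit 0) (XT.lf (nat_lit 0) (nat_lit 3199863038867) (nat_lit 152) (nat_lit 2096259293895) (nat_lit 0) (nat_lit 3199758885285) (nat_lit 1) (nat_lit 5) (nat_lit 3) (nat_lit 4) (nat_lit 1) (nat_lit 4) (nat_lit 263) (nat_lit 172) (nat_lit 165)) (XT.lf (nat_lit 0) (nat_lit 3680036708632) (nat_lit 152) (nat_lit 2410268959949) (nat_lit 0) (nat_lit 3679924371262) (nat_lit 1) (nat_lit 5) (nat_lit 3) (nat_lit 4) (nat_lit 1) (nat_lit 4) (nat_lit 264) (nat_lit 172) (nat_lit 164))) (XT.nd (nat_lit 78) (nat_lit 0) (nat_lit 0) (XT.lf (nat_lit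 0) (nat_lit 4232224625331) (nat_lit 152) (nat_lit 2771403183983) (nat_lit 0) (nat_lit 4232105171625) (nat_lit 1) (nat_lit 5) (nat_lit 3) (nat_lit 4) (nat_lit 1) (nat_lit 4) (nat_lit 265) (nat_lit 172) (nat_lit 163)) (XT.lf (nat_lit 0) (nat_lit 4867230465597) (nat_lit 152) (nat_lit 3186727635596) (nat_lit 0) (nat_lit 4867104823772) (nat_lit 1) (nat_lit 5) (nat_lit 3) (nat_lit 4) (nat_lit 1) (nat_lit 4) (nat_lit 266) (nat_lit 172) (nat_lit 162)))) (XT.nd (nat_lit 156) (nat_lit 0) (nat_lit 0) (XT.nd (nat_lit 78) (nat_lit 0) (nat_lit 0) (XT.lf (nat_lit 0) (nat_lit 5597478256738) (nat_lit 152) (nat_lit 3664368227972) (nat_lit 0) (nat_lit 5597347233939) (nat_lit 1) (nat_lit 5) (nat_lit 3) (nat_lit 4) (nat_lit 1) (nat_lit 4) (nat_lit 267) (nat_lit 172) (nat_lit 161)) (XT.lf (nat_lit 0) (nat_lit 6437255455537) (nat_lit 152) (nat_lit 4213670103137) (nat_lit 0) (nat_lit 6437119753632) (nat_lit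 1) (nat_lit 5) (nat_lit 3) (nat_lit 4) (nat_lit 1) (nat_lit 4) (nat_lit 268) (nat_lit 172) (nat_lit 160))) (XT.nd (nat_lit 78) (nat_lit 0) (nat_lit 0) (XT.lf (nat_lit 0) (nat_lit 7402992485450) (nat_lit 152) (nat_lit 4845380471691) (nat_lit 0) (nat_lit 7402852714756) (nat_lit 1) (nat_lit 5) (nat_lit 3) (nat_lit 4) (nat_lit 1) (nat_lit 4) (nat_lit 269) (nat_lit 172) (nat_lit 159)) (XT.lf (nat_lit 0) (nat_lit 8513584201410) (nat_lit 152) (nat_lit 5571858884323) (nat_lit 0) (nat_lit 8513440892639) (nat_lit 1) (nat_lit 5) (nat_lit 3) (nat_lit 4) (nat_lit 1) (nat_lit 4) (nat_lit 270) (nat_lit 172) (nat_lit 158))))) (XT.nd (nat_lit 312) (nat_lit 0) (nat_lit 0) (XT.nd (nat_lit 156) (nat_lit 0) (nat_lit 0) (XT.nd (nat_lit 78) (nat_lit 0) (nat_lit 0) (XT.lf (nat_lit 0) (nat_lit 9790759571771) (nat_lit 152) (nat_lit 6407319049106) (nat_lit 0) (nat_lit 9790613186412) (nat_lit 1) (nat_lit 5) (nat_lit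 3) (nat_lit 4) (nat_lit 1) (nat_lit 4) (nat_lit 271) (nat_lit 172) (nat_lit 157)) (XT.lf (nat_lit 0) (nat_lit 11259506810303) (nat_lit 152) (nat_lit 7368106925787) (nat_lit 0) (nat_lit 11259357749649) (nat_lit 1) (nat_lit 5) (nat_lit 3) (nat_lit 4) (nat_lit 1) (nat_lit 4) (nat_lit 272) (nat_lit 172) (nat_lit 156))) (XT.nd (nat_lit 78) (nat_lit 0) (nat_lit 0) (XT.lf (nat_lit 0) (nat_lit 12948562276020) (nat_lit 152) (nat_lit 8473020538040) (nat_lit 0) (nat_lit 12948410889022) (nat_lit 1) (nat_lit 5) (nat_lit 3) (nat_lit 4) (nat_lit 1) (nat_lit 4) (nat_lit 273) (nat_lit 172) (nat_lit 155)) (XT.lf (nat_lit 0) (nat_lit 14890972706294) (nat_lit 152) (nat_lit 9743677760886) (nat_lit 0) (nat_lit 14890819296390) (nat_lit 1) (nat_lit 5) (nat_lit 3) (nat_lit 4) (nat_lit 1) (nat_lit 4) (nat_lit 274) (nat_lit 172) (nat_lit 154)))) (XT.nd (nat_lit 390) (nat_lit 0) (nat_lit 0) (XT.nd (nat_lit 78)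 (nat_lit 0) (nat_lit 0) (XT.lf (nat_lit 0) (nat_lit 17124741783458) (nat_lit 152) (nat_lit 11204939279121) (nat_lit 0) (nat_lit 17124586614504) (nat_lit 1) (nat_lit 5) (nat_lit 3) (nat_lit 4) (nat_lit 1) (nat_lit 4) (nat_lit 275) (nat_lit 172) (nat_lit 153)) (XT.lf (nat_lit 0) (nat_lit 19693573685107) (nat_lit 152) (nat_lit 12885394992014) (nat_lit 0) (nat_lit 19693416986544) (nat_lit 1) (nat_lit 5) (nat_lit 3) (nat_lit 4) (nat_lit 1) (nat_lit 4) (nat_lit 276) (nat_lit 172) (nat_lit 152))) (XT.nd (nat_lit 78) (nat_lit 0) (nat_lit 0) (XT.lf (nat_lit 0) (nat_lit 34444763116509) (nat_lit 152) (nat_lit 22535256838982) (nat_lit 0) (nat_lit 34444602050948) (nat_lit 1) (nat_lit 5) (nat_lit 3) (nat_lit 4) (nat_lit 1) (nat_lit 4) (nat_lit 280) (nat_lit 172) (nat_lit 148)) (XT.lf (nat_lit 0) (nat_lit 39611589713401) (nat_lit 152) (nat_lit 25915276835751) (nat_lit 0) (nat_lit 39611427887354)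 (nat_lit 1) (nat_lit 5) (nat_lit 3) (nat_lit 4) (nat_lit 1) (nat_lit 4) (nat_lit 281) (nat_lit 172) (nat_lit 147))))))))
noncomputable def xc4 : XT := (XT.nd (nat_lit 30264) (nat_lit 0) (nat_lit 0) (XT.nd (nat_lit 29640) (nat_lit 0) (nat_lit 0) (XT.nd (nat_lit 29328) (nat_lit 0) (nat_lit 0) (XT.nd (nat_lit 29172) (nat_lit 0) (nat_lit 0) (XT.nd (nat_lit 29094) (nat_lit 0) (nat_lit 0) (XT.lf (nat_lit 0) (nat_lit 45553439202974) (nat_lit 152) (nat_lit 29802301979374) (nat_lit 0) (nat_lit 45553276715635) (nat_lit 1) (nat_lit 5) (nat_lit 3) (nat_lit 4) (nat_lit 1) (nat_lit 4) (nat_lit 282) (nat_lit 172) (nat_lit 146)) (XT.lf (nat_lit 0) (nat_lit 454053383019) (nat_lit 152) (nat_lit 299547735667) (nat_lit 0) (nat_lit 454053383019) (nat_lit 1) (nat_lit 5) (nat_lit 3) (nat_lit 4) (nat_lit 1) (nat_lit 4) (nat_lit 254) (nat_lit 173) (nat_lit 173))) (XT.nd (nat_lit 78) (nat_lit 0) (nat_lit 0)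 (XT.lf (nat_lit 0) (nat_lit 1044718881567) (nat_lit 152) (nat_lit 688127973729) (nat_lit 0) (nat_lit 1044693847175) (nat_lit 1) (nat_lit 5) (nat_lit 3) (nat_lit 4) (nat_lit 1) (nat_lit 4) (nat_lit 255) (nat_lit 173) (nat_lit 172)) (XT.lf (nat_lit 0) (nat_lit 1201786707157) (nat_lit 152) (nat_lit 790586039599) (nat_lit 0) (nat_lit 1201739903727) (nat_lit 1) (nat_lit 5) (nat_lit 3) (nat_lit 4) (nat_lit 1) (nat_lit 4) (nat_lit 256) (nat_lit 173) (nat_lit 171)))) (XT.nd (nat_lit 156) (nat_lit 0) (nat_lit 0) (XT.nd (nat_lit 78) (nat_lit 0) (nat_lit 0) (XT.lf (nat_lit 0) (nat_lit 1382383308962) (nat_lit 152) (nat_lit 908474283278) (nat_lit 0) (nat_lit 1382317575934) (nat_lit 1) (nat_lit 5) (nat_lit 3) (nat_lit 4) (nat_lit 1) (nat_lit 4) (nat_lit 257) (nat_lit 173) (nat_lit 170)) (XT.lf (nat_lit 0) (nat_lit 1590042098755) (nat_lit 152) (nat_lit 1044099213879) (nat_lit 0) (nat_lit 1589959905208)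 (nat_lit 1) (nat_lit 5) (nat_lit 3) (nat_lit 4) (nat_lit 1) (nat_lit 4) (nat_lit 258) (nat_lit 173) (nat_lit 169))) (XT.nd (nat_lit 78) (nat_lit 0) (nat_lit 0) (XT.lf (nat_lit 0) (nat_lit 1828825965903) (nat_lit 152) (nat_lit 1200114362656) (nat_lit 0) (nat_lit 1828729458860) (nat_lit 1) (nat_lit 5) (nat_lit 3) (nat_lit 4) (nat_lit 1) (nat_lit 4) (nat_lit 259) (nat_lit 173) (nat_lit 168)) (XT.lf (nat_lit 0) (nat_lit 2103406768675) (nat_lit 152) (nat_lit 1379572199909) (nat_lit 0) (nat_lit 2103297815115) (nat_lit 1) (nat_lit 5) (nat_lit 3) (nat_lit 4) (nat_lit 1) (nat_lit 4) (nat_lit 260) (nat_lit 173) (nat_lit 167))))) (XT.nd (nat_lit 312) (nat_lit 0) (nat_lit 0) (XT.nd (nat_lit 156) (nat_lit 0) (nat_lit 0) (XT.nd (nat_lit 78) (nat_lit 0) (nat_lit 0) (XT.lf (nat_lit 0) (nat_lit 2419156740169) (nat_lit 152) (nat_lit 1585983857238) (nat_lit 0) (nat_lit 2419036963550) (nat_lit 1) (nat_lit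 5) (nat_lit 3) (nat_lit 4) (nat_lit 1) (nat_lit 4) (nat_lit 261) (nat_lit 173) (nat_lit 166)) (XT.lf (nat_lit 0) (nat_lit 2782253597219) (nat_lit 152) (nat_lit 1823387823590) (nat_lit 0) (nat_lit 2782124409245) (nat_lit 1) (nat_lit 5) (nat_lit 3) (nat_lit 4) (nat_lit 1) (nat_lit 4) (nat_lit 262) (nat_lit 173) (nat_lit 165))) (XT.nd (nat_lit 78) (nat_lit 0) (nat_lit 0) (XT.lf (nat_lit 0) (nat_lit 3199801408768) (nat_lit 152) (nat_lit 2096428959175) (nat_lit 0) (nat_lit 3199664037006) (nat_lit 1) (nat_lit 5) (nat_lit 3) (nat_lit 4) (nat_lit 1) (nat_lit 4) (nat_lit 263) (nat_lit 173) (nat_lit 164)) (XT.lf (nat_lit 0) (nat_lit 3679969588519) (nat_lit 152) (nat_lit 2410449373170) (nat_lit 0) (nat_lit 3679825100420) (nat_lit 1) (nat_lit 5) (nat_lit 3) (nat_lit 4) (nat_lit 1) (nat_lit 4) (nat_lit 264) (nat_lit 173) (nat_lit 163)))) (XT.nd (nat_lit 156) (nat_lit 0) (nat_lit 0) (XT.nd (nat_lit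 78) (nat_lit 0) (nat_lit 0) (XT.lf (nat_lit 0) (nat_lit 4232152731293) (nat_lit 152) (nat_lit 2771592943238) (nat_lit 0) (nat_lit 4232002055075) (nat_lit 1) (nat_lit 5) (nat_lit 3) (nat_lit 4) (nat_lit 1) (nat_lit 4) (nat_lit 265) (nat_lit 173) (nat_lit 162)) (XT.lf (nat_lit 0) (nat_lit 4867154420319) (nat_lit 152) (nat_lit 3186925521838) (nat_lit 0) (nat_lit 4866998363129) (nat_lit 1) (nat_lit 5) (nat_lit 3) (nat_lit 4) (nat_lit 1) (nat_lit 4) (nat_lit 266) (nat_lit 173) (nat_lit 161))) (XT.nd (nat_lit 78) (nat_lit 0) (nat_lit 0) (XT.lf (nat_lit 0) (nat_lit 5597398601687) (nat_lit 152) (nat_lit 3664573181159) (nat_lit 0) (nat_lit 5597237865389) (nat_lit 1) (nat_lit 5) (nat_lit 3) (nat_lit 4) (nat_lit 1) (nat_lit 4) (nat_lit 267) (nat_lit 173) (nat_lit 160)) (XT.lf (nat_lit 0) (nat_lit 6437172661553) (nat_lit 152) (nat_lit 4213881201493) (nat_lit 0) (nat_lit 6437007856467) (nat_lit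 1) (nat_lit 5) (nat_lit 3) (nat_lit 4) (nat_lit 1) (nat_lit 4) (nat_lit 268) (nat_lit 173) (nat_lit 159)))))) (XT.nd (nat_lit 1638) (nat_lit 0) (nat_lit 0) (XT.nd (nat_lit 312) (nat_lit 0) (nat_lit 0) (XT.nd (nat_lit 156) (nat_lit 0) (nat_lit 0) (XT.nd (nat_lit 78) (nat_lit 0) (nat_lit 0) (XT.lf (nat_lit 0) (nat_lit 7402906961959) (nat_lit 152) (nat_lit 4845596913673) (nat_lit 0) (nat_lit 7402738618795) (nat_lit 1) (nat_lit 5) (nat_lit 3) (nat_lit 4) (nat_lit 1) (nat_lit 4) (nat_lit 269) (nat_lit 173) (nat_lit 158)) (XT.lf (nat_lit 0) (nat_lit 8513496304434) (nat_lit 152) (nat_lit 5572079972936) (nat_lit 0) (nat_lit 8513324884682) (nat_lit 1) (nat_lit 5) (nat_lit 3) (nat_lit 4) (nat_lit 1) (nat_lit 4) (nat_lit 270) (nat_lit 173) (nat_lit 157))) (XT.nd (nat_lit 78) (nat_lit 0) (nat_lit 0) (XT.lf (nat_lit 0) (nat_lit 9790669610896) (nat_lit 152) (nat_lit 6407544178268) (nat_lit 0) (nat_lit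 9790495515849) (nat_lit 1) (nat_lit 5) (nat_lit 3) (nat_lit 4) (nat_lit 1) (nat_lit 4) (nat_lit 271) (nat_lit 173) (nat_lit 156)) (XT.lf (nat_lit 0) (nat_lit 11259415054733) (nat_lit 152) (nat_lit 7368335568470) (nat_lit 0) (nat_lit 11259238633343) (nat_lit 1) (nat_lit 5) (nat_lit 3) (nat_lit 4) (nat_lit 1) (nat_lit 4) (nat_lit 272) (nat_lit 173) (nat_lit 155)))) (XT.nd (nat_lit 156) (nat_lit 0) (nat_lit 0) (XT.nd (nat_lit 78) (nat_lit 0) (nat_lit 0) (XT.lf (nat_lit 0) (nat_lit 12948468959845) (nat_lit 152) (nat_lit 8473252235958) (nat_lit 0) (nat_lit 12948290515548) (nat_lit 1) (nat_lit 5) (nat_lit 3) (nat_lit 4) (nat_lit 1) (nat_lit 4) (nat_lit 273) (nat_lit 173) (nat_lit 154)) (XT.lf (nat_lit 0) (nat_lit 14890878033072) (nat_lit 152) (nat_lit 9743912115530) (nat_lit 0) (nat_lit 14890697829725) (nat_lit 1) (nat_lit 5) (nat_lit 3) (nat_lit 4) (nat_lit 1) (nat_lit 4) (nat_lit 274)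 (nat_lit 173) (nat_lit 153))) (XT.nd (nat_lit 1092) (nat_lit 0) (nat_lit 0) (XT.lf (nat_lit 0) (nat_lit 17124645930194) (nat_lit 152) (nat_lit 11205175943962) (nat_lit 0) (nat_lit 17124464197239) (nat_lit 1) (nat_lit 5) (nat_lit 3) (nat_lit 4) (nat_lit 1) (nat_lit 4) (nat_lit 275) (nat_lit 173) (nat_lit 152)) (XT.lf (nat_lit 0) (nat_lit 121174150935176) (nat_lit 152) (nat_lit 79272074683767) (nat_lit 0) (nat_lit 121173960446015) (nat_lit 1) (nat_lit 5) (nat_lit 3) (nat_lit 4) (nat_lit 1) (nat_lit 4) (nat_lit 289) (nat_lit 173) (nat_lit 138))))) (XT.nd (nat_lit 28470) (nat_lit 0) (nat_lit 0) (XT.nd (nat_lit 28314) (nat_lit 0) (nat_lit 0) (XT.nd (nat_lit 78) (nat_lit 0) (nat_lit 0) (XT.lf (nat_lit 0) (nat_lit 139350394932317) (nat_lit 152) (nat_lit 91162591940873) (nat_lit 0) (nat_lit 139350204255175) (nat_lit 1) (nat_lit 5) (nat_lit 3) (nat_lit 4) (nat_lit 1) (nat_lit 4) (nat_lit 290)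 (nat_lit 173) (nat_lit 137)) (XT.lf (nat_lit 0) (nat_lit 160253075257904) (nat_lit 152) (nat_lit 104836687317333) (nat_lit 0) (nat_lit 160252884417300) (nat_lit 1) (nat_lit 5) (nat_lit 3) (nat_lit 4) (nat_lit 1) (nat_lit 4) (nat_lit 291) (nat_lit 173) (nat_lit 136))) (XT.nd (nat_lit 78) (nat_lit 0) (nat_lit 0) (XT.lf (nat_lit 0) (nat_lit 342978603769) (nat_lit 152) (nat_lit 227262253567) (nat_lit 0) (nat_lit 342978603769) (nat_lit 1) (nat_lit 5) (nat_lit 3) (nat_lit 4) (nat_lit 1) (nat_lit 4) (nat_lit 252) (nat_lit 174) (nat_lit 174)) (XT.lf (nat_lit 0) (nat_lit 789306304385) (nat_lit 152) (nat_lit 521746592153) (nat_lit 0) (nat_lit 789277514833) (nat_lit 1) (nat_lit 5) (nat_lit 3) (nat_lit 4) (nat_lit 1) (nat_lit 4) (nat_lit 253) (nat_lit 174) (nat_lit 173)))) (XT.nd (nat_lit 156) (nat_lit 0) (nat_lit 0) (XT.nd (nat_lit 78) (nat_lit 0) (nat_lit 0) (XT.lf (nat_lit 0) (nat_lit 908116242401)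 (nat_lit 152) (nat_lit 599133281258) (nat_lit 0) (nat_lit 908062418456) (nat_lit 1) (nat_lit 5) (nat_lit 3) (nat_lit 4) (nat_lit 1) (nat_lit 4) (nat_lit 254) (nat_lit 174) (nat_lit 172)) (XT.lf (nat_lit 0) (nat_lit 1044711563851) (nat_lit 152) (nat_lit 688198661846) (nat_lit 0) (nat_lit 1044635970870) (nat_lit 1) (nat_lit 5) (nat_lit 3) (nat_lit 4) (nat_lit 1) (nat_lit 4) (nat_lit 255) (nat_lit 174) (nat_lit 171))) (XT.nd (nat_lit 78) (nat_lit 0) (nat_lit 0) (XT.lf (nat_lit 0) (nat_lit 1201764785895) (nat_lit 152) (nat_lit 790685317450) (nat_lit 0) (nat_lit 1201670263316) (nat_lit 1) (nat_lit 5) (nat_lit 3) (nat_lit 4) (nat_lit 1) (nat_lit 4) (nat_lit 256) (nat_lit 174) (nat_lit 170)) (XT.lf (nat_lit 0) (nat_lit 1382348688964) (nat_lit 152) (nat_lit 908598421766) (nat_lit 0) (nat_lit 1382237705865) (nat_lit 1) (nat_lit 5) (nat_lit 3) (nat_lit 4) (nat_lit 1) (nat_lit 4) (nat_lit 257)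 (nat_lit 174) (nat_lit 169)))))))
noncomputable def xc5 : XT := (XT.nd (nat_lit 1248) (nat_lit 0) (nat_lit 0) (XT.nd (nat_lit 624) (nat_lit 0) (nat_lit 0) (XT.nd (nat_lit 312) (nat_lit 0) (nat_lit 0) (XT.nd (nat_lit 156) (nat_lit 0) (nat_lit 0) (XT.nd (nat_lit 78) (nat_lit 0) (nat_lit 0) (XT.lf (nat_lit 0) (nat_lit 1589996436378) (nat_lit 152) (nat_lit 1044244970315) (nat_lit 0) (nat_lit 1589871139784) (nat_lit 1) (nat_lit 5) (nat_lit 3) (nat_lit 4) (nat_lit 1) (nat_lit 4) (nat_lit 258) (nat_lit 174) (nat_lit 168)) (XT.lf (nat_lit 0) (nat_lit 1828770701457) (nat_lit 152) (nat_lit 1200278917305) (nat_lit 0) (nat_lit 1828632958345) (nat_lit 1) (nat_lit 5) (nat_lit 3) (nat_lit 4) (nat_lit 1) (nat_lit 4) (nat_lit 259) (nat_lit 174) (nat_lit 167))) (XT.nd (nat_lit 78) (nat_lit 0) (nat_lit 0) (XT.lf (nat_lit 0) (nat_lit 2103343154604) (nat_lit 152) (nat_lit 1379753100832) (nat_lit 0) (nat_lit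 2103194588434) (nat_lit 1) (nat_lit 5) (nat_lit 3) (nat_lit 4) (nat_lit 1) (nat_lit 4) (nat_lit 260) (nat_lit 174) (nat_lit 166)) (XT.lf (nat_lit 0) (nat_lit 2419085865555) (nat_lit 152) (nat_lit 1586178972311) (nat_lit 0) (nat_lit 2418927888029) (nat_lit 1) (nat_lit 5) (nat_lit 3) (nat_lit 4) (nat_lit 1) (nat_lit 4) (nat_lit 261) (nat_lit 174) (nat_lit 165)))) (XT.nd (nat_lit 156) (nat_lit 0) (nat_lit 0) (XT.nd (nat_lit 78) (nat_lit 0) (nat_lit 0) (XT.lf (nat_lit 0) (nat_lit 2782176409090) (nat_lit 152) (nat_lit 1823595298793) (nat_lit 0) (nat_lit 2782010247776) (nat_lit 1) (nat_lit 5) (nat_lit 3) (nat_lit 4) (nat_lit 1) (nat_lit 4) (nat_lit 262) (nat_lit 174) (nat_lit 164)) (XT.lf (nat_lit 0) (nat_lit 3199718730624) (nat_lit 152) (nat_lit 2096647182319) (nat_lit 0) (nat_lit 3199545452974) (nat_lit 1) (nat_lit 5) (nat_lit 3) (nat_lit 4) (nat_lit 1) (nat_lit 4) (nat_lit 263) (nat_lit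 174) (nat_lit 163))) (XT.nd (nat_lit 78) (nat_lit 0) (nat_lit 0) (XT.lf (nat_lit 0) (nat_lit 3679882136450) (nat_lit 152) (nat_lit 2410676942348) (nat_lit 0) (nat_lit 3679702670680) (nat_lit 1) (nat_lit 5) (nat_lit 3) (nat_lit 4) (nat_lit 1) (nat_lit 4) (nat_lit 264) (nat_lit 174) (nat_lit 162)) (XT.lf (nat_lit 0) (nat_lit 4232061127985) (nat_lit 152) (nat_lit 2771828639403) (nat_lit 0) (nat_lit 4231876281243) (nat_lit 1) (nat_lit 5) (nat_lit 3) (nat_lit 4) (nat_lit 1) (nat_lit 4) (nat_lit 265) (nat_lit 174) (nat_lit 161))))) (XT.nd (nat_lit 312) (nat_lit 0) (nat_lit 0) (XT.nd (nat_lit 156) (nat_lit 0) (nat_lit 0) (XT.nd (nat_lit 78) (nat_lit 0) (nat_lit 0) (XT.lf (nat_lit 0) (nat_lit 4867059207238) (nat_lit 152) (nat_lit 3187168284948) (nat_lit 0) (nat_lit 4866869681389) (nat_lit 1) (nat_lit 5) (nat_lit 3) (nat_lit 4) (nat_lit 1) (nat_lit 4) (nat_lit 266) (nat_lit 174) (nat_lit 160))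 (XT.lf (nat_lit 0) (nat_lit 5597300249673) (nat_lit 152) (nat_lit 3664822089439) (nat_lit 0) (nat_lit 5597106655034) (nat_lit 1) (nat_lit 5) (nat_lit 3) (nat_lit 4) (nat_lit 1) (nat_lit 4) (nat_lit 267) (nat_lit 174) (nat_lit 159))) (XT.nd (nat_lit 78) (nat_lit 0) (nat_lit 0) (XT.lf (nat_lit 0) (nat_lit 6437071580032) (nat_lit 152) (nat_lit 4214135453399) (nat_lit 0) (nat_lit 6436874447316) (nat_lit 1) (nat_lit 5) (nat_lit 3) (nat_lit 4) (nat_lit 1) (nat_lit 4) (nat_lit 268) (nat_lit 174) (nat_lit 158)) (XT.lf (nat_lit 0) (nat_lit 7402803506953) (nat_lit 152) (nat_lit 4845855812209) (nat_lit 0) (nat_lit 7402603297649) (nat_lit 1) (nat_lit 5) (nat_lit 3) (nat_lit 4) (nat_lit 1) (nat_lit 4) (nat_lit 269) (nat_lit 174) (nat_lit 157)))) (XT.nd (nat_lit 156) (nat_lit 0) (nat_lit 0) (XT.nd (nat_lit 78) (nat_lit 0) (nat_lit 0) (XT.lf (nat_lit 0) (nat_lit 8513390785528) (nat_lit 152) (nat_lit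 5572342912021) (nat_lit 0) (nat_lit 8513187900929) (nat_lit 1) (nat_lit 5) (nat_lit 3) (nat_lit 4) (nat_lit 1) (nat_lit 4) (nat_lit 270) (nat_lit 174) (nat_lit 156)) (XT.lf (nat_lit 0) (nat_lit 9790562297295) (nat_lit 152) (nat_lit 6407810630874) (nat_lit 0) (nat_lit 9790357086353) (nat_lit 1) (nat_lit 5) (nat_lit 3) (nat_lit 4) (nat_lit 1) (nat_lit 4) (nat_lit 271) (nat_lit 174) (nat_lit 155))) (XT.nd (nat_lit 78) (nat_lit 0) (nat_lit 0) (XT.lf (nat_lit 0) (nat_lit 11259306180527) (nat_lit 152) (nat_lit 7368605076311) (nat_lit 0) (nat_lit 11259098946678) (nat_lit 1) (nat_lit 5) (nat_lit 3) (nat_lit 4) (nat_lit 1) (nat_lit 4) (nat_lit 272) (nat_lit 174) (nat_lit 154)) (XT.lf (nat_lit 0) (nat_lit 12948358728592) (nat_lit 152) (nat_lit 8473524400525) (nat_lit 0) (nat_lit 12948149735693) (nat_lit 1) (nat_lit 5) (nat_lit 3) (nat_lit 4) (nat_lit 1) (nat_lit 4) (nat_lit 273) (nat_lit 174)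 (nat_lit 153)))))) (XT.nd (nat_lit 29562) (nat_lit 0) (nat_lit 0) (XT.nd (nat_lit 1248) (nat_lit 0) (nat_lit 0) (XT.nd (nat_lit 1092) (nat_lit 0) (nat_lit 0) (XT.nd (nat_lit 78) (nat_lit 0) (nat_lit 0) (XT.lf (nat_lit 0) (nat_lit 14890766621778) (nat_lit 152) (nat_lit 9744186590295) (nat_lit 0) (nat_lit 14890556099270) (nat_lit 1) (nat_lit 5) (nat_lit 3) (nat_lit 4) (nat_lit 1) (nat_lit 4) (nat_lit 274) (nat_lit 174) (nat_lit 152)) (XT.lf (nat_lit 0) (nat_lit 17124533492777) (nat_lit 152) (nat_lit 11205452427593) (nat_lit 0) (nat_lit 17124321640175) (nat_lit 1) (nat_lit 5) (nat_lit 3) (nat_lit 4) (nat_lit 1) (nat_lit 4) (nat_lit 275) (nat_lit 174) (nat_lit 151))) (XT.nd (nat_lit 78) (nat_lit 0) (nat_lit 0) (XT.lf (nat_lit 0) (nat_lit 105368602934907) (nat_lit 152) (nat_lit 68932782690416) (nat_lit 0) (nat_lit 105368383656194) (nat_lit 1) (nat_lit 5) (nat_lit 3) (nat_lit 4) (nat_lit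 1) (nat_lit 4) (nat_lit 288) (nat_lit 174) (nat_lit 138)) (XT.lf (nat_lit 0) (nat_lit 121174032623743) (nat_lit 152) (nat_lit 79272362667107) (nat_lit 0) (nat_lit 121173813157050) (nat_lit 1) (nat_lit 5) (nat_lit 3) (nat_lit 4) (nat_lit 1) (nat_lit 4) (nat_lit 289) (nat_lit 174) (nat_lit 137)))) (XT.nd (nat_lit 28158) (nat_lit 0) (nat_lit 0) (XT.nd (nat_lit 78) (nat_lit 0) (nat_lit 0) (XT.lf (nat_lit 0) (nat_lit 139350276494779) (nat_lit 152) (nat_lit 91162880171092) (nat_lit 0) (nat_lit 139350056864625) (nat_lit 1) (nat_lit 5) (nat_lit 3) (nat_lit 4) (nat_lit 1) (nat_lit 4) (nat_lit 290) (nat_lit 174) (nat_lit 136)) (XT.lf (nat_lit 0) (nat_lit 160252956710710) (nat_lit 152) (nat_lit 104836975762229) (nat_lit 0) (nat_lit 160252736938415) (nat_lit 1) (nat_lit 5) (nat_lit 3) (nat_lit 4) (nat_lit 1) (nat_lit 4) (nat_lit 291) (nat_lit 174) (nat_lit 135))) (XT.nd (nat_lit 78) (nat_lit 0)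 (nat_lit 0) (XT.lf (nat_lit 0) (nat_lit 258937464880) (nat_lit 152) (nat_lit 172718213568) (nat_lit 0) (nat_lit 258937464880) (nat_lit 1) (nat_lit 5) (nat_lit 3) (nat_lit 4) (nat_lit 1) (nat_lit 4) (nat_lit 250) (nat_lit 175) (nat_lit 175)) (XT.lf (nat_lit 0) (nat_lit 596080012298) (nat_lit 152) (nat_lit 396151811498) (nat_lit 0) (nat_lit 596046904313) (nat_lit 1) (nat_lit 5) (nat_lit 3) (nat_lit 4) (nat_lit 1) (nat_lit 4) (nat_lit 251) (nat_lit 175) (nat_lit 174))))) (XT.nd (nat_lit 312) (nat_lit 0) (nat_lit 0) (XT.nd (nat_lit 156) (nat_lit 0) (nat_lit 0) (XT.nd (nat_lit 78) (nat_lit 0) (nat_lit 0) (XT.lf (nat_lit 0) (nat_lit 685968105354) (nat_lit 152) (nat_lit 454567988547) (nat_lit 0) (nat_lit 685906207818) (nat_lit 1) (nat_lit 5) (nat_lit 3) (nat_lit 4) (nat_lit 1) (nat_lit 4) (nat_lit 252) (nat_lit 175) (nat_lit 173)) (XT.lf (nat_lit 0) (nat_lit 789297889011) (nat_lit 152) (nat_lit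 521827883488) (nat_lit 0) (nat_lit 789210957082) (nat_lit 1) (nat_lit 5) (nat_lit 3) (nat_lit 4) (nat_lit 1) (nat_lit 4) (nat_lit 253) (nat_lit 175) (nat_lit 172))) (XT.nd (nat_lit 78) (nat_lit 0) (nat_lit 0) (XT.lf (nat_lit 0) (nat_lit 908091032949) (nat_lit 152) (nat_lit 599247450787) (nat_lit 0) (nat_lit 907982331983) (nat_lit 1) (nat_lit 5) (nat_lit 3) (nat_lit 4) (nat_lit 1) (nat_lit 4) (nat_lit 254) (nat_lit 175) (nat_lit 171)) (XT.lf (nat_lit 0) (nat_lit 1044671750854) (nat_lit 152) (nat_lit 688341421109) (nat_lit 0) (nat_lit 1044544120290) (nat_lit 1) (nat_lit 5) (nat_lit 3) (nat_lit 4) (nat_lit 1) (nat_lit 4) (nat_lit 255) (nat_lit 175) (nat_lit 170)))) (XT.nd (nat_lit 156) (nat_lit 0) (nat_lit 0) (XT.nd (nat_lit 78) (nat_lit 0) (nat_lit 0) (XT.lf (nat_lit 0) (nat_lit 1201712274162) (nat_lit 152) (nat_lit 790852937350) (nat_lit 0) (nat_lit 1201568183079) (nat_lit 1) (nat_lit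 5) (nat_lit 3) (nat_lit 4) (nat_lit 1) (nat_lit 4) (nat_lit 256) (nat_lit 175) (nat_lit 169)) (XT.lf (nat_lit 0) (nat_lit 1382285134852) (nat_lit 152) (nat_lit 908787659613) (nat_lit 0) (nat_lit 1382126730273) (nat_lit 1) (nat_lit 5) (nat_lit 3) (nat_lit 4) (nat_lit 1) (nat_lit 4) (nat_lit 257) (nat_lit 175) (nat_lit 168))) (XT.nd (nat_lit 78) (nat_lit 0) (nat_lit 0) (XT.lf (nat_lit 0) (nat_lit 1589923280197) (nat_lit 152) (nat_lit 1044453006375) (nat_lit 0) (nat_lit 1589752429101) (nat_lit 1) (nat_lit 5) (nat_lit 3) (nat_lit 4) (nat_lit 1) (nat_lit 4) (nat_lit 258) (nat_lit 175) (nat_lit 167)) (XT.nd (nat_lit 78) (nat_lit 0) (nat_lit 0) (XT.lf (nat_lit 0) (nat_lit 1828689195651) (nat_lit 152) (nat_lit 1200503299639) (nat_lit 0) (nat_lit 1828507521496) (nat_lit 1) (nat_lit 5) (nat_lit 3) (nat_lit 4) (nat_lit 1) (nat_lit 4) (nat_lit 259) (nat_lit 175) (nat_lit 166)) (XT.lf (nat_lit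 0) (nat_lit 2103254388255) (nat_lit 152) (nat_lit 1379991697316) (nat_lit 0) (nat_lit 2103063302744) (nat_lit 1) (nat_lit 5) (nat_lit 3) (nat_lit 4) (nat_lit 1) (nat_lit 4) (nat_lit 260) (nat_lit 175) (nat_lit 165))))))))
noncomputable def xc6 : XT := (XT.nd (nat_lit 31278) (nat_lit 0) (nat_lit 0) (XT.nd (nat_lit 2184) (nat_lit 0) (nat_lit 0) (XT.nd (nat_lit 624) (nat_lit 0) (nat_lit 0) (XT.nd (nat_lit 312) (nat_lit 0) (nat_lit 0) (XT.nd (nat_lit 156) (nat_lit 0) (nat_lit 0) (XT.nd (nat_lit 78) (nat_lit 0) (nat_lit 0) (XT.lf (nat_lit 0) (nat_lit 2418990785690) (nat_lit 152) (nat_lit 1586429928926) (nat_lit 0) (nat_lit 2418791516392) (nat_lit 1) (nat_lit 5) (nat_lit 3) (nat_lit 4) (nat_lit 1) (nat_lit 4) (nat_lit 261) (nat_lit 175) (nat_lit 164)) (XT.lf (nat_lit 0) (nat_lit 2782075839211) (nat_lit 152) (nat_lit 1823857003349) (nat_lit 0) (nat_lit 2781869453576) (nat_lit 1) (nat_lit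 5) (nat_lit 3) (nat_lit 4) (nat_lit 1) (nat_lit 4) (nat_lit 262) (nat_lit 175) (nat_lit 163))) (XT.nd (nat_lit 78) (nat_lit 0) (nat_lit 0) (XT.lf (nat_lit 0) (nat_lit 3199613386820) (nat_lit 152) (nat_lit 2096918232909) (nat_lit 0) (nat_lit 3199400813066) (nat_lit 1) (nat_lit 5) (nat_lit 3) (nat_lit 4) (nat_lit 1) (nat_lit 4) (nat_lit 263) (nat_lit 175) (nat_lit 162)) (XT.lf (nat_lit 0) (nat_lit 3679772641407) (nat_lit 152) (nat_lit 2410956119925) (nat_lit 0) (nat_lit 3679554686679) (nat_lit 1) (nat_lit 5) (nat_lit 3) (nat_lit 4) (nat_lit 1) (nat_lit 4) (nat_lit 264) (nat_lit 175) (nat_lit 161)))) (XT.nd (nat_lit 156) (nat_lit 0) (nat_lit 0) (XT.nd (nat_lit 78) (nat_lit 0) (nat_lit 0) (XT.lf (nat_lit 0) (nat_lit 4231948023168) (nat_lit 152) (nat_lit 2772114883925) (nat_lit 0) (nat_lit 4231725389334) (nat_lit 1) (nat_lit 5) (nat_lit 3) (nat_lit 4) (nat_lit 1) (nat_lit 4) (nat_lit 265)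 (nat_lit 175) (nat_lit 160)) (XT.lf (nat_lit 0) (nat_lit 4866942963488) (nat_lit 152) (nat_lit 3187460674639) (nat_lit 0) (nat_lit 4866716260865) (nat_lit 1) (nat_lit 5) (nat_lit 3) (nat_lit 4) (nat_lit 1) (nat_lit 4) (nat_lit 266) (nat_lit 175) (nat_lit 159))) (XT.nd (nat_lit 78) (nat_lit 0) (nat_lit 0) (XT.lf (nat_lit 0) (nat_lit 5597181276415) (nat_lit 152) (nat_lit 3665119822756) (nat_lit 0) (nat_lit 5596951035715) (nat_lit 1) (nat_lit 5) (nat_lit 3) (nat_lit 4) (nat_lit 1) (nat_lit 4) (nat_lit 267) (nat_lit 175) (nat_lit 158)) (XT.lf (nat_lit 0) (nat_lit 6436950233290) (nat_lit 152) (nat_lit 4214437833347) (nat_lit 0) (nat_lit 6436716916001) (nat_lit 1) (nat_lit 5) (nat_lit 3) (nat_lit 4) (nat_lit 1) (nat_lit 4) (nat_lit 268) (nat_lit 175) (nat_lit 157))))) (XT.nd (nat_lit 312) (nat_lit 0) (nat_lit 0) (XT.nd (nat_lit 156) (nat_lit 0) (nat_lit 0) (XT.nd (nat_lit 78) (nat_lit 0)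 (nat_lit 0) (XT.lf (nat_lit 0) (nat_lit 7402680096312) (nat_lit 152) (nat_lit 4846162232706) (nat_lit 0) (nat_lit 7402444103728) (nat_lit 1) (nat_lit 5) (nat_lit 3) (nat_lit 4) (nat_lit 1) (nat_lit 4) (nat_lit 269) (nat_lit 175) (nat_lit 156)) (XT.lf (nat_lit 0) (nat_lit 8513265580192) (nat_lit 152) (nat_lit 5572652846038) (nat_lit 0) (nat_lit 8513027261265) (nat_lit 1) (nat_lit 5) (nat_lit 3) (nat_lit 4) (nat_lit 1) (nat_lit 4) (nat_lit 270) (nat_lit 175) (nat_lit 155))) (XT.nd (nat_lit 78) (nat_lit 0) (nat_lit 0) (XT.lf (nat_lit 0) (nat_lit 9790435531354) (nat_lit 152) (nat_lit 6408123620127) (nat_lit 0) (nat_lit 9790195189520) (nat_lit 1) (nat_lit 5) (nat_lit 3) (nat_lit 4) (nat_lit 1) (nat_lit 4) (nat_lit 271) (nat_lit 175) (nat_lit 154)) (XT.lf (nat_lit 0) (nat_lit 11259178057539) (nat_lit 152) (nat_lit 7368920722290) (nat_lit 0) (nat_lit 11258935956655) (nat_lit 1) (nat_lit 5)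 (nat_lit 3) (nat_lit 4) (nat_lit 1) (nat_lit 4) (nat_lit 272) (nat_lit 175) (nat_lit 153)))) (XT.nd (nat_lit 156) (nat_lit 0) (nat_lit 0) (XT.nd (nat_lit 78) (nat_lit 0) (nat_lit 0) (XT.lf (nat_lit 0) (nat_lit 12948229425562) (nat_lit 152) (nat_lit 8473842356701) (nat_lit 0) (nat_lit 12947985795070) (nat_lit 1) (nat_lit 5) (nat_lit 3) (nat_lit 4) (nat_lit 1) (nat_lit 4) (nat_lit 273) (nat_lit 175) (nat_lit 152)) (XT.lf (nat_lit 0) (nat_lit 14890636292625) (nat_lit 152) (nat_lit 9744506555337) (nat_lit 0) (nat_lit 14890391332039) (nat_lit 1) (nat_lit 5) (nat_lit 3) (nat_lit 4) (nat_lit 1) (nat_lit 4) (nat_lit 274) (nat_lit 175) (nat_lit 151))) (XT.nd (nat_lit 1014) (nat_lit 0) (nat_lit 0) (XT.lf (nat_lit 0) (nat_lit 17124402271343) (nat_lit 152) (nat_lit 11205774139476) (nat_lit 0) (nat_lit 17124156154154) (nat_lit 1) (nat_lit 5) (nat_lit 3) (nat_lit 4) (nat_lit 1) (nat_lit 4) (nat_lit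 275) (nat_lit 175) (nat_lit 150)) (XT.lf (nat_lit 0) (nat_lit 105368466731739) (nat_lit 152) (nat_lit 68933114155168) (nat_lit 0) (nat_lit 105368214157061) (nat_lit 1) (nat_lit 5) (nat_lit 3) (nat_lit 4) (nat_lit 1) (nat_lit 4) (nat_lit 288) (nat_lit 175) (nat_lit 137)))))) (XT.nd (nat_lit 28470) (nat_lit 0) (nat_lit 0) (XT.nd (nat_lit 28158) (nat_lit 0) (nat_lit 0) (XT.nd (nat_lit 156) (nat_lit 0) (nat_lit 0) (XT.nd (nat_lit 78) (nat_lit 0) (nat_lit 0) (XT.lf (nat_lit 0) (nat_lit 121173896294471) (nat_lit 152) (nat_lit 79272694378738) (nat_lit 0) (nat_lit 121173643556331) (nat_lit 1) (nat_lit 5) (nat_lit 3) (nat_lit 4) (nat_lit 1) (nat_lit 4) (nat_lit 289) (nat_lit 175) (nat_lit 136)) (XT.lf (nat_lit 0) (nat_lit 139350140055850) (nat_lit 152) (nat_lit 91163212097399) (nat_lit 0) (nat_lit 139349887175571) (nat_lit 1) (nat_lit 5) (nat_lit 3) (nat_lit 4) (nat_lit 1) (nat_lit 4) (nat_lit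 290) (nat_lit 175) (nat_lit 135))) (XT.nd (nat_lit 27924) (nat_lit 0) (nat_lit 0) (XT.lf (nat_lit 0) (nat_lit 160252820176427) (nat_lit 152) (nat_lit 104837307875212) (nat_lit 0) (nat_lit 160252567172547) (nat_lit 1) (nat_lit 5) (nat_lit 3) (nat_lit 4) (nat_lit 1) (nat_lit 4) (nat_lit 291) (nat_lit 175) (nat_lit 134)) (XT.lf (nat_lit 0) (nat_lit 195329744760) (nat_lit 152) (nat_lit 131606378092) (nat_lit 0) (nat_lit 195329744760) (nat_lit 1) (nat_lit 5) (nat_lit 3) (nat_lit 4) (nat_lit 1) (nat_lit 4) (nat_lit 248) (nat_lit 176) (nat_lit 176)))) (XT.nd (nat_lit 156) (nat_lit 0) (nat_lit 0) (XT.nd (nat_lit 78) (nat_lit 0) (nat_lit 0) (XT.lf (nat_lit 0) (nat_lit 449860832483) (nat_lit 152) (nat_lit 301429577946) (nat_lit 0) (nat_lit 449822758301) (nat_lit 1) (nat_lit 5) (nat_lit 3) (nat_lit 4) (nat_lit 1) (nat_lit 4) (nat_lit 249) (nat_lit 176) (nat_lit 175)) (XT.lf (nat_lit 0) (nat_lit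 517887462249) (nat_lit 152) (nat_lit 345486430761) (nat_lit 0) (nat_lit 517816280082) (nat_lit 1) (nat_lit 5) (nat_lit 3) (nat_lit 4) (nat_lit 1) (nat_lit 4) (nat_lit 250) (nat_lit 176) (nat_lit 174))) (XT.nd (nat_lit 78) (nat_lit 0) (nat_lit 0) (XT.lf (nat_lit 0) (nat_lit 596070334618) (nat_lit 152) (nat_lit 396245296532) (nat_lit 0) (nat_lit 595970362900) (nat_lit 1) (nat_lit 5) (nat_lit 3) (nat_lit 4) (nat_lit 1) (nat_lit 4) (nat_lit 251) (nat_lit 176) (nat_lit 173)) (XT.lf (nat_lit 0) (nat_lit 685939114485) (nat_lit 152) (nat_lit 454699283504) (nat_lit 0) (nat_lit 685814108374) (nat_lit 1) (nat_lit 5) (nat_lit 3) (nat_lit 4) (nat_lit 1) (nat_lit 4) (nat_lit 252) (nat_lit 176) (nat_lit 172))))) (XT.nd (nat_lit 312) (nat_lit 0) (nat_lit 0) (XT.nd (nat_lit 156) (nat_lit 0) (nat_lit 0) (XT.nd (nat_lit 78) (nat_lit 0) (nat_lit 0) (XT.lf (nat_lit 0) (nat_lit 789252104064) (nat_lit 152)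 (nat_lit 521992056639) (nat_lit 0) (nat_lit 789105328916) (nat_lit 1) (nat_lit 5) (nat_lit 3) (nat_lit 4) (nat_lit 1) (nat_lit 4) (nat_lit 253) (nat_lit 176) (nat_lit 171)) (XT.lf (nat_lit 0) (nat_lit 908030644456) (nat_lit 152) (nat_lit 599440213672) (nat_lit 0) (nat_lit 907864939710) (nat_lit 1) (nat_lit 5) (nat_lit 3) (nat_lit 4) (nat_lit 1) (nat_lit 4) (nat_lit 254) (nat_lit 176) (nat_lit 170))) (XT.nd (nat_lit 78) (nat_lit 0) (nat_lit 0) (XT.lf (nat_lit 0) (nat_lit 1044598663625) (nat_lit 152) (nat_lit 688559044632) (nat_lit 0) (nat_lit 1044416498359) (nat_lit 1) (nat_lit 5) (nat_lit 3) (nat_lit 4) (nat_lit 1) (nat_lit 4) (nat_lit 255) (nat_lit 176) (nat_lit 169)) (XT.lf (nat_lit 0) (nat_lit 1201628144554) (nat_lit 152) (nat_lit 791092178820) (nat_lit 0) (nat_lit 1201431665793) (nat_lit 1) (nat_lit 5) (nat_lit 3) (nat_lit 4) (nat_lit 1) (nat_lit 4) (nat_lit 256) (nat_lit 176)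 (nat_lit 168)))) (XT.nd (nat_lit 156) (nat_lit 0) (nat_lit 0) (XT.nd (nat_lit 78) (nat_lit 0) (nat_lit 0) (XT.lf (nat_lit 0) (nat_lit 1382191403175) (nat_lit 152) (nat_lit 909045699297) (nat_lit 0) (nat_lit 1381982477896) (nat_lit 1) (nat_lit 5) (nat_lit 3) (nat_lit 4) (nat_lit 1) (nat_lit 4) (nat_lit 257) (nat_lit 176) (nat_lit 167)) (XT.lf (nat_lit 0) (nat_lit 1589821198896) (nat_lit 152) (nat_lit 1044727392332) (nat_lit 0) (nat_lit 1589601450558) (nat_lit 1) (nat_lit 5) (nat_lit 3) (nat_lit 4) (nat_lit 1) (nat_lit 4) (nat_lit 258) (nat_lit 176) (nat_lit 166))) (XT.nd (nat_lit 78) (nat_lit 0) (nat_lit 0) (XT.lf (nat_lit 0) (nat_lit 1828579853806) (nat_lit 152) (nat_lit 1200791899747) (nat_lit 0) (nat_lit 1828350694113) (nat_lit 1) (nat_lit 5) (nat_lit 3) (nat_lit 4) (nat_lit 1) (nat_lit 4) (nat_lit 259) (nat_lit 176) (nat_lit 165)) (XT.lf (nat_lit 0) (nat_lit 2103138732894) (nat_lit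 152) (nat_lit 1380292657555) (nat_lit 0) (nat_lit 2102901389414) (nat_lit 1) (nat_lit 5) (nat_lit 3) (nat_lit 4) (nat_lit 1) (nat_lit 4) (nat_lit 260) (nat_lit 176) (nat_lit 164))))))) (XT.nd (nat_lit 2106) (nat_lit 0) (nat_lit 0) (XT.nd (nat_lit 624) (nat_lit 0) (nat_lit 0) (XT.nd (nat_lit 312) (nat_lit 0) (nat_lit 0) (XT.nd (nat_lit 156) (nat_lit 0) (nat_lit 0) (XT.nd (nat_lit 78) (nat_lit 0) (nat_lit 0) (XT.lf (nat_lit 0) (nat_lit 2418869640315) (nat_lit 152) (nat_lit 1586741637105) (nat_lit 0) (nat_lit 2418625180498) (nat_lit 1) (nat_lit 5) (nat_lit 3) (nat_lit 4) (nat_lit 1) (nat_lit 4) (nat_lit 261) (nat_lit 176) (nat_lit 163)) (XT.lf (nat_lit 0) (nat_lit 2781949919911) (nat_lit 152) (nat_lit 1824178057562) (nat_lit 0) (nat_lit 2781699271974) (nat_lit 1) (nat_lit 5) (nat_lit 3) (nat_lit 4) (nat_lit 1) (nat_lit 4) (nat_lit 262) (nat_lit 176) (nat_lit 162))) (XT.nd (nat_lit 78)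 (nat_lit 0) (nat_lit 0) (XT.lf (nat_lit 0) (nat_lit 3199483316281) (nat_lit 152) (nat_lit 2097247414109) (nat_lit 0) (nat_lit 3199227287372) (nat_lit 1) (nat_lit 5) (nat_lit 3) (nat_lit 4) (nat_lit 1) (nat_lit 4) (nat_lit 263) (nat_lit 176) (nat_lit 161)) (XT.lf (nat_lit 0) (nat_lit 3679638961094) (nat_lit 152) (nat_lit 2411292368069) (nat_lit 0) (nat_lit 3679378253078) (nat_lit 1) (nat_lit 5) (nat_lit 3) (nat_lit 4) (nat_lit 1) (nat_lit 4) (nat_lit 264) (nat_lit 176) (nat_lit 160)))) (XT.nd (nat_lit 156) (nat_lit 0) (nat_lit 0) (XT.nd (nat_lit 78) (nat_lit 0) (nat_lit 0) (XT.lf (nat_lit 0) (nat_lit 4231811203923) (nat_lit 152) (nat_lit 2772457277239) (nat_lit 0) (nat_lit 4231546427118) (nat_lit 1) (nat_lit 5) (nat_lit 3) (nat_lit 4) (nat_lit 1) (nat_lit 4) (nat_lit 265) (nat_lit 176) (nat_lit 159)) (XT.lf (nat_lit 0) (nat_lit 4866803414735) (nat_lit 152) (nat_lit 3187808411579) (nat_lit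 0) (nat_lit 4866535099853) (nat_lit 1) (nat_lit 5) (nat_lit 3) (nat_lit 4) (nat_lit 1) (nat_lit 4) (nat_lit 266) (nat_lit 176) (nat_lit 158))) (XT.nd (nat_lit 78) (nat_lit 0) (nat_lit 0) (XT.lf (nat_lit 0) (nat_lit 5597039354178) (nat_lit 152) (nat_lit 3665472206327) (nat_lit 0) (nat_lit 5596767962707) (nat_lit 1) (nat_lit 5) (nat_lit 3) (nat_lit 4) (nat_lit 1) (nat_lit 4) (nat_lit 267) (nat_lit 176) (nat_lit 157)) (XT.lf (nat_lit 0) (nat_lit 6436806247153) (nat_lit 152) (nat_lit 4214794257466) (nat_lit 0) (nat_lit 6436532180387) (nat_lit 1) (nat_lit 5) (nat_lit 3) (nat_lit 4) (nat_lit 1) (nat_lit 4) (nat_lit 268) (nat_lit 176) (nat_lit 156))))) (XT.nd (nat_lit 312) (nat_lit 0) (nat_lit 0) (XT.nd (nat_lit 156) (nat_lit 0) (nat_lit 0) (XT.nd (nat_lit 78) (nat_lit 0) (nat_lit 0) (XT.lf (nat_lit 0) (nat_lit 7402534315479) (nat_lit 152) (nat_lit 4846522170346) (nat_lit 0) (nat_lit 7402257922371)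 (nat_lit 1) (nat_lit 5) (nat_lit 3) (nat_lit 4) (nat_lit 1) (nat_lit 4) (nat_lit 269) (nat_lit 176) (nat_lit 155)) (XT.lf (nat_lit 0) (nat_lit 8513118238755) (nat_lit 152) (nat_lit 5573015838914) (nat_lit 0) (nat_lit 8512839822739) (nat_lit 1) (nat_lit 5) (nat_lit 3) (nat_lit 4) (nat_lit 1) (nat_lit 4) (nat_lit 270) (nat_lit 176) (nat_lit 154))) (XT.nd (nat_lit 78) (nat_lit 0) (nat_lit 0) (XT.lf (nat_lit 0) (nat_lit 9790286832870) (nat_lit 152) (nat_lit 6408489269729) (nat_lit 0) (nat_lit 9790006657804) (nat_lit 1) (nat_lit 5) (nat_lit 3) (nat_lit 4) (nat_lit 1) (nat_lit 4) (nat_lit 271) (nat_lit 176) (nat_lit 153)) (XT.lf (nat_lit 0) (nat_lit 11259028179013) (nat_lit 152) (nat_lit 7369288682089) (nat_lit 0) (nat_lit 11258746474339) (nat_lit 1) (nat_lit 5) (nat_lit 3) (nat_lit 4) (nat_lit 1) (nat_lit 4) (nat_lit 272) (nat_lit 176) (nat_lit 152)))) (XT.nd (nat_lit 156) (nat_lit 0) (nat_lit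 0) (XT.nd (nat_lit 78) (nat_lit 0) (nat_lit 0) (XT.lf (nat_lit 0) (nat_lit 12948078520913) (nat_lit 152) (nat_lit 8474212325367) (nat_lit 0) (nat_lit 12947795486145) (nat_lit 1) (nat_lit 5) (nat_lit 3) (nat_lit 4) (nat_lit 1) (nat_lit 4) (nat_lit 273) (nat_lit 176) (nat_lit 151)) (XT.lf (nat_lit 0) (nat_lit 14890484495696) (nat_lit 152) (nat_lit 9744878270844) (nat_lit 0) (nat_lit 14890200304324) (nat_lit 1) (nat_lit 5) (nat_lit 3) (nat_lit 4) (nat_lit 1) (nat_lit 4) (nat_lit 274) (nat_lit 176) (nat_lit 150))) (XT.nd (nat_lit 936) (nat_lit 0) (nat_lit 0) (XT.lf (nat_lit 0) (nat_lit 17124249698518) (nat_lit 152) (nat_lit 11206147373975) (nat_lit 0) (nat_lit 17123964501404) (nat_lit 1) (nat_lit 5) (nat_lit 3) (nat_lit 4) (nat_lit 1) (nat_lit 4) (nat_lit 275) (nat_lit 176) (nat_lit 149)) (XT.lf (nat_lit 0) (nat_lit 91624457923635) (nat_lit 152) (nat_lit 59942556760255) (nat_lit 0) (nat_lit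 91624167274775) (nat_lit 1) (nat_lit 5) (nat_lit 3) (nat_lit 4) (nat_lit 1) (nat_lit 4) (nat_lit 287) (nat_lit 176) (nat_lit 137)))))) (XT.nd (nat_lit 28392) (nat_lit 0) (nat_lit 0) (XT.nd (nat_lit 28080) (nat_lit 0) (nat_lit 0) (XT.nd (nat_lit 156) (nat_lit 0) (nat_lit 0) (XT.nd (nat_lit 78) (nat_lit 0) (nat_lit 0) (XT.lf (nat_lit 0) (nat_lit 105368309826971) (nat_lit 152) (nat_lit 68933495870421) (nat_lit 0) (nat_lit 105368019014649) (nat_lit 1) (nat_lit 5) (nat_lit 3) (nat_lit 4) (nat_lit 1) (nat_lit 4) (nat_lit 288) (nat_lit 176) (nat_lit 136)) (XT.lf (nat_lit 0) (nat_lit 121173739280046) (nat_lit 152) (nat_lit 79273076308668) (nat_lit 0) (nat_lit 121173448325584) (nat_lit 1) (nat_lit 5) (nat_lit 3) (nat_lit 4) (nat_lit 1) (nat_lit 4) (nat_lit 289) (nat_lit 176) (nat_lit 135))) (XT.nd (nat_lit 27846) (nat_lit 0) (nat_lit 0) (XT.lf (nat_lit 0) (nat_lit 139349982946072) (nat_lit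 152) (nat_lit 91163594214006) (nat_lit 0) (nat_lit 139349691868010) (nat_lit 1) (nat_lit 5) (nat_lit 3) (nat_lit 4) (nat_lit 1) (nat_lit 4) (nat_lit 290) (nat_lit 176) (nat_lit 134)) (XT.lf (nat_lit 0) (nat_lit 147163543070) (nat_lit 152) (nat_lit 100670913247) (nat_lit 0) (nat_lit 147163543070) (nat_lit 1) (nat_lit 5) (nat_lit 3) (nat_lit 4) (nat_lit 1) (nat_lit 4) (nat_lit 246) (nat_lit 177) (nat_lit 177)))) (XT.nd (nat_lit 156) (nat_lit 0) (nat_lit 0) (XT.nd (nat_lit 78) (nat_lit 0) (nat_lit 0) (XT.lf (nat_lit 0) (nat_lit 339168931526) (nat_lit 152) (nat_lit 230088245052) (nat_lit 0) (nat_lit 339125146216) (nat_lit 1) (nat_lit 5) (nat_lit 3) (nat_lit 4) (nat_lit 1) (nat_lit 4) (nat_lit 247) (nat_lit 177) (nat_lit 176)) (XT.lf (nat_lit 0) (nat_lit 390673901882) (nat_lit 152) (nat_lit 263270260351) (nat_lit 0) (nat_lit 390592042391) (nat_lit 1) (nat_lit 5) (nat_lit 3) (nat_lit 4)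 (nat_lit 1) (nat_lit 4) (nat_lit 248) (nat_lit 177) (nat_lit 175))) (XT.nd (nat_lit 78) (nat_lit 0) (nat_lit 0) (XT.lf (nat_lit 0) (nat_lit 449849703151) (nat_lit 152) (nat_lit 301537085735) (nat_lit 0) (nat_lit 449734735675) (nat_lit 1) (nat_lit 5) (nat_lit 3) (nat_lit 4) (nat_lit 1) (nat_lit 4) (nat_lit 249) (nat_lit 177) (nat_lit 174)) (XT.lf (nat_lit 0) (nat_lit 517854122749) (nat_lit 152) (nat_lit 345637419962) (nat_lit 0) (nat_lit 517710365721) (nat_lit 1) (nat_lit 5) (nat_lit 3) (nat_lit 4) (nat_lit 1) (nat_lit 4) (nat_lit 250) (nat_lit 177) (nat_lit 173))))) (XT.nd (nat_lit 312) (nat_lit 0) (nat_lit 0) (XT.nd (nat_lit 156) (nat_lit 0) (nat_lit 0) (XT.nd (nat_lit 78) (nat_lit 0) (nat_lit 0) (XT.lf (nat_lit 0) (nat_lit 596017681929) (nat_lit 152) (nat_lit 396434095657) (nat_lit 0) (nat_lit 595848890508) (nat_lit 1) (nat_lit 5) (nat_lit 3) (nat_lit 4) (nat_lit 1) (nat_lit 4) (nat_lit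 251) (nat_lit 177) (nat_lit 172)) (XT.lf (nat_lit 0) (nat_lit 685869667718) (nat_lit 152) (nat_lit 454920960823) (nat_lit 0) (nat_lit 685679107260) (nat_lit 1) (nat_lit 5) (nat_lit 3) (nat_lit 4) (nat_lit 1) (nat_lit 4) (nat_lit 252) (nat_lit 177) (nat_lit 171))) (XT.nd (nat_lit 78) (nat_lit 0) (nat_lit 0) (XT.lf (nat_lit 0) (nat_lit 789168053751) (nat_lit 152) (nat_lit 522242323692) (nat_lit 0) (nat_lit 788958563695) (nat_lit 1) (nat_lit 5) (nat_lit 3) (nat_lit 4) (nat_lit 1) (nat_lit 4) (nat_lit 253) (nat_lit 177) (nat_lit 170)) (XT.lf (nat_lit 0) (nat_lit 907933895407) (nat_lit 152) (nat_lit 599715341363) (nat_lit 0) (nat_lit 907707944832) (nat_lit 1) (nat_lit 5) (nat_lit 3) (nat_lit 4) (nat_lit 1) (nat_lit 4) (nat_lit 254) (nat_lit 177) (nat_lit 169)))) (XT.nd (nat_lit 156) (nat_lit 0) (nat_lit 0) (XT.nd (nat_lit 78) (nat_lit 0) (nat_lit 0) (XT.lf (nat_lit 0) (nat_lit 1044490872196)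 (nat_lit 152) (nat_lit 688855790269) (nat_lit 0) (nat_lit 1044250608126) (nat_lit 1) (nat_lit 5) (nat_lit 3) (nat_lit 4) (nat_lit 1) (nat_lit 4) (nat_lit 255) (nat_lit 177) (nat_lit 168)) (XT.lf (nat_lit 0) (nat_lit 1201510751057) (nat_lit 152) (nat_lit 791407722671) (nat_lit 0) (nat_lit 1201258040469) (nat_lit 1) (nat_lit 5) (nat_lit 3) (nat_lit 4) (nat_lit 1) (nat_lit 4) (nat_lit 256) (nat_lit 177) (nat_lit 167))) (XT.nd (nat_lit 78) (nat_lit 0) (nat_lit 0) (XT.lf (nat_lit 0) (nat_lit 1382065660053) (nat_lit 152) (nat_lit 909377589421) (nat_lit 0) (nat_lit 1381802126406) (nat_lit 1) (nat_lit 5) (nat_lit 3) (nat_lit 4) (nat_lit 1) (nat_lit 4) (nat_lit 257) (nat_lit 177) (nat_lit 166)) (XT.lf (nat_lit 0) (nat_lit 1589688195231) (nat_lit 152) (nat_lit 1045073496607) (nat_lit 0) (nat_lit 1589415250228) (nat_lit 1) (nat_lit 5) (nat_lit 3) (nat_lit 4) (nat_lit 1) (nat_lit 4) (nat_lit 258)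 (nat_lit 177) (nat_lit 165))))))))
noncomputable def xc7 : XT := (XT.nd (nat_lit 1248) (nat_lit 0) (nat_lit 0) (XT.nd (nat_lit 624) (nat_lit 0) (nat_lit 0) (XT.nd (nat_lit 312) (nat_lit 0) (nat_lit 0) (XT.nd (nat_lit 156) (nat_lit 0) (nat_lit 0) (XT.nd (nat_lit 78) (nat_lit 0) (nat_lit 0) (XT.lf (nat_lit 0) (nat_lit 1828440536625) (nat_lit 152) (nat_lit 1201150364152) (nat_lit 0) (nat_lit 1828159407835) (nat_lit 1) (nat_lit 5) (nat_lit 3) (nat_lit 4) (nat_lit 1) (nat_lit 4) (nat_lit 259) (nat_lit 177) (nat_lit 164)) (XT.lf (nat_lit 0) (nat_lit 2102993925699) (nat_lit 152) (nat_lit 1380661869900) (nat_lit 0) (nat_lit 2102705680573) (nat_lit 1) (nat_lit 5) (nat_lit 3) (nat_lit 4) (nat_lit 1) (nat_lit 4) (nat_lit 260) (nat_lit 177) (nat_lit 163))) (XT.nd (nat_lit 78) (nat_lit 0) (nat_lit 0) (XT.lf (nat_lit 0) (nat_lit 2418720059195) (nat_lit 152) (nat_lit 1587120195484) (nat_lit 0) (nat_lit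 2418425625950) (nat_lit 1) (nat_lit 5) (nat_lit 3) (nat_lit 4) (nat_lit 1) (nat_lit 4) (nat_lit 261) (nat_lit 177) (nat_lit 162)) (XT.lf (nat_lit 0) (nat_lit 2781796187551) (nat_lit 152) (nat_lit 1824564742928) (nat_lit 0) (nat_lit 2781496373332) (nat_lit 1) (nat_lit 5) (nat_lit 3) (nat_lit 4) (nat_lit 1) (nat_lit 4) (nat_lit 262) (nat_lit 177) (nat_lit 161)))) (XT.nd (nat_lit 156) (nat_lit 0) (nat_lit 0) (XT.nd (nat_lit 78) (nat_lit 0) (nat_lit 0) (XT.lf (nat_lit 0) (nat_lit 3199325974148) (nat_lit 152) (nat_lit 2097641166420) (nat_lit 0) (nat_lit 3199021480822) (nat_lit 1) (nat_lit 5) (nat_lit 3) (nat_lit 4) (nat_lit 1) (nat_lit 4) (nat_lit 263) (nat_lit 177) (nat_lit 160)) (XT.lf (nat_lit 0) (nat_lit 3679478480028) (nat_lit 152) (nat_lit 2411692265550) (nat_lit 0) (nat_lit 3679169917914) (nat_lit 1) (nat_lit 5) (nat_lit 3) (nat_lit 4) (nat_lit 1) (nat_lit 4) (nat_lit 264) (nat_lit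 177) (nat_lit 159))) (XT.nd (nat_lit 78) (nat_lit 0) (nat_lit 0) (XT.lf (nat_lit 0) (nat_lit 4231647993350) (nat_lit 152) (nat_lit 2772862518346) (nat_lit 0) (nat_lit 4231335893158) (nat_lit 1) (nat_lit 5) (nat_lit 3) (nat_lit 4) (nat_lit 1) (nat_lit 4) (nat_lit 265) (nat_lit 177) (nat_lit 158)) (XT.lf (nat_lit 0) (nat_lit 4866637830678) (nat_lit 152) (nat_lit 3188218299317) (nat_lit 0) (nat_lit 4866322653897) (nat_lit 1) (nat_lit 5) (nat_lit 3) (nat_lit 4) (nat_lit 1) (nat_lit 4) (nat_lit 266) (nat_lit 177) (nat_lit 157))))) (XT.nd (nat_lit 312) (nat_lit 0) (nat_lit 0) (XT.nd (nat_lit 156) (nat_lit 0) (nat_lit 0) (XT.nd (nat_lit 78) (nat_lit 0) (nat_lit 0) (XT.lf (nat_lit 0) (nat_lit 5596871706221) (nat_lit 152) (nat_lit 3665886134613) (nat_lit 0) (nat_lit 5596553854146) (nat_lit 1) (nat_lit 5) (nat_lit 3) (nat_lit 4) (nat_lit 1) (nat_lit 4) (nat_lit 267) (nat_lit 177) (nat_lit 156))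 (XT.lf (nat_lit 0) (nat_lit 6436636804501) (nat_lit 152) (nat_lit 4215211699273) (nat_lit 0) (nat_lit 6436316626082) (nat_lit 1) (nat_lit 5) (nat_lit 3) (nat_lit 4) (nat_lit 1) (nat_lit 4) (nat_lit 268) (nat_lit 177) (nat_lit 155))) (XT.nd (nat_lit 78) (nat_lit 0) (nat_lit 0) (XT.lf (nat_lit 0) (nat_lit 7402363312222) (nat_lit 152) (nat_lit 4846942667388) (nat_lit 0) (nat_lit 7402041110897) (nat_lit 1) (nat_lit 5) (nat_lit 3) (nat_lit 4) (nat_lit 1) (nat_lit 4) (nat_lit 269) (nat_lit 177) (nat_lit 154)) (XT.lf (nat_lit 0) (nat_lit 8512945878450) (nat_lit 152) (nat_lit 5573438992683) (nat_lit 0) (nat_lit 8512621918075) (nat_lit 1) (nat_lit 5) (nat_lit 3) (nat_lit 4) (nat_lit 1) (nat_lit 4) (nat_lit 270) (nat_lit 177) (nat_lit 153)))) (XT.nd (nat_lit 156) (nat_lit 0) (nat_lit 0) (XT.nd (nat_lit 78) (nat_lit 0) (nat_lit 0) (XT.lf (nat_lit 0) (nat_lit 9790113292524) (nat_lit 152) (nat_lit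 6408914733694) (nat_lit 0) (nat_lit 9789787802541) (nat_lit 1) (nat_lit 5) (nat_lit 3) (nat_lit 4) (nat_lit 1) (nat_lit 4) (nat_lit 271) (nat_lit 177) (nat_lit 152)) (XT.lf (nat_lit 0) (nat_lit 11258853612544) (nat_lit 152) (nat_lit 7369716154921) (nat_lit 0) (nat_lit 11258526792467) (nat_lit 1) (nat_lit 5) (nat_lit 3) (nat_lit 4) (nat_lit 1) (nat_lit 4) (nat_lit 272) (nat_lit 177) (nat_lit 151))) (XT.nd (nat_lit 78) (nat_lit 0) (nat_lit 0) (XT.lf (nat_lit 0) (nat_lit 12947903062164) (nat_lit 152) (nat_lit 8474641545040) (nat_lit 0) (nat_lit 12947575085483) (nat_lit 1) (nat_lit 5) (nat_lit 3) (nat_lit 4) (nat_lit 1) (nat_lit 4) (nat_lit 273) (nat_lit 177) (nat_lit 150)) (XT.lf (nat_lit 0) (nat_lit 14890308261050) (nat_lit 152) (nat_lit 9745309009509) (nat_lit 0) (nat_lit 14889979278626) (nat_lit 1) (nat_lit 5) (nat_lit 3) (nat_lit 4) (nat_lit 1) (nat_lit 4) (nat_lit 274) (nat_lit 177)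 (nat_lit 149)))))) (XT.nd (nat_lit 28938) (nat_lit 0) (nat_lit 0) (XT.nd (nat_lit 312) (nat_lit 0) (nat_lit 0) (XT.nd (nat_lit 156) (nat_lit 0) (nat_lit 0) (XT.nd (nat_lit 78) (nat_lit 0) (nat_lit 0) (XT.lf (nat_lit 0) (nat_lit 17124072789180) (nat_lit 152) (nat_lit 11206579433502) (nat_lit 0) (nat_lit 17123742932198) (nat_lit 1) (nat_lit 5) (nat_lit 3) (nat_lit 4) (nat_lit 1) (nat_lit 4) (nat_lit 275) (nat_lit 177) (nat_lit 148)) (XT.lf (nat_lit 0) (nat_lit 19692900735148) (nat_lit 152) (nat_lit 12887042890534) (nat_lit 0) (nat_lit 19692570117680) (nat_lit 1) (nat_lit 5) (nat_lit 3) (nat_lit 4) (nat_lit 1) (nat_lit 4) (nat_lit 276) (nat_lit 177) (nat_lit 147))) (XT.nd (nat_lit 78) (nat_lit 0) (nat_lit 0) (XT.lf (nat_lit 0) (nat_lit 22647051776157) (nat_lit 152) (nat_lit 14819578013458) (nat_lit 0) (nat_lit 22646720497398) (nat_lit 1) (nat_lit 5) (nat_lit 3) (nat_lit 4) (nat_lit 1)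 (nat_lit 4) (nat_lit 277) (nat_lit 177) (nat_lit 146)) (XT.lf (nat_lit 0) (nat_lit 26044324519533) (nat_lit 152) (nat_lit 17041995272071) (nat_lit 0) (nat_lit 26043992665736) (nat_lit 1) (nat_lit 5) (nat_lit 3) (nat_lit 4) (nat_lit 1) (nat_lit 4) (nat_lit 278) (nat_lit 177) (nat_lit 145)))) (XT.nd (nat_lit 156) (nat_lit 0) (nat_lit 0) (XT.nd (nat_lit 78) (nat_lit 0) (nat_lit 0) (XT.lf (nat_lit 0) (nat_lit 29951187345036) (nat_lit 152) (nat_lit 19597776743172) (nat_lit 0) (nat_lit 29950854991208) (nat_lit 1) (nat_lit 5) (nat_lit 3) (nat_lit 4) (nat_lit 1) (nat_lit 4) (nat_lit 279) (nat_lit 177) (nat_lit 144)) (XT.lf (nat_lit 0) (nat_lit 34444078873165) (nat_lit 152) (nat_lit 22536926846848) (nat_lit 0) (nat_lit 34443746084527) (nat_lit 1) (nat_lit 5) (nat_lit 3) (nat_lit 4) (nat_lit 1) (nat_lit 4) (nat_lit 280) (nat_lit 177) (nat_lit 143))) (XT.nd (nat_lit 28392) (nat_lit 0) (nat_lit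 0) (XT.lf (nat_lit 0) (nat_lit 39610903503384) (nat_lit 152) (nat_lit 25916950693823) (nat_lit 0) (nat_lit 39610570336650) (nat_lit 1) (nat_lit 5) (nat_lit 3) (nat_lit 4) (nat_lit 1) (nat_lit 4) (nat_lit 281) (nat_lit 177) (nat_lit 142)) (XT.lf (nat_lit 0) (nat_lit 110662903714) (nat_lit 152) (nat_lit 77452894991) (nat_lit 0) (nat_lit 110662903714) (nat_lit 1) (nat_lit 5) (nat_lit 3) (nat_lit 4) (nat_lit 1) (nat_lit 4) (nat_lit 244) (nat_lit 178) (nat_lit 178))))) (XT.nd (nat_lit 312) (nat_lit 0) (nat_lit 0) (XT.nd (nat_lit 156) (nat_lit 0) (nat_lit 0) (XT.nd (nat_lit 78) (nat_lit 0) (nat_lit 0) (XT.lf (nat_lit 0) (nat_lit 255321378378) (nat_lit 152) (nat_lit 176468574751) (nat_lit 0) (nat_lit 255271025272) (nat_lit 1) (nat_lit 5) (nat_lit 3) (nat_lit 4) (nat_lit 1) (nat_lit 4) (nat_lit 245) (nat_lit 178) (nat_lit 177)) (XT.lf (nat_lit 0) (nat_lit 294343660356) (nat_lit 152) (nat_lit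 201407956286) (nat_lit 0) (nat_lit 294249521941) (nat_lit 1) (nat_lit 5) (nat_lit 3) (nat_lit 4) (nat_lit 1) (nat_lit 4) (nat_lit 246) (nat_lit 178) (nat_lit 176))) (XT.nd (nat_lit 78) (nat_lit 0) (nat_lit 0) (XT.lf (nat_lit 0) (nat_lit 339156132794) (nat_lit 152) (nat_lit 230211879010) (nat_lit 0) (nat_lit 339023920197) (nat_lit 1) (nat_lit 5) (nat_lit 3) (nat_lit 4) (nat_lit 1) (nat_lit 4) (nat_lit 247) (nat_lit 178) (nat_lit 175)) (XT.lf (nat_lit 0) (nat_lit 390635561458) (nat_lit 152) (nat_lit 263443897933) (nat_lit 0) (nat_lit 390470240876) (nat_lit 1) (nat_lit 5) (nat_lit 3) (nat_lit 4) (nat_lit 1) (nat_lit 4) (nat_lit 248) (nat_lit 178) (nat_lit 174)))) (XT.nd (nat_lit 156) (nat_lit 0) (nat_lit 0) (XT.nd (nat_lit 78) (nat_lit 0) (nat_lit 0) (XT.lf (nat_lit 0) (nat_lit 449789152558) (nat_lit 152) (nat_lit 301754204728) (nat_lit 0) (nat_lit 449595042425) (nat_lit 1) (nat_lit 5)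 (nat_lit 3) (nat_lit 4) (nat_lit 1) (nat_lit 4) (nat_lit 249) (nat_lit 178) (nat_lit 173)) (XT.lf (nat_lit 0) (nat_lit 517774258967) (nat_lit 152) (nat_lit 345892348878) (nat_lit 0) (nat_lit 517555114440) (nat_lit 1) (nat_lit 5) (nat_lit 3) (nat_lit 4) (nat_lit 1) (nat_lit 4) (nat_lit 250) (nat_lit 178) (nat_lit 172))) (XT.nd (nat_lit 78) (nat_lit 0) (nat_lit 0) (XT.lf (nat_lit 0) (nat_lit 595921024068) (nat_lit 152) (nat_lit 396721902767) (nat_lit 0) (nat_lit 595680110505) (nat_lit 1) (nat_lit 5) (nat_lit 3) (nat_lit 4) (nat_lit 1) (nat_lit 4) (nat_lit 251) (nat_lit 178) (nat_lit 171)) (XT.lf (nat_lit 0) (nat_lit 685758406311) (nat_lit 152) (nat_lit 455237357667) (nat_lit 0) (nat_lit 685498563150) (nat_lit 1) (nat_lit 5) (nat_lit 3) (nat_lit 4) (nat_lit 1) (nat_lit 4) (nat_lit 252) (nat_lit 178) (nat_lit 170)))))))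
noncomputable def xc8 : XT := (XT.nd (nat_lit 1248) (nat_lit 0) (nat_lit 0) (XT.nd (nat_lit 624) (nat_lit 0) (nat_lit 0) (XT.nd (nat_lit 312) (nat_lit 0) (nat_lit 0) (XT.nd (nat_lit 156) (nat_lit 0) (nat_lit 0) (XT.nd (nat_lit 78) (nat_lit 0) (nat_lit 0) (XT.lf (nat_lit 0) (nat_lit 789044093608) (nat_lit 152) (nat_lit 522583581173) (nat_lit 0) (nat_lit 788767789927) (nat_lit 1) (nat_lit 5) (nat_lit 3) (nat_lit 4) (nat_lit 1) (nat_lit 4) (nat_lit 253) (nat_lit 178) (nat_lit 169)) (XT.lf (nat_lit 0) (nat_lit 907798892885) (nat_lit 152) (nat_lit 600078216791) (nat_lit 0) (nat_lit 907508275709) (nat_lit 1) (nat_lit 5) (nat_lit 3) (nat_lit 4) (nat_lit 1) (nat_lit 4) (nat_lit 254) (nat_lit 178) (nat_lit 168))) (XT.nd (nat_lit 78) (nat_lit 0) (nat_lit 0) (XT.lf (nat_lit 0) (nat_lit 1044346267606) (nat_lit 152) (nat_lit 689237463911) (nat_lit 0) (nat_lit 1044043203912) (nat_lit 1) (nat_lit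 5) (nat_lit 3) (nat_lit 4) (nat_lit 1) (nat_lit 4) (nat_lit 255) (nat_lit 178) (nat_lit 167)) (XT.lf (nat_lit 0) (nat_lit 1201357796842) (nat_lit 152) (nat_lit 791805742586) (nat_lit 0) (nat_lit 1201043910089) (nat_lit 1) (nat_lit 5) (nat_lit 3) (nat_lit 4) (nat_lit 1) (nat_lit 4) (nat_lit 256) (nat_lit 178) (nat_lit 166)))) (XT.nd (nat_lit 156) (nat_lit 0) (nat_lit 0) (XT.nd (nat_lit 78) (nat_lit 0) (nat_lit 0) (XT.lf (nat_lit 0) (nat_lit 1381905445295) (nat_lit 152) (nat_lit 909789823487) (nat_lit 0) (nat_lit 1381582147187) (nat_lit 1) (nat_lit 5) (nat_lit 3) (nat_lit 4) (nat_lit 1) (nat_lit 4) (nat_lit 257) (nat_lit 178) (nat_lit 165)) (XT.lf (nat_lit 0) (nat_lit 1589521666956) (nat_lit 152) (nat_lit 1045498090803) (nat_lit 0) (nat_lit 1589190185061) (nat_lit 1) (nat_lit 5) (nat_lit 3) (nat_lit 4) (nat_lit 1) (nat_lit 4) (nat_lit 258) (nat_lit 178) (nat_lit 164))) (XT.nd (nat_lit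 78) (nat_lit 0) (nat_lit 0) (XT.lf (nat_lit 0) (nat_lit 1828268518337) (nat_lit 152) (nat_lit 1201585706289) (nat_lit 0) (nat_lit 1827929920105) (nat_lit 1) (nat_lit 5) (nat_lit 3) (nat_lit 4) (nat_lit 1) (nat_lit 4) (nat_lit 259) (nat_lit 178) (nat_lit 163)) (XT.lf (nat_lit 0) (nat_lit 2102817133486) (nat_lit 152) (nat_lit 1381106558071) (nat_lit 0) (nat_lit 2102472347134) (nat_lit 1) (nat_lit 5) (nat_lit 3) (nat_lit 4) (nat_lit 1) (nat_lit 4) (nat_lit 260) (nat_lit 178) (nat_lit 162))))) (XT.nd (nat_lit 312) (nat_lit 0) (nat_lit 0) (XT.nd (nat_lit 156) (nat_lit 0) (nat_lit 0) (XT.nd (nat_lit 78) (nat_lit 0) (nat_lit 0) (XT.lf (nat_lit 0) (nat_lit 2418539115743) (nat_lit 152) (nat_lit 1587573010643) (nat_lit 0) (nat_lit 2418188948418) (nat_lit 1) (nat_lit 5) (nat_lit 3) (nat_lit 4) (nat_lit 1) (nat_lit 4) (nat_lit 261) (nat_lit 178) (nat_lit 161)) (XT.lf (nat_lit 0) (nat_lit 2781611634325)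 (nat_lit 152) (nat_lit 1825024625031) (nat_lit 0) (nat_lit 2781256787894) (nat_lit 1) (nat_lit 5) (nat_lit 3) (nat_lit 4) (nat_lit 1) (nat_lit 4) (nat_lit 262) (nat_lit 178) (nat_lit 160))) (XT.nd (nat_lit 78) (nat_lit 0) (nat_lit 0) (XT.lf (nat_lit 0) (nat_lit 3199138281989) (nat_lit 152) (nat_lit 2098107193693) (nat_lit 0) (nat_lit 3198779366769) (nat_lit 1) (nat_lit 5) (nat_lit 3) (nat_lit 4) (nat_lit 1) (nat_lit 4) (nat_lit 263) (nat_lit 178) (nat_lit 159)) (XT.lf (nat_lit 0) (nat_lit 3679288058362) (nat_lit 152) (nat_lit 2412163636449) (nat_lit 0) (nat_lit 3678925605064) (nat_lit 1) (nat_lit 5) (nat_lit 3) (nat_lit 4) (nat_lit 1) (nat_lit 4) (nat_lit 264) (nat_lit 178) (nat_lit 158)))) (XT.nd (nat_lit 156) (nat_lit 0) (nat_lit 0) (XT.nd (nat_lit 78) (nat_lit 0) (nat_lit 0) (XT.lf (nat_lit 0) (nat_lit 4231455198199) (nat_lit 152) (nat_lit 2773338535875) (nat_lit 0) (nat_lit 4231089668313)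 (nat_lit 1) (nat_lit 5) (nat_lit 3) (nat_lit 4) (nat_lit 1) (nat_lit 4) (nat_lit 265) (nat_lit 178) (nat_lit 157)) (XT.lf (nat_lit 0) (nat_lit 4866442971627) (nat_lit 152) (nat_lit 3188698357395) (nat_lit 0) (nat_lit 4866074766446) (nat_lit 1) (nat_lit 5) (nat_lit 3) (nat_lit 4) (nat_lit 1) (nat_lit 4) (nat_lit 266) (nat_lit 178) (nat_lit 156))) (XT.nd (nat_lit 78) (nat_lit 0) (nat_lit 0) (XT.lf (nat_lit 0) (nat_lit 5596675052475) (nat_lit 152) (nat_lit 3666369706212) (nat_lit 0) (nat_lit 5596304520951) (nat_lit 1) (nat_lit 5) (nat_lit 3) (nat_lit 4) (nat_lit 1) (nat_lit 4) (nat_lit 267) (nat_lit 178) (nat_lit 155)) (XT.lf (nat_lit 0) (nat_lit 6436438590150) (nat_lit 152) (nat_lit 4215698326107) (nat_lit 0) (nat_lit 6436066035719) (nat_lit 1) (nat_lit 5) (nat_lit 3) (nat_lit 4) (nat_lit 1) (nat_lit 4) (nat_lit 268) (nat_lit 178) (nat_lit 154)))))) (XT.nd (nat_lit 624) (nat_lit 0) (nat_lit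 0) (XT.nd (nat_lit 312) (nat_lit 0) (nat_lit 0) (XT.nd (nat_lit 156) (nat_lit 0) (nat_lit 0) (XT.nd (nat_lit 78) (nat_lit 0) (nat_lit 0) (XT.lf (nat_lit 0) (nat_lit 7402163740825) (nat_lit 152) (nat_lit 4847431950949) (nat_lit 0) (nat_lit 7401789427344) (nat_lit 1) (nat_lit 5) (nat_lit 3) (nat_lit 4) (nat_lit 1) (nat_lit 4) (nat_lit 269) (nat_lit 178) (nat_lit 153)) (XT.lf (nat_lit 0) (nat_lit 8512745127011) (nat_lit 152) (nat_lit 5573930586440) (nat_lit 0) (nat_lit 8512369283922) (nat_lit 1) (nat_lit 5) (nat_lit 3) (nat_lit 4) (nat_lit 1) (nat_lit 4) (nat_lit 270) (nat_lit 178) (nat_lit 152))) (XT.nd (nat_lit 78) (nat_lit 0) (nat_lit 0) (XT.lf (nat_lit 0) (nat_lit 9789911514962) (nat_lit 152) (nat_lit 6409408336318) (nat_lit 0) (nat_lit 9789534341779) (nat_lit 1) (nat_lit 5) (nat_lit 3) (nat_lit 4) (nat_lit 1) (nat_lit 4) (nat_lit 271) (nat_lit 178) (nat_lit 151)) (XT.lf (nat_lit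 0) (nat_lit 11258650942702) (nat_lit 152) (nat_lit 7370211504386) (nat_lit 0) (nat_lit 11258272612915) (nat_lit 1) (nat_lit 5) (nat_lit 3) (nat_lit 4) (nat_lit 1) (nat_lit 4) (nat_lit 272) (nat_lit 178) (nat_lit 150)))) (XT.nd (nat_lit 156) (nat_lit 0) (nat_lit 0) (XT.nd (nat_lit 78) (nat_lit 0) (nat_lit 0) (XT.lf (nat_lit 0) (nat_lit 12947699616425) (nat_lit 152) (nat_lit 8475138413496) (nat_lit 0) (nat_lit 12947320280896) (nat_lit 1) (nat_lit 5) (nat_lit 3) (nat_lit 4) (nat_lit 1) (nat_lit 4) (nat_lit 273) (nat_lit 178) (nat_lit 149)) (XT.lf (nat_lit 0) (nat_lit 14890104140619) (nat_lit 152) (nat_lit 9745807198828) (nat_lit 0) (nat_lit 14889723930531) (nat_lit 1) (nat_lit 5) (nat_lit 3) (nat_lit 4) (nat_lit 1) (nat_lit 4) (nat_lit 274) (nat_lit 178) (nat_lit 148))) (XT.nd (nat_lit 78) (nat_lit 0) (nat_lit 0) (XT.lf (nat_lit 0) (nat_lit 17123868082059) (nat_lit 152) (nat_lit 11207078771398)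 (nat_lit 0) (nat_lit 17123487111486) (nat_lit 1) (nat_lit 5) (nat_lit 3) (nat_lit 4) (nat_lit 1) (nat_lit 4) (nat_lit 275) (nat_lit 178) (nat_lit 147)) (XT.lf (nat_lit 0) (nat_lit 19692695517863) (nat_lit 152) (nat_lit 12887543227191) (nat_lit 0) (nat_lit 19692313885997) (nat_lit 1) (nat_lit 5) (nat_lit 3) (nat_lit 4) (nat_lit 1) (nat_lit 4) (nat_lit 276) (nat_lit 178) (nat_lit 146))))) (XT.nd (nat_lit 312) (nat_lit 0) (nat_lit 0) (XT.nd (nat_lit 156) (nat_lit 0) (nat_lit 0) (XT.nd (nat_lit 78) (nat_lit 0) (nat_lit 0) (XT.lf (nat_lit 0) (nat_lit 22646846115251) (nat_lit 152) (nat_lit 14820079218604) (nat_lit 0) (nat_lit 22646463908349) (nat_lit 1) (nat_lit 5) (nat_lit 3) (nat_lit 4) (nat_lit 1) (nat_lit 4) (nat_lit 277) (nat_lit 178) (nat_lit 145)) (XT.lf (nat_lit 0) (nat_lit 26044118472869) (nat_lit 152) (nat_lit 17042497232424) (nat_lit 0) (nat_lit 26043735765935) (nat_lit 1) (nat_lit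 5) (nat_lit 3) (nat_lit 4) (nat_lit 1) (nat_lit 4) (nat_lit 278) (nat_lit 178) (nat_lit 144))) (XT.nd (nat_lit 78) (nat_lit 0) (nat_lit 0) (XT.lf (nat_lit 0) (nat_lit 29950980962931) (nat_lit 152) (nat_lit 19598279360228) (nat_lit 0) (nat_lit 29950597821187) (nat_lit 1) (nat_lit 5) (nat_lit 3) (nat_lit 4) (nat_lit 1) (nat_lit 4) (nat_lit 279) (nat_lit 178) (nat_lit 143)) (XT.lf (nat_lit 0) (nat_lit 34443872199372) (nat_lit 152) (nat_lit 22537430034949) (nat_lit 0) (nat_lit 34443488679532) (nat_lit 1) (nat_lit 5) (nat_lit 3) (nat_lit 4) (nat_lit 1) (nat_lit 4) (nat_lit 280) (nat_lit 178) (nat_lit 142)))) (XT.nd (nat_lit 28236) (nat_lit 0) (nat_lit 0) (XT.nd (nat_lit 78) (nat_lit 0) (nat_lit 0) (XT.lf (nat_lit 0) (nat_lit 39610696575949) (nat_lit 152) (nat_lit 25917454378485) (nat_lit 0) (nat_lit 39610312727331) (nat_lit 1) (nat_lit 5) (nat_lit 3) (nat_lit 4) (nat_lit 1) (nat_lit 4)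 (nat_lit 281) (nat_lit 178) (nat_lit 141)) (XT.lf (nat_lit 0) (nat_lit 45552544134813) (nat_lit 152) (nat_lit 29804483301904) (nat_lit 0) (nat_lit 45552160000300) (nat_lit 1) (nat_lit 5) (nat_lit 3) (nat_lit 4) (nat_lit 1) (nat_lit 4) (nat_lit 282) (nat_lit 178) (nat_lit 140))) (XT.nd (nat_lit 78) (nat_lit 0) (nat_lit 0) (XT.lf (nat_lit 0) (nat_lit 82971094798) (nat_lit 152) (nat_lit 60096420738) (nat_lit 0) (nat_lit 82971094798) (nat_lit 1) (nat_lit 5) (nat_lit 3) (nat_lit 4) (nat_lit 1) (nat_lit 4) (nat_lit 242) (nat_lit 179) (nat_lit 179)) (XT.nd (nat_lit 78) (nat_lit 0) (nat_lit 0) (XT.lf (nat_lit 0) (nat_lit 191749722846) (nat_lit 152) (nat_lit 136297721410) (nat_lit 0) (nat_lit 191691816774) (nat_lit 1) (nat_lit 5) (nat_lit 3) (nat_lit 4) (nat_lit 1) (nat_lit 4) (nat_lit 243) (nat_lit 179) (nat_lit 178)) (XT.lf (nat_lit 0) (nat_lit 221344867778) (nat_lit 152) (nat_lit 154981839243)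 (nat_lit 0) (nat_lit 221236608600) (nat_lit 1) (nat_lit 5) (nat_lit 3) (nat_lit 4) (nat_lit 1) (nat_lit 4) (nat_lit 244) (nat_lit 179) (nat_lit 177))))))))
noncomputable def xc9 : XT := (XT.nd (nat_lit 2496) (nat_lit 0) (nat_lit 0) (XT.nd (nat_lit 1248) (nat_lit 0) (nat_lit 0) (XT.nd (nat_lit 624) (nat_lit 0) (nat_lit 0) (XT.nd (nat_lit 312) (nat_lit 0) (nat_lit 0) (XT.nd (nat_lit 156) (nat_lit 0) (nat_lit 0) (XT.nd (nat_lit 78) (nat_lit 0) (nat_lit 0) (XT.lf (nat_lit 0) (nat_lit 255306659837) (nat_lit 152) (nat_lit 176610753803) (nat_lit 0) (nat_lit 255154615350) (nat_lit 1) (nat_lit 5) (nat_lit 3) (nat_lit 4) (nat_lit 1) (nat_lit 4) (nat_lit 245) (nat_lit 179) (nat_lit 176)) (XT.lf (nat_lit 0) (nat_lit 294299568868) (nat_lit 152) (nat_lit 201607639505) (nat_lit 0) (nat_lit 294109450199) (nat_lit 1) (nat_lit 5) (nat_lit 3) (nat_lit 4) (nat_lit 1) (nat_lit 4) (nat_lit 246) (nat_lit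 179) (nat_lit 175))) (XT.nd (nat_lit 78) (nat_lit 0) (nat_lit 0) (XT.lf (nat_lit 0) (nat_lit 339086499613) (nat_lit 152) (nat_lit 230461565852) (nat_lit 0) (nat_lit 338863272959) (nat_lit 1) (nat_lit 5) (nat_lit 3) (nat_lit 4) (nat_lit 1) (nat_lit 4) (nat_lit 247) (nat_lit 179) (nat_lit 174)) (XT.lf (nat_lit 0) (nat_lit 390543718108) (nat_lit 152) (nat_lit 263737066186) (nat_lit 0) (nat_lit 390291701902) (nat_lit 1) (nat_lit 5) (nat_lit 3) (nat_lit 4) (nat_lit 1) (nat_lit 4) (nat_lit 248) (nat_lit 179) (nat_lit 173)))) (XT.nd (nat_lit 156) (nat_lit 0) (nat_lit 0) (XT.nd (nat_lit 78) (nat_lit 0) (nat_lit 0) (XT.lf (nat_lit 0) (nat_lit 449677996019) (nat_lit 152) (nat_lit 302085182905) (nat_lit 0) (nat_lit 449400945421) (nat_lit 1) (nat_lit 5) (nat_lit 3) (nat_lit 4) (nat_lit 1) (nat_lit 4) (nat_lit 249) (nat_lit 179) (nat_lit 172)) (XT.lf (nat_lit 0) (nat_lit 517646308349) (nat_lit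 152) (nat_lit 346256205248) (nat_lit 0) (nat_lit 517347488714) (nat_lit 1) (nat_lit 5) (nat_lit 3) (nat_lit 4) (nat_lit 1) (nat_lit 4) (nat_lit 250) (nat_lit 179) (nat_lit 171))) (XT.nd (nat_lit 78) (nat_lit 0) (nat_lit 0) (XT.lf (nat_lit 0) (nat_lit 595778469904) (nat_lit 152) (nat_lit 397114348871) (nat_lit 0) (nat_lit 595460720671) (nat_lit 1) (nat_lit 5) (nat_lit 3) (nat_lit 4) (nat_lit 1) (nat_lit 4) (nat_lit 251) (nat_lit 179) (nat_lit 170)) (XT.lf (nat_lit 0) (nat_lit 685603153411) (nat_lit 152) (nat_lit 455654664409) (nat_lit 0) (nat_lit 685268943659) (nat_lit 1) (nat_lit 5) (nat_lit 3) (nat_lit 4) (nat_lit 1) (nat_lit 4) (nat_lit 252) (nat_lit 179) (nat_lit 169))))) (XT.nd (nat_lit 312) (nat_lit 0) (nat_lit 0) (XT.nd (nat_lit 156) (nat_lit 0) (nat_lit 0) (XT.nd (nat_lit 78) (nat_lit 0) (nat_lit 0) (XT.lf (nat_lit 0) (nat_lit 788877798330) (nat_lit 152) (nat_lit 523022505862)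 (nat_lit 0) (nat_lit 788529275082) (nat_lit 1) (nat_lit 5) (nat_lit 3) (nat_lit 4) (nat_lit 1) (nat_lit 4) (nat_lit 253) (nat_lit 179) (nat_lit 168)) (XT.lf (nat_lit 0) (nat_lit 907622995538) (nat_lit 152) (nat_lit 600535939693) (nat_lit 0) (nat_lit 907262025772) (nat_lit 1) (nat_lit 5) (nat_lit 3) (nat_lit 4) (nat_lit 1) (nat_lit 4) (nat_lit 254) (nat_lit 179) (nat_lit 167))) (XT.nd (nat_lit 78) (nat_lit 0) (nat_lit 0) (XT.lf (nat_lit 0) (nat_lit 1044162020634) (nat_lit 152) (nat_lit 689711533087) (nat_lit 0) (nat_lit 1043790227810) (nat_lit 1) (nat_lit 5) (nat_lit 3) (nat_lit 4) (nat_lit 1) (nat_lit 4) (nat_lit 255) (nat_lit 179) (nat_lit 166)) (XT.lf (nat_lit 0) (nat_lit 1201166289327) (nat_lit 152) (nat_lit 792294025913) (nat_lit 0) (nat_lit 1200785085147) (nat_lit 1) (nat_lit 5) (nat_lit 3) (nat_lit 4) (nat_lit 1) (nat_lit 4) (nat_lit 256) (nat_lit 179) (nat_lit 165)))) (XT.nd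 (nat_lit 156) (nat_lit 0) (nat_lit 0) (XT.nd (nat_lit 78) (nat_lit 0) (nat_lit 0) (XT.lf (nat_lit 0) (nat_lit 1381707624264) (nat_lit 152) (nat_lit 910290466944) (nat_lit 0) (nat_lit 1381318236296) (nat_lit 1) (nat_lit 5) (nat_lit 3) (nat_lit 4) (nat_lit 1) (nat_lit 4) (nat_lit 257) (nat_lit 179) (nat_lit 164)) (XT.lf (nat_lit 0) (nat_lit 1589318355911) (nat_lit 152) (nat_lit 1046009482201) (nat_lit 0) (nat_lit 1588921851607) (nat_lit 1) (nat_lit 5) (nat_lit 3) (nat_lit 4) (nat_lit 1) (nat_lit 4) (nat_lit 258) (nat_lit 179) (nat_lit 163))) (XT.nd (nat_lit 78) (nat_lit 0) (nat_lit 0) (XT.lf (nat_lit 0) (nat_lit 1828060433367) (nat_lit 152) (nat_lit 1202106443720) (nat_lit 0) (nat_lit 1827657740943) (nat_lit 1) (nat_lit 5) (nat_lit 3) (nat_lit 4) (nat_lit 1) (nat_lit 4) (nat_lit 259) (nat_lit 179) (nat_lit 162)) (XT.lf (nat_lit 0) (nat_lit 2102604897276) (nat_lit 152) (nat_lit 1381635422490)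 (nat_lit 0) (nat_lit 2102196823880) (nat_lit 1) (nat_lit 5) (nat_lit 3) (nat_lit 4) (nat_lit 1) (nat_lit 4) (nat_lit 260) (nat_lit 179) (nat_lit 161)))))) (XT.nd (nat_lit 624) (nat_lit 0) (nat_lit 0) (XT.nd (nat_lit 312) (nat_lit 0) (nat_lit 0) (XT.nd (nat_lit 156) (nat_lit 0) (nat_lit 0) (XT.nd (nat_lit 78) (nat_lit 0) (nat_lit 0) (XT.lf (nat_lit 0) (nat_lit 2418323269760) (nat_lit 152) (nat_lit 1588108942006) (nat_lit 0) (nat_lit 2417910517256) (nat_lit 1) (nat_lit 5) (nat_lit 3) (nat_lit 4) (nat_lit 1) (nat_lit 4) (nat_lit 261) (nat_lit 179) (nat_lit 160)) (XT.lf (nat_lit 0) (nat_lit 2781392649409) (nat_lit 152) (nat_lit 1825566701564) (nat_lit 0) (nat_lit 2780975828117) (nat_lit 1) (nat_lit 5) (nat_lit 3) (nat_lit 4) (nat_lit 1) (nat_lit 4) (nat_lit 262) (nat_lit 179) (nat_lit 159))) (XT.nd (nat_lit 78) (nat_lit 0) (nat_lit 0) (XT.lf (nat_lit 0) (nat_lit 3198916567566) (nat_lit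 152) (nat_lit 2098654613852) (nat_lit 0) (nat_lit 3198496208196) (nat_lit 1) (nat_lit 5) (nat_lit 3) (nat_lit 4) (nat_lit 1) (nat_lit 4) (nat_lit 263) (nat_lit 179) (nat_lit 158)) (XT.lf (nat_lit 0) (nat_lit 3679063970454) (nat_lit 152) (nat_lit 2412715703239) (nat_lit 0) (nat_lit 3678640534496) (nat_lit 1) (nat_lit 5) (nat_lit 3) (nat_lit 4) (nat_lit 1) (nat_lit 4) (nat_lit 264) (nat_lit 179) (nat_lit 157)))) (XT.nd (nat_lit 156) (nat_lit 0) (nat_lit 0) (XT.nd (nat_lit 78) (nat_lit 0) (nat_lit 0) (XT.lf (nat_lit 0) (nat_lit 4231229046391) (nat_lit 152) (nat_lit 2773894643213) (nat_lit 0) (nat_lit 4230802935139) (nat_lit 1) (nat_lit 5) (nat_lit 3) (nat_lit 4) (nat_lit 1) (nat_lit 4) (nat_lit 265) (nat_lit 179) (nat_lit 156)) (XT.lf (nat_lit 0) (nat_lit 4866215025125) (nat_lit 152) (nat_lit 3189257978254) (nat_lit 0) (nat_lit 4865786587529) (nat_lit 1) (nat_lit 5) (nat_lit 3) (nat_lit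 4) (nat_lit 1) (nat_lit 4) (nat_lit 266) (nat_lit 179) (nat_lit 155))) (XT.nd (nat_lit 78) (nat_lit 0) (nat_lit 0) (XT.lf (nat_lit 0) (nat_lit 5596445545368) (nat_lit 152) (nat_lit 3666932382306) (nat_lit 0) (nat_lit 5596015084865) (nat_lit 1) (nat_lit 5) (nat_lit 3) (nat_lit 4) (nat_lit 1) (nat_lit 4) (nat_lit 267) (nat_lit 179) (nat_lit 154)) (XT.lf (nat_lit 0) (nat_lit 6436207725995) (nat_lit 152) (nat_lit 4216263658928) (nat_lit 0) (nat_lit 6435775506443) (nat_lit 1) (nat_lit 5) (nat_lit 3) (nat_lit 4) (nat_lit 1) (nat_lit 4) (nat_lit 268) (nat_lit 179) (nat_lit 153))))) (XT.nd (nat_lit 312) (nat_lit 0) (nat_lit 0) (XT.nd (nat_lit 156) (nat_lit 0) (nat_lit 0) (XT.nd (nat_lit 78) (nat_lit 0) (nat_lit 0) (XT.lf (nat_lit 0) (nat_lit 7401931696629) (nat_lit 152) (nat_lit 4847999593966) (nat_lit 0) (nat_lit 7401497947468) (nat_lit 1) (nat_lit 5) (nat_lit 3) (nat_lit 4) (nat_lit 1) (nat_lit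 4) (nat_lit 269) (nat_lit 179) (nat_lit 152)) (XT.lf (nat_lit 0) (nat_lit 8512512056692) (nat_lit 152) (nat_lit 5574500238324) (nat_lit 0) (nat_lit 8512076977437) (nat_lit 1) (nat_lit 5) (nat_lit 3) (nat_lit 4) (nat_lit 1) (nat_lit 4) (nat_lit 270) (nat_lit 179) (nat_lit 151))) (XT.nd (nat_lit 78) (nat_lit 0) (nat_lit 0) (XT.lf (nat_lit 0) (nat_lit 9789677552362) (nat_lit 152) (nat_lit 6409979735043) (nat_lit 0) (nat_lit 9789241316503) (nat_lit 1) (nat_lit 5) (nat_lit 3) (nat_lit 4) (nat_lit 1) (nat_lit 4) (nat_lit 271) (nat_lit 179) (nat_lit 150)) (XT.lf (nat_lit 0) (nat_lit 11258416204206) (nat_lit 152) (nat_lit 7370784422103) (nat_lit 0) (nat_lit 11257978962604) (nat_lit 1) (nat_lit 5) (nat_lit 3) (nat_lit 4) (nat_lit 1) (nat_lit 4) (nat_lit 272) (nat_lit 179) (nat_lit 149)))) (XT.nd (nat_lit 156) (nat_lit 0) (nat_lit 0) (XT.nd (nat_lit 78) (nat_lit 0) (nat_lit 0) (XT.lf (nat_lit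 0) (nat_lit 12947464203237) (nat_lit 152) (nat_lit 8475712652076) (nat_lit 0) (nat_lit 12947026087077) (nat_lit 1) (nat_lit 5) (nat_lit 3) (nat_lit 4) (nat_lit 1) (nat_lit 4) (nat_lit 273) (nat_lit 179) (nat_lit 148)) (XT.lf (nat_lit 0) (nat_lit 14889868140741) (nat_lit 152) (nat_lit 9746382585984) (nat_lit 0) (nat_lit 14889429264096) (nat_lit 1) (nat_lit 5) (nat_lit 3) (nat_lit 4) (nat_lit 1) (nat_lit 4) (nat_lit 274) (nat_lit 179) (nat_lit 147))) (XT.nd (nat_lit 78) (nat_lit 0) (nat_lit 0) (XT.lf (nat_lit 0) (nat_lit 17123631572017) (nat_lit 152) (nat_lit 11207655157315) (nat_lit 0) (nat_lit 17123192034080) (nat_lit 1) (nat_lit 5) (nat_lit 3) (nat_lit 4) (nat_lit 1) (nat_lit 4) (nat_lit 275) (nat_lit 179) (nat_lit 146)) (XT.lf (nat_lit 0) (nat_lit 19692458564200) (nat_lit 152) (nat_lit 12888120481597) (nat_lit 0) (nat_lit 19692018451226) (nat_lit 1) (nat_lit 5) (nat_lit 3) (nat_lit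 4) (nat_lit 1) (nat_lit 4) (nat_lit 276) (nat_lit 179) (nat_lit 145))))))) (XT.nd (nat_lit 29250) (nat_lit 0) (nat_lit 0) (XT.nd (nat_lit 28626) (nat_lit 0) (nat_lit 0) (XT.nd (nat_lit 312) (nat_lit 0) (nat_lit 0) (XT.nd (nat_lit 156) (nat_lit 0) (nat_lit 0) (XT.nd (nat_lit 78) (nat_lit 0) (nat_lit 0) (XT.lf (nat_lit 0) (nat_lit 22646608775831) (nat_lit 152) (nat_lit 14820657228217) (nat_lit 0) (nat_lit 22646168162825) (nat_lit 1) (nat_lit 5) (nat_lit 3) (nat_lit 4) (nat_lit 1) (nat_lit 4) (nat_lit 277) (nat_lit 179) (nat_lit 144)) (XT.lf (nat_lit 0) (nat_lit 26043880798007) (nat_lit 152) (nat_lit 17043075898740) (nat_lit 0) (nat_lit 26043439750191) (nat_lit 1) (nat_lit 5) (nat_lit 3) (nat_lit 4) (nat_lit 1) (nat_lit 4) (nat_lit 278) (nat_lit 179) (nat_lit 143))) (XT.nd (nat_lit 78) (nat_lit 0) (nat_lit 0) (XT.lf (nat_lit 0) (nat_lit 29950742996380) (nat_lit 152) (nat_lit 19598858597589)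 (nat_lit 0) (nat_lit 29950301570469) (nat_lit 1) (nat_lit 5) (nat_lit 3) (nat_lit 4) (nat_lit 1) (nat_lit 4) (nat_lit 279) (nat_lit 179) (nat_lit 142)) (XT.lf (nat_lit 0) (nat_lit 34443633979180) (nat_lit 152) (nat_lit 22538009768871) (nat_lit 0) (nat_lit 34443192224489) (nat_lit 1) (nat_lit 5) (nat_lit 3) (nat_lit 4) (nat_lit 1) (nat_lit 4) (nat_lit 280) (nat_lit 179) (nat_lit 141)))) (XT.nd (nat_lit 28158) (nat_lit 0) (nat_lit 0) (XT.nd (nat_lit 28080) (nat_lit 0) (nat_lit 0) (XT.lf (nat_lit 0) (nat_lit 39610458135199) (nat_lit 152) (nat_lit 25918034544199) (nat_lit 0) (nat_lit 39610016094614) (nat_lit 1) (nat_lit 5) (nat_lit 3) (nat_lit 4) (nat_lit 1) (nat_lit 4) (nat_lit 281) (nat_lit 179) (nat_lit 140)) (XT.lf (nat_lit 0) (nat_lit 61926214993) (nat_lit 152) (nat_lit 47202068347) (nat_lit 0) (nat_lit 61926214993) (nat_lit 1) (nat_lit 5) (nat_lit 3) (nat_lit 4) (nat_lit 1) (nat_lit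 4) (nat_lit 240) (nat_lit 180) (nat_lit 180))) (XT.nd (nat_lit 78) (nat_lit 0) (nat_lit 0) (XT.lf (nat_lit 0) (nat_lit 143483930014) (nat_lit 152) (nat_lit 106352103967) (nat_lit 0) (nat_lit 143417338032) (nat_lit 1) (nat_lit 5) (nat_lit 3) (nat_lit 4) (nat_lit 1) (nat_lit 4) (nat_lit 241) (nat_lit 180) (nat_lit 179)) (XT.lf (nat_lit 0) (nat_lit 165964108997) (nat_lit 152) (nat_lit 120280298127) (nat_lit 0) (nat_lit 165839610943) (nat_lit 1) (nat_lit 5) (nat_lit 3) (nat_lit 4) (nat_lit 1) (nat_lit 4) (nat_lit 242) (nat_lit 180) (nat_lit 178))))) (XT.nd (nat_lit 312) (nat_lit 0) (nat_lit 0) (XT.nd (nat_lit 156) (nat_lit 0) (nat_lit 0) (XT.nd (nat_lit 78) (nat_lit 0) (nat_lit 0) (XT.lf (nat_lit 0) (nat_lit 191732796524) (nat_lit 152) (nat_lit 136461227320) (nat_lit 0) (nat_lit 191557945363) (nat_lit 1) (nat_lit 5) (nat_lit 3) (nat_lit 4) (nat_lit 1) (nat_lit 4) (nat_lit 243) (nat_lit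 180) (nat_lit 177)) (XT.lf (nat_lit 0) (nat_lit 221294162566) (nat_lit 152) (nat_lit 155211474945) (nat_lit 0) (nat_lit 221075526096) (nat_lit 1) (nat_lit 5) (nat_lit 3) (nat_lit 4) (nat_lit 1) (nat_lit 4) (nat_lit 244) (nat_lit 180) (nat_lit 176))) (XT.nd (nat_lit 78) (nat_lit 0) (nat_lit 0) (XT.lf (nat_lit 0) (nat_lit 255226581678) (nat_lit 152) (nat_lit 176897893671) (nat_lit 0) (nat_lit 254969871026) (nat_lit 1) (nat_lit 5) (nat_lit 3) (nat_lit 4) (nat_lit 1) (nat_lit 4) (nat_lit 245) (nat_lit 180) (nat_lit 175)) (XT.lf (nat_lit 0) (nat_lit 294193949015) (nat_lit 152) (nat_lit 201944782996) (nat_lit 0) (nat_lit 293904130379) (nat_lit 1) (nat_lit 5) (nat_lit 3) (nat_lit 4) (nat_lit 1) (nat_lit 4) (nat_lit 246) (nat_lit 180) (nat_lit 174)))) (XT.nd (nat_lit 156) (nat_lit 0) (nat_lit 0) (XT.nd (nat_lit 78) (nat_lit 0) (nat_lit 0) (XT.lf (nat_lit 0) (nat_lit 338958669592) (nat_lit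 152) (nat_lit 230842190755) (nat_lit 0) (nat_lit 338640061404) (nat_lit 1) (nat_lit 5) (nat_lit 3) (nat_lit 4) (nat_lit 1) (nat_lit 4) (nat_lit 247) (nat_lit 180) (nat_lit 173)) (XT.lf (nat_lit 0) (nat_lit 390396574897) (nat_lit 152) (nat_lit 264155501012) (nat_lit 0) (nat_lit 390052932317) (nat_lit 1) (nat_lit 5) (nat_lit 3) (nat_lit 4) (nat_lit 1) (nat_lit 4) (nat_lit 248) (nat_lit 180) (nat_lit 172))) (XT.nd (nat_lit 78) (nat_lit 0) (nat_lit 0) (XT.lf (nat_lit 0) (nat_lit 449514058730) (nat_lit 152) (nat_lit 302536495925) (nat_lit 0) (nat_lit 449148647112) (nat_lit 1) (nat_lit 5) (nat_lit 3) (nat_lit 4) (nat_lit 1) (nat_lit 4) (nat_lit 249) (nat_lit 180) (nat_lit 171)) (XT.lf (nat_lit 0) (nat_lit 517467767514) (nat_lit 152) (nat_lit 346736108002) (nat_lit 0) (nat_lit 517083426299) (nat_lit 1) (nat_lit 5) (nat_lit 3) (nat_lit 4) (nat_lit 1) (nat_lit 4) (nat_lit 250) (nat_lit 180)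 (nat_lit 170)))))) (XT.nd (nat_lit 624) (nat_lit 0) (nat_lit 0) (XT.nd (nat_lit 312) (nat_lit 0) (nat_lit 0) (XT.nd (nat_lit 156) (nat_lit 0) (nat_lit 0) (XT.nd (nat_lit 78) (nat_lit 0) (nat_lit 0) (XT.lf (nat_lit 0) (nat_lit 595587230334) (nat_lit 152) (nat_lit 397619112263) (nat_lit 0) (nat_lit 595186428599) (nat_lit 1) (nat_lit 5) (nat_lit 3) (nat_lit 4) (nat_lit 1) (nat_lit 4) (nat_lit 251) (nat_lit 180) (nat_lit 169)) (XT.lf (nat_lit 0) (nat_lit 685400871462) (nat_lit 152) (nat_lit 456181045747) (nat_lit 0) (nat_lit 684985756232) (nat_lit 1) (nat_lit 5) (nat_lit 3) (nat_lit 4) (nat_lit 1) (nat_lit 4) (nat_lit 252) (nat_lit 180) (nat_lit 168))) (XT.nd (nat_lit 78) (nat_lit 0) (nat_lit 0) (XT.lf (nat_lit 0) (nat_lit 788665914312) (nat_lit 152) (nat_lit 523567685414) (nat_lit 0) (nat_lit 788238352564) (nat_lit 1) (nat_lit 5) (nat_lit 3) (nat_lit 4) (nat_lit 1) (nat_lit 4) (nat_lit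 253) (nat_lit 180) (nat_lit 167)) (XT.lf (nat_lit 0) (nat_lit 907402761895) (nat_lit 152) (nat_lit 601097465519) (nat_lit 0) (nat_lit 906964377088) (nat_lit 1) (nat_lit 5) (nat_lit 3) (nat_lit 4) (nat_lit 1) (nat_lit 4) (nat_lit 254) (nat_lit 180) (nat_lit 166)))) (XT.nd (nat_lit 156) (nat_lit 0) (nat_lit 0) (XT.nd (nat_lit 78) (nat_lit 0) (nat_lit 0) (XT.lf (nat_lit 0) (nat_lit 1043934526448) (nat_lit 152) (nat_lit 690287273063) (nat_lit 0) (nat_lit 1043486730286) (nat_lit 1) (nat_lit 5) (nat_lit 3) (nat_lit 4) (nat_lit 1) (nat_lit 4) (nat_lit 255) (nat_lit 180) (nat_lit 165)) (XT.lf (nat_lit 0) (nat_lit 1200932481625) (nat_lit 152) (nat_lit 792882126019) (nat_lit 0) (nat_lit 1200476501675) (nat_lit 1) (nat_lit 5) (nat_lit 3) (nat_lit 4) (nat_lit 1) (nat_lit 4) (nat_lit 256) (nat_lit 180) (nat_lit 164))) (XT.nd (nat_lit 78) (nat_lit 0) (nat_lit 0) (XT.lf (nat_lit 0) (nat_lit 1381468326548)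 (nat_lit 152) (nat_lit 910889314990) (nat_lit 0) (nat_lit 1381005230261) (nat_lit 1) (nat_lit 5) (nat_lit 3) (nat_lit 4) (nat_lit 1) (nat_lit 4) (nat_lit 257) (nat_lit 180) (nat_lit 163)) (XT.lf (nat_lit 0) (nat_lit 1589074284270) (nat_lit 152) (nat_lit 1046617676282) (nat_lit 0) (nat_lit 1588604999864) (nat_lit 1) (nat_lit 5) (nat_lit 3) (nat_lit 4) (nat_lit 1) (nat_lit 4) (nat_lit 258) (nat_lit 180) (nat_lit 162))))) (XT.nd (nat_lit 312) (nat_lit 0) (nat_lit 0) (XT.nd (nat_lit 156) (nat_lit 0) (nat_lit 0) (XT.nd (nat_lit 78) (nat_lit 0) (nat_lit 0) (XT.lf (nat_lit 0) (nat_lit 1827812210486) (nat_lit 152) (nat_lit 1202722764789) (nat_lit 0) (nat_lit 1827337545107) (nat_lit 1) (nat_lit 5) (nat_lit 3) (nat_lit 4) (nat_lit 1) (nat_lit 4) (nat_lit 259) (nat_lit 180) (nat_lit 161)) (XT.lf (nat_lit 0) (nat_lit 2102353064623) (nat_lit 152) (nat_lit 1382258810503) (nat_lit 0) (nat_lit 2101873720137)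 (nat_lit 1) (nat_lit 5) (nat_lit 3) (nat_lit 4) (nat_lit 1) (nat_lit 4) (nat_lit 260) (nat_lit 180) (nat_lit 160))) (XT.nd (nat_lit 78) (nat_lit 0) (nat_lit 0) (XT.lf (nat_lit 0) (nat_lit 2418068298173) (nat_lit 152) (nat_lit 1588738475189) (nat_lit 0) (nat_lit 2417584884898) (nat_lit 1) (nat_lit 5) (nat_lit 3) (nat_lit 4) (nat_lit 1) (nat_lit 4) (nat_lit 261) (nat_lit 180) (nat_lit 159)) (XT.lf (nat_lit 0) (nat_lit 2781134948315) (nat_lit 152) (nat_lit 1826201578373) (nat_lit 0) (nat_lit 2780647996963) (nat_lit 1) (nat_lit 5) (nat_lit 3) (nat_lit 4) (nat_lit 1) (nat_lit 4) (nat_lit 262) (nat_lit 180) (nat_lit 158)))) (XT.nd (nat_lit 156) (nat_lit 0) (nat_lit 0) (XT.nd (nat_lit 78) (nat_lit 0) (nat_lit 0) (XT.lf (nat_lit 0) (nat_lit 3198656492987) (nat_lit 152) (nat_lit 2099294137291) (nat_lit 0) (nat_lit 3198166465047) (nat_lit 1) (nat_lit 5) (nat_lit 3) (nat_lit 4) (nat_lit 1) (nat_lit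 4) (nat_lit 263) (nat_lit 180) (nat_lit 157)) (XT.lf (nat_lit 0) (nat_lit 3678801831976) (nat_lit 152) (nat_lit 2413359267227) (nat_lit 0) (nat_lit 3678309128741) (nat_lit 1) (nat_lit 5) (nat_lit 3) (nat_lit 4) (nat_lit 1) (nat_lit 4) (nat_lit 264) (nat_lit 180) (nat_lit 156))) (XT.nd (nat_lit 78) (nat_lit 0) (nat_lit 0) (XT.lf (nat_lit 0) (nat_lit 4230965113218) (nat_lit 152) (nat_lit 2774541720722) (nat_lit 0) (nat_lit 4230470083640) (nat_lit 1) (nat_lit 5) (nat_lit 3) (nat_lit 4) (nat_lit 1) (nat_lit 4) (nat_lit 265) (nat_lit 180) (nat_lit 155)) (XT.lf (nat_lit 0) (nat_lit 4865949531346) (nat_lit 152) (nat_lit 3189908110998) (nat_lit 0) (nat_lit 4865452478861) (nat_lit 1) (nat_lit 5) (nat_lit 3) (nat_lit 4) (nat_lit 1) (nat_lit 4) (nat_lit 266) (nat_lit 180) (nat_lit 154))))))))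
noncomputable def xc10 : XT := (XT.nd (nat_lit 29094) (nat_lit 0) (nat_lit 0) (XT.nd (nat_lit 624) (nat_lit 0) (nat_lit 0) (XT.nd (nat_lit 312) (nat_lit 0) (nat_lit 0) (XT.nd (nat_lit 156) (nat_lit 0) (nat_lit 0) (XT.nd (nat_lit 78) (nat_lit 0) (nat_lit 0) (XT.lf (nat_lit 0) (nat_lit 5596178694542) (nat_lit 152) (nat_lit 3667585171776) (nat_lit 0) (nat_lit 5595679883007) (nat_lit 1) (nat_lit 5) (nat_lit 3) (nat_lit 4) (nat_lit 1) (nat_lit 4) (nat_lit 267) (nat_lit 180) (nat_lit 153)) (XT.lf (nat_lit 0) (nat_lit 6435939695129) (nat_lit 152) (nat_lit 4216918758595) (nat_lit 0) (nat_lit 6435439353985) (nat_lit 1) (nat_lit 5) (nat_lit 3) (nat_lit 4) (nat_lit 1) (nat_lit 4) (nat_lit 268) (nat_lit 180) (nat_lit 152))) (XT.nd (nat_lit 78) (nat_lit 0) (nat_lit 0) (XT.lf (nat_lit 0) (nat_lit 7401662639639) (nat_lit 152) (nat_lit 4848656702500) (nat_lit 0) (nat_lit 7401160968401) (nat_lit 1)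 (nat_lit 5) (nat_lit 3) (nat_lit 4) (nat_lit 1) (nat_lit 4) (nat_lit 269) (nat_lit 180) (nat_lit 151)) (XT.lf (nat_lit 0) (nat_lit 8512242107422) (nat_lit 152) (nat_lit 5575159093699) (nat_lit 0) (nat_lit 8511739279581) (nat_lit 1) (nat_lit 5) (nat_lit 3) (nat_lit 4) (nat_lit 1) (nat_lit 4) (nat_lit 270) (nat_lit 180) (nat_lit 150)))) (XT.nd (nat_lit 156) (nat_lit 0) (nat_lit 0) (XT.nd (nat_lit 78) (nat_lit 0) (nat_lit 0) (XT.lf (nat_lit 0) (nat_lit 9789406827196) (nat_lit 152) (nat_lit 6410640109410) (nat_lit 0) (nat_lit 9788902993612) (nat_lit 1) (nat_lit 5) (nat_lit 3) (nat_lit 4) (nat_lit 1) (nat_lit 4) (nat_lit 271) (nat_lit 180) (nat_lit 149)) (XT.lf (nat_lit 0) (nat_lit 11258144804347) (nat_lit 152) (nat_lit 7371446117332) (nat_lit 0) (nat_lit 11257640096204) (nat_lit 1) (nat_lit 5) (nat_lit 3) (nat_lit 4) (nat_lit 1) (nat_lit 4) (nat_lit 272) (nat_lit 180) (nat_lit 148))) (XT.nd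 (nat_lit 78) (nat_lit 0) (nat_lit 0) (XT.lf (nat_lit 0) (nat_lit 12947192216689) (nat_lit 152) (nat_lit 8476375495881) (nat_lit 0) (nat_lit 12946686748061) (nat_lit 1) (nat_lit 5) (nat_lit 3) (nat_lit 4) (nat_lit 1) (nat_lit 4) (nat_lit 273) (nat_lit 180) (nat_lit 147)) (XT.lf (nat_lit 0) (nat_lit 14889595644028) (nat_lit 152) (nat_lit 9747046428551) (nat_lit 0) (nat_lit 14889089514109) (nat_lit 1) (nat_lit 5) (nat_lit 3) (nat_lit 4) (nat_lit 1) (nat_lit 4) (nat_lit 274) (nat_lit 180) (nat_lit 146))))) (XT.nd (nat_lit 312) (nat_lit 0) (nat_lit 0) (XT.nd (nat_lit 156) (nat_lit 0) (nat_lit 0) (XT.nd (nat_lit 78) (nat_lit 0) (nat_lit 0) (XT.lf (nat_lit 0) (nat_lit 17123358631684) (nat_lit 152) (nat_lit 11208319868371) (nat_lit 0) (nat_lit 17122851926727) (nat_lit 1) (nat_lit 5) (nat_lit 3) (nat_lit 4) (nat_lit 1) (nat_lit 4) (nat_lit 275) (nat_lit 180) (nat_lit 145)) (XT.lf (nat_lit 0)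 (nat_lit 19692185238108) (nat_lit 152) (nat_lit 12888785947860) (nat_lit 0) (nat_lit 19691678033120) (nat_lit 1) (nat_lit 5) (nat_lit 3) (nat_lit 4) (nat_lit 1) (nat_lit 4) (nat_lit 276) (nat_lit 180) (nat_lit 144))) (XT.nd (nat_lit 78) (nat_lit 0) (nat_lit 0) (XT.lf (nat_lit 0) (nat_lit 22646335114298) (nat_lit 152) (nat_lit 14821323351182) (nat_lit 0) (nat_lit 22645827474500) (nat_lit 1) (nat_lit 5) (nat_lit 3) (nat_lit 4) (nat_lit 1) (nat_lit 4) (nat_lit 277) (nat_lit 180) (nat_lit 143)) (XT.lf (nat_lit 0) (nat_lit 26043606844786) (nat_lit 152) (nat_lit 17043742592751) (nat_lit 0) (nat_lit 26043098826892) (nat_lit 1) (nat_lit 5) (nat_lit 3) (nat_lit 4) (nat_lit 1) (nat_lit 4) (nat_lit 278) (nat_lit 180) (nat_lit 142)))) (XT.nd (nat_lit 156) (nat_lit 0) (nat_lit 0) (XT.nd (nat_lit 78) (nat_lit 0) (nat_lit 0) (XT.lf (nat_lit 0) (nat_lit 29950468789518) (nat_lit 152) (nat_lit 19599525788160)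 (nat_lit 0) (nat_lit 29949960442845) (nat_lit 1) (nat_lit 5) (nat_lit 3) (nat_lit 4) (nat_lit 1) (nat_lit 4) (nat_lit 279) (nat_lit 180) (nat_lit 141)) (XT.lf (nat_lit 0) (nat_lit 34443359551759) (nat_lit 152) (nat_lit 22538677391235) (nat_lit 0) (nat_lit 34442850919191) (nat_lit 1) (nat_lit 5) (nat_lit 3) (nat_lit 4) (nat_lit 1) (nat_lit 4) (nat_lit 280) (nat_lit 180) (nat_lit 140))) (XT.nd (nat_lit 27924) (nat_lit 0) (nat_lit 0) (XT.lf (nat_lit 0) (nat_lit 39610183515988) (nat_lit 152) (nat_lit 25918702542035) (nat_lit 0) (nat_lit 39609674634816) (nat_lit 1) (nat_lit 5) (nat_lit 3) (nat_lit 4) (nat_lit 1) (nat_lit 4) (nat_lit 281) (nat_lit 180) (nat_lit 139)) (XT.lf (nat_lit 0) (nat_lit 45891484462) (nat_lit 152) (nat_lit 37716166500) (nat_lit 0) (nat_lit 45891484462) (nat_lit 1) (nat_lit 5) (nat_lit 3) (nat_lit 4) (nat_lit 1) (nat_lit 4) (nat_lit 238) (nat_lit 181) (nat_lit 181))))))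 (XT.nd (nat_lit 624) (nat_lit 0) (nat_lit 0) (XT.nd (nat_lit 312) (nat_lit 0) (nat_lit 0) (XT.nd (nat_lit 156) (nat_lit 0) (nat_lit 0) (XT.nd (nat_lit 78) (nat_lit 0) (nat_lit 0) (XT.lf (nat_lit 0) (nat_lit 106762095125) (nat_lit 152) (nat_lit 84202631733) (nat_lit 0) (nat_lit 106685514345) (nat_lit 1) (nat_lit 5) (nat_lit 3) (nat_lit 4) (nat_lit 1) (nat_lit 4) (nat_lit 239) (nat_lit 181) (nat_lit 180)) (XT.lf (nat_lit 0) (nat_lit 123877637297) (nat_lit 152) (nat_lit 94504711842) (nat_lit 0) (nat_lit 123734464534) (nat_lit 1) (nat_lit 5) (nat_lit 3) (nat_lit 4) (nat_lit 1) (nat_lit 4) (nat_lit 240) (nat_lit 181) (nat_lit 179))) (XT.nd (nat_lit 78) (nat_lit 0) (nat_lit 0) (XT.lf (nat_lit 0) (nat_lit 143464464744) (nat_lit 152) (nat_lit 106540135764) (nat_lit 0) (nat_lit 143263385910) (nat_lit 1) (nat_lit 5) (nat_lit 3) (nat_lit 4) (nat_lit 1) (nat_lit 4) (nat_lit 241) (nat_lit 181)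 (nat_lit 178)) (XT.lf (nat_lit 0) (nat_lit 165905798004) (nat_lit 152) (nat_lit 120544379184) (nat_lit 0) (nat_lit 165654366064) (nat_lit 1) (nat_lit 5) (nat_lit 3) (nat_lit 4) (nat_lit 1) (nat_lit 4) (nat_lit 242) (nat_lit 181) (nat_lit 177)))) (XT.nd (nat_lit 156) (nat_lit 0) (nat_lit 0) (XT.nd (nat_lit 78) (nat_lit 0) (nat_lit 0) (XT.lf (nat_lit 0) (nat_lit 191640706641) (nat_lit 152) (nat_lit 136791438169) (nat_lit 0) (nat_lit 191345489391) (nat_lit 1) (nat_lit 5) (nat_lit 3) (nat_lit 4) (nat_lit 1) (nat_lit 4) (nat_lit 243) (nat_lit 181) (nat_lit 176)) (XT.lf (nat_lit 0) (nat_lit 221172699736) (nat_lit 152) (nat_lit 155599189960) (nat_lit 0) (nat_lit 220839408304) (nat_lit 1) (nat_lit 5) (nat_lit 3) (nat_lit 4) (nat_lit 1) (nat_lit 4) (nat_lit 244) (nat_lit 181) (nat_lit 175))) (XT.nd (nat_lit 78) (nat_lit 0) (nat_lit 0) (XT.lf (nat_lit 0) (nat_lit 255079577154) (nat_lit 152)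 (nat_lit 177335612310) (nat_lit 0) (nat_lit 254713177738) (nat_lit 1) (nat_lit 5) (nat_lit 3) (nat_lit 4) (nat_lit 1) (nat_lit 4) (nat_lit 245) (nat_lit 181) (nat_lit 174)) (XT.lf (nat_lit 0) (nat_lit 294024734324) (nat_lit 152) (nat_lit 202425983046) (nat_lit 0) (nat_lit 293629545356) (nat_lit 1) (nat_lit 5) (nat_lit 3) (nat_lit 4) (nat_lit 1) (nat_lit 4) (nat_lit 246) (nat_lit 181) (nat_lit 173))))) (XT.nd (nat_lit 312) (nat_lit 0) (nat_lit 0) (XT.nd (nat_lit 156) (nat_lit 0) (nat_lit 0) (XT.nd (nat_lit 78) (nat_lit 0) (nat_lit 0) (XT.lf (nat_lit 0) (nat_lit 338770141710) (nat_lit 152) (nat_lit 231361200728) (nat_lit 0) (nat_lit 338349918350) (nat_lit 1) (nat_lit 5) (nat_lit 3) (nat_lit 4) (nat_lit 1) (nat_lit 4) (nat_lit 247) (nat_lit 181) (nat_lit 172)) (XT.lf (nat_lit 0) (nat_lit 390191252938) (nat_lit 152) (nat_lit 264707389179) (nat_lit 0) (nat_lit 389749260540) (nat_lit 1)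 (nat_lit 5) (nat_lit 3) (nat_lit 4) (nat_lit 1) (nat_lit 4) (nat_lit 248) (nat_lit 181) (nat_lit 171))) (XT.nd (nat_lit 78) (nat_lit 0) (nat_lit 0) (XT.lf (nat_lit 0) (nat_lit 449294133225) (nat_lit 152) (nat_lit 303116973825) (nat_lit 0) (nat_lit 448833211229) (nat_lit 1) (nat_lit 5) (nat_lit 3) (nat_lit 4) (nat_lit 1) (nat_lit 4) (nat_lit 249) (nat_lit 181) (nat_lit 170)) (XT.lf (nat_lit 0) (nat_lit 517235143273) (nat_lit 152) (nat_lit 347341446541) (nat_lit 0) (nat_lit 516757760758) (nat_lit 1) (nat_lit 5) (nat_lit 3) (nat_lit 4) (nat_lit 1) (nat_lit 4) (nat_lit 250) (nat_lit 181) (nat_lit 169)))) (XT.nd (nat_lit 156) (nat_lit 0) (nat_lit 0) (XT.nd (nat_lit 78) (nat_lit 0) (nat_lit 0) (XT.lf (nat_lit 0) (nat_lit 595343563714) (nat_lit 152) (nat_lit 398246068748) (nat_lit 0) (nat_lit 594851867703) (nat_lit 1) (nat_lit 5) (nat_lit 3) (nat_lit 4) (nat_lit 1) (nat_lit 4) (nat_lit 251)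 (nat_lit 181) (nat_lit 168)) (XT.lf (nat_lit 0) (nat_lit 685147602773) (nat_lit 152) (nat_lit 456826800446) (nat_lit 0) (nat_lit 684643460245) (nat_lit 1) (nat_lit 5) (nat_lit 3) (nat_lit 4) (nat_lit 1) (nat_lit 4) (nat_lit 252) (nat_lit 181) (nat_lit 167))) (XT.nd (nat_lit 78) (nat_lit 0) (nat_lit 0) (XT.lf (nat_lit 0) (nat_lit 788404295998) (nat_lit 152) (nat_lit 524229786386) (nat_lit 0) (nat_lit 787889330411) (nat_lit 1) (nat_lit 5) (nat_lit 3) (nat_lit 4) (nat_lit 1) (nat_lit 4) (nat_lit 253) (nat_lit 181) (nat_lit 166)) (XT.lf (nat_lit 0) (nat_lit 907133883038) (nat_lit 152) (nat_lit 601773780641) (nat_lit 0) (nat_lit 906609506096) (nat_lit 1) (nat_lit 5) (nat_lit 3) (nat_lit 4) (nat_lit 1) (nat_lit 4) (nat_lit 254) (nat_lit 181) (nat_lit 165)))))))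
noncomputable def xc11 : XT := (XT.nd (nat_lit 1248) (nat_lit 0) (nat_lit 0) (XT.nd (nat_lit 624) (nat_lit 0) (nat_lit 0) (XT.nd (nat_lit 312) (nat_lit 0) (nat_lit 0) (XT.nd (nat_lit 156) (nat_lit 0) (nat_lit 0) (XT.nd (nat_lit 78) (nat_lit 0) (nat_lit 0) (XT.lf (nat_lit 0) (nat_lit 1043659334075) (nat_lit 152) (nat_lit 690975948316) (nat_lit 0) (nat_lit 1043126773345) (nat_lit 1) (nat_lit 5) (nat_lit 3) (nat_lit 4) (nat_lit 1) (nat_lit 4) (nat_lit 255) (nat_lit 181) (nat_lit 164)) (XT.lf (nat_lit 0) (nat_lit 1200651799237) (nat_lit 152) (nat_lit 793581549213) (nat_lit 0) (nat_lit 1200112122171) (nat_lit 1) (nat_lit 5) (nat_lit 3) (nat_lit 4) (nat_lit 1) (nat_lit 4) (nat_lit 256) (nat_lit 181) (nat_lit 163))) (XT.nd (nat_lit 78) (nat_lit 0) (nat_lit 0) (XT.lf (nat_lit 0) (nat_lit 1381182870235) (nat_lit 152) (nat_lit 911598084219) (nat_lit 0) (nat_lit 1380637005049) (nat_lit 1) (nat_lit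 5) (nat_lit 3) (nat_lit 4) (nat_lit 1) (nat_lit 4) (nat_lit 257) (nat_lit 181) (nat_lit 162)) (XT.lf (nat_lit 0) (nat_lit 1588784676718) (nat_lit 152) (nat_lit 1047334572497) (nat_lit 0) (nat_lit 1588233430559) (nat_lit 1) (nat_lit 5) (nat_lit 3) (nat_lit 4) (nat_lit 1) (nat_lit 4) (nat_lit 258) (nat_lit 181) (nat_lit 161)))) (XT.nd (nat_lit 156) (nat_lit 0) (nat_lit 0) (XT.nd (nat_lit 78) (nat_lit 0) (nat_lit 0) (XT.lf (nat_lit 0) (nat_lit 1827518993161) (nat_lit 152) (nat_lit 1203446727948) (nat_lit 0) (nat_lit 1826963067896) (nat_lit 1) (nat_lit 5) (nat_lit 3) (nat_lit 4) (nat_lit 1) (nat_lit 4) (nat_lit 259) (nat_lit 181) (nat_lit 160)) (XT.lf (nat_lit 0) (nat_lit 2102056708364) (nat_lit 152) (nat_lit 1382988918832) (nat_lit 0) (nat_lit 2101496714310) (nat_lit 1) (nat_lit 5) (nat_lit 3) (nat_lit 4) (nat_lit 1) (nat_lit 4) (nat_lit 260) (nat_lit 181) (nat_lit 159))) (XT.nd (nat_lit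 78) (nat_lit 0) (nat_lit 0) (XT.lf (nat_lit 0) (nat_lit 2417769212407) (nat_lit 152) (nat_lit 1589473927144) (nat_lit 0) (nat_lit 2417205680276) (nat_lit 1) (nat_lit 5) (nat_lit 3) (nat_lit 4) (nat_lit 1) (nat_lit 4) (nat_lit 261) (nat_lit 181) (nat_lit 158)) (XT.lf (nat_lit 0) (nat_lit 2780833489065) (nat_lit 152) (nat_lit 1826941676959) (nat_lit 0) (nat_lit 2780266880345) (nat_lit 1) (nat_lit 5) (nat_lit 3) (nat_lit 4) (nat_lit 1) (nat_lit 4) (nat_lit 262) (nat_lit 181) (nat_lit 157))))) (XT.nd (nat_lit 312) (nat_lit 0) (nat_lit 0) (XT.nd (nat_lit 156) (nat_lit 0) (nat_lit 0) (XT.nd (nat_lit 78) (nat_lit 0) (nat_lit 0) (XT.lf (nat_lit 0) (nat_lit 3198352969838) (nat_lit 152) (nat_lit 2100038276426) (nat_lit 0) (nat_lit 3197783685823) (nat_lit 1) (nat_lit 5) (nat_lit 3) (nat_lit 4) (nat_lit 1) (nat_lit 4) (nat_lit 263) (nat_lit 181) (nat_lit 156)) (XT.lf (nat_lit 0) (nat_lit 3678496514131)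 (nat_lit 152) (nat_lit 2414106919882) (nat_lit 0) (nat_lit 3677924903773) (nat_lit 1) (nat_lit 5) (nat_lit 3) (nat_lit 4) (nat_lit 1) (nat_lit 4) (nat_lit 264) (nat_lit 181) (nat_lit 155))) (XT.nd (nat_lit 78) (nat_lit 0) (nat_lit 0) (XT.lf (nat_lit 0) (nat_lit 4230658234769) (nat_lit 152) (nat_lit 2775292428613) (nat_lit 0) (nat_lit 4230084601503) (nat_lit 1) (nat_lit 5) (nat_lit 3) (nat_lit 4) (nat_lit 1) (nat_lit 4) (nat_lit 265) (nat_lit 181) (nat_lit 154)) (XT.lf (nat_lit 0) (nat_lit 4865641295850) (nat_lit 152) (nat_lit 3190661475615) (nat_lit 0) (nat_lit 4865065903535) (nat_lit 1) (nat_lit 5) (nat_lit 3) (nat_lit 4) (nat_lit 1) (nat_lit 4) (nat_lit 266) (nat_lit 181) (nat_lit 153)))) (XT.nd (nat_lit 156) (nat_lit 0) (nat_lit 0) (XT.nd (nat_lit 78) (nat_lit 0) (nat_lit 0) (XT.lf (nat_lit 0) (nat_lit 5595869279004) (nat_lit 152) (nat_lit 3668340846590) (nat_lit 0) (nat_lit 5595292357081)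 (nat_lit 1) (nat_lit 5) (nat_lit 3) (nat_lit 4) (nat_lit 1) (nat_lit 4) (nat_lit 267) (nat_lit 181) (nat_lit 152)) (XT.lf (nat_lit 0) (nat_lit 6435629253468) (nat_lit 152) (nat_lit 4217676442276) (nat_lit 0) (nat_lit 6435051001450) (nat_lit 1) (nat_lit 5) (nat_lit 3) (nat_lit 4) (nat_lit 1) (nat_lit 4) (nat_lit 268) (nat_lit 181) (nat_lit 151))) (XT.nd (nat_lit 78) (nat_lit 0) (nat_lit 0) (XT.lf (nat_lit 0) (nat_lit 7401351305697) (nat_lit 152) (nat_lit 4849416133022) (nat_lit 0) (nat_lit 7400771897076) (nat_lit 1) (nat_lit 5) (nat_lit 3) (nat_lit 4) (nat_lit 1) (nat_lit 4) (nat_lit 269) (nat_lit 181) (nat_lit 150)) (XT.lf (nat_lit 0) (nat_lit 8511929997584) (nat_lit 152) (nat_lit 5575920043213) (nat_lit 0) (nat_lit 8511349583220) (nat_lit 1) (nat_lit 5) (nat_lit 3) (nat_lit 4) (nat_lit 1) (nat_lit 4) (nat_lit 270) (nat_lit 181) (nat_lit 149)))))) (XT.nd (nat_lit 624) (nat_lit 0) (nat_lit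 0) (XT.nd (nat_lit 312) (nat_lit 0) (nat_lit 0) (XT.nd (nat_lit 156) (nat_lit 0) (nat_lit 0) (XT.nd (nat_lit 78) (nat_lit 0) (nat_lit 0) (XT.lf (nat_lit 0) (nat_lit 9789094042665) (nat_lit 152) (nat_lit 6411402379786) (nat_lit 0) (nat_lit 9788512753743) (nat_lit 1) (nat_lit 5) (nat_lit 3) (nat_lit 4) (nat_lit 1) (nat_lit 4) (nat_lit 271) (nat_lit 181) (nat_lit 148)) (XT.lf (nat_lit 0) (nat_lit 11257831433127) (nat_lit 152) (nat_lit 7372209536284) (nat_lit 0) (nat_lit 11257249383719) (nat_lit 1) (nat_lit 5) (nat_lit 3) (nat_lit 4) (nat_lit 1) (nat_lit 4) (nat_lit 272) (nat_lit 181) (nat_lit 147))) (XT.nd (nat_lit 78) (nat_lit 0) (nat_lit 0) (XT.lf (nat_lit 0) (nat_lit 12946878335305) (nat_lit 152) (nat_lit 8477139913595) (nat_lit 0) (nat_lit 12946295624605) (nat_lit 1) (nat_lit 5) (nat_lit 3) (nat_lit 4) (nat_lit 1) (nat_lit 4) (nat_lit 273) (nat_lit 181) (nat_lit 146)) (XT.lf (nat_lit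 0) (nat_lit 14889281319023) (nat_lit 152) (nat_lit 9747811714753) (nat_lit 0) (nat_lit 14888698033287) (nat_lit 1) (nat_lit 5) (nat_lit 3) (nat_lit 4) (nat_lit 1) (nat_lit 4) (nat_lit 274) (nat_lit 181) (nat_lit 145)))) (XT.nd (nat_lit 156) (nat_lit 0) (nat_lit 0) (XT.nd (nat_lit 78) (nat_lit 0) (nat_lit 0) (XT.lf (nat_lit 0) (nat_lit 17123043920921) (nat_lit 152) (nat_lit 11209085909781) (nat_lit 0) (nat_lit 17122460135153) (nat_lit 1) (nat_lit 5) (nat_lit 3) (nat_lit 4) (nat_lit 1) (nat_lit 4) (nat_lit 275) (nat_lit 181) (nat_lit 144)) (XT.lf (nat_lit 0) (nat_lit 19691870191904) (nat_lit 152) (nat_lit 12889552645972) (nat_lit 0) (nat_lit 19691285971326) (nat_lit 1) (nat_lit 5) (nat_lit 3) (nat_lit 4) (nat_lit 1) (nat_lit 4) (nat_lit 276) (nat_lit 181) (nat_lit 143))) (XT.nd (nat_lit 78) (nat_lit 0) (nat_lit 0) (XT.lf (nat_lit 0) (nat_lit 22646019776406) (nat_lit 152) (nat_lit 14822090620340)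 (nat_lit 0) (nat_lit 22645435177732) (nat_lit 1) (nat_lit 5) (nat_lit 3) (nat_lit 4) (nat_lit 1) (nat_lit 4) (nat_lit 277) (nat_lit 181) (nat_lit 142)) (XT.lf (nat_lit 0) (nat_lit 26043291253252) (nat_lit 152) (nat_lit 17044510358469) (nat_lit 0) (nat_lit 26042706325799) (nat_lit 1) (nat_lit 5) (nat_lit 3) (nat_lit 4) (nat_lit 1) (nat_lit 4) (nat_lit 278) (nat_lit 181) (nat_lit 141))))) (XT.nd (nat_lit 28080) (nat_lit 0) (nat_lit 0) (XT.nd (nat_lit 27924) (nat_lit 0) (nat_lit 0) (XT.nd (nat_lit 78) (nat_lit 0) (nat_lit 0) (XT.lf (nat_lit 0) (nat_lit 29950152977425) (nat_lit 152) (nat_lit 19600293985671) (nat_lit 0) (nat_lit 29949567764078) (nat_lit 1) (nat_lit 5) (nat_lit 3) (nat_lit 4) (nat_lit 1) (nat_lit 4) (nat_lit 279) (nat_lit 181) (nat_lit 140)) (XT.lf (nat_lit 0) (nat_lit 34443043547877) (nat_lit 152) (nat_lit 22539445964218) (nat_lit 0) (nat_lit 34442458085925) (nat_lit 1)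 (nat_lit 5) (nat_lit 3) (nat_lit 4) (nat_lit 1) (nat_lit 4) (nat_lit 280) (nat_lit 181) (nat_lit 139))) (XT.nd (nat_lit 78) (nat_lit 0) (nat_lit 0) (XT.lf (nat_lit 0) (nat_lit 33626879889) (nat_lit 152) (nat_lit 30847155104) (nat_lit 0) (nat_lit 33626879889) (nat_lit 1) (nat_lit 5) (nat_lit 3) (nat_lit 4) (nat_lit 1) (nat_lit 4) (nat_lit 236) (nat_lit 182) (nat_lit 182)) (XT.lf (nat_lit 0) (nat_lit 78735256735) (nat_lit 152) (nat_lit 68022222841) (nat_lit 0) (nat_lit 78647188838) (nat_lit 1) (nat_lit 5) (nat_lit 3) (nat_lit 4) (nat_lit 1) (nat_lit 4) (nat_lit 237) (nat_lit 182) (nat_lit 181)))) (XT.nd (nat_lit 156) (nat_lit 0) (nat_lit 0) (XT.nd (nat_lit 78) (nat_lit 0) (nat_lit 0) (XT.lf (nat_lit 0) (nat_lit 91811957333) (nat_lit 152) (nat_lit 75547994419) (nat_lit 0) (nat_lit 91647308657) (nat_lit 1) (nat_lit 5) (nat_lit 3) (nat_lit 4) (nat_lit 1) (nat_lit 4) (nat_lit 238) (nat_lit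 182) (nat_lit 180)) (XT.lf (nat_lit 0) (nat_lit 106739710064) (nat_lit 152) (nat_lit 84418868299) (nat_lit 0) (nat_lit 106508469405) (nat_lit 1) (nat_lit 5) (nat_lit 3) (nat_lit 4) (nat_lit 1) (nat_lit 4) (nat_lit 239) (nat_lit 182) (nat_lit 179))) (XT.nd (nat_lit 78) (nat_lit 0) (nat_lit 0) (XT.lf (nat_lit 0) (nat_lit 123810579655) (nat_lit 152) (nat_lit 94808405058) (nat_lit 0) (nat_lit 123521432923) (nat_lit 1) (nat_lit 5) (nat_lit 3) (nat_lit 4) (nat_lit 1) (nat_lit 4) (nat_lit 240) (nat_lit 182) (nat_lit 178)) (XT.nd (nat_lit 78) (nat_lit 0) (nat_lit 0) (XT.lf (nat_lit 0) (nat_lit 143358561379) (nat_lit 152) (nat_lit 106919878240) (nat_lit 0) (nat_lit 143019061542) (nat_lit 1) (nat_lit 5) (nat_lit 3) (nat_lit 4) (nat_lit 1) (nat_lit 4) (nat_lit 241) (nat_lit 182) (nat_lit 177)) (XT.lf (nat_lit 0) (nat_lit 165766115749) (nat_lit 152) (nat_lit 120990251451) (nat_lit 0) (nat_lit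 165382830603) (nat_lit 1) (nat_lit 5) (nat_lit 3) (nat_lit 4) (nat_lit 1) (nat_lit 4) (nat_lit 242) (nat_lit 182) (nat_lit 176))))))))
noncomputable def xc12 : XT := (XT.nd (nat_lit 2496) (nat_lit 0) (nat_lit 0) (XT.nd (nat_lit 1248) (nat_lit 0) (nat_lit 0) (XT.nd (nat_lit 624) (nat_lit 0) (nat_lit 0) (XT.nd (nat_lit 312) (nat_lit 0) (nat_lit 0) (XT.nd (nat_lit 156) (nat_lit 0) (nat_lit 0) (XT.nd (nat_lit 78) (nat_lit 0) (nat_lit 0) (XT.lf (nat_lit 0) (nat_lit 191471651439) (nat_lit 152) (nat_lit 137294814603) (nat_lit 0) (nat_lit 191050292110) (nat_lit 1) (nat_lit 5) (nat_lit 3) (nat_lit 4) (nat_lit 1) (nat_lit 4) (nat_lit 243) (nat_lit 182) (nat_lit 175)) (XT.lf (nat_lit 0) (nat_lit 220978102840) (nat_lit 152) (nat_lit 156152570017) (nat_lit 0) (nat_lit 220523635527) (nat_lit 1) (nat_lit 5) (nat_lit 3) (nat_lit 4) (nat_lit 1) (nat_lit 4) (nat_lit 244) (nat_lit 182) (nat_lit 174)))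 (XT.nd (nat_lit 78) (nat_lit 0) (nat_lit 0) (XT.lf (nat_lit 0) (nat_lit 254862770090) (nat_lit 152) (nat_lit 177932473778) (nat_lit 0) (nat_lit 254379513225) (nat_lit 1) (nat_lit 5) (nat_lit 3) (nat_lit 4) (nat_lit 1) (nat_lit 4) (nat_lit 245) (nat_lit 182) (nat_lit 173)) (XT.lf (nat_lit 0) (nat_lit 293788614070) (nat_lit 152) (nat_lit 203060654438) (nat_lit 0) (nat_lit 293280322812) (nat_lit 1) (nat_lit 5) (nat_lit 3) (nat_lit 4) (nat_lit 1) (nat_lit 4) (nat_lit 246) (nat_lit 182) (nat_lit 172)))) (XT.nd (nat_lit 156) (nat_lit 0) (nat_lit 0) (XT.nd (nat_lit 78) (nat_lit 0) (nat_lit 0) (XT.lf (nat_lit 0) (nat_lit 338517227379) (nat_lit 152) (nat_lit 232028750314) (nat_lit 0) (nat_lit 337987167084) (nat_lit 1) (nat_lit 5) (nat_lit 3) (nat_lit 4) (nat_lit 1) (nat_lit 4) (nat_lit 247) (nat_lit 182) (nat_lit 171)) (XT.lf (nat_lit 0) (nat_lit 389923735060) (nat_lit 152) (nat_lit 265403528499)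 (nat_lit 0) (nat_lit 389374745167) (nat_lit 1) (nat_lit 5) (nat_lit 3) (nat_lit 4) (nat_lit 1) (nat_lit 4) (nat_lit 248) (nat_lit 182) (nat_lit 170))) (XT.nd (nat_lit 78) (nat_lit 0) (nat_lit 0) (XT.lf (nat_lit 0) (nat_lit 449013916611) (nat_lit 152) (nat_lit 303837973783) (nat_lit 0) (nat_lit 448448466199) (nat_lit 1) (nat_lit 5) (nat_lit 3) (nat_lit 4) (nat_lit 1) (nat_lit 4) (nat_lit 249) (nat_lit 182) (nat_lit 169)) (XT.lf (nat_lit 0) (nat_lit 516943884280) (nat_lit 152) (nat_lit 348084064445) (nat_lit 0) (nat_lit 516364120373) (nat_lit 1) (nat_lit 5) (nat_lit 3) (nat_lit 4) (nat_lit 1) (nat_lit 4) (nat_lit 250) (nat_lit 182) (nat_lit 168))))) (XT.nd (nat_lit 312) (nat_lit 0) (nat_lit 0) (XT.nd (nat_lit 156) (nat_lit 0) (nat_lit 0) (XT.nd (nat_lit 78) (nat_lit 0) (nat_lit 0) (XT.lf (nat_lit 0) (nat_lit 595042702653) (nat_lit 152) (nat_lit 399007484866) (nat_lit 0) (nat_lit 594450492228)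 (nat_lit 1) (nat_lit 5) (nat_lit 3) (nat_lit 4) (nat_lit 1) (nat_lit 4) (nat_lit 251) (nat_lit 182) (nat_lit 167)) (XT.lf (nat_lit 0) (nat_lit 684838392087) (nat_lit 152) (nat_lit 457604562837) (nat_lit 0) (nat_lit 684235358603) (nat_lit 1) (nat_lit 5) (nat_lit 3) (nat_lit 4) (nat_lit 1) (nat_lit 4) (nat_lit 252) (nat_lit 182) (nat_lit 166))) (XT.nd (nat_lit 78) (nat_lit 0) (nat_lit 0) (XT.lf (nat_lit 0) (nat_lit 788087824768) (nat_lit 152) (nat_lit 525021762928) (nat_lit 0) (nat_lit 787475379929) (nat_lit 1) (nat_lit 5) (nat_lit 3) (nat_lit 4) (nat_lit 1) (nat_lit 4) (nat_lit 253) (nat_lit 182) (nat_lit 165)) (XT.lf (nat_lit 0) (nat_lit 906811098293) (nat_lit 152) (nat_lit 602578117314) (nat_lit 0) (nat_lit 906190469666) (nat_lit 1) (nat_lit 5) (nat_lit 3) (nat_lit 4) (nat_lit 1) (nat_lit 4) (nat_lit 254) (nat_lit 182) (nat_lit 164)))) (XT.nd (nat_lit 156) (nat_lit 0) (nat_lit 0)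 (XT.nd (nat_lit 78) (nat_lit 0) (nat_lit 0) (XT.lf (nat_lit 0) (nat_lit 1043331059316) (nat_lit 152) (nat_lit 691791032929) (nat_lit 0) (nat_lit 1042703314352) (nat_lit 1) (nat_lit 5) (nat_lit 3) (nat_lit 4) (nat_lit 1) (nat_lit 4) (nat_lit 255) (nat_lit 182) (nat_lit 163)) (XT.lf (nat_lit 0) (nat_lit 1200318750553) (nat_lit 152) (nat_lit 794405979860) (nat_lit 0) (nat_lit 1199684817470) (nat_lit 1) (nat_lit 5) (nat_lit 3) (nat_lit 4) (nat_lit 1) (nat_lit 4) (nat_lit 256) (nat_lit 182) (nat_lit 162))) (XT.nd (nat_lit 78) (nat_lit 0) (nat_lit 0) (XT.lf (nat_lit 0) (nat_lit 1380845670311) (nat_lit 152) (nat_lit 912430641853) (nat_lit 0) (nat_lit 1380206356256) (nat_lit 1) (nat_lit 5) (nat_lit 3) (nat_lit 4) (nat_lit 1) (nat_lit 4) (nat_lit 257) (nat_lit 182) (nat_lit 161)) (XT.lf (nat_lit 0) (nat_lit 1588443867021) (nat_lit 152) (nat_lit 1048174197076) (nat_lit 0) (nat_lit 1587799873859)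 (nat_lit 1) (nat_lit 5) (nat_lit 3) (nat_lit 4) (nat_lit 1) (nat_lit 4) (nat_lit 258) (nat_lit 182) (nat_lit 160)))))) (XT.nd (nat_lit 624) (nat_lit 0) (nat_lit 0) (XT.nd (nat_lit 312) (nat_lit 0) (nat_lit 0) (XT.nd (nat_lit 156) (nat_lit 0) (nat_lit 0) (XT.nd (nat_lit 78) (nat_lit 0) (nat_lit 0) (XT.lf (nat_lit 0) (nat_lit 1827175044531) (nat_lit 152) (nat_lit 1204292497697) (nat_lit 0) (nat_lit 1826526982580) (nat_lit 1) (nat_lit 5) (nat_lit 3) (nat_lit 4) (nat_lit 1) (nat_lit 4) (nat_lit 259) (nat_lit 182) (nat_lit 159)) (XT.lf (nat_lit 0) (nat_lit 2101710030227) (nat_lit 152) (nat_lit 1383840032206) (nat_lit 0) (nat_lit 2101058430199) (nat_lit 1) (nat_lit 5) (nat_lit 3) (nat_lit 4) (nat_lit 1) (nat_lit 4) (nat_lit 260) (nat_lit 182) (nat_lit 158))) (XT.nd (nat_lit 78) (nat_lit 0) (nat_lit 0) (XT.lf (nat_lit 0) (nat_lit 2417420160786) (nat_lit 152) (nat_lit 1590329687149) (nat_lit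 0) (nat_lit 2416765484168) (nat_lit 1) (nat_lit 5) (nat_lit 3) (nat_lit 4) (nat_lit 1) (nat_lit 4) (nat_lit 261) (nat_lit 182) (nat_lit 157)) (XT.lf (nat_lit 0) (nat_lit 2780482373544) (nat_lit 152) (nat_lit 1827801477513) (nat_lit 0) (nat_lit 2779825021632) (nat_lit 1) (nat_lit 5) (nat_lit 3) (nat_lit 4) (nat_lit 1) (nat_lit 4) (nat_lit 262) (nat_lit 182) (nat_lit 156)))) (XT.nd (nat_lit 156) (nat_lit 0) (nat_lit 0) (XT.nd (nat_lit 78) (nat_lit 0) (nat_lit 0) (XT.lf (nat_lit 0) (nat_lit 3198000059621) (nat_lit 152) (nat_lit 2100901590500) (nat_lit 0) (nat_lit 3197340381366) (nat_lit 1) (nat_lit 5) (nat_lit 3) (nat_lit 4) (nat_lit 1) (nat_lit 4) (nat_lit 263) (nat_lit 182) (nat_lit 155)) (XT.lf (nat_lit 0) (nat_lit 3678142043310) (nat_lit 152) (nat_lit 2414973289192) (nat_lit 0) (nat_lit 3677480342148) (nat_lit 1) (nat_lit 5) (nat_lit 3) (nat_lit 4) (nat_lit 1) (nat_lit 4) (nat_lit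 264) (nat_lit 182) (nat_lit 154))) (XT.nd (nat_lit 78) (nat_lit 0) (nat_lit 0) (XT.lf (nat_lit 0) (nat_lit 4230302406900) (nat_lit 152) (nat_lit 2776161454649) (nat_lit 0) (nat_lit 4229638946688) (nat_lit 1) (nat_lit 5) (nat_lit 3) (nat_lit 4) (nat_lit 1) (nat_lit 4) (nat_lit 265) (nat_lit 182) (nat_lit 153)) (XT.lf (nat_lit 0) (nat_lit 4865284287940) (nat_lit 152) (nat_lit 3191532811848) (nat_lit 0) (nat_lit 4864619298119) (nat_lit 1) (nat_lit 5) (nat_lit 3) (nat_lit 4) (nat_lit 1) (nat_lit 4) (nat_lit 266) (nat_lit 182) (nat_lit 152))))) (XT.nd (nat_lit 312) (nat_lit 0) (nat_lit 0) (XT.nd (nat_lit 156) (nat_lit 0) (nat_lit 0) (XT.nd (nat_lit 78) (nat_lit 0) (nat_lit 0) (XT.lf (nat_lit 0) (nat_lit 5595511244971) (nat_lit 152) (nat_lit 3669214191690) (nat_lit 0) (nat_lit 5594844925057) (nat_lit 1) (nat_lit 5) (nat_lit 3) (nat_lit 4) (nat_lit 1) (nat_lit 4) (nat_lit 267) (nat_lit 182)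 (nat_lit 151)) (XT.lf (nat_lit 0) (nat_lit 6435270327154) (nat_lit 152) (nat_lit 4218551534217) (nat_lit 0) (nat_lit 6434602850636) (nat_lit 1) (nat_lit 5) (nat_lit 3) (nat_lit 4) (nat_lit 1) (nat_lit 4) (nat_lit 268) (nat_lit 182) (nat_lit 150))) (XT.nd (nat_lit 78) (nat_lit 0) (nat_lit 0) (XT.lf (nat_lit 0) (nat_lit 7400991603487) (nat_lit 152) (nat_lit 4850292743954) (nat_lit 0) (nat_lit 7400323121227) (nat_lit 1) (nat_lit 5) (nat_lit 3) (nat_lit 4) (nat_lit 1) (nat_lit 4) (nat_lit 269) (nat_lit 182) (nat_lit 149)) (XT.lf (nat_lit 0) (nat_lit 8511569620682) (nat_lit 152) (nat_lit 5576797975008) (nat_lit 0) (nat_lit 8510900263863) (nat_lit 1) (nat_lit 5) (nat_lit 3) (nat_lit 4) (nat_lit 1) (nat_lit 4) (nat_lit 270) (nat_lit 182) (nat_lit 148)))) (XT.nd (nat_lit 156) (nat_lit 0) (nat_lit 0) (XT.nd (nat_lit 78) (nat_lit 0) (nat_lit 0) (XT.lf (nat_lit 0) (nat_lit 9788733079074) (nat_lit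 152) (nat_lit 6412281460157) (nat_lit 0) (nat_lit 9788062961769) (nat_lit 1) (nat_lit 5) (nat_lit 3) (nat_lit 4) (nat_lit 1) (nat_lit 4) (nat_lit 271) (nat_lit 182) (nat_lit 147)) (XT.lf (nat_lit 0) (nat_lit 11257469959371) (nat_lit 152) (nat_lit 7373089615417) (nat_lit 0) (nat_lit 11256799180775) (nat_lit 1) (nat_lit 5) (nat_lit 3) (nat_lit 4) (nat_lit 1) (nat_lit 4) (nat_lit 272) (nat_lit 182) (nat_lit 146))) (XT.nd (nat_lit 78) (nat_lit 0) (nat_lit 0) (XT.lf (nat_lit 0) (nat_lit 12946516417928) (nat_lit 152) (nat_lit 8478020861217) (nat_lit 0) (nat_lit 12945845064295) (nat_lit 1) (nat_lit 5) (nat_lit 3) (nat_lit 4) (nat_lit 1) (nat_lit 4) (nat_lit 273) (nat_lit 182) (nat_lit 145)) (XT.lf (nat_lit 0) (nat_lit 14888919015889) (nat_lit 152) (nat_lit 9748693417582) (nat_lit 0) (nat_lit 14888247162224) (nat_lit 1) (nat_lit 5) (nat_lit 3) (nat_lit 4) (nat_lit 1) (nat_lit 4) (nat_lit 274)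 (nat_lit 182) (nat_lit 144))))))) (XT.nd (nat_lit 28938) (nat_lit 0) (nat_lit 0) (XT.nd (nat_lit 28314) (nat_lit 0) (nat_lit 0) (XT.nd (nat_lit 312) (nat_lit 0) (nat_lit 0) (XT.nd (nat_lit 156) (nat_lit 0) (nat_lit 0) (XT.nd (nat_lit 78) (nat_lit 0) (nat_lit 0) (XT.lf (nat_lit 0) (nat_lit 17122681282345) (nat_lit 152) (nat_lit 11209968269312) (nat_lit 0) (nat_lit 17122008993870) (nat_lit 1) (nat_lit 5) (nat_lit 3) (nat_lit 4) (nat_lit 1) (nat_lit 4) (nat_lit 275) (nat_lit 182) (nat_lit 143)) (XT.lf (nat_lit 0) (nat_lit 19691507261640) (nat_lit 152) (nat_lit 12890435576549) (nat_lit 0) (nat_lit 19690834595069) (nat_lit 1) (nat_lit 5) (nat_lit 3) (nat_lit 4) (nat_lit 1) (nat_lit 4) (nat_lit 276) (nat_lit 182) (nat_lit 142))) (XT.nd (nat_lit 78) (nat_lit 0) (nat_lit 0) (XT.lf (nat_lit 0) (nat_lit 22645656592499) (nat_lit 152) (nat_lit 14822974047478) (nat_lit 0) (nat_lit 22644983597150)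 (nat_lit 1) (nat_lit 5) (nat_lit 3) (nat_lit 4) (nat_lit 1) (nat_lit 4) (nat_lit 277) (nat_lit 182) (nat_lit 141)) (XT.lf (nat_lit 0) (nat_lit 26042927848788) (nat_lit 152) (nat_lit 17045394217399) (nat_lit 0) (nat_lit 26042254567543) (nat_lit 1) (nat_lit 5) (nat_lit 3) (nat_lit 4) (nat_lit 1) (nat_lit 4) (nat_lit 278) (nat_lit 182) (nat_lit 140)))) (XT.nd (nat_lit 27846) (nat_lit 0) (nat_lit 0) (XT.nd (nat_lit 27768) (nat_lit 0) (nat_lit 0) (XT.lf (nat_lit 0) (nat_lit 29949789381171) (nat_lit 152) (nat_lit 19601178220073) (nat_lit 0) (nat_lit 29949115851323) (nat_lit 1) (nat_lit 5) (nat_lit 3) (nat_lit 4) (nat_lit 1) (nat_lit 4) (nat_lit 279) (nat_lit 182) (nat_lit 139)) (XT.lf (nat_lit 0) (nat_lit 24192025488) (nat_lit 152) (nat_lit 26002442835) (nat_lit 0) (nat_lit 24192025488) (nat_lit 1) (nat_lit 5) (nat_lit 3) (nat_lit 4) (nat_lit 1) (nat_lit 4) (nat_lit 234) (nat_lit 183) (nat_lit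 183))) (XT.nd (nat_lit 78) (nat_lit 0) (nat_lit 0) (XT.lf (nat_lit 0) (nat_lit 57244106561) (nat_lit 152) (nat_lit 56440449537) (nat_lit 0) (nat_lit 57142828480) (nat_lit 1) (nat_lit 5) (nat_lit 3) (nat_lit 4) (nat_lit 1) (nat_lit 4) (nat_lit 235) (nat_lit 183) (nat_lit 182)) (XT.lf (nat_lit 0) (nat_lit 67287096447) (nat_lit 152) (nat_lit 61827320841) (nat_lit 0) (nat_lit 67097750469) (nat_lit 1) (nat_lit 5) (nat_lit 3) (nat_lit 4) (nat_lit 1) (nat_lit 4) (nat_lit 236) (nat_lit 183) (nat_lit 181))))) (XT.nd (nat_lit 312) (nat_lit 0) (nat_lit 0) (XT.nd (nat_lit 156) (nat_lit 0) (nat_lit 0) (XT.nd (nat_lit 78) (nat_lit 0) (nat_lit 0) (XT.lf (nat_lit 0) (nat_lit 78709513915) (nat_lit 152) (nat_lit 68270894892) (nat_lit 0) (nat_lit 78443587157) (nat_lit 1) (nat_lit 5) (nat_lit 3) (nat_lit 4) (nat_lit 1) (nat_lit 4) (nat_lit 237) (nat_lit 183) (nat_lit 180)) (XT.lf (nat_lit 0) (nat_lit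 91734841045) (nat_lit 152) (nat_lit 75897241617) (nat_lit 0) (nat_lit 91402322304) (nat_lit 1) (nat_lit 5) (nat_lit 3) (nat_lit 4) (nat_lit 1) (nat_lit 4) (nat_lit 238) (nat_lit 183) (nat_lit 179))) (XT.nd (nat_lit 78) (nat_lit 0) (nat_lit 0) (XT.lf (nat_lit 0) (nat_lit 106617921194) (nat_lit 152) (nat_lit 84855572146) (nat_lit 0) (nat_lit 106227496382) (nat_lit 1) (nat_lit 5) (nat_lit 3) (nat_lit 4) (nat_lit 1) (nat_lit 4) (nat_lit 239) (nat_lit 183) (nat_lit 178)) (XT.lf (nat_lit 0) (nat_lit 123649945061) (nat_lit 152) (nat_lit 95321158165) (nat_lit 0) (nat_lit 123209167143) (nat_lit 1) (nat_lit 5) (nat_lit 3) (nat_lit 4) (nat_lit 1) (nat_lit 4) (nat_lit 240) (nat_lit 183) (nat_lit 177)))) (XT.nd (nat_lit 156) (nat_lit 0) (nat_lit 0) (XT.nd (nat_lit 78) (nat_lit 0) (nat_lit 0) (XT.lf (nat_lit 0) (nat_lit 143164147896) (nat_lit 152) (nat_lit 107498761139) (nat_lit 0) (nat_lit 142679584669)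 (nat_lit 1) (nat_lit 5) (nat_lit 3) (nat_lit 4) (nat_lit 1) (nat_lit 4) (nat_lit 241) (nat_lit 183) (nat_lit 176)) (XT.lf (nat_lit 0) (nat_lit 165542329319) (nat_lit 152) (nat_lit 121626638517) (nat_lit 0) (nat_lit 165019691909) (nat_lit 1) (nat_lit 5) (nat_lit 3) (nat_lit 4) (nat_lit 1) (nat_lit 4) (nat_lit 242) (nat_lit 183) (nat_lit 175))) (XT.nd (nat_lit 78) (nat_lit 0) (nat_lit 0) (XT.lf (nat_lit 0) (nat_lit 191222323315) (nat_lit 152) (nat_lit 137981205292) (nat_lit 0) (nat_lit 190666577921) (nat_lit 1) (nat_lit 5) (nat_lit 3) (nat_lit 4) (nat_lit 1) (nat_lit 4) (nat_lit 243) (nat_lit 183) (nat_lit 174)) (XT.lf (nat_lit 0) (nat_lit 220706564548) (nat_lit 152) (nat_lit 156882442118) (nat_lit 0) (nat_lit 220122029602) (nat_lit 1) (nat_lit 5) (nat_lit 3) (nat_lit 4) (nat_lit 1) (nat_lit 4) (nat_lit 244) (nat_lit 183) (nat_lit 173)))))) (XT.nd (nat_lit 624) (nat_lit 0) (nat_lit 0)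 (XT.nd (nat_lit 312) (nat_lit 0) (nat_lit 0) (XT.nd (nat_lit 156) (nat_lit 0) (nat_lit 0) (XT.nd (nat_lit 78) (nat_lit 0) (nat_lit 0) (XT.lf (nat_lit 0) (nat_lit 254571918609) (nat_lit 152) (nat_lit 178700155802) (nat_lit 0) (nat_lit 253962349270) (nat_lit 1) (nat_lit 5) (nat_lit 3) (nat_lit 4) (nat_lit 1) (nat_lit 4) (nat_lit 245) (nat_lit 183) (nat_lit 172)) (XT.lf (nat_lit 0) (nat_lit 293480968510) (nat_lit 152) (nat_lit 203861214656) (nat_lit 0) (nat_lit 292849630134) (nat_lit 1) (nat_lit 5) (nat_lit 3) (nat_lit 4) (nat_lit 1) (nat_lit 4) (nat_lit 246) (nat_lit 183) (nat_lit 171))) (XT.nd (nat_lit 78) (nat_lit 0) (nat_lit 0) (XT.lf (nat_lit 0) (nat_lit 338194978273) (nat_lit 152) (nat_lit 232857900265) (nat_lit 0) (nat_lit 337544710299) (nat_lit 1) (nat_lit 5) (nat_lit 3) (nat_lit 4) (nat_lit 1) (nat_lit 4) (nat_lit 247) (nat_lit 183) (nat_lit 170)) (XT.lf (nat_lit 0) (nat_lit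 389588787218) (nat_lit 152) (nat_lit 266257539088) (nat_lit 0) (nat_lit 388922058725) (nat_lit 1) (nat_lit 5) (nat_lit 3) (nat_lit 4) (nat_lit 1) (nat_lit 4) (nat_lit 248) (nat_lit 183) (nat_lit 169)))) (XT.nd (nat_lit 156) (nat_lit 0) (nat_lit 0) (XT.nd (nat_lit 78) (nat_lit 0) (nat_lit 0) (XT.lf (nat_lit 0) (nat_lit 448667926391) (nat_lit 152) (nat_lit 304713602319) (nat_lit 0) (nat_lit 447986884402) (nat_lit 1) (nat_lit 5) (nat_lit 3) (nat_lit 4) (nat_lit 1) (nat_lit 4) (nat_lit 249) (nat_lit 183) (nat_lit 168)) (XT.lf (nat_lit 0) (nat_lit 516588291991) (nat_lit 152) (nat_lit 348978491195) (nat_lit 0) (nat_lit 515894803485) (nat_lit 1) (nat_lit 5) (nat_lit 3) (nat_lit 4) (nat_lit 1) (nat_lit 4) (nat_lit 250) (nat_lit 183) (nat_lit 167))) (XT.nd (nat_lit 78) (nat_lit 0) (nat_lit 0) (XT.lf (nat_lit 0) (nat_lit 594678760739) (nat_lit 152) (nat_lit 399918257889) (nat_lit 0) (nat_lit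 593974449174) (nat_lit 1) (nat_lit 5) (nat_lit 3) (nat_lit 4) (nat_lit 1) (nat_lit 4) (nat_lit 251) (nat_lit 183) (nat_lit 166)) (XT.lf (nat_lit 0) (nat_lit 684467189630) (nat_lit 152) (nat_lit 458529550011) (nat_lit 0) (nat_lit 683753466709) (nat_lit 1) (nat_lit 5) (nat_lit 3) (nat_lit 4) (nat_lit 1) (nat_lit 4) (nat_lit 252) (nat_lit 183) (nat_lit 165))))) (XT.nd (nat_lit 312) (nat_lit 0) (nat_lit 0) (XT.nd (nat_lit 156) (nat_lit 0) (nat_lit 0) (XT.nd (nat_lit 78) (nat_lit 0) (nat_lit 0) (XT.lf (nat_lit 0) (nat_lit 787710308795) (nat_lit 152) (nat_lit 525959110233) (nat_lit 0) (nat_lit 786988402087) (nat_lit 1) (nat_lit 5) (nat_lit 3) (nat_lit 4) (nat_lit 1) (nat_lit 4) (nat_lit 253) (nat_lit 183) (nat_lit 164)) (XT.lf (nat_lit 0) (nat_lit 906428092306) (nat_lit 152) (nat_lit 603526212558) (nat_lit 0) (nat_lit 905699069261) (nat_lit 1) (nat_lit 5) (nat_lit 3) (nat_lit 4) (nat_lit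 1) (nat_lit 4) (nat_lit 254) (nat_lit 183) (nat_lit 163))) (XT.nd (nat_lit 78) (nat_lit 0) (nat_lit 0) (XT.lf (nat_lit 0) (nat_lit 1042943279403) (nat_lit 152) (nat_lit 692748474208) (nat_lit 0) (nat_lit 1042208068239) (nat_lit 1) (nat_lit 5) (nat_lit 3) (nat_lit 4) (nat_lit 1) (nat_lit 4) (nat_lit 255) (nat_lit 183) (nat_lit 162)) (XT.lf (nat_lit 0) (nat_lit 1199926819401) (nat_lit 152) (nat_lit 795371548126) (nat_lit 0) (nat_lit 1199186227264) (nat_lit 1) (nat_lit 5) (nat_lit 3) (nat_lit 4) (nat_lit 1) (nat_lit 4) (nat_lit 256) (nat_lit 183) (nat_lit 161)))) (XT.nd (nat_lit 156) (nat_lit 0) (nat_lit 0) (XT.nd (nat_lit 78) (nat_lit 0) (nat_lit 0) (XT.lf (nat_lit 0) (nat_lit 1380450129387) (nat_lit 152) (nat_lit 913403277063) (nat_lit 0) (nat_lit 1379704858143) (nat_lit 1) (nat_lit 5) (nat_lit 3) (nat_lit 4) (nat_lit 1) (nat_lit 4) (nat_lit 257) (nat_lit 183) (nat_lit 160)) (XT.lf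 (nat_lit 0) (nat_lit 1588045187163) (nat_lit 152) (nat_lit 1049152977456) (nat_lit 0) (nat_lit 1587295847131) (nat_lit 1) (nat_lit 5) (nat_lit 3) (nat_lit 4) (nat_lit 1) (nat_lit 4) (nat_lit 258) (nat_lit 183) (nat_lit 159))) (XT.nd (nat_lit 78) (nat_lit 0) (nat_lit 0) (XT.lf (nat_lit 0) (nat_lit 1826773635166) (nat_lit 152) (nat_lit 1205276621703) (nat_lit 0) (nat_lit 1826020757056) (nat_lit 1) (nat_lit 5) (nat_lit 3) (nat_lit 4) (nat_lit 1) (nat_lit 4) (nat_lit 259) (nat_lit 183) (nat_lit 158)) (XT.lf (nat_lit 0) (nat_lit 2101306247377) (nat_lit 152) (nat_lit 1384828802843) (nat_lit 0) (nat_lit 2100550292679) (nat_lit 1) (nat_lit 5) (nat_lit 3) (nat_lit 4) (nat_lit 1) (nat_lit 4) (nat_lit 260) (nat_lit 183) (nat_lit 157))))))))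
noncomputable def xc13 : XT := (XT.nd (nat_lit 1248) (nat_lit 0) (nat_lit 0) (XT.nd (nat_lit 624) (nat_lit 0) (nat_lit 0) (XT.nd (nat_lit 312) (nat_lit 0) (nat_lit 0) (XT.nd (nat_lit 156) (nat_lit 0) (nat_lit 0) (XT.nd (nat_lit 78) (nat_lit 0) (nat_lit 0) (XT.lf (nat_lit 0) (nat_lit 2417014314036) (nat_lit 152) (nat_lit 1591322498335) (nat_lit 0) (nat_lit 2416255684043) (nat_lit 1) (nat_lit 5) (nat_lit 3) (nat_lit 4) (nat_lit 1) (nat_lit 4) (nat_lit 261) (nat_lit 183) (nat_lit 156)) (XT.lf (nat_lit 0) (nat_lit 2780074732099) (nat_lit 152) (nat_lit 1828797802219) (nat_lit 0) (nat_lit 2779313775763) (nat_lit 1) (nat_lit 5) (nat_lit 3) (nat_lit 4) (nat_lit 1) (nat_lit 4) (nat_lit 262) (nat_lit 183) (nat_lit 155))) (XT.nd (nat_lit 78) (nat_lit 0) (nat_lit 0) (XT.lf (nat_lit 0) (nat_lit 3197590857572) (nat_lit 152) (nat_lit 2101900970442) (nat_lit 0) (nat_lit 3196827878328) (nat_lit 1)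 (nat_lit 5) (nat_lit 3) (nat_lit 4) (nat_lit 1) (nat_lit 4) (nat_lit 263) (nat_lit 183) (nat_lit 154)) (XT.lf (nat_lit 0) (nat_lit 3677731484213) (nat_lit 152) (nat_lit 2415975325860) (nat_lit 0) (nat_lit 3676966745920) (nat_lit 1) (nat_lit 5) (nat_lit 3) (nat_lit 4) (nat_lit 1) (nat_lit 4) (nat_lit 264) (nat_lit 183) (nat_lit 153)))) (XT.nd (nat_lit 156) (nat_lit 0) (nat_lit 0) (XT.nd (nat_lit 78) (nat_lit 0) (nat_lit 0) (XT.lf (nat_lit 0) (nat_lit 4229890667762) (nat_lit 152) (nat_lit 2777165801514) (nat_lit 0) (nat_lit 4229124399860) (nat_lit 1) (nat_lit 5) (nat_lit 3) (nat_lit 4) (nat_lit 1) (nat_lit 4) (nat_lit 265) (nat_lit 183) (nat_lit 152)) (XT.lf (nat_lit 0) (nat_lit 4864871522679) (nat_lit 152) (nat_lit 3192539167580) (nat_lit 0) (nat_lit 4864103924683) (nat_lit 1) (nat_lit 5) (nat_lit 3) (nat_lit 4) (nat_lit 1) (nat_lit 4) (nat_lit 266) (nat_lit 183) (nat_lit 151))) (XT.nd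 (nat_lit 78) (nat_lit 0) (nat_lit 0) (XT.lf (nat_lit 0) (nat_lit 5595097587430) (nat_lit 152) (nat_lit 3670222294263) (nat_lit 0) (nat_lit 5594328832830) (nat_lit 1) (nat_lit 5) (nat_lit 3) (nat_lit 4) (nat_lit 1) (nat_lit 4) (nat_lit 267) (nat_lit 183) (nat_lit 150)) (XT.lf (nat_lit 0) (nat_lit 6434855893716) (nat_lit 152) (nat_lit 4219561155781) (nat_lit 0) (nat_lit 6434086133374) (nat_lit 1) (nat_lit 5) (nat_lit 3) (nat_lit 4) (nat_lit 1) (nat_lit 4) (nat_lit 268) (nat_lit 183) (nat_lit 149))))) (XT.nd (nat_lit 312) (nat_lit 0) (nat_lit 0) (XT.nd (nat_lit 156) (nat_lit 0) (nat_lit 0) (XT.nd (nat_lit 78) (nat_lit 0) (nat_lit 0) (XT.lf (nat_lit 0) (nat_lit 7400576495357) (nat_lit 152) (nat_lit 4851303686381) (nat_lit 0) (nat_lit 7399805860457) (nat_lit 1) (nat_lit 5) (nat_lit 3) (nat_lit 4) (nat_lit 1) (nat_lit 4) (nat_lit 269) (nat_lit 183) (nat_lit 148)) (XT.lf (nat_lit 0) (nat_lit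 8511153925862) (nat_lit 152) (nat_lit 5577810066010) (nat_lit 0) (nat_lit 8510382530476) (nat_lit 1) (nat_lit 5) (nat_lit 3) (nat_lit 4) (nat_lit 1) (nat_lit 4) (nat_lit 270) (nat_lit 183) (nat_lit 147))) (XT.nd (nat_lit 78) (nat_lit 0) (nat_lit 0) (XT.lf (nat_lit 0) (nat_lit 9788316874090) (nat_lit 152) (nat_lit 6413294549922) (nat_lit 0) (nat_lit 9787544817412) (nat_lit 1) (nat_lit 5) (nat_lit 3) (nat_lit 4) (nat_lit 1) (nat_lit 4) (nat_lit 271) (nat_lit 183) (nat_lit 146)) (XT.lf (nat_lit 0) (nat_lit 11257053310766) (nat_lit 152) (nat_lit 7374103573671) (nat_lit 0) (nat_lit 11256280679052) (nat_lit 1) (nat_lit 5) (nat_lit 3) (nat_lit 4) (nat_lit 1) (nat_lit 4) (nat_lit 272) (nat_lit 183) (nat_lit 145)))) (XT.nd (nat_lit 156) (nat_lit 0) (nat_lit 0) (XT.nd (nat_lit 78) (nat_lit 0) (nat_lit 0) (XT.lf (nat_lit 0) (nat_lit 12946099383565) (nat_lit 152) (nat_lit 8479035574678) (nat_lit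 0) (nat_lit 12945326251819) (nat_lit 1) (nat_lit 5) (nat_lit 3) (nat_lit 4) (nat_lit 1) (nat_lit 4) (nat_lit 273) (nat_lit 183) (nat_lit 144)) (XT.lf (nat_lit 0) (nat_lit 14888501646085) (nat_lit 152) (nat_lit 9749708787745) (nat_lit 0) (nat_lit 14887728079528) (nat_lit 1) (nat_lit 5) (nat_lit 3) (nat_lit 4) (nat_lit 1) (nat_lit 4) (nat_lit 274) (nat_lit 183) (nat_lit 143))) (XT.nd (nat_lit 78) (nat_lit 0) (nat_lit 0) (XT.lf (nat_lit 0) (nat_lit 17122263620853) (nat_lit 152) (nat_lit 11210984210520) (nat_lit 0) (nat_lit 17121489676201) (nat_lit 1) (nat_lit 5) (nat_lit 3) (nat_lit 4) (nat_lit 1) (nat_lit 4) (nat_lit 275) (nat_lit 183) (nat_lit 142)) (XT.lf (nat_lit 0) (nat_lit 19691089346506) (nat_lit 152) (nat_lit 12891452014318) (nat_lit 0) (nat_lit 19690315073075) (nat_lit 1) (nat_lit 5) (nat_lit 3) (nat_lit 4) (nat_lit 1) (nat_lit 4) (nat_lit 276) (nat_lit 183) (nat_lit 141))))))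 (XT.nd (nat_lit 28236) (nat_lit 0) (nat_lit 0) (XT.nd (nat_lit 27924) (nat_lit 0) (nat_lit 0) (XT.nd (nat_lit 27768) (nat_lit 0) (nat_lit 0) (XT.nd (nat_lit 78) (nat_lit 0) (nat_lit 0) (XT.lf (nat_lit 0) (nat_lit 22645238456807) (nat_lit 152) (nat_lit 14823990917039) (nat_lit 0) (nat_lit 22644463897481) (nat_lit 1) (nat_lit 5) (nat_lit 3) (nat_lit 4) (nat_lit 1) (nat_lit 4) (nat_lit 277) (nat_lit 183) (nat_lit 140)) (XT.lf (nat_lit 0) (nat_lit 26042509521306) (nat_lit 152) (nat_lit 17046411462432) (nat_lit 0) (nat_lit 26041734713376) (nat_lit 1) (nat_lit 5) (nat_lit 3) (nat_lit 4) (nat_lit 1) (nat_lit 4) (nat_lit 278) (nat_lit 183) (nat_lit 139))) (XT.nd (nat_lit 78) (nat_lit 0) (nat_lit 0) (XT.lf (nat_lit 0) (nat_lit 16872711062) (nat_lit 152) (nat_lit 22740778610) (nat_lit 0) (nat_lit 16872711062) (nat_lit 1) (nat_lit 5) (nat_lit 3) (nat_lit 4) (nat_lit 1) (nat_lit 4) (nat_lit 232)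 (nat_lit 184) (nat_lit 184)) (XT.lf (nat_lit 0) (nat_lit 40650050573) (nat_lit 152) (nat_lit 48433846471) (nat_lit 0) (nat_lit 40533580779) (nat_lit 1) (nat_lit 5) (nat_lit 3) (nat_lit 4) (nat_lit 1) (nat_lit 4) (nat_lit 233) (nat_lit 184) (nat_lit 183)))) (XT.nd (nat_lit 156) (nat_lit 0) (nat_lit 0) (XT.nd (nat_lit 78) (nat_lit 0) (nat_lit 0) (XT.lf (nat_lit 0) (nat_lit 48422388146) (nat_lit 152) (nat_lit 52157847897) (nat_lit 0) (nat_lit 48204640271) (nat_lit 1) (nat_lit 5) (nat_lit 3) (nat_lit 4) (nat_lit 1) (nat_lit 4) (nat_lit 234) (nat_lit 184) (nat_lit 182)) (XT.lf (nat_lit 0) (nat_lit 57214502318) (nat_lit 152) (nat_lit 56726422395) (nat_lit 0) (nat_lit 56908686546) (nat_lit 1) (nat_lit 5) (nat_lit 3) (nat_lit 4) (nat_lit 1) (nat_lit 4) (nat_lit 235) (nat_lit 184) (nat_lit 181))) (XT.nd (nat_lit 78) (nat_lit 0) (nat_lit 0) (XT.lf (nat_lit 0) (nat_lit 67198412715) (nat_lit 152)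 (nat_lit 62228955119) (nat_lit 0) (nat_lit 66816016164) (nat_lit 1) (nat_lit 5) (nat_lit 3) (nat_lit 4) (nat_lit 1) (nat_lit 4) (nat_lit 236) (nat_lit 184) (nat_lit 180)) (XT.lf (nat_lit 0) (nat_lit 78569456714) (nat_lit 152) (nat_lit 68773104316) (nat_lit 0) (nat_lit 78120468180) (nat_lit 1) (nat_lit 5) (nat_lit 3) (nat_lit 4) (nat_lit 1) (nat_lit 4) (nat_lit 237) (nat_lit 184) (nat_lit 179))))) (XT.nd (nat_lit 312) (nat_lit 0) (nat_lit 0) (XT.nd (nat_lit 156) (nat_lit 0) (nat_lit 0) (XT.nd (nat_lit 78) (nat_lit 0) (nat_lit 0) (XT.lf (nat_lit 0) (nat_lit 91550111263) (nat_lit 152) (nat_lit 76486907690) (nat_lit 0) (nat_lit 91043216657) (nat_lit 1) (nat_lit 5) (nat_lit 3) (nat_lit 4) (nat_lit 1) (nat_lit 4) (nat_lit 238) (nat_lit 184) (nat_lit 178)) (XT.lf (nat_lit 0) (nat_lit 106394345689) (nat_lit 152) (nat_lit 85521287480) (nat_lit 0) (nat_lit 105837097977) (nat_lit 1) (nat_lit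 5) (nat_lit 3) (nat_lit 4) (nat_lit 1) (nat_lit 4) (nat_lit 239) (nat_lit 184) (nat_lit 177))) (XT.nd (nat_lit 78) (nat_lit 0) (nat_lit 0) (XT.lf (nat_lit 0) (nat_lit 123392590667) (nat_lit 152) (nat_lit 96053003291) (nat_lit 0) (nat_lit 122791557645) (nat_lit 1) (nat_lit 5) (nat_lit 3) (nat_lit 4) (nat_lit 1) (nat_lit 4) (nat_lit 240) (nat_lit 184) (nat_lit 176)) (XT.lf (nat_lit 0) (nat_lit 142877420554) (nat_lit 152) (nat_lit 108288110431) (nat_lit 0) (nat_lit 142238313351) (nat_lit 1) (nat_lit 5) (nat_lit 3) (nat_lit 4) (nat_lit 1) (nat_lit 4) (nat_lit 241) (nat_lit 184) (nat_lit 175)))) (XT.nd (nat_lit 156) (nat_lit 0) (nat_lit 0) (XT.nd (nat_lit 78) (nat_lit 0) (nat_lit 0) (XT.lf (nat_lit 0) (nat_lit 165230060284) (nat_lit 152) (nat_lit 122465991433) (nat_lit 0) (nat_lit 164557845096) (nat_lit 1) (nat_lit 5) (nat_lit 3) (nat_lit 4) (nat_lit 1) (nat_lit 4) (nat_lit 242) (nat_lit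 184) (nat_lit 174)) (XT.lf (nat_lit 0) (nat_lit 190887844111) (nat_lit 152) (nat_lit 138864039619) (nat_lit 0) (nat_lit 190186839372) (nat_lit 1) (nat_lit 5) (nat_lit 3) (nat_lit 4) (nat_lit 1) (nat_lit 4) (nat_lit 243) (nat_lit 184) (nat_lit 173))) (XT.nd (nat_lit 78) (nat_lit 0) (nat_lit 0) (XT.lf (nat_lit 0) (nat_lit 220352772155) (nat_lit 152) (nat_lit 157803086368) (nat_lit 0) (nat_lit 219626733022) (nat_lit 1) (nat_lit 5) (nat_lit 3) (nat_lit 4) (nat_lit 1) (nat_lit 4) (nat_lit 244) (nat_lit 184) (nat_lit 172)) (XT.lf (nat_lit 0) (nat_lit 254201332137) (nat_lit 152) (nat_lit 179653678246) (nat_lit 0) (nat_lit 253453523968) (nat_lit 1) (nat_lit 5) (nat_lit 3) (nat_lit 4) (nat_lit 1) (nat_lit 4) (nat_lit 245) (nat_lit 184) (nat_lit 171)))))))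
noncomputable def xc14 : XT := (XT.nd (nat_lit 1248) (nat_lit 0) (nat_lit 0) (XT.nd (nat_lit 624) (nat_lit 0) (nat_lit 0) (XT.nd (nat_lit 312) (nat_lit 0) (nat_lit 0) (XT.nd (nat_lit 156) (nat_lit 0) (nat_lit 0) (XT.nd (nat_lit 78) (nat_lit 0) (nat_lit 0) (XT.lf (nat_lit 0) (nat_lit 293095778493) (nat_lit 152) (nat_lit 204843326834) (nat_lit 0) (nat_lit 292329040725) (nat_lit 1) (nat_lit 5) (nat_lit 3) (nat_lit 4) (nat_lit 1) (nat_lit 4) (nat_lit 246) (nat_lit 184) (nat_lit 170)) (XT.lf (nat_lit 0) (nat_lit 337797089520) (nat_lit 152) (nat_lit 233864873081) (nat_lit 0) (nat_lit 337013891233) (nat_lit 1) (nat_lit 5) (nat_lit 3) (nat_lit 4) (nat_lit 1) (nat_lit 4) (nat_lit 247) (nat_lit 184) (nat_lit 169))) (XT.nd (nat_lit 78) (nat_lit 0) (nat_lit 0) (XT.lf (nat_lit 0) (nat_lit 389179856086) (nat_lit 152) (nat_lit 267286129850) (nat_lit 0) (nat_lit 388382344304) (nat_lit 1) (nat_lit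 5) (nat_lit 3) (nat_lit 4) (nat_lit 1) (nat_lit 4) (nat_lit 248) (nat_lit 184) (nat_lit 168)) (XT.lf (nat_lit 0) (nat_lit 448249393190) (nat_lit 152) (nat_lit 305760991295) (nat_lit 0) (nat_lit 447439434890) (nat_lit 1) (nat_lit 5) (nat_lit 3) (nat_lit 4) (nat_lit 1) (nat_lit 4) (nat_lit 249) (nat_lit 184) (nat_lit 167)))) (XT.nd (nat_lit 156) (nat_lit 0) (nat_lit 0) (XT.nd (nat_lit 78) (nat_lit 0) (nat_lit 0) (XT.lf (nat_lit 0) (nat_lit 516161409166) (nat_lit 152) (nat_lit 350042226444) (nat_lit 0) (nat_lit 515340627807) (nat_lit 1) (nat_lit 5) (nat_lit 3) (nat_lit 4) (nat_lit 1) (nat_lit 4) (nat_lit 250) (nat_lit 184) (nat_lit 166)) (XT.lf (nat_lit 0) (nat_lit 594244617370) (nat_lit 152) (nat_lit 400996207289) (nat_lit 0) (nat_lit 593414424655) (nat_lit 1) (nat_lit 5) (nat_lit 3) (nat_lit 4) (nat_lit 1) (nat_lit 4) (nat_lit 251) (nat_lit 184) (nat_lit 165))) (XT.nd (nat_lit 78) (nat_lit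 0) (nat_lit 0) (XT.lf (nat_lit 0) (nat_lit 684026732745) (nat_lit 152) (nat_lit 459619859542) (nat_lit 0) (nat_lit 683188356243) (nat_lit 1) (nat_lit 5) (nat_lit 3) (nat_lit 4) (nat_lit 1) (nat_lit 4) (nat_lit 252) (nat_lit 184) (nat_lit 164)) (XT.lf (nat_lit 0) (nat_lit 787264361896) (nat_lit 152) (nat_lit 527060167703) (nat_lit 0) (nat_lit 786418869058) (nat_lit 1) (nat_lit 5) (nat_lit 3) (nat_lit 4) (nat_lit 1) (nat_lit 4) (nat_lit 253) (nat_lit 184) (nat_lit 163))))) (XT.nd (nat_lit 312) (nat_lit 0) (nat_lit 0) (XT.nd (nat_lit 156) (nat_lit 0) (nat_lit 0) (XT.nd (nat_lit 78) (nat_lit 0) (nat_lit 0) (XT.lf (nat_lit 0) (nat_lit 905977371481) (nat_lit 152) (nat_lit 604636616064) (nat_lit 0) (nat_lit 905125690524) (nat_lit 1) (nat_lit 5) (nat_lit 3) (nat_lit 4) (nat_lit 1) (nat_lit 4) (nat_lit 254) (nat_lit 184) (nat_lit 162)) (XT.lf (nat_lit 0) (nat_lit 1042488407340) (nat_lit 152)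 (nat_lit 693867004700) (nat_lit 0) (nat_lit 1041631345409) (nat_lit 1) (nat_lit 5) (nat_lit 3) (nat_lit 4) (nat_lit 1) (nat_lit 4) (nat_lit 255) (nat_lit 184) (nat_lit 161))) (XT.nd (nat_lit 78) (nat_lit 0) (nat_lit 0) (XT.lf (nat_lit 0) (nat_lit 1199468337565) (nat_lit 152) (nat_lit 796497145563) (nat_lit 0) (nat_lit 1198606596527) (nat_lit 1) (nat_lit 5) (nat_lit 3) (nat_lit 4) (nat_lit 1) (nat_lit 4) (nat_lit 256) (nat_lit 184) (nat_lit 160)) (XT.lf (nat_lit 0) (nat_lit 1379988508617) (nat_lit 152) (nat_lit 914535019670) (nat_lit 0) (nat_lit 1379122698790) (nat_lit 1) (nat_lit 5) (nat_lit 3) (nat_lit 4) (nat_lit 1) (nat_lit 4) (nat_lit 257) (nat_lit 184) (nat_lit 159)))) (XT.nd (nat_lit 156) (nat_lit 0) (nat_lit 0) (XT.nd (nat_lit 78) (nat_lit 0) (nat_lit 0) (XT.lf (nat_lit 0) (nat_lit 1587580836886) (nat_lit 152) (nat_lit 1050290063688) (nat_lit 0) (nat_lit 1586711488983) (nat_lit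 1) (nat_lit 5) (nat_lit 3) (nat_lit 4) (nat_lit 1) (nat_lit 4) (nat_lit 258) (nat_lit 184) (nat_lit 158)) (XT.lf (nat_lit 0) (nat_lit 1826306911404) (nat_lit 152) (nat_lit 1206418354566) (nat_lit 0) (nat_lit 1825434486912) (nat_lit 1) (nat_lit 5) (nat_lit 3) (nat_lit 4) (nat_lit 1) (nat_lit 4) (nat_lit 259) (nat_lit 184) (nat_lit 157))) (XT.nd (nat_lit 78) (nat_lit 0) (nat_lit 0) (XT.lf (nat_lit 0) (nat_lit 2100837459716) (nat_lit 152) (nat_lit 1385974576255) (nat_lit 0) (nat_lit 2099962359929) (nat_lit 1) (nat_lit 5) (nat_lit 3) (nat_lit 4) (nat_lit 1) (nat_lit 4) (nat_lit 260) (nat_lit 184) (nat_lit 156)) (XT.lf (nat_lit 0) (nat_lit 2416543731680) (nat_lit 152) (nat_lit 1592471785267) (nat_lit 0) (nat_lit 2415666305550) (nat_lit 1) (nat_lit 5) (nat_lit 3) (nat_lit 4) (nat_lit 1) (nat_lit 4) (nat_lit 261) (nat_lit 184) (nat_lit 155)))))) (XT.nd (nat_lit 624) (nat_lit 0) (nat_lit 0)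 (XT.nd (nat_lit 312) (nat_lit 0) (nat_lit 0) (XT.nd (nat_lit 156) (nat_lit 0) (nat_lit 0) (XT.nd (nat_lit 78) (nat_lit 0) (nat_lit 0) (XT.lf (nat_lit 0) (nat_lit 2779602589138) (nat_lit 152) (nat_lit 1829950144387) (nat_lit 0) (nat_lit 2778723140101) (nat_lit 1) (nat_lit 5) (nat_lit 3) (nat_lit 4) (nat_lit 1) (nat_lit 4) (nat_lit 262) (nat_lit 184) (nat_lit 154)) (XT.lf (nat_lit 0) (nat_lit 3197117357563) (nat_lit 152) (nat_lit 2103055969336) (nat_lit 0) (nat_lit 3196236149476) (nat_lit 1) (nat_lit 5) (nat_lit 3) (nat_lit 4) (nat_lit 1) (nat_lit 4) (nat_lit 263) (nat_lit 184) (nat_lit 153))) (XT.nd (nat_lit 78) (nat_lit 0) (nat_lit 0) (XT.lf (nat_lit 0) (nat_lit 3677256804163) (nat_lit 152) (nat_lit 2417132634951) (nat_lit 0) (nat_lit 3676374066468) (nat_lit 1) (nat_lit 5) (nat_lit 3) (nat_lit 4) (nat_lit 1) (nat_lit 4) (nat_lit 264) (nat_lit 184) (nat_lit 152)) (XT.lf (nat_lit 0)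 (nat_lit 4229414961589) (nat_lit 152) (nat_lit 2778325119472) (nat_lit 0) (nat_lit 4228530893800) (nat_lit 1) (nat_lit 5) (nat_lit 3) (nat_lit 4) (nat_lit 1) (nat_lit 4) (nat_lit 265) (nat_lit 184) (nat_lit 151)))) (XT.nd (nat_lit 156) (nat_lit 0) (nat_lit 0) (XT.nd (nat_lit 78) (nat_lit 0) (nat_lit 0) (XT.lf (nat_lit 0) (nat_lit 4864394924225) (nat_lit 152) (nat_lit 3193700232378) (nat_lit 0) (nat_lit 4863509699832) (nat_lit 1) (nat_lit 5) (nat_lit 3) (nat_lit 4) (nat_lit 1) (nat_lit 4) (nat_lit 266) (nat_lit 184) (nat_lit 150)) (XT.lf (nat_lit 0) (nat_lit 5594620213080) (nat_lit 152) (nat_lit 3671384878053) (nat_lit 0) (nat_lit 5593733982945) (nat_lit 1) (nat_lit 5) (nat_lit 3) (nat_lit 4) (nat_lit 1) (nat_lit 4) (nat_lit 267) (nat_lit 184) (nat_lit 149))) (XT.nd (nat_lit 78) (nat_lit 0) (nat_lit 0) (XT.lf (nat_lit 0) (nat_lit 6434377844674) (nat_lit 152) (nat_lit 4220725060434)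 (nat_lit 0) (nat_lit 6433490739980) (nat_lit 1) (nat_lit 5) (nat_lit 3) (nat_lit 4) (nat_lit 1) (nat_lit 4) (nat_lit 268) (nat_lit 184) (nat_lit 148)) (XT.lf (nat_lit 0) (nat_lit 7400097859626) (nat_lit 152) (nat_lit 4852468739611) (nat_lit 0) (nat_lit 7399209994446) (nat_lit 1) (nat_lit 5) (nat_lit 3) (nat_lit 4) (nat_lit 1) (nat_lit 4) (nat_lit 269) (nat_lit 184) (nat_lit 147))))) (XT.nd (nat_lit 312) (nat_lit 0) (nat_lit 0) (XT.nd (nat_lit 156) (nat_lit 0) (nat_lit 0) (XT.nd (nat_lit 78) (nat_lit 0) (nat_lit 0) (XT.lf (nat_lit 0) (nat_lit 8510674779967) (nat_lit 152) (nat_lit 5578976118002) (nat_lit 0) (nat_lit 8509786253495) (nat_lit 1) (nat_lit 5) (nat_lit 3) (nat_lit 4) (nat_lit 1) (nat_lit 4) (nat_lit 270) (nat_lit 184) (nat_lit 146)) (XT.lf (nat_lit 0) (nat_lit 9787837284573) (nat_lit 152) (nat_lit 6414461470402) (nat_lit 0) (nat_lit 9786948183065) (nat_lit 1) (nat_lit 5) (nat_lit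 3) (nat_lit 4) (nat_lit 1) (nat_lit 4) (nat_lit 271) (nat_lit 184) (nat_lit 145))) (XT.nd (nat_lit 78) (nat_lit 0) (nat_lit 0) (XT.lf (nat_lit 0) (nat_lit 11256573335492) (nat_lit 152) (nat_lit 7375271249358) (nat_lit 0) (nat_lit 11255683733952) (nat_lit 1) (nat_lit 5) (nat_lit 3) (nat_lit 4) (nat_lit 1) (nat_lit 4) (nat_lit 272) (nat_lit 184) (nat_lit 144)) (XT.lf (nat_lit 0) (nat_lit 12945619072849) (nat_lit 152) (nat_lit 8480203907067) (nat_lit 0) (nat_lit 12944729036499) (nat_lit 1) (nat_lit 5) (nat_lit 3) (nat_lit 4) (nat_lit 1) (nat_lit 4) (nat_lit 273) (nat_lit 184) (nat_lit 143)))) (XT.nd (nat_lit 156) (nat_lit 0) (nat_lit 0) (XT.nd (nat_lit 78) (nat_lit 0) (nat_lit 0) (XT.lf (nat_lit 0) (nat_lit 14888021043681) (nat_lit 152) (nat_lit 9750877691180) (nat_lit 0) (nat_lit 14887130629235) (nat_lit 1) (nat_lit 5) (nat_lit 3) (nat_lit 4) (nat_lit 1) (nat_lit 4) (nat_lit 274) (nat_lit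 184) (nat_lit 142)) (XT.lf (nat_lit 0) (nat_lit 17121782764807) (nat_lit 152) (nat_lit 11212153610516) (nat_lit 0) (nat_lit 17120892021582) (nat_lit 1) (nat_lit 5) (nat_lit 3) (nat_lit 4) (nat_lit 1) (nat_lit 4) (nat_lit 275) (nat_lit 184) (nat_lit 141))) (XT.nd (nat_lit 78) (nat_lit 0) (nat_lit 0) (XT.lf (nat_lit 0) (nat_lit 19690608269902) (nat_lit 152) (nat_lit 12892621846107) (nat_lit 0) (nat_lit 19689717240783) (nat_lit 1) (nat_lit 5) (nat_lit 3) (nat_lit 4) (nat_lit 1) (nat_lit 4) (nat_lit 276) (nat_lit 184) (nat_lit 140)) (XT.nd (nat_lit 468) (nat_lit 0) (nat_lit 0) (XT.lf (nat_lit 0) (nat_lit 22644757188414) (nat_lit 152) (nat_lit 14825161124299) (nat_lit 0) (nat_lit 22643865910690) (nat_lit 1) (nat_lit 5) (nat_lit 3) (nat_lit 4) (nat_lit 1) (nat_lit 4) (nat_lit 277) (nat_lit 184) (nat_lit 139)) (XT.lf (nat_lit 0) (nat_lit 52383573134641) (nat_lit 152) (nat_lit 34279661715558)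 (nat_lit 0) (nat_lit 52382680916079) (nat_lit 1) (nat_lit 5) (nat_lit 3) (nat_lit 4) (nat_lit 1) (nat_lit 4) (nat_lit 283) (nat_lit 184) (nat_lit 133))))))))
noncomputable def xc15 : XT := (XT.nd (nat_lit 29328) (nat_lit 0) (nat_lit 0) (XT.nd (nat_lit 28080) (nat_lit 0) (nat_lit 0) (XT.nd (nat_lit 27456) (nat_lit 0) (nat_lit 0) (XT.nd (nat_lit 27144) (nat_lit 0) (nat_lit 0) (XT.nd (nat_lit 156) (nat_lit 0) (nat_lit 0) (XT.nd (nat_lit 78) (nat_lit 0) (nat_lit 0) (XT.lf (nat_lit 0) (nat_lit 60241665067323) (nat_lit 152) (nat_lit 39420260332725) (nat_lit 0) (nat_lit 60240772755302) (nat_lit 1) (nat_lit 5) (nat_lit 3) (nat_lit 4) (nat_lit 1) (nat_lit 4) (nat_lit 284) (nat_lit 184) (nat_lit 132)) (XT.lf (nat_lit 0) (nat_lit 69278470655110) (nat_lit 152) (nat_lit 45331949006363) (nat_lit 0) (nat_lit 69277578261820) (nat_lit 1) (nat_lit 5) (nat_lit 3) (nat_lit 4) (nat_lit 1) (nat_lit 4) (nat_lit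 285) (nat_lit 184) (nat_lit 131))) (XT.nd (nat_lit 26910) (nat_lit 0) (nat_lit 0) (XT.lf (nat_lit 0) (nat_lit 79670796963851) (nat_lit 152) (nat_lit 52130391210522) (nat_lit 0) (nat_lit 79669904499891) (nat_lit 1) (nat_lit 5) (nat_lit 3) (nat_lit 4) (nat_lit 1) (nat_lit 4) (nat_lit 286) (nat_lit 184) (nat_lit 130)) (XT.lf (nat_lit 0) (nat_lit 11125267439) (nat_lit 152) (nat_lit 20736371280) (nat_lit 0) (nat_lit 11125267439) (nat_lit 1) (nat_lit 5) (nat_lit 3) (nat_lit 4) (nat_lit 1) (nat_lit 4) (nat_lit 230) (nat_lit 185) (nat_lit 185)))) (XT.nd (nat_lit 156) (nat_lit 0) (nat_lit 0) (XT.nd (nat_lit 78) (nat_lit 0) (nat_lit 0) (XT.lf (nat_lit 0) (nat_lit 27707352509) (nat_lit 152) (nat_lit 43243217963) (nat_lit 0) (nat_lit 27573412246) (nat_lit 1) (nat_lit 5) (nat_lit 3) (nat_lit 4) (nat_lit 1) (nat_lit 4) (nat_lit 231) (nat_lit 185) (nat_lit 184)) (XT.lf (nat_lit 0) (nat_lit 33789509870)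 (nat_lit 152) (nat_lit 45657463781) (nat_lit 0) (nat_lit 33539099814) (nat_lit 1) (nat_lit 5) (nat_lit 3) (nat_lit 4) (nat_lit 1) (nat_lit 4) (nat_lit 232) (nat_lit 185) (nat_lit 183))) (XT.nd (nat_lit 78) (nat_lit 0) (nat_lit 0) (XT.lf (nat_lit 0) (nat_lit 40616005694) (nat_lit 152) (nat_lit 48762715258) (nat_lit 0) (nat_lit 40264317556) (nat_lit 1) (nat_lit 5) (nat_lit 3) (nat_lit 4) (nat_lit 1) (nat_lit 4) (nat_lit 233) (nat_lit 185) (nat_lit 182)) (XT.lf (nat_lit 0) (nat_lit 48320401854) (nat_lit 152) (nat_lit 52619727316) (nat_lit 0) (nat_lit 47880645820) (nat_lit 1) (nat_lit 5) (nat_lit 3) (nat_lit 4) (nat_lit 1) (nat_lit 4) (nat_lit 234) (nat_lit 185) (nat_lit 181))))) (XT.nd (nat_lit 312) (nat_lit 0) (nat_lit 0) (XT.nd (nat_lit 156) (nat_lit 0) (nat_lit 0) (XT.nd (nat_lit 78) (nat_lit 0) (nat_lit 0) (XT.lf (nat_lit 0) (nat_lit 57053436538) (nat_lit 152) (nat_lit 57303963233)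 (nat_lit 0) (nat_lit 56537099723) (nat_lit 1) (nat_lit 5) (nat_lit 3) (nat_lit 4) (nat_lit 1) (nat_lit 4) (nat_lit 235) (nat_lit 185) (nat_lit 180)) (XT.lf (nat_lit 0) (nat_lit 66985973466) (nat_lit 152) (nat_lit 62907071103) (nat_lit 0) (nat_lit 66403044669) (nat_lit 1) (nat_lit 5) (nat_lit 3) (nat_lit 4) (nat_lit 1) (nat_lit 4) (nat_lit 236) (nat_lit 185) (nat_lit 179))) (XT.nd (nat_lit 78) (nat_lit 0) (nat_lit 0) (XT.lf (nat_lit 0) (nat_lit 78312344883) (nat_lit 152) (nat_lit 69538676951) (nat_lit 0) (nat_lit 77671510015) (nat_lit 1) (nat_lit 5) (nat_lit 3) (nat_lit 4) (nat_lit 1) (nat_lit 4) (nat_lit 237) (nat_lit 185) (nat_lit 178)) (XT.lf (nat_lit 0) (nat_lit 91254153709) (nat_lit 152) (nat_lit 77328529585) (nat_lit 0) (nat_lit 90562965734) (nat_lit 1) (nat_lit 5) (nat_lit 3) (nat_lit 4) (nat_lit 1) (nat_lit 4) (nat_lit 238) (nat_lit 185) (nat_lit 177)))) (XT.nd (nat_lit 156)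 (nat_lit 0) (nat_lit 0) (XT.nd (nat_lit 78) (nat_lit 0) (nat_lit 0) (XT.lf (nat_lit 0) (nat_lit 106064609246) (nat_lit 152) (nat_lit 86429039167) (nat_lit 0) (nat_lit 105329635962) (nat_lit 1) (nat_lit 5) (nat_lit 3) (nat_lit 4) (nat_lit 1) (nat_lit 4) (nat_lit 239) (nat_lit 185) (nat_lit 176)) (XT.lf (nat_lit 0) (nat_lit 123033481276) (nat_lit 152) (nat_lit 97018259144) (nat_lit 0) (nat_lit 122260433810) (nat_lit 1) (nat_lit 5) (nat_lit 3) (nat_lit 4) (nat_lit 1) (nat_lit 4) (nat_lit 240) (nat_lit 185) (nat_lit 175))) (XT.nd (nat_lit 78) (nat_lit 0) (nat_lit 0) (XT.lf (nat_lit 0) (nat_lit 142492769470) (nat_lit 152) (nat_lit 109303369908) (nat_lit 0) (nat_lit 141686614019) (nat_lit 1) (nat_lit 5) (nat_lit 3) (nat_lit 4) (nat_lit 1) (nat_lit 4) (nat_lit 241) (nat_lit 185) (nat_lit 174)) (XT.lf (nat_lit 0) (nat_lit 164823199032) (nat_lit 152) (nat_lit 123524732321) (nat_lit 0) (nat_lit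 163988254029) (nat_lit 1) (nat_lit 5) (nat_lit 3) (nat_lit 4) (nat_lit 1) (nat_lit 4) (nat_lit 242) (nat_lit 185) (nat_lit 173)))))) (XT.nd (nat_lit 624) (nat_lit 0) (nat_lit 0) (XT.nd (nat_lit 312) (nat_lit 0) (nat_lit 0) (XT.nd (nat_lit 156) (nat_lit 0) (nat_lit 0) (XT.nd (nat_lit 78) (nat_lit 0) (nat_lit 0) (XT.lf (nat_lit 0) (nat_lit 190461669669) (nat_lit 152) (nat_lit 139960590430) (nat_lit 0) (nat_lit 189601690274) (nat_lit 1) (nat_lit 5) (nat_lit 3) (nat_lit 4) (nat_lit 1) (nat_lit 4) (nat_lit 243) (nat_lit 185) (nat_lit 172)) (XT.lf (nat_lit 0) (nat_lit 219909803635) (nat_lit 152) (nat_lit 158932515373) (nat_lit 0) (nat_lit 219028055202) (nat_lit 1) (nat_lit 5) (nat_lit 3) (nat_lit 4) (nat_lit 1) (nat_lit 4) (nat_lit 244) (nat_lit 185) (nat_lit 171))) (XT.nd (nat_lit 78) (nat_lit 0) (nat_lit 0) (XT.lf (nat_lit 0) (nat_lit 253743760071) (nat_lit 152) (nat_lit 180811696985)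 (nat_lit 0) (nat_lit 252843082041) (nat_lit 1) (nat_lit 5) (nat_lit 3) (nat_lit 4) (nat_lit 1) (nat_lit 4) (nat_lit 245) (nat_lit 185) (nat_lit 170)) (XT.lf (nat_lit 0) (nat_lit 292625507691) (nat_lit 152) (nat_lit 206026206210) (nat_lit 0) (nat_lit 291708369141) (nat_lit 1) (nat_lit 5) (nat_lit 3) (nat_lit 4) (nat_lit 1) (nat_lit 4) (nat_lit 246) (nat_lit 185) (nat_lit 169)))) (XT.nd (nat_lit 156) (nat_lit 0) (nat_lit 0) (XT.nd (nat_lit 78) (nat_lit 0) (nat_lit 0) (XT.lf (nat_lit 0) (nat_lit 337315776339) (nat_lit 152) (nat_lit 235069370404) (nat_lit 0) (nat_lit 336384324294) (nat_lit 1) (nat_lit 5) (nat_lit 3) (nat_lit 4) (nat_lit 1) (nat_lit 4) (nat_lit 247) (nat_lit 185) (nat_lit 168)) (XT.lf (nat_lit 0) (nat_lit 388688940836) (nat_lit 152) (nat_lit 268509425387) (nat_lit 0) (nat_lit 387745042274) (nat_lit 1) (nat_lit 5) (nat_lit 3) (nat_lit 4) (nat_lit 1) (nat_lit 4) (nat_lit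 248) (nat_lit 185) (nat_lit 167))) (XT.nd (nat_lit 78) (nat_lit 0) (nat_lit 0) (XT.lf (nat_lit 0) (nat_lit 447750128315) (nat_lit 152) (nat_lit 307000633105) (nat_lit 0) (nat_lit 446795406694) (nat_lit 1) (nat_lit 5) (nat_lit 3) (nat_lit 4) (nat_lit 1) (nat_lit 4) (nat_lit 249) (nat_lit 185) (nat_lit 166)) (XT.lf (nat_lit 0) (nat_lit 515654883748) (nat_lit 152) (nat_lit 351296082405) (nat_lit 0) (nat_lit 514690750771) (nat_lit 1) (nat_lit 5) (nat_lit 3) (nat_lit 4) (nat_lit 1) (nat_lit 4) (nat_lit 250) (nat_lit 185) (nat_lit 165))))) (XT.nd (nat_lit 312) (nat_lit 0) (nat_lit 0) (XT.nd (nat_lit 156) (nat_lit 0) (nat_lit 0) (XT.nd (nat_lit 78) (nat_lit 0) (nat_lit 0) (XT.lf (nat_lit 0) (nat_lit 593731778436) (nat_lit 152) (nat_lit 402262423380) (nat_lit 0) (nat_lit 592759461671) (nat_lit 1) (nat_lit 5) (nat_lit 3) (nat_lit 4) (nat_lit 1) (nat_lit 4) (nat_lit 251) (nat_lit 185) (nat_lit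 164)) (XT.lf (nat_lit 0) (nat_lit 683508403797) (nat_lit 152) (nat_lit 460896823573) (nat_lit 0) (nat_lit 682528970696) (nat_lit 1) (nat_lit 5) (nat_lit 3) (nat_lit 4) (nat_lit 1) (nat_lit 4) (nat_lit 252) (nat_lit 185) (nat_lit 163))) (XT.nd (nat_lit 78) (nat_lit 0) (nat_lit 0) (XT.lf (nat_lit 0) (nat_lit 786741259023) (nat_lit 152) (nat_lit 528346477770) (nat_lit 0) (nat_lit 785755637803) (nat_lit 1) (nat_lit 5) (nat_lit 3) (nat_lit 4) (nat_lit 1) (nat_lit 4) (nat_lit 253) (nat_lit 185) (nat_lit 162)) (XT.lf (nat_lit 0) (nat_lit 905450117369) (nat_lit 152) (nat_lit 605931053117) (nat_lit 0) (nat_lit 904459115176) (nat_lit 1) (nat_lit 5) (nat_lit 3) (nat_lit 4) (nat_lit 1) (nat_lit 4) (nat_lit 254) (nat_lit 185) (nat_lit 161)))) (XT.nd (nat_lit 156) (nat_lit 0) (nat_lit 0) (XT.nd (nat_lit 78) (nat_lit 0) (nat_lit 0) (XT.lf (nat_lit 0) (nat_lit 1041957543454) (nat_lit 152) (nat_lit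 695168508698) (nat_lit 0) (nat_lit 1040961862154) (nat_lit 1) (nat_lit 5) (nat_lit 3) (nat_lit 4) (nat_lit 1) (nat_lit 4) (nat_lit 255) (nat_lit 185) (nat_lit 160)) (XT.lf (nat_lit 0) (nat_lit 1198934334746) (nat_lit 152) (nat_lit 797804794730) (nat_lit 0) (nat_lit 1197934584657) (nat_lit 1) (nat_lit 5) (nat_lit 3) (nat_lit 4) (nat_lit 1) (nat_lit 4) (nat_lit 256) (nat_lit 185) (nat_lit 159))) (XT.nd (nat_lit 78) (nat_lit 0) (nat_lit 0) (XT.lf (nat_lit 0) (nat_lit 1379451776291) (nat_lit 152) (nat_lit 915848012463) (nat_lit 0) (nat_lit 1378448488125) (nat_lit 1) (nat_lit 5) (nat_lit 3) (nat_lit 4) (nat_lit 1) (nat_lit 4) (nat_lit 257) (nat_lit 185) (nat_lit 158)) (XT.lf (nat_lit 0) (nat_lit 1587041731076) (nat_lit 152) (nat_lit 1051607703112) (nat_lit 0) (nat_lit 1586035366321) (nat_lit 1) (nat_lit 5) (nat_lit 3) (nat_lit 4) (nat_lit 1) (nat_lit 4) (nat_lit 258) (nat_lit 185) (nat_lit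 157))))))) (XT.nd (nat_lit 1248) (nat_lit 0) (nat_lit 0) (XT.nd (nat_lit 624) (nat_lit 0) (nat_lit 0) (XT.nd (nat_lit 312) (nat_lit 0) (nat_lit 0) (XT.nd (nat_lit 156) (nat_lit 0) (nat_lit 0) (XT.nd (nat_lit 78) (nat_lit 0) (nat_lit 0) (XT.lf (nat_lit 0) (nat_lit 1825765741694) (nat_lit 152) (nat_lit 1207740034539) (nat_lit 0) (nat_lit 1824756701645) (nat_lit 1) (nat_lit 5) (nat_lit 3) (nat_lit 4) (nat_lit 1) (nat_lit 4) (nat_lit 259) (nat_lit 185) (nat_lit 156)) (XT.lf (nat_lit 0) (nat_lit 2100294495311) (nat_lit 152) (nat_lit 1387299769749) (nat_lit 0) (nat_lit 2099283128918) (nat_lit 1) (nat_lit 5) (nat_lit 3) (nat_lit 4) (nat_lit 1) (nat_lit 4) (nat_lit 260) (nat_lit 185) (nat_lit 155))) (XT.nd (nat_lit 78) (nat_lit 0) (nat_lit 0) (XT.lf (nat_lit 0) (nat_lit 2415999206670) (nat_lit 152) (nat_lit 1593800033996) (nat_lit 0) (nat_lit 2414985817370) (nat_lit 1) (nat_lit 5) (nat_lit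 3) (nat_lit 4) (nat_lit 1) (nat_lit 4) (nat_lit 261) (nat_lit 185) (nat_lit 154)) (XT.lf (nat_lit 0) (nat_lit 2779056707081) (nat_lit 152) (nat_lit 1831281049842) (nat_lit 0) (nat_lit 2778041558731) (nat_lit 1) (nat_lit 5) (nat_lit 3) (nat_lit 4) (nat_lit 1) (nat_lit 4) (nat_lit 262) (nat_lit 185) (nat_lit 153)))) (XT.nd (nat_lit 156) (nat_lit 0) (nat_lit 0) (XT.nd (nat_lit 78) (nat_lit 0) (nat_lit 0) (XT.lf (nat_lit 0) (nat_lit 3196570295465) (nat_lit 152) (nat_lit 2104389184988) (nat_lit 0) (nat_lit 3195553617507) (nat_lit 1) (nat_lit 5) (nat_lit 3) (nat_lit 4) (nat_lit 1) (nat_lit 4) (nat_lit 263) (nat_lit 185) (nat_lit 152)) (XT.lf (nat_lit 0) (nat_lit 3676708715942) (nat_lit 152) (nat_lit 2418467859470) (nat_lit 0) (nat_lit 3675690707890) (nat_lit 1) (nat_lit 5) (nat_lit 3) (nat_lit 4) (nat_lit 1) (nat_lit 4) (nat_lit 264) (nat_lit 185) (nat_lit 151))) (XT.nd (nat_lit 78) (nat_lit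 0) (nat_lit 0) (XT.lf (nat_lit 0) (nat_lit 4228865981087) (nat_lit 152) (nat_lit 2779662090831) (nat_lit 0) (nat_lit 4227846816431) (nat_lit 1) (nat_lit 5) (nat_lit 3) (nat_lit 4) (nat_lit 1) (nat_lit 4) (nat_lit 265) (nat_lit 185) (nat_lit 150)) (XT.lf (nat_lit 0) (nat_lit 4863845167827) (nat_lit 152) (nat_lit 3195038722730) (nat_lit 0) (nat_lit 4862824997429) (nat_lit 1) (nat_lit 5) (nat_lit 3) (nat_lit 4) (nat_lit 1) (nat_lit 4) (nat_lit 266) (nat_lit 185) (nat_lit 149))))) (XT.nd (nat_lit 312) (nat_lit 0) (nat_lit 0) (XT.nd (nat_lit 156) (nat_lit 0) (nat_lit 0) (XT.nd (nat_lit 78) (nat_lit 0) (nat_lit 0) (XT.lf (nat_lit 0) (nat_lit 5594069781989) (nat_lit 152) (nat_lit 3672724689267) (nat_lit 0) (nat_lit 5593048737032) (nat_lit 1) (nat_lit 5) (nat_lit 3) (nat_lit 4) (nat_lit 1) (nat_lit 4) (nat_lit 267) (nat_lit 185) (nat_lit 148)) (XT.lf (nat_lit 0) (nat_lit 6433826826894) (nat_lit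 152) (nat_lit 4222066020224) (nat_lit 0) (nat_lit 6432805021452) (nat_lit 1) (nat_lit 5) (nat_lit 3) (nat_lit 4) (nat_lit 1) (nat_lit 4) (nat_lit 268) (nat_lit 185) (nat_lit 147))) (XT.nd (nat_lit 78) (nat_lit 0) (nat_lit 0) (XT.lf (nat_lit 0) (nat_lit 7399546331681) (nat_lit 152) (nat_lit 4853810698163) (nat_lit 0) (nat_lit 7398523864947) (nat_lit 1) (nat_lit 5) (nat_lit 3) (nat_lit 4) (nat_lit 1) (nat_lit 4) (nat_lit 269) (nat_lit 185) (nat_lit 146)) (XT.lf (nat_lit 0) (nat_lit 8510122808401) (nat_lit 152) (nat_lit 5580318945042) (nat_lit 0) (nat_lit 8509099766630) (nat_lit 1) (nat_lit 5) (nat_lit 3) (nat_lit 4) (nat_lit 1) (nat_lit 4) (nat_lit 270) (nat_lit 185) (nat_lit 145)))) (XT.nd (nat_lit 156) (nat_lit 0) (nat_lit 0) (XT.nd (nat_lit 78) (nat_lit 0) (nat_lit 0) (XT.lf (nat_lit 0) (nat_lit 9787284927250) (nat_lit 152) (nat_lit 6415805052650) (nat_lit 0) (nat_lit 9786261385448)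 (nat_lit 1) (nat_lit 5) (nat_lit 3) (nat_lit 4) (nat_lit 1) (nat_lit 4) (nat_lit 271) (nat_lit 185) (nat_lit 144)) (XT.lf (nat_lit 0) (nat_lit 11256020642727) (nat_lit 152) (nat_lit 7376615488308) (nat_lit 0) (nat_lit 11254996666115) (nat_lit 1) (nat_lit 5) (nat_lit 3) (nat_lit 4) (nat_lit 1) (nat_lit 4) (nat_lit 272) (nat_lit 185) (nat_lit 143))) (XT.nd (nat_lit 78) (nat_lit 0) (nat_lit 0) (XT.lf (nat_lit 0) (nat_lit 12945066088397) (nat_lit 152) (nat_lit 8481548717062) (nat_lit 0) (nat_lit 12944041733688) (nat_lit 1) (nat_lit 5) (nat_lit 3) (nat_lit 4) (nat_lit 1) (nat_lit 4) (nat_lit 273) (nat_lit 185) (nat_lit 142)) (XT.lf (nat_lit 0) (nat_lit 14887467805586) (nat_lit 152) (nat_lit 9752222997736) (nat_lit 0) (nat_lit 14886443122099) (nat_lit 1) (nat_lit 5) (nat_lit 3) (nat_lit 4) (nat_lit 1) (nat_lit 4) (nat_lit 274) (nat_lit 185) (nat_lit 141)))))) (XT.nd (nat_lit 936) (nat_lit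 0) (nat_lit 0) (XT.nd (nat_lit 624) (nat_lit 0) (nat_lit 0) (XT.nd (nat_lit 468) (nat_lit 0) (nat_lit 0) (XT.nd (nat_lit 78) (nat_lit 0) (nat_lit 0) (XT.lf (nat_lit 0) (nat_lit 17121229306154) (nat_lit 152) (nat_lit 11213499348865) (nat_lit 0) (nat_lit 17120204336772) (nat_lit 1) (nat_lit 5) (nat_lit 3) (nat_lit 4) (nat_lit 1) (nat_lit 4) (nat_lit 275) (nat_lit 185) (nat_lit 140)) (XT.lf (nat_lit 0) (nat_lit 19690054619460) (nat_lit 152) (nat_lit 12893967959927) (nat_lit 0) (nat_lit 19689029401473) (nat_lit 1) (nat_lit 5) (nat_lit 3) (nat_lit 4) (nat_lit 1) (nat_lit 4) (nat_lit 276) (nat_lit 185) (nat_lit 139))) (XT.nd (nat_lit 78) (nat_lit 0) (nat_lit 0) (XT.lf (nat_lit 0) (nat_lit 39608048562603) (nat_lit 152) (nat_lit 25923893040325) (nat_lit 0) (nat_lit 39607022511257) (nat_lit 1) (nat_lit 5) (nat_lit 3) (nat_lit 4) (nat_lit 1) (nat_lit 4) (nat_lit 281) (nat_lit 185) (nat_lit 134))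 (XT.lf (nat_lit 0) (nat_lit 45549895203853) (nat_lit 152) (nat_lit 29810923760182) (nat_lit 0) (nat_lit 45548869045028) (nat_lit 1) (nat_lit 5) (nat_lit 3) (nat_lit 4) (nat_lit 1) (nat_lit 4) (nat_lit 282) (nat_lit 185) (nat_lit 133)))) (XT.nd (nat_lit 156) (nat_lit 0) (nat_lit 0) (XT.nd (nat_lit 78) (nat_lit 0) (nat_lit 0) (XT.lf (nat_lit 0) (nat_lit 52383018686273) (nat_lit 152) (nat_lit 34281009391498) (nat_lit 0) (nat_lit 52381992433989) (nat_lit 1) (nat_lit 5) (nat_lit 3) (nat_lit 4) (nat_lit 1) (nat_lit 4) (nat_lit 283) (nat_lit 185) (nat_lit 132)) (XT.lf (nat_lit 0) (nat_lit 60241110556258) (nat_lit 152) (nat_lit 39421608131407) (nat_lit 0) (nat_lit 60240084222706) (nat_lit 1) (nat_lit 5) (nat_lit 3) (nat_lit 4) (nat_lit 1) (nat_lit 4) (nat_lit 284) (nat_lit 185) (nat_lit 131))) (XT.nd (nat_lit 78) (nat_lit 0) (nat_lit 0) (XT.lf (nat_lit 0) (nat_lit 69277916089527) (nat_lit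 152) (nat_lit 45333296911778) (nat_lit 0) (nat_lit 69276889685305) (nat_lit 1) (nat_lit 5) (nat_lit 3) (nat_lit 4) (nat_lit 1) (nat_lit 4) (nat_lit 285) (nat_lit 185) (nat_lit 130)) (XT.lf (nat_lit 0) (nat_lit 79670242350860) (nat_lit 152) (nat_lit 52131739208747) (nat_lit 0) (nat_lit 79669215885187) (nat_lit 1) (nat_lit 5) (nat_lit 3) (nat_lit 4) (nat_lit 1) (nat_lit 4) (nat_lit 286) (nat_lit 185) (nat_lit 129))))) (XT.nd (nat_lit 26910) (nat_lit 0) (nat_lit 0) (XT.nd (nat_lit 26754) (nat_lit 0) (nat_lit 0) (XT.nd (nat_lit 26676) (nat_lit 0) (nat_lit 0) (XT.lf (nat_lit 0) (nat_lit 91621417462762) (nat_lit 152) (nat_lit 59949948023778) (nat_lit 0) (nat_lit 91620390943653) (nat_lit 1) (nat_lit 5) (nat_lit 3) (nat_lit 4) (nat_lit 1) (nat_lit 4) (nat_lit 287) (nat_lit 185) (nat_lit 128)) (XT.lf (nat_lit 0) (nat_lit 6534435413) (nat_lit 152) (nat_lit 19751912703) (nat_lit 0) (nat_lit 6534435413)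 (nat_lit 1) (nat_lit 5) (nat_lit 3) (nat_lit 4) (nat_lit 1) (nat_lit 4) (nat_lit 228) (nat_lit 186) (nat_lit 186))) (XT.nd (nat_lit 78) (nat_lit 0) (nat_lit 0) (XT.lf (nat_lit 0) (nat_lit 17466324459) (nat_lit 152) (nat_lit 40311397838) (nat_lit 0) (nat_lit 17312293157) (nat_lit 1) (nat_lit 5) (nat_lit 3) (nat_lit 4) (nat_lit 1) (nat_lit 4) (nat_lit 229) (nat_lit 186) (nat_lit 185)) (XT.lf (nat_lit 0) (nat_lit 22301235785) (nat_lit 152) (nat_lit 41675035105) (nat_lit 0) (nat_lit 22013264220) (nat_lit 1) (nat_lit 5) (nat_lit 3) (nat_lit 4) (nat_lit 1) (nat_lit 4) (nat_lit 230) (nat_lit 186) (nat_lit 184)))) (XT.nd (nat_lit 156) (nat_lit 0) (nat_lit 0) (XT.nd (nat_lit 78) (nat_lit 0) (nat_lit 0) (XT.lf (nat_lit 0) (nat_lit 27668200897) (nat_lit 152) (nat_lit 43621417068) (nat_lit 0) (nat_lit 27263759539) (nat_lit 1) (nat_lit 5) (nat_lit 3) (nat_lit 4) (nat_lit 1) (nat_lit 4) (nat_lit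 231) (nat_lit 186) (nat_lit 183)) (XT.lf (nat_lit 0) (nat_lit 33672225635) (nat_lit 152) (nat_lit 46188625112) (nat_lit 0) (nat_lit 33166506195) (nat_lit 1) (nat_lit 5) (nat_lit 3) (nat_lit 4) (nat_lit 1) (nat_lit 4) (nat_lit 232) (nat_lit 186) (nat_lit 182))) (XT.nd (nat_lit 78) (nat_lit 0) (nat_lit 0) (XT.lf (nat_lit 0) (nat_lit 40430780046) (nat_lit 152) (nat_lit 49426887222) (nat_lit 0) (nat_lit 39836992709) (nat_lit 1) (nat_lit 5) (nat_lit 3) (nat_lit 4) (nat_lit 1) (nat_lit 4) (nat_lit 233) (nat_lit 186) (nat_lit 181)) (XT.lf (nat_lit 0) (nat_lit 48076096718) (nat_lit 152) (nat_lit 53399560698) (nat_lit 0) (nat_lit 47405728601) (nat_lit 1) (nat_lit 5) (nat_lit 3) (nat_lit 4) (nat_lit 1) (nat_lit 4) (nat_lit 234) (nat_lit 186) (nat_lit 180))))))))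
noncomputable def xc16 : XT := (XT.nd (nat_lit 1248) (nat_lit 0) (nat_lit 0) (XT.nd (nat_lit 624) (nat_lit 0) (nat_lit 0) (XT.nd (nat_lit 312) (nat_lit 0) (nat_lit 0) (XT.nd (nat_lit 156) (nat_lit 0) (nat_lit 0) (XT.nd (nat_lit 78) (nat_lit 0) (nat_lit 0) (XT.lf (nat_lit 0) (nat_lit 56757757932) (nat_lit 152) (nat_lit 58184371762) (nat_lit 0) (nat_lit 56020797833) (nat_lit 1) (nat_lit 5) (nat_lit 3) (nat_lit 4) (nat_lit 1) (nat_lit 4) (nat_lit 235) (nat_lit 186) (nat_lit 179)) (XT.lf (nat_lit 0) (nat_lit 66645622279) (nat_lit 152) (nat_lit 63874936282) (nat_lit 0) (nat_lit 65850756108) (nat_lit 1) (nat_lit 5) (nat_lit 3) (nat_lit 4) (nat_lit 1) (nat_lit 4) (nat_lit 236) (nat_lit 186) (nat_lit 178))) (XT.nd (nat_lit 78) (nat_lit 0) (nat_lit 0) (XT.lf (nat_lit 0) (nat_lit 77933147974) (nat_lit 152) (nat_lit 70582591390) (nat_lit 0) (nat_lit 77087928697) (nat_lit 1) (nat_lit 5) (nat_lit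 3) (nat_lit 4) (nat_lit 1) (nat_lit 4) (nat_lit 237) (nat_lit 186) (nat_lit 177)) (XT.lf (nat_lit 0) (nat_lit 90841177910) (nat_lit 152) (nat_lit 78438573816) (nat_lit 0) (nat_lit 89952173323) (nat_lit 1) (nat_lit 5) (nat_lit 3) (nat_lit 4) (nat_lit 1) (nat_lit 4) (nat_lit 238) (nat_lit 186) (nat_lit 176)))) (XT.nd (nat_lit 156) (nat_lit 0) (nat_lit 0) (XT.nd (nat_lit 78) (nat_lit 0) (nat_lit 0) (XT.lf (nat_lit 0) (nat_lit 105622260499) (nat_lit 152) (nat_lit 87596587564) (nat_lit 0) (nat_lit 104695181731) (nat_lit 1) (nat_lit 5) (nat_lit 3) (nat_lit 4) (nat_lit 1) (nat_lit 4) (nat_lit 239) (nat_lit 186) (nat_lit 175)) (XT.lf (nat_lit 0) (nat_lit 122565590836) (nat_lit 152) (nat_lit 98235811165) (nat_lit 0) (nat_lit 121605404083) (nat_lit 1) (nat_lit 5) (nat_lit 3) (nat_lit 4) (nat_lit 1) (nat_lit 4) (nat_lit 240) (nat_lit 186) (nat_lit 174))) (XT.nd (nat_lit 78) (nat_lit 0) (nat_lit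 0) (XT.lf (nat_lit 0) (nat_lit 142002668862) (nat_lit 152) (nat_lit 110564403340) (nat_lit 0) (nat_lit 141013692557) (nat_lit 1) (nat_lit 5) (nat_lit 3) (nat_lit 4) (nat_lit 1) (nat_lit 4) (nat_lit 241) (nat_lit 186) (nat_lit 173)) (XT.lf (nat_lit 0) (nat_lit 164313785233) (nat_lit 152) (nat_lit 124823575676) (nat_lit 0) (nat_lit 163299774536) (nat_lit 1) (nat_lit 5) (nat_lit 3) (nat_lit 4) (nat_lit 1) (nat_lit 4) (nat_lit 242) (nat_lit 186) (nat_lit 172))))) (XT.nd (nat_lit 312) (nat_lit 0) (nat_lit 0) (XT.nd (nat_lit 156) (nat_lit 0) (nat_lit 0) (XT.nd (nat_lit 78) (nat_lit 0) (nat_lit 0) (XT.lf (nat_lit 0) (nat_lit 189935461793) (nat_lit 152) (nat_lit 141292311979) (nat_lit 0) (nat_lit 188899682058) (nat_lit 1) (nat_lit 5) (nat_lit 3) (nat_lit 4) (nat_lit 1) (nat_lit 4) (nat_lit 243) (nat_lit 186) (nat_lit 171)) (XT.lf (nat_lit 0) (nat_lit 219368992212) (nat_lit 152) (nat_lit 160292826656)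 (nat_lit 0) (nat_lit 218314282880) (nat_lit 1) (nat_lit 5) (nat_lit 3) (nat_lit 4) (nat_lit 1) (nat_lit 4) (nat_lit 244) (nat_lit 186) (nat_lit 170))) (XT.nd (nat_lit 78) (nat_lit 0) (nat_lit 0) (XT.lf (nat_lit 0) (nat_lit 253190249913) (nat_lit 152) (nat_lit 182196868906) (nat_lit 0) (nat_lit 252119080061) (nat_lit 1) (nat_lit 5) (nat_lit 3) (nat_lit 4) (nat_lit 1) (nat_lit 4) (nat_lit 245) (nat_lit 186) (nat_lit 169)) (XT.lf (nat_lit 0) (nat_lit 292060955154) (nat_lit 152) (nat_lit 207432996078) (nat_lit 0) (nat_lit 290975471807) (nat_lit 1) (nat_lit 5) (nat_lit 3) (nat_lit 4) (nat_lit 1) (nat_lit 4) (nat_lit 246) (nat_lit 186) (nat_lit 168)))) (XT.nd (nat_lit 156) (nat_lit 0) (nat_lit 0) (XT.nd (nat_lit 78) (nat_lit 0) (nat_lit 0) (XT.lf (nat_lit 0) (nat_lit 336741621733) (nat_lit 152) (nat_lit 236494958486) (nat_lit 0) (nat_lit 335643691868) (nat_lit 1) (nat_lit 5) (nat_lit 3)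 (nat_lit 4) (nat_lit 1) (nat_lit 4) (nat_lit 247) (nat_lit 186) (nat_lit 167)) (XT.lf (nat_lit 0) (nat_lit 388106436606) (nat_lit 152) (nat_lit 269951359742) (nat_lit 0) (nat_lit 386997683682) (nat_lit 1) (nat_lit 5) (nat_lit 3) (nat_lit 4) (nat_lit 1) (nat_lit 4) (nat_lit 248) (nat_lit 186) (nat_lit 166))) (XT.nd (nat_lit 78) (nat_lit 0) (nat_lit 0) (XT.lf (nat_lit 0) (nat_lit 447160363541) (nat_lit 152) (nat_lit 308456781611) (nat_lit 0) (nat_lit 446042199262) (nat_lit 1) (nat_lit 5) (nat_lit 3) (nat_lit 4) (nat_lit 1) (nat_lit 4) (nat_lit 249) (nat_lit 186) (nat_lit 165)) (XT.lf (nat_lit 0) (nat_lit 515058805458) (nat_lit 152) (nat_lit 352764591041) (nat_lit 0) (nat_lit 513932457391) (nat_lit 1) (nat_lit 5) (nat_lit 3) (nat_lit 4) (nat_lit 1) (nat_lit 4) (nat_lit 250) (nat_lit 186) (nat_lit 164)))))) (XT.nd (nat_lit 624) (nat_lit 0) (nat_lit 0) (XT.nd (nat_lit 312) (nat_lit 0) (nat_lit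 0) (XT.nd (nat_lit 156) (nat_lit 0) (nat_lit 0) (XT.nd (nat_lit 78) (nat_lit 0) (nat_lit 0) (XT.lf (nat_lit 0) (nat_lit 593130210132) (nat_lit 152) (nat_lit 403741679956) (nat_lit 0) (nat_lit 591996745728) (nat_lit 1) (nat_lit 5) (nat_lit 3) (nat_lit 4) (nat_lit 1) (nat_lit 4) (nat_lit 251) (nat_lit 186) (nat_lit 163)) (XT.lf (nat_lit 0) (nat_lit 682902061568) (nat_lit 152) (nat_lit 462385426184) (nat_lit 0) (nat_lit 681762409046) (nat_lit 1) (nat_lit 5) (nat_lit 3) (nat_lit 4) (nat_lit 1) (nat_lit 4) (nat_lit 252) (nat_lit 186) (nat_lit 162))) (XT.nd (nat_lit 78) (nat_lit 0) (nat_lit 0) (XT.lf (nat_lit 0) (nat_lit 786130765555) (nat_lit 152) (nat_lit 529843207367) (nat_lit 0) (nat_lit 784985732060) (nat_lit 1) (nat_lit 5) (nat_lit 3) (nat_lit 4) (nat_lit 1) (nat_lit 4) (nat_lit 253) (nat_lit 186) (nat_lit 161)) (XT.lf (nat_lit 0) (nat_lit 904836014128) (nat_lit 152) (nat_lit 607434849659)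 (nat_lit 0) (nat_lit 903686301525) (nat_lit 1) (nat_lit 5) (nat_lit 3) (nat_lit 4) (nat_lit 1) (nat_lit 4) (nat_lit 254) (nat_lit 186) (nat_lit 160)))) (XT.nd (nat_lit 156) (nat_lit 0) (nat_lit 0) (XT.nd (nat_lit 78) (nat_lit 0) (nat_lit 0) (XT.lf (nat_lit 0) (nat_lit 1041340301280) (nat_lit 152) (nat_lit 696678450410) (nat_lit 0) (nat_lit 1040186519889) (nat_lit 1) (nat_lit 5) (nat_lit 3) (nat_lit 4) (nat_lit 1) (nat_lit 4) (nat_lit 255) (nat_lit 186) (nat_lit 159)) (XT.lf (nat_lit 0) (nat_lit 1198314363064) (nat_lit 152) (nat_lit 799320080068) (nat_lit 0) (nat_lit 1197157043596) (nat_lit 1) (nat_lit 5) (nat_lit 3) (nat_lit 4) (nat_lit 1) (nat_lit 4) (nat_lit 256) (nat_lit 186) (nat_lit 158))) (XT.nd (nat_lit 78) (nat_lit 0) (nat_lit 0) (XT.lf (nat_lit 0) (nat_lit 1378829431125) (nat_lit 152) (nat_lit 917367944432) (nat_lit 0) (nat_lit 1377669035067) (nat_lit 1) (nat_lit 5) (nat_lit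 3) (nat_lit 4) (nat_lit 1) (nat_lit 4) (nat_lit 257) (nat_lit 186) (nat_lit 157)) (XT.lf (nat_lit 0) (nat_lit 1586417322010) (nat_lit 152) (nat_lit 1053131675630) (nat_lit 0) (nat_lit 1585254250658) (nat_lit 1) (nat_lit 5) (nat_lit 3) (nat_lit 4) (nat_lit 1) (nat_lit 4) (nat_lit 258) (nat_lit 186) (nat_lit 156))))) (XT.nd (nat_lit 312) (nat_lit 0) (nat_lit 0) (XT.nd (nat_lit 156) (nat_lit 0) (nat_lit 0) (XT.nd (nat_lit 78) (nat_lit 0) (nat_lit 0) (XT.lf (nat_lit 0) (nat_lit 1825139537933) (nat_lit 152) (nat_lit 1209267520577) (nat_lit 0) (nat_lit 1823974140238) (nat_lit 1) (nat_lit 5) (nat_lit 3) (nat_lit 4) (nat_lit 1) (nat_lit 4) (nat_lit 259) (nat_lit 186) (nat_lit 155)) (XT.lf (nat_lit 0) (nat_lit 2099666730945) (nat_lit 152) (nat_lit 1388830311022) (nat_lit 0) (nat_lit 2098499310343) (nat_lit 1) (nat_lit 5) (nat_lit 3) (nat_lit 4) (nat_lit 1) (nat_lit 4) (nat_lit 260) (nat_lit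 186) (nat_lit 154))) (XT.nd (nat_lit 78) (nat_lit 0) (nat_lit 0) (XT.lf (nat_lit 0) (nat_lit 2415370085257) (nat_lit 152) (nat_lit 1595333231996) (nat_lit 0) (nat_lit 2414200905605) (nat_lit 1) (nat_lit 5) (nat_lit 3) (nat_lit 4) (nat_lit 1) (nat_lit 4) (nat_lit 261) (nat_lit 186) (nat_lit 153)) (XT.lf (nat_lit 0) (nat_lit 2778426405626) (nat_lit 152) (nat_lit 1832816558039) (nat_lit 0) (nat_lit 2777255696366) (nat_lit 1) (nat_lit 5) (nat_lit 3) (nat_lit 4) (nat_lit 1) (nat_lit 4) (nat_lit 262) (nat_lit 186) (nat_lit 152)))) (XT.nd (nat_lit 156) (nat_lit 0) (nat_lit 0) (XT.nd (nat_lit 78) (nat_lit 0) (nat_lit 0) (XT.lf (nat_lit 0) (nat_lit 3195938967887) (nat_lit 152) (nat_lit 2105926702052) (nat_lit 0) (nat_lit 3194766928533) (nat_lit 1) (nat_lit 5) (nat_lit 3) (nat_lit 4) (nat_lit 1) (nat_lit 4) (nat_lit 263) (nat_lit 186) (nat_lit 151)) (XT.lf (nat_lit 0) (nat_lit 3676076496084)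 (nat_lit 152) (nat_lit 2420007123374) (nat_lit 0) (nat_lit 3674903300126) (nat_lit 1) (nat_lit 5) (nat_lit 3) (nat_lit 4) (nat_lit 1) (nat_lit 4) (nat_lit 264) (nat_lit 186) (nat_lit 150))) (XT.nd (nat_lit 78) (nat_lit 0) (nat_lit 0) (XT.lf (nat_lit 0) (nat_lit 4228232985333) (nat_lit 152) (nat_lit 2781202873727) (nat_lit 0) (nat_lit 4227058783632) (nat_lit 1) (nat_lit 5) (nat_lit 3) (nat_lit 4) (nat_lit 1) (nat_lit 4) (nat_lit 265) (nat_lit 186) (nat_lit 149)) (XT.lf (nat_lit 0) (nat_lit 4863211497380) (nat_lit 152) (nat_lit 3196580826488) (nat_lit 0) (nat_lit 4862036421121) (nat_lit 1) (nat_lit 5) (nat_lit 3) (nat_lit 4) (nat_lit 1) (nat_lit 4) (nat_lit 266) (nat_lit 186) (nat_lit 148)))))))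
noncomputable def xc17 : XT := (XT.nd (nat_lit 28158) (nat_lit 0) (nat_lit 0) (XT.nd (nat_lit 1092) (nat_lit 0) (nat_lit 0) (XT.nd (nat_lit 312) (nat_lit 0) (nat_lit 0) (XT.nd (nat_lit 156) (nat_lit 0) (nat_lit 0) (XT.nd (nat_lit 78) (nat_lit 0) (nat_lit 0) (XT.lf (nat_lit 0) (nat_lit 5593435524853) (nat_lit 152) (nat_lit 3674267941602) (nat_lit 0) (nat_lit 5592259688109) (nat_lit 1) (nat_lit 5) (nat_lit 3) (nat_lit 4) (nat_lit 1) (nat_lit 4) (nat_lit 267) (nat_lit 186) (nat_lit 147)) (XT.lf (nat_lit 0) (nat_lit 6433192059594) (nat_lit 152) (nat_lit 4223610271321) (nat_lit 0) (nat_lit 6432015561557) (nat_lit 1) (nat_lit 5) (nat_lit 3) (nat_lit 4) (nat_lit 1) (nat_lit 4) (nat_lit 268) (nat_lit 186) (nat_lit 146))) (XT.nd (nat_lit 78) (nat_lit 0) (nat_lit 0) (XT.lf (nat_lit 0) (nat_lit 7398911120760) (nat_lit 152) (nat_lit 4855355817748) (nat_lit 0) (nat_lit 7397734047687) (nat_lit 1)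 (nat_lit 5) (nat_lit 3) (nat_lit 4) (nat_lit 1) (nat_lit 4) (nat_lit 269) (nat_lit 186) (nat_lit 145)) (XT.lf (nat_lit 0) (nat_lit 8509487211722) (nat_lit 152) (nat_lit 5581864819835) (nat_lit 0) (nat_lit 8508309638617) (nat_lit 1) (nat_lit 5) (nat_lit 3) (nat_lit 4) (nat_lit 1) (nat_lit 4) (nat_lit 270) (nat_lit 186) (nat_lit 144)))) (XT.nd (nat_lit 156) (nat_lit 0) (nat_lit 0) (XT.nd (nat_lit 78) (nat_lit 0) (nat_lit 0) (XT.lf (nat_lit 0) (nat_lit 9786648995129) (nat_lit 152) (nat_lit 6417351584144) (nat_lit 0) (nat_lit 9785470987215) (nat_lit 1) (nat_lit 5) (nat_lit 3) (nat_lit 4) (nat_lit 1) (nat_lit 4) (nat_lit 271) (nat_lit 186) (nat_lit 143)) (XT.lf (nat_lit 0) (nat_lit 11255384418918) (nat_lit 152) (nat_lit 7378162590848) (nat_lit 0) (nat_lit 11254206032908) (nat_lit 1) (nat_lit 5) (nat_lit 3) (nat_lit 4) (nat_lit 1) (nat_lit 4) (nat_lit 272) (nat_lit 186) (nat_lit 142))) (XT.nd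 (nat_lit 78) (nat_lit 0) (nat_lit 0) (XT.lf (nat_lit 0) (nat_lit 12944429610946) (nat_lit 152) (nat_lit 8483096316164) (nat_lit 0) (nat_lit 12943250896156) (nat_lit 1) (nat_lit 5) (nat_lit 3) (nat_lit 4) (nat_lit 1) (nat_lit 4) (nat_lit 273) (nat_lit 186) (nat_lit 141)) (XT.lf (nat_lit 0) (nat_lit 14886831107577) (nat_lit 152) (nat_lit 9753771028630) (nat_lit 0) (nat_lit 14885652106893) (nat_lit 1) (nat_lit 5) (nat_lit 3) (nat_lit 4) (nat_lit 1) (nat_lit 4) (nat_lit 274) (nat_lit 186) (nat_lit 140))))) (XT.nd (nat_lit 312) (nat_lit 0) (nat_lit 0) (XT.nd (nat_lit 156) (nat_lit 0) (nat_lit 0) (XT.nd (nat_lit 78) (nat_lit 0) (nat_lit 0) (XT.lf (nat_lit 0) (nat_lit 39607410946980) (nat_lit 152) (nat_lit 25925442867656) (nat_lit 0) (nat_lit 39606230756853) (nat_lit 1) (nat_lit 5) (nat_lit 3) (nat_lit 4) (nat_lit 1) (nat_lit 4) (nat_lit 281) (nat_lit 186) (nat_lit 133)) (XT.lf (nat_lit 0)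 (nat_lit 45549257516129) (nat_lit 152) (nat_lit 29812473728666) (nat_lit 0) (nat_lit 45548077232543) (nat_lit 1) (nat_lit 5) (nat_lit 3) (nat_lit 4) (nat_lit 1) (nat_lit 4) (nat_lit 282) (nat_lit 186) (nat_lit 132))) (XT.nd (nat_lit 78) (nat_lit 0) (nat_lit 0) (XT.lf (nat_lit 0) (nat_lit 52382380935852) (nat_lit 152) (nat_lit 34282559482725) (nat_lit 0) (nat_lit 52381200570997) (nat_lit 1) (nat_lit 5) (nat_lit 3) (nat_lit 4) (nat_lit 1) (nat_lit 4) (nat_lit 283) (nat_lit 186) (nat_lit 131)) (XT.lf (nat_lit 0) (nat_lit 60240472751319) (nat_lit 152) (nat_lit 39423158329366) (nat_lit 0) (nat_lit 60239292315795) (nat_lit 1) (nat_lit 5) (nat_lit 3) (nat_lit 4) (nat_lit 1) (nat_lit 4) (nat_lit 284) (nat_lit 186) (nat_lit 130)))) (XT.nd (nat_lit 156) (nat_lit 0) (nat_lit 0) (XT.nd (nat_lit 78) (nat_lit 0) (nat_lit 0) (XT.lf (nat_lit 0) (nat_lit 69277278237180) (nat_lit 152) (nat_lit 45334847202548)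 (nat_lit 0) (nat_lit 69276097740205) (nat_lit 1) (nat_lit 5) (nat_lit 3) (nat_lit 4) (nat_lit 1) (nat_lit 4) (nat_lit 285) (nat_lit 186) (nat_lit 129)) (XT.lf (nat_lit 0) (nat_lit 79669604457289) (nat_lit 152) (nat_lit 52133289580222) (nat_lit 0) (nat_lit 79668423906879) (nat_lit 1) (nat_lit 5) (nat_lit 3) (nat_lit 4) (nat_lit 1) (nat_lit 4) (nat_lit 286) (nat_lit 186) (nat_lit 128))) (XT.nd (nat_lit 26520) (nat_lit 0) (nat_lit 0) (XT.lf (nat_lit 0) (nat_lit 91620779533344) (nat_lit 152) (nat_lit 59951498465431) (nat_lit 0) (nat_lit 91619598936467) (nat_lit 1) (nat_lit 5) (nat_lit 3) (nat_lit 4) (nat_lit 1) (nat_lit 4) (nat_lit 287) (nat_lit 186) (nat_lit 127)) (XT.lf (nat_lit 0) (nat_lit 2781427083) (nat_lit 152) (nat_lit 19618356115) (nat_lit 0) (nat_lit 2781427083) (nat_lit 1) (nat_lit 5) (nat_lit 3) (nat_lit 4) (nat_lit 1) (nat_lit 4) (nat_lit 226) (nat_lit 187) (nat_lit 187))))))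 (XT.nd (nat_lit 624) (nat_lit 0) (nat_lit 0) (XT.nd (nat_lit 312) (nat_lit 0) (nat_lit 0) (XT.nd (nat_lit 156) (nat_lit 0) (nat_lit 0) (XT.nd (nat_lit 78) (nat_lit 0) (nat_lit 0) (XT.lf (nat_lit 0) (nat_lit 9199973750) (nat_lit 152) (nat_lit 39236517480) (nat_lit 0) (nat_lit 9022837753) (nat_lit 1) (nat_lit 5) (nat_lit 3) (nat_lit 4) (nat_lit 1) (nat_lit 4) (nat_lit 227) (nat_lit 187) (nat_lit 186)) (XT.lf (nat_lit 0) (nat_lit 13127176869) (nat_lit 152) (nat_lit 39736461832) (nat_lit 0) (nat_lit 12796009570) (nat_lit 1) (nat_lit 5) (nat_lit 3) (nat_lit 4) (nat_lit 1) (nat_lit 4) (nat_lit 228) (nat_lit 187) (nat_lit 185))) (XT.nd (nat_lit 78) (nat_lit 0) (nat_lit 0) (XT.lf (nat_lit 0) (nat_lit 17421300106) (nat_lit 152) (nat_lit 40746326809) (nat_lit 0) (nat_lit 16956192544) (nat_lit 1) (nat_lit 5) (nat_lit 3) (nat_lit 4) (nat_lit 1) (nat_lit 4) (nat_lit 229) (nat_lit 187) (nat_lit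 184)) (XT.lf (nat_lit 0) (nat_lit 22166358914) (nat_lit 152) (nat_lit 42285870637) (nat_lit 0) (nat_lit 21584781559) (nat_lit 1) (nat_lit 5) (nat_lit 3) (nat_lit 4) (nat_lit 1) (nat_lit 4) (nat_lit 230) (nat_lit 187) (nat_lit 183)))) (XT.nd (nat_lit 156) (nat_lit 0) (nat_lit 0) (XT.nd (nat_lit 78) (nat_lit 0) (nat_lit 0) (XT.lf (nat_lit 0) (nat_lit 27455191403) (nat_lit 152) (nat_lit 44385214826) (nat_lit 0) (nat_lit 26772335965) (nat_lit 1) (nat_lit 5) (nat_lit 3) (nat_lit 4) (nat_lit 1) (nat_lit 4) (nat_lit 231) (nat_lit 187) (nat_lit 182)) (XT.lf (nat_lit 0) (nat_lit 33391274728) (nat_lit 152) (nat_lit 47085433502) (nat_lit 0) (nat_lit 32620351393) (nat_lit 1) (nat_lit 5) (nat_lit 3) (nat_lit 4) (nat_lit 1) (nat_lit 4) (nat_lit 232) (nat_lit 187) (nat_lit 181))) (XT.nd (nat_lit 78) (nat_lit 0) (nat_lit 0) (XT.lf (nat_lit 0) (nat_lit 40090749650) (nat_lit 152) (nat_lit 50439357031)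 (nat_lit 0) (nat_lit 39243245536) (nat_lit 1) (nat_lit 5) (nat_lit 3) (nat_lit 4) (nat_lit 1) (nat_lit 4) (nat_lit 233) (nat_lit 187) (nat_lit 180)) (XT.lf (nat_lit 0) (nat_lit 47684692853) (nat_lit 152) (nat_lit 54512605654) (nat_lit 0) (nat_lit 46770596756) (nat_lit 1) (nat_lit 5) (nat_lit 3) (nat_lit 4) (nat_lit 1) (nat_lit 4) (nat_lit 234) (nat_lit 187) (nat_lit 179))))) (XT.nd (nat_lit 312) (nat_lit 0) (nat_lit 0) (XT.nd (nat_lit 156) (nat_lit 0) (nat_lit 0) (XT.nd (nat_lit 78) (nat_lit 0) (nat_lit 0) (XT.lf (nat_lit 0) (nat_lit 56321681486) (nat_lit 152) (nat_lit 59384873368) (nat_lit 0) (nat_lit 55349679318) (nat_lit 1) (nat_lit 5) (nat_lit 3) (nat_lit 4) (nat_lit 1) (nat_lit 4) (nat_lit 235) (nat_lit 187) (nat_lit 178)) (XT.lf (nat_lit 0) (nat_lit 66170700110) (nat_lit 152) (nat_lit 65151487148) (nat_lit 0) (nat_lit 65148344836) (nat_lit 1) (nat_lit 5) (nat_lit 3) (nat_lit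 4) (nat_lit 1) (nat_lit 4) (nat_lit 236) (nat_lit 187) (nat_lit 177))) (XT.nd (nat_lit 78) (nat_lit 0) (nat_lit 0) (XT.lf (nat_lit 0) (nat_lit 77424446915) (nat_lit 152) (nat_lit 71925272047) (nat_lit 0) (nat_lit 76358306331) (nat_lit 1) (nat_lit 5) (nat_lit 3) (nat_lit 4) (nat_lit 1) (nat_lit 4) (nat_lit 237) (nat_lit 187) (nat_lit 176)) (XT.lf (nat_lit 0) (nat_lit 90303103903) (nat_lit 152) (nat_lit 79838758640) (nat_lit 0) (nat_lit 89198889138) (nat_lit 1) (nat_lit 5) (nat_lit 3) (nat_lit 4) (nat_lit 1) (nat_lit 4) (nat_lit 238) (nat_lit 187) (nat_lit 175)))) (XT.nd (nat_lit 156) (nat_lit 0) (nat_lit 0) (XT.nd (nat_lit 78) (nat_lit 0) (nat_lit 0) (XT.lf (nat_lit 0) (nat_lit 105058644799) (nat_lit 152) (nat_lit 89046776012) (nat_lit 0) (nat_lit 103921322049) (nat_lit 1) (nat_lit 5) (nat_lit 3) (nat_lit 4) (nat_lit 1) (nat_lit 4) (nat_lit 239) (nat_lit 187) (nat_lit 174)) (XT.lf (nat_lit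 0) (nat_lit 121979764968) (nat_lit 152) (nat_lit 99729481023) (nat_lit 0) (nat_lit 120813652666) (nat_lit 1) (nat_lit 5) (nat_lit 3) (nat_lit 4) (nat_lit 1) (nat_lit 4) (nat_lit 240) (nat_lit 187) (nat_lit 173))) (XT.nd (nat_lit 78) (nat_lit 0) (nat_lit 0) (XT.lf (nat_lit 0) (nat_lit 141397529804) (nat_lit 152) (nat_lit 112095883122) (nat_lit 0) (nat_lit 140206383109) (nat_lit 1) (nat_lit 5) (nat_lit 3) (nat_lit 4) (nat_lit 1) (nat_lit 4) (nat_lit 241) (nat_lit 187) (nat_lit 172)) (XT.nd (nat_lit 78) (nat_lit 0) (nat_lit 0) (XT.lf (nat_lit 0) (nat_lit 163691852098) (nat_lit 152) (nat_lit 126387933652) (nat_lit 0) (nat_lit 162478936366) (nat_lit 1) (nat_lit 5) (nat_lit 3) (nat_lit 4) (nat_lit 1) (nat_lit 4) (nat_lit 242) (nat_lit 187) (nat_lit 171)) (XT.lf (nat_lit 0) (nat_lit 189298925111) (nat_lit 152) (nat_lit 142885259689) (nat_lit 0) (nat_lit 188067079782) (nat_lit 1) (nat_lit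 5) (nat_lit 3) (nat_lit 4) (nat_lit 1) (nat_lit 4) (nat_lit 243) (nat_lit 187) (nat_lit 170))))))))
noncomputable def xc18 : XT := (XT.nd (nat_lit 2886) (nat_lit 0) (nat_lit 0) (XT.nd (nat_lit 1248) (nat_lit 0) (nat_lit 0) (XT.nd (nat_lit 624) (nat_lit 0) (nat_lit 0) (XT.nd (nat_lit 312) (nat_lit 0) (nat_lit 0) (XT.nd (nat_lit 156) (nat_lit 0) (nat_lit 0) (XT.nd (nat_lit 78) (nat_lit 0) (nat_lit 0) (XT.lf (nat_lit 0) (nat_lit 218719756795) (nat_lit 152) (nat_lit 161910635003) (nat_lit 0) (nat_lit 217471450946) (nat_lit 1) (nat_lit 5) (nat_lit 3) (nat_lit 4) (nat_lit 1) (nat_lit 4) (nat_lit 244) (nat_lit 187) (nat_lit 169)) (XT.lf (nat_lit 0) (nat_lit 252529972116) (nat_lit 152) (nat_lit 183836295200) (nat_lit 0) (nat_lit 251267352772) (nat_lit 1) (nat_lit 5) (nat_lit 3) (nat_lit 4) (nat_lit 1) (nat_lit 4) (nat_lit 245) (nat_lit 187) (nat_lit 168))) (XT.nd (nat_lit 78) (nat_lit 0) (nat_lit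 0) (XT.lf (nat_lit 0) (nat_lit 291391075288) (nat_lit 152) (nat_lit 209091220586) (nat_lit 0) (nat_lit 290116009426) (nat_lit 1) (nat_lit 5) (nat_lit 3) (nat_lit 4) (nat_lit 1) (nat_lit 4) (nat_lit 246) (nat_lit 187) (nat_lit 167)) (XT.lf (nat_lit 0) (nat_lit 336063392243) (nat_lit 152) (nat_lit 238169529267) (nat_lit 0) (nat_lit 334777503322) (nat_lit 1) (nat_lit 5) (nat_lit 3) (nat_lit 4) (nat_lit 1) (nat_lit 4) (nat_lit 247) (nat_lit 187) (nat_lit 166)))) (XT.nd (nat_lit 156) (nat_lit 0) (nat_lit 0) (XT.nd (nat_lit 78) (nat_lit 0) (nat_lit 0) (XT.lf (nat_lit 0) (nat_lit 387420946572) (nat_lit 152) (nat_lit 271640144674) (nat_lit 0) (nat_lit 386125646296) (nat_lit 1) (nat_lit 5) (nat_lit 3) (nat_lit 4) (nat_lit 1) (nat_lit 4) (nat_lit 248) (nat_lit 187) (nat_lit 165)) (XT.lf (nat_lit 0) (nat_lit 446468559992) (nat_lit 152) (nat_lit 310157926673) (nat_lit 0) (nat_lit 445165075928)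 (nat_lit 1) (nat_lit 5) (nat_lit 3) (nat_lit 4) (nat_lit 1) (nat_lit 4) (nat_lit 249) (nat_lit 187) (nat_lit 164))) (XT.nd (nat_lit 78) (nat_lit 0) (nat_lit 0) (XT.lf (nat_lit 0) (nat_lit 514361511894) (nat_lit 152) (nat_lit 354476484043) (nat_lit 0) (nat_lit 513050911494) (nat_lit 1) (nat_lit 5) (nat_lit 3) (nat_lit 4) (nat_lit 1) (nat_lit 4) (nat_lit 250) (nat_lit 187) (nat_lit 163)) (XT.lf (nat_lit 0) (nat_lit 592428142643) (nat_lit 152) (nat_lit 405462918993) (nat_lit 0) (nat_lit 591111354124) (nat_lit 1) (nat_lit 5) (nat_lit 3) (nat_lit 4) (nat_lit 1) (nat_lit 4) (nat_lit 251) (nat_lit 187) (nat_lit 162))))) (XT.nd (nat_lit 312) (nat_lit 0) (nat_lit 0) (XT.nd (nat_lit 156) (nat_lit 0) (nat_lit 0) (XT.nd (nat_lit 78) (nat_lit 0) (nat_lit 0) (XT.lf (nat_lit 0) (nat_lit 682195842840) (nat_lit 152) (nat_lit 464114792208) (nat_lit 0) (nat_lit 680873673347) (nat_lit 1) (nat_lit 5) (nat_lit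 3) (nat_lit 4) (nat_lit 1) (nat_lit 4) (nat_lit 252) (nat_lit 187) (nat_lit 161)) (XT.lf (nat_lit 0) (nat_lit 785420937054) (nat_lit 152) (nat_lit 531579640336) (nat_lit 0) (nat_lit 784094088454) (nat_lit 1) (nat_lit 5) (nat_lit 3) (nat_lit 4) (nat_lit 1) (nat_lit 4) (nat_lit 253) (nat_lit 187) (nat_lit 160))) (XT.nd (nat_lit 78) (nat_lit 0) (nat_lit 0) (XT.lf (nat_lit 0) (nat_lit 904123046693) (nat_lit 152) (nat_lit 609177427797) (nat_lit 0) (nat_lit 902792129305) (nat_lit 1) (nat_lit 5) (nat_lit 3) (nat_lit 4) (nat_lit 1) (nat_lit 4) (nat_lit 254) (nat_lit 187) (nat_lit 159)) (XT.lf (nat_lit 0) (nat_lit 1040624604338) (nat_lit 152) (nat_lit 698426372174) (nat_lit 0) (nat_lit 1039290148873) (nat_lit 1) (nat_lit 5) (nat_lit 3) (nat_lit 4) (nat_lit 1) (nat_lit 4) (nat_lit 255) (nat_lit 187) (nat_lit 158)))) (XT.nd (nat_lit 156) (nat_lit 0) (nat_lit 0) (XT.nd (nat_lit 78) (nat_lit 0)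 (nat_lit 0) (XT.lf (nat_lit 0) (nat_lit 1197596292638) (nat_lit 152) (nat_lit 801072648463) (nat_lit 0) (nat_lit 1196258760584) (nat_lit 1) (nat_lit 5) (nat_lit 3) (nat_lit 4) (nat_lit 1) (nat_lit 4) (nat_lit 256) (nat_lit 187) (nat_lit 157)) (XT.lf (nat_lit 0) (nat_lit 1378109296799) (nat_lit 152) (nat_lit 919124553376) (nat_lit 0) (nat_lit 1376769089450) (nat_lit 1) (nat_lit 5) (nat_lit 3) (nat_lit 4) (nat_lit 1) (nat_lit 4) (nat_lit 257) (nat_lit 187) (nat_lit 156))) (XT.nd (nat_lit 78) (nat_lit 0) (nat_lit 0) (XT.lf (nat_lit 0) (nat_lit 1585695392989) (nat_lit 152) (nat_lit 1054891798094) (nat_lit 0) (nat_lit 1584352859297) (nat_lit 1) (nat_lit 5) (nat_lit 3) (nat_lit 4) (nat_lit 1) (nat_lit 4) (nat_lit 258) (nat_lit 187) (nat_lit 155)) (XT.lf (nat_lit 0) (nat_lit 1824416048308) (nat_lit 152) (nat_lit 1211030698277) (nat_lit 0) (nat_lit 1823071491708) (nat_lit 1) (nat_lit 5) (nat_lit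 3) (nat_lit 4) (nat_lit 1) (nat_lit 4) (nat_lit 259) (nat_lit 187) (nat_lit 154)))))) (XT.nd (nat_lit 624) (nat_lit 0) (nat_lit 0) (XT.nd (nat_lit 312) (nat_lit 0) (nat_lit 0) (XT.nd (nat_lit 156) (nat_lit 0) (nat_lit 0) (XT.nd (nat_lit 78) (nat_lit 0) (nat_lit 0) (XT.lf (nat_lit 0) (nat_lit 2098941884272) (nat_lit 152) (nat_lit 1390596145448) (nat_lit 0) (nat_lit 2097595568623) (nat_lit 1) (nat_lit 5) (nat_lit 3) (nat_lit 4) (nat_lit 1) (nat_lit 4) (nat_lit 260) (nat_lit 187) (nat_lit 153)) (XT.lf (nat_lit 0) (nat_lit 2414644058543) (nat_lit 152) (nat_lit 1597101376619) (nat_lit 0) (nat_lit 2413296213285) (nat_lit 1) (nat_lit 5) (nat_lit 3) (nat_lit 4) (nat_lit 1) (nat_lit 4) (nat_lit 261) (nat_lit 187) (nat_lit 152))) (XT.nd (nat_lit 78) (nat_lit 0) (nat_lit 0) (XT.lf (nat_lit 0) (nat_lit 2777699352789) (nat_lit 152) (nat_lit 1834586711528) (nat_lit 0) (nat_lit 2776350177438) (nat_lit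 1) (nat_lit 5) (nat_lit 3) (nat_lit 4) (nat_lit 1) (nat_lit 4) (nat_lit 262) (nat_lit 187) (nat_lit 151)) (XT.lf (nat_lit 0) (nat_lit 3195211022769) (nat_lit 152) (nat_lit 2107698602382) (nat_lit 0) (nat_lit 3193860690814) (nat_lit 1) (nat_lit 5) (nat_lit 3) (nat_lit 4) (nat_lit 1) (nat_lit 4) (nat_lit 263) (nat_lit 187) (nat_lit 150)))) (XT.nd (nat_lit 156) (nat_lit 0) (nat_lit 0) (XT.nd (nat_lit 78) (nat_lit 0) (nat_lit 0) (XT.lf (nat_lit 0) (nat_lit 3675347775070) (nat_lit 152) (nat_lit 2421780542696) (nat_lit 0) (nat_lit 3673996437372) (nat_lit 1) (nat_lit 5) (nat_lit 3) (nat_lit 4) (nat_lit 1) (nat_lit 4) (nat_lit 264) (nat_lit 187) (nat_lit 149)) (XT.lf (nat_lit 0) (nat_lit 4227503589626) (nat_lit 152) (nat_lit 2782977613912) (nat_lit 0) (nat_lit 4226151377370) (nat_lit 1) (nat_lit 5) (nat_lit 3) (nat_lit 4) (nat_lit 1) (nat_lit 4) (nat_lit 265) (nat_lit 187) (nat_lit 148)))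 (XT.nd (nat_lit 78) (nat_lit 0) (nat_lit 0) (XT.lf (nat_lit 0) (nat_lit 4862481514984) (nat_lit 152) (nat_lit 3198356715249) (nat_lit 0) (nat_lit 4861128542243) (nat_lit 1) (nat_lit 5) (nat_lit 3) (nat_lit 4) (nat_lit 1) (nat_lit 4) (nat_lit 266) (nat_lit 187) (nat_lit 147)) (XT.lf (nat_lit 0) (nat_lit 5592705032293) (nat_lit 152) (nat_lit 3676044829125) (nat_lit 0) (nat_lit 5591351398259) (nat_lit 1) (nat_lit 5) (nat_lit 3) (nat_lit 4) (nat_lit 1) (nat_lit 4) (nat_lit 267) (nat_lit 187) (nat_lit 146))))) (XT.nd (nat_lit 312) (nat_lit 0) (nat_lit 0) (XT.nd (nat_lit 156) (nat_lit 0) (nat_lit 0) (XT.nd (nat_lit 78) (nat_lit 0) (nat_lit 0) (XT.lf (nat_lit 0) (nat_lit 6432461123413) (nat_lit 152) (nat_lit 4225388027332) (nat_lit 0) (nat_lit 6431106914342) (nat_lit 1) (nat_lit 5) (nat_lit 3) (nat_lit 4) (nat_lit 1) (nat_lit 4) (nat_lit 268) (nat_lit 187) (nat_lit 145)) (XT.lf (nat_lit 0)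 (nat_lit 7398179798821) (nat_lit 152) (nat_lit 4857134328967) (nat_lit 0) (nat_lit 7396825089719) (nat_lit 1) (nat_lit 5) (nat_lit 3) (nat_lit 4) (nat_lit 1) (nat_lit 4) (nat_lit 269) (nat_lit 187) (nat_lit 144))) (XT.nd (nat_lit 78) (nat_lit 0) (nat_lit 0) (XT.lf (nat_lit 0) (nat_lit 8508755554342) (nat_lit 152) (nat_lit 5583643987756) (nat_lit 0) (nat_lit 8507400410430) (nat_lit 1) (nat_lit 5) (nat_lit 3) (nat_lit 4) (nat_lit 1) (nat_lit 4) (nat_lit 270) (nat_lit 187) (nat_lit 143)) (XT.lf (nat_lit 0) (nat_lit 9785917046061) (nat_lit 152) (nat_lit 6419131323111) (nat_lit 0) (nat_lit 9784561524053) (nat_lit 1) (nat_lit 5) (nat_lit 3) (nat_lit 4) (nat_lit 1) (nat_lit 4) (nat_lit 271) (nat_lit 187) (nat_lit 142)))) (XT.nd (nat_lit 156) (nat_lit 0) (nat_lit 0) (XT.nd (nat_lit 78) (nat_lit 0) (nat_lit 0) (XT.lf (nat_lit 0) (nat_lit 11254652216208) (nat_lit 152) (nat_lit 7379942826375)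 (nat_lit 0) (nat_lit 11253296365421) (nat_lit 1) (nat_lit 5) (nat_lit 3) (nat_lit 4) (nat_lit 1) (nat_lit 4) (nat_lit 272) (nat_lit 187) (nat_lit 141)) (XT.lf (nat_lit 0) (nat_lit 12943697187678) (nat_lit 152) (nat_lit 8484876983483) (nat_lit 0) (nat_lit 12942341050996) (nat_lit 1) (nat_lit 5) (nat_lit 3) (nat_lit 4) (nat_lit 1) (nat_lit 4) (nat_lit 273) (nat_lit 187) (nat_lit 140))) (XT.nd (nat_lit 468) (nat_lit 0) (nat_lit 0) (XT.lf (nat_lit 0) (nat_lit 14886098492519) (nat_lit 152) (nat_lit 9755552071421) (nat_lit 0) (nat_lit 14884742107234) (nat_lit 1) (nat_lit 5) (nat_lit 3) (nat_lit 4) (nat_lit 1) (nat_lit 4) (nat_lit 274) (nat_lit 187) (nat_lit 139)) (XT.lf (nat_lit 0) (nat_lit 34439854367692) (nat_lit 152) (nat_lit 22547198759647) (nat_lit 0) (nat_lit 34438497041569) (nat_lit 1) (nat_lit 5) (nat_lit 3) (nat_lit 4) (nat_lit 1) (nat_lit 4) (nat_lit 280) (nat_lit 187) (nat_lit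 133))))))) (XT.nd (nat_lit 27612) (nat_lit 0) (nat_lit 0) (XT.nd (nat_lit 26988) (nat_lit 0) (nat_lit 0) (XT.nd (nat_lit 312) (nat_lit 0) (nat_lit 0) (XT.nd (nat_lit 156) (nat_lit 0) (nat_lit 0) (XT.nd (nat_lit 78) (nat_lit 0) (nat_lit 0) (XT.lf (nat_lit 0) (nat_lit 39606677533996) (nat_lit 152) (nat_lit 25927225472567) (nat_lit 0) (nat_lit 39605320114413) (nat_lit 1) (nat_lit 5) (nat_lit 3) (nat_lit 4) (nat_lit 1) (nat_lit 4) (nat_lit 281) (nat_lit 187) (nat_lit 132)) (XT.lf (nat_lit 0) (nat_lit 45548524040448) (nat_lit 152) (nat_lit 29814256456319) (nat_lit 0) (nat_lit 45547166539596) (nat_lit 1) (nat_lit 5) (nat_lit 3) (nat_lit 4) (nat_lit 1) (nat_lit 4) (nat_lit 282) (nat_lit 187) (nat_lit 131))) (XT.nd (nat_lit 78) (nat_lit 0) (nat_lit 0) (XT.lf (nat_lit 0) (nat_lit 52381647405653) (nat_lit 152) (nat_lit 34284342317110) (nat_lit 0) (nat_lit 52380289834132) (nat_lit 1) (nat_lit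 5) (nat_lit 3) (nat_lit 4) (nat_lit 1) (nat_lit 4) (nat_lit 283) (nat_lit 187) (nat_lit 130)) (XT.lf (nat_lit 0) (nat_lit 60239739173713) (nat_lit 152) (nat_lit 39424941256563) (nat_lit 0) (nat_lit 60238381540741) (nat_lit 1) (nat_lit 5) (nat_lit 3) (nat_lit 4) (nat_lit 1) (nat_lit 4) (nat_lit 284) (nat_lit 187) (nat_lit 129)))) (XT.nd (nat_lit 26520) (nat_lit 0) (nat_lit 0) (XT.nd (nat_lit 78) (nat_lit 0) (nat_lit 0) (XT.lf (nat_lit 0) (nat_lit 69276544618350) (nat_lit 152) (nat_lit 45336630210449) (nat_lit 0) (nat_lit 69275186931942) (nat_lit 1) (nat_lit 5) (nat_lit 3) (nat_lit 4) (nat_lit 1) (nat_lit 4) (nat_lit 285) (nat_lit 187) (nat_lit 128)) (XT.lf (nat_lit 0) (nat_lit 79668870802613) (nat_lit 152) (nat_lit 52135072658302) (nat_lit 0) (nat_lit 79667513069738) (nat_lit 1) (nat_lit 5) (nat_lit 3) (nat_lit 4) (nat_lit 1) (nat_lit 4) (nat_lit 286) (nat_lit 187) (nat_lit 127))) (XT.nd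 (nat_lit 78) (nat_lit 152) (nat_lit 0) (XT.lf (nat_lit 0) (nat_lit 18723435006) (nat_lit 76) (nat_lit 363030942) (nat_lit 76) (nat_lit 363030942) (nat_lit 3) (nat_lit 4) (nat_lit 4) (nat_lit 5) (nat_lit 4) (nat_lit 4) (nat_lit 224) (nat_lit 188) (nat_lit 188)) (XT.lf (nat_lit 0) (nat_lit 2348363478) (nat_lit 152) (nat_lit 39737049896) (nat_lit 0) (nat_lit 2144657081) (nat_lit 1) (nat_lit 5) (nat_lit 3) (nat_lit 4) (nat_lit 1) (nat_lit 4) (nat_lit 225) (nat_lit 188) (nat_lit 187))))) (XT.nd (nat_lit 312) (nat_lit 0) (nat_lit 0) (XT.nd (nat_lit 156) (nat_lit 0) (nat_lit 0) (XT.nd (nat_lit 78) (nat_lit 0) (nat_lit 0) (XT.lf (nat_lit 0) (nat_lit 5629906115) (nat_lit 152) (nat_lit 39504244121) (nat_lit 0) (nat_lit 5249063721) (nat_lit 1) (nat_lit 5) (nat_lit 3) (nat_lit 4) (nat_lit 1) (nat_lit 4) (nat_lit 226) (nat_lit 188) (nat_lit 186)) (XT.lf (nat_lit 0) (nat_lit 9148195744) (nat_lit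 152) (nat_lit 39736685796) (nat_lit 0) (nat_lit 8613322048) (nat_lit 1) (nat_lit 5) (nat_lit 3) (nat_lit 4) (nat_lit 1) (nat_lit 4) (nat_lit 227) (nat_lit 188) (nat_lit 185))) (XT.nd (nat_lit 78) (nat_lit 0) (nat_lit 0) (XT.lf (nat_lit 0) (nat_lit 12972068468) (nat_lit 152) (nat_lit 40438922693) (nat_lit 0) (nat_lit 12303254509) (nat_lit 1) (nat_lit 5) (nat_lit 3) (nat_lit 4) (nat_lit 1) (nat_lit 4) (nat_lit 228) (nat_lit 188) (nat_lit 184)) (XT.lf (nat_lit 0) (nat_lit 17176339187) (nat_lit 152) (nat_lit 41624694230) (nat_lit 0) (nat_lit 16391055434) (nat_lit 1) (nat_lit 5) (nat_lit 3) (nat_lit 4) (nat_lit 1) (nat_lit 4) (nat_lit 229) (nat_lit 188) (nat_lit 183)))) (XT.nd (nat_lit 156) (nat_lit 0) (nat_lit 0) (XT.nd (nat_lit 78) (nat_lit 0) (nat_lit 0) (XT.lf (nat_lit 0) (nat_lit 21843265371) (nat_lit 152) (nat_lit 43317200285) (nat_lit 0) (nat_lit 20956703537) (nat_lit 1) (nat_lit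 5) (nat_lit 3) (nat_lit 4) (nat_lit 1) (nat_lit 4) (nat_lit 230) (nat_lit 188) (nat_lit 182)) (XT.lf (nat_lit 0) (nat_lit 27064156447) (nat_lit 152) (nat_lit 45549555106) (nat_lit 0) (nat_lit 26089526716) (nat_lit 1) (nat_lit 5) (nat_lit 3) (nat_lit 4) (nat_lit 1) (nat_lit 4) (nat_lit 231) (nat_lit 188) (nat_lit 181))) (XT.nd (nat_lit 78) (nat_lit 0) (nat_lit 0) (XT.lf (nat_lit 0) (nat_lit 32941160283) (nat_lit 152) (nat_lit 48365435201) (nat_lit 0) (nat_lit 31889949772) (nat_lit 1) (nat_lit 5) (nat_lit 3) (nat_lit 4) (nat_lit 1) (nat_lit 4) (nat_lit 232) (nat_lit 188) (nat_lit 180)) (XT.lf (nat_lit 0) (nat_lit 39589261737) (nat_lit 152) (nat_lit 51819933877) (nat_lit 0) (nat_lit 38471459243) (nat_lit 1) (nat_lit 5) (nat_lit 3) (nat_lit 4) (nat_lit 1) (nat_lit 4) (nat_lit 233) (nat_lit 188) (nat_lit 179)))))) (XT.nd (nat_lit 624) (nat_lit 0) (nat_lit 0) (XT.nd (nat_lit 312) (nat_lit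 0) (nat_lit 0) (XT.nd (nat_lit 156) (nat_lit 0) (nat_lit 0) (XT.nd (nat_lit 78) (nat_lit 0) (nat_lit 0) (XT.lf (nat_lit 0) (nat_lit 47138532358) (nat_lit 152) (nat_lit 55980639150) (nat_lit 0) (nat_lit 45962823793) (nat_lit 1) (nat_lit 5) (nat_lit 3) (nat_lit 4) (nat_lit 1) (nat_lit 4) (nat_lit 234) (nat_lit 188) (nat_lit 178)) (XT.lf (nat_lit 0) (nat_lit 55736675268) (nat_lit 152) (nat_lit 60928956123) (nat_lit 0) (nat_lit 54510613597) (nat_lit 1) (nat_lit 5) (nat_lit 3) (nat_lit 4) (nat_lit 1) (nat_lit 4) (nat_lit 235) (nat_lit 188) (nat_lit 177))) (XT.nd (nat_lit 78) (nat_lit 0) (nat_lit 0) (XT.lf (nat_lit 0) (nat_lit 65551915003) (nat_lit 152) (nat_lit 66761699695) (nat_lit 0) (nat_lit 64282068022) (nat_lit 1) (nat_lit 5) (nat_lit 3) (nat_lit 4) (nat_lit 1) (nat_lit 4) (nat_lit 236) (nat_lit 188) (nat_lit 176)) (XT.lf (nat_lit 0) (nat_lit 76776288860) (nat_lit 152) (nat_lit 73592988762)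 (nat_lit 0) (nat_lit 75468367697) (nat_lit 1) (nat_lit 5) (nat_lit 3) (nat_lit 4) (nat_lit 1) (nat_lit 4) (nat_lit 237) (nat_lit 188) (nat_lit 175)))) (XT.nd (nat_lit 156) (nat_lit 0) (nat_lit 0) (XT.nd (nat_lit 78) (nat_lit 0) (nat_lit 0) (XT.lf (nat_lit 0) (nat_lit 89629404155) (nat_lit 152) (nat_lit 81556478978) (nat_lit 0) (nat_lit 88288375008) (nat_lit 1) (nat_lit 5) (nat_lit 3) (nat_lit 4) (nat_lit 1) (nat_lit 4) (nat_lit 238) (nat_lit 188) (nat_lit 174)) (XT.lf (nat_lit 0) (nat_lit 104362734883) (nat_lit 152) (nat_lit 90807977761) (nat_lit 0) (nat_lit 102992916184) (nat_lit 1) (nat_lit 5) (nat_lit 3) (nat_lit 4) (nat_lit 1) (nat_lit 4) (nat_lit 239) (nat_lit 188) (nat_lit 173))) (XT.nd (nat_lit 78) (nat_lit 0) (nat_lit 0) (XT.lf (nat_lit 0) (nat_lit 121264541862) (nat_lit 152) (nat_lit 101528492695) (nat_lit 0) (nat_lit 119869688770) (nat_lit 1) (nat_lit 5) (nat_lit 3) (nat_lit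 4) (nat_lit 1) (nat_lit 4) (nat_lit 240) (nat_lit 188) (nat_lit 172)) (XT.lf (nat_lit 0) (nat_lit 140665512620) (nat_lit 152) (nat_lit 113927772988) (nat_lit 0) (nat_lit 139248890491) (nat_lit 1) (nat_lit 5) (nat_lit 3) (nat_lit 4) (nat_lit 1) (nat_lit 4) (nat_lit 241) (nat_lit 188) (nat_lit 171))))) (XT.nd (nat_lit 312) (nat_lit 0) (nat_lit 0) (XT.nd (nat_lit 156) (nat_lit 0) (nat_lit 0) (XT.nd (nat_lit 78) (nat_lit 0) (nat_lit 0) (XT.lf (nat_lit 0) (nat_lit 162945231367) (nat_lit 152) (nat_lit 128248413251) (nat_lit 0) (nat_lit 161509679641) (nat_lit 1) (nat_lit 5) (nat_lit 3) (nat_lit 4) (nat_lit 1) (nat_lit 4) (nat_lit 242) (nat_lit 188) (nat_lit 170)) (XT.lf (nat_lit 0) (nat_lit 188539605645) (nat_lit 152) (nat_lit 144770599927) (nat_lit 0) (nat_lit 187087593399) (nat_lit 1) (nat_lit 5) (nat_lit 3) (nat_lit 4) (nat_lit 1) (nat_lit 4) (nat_lit 243) (nat_lit 188) (nat_lit 169)))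 (XT.nd (nat_lit 78) (nat_lit 0) (nat_lit 0) (XT.lf (nat_lit 0) (nat_lit 217949394950) (nat_lit 152) (nat_lit 163817593188) (nat_lit 0) (nat_lit 216483069208) (nat_lit 1) (nat_lit 5) (nat_lit 3) (nat_lit 4) (nat_lit 1) (nat_lit 4) (nat_lit 244) (nat_lit 188) (nat_lit 168)) (XT.lf (nat_lit 0) (nat_lit 251750008203) (nat_lit 152) (nat_lit 185762051598) (nat_lit 0) (nat_lit 250271235944) (nat_lit 1) (nat_lit 5) (nat_lit 3) (nat_lit 4) (nat_lit 1) (nat_lit 4) (nat_lit 245) (nat_lit 188) (nat_lit 167)))) (XT.nd (nat_lit 156) (nat_lit 0) (nat_lit 0) (XT.nd (nat_lit 78) (nat_lit 0) (nat_lit 0) (XT.lf (nat_lit 0) (nat_lit 290602761750) (nat_lit 152) (nat_lit 211033323257) (nat_lit 0) (nat_lit 289113166432) (nat_lit 1) (nat_lit 5) (nat_lit 3) (nat_lit 4) (nat_lit 1) (nat_lit 4) (nat_lit 246) (nat_lit 188) (nat_lit 166)) (XT.lf (nat_lit 0) (nat_lit 335267818161) (nat_lit 152) (nat_lit 240125846089)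 (nat_lit 0) (nat_lit 333768811488) (nat_lit 1) (nat_lit 5) (nat_lit 3) (nat_lit 4) (nat_lit 1) (nat_lit 4) (nat_lit 247) (nat_lit 188) (nat_lit 165))) (XT.nd (nat_lit 78) (nat_lit 0) (nat_lit 0) (XT.lf (nat_lit 0) (nat_lit 386619058975) (nat_lit 152) (nat_lit 273608821626) (nat_lit 0) (nat_lit 385111868514) (nat_lit 1) (nat_lit 5) (nat_lit 3) (nat_lit 4) (nat_lit 1) (nat_lit 4) (nat_lit 248) (nat_lit 188) (nat_lit 164)) (XT.lf (nat_lit 0) (nat_lit 445661182380) (nat_lit 152) (nat_lit 312137351566) (nat_lit 0) (nat_lit 444146875583) (nat_lit 1) (nat_lit 5) (nat_lit 3) (nat_lit 4) (nat_lit 1) (nat_lit 4) (nat_lit 249) (nat_lit 188) (nat_lit 163))))))))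
noncomputable def xc19 : XT := (XT.nd (nat_lit 1248) (nat_lit 0) (nat_lit 0) (XT.nd (nat_lit 624) (nat_lit 0) (nat_lit 0) (XT.nd (nat_lit 312) (nat_lit 0) (nat_lit 0) (XT.nd (nat_lit 156) (nat_lit 0) (nat_lit 0) (XT.nd (nat_lit 78) (nat_lit 0) (nat_lit 0) (XT.lf (nat_lit 0) (nat_lit 513549360358) (nat_lit 152) (nat_lit 356465254971) (nat_lit 0) (nat_lit 512028865441) (nat_lit 1) (nat_lit 5) (nat_lit 3) (nat_lit 4) (nat_lit 1) (nat_lit 4) (nat_lit 250) (nat_lit 188) (nat_lit 162)) (XT.lf (nat_lit 0) (nat_lit 591611839867) (nat_lit 152) (nat_lit 407459816908) (nat_lit 0) (nat_lit 590085963977) (nat_lit 1) (nat_lit 5) (nat_lit 3) (nat_lit 4) (nat_lit 1) (nat_lit 4) (nat_lit 251) (nat_lit 188) (nat_lit 161))) (XT.nd (nat_lit 78) (nat_lit 0) (nat_lit 0) (XT.lf (nat_lit 0) (nat_lit 681375930291) (nat_lit 152) (nat_lit 466118757067) (nat_lit 0) (nat_lit 679845375294) (nat_lit 1) (nat_lit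 5) (nat_lit 3) (nat_lit 4) (nat_lit 1) (nat_lit 4) (nat_lit 252) (nat_lit 188) (nat_lit 160)) (XT.lf (nat_lit 0) (nat_lit 784597885571) (nat_lit 152) (nat_lit 533589750364) (nat_lit 0) (nat_lit 783063261786) (nat_lit 1) (nat_lit 5) (nat_lit 3) (nat_lit 4) (nat_lit 1) (nat_lit 4) (nat_lit 253) (nat_lit 188) (nat_lit 159)))) (XT.nd (nat_lit 156) (nat_lit 0) (nat_lit 0) (XT.nd (nat_lit 78) (nat_lit 0) (nat_lit 0) (XT.lf (nat_lit 0) (nat_lit 903297265704) (nat_lit 152) (nat_lit 611192881452) (nat_lit 0) (nat_lit 901759103841) (nat_lit 1) (nat_lit 5) (nat_lit 3) (nat_lit 4) (nat_lit 1) (nat_lit 4) (nat_lit 254) (nat_lit 188) (nat_lit 158)) (XT.lf (nat_lit 0) (nat_lit 1039796449864) (nat_lit 152) (nat_lit 700446472459) (nat_lit 0) (nat_lit 1038255211413) (nat_lit 1) (nat_lit 5) (nat_lit 3) (nat_lit 4) (nat_lit 1) (nat_lit 4) (nat_lit 255) (nat_lit 188) (nat_lit 157))) (XT.nd (nat_lit 78)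 (nat_lit 0) (nat_lit 0) (XT.lf (nat_lit 0) (nat_lit 1196766074264) (nat_lit 152) (nat_lit 803096789297) (nat_lit 0) (nat_lit 1195222160518) (nat_lit 1) (nat_lit 5) (nat_lit 3) (nat_lit 4) (nat_lit 1) (nat_lit 4) (nat_lit 256) (nat_lit 188) (nat_lit 156)) (XT.lf (nat_lit 0) (nat_lit 1377277283730) (nat_lit 152) (nat_lit 921152207730) (nat_lit 0) (nat_lit 1375731043641) (nat_lit 1) (nat_lit 5) (nat_lit 3) (nat_lit 4) (nat_lit 1) (nat_lit 4) (nat_lit 257) (nat_lit 188) (nat_lit 155))))) (XT.nd (nat_lit 312) (nat_lit 0) (nat_lit 0) (XT.nd (nat_lit 156) (nat_lit 0) (nat_lit 0) (XT.nd (nat_lit 78) (nat_lit 0) (nat_lit 0) (XT.lf (nat_lit 0) (nat_lit 1584861819315) (nat_lit 152) (nat_lit 1056922507684) (nat_lit 0) (nat_lit 1583313556319) (nat_lit 1) (nat_lit 5) (nat_lit 3) (nat_lit 4) (nat_lit 1) (nat_lit 4) (nat_lit 258) (nat_lit 188) (nat_lit 154)) (XT.lf (nat_lit 0) (nat_lit 1823581117586)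 (nat_lit 152) (nat_lit 1213064064593) (nat_lit 0) (nat_lit 1822031095541) (nat_lit 1) (nat_lit 5) (nat_lit 3) (nat_lit 4) (nat_lit 1) (nat_lit 4) (nat_lit 259) (nat_lit 188) (nat_lit 153))) (XT.nd (nat_lit 78) (nat_lit 0) (nat_lit 0) (XT.lf (nat_lit 0) (nat_lit 2098105773510) (nat_lit 152) (nat_lit 1392631821961) (nat_lit 0) (nat_lit 2096554221855) (nat_lit 1) (nat_lit 5) (nat_lit 3) (nat_lit 4) (nat_lit 1) (nat_lit 4) (nat_lit 260) (nat_lit 188) (nat_lit 152)) (XT.lf (nat_lit 0) (nat_lit 2413806921657) (nat_lit 152) (nat_lit 1599139061999) (nat_lit 0) (nat_lit 2412254039909) (nat_lit 1) (nat_lit 5) (nat_lit 3) (nat_lit 4) (nat_lit 1) (nat_lit 4) (nat_lit 261) (nat_lit 188) (nat_lit 151)))) (XT.nd (nat_lit 156) (nat_lit 0) (nat_lit 0) (XT.nd (nat_lit 78) (nat_lit 0) (nat_lit 0) (XT.lf (nat_lit 0) (nat_lit 2776861323623) (nat_lit 152) (nat_lit 1836626143749) (nat_lit 0) (nat_lit 2775307285271)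 (nat_lit 1) (nat_lit 5) (nat_lit 3) (nat_lit 4) (nat_lit 1) (nat_lit 4) (nat_lit 262) (nat_lit 188) (nat_lit 150)) (XT.lf (nat_lit 0) (nat_lit 3194372217707) (nat_lit 152) (nat_lit 2109739553595) (nat_lit 0) (nat_lit 3192817173612) (nat_lit 1) (nat_lit 5) (nat_lit 3) (nat_lit 4) (nat_lit 1) (nat_lit 4) (nat_lit 263) (nat_lit 188) (nat_lit 149))) (XT.nd (nat_lit 78) (nat_lit 0) (nat_lit 0) (XT.lf (nat_lit 0) (nat_lit 3674508295315) (nat_lit 152) (nat_lit 2423822814771) (nat_lit 0) (nat_lit 3672952376662) (nat_lit 1) (nat_lit 5) (nat_lit 3) (nat_lit 4) (nat_lit 1) (nat_lit 4) (nat_lit 264) (nat_lit 188) (nat_lit 148)) (XT.lf (nat_lit 0) (nat_lit 4226663523182) (nat_lit 152) (nat_lit 2785021034564) (nat_lit 0) (nat_lit 4225106844043) (nat_lit 1) (nat_lit 5) (nat_lit 3) (nat_lit 4) (nat_lit 1) (nat_lit 4) (nat_lit 265) (nat_lit 188) (nat_lit 147)))))) (XT.nd (nat_lit 624) (nat_lit 0) (nat_lit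 0) (XT.nd (nat_lit 312) (nat_lit 0) (nat_lit 0) (XT.nd (nat_lit 156) (nat_lit 0) (nat_lit 0) (XT.nd (nat_lit 78) (nat_lit 0) (nat_lit 0) (XT.lf (nat_lit 0) (nat_lit 4861640938376) (nat_lit 152) (nat_lit 3200401134662) (nat_lit 0) (nat_lit 4860083597945) (nat_lit 1) (nat_lit 5) (nat_lit 3) (nat_lit 4) (nat_lit 1) (nat_lit 4) (nat_lit 266) (nat_lit 188) (nat_lit 146)) (XT.lf (nat_lit 0) (nat_lit 5591864012064) (nat_lit 152) (nat_lit 3678090117027) (nat_lit 0) (nat_lit 5590306096596) (nat_lit 1) (nat_lit 5) (nat_lit 3) (nat_lit 4) (nat_lit 1) (nat_lit 4) (nat_lit 267) (nat_lit 188) (nat_lit 145))) (XT.nd (nat_lit 78) (nat_lit 0) (nat_lit 0) (XT.lf (nat_lit 0) (nat_lit 6431619717425) (nat_lit 152) (nat_lit 4227434070441) (nat_lit 0) (nat_lit 6430061301926) (nat_lit 1) (nat_lit 5) (nat_lit 3) (nat_lit 4) (nat_lit 1) (nat_lit 4) (nat_lit 268) (nat_lit 188) (nat_lit 144)) (XT.lf (nat_lit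 0) (nat_lit 7397338057392) (nat_lit 152) (nat_lit 4859181028778) (nat_lit 0) (nat_lit 7395779207083) (nat_lit 1) (nat_lit 5) (nat_lit 3) (nat_lit 4) (nat_lit 1) (nat_lit 4) (nat_lit 269) (nat_lit 188) (nat_lit 143)))) (XT.nd (nat_lit 156) (nat_lit 0) (nat_lit 0) (XT.nd (nat_lit 78) (nat_lit 0) (nat_lit 0) (XT.lf (nat_lit 0) (nat_lit 8507913521225) (nat_lit 152) (nat_lit 5585691258612) (nat_lit 0) (nat_lit 8506354292820) (nat_lit 1) (nat_lit 5) (nat_lit 3) (nat_lit 4) (nat_lit 1) (nat_lit 4) (nat_lit 270) (nat_lit 188) (nat_lit 142)) (XT.lf (nat_lit 0) (nat_lit 9785074759302) (nat_lit 152) (nat_lit 6421179090528) (nat_lit 0) (nat_lit 9783515202119) (nat_lit 1) (nat_lit 5) (nat_lit 3) (nat_lit 4) (nat_lit 1) (nat_lit 4) (nat_lit 271) (nat_lit 188) (nat_lit 141))) (XT.nd (nat_lit 78) (nat_lit 0) (nat_lit 0) (XT.lf (nat_lit 0) (nat_lit 11253809708892) (nat_lit 152) (nat_lit 7381991025585)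 (nat_lit 0) (nat_lit 11252249865813) (nat_lit 1) (nat_lit 5) (nat_lit 3) (nat_lit 4) (nat_lit 1) (nat_lit 4) (nat_lit 272) (nat_lit 188) (nat_lit 140)) (XT.lf (nat_lit 0) (nat_lit 12942854488571) (nat_lit 152) (nat_lit 8486925558165) (nat_lit 0) (nat_lit 12941294396888) (nat_lit 1) (nat_lit 5) (nat_lit 3) (nat_lit 4) (nat_lit 1) (nat_lit 4) (nat_lit 273) (nat_lit 188) (nat_lit 139))))) (XT.nd (nat_lit 702) (nat_lit 0) (nat_lit 0) (XT.nd (nat_lit 546) (nat_lit 0) (nat_lit 0) (XT.nd (nat_lit 468) (nat_lit 0) (nat_lit 0) (XT.lf (nat_lit 0) (nat_lit 14885255626639) (nat_lit 152) (nat_lit 9757600972600) (nat_lit 0) (nat_lit 14883695318779) (nat_lit 1) (nat_lit 5) (nat_lit 3) (nat_lit 4) (nat_lit 1) (nat_lit 4) (nat_lit 274) (nat_lit 188) (nat_lit 138)) (XT.lf (nat_lit 0) (nat_lit 34439010870660) (nat_lit 152) (nat_lit 22549248896448) (nat_lit 0) (nat_lit 34437449744680) (nat_lit 1) (nat_lit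 5) (nat_lit 3) (nat_lit 4) (nat_lit 1) (nat_lit 4) (nat_lit 280) (nat_lit 188) (nat_lit 132))) (XT.nd (nat_lit 78) (nat_lit 0) (nat_lit 0) (XT.lf (nat_lit 0) (nat_lit 39605833974268) (nat_lit 152) (nat_lit 25929275732110) (nat_lit 0) (nat_lit 39604272767018) (nat_lit 1) (nat_lit 5) (nat_lit 3) (nat_lit 4) (nat_lit 1) (nat_lit 4) (nat_lit 281) (nat_lit 188) (nat_lit 131)) (XT.lf (nat_lit 0) (nat_lit 45547680426201) (nat_lit 152) (nat_lit 29816306822595) (nat_lit 0) (nat_lit 45546119148283) (nat_lit 1) (nat_lit 5) (nat_lit 3) (nat_lit 4) (nat_lit 1) (nat_lit 4) (nat_lit 282) (nat_lit 188) (nat_lit 130)))) (XT.nd (nat_lit 156) (nat_lit 0) (nat_lit 0) (XT.nd (nat_lit 78) (nat_lit 0) (nat_lit 0) (XT.lf (nat_lit 0) (nat_lit 52380803743999) (nat_lit 152) (nat_lit 34286392776197) (nat_lit 0) (nat_lit 52379242404630) (nat_lit 1) (nat_lit 5) (nat_lit 3) (nat_lit 4) (nat_lit 1) (nat_lit 4) (nat_lit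 283) (nat_lit 188) (nat_lit 129)) (XT.lf (nat_lit 0) (nat_lit 60238895470835) (nat_lit 152) (nat_lit 39426991796354) (nat_lit 0) (nat_lit 60237334078030) (nat_lit 1) (nat_lit 5) (nat_lit 3) (nat_lit 4) (nat_lit 1) (nat_lit 4) (nat_lit 284) (nat_lit 188) (nat_lit 128))) (XT.nd (nat_lit 26364) (nat_lit 0) (nat_lit 152) (XT.lf (nat_lit 0) (nat_lit 69275700879625) (nat_lit 152) (nat_lit 45338680820419) (nat_lit 0) (nat_lit 69274139440354) (nat_lit 1) (nat_lit 5) (nat_lit 3) (nat_lit 4) (nat_lit 1) (nat_lit 4) (nat_lit 285) (nat_lit 188) (nat_lit 127)) (XT.lf (nat_lit 0) (nat_lit 9113802858) (nat_lit 76) (nat_lit 3000683548) (nat_lit 76) (nat_lit 3000683548) (nat_lit 3) (nat_lit 4) (nat_lit 4) (nat_lit 5) (nat_lit 4) (nat_lit 4) (nat_lit 222) (nat_lit 189) (nat_lit 189)))))))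
noncomputable def xc20 : XT := (XT.nd (nat_lit 1248) (nat_lit 0) (nat_lit 0) (XT.nd (nat_lit 624) (nat_lit 0) (nat_lit 0) (XT.nd (nat_lit 312) (nat_lit 0) (nat_lit 0) (XT.nd (nat_lit 156) (nat_lit 152) (nat_lit 0) (XT.nd (nat_lit 78) (nat_lit 0) (nat_lit 0) (XT.lf (nat_lit 0) (nat_lit 27300816810) (nat_lit 76) (nat_lit 3610000571) (nat_lit 76) (nat_lit 3340598861) (nat_lit 3) (nat_lit 4) (nat_lit 4) (nat_lit 5) (nat_lit 4) (nat_lit 4) (nat_lit 223) (nat_lit 189) (nat_lit 188)) (XT.lf (nat_lit 0) (nat_lit 37196313877) (nat_lit 76) (nat_lit 1113319706) (nat_lit 76) (nat_lit 609655639) (nat_lit 3) (nat_lit 4) (nat_lit 4) (nat_lit 5) (nat_lit 4) (nat_lit 4) (nat_lit 224) (nat_lit 189) (nat_lit 187))) (XT.nd (nat_lit 78) (nat_lit 0) (nat_lit 0) (XT.lf (nat_lit 0) (nat_lit 2288818772) (nat_lit 152) (nat_lit 40312243461) (nat_lit 0) (nat_lit 1673714021) (nat_lit 1) (nat_lit 5) (nat_lit 3)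 (nat_lit 4) (nat_lit 1) (nat_lit 4) (nat_lit 225) (nat_lit 189) (nat_lit 186)) (XT.lf (nat_lit 0) (nat_lit 5451531453) (nat_lit 152) (nat_lit 40312074112) (nat_lit 0) (nat_lit 4682395400) (nat_lit 1) (nat_lit 5) (nat_lit 3) (nat_lit 4) (nat_lit 1) (nat_lit 4) (nat_lit 226) (nat_lit 189) (nat_lit 185)))) (XT.nd (nat_lit 156) (nat_lit 0) (nat_lit 0) (XT.nd (nat_lit 78) (nat_lit 0) (nat_lit 0) (XT.lf (nat_lit 0) (nat_lit 8866490687) (nat_lit 152) (nat_lit 40746808331) (nat_lit 0) (nat_lit 7963414372) (nat_lit 1) (nat_lit 5) (nat_lit 3) (nat_lit 4) (nat_lit 1) (nat_lit 4) (nat_lit 227) (nat_lit 189) (nat_lit 184)) (XT.lf (nat_lit 0) (nat_lit 12600510893) (nat_lit 152) (nat_lit 41624951789) (nat_lit 0) (nat_lit 11580964784) (nat_lit 1) (nat_lit 5) (nat_lit 3) (nat_lit 4) (nat_lit 1) (nat_lit 4) (nat_lit 228) (nat_lit 189) (nat_lit 183))) (XT.nd (nat_lit 78) (nat_lit 0) (nat_lit 0) (XT.lf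 (nat_lit 0) (nat_lit 16726648988) (nat_lit 152) (nat_lit 42963685553) (nat_lit 0) (nat_lit 15605824797) (nat_lit 1) (nat_lit 5) (nat_lit 3) (nat_lit 4) (nat_lit 1) (nat_lit 4) (nat_lit 229) (nat_lit 189) (nat_lit 182)) (XT.lf (nat_lit 0) (nat_lit 21325633760) (nat_lit 152) (nat_lit 44789202239) (nat_lit 0) (nat_lit 20116741672) (nat_lit 1) (nat_lit 5) (nat_lit 3) (nat_lit 4) (nat_lit 1) (nat_lit 4) (nat_lit 230) (nat_lit 189) (nat_lit 181))))) (XT.nd (nat_lit 312) (nat_lit 0) (nat_lit 0) (XT.nd (nat_lit 156) (nat_lit 0) (nat_lit 0) (XT.nd (nat_lit 78) (nat_lit 0) (nat_lit 0) (XT.lf (nat_lit 0) (nat_lit 26487445347) (nat_lit 152) (nat_lit 47137218479) (nat_lit 0) (nat_lit 25201972479) (nat_lit 1) (nat_lit 5) (nat_lit 3) (nat_lit 4) (nat_lit 1) (nat_lit 4) (nat_lit 231) (nat_lit 189) (nat_lit 180)) (XT.lf (nat_lit 0) (nat_lit 32313075714) (nat_lit 152) (nat_lit 50053673721) (nat_lit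 0) (nat_lit 30961010864) (nat_lit 1) (nat_lit 5) (nat_lit 3) (nat_lit 4) (nat_lit 1) (nat_lit 4) (nat_lit 232) (nat_lit 189) (nat_lit 179))) (XT.nd (nat_lit 78) (nat_lit 0) (nat_lit 0) (XT.lf (nat_lit 0) (nat_lit 38916504586) (nat_lit 152) (nat_lit 53595629046) (nat_lit 0) (nat_lit 37506533664) (nat_lit 1) (nat_lit 5) (nat_lit 3) (nat_lit 4) (nat_lit 1) (nat_lit 4) (nat_lit 233) (nat_lit 189) (nat_lit 178)) (XT.lf (nat_lit 0) (nat_lit 46426929485) (nat_lit 152) (nat_lit 57832383579) (nat_lit 0) (nat_lit 44966605457) (nat_lit 1) (nat_lit 5) (nat_lit 3) (nat_lit 4) (nat_lit 1) (nat_lit 4) (nat_lit 234) (nat_lit 189) (nat_lit 177)))) (XT.nd (nat_lit 156) (nat_lit 0) (nat_lit 0) (XT.nd (nat_lit 78) (nat_lit 0) (nat_lit 0) (XT.lf (nat_lit 0) (nat_lit 54991293505) (nat_lit 152) (nat_lit 62846830345) (nat_lit 0) (nat_lit 53487184168) (nat_lit 1) (nat_lit 5) (nat_lit 3) (nat_lit 4) (nat_lit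 1) (nat_lit 4) (nat_lit 235) (nat_lit 189) (nat_lit 176)) (XT.lf (nat_lit 0) (nat_lit 64777160292) (nat_lit 152) (nat_lit 68737078084) (nat_lit 0) (nat_lit 63234976773) (nat_lit 1) (nat_lit 5) (nat_lit 3) (nat_lit 4) (nat_lit 1) (nat_lit 4) (nat_lit 236) (nat_lit 189) (nat_lit 175))) (XT.nd (nat_lit 78) (nat_lit 0) (nat_lit 0) (XT.lf (nat_lit 0) (nat_lit 75975992456) (nat_lit 152) (nat_lit 75618370773) (nat_lit 0) (nat_lit 74400700953) (nat_lit 1) (nat_lit 5) (nat_lit 3) (nat_lit 4) (nat_lit 1) (nat_lit 4) (nat_lit 237) (nat_lit 189) (nat_lit 174)) (XT.lf (nat_lit 0) (nat_lit 88806897583) (nat_lit 152) (nat_lit 83625342400) (nat_lit 0) (nat_lit 87202816528) (nat_lit 1) (nat_lit 5) (nat_lit 3) (nat_lit 4) (nat_lit 1) (nat_lit 4) (nat_lit 238) (nat_lit 189) (nat_lit 173)))))) (XT.nd (nat_lit 624) (nat_lit 0) (nat_lit 0) (XT.nd (nat_lit 312) (nat_lit 0) (nat_lit 0) (XT.nd (nat_lit 156)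 (nat_lit 0) (nat_lit 0) (XT.nd (nat_lit 78) (nat_lit 0) (nat_lit 0) (XT.lf (nat_lit 0) (nat_lit 103520915121) (nat_lit 152) (nat_lit 92914651106) (nat_lit 0) (nat_lit 101891799673) (nat_lit 1) (nat_lit 5) (nat_lit 3) (nat_lit 4) (nat_lit 1) (nat_lit 4) (nat_lit 239) (nat_lit 189) (nat_lit 172)) (XT.lf (nat_lit 0) (nat_lit 120405928022) (nat_lit 152) (nat_lit 103668044235) (nat_lit 0) (nat_lit 118755043537) (nat_lit 1) (nat_lit 5) (nat_lit 3) (nat_lit 4) (nat_lit 1) (nat_lit 4) (nat_lit 240) (nat_lit 189) (nat_lit 171))) (XT.nd (nat_lit 78) (nat_lit 0) (nat_lit 0) (XT.lf (nat_lit 0) (nat_lit 139792295234) (nat_lit 152) (nat_lit 116095914261) (nat_lit 0) (nat_lit 138122481151) (nat_lit 1) (nat_lit 5) (nat_lit 3) (nat_lit 4) (nat_lit 1) (nat_lit 4) (nat_lit 241) (nat_lit 189) (nat_lit 170)) (XT.lf (nat_lit 0) (nat_lit 162059315246) (nat_lit 152) (nat_lit 130441415163) (nat_lit 0) (nat_lit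 160373040643) (nat_lit 1) (nat_lit 5) (nat_lit 3) (nat_lit 4) (nat_lit 1) (nat_lit 4) (nat_lit 242) (nat_lit 189) (nat_lit 169)))) (XT.nd (nat_lit 156) (nat_lit 0) (nat_lit 0) (XT.nd (nat_lit 78) (nat_lit 0) (nat_lit 0) (XT.lf (nat_lit 0) (nat_lit 187642647144) (nat_lit 152) (nat_lit 146985219784) (nat_lit 0) (nat_lit 185942059047) (nat_lit 1) (nat_lit 5) (nat_lit 3) (nat_lit 4) (nat_lit 1) (nat_lit 4) (nat_lit 243) (nat_lit 189) (nat_lit 168)) (XT.lf (nat_lit 0) (nat_lit 217042834381) (nat_lit 152) (nat_lit 166051011259) (nat_lit 0) (nat_lit 215329799765) (nat_lit 1) (nat_lit 5) (nat_lit 3) (nat_lit 4) (nat_lit 1) (nat_lit 4) (nat_lit 244) (nat_lit 189) (nat_lit 167))) (XT.nd (nat_lit 78) (nat_lit 0) (nat_lit 0) (XT.lf (nat_lit 0) (nat_lit 250835098009) (nat_lit 152) (nat_lit 188011815943) (nat_lit 0) (nat_lit 249111240334) (nat_lit 1) (nat_lit 5) (nat_lit 3) (nat_lit 4) (nat_lit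 1) (nat_lit 4) (nat_lit 245) (nat_lit 189) (nat_lit 166)) (XT.lf (nat_lit 0) (nat_lit 289680591013) (nat_lit 152) (nat_lit 213297301753) (nat_lit 0) (nat_lit 287947321983) (nat_lit 1) (nat_lit 5) (nat_lit 3) (nat_lit 4) (nat_lit 1) (nat_lit 4) (nat_lit 246) (nat_lit 189) (nat_lit 165))))) (XT.nd (nat_lit 312) (nat_lit 0) (nat_lit 0) (XT.nd (nat_lit 156) (nat_lit 0) (nat_lit 0) (XT.nd (nat_lit 78) (nat_lit 0) (nat_lit 0) (XT.lf (nat_lit 0) (nat_lit 334339333908) (nat_lit 152) (nat_lit 242402184715) (nat_lit 0) (nat_lit 332597881090) (nat_lit 1) (nat_lit 5) (nat_lit 3) (nat_lit 4) (nat_lit 1) (nat_lit 4) (nat_lit 247) (nat_lit 189) (nat_lit 164)) (XT.lf (nat_lit 0) (nat_lit 385685084707) (nat_lit 152) (nat_lit 275895908193) (nat_lit 0) (nat_lit 383936515553) (nat_lit 1) (nat_lit 5) (nat_lit 3) (nat_lit 4) (nat_lit 1) (nat_lit 4) (nat_lit 248) (nat_lit 189) (nat_lit 163))) (XT.nd (nat_lit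 78) (nat_lit 0) (nat_lit 0) (XT.lf (nat_lit 0) (nat_lit 444722434188) (nat_lit 152) (nat_lit 314433784167) (nat_lit 0) (nat_lit 442967676914) (nat_lit 1) (nat_lit 5) (nat_lit 3) (nat_lit 4) (nat_lit 1) (nat_lit 4) (nat_lit 249) (nat_lit 189) (nat_lit 162)) (XT.lf (nat_lit 0) (nat_lit 512606460926) (nat_lit 152) (nat_lit 358769814558) (nat_lit 0) (nat_lit 510846322680) (nat_lit 1) (nat_lit 5) (nat_lit 3) (nat_lit 4) (nat_lit 1) (nat_lit 4) (nat_lit 250) (nat_lit 189) (nat_lit 161)))) (XT.nd (nat_lit 156) (nat_lit 0) (nat_lit 0) (XT.nd (nat_lit 78) (nat_lit 0) (nat_lit 0) (XT.lf (nat_lit 0) (nat_lit 590665330662) (nat_lit 152) (nat_lit 409771443440) (nat_lit 0) (nat_lit 588900513309) (nat_lit 1) (nat_lit 5) (nat_lit 3) (nat_lit 4) (nat_lit 1) (nat_lit 4) (nat_lit 251) (nat_lit 189) (nat_lit 160)) (XT.lf (nat_lit 0) (nat_lit 680426282153) (nat_lit 152) (nat_lit 468436528769) (nat_lit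 0) (nat_lit 678657396010) (nat_lit 1) (nat_lit 5) (nat_lit 3) (nat_lit 4) (nat_lit 1) (nat_lit 4) (nat_lit 252) (nat_lit 189) (nat_lit 159))) (XT.nd (nat_lit 78) (nat_lit 0) (nat_lit 0) (XT.lf (nat_lit 0) (nat_lit 783645507926) (nat_lit 152) (nat_lit 535912865692) (nat_lit 0) (nat_lit 781873083707) (nat_lit 1) (nat_lit 5) (nat_lit 3) (nat_lit 4) (nat_lit 1) (nat_lit 4) (nat_lit 253) (nat_lit 189) (nat_lit 158)) (XT.nd (nat_lit 78) (nat_lit 0) (nat_lit 0) (XT.lf (nat_lit 0) (nat_lit 902342514574) (nat_lit 152) (nat_lit 613520643411) (nat_lit 0) (nat_lit 900567013766) (nat_lit 1) (nat_lit 5) (nat_lit 3) (nat_lit 4) (nat_lit 1) (nat_lit 4) (nat_lit 254) (nat_lit 189) (nat_lit 157)) (XT.lf (nat_lit 0) (nat_lit 1038839634834) (nat_lit 152) (nat_lit 702778274967) (nat_lit 0) (nat_lit 1037061458732) (nat_lit 1) (nat_lit 5) (nat_lit 3) (nat_lit 4) (nat_lit 1) (nat_lit 4) (nat_lit 255) (nat_lit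 189) (nat_lit 156))))))))
noncomputable def xc21 : XT := (XT.nd (nat_lit 1248) (nat_lit 0) (nat_lit 0) (XT.nd (nat_lit 624) (nat_lit 0) (nat_lit 0) (XT.nd (nat_lit 312) (nat_lit 0) (nat_lit 0) (XT.nd (nat_lit 156) (nat_lit 0) (nat_lit 0) (XT.nd (nat_lit 78) (nat_lit 0) (nat_lit 0) (XT.lf (nat_lit 0) (nat_lit 1195807464539) (nat_lit 152) (nat_lit 805432105325) (nat_lit 0) (nat_lit 1194026962094) (nat_lit 1) (nat_lit 5) (nat_lit 3) (nat_lit 4) (nat_lit 1) (nat_lit 4) (nat_lit 256) (nat_lit 189) (nat_lit 155)) (XT.lf (nat_lit 0) (nat_lit 1376317113400) (nat_lit 152) (nat_lit 923490578994) (nat_lit 0) (nat_lit 1374534588047) (nat_lit 1) (nat_lit 5) (nat_lit 3) (nat_lit 4) (nat_lit 1) (nat_lit 4) (nat_lit 257) (nat_lit 189) (nat_lit 154))) (XT.nd (nat_lit 78) (nat_lit 0) (nat_lit 0) (XT.lf (nat_lit 0) (nat_lit 1583900291938) (nat_lit 152) (nat_lit 1059263535674) (nat_lit 0) (nat_lit 1582116007536)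 (nat_lit 1) (nat_lit 5) (nat_lit 3) (nat_lit 4) (nat_lit 1) (nat_lit 4) (nat_lit 258) (nat_lit 189) (nat_lit 153)) (XT.lf (nat_lit 0) (nat_lit 1822618410168) (nat_lit 152) (nat_lit 1215407402780) (nat_lit 0) (nat_lit 1820832596157) (nat_lit 1) (nat_lit 5) (nat_lit 3) (nat_lit 4) (nat_lit 1) (nat_lit 4) (nat_lit 259) (nat_lit 189) (nat_lit 152)))) (XT.nd (nat_lit 156) (nat_lit 0) (nat_lit 0) (XT.nd (nat_lit 78) (nat_lit 0) (nat_lit 0) (XT.lf (nat_lit 0) (nat_lit 2097142039969) (nat_lit 152) (nat_lit 1394977169015) (nat_lit 0) (nat_lit 2095354895863) (nat_lit 1) (nat_lit 5) (nat_lit 3) (nat_lit 4) (nat_lit 1) (nat_lit 4) (nat_lit 260) (nat_lit 189) (nat_lit 151)) (XT.lf (nat_lit 0) (nat_lit 2412842295835) (nat_lit 152) (nat_lit 1601486155893) (nat_lit 0) (nat_lit 2411053995126) (nat_lit 1) (nat_lit 5) (nat_lit 3) (nat_lit 4) (nat_lit 1) (nat_lit 4) (nat_lit 261) (nat_lit 189) (nat_lit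 150))) (XT.nd (nat_lit 78) (nat_lit 0) (nat_lit 0) (XT.lf (nat_lit 0) (nat_lit 2775895921905) (nat_lit 152) (nat_lit 1838974756635) (nat_lit 0) (nat_lit 2774106615454) (nat_lit 1) (nat_lit 5) (nat_lit 3) (nat_lit 4) (nat_lit 1) (nat_lit 4) (nat_lit 262) (nat_lit 189) (nat_lit 149)) (XT.lf (nat_lit 0) (nat_lit 3193406141296) (nat_lit 152) (nat_lit 2112089487344) (nat_lit 0) (nat_lit 3191615960287) (nat_lit 1) (nat_lit 5) (nat_lit 3) (nat_lit 4) (nat_lit 1) (nat_lit 4) (nat_lit 263) (nat_lit 189) (nat_lit 148))))) (XT.nd (nat_lit 312) (nat_lit 0) (nat_lit 0) (XT.nd (nat_lit 156) (nat_lit 0) (nat_lit 0) (XT.nd (nat_lit 78) (nat_lit 0) (nat_lit 0) (XT.lf (nat_lit 0) (nat_lit 3673541632215) (nat_lit 152) (nat_lit 2426173897097) (nat_lit 0) (nat_lit 3671750690720) (nat_lit 1) (nat_lit 5) (nat_lit 3) (nat_lit 4) (nat_lit 1) (nat_lit 4) (nat_lit 264) (nat_lit 189) (nat_lit 147)) (XT.lf (nat_lit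 0) (nat_lit 4225696349918) (nat_lit 152) (nat_lit 2787373115650) (nat_lit 0) (nat_lit 4223904747131) (nat_lit 1) (nat_lit 5) (nat_lit 3) (nat_lit 4) (nat_lit 1) (nat_lit 4) (nat_lit 265) (nat_lit 189) (nat_lit 146))) (XT.nd (nat_lit 78) (nat_lit 0) (nat_lit 0) (XT.lf (nat_lit 0) (nat_lit 4860673321491) (nat_lit 152) (nat_lit 3202754084238) (nat_lit 0) (nat_lit 4858881143667) (nat_lit 1) (nat_lit 5) (nat_lit 3) (nat_lit 4) (nat_lit 1) (nat_lit 4) (nat_lit 266) (nat_lit 189) (nat_lit 145)) (XT.lf (nat_lit 0) (nat_lit 5590896009421) (nat_lit 152) (nat_lit 3680443821810) (nat_lit 0) (nat_lit 5589103331565) (nat_lit 1) (nat_lit 5) (nat_lit 3) (nat_lit 4) (nat_lit 1) (nat_lit 4) (nat_lit 267) (nat_lit 189) (nat_lit 144)))) (XT.nd (nat_lit 156) (nat_lit 0) (nat_lit 0) (XT.nd (nat_lit 78) (nat_lit 0) (nat_lit 0) (XT.lf (nat_lit 0) (nat_lit 6430651379341) (nat_lit 152) (nat_lit 4229788431926)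 (nat_lit 0) (nat_lit 6428858266676) (nat_lit 1) (nat_lit 5) (nat_lit 3) (nat_lit 4) (nat_lit 1) (nat_lit 4) (nat_lit 268) (nat_lit 189) (nat_lit 143)) (XT.lf (nat_lit 0) (nat_lit 7396369427620) (nat_lit 152) (nat_lit 4861535961308) (nat_lit 0) (nat_lit 7394575936859) (nat_lit 1) (nat_lit 5) (nat_lit 3) (nat_lit 4) (nat_lit 1) (nat_lit 4) (nat_lit 269) (nat_lit 189) (nat_lit 142))) (XT.nd (nat_lit 78) (nat_lit 0) (nat_lit 0) (XT.lf (nat_lit 0) (nat_lit 8506944637811) (nat_lit 152) (nat_lit 5588046687704) (nat_lit 0) (nat_lit 8505150818270) (nat_lit 1) (nat_lit 5) (nat_lit 3) (nat_lit 4) (nat_lit 1) (nat_lit 4) (nat_lit 270) (nat_lit 189) (nat_lit 141)) (XT.lf (nat_lit 0) (nat_lit 9784105655330) (nat_lit 152) (nat_lit 6423534951412) (nat_lit 0) (nat_lit 9782311549895) (nat_lit 1) (nat_lit 5) (nat_lit 3) (nat_lit 4) (nat_lit 1) (nat_lit 4) (nat_lit 271) (nat_lit 189) (nat_lit 140))))))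 (XT.nd (nat_lit 27222) (nat_lit 0) (nat_lit 0) (XT.nd (nat_lit 702) (nat_lit 0) (nat_lit 0) (XT.nd (nat_lit 156) (nat_lit 0) (nat_lit 0) (XT.nd (nat_lit 78) (nat_lit 0) (nat_lit 0) (XT.lf (nat_lit 0) (nat_lit 11252840413129) (nat_lit 152) (nat_lit 7384347261941) (nat_lit 0) (nat_lit 11251046059090) (nat_lit 1) (nat_lit 5) (nat_lit 3) (nat_lit 4) (nat_lit 1) (nat_lit 4) (nat_lit 272) (nat_lit 189) (nat_lit 139)) (XT.lf (nat_lit 0) (nat_lit 12941885026035) (nat_lit 152) (nat_lit 8489282121017) (nat_lit 0) (nat_lit 12940090455819) (nat_lit 1) (nat_lit 5) (nat_lit 3) (nat_lit 4) (nat_lit 1) (nat_lit 4) (nat_lit 273) (nat_lit 189) (nat_lit 138))) (XT.nd (nat_lit 468) (nat_lit 0) (nat_lit 0) (XT.lf (nat_lit 0) (nat_lit 14884286019083) (nat_lit 152) (nat_lit 9759957819363) (nat_lit 0) (nat_lit 14882491260886) (nat_lit 1) (nat_lit 5) (nat_lit 3) (nat_lit 4) (nat_lit 1) (nat_lit 4) (nat_lit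 274) (nat_lit 189) (nat_lit 137)) (XT.lf (nat_lit 0) (nat_lit 34438040714276) (nat_lit 152) (nat_lit 22551606817665) (nat_lit 0) (nat_lit 34436245244670) (nat_lit 1) (nat_lit 5) (nat_lit 3) (nat_lit 4) (nat_lit 1) (nat_lit 4) (nat_lit 280) (nat_lit 189) (nat_lit 131)))) (XT.nd (nat_lit 156) (nat_lit 0) (nat_lit 0) (XT.nd (nat_lit 78) (nat_lit 0) (nat_lit 0) (XT.lf (nat_lit 0) (nat_lit 39604863763365) (nat_lit 152) (nat_lit 25931633760059) (nat_lit 0) (nat_lit 39603068223090) (nat_lit 1) (nat_lit 5) (nat_lit 3) (nat_lit 4) (nat_lit 1) (nat_lit 4) (nat_lit 281) (nat_lit 189) (nat_lit 130)) (XT.lf (nat_lit 0) (nat_lit 45546710167891) (nat_lit 152) (nat_lit 29818664943356) (nat_lit 0) (nat_lit 45544914566165) (nat_lit 1) (nat_lit 5) (nat_lit 3) (nat_lit 4) (nat_lit 1) (nat_lit 4) (nat_lit 282) (nat_lit 189) (nat_lit 129))) (XT.nd (nat_lit 78) (nat_lit 0) (nat_lit 0) (XT.lf (nat_lit 0)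 (nat_lit 52379833444465) (nat_lit 152) (nat_lit 34288750977662) (nat_lit 0) (nat_lit 52378037789303) (nat_lit 1) (nat_lit 5) (nat_lit 3) (nat_lit 4) (nat_lit 1) (nat_lit 4) (nat_lit 283) (nat_lit 189) (nat_lit 128)) (XT.lf (nat_lit 0) (nat_lit 60237925135454) (nat_lit 152) (nat_lit 39429350067998) (nat_lit 0) (nat_lit 60236129433826) (nat_lit 1) (nat_lit 5) (nat_lit 3) (nat_lit 4) (nat_lit 1) (nat_lit 4) (nat_lit 284) (nat_lit 189) (nat_lit 127))))) (XT.nd (nat_lit 312) (nat_lit 152) (nat_lit 0) (XT.nd (nat_lit 156) (nat_lit 0) (nat_lit 0) (XT.nd (nat_lit 78) (nat_lit 0) (nat_lit 0) (XT.lf (nat_lit 0) (nat_lit 1090969771) (nat_lit 76) (nat_lit 5404054863) (nat_lit 76) (nat_lit 5404054863) (nat_lit 3) (nat_lit 4) (nat_lit 4) (nat_lit 5) (nat_lit 4) (nat_lit 4) (nat_lit 220) (nat_lit 190) (nat_lit 190)) (XT.lf (nat_lit 0) (nat_lit 9799161246) (nat_lit 76) (nat_lit 8644018857) (nat_lit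 76) (nat_lit 8334206890) (nat_lit 3) (nat_lit 4) (nat_lit 4) (nat_lit 5) (nat_lit 4) (nat_lit 4) (nat_lit 221) (nat_lit 190) (nat_lit 189))) (XT.nd (nat_lit 78) (nat_lit 0) (nat_lit 0) (XT.lf (nat_lit 0) (nat_lit 17939466160) (nat_lit 76) (nat_lit 6446713592) (nat_lit 76) (nat_lit 5867499915) (nat_lit 3) (nat_lit 4) (nat_lit 4) (nat_lit 5) (nat_lit 4) (nat_lit 4) (nat_lit 222) (nat_lit 190) (nat_lit 188)) (XT.lf (nat_lit 0) (nat_lit 26762121118) (nat_lit 76) (nat_lit 4173203178) (nat_lit 76) (nat_lit 3359727144) (nat_lit 3) (nat_lit 4) (nat_lit 4) (nat_lit 5) (nat_lit 4) (nat_lit 4) (nat_lit 223) (nat_lit 190) (nat_lit 187)))) (XT.nd (nat_lit 156) (nat_lit 0) (nat_lit 0) (XT.nd (nat_lit 78) (nat_lit 152) (nat_lit 0) (XT.lf (nat_lit 0) (nat_lit 36439743284) (nat_lit 76) (nat_lit 1779005888) (nat_lit 76) (nat_lit 761823458) (nat_lit 3) (nat_lit 4) (nat_lit 4) (nat_lit 5) (nat_lit 4)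 (nat_lit 4) (nat_lit 224) (nat_lit 190) (nat_lit 186)) (XT.lf (nat_lit 0) (nat_lit 1964857956) (nat_lit 152) (nat_lit 41473884376) (nat_lit 0) (nat_lit 926320193) (nat_lit 1) (nat_lit 5) (nat_lit 3) (nat_lit 4) (nat_lit 1) (nat_lit 4) (nat_lit 225) (nat_lit 190) (nat_lit 185))) (XT.nd (nat_lit 78) (nat_lit 0) (nat_lit 0) (XT.lf (nat_lit 0) (nat_lit 5024240243) (nat_lit 152) (nat_lit 41676007572) (nat_lit 0) (nat_lit 3851762217) (nat_lit 1) (nat_lit 5) (nat_lit 3) (nat_lit 4) (nat_lit 1) (nat_lit 4) (nat_lit 226) (nat_lit 190) (nat_lit 184)) (XT.lf (nat_lit 0) (nat_lit 8349346959) (nat_lit 152) (nat_lit 42286648352) (nat_lit 0) (nat_lit 7060399139) (nat_lit 1) (nat_lit 5) (nat_lit 3) (nat_lit 4) (nat_lit 1) (nat_lit 4) (nat_lit 227) (nat_lit 190) (nat_lit 183)))))))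
noncomputable def xc22 : XT := (XT.nd (nat_lit 1248) (nat_lit 0) (nat_lit 0) (XT.nd (nat_lit 624) (nat_lit 0) (nat_lit 0) (XT.nd (nat_lit 312) (nat_lit 0) (nat_lit 0) (XT.nd (nat_lit 156) (nat_lit 0) (nat_lit 0) (XT.nd (nat_lit 78) (nat_lit 0) (nat_lit 0) (XT.lf (nat_lit 0) (nat_lit 12005234540) (nat_lit 152) (nat_lit 43317754036) (nat_lit 0) (nat_lit 10615008639) (nat_lit 1) (nat_lit 5) (nat_lit 3) (nat_lit 4) (nat_lit 1) (nat_lit 4) (nat_lit 228) (nat_lit 190) (nat_lit 182)) (XT.lf (nat_lit 0) (nat_lit 16063431222) (nat_lit 152) (nat_lit 44789498431) (nat_lit 0) (nat_lit 14585137425) (nat_lit 1) (nat_lit 5) (nat_lit 3) (nat_lit 4) (nat_lit 1) (nat_lit 4) (nat_lit 229) (nat_lit 190) (nat_lit 181))) (XT.nd (nat_lit 78) (nat_lit 0) (nat_lit 0) (XT.lf (nat_lit 0) (nat_lit 20603336506) (nat_lit 152) (nat_lit 46730676537) (nat_lit 0) (nat_lit 19048461928) (nat_lit 1) (nat_lit 5) (nat_lit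 3) (nat_lit 4) (nat_lit 1) (nat_lit 4) (nat_lit 230) (nat_lit 190) (nat_lit 180)) (XT.lf (nat_lit 0) (nat_lit 25713774624) (nat_lit 152) (nat_lit 49179267924) (nat_lit 0) (nat_lit 24092308064) (nat_lit 1) (nat_lit 5) (nat_lit 3) (nat_lit 4) (nat_lit 1) (nat_lit 4) (nat_lit 231) (nat_lit 190) (nat_lit 179)))) (XT.nd (nat_lit 156) (nat_lit 0) (nat_lit 0) (XT.nd (nat_lit 78) (nat_lit 0) (nat_lit 0) (XT.lf (nat_lit 0) (nat_lit 31494732410) (nat_lit 152) (nat_lit 52183179815) (nat_lit 0) (nat_lit 29815359778) (nat_lit 1) (nat_lit 5) (nat_lit 3) (nat_lit 4) (nat_lit 1) (nat_lit 4) (nat_lit 232) (nat_lit 190) (nat_lit 178)) (XT.lf (nat_lit 0) (nat_lit 38059315559) (nat_lit 152) (nat_lit 55801184401) (nat_lit 0) (nat_lit 36329589821) (nat_lit 1) (nat_lit 5) (nat_lit 3) (nat_lit 4) (nat_lit 1) (nat_lit 4) (nat_lit 233) (nat_lit 190) (nat_lit 177))) (XT.nd (nat_lit 78) (nat_lit 0) (nat_lit 0)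 (XT.lf (nat_lit 0) (nat_lit 45535961568) (nat_lit 152) (nat_lit 60104068726) (nat_lit 0) (nat_lit 43762450521) (nat_lit 1) (nat_lit 5) (nat_lit 3) (nat_lit 4) (nat_lit 1) (nat_lit 4) (nat_lit 234) (nat_lit 190) (nat_lit 176)) (XT.lf (nat_lit 0) (nat_lit 54070952641) (nat_lit 152) (nat_lit 65176019658) (nat_lit 0) (nat_lit 52259367412) (nat_lit 1) (nat_lit 5) (nat_lit 3) (nat_lit 4) (nat_lit 1) (nat_lit 4) (nat_lit 235) (nat_lit 190) (nat_lit 175))))) (XT.nd (nat_lit 312) (nat_lit 0) (nat_lit 0) (XT.nd (nat_lit 156) (nat_lit 0) (nat_lit 0) (XT.nd (nat_lit 78) (nat_lit 0) (nat_lit 0) (XT.lf (nat_lit 0) (nat_lit 63831277734) (nat_lit 152) (nat_lit 71116271020) (nat_lit 0) (nat_lit 61986584521) (nat_lit 1) (nat_lit 5) (nat_lit 3) (nat_lit 4) (nat_lit 1) (nat_lit 4) (nat_lit 236) (nat_lit 190) (nat_lit 174)) (XT.lf (nat_lit 0) (nat_lit 75007899730) (nat_lit 152) (nat_lit 78041045120) (nat_lit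 0) (nat_lit 73134416965) (nat_lit 1) (nat_lit 5) (nat_lit 3) (nat_lit 4) (nat_lit 1) (nat_lit 4) (nat_lit 237) (nat_lit 190) (nat_lit 173))) (XT.nd (nat_lit 78) (nat_lit 0) (nat_lit 0) (XT.lf (nat_lit 0) (nat_lit 87819491667) (nat_lit 152) (nat_lit 86085826671) (nat_lit 0) (nat_lit 85920974509) (nat_lit 1) (nat_lit 5) (nat_lit 3) (nat_lit 4) (nat_lit 1) (nat_lit 4) (nat_lit 238) (nat_lit 190) (nat_lit 172)) (XT.lf (nat_lit 0) (nat_lit 102516715127) (nat_lit 152) (nat_lit 95408013571) (nat_lit 0) (nat_lit 100596428932) (nat_lit 1) (nat_lit 5) (nat_lit 3) (nat_lit 4) (nat_lit 1) (nat_lit 4) (nat_lit 239) (nat_lit 190) (nat_lit 171)))) (XT.nd (nat_lit 156) (nat_lit 0) (nat_lit 0) (XT.nd (nat_lit 78) (nat_lit 0) (nat_lit 0) (XT.lf (nat_lit 0) (nat_lit 119387124482) (nat_lit 152) (nat_lit 106189996434) (nat_lit 0) (nat_lit 117447908689) (nat_lit 1) (nat_lit 5) (nat_lit 3) (nat_lit 4) (nat_lit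 1) (nat_lit 4) (nat_lit 240) (nat_lit 190) (nat_lit 170)) (XT.lf (nat_lit 0) (nat_lit 138760792958) (nat_lit 152) (nat_lit 118642727098) (nat_lit 0) (nat_lit 136805116646) (nat_lit 1) (nat_lit 5) (nat_lit 3) (nat_lit 4) (nat_lit 1) (nat_lit 4) (nat_lit 241) (nat_lit 190) (nat_lit 169))) (XT.nd (nat_lit 78) (nat_lit 0) (nat_lit 0) (XT.lf (nat_lit 0) (nat_lit 161016770591) (nat_lit 152) (nat_lit 133009845946) (nat_lit 0) (nat_lit 159046780783) (nat_lit 1) (nat_lit 5) (nat_lit 3) (nat_lit 4) (nat_lit 1) (nat_lit 4) (nat_lit 242) (nat_lit 190) (nat_lit 168)) (XT.lf (nat_lit 0) (nat_lit 186590500421) (nat_lit 152) (nat_lit 149572448781) (nat_lit 0) (nat_lit 184608064096) (nat_lit 1) (nat_lit 5) (nat_lit 3) (nat_lit 4) (nat_lit 1) (nat_lit 4) (nat_lit 243) (nat_lit 190) (nat_lit 167)))))) (XT.nd (nat_lit 624) (nat_lit 0) (nat_lit 0) (XT.nd (nat_lit 312) (nat_lit 0) (nat_lit 0) (XT.nd (nat_lit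 156) (nat_lit 0) (nat_lit 0) (XT.nd (nat_lit 78) (nat_lit 0) (nat_lit 0) (XT.lf (nat_lit 0) (nat_lit 215982338032) (nat_lit 152) (nat_lit 168654586529) (nat_lit 0) (nat_lit 213989078648) (nat_lit 1) (nat_lit 5) (nat_lit 3) (nat_lit 4) (nat_lit 1) (nat_lit 4) (nat_lit 244) (nat_lit 190) (nat_lit 166)) (XT.lf (nat_lit 0) (nat_lit 249767341117) (nat_lit 152) (nat_lit 190629605363) (nat_lit 0) (nat_lit 247764670377) (nat_lit 1) (nat_lit 5) (nat_lit 3) (nat_lit 4) (nat_lit 1) (nat_lit 4) (nat_lit 245) (nat_lit 190) (nat_lit 165))) (XT.nd (nat_lit 78) (nat_lit 0) (nat_lit 0) (XT.lf (nat_lit 0) (nat_lit 288606520605) (nat_lit 152) (nat_lit 215927451304) (nat_lit 0) (nat_lit 286595666078) (nat_lit 1) (nat_lit 5) (nat_lit 3) (nat_lit 4) (nat_lit 1) (nat_lit 4) (nat_lit 246) (nat_lit 190) (nat_lit 164)) (XT.lf (nat_lit 0) (nat_lit 333259773486) (nat_lit 152) (nat_lit 245043082206) (nat_lit 0)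 (nat_lit 331241802622) (nat_lit 1) (nat_lit 5) (nat_lit 3) (nat_lit 4) (nat_lit 1) (nat_lit 4) (nat_lit 247) (nat_lit 190) (nat_lit 163)))) (XT.nd (nat_lit 156) (nat_lit 0) (nat_lit 0) (XT.nd (nat_lit 78) (nat_lit 0) (nat_lit 0) (XT.lf (nat_lit 0) (nat_lit 384600750361) (nat_lit 152) (nat_lit 278546151719) (nat_lit 0) (nat_lit 382576591377) (nat_lit 1) (nat_lit 5) (nat_lit 3) (nat_lit 4) (nat_lit 1) (nat_lit 4) (nat_lit 248) (nat_lit 190) (nat_lit 162)) (XT.lf (nat_lit 0) (nat_lit 443633948602) (nat_lit 152) (nat_lit 317092154680) (nat_lit 0) (nat_lit 441604408646) (nat_lit 1) (nat_lit 5) (nat_lit 3) (nat_lit 4) (nat_lit 1) (nat_lit 4) (nat_lit 249) (nat_lit 190) (nat_lit 161))) (XT.nd (nat_lit 78) (nat_lit 0) (nat_lit 0) (XT.lf (nat_lit 0) (nat_lit 511514365567) (nat_lit 152) (nat_lit 361435252016) (nat_lit 0) (nat_lit 509480146503) (nat_lit 1) (nat_lit 5) (nat_lit 3) (nat_lit 4)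 (nat_lit 1) (nat_lit 4) (nat_lit 250) (nat_lit 190) (nat_lit 160)) (XT.lf (nat_lit 0) (nat_lit 589570096370) (nat_lit 152) (nat_lit 412443026068) (nat_lit 0) (nat_lit 587531808518) (nat_lit 1) (nat_lit 5) (nat_lit 3) (nat_lit 4) (nat_lit 1) (nat_lit 4) (nat_lit 251) (nat_lit 190) (nat_lit 159))))) (XT.nd (nat_lit 312) (nat_lit 0) (nat_lit 0) (XT.nd (nat_lit 156) (nat_lit 0) (nat_lit 0) (XT.nd (nat_lit 78) (nat_lit 0) (nat_lit 0) (XT.lf (nat_lit 0) (nat_lit 679328318353) (nat_lit 152) (nat_lit 471113455022) (nat_lit 0) (nat_lit 677286492424) (nat_lit 1) (nat_lit 5) (nat_lit 3) (nat_lit 4) (nat_lit 1) (nat_lit 4) (nat_lit 252) (nat_lit 190) (nat_lit 158)) (XT.lf (nat_lit 0) (nat_lit 782545170642) (nat_lit 152) (nat_lit 538594438576) (nat_lit 0) (nat_lit 780500268124) (nat_lit 1) (nat_lit 5) (nat_lit 3) (nat_lit 4) (nat_lit 1) (nat_lit 4) (nat_lit 253) (nat_lit 190) (nat_lit 157))) (XT.nd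 (nat_lit 78) (nat_lit 0) (nat_lit 0) (XT.lf (nat_lit 0) (nat_lit 901240113390) (nat_lit 152) (nat_lit 616206256843) (nat_lit 0) (nat_lit 899192535577) (nat_lit 1) (nat_lit 5) (nat_lit 3) (nat_lit 4) (nat_lit 1) (nat_lit 4) (nat_lit 254) (nat_lit 190) (nat_lit 156)) (XT.lf (nat_lit 0) (nat_lit 1037735438956) (nat_lit 152) (nat_lit 705467401920) (nat_lit 0) (nat_lit 1035685534800) (nat_lit 1) (nat_lit 5) (nat_lit 3) (nat_lit 4) (nat_lit 1) (nat_lit 4) (nat_lit 255) (nat_lit 190) (nat_lit 155)))) (XT.nd (nat_lit 156) (nat_lit 0) (nat_lit 0) (XT.nd (nat_lit 78) (nat_lit 0) (nat_lit 0) (XT.lf (nat_lit 0) (nat_lit 1194701708056) (nat_lit 152) (nat_lit 808124287514) (nat_lit 0) (nat_lit 1192649780993) (nat_lit 1) (nat_lit 5) (nat_lit 3) (nat_lit 4) (nat_lit 1) (nat_lit 4) (nat_lit 256) (nat_lit 190) (nat_lit 154)) (XT.lf (nat_lit 0) (nat_lit 1375209999869) (nat_lit 152) (nat_lit 926185417909)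 (nat_lit 0) (nat_lit 1373156313757) (nat_lit 1) (nat_lit 5) (nat_lit 3) (nat_lit 4) (nat_lit 1) (nat_lit 4) (nat_lit 257) (nat_lit 190) (nat_lit 153))) (XT.nd (nat_lit 78) (nat_lit 0) (nat_lit 0) (XT.lf (nat_lit 0) (nat_lit 1582791998366) (nat_lit 152) (nat_lit 1061960684786) (nat_lit 0) (nat_lit 1580736782645) (nat_lit 1) (nat_lit 5) (nat_lit 3) (nat_lit 4) (nat_lit 1) (nat_lit 4) (nat_lit 258) (nat_lit 190) (nat_lit 152)) (XT.nd (nat_lit 78) (nat_lit 0) (nat_lit 0) (XT.lf (nat_lit 0) (nat_lit 1821509090473) (nat_lit 152) (nat_lit 1218106560759) (nat_lit 0) (nat_lit 1819452544658) (nat_lit 1) (nat_lit 5) (nat_lit 3) (nat_lit 4) (nat_lit 1) (nat_lit 4) (nat_lit 259) (nat_lit 190) (nat_lit 151)) (XT.lf (nat_lit 0) (nat_lit 2096031827993) (nat_lit 152) (nat_lit 1397678073834) (nat_lit 0) (nat_lit 2093974125574) (nat_lit 1) (nat_lit 5) (nat_lit 3) (nat_lit 4) (nat_lit 1) (nat_lit 4) (nat_lit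 260) (nat_lit 190) (nat_lit 150))))))))
noncomputable def xc23 : XT := (XT.nd (nat_lit 1482) (nat_lit 0) (nat_lit 0) (XT.nd (nat_lit 624) (nat_lit 0) (nat_lit 0) (XT.nd (nat_lit 312) (nat_lit 0) (nat_lit 0) (XT.nd (nat_lit 156) (nat_lit 0) (nat_lit 0) (XT.nd (nat_lit 78) (nat_lit 0) (nat_lit 0) (XT.lf (nat_lit 0) (nat_lit 2411731307963) (nat_lit 152) (nat_lit 1604188579704) (nat_lit 0) (nat_lit 2409672599802) (nat_lit 1) (nat_lit 5) (nat_lit 3) (nat_lit 4) (nat_lit 1) (nat_lit 4) (nat_lit 261) (nat_lit 190) (nat_lit 149)) (XT.lf (nat_lit 0) (nat_lit 2774784259341) (nat_lit 152) (nat_lit 1841678501309) (nat_lit 0) (nat_lit 2772724676621) (nat_lit 1) (nat_lit 5) (nat_lit 3) (nat_lit 4) (nat_lit 1) (nat_lit 4) (nat_lit 262) (nat_lit 190) (nat_lit 148))) (XT.nd (nat_lit 78) (nat_lit 0) (nat_lit 0) (XT.lf (nat_lit 0) (nat_lit 3192293892043) (nat_lit 152) (nat_lit 2114794380593) (nat_lit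 0) (nat_lit 3190233548837) (nat_lit 1) (nat_lit 5) (nat_lit 3) (nat_lit 4) (nat_lit 1) (nat_lit 4) (nat_lit 263) (nat_lit 190) (nat_lit 147)) (XT.lf (nat_lit 0) (nat_lit 3672428872797) (nat_lit 152) (nat_lit 2428879789108) (nat_lit 0) (nat_lit 3670367868300) (nat_lit 1) (nat_lit 5) (nat_lit 3) (nat_lit 4) (nat_lit 1) (nat_lit 4) (nat_lit 264) (nat_lit 190) (nat_lit 146)))) (XT.nd (nat_lit 156) (nat_lit 0) (nat_lit 0) (XT.nd (nat_lit 78) (nat_lit 0) (nat_lit 0) (XT.lf (nat_lit 0) (nat_lit 4224583146879) (nat_lit 152) (nat_lit 2790079876151) (nat_lit 0) (nat_lit 4222521567345) (nat_lit 1) (nat_lit 5) (nat_lit 3) (nat_lit 4) (nat_lit 1) (nat_lit 4) (nat_lit 265) (nat_lit 190) (nat_lit 145)) (XT.lf (nat_lit 0) (nat_lit 4859559732694) (nat_lit 152) (nat_lit 3205461599946) (nat_lit 0) (nat_lit 4857497653129) (nat_lit 1) (nat_lit 5) (nat_lit 3) (nat_lit 4) (nat_lit 1) (nat_lit 4) (nat_lit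 266) (nat_lit 190) (nat_lit 144))) (XT.nd (nat_lit 78) (nat_lit 0) (nat_lit 0) (XT.lf (nat_lit 0) (nat_lit 5589782085183) (nat_lit 152) (nat_lit 3683151994219) (nat_lit 0) (nat_lit 5587719570807) (nat_lit 1) (nat_lit 5) (nat_lit 3) (nat_lit 4) (nat_lit 1) (nat_lit 4) (nat_lit 267) (nat_lit 190) (nat_lit 143)) (XT.lf (nat_lit 0) (nat_lit 6429537163415) (nat_lit 152) (nat_lit 4232497175382) (nat_lit 0) (nat_lit 6427474270943) (nat_lit 1) (nat_lit 5) (nat_lit 3) (nat_lit 4) (nat_lit 1) (nat_lit 4) (nat_lit 268) (nat_lit 190) (nat_lit 142))))) (XT.nd (nat_lit 312) (nat_lit 0) (nat_lit 0) (XT.nd (nat_lit 156) (nat_lit 0) (nat_lit 0) (XT.nd (nat_lit 78) (nat_lit 0) (nat_lit 0) (XT.lf (nat_lit 0) (nat_lit 7395254958052) (nat_lit 152) (nat_lit 4864245201325) (nat_lit 0) (nat_lit 7393191736801) (nat_lit 1) (nat_lit 5) (nat_lit 3) (nat_lit 4) (nat_lit 1) (nat_lit 4) (nat_lit 269) (nat_lit 190)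 (nat_lit 141)) (XT.lf (nat_lit 0) (nat_lit 8505829947684) (nat_lit 152) (nat_lit 5590756359513) (nat_lit 0) (nat_lit 8503766440539) (nat_lit 1) (nat_lit 5) (nat_lit 3) (nat_lit 4) (nat_lit 1) (nat_lit 4) (nat_lit 270) (nat_lit 190) (nat_lit 140))) (XT.nd (nat_lit 78) (nat_lit 0) (nat_lit 0) (XT.lf (nat_lit 0) (nat_lit 9782990773414) (nat_lit 152) (nat_lit 6426244998693) (nat_lit 0) (nat_lit 9780927017665) (nat_lit 1) (nat_lit 5) (nat_lit 3) (nat_lit 4) (nat_lit 1) (nat_lit 4) (nat_lit 271) (nat_lit 190) (nat_lit 139)) (XT.lf (nat_lit 0) (nat_lit 11251725364440) (nat_lit 152) (nat_lit 7387057635718) (nat_lit 0) (nat_lit 11249661392513) (nat_lit 1) (nat_lit 5) (nat_lit 3) (nat_lit 4) (nat_lit 1) (nat_lit 4) (nat_lit 272) (nat_lit 190) (nat_lit 138)))) (XT.nd (nat_lit 156) (nat_lit 0) (nat_lit 0) (XT.nd (nat_lit 78) (nat_lit 0) (nat_lit 0) (XT.lf (nat_lit 0) (nat_lit 12940769832325) (nat_lit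 152) (nat_lit 8491992778705) (nat_lit 0) (nat_lit 12938705672418) (nat_lit 1) (nat_lit 5) (nat_lit 3) (nat_lit 4) (nat_lit 1) (nat_lit 4) (nat_lit 273) (nat_lit 190) (nat_lit 137)) (XT.lf (nat_lit 0) (nat_lit 14883170699268) (nat_lit 152) (nat_lit 9762668723929) (nat_lit 0) (nat_lit 14881106375899) (nat_lit 1) (nat_lit 5) (nat_lit 3) (nat_lit 4) (nat_lit 1) (nat_lit 4) (nat_lit 274) (nat_lit 190) (nat_lit 136))) (XT.nd (nat_lit 78) (nat_lit 0) (nat_lit 0) (XT.lf (nat_lit 0) (nat_lit 17116931460491) (nat_lit 152) (nat_lit 11223946522493) (nat_lit 0) (nat_lit 17114866994982) (nat_lit 1) (nat_lit 5) (nat_lit 3) (nat_lit 4) (nat_lit 1) (nat_lit 4) (nat_lit 275) (nat_lit 190) (nat_lit 135)) (XT.lf (nat_lit 0) (nat_lit 19685756130887) (nat_lit 152) (nat_lit 12904416392193) (nat_lit 0) (nat_lit 19683691541778) (nat_lit 1) (nat_lit 5) (nat_lit 3) (nat_lit 4) (nat_lit 1) (nat_lit 4) (nat_lit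 276) (nat_lit 190) (nat_lit 134)))))) (XT.nd (nat_lit 26754) (nat_lit 0) (nat_lit 0) (XT.nd (nat_lit 26442) (nat_lit 0) (nat_lit 152) (XT.nd (nat_lit 156) (nat_lit 0) (nat_lit 0) (XT.nd (nat_lit 78) (nat_lit 0) (nat_lit 0) (XT.lf (nat_lit 0) (nat_lit 34436924917219) (nat_lit 152) (nat_lit 22554318656540) (nat_lit 0) (nat_lit 34434859975235) (nat_lit 1) (nat_lit 5) (nat_lit 3) (nat_lit 4) (nat_lit 1) (nat_lit 4) (nat_lit 280) (nat_lit 190) (nat_lit 130)) (XT.lf (nat_lit 0) (nat_lit 39603747918901) (nat_lit 152) (nat_lit 25934345691745) (nat_lit 0) (nat_lit 39601682915465) (nat_lit 1) (nat_lit 5) (nat_lit 3) (nat_lit 4) (nat_lit 1) (nat_lit 4) (nat_lit 281) (nat_lit 190) (nat_lit 129))) (XT.nd (nat_lit 78) (nat_lit 0) (nat_lit 0) (XT.lf (nat_lit 0) (nat_lit 45545594282203) (nat_lit 152) (nat_lit 29821376955746) (nat_lit 0) (nat_lit 45543529225331) (nat_lit 1) (nat_lit 5) (nat_lit 3)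 (nat_lit 4) (nat_lit 1) (nat_lit 4) (nat_lit 282) (nat_lit 190) (nat_lit 128)) (XT.lf (nat_lit 0) (nat_lit 52378717522930) (nat_lit 152) (nat_lit 34291463060231) (nat_lit 0) (nat_lit 52376652419592) (nat_lit 1) (nat_lit 5) (nat_lit 3) (nat_lit 4) (nat_lit 1) (nat_lit 4) (nat_lit 283) (nat_lit 190) (nat_lit 127)))) (XT.nd (nat_lit 156) (nat_lit 76) (nat_lit 0) (XT.nd (nat_lit 78) (nat_lit 0) (nat_lit 0) (XT.lf (nat_lit 0) (nat_lit 2088163795) (nat_lit 152) (nat_lit 5325093935) (nat_lit 0) (nat_lit 2088163795) (nat_lit 4) (nat_lit 5) (nat_lit 6) (nat_lit 4) (nat_lit 4) (nat_lit 4) (nat_lit 218) (nat_lit 191) (nat_lit 191)) (XT.lf (nat_lit 0) (nat_lit 8485954128) (nat_lit 152) (nat_lit 4610645718) (nat_lit 0) (nat_lit 8129670366) (nat_lit 4) (nat_lit 5) (nat_lit 6) (nat_lit 4) (nat_lit 4) (nat_lit 4) (nat_lit 219) (nat_lit 191) (nat_lit 190))) (XT.nd (nat_lit 78) (nat_lit 0) (nat_lit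 0) (XT.lf (nat_lit 0) (nat_lit 1850579052) (nat_lit 76) (nat_lit 11320258196) (nat_lit 76) (nat_lit 10654162468) (nat_lit 3) (nat_lit 4) (nat_lit 4) (nat_lit 5) (nat_lit 4) (nat_lit 4) (nat_lit 220) (nat_lit 191) (nat_lit 189)) (XT.lf (nat_lit 0) (nat_lit 9179661200) (nat_lit 76) (nat_lit 9291701854) (nat_lit 76) (nat_lit 8356204416) (nat_lit 3) (nat_lit 4) (nat_lit 4) (nat_lit 5) (nat_lit 4) (nat_lit 4) (nat_lit 221) (nat_lit 191) (nat_lit 188))))) (XT.nd (nat_lit 312) (nat_lit 0) (nat_lit 0) (XT.nd (nat_lit 156) (nat_lit 152) (nat_lit 0) (XT.nd (nat_lit 78) (nat_lit 0) (nat_lit 0) (XT.lf (nat_lit 0) (nat_lit 17069409978) (nat_lit 76) (nat_lit 7212252701) (nat_lit 76) (nat_lit 6042492907) (nat_lit 3) (nat_lit 4) (nat_lit 4) (nat_lit 5) (nat_lit 4) (nat_lit 4) (nat_lit 222) (nat_lit 191) (nat_lit 187)) (XT.lf (nat_lit 0) (nat_lit 25674190036) (nat_lit 76) (nat_lit 5041225862) (nat_lit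 76) (nat_lit 3667759670) (nat_lit 3) (nat_lit 4) (nat_lit 4) (nat_lit 5) (nat_lit 4) (nat_lit 4) (nat_lit 223) (nat_lit 191) (nat_lit 186))) (XT.nd (nat_lit 78) (nat_lit 152) (nat_lit 0) (XT.lf (nat_lit 0) (nat_lit 35162355766) (nat_lit 76) (nat_lit 2736144725) (nat_lit 76) (nat_lit 1185542536) (nat_lit 3) (nat_lit 4) (nat_lit 4) (nat_lit 5) (nat_lit 4) (nat_lit 4) (nat_lit 224) (nat_lit 191) (nat_lit 185)) (XT.lf (nat_lit 0) (nat_lit 1252133098) (nat_lit 76) (nat_lit 123107175) (nat_lit 152) (nat_lit 43126690829) (nat_lit 1) (nat_lit 5) (nat_lit 2) (nat_lit 5) (nat_lit 3) (nat_lit 4) (nat_lit 225) (nat_lit 191) (nat_lit 184)))) (XT.nd (nat_lit 156) (nat_lit 0) (nat_lit 0) (XT.nd (nat_lit 78) (nat_lit 0) (nat_lit 0) (XT.lf (nat_lit 0) (nat_lit 4339672437) (nat_lit 152) (nat_lit 43622730156) (nat_lit 0) (nat_lit 2740912651) (nat_lit 1) (nat_lit 5) (nat_lit 3) (nat_lit 4) (nat_lit 1)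 (nat_lit 4) (nat_lit 226) (nat_lit 191) (nat_lit 183)) (XT.lf (nat_lit 0) (nat_lit 7586646529) (nat_lit 152) (nat_lit 44386333162) (nat_lit 0) (nat_lit 5886608661) (nat_lit 1) (nat_lit 5) (nat_lit 3) (nat_lit 4) (nat_lit 1) (nat_lit 4) (nat_lit 227) (nat_lit 191) (nat_lit 182))) (XT.nd (nat_lit 78) (nat_lit 0) (nat_lit 0) (XT.lf (nat_lit 0) (nat_lit 11174592698) (nat_lit 152) (nat_lit 45550449479) (nat_lit 0) (nat_lit 9386486934) (nat_lit 1) (nat_lit 5) (nat_lit 3) (nat_lit 4) (nat_lit 1) (nat_lit 4) (nat_lit 228) (nat_lit 191) (nat_lit 181)) (XT.lf (nat_lit 0) (nat_lit 15173709891) (nat_lit 152) (nat_lit 47137855293) (nat_lit 0) (nat_lit 13309023347) (nat_lit 1) (nat_lit 5) (nat_lit 3) (nat_lit 4) (nat_lit 1) (nat_lit 4) (nat_lit 229) (nat_lit 191) (nat_lit 180)))))))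
noncomputable def xc24 : XT := (XT.nd (nat_lit 1248) (nat_lit 0) (nat_lit 0) (XT.nd (nat_lit 624) (nat_lit 0) (nat_lit 0) (XT.nd (nat_lit 312) (nat_lit 0) (nat_lit 0) (XT.nd (nat_lit 156) (nat_lit 0) (nat_lit 0) (XT.nd (nat_lit 78) (nat_lit 0) (nat_lit 0) (XT.lf (nat_lit 0) (nat_lit 19662241706) (nat_lit 152) (nat_lit 49179608545) (nat_lit 0) (nat_lit 17730963179) (nat_lit 1) (nat_lit 5) (nat_lit 3) (nat_lit 4) (nat_lit 1) (nat_lit 4) (nat_lit 230) (nat_lit 191) (nat_lit 179)) (XT.lf (nat_lit 0) (nat_lit 24728007242) (nat_lit 152) (nat_lit 51715656582) (nat_lit 0) (nat_lit 22738822644) (nat_lit 1) (nat_lit 5) (nat_lit 3) (nat_lit 4) (nat_lit 1) (nat_lit 4) (nat_lit 231) (nat_lit 191) (nat_lit 178))) (XT.nd (nat_lit 78) (nat_lit 0) (nat_lit 0) (XT.lf (nat_lit 0) (nat_lit 30470119305) (nat_lit 152) (nat_lit 54795617734) (nat_lit 0) (nat_lit 28430581601) (nat_lit 1) (nat_lit 5) (nat_lit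 3) (nat_lit 4) (nat_lit 1) (nat_lit 4) (nat_lit 232) (nat_lit 191) (nat_lit 177)) (XT.lf (nat_lit 0) (nat_lit 37000923565) (nat_lit 152) (nat_lit 58479752110) (nat_lit 0) (nat_lit 34917600551) (nat_lit 1) (nat_lit 5) (nat_lit 3) (nat_lit 4) (nat_lit 1) (nat_lit 4) (nat_lit 233) (nat_lit 191) (nat_lit 176)))) (XT.nd (nat_lit 156) (nat_lit 0) (nat_lit 0) (XT.nd (nat_lit 78) (nat_lit 0) (nat_lit 0) (XT.lf (nat_lit 0) (nat_lit 44448196626) (nat_lit 152) (nat_lit 62840140602) (nat_lit 0) (nat_lit 42326799431) (nat_lit 1) (nat_lit 5) (nat_lit 3) (nat_lit 4) (nat_lit 1) (nat_lit 4) (nat_lit 234) (nat_lit 191) (nat_lit 175)) (XT.lf (nat_lit 0) (nat_lit 52957646006) (nat_lit 152) (nat_lit 67962095158) (nat_lit 0) (nat_lit 50803140826) (nat_lit 1) (nat_lit 5) (nat_lit 3) (nat_lit 4) (nat_lit 1) (nat_lit 4) (nat_lit 235) (nat_lit 191) (nat_lit 174))) (XT.nd (nat_lit 78) (nat_lit 0) (nat_lit 0)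 (XT.lf (nat_lit 0) (nat_lit 62695760931) (nat_lit 152) (nat_lit 73945827931) (nat_lit 0) (nat_lit 60512466199) (nat_lit 1) (nat_lit 5) (nat_lit 3) (nat_lit 4) (nat_lit 1) (nat_lit 4) (nat_lit 236) (nat_lit 191) (nat_lit 173)) (XT.lf (nat_lit 0) (nat_lit 73853069737) (nat_lit 152) (nat_lit 80908411955) (nat_lit 0) (nat_lit 71644740613) (nat_lit 1) (nat_lit 5) (nat_lit 3) (nat_lit 4) (nat_lit 1) (nat_lit 4) (nat_lit 237) (nat_lit 191) (nat_lit 172))))) (XT.nd (nat_lit 312) (nat_lit 0) (nat_lit 0) (XT.nd (nat_lit 156) (nat_lit 0) (nat_lit 0) (XT.nd (nat_lit 78) (nat_lit 0) (nat_lit 0) (XT.lf (nat_lit 0) (nat_lit 86647867596) (nat_lit 152) (nat_lit 88986071699) (nat_lit 0) (nat_lit 84417769434) (nat_lit 1) (nat_lit 5) (nat_lit 3) (nat_lit 4) (nat_lit 1) (nat_lit 4) (nat_lit 238) (nat_lit 191) (nat_lit 171)) (XT.lf (nat_lit 0) (nat_lit 101330487510) (nat_lit 152) (nat_lit 98336848333) (nat_lit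 0) (nat_lit 99081459751) (nat_lit 1) (nat_lit 5) (nat_lit 3) (nat_lit 4) (nat_lit 1) (nat_lit 4) (nat_lit 239) (nat_lit 191) (nat_lit 170))) (XT.nd (nat_lit 78) (nat_lit 0) (nat_lit 0) (XT.lf (nat_lit 0) (nat_lit 118188198129) (nat_lit 152) (nat_lit 109143691834) (nat_lit 0) (nat_lit 115922709850) (nat_lit 1) (nat_lit 5) (nat_lit 3) (nat_lit 4) (nat_lit 1) (nat_lit 4) (nat_lit 240) (nat_lit 191) (nat_lit 169)) (XT.lf (nat_lit 0) (nat_lit 137550824226) (nat_lit 152) (nat_lit 121618040444) (nat_lit 0) (nat_lit 135271022452) (nat_lit 1) (nat_lit 5) (nat_lit 3) (nat_lit 4) (nat_lit 1) (nat_lit 4) (nat_lit 241) (nat_lit 191) (nat_lit 168)))) (XT.nd (nat_lit 156) (nat_lit 0) (nat_lit 0) (XT.nd (nat_lit 78) (nat_lit 0) (nat_lit 0) (XT.lf (nat_lit 0) (nat_lit 159797199791) (nat_lit 152) (nat_lit 136003957506) (nat_lit 0) (nat_lit 157504951498) (nat_lit 1) (nat_lit 5) (nat_lit 3) (nat_lit 4)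 (nat_lit 1) (nat_lit 4) (nat_lit 242) (nat_lit 191) (nat_lit 167)) (XT.lf (nat_lit 0) (nat_lit 185362579996) (nat_lit 152) (nat_lit 152582906615) (nat_lit 0) (nat_lit 183059508645) (nat_lit 1) (nat_lit 5) (nat_lit 3) (nat_lit 4) (nat_lit 1) (nat_lit 4) (nat_lit 243) (nat_lit 191) (nat_lit 166))) (XT.nd (nat_lit 78) (nat_lit 0) (nat_lit 0) (XT.lf (nat_lit 0) (nat_lit 214747157064) (nat_lit 152) (nat_lit 171679258514) (nat_lit 0) (nat_lit 212434674357) (nat_lit 1) (nat_lit 5) (nat_lit 3) (nat_lit 4) (nat_lit 1) (nat_lit 4) (nat_lit 244) (nat_lit 191) (nat_lit 165)) (XT.lf (nat_lit 0) (nat_lit 248525846632) (nat_lit 152) (nat_lit 193666637479) (nat_lit 0) (nat_lit 246205180139) (nat_lit 1) (nat_lit 5) (nat_lit 3) (nat_lit 4) (nat_lit 1) (nat_lit 4) (nat_lit 245) (nat_lit 191) (nat_lit 164)))))) (XT.nd (nat_lit 624) (nat_lit 0) (nat_lit 0) (XT.nd (nat_lit 312) (nat_lit 0) (nat_lit 0) (XT.nd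 (nat_lit 156) (nat_lit 0) (nat_lit 0) (XT.nd (nat_lit 78) (nat_lit 0) (nat_lit 0) (XT.lf (nat_lit 0) (nat_lit 287359536106) (nat_lit 152) (nat_lit 218975231359) (nat_lit 0) (nat_lit 285031753276) (nat_lit 1) (nat_lit 5) (nat_lit 3) (nat_lit 4) (nat_lit 1) (nat_lit 4) (nat_lit 246) (nat_lit 191) (nat_lit 163)) (XT.lf (nat_lit 0) (nat_lit 332008015063) (nat_lit 152) (nat_lit 248100208296) (nat_lit 0) (nat_lit 329674044113) (nat_lit 1) (nat_lit 5) (nat_lit 3) (nat_lit 4) (nat_lit 1) (nat_lit 4) (nat_lit 247) (nat_lit 191) (nat_lit 162))) (XT.nd (nat_lit 78) (nat_lit 0) (nat_lit 0) (XT.lf (nat_lit 0) (nat_lit 383344840698) (nat_lit 152) (nat_lit 281611404795) (nat_lit 0) (nat_lit 381005488775) (nat_lit 1) (nat_lit 5) (nat_lit 3) (nat_lit 4) (nat_lit 1) (nat_lit 4) (nat_lit 248) (nat_lit 191) (nat_lit 161)) (XT.lf (nat_lit 0) (nat_lit 442374429166) (nat_lit 152) (nat_lit 320164474701) (nat_lit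 0) (nat_lit 440030398136) (nat_lit 1) (nat_lit 5) (nat_lit 3) (nat_lit 4) (nat_lit 1) (nat_lit 4) (nat_lit 249) (nat_lit 191) (nat_lit 160)))) (XT.nd (nat_lit 156) (nat_lit 0) (nat_lit 0) (XT.nd (nat_lit 78) (nat_lit 0) (nat_lit 0) (XT.lf (nat_lit 0) (nat_lit 510251707197) (nat_lit 152) (nat_lit 364513717207) (nat_lit 0) (nat_lit 507903607379) (nat_lit 1) (nat_lit 5) (nat_lit 3) (nat_lit 4) (nat_lit 1) (nat_lit 4) (nat_lit 250) (nat_lit 191) (nat_lit 159)) (XT.lf (nat_lit 0) (nat_lit 588304708493) (nat_lit 152) (nat_lit 415526834884) (nat_lit 0) (nat_lit 585953070598) (nat_lit 1) (nat_lit 5) (nat_lit 3) (nat_lit 4) (nat_lit 1) (nat_lit 4) (nat_lit 251) (nat_lit 191) (nat_lit 158))) (XT.nd (nat_lit 78) (nat_lit 0) (nat_lit 0) (XT.lf (nat_lit 0) (nat_lit 678060556992) (nat_lit 152) (nat_lit 474201910470) (nat_lit 0) (nat_lit 675705842507) (nat_lit 1) (nat_lit 5) (nat_lit 3) (nat_lit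 4) (nat_lit 1) (nat_lit 4) (nat_lit 252) (nat_lit 191) (nat_lit 157)) (XT.lf (nat_lit 0) (nat_lit 781275345381) (nat_lit 152) (nat_lit 541686934573) (nat_lit 0) (nat_lit 778917955602) (nat_lit 1) (nat_lit 5) (nat_lit 3) (nat_lit 4) (nat_lit 1) (nat_lit 4) (nat_lit 253) (nat_lit 191) (nat_lit 156))))) (XT.nd (nat_lit 312) (nat_lit 0) (nat_lit 0) (XT.nd (nat_lit 156) (nat_lit 0) (nat_lit 0) (XT.nd (nat_lit 78) (nat_lit 0) (nat_lit 0) (XT.lf (nat_lit 0) (nat_lit 899968493434) (nat_lit 152) (nat_lit 619302266360) (nat_lit 0) (nat_lit 897608777312) (nat_lit 1) (nat_lit 5) (nat_lit 3) (nat_lit 4) (nat_lit 1) (nat_lit 4) (nat_lit 254) (nat_lit 191) (nat_lit 155)) (XT.lf (nat_lit 0) (nat_lit 1036462258395) (nat_lit 152) (nat_lit 708566466672) (nat_lit 0) (nat_lit 1034100519366) (nat_lit 1) (nat_lit 5) (nat_lit 3) (nat_lit 4) (nat_lit 1) (nat_lit 4) (nat_lit 255) (nat_lit 191) (nat_lit 154)))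 (XT.nd (nat_lit 78) (nat_lit 0) (nat_lit 0) (XT.lf (nat_lit 0) (nat_lit 1193427170448) (nat_lit 152) (nat_lit 811226008993) (nat_lit 0) (nat_lit 1191063672369) (nat_lit 1) (nat_lit 5) (nat_lit 3) (nat_lit 4) (nat_lit 1) (nat_lit 4) (nat_lit 256) (nat_lit 191) (nat_lit 153)) (XT.lf (nat_lit 0) (nat_lit 1373934282220) (nat_lit 152) (nat_lit 929289449584) (nat_lit 0) (nat_lit 1371569254533) (nat_lit 1) (nat_lit 5) (nat_lit 3) (nat_lit 4) (nat_lit 1) (nat_lit 4) (nat_lit 257) (nat_lit 191) (nat_lit 152)))) (XT.nd (nat_lit 156) (nat_lit 0) (nat_lit 0) (XT.nd (nat_lit 78) (nat_lit 0) (nat_lit 0) (XT.lf (nat_lit 0) (nat_lit 1581515254594) (nat_lit 152) (nat_lit 1065066725328) (nat_lit 0) (nat_lit 1579148896812) (nat_lit 1) (nat_lit 5) (nat_lit 3) (nat_lit 4) (nat_lit 1) (nat_lit 4) (nat_lit 258) (nat_lit 191) (nat_lit 151)) (XT.lf (nat_lit 0) (nat_lit 1820231454420) (nat_lit 152) (nat_lit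 1221214348142) (nat_lit 0) (nat_lit 1817863940035) (nat_lit 1) (nat_lit 5) (nat_lit 3) (nat_lit 4) (nat_lit 1) (nat_lit 4) (nat_lit 259) (nat_lit 191) (nat_lit 150))) (XT.nd (nat_lit 78) (nat_lit 0) (nat_lit 0) (XT.lf (nat_lit 0) (nat_lit 2094753416044) (nat_lit 152) (nat_lit 1400787380209) (nat_lit 0) (nat_lit 2092384895916) (nat_lit 1) (nat_lit 5) (nat_lit 3) (nat_lit 4) (nat_lit 1) (nat_lit 4) (nat_lit 260) (nat_lit 191) (nat_lit 149)) (XT.nd (nat_lit 78) (nat_lit 0) (nat_lit 0) (XT.lf (nat_lit 0) (nat_lit 2410452221322) (nat_lit 152) (nat_lit 1607299206942) (nat_lit 0) (nat_lit 2408082826635) (nat_lit 1) (nat_lit 5) (nat_lit 3) (nat_lit 4) (nat_lit 1) (nat_lit 4) (nat_lit 261) (nat_lit 191) (nat_lit 148)) (XT.lf (nat_lit 0) (nat_lit 2773504586010) (nat_lit 152) (nat_lit 1844790277123) (nat_lit 0) (nat_lit 2771134430838) (nat_lit 1) (nat_lit 5) (nat_lit 3) (nat_lit 4) (nat_lit 1)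 (nat_lit 4) (nat_lit 262) (nat_lit 191) (nat_lit 147))))))))
noncomputable def xc25 : XT := (XT.nd (nat_lit 28782) (nat_lit 0) (nat_lit 0) (XT.nd (nat_lit 1482) (nat_lit 0) (nat_lit 0) (XT.nd (nat_lit 624) (nat_lit 0) (nat_lit 0) (XT.nd (nat_lit 312) (nat_lit 0) (nat_lit 0) (XT.nd (nat_lit 156) (nat_lit 0) (nat_lit 0) (XT.nd (nat_lit 78) (nat_lit 0) (nat_lit 0) (XT.lf (nat_lit 0) (nat_lit 3191013708548) (nat_lit 152) (nat_lit 2117907155169) (nat_lit 0) (nat_lit 3188642892084) (nat_lit 1) (nat_lit 5) (nat_lit 3) (nat_lit 4) (nat_lit 1) (nat_lit 4) (nat_lit 263) (nat_lit 191) (nat_lit 146)) (XT.lf (nat_lit 0) (nat_lit 3671148245681) (nat_lit 152) (nat_lit 2431993432172) (nat_lit 0) (nat_lit 3668776854180) (nat_lit 1) (nat_lit 5) (nat_lit 3) (nat_lit 4) (nat_lit 1) (nat_lit 4) (nat_lit 264) (nat_lit 191) (nat_lit 145))) (XT.nd (nat_lit 78) (nat_lit 0) (nat_lit 0) (XT.lf (nat_lit 0) (nat_lit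 4223302134005) (nat_lit 152) (nat_lit 2793194274422) (nat_lit 0) (nat_lit 4220930242473) (nat_lit 1) (nat_lit 5) (nat_lit 3) (nat_lit 4) (nat_lit 1) (nat_lit 4) (nat_lit 265) (nat_lit 191) (nat_lit 144)) (XT.lf (nat_lit 0) (nat_lit 4858278384379) (nat_lit 152) (nat_lit 3208576654919) (nat_lit 0) (nat_lit 4855906058037) (nat_lit 1) (nat_lit 5) (nat_lit 3) (nat_lit 4) (nat_lit 1) (nat_lit 4) (nat_lit 266) (nat_lit 191) (nat_lit 143)))) (XT.nd (nat_lit 156) (nat_lit 0) (nat_lit 0) (XT.nd (nat_lit 78) (nat_lit 0) (nat_lit 0) (XT.lf (nat_lit 0) (nat_lit 5588500445179) (nat_lit 152) (nat_lit 3686267620238) (nat_lit 0) (nat_lit 5586127740741) (nat_lit 1) (nat_lit 5) (nat_lit 3) (nat_lit 4) (nat_lit 1) (nat_lit 4) (nat_lit 267) (nat_lit 191) (nat_lit 142)) (XT.lf (nat_lit 0) (nat_lit 6428255269769) (nat_lit 152) (nat_lit 4235613297962) (nat_lit 0) (nat_lit 6425882236552) (nat_lit 1) (nat_lit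 5) (nat_lit 3) (nat_lit 4) (nat_lit 1) (nat_lit 4) (nat_lit 268) (nat_lit 191) (nat_lit 141))) (XT.nd (nat_lit 78) (nat_lit 0) (nat_lit 0) (XT.lf (nat_lit 0) (nat_lit 7393972843848) (nat_lit 152) (nat_lit 4867361755697) (nat_lit 0) (nat_lit 7391599524737) (nat_lit 1) (nat_lit 5) (nat_lit 3) (nat_lit 4) (nat_lit 1) (nat_lit 4) (nat_lit 269) (nat_lit 191) (nat_lit 140)) (XT.lf (nat_lit 0) (nat_lit 8504547641691) (nat_lit 152) (nat_lit 5593873289357) (nat_lit 0) (nat_lit 8502174073975) (nat_lit 1) (nat_lit 5) (nat_lit 3) (nat_lit 4) (nat_lit 1) (nat_lit 4) (nat_lit 270) (nat_lit 191) (nat_lit 139))))) (XT.nd (nat_lit 312) (nat_lit 0) (nat_lit 0) (XT.nd (nat_lit 156) (nat_lit 0) (nat_lit 0) (XT.nd (nat_lit 78) (nat_lit 0) (nat_lit 0) (XT.lf (nat_lit 0) (nat_lit 9781708300647) (nat_lit 152) (nat_lit 6429362255034) (nat_lit 0) (nat_lit 9779334516754) (nat_lit 1) (nat_lit 5) (nat_lit 3) (nat_lit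 4) (nat_lit 1) (nat_lit 4) (nat_lit 271) (nat_lit 191) (nat_lit 138)) (XT.lf (nat_lit 0) (nat_lit 11250442746652) (nat_lit 152) (nat_lit 7390175175970) (nat_lit 0) (nat_lit 11248068774779) (nat_lit 1) (nat_lit 5) (nat_lit 3) (nat_lit 4) (nat_lit 1) (nat_lit 4) (nat_lit 272) (nat_lit 191) (nat_lit 137))) (XT.nd (nat_lit 78) (nat_lit 0) (nat_lit 0) (XT.lf (nat_lit 0) (nat_lit 12939487088433) (nat_lit 152) (nat_lit 8495110565835) (nat_lit 0) (nat_lit 12937112953098) (nat_lit 1) (nat_lit 5) (nat_lit 3) (nat_lit 4) (nat_lit 1) (nat_lit 4) (nat_lit 273) (nat_lit 191) (nat_lit 136)) (XT.lf (nat_lit 0) (nat_lit 14881887845719) (nat_lit 152) (nat_lit 9765786725736) (nat_lit 0) (nat_lit 14879513568244) (nat_lit 1) (nat_lit 5) (nat_lit 3) (nat_lit 4) (nat_lit 1) (nat_lit 4) (nat_lit 274) (nat_lit 191) (nat_lit 135)))) (XT.nd (nat_lit 390) (nat_lit 0) (nat_lit 0) (XT.nd (nat_lit 78) (nat_lit 0)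 (nat_lit 0) (XT.lf (nat_lit 0) (nat_lit 17115648511589) (nat_lit 152) (nat_lit 11227064710975) (nat_lit 0) (nat_lit 17113274110513) (nat_lit 1) (nat_lit 5) (nat_lit 3) (nat_lit 4) (nat_lit 1) (nat_lit 4) (nat_lit 275) (nat_lit 191) (nat_lit 134)) (XT.lf (nat_lit 0) (nat_lit 19684473099069) (nat_lit 152) (nat_lit 12907534743003) (nat_lit 0) (nat_lit 19682098590515) (nat_lit 1) (nat_lit 5) (nat_lit 3) (nat_lit 4) (nat_lit 1) (nat_lit 4) (nat_lit 276) (nat_lit 191) (nat_lit 133))) (XT.nd (nat_lit 78) (nat_lit 0) (nat_lit 0) (XT.lf (nat_lit 0) (nat_lit 34435641648678) (nat_lit 152) (nat_lit 22557437470789) (nat_lit 0) (nat_lit 34433266833276) (nat_lit 1) (nat_lit 5) (nat_lit 3) (nat_lit 4) (nat_lit 1) (nat_lit 4) (nat_lit 280) (nat_lit 191) (nat_lit 129)) (XT.lf (nat_lit 0) (nat_lit 39602464609136) (nat_lit 152) (nat_lit 25937464586698) (nat_lit 0) (nat_lit 39600089740297) (nat_lit 1)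 (nat_lit 5) (nat_lit 3) (nat_lit 4) (nat_lit 1) (nat_lit 4) (nat_lit 281) (nat_lit 191) (nat_lit 128)))))) (XT.nd (nat_lit 26676) (nat_lit 0) (nat_lit 0) (XT.nd (nat_lit 26364) (nat_lit 0) (nat_lit 152) (XT.nd (nat_lit 26208) (nat_lit 0) (nat_lit 228) (XT.nd (nat_lit 26130) (nat_lit 0) (nat_lit 380) (XT.lf (nat_lit 0) (nat_lit 45544310936591) (nat_lit 152) (nat_lit 29824495920878) (nat_lit 0) (nat_lit 45541936021287) (nat_lit 1) (nat_lit 5) (nat_lit 3) (nat_lit 4) (nat_lit 1) (nat_lit 4) (nat_lit 282) (nat_lit 191) (nat_lit 127)) (XT.lf (nat_lit 0) (nat_lit 4608216954) (nat_lit 76) (nat_lit 1554214714) (nat_lit 76) (nat_lit 1554214714) (nat_lit 6) (nat_lit 4) (nat_lit 7) (nat_lit 5) (nat_lit 7) (nat_lit 4) (nat_lit 216) (nat_lit 192) (nat_lit 192))) (XT.nd (nat_lit 78) (nat_lit 0) (nat_lit 0) (XT.lf (nat_lit 0) (nat_lit 490736650) (nat_lit 152) (nat_lit 16550963703) (nat_lit 0) (nat_lit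 81010324) (nat_lit 4) (nat_lit 5) (nat_lit 6) (nat_lit 4) (nat_lit 4) (nat_lit 4) (nat_lit 217) (nat_lit 192) (nat_lit 191)) (XT.lf (nat_lit 0) (nat_lit 4400012838) (nat_lit 152) (nat_lit 10997327431) (nat_lit 0) (nat_lit 3634002750) (nat_lit 4) (nat_lit 5) (nat_lit 6) (nat_lit 4) (nat_lit 4) (nat_lit 4) (nat_lit 218) (nat_lit 192) (nat_lit 190)))) (XT.nd (nat_lit 156) (nat_lit 0) (nat_lit 0) (XT.nd (nat_lit 78) (nat_lit 76) (nat_lit 0) (XT.lf (nat_lit 0) (nat_lit 8547864524) (nat_lit 152) (nat_lit 5259645766) (nat_lit 0) (nat_lit 7472042471) (nat_lit 4) (nat_lit 5) (nat_lit 6) (nat_lit 4) (nat_lit 4) (nat_lit 4) (nat_lit 219) (nat_lit 192) (nat_lit 189)) (XT.lf (nat_lit 0) (nat_lit 850014443) (nat_lit 76) (nat_lit 12200628172) (nat_lit 76) (nat_lit 10855404408) (nat_lit 3) (nat_lit 4) (nat_lit 4) (nat_lit 5) (nat_lit 4) (nat_lit 4) (nat_lit 220) (nat_lit 192) (nat_lit 188))) (XT.nd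 (nat_lit 78) (nat_lit 0) (nat_lit 0) (XT.lf (nat_lit 0) (nat_lit 7928540455) (nat_lit 76) (nat_lit 10289927941) (nat_lit 76) (nat_lit 8710441821) (nat_lit 3) (nat_lit 4) (nat_lit 4) (nat_lit 5) (nat_lit 4) (nat_lit 4) (nat_lit 221) (nat_lit 192) (nat_lit 187)) (XT.lf (nat_lit 0) (nat_lit 15600414332) (nat_lit 76) (nat_lit 8312962364) (nat_lit 76) (nat_lit 6529769846) (nat_lit 3) (nat_lit 4) (nat_lit 4) (nat_lit 5) (nat_lit 4) (nat_lit 4) (nat_lit 222) (nat_lit 192) (nat_lit 186))))) (XT.nd (nat_lit 312) (nat_lit 0) (nat_lit 0) (XT.nd (nat_lit 156) (nat_lit 152) (nat_lit 0) (XT.nd (nat_lit 78) (nat_lit 0) (nat_lit 0) (XT.lf (nat_lit 0) (nat_lit 24015737955) (nat_lit 76) (nat_lit 6231051677) (nat_lit 76) (nat_lit 4270723162) (nat_lit 3) (nat_lit 4) (nat_lit 4) (nat_lit 5) (nat_lit 4) (nat_lit 4) (nat_lit 223) (nat_lit 192) (nat_lit 185)) (XT.lf (nat_lit 0) (nat_lit 33339158959) (nat_lit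 76) (nat_lit 4003462846) (nat_lit 76) (nat_lit 1889103029) (nat_lit 3) (nat_lit 4) (nat_lit 4) (nat_lit 5) (nat_lit 4) (nat_lit 4) (nat_lit 224) (nat_lit 192) (nat_lit 184))) (XT.nd (nat_lit 78) (nat_lit 76) (nat_lit 0) (XT.lf (nat_lit 0) (nat_lit 602779473) (nat_lit 152) (nat_lit 952324211) (nat_lit 76) (nat_lit 43118803702) (nat_lit 2) (nat_lit 5) (nat_lit 4) (nat_lit 5) (nat_lit 3) (nat_lit 4) (nat_lit 225) (nat_lit 192) (nat_lit 183)) (XT.lf (nat_lit 0) (nat_lit 3384434318) (nat_lit 152) (nat_lit 46190329914) (nat_lit 0) (nat_lit 1328112689) (nat_lit 1) (nat_lit 5) (nat_lit 3) (nat_lit 4) (nat_lit 1) (nat_lit 4) (nat_lit 226) (nat_lit 192) (nat_lit 182)))) (XT.nd (nat_lit 156) (nat_lit 0) (nat_lit 0) (XT.nd (nat_lit 78) (nat_lit 0) (nat_lit 0) (XT.lf (nat_lit 0) (nat_lit 6563466998) (nat_lit 152) (nat_lit 47086943553) (nat_lit 0) (nat_lit 4419077472) (nat_lit 1) (nat_lit 5) (nat_lit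 3) (nat_lit 4) (nat_lit 1) (nat_lit 4) (nat_lit 227) (nat_lit 192) (nat_lit 181)) (XT.lf (nat_lit 0) (nat_lit 10092333678) (nat_lit 152) (nat_lit 48366721288) (nat_lit 0) (nat_lit 7871363372) (nat_lit 1) (nat_lit 5) (nat_lit 3) (nat_lit 4) (nat_lit 1) (nat_lit 4) (nat_lit 228) (nat_lit 192) (nat_lit 180))) (XT.nd (nat_lit 78) (nat_lit 0) (nat_lit 0) (XT.lf (nat_lit 0) (nat_lit 14040077402) (nat_lit 152) (nat_lit 50054702249) (nat_lit 0) (nat_lit 11752515114) (nat_lit 1) (nat_lit 5) (nat_lit 3) (nat_lit 4) (nat_lit 1) (nat_lit 4) (nat_lit 229) (nat_lit 192) (nat_lit 179)) (XT.lf (nat_lit 0) (nat_lit 18483936636) (nat_lit 152) (nat_lit 52183912151) (nat_lit 0) (nat_lit 16138468276) (nat_lit 1) (nat_lit 5) (nat_lit 3) (nat_lit 4) (nat_lit 1) (nat_lit 4) (nat_lit 230) (nat_lit 192) (nat_lit 178))))))) (XT.nd (nat_lit 1248) (nat_lit 0) (nat_lit 0) (XT.nd (nat_lit 624) (nat_lit 0) (nat_lit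 0) (XT.nd (nat_lit 312) (nat_lit 0) (nat_lit 0) (XT.nd (nat_lit 156) (nat_lit 0) (nat_lit 0) (XT.nd (nat_lit 78) (nat_lit 0) (nat_lit 0) (XT.lf (nat_lit 0) (nat_lit 23510856449) (nat_lit 152) (nat_lit 54796009448) (nat_lit 0) (nat_lit 21115034984) (nat_lit 1) (nat_lit 5) (nat_lit 3) (nat_lit 4) (nat_lit 1) (nat_lit 4) (nat_lit 231) (nat_lit 192) (nat_lit 177)) (XT.lf (nat_lit 0) (nat_lit 29219189622) (nat_lit 152) (nat_lit 57942100392) (nat_lit 0) (nat_lit 26779582847) (nat_lit 1) (nat_lit 5) (nat_lit 3) (nat_lit 4) (nat_lit 1) (nat_lit 4) (nat_lit 232) (nat_lit 192) (nat_lit 176))) (XT.nd (nat_lit 78) (nat_lit 0) (nat_lit 0) (XT.lf (nat_lit 0) (nat_lit 35720620935) (nat_lit 152) (nat_lit 61683738935) (nat_lit 0) (nat_lit 33242939977) (nat_lit 1) (nat_lit 5) (nat_lit 3) (nat_lit 4) (nat_lit 1) (nat_lit 4) (nat_lit 233) (nat_lit 192) (nat_lit 175)) (XT.lf (nat_lit 0) (nat_lit 43142352303)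 (nat_lit 152) (nat_lit 66094131050) (nat_lit 0) (nat_lit 40631563361) (nat_lit 1) (nat_lit 5) (nat_lit 3) (nat_lit 4) (nat_lit 1) (nat_lit 4) (nat_lit 234) (nat_lit 192) (nat_lit 174)))) (XT.nd (nat_lit 156) (nat_lit 0) (nat_lit 0) (XT.nd (nat_lit 78) (nat_lit 0) (nat_lit 0) (XT.lf (nat_lit 0) (nat_lit 51629591514) (nat_lit 152) (nat_lit 71259567017) (nat_lit 0) (nat_lit 49090013021) (nat_lit 1) (nat_lit 5) (nat_lit 3) (nat_lit 4) (nat_lit 1) (nat_lit 4) (nat_lit 235) (nat_lit 192) (nat_lit 173)) (XT.lf (nat_lit 0) (nat_lit 61348393250) (nat_lit 152) (nat_lit 77281109713) (nat_lit 0) (nat_lit 58783780364) (nat_lit 1) (nat_lit 5) (nat_lit 3) (nat_lit 4) (nat_lit 1) (nat_lit 4) (nat_lit 236) (nat_lit 192) (nat_lit 172))) (XT.nd (nat_lit 78) (nat_lit 0) (nat_lit 0) (XT.lf (nat_lit 0) (nat_lit 72488907978) (nat_lit 152) (nat_lit 84276571931) (nat_lit 0) (nat_lit 69902526054) (nat_lit 1)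 (nat_lit 5) (nat_lit 3) (nat_lit 4) (nat_lit 1) (nat_lit 4) (nat_lit 237) (nat_lit 192) (nat_lit 171)) (XT.lf (nat_lit 0) (nat_lit 85269102291) (nat_lit 152) (nat_lit 92382821409) (nat_lit 0) (nat_lit 82663790770) (nat_lit 1) (nat_lit 5) (nat_lit 3) (nat_lit 4) (nat_lit 1) (nat_lit 4) (nat_lit 238) (nat_lit 192) (nat_lit 170))))) (XT.nd (nat_lit 312) (nat_lit 0) (nat_lit 0) (XT.nd (nat_lit 156) (nat_lit 0) (nat_lit 0) (XT.nd (nat_lit 78) (nat_lit 0) (nat_lit 0) (XT.lf (nat_lit 0) (nat_lit 99939023469) (nat_lit 152) (nat_lit 101758458681) (nat_lit 0) (nat_lit 97317251428) (nat_lit 1) (nat_lit 5) (nat_lit 3) (nat_lit 4) (nat_lit 1) (nat_lit 4) (nat_lit 239) (nat_lit 192) (nat_lit 169)) (XT.lf (nat_lit 0) (nat_lit 116785691709) (nat_lit 152) (nat_lit 112586920128) (nat_lit 0) (nat_lit 114149606173) (nat_lit 1) (nat_lit 5) (nat_lit 3) (nat_lit 4) (nat_lit 1) (nat_lit 4) (nat_lit 240) (nat_lit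 192) (nat_lit 168))) (XT.nd (nat_lit 78) (nat_lit 0) (nat_lit 0) (XT.lf (nat_lit 0) (nat_lit 136138715737) (nat_lit 152) (nat_lit 125080066953) (nat_lit 0) (nat_lit 133490183684) (nat_lit 1) (nat_lit 5) (nat_lit 3) (nat_lit 4) (nat_lit 1) (nat_lit 4) (nat_lit 241) (nat_lit 192) (nat_lit 167)) (XT.lf (nat_lit 0) (nat_lit 158376741677) (nat_lit 152) (nat_lit 139482330288) (nat_lit 0) (nat_lit 155717386564) (nat_lit 1) (nat_lit 5) (nat_lit 3) (nat_lit 4) (nat_lit 1) (nat_lit 4) (nat_lit 242) (nat_lit 192) (nat_lit 166)))) (XT.nd (nat_lit 156) (nat_lit 0) (nat_lit 0) (XT.nd (nat_lit 78) (nat_lit 0) (nat_lit 0) (XT.lf (nat_lit 0) (nat_lit 183934861339) (nat_lit 152) (nat_lit 156075493547) (nat_lit 0) (nat_lit 181266094871) (nat_lit 1) (nat_lit 5) (nat_lit 3) (nat_lit 4) (nat_lit 1) (nat_lit 4) (nat_lit 243) (nat_lit 192) (nat_lit 165)) (XT.lf (nat_lit 0) (nat_lit 213313124890) (nat_lit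 152) (nat_lit 175184205577) (nat_lit 0) (nat_lit 210636174635) (nat_lit 1) (nat_lit 5) (nat_lit 3) (nat_lit 4) (nat_lit 1) (nat_lit 4) (nat_lit 244) (nat_lit 192) (nat_lit 164))) (XT.nd (nat_lit 78) (nat_lit 0) (nat_lit 0) (XT.lf (nat_lit 0) (nat_lit 247086324445) (nat_lit 152) (nat_lit 197182332482) (nat_lit 0) (nat_lit 244402257853) (nat_lit 1) (nat_lit 5) (nat_lit 3) (nat_lit 4) (nat_lit 1) (nat_lit 4) (nat_lit 245) (nat_lit 192) (nat_lit 163)) (XT.lf (nat_lit 0) (nat_lit 285915239994) (nat_lit 152) (nat_lit 222500272397) (nat_lit 0) (nat_lit 283224985283) (nat_lit 1) (nat_lit 5) (nat_lit 3) (nat_lit 4) (nat_lit 1) (nat_lit 4) (nat_lit 246) (nat_lit 192) (nat_lit 162)))))) (XT.nd (nat_lit 624) (nat_lit 0) (nat_lit 0) (XT.nd (nat_lit 312) (nat_lit 0) (nat_lit 0) (XT.nd (nat_lit 156) (nat_lit 0) (nat_lit 0) (XT.nd (nat_lit 78) (nat_lit 0) (nat_lit 0) (XT.lf (nat_lit 0) (nat_lit 330559567711)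 (nat_lit 152) (nat_lit 251633376321) (nat_lit 0) (nat_lit 327863932027) (nat_lit 1) (nat_lit 5) (nat_lit 3) (nat_lit 4) (nat_lit 1) (nat_lit 4) (nat_lit 247) (nat_lit 192) (nat_lit 161)) (XT.lf (nat_lit 0) (nat_lit 381892783573) (nat_lit 152) (nat_lit 285151639765) (nat_lit 0) (nat_lit 379192468782) (nat_lit 1) (nat_lit 5) (nat_lit 3) (nat_lit 4) (nat_lit 1) (nat_lit 4) (nat_lit 248) (nat_lit 192) (nat_lit 160))) (XT.nd (nat_lit 78) (nat_lit 0) (nat_lit 0) (XT.lf (nat_lit 0) (nat_lit 440919233108) (nat_lit 152) (nat_lit 323710854840) (nat_lit 0) (nat_lit 438214849528) (nat_lit 1) (nat_lit 5) (nat_lit 3) (nat_lit 4) (nat_lit 1) (nat_lit 4) (nat_lit 249) (nat_lit 192) (nat_lit 159)) (XT.lf (nat_lit 0) (nat_lit 508793781632) (nat_lit 152) (nat_lit 368065440972) (nat_lit 0) (nat_lit 506085859975) (nat_lit 1) (nat_lit 5) (nat_lit 3) (nat_lit 4) (nat_lit 1) (nat_lit 4) (nat_lit 250) (nat_lit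 192) (nat_lit 158)))) (XT.nd (nat_lit 156) (nat_lit 0) (nat_lit 0) (XT.nd (nat_lit 78) (nat_lit 0) (nat_lit 0) (XT.lf (nat_lit 0) (nat_lit 586844409444) (nat_lit 152) (nat_lit 419083205280) (nat_lit 0) (nat_lit 584133411197) (nat_lit 1) (nat_lit 5) (nat_lit 3) (nat_lit 4) (nat_lit 1) (nat_lit 4) (nat_lit 251) (nat_lit 192) (nat_lit 157)) (XT.lf (nat_lit 0) (nat_lit 676598194043) (nat_lit 152) (nat_lit 477762321414) (nat_lit 0) (nat_lit 673884520502) (nat_lit 1) (nat_lit 5) (nat_lit 3) (nat_lit 4) (nat_lit 1) (nat_lit 4) (nat_lit 252) (nat_lit 192) (nat_lit 156))) (XT.nd (nat_lit 78) (nat_lit 0) (nat_lit 0) (XT.lf (nat_lit 0) (nat_lit 779811187737) (nat_lit 152) (nat_lit 545250859038) (nat_lit 0) (nat_lit 777095187853) (nat_lit 1) (nat_lit 5) (nat_lit 3) (nat_lit 4) (nat_lit 1) (nat_lit 4) (nat_lit 253) (nat_lit 192) (nat_lit 155)) (XT.lf (nat_lit 0) (nat_lit 898502775185) (nat_lit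 152) (nat_lit 622869246061) (nat_lit 0) (nat_lit 895784752394) (nat_lit 1) (nat_lit 5) (nat_lit 3) (nat_lit 4) (nat_lit 1) (nat_lit 4) (nat_lit 254) (nat_lit 192) (nat_lit 154))))) (XT.nd (nat_lit 312) (nat_lit 0) (nat_lit 0) (XT.nd (nat_lit 156) (nat_lit 0) (nat_lit 0) (XT.nd (nat_lit 78) (nat_lit 0) (nat_lit 0) (XT.lf (nat_lit 0) (nat_lit 1034995183098) (nat_lit 152) (nat_lit 712136103099) (nat_lit 0) (nat_lit 1032275401258) (nat_lit 1) (nat_lit 5) (nat_lit 3) (nat_lit 4) (nat_lit 1) (nat_lit 4) (nat_lit 255) (nat_lit 192) (nat_lit 153)) (XT.lf (nat_lit 0) (nat_lit 1191958915110) (nat_lit 152) (nat_lit 814797955616) (nat_lit 0) (nat_lit 1189237603661) (nat_lit 1) (nat_lit 5) (nat_lit 3) (nat_lit 4) (nat_lit 1) (nat_lit 4) (nat_lit 256) (nat_lit 192) (nat_lit 152))) (XT.nd (nat_lit 78) (nat_lit 0) (nat_lit 0) (XT.lf (nat_lit 0) (nat_lit 1372465000759) (nat_lit 152) (nat_lit 932863405075)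 (nat_lit 0) (nat_lit 1369742359216) (nat_lit 1) (nat_lit 5) (nat_lit 3) (nat_lit 4) (nat_lit 1) (nat_lit 4) (nat_lit 257) (nat_lit 192) (nat_lit 151)) (XT.lf (nat_lit 0) (nat_lit 1580045080852) (nat_lit 152) (nat_lit 1068642427660) (nat_lit 0) (nat_lit 1577321282706) (nat_lit 1) (nat_lit 5) (nat_lit 3) (nat_lit 4) (nat_lit 1) (nat_lit 4) (nat_lit 258) (nat_lit 192) (nat_lit 150)))) (XT.nd (nat_lit 156) (nat_lit 0) (nat_lit 0) (XT.nd (nat_lit 78) (nat_lit 0) (nat_lit 0) (XT.lf (nat_lit 0) (nat_lit 1818760504782) (nat_lit 152) (nat_lit 1224791569465) (nat_lit 0) (nat_lit 1816035700893) (nat_lit 1) (nat_lit 5) (nat_lit 3) (nat_lit 4) (nat_lit 1) (nat_lit 4) (nat_lit 259) (nat_lit 192) (nat_lit 149)) (XT.lf (nat_lit 0) (nat_lit 2093281791713) (nat_lit 152) (nat_lit 1404365922395) (nat_lit 0) (nat_lit 2090556113265) (nat_lit 1) (nat_lit 5) (nat_lit 3) (nat_lit 4) (nat_lit 1) (nat_lit 4)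 (nat_lit 260) (nat_lit 192) (nat_lit 148))) (XT.nd (nat_lit 78) (nat_lit 0) (nat_lit 0) (XT.lf (nat_lit 0) (nat_lit 2408980010302) (nat_lit 152) (nat_lit 1610878897704) (nat_lit 0) (nat_lit 2406253571369) (nat_lit 1) (nat_lit 5) (nat_lit 3) (nat_lit 4) (nat_lit 1) (nat_lit 4) (nat_lit 261) (nat_lit 192) (nat_lit 147)) (XT.lf (nat_lit 0) (nat_lit 2772031864826) (nat_lit 152) (nat_lit 1848370966646) (nat_lit 0) (nat_lit 2769304764601) (nat_lit 1) (nat_lit 5) (nat_lit 3) (nat_lit 4) (nat_lit 1) (nat_lit 4) (nat_lit 262) (nat_lit 192) (nat_lit 146))))))))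
noncomputable def xc26 : XT := (XT.nd (nat_lit 27612) (nat_lit 0) (nat_lit 0) (XT.nd (nat_lit 624) (nat_lit 0) (nat_lit 0) (XT.nd (nat_lit 312) (nat_lit 0) (nat_lit 0) (XT.nd (nat_lit 156) (nat_lit 0) (nat_lit 0) (XT.nd (nat_lit 78) (nat_lit 0) (nat_lit 0) (XT.lf (nat_lit 0) (nat_lit 3189540543743) (nat_lit 152) (nat_lit 2121488713181) (nat_lit 0) (nat_lit 3186812868481) (nat_lit 1) (nat_lit 5) (nat_lit 3) (nat_lit 4) (nat_lit 1) (nat_lit 4) (nat_lit 263) (nat_lit 192) (nat_lit 145)) (XT.lf (nat_lit 0) (nat_lit 3669674695118) (nat_lit 152) (nat_lit 2435575745392) (nat_lit 0) (nat_lit 3666946519825) (nat_lit 1) (nat_lit 5) (nat_lit 3) (nat_lit 4) (nat_lit 1) (nat_lit 4) (nat_lit 264) (nat_lit 192) (nat_lit 144))) (XT.nd (nat_lit 78) (nat_lit 0) (nat_lit 0) (XT.lf (nat_lit 0) (nat_lit 4221828248001) (nat_lit 152) (nat_lit 2796777244344) (nat_lit 0) (nat_lit 4219099637897) (nat_lit 1)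 (nat_lit 5) (nat_lit 3) (nat_lit 4) (nat_lit 1) (nat_lit 4) (nat_lit 265) (nat_lit 192) (nat_lit 143)) (XT.lf (nat_lit 0) (nat_lit 4856804206687) (nat_lit 152) (nat_lit 3212160195886) (nat_lit 0) (nat_lit 4854075218487) (nat_lit 1) (nat_lit 5) (nat_lit 3) (nat_lit 4) (nat_lit 1) (nat_lit 4) (nat_lit 266) (nat_lit 192) (nat_lit 142)))) (XT.nd (nat_lit 156) (nat_lit 0) (nat_lit 0) (XT.nd (nat_lit 78) (nat_lit 0) (nat_lit 0) (XT.lf (nat_lit 0) (nat_lit 5587026013845) (nat_lit 152) (nat_lit 3689851657767) (nat_lit 0) (nat_lit 5584296696867) (nat_lit 1) (nat_lit 5) (nat_lit 3) (nat_lit 4) (nat_lit 1) (nat_lit 4) (nat_lit 267) (nat_lit 192) (nat_lit 141)) (XT.lf (nat_lit 0) (nat_lit 6426780617877) (nat_lit 152) (nat_lit 4239197767282) (nat_lit 0) (nat_lit 6424051015004) (nat_lit 1) (nat_lit 5) (nat_lit 3) (nat_lit 4) (nat_lit 1) (nat_lit 4) (nat_lit 268) (nat_lit 192) (nat_lit 140))) (XT.nd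 (nat_lit 78) (nat_lit 0) (nat_lit 0) (XT.lf (nat_lit 0) (nat_lit 7392498000166) (nat_lit 152) (nat_lit 4870946600489) (nat_lit 0) (nat_lit 7389768148689) (nat_lit 1) (nat_lit 5) (nat_lit 3) (nat_lit 4) (nat_lit 1) (nat_lit 4) (nat_lit 269) (nat_lit 192) (nat_lit 139)) (XT.lf (nat_lit 0) (nat_lit 8503072631236) (nat_lit 152) (nat_lit 5597458460646) (nat_lit 0) (nat_lit 8500342563581) (nat_lit 1) (nat_lit 5) (nat_lit 3) (nat_lit 4) (nat_lit 1) (nat_lit 4) (nat_lit 270) (nat_lit 192) (nat_lit 138))))) (XT.nd (nat_lit 312) (nat_lit 0) (nat_lit 0) (XT.nd (nat_lit 156) (nat_lit 0) (nat_lit 0) (XT.nd (nat_lit 78) (nat_lit 0) (nat_lit 0) (XT.lf (nat_lit 0) (nat_lit 9780233145171) (nat_lit 152) (nat_lit 6432947710233) (nat_lit 0) (nat_lit 9777502889536) (nat_lit 1) (nat_lit 5) (nat_lit 3) (nat_lit 4) (nat_lit 1) (nat_lit 4) (nat_lit 271) (nat_lit 192) (nat_lit 137)) (XT.lf (nat_lit 0) (nat_lit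 11248967465071) (nat_lit 152) (nat_lit 7393760878048) (nat_lit 0) (nat_lit 11246237045975) (nat_lit 1) (nat_lit 5) (nat_lit 3) (nat_lit 4) (nat_lit 1) (nat_lit 4) (nat_lit 272) (nat_lit 192) (nat_lit 136))) (XT.nd (nat_lit 78) (nat_lit 0) (nat_lit 0) (XT.lf (nat_lit 0) (nat_lit 12938011697195) (nat_lit 152) (nat_lit 8498696482591) (nat_lit 0) (nat_lit 12935281135959) (nat_lit 1) (nat_lit 5) (nat_lit 3) (nat_lit 4) (nat_lit 1) (nat_lit 4) (nat_lit 273) (nat_lit 192) (nat_lit 135)) (XT.lf (nat_lit 0) (nat_lit 14880412359128) (nat_lit 152) (nat_lit 9769372829167) (nat_lit 0) (nat_lit 14877681674292) (nat_lit 1) (nat_lit 5) (nat_lit 3) (nat_lit 4) (nat_lit 1) (nat_lit 4) (nat_lit 274) (nat_lit 192) (nat_lit 134)))) (XT.nd (nat_lit 26520) (nat_lit 0) (nat_lit 380) (XT.nd (nat_lit 1170) (nat_lit 0) (nat_lit 0) (XT.lf (nat_lit 0) (nat_lit 17114172942082) (nat_lit 152) (nat_lit 11230650976733)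 (nat_lit 0) (nat_lit 17111442149767) (nat_lit 1) (nat_lit 5) (nat_lit 3) (nat_lit 4) (nat_lit 1) (nat_lit 4) (nat_lit 275) (nat_lit 192) (nat_lit 133)) (XT.lf (nat_lit 0) (nat_lit 139339879175554) (nat_lit 152) (nat_lit 91188150702921) (nat_lit 0) (nat_lit 139337147754772) (nat_lit 1) (nat_lit 5) (nat_lit 3) (nat_lit 4) (nat_lit 1) (nat_lit 4) (nat_lit 290) (nat_lit 192) (nat_lit 118))) (XT.nd (nat_lit 78) (nat_lit 76) (nat_lit 0) (XT.lf (nat_lit 0) (nat_lit 1828674504) (nat_lit 152) (nat_lit 2724712369) (nat_lit 0) (nat_lit 1828674504) (nat_lit 7) (nat_lit 5) (nat_lit 9) (nat_lit 4) (nat_lit 7) (nat_lit 4) (nat_lit 214) (nat_lit 193) (nat_lit 193)) (XT.lf (nat_lit 0) (nat_lit 1259107492) (nat_lit 76) (nat_lit 6646597038) (nat_lit 76) (nat_lit 6104733973) (nat_lit 6) (nat_lit 4) (nat_lit 7) (nat_lit 5) (nat_lit 7) (nat_lit 4) (nat_lit 215) (nat_lit 193) (nat_lit 192)))))) (XT.nd (nat_lit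 624) (nat_lit 152) (nat_lit 0) (XT.nd (nat_lit 312) (nat_lit 76) (nat_lit 0) (XT.nd (nat_lit 156) (nat_lit 76) (nat_lit 0) (XT.nd (nat_lit 78) (nat_lit 76) (nat_lit 0) (XT.lf (nat_lit 0) (nat_lit 8894758534) (nat_lit 76) (nat_lit 3789843283) (nat_lit 76) (nat_lit 2776794943) (nat_lit 6) (nat_lit 4) (nat_lit 7) (nat_lit 5) (nat_lit 7) (nat_lit 4) (nat_lit 216) (nat_lit 193) (nat_lit 191)) (XT.lf (nat_lit 0) (nat_lit 598781605) (nat_lit 152) (nat_lit 135394215) (nat_lit 76) (nat_lit 16444282589) (nat_lit 5) (nat_lit 5) (nat_lit 7) (nat_lit 5) (nat_lit 6) (nat_lit 4) (nat_lit 217) (nat_lit 193) (nat_lit 190))) (XT.nd (nat_lit 78) (nat_lit 0) (nat_lit 0) (XT.lf (nat_lit 0) (nat_lit 4309434943) (nat_lit 152) (nat_lit 12045537974) (nat_lit 0) (nat_lit 2762427615) (nat_lit 4) (nat_lit 5) (nat_lit 6) (nat_lit 4) (nat_lit 4) (nat_lit 4) (nat_lit 218) (nat_lit 193) (nat_lit 189)) (XT.lf (nat_lit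 0) (nat_lit 8316612846) (nat_lit 152) (nat_lit 6570343689) (nat_lit 0) (nat_lit 6500203808) (nat_lit 4) (nat_lit 5) (nat_lit 6) (nat_lit 4) (nat_lit 4) (nat_lit 4) (nat_lit 219) (nat_lit 193) (nat_lit 188)))) (XT.nd (nat_lit 156) (nat_lit 0) (nat_lit 0) (XT.nd (nat_lit 78) (nat_lit 76) (nat_lit 0) (XT.lf (nat_lit 0) (nat_lit 12661868623) (nat_lit 152) (nat_lit 764607538) (nat_lit 0) (nat_lit 10611197228) (nat_lit 4) (nat_lit 5) (nat_lit 6) (nat_lit 4) (nat_lit 4) (nat_lit 4) (nat_lit 220) (nat_lit 193) (nat_lit 187)) (XT.lf (nat_lit 0) (nat_lit 6021320562) (nat_lit 76) (nat_lit 11658227629) (nat_lit 76) (nat_lit 9403849837) (nat_lit 3) (nat_lit 4) (nat_lit 4) (nat_lit 5) (nat_lit 4) (nat_lit 4) (nat_lit 221) (nat_lit 193) (nat_lit 186))) (XT.nd (nat_lit 78) (nat_lit 0) (nat_lit 0) (XT.lf (nat_lit 0) (nat_lit 13503738004) (nat_lit 76) (nat_lit 9770378203) (nat_lit 76) (nat_lit 7338864414)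 (nat_lit 3) (nat_lit 4) (nat_lit 4) (nat_lit 5) (nat_lit 4) (nat_lit 4) (nat_lit 222) (nat_lit 193) (nat_lit 185)) (XT.lf (nat_lit 0) (nat_lit 21754316900) (nat_lit 76) (nat_lit 7765959823) (nat_lit 76) (nat_lit 5180414732) (nat_lit 3) (nat_lit 4) (nat_lit 4) (nat_lit 5) (nat_lit 4) (nat_lit 4) (nat_lit 223) (nat_lit 193) (nat_lit 184))))) (XT.nd (nat_lit 312) (nat_lit 0) (nat_lit 0) (XT.nd (nat_lit 156) (nat_lit 152) (nat_lit 0) (XT.nd (nat_lit 78) (nat_lit 0) (nat_lit 0) (XT.lf (nat_lit 0) (nat_lit 30934481620) (nat_lit 76) (nat_lit 5605755607) (nat_lit 76) (nat_lit 2886270253) (nat_lit 3) (nat_lit 4) (nat_lit 4) (nat_lit 5) (nat_lit 4) (nat_lit 4) (nat_lit 224) (nat_lit 193) (nat_lit 183)) (XT.lf (nat_lit 0) (nat_lit 41223844082) (nat_lit 76) (nat_lit 3247500689) (nat_lit 76) (nat_lit 411545541) (nat_lit 3) (nat_lit 4) (nat_lit 4) (nat_lit 5) (nat_lit 4) (nat_lit 4) (nat_lit 225)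 (nat_lit 193) (nat_lit 182))) (XT.nd (nat_lit 78) (nat_lit 0) (nat_lit 0) (XT.lf (nat_lit 0) (nat_lit 1703901525) (nat_lit 76) (nat_lit 454765802) (nat_lit 152) (nat_lit 48993107575) (nat_lit 1) (nat_lit 5) (nat_lit 2) (nat_lit 5) (nat_lit 3) (nat_lit 4) (nat_lit 226) (nat_lit 193) (nat_lit 181)) (XT.lf (nat_lit 0) (nat_lit 5259789636) (nat_lit 152) (nat_lit 50441317553) (nat_lit 0) (nat_lit 2629093004) (nat_lit 1) (nat_lit 5) (nat_lit 3) (nat_lit 4) (nat_lit 1) (nat_lit 4) (nat_lit 227) (nat_lit 193) (nat_lit 180)))) (XT.nd (nat_lit 156) (nat_lit 0) (nat_lit 0) (XT.nd (nat_lit 78) (nat_lit 0) (nat_lit 0) (XT.lf (nat_lit 0) (nat_lit 8737282847) (nat_lit 152) (nat_lit 51821670435) (nat_lit 0) (nat_lit 6039994233) (nat_lit 1) (nat_lit 5) (nat_lit 3) (nat_lit 4) (nat_lit 1) (nat_lit 4) (nat_lit 228) (nat_lit 193) (nat_lit 179)) (XT.lf (nat_lit 0) (nat_lit 12640353990) (nat_lit 152) (nat_lit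 53597108046) (nat_lit 0) (nat_lit 9885159305) (nat_lit 1) (nat_lit 5) (nat_lit 3) (nat_lit 4) (nat_lit 1) (nat_lit 4) (nat_lit 229) (nat_lit 193) (nat_lit 178))) (XT.nd (nat_lit 78) (nat_lit 0) (nat_lit 0) (XT.lf (nat_lit 0) (nat_lit 17045367500) (nat_lit 152) (nat_lit 55802367208) (nat_lit 0) (nat_lit 14239819709) (nat_lit 1) (nat_lit 5) (nat_lit 3) (nat_lit 4) (nat_lit 1) (nat_lit 4) (nat_lit 230) (nat_lit 193) (nat_lit 177)) (XT.lf (nat_lit 0) (nat_lit 22038508425) (nat_lit 152) (nat_lit 58480594297) (nat_lit 0) (nat_lit 19189175324) (nat_lit 1) (nat_lit 5) (nat_lit 3) (nat_lit 4) (nat_lit 1) (nat_lit 4) (nat_lit 231) (nat_lit 193) (nat_lit 176)))))))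
noncomputable def xc27 : XT := (XT.nd (nat_lit 1248) (nat_lit 0) (nat_lit 0) (XT.nd (nat_lit 624) (nat_lit 0) (nat_lit 0) (XT.nd (nat_lit 312) (nat_lit 0) (nat_lit 0) (XT.nd (nat_lit 156) (nat_lit 0) (nat_lit 0) (XT.nd (nat_lit 78) (nat_lit 0) (nat_lit 0) (XT.lf (nat_lit 0) (nat_lit 27717468650) (nat_lit 152) (nat_lit 61684189407) (nat_lit 0) (nat_lit 24830061367) (nat_lit 1) (nat_lit 5) (nat_lit 3) (nat_lit 4) (nat_lit 1) (nat_lit 4) (nat_lit 232) (nat_lit 193) (nat_lit 175)) (XT.lf (nat_lit 0) (nat_lit 34193358269) (nat_lit 152) (nat_lit 65475831574) (nat_lit 0) (nat_lit 31272843002) (nat_lit 1) (nat_lit 5) (nat_lit 3) (nat_lit 4) (nat_lit 1) (nat_lit 4) (nat_lit 233) (nat_lit 193) (nat_lit 174))) (XT.nd (nat_lit 78) (nat_lit 0) (nat_lit 0) (XT.lf (nat_lit 0) (nat_lit 41592879469) (nat_lit 152) (nat_lit 69929705100) (nat_lit 0) (nat_lit 38643574650) (nat_lit 1) (nat_lit 5) (nat_lit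 3) (nat_lit 4) (nat_lit 1) (nat_lit 4) (nat_lit 234) (nat_lit 193) (nat_lit 173)) (XT.lf (nat_lit 0) (nat_lit 50060805491) (nat_lit 152) (nat_lit 75132950990) (nat_lit 0) (nat_lit 47086466279) (nat_lit 1) (nat_lit 5) (nat_lit 3) (nat_lit 4) (nat_lit 1) (nat_lit 4) (nat_lit 235) (nat_lit 193) (nat_lit 172)))) (XT.nd (nat_lit 156) (nat_lit 0) (nat_lit 0) (XT.nd (nat_lit 78) (nat_lit 0) (nat_lit 0) (XT.lf (nat_lit 0) (nat_lit 59762813148) (nat_lit 152) (nat_lit 81187371880) (nat_lit 0) (nat_lit 56766704899) (nat_lit 1) (nat_lit 5) (nat_lit 3) (nat_lit 4) (nat_lit 1) (nat_lit 4) (nat_lit 236) (nat_lit 193) (nat_lit 171)) (XT.lf (nat_lit 0) (nat_lit 70888724330) (nat_lit 152) (nat_lit 88211423832) (nat_lit 0) (nat_lit 67873686483) (nat_lit 1) (nat_lit 5) (nat_lit 3) (nat_lit 4) (nat_lit 1) (nat_lit 4) (nat_lit 237) (nat_lit 193) (nat_lit 170))) (XT.nd (nat_lit 78) (nat_lit 0) (nat_lit 0)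 (XT.lf (nat_lit 0) (nat_lit 83656219907) (nat_lit 152) (nat_lit 96342533948) (nat_lit 0) (nat_lit 80624721541) (nat_lit 1) (nat_lit 5) (nat_lit 3) (nat_lit 4) (nat_lit 1) (nat_lit 4) (nat_lit 238) (nat_lit 193) (nat_lit 169)) (XT.lf (nat_lit 0) (nat_lit 98315098706) (nat_lit 152) (nat_lit 105739789166) (nat_lit 0) (nat_lit 95269286845) (nat_lit 1) (nat_lit 5) (nat_lit 3) (nat_lit 4) (nat_lit 1) (nat_lit 4) (nat_lit 239) (nat_lit 193) (nat_lit 168))))) (XT.nd (nat_lit 312) (nat_lit 0) (nat_lit 0) (XT.nd (nat_lit 156) (nat_lit 0) (nat_lit 0) (XT.nd (nat_lit 78) (nat_lit 0) (nat_lit 0) (XT.lf (nat_lit 0) (nat_lit 115152164878) (nat_lit 152) (nat_lit 116587048827) (nat_lit 0) (nat_lit 112093906498) (nat_lit 1) (nat_lit 5) (nat_lit 3) (nat_lit 4) (nat_lit 1) (nat_lit 4) (nat_lit 240) (nat_lit 193) (nat_lit 167)) (XT.lf (nat_lit 0) (nat_lit 134496839281) (nat_lit 152) (nat_lit 129096541925)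 (nat_lit 0) (nat_lit 131427757843) (nat_lit 1) (nat_lit 5) (nat_lit 3) (nat_lit 4) (nat_lit 1) (nat_lit 4) (nat_lit 241) (nat_lit 193) (nat_lit 166))) (XT.nd (nat_lit 78) (nat_lit 0) (nat_lit 0) (XT.lf (nat_lit 0) (nat_lit 156727604677) (nat_lit 152) (nat_lit 143513019411) (nat_lit 0) (nat_lit 153649111884) (nat_lit 1) (nat_lit 5) (nat_lit 3) (nat_lit 4) (nat_lit 1) (nat_lit 4) (nat_lit 242) (nat_lit 193) (nat_lit 165)) (XT.lf (nat_lit 0) (nat_lit 182279410823) (nat_lit 152) (nat_lit 160118542801) (nat_lit 0) (nat_lit 179192734242) (nat_lit 1) (nat_lit 5) (nat_lit 3) (nat_lit 4) (nat_lit 1) (nat_lit 4) (nat_lit 243) (nat_lit 193) (nat_lit 164)))) (XT.nd (nat_lit 156) (nat_lit 0) (nat_lit 0) (XT.nd (nat_lit 78) (nat_lit 0) (nat_lit 0) (XT.lf (nat_lit 0) (nat_lit 211652184361) (nat_lit 152) (nat_lit 179238002770) (nat_lit 0) (nat_lit 208558391443) (nat_lit 1) (nat_lit 5) (nat_lit 3)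 (nat_lit 4) (nat_lit 1) (nat_lit 4) (nat_lit 244) (nat_lit 193) (nat_lit 163)) (XT.lf (nat_lit 0) (nat_lit 245420609991) (nat_lit 152) (nat_lit 201245475710) (nat_lit 0) (nat_lit 242320628954) (nat_lit 1) (nat_lit 5) (nat_lit 3) (nat_lit 4) (nat_lit 1) (nat_lit 4) (nat_lit 245) (nat_lit 193) (nat_lit 162))) (XT.nd (nat_lit 78) (nat_lit 0) (nat_lit 0) (XT.lf (nat_lit 0) (nat_lit 284245374301) (nat_lit 152) (nat_lit 226571542612) (nat_lit 0) (nat_lit 281140012290) (nat_lit 1) (nat_lit 5) (nat_lit 3) (nat_lit 4) (nat_lit 1) (nat_lit 4) (nat_lit 246) (nat_lit 193) (nat_lit 161)) (XT.lf (nat_lit 0) (nat_lit 328886092244) (nat_lit 152) (nat_lit 255711713481) (nat_lit 0) (nat_lit 325776051127) (nat_lit 1) (nat_lit 5) (nat_lit 3) (nat_lit 4) (nat_lit 1) (nat_lit 4) (nat_lit 247) (nat_lit 193) (nat_lit 160)))))) (XT.nd (nat_lit 624) (nat_lit 0) (nat_lit 0) (XT.nd (nat_lit 312) (nat_lit 0) (nat_lit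 0) (XT.nd (nat_lit 156) (nat_lit 0) (nat_lit 0) (XT.nd (nat_lit 78) (nat_lit 0) (nat_lit 0) (XT.lf (nat_lit 0) (nat_lit 380216169173) (nat_lit 152) (nat_lit 289236122094) (nat_lit 0) (nat_lit 377102059267) (nat_lit 1) (nat_lit 5) (nat_lit 3) (nat_lit 4) (nat_lit 1) (nat_lit 4) (nat_lit 248) (nat_lit 193) (nat_lit 159)) (XT.lf (nat_lit 0) (nat_lit 439239889200) (nat_lit 152) (nat_lit 327800680795) (nat_lit 0) (nat_lit 436122241217) (nat_lit 1) (nat_lit 5) (nat_lit 3) (nat_lit 4) (nat_lit 1) (nat_lit 4) (nat_lit 249) (nat_lit 193) (nat_lit 158))) (XT.nd (nat_lit 78) (nat_lit 0) (nat_lit 0) (XT.lf (nat_lit 0) (nat_lit 507112064240) (nat_lit 152) (nat_lit 372159913558) (nat_lit 0) (nat_lit 503991339669) (nat_lit 1) (nat_lit 5) (nat_lit 3) (nat_lit 4) (nat_lit 1) (nat_lit 4) (nat_lit 250) (nat_lit 193) (nat_lit 157)) (XT.lf (nat_lit 0) (nat_lit 585160628152) (nat_lit 152) (nat_lit 423181718415)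 (nat_lit 0) (nat_lit 582037228286) (nat_lit 1) (nat_lit 5) (nat_lit 3) (nat_lit 4) (nat_lit 1) (nat_lit 4) (nat_lit 251) (nat_lit 193) (nat_lit 156)))) (XT.nd (nat_lit 156) (nat_lit 0) (nat_lit 0) (XT.nd (nat_lit 78) (nat_lit 0) (nat_lit 0) (XT.lf (nat_lit 0) (nat_lit 674912618056) (nat_lit 152) (nat_lit 481864348070) (nat_lit 0) (nat_lit 671786891846) (nat_lit 1) (nat_lit 5) (nat_lit 3) (nat_lit 4) (nat_lit 1) (nat_lit 4) (nat_lit 252) (nat_lit 193) (nat_lit 155)) (XT.lf (nat_lit 0) (nat_lit 778124051145) (nat_lit 152) (nat_lit 549355940929) (nat_lit 0) (nat_lit 774996302029) (nat_lit 1) (nat_lit 5) (nat_lit 3) (nat_lit 4) (nat_lit 1) (nat_lit 4) (nat_lit 253) (nat_lit 193) (nat_lit 154))) (XT.nd (nat_lit 78) (nat_lit 0) (nat_lit 0) (XT.lf (nat_lit 0) (nat_lit 896814281546) (nat_lit 152) (nat_lit 626976984678) (nat_lit 0) (nat_lit 893684773380) (nat_lit 1) (nat_lit 5) (nat_lit 3)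 (nat_lit 4) (nat_lit 1) (nat_lit 4) (nat_lit 254) (nat_lit 193) (nat_lit 153)) (XT.lf (nat_lit 0) (nat_lit 1033305509418) (nat_lit 152) (nat_lit 716246151913) (nat_lit 0) (nat_lit 1030174471644) (nat_lit 1) (nat_lit 5) (nat_lit 3) (nat_lit 4) (nat_lit 1) (nat_lit 4) (nat_lit 255) (nat_lit 193) (nat_lit 152))))) (XT.nd (nat_lit 312) (nat_lit 0) (nat_lit 0) (XT.nd (nat_lit 156) (nat_lit 0) (nat_lit 0) (XT.nd (nat_lit 78) (nat_lit 0) (nat_lit 0) (XT.lf (nat_lit 0) (nat_lit 1190268215307) (nat_lit 152) (nat_lit 818910013297) (nat_lit 0) (nat_lit 1187135847438) (nat_lit 1) (nat_lit 5) (nat_lit 3) (nat_lit 4) (nat_lit 1) (nat_lit 4) (nat_lit 256) (nat_lit 193) (nat_lit 151)) (XT.lf (nat_lit 0) (nat_lit 1370773408676) (nat_lit 152) (nat_lit 936977209596) (nat_lit 0) (nat_lit 1367639884203) (nat_lit 1) (nat_lit 5) (nat_lit 3) (nat_lit 4) (nat_lit 1) (nat_lit 4) (nat_lit 257) (nat_lit 193)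 (nat_lit 150))) (XT.nd (nat_lit 78) (nat_lit 0) (nat_lit 0) (XT.lf (nat_lit 0) (nat_lit 1578352712872) (nat_lit 152) (nat_lit 1072757751173) (nat_lit 0) (nat_lit 1575218182658) (nat_lit 1) (nat_lit 5) (nat_lit 3) (nat_lit 4) (nat_lit 1) (nat_lit 4) (nat_lit 258) (nat_lit 193) (nat_lit 149)) (XT.lf (nat_lit 0) (nat_lit 1817067462110) (nat_lit 152) (nat_lit 1228908213841) (nat_lit 0) (nat_lit 1813932057337) (nat_lit 1) (nat_lit 5) (nat_lit 3) (nat_lit 4) (nat_lit 1) (nat_lit 4) (nat_lit 259) (nat_lit 193) (nat_lit 148)))) (XT.nd (nat_lit 156) (nat_lit 0) (nat_lit 0) (XT.nd (nat_lit 78) (nat_lit 0) (nat_lit 0) (XT.lf (nat_lit 0) (nat_lit 2091588162352) (nat_lit 152) (nat_lit 1408483715347) (nat_lit 0) (nat_lit 2088451997093) (nat_lit 1) (nat_lit 5) (nat_lit 3) (nat_lit 4) (nat_lit 1) (nat_lit 4) (nat_lit 260) (nat_lit 193) (nat_lit 147)) (XT.lf (nat_lit 0) (nat_lit 2407285870776) (nat_lit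 152) (nat_lit 1614997689418) (nat_lit 0) (nat_lit 2404149044225) (nat_lit 1) (nat_lit 5) (nat_lit 3) (nat_lit 4) (nat_lit 1) (nat_lit 4) (nat_lit 261) (nat_lit 193) (nat_lit 146))) (XT.nd (nat_lit 78) (nat_lit 0) (nat_lit 0) (XT.lf (nat_lit 0) (nat_lit 2770337281679) (nat_lit 152) (nat_lit 1852490626849) (nat_lit 0) (nat_lit 2767199880091) (nat_lit 1) (nat_lit 5) (nat_lit 3) (nat_lit 4) (nat_lit 1) (nat_lit 4) (nat_lit 262) (nat_lit 193) (nat_lit 145)) (XT.nd (nat_lit 78) (nat_lit 0) (nat_lit 0) (XT.lf (nat_lit 0) (nat_lit 3187845574838) (nat_lit 152) (nat_lit 2125609128591) (nat_lit 0) (nat_lit 3184707673219) (nat_lit 1) (nat_lit 5) (nat_lit 3) (nat_lit 4) (nat_lit 1) (nat_lit 4) (nat_lit 263) (nat_lit 193) (nat_lit 144)) (XT.lf (nat_lit 0) (nat_lit 3667979390772) (nat_lit 152) (nat_lit 2439696817504) (nat_lit 0) (nat_lit 3664841054343) (nat_lit 1) (nat_lit 5) (nat_lit 3) (nat_lit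 4) (nat_lit 1) (nat_lit 4) (nat_lit 264) (nat_lit 193) (nat_lit 143))))))))
noncomputable def xc28 : XT := (XT.nd (nat_lit 28626) (nat_lit 0) (nat_lit 0) (XT.nd (nat_lit 27378) (nat_lit 0) (nat_lit 0) (XT.nd (nat_lit 624) (nat_lit 0) (nat_lit 0) (XT.nd (nat_lit 312) (nat_lit 0) (nat_lit 0) (XT.nd (nat_lit 156) (nat_lit 0) (nat_lit 0) (XT.nd (nat_lit 78) (nat_lit 0) (nat_lit 0) (XT.lf (nat_lit 0) (nat_lit 4220132651967) (nat_lit 152) (nat_lit 2800898887501) (nat_lit 0) (nat_lit 4216993937442) (nat_lit 1) (nat_lit 5) (nat_lit 3) (nat_lit 4) (nat_lit 1) (nat_lit 4) (nat_lit 265) (nat_lit 193) (nat_lit 142)) (XT.lf (nat_lit 0) (nat_lit 4855108357011) (nat_lit 152) (nat_lit 3216282335605) (nat_lit 0) (nat_lit 4851969313706) (nat_lit 1) (nat_lit 5) (nat_lit 3) (nat_lit 4) (nat_lit 1) (nat_lit 4) (nat_lit 266) (nat_lit 193) (nat_lit 141))) (XT.nd (nat_lit 78) (nat_lit 0) (nat_lit 0) (XT.lf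 (nat_lit 0) (nat_lit 5585329943611) (nat_lit 152) (nat_lit 3693974229277) (nat_lit 0) (nat_lit 5582190614412) (nat_lit 1) (nat_lit 5) (nat_lit 3) (nat_lit 4) (nat_lit 1) (nat_lit 4) (nat_lit 267) (nat_lit 193) (nat_lit 140)) (XT.lf (nat_lit 0) (nat_lit 6425084355853) (nat_lit 152) (nat_lit 4243320714265) (nat_lit 0) (nat_lit 6421944778050) (nat_lit 1) (nat_lit 5) (nat_lit 3) (nat_lit 4) (nat_lit 1) (nat_lit 4) (nat_lit 268) (nat_lit 193) (nat_lit 139)))) (XT.nd (nat_lit 156) (nat_lit 0) (nat_lit 0) (XT.nd (nat_lit 78) (nat_lit 0) (nat_lit 0) (XT.lf (nat_lit 0) (nat_lit 7390801571369) (nat_lit 152) (nat_lit 4875069873969) (nat_lit 0) (nat_lit 7387661777388) (nat_lit 1) (nat_lit 5) (nat_lit 3) (nat_lit 4) (nat_lit 1) (nat_lit 4) (nat_lit 269) (nat_lit 193) (nat_lit 138)) (XT.lf (nat_lit 0) (nat_lit 8501376057418) (nat_lit 152) (nat_lit 5601582018036) (nat_lit 0) (nat_lit 8498236075457)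 (nat_lit 1) (nat_lit 5) (nat_lit 3) (nat_lit 4) (nat_lit 1) (nat_lit 4) (nat_lit 270) (nat_lit 193) (nat_lit 137))) (XT.nd (nat_lit 78) (nat_lit 0) (nat_lit 0) (XT.lf (nat_lit 0) (nat_lit 9778536445248) (nat_lit 152) (nat_lit 6437071514502) (nat_lit 0) (nat_lit 9775396299826) (nat_lit 1) (nat_lit 5) (nat_lit 3) (nat_lit 4) (nat_lit 1) (nat_lit 4) (nat_lit 271) (nat_lit 193) (nat_lit 136)) (XT.lf (nat_lit 0) (nat_lit 11247270655492) (nat_lit 152) (nat_lit 7397884896994) (nat_lit 0) (nat_lit 11244130367930) (nat_lit 1) (nat_lit 5) (nat_lit 3) (nat_lit 4) (nat_lit 1) (nat_lit 4) (nat_lit 272) (nat_lit 193) (nat_lit 135))))) (XT.nd (nat_lit 1404) (nat_lit 0) (nat_lit 0) (XT.nd (nat_lit 1248) (nat_lit 0) (nat_lit 0) (XT.nd (nat_lit 78) (nat_lit 0) (nat_lit 0) (XT.lf (nat_lit 0) (nat_lit 12936314792263) (nat_lit 152) (nat_lit 8502820688212) (nat_lit 0) (nat_lit 12933174381100) (nat_lit 1)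 (nat_lit 5) (nat_lit 3) (nat_lit 4) (nat_lit 1) (nat_lit 4) (nat_lit 273) (nat_lit 193) (nat_lit 134)) (XT.lf (nat_lit 0) (nat_lit 14878715371280) (nat_lit 152) (nat_lit 9773497197116) (nat_lit 0) (nat_lit 14875574852639) (nat_lit 1) (nat_lit 5) (nat_lit 3) (nat_lit 4) (nat_lit 1) (nat_lit 4) (nat_lit 274) (nat_lit 193) (nat_lit 133))) (XT.nd (nat_lit 78) (nat_lit 0) (nat_lit 0) (XT.lf (nat_lit 0) (nat_lit 121161938604594) (nat_lit 152) (nat_lit 79301757003205) (nat_lit 0) (nat_lit 121158797457487) (nat_lit 1) (nat_lit 5) (nat_lit 3) (nat_lit 4) (nat_lit 1) (nat_lit 4) (nat_lit 289) (nat_lit 193) (nat_lit 118)) (XT.lf (nat_lit 0) (nat_lit 139338181694003) (nat_lit 152) (nat_lit 91192276037401) (nat_lit 0) (nat_lit 139335040535411) (nat_lit 1) (nat_lit 5) (nat_lit 3) (nat_lit 4) (nat_lit 1) (nat_lit 4) (nat_lit 290) (nat_lit 193) (nat_lit 117)))) (XT.nd (nat_lit 25194) (nat_lit 0) (nat_lit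 456) (XT.nd (nat_lit 25116) (nat_lit 0) (nat_lit 608) (XT.lf (nat_lit 0) (nat_lit 160240861230258) (nat_lit 152) (nat_lit 104866372959156) (nat_lit 0) (nat_lit 160237720061678) (nat_lit 1) (nat_lit 5) (nat_lit 3) (nat_lit 4) (nat_lit 1) (nat_lit 4) (nat_lit 291) (nat_lit 193) (nat_lit 116)) (XT.lf (nat_lit 0) (nat_lit 2127787303) (nat_lit 152) (nat_lit 1629401999) (nat_lit 152) (nat_lit 1629401999) (nat_lit 9) (nat_lit 4) (nat_lit 11) (nat_lit 5) (nat_lit 11) (nat_lit 4) (nat_lit 212) (nat_lit 194) (nat_lit 194))) (XT.nd (nat_lit 78) (nat_lit 76) (nat_lit 0) (XT.lf (nat_lit 0) (nat_lit 289107530) (nat_lit 228) (nat_lit 95032714) (nat_lit 76) (nat_lit 11342492375) (nat_lit 8) (nat_lit 5) (nat_lit 11) (nat_lit 5) (nat_lit 9) (nat_lit 4) (nat_lit 213) (nat_lit 194) (nat_lit 193)) (XT.lf (nat_lit 0) (nat_lit 4086366137) (nat_lit 152) (nat_lit 5786417989) (nat_lit 0) (nat_lit 2921360545)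 (nat_lit 7) (nat_lit 5) (nat_lit 9) (nat_lit 4) (nat_lit 7) (nat_lit 4) (nat_lit 214) (nat_lit 194) (nat_lit 192)))))) (XT.nd (nat_lit 624) (nat_lit 152) (nat_lit 0) (XT.nd (nat_lit 312) (nat_lit 76) (nat_lit 0) (XT.nd (nat_lit 156) (nat_lit 152) (nat_lit 0) (XT.nd (nat_lit 78) (nat_lit 0) (nat_lit 0) (XT.lf (nat_lit 0) (nat_lit 567505437) (nat_lit 76) (nat_lit 7569773762) (nat_lit 76) (nat_lit 5933582896) (nat_lit 6) (nat_lit 4) (nat_lit 7) (nat_lit 5) (nat_lit 7) (nat_lit 4) (nat_lit 215) (nat_lit 194) (nat_lit 191)) (XT.lf (nat_lit 0) (nat_lit 7923438762) (nat_lit 76) (nat_lit 4834368520) (nat_lit 76) (nat_lit 2788451328) (nat_lit 6) (nat_lit 4) (nat_lit 7) (nat_lit 5) (nat_lit 7) (nat_lit 4) (nat_lit 216) (nat_lit 194) (nat_lit 190))) (XT.nd (nat_lit 78) (nat_lit 76) (nat_lit 0) (XT.lf (nat_lit 0) (nat_lit 443351927) (nat_lit 152) (nat_lit 1448994308) (nat_lit 76) (nat_lit 15393284430)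 (nat_lit 5) (nat_lit 5) (nat_lit 7) (nat_lit 5) (nat_lit 6) (nat_lit 4) (nat_lit 217) (nat_lit 194) (nat_lit 189)) (XT.lf (nat_lit 0) (nat_lit 3902821730) (nat_lit 152) (nat_lit 13815327966) (nat_lit 0) (nat_lit 1544549626) (nat_lit 4) (nat_lit 5) (nat_lit 6) (nat_lit 4) (nat_lit 4) (nat_lit 4) (nat_lit 218) (nat_lit 194) (nat_lit 188)))) (XT.nd (nat_lit 156) (nat_lit 76) (nat_lit 0) (XT.nd (nat_lit 78) (nat_lit 0) (nat_lit 0) (XT.lf (nat_lit 0) (nat_lit 7787674604) (nat_lit 152) (nat_lit 8568383577) (nat_lit 0) (nat_lit 5195140144) (nat_lit 4) (nat_lit 5) (nat_lit 6) (nat_lit 4) (nat_lit 4) (nat_lit 4) (nat_lit 219) (nat_lit 194) (nat_lit 187)) (XT.lf (nat_lit 0) (nat_lit 12026560791) (nat_lit 152) (nat_lit 2961125597) (nat_lit 0) (nat_lit 9230319933) (nat_lit 4) (nat_lit 5) (nat_lit 6) (nat_lit 4) (nat_lit 4) (nat_lit 4) (nat_lit 220) (nat_lit 194) (nat_lit 186))) (XT.nd (nat_lit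 78) (nat_lit 0) (nat_lit 0) (XT.lf (nat_lit 0) (nat_lit 3420686349) (nat_lit 76) (nat_lit 13423371997) (nat_lit 76) (nat_lit 10449995142) (nat_lit 3) (nat_lit 4) (nat_lit 4) (nat_lit 5) (nat_lit 4) (nat_lit 4) (nat_lit 221) (nat_lit 194) (nat_lit 185)) (XT.lf (nat_lit 0) (nat_lit 10738359064) (nat_lit 76) (nat_lit 11613014878) (nat_lit 76) (nat_lit 8485606721) (nat_lit 3) (nat_lit 4) (nat_lit 4) (nat_lit 5) (nat_lit 4) (nat_lit 4) (nat_lit 222) (nat_lit 194) (nat_lit 184))))) (XT.nd (nat_lit 312) (nat_lit 76) (nat_lit 0) (XT.nd (nat_lit 156) (nat_lit 76) (nat_lit 0) (XT.nd (nat_lit 78) (nat_lit 0) (nat_lit 0) (XT.lf (nat_lit 0) (nat_lit 18845681676) (nat_lit 76) (nat_lit 9675981112) (nat_lit 76) (nat_lit 6414632692) (nat_lit 3) (nat_lit 4) (nat_lit 4) (nat_lit 5) (nat_lit 4) (nat_lit 4) (nat_lit 223) (nat_lit 194) (nat_lit 183)) (XT.lf (nat_lit 0) (nat_lit 27901275714) (nat_lit 76)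 (nat_lit 7574372212) (nat_lit 76) (nat_lit 4196553999) (nat_lit 3) (nat_lit 4) (nat_lit 4) (nat_lit 5) (nat_lit 4) (nat_lit 4) (nat_lit 224) (nat_lit 194) (nat_lit 182))) (XT.nd (nat_lit 78) (nat_lit 76) (nat_lit 0) (XT.lf (nat_lit 0) (nat_lit 38082315845) (nat_lit 76) (nat_lit 5267069744) (nat_lit 76) (nat_lit 1787973449) (nat_lit 3) (nat_lit 4) (nat_lit 4) (nat_lit 5) (nat_lit 4) (nat_lit 4) (nat_lit 225) (nat_lit 194) (nat_lit 181)) (XT.lf (nat_lit 0) (nat_lit 781827490) (nat_lit 152) (nat_lit 1886235087) (nat_lit 76) (nat_lit 48765300586) (nat_lit 2) (nat_lit 5) (nat_lit 4) (nat_lit 5) (nat_lit 3) (nat_lit 4) (nat_lit 226) (nat_lit 194) (nat_lit 180)))) (XT.nd (nat_lit 156) (nat_lit 0) (nat_lit 0) (XT.nd (nat_lit 78) (nat_lit 0) (nat_lit 0) (XT.lf (nat_lit 0) (nat_lit 3650107712) (nat_lit 152) (nat_lit 54515084219) (nat_lit 0) (nat_lit 481633823) (nat_lit 1) (nat_lit 5) (nat_lit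 3) (nat_lit 4) (nat_lit 1) (nat_lit 4) (nat_lit 227) (nat_lit 194) (nat_lit 179)) (XT.lf (nat_lit 0) (nat_lit 7082928342) (nat_lit 152) (nat_lit 55982893750) (nat_lit 0) (nat_lit 3856548382) (nat_lit 1) (nat_lit 5) (nat_lit 3) (nat_lit 4) (nat_lit 1) (nat_lit 4) (nat_lit 228) (nat_lit 194) (nat_lit 178))) (XT.nd (nat_lit 78) (nat_lit 0) (nat_lit 0) (XT.lf (nat_lit 0) (nat_lit 10947153762) (nat_lit 152) (nat_lit 57834380621) (nat_lit 0) (nat_lit 7670420696) (nat_lit 1) (nat_lit 5) (nat_lit 3) (nat_lit 4) (nat_lit 1) (nat_lit 4) (nat_lit 229) (nat_lit 194) (nat_lit 177)) (XT.lf (nat_lit 0) (nat_lit 15318388382) (nat_lit 152) (nat_lit 60105769575) (nat_lit 0) (nat_lit 11997870007) (nat_lit 1) (nat_lit 5) (nat_lit 3) (nat_lit 4) (nat_lit 1) (nat_lit 4) (nat_lit 230) (nat_lit 194) (nat_lit 176))))))) (XT.nd (nat_lit 1248) (nat_lit 0) (nat_lit 0) (XT.nd (nat_lit 624) (nat_lit 0) (nat_lit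 0) (XT.nd (nat_lit 312) (nat_lit 0) (nat_lit 0) (XT.nd (nat_lit 156) (nat_lit 0) (nat_lit 0) (XT.nd (nat_lit 78) (nat_lit 0) (nat_lit 0) (XT.lf (nat_lit 0) (nat_lit 20282156359) (nat_lit 152) (nat_lit 62841500831) (nat_lit 0) (nat_lit 16923563802) (nat_lit 1) (nat_lit 5) (nat_lit 3) (nat_lit 4) (nat_lit 1) (nat_lit 4) (nat_lit 231) (nat_lit 194) (nat_lit 175)) (XT.lf (nat_lit 0) (nat_lit 25935574891) (nat_lit 152) (nat_lit 66095099564) (nat_lit 0) (nat_lit 22543874349) (nat_lit 1) (nat_lit 5) (nat_lit 3) (nat_lit 4) (nat_lit 1) (nat_lit 4) (nat_lit 232) (nat_lit 194) (nat_lit 174))) (XT.nd (nat_lit 78) (nat_lit 0) (nat_lit 0) (XT.lf (nat_lit 0) (nat_lit 32389254342) (nat_lit 152) (nat_lit 69930223142) (nat_lit 0) (nat_lit 28968764248) (nat_lit 1) (nat_lit 5) (nat_lit 3) (nat_lit 4) (nat_lit 1) (nat_lit 4) (nat_lit 233) (nat_lit 194) (nat_lit 173)) (XT.lf (nat_lit 0) (nat_lit 39769462352)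 (nat_lit 152) (nat_lit 74421906592) (nat_lit 0) (nat_lit 36323937866) (nat_lit 1) (nat_lit 5) (nat_lit 3) (nat_lit 4) (nat_lit 1) (nat_lit 4) (nat_lit 234) (nat_lit 194) (nat_lit 172)))) (XT.nd (nat_lit 156) (nat_lit 0) (nat_lit 0) (XT.nd (nat_lit 78) (nat_lit 0) (nat_lit 0) (XT.lf (nat_lit 0) (nat_lit 48220594296) (nat_lit 152) (nat_lit 79658030676) (nat_lit 0) (nat_lit 44753300772) (nat_lit 1) (nat_lit 5) (nat_lit 3) (nat_lit 4) (nat_lit 1) (nat_lit 4) (nat_lit 235) (nat_lit 194) (nat_lit 171)) (XT.lf (nat_lit 0) (nat_lit 57907998407) (nat_lit 152) (nat_lit 85741041300) (nat_lit 0) (nat_lit 54421775286) (nat_lit 1) (nat_lit 5) (nat_lit 3) (nat_lit 4) (nat_lit 1) (nat_lit 4) (nat_lit 236) (nat_lit 194) (nat_lit 170))) (XT.nd (nat_lit 78) (nat_lit 0) (nat_lit 0) (XT.lf (nat_lit 0) (nat_lit 69021210853) (nat_lit 152) (nat_lit 92789953889) (nat_lit 0) (nat_lit 65518527212) (nat_lit 1)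 (nat_lit 5) (nat_lit 3) (nat_lit 4) (nat_lit 1) (nat_lit 4) (nat_lit 237) (nat_lit 194) (nat_lit 169)) (XT.lf (nat_lit 0) (nat_lit 81777664052) (nat_lit 152) (nat_lit 100942681952) (nat_lit 0) (nat_lit 78260666915) (nat_lit 1) (nat_lit 5) (nat_lit 3) (nat_lit 4) (nat_lit 1) (nat_lit 4) (nat_lit 238) (nat_lit 194) (nat_lit 168))))) (XT.nd (nat_lit 312) (nat_lit 0) (nat_lit 0) (XT.nd (nat_lit 156) (nat_lit 0) (nat_lit 0) (XT.nd (nat_lit 78) (nat_lit 0) (nat_lit 0) (XT.lf (nat_lit 0) (nat_lit 96426940782) (nat_lit 152) (nat_lit 110358735384) (nat_lit 0) (nat_lit 92897497128) (nat_lit 1) (nat_lit 5) (nat_lit 3) (nat_lit 4) (nat_lit 1) (nat_lit 4) (nat_lit 239) (nat_lit 194) (nat_lit 167)) (XT.lf (nat_lit 0) (nat_lit 113255657329) (nat_lit 152) (nat_lit 121222341318) (nat_lit 0) (nat_lit 109715390616) (nat_lit 1) (nat_lit 5) (nat_lit 3) (nat_lit 4) (nat_lit 1) (nat_lit 4) (nat_lit 240)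 (nat_lit 194) (nat_lit 166))) (XT.nd (nat_lit 78) (nat_lit 0) (nat_lit 0) (XT.lf (nat_lit 0) (nat_lit 132593071189) (nat_lit 152) (nat_lit 133746048567) (nat_lit 0) (nat_lit 129043393121) (nat_lit 1) (nat_lit 5) (nat_lit 3) (nat_lit 4) (nat_lit 1) (nat_lit 4) (nat_lit 241) (nat_lit 194) (nat_lit 165)) (XT.lf (nat_lit 0) (nat_lit 154817523069) (nat_lit 152) (nat_lit 148174886183) (nat_lit 0) (nat_lit 151259661213) (nat_lit 1) (nat_lit 5) (nat_lit 3) (nat_lit 4) (nat_lit 1) (nat_lit 4) (nat_lit 242) (nat_lit 194) (nat_lit 164)))) (XT.nd (nat_lit 156) (nat_lit 0) (nat_lit 0) (XT.nd (nat_lit 78) (nat_lit 0) (nat_lit 0) (XT.lf (nat_lit 0) (nat_lit 180363839201) (nat_lit 152) (nat_lit 164791157513) (nat_lit 0) (nat_lit 176798861008) (nat_lit 1) (nat_lit 5) (nat_lit 3) (nat_lit 4) (nat_lit 1) (nat_lit 4) (nat_lit 243) (nat_lit 194) (nat_lit 163)) (XT.lf (nat_lit 0) (nat_lit 209731838814)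 (nat_lit 152) (nat_lit 183919963518) (nat_lit 0) (nat_lit 206160672502) (nat_lit 1) (nat_lit 5) (nat_lit 3) (nat_lit 4) (nat_lit 1) (nat_lit 4) (nat_lit 244) (nat_lit 194) (nat_lit 162))) (XT.nd (nat_lit 78) (nat_lit 0) (nat_lit 0) (XT.lf (nat_lit 0) (nat_lit 243496113204) (nat_lit 152) (nat_lit 205935563444) (nat_lit 0) (nat_lit 239919565919) (nat_lit 1) (nat_lit 5) (nat_lit 3) (nat_lit 4) (nat_lit 1) (nat_lit 4) (nat_lit 245) (nat_lit 194) (nat_lit 161)) (XT.lf (nat_lit 0) (nat_lit 282317267740) (nat_lit 152) (nat_lit 231268697291) (nat_lit 0) (nat_lit 278736041349) (nat_lit 1) (nat_lit 5) (nat_lit 3) (nat_lit 4) (nat_lit 1) (nat_lit 4) (nat_lit 246) (nat_lit 194) (nat_lit 160)))))) (XT.nd (nat_lit 624) (nat_lit 0) (nat_lit 0) (XT.nd (nat_lit 312) (nat_lit 0) (nat_lit 0) (XT.nd (nat_lit 156) (nat_lit 0) (nat_lit 0) (XT.nd (nat_lit 78) (nat_lit 0) (nat_lit 0) (XT.lf (nat_lit 0) (nat_lit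 326954846751) (nat_lit 152) (nat_lit 260415013329) (nat_lit 0) (nat_lit 323369551570) (nat_lit 1) (nat_lit 5) (nat_lit 3) (nat_lit 4) (nat_lit 1) (nat_lit 4) (nat_lit 247) (nat_lit 194) (nat_lit 159)) (XT.lf (nat_lit 0) (nat_lit 378282194172) (nat_lit 152) (nat_lit 293944765568) (nat_lit 0) (nat_lit 374693360915) (nat_lit 1) (nat_lit 5) (nat_lit 3) (nat_lit 4) (nat_lit 1) (nat_lit 4) (nat_lit 248) (nat_lit 194) (nat_lit 158))) (XT.nd (nat_lit 78) (nat_lit 0) (nat_lit 0) (XT.lf (nat_lit 0) (nat_lit 437303540715) (nat_lit 152) (nat_lit 332513970900) (nat_lit 0) (nat_lit 433711630869) (nat_lit 1) (nat_lit 5) (nat_lit 3) (nat_lit 4) (nat_lit 1) (nat_lit 4) (nat_lit 249) (nat_lit 194) (nat_lit 157)) (XT.lf (nat_lit 0) (nat_lit 505173651856) (nat_lit 152) (nat_lit 376877244212) (nat_lit 0) (nat_lit 501579066715) (nat_lit 1) (nat_lit 5) (nat_lit 3) (nat_lit 4) (nat_lit 1) (nat_lit 4) (nat_lit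 250) (nat_lit 194) (nat_lit 156)))) (XT.nd (nat_lit 156) (nat_lit 0) (nat_lit 0) (XT.nd (nat_lit 78) (nat_lit 0) (nat_lit 0) (XT.lf (nat_lit 0) (nat_lit 583220421072) (nat_lit 152) (nat_lit 427902562589) (nat_lit 0) (nat_lit 579623509588) (nat_lit 1) (nat_lit 5) (nat_lit 3) (nat_lit 4) (nat_lit 1) (nat_lit 4) (nat_lit 251) (nat_lit 194) (nat_lit 155)) (XT.lf (nat_lit 0) (nat_lit 672970850371) (nat_lit 152) (nat_lit 486588247479) (nat_lit 0) (nat_lit 669371915980) (nat_lit 1) (nat_lit 5) (nat_lit 3) (nat_lit 4) (nat_lit 1) (nat_lit 4) (nat_lit 252) (nat_lit 194) (nat_lit 154))) (XT.nd (nat_lit 78) (nat_lit 0) (nat_lit 0) (XT.lf (nat_lit 0) (nat_lit 776180926413) (nat_lit 152) (nat_lit 554082497065) (nat_lit 0) (nat_lit 772580232973) (nat_lit 1) (nat_lit 5) (nat_lit 3) (nat_lit 4) (nat_lit 1) (nat_lit 4) (nat_lit 253) (nat_lit 194) (nat_lit 153)) (XT.lf (nat_lit 0) (nat_lit 894869976773)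 (nat_lit 152) (nat_lit 631705851011) (nat_lit 0) (nat_lit 891267753724) (nat_lit 1) (nat_lit 5) (nat_lit 3) (nat_lit 4) (nat_lit 1) (nat_lit 4) (nat_lit 254) (nat_lit 194) (nat_lit 152))))) (XT.nd (nat_lit 312) (nat_lit 0) (nat_lit 0) (XT.nd (nat_lit 156) (nat_lit 0) (nat_lit 0) (XT.nd (nat_lit 78) (nat_lit 0) (nat_lit 0) (XT.lf (nat_lit 0) (nat_lit 1031360178522) (nat_lit 152) (nat_lit 720977027113) (nat_lit 0) (nat_lit 1027756625379) (nat_lit 1) (nat_lit 5) (nat_lit 3) (nat_lit 4) (nat_lit 1) (nat_lit 4) (nat_lit 255) (nat_lit 194) (nat_lit 151)) (XT.lf (nat_lit 0) (nat_lit 1188321992130) (nat_lit 152) (nat_lit 823642635338) (nat_lit 0) (nat_lit 1184717282383) (nat_lit 1) (nat_lit 5) (nat_lit 3) (nat_lit 4) (nat_lit 1) (nat_lit 4) (nat_lit 256) (nat_lit 194) (nat_lit 150))) (XT.nd (nat_lit 78) (nat_lit 0) (nat_lit 0) (XT.lf (nat_lit 0) (nat_lit 1368826409603) (nat_lit 152) (nat_lit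 941711350629) (nat_lit 0) (nat_lit 1365220694113) (nat_lit 1) (nat_lit 5) (nat_lit 3) (nat_lit 4) (nat_lit 1) (nat_lit 4) (nat_lit 257) (nat_lit 194) (nat_lit 149)) (XT.lf (nat_lit 0) (nat_lit 1576405039107) (nat_lit 152) (nat_lit 1077493213068) (nat_lit 0) (nat_lit 1572798449059) (nat_lit 1) (nat_lit 5) (nat_lit 3) (nat_lit 4) (nat_lit 1) (nat_lit 4) (nat_lit 258) (nat_lit 194) (nat_lit 148)))) (XT.nd (nat_lit 156) (nat_lit 0) (nat_lit 0) (XT.nd (nat_lit 78) (nat_lit 0) (nat_lit 0) (XT.lf (nat_lit 0) (nat_lit 1815119201655) (nat_lit 152) (nat_lit 1233644824312) (nat_lit 0) (nat_lit 1811511851122) (nat_lit 1) (nat_lit 5) (nat_lit 3) (nat_lit 4) (nat_lit 1) (nat_lit 4) (nat_lit 259) (nat_lit 194) (nat_lit 147)) (XT.lf (nat_lit 0) (nat_lit 2089639391733) (nat_lit 152) (nat_lit 1413221324580) (nat_lit 0) (nat_lit 2086031379907) (nat_lit 1) (nat_lit 5) (nat_lit 3) (nat_lit 4) (nat_lit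 1) (nat_lit 4) (nat_lit 260) (nat_lit 194) (nat_lit 146))) (XT.nd (nat_lit 78) (nat_lit 0) (nat_lit 0) (XT.lf (nat_lit 0) (nat_lit 2405336656536) (nat_lit 152) (nat_lit 1619736167139) (nat_lit 0) (nat_lit 2401728069674) (nat_lit 1) (nat_lit 5) (nat_lit 3) (nat_lit 4) (nat_lit 1) (nat_lit 4) (nat_lit 261) (nat_lit 194) (nat_lit 145)) (XT.lf (nat_lit 0) (nat_lit 2768387681681) (nat_lit 152) (nat_lit 1857229859778) (nat_lit 0) (nat_lit 2764778594787) (nat_lit 1) (nat_lit 5) (nat_lit 3) (nat_lit 4) (nat_lit 1) (nat_lit 4) (nat_lit 262) (nat_lit 194) (nat_lit 144))))))))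
noncomputable def xc29 : XT := (XT.nd (nat_lit 27300) (nat_lit 0) (nat_lit 76) (XT.nd (nat_lit 624) (nat_lit 0) (nat_lit 0) (XT.nd (nat_lit 312) (nat_lit 0) (nat_lit 0) (XT.nd (nat_lit 156) (nat_lit 0) (nat_lit 0) (XT.nd (nat_lit 78) (nat_lit 0) (nat_lit 0) (XT.lf (nat_lit 0) (nat_lit 3185895639399) (nat_lit 152) (nat_lit 2130349018222) (nat_lit 0) (nat_lit 3182286117695) (nat_lit 1) (nat_lit 5) (nat_lit 3) (nat_lit 4) (nat_lit 1) (nat_lit 4) (nat_lit 263) (nat_lit 194) (nat_lit 143)) (XT.lf (nat_lit 0) (nat_lit 3666029163645) (nat_lit 152) (nat_lit 2444437278180) (nat_lit 0) (nat_lit 3662419263845) (nat_lit 1) (nat_lit 5) (nat_lit 3) (nat_lit 4) (nat_lit 1) (nat_lit 4) (nat_lit 264) (nat_lit 194) (nat_lit 142))) (XT.nd (nat_lit 78) (nat_lit 0) (nat_lit 0) (XT.lf (nat_lit 0) (nat_lit 4218182171197) (nat_lit 152) (nat_lit 2805639844739) (nat_lit 0) (nat_lit 4214571942619) (nat_lit 1)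 (nat_lit 5) (nat_lit 3) (nat_lit 4) (nat_lit 1) (nat_lit 4) (nat_lit 265) (nat_lit 194) (nat_lit 141)) (XT.lf (nat_lit 0) (nat_lit 4853157655683) (nat_lit 152) (nat_lit 3221023724635) (nat_lit 0) (nat_lit 4849547141210) (nat_lit 1) (nat_lit 5) (nat_lit 3) (nat_lit 4) (nat_lit 1) (nat_lit 4) (nat_lit 266) (nat_lit 194) (nat_lit 140)))) (XT.nd (nat_lit 156) (nat_lit 0) (nat_lit 0) (XT.nd (nat_lit 78) (nat_lit 0) (nat_lit 0) (XT.lf (nat_lit 0) (nat_lit 5583379050494) (nat_lit 152) (nat_lit 3698715993779) (nat_lit 0) (nat_lit 5579768287416) (nat_lit 1) (nat_lit 5) (nat_lit 3) (nat_lit 4) (nat_lit 1) (nat_lit 4) (nat_lit 267) (nat_lit 194) (nat_lit 139)) (XT.lf (nat_lit 0) (nat_lit 6423133295963) (nat_lit 152) (nat_lit 4248062805263) (nat_lit 0) (nat_lit 6419522316707) (nat_lit 1) (nat_lit 5) (nat_lit 3) (nat_lit 4) (nat_lit 1) (nat_lit 4) (nat_lit 268) (nat_lit 194) (nat_lit 138))) (XT.nd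 (nat_lit 78) (nat_lit 0) (nat_lit 0) (XT.lf (nat_lit 0) (nat_lit 7388850366458) (nat_lit 152) (nat_lit 4879812248878) (nat_lit 0) (nat_lit 7385239199222) (nat_lit 1) (nat_lit 5) (nat_lit 3) (nat_lit 4) (nat_lit 1) (nat_lit 4) (nat_lit 269) (nat_lit 194) (nat_lit 137)) (XT.lf (nat_lit 0) (nat_lit 8499424726401) (nat_lit 152) (nat_lit 5606324639823) (nat_lit 0) (nat_lit 8495813395705) (nat_lit 1) (nat_lit 5) (nat_lit 3) (nat_lit 4) (nat_lit 1) (nat_lit 4) (nat_lit 270) (nat_lit 194) (nat_lit 136))))) (XT.nd (nat_lit 1404) (nat_lit 0) (nat_lit 0) (XT.nd (nat_lit 156) (nat_lit 0) (nat_lit 0) (XT.nd (nat_lit 78) (nat_lit 0) (nat_lit 0) (XT.lf (nat_lit 0) (nat_lit 9776585004576) (nat_lit 152) (nat_lit 6441814350966) (nat_lit 0) (nat_lit 9772973531739) (nat_lit 1) (nat_lit 5) (nat_lit 3) (nat_lit 4) (nat_lit 1) (nat_lit 4) (nat_lit 271) (nat_lit 194) (nat_lit 135)) (XT.lf (nat_lit 0) (nat_lit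 11245319119466) (nat_lit 152) (nat_lit 7402627920134) (nat_lit 0) (nat_lit 11241707523029) (nat_lit 1) (nat_lit 5) (nat_lit 3) (nat_lit 4) (nat_lit 1) (nat_lit 4) (nat_lit 272) (nat_lit 194) (nat_lit 134))) (XT.nd (nat_lit 1170) (nat_lit 0) (nat_lit 0) (XT.lf (nat_lit 0) (nat_lit 12934363173321) (nat_lit 152) (nat_lit 8507563873679) (nat_lit 0) (nat_lit 12930751469405) (nat_lit 1) (nat_lit 5) (nat_lit 3) (nat_lit 4) (nat_lit 1) (nat_lit 4) (nat_lit 273) (nat_lit 194) (nat_lit 133)) (XT.lf (nat_lit 0) (nat_lit 105354557710847) (nat_lit 152) (nat_lit 68966919401423) (nat_lit 0) (nat_lit 105350945378465) (nat_lit 1) (nat_lit 5) (nat_lit 3) (nat_lit 4) (nat_lit 1) (nat_lit 4) (nat_lit 288) (nat_lit 194) (nat_lit 118)))) (XT.nd (nat_lit 25116) (nat_lit 0) (nat_lit 760) (XT.nd (nat_lit 78) (nat_lit 0) (nat_lit 0) (XT.lf (nat_lit 0) (nat_lit 121159986491951) (nat_lit 152) (nat_lit 79306501155204)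 (nat_lit 0) (nat_lit 121156374148084) (nat_lit 1) (nat_lit 5) (nat_lit 3) (nat_lit 4) (nat_lit 1) (nat_lit 4) (nat_lit 289) (nat_lit 194) (nat_lit 117)) (XT.lf (nat_lit 0) (nat_lit 139336229573655) (nat_lit 152) (nat_lit 91197020204484) (nat_lit 0) (nat_lit 139332617219800) (nat_lit 1) (nat_lit 5) (nat_lit 3) (nat_lit 4) (nat_lit 1) (nat_lit 4) (nat_lit 290) (nat_lit 194) (nat_lit 116))) (XT.nd (nat_lit 78) (nat_lit 0) (nat_lit 0) (XT.lf (nat_lit 0) (nat_lit 242947806) (nat_lit 152) (nat_lit 4163177948) (nat_lit 0) (nat_lit 242947806) (nat_lit 11) (nat_lit 5) (nat_lit 13) (nat_lit 4) (nat_lit 11) (nat_lit 4) (nat_lit 210) (nat_lit 195) (nat_lit 195)) (XT.lf (nat_lit 0) (nat_lit 4152312054) (nat_lit 152) (nat_lit 2500945756) (nat_lit 0) (nat_lit 3328206064) (nat_lit 11) (nat_lit 5) (nat_lit 13) (nat_lit 4) (nat_lit 11) (nat_lit 4) (nat_lit 211) (nat_lit 195) (nat_lit 194)))))) (XT.nd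 (nat_lit 624) (nat_lit 152) (nat_lit 0) (XT.nd (nat_lit 312) (nat_lit 228) (nat_lit 0) (XT.nd (nat_lit 156) (nat_lit 76) (nat_lit 0) (XT.nd (nat_lit 78) (nat_lit 76) (nat_lit 0) (XT.lf (nat_lit 0) (nat_lit 3948629081) (nat_lit 152) (nat_lit 4197649349) (nat_lit 152) (nat_lit 2656929454) (nat_lit 9) (nat_lit 4) (nat_lit 11) (nat_lit 5) (nat_lit 11) (nat_lit 4) (nat_lit 212) (nat_lit 195) (nat_lit 193)) (XT.lf (nat_lit 0) (nat_lit 661358287) (nat_lit 228) (nat_lit 741942102) (nat_lit 76) (nat_lit 10376928378) (nat_lit 8) (nat_lit 5) (nat_lit 11) (nat_lit 5) (nat_lit 9) (nat_lit 4) (nat_lit 213) (nat_lit 195) (nat_lit 192))) (XT.nd (nat_lit 78) (nat_lit 0) (nat_lit 0) (XT.lf (nat_lit 0) (nat_lit 4216805744) (nat_lit 152) (nat_lit 6803991083) (nat_lit 0) (nat_lit 1864000973) (nat_lit 7) (nat_lit 5) (nat_lit 9) (nat_lit 4) (nat_lit 7) (nat_lit 4) (nat_lit 214) (nat_lit 195) (nat_lit 191))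 (XT.lf (nat_lit 0) (nat_lit 8097432927) (nat_lit 152) (nat_lit 755406226) (nat_lit 0) (nat_lit 5334901831) (nat_lit 7) (nat_lit 5) (nat_lit 9) (nat_lit 4) (nat_lit 7) (nat_lit 4) (nat_lit 215) (nat_lit 195) (nat_lit 190)))) (XT.nd (nat_lit 156) (nat_lit 152) (nat_lit 0) (XT.nd (nat_lit 78) (nat_lit 0) (nat_lit 0) (XT.lf (nat_lit 0) (nat_lit 6283470510) (nat_lit 76) (nat_lit 6262441501) (nat_lit 76) (nat_lit 3143626644) (nat_lit 6) (nat_lit 4) (nat_lit 7) (nat_lit 5) (nat_lit 7) (nat_lit 4) (nat_lit 216) (nat_lit 195) (nat_lit 189)) (XT.lf (nat_lit 0) (nat_lit 14008336540) (nat_lit 76) (nat_lit 3435351341) (nat_lit 76) (nat_lit 6724517) (nat_lit 6) (nat_lit 4) (nat_lit 7) (nat_lit 5) (nat_lit 7) (nat_lit 4) (nat_lit 217) (nat_lit 195) (nat_lit 188))) (XT.nd (nat_lit 78) (nat_lit 0) (nat_lit 0) (XT.lf (nat_lit 0) (nat_lit 3126486725) (nat_lit 76) (nat_lit 47706418) (nat_lit 152) (nat_lit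 16295592736) (nat_lit 4) (nat_lit 5) (nat_lit 5) (nat_lit 5) (nat_lit 6) (nat_lit 4) (nat_lit 218) (nat_lit 195) (nat_lit 187)) (XT.lf (nat_lit 0) (nat_lit 6950701007) (nat_lit 152) (nat_lit 11292857515) (nat_lit 0) (nat_lit 3531317624) (nat_lit 4) (nat_lit 5) (nat_lit 6) (nat_lit 4) (nat_lit 4) (nat_lit 4) (nat_lit 219) (nat_lit 195) (nat_lit 186))))) (XT.nd (nat_lit 312) (nat_lit 76) (nat_lit 0) (XT.nd (nat_lit 156) (nat_lit 0) (nat_lit 0) (XT.nd (nat_lit 78) (nat_lit 76) (nat_lit 0) (XT.lf (nat_lit 0) (nat_lit 11097091897) (nat_lit 152) (nat_lit 5858189248) (nat_lit 0) (nat_lit 7500572517) (nat_lit 4) (nat_lit 5) (nat_lit 6) (nat_lit 4) (nat_lit 4) (nat_lit 4) (nat_lit 220) (nat_lit 195) (nat_lit 185)) (XT.lf (nat_lit 0) (nat_lit 75755842) (nat_lit 76) (nat_lit 15619896479) (nat_lit 76) (nat_lit 11869345796) (nat_lit 3) (nat_lit 4) (nat_lit 4) (nat_lit 5) (nat_lit 4) (nat_lit 4)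 (nat_lit 221) (nat_lit 195) (nat_lit 184))) (XT.nd (nat_lit 78) (nat_lit 0) (nat_lit 0) (XT.lf (nat_lit 0) (nat_lit 7250172273) (nat_lit 76) (nat_lit 13876923974) (nat_lit 76) (nat_lit 9992433029) (nat_lit 3) (nat_lit 4) (nat_lit 4) (nat_lit 5) (nat_lit 4) (nat_lit 4) (nat_lit 222) (nat_lit 195) (nat_lit 183)) (XT.lf (nat_lit 0) (nat_lit 15232924203) (nat_lit 76) (nat_lit 11998485525) (nat_lit 76) (nat_lit 7997524786) (nat_lit 3) (nat_lit 4) (nat_lit 4) (nat_lit 5) (nat_lit 4) (nat_lit 4) (nat_lit 223) (nat_lit 195) (nat_lit 182)))) (XT.nd (nat_lit 156) (nat_lit 76) (nat_lit 0) (XT.nd (nat_lit 78) (nat_lit 0) (nat_lit 0) (XT.lf (nat_lit 0) (nat_lit 24180195910) (nat_lit 76) (nat_lit 9947829075) (nat_lit 76) (nat_lit 5845590255) (nat_lit 3) (nat_lit 4) (nat_lit 4) (nat_lit 5) (nat_lit 4) (nat_lit 4) (nat_lit 224) (nat_lit 195) (nat_lit 181)) (XT.lf (nat_lit 0) (nat_lit 34267042708)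 (nat_lit 76) (nat_lit 7684833084) (nat_lit 76) (nat_lit 3494526367) (nat_lit 3) (nat_lit 4) (nat_lit 4) (nat_lit 5) (nat_lit 4) (nat_lit 4) (nat_lit 225) (nat_lit 195) (nat_lit 180))) (XT.nd (nat_lit 78) (nat_lit 76) (nat_lit 0) (XT.lf (nat_lit 0) (nat_lit 45690815950) (nat_lit 76) (nat_lit 5165221545) (nat_lit 76) (nat_lit 898334048) (nat_lit 3) (nat_lit 4) (nat_lit 4) (nat_lit 5) (nat_lit 4) (nat_lit 4) (nat_lit 226) (nat_lit 195) (nat_lit 179)) (XT.lf (nat_lit 0) (nat_lit 1816281529) (nat_lit 152) (nat_lit 428474190) (nat_lit 76) (nat_lit 56763800721) (nat_lit 2) (nat_lit 5) (nat_lit 4) (nat_lit 5) (nat_lit 3) (nat_lit 4) (nat_lit 227) (nat_lit 195) (nat_lit 178)))))))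
noncomputable def xc30 : XT := (XT.nd (nat_lit 1248) (nat_lit 0) (nat_lit 0) (XT.nd (nat_lit 624) (nat_lit 0) (nat_lit 0) (XT.nd (nat_lit 312) (nat_lit 0) (nat_lit 0) (XT.nd (nat_lit 156) (nat_lit 0) (nat_lit 0) (XT.nd (nat_lit 78) (nat_lit 0) (nat_lit 0) (XT.lf (nat_lit 0) (nat_lit 5096902356) (nat_lit 152) (nat_lit 60931806473) (nat_lit 0) (nat_lit 1278306224) (nat_lit 1) (nat_lit 5) (nat_lit 3) (nat_lit 4) (nat_lit 1) (nat_lit 4) (nat_lit 228) (nat_lit 195) (nat_lit 177)) (XT.lf (nat_lit 0) (nat_lit 8927348887) (nat_lit 152) (nat_lit 62849423136) (nat_lit 0) (nat_lit 5064967445) (nat_lit 1) (nat_lit 5) (nat_lit 3) (nat_lit 4) (nat_lit 1) (nat_lit 4) (nat_lit 229) (nat_lit 195) (nat_lit 176))) (XT.nd (nat_lit 78) (nat_lit 0) (nat_lit 0) (XT.lf (nat_lit 0) (nat_lit 13269210560) (nat_lit 152) (nat_lit 65178316256) (nat_lit 0) (nat_lit 9368754936) (nat_lit 1) (nat_lit 5) (nat_lit 3)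 (nat_lit 4) (nat_lit 1) (nat_lit 4) (nat_lit 230) (nat_lit 195) (nat_lit 175)) (XT.lf (nat_lit 0) (nat_lit 18207436843) (nat_lit 152) (nat_lit 67964051135) (nat_lit 0) (nat_lit 14273873235) (nat_lit 1) (nat_lit 5) (nat_lit 3) (nat_lit 4) (nat_lit 1) (nat_lit 4) (nat_lit 231) (nat_lit 195) (nat_lit 174)))) (XT.nd (nat_lit 156) (nat_lit 0) (nat_lit 0) (XT.nd (nat_lit 78) (nat_lit 0) (nat_lit 0) (XT.lf (nat_lit 0) (nat_lit 23838645207) (nat_lit 152) (nat_lit 71261131280) (nat_lit 0) (nat_lit 19876292048) (nat_lit 1) (nat_lit 5) (nat_lit 3) (nat_lit 4) (nat_lit 1) (nat_lit 4) (nat_lit 232) (nat_lit 195) (nat_lit 173)) (XT.lf (nat_lit 0) (nat_lit 30273011468) (nat_lit 152) (nat_lit 75134064781) (nat_lit 0) (nat_lit 26285623916) (nat_lit 1) (nat_lit 5) (nat_lit 3) (nat_lit 4) (nat_lit 1) (nat_lit 4) (nat_lit 233) (nat_lit 195) (nat_lit 172))) (XT.nd (nat_lit 78) (nat_lit 0) (nat_lit 0) (XT.lf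 (nat_lit 0) (nat_lit 37636425400) (nat_lit 152) (nat_lit 79658626424) (nat_lit 0) (nat_lit 33627268810) (nat_lit 1) (nat_lit 5) (nat_lit 3) (nat_lit 4) (nat_lit 1) (nat_lit 4) (nat_lit 234) (nat_lit 195) (nat_lit 171)) (XT.lf (nat_lit 0) (nat_lit 46072953798) (nat_lit 152) (nat_lit 84923340242) (nat_lit 0) (nat_lit 42044867611) (nat_lit 1) (nat_lit 5) (nat_lit 3) (nat_lit 4) (nat_lit 1) (nat_lit 4) (nat_lit 235) (nat_lit 195) (nat_lit 170))))) (XT.nd (nat_lit 312) (nat_lit 0) (nat_lit 0) (XT.nd (nat_lit 156) (nat_lit 0) (nat_lit 0) (XT.nd (nat_lit 78) (nat_lit 0) (nat_lit 0) (XT.lf (nat_lit 0) (nat_lit 55747659173) (nat_lit 152) (nat_lit 91031211504) (nat_lit 0) (nat_lit 51703112466) (nat_lit 1) (nat_lit 5) (nat_lit 3) (nat_lit 4) (nat_lit 1) (nat_lit 4) (nat_lit 236) (nat_lit 195) (nat_lit 169)) (XT.lf (nat_lit 0) (nat_lit 66849829240) (nat_lit 152) (nat_lit 98101742040) (nat_lit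 0) (nat_lit 62790969038) (nat_lit 1) (nat_lit 5) (nat_lit 3) (nat_lit 4) (nat_lit 1) (nat_lit 4) (nat_lit 237) (nat_lit 195) (nat_lit 168))) (XT.nd (nat_lit 78) (nat_lit 0) (nat_lit 0) (XT.lf (nat_lit 0) (nat_lit 79596680370) (nat_lit 152) (nat_lit 106273268317) (nat_lit 0) (nat_lit 75525373650) (nat_lit 1) (nat_lit 5) (nat_lit 3) (nat_lit 4) (nat_lit 1) (nat_lit 4) (nat_lit 238) (nat_lit 195) (nat_lit 167)) (XT.lf (nat_lit 0) (nat_lit 94237607476) (nat_lit 152) (nat_lit 115705668022) (nat_lit 0) (nat_lit 90155477697) (nat_lit 1) (nat_lit 5) (nat_lit 3) (nat_lit 4) (nat_lit 1) (nat_lit 4) (nat_lit 239) (nat_lit 195) (nat_lit 166)))) (XT.nd (nat_lit 156) (nat_lit 0) (nat_lit 0) (XT.nd (nat_lit 78) (nat_lit 0) (nat_lit 0) (XT.lf (nat_lit 0) (nat_lit 111059063479) (nat_lit 152) (nat_lit 126583488107) (nat_lit 0) (nat_lit 106967522345) (nat_lit 1) (nat_lit 5) (nat_lit 3) (nat_lit 4) (nat_lit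 1) (nat_lit 4) (nat_lit 240) (nat_lit 195) (nat_lit 165)) (XT.lf (nat_lit 0) (nat_lit 130390163823) (nat_lit 152) (nat_lit 139119555486) (nat_lit 0) (nat_lit 126290438902) (nat_lit 1) (nat_lit 5) (nat_lit 3) (nat_lit 4) (nat_lit 1) (nat_lit 4) (nat_lit 241) (nat_lit 195) (nat_lit 164))) (XT.nd (nat_lit 78) (nat_lit 0) (nat_lit 0) (XT.lf (nat_lit 0) (nat_lit 152609125689) (nat_lit 152) (nat_lit 153559141043) (nat_lit 0) (nat_lit 148502284431) (nat_lit 1) (nat_lit 5) (nat_lit 3) (nat_lit 4) (nat_lit 1) (nat_lit 4) (nat_lit 242) (nat_lit 195) (nat_lit 163)) (XT.lf (nat_lit 0) (nat_lit 178150667896) (nat_lit 152) (nat_lit 170184758407) (nat_lit 0) (nat_lit 174037638519) (nat_lit 1) (nat_lit 5) (nat_lit 3) (nat_lit 4) (nat_lit 1) (nat_lit 4) (nat_lit 243) (nat_lit 195) (nat_lit 162)))))) (XT.nd (nat_lit 624) (nat_lit 0) (nat_lit 0) (XT.nd (nat_lit 312) (nat_lit 0) (nat_lit 0) (XT.nd (nat_lit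 156) (nat_lit 0) (nat_lit 0) (XT.nd (nat_lit 78) (nat_lit 0) (nat_lit 0) (XT.lf (nat_lit 0) (nat_lit 207514516270) (nat_lit 152) (nat_lit 189321691398) (nat_lit 0) (nat_lit 203396105919) (nat_lit 1) (nat_lit 5) (nat_lit 3) (nat_lit 4) (nat_lit 1) (nat_lit 4) (nat_lit 244) (nat_lit 195) (nat_lit 161)) (XT.lf (nat_lit 0) (nat_lit 241275180887) (nat_lit 152) (nat_lit 211344358269) (nat_lit 0) (nat_lit 237152091429) (nat_lit 1) (nat_lit 5) (nat_lit 3) (nat_lit 4) (nat_lit 1) (nat_lit 4) (nat_lit 245) (nat_lit 195) (nat_lit 160))) (XT.nd (nat_lit 78) (nat_lit 0) (nat_lit 0) (XT.lf (nat_lit 0) (nat_lit 280093196490) (nat_lit 152) (nat_lit 236683637286) (nat_lit 0) (nat_lit 275966038244) (nat_lit 1) (nat_lit 5) (nat_lit 3) (nat_lit 4) (nat_lit 1) (nat_lit 4) (nat_lit 246) (nat_lit 195) (nat_lit 159)) (XT.lf (nat_lit 0) (nat_lit 324728045993) (nat_lit 152) (nat_lit 265835296950) (nat_lit 0)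 (nat_lit 320597349670) (nat_lit 1) (nat_lit 5) (nat_lit 3) (nat_lit 4) (nat_lit 1) (nat_lit 4) (nat_lit 247) (nat_lit 195) (nat_lit 158)))) (XT.nd (nat_lit 156) (nat_lit 0) (nat_lit 0) (XT.nd (nat_lit 78) (nat_lit 0) (nat_lit 0) (XT.lf (nat_lit 0) (nat_lit 376053019930) (nat_lit 152) (nat_lit 299369695820) (nat_lit 0) (nat_lit 371919247018) (nat_lit 1) (nat_lit 5) (nat_lit 3) (nat_lit 4) (nat_lit 1) (nat_lit 4) (nat_lit 248) (nat_lit 195) (nat_lit 157)) (XT.lf (nat_lit 0) (nat_lit 435072302573) (nat_lit 152) (nat_lit 337942941701) (nat_lit 0) (nat_lit 430935854367) (nat_lit 1) (nat_lit 5) (nat_lit 3) (nat_lit 4) (nat_lit 1) (nat_lit 4) (nat_lit 249) (nat_lit 195) (nat_lit 156))) (XT.nd (nat_lit 78) (nat_lit 0) (nat_lit 0) (XT.lf (nat_lit 0) (nat_lit 502940619018) (nat_lit 152) (nat_lit 382309728533) (nat_lit 0) (nat_lit 498801844469) (nat_lit 1) (nat_lit 5) (nat_lit 3) (nat_lit 4)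 (nat_lit 1) (nat_lit 4) (nat_lit 250) (nat_lit 195) (nat_lit 155)) (XT.lf (nat_lit 0) (nat_lit 580985827630) (nat_lit 152) (nat_lit 433338102146) (nat_lit 0) (nat_lit 576845030173) (nat_lit 1) (nat_lit 5) (nat_lit 3) (nat_lit 4) (nat_lit 1) (nat_lit 4) (nat_lit 251) (nat_lit 195) (nat_lit 154))))) (XT.nd (nat_lit 312) (nat_lit 0) (nat_lit 0) (XT.nd (nat_lit 156) (nat_lit 0) (nat_lit 0) (XT.nd (nat_lit 78) (nat_lit 0) (nat_lit 0) (XT.lf (nat_lit 0) (nat_lit 670734899882) (nat_lit 152) (nat_lit 492026443762) (nat_lit 0) (nat_lit 666592343376) (nat_lit 1) (nat_lit 5) (nat_lit 3) (nat_lit 4) (nat_lit 1) (nat_lit 4) (nat_lit 252) (nat_lit 195) (nat_lit 153)) (XT.lf (nat_lit 0) (nat_lit 773943795883) (nat_lit 152) (nat_lit 559523003544) (nat_lit 0) (nat_lit 769799709768) (nat_lit 1) (nat_lit 5) (nat_lit 3) (nat_lit 4) (nat_lit 1) (nat_lit 4) (nat_lit 253) (nat_lit 195) (nat_lit 152))) (XT.nd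 (nat_lit 78) (nat_lit 0) (nat_lit 0) (XT.lf (nat_lit 0) (nat_lit 892631820119) (nat_lit 152) (nat_lit 637148366358) (nat_lit 0) (nat_lit 888486403910) (nat_lit 1) (nat_lit 5) (nat_lit 3) (nat_lit 4) (nat_lit 1) (nat_lit 4) (nat_lit 254) (nat_lit 195) (nat_lit 151)) (XT.lf (nat_lit 0) (nat_lit 1029121129588) (nat_lit 152) (nat_lit 726421289300) (nat_lit 0) (nat_lit 1024974556775) (nat_lit 1) (nat_lit 5) (nat_lit 3) (nat_lit 4) (nat_lit 1) (nat_lit 4) (nat_lit 255) (nat_lit 195) (nat_lit 150)))) (XT.nd (nat_lit 156) (nat_lit 0) (nat_lit 0) (XT.nd (nat_lit 78) (nat_lit 0) (nat_lit 0) (XT.lf (nat_lit 0) (nat_lit 1186082167300) (nat_lit 152) (nat_lit 829088416517) (nat_lit 0) (nat_lit 1181934588745) (nat_lit 1) (nat_lit 5) (nat_lit 3) (nat_lit 4) (nat_lit 1) (nat_lit 4) (nat_lit 256) (nat_lit 195) (nat_lit 149)) (XT.lf (nat_lit 0) (nat_lit 1366585910080) (nat_lit 152) (nat_lit 947158452670)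 (nat_lit 0) (nat_lit 1362437456966) (nat_lit 1) (nat_lit 5) (nat_lit 3) (nat_lit 4) (nat_lit 1) (nat_lit 4) (nat_lit 257) (nat_lit 195) (nat_lit 148))) (XT.nd (nat_lit 78) (nat_lit 0) (nat_lit 0) (XT.lf (nat_lit 0) (nat_lit 1574163952895) (nat_lit 152) (nat_lit 1082941463686) (nat_lit 0) (nat_lit 1570014739295) (nat_lit 1) (nat_lit 5) (nat_lit 3) (nat_lit 4) (nat_lit 1) (nat_lit 4) (nat_lit 258) (nat_lit 195) (nat_lit 147)) (XT.nd (nat_lit 78) (nat_lit 0) (nat_lit 0) (XT.lf (nat_lit 0) (nat_lit 1812877605279) (nat_lit 152) (nat_lit 1239094073691) (nat_lit 0) (nat_lit 1808727730388) (nat_lit 1) (nat_lit 5) (nat_lit 3) (nat_lit 4) (nat_lit 1) (nat_lit 4) (nat_lit 259) (nat_lit 195) (nat_lit 146)) (XT.lf (nat_lit 0) (nat_lit 2087397351735) (nat_lit 152) (nat_lit 1418671442448) (nat_lit 0) (nat_lit 2083246901807) (nat_lit 1) (nat_lit 5) (nat_lit 3) (nat_lit 4) (nat_lit 1) (nat_lit 4) (nat_lit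 260) (nat_lit 195) (nat_lit 145))))))))
noncomputable def xc31 : XT := (XT.nd (nat_lit 28470) (nat_lit 0) (nat_lit 0) (XT.nd (nat_lit 27222) (nat_lit 0) (nat_lit 152) (XT.nd (nat_lit 624) (nat_lit 0) (nat_lit 0) (XT.nd (nat_lit 312) (nat_lit 0) (nat_lit 0) (XT.nd (nat_lit 156) (nat_lit 0) (nat_lit 0) (XT.nd (nat_lit 78) (nat_lit 0) (nat_lit 0) (XT.lf (nat_lit 0) (nat_lit 2403094230781) (nat_lit 152) (nat_lit 1625187040215) (nat_lit 0) (nat_lit 2398943280821) (nat_lit 1) (nat_lit 5) (nat_lit 3) (nat_lit 4) (nat_lit 1) (nat_lit 4) (nat_lit 261) (nat_lit 195) (nat_lit 144)) (XT.lf (nat_lit 0) (nat_lit 2766144920485) (nat_lit 152) (nat_lit 1862681389556) (nat_lit 0) (nat_lit 2761993535715) (nat_lit 1) (nat_lit 5) (nat_lit 3) (nat_lit 4) (nat_lit 1) (nat_lit 4) (nat_lit 262) (nat_lit 195) (nat_lit 143))) (XT.nd (nat_lit 78) (nat_lit 0) (nat_lit 0) (XT.lf (nat_lit 0) (nat_lit 3183652586514)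 (nat_lit 152) (nat_lit 2135801119045) (nat_lit 0) (nat_lit 3179500823649) (nat_lit 1) (nat_lit 5) (nat_lit 3) (nat_lit 4) (nat_lit 1) (nat_lit 4) (nat_lit 263) (nat_lit 195) (nat_lit 142)) (XT.lf (nat_lit 0) (nat_lit 3663785857118) (nat_lit 152) (nat_lit 2449889875565) (nat_lit 0) (nat_lit 3659633765474) (nat_lit 1) (nat_lit 5) (nat_lit 3) (nat_lit 4) (nat_lit 1) (nat_lit 4) (nat_lit 264) (nat_lit 195) (nat_lit 141)))) (XT.nd (nat_lit 156) (nat_lit 0) (nat_lit 0) (XT.nd (nat_lit 78) (nat_lit 0) (nat_lit 0) (XT.lf (nat_lit 0) (nat_lit 4215938644113) (nat_lit 152) (nat_lit 2811092873916) (nat_lit 0) (nat_lit 4211786266574) (nat_lit 1) (nat_lit 5) (nat_lit 3) (nat_lit 4) (nat_lit 1) (nat_lit 4) (nat_lit 265) (nat_lit 195) (nat_lit 140)) (XT.lf (nat_lit 0) (nat_lit 4850913936809) (nat_lit 152) (nat_lit 3226477129283) (nat_lit 0) (nat_lit 4846761310665) (nat_lit 1) (nat_lit 5) (nat_lit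 3) (nat_lit 4) (nat_lit 1) (nat_lit 4) (nat_lit 266) (nat_lit 195) (nat_lit 139))) (XT.nd (nat_lit 78) (nat_lit 0) (nat_lit 0) (XT.lf (nat_lit 0) (nat_lit 5581135164846) (nat_lit 152) (nat_lit 3704169724924) (nat_lit 0) (nat_lit 5576982322525) (nat_lit 1) (nat_lit 5) (nat_lit 3) (nat_lit 4) (nat_lit 1) (nat_lit 4) (nat_lit 267) (nat_lit 195) (nat_lit 138)) (XT.lf (nat_lit 0) (nat_lit 6420889265294) (nat_lit 152) (nat_lit 4253516820319) (nat_lit 0) (nat_lit 6416736234993) (nat_lit 1) (nat_lit 5) (nat_lit 3) (nat_lit 4) (nat_lit 1) (nat_lit 4) (nat_lit 268) (nat_lit 195) (nat_lit 137))))) (XT.nd (nat_lit 312) (nat_lit 0) (nat_lit 0) (XT.nd (nat_lit 156) (nat_lit 0) (nat_lit 0) (XT.nd (nat_lit 78) (nat_lit 0) (nat_lit 0) (XT.lf (nat_lit 0) (nat_lit 7386606209684) (nat_lit 152) (nat_lit 4885266510812) (nat_lit 0) (nat_lit 7382453015922) (nat_lit 1) (nat_lit 5) (nat_lit 3) (nat_lit 4) (nat_lit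 1) (nat_lit 4) (nat_lit 269) (nat_lit 195) (nat_lit 136)) (XT.lf (nat_lit 0) (nat_lit 8497180459972) (nat_lit 152) (nat_lit 5611779116435) (nat_lit 0) (nat_lit 8493027124069) (nat_lit 1) (nat_lit 5) (nat_lit 3) (nat_lit 4) (nat_lit 1) (nat_lit 4) (nat_lit 270) (nat_lit 195) (nat_lit 135))) (XT.nd (nat_lit 78) (nat_lit 0) (nat_lit 0) (XT.lf (nat_lit 0) (nat_lit 9774340642792) (nat_lit 152) (nat_lit 6447269014254) (nat_lit 0) (nat_lit 9770187183289) (nat_lit 1) (nat_lit 5) (nat_lit 3) (nat_lit 4) (nat_lit 1) (nat_lit 4) (nat_lit 271) (nat_lit 195) (nat_lit 134)) (XT.lf (nat_lit 0) (nat_lit 11243074674767) (nat_lit 152) (nat_lit 7408082745748) (nat_lit 0) (nat_lit 11238921107785) (nat_lit 1) (nat_lit 5) (nat_lit 3) (nat_lit 4) (nat_lit 1) (nat_lit 4) (nat_lit 272) (nat_lit 195) (nat_lit 133)))) (XT.nd (nat_lit 1248) (nat_lit 0) (nat_lit 0) (XT.nd (nat_lit 1170) (nat_lit 0) (nat_lit 0)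 (XT.lf (nat_lit 0) (nat_lit 12932118656521) (nat_lit 152) (nat_lit 8513018840447) (nat_lit 0) (nat_lit 12927964996080) (nat_lit 1) (nat_lit 5) (nat_lit 3) (nat_lit 4) (nat_lit 1) (nat_lit 4) (nat_lit 273) (nat_lit 195) (nat_lit 132)) (XT.lf (nat_lit 0) (nat_lit 105352312772447) (nat_lit 152) (nat_lit 68972375193568) (nat_lit 0) (nat_lit 105348158565513) (nat_lit 1) (nat_lit 5) (nat_lit 3) (nat_lit 4) (nat_lit 1) (nat_lit 4) (nat_lit 288) (nat_lit 195) (nat_lit 117))) (XT.nd (nat_lit 24960) (nat_lit 0) (nat_lit 1064) (XT.lf (nat_lit 0) (nat_lit 121157741545846) (nat_lit 152) (nat_lit 79311956962433) (nat_lit 0) (nat_lit 121153587328925) (nat_lit 1) (nat_lit 5) (nat_lit 3) (nat_lit 4) (nat_lit 1) (nat_lit 4) (nat_lit 289) (nat_lit 195) (nat_lit 116)) (XT.lf (nat_lit 0) (nat_lit 1539311743) (nat_lit 304) (nat_lit 1011266118) (nat_lit 0) (nat_lit 1539311743) (nat_lit 15) (nat_lit 5) (nat_lit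 19) (nat_lit 4) (nat_lit 15) (nat_lit 4) (nat_lit 208) (nat_lit 196) (nat_lit 196)))))) (XT.nd (nat_lit 624) (nat_lit 228) (nat_lit 0) (XT.nd (nat_lit 312) (nat_lit 228) (nat_lit 0) (XT.nd (nat_lit 156) (nat_lit 152) (nat_lit 0) (XT.nd (nat_lit 78) (nat_lit 152) (nat_lit 0) (XT.lf (nat_lit 0) (nat_lit 3706734711) (nat_lit 152) (nat_lit 3040454555) (nat_lit 152) (nat_lit 1950574384) (nat_lit 13) (nat_lit 4) (nat_lit 15) (nat_lit 5) (nat_lit 15) (nat_lit 4) (nat_lit 209) (nat_lit 196) (nat_lit 195)) (XT.lf (nat_lit 0) (nat_lit 654096505) (nat_lit 76) (nat_lit 597856315) (nat_lit 152) (nat_lit 8074817514) (nat_lit 11) (nat_lit 5) (nat_lit 12) (nat_lit 5) (nat_lit 13) (nat_lit 4) (nat_lit 210) (nat_lit 196) (nat_lit 194))) (XT.nd (nat_lit 78) (nat_lit 152) (nat_lit 0) (XT.lf (nat_lit 0) (nat_lit 4714117102) (nat_lit 152) (nat_lit 3102126846) (nat_lit 0) (nat_lit 2225675319) (nat_lit 11)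 (nat_lit 5) (nat_lit 13) (nat_lit 4) (nat_lit 11) (nat_lit 4) (nat_lit 211) (nat_lit 196) (nat_lit 193)) (XT.lf (nat_lit 0) (nat_lit 3021787051) (nat_lit 152) (nat_lit 5491834218) (nat_lit 152) (nat_lit 2380249909) (nat_lit 9) (nat_lit 4) (nat_lit 11) (nat_lit 5) (nat_lit 11) (nat_lit 4) (nat_lit 212) (nat_lit 196) (nat_lit 192)))) (XT.nd (nat_lit 156) (nat_lit 76) (nat_lit 0) (XT.nd (nat_lit 78) (nat_lit 76) (nat_lit 0) (XT.lf (nat_lit 0) (nat_lit 760326990) (nat_lit 228) (nat_lit 2018744345) (nat_lit 76) (nat_lit 9113849366) (nat_lit 8) (nat_lit 5) (nat_lit 11) (nat_lit 5) (nat_lit 9) (nat_lit 4) (nat_lit 213) (nat_lit 196) (nat_lit 191)) (XT.lf (nat_lit 0) (nat_lit 4051219909) (nat_lit 152) (nat_lit 8522053062) (nat_lit 0) (nat_lit 464582822) (nat_lit 7) (nat_lit 5) (nat_lit 9) (nat_lit 4) (nat_lit 7) (nat_lit 4) (nat_lit 214) (nat_lit 196) (nat_lit 190))) (XT.nd (nat_lit 78) (nat_lit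 76) (nat_lit 0) (XT.lf (nat_lit 0) (nat_lit 7804206492) (nat_lit 152) (nat_lit 2695046737) (nat_lit 0) (nat_lit 3861285644) (nat_lit 7) (nat_lit 5) (nat_lit 9) (nat_lit 4) (nat_lit 7) (nat_lit 4) (nat_lit 215) (nat_lit 196) (nat_lit 189)) (XT.lf (nat_lit 0) (nat_lit 3942767443) (nat_lit 76) (nat_lit 8102002785) (nat_lit 76) (nat_lit 3849269971) (nat_lit 6) (nat_lit 4) (nat_lit 7) (nat_lit 5) (nat_lit 7) (nat_lit 4) (nat_lit 216) (nat_lit 196) (nat_lit 188))))) (XT.nd (nat_lit 312) (nat_lit 76) (nat_lit 0) (XT.nd (nat_lit 156) (nat_lit 76) (nat_lit 0) (XT.nd (nat_lit 78) (nat_lit 76) (nat_lit 0) (XT.lf (nat_lit 0) (nat_lit 11483714533) (nat_lit 76) (nat_lit 5354701242) (nat_lit 76) (nat_lit 832566718) (nat_lit 6) (nat_lit 4) (nat_lit 7) (nat_lit 5) (nat_lit 7) (nat_lit 4) (nat_lit 217) (nat_lit 196) (nat_lit 187)) (XT.lf (nat_lit 0) (nat_lit 2197196379) (nat_lit 152) (nat_lit 32424664)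 (nat_lit 76) (nat_lit 17499905409) (nat_lit 5) (nat_lit 5) (nat_lit 7) (nat_lit 5) (nat_lit 6) (nat_lit 4) (nat_lit 218) (nat_lit 196) (nat_lit 186))) (XT.nd (nat_lit 78) (nat_lit 0) (nat_lit 0) (XT.lf (nat_lit 0) (nat_lit 5789316483) (nat_lit 152) (nat_lit 14797070427) (nat_lit 0) (nat_lit 1476183198) (nat_lit 4) (nat_lit 5) (nat_lit 6) (nat_lit 4) (nat_lit 4) (nat_lit 4) (nat_lit 219) (nat_lit 196) (nat_lit 185)) (XT.lf (nat_lit 0) (nat_lit 9855276682) (nat_lit 152) (nat_lit 9512480172) (nat_lit 0) (nat_lit 5388112094) (nat_lit 4) (nat_lit 5) (nat_lit 6) (nat_lit 4) (nat_lit 4) (nat_lit 4) (nat_lit 220) (nat_lit 196) (nat_lit 184)))) (XT.nd (nat_lit 156) (nat_lit 0) (nat_lit 0) (XT.nd (nat_lit 78) (nat_lit 76) (nat_lit 0) (XT.lf (nat_lit 0) (nat_lit 14380760485) (nat_lit 152) (nat_lit 3715782009) (nat_lit 0) (nat_lit 9779655635) (nat_lit 4) (nat_lit 5) (nat_lit 6) (nat_lit 4) (nat_lit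 4) (nat_lit 4) (nat_lit 221) (nat_lit 196) (nat_lit 183)) (XT.lf (nat_lit 0) (nat_lit 2970930498) (nat_lit 76) (nat_lit 16606399366) (nat_lit 76) (nat_lit 11888824723) (nat_lit 3) (nat_lit 4) (nat_lit 4) (nat_lit 5) (nat_lit 4) (nat_lit 4) (nat_lit 222) (nat_lit 196) (nat_lit 182))) (XT.nd (nat_lit 78) (nat_lit 0) (nat_lit 0) (XT.lf (nat_lit 0) (nat_lit 10845360096) (nat_lit 76) (nat_lit 14778913367) (nat_lit 76) (nat_lit 9960060642) (nat_lit 3) (nat_lit 4) (nat_lit 4) (nat_lit 5) (nat_lit 4) (nat_lit 4) (nat_lit 223) (nat_lit 196) (nat_lit 181)) (XT.lf (nat_lit 0) (nat_lit 19698438471) (nat_lit 76) (nat_lit 12772563394) (nat_lit 76) (nat_lit 7865642773) (nat_lit 3) (nat_lit 4) (nat_lit 4) (nat_lit 5) (nat_lit 4) (nat_lit 4) (nat_lit 224) (nat_lit 196) (nat_lit 180))))))) (XT.nd (nat_lit 1248) (nat_lit 0) (nat_lit 0) (XT.nd (nat_lit 624) (nat_lit 0) (nat_lit 0) (XT.nd (nat_lit 312)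 (nat_lit 0) (nat_lit 0) (XT.nd (nat_lit 156) (nat_lit 152) (nat_lit 0) (XT.nd (nat_lit 78) (nat_lit 0) (nat_lit 0) (XT.lf (nat_lit 0) (nat_lit 29703378024) (nat_lit 76) (nat_lit 10548094776) (nat_lit 76) (nat_lit 5564593374) (nat_lit 3) (nat_lit 4) (nat_lit 4) (nat_lit 5) (nat_lit 4) (nat_lit 4) (nat_lit 225) (nat_lit 196) (nat_lit 179)) (XT.lf (nat_lit 0) (nat_lit 41055927574) (nat_lit 76) (nat_lit 8061985299) (nat_lit 76) (nat_lit 3011891915) (nat_lit 3) (nat_lit 4) (nat_lit 4) (nat_lit 5) (nat_lit 4) (nat_lit 4) (nat_lit 226) (nat_lit 196) (nat_lit 178))) (XT.nd (nat_lit 78) (nat_lit 152) (nat_lit 0) (XT.lf (nat_lit 0) (nat_lit 53978202219) (nat_lit 76) (nat_lit 5265593691) (nat_lit 76) (nat_lit 157594235) (nat_lit 3) (nat_lit 4) (nat_lit 4) (nat_lit 5) (nat_lit 4) (nat_lit 4) (nat_lit 227) (nat_lit 196) (nat_lit 177)) (XT.lf (nat_lit 0) (nat_lit 903946639) (nat_lit 76) (nat_lit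 1915727407) (nat_lit 152) (nat_lit 64928833935) (nat_lit 1) (nat_lit 5) (nat_lit 2) (nat_lit 5) (nat_lit 3) (nat_lit 4) (nat_lit 228) (nat_lit 196) (nat_lit 176)))) (XT.nd (nat_lit 156) (nat_lit 0) (nat_lit 0) (XT.nd (nat_lit 78) (nat_lit 0) (nat_lit 0) (XT.lf (nat_lit 0) (nat_lit 6541421443) (nat_lit 152) (nat_lit 68740355985) (nat_lit 0) (nat_lit 2017823294) (nat_lit 1) (nat_lit 5) (nat_lit 3) (nat_lit 4) (nat_lit 1) (nat_lit 4) (nat_lit 229) (nat_lit 196) (nat_lit 175)) (XT.lf (nat_lit 0) (nat_lit 10857741423) (nat_lit 152) (nat_lit 71119252729) (nat_lit 0) (nat_lit 6301035289) (nat_lit 1) (nat_lit 5) (nat_lit 3) (nat_lit 4) (nat_lit 1) (nat_lit 4) (nat_lit 230) (nat_lit 196) (nat_lit 174))) (XT.nd (nat_lit 78) (nat_lit 0) (nat_lit 0) (XT.lf (nat_lit 0) (nat_lit 15773757538) (nat_lit 152) (nat_lit 73948469019) (nat_lit 0) (nat_lit 11188261853) (nat_lit 1) (nat_lit 5) (nat_lit 3)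 (nat_lit 4) (nat_lit 1) (nat_lit 4) (nat_lit 231) (nat_lit 196) (nat_lit 173)) (XT.lf (nat_lit 0) (nat_lit 21385652712) (nat_lit 152) (nat_lit 77283359087) (nat_lit 0) (nat_lit 16775122634) (nat_lit 1) (nat_lit 5) (nat_lit 3) (nat_lit 4) (nat_lit 1) (nat_lit 4) (nat_lit 232) (nat_lit 196) (nat_lit 172))))) (XT.nd (nat_lit 312) (nat_lit 0) (nat_lit 0) (XT.nd (nat_lit 156) (nat_lit 0) (nat_lit 0) (XT.nd (nat_lit 78) (nat_lit 0) (nat_lit 0) (XT.lf (nat_lit 0) (nat_lit 27803224895) (nat_lit 152) (nat_lit 81189170782) (nat_lit 0) (nat_lit 23170925780) (nat_lit 1) (nat_lit 5) (nat_lit 3) (nat_lit 4) (nat_lit 1) (nat_lit 4) (nat_lit 233) (nat_lit 196) (nat_lit 171)) (XT.lf (nat_lit 0) (nat_lit 35152035281) (nat_lit 152) (nat_lit 85742322159) (nat_lit 0) (nat_lit 30500806568) (nat_lit 1) (nat_lit 5) (nat_lit 3) (nat_lit 4) (nat_lit 1) (nat_lit 4) (nat_lit 234) (nat_lit 196) (nat_lit 170)))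 (XT.nd (nat_lit 78) (nat_lit 0) (nat_lit 0) (XT.lf (nat_lit 0) (nat_lit 43575864943) (nat_lit 152) (nat_lit 91031896615) (nat_lit 0) (nat_lit 38908175710) (nat_lit 1) (nat_lit 5) (nat_lit 3) (nat_lit 4) (nat_lit 1) (nat_lit 4) (nat_lit 235) (nat_lit 196) (nat_lit 169)) (XT.lf (nat_lit 0) (nat_lit 53239527939) (nat_lit 152) (nat_lit 97161385824) (nat_lit 0) (nat_lit 48557525212) (nat_lit 1) (nat_lit 5) (nat_lit 3) (nat_lit 4) (nat_lit 1) (nat_lit 4) (nat_lit 236) (nat_lit 196) (nat_lit 168)))) (XT.nd (nat_lit 156) (nat_lit 0) (nat_lit 0) (XT.nd (nat_lit 78) (nat_lit 0) (nat_lit 0) (XT.lf (nat_lit 0) (nat_lit 64332095938) (nat_lit 152) (nat_lit 104250714574) (nat_lit 0) (nat_lit 59637646693) (nat_lit 1) (nat_lit 5) (nat_lit 3) (nat_lit 4) (nat_lit 1) (nat_lit 4) (nat_lit 237) (nat_lit 196) (nat_lit 167)) (XT.lf (nat_lit 0) (nat_lit 77070597443) (nat_lit 152) (nat_lit 112438587123) (nat_lit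 0) (nat_lit 72365325138) (nat_lit 1) (nat_lit 5) (nat_lit 3) (nat_lit 4) (nat_lit 1) (nat_lit 4) (nat_lit 238) (nat_lit 196) (nat_lit 166))) (XT.nd (nat_lit 78) (nat_lit 0) (nat_lit 0) (XT.lf (nat_lit 0) (nat_lit 91704264005) (nat_lit 152) (nat_lit 121885200979) (nat_lit 0) (nat_lit 86989580345) (nat_lit 1) (nat_lit 5) (nat_lit 3) (nat_lit 4) (nat_lit 1) (nat_lit 4) (nat_lit 239) (nat_lit 196) (nat_lit 165)) (XT.lf (nat_lit 0) (nat_lit 108519406492) (nat_lit 152) (nat_lit 132775381195) (nat_lit 0) (nat_lit 103796539045) (nat_lit 1) (nat_lit 5) (nat_lit 3) (nat_lit 4) (nat_lit 1) (nat_lit 4) (nat_lit 240) (nat_lit 196) (nat_lit 164)))))) (XT.nd (nat_lit 624) (nat_lit 0) (nat_lit 0) (XT.nd (nat_lit 312) (nat_lit 0) (nat_lit 0) (XT.nd (nat_lit 156) (nat_lit 0) (nat_lit 0) (XT.nd (nat_lit 78) (nat_lit 0) (nat_lit 0) (XT.lf (nat_lit 0) (nat_lit 127845016822) (nat_lit 152) (nat_lit 145322196514)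 (nat_lit 0) (nat_lit 123115033038) (nat_lit 1) (nat_lit 5) (nat_lit 3) (nat_lit 4) (nat_lit 1) (nat_lit 4) (nat_lit 241) (nat_lit 196) (nat_lit 163)) (XT.lf (nat_lit 0) (nat_lit 150059204763) (nat_lit 152) (nat_lit 159771128105) (nat_lit 0) (nat_lit 145323032860) (nat_lit 1) (nat_lit 5) (nat_lit 3) (nat_lit 4) (nat_lit 1) (nat_lit 4) (nat_lit 242) (nat_lit 196) (nat_lit 162))) (XT.nd (nat_lit 78) (nat_lit 0) (nat_lit 0) (XT.lf (nat_lit 0) (nat_lit 175596595731) (nat_lit 152) (nat_lit 176404872457) (nat_lit 0) (nat_lit 170855042855) (nat_lit 1) (nat_lit 5) (nat_lit 3) (nat_lit 4) (nat_lit 1) (nat_lit 4) (nat_lit 243) (nat_lit 196) (nat_lit 161)) (XT.lf (nat_lit 0) (nat_lit 204956834331) (nat_lit 152) (nat_lit 195548872393) (nat_lit 0) (nat_lit 200210602348) (nat_lit 1) (nat_lit 5) (nat_lit 3) (nat_lit 4) (nat_lit 1) (nat_lit 4) (nat_lit 244) (nat_lit 196) (nat_lit 160)))) (XT.nd (nat_lit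 156) (nat_lit 0) (nat_lit 0) (XT.nd (nat_lit 78) (nat_lit 0) (nat_lit 0) (XT.lf (nat_lit 0) (nat_lit 238714360015) (nat_lit 152) (nat_lit 217577684433) (nat_lit 0) (nat_lit 233964059243) (nat_lit 1) (nat_lit 5) (nat_lit 3) (nat_lit 4) (nat_lit 1) (nat_lit 4) (nat_lit 245) (nat_lit 196) (nat_lit 159)) (XT.lf (nat_lit 0) (nat_lit 277529646111) (nat_lit 152) (nat_lit 242922307075) (nat_lit 0) (nat_lit 272775807262) (nat_lit 1) (nat_lit 5) (nat_lit 3) (nat_lit 4) (nat_lit 1) (nat_lit 4) (nat_lit 246) (nat_lit 196) (nat_lit 158))) (XT.nd (nat_lit 78) (nat_lit 0) (nat_lit 0) (XT.lf (nat_lit 0) (nat_lit 322162122130) (nat_lit 152) (nat_lit 272078613371) (nat_lit 0) (nat_lit 317405206692) (nat_lit 1) (nat_lit 5) (nat_lit 3) (nat_lit 4) (nat_lit 1) (nat_lit 4) (nat_lit 247) (nat_lit 196) (nat_lit 157)) (XT.lf (nat_lit 0) (nat_lit 373485032167) (nat_lit 152) (nat_lit 305617052790) (nat_lit 0)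 (nat_lit 368725441435) (nat_lit 1) (nat_lit 5) (nat_lit 3) (nat_lit 4) (nat_lit 1) (nat_lit 4) (nat_lit 248) (nat_lit 196) (nat_lit 156))))) (XT.nd (nat_lit 312) (nat_lit 0) (nat_lit 0) (XT.nd (nat_lit 156) (nat_lit 0) (nat_lit 0) (XT.nd (nat_lit 78) (nat_lit 0) (nat_lit 0) (XT.lf (nat_lit 0) (nat_lit 432502520115) (nat_lit 152) (nat_lit 344193812191) (nat_lit 0) (nat_lit 427740603040) (nat_lit 1) (nat_lit 5) (nat_lit 3) (nat_lit 4) (nat_lit 1) (nat_lit 4) (nat_lit 249) (nat_lit 196) (nat_lit 155)) (XT.lf (nat_lit 0) (nat_lit 500369275956) (nat_lit 152) (nat_lit 388563654258) (nat_lit 0) (nat_lit 495605335973) (nat_lit 1) (nat_lit 5) (nat_lit 3) (nat_lit 4) (nat_lit 1) (nat_lit 4) (nat_lit 250) (nat_lit 196) (nat_lit 154))) (XT.nd (nat_lit 78) (nat_lit 0) (nat_lit 0) (XT.lf (nat_lit 0) (nat_lit 578413127520) (nat_lit 152) (nat_lit 439594684597) (nat_lit 0) (nat_lit 573647428488) (nat_lit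 1) (nat_lit 5) (nat_lit 3) (nat_lit 4) (nat_lit 1) (nat_lit 4) (nat_lit 251) (nat_lit 196) (nat_lit 153)) (XT.lf (nat_lit 0) (nat_lit 668161019731) (nat_lit 152) (nat_lit 498285336411) (nat_lit 0) (nat_lit 663393791090) (nat_lit 1) (nat_lit 5) (nat_lit 3) (nat_lit 4) (nat_lit 1) (nat_lit 4) (nat_lit 252) (nat_lit 196) (nat_lit 152)))) (XT.nd (nat_lit 156) (nat_lit 0) (nat_lit 0) (XT.nd (nat_lit 78) (nat_lit 0) (nat_lit 0) (XT.lf (nat_lit 0) (nat_lit 771368889609) (nat_lit 152) (nat_lit 565783905060) (nat_lit 0) (nat_lit 766600330874) (nat_lit 1) (nat_lit 5) (nat_lit 3) (nat_lit 4) (nat_lit 1) (nat_lit 4) (nat_lit 253) (nat_lit 196) (nat_lit 151)) (XT.lf (nat_lit 0) (nat_lit 890056021564) (nat_lit 152) (nat_lit 643411014714) (nat_lit 0) (nat_lit 885286306226) (nat_lit 1) (nat_lit 5) (nat_lit 3) (nat_lit 4) (nat_lit 1) (nat_lit 4) (nat_lit 254) (nat_lit 196) (nat_lit 150))) (XT.nd (nat_lit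 78) (nat_lit 0) (nat_lit 0) (XT.lf (nat_lit 0) (nat_lit 1026544555137) (nat_lit 152) (nat_lit 732685456648) (nat_lit 0) (nat_lit 1021773834056) (nat_lit 1) (nat_lit 5) (nat_lit 3) (nat_lit 4) (nat_lit 1) (nat_lit 4) (nat_lit 255) (nat_lit 196) (nat_lit 149)) (XT.lf (nat_lit 0) (nat_lit 1183504918156) (nat_lit 152) (nat_lit 835353904727) (nat_lit 0) (nat_lit 1178733322517) (nat_lit 1) (nat_lit 5) (nat_lit 3) (nat_lit 4) (nat_lit 1) (nat_lit 4) (nat_lit 256) (nat_lit 196) (nat_lit 148))))))))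
noncomputable def xc32 : XT := (XT.nd (nat_lit 1248) (nat_lit 0) (nat_lit 0) (XT.nd (nat_lit 624) (nat_lit 0) (nat_lit 0) (XT.nd (nat_lit 312) (nat_lit 0) (nat_lit 0) (XT.nd (nat_lit 156) (nat_lit 0) (nat_lit 0) (XT.nd (nat_lit 78) (nat_lit 0) (nat_lit 0) (XT.lf (nat_lit 0) (nat_lit 1364008074247) (nat_lit 152) (nat_lit 953425089457) (nat_lit 0) (nat_lit 1359235718122) (nat_lit 1) (nat_lit 5) (nat_lit 3) (nat_lit 4) (nat_lit 1) (nat_lit 4) (nat_lit 257) (nat_lit 196) (nat_lit 147)) (XT.lf (nat_lit 0) (nat_lit 1571585606898) (nat_lit 152) (nat_lit 1089209099234) (nat_lit 0) (nat_lit 1566812589481) (nat_lit 1) (nat_lit 5) (nat_lit 3) (nat_lit 4) (nat_lit 1) (nat_lit 4) (nat_lit 258) (nat_lit 196) (nat_lit 146))) (XT.nd (nat_lit 78) (nat_lit 0) (nat_lit 0) (XT.lf (nat_lit 0) (nat_lit 1810298815661) (nat_lit 152) (nat_lit 1245362577729) (nat_lit 0) (nat_lit 1805525223207) (nat_lit 1) (nat_lit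 5) (nat_lit 3) (nat_lit 4) (nat_lit 1) (nat_lit 4) (nat_lit 259) (nat_lit 196) (nat_lit 145)) (XT.lf (nat_lit 0) (nat_lit 2084818176359) (nat_lit 152) (nat_lit 1424940701693) (nat_lit 0) (nat_lit 2080044083874) (nat_lit 1) (nat_lit 5) (nat_lit 3) (nat_lit 4) (nat_lit 1) (nat_lit 4) (nat_lit 260) (nat_lit 196) (nat_lit 144)))) (XT.nd (nat_lit 156) (nat_lit 0) (nat_lit 0) (XT.nd (nat_lit 78) (nat_lit 0) (nat_lit 0) (XT.lf (nat_lit 0) (nat_lit 2400514719964) (nat_lit 152) (nat_lit 1631456956161) (nat_lit 0) (nat_lit 2395740192668) (nat_lit 1) (nat_lit 5) (nat_lit 3) (nat_lit 4) (nat_lit 1) (nat_lit 4) (nat_lit 261) (nat_lit 196) (nat_lit 143)) (XT.lf (nat_lit 0) (nat_lit 2763565117979) (nat_lit 152) (nat_lit 1868951876548) (nat_lit 0) (nat_lit 2758790212588) (nat_lit 1) (nat_lit 5) (nat_lit 3) (nat_lit 4) (nat_lit 1) (nat_lit 4) (nat_lit 262) (nat_lit 196) (nat_lit 142))) (XT.nd (nat_lit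 78) (nat_lit 0) (nat_lit 0) (XT.lf (nat_lit 0) (nat_lit 3181072530367) (nat_lit 152) (nat_lit 2142072102598) (nat_lit 0) (nat_lit 3176297296197) (nat_lit 1) (nat_lit 5) (nat_lit 3) (nat_lit 4) (nat_lit 1) (nat_lit 4) (nat_lit 263) (nat_lit 196) (nat_lit 141)) (XT.lf (nat_lit 0) (nat_lit 3661205580413) (nat_lit 152) (nat_lit 2456161290910) (nat_lit 0) (nat_lit 3656430060348) (nat_lit 1) (nat_lit 5) (nat_lit 3) (nat_lit 4) (nat_lit 1) (nat_lit 4) (nat_lit 264) (nat_lit 196) (nat_lit 140))))) (XT.nd (nat_lit 312) (nat_lit 0) (nat_lit 0) (XT.nd (nat_lit 156) (nat_lit 0) (nat_lit 0) (XT.nd (nat_lit 78) (nat_lit 0) (nat_lit 0) (XT.lf (nat_lit 0) (nat_lit 4213358175617) (nat_lit 152) (nat_lit 2817364664733) (nat_lit 0) (nat_lit 4208582406948) (nat_lit 1) (nat_lit 5) (nat_lit 3) (nat_lit 4) (nat_lit 1) (nat_lit 4) (nat_lit 265) (nat_lit 196) (nat_lit 139)) (XT.lf (nat_lit 0) (nat_lit 4848333301540)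 (nat_lit 152) (nat_lit 3232749246597) (nat_lit 0) (nat_lit 4843557316693) (nat_lit 1) (nat_lit 5) (nat_lit 3) (nat_lit 4) (nat_lit 1) (nat_lit 4) (nat_lit 266) (nat_lit 196) (nat_lit 138))) (XT.nd (nat_lit 78) (nat_lit 0) (nat_lit 0) (XT.lf (nat_lit 0) (nat_lit 5578554384556) (nat_lit 152) (nat_lit 3710442126149) (nat_lit 0) (nat_lit 5573778211729) (nat_lit 1) (nat_lit 5) (nat_lit 3) (nat_lit 4) (nat_lit 1) (nat_lit 4) (nat_lit 267) (nat_lit 196) (nat_lit 137)) (XT.lf (nat_lit 0) (nat_lit 6418308358900) (nat_lit 152) (nat_lit 4259789468422) (nat_lit 0) (nat_lit 6413532022611) (nat_lit 1) (nat_lit 5) (nat_lit 3) (nat_lit 4) (nat_lit 1) (nat_lit 4) (nat_lit 268) (nat_lit 196) (nat_lit 136)))) (XT.nd (nat_lit 156) (nat_lit 0) (nat_lit 0) (XT.nd (nat_lit 78) (nat_lit 0) (nat_lit 0) (XT.lf (nat_lit 0) (nat_lit 7384025193633) (nat_lit 152) (nat_lit 4891539373592) (nat_lit 0) (nat_lit 7379248715205)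 (nat_lit 1) (nat_lit 5) (nat_lit 3) (nat_lit 4) (nat_lit 1) (nat_lit 4) (nat_lit 269) (nat_lit 196) (nat_lit 135)) (XT.lf (nat_lit 0) (nat_lit 8494599348567) (nat_lit 152) (nat_lit 5618052165891) (nat_lit 0) (nat_lit 8489822746539) (nat_lit 1) (nat_lit 5) (nat_lit 3) (nat_lit 4) (nat_lit 1) (nat_lit 4) (nat_lit 270) (nat_lit 196) (nat_lit 134))) (XT.nd (nat_lit 78) (nat_lit 0) (nat_lit 0) (XT.lf (nat_lit 0) (nat_lit 9771759448472) (nat_lit 152) (nat_lit 6453542226036) (nat_lit 0) (nat_lit 9766982738965) (nat_lit 1) (nat_lit 5) (nat_lit 3) (nat_lit 4) (nat_lit 1) (nat_lit 4) (nat_lit 271) (nat_lit 196) (nat_lit 133)) (XT.lf (nat_lit 0) (nat_lit 11240493408346) (nat_lit 152) (nat_lit 7414356098684) (nat_lit 0) (nat_lit 11235716605379) (nat_lit 1) (nat_lit 5) (nat_lit 3) (nat_lit 4) (nat_lit 1) (nat_lit 4) (nat_lit 272) (nat_lit 196) (nat_lit 132)))))) (XT.nd (nat_lit 26208) (nat_lit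 0) (nat_lit 456) (XT.nd (nat_lit 546) (nat_lit 0) (nat_lit 0) (XT.nd (nat_lit 390) (nat_lit 0) (nat_lit 0) (XT.nd (nat_lit 312) (nat_lit 0) (nat_lit 0) (XT.lf (nat_lit 0) (nat_lit 12929537327403) (nat_lit 152) (nat_lit 8519292316125) (nat_lit 0) (nat_lit 12924760443168) (nat_lit 1) (nat_lit 5) (nat_lit 3) (nat_lit 4) (nat_lit 1) (nat_lit 4) (nat_lit 273) (nat_lit 196) (nat_lit 131)) (XT.lf (nat_lit 0) (nat_lit 22628670251761) (nat_lit 152) (nat_lit 14864259696315) (nat_lit 0) (nat_lit 22623893135504) (nat_lit 1) (nat_lit 5) (nat_lit 3) (nat_lit 4) (nat_lit 1) (nat_lit 4) (nat_lit 277) (nat_lit 196) (nat_lit 127))) (XT.nd (nat_lit 78) (nat_lit 0) (nat_lit 0) (XT.lf (nat_lit 0) (nat_lit 26025940245469) (nat_lit 152) (nat_lit 17086682338021) (nat_lit 0) (nat_lit 26021163088807) (nat_lit 1) (nat_lit 5) (nat_lit 3) (nat_lit 4) (nat_lit 1) (nat_lit 4) (nat_lit 278) (nat_lit 196) (nat_lit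 126)) (XT.lf (nat_lit 0) (nat_lit 29932800679958) (nat_lit 152) (nat_lit 19642468490073) (nat_lit 0) (nat_lit 29928023488160) (nat_lit 1) (nat_lit 5) (nat_lit 3) (nat_lit 4) (nat_lit 1) (nat_lit 4) (nat_lit 279) (nat_lit 196) (nat_lit 125)))) (XT.nd (nat_lit 25506) (nat_lit 0) (nat_lit 1064) (XT.nd (nat_lit 78) (nat_lit 0) (nat_lit 0) (XT.lf (nat_lit 0) (nat_lit 34425690128944) (nat_lit 152) (nat_lit 22581622664140) (nat_lit 0) (nat_lit 34420912906594) (nat_lit 1) (nat_lit 5) (nat_lit 3) (nat_lit 4) (nat_lit 1) (nat_lit 4) (nat_lit 280) (nat_lit 196) (nat_lit 124)) (XT.lf (nat_lit 0) (nat_lit 39592512951212) (nat_lit 152) (nat_lit 25961650050586) (nat_lit 0) (nat_lit 39587735702296) (nat_lit 1) (nat_lit 5) (nat_lit 3) (nat_lit 4) (nat_lit 1) (nat_lit 4) (nat_lit 281) (nat_lit 196) (nat_lit 123))) (XT.nd (nat_lit 78) (nat_lit 304) (nat_lit 0) (XT.lf (nat_lit 0) (nat_lit 1531723357)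 (nat_lit 228) (nat_lit 1079823512) (nat_lit 228) (nat_lit 1079823512) (nat_lit 19) (nat_lit 4) (nat_lit 22) (nat_lit 5) (nat_lit 22) (nat_lit 4) (nat_lit 206) (nat_lit 197) (nat_lit 197)) (XT.lf (nat_lit 0) (nat_lit 547491729) (nat_lit 228) (nat_lit 377558622) (nat_lit 304) (nat_lit 6840235330) (nat_lit 15) (nat_lit 5) (nat_lit 18) (nat_lit 5) (nat_lit 19) (nat_lit 4) (nat_lit 207) (nat_lit 197) (nat_lit 196))))) (XT.nd (nat_lit 312) (nat_lit 304) (nat_lit 0) (XT.nd (nat_lit 156) (nat_lit 152) (nat_lit 0) (XT.nd (nat_lit 78) (nat_lit 152) (nat_lit 0) (XT.lf (nat_lit 0) (nat_lit 4136229027) (nat_lit 304) (nat_lit 2281743492) (nat_lit 0) (nat_lit 1792986657) (nat_lit 15) (nat_lit 5) (nat_lit 19) (nat_lit 4) (nat_lit 15) (nat_lit 4) (nat_lit 208) (nat_lit 197) (nat_lit 195)) (XT.lf (nat_lit 0) (nat_lit 3174762520) (nat_lit 152) (nat_lit 4437781271) (nat_lit 152) (nat_lit 1146817013) (nat_lit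 13) (nat_lit 4) (nat_lit 15) (nat_lit 5) (nat_lit 15) (nat_lit 4) (nat_lit 209) (nat_lit 197) (nat_lit 194))) (XT.nd (nat_lit 78) (nat_lit 76) (nat_lit 0) (XT.lf (nat_lit 0) (nat_lit 1791416066) (nat_lit 228) (nat_lit 263525706) (nat_lit 76) (nat_lit 7358538506) (nat_lit 12) (nat_lit 5) (nat_lit 15) (nat_lit 5) (nat_lit 13) (nat_lit 4) (nat_lit 210) (nat_lit 197) (nat_lit 193)) (XT.lf (nat_lit 0) (nat_lit 5024613045) (nat_lit 152) (nat_lit 4316251265) (nat_lit 0) (nat_lit 823148564) (nat_lit 11) (nat_lit 5) (nat_lit 13) (nat_lit 4) (nat_lit 11) (nat_lit 4) (nat_lit 211) (nat_lit 197) (nat_lit 192)))) (XT.nd (nat_lit 156) (nat_lit 76) (nat_lit 0) (XT.nd (nat_lit 78) (nat_lit 76) (nat_lit 0) (XT.lf (nat_lit 0) (nat_lit 1456914649) (nat_lit 152) (nat_lit 7166679616) (nat_lit 152) (nat_lit 2423352069) (nat_lit 9) (nat_lit 4) (nat_lit 11) (nat_lit 5) (nat_lit 11) (nat_lit 4) (nat_lit 212)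 (nat_lit 197) (nat_lit 191)) (XT.lf (nat_lit 0) (nat_lit 587949982) (nat_lit 228) (nat_lit 3950420359) (nat_lit 76) (nat_lit 7528542923) (nat_lit 8) (nat_lit 5) (nat_lit 11) (nat_lit 5) (nat_lit 9) (nat_lit 4) (nat_lit 213) (nat_lit 197) (nat_lit 190))) (XT.nd (nat_lit 78) (nat_lit 0) (nat_lit 0) (XT.lf (nat_lit 0) (nat_lit 2213917131) (nat_lit 76) (nat_lit 1431736951) (nat_lit 152) (nat_lit 9601766402) (nat_lit 7) (nat_lit 5) (nat_lit 8) (nat_lit 5) (nat_lit 9) (nat_lit 4) (nat_lit 214) (nat_lit 197) (nat_lit 189)) (XT.lf (nat_lit 0) (nat_lit 7228363666) (nat_lit 152) (nat_lit 5339888839) (nat_lit 0) (nat_lit 2027908963) (nat_lit 7) (nat_lit 5) (nat_lit 9) (nat_lit 4) (nat_lit 7) (nat_lit 4) (nat_lit 215) (nat_lit 197) (nat_lit 188)))))))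
noncomputable def xc33 : XT := (XT.nd (nat_lit 1248) (nat_lit 0) (nat_lit 0) (XT.nd (nat_lit 624) (nat_lit 152) (nat_lit 0) (XT.nd (nat_lit 312) (nat_lit 76) (nat_lit 0) (XT.nd (nat_lit 156) (nat_lit 152) (nat_lit 0) (XT.nd (nat_lit 78) (nat_lit 0) (nat_lit 0) (XT.lf (nat_lit 0) (nat_lit 855533196) (nat_lit 76) (nat_lit 10389043789) (nat_lit 76) (nat_lit 4919187376) (nat_lit 6) (nat_lit 4) (nat_lit 7) (nat_lit 5) (nat_lit 7) (nat_lit 4) (nat_lit 216) (nat_lit 197) (nat_lit 187)) (XT.lf (nat_lit 0) (nat_lit 8236550774) (nat_lit 76) (nat_lit 7711123652) (nat_lit 76) (nat_lit 2007004882) (nat_lit 6) (nat_lit 4) (nat_lit 7) (nat_lit 5) (nat_lit 7) (nat_lit 4) (nat_lit 217) (nat_lit 197) (nat_lit 186))) (XT.nd (nat_lit 78) (nat_lit 76) (nat_lit 0) (XT.lf (nat_lit 0) (nat_lit 1044518649) (nat_lit 152) (nat_lit 3662110070) (nat_lit 76) (nat_lit 15326603847) (nat_lit 5) (nat_lit 5) (nat_lit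 7) (nat_lit 5) (nat_lit 6) (nat_lit 4) (nat_lit 218) (nat_lit 197) (nat_lit 185)) (XT.lf (nat_lit 0) (nat_lit 3217505867) (nat_lit 76) (nat_lit 1109222984) (nat_lit 152) (nat_lit 18086290575) (nat_lit 4) (nat_lit 5) (nat_lit 5) (nat_lit 5) (nat_lit 6) (nat_lit 4) (nat_lit 219) (nat_lit 197) (nat_lit 184)))) (XT.nd (nat_lit 156) (nat_lit 76) (nat_lit 0) (XT.nd (nat_lit 78) (nat_lit 0) (nat_lit 0) (XT.lf (nat_lit 0) (nat_lit 8276818759) (nat_lit 152) (nat_lit 13995495365) (nat_lit 0) (nat_lit 2851607919) (nat_lit 4) (nat_lit 5) (nat_lit 6) (nat_lit 4) (nat_lit 4) (nat_lit 4) (nat_lit 220) (nat_lit 197) (nat_lit 183)) (XT.lf (nat_lit 0) (nat_lit 12741485404) (nat_lit 152) (nat_lit 8312277740) (nat_lit 0) (nat_lit 7199804770) (nat_lit 4) (nat_lit 5) (nat_lit 6) (nat_lit 4) (nat_lit 4) (nat_lit 4) (nat_lit 221) (nat_lit 197) (nat_lit 182))) (XT.nd (nat_lit 78) (nat_lit 76) (nat_lit 0) (XT.lf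 (nat_lit 0) (nat_lit 17762150401) (nat_lit 152) (nat_lit 1988736738) (nat_lit 0) (nat_lit 12119191686) (nat_lit 4) (nat_lit 5) (nat_lit 6) (nat_lit 4) (nat_lit 4) (nat_lit 4) (nat_lit 222) (nat_lit 197) (nat_lit 181)) (XT.lf (nat_lit 0) (nat_lit 5597145709) (nat_lit 76) (nat_lit 18071664312) (nat_lit 76) (nat_lit 12340637700) (nat_lit 3) (nat_lit 4) (nat_lit 4) (nat_lit 5) (nat_lit 4) (nat_lit 4) (nat_lit 223) (nat_lit 197) (nat_lit 180))))) (XT.nd (nat_lit 312) (nat_lit 152) (nat_lit 0) (XT.nd (nat_lit 156) (nat_lit 0) (nat_lit 0) (XT.nd (nat_lit 78) (nat_lit 0) (nat_lit 0) (XT.lf (nat_lit 0) (nat_lit 14368316839) (nat_lit 76) (nat_lit 16103841711) (nat_lit 76) (nat_lit 10296234319) (nat_lit 3) (nat_lit 4) (nat_lit 4) (nat_lit 5) (nat_lit 4) (nat_lit 4) (nat_lit 224) (nat_lit 197) (nat_lit 179)) (XT.lf (nat_lit 0) (nat_lit 24302032700) (nat_lit 76) (nat_lit 13912875155) (nat_lit 76)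 (nat_lit 8038675781) (nat_lit 3) (nat_lit 4) (nat_lit 4) (nat_lit 5) (nat_lit 4) (nat_lit 4) (nat_lit 225) (nat_lit 197) (nat_lit 178))) (XT.nd (nat_lit 78) (nat_lit 0) (nat_lit 0) (XT.lf (nat_lit 0) (nat_lit 35592648605) (nat_lit 76) (nat_lit 11455897907) (nat_lit 76) (nat_lit 5523792460) (nat_lit 3) (nat_lit 4) (nat_lit 4) (nat_lit 5) (nat_lit 4) (nat_lit 4) (nat_lit 226) (nat_lit 197) (nat_lit 177)) (XT.lf (nat_lit 0) (nat_lit 48461067907) (nat_lit 76) (nat_lit 8684838671) (nat_lit 76) (nat_lit 2702380119) (nat_lit 3) (nat_lit 4) (nat_lit 4) (nat_lit 5) (nat_lit 4) (nat_lit 4) (nat_lit 227) (nat_lit 197) (nat_lit 176)))) (XT.nd (nat_lit 156) (nat_lit 0) (nat_lit 0) (XT.nd (nat_lit 78) (nat_lit 76) (nat_lit 0) (XT.lf (nat_lit 0) (nat_lit 437961959) (nat_lit 152) (nat_lit 5084625648) (nat_lit 76) (nat_lit 62698208603) (nat_lit 2) (nat_lit 5) (nat_lit 4) (nat_lit 5) (nat_lit 3) (nat_lit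 4) (nat_lit 228) (nat_lit 197) (nat_lit 175)) (XT.lf (nat_lit 0) (nat_lit 2132050253) (nat_lit 76) (nat_lit 1680214070) (nat_lit 152) (nat_lit 74011796563) (nat_lit 1) (nat_lit 5) (nat_lit 2) (nat_lit 5) (nat_lit 3) (nat_lit 4) (nat_lit 229) (nat_lit 197) (nat_lit 174))) (XT.nd (nat_lit 78) (nat_lit 0) (nat_lit 0) (XT.lf (nat_lit 0) (nat_lit 8036800054) (nat_lit 152) (nat_lit 78044814707) (nat_lit 0) (nat_lit 2734690464) (nat_lit 1) (nat_lit 5) (nat_lit 3) (nat_lit 4) (nat_lit 1) (nat_lit 4) (nat_lit 230) (nat_lit 197) (nat_lit 173)) (XT.lf (nat_lit 0) (nat_lit 12933502979) (nat_lit 152) (nat_lit 80911840921) (nat_lit 0) (nat_lit 7606358996) (nat_lit 1) (nat_lit 5) (nat_lit 3) (nat_lit 4) (nat_lit 1) (nat_lit 4) (nat_lit 231) (nat_lit 197) (nat_lit 172)))))) (XT.nd (nat_lit 624) (nat_lit 0) (nat_lit 0) (XT.nd (nat_lit 312) (nat_lit 0) (nat_lit 0) (XT.nd (nat_lit 156) (nat_lit 0) (nat_lit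 0) (XT.nd (nat_lit 78) (nat_lit 0) (nat_lit 0) (XT.lf (nat_lit 0) (nat_lit 18528604075) (nat_lit 152) (nat_lit 84279609182) (nat_lit 0) (nat_lit 13179691056) (nat_lit 1) (nat_lit 5) (nat_lit 3) (nat_lit 4) (nat_lit 1) (nat_lit 4) (nat_lit 232) (nat_lit 197) (nat_lit 171)) (XT.lf (nat_lit 0) (nat_lit 24931572712) (nat_lit 152) (nat_lit 88214010611) (nat_lit 0) (nat_lit 19563730095) (nat_lit 1) (nat_lit 5) (nat_lit 3) (nat_lit 4) (nat_lit 1) (nat_lit 4) (nat_lit 233) (nat_lit 197) (nat_lit 170))) (XT.nd (nat_lit 78) (nat_lit 0) (nat_lit 0) (XT.lf (nat_lit 0) (nat_lit 32267684362) (nat_lit 152) (nat_lit 92792022627) (nat_lit 0) (nat_lit 26883381225) (nat_lit 1) (nat_lit 5) (nat_lit 3) (nat_lit 4) (nat_lit 1) (nat_lit 4) (nat_lit 234) (nat_lit 197) (nat_lit 169)) (XT.lf (nat_lit 0) (nat_lit 40680471645) (nat_lit 152) (nat_lit 98103215029) (nat_lit 0) (nat_lit 35281855013) (nat_lit 1) (nat_lit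 5) (nat_lit 3) (nat_lit 4) (nat_lit 1) (nat_lit 4) (nat_lit 235) (nat_lit 197) (nat_lit 168)))) (XT.nd (nat_lit 156) (nat_lit 0) (nat_lit 0) (XT.nd (nat_lit 78) (nat_lit 0) (nat_lit 0) (XT.lf (nat_lit 0) (nat_lit 50334532573) (nat_lit 152) (nat_lit 104251502451) (nat_lit 0) (nat_lit 44923469423) (nat_lit 1) (nat_lit 5) (nat_lit 3) (nat_lit 4) (nat_lit 1) (nat_lit 4) (nat_lit 236) (nat_lit 197) (nat_lit 167)) (XT.lf (nat_lit 0) (nat_lit 61418750947) (nat_lit 152) (nat_lit 111357177475) (nat_lit 0) (nat_lit 55996864738) (nat_lit 1) (nat_lit 5) (nat_lit 3) (nat_lit 4) (nat_lit 1) (nat_lit 4) (nat_lit 237) (nat_lit 197) (nat_lit 166))) (XT.nd (nat_lit 78) (nat_lit 0) (nat_lit 0) (XT.lf (nat_lit 0) (nat_lit 74149991908) (nat_lit 152) (nat_lit 119559264175) (nat_lit 0) (nat_lit 68718694344) (nat_lit 1) (nat_lit 5) (nat_lit 3) (nat_lit 4) (nat_lit 1) (nat_lit 4) (nat_lit 238) (nat_lit 197)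 (nat_lit 165)) (XT.lf (nat_lit 0) (nat_lit 88777344954) (nat_lit 152) (nat_lit 129018238162) (nat_lit 0) (nat_lit 83337863603) (nat_lit 1) (nat_lit 5) (nat_lit 3) (nat_lit 4) (nat_lit 1) (nat_lit 4) (nat_lit 239) (nat_lit 197) (nat_lit 164))))) (XT.nd (nat_lit 312) (nat_lit 0) (nat_lit 0) (XT.nd (nat_lit 156) (nat_lit 0) (nat_lit 0) (XT.nd (nat_lit 78) (nat_lit 0) (nat_lit 0) (XT.lf (nat_lit 0) (nat_lit 105586997427) (nat_lit 152) (nat_lit 139919166317) (nat_lit 0) (nat_lit 100140399739) (nat_lit 1) (nat_lit 5) (nat_lit 3) (nat_lit 4) (nat_lit 1) (nat_lit 4) (nat_lit 240) (nat_lit 197) (nat_lit 163)) (XT.lf (nat_lit 0) (nat_lit 124907833833) (nat_lit 152) (nat_lit 152475327671) (nat_lit 0) (nat_lit 119455048025) (nat_lit 1) (nat_lit 5) (nat_lit 3) (nat_lit 4) (nat_lit 1) (nat_lit 4) (nat_lit 241) (nat_lit 197) (nat_lit 162))) (XT.nd (nat_lit 78) (nat_lit 0) (nat_lit 0) (XT.lf (nat_lit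 0) (nat_lit 147117870534) (nat_lit 152) (nat_lit 166932386249) (nat_lit 0) (nat_lit 141659703754) (nat_lit 1) (nat_lit 5) (nat_lit 3) (nat_lit 4) (nat_lit 1) (nat_lit 4) (nat_lit 242) (nat_lit 197) (nat_lit 161)) (XT.lf (nat_lit 0) (nat_lit 172651651729) (nat_lit 152) (nat_lit 183573197545) (nat_lit 0) (nat_lit 167188805841) (nat_lit 1) (nat_lit 5) (nat_lit 3) (nat_lit 4) (nat_lit 1) (nat_lit 4) (nat_lit 243) (nat_lit 197) (nat_lit 160)))) (XT.nd (nat_lit 156) (nat_lit 0) (nat_lit 0) (XT.nd (nat_lit 78) (nat_lit 0) (nat_lit 0) (XT.lf (nat_lit 0) (nat_lit 202008751396) (nat_lit 152) (nat_lit 202723342651) (nat_lit 0) (nat_lit 196541836720) (nat_lit 1) (nat_lit 5) (nat_lit 3) (nat_lit 4) (nat_lit 1) (nat_lit 4) (nat_lit 244) (nat_lit 197) (nat_lit 159)) (XT.lf (nat_lit 0) (nat_lit 235763547573) (nat_lit 152) (nat_lit 224757498317) (nat_lit 0) (nat_lit 230293094819) (nat_lit 1) (nat_lit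 5) (nat_lit 3) (nat_lit 4) (nat_lit 1) (nat_lit 4) (nat_lit 245) (nat_lit 197) (nat_lit 158))) (XT.nd (nat_lit 78) (nat_lit 0) (nat_lit 0) (XT.lf (nat_lit 0) (nat_lit 274576460184) (nat_lit 152) (nat_lit 250106767590) (nat_lit 0) (nat_lit 269102930842) (nat_lit 1) (nat_lit 5) (nat_lit 3) (nat_lit 4) (nat_lit 1) (nat_lit 4) (nat_lit 246) (nat_lit 197) (nat_lit 157)) (XT.nd (nat_lit 78) (nat_lit 0) (nat_lit 0) (XT.lf (nat_lit 0) (nat_lit 319206872303) (nat_lit 152) (nat_lit 279267114434) (nat_lit 0) (nat_lit 313730667666) (nat_lit 1) (nat_lit 5) (nat_lit 3) (nat_lit 4) (nat_lit 1) (nat_lit 4) (nat_lit 247) (nat_lit 197) (nat_lit 156)) (XT.lf (nat_lit 0) (nat_lit 370527987645) (nat_lit 152) (nat_lit 312809067374) (nat_lit 0) (nat_lit 365049456665) (nat_lit 1) (nat_lit 5) (nat_lit 3) (nat_lit 4) (nat_lit 1) (nat_lit 4) (nat_lit 248) (nat_lit 197) (nat_lit 155))))))))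
noncomputable def xc34 : XT := (XT.nd (nat_lit 2574) (nat_lit 0) (nat_lit 0) (XT.nd (nat_lit 1248) (nat_lit 0) (nat_lit 0) (XT.nd (nat_lit 624) (nat_lit 0) (nat_lit 0) (XT.nd (nat_lit 312) (nat_lit 0) (nat_lit 0) (XT.nd (nat_lit 156) (nat_lit 0) (nat_lit 0) (XT.nd (nat_lit 78) (nat_lit 0) (nat_lit 0) (XT.lf (nat_lit 0) (nat_lit 429543914989) (nat_lit 152) (nat_lit 351388882010) (nat_lit 0) (nat_lit 424063361102) (nat_lit 1) (nat_lit 5) (nat_lit 3) (nat_lit 4) (nat_lit 1) (nat_lit 4) (nat_lit 249) (nat_lit 197) (nat_lit 154)) (XT.lf (nat_lit 0) (nat_lit 497409313782) (nat_lit 152) (nat_lit 395761380804) (nat_lit 0) (nat_lit 491927000845) (nat_lit 1) (nat_lit 5) (nat_lit 3) (nat_lit 4) (nat_lit 1) (nat_lit 4) (nat_lit 250) (nat_lit 197) (nat_lit 153))) (XT.nd (nat_lit 78) (nat_lit 0) (nat_lit 0) (XT.lf (nat_lit 0) (nat_lit 575451985305) (nat_lit 152) (nat_lit 446794721340) (nat_lit 0)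 (nat_lit 569968142760) (nat_lit 1) (nat_lit 5) (nat_lit 3) (nat_lit 4) (nat_lit 1) (nat_lit 4) (nat_lit 251) (nat_lit 197) (nat_lit 152)) (XT.lf (nat_lit 0) (nat_lit 665198851393) (nat_lit 152) (nat_lit 505487382020) (nat_lit 0) (nat_lit 659713678753) (nat_lit 1) (nat_lit 5) (nat_lit 3) (nat_lit 4) (nat_lit 1) (nat_lit 4) (nat_lit 252) (nat_lit 197) (nat_lit 151)))) (XT.nd (nat_lit 156) (nat_lit 0) (nat_lit 0) (XT.nd (nat_lit 78) (nat_lit 0) (nat_lit 0) (XT.lf (nat_lit 0) (nat_lit 768405828990) (nat_lit 152) (nat_lit 572987697510) (nat_lit 0) (nat_lit 762919499747) (nat_lit 1) (nat_lit 5) (nat_lit 3) (nat_lit 4) (nat_lit 1) (nat_lit 4) (nat_lit 253) (nat_lit 197) (nat_lit 150)) (XT.lf (nat_lit 0) (nat_lit 887092185049) (nat_lit 152) (nat_lit 650616326156) (nat_lit 0) (nat_lit 881604850064) (nat_lit 1) (nat_lit 5) (nat_lit 3) (nat_lit 4) (nat_lit 1) (nat_lit 4) (nat_lit 254) (nat_lit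 197) (nat_lit 149))) (XT.nd (nat_lit 78) (nat_lit 0) (nat_lit 0) (XT.lf (nat_lit 0) (nat_lit 1023580043929) (nat_lit 152) (nat_lit 739892088953) (nat_lit 0) (nat_lit 1018091834385) (nat_lit 1) (nat_lit 5) (nat_lit 3) (nat_lit 4) (nat_lit 1) (nat_lit 4) (nat_lit 255) (nat_lit 197) (nat_lit 148)) (XT.lf (nat_lit 0) (nat_lit 1180539820259) (nat_lit 152) (nat_lit 842561685608) (nat_lit 0) (nat_lit 1175050850230) (nat_lit 1) (nat_lit 5) (nat_lit 3) (nat_lit 4) (nat_lit 1) (nat_lit 4) (nat_lit 256) (nat_lit 197) (nat_lit 147))))) (XT.nd (nat_lit 312) (nat_lit 0) (nat_lit 0) (XT.nd (nat_lit 156) (nat_lit 0) (nat_lit 0) (XT.nd (nat_lit 78) (nat_lit 0) (nat_lit 0) (XT.lf (nat_lit 0) (nat_lit 1361042466186) (nat_lit 152) (nat_lit 960633869100) (nat_lit 0) (nat_lit 1355552834864) (nat_lit 1) (nat_lit 5) (nat_lit 3) (nat_lit 4) (nat_lit 1) (nat_lit 4) (nat_lit 257) (nat_lit 197) (nat_lit 146))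 (XT.lf (nat_lit 0) (nat_lit 1568619555215) (nat_lit 152) (nat_lit 1096418747366) (nat_lit 0) (nat_lit 1563129348857) (nat_lit 1) (nat_lit 5) (nat_lit 3) (nat_lit 4) (nat_lit 1) (nat_lit 4) (nat_lit 258) (nat_lit 197) (nat_lit 145))) (XT.nd (nat_lit 78) (nat_lit 0) (nat_lit 0) (XT.lf (nat_lit 0) (nat_lit 1807332378221) (nat_lit 152) (nat_lit 1252572981067) (nat_lit 0) (nat_lit 1801841671831) (nat_lit 1) (nat_lit 5) (nat_lit 3) (nat_lit 4) (nat_lit 1) (nat_lit 4) (nat_lit 259) (nat_lit 197) (nat_lit 144)) (XT.lf (nat_lit 0) (nat_lit 2081851403478) (nat_lit 152) (nat_lit 1432151761734) (nat_lit 0) (nat_lit 2076360262278) (nat_lit 1) (nat_lit 5) (nat_lit 3) (nat_lit 4) (nat_lit 1) (nat_lit 4) (nat_lit 260) (nat_lit 197) (nat_lit 143)))) (XT.nd (nat_lit 156) (nat_lit 0) (nat_lit 0) (XT.nd (nat_lit 78) (nat_lit 0) (nat_lit 0) (XT.lf (nat_lit 0) (nat_lit 2397547655394) (nat_lit 152) (nat_lit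 1638668587248) (nat_lit 0) (nat_lit 2392056136098) (nat_lit 1) (nat_lit 5) (nat_lit 3) (nat_lit 4) (nat_lit 1) (nat_lit 4) (nat_lit 261) (nat_lit 197) (nat_lit 142)) (XT.lf (nat_lit 0) (nat_lit 2760597799768) (nat_lit 152) (nat_lit 1876164004195) (nat_lit 0) (nat_lit 2755105951693) (nat_lit 1) (nat_lit 5) (nat_lit 3) (nat_lit 4) (nat_lit 1) (nat_lit 4) (nat_lit 262) (nat_lit 197) (nat_lit 141))) (XT.nd (nat_lit 78) (nat_lit 0) (nat_lit 0) (XT.lf (nat_lit 0) (nat_lit 3178104991597) (nat_lit 152) (nat_lit 2149284662038) (nat_lit 0) (nat_lit 3172612857628) (nat_lit 1) (nat_lit 5) (nat_lit 3) (nat_lit 4) (nat_lit 1) (nat_lit 4) (nat_lit 263) (nat_lit 197) (nat_lit 140)) (XT.lf (nat_lit 0) (nat_lit 3658237849853) (nat_lit 152) (nat_lit 2463374225821) (nat_lit 0) (nat_lit 3652745467280) (nat_lit 1) (nat_lit 5) (nat_lit 3) (nat_lit 4) (nat_lit 1) (nat_lit 4) (nat_lit 264) (nat_lit 197) (nat_lit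 139)))))) (XT.nd (nat_lit 624) (nat_lit 0) (nat_lit 0) (XT.nd (nat_lit 312) (nat_lit 0) (nat_lit 0) (XT.nd (nat_lit 156) (nat_lit 0) (nat_lit 0) (XT.nd (nat_lit 78) (nat_lit 0) (nat_lit 0) (XT.lf (nat_lit 0) (nat_lit 4210390278285) (nat_lit 152) (nat_lit 2824577926141) (nat_lit 0) (nat_lit 4204897679534) (nat_lit 1) (nat_lit 5) (nat_lit 3) (nat_lit 4) (nat_lit 1) (nat_lit 4) (nat_lit 265) (nat_lit 197) (nat_lit 138)) (XT.lf (nat_lit 0) (nat_lit 4845365259186) (nat_lit 152) (nat_lit 3239962791916) (nat_lit 0) (nat_lit 4839872472455) (nat_lit 1) (nat_lit 5) (nat_lit 3) (nat_lit 4) (nat_lit 1) (nat_lit 4) (nat_lit 266) (nat_lit 197) (nat_lit 137))) (XT.nd (nat_lit 78) (nat_lit 0) (nat_lit 0) (XT.lf (nat_lit 0) (nat_lit 5575586216098) (nat_lit 152) (nat_lit 3717655918346) (nat_lit 0) (nat_lit 5570093265905) (nat_lit 1) (nat_lit 5) (nat_lit 3) (nat_lit 4) (nat_lit 1) (nat_lit 4) (nat_lit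 267) (nat_lit 197) (nat_lit 136)) (XT.lf (nat_lit 0) (nat_lit 6415340080785) (nat_lit 152) (nat_lit 4267003475296) (nat_lit 0) (nat_lit 6409846988452) (nat_lit 1) (nat_lit 5) (nat_lit 3) (nat_lit 4) (nat_lit 1) (nat_lit 4) (nat_lit 268) (nat_lit 197) (nat_lit 135)))) (XT.nd (nat_lit 156) (nat_lit 0) (nat_lit 0) (XT.nd (nat_lit 78) (nat_lit 0) (nat_lit 0) (XT.lf (nat_lit 0) (nat_lit 7381056820165) (nat_lit 152) (nat_lit 4898753567142) (nat_lit 0) (nat_lit 7375563604232) (nat_lit 1) (nat_lit 5) (nat_lit 3) (nat_lit 4) (nat_lit 1) (nat_lit 4) (nat_lit 269) (nat_lit 197) (nat_lit 134)) (XT.lf (nat_lit 0) (nat_lit 8491630892183) (nat_lit 152) (nat_lit 5625266521767) (nat_lit 0) (nat_lit 8486137568772) (nat_lit 1) (nat_lit 5) (nat_lit 3) (nat_lit 4) (nat_lit 1) (nat_lit 4) (nat_lit 270) (nat_lit 197) (nat_lit 133))) (XT.nd (nat_lit 78) (nat_lit 0) (nat_lit 0) (XT.lf (nat_lit 0) (nat_lit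 9768790919987) (nat_lit 152) (nat_lit 6460756723067) (nat_lit 0) (nat_lit 9763297503116) (nat_lit 1) (nat_lit 5) (nat_lit 3) (nat_lit 4) (nat_lit 1) (nat_lit 4) (nat_lit 271) (nat_lit 197) (nat_lit 132)) (XT.lf (nat_lit 0) (nat_lit 11237524817165) (nat_lit 152) (nat_lit 7421570718457) (nat_lit 0) (nat_lit 11232031319025) (nat_lit 1) (nat_lit 5) (nat_lit 3) (nat_lit 4) (nat_lit 1) (nat_lit 4) (nat_lit 272) (nat_lit 197) (nat_lit 131))))) (XT.nd (nat_lit 390) (nat_lit 0) (nat_lit 0) (XT.nd (nat_lit 234) (nat_lit 0) (nat_lit 0) (XT.nd (nat_lit 156) (nat_lit 0) (nat_lit 0) (XT.lf (nat_lit 0) (nat_lit 12926568681704) (nat_lit 152) (nat_lit 8526507042631) (nat_lit 0) (nat_lit 12921075112895) (nat_lit 1) (nat_lit 5) (nat_lit 3) (nat_lit 4) (nat_lit 1) (nat_lit 4) (nat_lit 273) (nat_lit 197) (nat_lit 130)) (XT.lf (nat_lit 0) (nat_lit 17102729329004) (nat_lit 152) (nat_lit 11258462706684) (nat_lit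 0) (nat_lit 17097235645308) (nat_lit 1) (nat_lit 5) (nat_lit 3) (nat_lit 4) (nat_lit 1) (nat_lit 4) (nat_lit 275) (nat_lit 197) (nat_lit 128))) (XT.nd (nat_lit 78) (nat_lit 0) (nat_lit 0) (XT.lf (nat_lit 0) (nat_lit 19671553602690) (nat_lit 152) (nat_lit 12938933353034) (nat_lit 0) (nat_lit 19666059872528) (nat_lit 1) (nat_lit 5) (nat_lit 3) (nat_lit 4) (nat_lit 1) (nat_lit 4) (nat_lit 276) (nat_lit 197) (nat_lit 127)) (XT.lf (nat_lit 0) (nat_lit 22625701450411) (nat_lit 152) (nat_lit 14871474727539) (nat_lit 0) (nat_lit 22620207679845) (nat_lit 1) (nat_lit 5) (nat_lit 3) (nat_lit 4) (nat_lit 1) (nat_lit 4) (nat_lit 277) (nat_lit 197) (nat_lit 126)))) (XT.nd (nat_lit 156) (nat_lit 0) (nat_lit 0) (XT.nd (nat_lit 78) (nat_lit 0) (nat_lit 0) (XT.lf (nat_lit 0) (nat_lit 26022971417015) (nat_lit 152) (nat_lit 17093897422310) (nat_lit 0) (nat_lit 26017477611313) (nat_lit 1) (nat_lit 5) (nat_lit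 3) (nat_lit 4) (nat_lit 1) (nat_lit 4) (nat_lit 278) (nat_lit 197) (nat_lit 125)) (XT.lf (nat_lit 0) (nat_lit 29929831827933) (nat_lit 152) (nat_lit 19649683620505) (nat_lit 0) (nat_lit 29924337991679) (nat_lit 1) (nat_lit 5) (nat_lit 3) (nat_lit 4) (nat_lit 1) (nat_lit 4) (nat_lit 279) (nat_lit 197) (nat_lit 124))) (XT.nd (nat_lit 78) (nat_lit 0) (nat_lit 0) (XT.lf (nat_lit 0) (nat_lit 34422721256423) (nat_lit 152) (nat_lit 22588837834697) (nat_lit 0) (nat_lit 34417227393603) (nat_lit 1) (nat_lit 5) (nat_lit 3) (nat_lit 4) (nat_lit 1) (nat_lit 4) (nat_lit 280) (nat_lit 197) (nat_lit 123)) (XT.lf (nat_lit 0) (nat_lit 39589544060870) (nat_lit 152) (nat_lit 25968865256034) (nat_lit 0) (nat_lit 39584050174947) (nat_lit 1) (nat_lit 5) (nat_lit 3) (nat_lit 4) (nat_lit 1) (nat_lit 4) (nat_lit 281) (nat_lit 197) (nat_lit 122))))))) (XT.nd (nat_lit 26364) (nat_lit 0) (nat_lit 0) (XT.nd (nat_lit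 25740) (nat_lit 0) (nat_lit 380) (XT.nd (nat_lit 25428) (nat_lit 0) (nat_lit 836) (XT.nd (nat_lit 25272) (nat_lit 0) (nat_lit 1368) (XT.nd (nat_lit 25194) (nat_lit 0) (nat_lit 1596) (XT.lf (nat_lit 0) (nat_lit 45531390252663) (nat_lit 152) (nat_lit 29855896855802) (nat_lit 0) (nat_lit 45525896346652) (nat_lit 1) (nat_lit 5) (nat_lit 3) (nat_lit 4) (nat_lit 1) (nat_lit 4) (nat_lit 282) (nat_lit 197) (nat_lit 121)) (XT.lf (nat_lit 0) (nat_lit 243335482) (nat_lit 228) (nat_lit 2939022154) (nat_lit 0) (nat_lit 243335482) (nat_lit 22) (nat_lit 5) (nat_lit 25) (nat_lit 4) (nat_lit 22) (nat_lit 4) (nat_lit 204) (nat_lit 198) (nat_lit 198))) (XT.nd (nat_lit 78) (nat_lit 228) (nat_lit 0) (XT.lf (nat_lit 0) (nat_lit 3504173411) (nat_lit 228) (nat_lit 1739934880) (nat_lit 0) (nat_lit 1846601905) (nat_lit 22) (nat_lit 5) (nat_lit 25) (nat_lit 4) (nat_lit 22) (nat_lit 4) (nat_lit 205) (nat_lit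 198) (nat_lit 197)) (XT.lf (nat_lit 0) (nat_lit 2845644777) (nat_lit 228) (nat_lit 3834274126) (nat_lit 228) (nat_lit 735336092) (nat_lit 19) (nat_lit 4) (nat_lit 22) (nat_lit 5) (nat_lit 22) (nat_lit 4) (nat_lit 206) (nat_lit 198) (nat_lit 196)))) (XT.nd (nat_lit 156) (nat_lit 228) (nat_lit 0) (XT.nd (nat_lit 78) (nat_lit 228) (nat_lit 0) (XT.lf (nat_lit 0) (nat_lit 2015111330) (nat_lit 304) (nat_lit 19810870) (nat_lit 76) (nat_lit 5786964716) (nat_lit 18) (nat_lit 5) (nat_lit 22) (nat_lit 5) (nat_lit 19) (nat_lit 4) (nat_lit 207) (nat_lit 198) (nat_lit 195)) (XT.lf (nat_lit 0) (nat_lit 4986495559) (nat_lit 304) (nat_lit 3064448784) (nat_lit 0) (nat_lit 254164773) (nat_lit 15) (nat_lit 5) (nat_lit 19) (nat_lit 4) (nat_lit 15) (nat_lit 4) (nat_lit 208) (nat_lit 198) (nat_lit 194))) (XT.nd (nat_lit 78) (nat_lit 76) (nat_lit 0) (XT.lf (nat_lit 0) (nat_lit 2100409987) (nat_lit 152) (nat_lit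 6169893532) (nat_lit 152) (nat_lit 613456756) (nat_lit 13) (nat_lit 4) (nat_lit 15) (nat_lit 5) (nat_lit 15) (nat_lit 4) (nat_lit 209) (nat_lit 198) (nat_lit 193)) (XT.lf (nat_lit 0) (nat_lit 2133246517) (nat_lit 228) (nat_lit 1686570667) (nat_lit 76) (nat_lit 5737395296) (nat_lit 12) (nat_lit 5) (nat_lit 15) (nat_lit 5) (nat_lit 13) (nat_lit 4) (nat_lit 210) (nat_lit 198) (nat_lit 192))))) (XT.nd (nat_lit 312) (nat_lit 152) (nat_lit 0) (XT.nd (nat_lit 156) (nat_lit 228) (nat_lit 0) (XT.nd (nat_lit 78) (nat_lit 0) (nat_lit 0) (XT.lf (nat_lit 0) (nat_lit 4135658176) (nat_lit 76) (nat_lit 995435489) (nat_lit 152) (nat_lit 5212856992) (nat_lit 11) (nat_lit 5) (nat_lit 12) (nat_lit 5) (nat_lit 13) (nat_lit 4) (nat_lit 211) (nat_lit 198) (nat_lit 191)) (XT.lf (nat_lit 0) (nat_lit 8510506627) (nat_lit 152) (nat_lit 707466428) (nat_lit 0) (nat_lit 2042631608) (nat_lit 11) (nat_lit 5) (nat_lit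 13) (nat_lit 4) (nat_lit 11) (nat_lit 4) (nat_lit 212) (nat_lit 198) (nat_lit 190))) (XT.nd (nat_lit 78) (nat_lit 0) (nat_lit 0) (XT.lf (nat_lit 0) (nat_lit 140854669) (nat_lit 228) (nat_lit 6574763804) (nat_lit 76) (nat_lit 5589992185) (nat_lit 8) (nat_lit 5) (nat_lit 11) (nat_lit 5) (nat_lit 9) (nat_lit 4) (nat_lit 213) (nat_lit 198) (nat_lit 189)) (XT.lf (nat_lit 0) (nat_lit 3006233311) (nat_lit 228) (nat_lit 770483485) (nat_lit 76) (nat_lit 9738766254) (nat_lit 8) (nat_lit 5) (nat_lit 11) (nat_lit 5) (nat_lit 9) (nat_lit 4) (nat_lit 214) (nat_lit 198) (nat_lit 188)))) (XT.nd (nat_lit 156) (nat_lit 76) (nat_lit 0) (XT.nd (nat_lit 78) (nat_lit 0) (nat_lit 0) (XT.lf (nat_lit 0) (nat_lit 6147027360) (nat_lit 76) (nat_lit 220751445) (nat_lit 152) (nat_lit 8530068845) (nat_lit 7) (nat_lit 5) (nat_lit 8) (nat_lit 5) (nat_lit 9) (nat_lit 4) (nat_lit 215) (nat_lit 198) (nat_lit 187)) (XT.lf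 (nat_lit 0) (nat_lit 10255499706) (nat_lit 152) (nat_lit 2768114371) (nat_lit 0) (nat_lit 3461500765) (nat_lit 7) (nat_lit 5) (nat_lit 9) (nat_lit 4) (nat_lit 7) (nat_lit 4) (nat_lit 216) (nat_lit 198) (nat_lit 186))) (XT.nd (nat_lit 78) (nat_lit 0) (nat_lit 0) (XT.lf (nat_lit 0) (nat_lit 4203313796) (nat_lit 76) (nat_lit 10550722486) (nat_lit 76) (nat_lit 3553017147) (nat_lit 6) (nat_lit 4) (nat_lit 7) (nat_lit 5) (nat_lit 7) (nat_lit 4) (nat_lit 217) (nat_lit 198) (nat_lit 185)) (XT.lf (nat_lit 0) (nat_lit 12271555669) (nat_lit 76) (nat_lit 7653289703) (nat_lit 76) (nat_lit 478448367) (nat_lit 6) (nat_lit 4) (nat_lit 7) (nat_lit 5) (nat_lit 7) (nat_lit 4) (nat_lit 218) (nat_lit 198) (nat_lit 184)))))) (XT.nd (nat_lit 624) (nat_lit 152) (nat_lit 0) (XT.nd (nat_lit 312) (nat_lit 76) (nat_lit 0) (XT.nd (nat_lit 156) (nat_lit 0) (nat_lit 0) (XT.nd (nat_lit 78) (nat_lit 76) (nat_lit 0)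 (XT.lf (nat_lit 0) (nat_lit 2650520758) (nat_lit 152) (nat_lit 1630253007) (nat_lit 76) (nat_lit 18534877177) (nat_lit 5) (nat_lit 5) (nat_lit 7) (nat_lit 5) (nat_lit 6) (nat_lit 4) (nat_lit 219) (nat_lit 198) (nat_lit 183)) (XT.lf (nat_lit 0) (nat_lit 6163979249) (nat_lit 76) (nat_lit 174063611) (nat_lit 152) (nat_lit 19228089986) (nat_lit 4) (nat_lit 5) (nat_lit 5) (nat_lit 5) (nat_lit 6) (nat_lit 4) (nat_lit 220) (nat_lit 198) (nat_lit 182))) (XT.nd (nat_lit 78) (nat_lit 0) (nat_lit 0) (XT.lf (nat_lit 0) (nat_lit 10742617416) (nat_lit 152) (nat_lit 13810407098) (nat_lit 0) (nat_lit 4151936813) (nat_lit 4) (nat_lit 5) (nat_lit 6) (nat_lit 4) (nat_lit 4) (nat_lit 4) (nat_lit 221) (nat_lit 198) (nat_lit 181)) (XT.lf (nat_lit 0) (nat_lit 15717295905) (nat_lit 152) (nat_lit 7572673687) (nat_lit 0) (nat_lit 9038547404) (nat_lit 4) (nat_lit 5) (nat_lit 6) (nat_lit 4) (nat_lit 4) (nat_lit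 4) (nat_lit 222) (nat_lit 198) (nat_lit 180)))) (XT.nd (nat_lit 156) (nat_lit 0) (nat_lit 0) (XT.nd (nat_lit 78) (nat_lit 76) (nat_lit 0) (XT.lf (nat_lit 0) (nat_lit 21352201388) (nat_lit 152) (nat_lit 559703150) (nat_lit 0) (nat_lit 14596872107) (nat_lit 4) (nat_lit 5) (nat_lit 6) (nat_lit 4) (nat_lit 4) (nat_lit 4) (nat_lit 223) (nat_lit 198) (nat_lit 179)) (XT.lf (nat_lit 0) (nat_lit 8085546025) (nat_lit 76) (nat_lit 20006841210) (nat_lit 76) (nat_lit 13184919947) (nat_lit 3) (nat_lit 4) (nat_lit 4) (nat_lit 5) (nat_lit 4) (nat_lit 4) (nat_lit 224) (nat_lit 198) (nat_lit 178))) (XT.nd (nat_lit 78) (nat_lit 0) (nat_lit 0) (XT.lf (nat_lit 0) (nat_lit 17957328242) (nat_lit 76) (nat_lit 17845006882) (nat_lit 76) (nat_lit 10965179548) (nat_lit 3) (nat_lit 4) (nat_lit 4) (nat_lit 5) (nat_lit 4) (nat_lit 4) (nat_lit 225) (nat_lit 198) (nat_lit 177)) (XT.lf (nat_lit 0) (nat_lit 29194088803)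 (nat_lit 76) (nat_lit 15413362006) (nat_lit 76) (nat_lit 8483181566) (nat_lit 3) (nat_lit 4) (nat_lit 4) (nat_lit 5) (nat_lit 4) (nat_lit 4) (nat_lit 226) (nat_lit 198) (nat_lit 176))))) (XT.nd (nat_lit 312) (nat_lit 0) (nat_lit 0) (XT.nd (nat_lit 156) (nat_lit 152) (nat_lit 0) (XT.nd (nat_lit 78) (nat_lit 0) (nat_lit 0) (XT.lf (nat_lit 0) (nat_lit 42015677372) (nat_lit 76) (nat_lit 12664330921) (nat_lit 76) (nat_lit 5690365171) (nat_lit 3) (nat_lit 4) (nat_lit 4) (nat_lit 5) (nat_lit 4) (nat_lit 4) (nat_lit 227) (nat_lit 198) (nat_lit 175)) (XT.lf (nat_lit 0) (nat_lit 56672951116) (nat_lit 76) (nat_lit 9544128236) (nat_lit 76) (nat_lit 2532088304) (nat_lit 3) (nat_lit 4) (nat_lit 4) (nat_lit 5) (nat_lit 4) (nat_lit 4) (nat_lit 228) (nat_lit 198) (nat_lit 174))) (XT.nd (nat_lit 78) (nat_lit 76) (nat_lit 0) (XT.lf (nat_lit 0) (nat_lit 959656769) (nat_lit 152) (nat_lit 4981885861) (nat_lit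 76) (nat_lit 72442862137) (nat_lit 2) (nat_lit 5) (nat_lit 4) (nat_lit 5) (nat_lit 3) (nat_lit 4) (nat_lit 229) (nat_lit 198) (nat_lit 173)) (XT.lf (nat_lit 0) (nat_lit 3277953532) (nat_lit 76) (nat_lit 1536879491) (nat_lit 152) (nat_lit 84617261729) (nat_lit 1) (nat_lit 5) (nat_lit 2) (nat_lit 5) (nat_lit 3) (nat_lit 4) (nat_lit 230) (nat_lit 198) (nat_lit 172)))) (XT.nd (nat_lit 156) (nat_lit 0) (nat_lit 0) (XT.nd (nat_lit 78) (nat_lit 0) (nat_lit 0) (XT.lf (nat_lit 0) (nat_lit 9631102968) (nat_lit 152) (nat_lit 88990406724) (nat_lit 0) (nat_lit 3458083958) (nat_lit 1) (nat_lit 5) (nat_lit 3) (nat_lit 4) (nat_lit 1) (nat_lit 4) (nat_lit 231) (nat_lit 198) (nat_lit 171)) (XT.lf (nat_lit 0) (nat_lit 15211600518) (nat_lit 152) (nat_lit 92386764720) (nat_lit 0) (nat_lit 9019651911) (nat_lit 1) (nat_lit 5) (nat_lit 3) (nat_lit 4) (nat_lit 1) (nat_lit 4) (nat_lit 232) (nat_lit 198) (nat_lit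 170))) (XT.nd (nat_lit 78) (nat_lit 0) (nat_lit 0) (XT.lf (nat_lit 0) (nat_lit 21601870419) (nat_lit 152) (nat_lit 96346026787) (nat_lit 0) (nat_lit 15393461292) (nat_lit 1) (nat_lit 5) (nat_lit 3) (nat_lit 4) (nat_lit 1) (nat_lit 4) (nat_lit 233) (nat_lit 198) (nat_lit 169)) (XT.lf (nat_lit 0) (nat_lit 28926939691) (nat_lit 152) (nat_lit 100945656749) (nat_lit 0) (nat_lit 22704217068) (nat_lit 1) (nat_lit 5) (nat_lit 3) (nat_lit 4) (nat_lit 1) (nat_lit 4) (nat_lit 234) (nat_lit 198) (nat_lit 168))))))))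
noncomputable def xc35 : XT := (XT.nd (nat_lit 1248) (nat_lit 0) (nat_lit 0) (XT.nd (nat_lit 624) (nat_lit 0) (nat_lit 0) (XT.nd (nat_lit 312) (nat_lit 0) (nat_lit 0) (XT.nd (nat_lit 156) (nat_lit 0) (nat_lit 0) (XT.nd (nat_lit 78) (nat_lit 0) (nat_lit 0) (XT.lf (nat_lit 0) (nat_lit 37330124905) (nat_lit 152) (nat_lit 106275647365) (nat_lit 0) (nat_lit 31094955765) (nat_lit 1) (nat_lit 5) (nat_lit 3) (nat_lit 4) (nat_lit 1) (nat_lit 4) (nat_lit 235) (nat_lit 198) (nat_lit 167)) (XT.lf (nat_lit 0) (nat_lit 46975836208) (nat_lit 152) (nat_lit 112440281060) (nat_lit 0) (nat_lit 40729844009) (nat_lit 1) (nat_lit 5) (nat_lit 3) (nat_lit 4) (nat_lit 1) (nat_lit 4) (nat_lit 236) (nat_lit 198) (nat_lit 166))) (XT.nd (nat_lit 78) (nat_lit 0) (nat_lit 0) (XT.lf (nat_lit 0) (nat_lit 58052794038) (nat_lit 152) (nat_lit 119560170234) (nat_lit 0) (nat_lit 51797390484) (nat_lit 1) (nat_lit 5) (nat_lit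 3) (nat_lit 4) (nat_lit 1) (nat_lit 4) (nat_lit 237) (nat_lit 198) (nat_lit 165)) (XT.lf (nat_lit 0) (nat_lit 70777721484) (nat_lit 152) (nat_lit 127774617065) (nat_lit 0) (nat_lit 64514134142) (nat_lit 1) (nat_lit 5) (nat_lit 3) (nat_lit 4) (nat_lit 1) (nat_lit 4) (nat_lit 238) (nat_lit 198) (nat_lit 164)))) (XT.nd (nat_lit 156) (nat_lit 0) (nat_lit 0) (XT.nd (nat_lit 78) (nat_lit 0) (nat_lit 0) (XT.lf (nat_lit 0) (nat_lit 85399584516) (nat_lit 152) (nat_lit 137244338992) (nat_lit 0) (nat_lit 79128880837) (nat_lit 1) (nat_lit 5) (nat_lit 3) (nat_lit 4) (nat_lit 1) (nat_lit 4) (nat_lit 239) (nat_lit 198) (nat_lit 163)) (XT.lf (nat_lit 0) (nat_lit 102204463064) (nat_lit 152) (nat_lit 148154613182) (nat_lit 0) (nat_lit 95927571267) (nat_lit 1) (nat_lit 5) (nat_lit 3) (nat_lit 4) (nat_lit 1) (nat_lit 4) (nat_lit 240) (nat_lit 198) (nat_lit 162))) (XT.nd (nat_lit 78) (nat_lit 0) (nat_lit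 0) (XT.lf (nat_lit 0) (nat_lit 121521148230) (nat_lit 152) (nat_lit 160718901523) (nat_lit 0) (nat_lit 115238875459) (nat_lit 1) (nat_lit 5) (nat_lit 3) (nat_lit 4) (nat_lit 1) (nat_lit 4) (nat_lit 241) (nat_lit 198) (nat_lit 161)) (XT.lf (nat_lit 0) (nat_lit 143727575159) (nat_lit 152) (nat_lit 175183027046) (nat_lit 0) (nat_lit 137440623281) (nat_lit 1) (nat_lit 5) (nat_lit 3) (nat_lit 4) (nat_lit 1) (nat_lit 4) (nat_lit 242) (nat_lit 198) (nat_lit 160))))) (XT.nd (nat_lit 312) (nat_lit 0) (nat_lit 0) (XT.nd (nat_lit 156) (nat_lit 0) (nat_lit 0) (XT.nd (nat_lit 78) (nat_lit 0) (nat_lit 0) (XT.lf (nat_lit 0) (nat_lit 169258217420) (nat_lit 152) (nat_lit 191829983512) (nat_lit 0) (nat_lit 162967196753) (nat_lit 1) (nat_lit 5) (nat_lit 3) (nat_lit 4) (nat_lit 1) (nat_lit 4) (nat_lit 243) (nat_lit 198) (nat_lit 159)) (XT.lf (nat_lit 0) (nat_lit 198612587580) (nat_lit 152) (nat_lit 210985472243)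 (nat_lit 0) (nat_lit 192318028836) (nat_lit 1) (nat_lit 5) (nat_lit 3) (nat_lit 4) (nat_lit 1) (nat_lit 4) (nat_lit 244) (nat_lit 198) (nat_lit 158))) (XT.nd (nat_lit 78) (nat_lit 0) (nat_lit 0) (XT.lf (nat_lit 0) (nat_lit 232365010272) (nat_lit 152) (nat_lit 233024274540) (nat_lit 0) (nat_lit 226067374939) (nat_lit 1) (nat_lit 5) (nat_lit 3) (nat_lit 4) (nat_lit 1) (nat_lit 4) (nat_lit 245) (nat_lit 198) (nat_lit 157)) (XT.lf (nat_lit 0) (nat_lit 271175858984) (nat_lit 152) (nat_lit 258377584362) (nat_lit 0) (nat_lit 264875548357) (nat_lit 1) (nat_lit 5) (nat_lit 3) (nat_lit 4) (nat_lit 1) (nat_lit 4) (nat_lit 246) (nat_lit 198) (nat_lit 156)))) (XT.nd (nat_lit 156) (nat_lit 0) (nat_lit 0) (XT.nd (nat_lit 78) (nat_lit 0) (nat_lit 0) (XT.lf (nat_lit 0) (nat_lit 315804476407) (nat_lit 152) (nat_lit 287541444726) (nat_lit 0) (nat_lit 309501839437) (nat_lit 1) (nat_lit 5) (nat_lit 3)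 (nat_lit 4) (nat_lit 1) (nat_lit 4) (nat_lit 247) (nat_lit 198) (nat_lit 155)) (XT.lf (nat_lit 0) (nat_lit 367124031145) (nat_lit 152) (nat_lit 321086452901) (nat_lit 0) (nat_lit 360819371268) (nat_lit 1) (nat_lit 5) (nat_lit 3) (nat_lit 4) (nat_lit 1) (nat_lit 4) (nat_lit 248) (nat_lit 198) (nat_lit 154))) (XT.nd (nat_lit 78) (nat_lit 0) (nat_lit 0) (XT.lf (nat_lit 0) (nat_lit 426138601441) (nat_lit 152) (nat_lit 359668924264) (nat_lit 0) (nat_lit 419832182514) (nat_lit 1) (nat_lit 5) (nat_lit 3) (nat_lit 4) (nat_lit 1) (nat_lit 4) (nat_lit 249) (nat_lit 198) (nat_lit 153)) (XT.lf (nat_lit 0) (nat_lit 494002820193) (nat_lit 152) (nat_lit 404043733255) (nat_lit 0) (nat_lit 487694871658) (nat_lit 1) (nat_lit 5) (nat_lit 3) (nat_lit 4) (nat_lit 1) (nat_lit 4) (nat_lit 250) (nat_lit 198) (nat_lit 152)))))) (XT.nd (nat_lit 624) (nat_lit 0) (nat_lit 0) (XT.nd (nat_lit 312) (nat_lit 0) (nat_lit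 0) (XT.nd (nat_lit 156) (nat_lit 0) (nat_lit 0) (XT.nd (nat_lit 78) (nat_lit 0) (nat_lit 0) (XT.lf (nat_lit 0) (nat_lit 572044465593) (nat_lit 152) (nat_lit 455079082658) (nat_lit 0) (nat_lit 565735186964) (nat_lit 1) (nat_lit 5) (nat_lit 3) (nat_lit 4) (nat_lit 1) (nat_lit 4) (nat_lit 251) (nat_lit 198) (nat_lit 151)) (XT.lf (nat_lit 0) (nat_lit 661790439400) (nat_lit 152) (nat_lit 513773490179) (nat_lit 0) (nat_lit 655480004167) (nat_lit 1) (nat_lit 5) (nat_lit 3) (nat_lit 4) (nat_lit 1) (nat_lit 4) (nat_lit 252) (nat_lit 198) (nat_lit 150))) (XT.nd (nat_lit 78) (nat_lit 0) (nat_lit 0) (XT.lf (nat_lit 0) (nat_lit 764996641101) (nat_lit 152) (nat_lit 581275324660) (nat_lit 0) (nat_lit 758685200125) (nat_lit 1) (nat_lit 5) (nat_lit 3) (nat_lit 4) (nat_lit 1) (nat_lit 4) (nat_lit 253) (nat_lit 198) (nat_lit 149)) (XT.lf (nat_lit 0) (nat_lit 883682322468) (nat_lit 152) (nat_lit 658905274169)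 (nat_lit 0) (nat_lit 877370006934) (nat_lit 1) (nat_lit 5) (nat_lit 3) (nat_lit 4) (nat_lit 1) (nat_lit 4) (nat_lit 254) (nat_lit 198) (nat_lit 148)))) (XT.nd (nat_lit 156) (nat_lit 0) (nat_lit 0) (XT.nd (nat_lit 78) (nat_lit 0) (nat_lit 0) (XT.lf (nat_lit 0) (nat_lit 1020169594659) (nat_lit 152) (nat_lit 748182185542) (nat_lit 0) (nat_lit 1013856518639) (nat_lit 1) (nat_lit 5) (nat_lit 3) (nat_lit 4) (nat_lit 1) (nat_lit 4) (nat_lit 255) (nat_lit 198) (nat_lit 147)) (XT.lf (nat_lit 0) (nat_lit 1177128860825) (nat_lit 152) (nat_lit 850852780959) (nat_lit 0) (nat_lit 1170815123513) (nat_lit 1) (nat_lit 5) (nat_lit 3) (nat_lit 4) (nat_lit 1) (nat_lit 4) (nat_lit 256) (nat_lit 198) (nat_lit 146))) (XT.nd (nat_lit 78) (nat_lit 0) (nat_lit 0) (XT.lf (nat_lit 0) (nat_lit 1357631063130) (nat_lit 152) (nat_lit 968925832939) (nat_lit 0) (nat_lit 1351316750782) (nat_lit 1) (nat_lit 5) (nat_lit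 3) (nat_lit 4) (nat_lit 1) (nat_lit 4) (nat_lit 257) (nat_lit 198) (nat_lit 145)) (XT.lf (nat_lit 0) (nat_lit 1565207766402) (nat_lit 152) (nat_lit 1104711466412) (nat_lit 0) (nat_lit 1558892954022) (nat_lit 1) (nat_lit 5) (nat_lit 3) (nat_lit 4) (nat_lit 1) (nat_lit 4) (nat_lit 258) (nat_lit 198) (nat_lit 144))))) (XT.nd (nat_lit 312) (nat_lit 0) (nat_lit 0) (XT.nd (nat_lit 156) (nat_lit 0) (nat_lit 0) (XT.nd (nat_lit 78) (nat_lit 0) (nat_lit 0) (XT.lf (nat_lit 0) (nat_lit 1803920253966) (nat_lit 152) (nat_lit 1260866356816) (nat_lit 0) (nat_lit 1797605006776) (nat_lit 1) (nat_lit 5) (nat_lit 3) (nat_lit 4) (nat_lit 1) (nat_lit 4) (nat_lit 259) (nat_lit 198) (nat_lit 143)) (XT.lf (nat_lit 0) (nat_lit 2078438987535) (nat_lit 152) (nat_lit 1440445708528) (nat_lit 0) (nat_lit 2072123362249) (nat_lit 1) (nat_lit 5) (nat_lit 3) (nat_lit 4) (nat_lit 1) (nat_lit 4) (nat_lit 260) (nat_lit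 198) (nat_lit 142))) (XT.nd (nat_lit 78) (nat_lit 0) (nat_lit 0) (XT.lf (nat_lit 0) (nat_lit 2394134985809) (nat_lit 152) (nat_lit 1646963030603) (nat_lit 0) (nat_lit 2387819031744) (nat_lit 1) (nat_lit 5) (nat_lit 3) (nat_lit 4) (nat_lit 1) (nat_lit 4) (nat_lit 261) (nat_lit 198) (nat_lit 141)) (XT.lf (nat_lit 0) (nat_lit 2757184909624) (nat_lit 152) (nat_lit 1884458879343) (nat_lit 0) (nat_lit 2750868669665) (nat_lit 1) (nat_lit 5) (nat_lit 3) (nat_lit 4) (nat_lit 1) (nat_lit 4) (nat_lit 262) (nat_lit 198) (nat_lit 140)))) (XT.nd (nat_lit 156) (nat_lit 0) (nat_lit 0) (XT.nd (nat_lit 78) (nat_lit 0) (nat_lit 0) (XT.lf (nat_lit 0) (nat_lit 3174691909664) (nat_lit 152) (nat_lit 2157579912657) (nat_lit 0) (nat_lit 3168375421101) (nat_lit 1) (nat_lit 5) (nat_lit 3) (nat_lit 4) (nat_lit 1) (nat_lit 4) (nat_lit 263) (nat_lit 198) (nat_lit 139)) (XT.lf (nat_lit 0) (nat_lit 3654824601147)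 (nat_lit 152) (nat_lit 2471669802938) (nat_lit 0) (nat_lit 3648507896406) (nat_lit 1) (nat_lit 5) (nat_lit 3) (nat_lit 4) (nat_lit 1) (nat_lit 4) (nat_lit 264) (nat_lit 198) (nat_lit 138))) (XT.nd (nat_lit 78) (nat_lit 0) (nat_lit 0) (XT.lf (nat_lit 0) (nat_lit 4206976884557) (nat_lit 152) (nat_lit 2832873787168) (nat_lit 0) (nat_lit 4200659991836) (nat_lit 1) (nat_lit 5) (nat_lit 3) (nat_lit 4) (nat_lit 1) (nat_lit 4) (nat_lit 265) (nat_lit 198) (nat_lit 137)) (XT.lf (nat_lit 0) (nat_lit 4841951739354) (nat_lit 152) (nat_lit 3248258899821) (nat_lit 0) (nat_lit 4835634683172) (nat_lit 1) (nat_lit 5) (nat_lit 3) (nat_lit 4) (nat_lit 1) (nat_lit 4) (nat_lit 266) (nat_lit 198) (nat_lit 136)))))))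
noncomputable def xc36 : XT := (XT.nd (nat_lit 26286) (nat_lit 0) (nat_lit 304) (XT.nd (nat_lit 624) (nat_lit 0) (nat_lit 0) (XT.nd (nat_lit 312) (nat_lit 0) (nat_lit 0) (XT.nd (nat_lit 156) (nat_lit 0) (nat_lit 0) (XT.nd (nat_lit 78) (nat_lit 0) (nat_lit 0) (XT.lf (nat_lit 0) (nat_lit 5572172586610) (nat_lit 152) (nat_lit 3725952240929) (nat_lit 0) (nat_lit 5565855388287) (nat_lit 1) (nat_lit 5) (nat_lit 3) (nat_lit 4) (nat_lit 1) (nat_lit 4) (nat_lit 267) (nat_lit 198) (nat_lit 135)) (XT.lf (nat_lit 0) (nat_lit 6411926355943) (nat_lit 152) (nat_lit 4275299984555) (nat_lit 0) (nat_lit 6405609034020) (nat_lit 1) (nat_lit 5) (nat_lit 3) (nat_lit 4) (nat_lit 1) (nat_lit 4) (nat_lit 268) (nat_lit 198) (nat_lit 134))) (XT.nd (nat_lit 78) (nat_lit 0) (nat_lit 0) (XT.lf (nat_lit 0) (nat_lit 7377643012408) (nat_lit 152) (nat_lit 4907050238727) (nat_lit 0) (nat_lit 7371325583006) (nat_lit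 1) (nat_lit 5) (nat_lit 3) (nat_lit 4) (nat_lit 1) (nat_lit 4) (nat_lit 269) (nat_lit 198) (nat_lit 133)) (XT.lf (nat_lit 0) (nat_lit 8488217012325) (nat_lit 152) (nat_lit 5633563334506) (nat_lit 0) (nat_lit 8481899489464) (nat_lit 1) (nat_lit 5) (nat_lit 3) (nat_lit 4) (nat_lit 1) (nat_lit 4) (nat_lit 270) (nat_lit 198) (nat_lit 132)))) (XT.nd (nat_lit 156) (nat_lit 0) (nat_lit 0) (XT.nd (nat_lit 78) (nat_lit 0) (nat_lit 0) (XT.lf (nat_lit 0) (nat_lit 9765376977432) (nat_lit 152) (nat_lit 6469053658548) (nat_lit 0) (nat_lit 9759059373302) (nat_lit 1) (nat_lit 5) (nat_lit 3) (nat_lit 4) (nat_lit 1) (nat_lit 4) (nat_lit 271) (nat_lit 198) (nat_lit 131)) (XT.lf (nat_lit 0) (nat_lit 11234110820091) (nat_lit 152) (nat_lit 7429867760670) (nat_lit 0) (nat_lit 11227793145292) (nat_lit 1) (nat_lit 5) (nat_lit 3) (nat_lit 4) (nat_lit 1) (nat_lit 4) (nat_lit 272) (nat_lit 198) (nat_lit 130)))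 (XT.nd (nat_lit 78) (nat_lit 0) (nat_lit 0) (XT.lf (nat_lit 0) (nat_lit 12923154637223) (nat_lit 152) (nat_lit 8534804177655) (nat_lit 0) (nat_lit 12916836900972) (nat_lit 1) (nat_lit 5) (nat_lit 3) (nat_lit 4) (nat_lit 1) (nat_lit 4) (nat_lit 273) (nat_lit 198) (nat_lit 129)) (XT.lf (nat_lit 0) (nat_lit 14865554938292) (nat_lit 152) (nat_lit 9805481230703) (nat_lit 0) (nat_lit 14859237148606) (nat_lit 1) (nat_lit 5) (nat_lit 3) (nat_lit 4) (nat_lit 1) (nat_lit 4) (nat_lit 274) (nat_lit 198) (nat_lit 128))))) (XT.nd (nat_lit 312) (nat_lit 0) (nat_lit 0) (XT.nd (nat_lit 156) (nat_lit 0) (nat_lit 0) (XT.nd (nat_lit 78) (nat_lit 0) (nat_lit 0) (XT.lf (nat_lit 0) (nat_lit 17099315207452) (nat_lit 152) (nat_lit 11266759992591) (nat_lit 0) (nat_lit 17092997371300) (nat_lit 1) (nat_lit 5) (nat_lit 3) (nat_lit 4) (nat_lit 1) (nat_lit 4) (nat_lit 275) (nat_lit 198) (nat_lit 127)) (XT.lf (nat_lit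 0) (nat_lit 19668139449967) (nat_lit 152) (nat_lit 12947230699966) (nat_lit 0) (nat_lit 19661821573410) (nat_lit 1) (nat_lit 5) (nat_lit 3) (nat_lit 4) (nat_lit 1) (nat_lit 4) (nat_lit 276) (nat_lit 198) (nat_lit 126))) (XT.nd (nat_lit 78) (nat_lit 0) (nat_lit 0) (XT.lf (nat_lit 0) (nat_lit 22622287270583) (nat_lit 152) (nat_lit 14879772127537) (nat_lit 0) (nat_lit 22615969358891) (nat_lit 1) (nat_lit 5) (nat_lit 3) (nat_lit 4) (nat_lit 1) (nat_lit 4) (nat_lit 277) (nat_lit 198) (nat_lit 125)) (XT.lf (nat_lit 0) (nat_lit 26019557213616) (nat_lit 152) (nat_lit 17102194868451) (nat_lit 0) (nat_lit 26013239271372) (nat_lit 1) (nat_lit 5) (nat_lit 3) (nat_lit 4) (nat_lit 1) (nat_lit 4) (nat_lit 278) (nat_lit 198) (nat_lit 124)))) (XT.nd (nat_lit 156) (nat_lit 0) (nat_lit 0) (XT.nd (nat_lit 78) (nat_lit 0) (nat_lit 0) (XT.lf (nat_lit 0) (nat_lit 29926417604039) (nat_lit 152) (nat_lit 19657981106771)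 (nat_lit 0) (nat_lit 29920099635228) (nat_lit 1) (nat_lit 5) (nat_lit 3) (nat_lit 4) (nat_lit 1) (nat_lit 4) (nat_lit 279) (nat_lit 198) (nat_lit 123)) (XT.lf (nat_lit 0) (nat_lit 34419307014708) (nat_lit 152) (nat_lit 22597135355854) (nat_lit 0) (nat_lit 34412989022795) (nat_lit 1) (nat_lit 5) (nat_lit 3) (nat_lit 4) (nat_lit 1) (nat_lit 4) (nat_lit 280) (nat_lit 198) (nat_lit 122))) (XT.nd (nat_lit 25116) (nat_lit 0) (nat_lit 1900) (XT.lf (nat_lit 0) (nat_lit 39586129803656) (nat_lit 152) (nat_lit 25977162807531) (nat_lit 0) (nat_lit 39579811791655) (nat_lit 1) (nat_lit 5) (nat_lit 3) (nat_lit 4) (nat_lit 1) (nat_lit 4) (nat_lit 281) (nat_lit 198) (nat_lit 121)) (XT.lf (nat_lit 0) (nat_lit 1597957921) (nat_lit 76) (nat_lit 70641874) (nat_lit 0) (nat_lit 1597957921) (nat_lit 26) (nat_lit 5) (nat_lit 27) (nat_lit 0) (nat_lit 26) (nat_lit 4) (nat_lit 202) (nat_lit 199) (nat_lit 199))))))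 (XT.nd (nat_lit 624) (nat_lit 532) (nat_lit 0) (XT.nd (nat_lit 312) (nat_lit 456) (nat_lit 0) (XT.nd (nat_lit 156) (nat_lit 304) (nat_lit 0) (XT.nd (nat_lit 78) (nat_lit 228) (nat_lit 0) (XT.lf (nat_lit 0) (nat_lit 3621991111) (nat_lit 76) (nat_lit 2619862562) (nat_lit 76) (nat_lit 427724244) (nat_lit 25) (nat_lit 4) (nat_lit 26) (nat_lit 5) (nat_lit 26) (nat_lit 4) (nat_lit 203) (nat_lit 199) (nat_lit 198)) (XT.lf (nat_lit 0) (nat_lit 708272497) (nat_lit 152) (nat_lit 1527363803) (nat_lit 228) (nat_lit 4642098841) (nat_lit 22) (nat_lit 5) (nat_lit 24) (nat_lit 5) (nat_lit 25) (nat_lit 4) (nat_lit 204) (nat_lit 199) (nat_lit 197))) (XT.nd (nat_lit 78) (nat_lit 304) (nat_lit 0) (XT.lf (nat_lit 0) (nat_lit 4990822401) (nat_lit 152) (nat_lit 7661067) (nat_lit 228) (nat_lit 2159176202) (nat_lit 22) (nat_lit 5) (nat_lit 24) (nat_lit 5) (nat_lit 25) (nat_lit 4) (nat_lit 205) (nat_lit 199)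 (nat_lit 196)) (XT.lf (nat_lit 0) (nat_lit 424992291) (nat_lit 304) (nat_lit 5344774038) (nat_lit 76) (nat_lit 1740769826) (nat_lit 18) (nat_lit 5) (nat_lit 22) (nat_lit 5) (nat_lit 19) (nat_lit 4) (nat_lit 206) (nat_lit 199) (nat_lit 195)))) (XT.nd (nat_lit 156) (nat_lit 228) (nat_lit 0) (XT.nd (nat_lit 78) (nat_lit 228) (nat_lit 0) (XT.lf (nat_lit 0) (nat_lit 2949298939) (nat_lit 304) (nat_lit 1007394916) (nat_lit 76) (nat_lit 3981587865) (nat_lit 18) (nat_lit 5) (nat_lit 22) (nat_lit 5) (nat_lit 19) (nat_lit 4) (nat_lit 207) (nat_lit 199) (nat_lit 194)) (XT.lf (nat_lit 0) (nat_lit 3996148183) (nat_lit 228) (nat_lit 1721180983) (nat_lit 304) (nat_lit 2736051362) (nat_lit 15) (nat_lit 5) (nat_lit 18) (nat_lit 5) (nat_lit 19) (nat_lit 4) (nat_lit 208) (nat_lit 199) (nat_lit 193))) (XT.nd (nat_lit 78) (nat_lit 76) (nat_lit 0) (XT.lf (nat_lit 0) (nat_lit 462657170) (nat_lit 152) (nat_lit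 8270680490) (nat_lit 152) (nat_lit 340058303) (nat_lit 13) (nat_lit 4) (nat_lit 15) (nat_lit 5) (nat_lit 15) (nat_lit 4) (nat_lit 209) (nat_lit 199) (nat_lit 192)) (XT.lf (nat_lit 0) (nat_lit 2257047421) (nat_lit 228) (nat_lit 3701112756) (nat_lit 76) (nat_lit 3806681629) (nat_lit 12) (nat_lit 5) (nat_lit 15) (nat_lit 5) (nat_lit 13) (nat_lit 4) (nat_lit 210) (nat_lit 199) (nat_lit 191))))) (XT.nd (nat_lit 312) (nat_lit 228) (nat_lit 0) (XT.nd (nat_lit 156) (nat_lit 228) (nat_lit 0) (XT.nd (nat_lit 78) (nat_lit 0) (nat_lit 0) (XT.lf (nat_lit 0) (nat_lit 1756400043) (nat_lit 76) (nat_lit 3291054757) (nat_lit 152) (nat_lit 5536026458) (nat_lit 11) (nat_lit 5) (nat_lit 12) (nat_lit 5) (nat_lit 13) (nat_lit 4) (nat_lit 211) (nat_lit 199) (nat_lit 190)) (XT.lf (nat_lit 0) (nat_lit 8134705908) (nat_lit 76) (nat_lit 98558725) (nat_lit 152) (nat_lit 3296593979) (nat_lit 11) (nat_lit 5) (nat_lit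 12) (nat_lit 5) (nat_lit 13) (nat_lit 4) (nat_lit 212) (nat_lit 199) (nat_lit 189))) (XT.nd (nat_lit 78) (nat_lit 76) (nat_lit 0) (XT.lf (nat_lit 0) (nat_lit 2639736955) (nat_lit 152) (nat_lit 9322588501) (nat_lit 152) (nat_lit 647336867) (nat_lit 9) (nat_lit 4) (nat_lit 11) (nat_lit 5) (nat_lit 11) (nat_lit 4) (nat_lit 213) (nat_lit 199) (nat_lit 188)) (XT.lf (nat_lit 0) (nat_lit 2188148811) (nat_lit 228) (nat_lit 4280543655) (nat_lit 76) (nat_lit 7368440484) (nat_lit 8) (nat_lit 5) (nat_lit 11) (nat_lit 5) (nat_lit 9) (nat_lit 4) (nat_lit 214) (nat_lit 199) (nat_lit 187)))) (XT.nd (nat_lit 156) (nat_lit 152) (nat_lit 0) (XT.nd (nat_lit 78) (nat_lit 0) (nat_lit 0) (XT.lf (nat_lit 0) (nat_lit 2158676205) (nat_lit 76) (nat_lit 3149761708) (nat_lit 152) (nat_lit 9947638532) (nat_lit 7) (nat_lit 5) (nat_lit 8) (nat_lit 5) (nat_lit 9) (nat_lit 4) (nat_lit 215) (nat_lit 199) (nat_lit 186))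 (XT.lf (nat_lit 0) (nat_lit 9001895818) (nat_lit 152) (nat_lit 7120098497) (nat_lit 0) (nat_lit 750828282) (nat_lit 7) (nat_lit 5) (nat_lit 9) (nat_lit 4) (nat_lit 7) (nat_lit 4) (nat_lit 216) (nat_lit 199) (nat_lit 185))) (XT.nd (nat_lit 78) (nat_lit 152) (nat_lit 0) (XT.lf (nat_lit 0) (nat_lit 13262922197) (nat_lit 152) (nat_lit 633042080) (nat_lit 0) (nat_lit 4834718664) (nat_lit 7) (nat_lit 5) (nat_lit 9) (nat_lit 4) (nat_lit 7) (nat_lit 4) (nat_lit 217) (nat_lit 199) (nat_lit 184)) (XT.nd (nat_lit 78) (nat_lit 76) (nat_lit 0) (XT.lf (nat_lit 0) (nat_lit 7268178065) (nat_lit 76) (nat_lit 11077241732) (nat_lit 76) (nat_lit 2495006896) (nat_lit 6) (nat_lit 4) (nat_lit 7) (nat_lit 5) (nat_lit 7) (nat_lit 4) (nat_lit 218) (nat_lit 199) (nat_lit 183)) (XT.lf (nat_lit 0) (nat_lit 759050386) (nat_lit 152) (nat_lit 7084216766) (nat_lit 76) (nat_lit 15430402042) (nat_lit 5) (nat_lit 5)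 (nat_lit 7) (nat_lit 5) (nat_lit 6) (nat_lit 4) (nat_lit 219) (nat_lit 199) (nat_lit 182))))))))
noncomputable def xc37 : XT := (XT.nd (nat_lit 2496) (nat_lit 0) (nat_lit 0) (XT.nd (nat_lit 1248) (nat_lit 0) (nat_lit 0) (XT.nd (nat_lit 624) (nat_lit 152) (nat_lit 0) (XT.nd (nat_lit 312) (nat_lit 76) (nat_lit 0) (XT.nd (nat_lit 156) (nat_lit 0) (nat_lit 0) (XT.nd (nat_lit 78) (nat_lit 0) (nat_lit 0) (XT.lf (nat_lit 0) (nat_lit 84466923) (nat_lit 76) (nat_lit 4063026944) (nat_lit 152) (nat_lit 21921687821) (nat_lit 4) (nat_lit 5) (nat_lit 5) (nat_lit 5) (nat_lit 6) (nat_lit 4) (nat_lit 220) (nat_lit 199) (nat_lit 181)) (XT.lf (nat_lit 0) (nat_lit 8345048236) (nat_lit 152) (nat_lit 20317742179) (nat_lit 0) (nat_lit 576419563) (nat_lit 4) (nat_lit 5) (nat_lit 6) (nat_lit 4) (nat_lit 4) (nat_lit 4) (nat_lit 221) (nat_lit 199) (nat_lit 180))) (XT.nd (nat_lit 78) (nat_lit 0) (nat_lit 0) (XT.lf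 (nat_lit 0) (nat_lit 13279738455) (nat_lit 152) (nat_lit 14154624063) (nat_lit 0) (nat_lit 5434529003) (nat_lit 4) (nat_lit 5) (nat_lit 6) (nat_lit 4) (nat_lit 4) (nat_lit 4) (nat_lit 222) (nat_lit 199) (nat_lit 179)) (XT.lf (nat_lit 0) (nat_lit 18879871531) (nat_lit 152) (nat_lit 7206536392) (nat_lit 0) (nat_lit 10968070096) (nat_lit 4) (nat_lit 5) (nat_lit 6) (nat_lit 4) (nat_lit 4) (nat_lit 4) (nat_lit 223) (nat_lit 199) (nat_lit 178)))) (XT.nd (nat_lit 156) (nat_lit 0) (nat_lit 0) (XT.nd (nat_lit 78) (nat_lit 0) (nat_lit 0) (XT.lf (nat_lit 0) (nat_lit 727202252) (nat_lit 76) (nat_lit 24557924925) (nat_lit 76) (nat_lit 16588217418) (nat_lit 3) (nat_lit 4) (nat_lit 4) (nat_lit 5) (nat_lit 4) (nat_lit 4) (nat_lit 224) (nat_lit 199) (nat_lit 177)) (XT.lf (nat_lit 0) (nat_lit 10545129126) (nat_lit 76) (nat_lit 22421422970) (nat_lit 76) (nat_lit 14401362357) (nat_lit 3) (nat_lit 4) (nat_lit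 4) (nat_lit 5) (nat_lit 4) (nat_lit 4) (nat_lit 225) (nat_lit 199) (nat_lit 176))) (XT.nd (nat_lit 78) (nat_lit 0) (nat_lit 0) (XT.lf (nat_lit 0) (nat_lit 21735058954) (nat_lit 76) (nat_lit 20011806243) (nat_lit 76) (nat_lit 11947960321) (nat_lit 3) (nat_lit 4) (nat_lit 4) (nat_lit 5) (nat_lit 4) (nat_lit 4) (nat_lit 226) (nat_lit 199) (nat_lit 175)) (XT.lf (nat_lit 0) (nat_lit 34515925146) (nat_lit 76) (nat_lit 17281930071) (nat_lit 76) (nat_lit 9180009967) (nat_lit 3) (nat_lit 4) (nat_lit 4) (nat_lit 5) (nat_lit 4) (nat_lit 4) (nat_lit 227) (nat_lit 199) (nat_lit 174))))) (XT.nd (nat_lit 312) (nat_lit 0) (nat_lit 0) (XT.nd (nat_lit 156) (nat_lit 152) (nat_lit 0) (XT.nd (nat_lit 78) (nat_lit 0) (nat_lit 0) (XT.lf (nat_lit 0) (nat_lit 49137788128) (nat_lit 76) (nat_lit 14178383832) (nat_lit 76) (nat_lit 6043355744) (nat_lit 3) (nat_lit 4) (nat_lit 4) (nat_lit 5) (nat_lit 4) (nat_lit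 4) (nat_lit 228) (nat_lit 199) (nat_lit 173)) (XT.lf (nat_lit 0) (nat_lit 65886727828) (nat_lit 76) (nat_lit 10640445970) (nat_lit 76) (nat_lit 2476628330) (nat_lit 3) (nat_lit 4) (nat_lit 4) (nat_lit 5) (nat_lit 4) (nat_lit 4) (nat_lit 229) (nat_lit 199) (nat_lit 172))) (XT.nd (nat_lit 78) (nat_lit 76) (nat_lit 0) (XT.lf (nat_lit 0) (nat_lit 1448407187) (nat_lit 152) (nat_lit 5074776579) (nat_lit 76) (nat_lit 83566321509) (nat_lit 2) (nat_lit 5) (nat_lit 4) (nat_lit 5) (nat_lit 3) (nat_lit 4) (nat_lit 230) (nat_lit 199) (nat_lit 171)) (XT.lf (nat_lit 0) (nat_lit 4394293626) (nat_lit 76) (nat_lit 1468457395) (nat_lit 152) (nat_lit 96934573620) (nat_lit 1) (nat_lit 5) (nat_lit 2) (nat_lit 5) (nat_lit 3) (nat_lit 4) (nat_lit 231) (nat_lit 199) (nat_lit 170)))) (XT.nd (nat_lit 156) (nat_lit 0) (nat_lit 0) (XT.nd (nat_lit 78) (nat_lit 0) (nat_lit 0) (XT.lf (nat_lit 0) (nat_lit 11369744146)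 (nat_lit 152) (nat_lit 101763443960) (nat_lit 0) (nat_lit 4213613131) (nat_lit 1) (nat_lit 5) (nat_lit 3) (nat_lit 4) (nat_lit 1) (nat_lit 4) (nat_lit 232) (nat_lit 199) (nat_lit 169)) (XT.lf (nat_lit 0) (nat_lit 17748971668) (nat_lit 152) (nat_lit 105744323973) (nat_lit 0) (nat_lit 10578527157) (nat_lit 1) (nat_lit 5) (nat_lit 3) (nat_lit 4) (nat_lit 1) (nat_lit 4) (nat_lit 233) (nat_lit 199) (nat_lit 168))) (XT.nd (nat_lit 78) (nat_lit 0) (nat_lit 0) (XT.lf (nat_lit 0) (nat_lit 25064438871) (nat_lit 152) (nat_lit 110362752149) (nat_lit 0) (nat_lit 17881547842) (nat_lit 1) (nat_lit 5) (nat_lit 3) (nat_lit 4) (nat_lit 1) (nat_lit 4) (nat_lit 234) (nat_lit 199) (nat_lit 167)) (XT.lf (nat_lit 0) (nat_lit 33459274460) (nat_lit 152) (nat_lit 115709089038) (nat_lit 0) (nat_lit 26265560373) (nat_lit 1) (nat_lit 5) (nat_lit 3) (nat_lit 4) (nat_lit 1) (nat_lit 4) (nat_lit 235) (nat_lit 199)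 (nat_lit 166)))))) (XT.nd (nat_lit 624) (nat_lit 0) (nat_lit 0) (XT.nd (nat_lit 312) (nat_lit 0) (nat_lit 0) (XT.nd (nat_lit 156) (nat_lit 0) (nat_lit 0) (XT.nd (nat_lit 78) (nat_lit 0) (nat_lit 0) (XT.lf (nat_lit 0) (nat_lit 43097725220) (nat_lit 152) (nat_lit 121887936885) (nat_lit 0) (nat_lit 35894599777) (nat_lit 1) (nat_lit 5) (nat_lit 3) (nat_lit 4) (nat_lit 1) (nat_lit 4) (nat_lit 236) (nat_lit 199) (nat_lit 165)) (XT.lf (nat_lit 0) (nat_lit 54168369534) (nat_lit 152) (nat_lit 129020186189) (nat_lit 0) (nat_lit 46957060304) (nat_lit 1) (nat_lit 5) (nat_lit 3) (nat_lit 4) (nat_lit 1) (nat_lit 4) (nat_lit 237) (nat_lit 199) (nat_lit 164))) (XT.nd (nat_lit 78) (nat_lit 0) (nat_lit 0) (XT.lf (nat_lit 0) (nat_lit 66887806966) (nat_lit 152) (nat_lit 137245380960) (nat_lit 0) (nat_lit 59669381399) (nat_lit 1) (nat_lit 5) (nat_lit 3) (nat_lit 4) (nat_lit 1) (nat_lit 4) (nat_lit 238)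 (nat_lit 199) (nat_lit 163)) (XT.lf (nat_lit 0) (nat_lit 81504896073) (nat_lit 152) (nat_lit 146724448922) (nat_lit 0) (nat_lit 74280282387) (nat_lit 1) (nat_lit 5) (nat_lit 3) (nat_lit 4) (nat_lit 1) (nat_lit 4) (nat_lit 239) (nat_lit 199) (nat_lit 162)))) (XT.nd (nat_lit 156) (nat_lit 0) (nat_lit 0) (XT.nd (nat_lit 78) (nat_lit 0) (nat_lit 0) (XT.lf (nat_lit 0) (nat_lit 98305623382) (nat_lit 152) (nat_lit 157642850099) (nat_lit 0) (nat_lit 91075628723) (nat_lit 1) (nat_lit 5) (nat_lit 3) (nat_lit 4) (nat_lit 1) (nat_lit 4) (nat_lit 240) (nat_lit 199) (nat_lit 161)) (XT.lf (nat_lit 0) (nat_lit 117618698775) (nat_lit 152) (nat_lit 170214205384) (nat_lit 0) (nat_lit 110384025008) (nat_lit 1) (nat_lit 5) (nat_lit 3) (nat_lit 4) (nat_lit 1) (nat_lit 4) (nat_lit 241) (nat_lit 199) (nat_lit 160))) (XT.nd (nat_lit 78) (nat_lit 0) (nat_lit 0) (XT.lf (nat_lit 0) (nat_lit 139821986770) (nat_lit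 152) (nat_lit 184684476077) (nat_lit 0) (nat_lit 132583244215) (nat_lit 1) (nat_lit 5) (nat_lit 3) (nat_lit 4) (nat_lit 1) (nat_lit 4) (nat_lit 242) (nat_lit 199) (nat_lit 159)) (XT.lf (nat_lit 0) (nat_lit 165349899524) (nat_lit 152) (nat_lit 201336776168) (nat_lit 0) (nat_lit 158107618892) (nat_lit 1) (nat_lit 5) (nat_lit 3) (nat_lit 4) (nat_lit 1) (nat_lit 4) (nat_lit 243) (nat_lit 199) (nat_lit 158))))) (XT.nd (nat_lit 312) (nat_lit 0) (nat_lit 0) (XT.nd (nat_lit 156) (nat_lit 0) (nat_lit 0) (XT.nd (nat_lit 78) (nat_lit 0) (nat_lit 0) (XT.lf (nat_lit 0) (nat_lit 194701896199) (nat_lit 152) (nat_lit 220496911530) (nat_lit 0) (nat_lit 187456538978) (nat_lit 1) (nat_lit 5) (nat_lit 3) (nat_lit 4) (nat_lit 1) (nat_lit 4) (nat_lit 244) (nat_lit 199) (nat_lit 157)) (XT.lf (nat_lit 0) (nat_lit 228452254992) (nat_lit 152) (nat_lit 242539754376) (nat_lit 0) (nat_lit 221204222476) (nat_lit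 1) (nat_lit 5) (nat_lit 3) (nat_lit 4) (nat_lit 1) (nat_lit 4) (nat_lit 245) (nat_lit 199) (nat_lit 156))) (XT.nd (nat_lit 78) (nat_lit 0) (nat_lit 0) (XT.lf (nat_lit 0) (nat_lit 267261309008) (nat_lit 152) (nat_lit 267896577719) (nat_lit 0) (nat_lit 260010950150) (nat_lit 1) (nat_lit 5) (nat_lit 3) (nat_lit 4) (nat_lit 1) (nat_lit 4) (nat_lit 246) (nat_lit 199) (nat_lit 155)) (XT.lf (nat_lit 0) (nat_lit 311888365828) (nat_lit 152) (nat_lit 297063493319) (nat_lit 0) (nat_lit 304635984062) (nat_lit 1) (nat_lit 5) (nat_lit 3) (nat_lit 4) (nat_lit 1) (nat_lit 4) (nat_lit 247) (nat_lit 199) (nat_lit 154)))) (XT.nd (nat_lit 156) (nat_lit 0) (nat_lit 0) (XT.nd (nat_lit 78) (nat_lit 0) (nat_lit 0) (XT.lf (nat_lit 0) (nat_lit 363206563518) (nat_lit 152) (nat_lit 330611158220) (nat_lit 0) (nat_lit 355952422702) (nat_lit 1) (nat_lit 5) (nat_lit 3) (nat_lit 4) (nat_lit 1) (nat_lit 4) (nat_lit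 248) (nat_lit 199) (nat_lit 153)) (XT.lf (nat_lit 0) (nat_lit 422219953772) (nat_lit 152) (nat_lit 369195939780) (nat_lit 0) (nat_lit 414964283349) (nat_lit 1) (nat_lit 5) (nat_lit 3) (nat_lit 4) (nat_lit 1) (nat_lit 4) (nat_lit 249) (nat_lit 199) (nat_lit 152))) (XT.nd (nat_lit 78) (nat_lit 0) (nat_lit 0) (XT.lf (nat_lit 0) (nat_lit 490083146401) (nat_lit 152) (nat_lit 413572757637) (nat_lit 0) (nat_lit 482826145883) (nat_lit 1) (nat_lit 5) (nat_lit 3) (nat_lit 4) (nat_lit 1) (nat_lit 4) (nat_lit 250) (nat_lit 199) (nat_lit 151)) (XT.lf (nat_lit 0) (nat_lit 568123899521) (nat_lit 152) (nat_lit 464609853881) (nat_lit 0) (nat_lit 560865742399) (nat_lit 1) (nat_lit 5) (nat_lit 3) (nat_lit 4) (nat_lit 1) (nat_lit 4) (nat_lit 251) (nat_lit 199) (nat_lit 150))))))) (XT.nd (nat_lit 1248) (nat_lit 0) (nat_lit 0) (XT.nd (nat_lit 624) (nat_lit 0) (nat_lit 0) (XT.nd (nat_lit 312) (nat_lit 0)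 (nat_lit 0) (XT.nd (nat_lit 156) (nat_lit 0) (nat_lit 0) (XT.nd (nat_lit 78) (nat_lit 0) (nat_lit 0) (XT.lf (nat_lit 0) (nat_lit 657869097431) (nat_lit 152) (nat_lit 523305780394) (nat_lit 0) (nat_lit 650609934567) (nat_lit 1) (nat_lit 5) (nat_lit 3) (nat_lit 4) (nat_lit 1) (nat_lit 4) (nat_lit 252) (nat_lit 199) (nat_lit 149)) (XT.lf (nat_lit 0) (nat_lit 761074624440) (nat_lit 152) (nat_lit 590808935738) (nat_lit 0) (nat_lit 753814587017) (nat_lit 1) (nat_lit 5) (nat_lit 3) (nat_lit 4) (nat_lit 1) (nat_lit 4) (nat_lit 253) (nat_lit 199) (nat_lit 148))) (XT.nd (nat_lit 78) (nat_lit 0) (nat_lit 0) (XT.lf (nat_lit 0) (nat_lit 879759719118) (nat_lit 152) (nat_lit 668440033822) (nat_lit 0) (nat_lit 872498921209) (nat_lit 1) (nat_lit 5) (nat_lit 3) (nat_lit 4) (nat_lit 1) (nat_lit 4) (nat_lit 254) (nat_lit 199) (nat_lit 147)) (XT.lf (nat_lit 0) (nat_lit 1016246481144) (nat_lit 152) (nat_lit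 757717943957) (nat_lit 0) (nat_lit 1008985021944) (nat_lit 1) (nat_lit 5) (nat_lit 3) (nat_lit 4) (nat_lit 1) (nat_lit 4) (nat_lit 255) (nat_lit 199) (nat_lit 146)))) (XT.nd (nat_lit 156) (nat_lit 0) (nat_lit 0) (XT.nd (nat_lit 78) (nat_lit 0) (nat_lit 0) (XT.lf (nat_lit 0) (nat_lit 1173205303689) (nat_lit 152) (nat_lit 860389407863) (nat_lit 0) (nat_lit 1165943269452) (nat_lit 1) (nat_lit 5) (nat_lit 3) (nat_lit 4) (nat_lit 1) (nat_lit 4) (nat_lit 256) (nat_lit 199) (nat_lit 145)) (XT.lf (nat_lit 0) (nat_lit 1353707120236) (nat_lit 152) (nat_lit 978463215051) (nat_lit 0) (nat_lit 1346444585968) (nat_lit 1) (nat_lit 5) (nat_lit 3) (nat_lit 4) (nat_lit 1) (nat_lit 4) (nat_lit 257) (nat_lit 199) (nat_lit 144))) (XT.nd (nat_lit 78) (nat_lit 0) (nat_lit 0) (XT.lf (nat_lit 0) (nat_lit 1561283488067) (nat_lit 152) (nat_lit 1114249505226) (nat_lit 0) (nat_lit 1554020518988) (nat_lit 1) (nat_lit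 5) (nat_lit 3) (nat_lit 4) (nat_lit 1) (nat_lit 4) (nat_lit 258) (nat_lit 199) (nat_lit 143)) (XT.lf (nat_lit 0) (nat_lit 1799995683943) (nat_lit 152) (nat_lit 1270404966675) (nat_lit 0) (nat_lit 1792732336768) (nat_lit 1) (nat_lit 5) (nat_lit 3) (nat_lit 4) (nat_lit 1) (nat_lit 4) (nat_lit 259) (nat_lit 199) (nat_lit 142))))) (XT.nd (nat_lit 312) (nat_lit 0) (nat_lit 0) (XT.nd (nat_lit 156) (nat_lit 0) (nat_lit 0) (XT.nd (nat_lit 78) (nat_lit 0) (nat_lit 0) (XT.lf (nat_lit 0) (nat_lit 2074514163870) (nat_lit 152) (nat_lit 1449984814948) (nat_lit 0) (nat_lit 2067250487917) (nat_lit 1) (nat_lit 5) (nat_lit 3) (nat_lit 4) (nat_lit 1) (nat_lit 4) (nat_lit 260) (nat_lit 199) (nat_lit 141)) (XT.lf (nat_lit 0) (nat_lit 2390209941586) (nat_lit 152) (nat_lit 1656502568815) (nat_lit 0) (nat_lit 2382945979738) (nat_lit 1) (nat_lit 5) (nat_lit 3) (nat_lit 4) (nat_lit 1) (nat_lit 4) (nat_lit 261)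 (nat_lit 199) (nat_lit 140))) (XT.nd (nat_lit 78) (nat_lit 0) (nat_lit 0) (XT.lf (nat_lit 0) (nat_lit 2753259673612) (nat_lit 152) (nat_lit 1893998793027) (nat_lit 0) (nat_lit 2745995463160) (nat_lit 1) (nat_lit 5) (nat_lit 3) (nat_lit 4) (nat_lit 1) (nat_lit 4) (nat_lit 262) (nat_lit 199) (nat_lit 139)) (XT.lf (nat_lit 0) (nat_lit 3170766506878) (nat_lit 152) (nat_lit 2167120152838) (nat_lit 0) (nat_lit 3163502080248) (nat_lit 1) (nat_lit 5) (nat_lit 3) (nat_lit 4) (nat_lit 1) (nat_lit 4) (nat_lit 263) (nat_lit 199) (nat_lit 138)))) (XT.nd (nat_lit 156) (nat_lit 0) (nat_lit 0) (XT.nd (nat_lit 78) (nat_lit 0) (nat_lit 0) (XT.lf (nat_lit 0) (nat_lit 3650899053340) (nat_lit 152) (nat_lit 2481210327029) (nat_lit 0) (nat_lit 3643634438730) (nat_lit 1) (nat_lit 5) (nat_lit 3) (nat_lit 4) (nat_lit 1) (nat_lit 4) (nat_lit 264) (nat_lit 199) (nat_lit 137)) (XT.lf (nat_lit 0) (nat_lit 4203051210646)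 (nat_lit 152) (nat_lit 2842414558138) (nat_lit 0) (nat_lit 4195786432574) (nat_lit 1) (nat_lit 5) (nat_lit 3) (nat_lit 4) (nat_lit 1) (nat_lit 4) (nat_lit 265) (nat_lit 199) (nat_lit 136))) (XT.nd (nat_lit 78) (nat_lit 0) (nat_lit 0) (XT.lf (nat_lit 0) (nat_lit 4838025955786) (nat_lit 152) (nat_lit 3257799885468) (nat_lit 0) (nat_lit 4830761035575) (nat_lit 1) (nat_lit 5) (nat_lit 3) (nat_lit 4) (nat_lit 1) (nat_lit 4) (nat_lit 266) (nat_lit 199) (nat_lit 135)) (XT.lf (nat_lit 0) (nat_lit 5568246707688) (nat_lit 152) (nat_lit 3735493413251) (nat_lit 0) (nat_lit 5560981663876) (nat_lit 1) (nat_lit 5) (nat_lit 3) (nat_lit 4) (nat_lit 1) (nat_lit 4) (nat_lit 267) (nat_lit 199) (nat_lit 134)))))) (XT.nd (nat_lit 624) (nat_lit 0) (nat_lit 0) (XT.nd (nat_lit 312) (nat_lit 0) (nat_lit 0) (XT.nd (nat_lit 156) (nat_lit 0) (nat_lit 0) (XT.nd (nat_lit 78) (nat_lit 0) (nat_lit 0) (XT.lf (nat_lit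 0) (nat_lit 6408000394106) (nat_lit 152) (nat_lit 4284841319204) (nat_lit 0) (nat_lit 6400735242816) (nat_lit 1) (nat_lit 5) (nat_lit 3) (nat_lit 4) (nat_lit 1) (nat_lit 4) (nat_lit 268) (nat_lit 199) (nat_lit 133)) (XT.lf (nat_lit 0) (nat_lit 7373716978470) (nat_lit 152) (nat_lit 4916591714530) (nat_lit 0) (nat_lit 7366451733720) (nat_lit 1) (nat_lit 5) (nat_lit 3) (nat_lit 4) (nat_lit 1) (nat_lit 4) (nat_lit 269) (nat_lit 199) (nat_lit 132))) (XT.nd (nat_lit 78) (nat_lit 0) (nat_lit 0) (XT.lf (nat_lit 0) (nat_lit 8484290915690) (nat_lit 152) (nat_lit 5643104933052) (nat_lit 0) (nat_lit 8477025589671) (nat_lit 1) (nat_lit 5) (nat_lit 3) (nat_lit 4) (nat_lit 1) (nat_lit 4) (nat_lit 270) (nat_lit 199) (nat_lit 131)) (XT.lf (nat_lit 0) (nat_lit 9761450826279) (nat_lit 152) (nat_lit 6478595363826) (nat_lit 0) (nat_lit 9754185429592) (nat_lit 1) (nat_lit 5) (nat_lit 3) (nat_lit 4) (nat_lit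 1) (nat_lit 4) (nat_lit 271) (nat_lit 199) (nat_lit 130)))) (XT.nd (nat_lit 156) (nat_lit 0) (nat_lit 0) (XT.nd (nat_lit 78) (nat_lit 0) (nat_lit 0) (XT.lf (nat_lit 0) (nat_lit 11230184621531) (nat_lit 152) (nat_lit 7439409558759) (nat_lit 0) (nat_lit 11222919163392) (nat_lit 1) (nat_lit 5) (nat_lit 3) (nat_lit 4) (nat_lit 1) (nat_lit 4) (nat_lit 272) (nat_lit 199) (nat_lit 129)) (XT.lf (nat_lit 0) (nat_lit 12919228397438) (nat_lit 152) (nat_lit 8544346056449) (nat_lit 0) (nat_lit 12911962885863) (nat_lit 1) (nat_lit 5) (nat_lit 3) (nat_lit 4) (nat_lit 1) (nat_lit 4) (nat_lit 273) (nat_lit 199) (nat_lit 128))) (XT.nd (nat_lit 78) (nat_lit 0) (nat_lit 0) (XT.lf (nat_lit 0) (nat_lit 14861628662661) (nat_lit 152) (nat_lit 9815023179675) (nat_lit 0) (nat_lit 14854363104620) (nat_lit 1) (nat_lit 5) (nat_lit 3) (nat_lit 4) (nat_lit 1) (nat_lit 4) (nat_lit 274) (nat_lit 199) (nat_lit 127))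 (XT.lf (nat_lit 0) (nat_lit 17095388900649) (nat_lit 152) (nat_lit 11276302002588) (nat_lit 0) (nat_lit 17088123302204) (nat_lit 1) (nat_lit 5) (nat_lit 3) (nat_lit 4) (nat_lit 1) (nat_lit 4) (nat_lit 275) (nat_lit 199) (nat_lit 126))))) (XT.nd (nat_lit 312) (nat_lit 0) (nat_lit 0) (XT.nd (nat_lit 156) (nat_lit 0) (nat_lit 0) (XT.nd (nat_lit 78) (nat_lit 0) (nat_lit 0) (XT.lf (nat_lit 0) (nat_lit 19664213116059) (nat_lit 152) (nat_lit 12956772763028) (nat_lit 0) (nat_lit 19656947482479) (nat_lit 1) (nat_lit 5) (nat_lit 3) (nat_lit 4) (nat_lit 1) (nat_lit 4) (nat_lit 276) (nat_lit 199) (nat_lit 125)) (XT.lf (nat_lit 0) (nat_lit 22618360913105) (nat_lit 152) (nat_lit 14889314236742) (nat_lit 0) (nat_lit 22611095248973) (nat_lit 1) (nat_lit 5) (nat_lit 3) (nat_lit 4) (nat_lit 1) (nat_lit 4) (nat_lit 277) (nat_lit 199) (nat_lit 124))) (XT.nd (nat_lit 78) (nat_lit 0) (nat_lit 0) (XT.lf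 (nat_lit 0) (nat_lit 26015630835643) (nat_lit 152) (nat_lit 17111737017781) (nat_lit 0) (nat_lit 26008365144943) (nat_lit 1) (nat_lit 5) (nat_lit 3) (nat_lit 4) (nat_lit 1) (nat_lit 4) (nat_lit 278) (nat_lit 199) (nat_lit 123)) (XT.lf (nat_lit 0) (nat_lit 29922491208244) (nat_lit 152) (nat_lit 19667523290991) (nat_lit 0) (nat_lit 29915225494442) (nat_lit 1) (nat_lit 5) (nat_lit 3) (nat_lit 4) (nat_lit 1) (nat_lit 4) (nat_lit 279) (nat_lit 199) (nat_lit 122)))) (XT.nd (nat_lit 25038) (nat_lit 0) (nat_lit 1900) (XT.nd (nat_lit 78) (nat_lit 0) (nat_lit 0) (XT.lf (nat_lit 0) (nat_lit 34415380603414) (nat_lit 152) (nat_lit 22606677570415) (nat_lit 0) (nat_lit 34408114869524) (nat_lit 1) (nat_lit 5) (nat_lit 3) (nat_lit 4) (nat_lit 1) (nat_lit 4) (nat_lit 280) (nat_lit 199) (nat_lit 121)) (XT.lf (nat_lit 0) (nat_lit 39582203378887) (nat_lit 152) (nat_lit 25986705048474) (nat_lit 0) (nat_lit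 39574937627529) (nat_lit 1) (nat_lit 5) (nat_lit 3) (nat_lit 4) (nat_lit 1) (nat_lit 4) (nat_lit 281) (nat_lit 199) (nat_lit 120))) (XT.nd (nat_lit 78) (nat_lit 76) (nat_lit 0) (XT.lf (nat_lit 0) (nat_lit 1073741823) (nat_lit 0) (nat_lit 0) (nat_lit 0) (nat_lit 0) (nat_lit 27) (nat_lit 0) (nat_lit 1) (nat_lit 0) (nat_lit 1) (nat_lit 0) (nat_lit 200) (nat_lit 200) (nat_lit 200)) (XT.lf (nat_lit 0) (nat_lit 2779057255) (nat_lit 76) (nat_lit 3427503947) (nat_lit 0) (nat_lit 258098189) (nat_lit 26) (nat_lit 5) (nat_lit 27) (nat_lit 0) (nat_lit 26) (nat_lit 4) (nat_lit 201) (nat_lit 200) (nat_lit 199))))))))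
noncomputable def xc38 : XT := (XT.nd (nat_lit 1248) (nat_lit 456) (nat_lit 0) (XT.nd (nat_lit 624) (nat_lit 608) (nat_lit 0) (XT.nd (nat_lit 312) (nat_lit 532) (nat_lit 0) (XT.nd (nat_lit 156) (nat_lit 152) (nat_lit 0) (XT.nd (nat_lit 78) (nat_lit 152) (nat_lit 0) (XT.lf (nat_lit 0) (nat_lit 5492441699) (nat_lit 76) (nat_lit 298647964) (nat_lit 0) (nat_lit 779344317) (nat_lit 26) (nat_lit 5) (nat_lit 27) (nat_lit 0) (nat_lit 26) (nat_lit 4) (nat_lit 202) (nat_lit 200) (nat_lit 198)) (XT.lf (nat_lit 0) (nat_lit 1447075343) (nat_lit 152) (nat_lit 3508092626) (nat_lit 76) (nat_lit 1776318907) (nat_lit 24) (nat_lit 5) (nat_lit 26) (nat_lit 5) (nat_lit 25) (nat_lit 4) (nat_lit 203) (nat_lit 200) (nat_lit 197))) (XT.nd (nat_lit 78) (nat_lit 0) (nat_lit 0) (XT.lf (nat_lit 0) (nat_lit 17349906) (nat_lit 152) (nat_lit 3840429641) (nat_lit 228) (nat_lit 3113796764) (nat_lit 22) (nat_lit 5)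 (nat_lit 24) (nat_lit 5) (nat_lit 25) (nat_lit 4) (nat_lit 204) (nat_lit 200) (nat_lit 196)) (XT.lf (nat_lit 0) (nat_lit 4155577390) (nat_lit 152) (nat_lit 2297362162) (nat_lit 228) (nat_lit 825803298) (nat_lit 22) (nat_lit 5) (nat_lit 24) (nat_lit 5) (nat_lit 25) (nat_lit 4) (nat_lit 205) (nat_lit 200) (nat_lit 195)))) (XT.nd (nat_lit 156) (nat_lit 228) (nat_lit 0) (XT.nd (nat_lit 78) (nat_lit 0) (nat_lit 0) (XT.lf (nat_lit 0) (nat_lit 990300169) (nat_lit 228) (nat_lit 363378531) (nat_lit 304) (nat_lit 6314135416) (nat_lit 18) (nat_lit 5) (nat_lit 21) (nat_lit 5) (nat_lit 22) (nat_lit 5) (nat_lit 206) (nat_lit 200) (nat_lit 194)) (XT.lf (nat_lit 0) (nat_lit 3723220296) (nat_lit 304) (nat_lit 2483324204) (nat_lit 76) (nat_lit 1913603447) (nat_lit 18) (nat_lit 5) (nat_lit 22) (nat_lit 5) (nat_lit 19) (nat_lit 4) (nat_lit 207) (nat_lit 200) (nat_lit 193))) (XT.nd (nat_lit 78) (nat_lit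 0) (nat_lit 0) (XT.lf (nat_lit 0) (nat_lit 2224936791) (nat_lit 228) (nat_lit 4071477452) (nat_lit 304) (nat_lit 2369252312) (nat_lit 15) (nat_lit 5) (nat_lit 18) (nat_lit 5) (nat_lit 19) (nat_lit 4) (nat_lit 208) (nat_lit 200) (nat_lit 192)) (XT.lf (nat_lit 0) (nat_lit 7636142930) (nat_lit 228) (nat_lit 1510420170) (nat_lit 304) (nat_lit 165036408) (nat_lit 15) (nat_lit 5) (nat_lit 18) (nat_lit 5) (nat_lit 19) (nat_lit 4) (nat_lit 209) (nat_lit 200) (nat_lit 191))))) (XT.nd (nat_lit 312) (nat_lit 304) (nat_lit 0) (XT.nd (nat_lit 156) (nat_lit 76) (nat_lit 0) (XT.nd (nat_lit 78) (nat_lit 0) (nat_lit 0) (XT.lf (nat_lit 0) (nat_lit 2165240969) (nat_lit 228) (nat_lit 6346566927) (nat_lit 76) (nat_lit 1528622674) (nat_lit 12) (nat_lit 5) (nat_lit 15) (nat_lit 5) (nat_lit 13) (nat_lit 4) (nat_lit 210) (nat_lit 200) (nat_lit 190)) (XT.lf (nat_lit 0) (nat_lit 4788206730) (nat_lit 228) (nat_lit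 1178375814) (nat_lit 76) (nat_lit 4918286596) (nat_lit 12) (nat_lit 5) (nat_lit 15) (nat_lit 5) (nat_lit 13) (nat_lit 4) (nat_lit 211) (nat_lit 200) (nat_lit 189))) (XT.nd (nat_lit 78) (nat_lit 0) (nat_lit 0) (XT.lf (nat_lit 0) (nat_lit 4957859185) (nat_lit 76) (nat_lit 2874980720) (nat_lit 152) (nat_lit 4020176894) (nat_lit 11) (nat_lit 5) (nat_lit 12) (nat_lit 5) (nat_lit 13) (nat_lit 4) (nat_lit 212) (nat_lit 200) (nat_lit 188)) (XT.lf (nat_lit 0) (nat_lit 11260027974) (nat_lit 152) (nat_lit 1101196937) (nat_lit 0) (nat_lit 617392867) (nat_lit 11) (nat_lit 5) (nat_lit 13) (nat_lit 4) (nat_lit 11) (nat_lit 4) (nat_lit 213) (nat_lit 200) (nat_lit 187)))) (XT.nd (nat_lit 156) (nat_lit 76) (nat_lit 0) (XT.nd (nat_lit 78) (nat_lit 0) (nat_lit 0) (XT.lf (nat_lit 0) (nat_lit 1083720994) (nat_lit 228) (nat_lit 8582036679) (nat_lit 76) (nat_lit 4566656698) (nat_lit 8) (nat_lit 5) (nat_lit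 11) (nat_lit 5) (nat_lit 9) (nat_lit 4) (nat_lit 214) (nat_lit 200) (nat_lit 186)) (XT.lf (nat_lit 0) (nat_lit 4048443678) (nat_lit 228) (nat_lit 2442145263) (nat_lit 76) (nat_lit 9184443397) (nat_lit 8) (nat_lit 5) (nat_lit 11) (nat_lit 5) (nat_lit 9) (nat_lit 4) (nat_lit 215) (nat_lit 200) (nat_lit 185))) (XT.nd (nat_lit 78) (nat_lit 0) (nat_lit 0) (XT.lf (nat_lit 0) (nat_lit 4850208487) (nat_lit 76) (nat_lit 2684774795) (nat_lit 152) (nat_lit 9788128181) (nat_lit 7) (nat_lit 5) (nat_lit 8) (nat_lit 5) (nat_lit 9) (nat_lit 4) (nat_lit 216) (nat_lit 200) (nat_lit 184)) (XT.lf (nat_lit 0) (nat_lit 11629656309) (nat_lit 152) (nat_lit 5970470274) (nat_lit 0) (nat_lit 1606054945) (nat_lit 7) (nat_lit 5) (nat_lit 9) (nat_lit 4) (nat_lit 7) (nat_lit 4) (nat_lit 217) (nat_lit 200) (nat_lit 183)))))) (XT.nd (nat_lit 624) (nat_lit 152) (nat_lit 0) (XT.nd (nat_lit 312) (nat_lit 76) (nat_lit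 0) (XT.nd (nat_lit 156) (nat_lit 152) (nat_lit 0) (XT.nd (nat_lit 78) (nat_lit 0) (nat_lit 0) (XT.lf (nat_lit 0) (nat_lit 1317697352) (nat_lit 76) (nat_lit 15100075010) (nat_lit 76) (nat_lit 4942533384) (nat_lit 6) (nat_lit 4) (nat_lit 7) (nat_lit 5) (nat_lit 7) (nat_lit 4) (nat_lit 218) (nat_lit 200) (nat_lit 182)) (XT.lf (nat_lit 0) (nat_lit 10199136117) (nat_lit 76) (nat_lit 11940272886) (nat_lit 76) (nat_lit 1666261466) (nat_lit 6) (nat_lit 4) (nat_lit 7) (nat_lit 5) (nat_lit 7) (nat_lit 4) (nat_lit 219) (nat_lit 200) (nat_lit 181))) (XT.nd (nat_lit 78) (nat_lit 76) (nat_lit 0) (XT.lf (nat_lit 0) (nat_lit 1825862205) (nat_lit 152) (nat_lit 6449685758) (nat_lit 76) (nat_lit 18342830518) (nat_lit 5) (nat_lit 5) (nat_lit 7) (nat_lit 5) (nat_lit 6) (nat_lit 4) (nat_lit 220) (nat_lit 200) (nat_lit 180)) (XT.lf (nat_lit 0) (nat_lit 1717156688) (nat_lit 76) (nat_lit 3948198700) (nat_lit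 152) (nat_lit 24176888195) (nat_lit 4) (nat_lit 5) (nat_lit 5) (nat_lit 5) (nat_lit 6) (nat_lit 4) (nat_lit 221) (nat_lit 200) (nat_lit 179)))) (XT.nd (nat_lit 156) (nat_lit 76) (nat_lit 0) (XT.nd (nat_lit 78) (nat_lit 0) (nat_lit 0) (XT.lf (nat_lit 0) (nat_lit 10401786711) (nat_lit 152) (nat_lit 21863365158) (nat_lit 0) (nat_lit 1236623079) (nat_lit 4) (nat_lit 5) (nat_lit 6) (nat_lit 4) (nat_lit 4) (nat_lit 4) (nat_lit 222) (nat_lit 200) (nat_lit 178)) (XT.lf (nat_lit 0) (nat_lit 15971682910) (nat_lit 152) (nat_lit 14971697370) (nat_lit 0) (nat_lit 6748613206) (nat_lit 4) (nat_lit 5) (nat_lit 6) (nat_lit 4) (nat_lit 4) (nat_lit 4) (nat_lit 223) (nat_lit 200) (nat_lit 177))) (XT.nd (nat_lit 78) (nat_lit 76) (nat_lit 0) (XT.lf (nat_lit 0) (nat_lit 22320533727) (nat_lit 152) (nat_lit 7151760066) (nat_lit 0) (nat_lit 13047110917) (nat_lit 4) (nat_lit 5) (nat_lit 6) (nat_lit 4) (nat_lit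 4) (nat_lit 4) (nat_lit 224) (nat_lit 200) (nat_lit 176)) (XT.lf (nat_lit 0) (nat_lit 1920414067) (nat_lit 76) (nat_lit 27731661992) (nat_lit 76) (nat_lit 18414453872) (nat_lit 3) (nat_lit 4) (nat_lit 4) (nat_lit 5) (nat_lit 4) (nat_lit 4) (nat_lit 225) (nat_lit 200) (nat_lit 175))))) (XT.nd (nat_lit 312) (nat_lit 152) (nat_lit 0) (XT.nd (nat_lit 156) (nat_lit 0) (nat_lit 0) (XT.nd (nat_lit 78) (nat_lit 0) (nat_lit 0) (XT.lf (nat_lit 0) (nat_lit 13069621518) (nat_lit 76) (nat_lit 25341200179) (nat_lit 76) (nat_lit 15985917877) (nat_lit 3) (nat_lit 4) (nat_lit 4) (nat_lit 5) (nat_lit 4) (nat_lit 4) (nat_lit 226) (nat_lit 200) (nat_lit 174)) (XT.lf (nat_lit 0) (nat_lit 25815076948) (nat_lit 76) (nat_lit 22627980453) (nat_lit 76) (nat_lit 13239590166) (nat_lit 3) (nat_lit 4) (nat_lit 4) (nat_lit 5) (nat_lit 4) (nat_lit 4) (nat_lit 227) (nat_lit 200) (nat_lit 173))) (XT.nd (nat_lit 78)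 (nat_lit 0) (nat_lit 0) (XT.lf (nat_lit 0) (nat_lit 40406147962) (nat_lit 76) (nat_lit 19538918080) (nat_lit 76) (nat_lit 10121738242) (nat_lit 3) (nat_lit 4) (nat_lit 4) (nat_lit 5) (nat_lit 4) (nat_lit 4) (nat_lit 228) (nat_lit 200) (nat_lit 172)) (XT.lf (nat_lit 0) (nat_lit 57128312038) (nat_lit 76) (nat_lit 16013574884) (nat_lit 76) (nat_lit 6571360653) (nat_lit 3) (nat_lit 4) (nat_lit 4) (nat_lit 5) (nat_lit 4) (nat_lit 4) (nat_lit 229) (nat_lit 200) (nat_lit 171)))) (XT.nd (nat_lit 156) (nat_lit 76) (nat_lit 0) (XT.nd (nat_lit 78) (nat_lit 76) (nat_lit 0) (XT.lf (nat_lit 0) (nat_lit 76308741950) (nat_lit 76) (nat_lit 11982976758) (nat_lit 76) (nat_lit 2518993490) (nat_lit 3) (nat_lit 4) (nat_lit 4) (nat_lit 5) (nat_lit 4) (nat_lit 4) (nat_lit 230) (nat_lit 200) (nat_lit 170)) (XT.lf (nat_lit 0) (nat_lit 1926388041) (nat_lit 152) (nat_lit 5341178576) (nat_lit 76) (nat_lit 96295621381)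 (nat_lit 2) (nat_lit 5) (nat_lit 4) (nat_lit 5) (nat_lit 3) (nat_lit 4) (nat_lit 231) (nat_lit 200) (nat_lit 169))) (XT.nd (nat_lit 78) (nat_lit 0) (nat_lit 0) (XT.lf (nat_lit 0) (nat_lit 5525760591) (nat_lit 76) (nat_lit 1462673816) (nat_lit 152) (nat_lit 111190996058) (nat_lit 1) (nat_lit 5) (nat_lit 2) (nat_lit 5) (nat_lit 3) (nat_lit 4) (nat_lit 232) (nat_lit 200) (nat_lit 168)) (XT.lf (nat_lit 0) (nat_lit 13297493657) (nat_lit 152) (nat_lit 116592781898) (nat_lit 0) (nat_lit 5024722456) (nat_lit 1) (nat_lit 5) (nat_lit 3) (nat_lit 4) (nat_lit 1) (nat_lit 4) (nat_lit 233) (nat_lit 200) (nat_lit 167)))))))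
noncomputable def xc39 : XT := (XT.nd (nat_lit 1248) (nat_lit 0) (nat_lit 0) (XT.nd (nat_lit 624) (nat_lit 0) (nat_lit 0) (XT.nd (nat_lit 312) (nat_lit 0) (nat_lit 0) (XT.nd (nat_lit 156) (nat_lit 0) (nat_lit 0) (XT.nd (nat_lit 78) (nat_lit 0) (nat_lit 0) (XT.lf (nat_lit 0) (nat_lit 20604611235) (nat_lit 152) (nat_lit 121227556347) (nat_lit 0) (nat_lit 12321016975) (nat_lit 1) (nat_lit 5) (nat_lit 3) (nat_lit 4) (nat_lit 1) (nat_lit 4) (nat_lit 234) (nat_lit 200) (nat_lit 166)) (XT.lf (nat_lit 0) (nat_lit 28992186281) (nat_lit 152) (nat_lit 126588107387) (nat_lit 0) (nat_lit 20699180666) (nat_lit 1) (nat_lit 5) (nat_lit 3) (nat_lit 4) (nat_lit 1) (nat_lit 4) (nat_lit 235) (nat_lit 200) (nat_lit 165))) (XT.nd (nat_lit 78) (nat_lit 0) (nat_lit 0) (XT.lf (nat_lit 0) (nat_lit 38624323525) (nat_lit 152) (nat_lit 132779315364) (nat_lit 0) (nat_lit 30323134122) (nat_lit 1) (nat_lit 5) (nat_lit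 3) (nat_lit 4) (nat_lit 1) (nat_lit 4) (nat_lit 236) (nat_lit 200) (nat_lit 164)) (XT.lf (nat_lit 0) (nat_lit 49689477825) (nat_lit 152) (nat_lit 139922312608) (nat_lit 0) (nat_lit 41381172086) (nat_lit 1) (nat_lit 5) (nat_lit 3) (nat_lit 4) (nat_lit 1) (nat_lit 4) (nat_lit 237) (nat_lit 200) (nat_lit 163)))) (XT.nd (nat_lit 156) (nat_lit 0) (nat_lit 0) (XT.nd (nat_lit 78) (nat_lit 0) (nat_lit 0) (XT.lf (nat_lit 0) (nat_lit 62404141331) (nat_lit 152) (nat_lit 148156853414) (nat_lit 0) (nat_lit 54089647473) (nat_lit 1) (nat_lit 5) (nat_lit 3) (nat_lit 4) (nat_lit 1) (nat_lit 4) (nat_lit 238) (nat_lit 200) (nat_lit 162)) (XT.lf (nat_lit 0) (nat_lit 77017079199) (nat_lit 152) (nat_lit 157644048362) (nat_lit 0) (nat_lit 68697204368) (nat_lit 1) (nat_lit 5) (nat_lit 3) (nat_lit 4) (nat_lit 1) (nat_lit 4) (nat_lit 239) (nat_lit 200) (nat_lit 161))) (XT.nd (nat_lit 78) (nat_lit 0) (nat_lit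 0) (XT.lf (nat_lit 0) (nat_lit 93814196735) (nat_lit 152) (nat_lit 168569516484) (nat_lit 0) (nat_lit 85489642797) (nat_lit 1) (nat_lit 5) (nat_lit 3) (nat_lit 4) (nat_lit 1) (nat_lit 4) (nat_lit 240) (nat_lit 200) (nat_lit 160)) (XT.lf (nat_lit 0) (nat_lit 113124133194) (nat_lit 152) (nat_lit 181147016939) (nat_lit 0) (nat_lit 104795510467) (nat_lit 1) (nat_lit 5) (nat_lit 3) (nat_lit 4) (nat_lit 1) (nat_lit 4) (nat_lit 241) (nat_lit 200) (nat_lit 159))))) (XT.nd (nat_lit 312) (nat_lit 0) (nat_lit 0) (XT.nd (nat_lit 156) (nat_lit 0) (nat_lit 0) (XT.nd (nat_lit 78) (nat_lit 0) (nat_lit 0) (XT.lf (nat_lit 0) (nat_lit 135324691682) (nat_lit 152) (nat_lit 195622631257) (nat_lit 0) (nat_lit 126992530878) (nat_lit 1) (nat_lit 5) (nat_lit 3) (nat_lit 4) (nat_lit 1) (nat_lit 4) (nat_lit 242) (nat_lit 200) (nat_lit 158)) (XT.lf (nat_lit 0) (nat_lit 160850230952) (nat_lit 152) (nat_lit 212279577980)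 (nat_lit 0) (nat_lit 152514993559) (nat_lit 1) (nat_lit 5) (nat_lit 3) (nat_lit 4) (nat_lit 1) (nat_lit 4) (nat_lit 243) (nat_lit 200) (nat_lit 157))) (XT.nd (nat_lit 78) (nat_lit 0) (nat_lit 0) (XT.lf (nat_lit 0) (nat_lit 190200163728) (nat_lit 152) (nat_lit 231443753891) (nat_lit 0) (nat_lit 181862251040) (nat_lit 1) (nat_lit 5) (nat_lit 3) (nat_lit 4) (nat_lit 1) (nat_lit 4) (nat_lit 244) (nat_lit 200) (nat_lit 156)) (XT.lf (nat_lit 0) (nat_lit 223948727825) (nat_lit 152) (nat_lit 253490110257) (nat_lit 0) (nat_lit 215608488794) (nat_lit 1) (nat_lit 5) (nat_lit 3) (nat_lit 4) (nat_lit 1) (nat_lit 4) (nat_lit 245) (nat_lit 200) (nat_lit 155)))) (XT.nd (nat_lit 156) (nat_lit 0) (nat_lit 0) (XT.nd (nat_lit 78) (nat_lit 0) (nat_lit 0) (XT.lf (nat_lit 0) (nat_lit 262756221237) (nat_lit 152) (nat_lit 278849988835) (nat_lit 0) (nat_lit 254413959299) (nat_lit 1) (nat_lit 5) (nat_lit 3)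 (nat_lit 4) (nat_lit 1) (nat_lit 4) (nat_lit 246) (nat_lit 200) (nat_lit 154)) (XT.lf (nat_lit 0) (nat_lit 307381921009) (nat_lit 152) (nat_lit 308019561161) (nat_lit 0) (nat_lit 299037900021) (nat_lit 1) (nat_lit 5) (nat_lit 3) (nat_lit 4) (nat_lit 1) (nat_lit 4) (nat_lit 247) (nat_lit 200) (nat_lit 153))) (XT.nd (nat_lit 78) (nat_lit 0) (nat_lit 0) (XT.lf (nat_lit 0) (nat_lit 358698938657) (nat_lit 152) (nat_lit 341569536260) (nat_lit 0) (nat_lit 350353388062) (nat_lit 1) (nat_lit 5) (nat_lit 3) (nat_lit 4) (nat_lit 1) (nat_lit 4) (nat_lit 248) (nat_lit 200) (nat_lit 152)) (XT.lf (nat_lit 0) (nat_lit 417711302789) (nat_lit 152) (nat_lit 380156326686) (nat_lit 0) (nat_lit 409364422099) (nat_lit 1) (nat_lit 5) (nat_lit 3) (nat_lit 4) (nat_lit 1) (nat_lit 4) (nat_lit 249) (nat_lit 200) (nat_lit 151)))))) (XT.nd (nat_lit 624) (nat_lit 0) (nat_lit 0) (XT.nd (nat_lit 312) (nat_lit 0) (nat_lit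 0) (XT.nd (nat_lit 156) (nat_lit 0) (nat_lit 0) (XT.nd (nat_lit 78) (nat_lit 0) (nat_lit 0) (XT.lf (nat_lit 0) (nat_lit 485573603138) (nat_lit 152) (nat_lit 424534891384) (nat_lit 0) (nat_lit 477225565844) (nat_lit 1) (nat_lit 5) (nat_lit 3) (nat_lit 4) (nat_lit 1) (nat_lit 4) (nat_lit 250) (nat_lit 200) (nat_lit 150)) (XT.lf (nat_lit 0) (nat_lit 563613580361) (nat_lit 152) (nat_lit 475573506620) (nat_lit 0) (nat_lit 555264537325) (nat_lit 1) (nat_lit 5) (nat_lit 3) (nat_lit 4) (nat_lit 1) (nat_lit 4) (nat_lit 251) (nat_lit 200) (nat_lit 149))) (XT.nd (nat_lit 78) (nat_lit 0) (nat_lit 0) (XT.lf (nat_lit 0) (nat_lit 653358103579) (nat_lit 152) (nat_lit 534270753995) (nat_lit 0) (nat_lit 645008185984) (nat_lit 1) (nat_lit 5) (nat_lit 3) (nat_lit 4) (nat_lit 1) (nat_lit 4) (nat_lit 252) (nat_lit 200) (nat_lit 148)) (XT.lf (nat_lit 0) (nat_lit 756563043898) (nat_lit 152) (nat_lit 601775057915)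 (nat_lit 0) (nat_lit 748212365818) (nat_lit 1) (nat_lit 5) (nat_lit 3) (nat_lit 4) (nat_lit 1) (nat_lit 4) (nat_lit 253) (nat_lit 200) (nat_lit 147)))) (XT.nd (nat_lit 156) (nat_lit 0) (nat_lit 0) (XT.nd (nat_lit 78) (nat_lit 0) (nat_lit 0) (XT.lf (nat_lit 0) (nat_lit 875247628412) (nat_lit 152) (nat_lit 679407154762) (nat_lit 0) (nat_lit 866896289040) (nat_lit 1) (nat_lit 5) (nat_lit 3) (nat_lit 4) (nat_lit 1) (nat_lit 4) (nat_lit 254) (nat_lit 200) (nat_lit 146)) (XT.lf (nat_lit 0) (nat_lit 1011733946817) (nat_lit 152) (nat_lit 768685933385) (nat_lit 0) (nat_lit 1003382032408) (nat_lit 1) (nat_lit 5) (nat_lit 3) (nat_lit 4) (nat_lit 1) (nat_lit 4) (nat_lit 255) (nat_lit 200) (nat_lit 145))) (XT.nd (nat_lit 78) (nat_lit 0) (nat_lit 0) (XT.lf (nat_lit 0) (nat_lit 1168692383604) (nat_lit 152) (nat_lit 871358152499) (nat_lit 0) (nat_lit 1160339969164) (nat_lit 1) (nat_lit 5) (nat_lit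 3) (nat_lit 4) (nat_lit 1) (nat_lit 4) (nat_lit 256) (nat_lit 200) (nat_lit 144)) (XT.lf (nat_lit 0) (nat_lit 1349193864710) (nat_lit 152) (nat_lit 989432616388) (nat_lit 0) (nat_lit 1340841015460) (nat_lit 1) (nat_lit 5) (nat_lit 3) (nat_lit 4) (nat_lit 1) (nat_lit 4) (nat_lit 257) (nat_lit 200) (nat_lit 143))))) (XT.nd (nat_lit 312) (nat_lit 0) (nat_lit 0) (XT.nd (nat_lit 156) (nat_lit 0) (nat_lit 0) (XT.nd (nat_lit 78) (nat_lit 0) (nat_lit 0) (XT.lf (nat_lit 0) (nat_lit 1556769940853) (nat_lit 152) (nat_lit 1125219477609) (nat_lit 0) (nat_lit 1548416713506) (nat_lit 1) (nat_lit 5) (nat_lit 3) (nat_lit 4) (nat_lit 1) (nat_lit 4) (nat_lit 258) (nat_lit 200) (nat_lit 142)) (XT.lf (nat_lit 0) (nat_lit 1795481883087) (nat_lit 152) (nat_lit 1281375435619) (nat_lit 0) (nat_lit 1787128326961) (nat_lit 1) (nat_lit 5) (nat_lit 3) (nat_lit 4) (nat_lit 1) (nat_lit 4) (nat_lit 259) (nat_lit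 200) (nat_lit 141))) (XT.nd (nat_lit 78) (nat_lit 0) (nat_lit 0) (XT.lf (nat_lit 0) (nat_lit 2070000142456) (nat_lit 152) (nat_lit 1460955715684) (nat_lit 0) (nat_lit 2061646300436) (nat_lit 1) (nat_lit 5) (nat_lit 3) (nat_lit 4) (nat_lit 1) (nat_lit 4) (nat_lit 260) (nat_lit 200) (nat_lit 140)) (XT.lf (nat_lit 0) (nat_lit 2385695728382) (nat_lit 152) (nat_lit 1667473845023) (nat_lit 0) (nat_lit 2377341637758) (nat_lit 1) (nat_lit 5) (nat_lit 3) (nat_lit 4) (nat_lit 1) (nat_lit 4) (nat_lit 261) (nat_lit 200) (nat_lit 139)))) (XT.nd (nat_lit 156) (nat_lit 0) (nat_lit 0) (XT.nd (nat_lit 78) (nat_lit 0) (nat_lit 0) (XT.lf (nat_lit 0) (nat_lit 2748745293634) (nat_lit 152) (nat_lit 1904970395732) (nat_lit 0) (nat_lit 2740390986832) (nat_lit 1) (nat_lit 5) (nat_lit 3) (nat_lit 4) (nat_lit 1) (nat_lit 4) (nat_lit 262) (nat_lit 200) (nat_lit 138)) (XT.lf (nat_lit 0) (nat_lit 3166251981880)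 (nat_lit 152) (nat_lit 2178092039454) (nat_lit 0) (nat_lit 3157897487098) (nat_lit 1) (nat_lit 5) (nat_lit 3) (nat_lit 4) (nat_lit 1) (nat_lit 4) (nat_lit 263) (nat_lit 200) (nat_lit 137))) (XT.nd (nat_lit 78) (nat_lit 0) (nat_lit 0) (XT.lf (nat_lit 0) (nat_lit 3646384402237) (nat_lit 152) (nat_lit 2492182460523) (nat_lit 0) (nat_lit 3638029743994) (nat_lit 1) (nat_lit 5) (nat_lit 3) (nat_lit 4) (nat_lit 1) (nat_lit 4) (nat_lit 264) (nat_lit 200) (nat_lit 136)) (XT.nd (nat_lit 78) (nat_lit 0) (nat_lit 0) (XT.lf (nat_lit 0) (nat_lit 4198536449886) (nat_lit 152) (nat_lit 2853386906309) (nat_lit 0) (nat_lit 4190181649503) (nat_lit 1) (nat_lit 5) (nat_lit 3) (nat_lit 4) (nat_lit 1) (nat_lit 4) (nat_lit 265) (nat_lit 200) (nat_lit 135)) (XT.lf (nat_lit 0) (nat_lit 4833511099674) (nat_lit 152) (nat_lit 3268772420315) (nat_lit 0) (nat_lit 4825156175690) (nat_lit 1) (nat_lit 5) (nat_lit 3)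 (nat_lit 4) (nat_lit 1) (nat_lit 4) (nat_lit 266) (nat_lit 200) (nat_lit 134))))))))
noncomputable def xc40 : XT := (XT.nd (nat_lit 27534) (nat_lit 0) (nat_lit 0) (XT.nd (nat_lit 26286) (nat_lit 0) (nat_lit 456) (XT.nd (nat_lit 624) (nat_lit 0) (nat_lit 0) (XT.nd (nat_lit 312) (nat_lit 0) (nat_lit 0) (XT.nd (nat_lit 156) (nat_lit 0) (nat_lit 0) (XT.nd (nat_lit 78) (nat_lit 0) (nat_lit 0) (XT.lf (nat_lit 0) (nat_lit 5563731768659) (nat_lit 152) (nat_lit 3746466110425) (nat_lit 0) (nat_lit 5555376737197) (nat_lit 1) (nat_lit 5) (nat_lit 3) (nat_lit 4) (nat_lit 1) (nat_lit 4) (nat_lit 267) (nat_lit 200) (nat_lit 133)) (XT.lf (nat_lit 0) (nat_lit 6403485382976) (nat_lit 152) (nat_lit 4295814157532) (nat_lit 0) (nat_lit 6395130258054) (nat_lit 1) (nat_lit 5) (nat_lit 3) (nat_lit 4) (nat_lit 1) (nat_lit 4) (nat_lit 268) (nat_lit 200) (nat_lit 132))) (XT.nd (nat_lit 78) (nat_lit 0) (nat_lit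 0) (XT.lf (nat_lit 0) (nat_lit 7369201904643) (nat_lit 152) (nat_lit 4927564675600) (nat_lit 0) (nat_lit 7360846698453) (nat_lit 1) (nat_lit 5) (nat_lit 3) (nat_lit 4) (nat_lit 1) (nat_lit 4) (nat_lit 269) (nat_lit 200) (nat_lit 131)) (XT.lf (nat_lit 0) (nat_lit 8479775787346) (nat_lit 152) (nat_lit 5654078000854) (nat_lit 0) (nat_lit 8471420510486) (nat_lit 1) (nat_lit 5) (nat_lit 3) (nat_lit 4) (nat_lit 1) (nat_lit 4) (nat_lit 270) (nat_lit 200) (nat_lit 130)))) (XT.nd (nat_lit 156) (nat_lit 0) (nat_lit 0) (XT.nd (nat_lit 78) (nat_lit 0) (nat_lit 0) (XT.lf (nat_lit 0) (nat_lit 9756935650527) (nat_lit 152) (nat_lit 6489568524439) (nat_lit 0) (nat_lit 9748580312216) (nat_lit 1) (nat_lit 5) (nat_lit 3) (nat_lit 4) (nat_lit 1) (nat_lit 4) (nat_lit 271) (nat_lit 200) (nat_lit 129)) (XT.lf (nat_lit 0) (nat_lit 11225669404554) (nat_lit 152) (nat_lit 7450382800077) (nat_lit 0) (nat_lit 11217314012808)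 (nat_lit 1) (nat_lit 5) (nat_lit 3) (nat_lit 4) (nat_lit 1) (nat_lit 4) (nat_lit 272) (nat_lit 200) (nat_lit 128))) (XT.nd (nat_lit 78) (nat_lit 0) (nat_lit 0) (XT.lf (nat_lit 0) (nat_lit 12914713144615) (nat_lit 152) (nat_lit 8555319367945) (nat_lit 0) (nat_lit 12906357706403) (nat_lit 1) (nat_lit 5) (nat_lit 3) (nat_lit 4) (nat_lit 1) (nat_lit 4) (nat_lit 273) (nat_lit 200) (nat_lit 127)) (XT.lf (nat_lit 0) (nat_lit 14857113378667) (nat_lit 152) (nat_lit 9825996552196) (nat_lit 0) (nat_lit 14848757900049) (nat_lit 1) (nat_lit 5) (nat_lit 3) (nat_lit 4) (nat_lit 1) (nat_lit 4) (nat_lit 274) (nat_lit 200) (nat_lit 126))))) (XT.nd (nat_lit 312) (nat_lit 0) (nat_lit 0) (XT.nd (nat_lit 156) (nat_lit 0) (nat_lit 0) (XT.nd (nat_lit 78) (nat_lit 0) (nat_lit 0) (XT.lf (nat_lit 0) (nat_lit 17090873589550) (nat_lit 152) (nat_lit 11287275428174) (nat_lit 0) (nat_lit 17082518075797) (nat_lit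 1) (nat_lit 5) (nat_lit 3) (nat_lit 4) (nat_lit 1) (nat_lit 4) (nat_lit 275) (nat_lit 200) (nat_lit 125)) (XT.lf (nat_lit 0) (nat_lit 19659697781390) (nat_lit 152) (nat_lit 12967746234757) (nat_lit 0) (nat_lit 19651342237085) (nat_lit 1) (nat_lit 5) (nat_lit 3) (nat_lit 4) (nat_lit 1) (nat_lit 4) (nat_lit 276) (nat_lit 200) (nat_lit 124))) (XT.nd (nat_lit 78) (nat_lit 0) (nat_lit 0) (XT.lf (nat_lit 0) (nat_lit 22613845557940) (nat_lit 152) (nat_lit 14900287748596) (nat_lit 0) (nat_lit 22605489987069) (nat_lit 1) (nat_lit 5) (nat_lit 3) (nat_lit 4) (nat_lit 1) (nat_lit 4) (nat_lit 277) (nat_lit 200) (nat_lit 123)) (XT.lf (nat_lit 0) (nat_lit 26011115462656) (nat_lit 152) (nat_lit 17122710564526) (nat_lit 0) (nat_lit 26002759868682) (nat_lit 1) (nat_lit 5) (nat_lit 3) (nat_lit 4) (nat_lit 1) (nat_lit 4) (nat_lit 278) (nat_lit 200) (nat_lit 122)))) (XT.nd (nat_lit 25194) (nat_lit 0) (nat_lit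 1672) (XT.nd (nat_lit 78) (nat_lit 0) (nat_lit 0) (XT.lf (nat_lit 0) (nat_lit 29917975819759) (nat_lit 152) (nat_lit 19678496868076) (nat_lit 0) (nat_lit 29909620205697) (nat_lit 1) (nat_lit 5) (nat_lit 3) (nat_lit 4) (nat_lit 1) (nat_lit 4) (nat_lit 279) (nat_lit 200) (nat_lit 121)) (XT.lf (nat_lit 0) (nat_lit 34410865201453) (nat_lit 152) (nat_lit 22617651173882) (nat_lit 0) (nat_lit 34402509569923) (nat_lit 1) (nat_lit 5) (nat_lit 3) (nat_lit 4) (nat_lit 1) (nat_lit 4) (nat_lit 280) (nat_lit 200) (nat_lit 120))) (XT.nd (nat_lit 78) (nat_lit 228) (nat_lit 0) (XT.lf (nat_lit 0) (nat_lit 1326368235) (nat_lit 0) (nat_lit 1326368235) (nat_lit 76) (nat_lit 611472349) (nat_lit 26) (nat_lit 5) (nat_lit 26) (nat_lit 3) (nat_lit 27) (nat_lit 0) (nat_lit 201) (nat_lit 201) (nat_lit 198)) (XT.lf (nat_lit 0) (nat_lit 1024902194) (nat_lit 228) (nat_lit 902431102) (nat_lit 228) (nat_lit 4736494720)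 (nat_lit 23) (nat_lit 3) (nat_lit 26) (nat_lit 3) (nat_lit 26) (nat_lit 5) (nat_lit 202) (nat_lit 201) (nat_lit 197)))))) (XT.nd (nat_lit 624) (nat_lit 380) (nat_lit 0) (XT.nd (nat_lit 312) (nat_lit 684) (nat_lit 0) (XT.nd (nat_lit 156) (nat_lit 152) (nat_lit 0) (XT.nd (nat_lit 78) (nat_lit 0) (nat_lit 76) (XT.lf (nat_lit 76) (nat_lit 2446223887) (nat_lit 0) (nat_lit 744059439) (nat_lit 228) (nat_lit 3669861684) (nat_lit 24) (nat_lit 5) (nat_lit 23) (nat_lit 3) (nat_lit 26) (nat_lit 5) (nat_lit 203) (nat_lit 201) (nat_lit 196)) (XT.lf (nat_lit 0) (nat_lit 5407748115) (nat_lit 152) (nat_lit 990687125) (nat_lit 76) (nat_lit 732874055) (nat_lit 24) (nat_lit 5) (nat_lit 26) (nat_lit 5) (nat_lit 25) (nat_lit 4) (nat_lit 204) (nat_lit 201) (nat_lit 195))) (XT.nd (nat_lit 78) (nat_lit 0) (nat_lit 0) (XT.lf (nat_lit 0) (nat_lit 312593798) (nat_lit 228) (nat_lit 4557902584) (nat_lit 76) (nat_lit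 2596291522) (nat_lit 21) (nat_lit 5) (nat_lit 24) (nat_lit 5) (nat_lit 22) (nat_lit 5) (nat_lit 205) (nat_lit 201) (nat_lit 194)) (XT.lf (nat_lit 0) (nat_lit 2243278472) (nat_lit 228) (nat_lit 690419143) (nat_lit 76) (nat_lit 4944697641) (nat_lit 21) (nat_lit 5) (nat_lit 24) (nat_lit 5) (nat_lit 22) (nat_lit 5) (nat_lit 206) (nat_lit 201) (nat_lit 193)))) (XT.nd (nat_lit 156) (nat_lit 456) (nat_lit 0) (XT.nd (nat_lit 78) (nat_lit 0) (nat_lit 0) (XT.lf (nat_lit 0) (nat_lit 3870656130) (nat_lit 228) (nat_lit 502154351) (nat_lit 304) (nat_lit 3995114402) (nat_lit 18) (nat_lit 5) (nat_lit 21) (nat_lit 5) (nat_lit 22) (nat_lit 5) (nat_lit 207) (nat_lit 201) (nat_lit 192)) (XT.lf (nat_lit 0) (nat_lit 6727434276) (nat_lit 304) (nat_lit 85943108) (nat_lit 76) (nat_lit 2133890201) (nat_lit 18) (nat_lit 5) (nat_lit 22) (nat_lit 5) (nat_lit 19) (nat_lit 4) (nat_lit 208) (nat_lit 201) (nat_lit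 191))) (XT.nd (nat_lit 78) (nat_lit 228) (nat_lit 0) (XT.lf (nat_lit 0) (nat_lit 5202653413) (nat_lit 228) (nat_lit 4274426931) (nat_lit 304) (nat_lit 132098716) (nat_lit 15) (nat_lit 5) (nat_lit 18) (nat_lit 5) (nat_lit 19) (nat_lit 4) (nat_lit 209) (nat_lit 201) (nat_lit 190)) (XT.lf (nat_lit 0) (nat_lit 655017062) (nat_lit 152) (nat_lit 1252893534) (nat_lit 228) (nat_lit 8473678179) (nat_lit 12) (nat_lit 5) (nat_lit 14) (nat_lit 5) (nat_lit 15) (nat_lit 5) (nat_lit 210) (nat_lit 201) (nat_lit 189))))) (XT.nd (nat_lit 312) (nat_lit 152) (nat_lit 0) (XT.nd (nat_lit 156) (nat_lit 152) (nat_lit 0) (XT.nd (nat_lit 78) (nat_lit 76) (nat_lit 0) (XT.lf (nat_lit 0) (nat_lit 4396637719) (nat_lit 228) (nat_lit 4622113830) (nat_lit 76) (nat_lit 2228005399) (nat_lit 12) (nat_lit 5) (nat_lit 15) (nat_lit 5) (nat_lit 13) (nat_lit 4) (nat_lit 211) (nat_lit 201) (nat_lit 188)) (XT.lf (nat_lit 0)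 (nat_lit 1067216296) (nat_lit 76) (nat_lit 6141334859) (nat_lit 152) (nat_lit 5041777765) (nat_lit 11) (nat_lit 5) (nat_lit 12) (nat_lit 5) (nat_lit 13) (nat_lit 4) (nat_lit 212) (nat_lit 201) (nat_lit 187))) (XT.nd (nat_lit 78) (nat_lit 152) (nat_lit 0) (XT.lf (nat_lit 0) (nat_lit 7923087503) (nat_lit 76) (nat_lit 2618339547) (nat_lit 152) (nat_lit 2849098679) (nat_lit 11) (nat_lit 5) (nat_lit 12) (nat_lit 5) (nat_lit 13) (nat_lit 4) (nat_lit 213) (nat_lit 201) (nat_lit 186)) (XT.lf (nat_lit 0) (nat_lit 932758998) (nat_lit 152) (nat_lit 13413283816) (nat_lit 152) (nat_lit 360777410) (nat_lit 9) (nat_lit 4) (nat_lit 11) (nat_lit 5) (nat_lit 11) (nat_lit 4) (nat_lit 214) (nat_lit 201) (nat_lit 185)))) (XT.nd (nat_lit 156) (nat_lit 76) (nat_lit 0) (XT.nd (nat_lit 78) (nat_lit 0) (nat_lit 0) (XT.lf (nat_lit 0) (nat_lit 2578516139) (nat_lit 228) (nat_lit 7712403103) (nat_lit 76) (nat_lit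 5869687237) (nat_lit 8) (nat_lit 5) (nat_lit 11) (nat_lit 5) (nat_lit 9) (nat_lit 4) (nat_lit 215) (nat_lit 201) (nat_lit 184)) (XT.lf (nat_lit 0) (nat_lit 5814177183) (nat_lit 228) (nat_lit 932867855) (nat_lit 76) (nat_lit 11099529068) (nat_lit 8) (nat_lit 5) (nat_lit 11) (nat_lit 5) (nat_lit 9) (nat_lit 4) (nat_lit 216) (nat_lit 201) (nat_lit 183))) (XT.nd (nat_lit 78) (nat_lit 0) (nat_lit 0) (XT.lf (nat_lit 0) (nat_lit 7368084449) (nat_lit 76) (nat_lit 2378643248) (nat_lit 152) (nat_lit 10007458084) (nat_lit 7) (nat_lit 5) (nat_lit 8) (nat_lit 5) (nat_lit 9) (nat_lit 4) (nat_lit 217) (nat_lit 201) (nat_lit 182)) (XT.lf (nat_lit 0) (nat_lit 14340060231) (nat_lit 152) (nat_lit 5189184107) (nat_lit 0) (nat_lit 2408477305) (nat_lit 7) (nat_lit 5) (nat_lit 9) (nat_lit 4) (nat_lit 7) (nat_lit 4) (nat_lit 218) (nat_lit 201) (nat_lit 181))))))) (XT.nd (nat_lit 1248) (nat_lit 0) (nat_lit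 0) (XT.nd (nat_lit 624) (nat_lit 152) (nat_lit 0) (XT.nd (nat_lit 312) (nat_lit 76) (nat_lit 0) (XT.nd (nat_lit 156) (nat_lit 152) (nat_lit 0) (XT.nd (nat_lit 78) (nat_lit 0) (nat_lit 0) (XT.lf (nat_lit 0) (nat_lit 3115987905) (nat_lit 76) (nat_lit 16670690517) (nat_lit 76) (nat_lit 4637829509) (nat_lit 6) (nat_lit 4) (nat_lit 7) (nat_lit 5) (nat_lit 7) (nat_lit 4) (nat_lit 219) (nat_lit 201) (nat_lit 180)) (XT.lf (nat_lit 0) (nat_lit 13120863881) (nat_lit 76) (nat_lit 13127491432) (nat_lit 76) (nat_lit 1006562528) (nat_lit 6) (nat_lit 4) (nat_lit 7) (nat_lit 5) (nat_lit 7) (nat_lit 4) (nat_lit 220) (nat_lit 201) (nat_lit 179))) (XT.nd (nat_lit 78) (nat_lit 76) (nat_lit 0) (XT.lf (nat_lit 0) (nat_lit 2820311866) (nat_lit 152) (nat_lit 6133839171) (nat_lit 76) (nat_lit 21546329327) (nat_lit 5) (nat_lit 5) (nat_lit 7) (nat_lit 5) (nat_lit 6) (nat_lit 4) (nat_lit 221) (nat_lit 201) (nat_lit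 178)) (XT.lf (nat_lit 0) (nat_lit 3199697848) (nat_lit 76) (nat_lit 3992767042) (nat_lit 152) (nat_lit 27022285093) (nat_lit 4) (nat_lit 5) (nat_lit 5) (nat_lit 5) (nat_lit 6) (nat_lit 4) (nat_lit 222) (nat_lit 201) (nat_lit 177)))) (XT.nd (nat_lit 156) (nat_lit 76) (nat_lit 0) (XT.nd (nat_lit 78) (nat_lit 0) (nat_lit 0) (XT.lf (nat_lit 0) (nat_lit 12570736185) (nat_lit 152) (nat_lit 24007113147) (nat_lit 0) (nat_lit 1855946847) (nat_lit 4) (nat_lit 5) (nat_lit 6) (nat_lit 4) (nat_lit 4) (nat_lit 4) (nat_lit 223) (nat_lit 201) (nat_lit 176)) (XT.lf (nat_lit 0) (nat_lit 18896723579) (nat_lit 152) (nat_lit 16229837381) (nat_lit 0) (nat_lit 8138148932) (nat_lit 4) (nat_lit 5) (nat_lit 6) (nat_lit 4) (nat_lit 4) (nat_lit 4) (nat_lit 224) (nat_lit 201) (nat_lit 175))) (XT.nd (nat_lit 78) (nat_lit 76) (nat_lit 0) (XT.lf (nat_lit 0) (nat_lit 26128864423) (nat_lit 152) (nat_lit 7365728776)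 (nat_lit 0) (nat_lit 15332215594) (nat_lit 4) (nat_lit 5) (nat_lit 6) (nat_lit 4) (nat_lit 4) (nat_lit 4) (nat_lit 225) (nat_lit 201) (nat_lit 174)) (XT.lf (nat_lit 0) (nat_lit 3028235327) (nat_lit 76) (nat_lit 31505814564) (nat_lit 76) (nat_lit 20676057750) (nat_lit 3) (nat_lit 4) (nat_lit 4) (nat_lit 5) (nat_lit 4) (nat_lit 4) (nat_lit 226) (nat_lit 201) (nat_lit 173))))) (XT.nd (nat_lit 312) (nat_lit 152) (nat_lit 0) (XT.nd (nat_lit 156) (nat_lit 0) (nat_lit 0) (XT.nd (nat_lit 78) (nat_lit 0) (nat_lit 0) (XT.lf (nat_lit 0) (nat_lit 15742898789) (nat_lit 76) (nat_lit 28807078704) (nat_lit 76) (nat_lit 17948532339) (nat_lit 3) (nat_lit 4) (nat_lit 4) (nat_lit 5) (nat_lit 4) (nat_lit 4) (nat_lit 227) (nat_lit 201) (nat_lit 172)) (XT.lf (nat_lit 0) (nat_lit 30307194180) (nat_lit 76) (nat_lit 25730610998) (nat_lit 76) (nat_lit 14847030239) (nat_lit 3) (nat_lit 4) (nat_lit 4) (nat_lit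 5) (nat_lit 4) (nat_lit 4) (nat_lit 228) (nat_lit 201) (nat_lit 171))) (XT.nd (nat_lit 78) (nat_lit 0) (nat_lit 0) (XT.lf (nat_lit 0) (nat_lit 47006075105) (nat_lit 76) (nat_lit 22216219685) (nat_lit 76) (nat_lit 11310869890) (nat_lit 3) (nat_lit 4) (nat_lit 4) (nat_lit 5) (nat_lit 4) (nat_lit 4) (nat_lit 229) (nat_lit 201) (nat_lit 170)) (XT.lf (nat_lit 0) (nat_lit 66166258798) (nat_lit 76) (nat_lit 18195144936) (nat_lit 76) (nat_lit 7270865543) (nat_lit 3) (nat_lit 4) (nat_lit 4) (nat_lit 5) (nat_lit 4) (nat_lit 4) (nat_lit 230) (nat_lit 201) (nat_lit 169)))) (XT.nd (nat_lit 156) (nat_lit 76) (nat_lit 0) (XT.nd (nat_lit 78) (nat_lit 76) (nat_lit 0) (XT.lf (nat_lit 0) (nat_lit 88162618420) (nat_lit 76) (nat_lit 13588713550) (nat_lit 76) (nat_lit 2647973637) (nat_lit 3) (nat_lit 4) (nat_lit 4) (nat_lit 5) (nat_lit 4) (nat_lit 4) (nat_lit 231) (nat_lit 201) (nat_lit 168)) (XT.lf (nat_lit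 0) (nat_lit 2412487854) (nat_lit 152) (nat_lit 5768204521) (nat_lit 76) (nat_lit 110886922355) (nat_lit 2) (nat_lit 5) (nat_lit 4) (nat_lit 5) (nat_lit 3) (nat_lit 4) (nat_lit 232) (nat_lit 201) (nat_lit 167))) (XT.nd (nat_lit 78) (nat_lit 0) (nat_lit 0) (XT.lf (nat_lit 0) (nat_lit 6711768666) (nat_lit 76) (nat_lit 1511146958) (nat_lit 152) (nat_lit 127655079413) (nat_lit 1) (nat_lit 5) (nat_lit 2) (nat_lit 5) (nat_lit 3) (nat_lit 4) (nat_lit 233) (nat_lit 201) (nat_lit 166)) (XT.lf (nat_lit 0) (nat_lit 15460199285) (nat_lit 152) (nat_lit 133752641598) (nat_lit 0) (nat_lit 5913831472) (nat_lit 1) (nat_lit 5) (nat_lit 3) (nat_lit 4) (nat_lit 1) (nat_lit 4) (nat_lit 234) (nat_lit 201) (nat_lit 165)))))) (XT.nd (nat_lit 624) (nat_lit 0) (nat_lit 0) (XT.nd (nat_lit 312) (nat_lit 0) (nat_lit 0) (XT.nd (nat_lit 156) (nat_lit 0) (nat_lit 0) (XT.nd (nat_lit 78) (nat_lit 0) (nat_lit 0) (XT.lf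 (nat_lit 0) (nat_lit 23841460815) (nat_lit 152) (nat_lit 139125552768) (nat_lit 0) (nat_lit 14286909215) (nat_lit 1) (nat_lit 5) (nat_lit 3) (nat_lit 4) (nat_lit 1) (nat_lit 4) (nat_lit 235) (nat_lit 201) (nat_lit 164)) (XT.lf (nat_lit 0) (nat_lit 33468108045) (nat_lit 152) (nat_lit 145327508685) (nat_lit 0) (nat_lit 23906440108) (nat_lit 1) (nat_lit 5) (nat_lit 3) (nat_lit 4) (nat_lit 1) (nat_lit 4) (nat_lit 236) (nat_lit 201) (nat_lit 163))) (XT.nd (nat_lit 78) (nat_lit 0) (nat_lit 0) (XT.lf (nat_lit 0) (nat_lit 44528488420) (nat_lit 152) (nat_lit 152479851965) (nat_lit 0) (nat_lit 34960632364) (nat_lit 1) (nat_lit 5) (nat_lit 3) (nat_lit 4) (nat_lit 1) (nat_lit 4) (nat_lit 237) (nat_lit 201) (nat_lit 162)) (XT.lf (nat_lit 0) (nat_lit 57239000687) (nat_lit 152) (nat_lit 160722519757) (nat_lit 0) (nat_lit 47665763658) (nat_lit 1) (nat_lit 5) (nat_lit 3) (nat_lit 4) (nat_lit 1) (nat_lit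 4) (nat_lit 238) (nat_lit 201) (nat_lit 161)))) (XT.nd (nat_lit 156) (nat_lit 0) (nat_lit 0) (XT.nd (nat_lit 78) (nat_lit 0) (nat_lit 0) (XT.lf (nat_lit 0) (nat_lit 71848328782) (nat_lit 152) (nat_lit 170216781650) (nat_lit 0) (nat_lit 62270412646) (nat_lit 1) (nat_lit 5) (nat_lit 3) (nat_lit 4) (nat_lit 1) (nat_lit 4) (nat_lit 239) (nat_lit 201) (nat_lit 160)) (XT.lf (nat_lit 0) (nat_lit 88642307384) (nat_lit 152) (nat_lit 181148394942) (nat_lit 0) (nat_lit 79060322460) (nat_lit 1) (nat_lit 5) (nat_lit 3) (nat_lit 4) (nat_lit 1) (nat_lit 4) (nat_lit 240) (nat_lit 201) (nat_lit 159))) (XT.nd (nat_lit 78) (nat_lit 0) (nat_lit 0) (XT.lf (nat_lit 0) (nat_lit 107949514337) (nat_lit 152) (nat_lit 193731239022) (nat_lit 0) (nat_lit 98363991335) (nat_lit 1) (nat_lit 5) (nat_lit 3) (nat_lit 4) (nat_lit 1) (nat_lit 4) (nat_lit 241) (nat_lit 201) (nat_lit 158)) (XT.lf (nat_lit 0) (nat_lit 130147699340)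 (nat_lit 152) (nat_lit 208211499972) (nat_lit 0) (nat_lit 120559099749) (nat_lit 1) (nat_lit 5) (nat_lit 3) (nat_lit 4) (nat_lit 1) (nat_lit 4) (nat_lit 242) (nat_lit 201) (nat_lit 157))))) (XT.nd (nat_lit 312) (nat_lit 0) (nat_lit 0) (XT.nd (nat_lit 156) (nat_lit 0) (nat_lit 0) (XT.nd (nat_lit 78) (nat_lit 0) (nat_lit 0) (XT.lf (nat_lit 0) (nat_lit 155671174710) (nat_lit 152) (nat_lit 224872487243) (nat_lit 0) (nat_lit 146079899825) (nat_lit 1) (nat_lit 5) (nat_lit 3) (nat_lit 4) (nat_lit 1) (nat_lit 4) (nat_lit 243) (nat_lit 201) (nat_lit 156)) (XT.lf (nat_lit 0) (nat_lit 185019312791) (nat_lit 152) (nat_lit 244040176674) (nat_lit 0) (nat_lit 175425711562) (nat_lit 1) (nat_lit 5) (nat_lit 3) (nat_lit 4) (nat_lit 1) (nat_lit 4) (nat_lit 244) (nat_lit 201) (nat_lit 155))) (XT.nd (nat_lit 78) (nat_lit 0) (nat_lit 0) (XT.lf (nat_lit 0) (nat_lit 218766316283) (nat_lit 152) (nat_lit 266089588277)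 (nat_lit 0) (nat_lit 209170692148) (nat_lit 1) (nat_lit 5) (nat_lit 3) (nat_lit 4) (nat_lit 1) (nat_lit 4) (nat_lit 245) (nat_lit 201) (nat_lit 154)) (XT.lf (nat_lit 0) (nat_lit 257572452648) (nat_lit 152) (nat_lit 291452123581) (nat_lit 0) (nat_lit 247975069463) (nat_lit 1) (nat_lit 5) (nat_lit 3) (nat_lit 4) (nat_lit 1) (nat_lit 4) (nat_lit 246) (nat_lit 201) (nat_lit 153)))) (XT.nd (nat_lit 156) (nat_lit 0) (nat_lit 0) (XT.nd (nat_lit 78) (nat_lit 0) (nat_lit 0) (XT.lf (nat_lit 0) (nat_lit 302196972378) (nat_lit 152) (nat_lit 320624006104) (nat_lit 0) (nat_lit 292598059585) (nat_lit 1) (nat_lit 5) (nat_lit 3) (nat_lit 4) (nat_lit 1) (nat_lit 4) (nat_lit 247) (nat_lit 201) (nat_lit 152)) (XT.lf (nat_lit 0) (nat_lit 353512963904) (nat_lit 152) (nat_lit 354175990069) (nat_lit 0) (nat_lit 343912721016) (nat_lit 1) (nat_lit 5) (nat_lit 3) (nat_lit 4) (nat_lit 1) (nat_lit 4) (nat_lit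 248) (nat_lit 201) (nat_lit 151))) (XT.nd (nat_lit 78) (nat_lit 0) (nat_lit 0) (XT.lf (nat_lit 0) (nat_lit 412524435755) (nat_lit 152) (nat_lit 392764527336) (nat_lit 0) (nat_lit 402923036264) (nat_lit 1) (nat_lit 5) (nat_lit 3) (nat_lit 4) (nat_lit 1) (nat_lit 4) (nat_lit 249) (nat_lit 201) (nat_lit 150)) (XT.lf (nat_lit 0) (nat_lit 480385960207) (nat_lit 152) (nat_lit 437144611026) (nat_lit 0) (nat_lit 470783554973) (nat_lit 1) (nat_lit 5) (nat_lit 3) (nat_lit 4) (nat_lit 1) (nat_lit 4) (nat_lit 250) (nat_lit 201) (nat_lit 149))))))))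
noncomputable def xc41 : XT := (XT.nd (nat_lit 1248) (nat_lit 0) (nat_lit 0) (XT.nd (nat_lit 624) (nat_lit 0) (nat_lit 0) (XT.nd (nat_lit 312) (nat_lit 0) (nat_lit 0) (XT.nd (nat_lit 156) (nat_lit 0) (nat_lit 0) (XT.nd (nat_lit 78) (nat_lit 0) (nat_lit 0) (XT.lf (nat_lit 0) (nat_lit 558425262738) (nat_lit 152) (nat_lit 488184547124) (nat_lit 0) (nat_lit 548821982946) (nat_lit 1) (nat_lit 5) (nat_lit 3) (nat_lit 4) (nat_lit 1) (nat_lit 4) (nat_lit 251) (nat_lit 201) (nat_lit 148)) (XT.lf (nat_lit 0) (nat_lit 648169199267) (nat_lit 152) (nat_lit 546882943076) (nat_lit 0) (nat_lit 638565158989) (nat_lit 1) (nat_lit 5) (nat_lit 3) (nat_lit 4) (nat_lit 1) (nat_lit 4) (nat_lit 252) (nat_lit 201) (nat_lit 147))) (XT.nd (nat_lit 78) (nat_lit 0) (nat_lit 0) (XT.lf (nat_lit 0) (nat_lit 751373629422) (nat_lit 152) (nat_lit 614388245758) (nat_lit 0) (nat_lit 741768927852) (nat_lit 1) (nat_lit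 5) (nat_lit 3) (nat_lit 4) (nat_lit 1) (nat_lit 4) (nat_lit 253) (nat_lit 201) (nat_lit 146)) (XT.lf (nat_lit 0) (nat_lit 870057770314) (nat_lit 152) (nat_lit 692021211093) (nat_lit 0) (nat_lit 860452493708) (nat_lit 1) (nat_lit 5) (nat_lit 3) (nat_lit 4) (nat_lit 1) (nat_lit 4) (nat_lit 254) (nat_lit 201) (nat_lit 145)))) (XT.nd (nat_lit 156) (nat_lit 0) (nat_lit 0) (XT.nd (nat_lit 78) (nat_lit 0) (nat_lit 0) (XT.lf (nat_lit 0) (nat_lit 1006543702962) (nat_lit 152) (nat_lit 781300744924) (nat_lit 0) (nat_lit 996937926324) (nat_lit 1) (nat_lit 5) (nat_lit 3) (nat_lit 4) (nat_lit 1) (nat_lit 4) (nat_lit 255) (nat_lit 201) (nat_lit 144)) (XT.lf (nat_lit 0) (nat_lit 1163501804308) (nat_lit 152) (nat_lit 883973620739) (nat_lit 0) (nat_lit 1153895592859) (nat_lit 1) (nat_lit 5) (nat_lit 3) (nat_lit 4) (nat_lit 1) (nat_lit 4) (nat_lit 256) (nat_lit 201) (nat_lit 143))) (XT.nd (nat_lit 78)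 (nat_lit 0) (nat_lit 0) (XT.lf (nat_lit 0) (nat_lit 1344002993726) (nat_lit 152) (nat_lit 1002048655674) (nat_lit 0) (nat_lit 1334396404181) (nat_lit 1) (nat_lit 5) (nat_lit 3) (nat_lit 4) (nat_lit 1) (nat_lit 4) (nat_lit 257) (nat_lit 201) (nat_lit 142)) (XT.lf (nat_lit 0) (nat_lit 1551578816226) (nat_lit 152) (nat_lit 1137836013456) (nat_lit 0) (nat_lit 1541971897903) (nat_lit 1) (nat_lit 5) (nat_lit 3) (nat_lit 4) (nat_lit 1) (nat_lit 4) (nat_lit 258) (nat_lit 201) (nat_lit 141))))) (XT.nd (nat_lit 312) (nat_lit 0) (nat_lit 0) (XT.nd (nat_lit 156) (nat_lit 0) (nat_lit 0) (XT.nd (nat_lit 78) (nat_lit 0) (nat_lit 0) (XT.lf (nat_lit 0) (nat_lit 1790290537902) (nat_lit 152) (nat_lit 1293992403258) (nat_lit 0) (nat_lit 1780683333684) (nat_lit 1) (nat_lit 5) (nat_lit 3) (nat_lit 4) (nat_lit 1) (nat_lit 4) (nat_lit 259) (nat_lit 201) (nat_lit 140)) (XT.lf (nat_lit 0) (nat_lit 2064808605481)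 (nat_lit 152) (nat_lit 1473573058795) (nat_lit 0) (nat_lit 2055201152659) (nat_lit 1) (nat_lit 5) (nat_lit 3) (nat_lit 4) (nat_lit 1) (nat_lit 4) (nat_lit 260) (nat_lit 201) (nat_lit 139))) (XT.nd (nat_lit 78) (nat_lit 0) (nat_lit 0) (XT.lf (nat_lit 0) (nat_lit 2380504024634) (nat_lit 152) (nat_lit 1680091514631) (nat_lit 0) (nat_lit 2370896355635) (nat_lit 1) (nat_lit 5) (nat_lit 3) (nat_lit 4) (nat_lit 1) (nat_lit 4) (nat_lit 261) (nat_lit 201) (nat_lit 138)) (XT.lf (nat_lit 0) (nat_lit 2743553444866) (nat_lit 152) (nat_lit 1917588349250) (nat_lit 0) (nat_lit 2733945587886) (nat_lit 1) (nat_lit 5) (nat_lit 3) (nat_lit 4) (nat_lit 1) (nat_lit 4) (nat_lit 262) (nat_lit 201) (nat_lit 137)))) (XT.nd (nat_lit 156) (nat_lit 0) (nat_lit 0) (XT.nd (nat_lit 78) (nat_lit 0) (nat_lit 0) (XT.lf (nat_lit 0) (nat_lit 3161060007006) (nat_lit 152) (nat_lit 2190710239851) (nat_lit 0) (nat_lit 3151451986565)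 (nat_lit 1) (nat_lit 5) (nat_lit 3) (nat_lit 4) (nat_lit 1) (nat_lit 4) (nat_lit 263) (nat_lit 201) (nat_lit 136)) (XT.lf (nat_lit 0) (nat_lit 3641192317707) (nat_lit 152) (nat_lit 2504800875597) (nat_lit 0) (nat_lit 3631584155126) (nat_lit 1) (nat_lit 5) (nat_lit 3) (nat_lit 4) (nat_lit 1) (nat_lit 4) (nat_lit 264) (nat_lit 201) (nat_lit 135))) (XT.nd (nat_lit 78) (nat_lit 0) (nat_lit 0) (XT.lf (nat_lit 0) (nat_lit 4193344270003) (nat_lit 152) (nat_lit 2866005508059) (nat_lit 0) (nat_lit 4183735983822) (nat_lit 1) (nat_lit 5) (nat_lit 3) (nat_lit 4) (nat_lit 1) (nat_lit 4) (nat_lit 265) (nat_lit 201) (nat_lit 134)) (XT.lf (nat_lit 0) (nat_lit 4828318836874) (nat_lit 152) (nat_lit 3281391184392) (nat_lit 0) (nat_lit 4818710443214) (nat_lit 1) (nat_lit 5) (nat_lit 3) (nat_lit 4) (nat_lit 1) (nat_lit 4) (nat_lit 266) (nat_lit 201) (nat_lit 133)))))) (XT.nd (nat_lit 624) (nat_lit 0) (nat_lit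 0) (XT.nd (nat_lit 312) (nat_lit 0) (nat_lit 0) (XT.nd (nat_lit 156) (nat_lit 0) (nat_lit 0) (XT.nd (nat_lit 78) (nat_lit 0) (nat_lit 0) (XT.lf (nat_lit 0) (nat_lit 5558539433759) (nat_lit 152) (nat_lit 3759085015655) (nat_lit 0) (nat_lit 5548930946640) (nat_lit 1) (nat_lit 5) (nat_lit 3) (nat_lit 4) (nat_lit 1) (nat_lit 4) (nat_lit 267) (nat_lit 201) (nat_lit 132)) (XT.lf (nat_lit 0) (nat_lit 6398292985380) (nat_lit 152) (nat_lit 4308433185504) (nat_lit 0) (nat_lit 6388684416991) (nat_lit 1) (nat_lit 5) (nat_lit 3) (nat_lit 4) (nat_lit 1) (nat_lit 4) (nat_lit 268) (nat_lit 201) (nat_lit 131))) (XT.nd (nat_lit 78) (nat_lit 0) (nat_lit 0) (XT.lf (nat_lit 0) (nat_lit 7364009452528) (nat_lit 152) (nat_lit 4940183810305) (nat_lit 0) (nat_lit 7354400813471) (nat_lit 1) (nat_lit 5) (nat_lit 3) (nat_lit 4) (nat_lit 1) (nat_lit 4) (nat_lit 269) (nat_lit 201) (nat_lit 130)) (XT.lf (nat_lit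 0) (nat_lit 8474583287823) (nat_lit 152) (nat_lit 5666697228370) (nat_lit 0) (nat_lit 8464974587315) (nat_lit 1) (nat_lit 5) (nat_lit 3) (nat_lit 4) (nat_lit 1) (nat_lit 4) (nat_lit 270) (nat_lit 201) (nat_lit 129)))) (XT.nd (nat_lit 156) (nat_lit 0) (nat_lit 0) (XT.nd (nat_lit 78) (nat_lit 0) (nat_lit 0) (XT.lf (nat_lit 0) (nat_lit 9751743109781) (nat_lit 152) (nat_lit 6502187832660) (nat_lit 0) (nat_lit 9742134355836) (nat_lit 1) (nat_lit 5) (nat_lit 3) (nat_lit 4) (nat_lit 1) (nat_lit 4) (nat_lit 271) (nat_lit 201) (nat_lit 128)) (XT.lf (nat_lit 0) (nat_lit 11220476827961) (nat_lit 152) (nat_lit 7463002178477) (nat_lit 0) (nat_lit 11210868027551) (nat_lit 1) (nat_lit 5) (nat_lit 3) (nat_lit 4) (nat_lit 1) (nat_lit 4) (nat_lit 272) (nat_lit 201) (nat_lit 127))) (XT.nd (nat_lit 78) (nat_lit 0) (nat_lit 0) (XT.lf (nat_lit 0) (nat_lit 12909520536851) (nat_lit 152) (nat_lit 8567938807369)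 (nat_lit 0) (nat_lit 12899911696035) (nat_lit 1) (nat_lit 5) (nat_lit 3) (nat_lit 4) (nat_lit 1) (nat_lit 4) (nat_lit 273) (nat_lit 201) (nat_lit 126)) (XT.lf (nat_lit 0) (nat_lit 14851920743797) (nat_lit 152) (nat_lit 9838616044685) (nat_lit 0) (nat_lit 14842311867847) (nat_lit 1) (nat_lit 5) (nat_lit 3) (nat_lit 4) (nat_lit 1) (nat_lit 4) (nat_lit 274) (nat_lit 201) (nat_lit 125))))) (XT.nd (nat_lit 312) (nat_lit 0) (nat_lit 0) (XT.nd (nat_lit 156) (nat_lit 0) (nat_lit 0) (XT.nd (nat_lit 78) (nat_lit 0) (nat_lit 0) (XT.lf (nat_lit 0) (nat_lit 17085680931110) (nat_lit 152) (nat_lit 11299894966806) (nat_lit 0) (nat_lit 17076072024608) (nat_lit 1) (nat_lit 5) (nat_lit 3) (nat_lit 4) (nat_lit 1) (nat_lit 4) (nat_lit 275) (nat_lit 201) (nat_lit 124)) (XT.lf (nat_lit 0) (nat_lit 19654505102455) (nat_lit 152) (nat_lit 12980365813514) (nat_lit 0) (nat_lit 19644896169385) (nat_lit 1) (nat_lit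 5) (nat_lit 3) (nat_lit 4) (nat_lit 1) (nat_lit 4) (nat_lit 276) (nat_lit 201) (nat_lit 123))) (XT.nd (nat_lit 78) (nat_lit 0) (nat_lit 0) (XT.lf (nat_lit 0) (nat_lit 22608652861183) (nat_lit 152) (nat_lit 14912907362243) (nat_lit 0) (nat_lit 22599043905012) (nat_lit 1) (nat_lit 5) (nat_lit 3) (nat_lit 4) (nat_lit 1) (nat_lit 4) (nat_lit 277) (nat_lit 201) (nat_lit 122)) (XT.lf (nat_lit 0) (nat_lit 26005922750401) (nat_lit 152) (nat_lit 17135330208514) (nat_lit 0) (nat_lit 25996313774141) (nat_lit 1) (nat_lit 5) (nat_lit 3) (nat_lit 4) (nat_lit 1) (nat_lit 4) (nat_lit 278) (nat_lit 201) (nat_lit 121)))) (XT.nd (nat_lit 25350) (nat_lit 0) (nat_lit 1672) (XT.nd (nat_lit 25272) (nat_lit 0) (nat_lit 1672) (XT.lf (nat_lit 0) (nat_lit 29912783094028) (nat_lit 152) (nat_lit 19691116538447) (nat_lit 0) (nat_lit 29903174100300) (nat_lit 1) (nat_lit 5) (nat_lit 3) (nat_lit 4) (nat_lit 1) (nat_lit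 4) (nat_lit 279) (nat_lit 201) (nat_lit 120)) (XT.lf (nat_lit 0) (nat_lit 1489906938) (nat_lit 228) (nat_lit 960459974) (nat_lit 228) (nat_lit 960459974) (nat_lit 23) (nat_lit 3) (nat_lit 26) (nat_lit 3) (nat_lit 26) (nat_lit 5) (nat_lit 202) (nat_lit 202) (nat_lit 196))) (XT.nd (nat_lit 78) (nat_lit 0) (nat_lit 0) (XT.lf (nat_lit 76) (nat_lit 1226030401) (nat_lit 0) (nat_lit 3708586634) (nat_lit 228) (nat_lit 2117029365) (nat_lit 24) (nat_lit 5) (nat_lit 23) (nat_lit 3) (nat_lit 26) (nat_lit 5) (nat_lit 203) (nat_lit 202) (nat_lit 195)) (XT.lf (nat_lit 76) (nat_lit 4869894096) (nat_lit 0) (nat_lit 2106020466) (nat_lit 228) (nat_lit 375137680) (nat_lit 24) (nat_lit 5) (nat_lit 23) (nat_lit 3) (nat_lit 26) (nat_lit 5) (nat_lit 204) (nat_lit 202) (nat_lit 194)))))))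
noncomputable def xc42 : XT := (XT.nd (nat_lit 1248) (nat_lit 380) (nat_lit 0) (XT.nd (nat_lit 624) (nat_lit 456) (nat_lit 0) (XT.nd (nat_lit 312) (nat_lit 456) (nat_lit 0) (XT.nd (nat_lit 156) (nat_lit 152) (nat_lit 0) (XT.nd (nat_lit 78) (nat_lit 0) (nat_lit 76) (XT.lf (nat_lit 76) (nat_lit 1208440098) (nat_lit 0) (nat_lit 41809442) (nat_lit 304) (nat_lit 6472887785) (nat_lit 21) (nat_lit 5) (nat_lit 20) (nat_lit 5) (nat_lit 24) (nat_lit 5) (nat_lit 205) (nat_lit 202) (nat_lit 193)) (XT.lf (nat_lit 0) (nat_lit 3062444379) (nat_lit 228) (nat_lit 2752981736) (nat_lit 76) (nat_lit 2338286394) (nat_lit 21) (nat_lit 5) (nat_lit 24) (nat_lit 5) (nat_lit 22) (nat_lit 5) (nat_lit 206) (nat_lit 202) (nat_lit 192))) (XT.nd (nat_lit 78) (nat_lit 0) (nat_lit 0) (XT.lf (nat_lit 0) (nat_lit 1503912057) (nat_lit 228) (nat_lit 3488533291) (nat_lit 304) (nat_lit 3681765015) (nat_lit 18) (nat_lit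 5) (nat_lit 21) (nat_lit 5) (nat_lit 22) (nat_lit 5) (nat_lit 207) (nat_lit 202) (nat_lit 191)) (XT.lf (nat_lit 0) (nat_lit 6516896088) (nat_lit 228) (nat_lit 641197006) (nat_lit 304) (nat_lit 2124709482) (nat_lit 18) (nat_lit 5) (nat_lit 21) (nat_lit 5) (nat_lit 22) (nat_lit 5) (nat_lit 208) (nat_lit 202) (nat_lit 190)))) (XT.nd (nat_lit 156) (nat_lit 152) (nat_lit 0) (XT.nd (nat_lit 78) (nat_lit 76) (nat_lit 0) (XT.lf (nat_lit 0) (nat_lit 2190616247) (nat_lit 228) (nat_lit 7485965876) (nat_lit 304) (nat_lit 303590795) (nat_lit 15) (nat_lit 5) (nat_lit 18) (nat_lit 5) (nat_lit 19) (nat_lit 4) (nat_lit 209) (nat_lit 202) (nat_lit 189)) (XT.lf (nat_lit 0) (nat_lit 1647422191) (nat_lit 304) (nat_lit 2873719207) (nat_lit 76) (nat_lit 6248739770) (nat_lit 14) (nat_lit 5) (nat_lit 18) (nat_lit 5) (nat_lit 15) (nat_lit 5) (nat_lit 210) (nat_lit 202) (nat_lit 188))) (XT.nd (nat_lit 78) (nat_lit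 0) (nat_lit 0) (XT.lf (nat_lit 0) (nat_lit 2841332909) (nat_lit 152) (nat_lit 992105937) (nat_lit 228) (nat_lit 7847533419) (nat_lit 12) (nat_lit 5) (nat_lit 14) (nat_lit 5) (nat_lit 15) (nat_lit 5) (nat_lit 211) (nat_lit 202) (nat_lit 187)) (XT.lf (nat_lit 0) (nat_lit 6497804913) (nat_lit 228) (nat_lit 3291659158) (nat_lit 76) (nat_lit 2917661275) (nat_lit 12) (nat_lit 5) (nat_lit 15) (nat_lit 5) (nat_lit 13) (nat_lit 4) (nat_lit 212) (nat_lit 202) (nat_lit 186))))) (XT.nd (nat_lit 312) (nat_lit 152) (nat_lit 0) (XT.nd (nat_lit 156) (nat_lit 228) (nat_lit 0) (XT.nd (nat_lit 78) (nat_lit 0) (nat_lit 0) (XT.lf (nat_lit 0) (nat_lit 3159080863) (nat_lit 76) (nat_lit 6464371366) (nat_lit 152) (nat_lit 4255344648) (nat_lit 11) (nat_lit 5) (nat_lit 12) (nat_lit 5) (nat_lit 13) (nat_lit 4) (nat_lit 213) (nat_lit 202) (nat_lit 185)) (XT.lf (nat_lit 0) (nat_lit 10791361170) (nat_lit 76) (nat_lit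 2490948112) (nat_lit 152) (nat_lit 1934985409) (nat_lit 11) (nat_lit 5) (nat_lit 12) (nat_lit 5) (nat_lit 13) (nat_lit 4) (nat_lit 214) (nat_lit 202) (nat_lit 184))) (XT.nd (nat_lit 78) (nat_lit 0) (nat_lit 0) (XT.lf (nat_lit 0) (nat_lit 780509665) (nat_lit 228) (nat_lit 13947391337) (nat_lit 76) (nat_lit 2007806155) (nat_lit 8) (nat_lit 5) (nat_lit 11) (nat_lit 5) (nat_lit 9) (nat_lit 4) (nat_lit 215) (nat_lit 202) (nat_lit 183)) (XT.lf (nat_lit 0) (nat_lit 3972656127) (nat_lit 228) (nat_lit 7238307744) (nat_lit 76) (nat_lit 7217461333) (nat_lit 8) (nat_lit 5) (nat_lit 11) (nat_lit 5) (nat_lit 9) (nat_lit 4) (nat_lit 216) (nat_lit 202) (nat_lit 182)))) (XT.nd (nat_lit 156) (nat_lit 76) (nat_lit 0) (XT.nd (nat_lit 78) (nat_lit 0) (nat_lit 0) (XT.lf (nat_lit 0) (nat_lit 379181809) (nat_lit 76) (nat_lit 7198790512) (nat_lit 152) (nat_lit 12807343824) (nat_lit 7) (nat_lit 5) (nat_lit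 8) (nat_lit 5) (nat_lit 9) (nat_lit 4) (nat_lit 217) (nat_lit 202) (nat_lit 181)) (XT.lf (nat_lit 0) (nat_lit 9827054915) (nat_lit 76) (nat_lit 2199448987) (nat_lit 152) (nat_lit 10564237044) (nat_lit 7) (nat_lit 5) (nat_lit 8) (nat_lit 5) (nat_lit 9) (nat_lit 4) (nat_lit 218) (nat_lit 202) (nat_lit 180))) (XT.nd (nat_lit 78) (nat_lit 76) (nat_lit 0) (XT.lf (nat_lit 0) (nat_lit 17221470383) (nat_lit 152) (nat_lit 4699617142) (nat_lit 0) (nat_lit 3194334246) (nat_lit 7) (nat_lit 5) (nat_lit 9) (nat_lit 4) (nat_lit 7) (nat_lit 4) (nat_lit 219) (nat_lit 202) (nat_lit 179)) (XT.lf (nat_lit 0) (nat_lit 4793696827) (nat_lit 76) (nat_lit 18646231150) (nat_lit 76) (nat_lit 4542514233) (nat_lit 6) (nat_lit 4) (nat_lit 7) (nat_lit 5) (nat_lit 7) (nat_lit 4) (nat_lit 220) (nat_lit 202) (nat_lit 178)))))) (XT.nd (nat_lit 624) (nat_lit 152) (nat_lit 0) (XT.nd (nat_lit 312) (nat_lit 76) (nat_lit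 0) (XT.nd (nat_lit 156) (nat_lit 76) (nat_lit 0) (XT.nd (nat_lit 78) (nat_lit 76) (nat_lit 0) (XT.lf (nat_lit 0) (nat_lit 16141437583) (nat_lit 76) (nat_lit 14640038674) (nat_lit 76) (nat_lit 469729775) (nat_lit 6) (nat_lit 4) (nat_lit 7) (nat_lit 5) (nat_lit 7) (nat_lit 4) (nat_lit 221) (nat_lit 202) (nat_lit 177)) (XT.lf (nat_lit 0) (nat_lit 3788213337) (nat_lit 152) (nat_lit 6083556294) (nat_lit 76) (nat_lit 25120111792) (nat_lit 5) (nat_lit 5) (nat_lit 7) (nat_lit 5) (nat_lit 6) (nat_lit 4) (nat_lit 222) (nat_lit 202) (nat_lit 176))) (XT.nd (nat_lit 78) (nat_lit 0) (nat_lit 0) (XT.lf (nat_lit 0) (nat_lit 4605904062) (nat_lit 76) (nat_lit 4177571350) (nat_lit 152) (nat_lit 30484976566) (nat_lit 4) (nat_lit 5) (nat_lit 5) (nat_lit 5) (nat_lit 6) (nat_lit 4) (nat_lit 223) (nat_lit 202) (nat_lit 175)) (XT.lf (nat_lit 0) (nat_lit 14916597250) (nat_lit 152) (nat_lit 26749384819) (nat_lit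 0) (nat_lit 2462376914) (nat_lit 4) (nat_lit 5) (nat_lit 6) (nat_lit 4) (nat_lit 4) (nat_lit 4) (nat_lit 224) (nat_lit 202) (nat_lit 174)))) (XT.nd (nat_lit 156) (nat_lit 76) (nat_lit 0) (XT.nd (nat_lit 78) (nat_lit 0) (nat_lit 0) (XT.lf (nat_lit 0) (nat_lit 22131450061) (nat_lit 152) (nat_lit 17917534466) (nat_lit 0) (nat_lit 9644121741) (nat_lit 4) (nat_lit 5) (nat_lit 6) (nat_lit 4) (nat_lit 4) (nat_lit 4) (nat_lit 225) (nat_lit 202) (nat_lit 173)) (XT.lf (nat_lit 0) (nat_lit 30396209691) (nat_lit 152) (nat_lit 7821215465) (nat_lit 0) (nat_lit 17880091819) (nat_lit 4) (nat_lit 5) (nat_lit 6) (nat_lit 4) (nat_lit 4) (nat_lit 4) (nat_lit 226) (nat_lit 202) (nat_lit 172))) (XT.nd (nat_lit 78) (nat_lit 0) (nat_lit 0) (XT.lf (nat_lit 0) (nat_lit 4102326316) (nat_lit 76) (nat_lit 35940120225) (nat_lit 76) (nat_lit 23398967960) (nat_lit 3) (nat_lit 4) (nat_lit 4) (nat_lit 5) (nat_lit 4)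 (nat_lit 4) (nat_lit 227) (nat_lit 202) (nat_lit 171)) (XT.lf (nat_lit 0) (nat_lit 18643338556) (nat_lit 76) (nat_lit 32874604403) (nat_lit 76) (nat_lit 20311683100) (nat_lit 3) (nat_lit 4) (nat_lit 4) (nat_lit 5) (nat_lit 4) (nat_lit 4) (nat_lit 228) (nat_lit 202) (nat_lit 170))))) (XT.nd (nat_lit 312) (nat_lit 152) (nat_lit 0) (XT.nd (nat_lit 156) (nat_lit 0) (nat_lit 0) (XT.nd (nat_lit 78) (nat_lit 0) (nat_lit 0) (XT.lf (nat_lit 0) (nat_lit 35321973262) (nat_lit 76) (nat_lit 29369736467) (nat_lit 76) (nat_lit 16787885567) (nat_lit 3) (nat_lit 4) (nat_lit 4) (nat_lit 5) (nat_lit 4) (nat_lit 4) (nat_lit 229) (nat_lit 202) (nat_lit 169)) (XT.lf (nat_lit 0) (nat_lit 54464551548) (nat_lit 76) (nat_lit 25356942916) (nat_lit 76) (nat_lit 12758631497) (nat_lit 3) (nat_lit 4) (nat_lit 4) (nat_lit 5) (nat_lit 4) (nat_lit 4) (nat_lit 230) (nat_lit 202) (nat_lit 168))) (XT.nd (nat_lit 78) (nat_lit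 0) (nat_lit 0) (XT.lf (nat_lit 0) (nat_lit 76445602121) (nat_lit 76) (nat_lit 20757712571) (nat_lit 76) (nat_lit 8145087656) (nat_lit 3) (nat_lit 4) (nat_lit 4) (nat_lit 5) (nat_lit 4) (nat_lit 4) (nat_lit 231) (nat_lit 202) (nat_lit 167)) (XT.lf (nat_lit 0) (nat_lit 101695189012) (nat_lit 76) (nat_lit 15482060491) (nat_lit 76) (nat_lit 2856989058) (nat_lit 3) (nat_lit 4) (nat_lit 4) (nat_lit 5) (nat_lit 4) (nat_lit 4) (nat_lit 232) (nat_lit 202) (nat_lit 166)))) (XT.nd (nat_lit 156) (nat_lit 0) (nat_lit 0) (XT.nd (nat_lit 78) (nat_lit 76) (nat_lit 0) (XT.lf (nat_lit 0) (nat_lit 2923428410) (nat_lit 152) (nat_lit 6350523409) (nat_lit 76) (nat_lit 127631081892) (nat_lit 2) (nat_lit 5) (nat_lit 4) (nat_lit 5) (nat_lit 3) (nat_lit 4) (nat_lit 233) (nat_lit 202) (nat_lit 165)) (XT.lf (nat_lit 0) (nat_lit 7988586129) (nat_lit 76) (nat_lit 1608572929) (nat_lit 152) (nat_lit 146641098563)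 (nat_lit 1) (nat_lit 5) (nat_lit 2) (nat_lit 5) (nat_lit 3) (nat_lit 4) (nat_lit 234) (nat_lit 202) (nat_lit 164))) (XT.nd (nat_lit 78) (nat_lit 0) (nat_lit 0) (XT.lf (nat_lit 0) (nat_lit 17906323000) (nat_lit 152) (nat_lit 153566723028) (nat_lit 0) (nat_lit 6903288535) (nat_lit 1) (nat_lit 5) (nat_lit 3) (nat_lit 4) (nat_lit 1) (nat_lit 4) (nat_lit 235) (nat_lit 202) (nat_lit 163)) (XT.nd (nat_lit 78) (nat_lit 0) (nat_lit 0) (XT.lf (nat_lit 0) (nat_lit 27528196304) (nat_lit 152) (nat_lit 159778024980) (nat_lit 0) (nat_lit 16518973721) (nat_lit 1) (nat_lit 5) (nat_lit 3) (nat_lit 4) (nat_lit 1) (nat_lit 4) (nat_lit 236) (nat_lit 202) (nat_lit 162)) (XT.lf (nat_lit 0) (nat_lit 38584425440) (nat_lit 152) (nat_lit 166938495246) (nat_lit 0) (nat_lit 27569821884) (nat_lit 1) (nat_lit 5) (nat_lit 3) (nat_lit 4) (nat_lit 1) (nat_lit 4) (nat_lit 237) (nat_lit 202) (nat_lit 161))))))))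
noncomputable def xc43 : XT := (XT.nd (nat_lit 2496) (nat_lit 0) (nat_lit 0) (XT.nd (nat_lit 1248) (nat_lit 0) (nat_lit 0) (XT.nd (nat_lit 624) (nat_lit 0) (nat_lit 0) (XT.nd (nat_lit 312) (nat_lit 0) (nat_lit 0) (XT.nd (nat_lit 156) (nat_lit 0) (nat_lit 0) (XT.nd (nat_lit 78) (nat_lit 0) (nat_lit 0) (XT.lf (nat_lit 0) (nat_lit 51291327934) (nat_lit 152) (nat_lit 175188229984) (nat_lit 0) (nat_lit 40272045271) (nat_lit 1) (nat_lit 5) (nat_lit 3) (nat_lit 4) (nat_lit 1) (nat_lit 4) (nat_lit 238) (nat_lit 202) (nat_lit 160)) (XT.lf (nat_lit 0) (nat_lit 65897517096) (nat_lit 152) (nat_lit 184688637046) (nat_lit 0) (nat_lit 54874165643) (nat_lit 1) (nat_lit 5) (nat_lit 3) (nat_lit 4) (nat_lit 1) (nat_lit 4) (nat_lit 239) (nat_lit 202) (nat_lit 159))) (XT.nd (nat_lit 78) (nat_lit 0) (nat_lit 0) (XT.lf (nat_lit 0) (nat_lit 82688766191) (nat_lit 152) (nat_lit 195625593964) (nat_lit 0) (nat_lit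 71661876661) (nat_lit 1) (nat_lit 5) (nat_lit 3) (nat_lit 4) (nat_lit 1) (nat_lit 4) (nat_lit 240) (nat_lit 202) (nat_lit 158)) (XT.lf (nat_lit 0) (nat_lit 101993599659) (nat_lit 152) (nat_lit 208213084675) (nat_lit 0) (nat_lit 90963633540) (nat_lit 1) (nat_lit 5) (nat_lit 3) (nat_lit 4) (nat_lit 1) (nat_lit 4) (nat_lit 241) (nat_lit 202) (nat_lit 157)))) (XT.nd (nat_lit 156) (nat_lit 0) (nat_lit 0) (XT.nd (nat_lit 78) (nat_lit 0) (nat_lit 0) (XT.lf (nat_lit 0) (nat_lit 124189720762) (nat_lit 152) (nat_lit 222697386173) (nat_lit 0) (nat_lit 113157079350) (nat_lit 1) (nat_lit 5) (nat_lit 3) (nat_lit 4) (nat_lit 1) (nat_lit 4) (nat_lit 242) (nat_lit 202) (nat_lit 156)) (XT.lf (nat_lit 0) (nat_lit 149711401437) (nat_lit 152) (nat_lit 239361886965) (nat_lit 0) (nat_lit 138676433681) (nat_lit 1) (nat_lit 5) (nat_lit 3) (nat_lit 4) (nat_lit 1) (nat_lit 4) (nat_lit 243) (nat_lit 202) (nat_lit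 155))) (XT.nd (nat_lit 78) (nat_lit 0) (nat_lit 0) (XT.lf (nat_lit 0) (nat_lit 179057978913) (nat_lit 152) (nat_lit 258532631632) (nat_lit 0) (nat_lit 168020988250) (nat_lit 1) (nat_lit 5) (nat_lit 3) (nat_lit 4) (nat_lit 1) (nat_lit 4) (nat_lit 244) (nat_lit 202) (nat_lit 154)) (XT.lf (nat_lit 0) (nat_lit 212803625358) (nat_lit 152) (nat_lit 280584699960) (nat_lit 0) (nat_lit 201764875646) (nat_lit 1) (nat_lit 5) (nat_lit 3) (nat_lit 4) (nat_lit 1) (nat_lit 4) (nat_lit 245) (nat_lit 202) (nat_lit 153))))) (XT.nd (nat_lit 312) (nat_lit 0) (nat_lit 0) (XT.nd (nat_lit 156) (nat_lit 0) (nat_lit 0) (XT.nd (nat_lit 78) (nat_lit 0) (nat_lit 0) (XT.lf (nat_lit 0) (nat_lit 251608581681) (nat_lit 152) (nat_lit 305949545461) (nat_lit 0) (nat_lit 240568302360) (nat_lit 1) (nat_lit 5) (nat_lit 3) (nat_lit 4) (nat_lit 1) (nat_lit 4) (nat_lit 246) (nat_lit 202) (nat_lit 152)) (XT.lf (nat_lit 0)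 (nat_lit 296232075289) (nat_lit 152) (nat_lit 335123436851) (nat_lit 0) (nat_lit 285190465874) (nat_lit 1) (nat_lit 5) (nat_lit 3) (nat_lit 4) (nat_lit 1) (nat_lit 4) (nat_lit 247) (nat_lit 202) (nat_lit 151))) (XT.nd (nat_lit 78) (nat_lit 0) (nat_lit 0) (XT.lf (nat_lit 0) (nat_lit 347547174534) (nat_lit 152) (nat_lit 368677167657) (nat_lit 0) (nat_lit 336504408515) (nat_lit 1) (nat_lit 5) (nat_lit 3) (nat_lit 4) (nat_lit 1) (nat_lit 4) (nat_lit 248) (nat_lit 202) (nat_lit 150)) (XT.lf (nat_lit 0) (nat_lit 406557870489) (nat_lit 152) (nat_lit 407267223916) (nat_lit 0) (nat_lit 395514098728) (nat_lit 1) (nat_lit 5) (nat_lit 3) (nat_lit 4) (nat_lit 1) (nat_lit 4) (nat_lit 249) (nat_lit 202) (nat_lit 149)))) (XT.nd (nat_lit 156) (nat_lit 0) (nat_lit 0) (XT.nd (nat_lit 78) (nat_lit 0) (nat_lit 0) (XT.lf (nat_lit 0) (nat_lit 474418720249) (nat_lit 152) (nat_lit 451648628469) (nat_lit 0)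 (nat_lit 463374073929) (nat_lit 1) (nat_lit 5) (nat_lit 3) (nat_lit 4) (nat_lit 1) (nat_lit 4) (nat_lit 250) (nat_lit 202) (nat_lit 148)) (XT.lf (nat_lit 0) (nat_lit 552457436090) (nat_lit 152) (nat_lit 502689713143) (nat_lit 0) (nat_lit 541412029285) (nat_lit 1) (nat_lit 5) (nat_lit 3) (nat_lit 4) (nat_lit 1) (nat_lit 4) (nat_lit 251) (nat_lit 202) (nat_lit 147))) (XT.nd (nat_lit 78) (nat_lit 0) (nat_lit 0) (XT.lf (nat_lit 0) (nat_lit 642200862455) (nat_lit 152) (nat_lit 561389107856) (nat_lit 0) (nat_lit 631154794357) (nat_lit 1) (nat_lit 5) (nat_lit 3) (nat_lit 4) (nat_lit 1) (nat_lit 4) (nat_lit 252) (nat_lit 202) (nat_lit 146)) (XT.lf (nat_lit 0) (nat_lit 745404848989) (nat_lit 152) (nat_lit 628895279027) (nat_lit 0) (nat_lit 734358205855) (nat_lit 1) (nat_lit 5) (nat_lit 3) (nat_lit 4) (nat_lit 1) (nat_lit 4) (nat_lit 253) (nat_lit 202) (nat_lit 145)))))) (XT.nd (nat_lit 624)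 (nat_lit 0) (nat_lit 0) (XT.nd (nat_lit 312) (nat_lit 0) (nat_lit 0) (XT.nd (nat_lit 156) (nat_lit 0) (nat_lit 0) (XT.nd (nat_lit 78) (nat_lit 0) (nat_lit 0) (XT.lf (nat_lit 0) (nat_lit 864088604123) (nat_lit 152) (nat_lit 706528999569) (nat_lit 0) (nat_lit 853041460958) (nat_lit 1) (nat_lit 5) (nat_lit 3) (nat_lit 4) (nat_lit 1) (nat_lit 4) (nat_lit 254) (nat_lit 202) (nat_lit 144)) (XT.lf (nat_lit 0) (nat_lit 1000574201330) (nat_lit 152) (nat_lit 795809190102) (nat_lit 0) (nat_lit 989526623354) (nat_lit 1) (nat_lit 5) (nat_lit 3) (nat_lit 4) (nat_lit 1) (nat_lit 4) (nat_lit 255) (nat_lit 202) (nat_lit 143))) (XT.nd (nat_lit 78) (nat_lit 0) (nat_lit 0) (XT.lf (nat_lit 0) (nat_lit 1157532010987) (nat_lit 152) (nat_lit 898482636963) (nat_lit 0) (nat_lit 1146484054916) (nat_lit 1) (nat_lit 5) (nat_lit 3) (nat_lit 4) (nat_lit 1) (nat_lit 4) (nat_lit 256) (nat_lit 202) (nat_lit 142)) (XT.lf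 (nat_lit 0) (nat_lit 1338032946763) (nat_lit 152) (nat_lit 1016558168459) (nat_lit 0) (nat_lit 1326984661913) (nat_lit 1) (nat_lit 5) (nat_lit 3) (nat_lit 4) (nat_lit 1) (nat_lit 4) (nat_lit 257) (nat_lit 202) (nat_lit 141)))) (XT.nd (nat_lit 156) (nat_lit 0) (nat_lit 0) (XT.nd (nat_lit 78) (nat_lit 0) (nat_lit 0) (XT.lf (nat_lit 0) (nat_lit 1545608548706) (nat_lit 152) (nat_lit 1152345958033) (nat_lit 0) (nat_lit 1534559977960) (nat_lit 1) (nat_lit 5) (nat_lit 3) (nat_lit 4) (nat_lit 1) (nat_lit 4) (nat_lit 258) (nat_lit 202) (nat_lit 140)) (XT.lf (nat_lit 0) (nat_lit 1784320078592) (nat_lit 152) (nat_lit 1308502723307) (nat_lit 0) (nat_lit 1773271259242) (nat_lit 1) (nat_lit 5) (nat_lit 3) (nat_lit 4) (nat_lit 1) (nat_lit 4) (nat_lit 259) (nat_lit 202) (nat_lit 139))) (XT.nd (nat_lit 78) (nat_lit 0) (nat_lit 0) (XT.lf (nat_lit 0) (nat_lit 2058837979397) (nat_lit 152) (nat_lit 1488083705341)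 (nat_lit 0) (nat_lit 2047788943871) (nat_lit 1) (nat_lit 5) (nat_lit 3) (nat_lit 4) (nat_lit 1) (nat_lit 4) (nat_lit 260) (nat_lit 202) (nat_lit 138)) (XT.lf (nat_lit 0) (nat_lit 2374533253530) (nat_lit 152) (nat_lit 1694602445088) (nat_lit 0) (nat_lit 2363484030022) (nat_lit 1) (nat_lit 5) (nat_lit 3) (nat_lit 4) (nat_lit 1) (nat_lit 4) (nat_lit 261) (nat_lit 202) (nat_lit 137))))) (XT.nd (nat_lit 312) (nat_lit 0) (nat_lit 0) (XT.nd (nat_lit 156) (nat_lit 0) (nat_lit 0) (XT.nd (nat_lit 78) (nat_lit 0) (nat_lit 0) (XT.lf (nat_lit 0) (nat_lit 2737582547656) (nat_lit 152) (nat_lit 1932099526585) (nat_lit 0) (nat_lit 2726533160688) (nat_lit 1) (nat_lit 5) (nat_lit 3) (nat_lit 4) (nat_lit 1) (nat_lit 4) (nat_lit 262) (nat_lit 202) (nat_lit 136)) (XT.lf (nat_lit 0) (nat_lit 3155089000141) (nat_lit 152) (nat_lit 2205221631863) (nat_lit 0) (nat_lit 3144039471032) (nat_lit 1) (nat_lit 5) (nat_lit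 3) (nat_lit 4) (nat_lit 1) (nat_lit 4) (nat_lit 263) (nat_lit 202) (nat_lit 135))) (XT.nd (nat_lit 78) (nat_lit 0) (nat_lit 0) (XT.lf (nat_lit 0) (nat_lit 3635221215488) (nat_lit 152) (nat_lit 2519312454285) (nat_lit 0) (nat_lit 3624171562779) (nat_lit 1) (nat_lit 5) (nat_lit 3) (nat_lit 4) (nat_lit 1) (nat_lit 4) (nat_lit 264) (nat_lit 202) (nat_lit 134)) (XT.lf (nat_lit 0) (nat_lit 4187373084868) (nat_lit 152) (nat_lit 2880517249073) (nat_lit 0) (nat_lit 4176323324681) (nat_lit 1) (nat_lit 5) (nat_lit 3) (nat_lit 4) (nat_lit 1) (nat_lit 4) (nat_lit 265) (nat_lit 202) (nat_lit 133)))) (XT.nd (nat_lit 156) (nat_lit 0) (nat_lit 0) (XT.nd (nat_lit 78) (nat_lit 0) (nat_lit 0) (XT.lf (nat_lit 0) (nat_lit 4822347579639) (nat_lit 152) (nat_lit 3295903066560) (nat_lit 0) (nat_lit 4811297725992) (nat_lit 1) (nat_lit 5) (nat_lit 3) (nat_lit 4) (nat_lit 1) (nat_lit 4) (nat_lit 266) (nat_lit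 202) (nat_lit 132)) (XT.lf (nat_lit 0) (nat_lit 5552568113827) (nat_lit 152) (nat_lit 3773597020566) (nat_lit 0) (nat_lit 5541518178911) (nat_lit 1) (nat_lit 5) (nat_lit 3) (nat_lit 4) (nat_lit 1) (nat_lit 4) (nat_lit 267) (nat_lit 202) (nat_lit 131))) (XT.nd (nat_lit 78) (nat_lit 0) (nat_lit 0) (XT.lf (nat_lit 0) (nat_lit 6392321610929) (nat_lit 152) (nat_lit 4322945297147) (nat_lit 0) (nat_lit 6381271605344) (nat_lit 1) (nat_lit 5) (nat_lit 3) (nat_lit 4) (nat_lit 1) (nat_lit 4) (nat_lit 268) (nat_lit 202) (nat_lit 130)) (XT.lf (nat_lit 0) (nat_lit 7358038030670) (nat_lit 152) (nat_lit 4954696014759) (nat_lit 0) (nat_lit 7346987963634) (nat_lit 1) (nat_lit 5) (nat_lit 3) (nat_lit 4) (nat_lit 1) (nat_lit 4) (nat_lit 269) (nat_lit 202) (nat_lit 129))))))) (XT.nd (nat_lit 26598) (nat_lit 0) (nat_lit 228) (XT.nd (nat_lit 624) (nat_lit 0) (nat_lit 0) (XT.nd (nat_lit 312) (nat_lit 0) (nat_lit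 0) (XT.nd (nat_lit 156) (nat_lit 0) (nat_lit 0) (XT.nd (nat_lit 78) (nat_lit 0) (nat_lit 0) (XT.lf (nat_lit 0) (nat_lit 8468611824741) (nat_lit 152) (nat_lit 5681209513529) (nat_lit 0) (nat_lit 8457561704269) (nat_lit 1) (nat_lit 5) (nat_lit 3) (nat_lit 4) (nat_lit 1) (nat_lit 4) (nat_lit 270) (nat_lit 202) (nat_lit 128)) (XT.lf (nat_lit 0) (nat_lit 9745771610852) (nat_lit 152) (nat_lit 6516700187997) (nat_lit 0) (nat_lit 9734721443914) (nat_lit 1) (nat_lit 5) (nat_lit 3) (nat_lit 4) (nat_lit 1) (nat_lit 4) (nat_lit 271) (nat_lit 202) (nat_lit 127))) (XT.nd (nat_lit 78) (nat_lit 0) (nat_lit 0) (XT.lf (nat_lit 0) (nat_lit 11214505297861) (nat_lit 152) (nat_lit 7477514594838) (nat_lit 0) (nat_lit 11203455090518) (nat_lit 1) (nat_lit 5) (nat_lit 3) (nat_lit 4) (nat_lit 1) (nat_lit 4) (nat_lit 272) (nat_lit 202) (nat_lit 126)) (XT.lf (nat_lit 0) (nat_lit 12903548979645) (nat_lit 152) (nat_lit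 8582451276796) (nat_lit 0) (nat_lit 12892498737167) (nat_lit 1) (nat_lit 5) (nat_lit 3) (nat_lit 4) (nat_lit 1) (nat_lit 4) (nat_lit 273) (nat_lit 202) (nat_lit 125)))) (XT.nd (nat_lit 156) (nat_lit 0) (nat_lit 0) (XT.nd (nat_lit 78) (nat_lit 0) (nat_lit 0) (XT.lf (nat_lit 0) (nat_lit 14845949163021) (nat_lit 152) (nat_lit 9853128560255) (nat_lit 0) (nat_lit 14834898889992) (nat_lit 1) (nat_lit 5) (nat_lit 3) (nat_lit 4) (nat_lit 1) (nat_lit 4) (nat_lit 274) (nat_lit 202) (nat_lit 124)) (XT.lf (nat_lit 0) (nat_lit 17079709329839) (nat_lit 152) (nat_lit 11314407522501) (nat_lit 0) (nat_lit 17068659030242) (nat_lit 1) (nat_lit 5) (nat_lit 3) (nat_lit 4) (nat_lit 1) (nat_lit 4) (nat_lit 275) (nat_lit 202) (nat_lit 123))) (XT.nd (nat_lit 78) (nat_lit 0) (nat_lit 0) (XT.lf (nat_lit 0) (nat_lit 19648533483361) (nat_lit 152) (nat_lit 12994878404100) (nat_lit 0) (nat_lit 19637483160663) (nat_lit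 1) (nat_lit 5) (nat_lit 3) (nat_lit 4) (nat_lit 1) (nat_lit 4) (nat_lit 276) (nat_lit 202) (nat_lit 122)) (XT.lf (nat_lit 0) (nat_lit 22602681226592) (nat_lit 152) (nat_lit 14927419983169) (nat_lit 0) (nat_lit 22591630883805) (nat_lit 1) (nat_lit 5) (nat_lit 3) (nat_lit 4) (nat_lit 1) (nat_lit 4) (nat_lit 277) (nat_lit 202) (nat_lit 121))))) (XT.nd (nat_lit 25662) (nat_lit 0) (nat_lit 1292) (XT.nd (nat_lit 25506) (nat_lit 0) (nat_lit 1444) (XT.nd (nat_lit 25428) (nat_lit 0) (nat_lit 1672) (XT.lf (nat_lit 0) (nat_lit 25999951102334) (nat_lit 152) (nat_lit 17149842855822) (nat_lit 0) (nat_lit 25988900742078) (nat_lit 1) (nat_lit 5) (nat_lit 3) (nat_lit 4) (nat_lit 1) (nat_lit 4) (nat_lit 278) (nat_lit 202) (nat_lit 120)) (XT.lf (nat_lit 0) (nat_lit 3324354809) (nat_lit 228) (nat_lit 167713116) (nat_lit 228) (nat_lit 167713116) (nat_lit 23) (nat_lit 3) (nat_lit 26) (nat_lit 3) (nat_lit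 26) (nat_lit 5) (nat_lit 203) (nat_lit 203) (nat_lit 194))) (XT.nd (nat_lit 78) (nat_lit 0) (nat_lit 0) (XT.lf (nat_lit 0) (nat_lit 828139427) (nat_lit 228) (nat_lit 4480708800) (nat_lit 304) (nat_lit 2326973059) (nat_lit 20) (nat_lit 5) (nat_lit 23) (nat_lit 3) (nat_lit 24) (nat_lit 5) (nat_lit 204) (nat_lit 203) (nat_lit 193)) (XT.lf (nat_lit 0) (nat_lit 2255676634) (nat_lit 228) (nat_lit 993782362) (nat_lit 304) (nat_lit 4781979582) (nat_lit 20) (nat_lit 5) (nat_lit 23) (nat_lit 3) (nat_lit 24) (nat_lit 5) (nat_lit 205) (nat_lit 203) (nat_lit 192)))) (XT.nd (nat_lit 156) (nat_lit 152) (nat_lit 0) (XT.nd (nat_lit 78) (nat_lit 0) (nat_lit 76) (XT.lf (nat_lit 76) (nat_lit 3147678929) (nat_lit 0) (nat_lit 666100221) (nat_lit 304) (nat_lit 4687387032) (nat_lit 21) (nat_lit 5) (nat_lit 20) (nat_lit 5) (nat_lit 24) (nat_lit 5) (nat_lit 206) (nat_lit 203) (nat_lit 191)) (XT.lf (nat_lit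 0) (nat_lit 5565638266) (nat_lit 228) (nat_lit 1284185152) (nat_lit 76) (nat_lit 2199465001) (nat_lit 21) (nat_lit 5) (nat_lit 24) (nat_lit 5) (nat_lit 22) (nat_lit 5) (nat_lit 207) (nat_lit 203) (nat_lit 190))) (XT.nd (nat_lit 78) (nat_lit 0) (nat_lit 0) (XT.lf (nat_lit 0) (nat_lit 3525708900) (nat_lit 228) (nat_lit 4067221547) (nat_lit 304) (nat_lit 2086488828) (nat_lit 18) (nat_lit 5) (nat_lit 21) (nat_lit 5) (nat_lit 22) (nat_lit 5) (nat_lit 208) (nat_lit 203) (nat_lit 189)) (XT.lf (nat_lit 0) (nat_lit 9056352271) (nat_lit 228) (nat_lit 785557655) (nat_lit 304) (nat_lit 575989000) (nat_lit 18) (nat_lit 5) (nat_lit 21) (nat_lit 5) (nat_lit 22) (nat_lit 5) (nat_lit 209) (nat_lit 203) (nat_lit 188)))))) (XT.nd (nat_lit 624) (nat_lit 304) (nat_lit 0) (XT.nd (nat_lit 312) (nat_lit 304) (nat_lit 0) (XT.nd (nat_lit 156) (nat_lit 152) (nat_lit 0) (XT.nd (nat_lit 78) (nat_lit 0) (nat_lit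 0) (XT.lf (nat_lit 0) (nat_lit 1234831911) (nat_lit 304) (nat_lit 7041364013) (nat_lit 76) (nat_lit 2958285947) (nat_lit 14) (nat_lit 5) (nat_lit 18) (nat_lit 5) (nat_lit 15) (nat_lit 5) (nat_lit 210) (nat_lit 203) (nat_lit 187)) (XT.lf (nat_lit 0) (nat_lit 3244865443) (nat_lit 304) (nat_lit 1650716693) (nat_lit 76) (nat_lit 7276837303) (nat_lit 14) (nat_lit 5) (nat_lit 18) (nat_lit 5) (nat_lit 15) (nat_lit 5) (nat_lit 211) (nat_lit 203) (nat_lit 186))) (XT.nd (nat_lit 78) (nat_lit 0) (nat_lit 0) (XT.lf (nat_lit 0) (nat_lit 4846408677) (nat_lit 152) (nat_lit 801623810) (nat_lit 228) (nat_lit 7590110323) (nat_lit 12) (nat_lit 5) (nat_lit 14) (nat_lit 5) (nat_lit 15) (nat_lit 5) (nat_lit 212) (nat_lit 203) (nat_lit 185)) (XT.lf (nat_lit 0) (nat_lit 8562586451) (nat_lit 228) (nat_lit 2255145841) (nat_lit 76) (nat_lit 3624085563) (nat_lit 12) (nat_lit 5) (nat_lit 15) (nat_lit 5) (nat_lit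 13) (nat_lit 4) (nat_lit 213) (nat_lit 203) (nat_lit 184)))) (XT.nd (nat_lit 156) (nat_lit 228) (nat_lit 0) (XT.nd (nat_lit 78) (nat_lit 0) (nat_lit 0) (XT.lf (nat_lit 0) (nat_lit 5093647811) (nat_lit 76) (nat_lit 6981729361) (nat_lit 152) (nat_lit 3727143674) (nat_lit 11) (nat_lit 5) (nat_lit 12) (nat_lit 5) (nat_lit 13) (nat_lit 4) (nat_lit 214) (nat_lit 203) (nat_lit 183)) (XT.lf (nat_lit 0) (nat_lit 13680243448) (nat_lit 76) (nat_lit 2471287972) (nat_lit 152) (nat_lit 1210883071) (nat_lit 11) (nat_lit 5) (nat_lit 12) (nat_lit 5) (nat_lit 13) (nat_lit 4) (nat_lit 215) (nat_lit 203) (nat_lit 182))) (XT.nd (nat_lit 78) (nat_lit 0) (nat_lit 0) (XT.lf (nat_lit 0) (nat_lit 1773553565) (nat_lit 228) (nat_lit 14621277581) (nat_lit 76) (nat_lit 2715343174) (nat_lit 8) (nat_lit 5) (nat_lit 11) (nat_lit 5) (nat_lit 9) (nat_lit 4) (nat_lit 216) (nat_lit 203) (nat_lit 181)) (XT.lf (nat_lit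 0) (nat_lit 5330265373) (nat_lit 228) (nat_lit 7090816987) (nat_lit 76) (nat_lit 8653442355) (nat_lit 8) (nat_lit 5) (nat_lit 11) (nat_lit 5) (nat_lit 9) (nat_lit 4) (nat_lit 217) (nat_lit 203) (nat_lit 180))))) (XT.nd (nat_lit 312) (nat_lit 152) (nat_lit 0) (XT.nd (nat_lit 156) (nat_lit 76) (nat_lit 0) (XT.nd (nat_lit 78) (nat_lit 0) (nat_lit 0) (XT.lf (nat_lit 0) (nat_lit 1613239775) (nat_lit 76) (nat_lit 7812530177) (nat_lit 152) (nat_lit 13907280395) (nat_lit 7) (nat_lit 5) (nat_lit 8) (nat_lit 5) (nat_lit 9) (nat_lit 4) (nat_lit 218) (nat_lit 203) (nat_lit 179)) (XT.lf (nat_lit 0) (nat_lit 12324748540) (nat_lit 76) (nat_lit 2124080324) (nat_lit 152) (nat_lit 11434816076) (nat_lit 7) (nat_lit 5) (nat_lit 8) (nat_lit 5) (nat_lit 9) (nat_lit 4) (nat_lit 219) (nat_lit 203) (nat_lit 178))) (XT.nd (nat_lit 78) (nat_lit 76) (nat_lit 0) (XT.lf (nat_lit 0) (nat_lit 20356979119) (nat_lit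 152) (nat_lit 4445811447) (nat_lit 0) (nat_lit 3994531902) (nat_lit 7) (nat_lit 5) (nat_lit 9) (nat_lit 4) (nat_lit 7) (nat_lit 4) (nat_lit 220) (nat_lit 203) (nat_lit 177)) (XT.lf (nat_lit 0) (nat_lit 6427920150) (nat_lit 76) (nat_lit 21046142802) (nat_lit 76) (nat_lit 4625789514) (nat_lit 6) (nat_lit 4) (nat_lit 7) (nat_lit 5) (nat_lit 7) (nat_lit 4) (nat_lit 221) (nat_lit 203) (nat_lit 176)))) (XT.nd (nat_lit 156) (nat_lit 76) (nat_lit 0) (XT.nd (nat_lit 78) (nat_lit 76) (nat_lit 0) (XT.lf (nat_lit 0) (nat_lit 19358452176) (nat_lit 76) (nat_lit 16490807066) (nat_lit 76) (nat_lit 20100672) (nat_lit 6) (nat_lit 4) (nat_lit 7) (nat_lit 5) (nat_lit 7) (nat_lit 4) (nat_lit 222) (nat_lit 203) (nat_lit 175)) (XT.lf (nat_lit 0) (nat_lit 4768433763) (nat_lit 152) (nat_lit 6262359112) (nat_lit 76) (nat_lit 29146603470) (nat_lit 5) (nat_lit 5) (nat_lit 7) (nat_lit 5) (nat_lit 6) (nat_lit 4)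 (nat_lit 223) (nat_lit 203) (nat_lit 174))) (XT.nd (nat_lit 78) (nat_lit 0) (nat_lit 0) (XT.lf (nat_lit 0) (nat_lit 5997168906) (nat_lit 76) (nat_lit 4491079834) (nat_lit 152) (nat_lit 34611105818) (nat_lit 4) (nat_lit 5) (nat_lit 5) (nat_lit 5) (nat_lit 6) (nat_lit 4) (nat_lit 224) (nat_lit 203) (nat_lit 173)) (XT.lf (nat_lit 0) (nat_lit 17502102441) (nat_lit 152) (nat_lit 30112419914) (nat_lit 0) (nat_lit 3079777337) (nat_lit 4) (nat_lit 5) (nat_lit 6) (nat_lit 4) (nat_lit 4) (nat_lit 4) (nat_lit 225) (nat_lit 203) (nat_lit 172))))))))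
noncomputable def xc44 : XT := (XT.nd (nat_lit 1248) (nat_lit 0) (nat_lit 0) (XT.nd (nat_lit 624) (nat_lit 152) (nat_lit 0) (XT.nd (nat_lit 312) (nat_lit 0) (nat_lit 0) (XT.nd (nat_lit 156) (nat_lit 76) (nat_lit 0) (XT.nd (nat_lit 78) (nat_lit 0) (nat_lit 0) (XT.lf (nat_lit 0) (nat_lit 25753789835) (nat_lit 152) (nat_lit 20040492785) (nat_lit 0) (nat_lit 11306430338) (nat_lit 4) (nat_lit 5) (nat_lit 6) (nat_lit 4) (nat_lit 4) (nat_lit 4) (nat_lit 226) (nat_lit 203) (nat_lit 171)) (XT.lf (nat_lit 0) (nat_lit 35218790940) (nat_lit 152) (nat_lit 8503378784) (nat_lit 0) (nat_lit 20749662405) (nat_lit 4) (nat_lit 5) (nat_lit 6) (nat_lit 4) (nat_lit 4) (nat_lit 4) (nat_lit 227) (nat_lit 203) (nat_lit 170))) (XT.nd (nat_lit 78) (nat_lit 0) (nat_lit 0) (XT.lf (nat_lit 0) (nat_lit 5186375218) (nat_lit 76) (nat_lit 41110672079) (nat_lit 76) (nat_lit 26622613947) (nat_lit 3) (nat_lit 4) (nat_lit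 4) (nat_lit 5) (nat_lit 4) (nat_lit 4) (nat_lit 228) (nat_lit 203) (nat_lit 169)) (XT.lf (nat_lit 0) (nat_lit 21847404517) (nat_lit 76) (nat_lit 37614085341) (nat_lit 76) (nat_lit 23109566689) (nat_lit 3) (nat_lit 4) (nat_lit 4) (nat_lit 5) (nat_lit 4) (nat_lit 4) (nat_lit 229) (nat_lit 203) (nat_lit 168)))) (XT.nd (nat_lit 156) (nat_lit 0) (nat_lit 0) (XT.nd (nat_lit 78) (nat_lit 0) (nat_lit 0) (XT.lf (nat_lit 0) (nat_lit 40974673754) (nat_lit 76) (nat_lit 33608492831) (nat_lit 76) (nat_lit 19089660684) (nat_lit 3) (nat_lit 4) (nat_lit 4) (nat_lit 5) (nat_lit 4) (nat_lit 4) (nat_lit 230) (nat_lit 203) (nat_lit 167)) (XT.lf (nat_lit 0) (nat_lit 62942412109) (nat_lit 76) (nat_lit 29015524261) (nat_lit 76) (nat_lit 14484245596) (nat_lit 3) (nat_lit 4) (nat_lit 4) (nat_lit 5) (nat_lit 4) (nat_lit 4) (nat_lit 231) (nat_lit 203) (nat_lit 166))) (XT.nd (nat_lit 78) (nat_lit 0) (nat_lit 0)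 (XT.lf (nat_lit 0) (nat_lit 88180423159) (nat_lit 76) (nat_lit 23745317203) (nat_lit 76) (nat_lit 9203215479) (nat_lit 3) (nat_lit 4) (nat_lit 4) (nat_lit 5) (nat_lit 4) (nat_lit 4) (nat_lit 232) (nat_lit 203) (nat_lit 165)) (XT.lf (nat_lit 0) (nat_lit 117182494077) (nat_lit 76) (nat_lit 17694758909) (nat_lit 76) (nat_lit 3143245829) (nat_lit 3) (nat_lit 4) (nat_lit 4) (nat_lit 5) (nat_lit 4) (nat_lit 4) (nat_lit 233) (nat_lit 203) (nat_lit 164))))) (XT.nd (nat_lit 312) (nat_lit 0) (nat_lit 0) (XT.nd (nat_lit 156) (nat_lit 0) (nat_lit 0) (XT.nd (nat_lit 78) (nat_lit 76) (nat_lit 0) (XT.lf (nat_lit 0) (nat_lit 3474659025) (nat_lit 152) (nat_lit 7089179962) (nat_lit 76) (nat_lit 146859767756) (nat_lit 2) (nat_lit 5) (nat_lit 4) (nat_lit 5) (nat_lit 3) (nat_lit 4) (nat_lit 234) (nat_lit 203) (nat_lit 163)) (XT.lf (nat_lit 0) (nat_lit 9391072281) (nat_lit 76) (nat_lit 1752130269) (nat_lit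 152) (nat_lit 168514584511) (nat_lit 1) (nat_lit 5) (nat_lit 2) (nat_lit 5) (nat_lit 3) (nat_lit 4) (nat_lit 235) (nat_lit 203) (nat_lit 162))) (XT.nd (nat_lit 78) (nat_lit 0) (nat_lit 0) (XT.lf (nat_lit 0) (nat_lit 20688372638) (nat_lit 152) (nat_lit 176413591741) (nat_lit 0) (nat_lit 8016197575) (nat_lit 1) (nat_lit 5) (nat_lit 3) (nat_lit 4) (nat_lit 1) (nat_lit 4) (nat_lit 236) (nat_lit 203) (nat_lit 161)) (XT.lf (nat_lit 0) (nat_lit 31740992001) (nat_lit 152) (nat_lit 183581128952) (nat_lit 0) (nat_lit 19064137831) (nat_lit 1) (nat_lit 5) (nat_lit 3) (nat_lit 4) (nat_lit 1) (nat_lit 4) (nat_lit 237) (nat_lit 203) (nat_lit 160)))) (XT.nd (nat_lit 156) (nat_lit 0) (nat_lit 0) (XT.nd (nat_lit 78) (nat_lit 0) (nat_lit 0) (XT.lf (nat_lit 0) (nat_lit 44444755562) (nat_lit 152) (nat_lit 191837008859) (nat_lit 0) (nat_lit 31763832603) (nat_lit 1) (nat_lit 5) (nat_lit 3) (nat_lit 4) (nat_lit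 1) (nat_lit 4) (nat_lit 238) (nat_lit 203) (nat_lit 159)) (XT.lf (nat_lit 0) (nat_lit 59048215216) (nat_lit 152) (nat_lit 201342759547) (nat_lit 0) (nat_lit 46363754180) (nat_lit 1) (nat_lit 5) (nat_lit 3) (nat_lit 4) (nat_lit 1) (nat_lit 4) (nat_lit 239) (nat_lit 203) (nat_lit 158))) (XT.nd (nat_lit 78) (nat_lit 0) (nat_lit 0) (XT.lf (nat_lit 0) (nat_lit 75837090826) (nat_lit 152) (nat_lit 212284363095) (nat_lit 0) (nat_lit 63149553202) (nat_lit 1) (nat_lit 5) (nat_lit 3) (nat_lit 4) (nat_lit 1) (nat_lit 4) (nat_lit 240) (nat_lit 203) (nat_lit 157)) (XT.lf (nat_lit 0) (nat_lit 95139860395) (nat_lit 152) (nat_lit 224875894355) (nat_lit 0) (nat_lit 82449647475) (nat_lit 1) (nat_lit 5) (nat_lit 3) (nat_lit 4) (nat_lit 1) (nat_lit 4) (nat_lit 241) (nat_lit 203) (nat_lit 156)))))) (XT.nd (nat_lit 624) (nat_lit 0) (nat_lit 0) (XT.nd (nat_lit 312) (nat_lit 0) (nat_lit 0) (XT.nd (nat_lit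 156) (nat_lit 0) (nat_lit 0) (XT.nd (nat_lit 78) (nat_lit 0) (nat_lit 0) (XT.lf (nat_lit 0) (nat_lit 117334186803) (nat_lit 152) (nat_lit 239363709374) (nat_lit 0) (nat_lit 104641647541) (nat_lit 1) (nat_lit 5) (nat_lit 3) (nat_lit 4) (nat_lit 1) (nat_lit 4) (nat_lit 242) (nat_lit 203) (nat_lit 155)) (XT.lf (nat_lit 0) (nat_lit 142854306873) (nat_lit 152) (nat_lit 256031265401) (nat_lit 0) (nat_lit 130159744704) (nat_lit 1) (nat_lit 5) (nat_lit 3) (nat_lit 4) (nat_lit 1) (nat_lit 4) (nat_lit 243) (nat_lit 203) (nat_lit 154))) (XT.nd (nat_lit 78) (nat_lit 0) (nat_lit 0) (XT.lf (nat_lit 0) (nat_lit 172199527302) (nat_lit 152) (nat_lit 275204666794) (nat_lit 0) (nat_lit 159503206082) (nat_lit 1) (nat_lit 5) (nat_lit 3) (nat_lit 4) (nat_lit 1) (nat_lit 4) (nat_lit 244) (nat_lit 203) (nat_lit 153)) (XT.lf (nat_lit 0) (nat_lit 205943993706) (nat_lit 152) (nat_lit 297259045320) (nat_lit 0)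 (nat_lit 193246142878) (nat_lit 1) (nat_lit 5) (nat_lit 3) (nat_lit 4) (nat_lit 1) (nat_lit 4) (nat_lit 245) (nat_lit 203) (nat_lit 152)))) (XT.nd (nat_lit 156) (nat_lit 0) (nat_lit 0) (XT.nd (nat_lit 78) (nat_lit 0) (nat_lit 0) (XT.lf (nat_lit 0) (nat_lit 244747923906) (nat_lit 152) (nat_lit 322625899687) (nat_lit 0) (nat_lit 232048742984) (nat_lit 1) (nat_lit 5) (nat_lit 3) (nat_lit 4) (nat_lit 1) (nat_lit 4) (nat_lit 246) (nat_lit 203) (nat_lit 151)) (XT.lf (nat_lit 0) (nat_lit 289370525233) (nat_lit 152) (nat_lit 351801537918) (nat_lit 0) (nat_lit 276670187707) (nat_lit 1) (nat_lit 5) (nat_lit 3) (nat_lit 4) (nat_lit 1) (nat_lit 4) (nat_lit 247) (nat_lit 203) (nat_lit 150))) (XT.nd (nat_lit 78) (nat_lit 0) (nat_lit 0) (XT.lf (nat_lit 0) (nat_lit 340684848582) (nat_lit 152) (nat_lit 385356787716) (nat_lit 0) (nat_lit 327983505314) (nat_lit 1) (nat_lit 5) (nat_lit 3) (nat_lit 4)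 (nat_lit 1) (nat_lit 4) (nat_lit 248) (nat_lit 203) (nat_lit 149)) (XT.lf (nat_lit 0) (nat_lit 399694869844) (nat_lit 152) (nat_lit 423948164837) (nat_lit 0) (nat_lit 386992652018) (nat_lit 1) (nat_lit 5) (nat_lit 3) (nat_lit 4) (nat_lit 1) (nat_lit 4) (nat_lit 249) (nat_lit 203) (nat_lit 148))))) (XT.nd (nat_lit 312) (nat_lit 0) (nat_lit 0) (XT.nd (nat_lit 156) (nat_lit 0) (nat_lit 0) (XT.nd (nat_lit 78) (nat_lit 0) (nat_lit 0) (XT.lf (nat_lit 0) (nat_lit 467555132915) (nat_lit 152) (nat_lit 468330717966) (nat_lit 0) (nat_lit 454852154602) (nat_lit 1) (nat_lit 5) (nat_lit 3) (nat_lit 4) (nat_lit 1) (nat_lit 4) (nat_lit 250) (nat_lit 203) (nat_lit 147)) (XT.lf (nat_lit 0) (nat_lit 545593338592) (nat_lit 152) (nat_lit 519372801402) (nat_lit 0) (nat_lit 532889698988) (nat_lit 1) (nat_lit 5) (nat_lit 3) (nat_lit 4) (nat_lit 1) (nat_lit 4) (nat_lit 251) (nat_lit 203) (nat_lit 146))) (XT.nd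 (nat_lit 78) (nat_lit 0) (nat_lit 0) (XT.lf (nat_lit 0) (nat_lit 635336321335) (nat_lit 152) (nat_lit 578073064604) (nat_lit 0) (nat_lit 622632106695) (nat_lit 1) (nat_lit 5) (nat_lit 3) (nat_lit 4) (nat_lit 1) (nat_lit 4) (nat_lit 252) (nat_lit 203) (nat_lit 145)) (XT.lf (nat_lit 0) (nat_lit 738539922111) (nat_lit 152) (nat_lit 645579990982) (nat_lit 0) (nat_lit 725835207439) (nat_lit 1) (nat_lit 5) (nat_lit 3) (nat_lit 4) (nat_lit 1) (nat_lit 4) (nat_lit 253) (nat_lit 203) (nat_lit 144)))) (XT.nd (nat_lit 156) (nat_lit 0) (nat_lit 0) (XT.nd (nat_lit 78) (nat_lit 0) (nat_lit 0) (XT.lf (nat_lit 0) (nat_lit 857223341805) (nat_lit 152) (nat_lit 723214368227) (nat_lit 0) (nat_lit 844518192323) (nat_lit 1) (nat_lit 5) (nat_lit 3) (nat_lit 4) (nat_lit 1) (nat_lit 4) (nat_lit 254) (nat_lit 203) (nat_lit 143)) (XT.lf (nat_lit 0) (nat_lit 993708647323) (nat_lit 152) (nat_lit 812495129805)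 (nat_lit 0) (nat_lit 981003119745) (nat_lit 1) (nat_lit 5) (nat_lit 3) (nat_lit 4) (nat_lit 1) (nat_lit 4) (nat_lit 255) (nat_lit 203) (nat_lit 142))) (XT.nd (nat_lit 78) (nat_lit 0) (nat_lit 0) (XT.lf (nat_lit 0) (nat_lit 1150666203339) (nat_lit 152) (nat_lit 915169073227) (nat_lit 0) (nat_lit 1137960346981) (nat_lit 1) (nat_lit 5) (nat_lit 3) (nat_lit 4) (nat_lit 1) (nat_lit 4) (nat_lit 256) (nat_lit 203) (nat_lit 141)) (XT.lf (nat_lit 0) (nat_lit 1331166918557) (nat_lit 152) (nat_lit 1033245036516) (nat_lit 0) (nat_lit 1318460776305) (nat_lit 1) (nat_lit 5) (nat_lit 3) (nat_lit 4) (nat_lit 1) (nat_lit 4) (nat_lit 257) (nat_lit 203) (nat_lit 140)))))))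
noncomputable def xc45 : XT := (XT.nd (nat_lit 1248) (nat_lit 0) (nat_lit 0) (XT.nd (nat_lit 624) (nat_lit 0) (nat_lit 0) (XT.nd (nat_lit 312) (nat_lit 0) (nat_lit 0) (XT.nd (nat_lit 156) (nat_lit 0) (nat_lit 0) (XT.nd (nat_lit 78) (nat_lit 0) (nat_lit 0) (XT.lf (nat_lit 0) (nat_lit 1538742328709) (nat_lit 152) (nat_lit 1169033201561) (nat_lit 0) (nat_lit 1526035937853) (nat_lit 1) (nat_lit 5) (nat_lit 3) (nat_lit 4) (nat_lit 1) (nat_lit 4) (nat_lit 258) (nat_lit 203) (nat_lit 139)) (XT.lf (nat_lit 0) (nat_lit 1777453691822) (nat_lit 152) (nat_lit 1325190293332) (nat_lit 0) (nat_lit 1764747084788) (nat_lit 1) (nat_lit 5) (nat_lit 3) (nat_lit 4) (nat_lit 1) (nat_lit 4) (nat_lit 259) (nat_lit 203) (nat_lit 138))) (XT.nd (nat_lit 78) (nat_lit 0) (nat_lit 0) (XT.lf (nat_lit 0) (nat_lit 2051971447607) (nat_lit 152) (nat_lit 1504771559277) (nat_lit 0) (nat_lit 2039264652593) (nat_lit 1)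 (nat_lit 5) (nat_lit 3) (nat_lit 4) (nat_lit 1) (nat_lit 4) (nat_lit 260) (nat_lit 203) (nat_lit 137)) (XT.lf (nat_lit 0) (nat_lit 2367666595634) (nat_lit 152) (nat_lit 1711290545902) (nat_lit 0) (nat_lit 2354959637159) (nat_lit 1) (nat_lit 5) (nat_lit 3) (nat_lit 4) (nat_lit 1) (nat_lit 4) (nat_lit 261) (nat_lit 203) (nat_lit 136)))) (XT.nd (nat_lit 156) (nat_lit 0) (nat_lit 0) (XT.nd (nat_lit 78) (nat_lit 0) (nat_lit 0) (XT.lf (nat_lit 0) (nat_lit 2730715780105) (nat_lit 152) (nat_lit 1948787842076) (nat_lit 0) (nat_lit 2718008679489) (nat_lit 1) (nat_lit 5) (nat_lit 3) (nat_lit 4) (nat_lit 1) (nat_lit 4) (nat_lit 262) (nat_lit 203) (nat_lit 135)) (XT.lf (nat_lit 0) (nat_lit 3148222137236) (nat_lit 152) (nat_lit 2221910134030) (nat_lit 0) (nat_lit 3135514913020) (nat_lit 1) (nat_lit 5) (nat_lit 3) (nat_lit 4) (nat_lit 1) (nat_lit 4) (nat_lit 263) (nat_lit 203) (nat_lit 134))) (XT.nd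 (nat_lit 78) (nat_lit 0) (nat_lit 0) (XT.lf (nat_lit 0) (nat_lit 3628354269667) (nat_lit 152) (nat_lit 2536001118779) (nat_lit 0) (nat_lit 3615646937973) (nat_lit 1) (nat_lit 5) (nat_lit 3) (nat_lit 4) (nat_lit 1) (nat_lit 4) (nat_lit 264) (nat_lit 203) (nat_lit 133)) (XT.lf (nat_lit 0) (nat_lit 4180506066946) (nat_lit 152) (nat_lit 2897206054721) (nat_lit 0) (nat_lit 4167798641793) (nat_lit 1) (nat_lit 5) (nat_lit 3) (nat_lit 4) (nat_lit 1) (nat_lit 4) (nat_lit 265) (nat_lit 203) (nat_lit 132))))) (XT.nd (nat_lit 312) (nat_lit 0) (nat_lit 0) (XT.nd (nat_lit 156) (nat_lit 0) (nat_lit 0) (XT.nd (nat_lit 78) (nat_lit 0) (nat_lit 0) (XT.lf (nat_lit 0) (nat_lit 4815480499020) (nat_lit 152) (nat_lit 3312591994950) (nat_lit 0) (nat_lit 4802772992597) (nat_lit 1) (nat_lit 5) (nat_lit 3) (nat_lit 4) (nat_lit 1) (nat_lit 4) (nat_lit 266) (nat_lit 203) (nat_lit 131)) (XT.lf (nat_lit 0) (nat_lit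 5545700978690) (nat_lit 152) (nat_lit 3790286055688) (nat_lit 0) (nat_lit 5532993401599) (nat_lit 1) (nat_lit 5) (nat_lit 3) (nat_lit 4) (nat_lit 1) (nat_lit 4) (nat_lit 267) (nat_lit 203) (nat_lit 130))) (XT.nd (nat_lit 78) (nat_lit 0) (nat_lit 0) (XT.lf (nat_lit 0) (nat_lit 6385454428384) (nat_lit 152) (nat_lit 4339634425080) (nat_lit 0) (nat_lit 6372746789842) (nat_lit 1) (nat_lit 5) (nat_lit 3) (nat_lit 4) (nat_lit 1) (nat_lit 4) (nat_lit 268) (nat_lit 203) (nat_lit 129)) (XT.lf (nat_lit 0) (nat_lit 7351170806902) (nat_lit 152) (nat_lit 4971385223397) (nat_lit 0) (nat_lit 7338463114923) (nat_lit 1) (nat_lit 5) (nat_lit 3) (nat_lit 4) (nat_lit 1) (nat_lit 4) (nat_lit 269) (nat_lit 203) (nat_lit 128)))) (XT.nd (nat_lit 156) (nat_lit 0) (nat_lit 0) (XT.nd (nat_lit 78) (nat_lit 0) (nat_lit 0) (XT.lf (nat_lit 0) (nat_lit 8461744565126) (nat_lit 152) (nat_lit 5697898792345) (nat_lit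 0) (nat_lit 8449036826681) (nat_lit 1) (nat_lit 5) (nat_lit 3) (nat_lit 4) (nat_lit 1) (nat_lit 4) (nat_lit 270) (nat_lit 203) (nat_lit 127)) (XT.lf (nat_lit 0) (nat_lit 9738904320065) (nat_lit 152) (nat_lit 6533389527838) (nat_lit 0) (nat_lit 9726196541216) (nat_lit 1) (nat_lit 5) (nat_lit 3) (nat_lit 4) (nat_lit 1) (nat_lit 4) (nat_lit 271) (nat_lit 203) (nat_lit 126))) (XT.nd (nat_lit 78) (nat_lit 0) (nat_lit 0) (XT.lf (nat_lit 0) (nat_lit 11207637979969) (nat_lit 152) (nat_lit 7494203987744) (nat_lit 0) (nat_lit 11194930165985) (nat_lit 1) (nat_lit 5) (nat_lit 3) (nat_lit 4) (nat_lit 1) (nat_lit 4) (nat_lit 272) (nat_lit 203) (nat_lit 125)) (XT.lf (nat_lit 0) (nat_lit 12896681638183) (nat_lit 152) (nat_lit 8599140715845) (nat_lit 0) (nat_lit 12883973793647) (nat_lit 1) (nat_lit 5) (nat_lit 3) (nat_lit 4) (nat_lit 1) (nat_lit 4) (nat_lit 273) (nat_lit 203) (nat_lit 124)))))) (XT.nd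 (nat_lit 26130) (nat_lit 0) (nat_lit 760) (XT.nd (nat_lit 25818) (nat_lit 0) (nat_lit 1444) (XT.nd (nat_lit 156) (nat_lit 0) (nat_lit 0) (XT.nd (nat_lit 78) (nat_lit 0) (nat_lit 0) (XT.lf (nat_lit 0) (nat_lit 14839081801064) (nat_lit 152) (nat_lit 9869818039429) (nat_lit 0) (nat_lit 14826373929961) (nat_lit 1) (nat_lit 5) (nat_lit 3) (nat_lit 4) (nat_lit 1) (nat_lit 4) (nat_lit 274) (nat_lit 203) (nat_lit 123)) (XT.lf (nat_lit 0) (nat_lit 17072841950059) (nat_lit 152) (nat_lit 11331097036566) (nat_lit 0) (nat_lit 17060134055854) (nat_lit 1) (nat_lit 5) (nat_lit 3) (nat_lit 4) (nat_lit 1) (nat_lit 4) (nat_lit 275) (nat_lit 203) (nat_lit 122))) (XT.nd (nat_lit 78) (nat_lit 0) (nat_lit 0) (XT.lf (nat_lit 0) (nat_lit 19641666088084) (nat_lit 152) (nat_lit 13011567948505) (nat_lit 0) (nat_lit 19628958173790) (nat_lit 1) (nat_lit 5) (nat_lit 3) (nat_lit 4) (nat_lit 1) (nat_lit 4) (nat_lit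 276) (nat_lit 203) (nat_lit 121)) (XT.lf (nat_lit 0) (nat_lit 22595813817839) (nat_lit 152) (nat_lit 14944109553957) (nat_lit 0) (nat_lit 22583105886077) (nat_lit 1) (nat_lit 5) (nat_lit 3) (nat_lit 4) (nat_lit 1) (nat_lit 4) (nat_lit 277) (nat_lit 203) (nat_lit 120)))) (XT.nd (nat_lit 156) (nat_lit 0) (nat_lit 0) (XT.nd (nat_lit 78) (nat_lit 0) (nat_lit 0) (XT.lf (nat_lit 0) (nat_lit 492065597) (nat_lit 0) (nat_lit 492065597) (nat_lit 228) (nat_lit 3012858712) (nat_lit 20) (nat_lit 5) (nat_lit 20) (nat_lit 3) (nat_lit 23) (nat_lit 3) (nat_lit 204) (nat_lit 204) (nat_lit 192)) (XT.lf (nat_lit 0) (nat_lit 3255558614) (nat_lit 228) (nat_lit 3551349201) (nat_lit 304) (nat_lit 1604764007) (nat_lit 20) (nat_lit 5) (nat_lit 23) (nat_lit 3) (nat_lit 24) (nat_lit 5) (nat_lit 205) (nat_lit 204) (nat_lit 191))) (XT.nd (nat_lit 78) (nat_lit 0) (nat_lit 0) (XT.lf (nat_lit 76) (nat_lit 274134710)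 (nat_lit 0) (nat_lit 4334025859) (nat_lit 304) (nat_lit 4304967046) (nat_lit 21) (nat_lit 5) (nat_lit 20) (nat_lit 5) (nat_lit 24) (nat_lit 5) (nat_lit 206) (nat_lit 204) (nat_lit 190)) (XT.lf (nat_lit 76) (nat_lit 4949110780) (nat_lit 0) (nat_lit 1233326681) (nat_lit 304) (nat_lit 3306235034) (nat_lit 21) (nat_lit 5) (nat_lit 20) (nat_lit 5) (nat_lit 24) (nat_lit 5) (nat_lit 207) (nat_lit 204) (nat_lit 189))))) (XT.nd (nat_lit 312) (nat_lit 228) (nat_lit 0) (XT.nd (nat_lit 156) (nat_lit 304) (nat_lit 0) (XT.nd (nat_lit 78) (nat_lit 228) (nat_lit 0) (XT.lf (nat_lit 0) (nat_lit 7945911022) (nat_lit 228) (nat_lit 53944233) (nat_lit 76) (nat_lit 2159203767) (nat_lit 21) (nat_lit 5) (nat_lit 24) (nat_lit 5) (nat_lit 22) (nat_lit 5) (nat_lit 208) (nat_lit 204) (nat_lit 188)) (XT.lf (nat_lit 0) (nat_lit 5412758077) (nat_lit 228) (nat_lit 4719201387) (nat_lit 304) (nat_lit 775612670) (nat_lit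 18) (nat_lit 5) (nat_lit 21) (nat_lit 5) (nat_lit 22) (nat_lit 5) (nat_lit 209) (nat_lit 204) (nat_lit 187))) (XT.nd (nat_lit 78) (nat_lit 228) (nat_lit 0) (XT.lf (nat_lit 0) (nat_lit 682916144) (nat_lit 304) (nat_lit 221209102) (nat_lit 76) (nat_lit 10877228332) (nat_lit 17) (nat_lit 5) (nat_lit 21) (nat_lit 5) (nat_lit 18) (nat_lit 5) (nat_lit 210) (nat_lit 204) (nat_lit 186)) (XT.lf (nat_lit 0) (nat_lit 2594256631) (nat_lit 304) (nat_lit 6659255228) (nat_lit 76) (nat_lit 3480973680) (nat_lit 14) (nat_lit 5) (nat_lit 18) (nat_lit 5) (nat_lit 15) (nat_lit 5) (nat_lit 211) (nat_lit 204) (nat_lit 185)))) (XT.nd (nat_lit 156) (nat_lit 76) (nat_lit 0) (XT.nd (nat_lit 78) (nat_lit 152) (nat_lit 0) (XT.lf (nat_lit 0) (nat_lit 4752638680) (nat_lit 304) (nat_lit 647616904) (nat_lit 76) (nat_lit 8437010586) (nat_lit 14) (nat_lit 5) (nat_lit 18) (nat_lit 5) (nat_lit 15) (nat_lit 5) (nat_lit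 212) (nat_lit 204) (nat_lit 184)) (XT.lf (nat_lit 0) (nat_lit 6767226940) (nat_lit 152) (nat_lit 665309335) (nat_lit 228) (nat_lit 7643898622) (nat_lit 12) (nat_lit 5) (nat_lit 14) (nat_lit 5) (nat_lit 15) (nat_lit 5) (nat_lit 213) (nat_lit 204) (nat_lit 183))) (XT.nd (nat_lit 78) (nat_lit 76) (nat_lit 0) (XT.lf (nat_lit 0) (nat_lit 10671254798) (nat_lit 228) (nat_lit 1436319653) (nat_lit 76) (nat_lit 4370930985) (nat_lit 12) (nat_lit 5) (nat_lit 15) (nat_lit 5) (nat_lit 13) (nat_lit 4) (nat_lit 214) (nat_lit 204) (nat_lit 182)) (XT.nd (nat_lit 78) (nat_lit 0) (nat_lit 0) (XT.lf (nat_lit 0) (nat_lit 6962197681) (nat_lit 76) (nat_lit 7686986716) (nat_lit 152) (nat_lit 3404171617) (nat_lit 11) (nat_lit 5) (nat_lit 12) (nat_lit 5) (nat_lit 13) (nat_lit 4) (nat_lit 215) (nat_lit 204) (nat_lit 181)) (XT.lf (nat_lit 0) (nat_lit 16692717094) (nat_lit 76) (nat_lit 2544588082) (nat_lit 152)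 (nat_lit 625521090) (nat_lit 11) (nat_lit 5) (nat_lit 12) (nat_lit 5) (nat_lit 13) (nat_lit 4) (nat_lit 216) (nat_lit 204) (nat_lit 180))))))))
noncomputable def xc46 : XT := (XT.nd (nat_lit 1248) (nat_lit 152) (nat_lit 0) (XT.nd (nat_lit 624) (nat_lit 152) (nat_lit 0) (XT.nd (nat_lit 312) (nat_lit 152) (nat_lit 0) (XT.nd (nat_lit 156) (nat_lit 76) (nat_lit 0) (XT.nd (nat_lit 78) (nat_lit 0) (nat_lit 0) (XT.lf (nat_lit 0) (nat_lit 2701943840) (nat_lit 228) (nat_lit 15742089289) (nat_lit 76) (nat_lit 3429915799) (nat_lit 8) (nat_lit 5) (nat_lit 11) (nat_lit 5) (nat_lit 9) (nat_lit 4) (nat_lit 217) (nat_lit 204) (nat_lit 179)) (XT.lf (nat_lit 0) (nat_lit 6705767997) (nat_lit 228) (nat_lit 7221935250) (nat_lit 76) (nat_lit 10218651012) (nat_lit 8) (nat_lit 5) (nat_lit 11) (nat_lit 5) (nat_lit 9) (nat_lit 4) (nat_lit 218) (nat_lit 204) (nat_lit 178))) (XT.nd (nat_lit 78) (nat_lit 0) (nat_lit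 0) (XT.lf (nat_lit 0) (nat_lit 2745343469) (nat_lit 76) (nat_lit 8631987085) (nat_lit 152) (nat_lit 15372453738) (nat_lit 7) (nat_lit 5) (nat_lit 8) (nat_lit 5) (nat_lit 9) (nat_lit 4) (nat_lit 219) (nat_lit 204) (nat_lit 177)) (XT.lf (nat_lit 0) (nat_lit 14947476236) (nat_lit 76) (nat_lit 2136237923) (nat_lit 152) (nat_lit 12610109169) (nat_lit 7) (nat_lit 5) (nat_lit 8) (nat_lit 5) (nat_lit 9) (nat_lit 4) (nat_lit 220) (nat_lit 204) (nat_lit 176)))) (XT.nd (nat_lit 156) (nat_lit 76) (nat_lit 0) (XT.nd (nat_lit 78) (nat_lit 76) (nat_lit 0) (XT.lf (nat_lit 0) (nat_lit 23828135195) (nat_lit 152) (nat_lit 4387731735) (nat_lit 0) (nat_lit 4836469736) (nat_lit 7) (nat_lit 5) (nat_lit 9) (nat_lit 4) (nat_lit 7) (nat_lit 4) (nat_lit 221) (nat_lit 204) (nat_lit 175)) (XT.lf (nat_lit 0) (nat_lit 8084107265) (nat_lit 76) (nat_lit 23902857780) (nat_lit 76) (nat_lit 4867407011) (nat_lit 6) (nat_lit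 4) (nat_lit 7) (nat_lit 5) (nat_lit 7) (nat_lit 4) (nat_lit 222) (nat_lit 204) (nat_lit 174))) (XT.nd (nat_lit 78) (nat_lit 0) (nat_lit 0) (XT.lf (nat_lit 0) (nat_lit 337192957) (nat_lit 152) (nat_lit 18348560093) (nat_lit 76) (nat_lit 22509139390) (nat_lit 5) (nat_lit 5) (nat_lit 7) (nat_lit 5) (nat_lit 6) (nat_lit 4) (nat_lit 223) (nat_lit 204) (nat_lit 173)) (XT.lf (nat_lit 0) (nat_lit 5795221266) (nat_lit 152) (nat_lit 6646907213) (nat_lit 76) (nat_lit 33714038156) (nat_lit 5) (nat_lit 5) (nat_lit 7) (nat_lit 5) (nat_lit 6) (nat_lit 4) (nat_lit 224) (nat_lit 204) (nat_lit 172))))) (XT.nd (nat_lit 312) (nat_lit 76) (nat_lit 0) (XT.nd (nat_lit 156) (nat_lit 0) (nat_lit 0) (XT.nd (nat_lit 78) (nat_lit 0) (nat_lit 0) (XT.lf (nat_lit 0) (nat_lit 7426331564) (nat_lit 76) (nat_lit 4927972645) (nat_lit 152) (nat_lit 39465064898) (nat_lit 4) (nat_lit 5) (nat_lit 5) (nat_lit 5) (nat_lit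 6) (nat_lit 4) (nat_lit 225) (nat_lit 204) (nat_lit 171)) (XT.lf (nat_lit 0) (nat_lit 20390567603) (nat_lit 152) (nat_lit 34138263901) (nat_lit 0) (nat_lit 3729300751) (nat_lit 4) (nat_lit 5) (nat_lit 6) (nat_lit 4) (nat_lit 4) (nat_lit 4) (nat_lit 226) (nat_lit 204) (nat_lit 170))) (XT.nd (nat_lit 78) (nat_lit 0) (nat_lit 0) (XT.lf (nat_lit 0) (nat_lit 29845684219) (nat_lit 152) (nat_lit 22619593660) (nat_lit 0) (nat_lit 13165487770) (nat_lit 4) (nat_lit 5) (nat_lit 6) (nat_lit 4) (nat_lit 4) (nat_lit 4) (nat_lit 227) (nat_lit 204) (nat_lit 169)) (XT.lf (nat_lit 0) (nat_lit 40700588632) (nat_lit 152) (nat_lit 9407604694) (nat_lit 0) (nat_lit 24003931663) (nat_lit 4) (nat_lit 5) (nat_lit 6) (nat_lit 4) (nat_lit 4) (nat_lit 4) (nat_lit 228) (nat_lit 204) (nat_lit 168)))) (XT.nd (nat_lit 156) (nat_lit 0) (nat_lit 0) (XT.nd (nat_lit 78) (nat_lit 0) (nat_lit 0) (XT.lf (nat_lit 0) (nat_lit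 6318736004) (nat_lit 76) (nat_lit 47110568785) (nat_lit 76) (nat_lit 30399598320) (nat_lit 3) (nat_lit 4) (nat_lit 4) (nat_lit 5) (nat_lit 4) (nat_lit 4) (nat_lit 229) (nat_lit 204) (nat_lit 167)) (XT.lf (nat_lit 0) (nat_lit 25432693023) (nat_lit 76) (nat_lit 43111238050) (nat_lit 76) (nat_lit 26387821068) (nat_lit 3) (nat_lit 4) (nat_lit 4) (nat_lit 5) (nat_lit 4) (nat_lit 4) (nat_lit 230) (nat_lit 204) (nat_lit 166))) (XT.nd (nat_lit 78) (nat_lit 0) (nat_lit 0) (XT.lf (nat_lit 0) (nat_lit 47388855537) (nat_lit 76) (nat_lit 38523714502) (nat_lit 76) (nat_lit 21789474461) (nat_lit 3) (nat_lit 4) (nat_lit 4) (nat_lit 5) (nat_lit 4) (nat_lit 4) (nat_lit 231) (nat_lit 204) (nat_lit 165)) (XT.lf (nat_lit 0) (nat_lit 72616800639) (nat_lit 76) (nat_lit 33258242245) (nat_lit 76) (nat_lit 16514590848) (nat_lit 3) (nat_lit 4) (nat_lit 4) (nat_lit 5) (nat_lit 4) (nat_lit 4) (nat_lit 232) (nat_lit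 204) (nat_lit 164)))))) (XT.nd (nat_lit 624) (nat_lit 0) (nat_lit 0) (XT.nd (nat_lit 312) (nat_lit 0) (nat_lit 0) (XT.nd (nat_lit 156) (nat_lit 152) (nat_lit 0) (XT.nd (nat_lit 78) (nat_lit 0) (nat_lit 0) (XT.lf (nat_lit 0) (nat_lit 101610118558) (nat_lit 76) (nat_lit 27211801170) (nat_lit 76) (nat_lit 10459965985) (nat_lit 3) (nat_lit 4) (nat_lit 4) (nat_lit 5) (nat_lit 4) (nat_lit 4) (nat_lit 233) (nat_lit 204) (nat_lit 163)) (XT.lf (nat_lit 0) (nat_lit 134936069862) (nat_lit 76) (nat_lit 20266091342) (nat_lit 76) (nat_lit 3507139821) (nat_lit 3) (nat_lit 4) (nat_lit 4) (nat_lit 5) (nat_lit 4) (nat_lit 4) (nat_lit 234) (nat_lit 204) (nat_lit 162))) (XT.nd (nat_lit 78) (nat_lit 76) (nat_lit 0) (XT.lf (nat_lit 0) (nat_lit 4081087636) (nat_lit 152) (nat_lit 7990801222) (nat_lit 76) (nat_lit 168952266817) (nat_lit 2) (nat_lit 5) (nat_lit 4) (nat_lit 5) (nat_lit 3) (nat_lit 4) (nat_lit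 235) (nat_lit 204) (nat_lit 161)) (XT.lf (nat_lit 0) (nat_lit 10954136324) (nat_lit 76) (nat_lit 1941052948) (nat_lit 152) (nat_lit 193699009361) (nat_lit 1) (nat_lit 5) (nat_lit 2) (nat_lit 5) (nat_lit 3) (nat_lit 4) (nat_lit 236) (nat_lit 204) (nat_lit 160)))) (XT.nd (nat_lit 156) (nat_lit 0) (nat_lit 0) (XT.nd (nat_lit 78) (nat_lit 0) (nat_lit 0) (XT.lf (nat_lit 0) (nat_lit 23864294839) (nat_lit 152) (nat_lit 202733369827) (nat_lit 0) (nat_lit 9277164648) (nat_lit 1) (nat_lit 5) (nat_lit 3) (nat_lit 4) (nat_lit 1) (nat_lit 4) (nat_lit 237) (nat_lit 204) (nat_lit 159)) (XT.lf (nat_lit 0) (nat_lit 36565328893) (nat_lit 152) (nat_lit 210994593360) (nat_lit 0) (nat_lit 21974660624) (nat_lit 1) (nat_lit 5) (nat_lit 3) (nat_lit 4) (nat_lit 1) (nat_lit 4) (nat_lit 238) (nat_lit 204) (nat_lit 158))) (XT.nd (nat_lit 78) (nat_lit 0) (nat_lit 0) (XT.lf (nat_lit 0) (nat_lit 51166415062) (nat_lit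 152) (nat_lit 220504990679) (nat_lit 0) (nat_lit 36572670205) (nat_lit 1) (nat_lit 5) (nat_lit 3) (nat_lit 4) (nat_lit 1) (nat_lit 4) (nat_lit 239) (nat_lit 204) (nat_lit 157)) (XT.lf (nat_lit 0) (nat_lit 67953226773) (nat_lit 152) (nat_lit 231450634776) (nat_lit 0) (nat_lit 53356806621) (nat_lit 1) (nat_lit 5) (nat_lit 3) (nat_lit 4) (nat_lit 1) (nat_lit 4) (nat_lit 240) (nat_lit 204) (nat_lit 156))))) (XT.nd (nat_lit 312) (nat_lit 0) (nat_lit 0) (XT.nd (nat_lit 156) (nat_lit 0) (nat_lit 0) (XT.nd (nat_lit 78) (nat_lit 0) (nat_lit 0) (XT.lf (nat_lit 0) (nat_lit 87254201646) (nat_lit 152) (nat_lit 244045679557) (nat_lit 0) (nat_lit 72655455151) (nat_lit 1) (nat_lit 5) (nat_lit 3) (nat_lit 4) (nat_lit 1) (nat_lit 4) (nat_lit 241) (nat_lit 204) (nat_lit 155)) (XT.lf (nat_lit 0) (nat_lit 109446967450) (nat_lit 152) (nat_lit 258536549811) (nat_lit 0) (nat_lit 94846198048) (nat_lit 1) (nat_lit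 5) (nat_lit 3) (nat_lit 4) (nat_lit 1) (nat_lit 4) (nat_lit 242) (nat_lit 204) (nat_lit 154))) (XT.nd (nat_lit 78) (nat_lit 0) (nat_lit 0) (XT.lf (nat_lit 0) (nat_lit 134965730473) (nat_lit 152) (nat_lit 275206762565) (nat_lit 0) (nat_lit 120363202021) (nat_lit 1) (nat_lit 5) (nat_lit 3) (nat_lit 4) (nat_lit 1) (nat_lit 4) (nat_lit 243) (nat_lit 204) (nat_lit 153)) (XT.lf (nat_lit 0) (nat_lit 164309770860) (nat_lit 152) (nat_lit 294382474155) (nat_lit 0) (nat_lit 149705712800) (nat_lit 1) (nat_lit 5) (nat_lit 3) (nat_lit 4) (nat_lit 1) (nat_lit 4) (nat_lit 244) (nat_lit 204) (nat_lit 152)))) (XT.nd (nat_lit 156) (nat_lit 0) (nat_lit 0) (XT.nd (nat_lit 78) (nat_lit 0) (nat_lit 0) (XT.lf (nat_lit 0) (nat_lit 198053211141) (nat_lit 152) (nat_lit 316438861547) (nat_lit 0) (nat_lit 183447822987) (nat_lit 1) (nat_lit 5) (nat_lit 3) (nat_lit 4) (nat_lit 1) (nat_lit 4) (nat_lit 245) (nat_lit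 204) (nat_lit 151)) (XT.lf (nat_lit 0) (nat_lit 236856249061) (nat_lit 152) (nat_lit 341807462755) (nat_lit 0) (nat_lit 222249704303) (nat_lit 1) (nat_lit 5) (nat_lit 3) (nat_lit 4) (nat_lit 1) (nat_lit 4) (nat_lit 246) (nat_lit 204) (nat_lit 150))) (XT.nd (nat_lit 78) (nat_lit 0) (nat_lit 0) (XT.lf (nat_lit 0) (nat_lit 281478074491) (nat_lit 152) (nat_lit 370984619978) (nat_lit 0) (nat_lit 266870523991) (nat_lit 1) (nat_lit 5) (nat_lit 3) (nat_lit 4) (nat_lit 1) (nat_lit 4) (nat_lit 247) (nat_lit 204) (nat_lit 149)) (XT.lf (nat_lit 0) (nat_lit 332791723148) (nat_lit 152) (nat_lit 404541190638) (nat_lit 0) (nat_lit 318183298089) (nat_lit 1) (nat_lit 5) (nat_lit 3) (nat_lit 4) (nat_lit 1) (nat_lit 4) (nat_lit 248) (nat_lit 204) (nat_lit 148)))))))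
noncomputable def xc47 : XT := (XT.nd (nat_lit 1248) (nat_lit 0) (nat_lit 0) (XT.nd (nat_lit 624) (nat_lit 0) (nat_lit 0) (XT.nd (nat_lit 312) (nat_lit 0) (nat_lit 0) (XT.nd (nat_lit 156) (nat_lit 0) (nat_lit 0) (XT.nd (nat_lit 78) (nat_lit 0) (nat_lit 0) (XT.lf (nat_lit 0) (nat_lit 391801157721) (nat_lit 152) (nat_lit 443133716336) (nat_lit 0) (nat_lit 377191972176) (nat_lit 1) (nat_lit 5) (nat_lit 3) (nat_lit 4) (nat_lit 1) (nat_lit 4) (nat_lit 249) (nat_lit 204) (nat_lit 147)) (XT.lf (nat_lit 0) (nat_lit 459660910627) (nat_lit 152) (nat_lit 487517268226) (nat_lit 0) (nat_lit 445051063790) (nat_lit 1) (nat_lit 5) (nat_lit 3) (nat_lit 4) (nat_lit 1) (nat_lit 4) (nat_lit 250) (nat_lit 204) (nat_lit 146))) (XT.nd (nat_lit 78) (nat_lit 0) (nat_lit 0) (XT.lf (nat_lit 0) (nat_lit 537698672683) (nat_lit 152) (nat_lit 538560220151) (nat_lit 0) (nat_lit 523088250810) (nat_lit 1) (nat_lit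 5) (nat_lit 3) (nat_lit 4) (nat_lit 1) (nat_lit 4) (nat_lit 251) (nat_lit 204) (nat_lit 145)) (XT.lf (nat_lit 0) (nat_lit 627441269669) (nat_lit 152) (nat_lit 597261238560) (nat_lit 0) (nat_lit 612830347764) (nat_lit 1) (nat_lit 5) (nat_lit 3) (nat_lit 4) (nat_lit 1) (nat_lit 4) (nat_lit 252) (nat_lit 204) (nat_lit 144)))) (XT.nd (nat_lit 156) (nat_lit 0) (nat_lit 0) (XT.nd (nat_lit 78) (nat_lit 0) (nat_lit 0) (XT.lf (nat_lit 0) (nat_lit 730644535004) (nat_lit 152) (nat_lit 664768821641) (nat_lit 0) (nat_lit 716033178289) (nat_lit 1) (nat_lit 5) (nat_lit 3) (nat_lit 4) (nat_lit 1) (nat_lit 4) (nat_lit 253) (nat_lit 204) (nat_lit 143)) (XT.lf (nat_lit 0) (nat_lit 849327663009) (nat_lit 152) (nat_lit 742403769930) (nat_lit 0) (nat_lit 834715928198) (nat_lit 1) (nat_lit 5) (nat_lit 3) (nat_lit 4) (nat_lit 1) (nat_lit 4) (nat_lit 254) (nat_lit 204) (nat_lit 142))) (XT.nd (nat_lit 78) (nat_lit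 0) (nat_lit 0) (XT.lf (nat_lit 0) (nat_lit 985812714885) (nat_lit 152) (nat_lit 831685028070) (nat_lit 0) (nat_lit 971200651295) (nat_lit 1) (nat_lit 5) (nat_lit 3) (nat_lit 4) (nat_lit 1) (nat_lit 4) (nat_lit 255) (nat_lit 204) (nat_lit 141)) (XT.lf (nat_lit 0) (nat_lit 1142770050343) (nat_lit 152) (nat_lit 934359403284) (nat_lit 0) (nat_lit 1128157700858) (nat_lit 1) (nat_lit 5) (nat_lit 3) (nat_lit 4) (nat_lit 1) (nat_lit 4) (nat_lit 256) (nat_lit 204) (nat_lit 140))))) (XT.nd (nat_lit 312) (nat_lit 0) (nat_lit 0) (XT.nd (nat_lit 156) (nat_lit 0) (nat_lit 0) (XT.nd (nat_lit 78) (nat_lit 0) (nat_lit 0) (XT.lf (nat_lit 0) (nat_lit 1323270573771) (nat_lit 152) (nat_lit 1052435742044) (nat_lit 0) (nat_lit 1308657975682) (nat_lit 1) (nat_lit 5) (nat_lit 3) (nat_lit 4) (nat_lit 1) (nat_lit 4) (nat_lit 257) (nat_lit 204) (nat_lit 139)) (XT.lf (nat_lit 0) (nat_lit 1530845817150) (nat_lit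 152) (nat_lit 1188224233587) (nat_lit 0) (nat_lit 1516233002884) (nat_lit 1) (nat_lit 5) (nat_lit 3) (nat_lit 4) (nat_lit 1) (nat_lit 4) (nat_lit 258) (nat_lit 204) (nat_lit 138))) (XT.nd (nat_lit 78) (nat_lit 0) (nat_lit 0) (XT.lf (nat_lit 0) (nat_lit 1769557035242) (nat_lit 152) (nat_lit 1344381609269) (nat_lit 0) (nat_lit 1754944032995) (nat_lit 1) (nat_lit 5) (nat_lit 3) (nat_lit 4) (nat_lit 1) (nat_lit 4) (nat_lit 259) (nat_lit 204) (nat_lit 137)) (XT.lf (nat_lit 0) (nat_lit 2044074664922) (nat_lit 152) (nat_lit 1523963122091) (nat_lit 0) (nat_lit 2029461499214) (nat_lit 1) (nat_lit 5) (nat_lit 3) (nat_lit 4) (nat_lit 1) (nat_lit 4) (nat_lit 260) (nat_lit 204) (nat_lit 136)))) (XT.nd (nat_lit 156) (nat_lit 0) (nat_lit 0) (XT.nd (nat_lit 78) (nat_lit 0) (nat_lit 0) (XT.lf (nat_lit 0) (nat_lit 2359769703293) (nat_lit 152) (nat_lit 1730482323394) (nat_lit 0) (nat_lit 2345156395445)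 (nat_lit 1) (nat_lit 5) (nat_lit 3) (nat_lit 4) (nat_lit 1) (nat_lit 4) (nat_lit 261) (nat_lit 204) (nat_lit 135)) (XT.lf (nat_lit 0) (nat_lit 2722818792410) (nat_lit 152) (nat_lit 1967979806244) (nat_lit 0) (nat_lit 2708205360962) (nat_lit 1) (nat_lit 5) (nat_lit 3) (nat_lit 4) (nat_lit 1) (nat_lit 4) (nat_lit 262) (nat_lit 204) (nat_lit 134))) (XT.nd (nat_lit 78) (nat_lit 0) (nat_lit 0) (XT.lf (nat_lit 0) (nat_lit 3140325066625) (nat_lit 152) (nat_lit 2241102260524) (nat_lit 0) (nat_lit 3125711527699) (nat_lit 1) (nat_lit 5) (nat_lit 3) (nat_lit 4) (nat_lit 1) (nat_lit 4) (nat_lit 263) (nat_lit 204) (nat_lit 133)) (XT.lf (nat_lit 0) (nat_lit 3620457126956) (nat_lit 152) (nat_lit 2555193386427) (nat_lit 0) (nat_lit 3605843494570) (nat_lit 1) (nat_lit 5) (nat_lit 3) (nat_lit 4) (nat_lit 1) (nat_lit 4) (nat_lit 264) (nat_lit 204) (nat_lit 132)))))) (XT.nd (nat_lit 624) (nat_lit 0) (nat_lit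 0) (XT.nd (nat_lit 312) (nat_lit 0) (nat_lit 0) (XT.nd (nat_lit 156) (nat_lit 0) (nat_lit 0) (XT.nd (nat_lit 78) (nat_lit 0) (nat_lit 0) (XT.lf (nat_lit 0) (nat_lit 4172608861539) (nat_lit 152) (nat_lit 2916398445111) (nat_lit 0) (nat_lit 4157995147883) (nat_lit 1) (nat_lit 5) (nat_lit 3) (nat_lit 4) (nat_lit 1) (nat_lit 4) (nat_lit 265) (nat_lit 204) (nat_lit 131)) (XT.lf (nat_lit 0) (nat_lit 4807583239094) (nat_lit 152) (nat_lit 3331784492072) (nat_lit 0) (nat_lit 4792969454770) (nat_lit 1) (nat_lit 5) (nat_lit 3) (nat_lit 4) (nat_lit 1) (nat_lit 4) (nat_lit 266) (nat_lit 204) (nat_lit 130))) (XT.nd (nat_lit 78) (nat_lit 0) (nat_lit 0) (XT.lf (nat_lit 0) (nat_lit 5537803671356) (nat_lit 152) (nat_lit 3809478645621) (nat_lit 0) (nat_lit 5523189825581) (nat_lit 1) (nat_lit 5) (nat_lit 3) (nat_lit 4) (nat_lit 1) (nat_lit 4) (nat_lit 267) (nat_lit 204) (nat_lit 129)) (XT.lf (nat_lit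 0) (nat_lit 6377557079827) (nat_lit 152) (nat_lit 4358827095719) (nat_lit 0) (nat_lit 6362943180616) (nat_lit 1) (nat_lit 5) (nat_lit 3) (nat_lit 4) (nat_lit 1) (nat_lit 4) (nat_lit 268) (nat_lit 204) (nat_lit 128)))) (XT.nd (nat_lit 156) (nat_lit 0) (nat_lit 0) (XT.nd (nat_lit 78) (nat_lit 0) (nat_lit 0) (XT.lf (nat_lit 0) (nat_lit 7343273422497) (nat_lit 152) (nat_lit 4990577964214) (nat_lit 0) (nat_lit 7328659476820) (nat_lit 1) (nat_lit 5) (nat_lit 3) (nat_lit 4) (nat_lit 1) (nat_lit 4) (nat_lit 269) (nat_lit 204) (nat_lit 127)) (XT.lf (nat_lit 0) (nat_lit 8453847149550) (nat_lit 152) (nat_lit 5717091594186) (nat_lit 0) (nat_lit 8439233163468) (nat_lit 1) (nat_lit 5) (nat_lit 3) (nat_lit 4) (nat_lit 1) (nat_lit 4) (nat_lit 270) (nat_lit 204) (nat_lit 126))) (XT.nd (nat_lit 78) (nat_lit 0) (nat_lit 0) (XT.lf (nat_lit 0) (nat_lit 9731006877384) (nat_lit 152) (nat_lit 6552582382744)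 (nat_lit 0) (nat_lit 9716392856167) (nat_lit 1) (nat_lit 5) (nat_lit 3) (nat_lit 4) (nat_lit 1) (nat_lit 4) (nat_lit 271) (nat_lit 204) (nat_lit 125)) (XT.lf (nat_lit 0) (nat_lit 11199740513718) (nat_lit 152) (nat_lit 7513396888794) (nat_lit 0) (nat_lit 11185126461949) (nat_lit 1) (nat_lit 5) (nat_lit 3) (nat_lit 4) (nat_lit 1) (nat_lit 4) (nat_lit 272) (nat_lit 204) (nat_lit 124))))) (XT.nd (nat_lit 702) (nat_lit 0) (nat_lit 0) (XT.nd (nat_lit 156) (nat_lit 0) (nat_lit 0) (XT.nd (nat_lit 78) (nat_lit 0) (nat_lit 0) (XT.lf (nat_lit 0) (nat_lit 12888784151437) (nat_lit 152) (nat_lit 8618333657020) (nat_lit 0) (nat_lit 12874170073101) (nat_lit 1) (nat_lit 5) (nat_lit 3) (nat_lit 4) (nat_lit 1) (nat_lit 4) (nat_lit 273) (nat_lit 204) (nat_lit 123)) (XT.lf (nat_lit 0) (nat_lit 14831184296495) (nat_lit 152) (nat_lit 9889011015494) (nat_lit 0) (nat_lit 14816570195058) (nat_lit 1) (nat_lit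 5) (nat_lit 3) (nat_lit 4) (nat_lit 1) (nat_lit 4) (nat_lit 274) (nat_lit 204) (nat_lit 122))) (XT.nd (nat_lit 78) (nat_lit 0) (nat_lit 0) (XT.lf (nat_lit 0) (nat_lit 17064944429993) (nat_lit 152) (nat_lit 11350290042972) (nat_lit 0) (nat_lit 17050330308467) (nat_lit 1) (nat_lit 5) (nat_lit 3) (nat_lit 4) (nat_lit 1) (nat_lit 4) (nat_lit 275) (nat_lit 204) (nat_lit 121)) (XT.lf (nat_lit 0) (nat_lit 19633768554542) (nat_lit 152) (nat_lit 13030760981293) (nat_lit 0) (nat_lit 19619154415547) (nat_lit 1) (nat_lit 5) (nat_lit 3) (nat_lit 4) (nat_lit 1) (nat_lit 4) (nat_lit 276) (nat_lit 204) (nat_lit 120)))) (XT.nd (nat_lit 156) (nat_lit 0) (nat_lit 0) (XT.nd (nat_lit 78) (nat_lit 0) (nat_lit 0) (XT.lf (nat_lit 0) (nat_lit 45493604640105) (nat_lit 152) (nat_lit 29947725589022) (nat_lit 0) (nat_lit 45478990435002) (nat_lit 1) (nat_lit 5) (nat_lit 3) (nat_lit 4) (nat_lit 1) (nat_lit 4) (nat_lit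 282) (nat_lit 204) (nat_lit 114)) (XT.lf (nat_lit 0) (nat_lit 52326727675627) (nat_lit 152) (nat_lit 34417812095241) (nat_lit 0) (nat_lit 52312113463957) (nat_lit 1) (nat_lit 5) (nat_lit 3) (nat_lit 4) (nat_lit 1) (nat_lit 4) (nat_lit 283) (nat_lit 204) (nat_lit 113))) (XT.nd (nat_lit 78) (nat_lit 0) (nat_lit 0) (XT.lf (nat_lit 0) (nat_lit 60184819157006) (nat_lit 152) (nat_lit 39558411595936) (nat_lit 0) (nat_lit 60170204939626) (nat_lit 1) (nat_lit 5) (nat_lit 3) (nat_lit 4) (nat_lit 1) (nat_lit 4) (nat_lit 284) (nat_lit 204) (nat_lit 112)) (XT.nd (nat_lit 78) (nat_lit 0) (nat_lit 0) (XT.lf (nat_lit 0) (nat_lit 69221624352356) (nat_lit 152) (nat_lit 45470101037859) (nat_lit 0) (nat_lit 69207010130010) (nat_lit 1) (nat_lit 5) (nat_lit 3) (nat_lit 4) (nat_lit 1) (nat_lit 4) (nat_lit 285) (nat_lit 204) (nat_lit 111)) (XT.lf (nat_lit 0) (nat_lit 79613950319846) (nat_lit 152) (nat_lit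 52268543910091) (nat_lit 0) (nat_lit 79599336093183) (nat_lit 1) (nat_lit 5) (nat_lit 3) (nat_lit 4) (nat_lit 1) (nat_lit 4) (nat_lit 286) (nat_lit 204) (nat_lit 110))))))))
noncomputable def xc48 : XT := (XT.nd (nat_lit 1248) (nat_lit 380) (nat_lit 0) (XT.nd (nat_lit 624) (nat_lit 532) (nat_lit 0) (XT.nd (nat_lit 312) (nat_lit 456) (nat_lit 0) (XT.nd (nat_lit 156) (nat_lit 0) (nat_lit 0) (XT.nd (nat_lit 78) (nat_lit 0) (nat_lit 0) (XT.lf (nat_lit 0) (nat_lit 1077156237) (nat_lit 0) (nat_lit 1077156237) (nat_lit 228) (nat_lit 2278388236) (nat_lit 20) (nat_lit 5) (nat_lit 20) (nat_lit 3) (nat_lit 23) (nat_lit 3) (nat_lit 205) (nat_lit 205) (nat_lit 190)) (XT.lf (nat_lit 0) (nat_lit 5485441195) (nat_lit 228) (nat_lit 2873113268) (nat_lit 304) (nat_lit 1035455916) (nat_lit 20) (nat_lit 5) (nat_lit 23) (nat_lit 3) (nat_lit 24) (nat_lit 5) (nat_lit 206) (nat_lit 205) (nat_lit 189))) (XT.nd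 (nat_lit 78) (nat_lit 0) (nat_lit 0) (XT.lf (nat_lit 76) (nat_lit 1471150578) (nat_lit 0) (nat_lit 5390487501) (nat_lit 304) (nat_lit 3138312057) (nat_lit 21) (nat_lit 5) (nat_lit 20) (nat_lit 5) (nat_lit 24) (nat_lit 5) (nat_lit 207) (nat_lit 205) (nat_lit 188)) (XT.lf (nat_lit 76) (nat_lit 6696604060) (nat_lit 0) (nat_lit 1771680260) (nat_lit 304) (nat_lit 2226170248) (nat_lit 21) (nat_lit 5) (nat_lit 20) (nat_lit 5) (nat_lit 24) (nat_lit 5) (nat_lit 208) (nat_lit 205) (nat_lit 187)))) (XT.nd (nat_lit 156) (nat_lit 228) (nat_lit 0) (XT.nd (nat_lit 78) (nat_lit 76) (nat_lit 0) (XT.lf (nat_lit 0) (nat_lit 1112938789) (nat_lit 228) (nat_lit 9239508160) (nat_lit 304) (nat_lit 1136319956) (nat_lit 18) (nat_lit 5) (nat_lit 21) (nat_lit 5) (nat_lit 22) (nat_lit 5) (nat_lit 209) (nat_lit 205) (nat_lit 186)) (XT.lf (nat_lit 0) (nat_lit 306003994) (nat_lit 304) (nat_lit 5136761790) (nat_lit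 76) (nat_lit 6929661047) (nat_lit 17) (nat_lit 5) (nat_lit 21) (nat_lit 5) (nat_lit 18) (nat_lit 5) (nat_lit 210) (nat_lit 205) (nat_lit 185))) (XT.nd (nat_lit 78) (nat_lit 0) (nat_lit 0) (XT.lf (nat_lit 0) (nat_lit 814028156) (nat_lit 228) (nat_lit 977685277) (nat_lit 304) (nat_lit 11598029529) (nat_lit 14) (nat_lit 5) (nat_lit 17) (nat_lit 5) (nat_lit 18) (nat_lit 5) (nat_lit 211) (nat_lit 205) (nat_lit 184)) (XT.lf (nat_lit 0) (nat_lit 3871258970) (nat_lit 304) (nat_lit 6570571953) (nat_lit 76) (nat_lit 4062813373) (nat_lit 14) (nat_lit 5) (nat_lit 18) (nat_lit 5) (nat_lit 15) (nat_lit 5) (nat_lit 212) (nat_lit 205) (nat_lit 183))))) (XT.nd (nat_lit 312) (nat_lit 304) (nat_lit 0) (XT.nd (nat_lit 156) (nat_lit 76) (nat_lit 0) (XT.nd (nat_lit 78) (nat_lit 0) (nat_lit 0) (XT.lf (nat_lit 0) (nat_lit 220593738) (nat_lit 152) (nat_lit 6026130576) (nat_lit 228) (nat_lit 9543010266) (nat_lit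 12) (nat_lit 5) (nat_lit 14) (nat_lit 5) (nat_lit 15) (nat_lit 5) (nat_lit 213) (nat_lit 205) (nat_lit 182)) (XT.lf (nat_lit 0) (nat_lit 8685038362) (nat_lit 152) (nat_lit 571110993) (nat_lit 228) (nat_lit 7970273020) (nat_lit 12) (nat_lit 5) (nat_lit 14) (nat_lit 5) (nat_lit 15) (nat_lit 5) (nat_lit 214) (nat_lit 205) (nat_lit 181))) (XT.nd (nat_lit 78) (nat_lit 76) (nat_lit 0) (XT.lf (nat_lit 0) (nat_lit 12895217407) (nat_lit 228) (nat_lit 776835227) (nat_lit 76) (nat_lit 5180243666) (nat_lit 12) (nat_lit 5) (nat_lit 15) (nat_lit 5) (nat_lit 13) (nat_lit 4) (nat_lit 215) (nat_lit 205) (nat_lit 180)) (XT.lf (nat_lit 0) (nat_lit 8841690053) (nat_lit 76) (nat_lit 8581432039) (nat_lit 152) (nat_lit 3247845671) (nat_lit 11) (nat_lit 5) (nat_lit 12) (nat_lit 5) (nat_lit 13) (nat_lit 4) (nat_lit 216) (nat_lit 205) (nat_lit 179)))) (XT.nd (nat_lit 156) (nat_lit 76) (nat_lit 0) (XT.nd (nat_lit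 78) (nat_lit 228) (nat_lit 0) (XT.lf (nat_lit 0) (nat_lit 19922853111) (nat_lit 76) (nat_lit 2701404395) (nat_lit 152) (nat_lit 139391264) (nat_lit 11) (nat_lit 5) (nat_lit 12) (nat_lit 5) (nat_lit 13) (nat_lit 4) (nat_lit 217) (nat_lit 205) (nat_lit 178)) (XT.lf (nat_lit 0) (nat_lit 3608072649) (nat_lit 228) (nat_lit 17292529391) (nat_lit 76) (nat_lit 4176744303) (nat_lit 8) (nat_lit 5) (nat_lit 11) (nat_lit 5) (nat_lit 9) (nat_lit 4) (nat_lit 218) (nat_lit 205) (nat_lit 177))) (XT.nd (nat_lit 78) (nat_lit 76) (nat_lit 0) (XT.lf (nat_lit 0) (nat_lit 8147143833) (nat_lit 228) (nat_lit 7600118326) (nat_lit 76) (nat_lit 11953484432) (nat_lit 8) (nat_lit 5) (nat_lit 11) (nat_lit 5) (nat_lit 9) (nat_lit 4) (nat_lit 219) (nat_lit 205) (nat_lit 176)) (XT.lf (nat_lit 0) (nat_lit 3830201872) (nat_lit 76) (nat_lit 9660303017) (nat_lit 152) (nat_lit 17208818043) (nat_lit 7) (nat_lit 5) (nat_lit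 8) (nat_lit 5) (nat_lit 9) (nat_lit 4) (nat_lit 220) (nat_lit 205) (nat_lit 175)))))) (XT.nd (nat_lit 624) (nat_lit 152) (nat_lit 0) (XT.nd (nat_lit 312) (nat_lit 76) (nat_lit 0) (XT.nd (nat_lit 156) (nat_lit 152) (nat_lit 0) (XT.nd (nat_lit 78) (nat_lit 0) (nat_lit 0) (XT.lf (nat_lit 0) (nat_lit 17774864526) (nat_lit 76) (nat_lit 2224950019) (nat_lit 152) (nat_lit 14093361409) (nat_lit 7) (nat_lit 5) (nat_lit 8) (nat_lit 5) (nat_lit 9) (nat_lit 4) (nat_lit 221) (nat_lit 205) (nat_lit 174)) (XT.lf (nat_lit 0) (nat_lit 27718128034) (nat_lit 152) (nat_lit 4497724063) (nat_lit 0) (nat_lit 5745500158) (nat_lit 7) (nat_lit 5) (nat_lit 9) (nat_lit 4) (nat_lit 7) (nat_lit 4) (nat_lit 222) (nat_lit 205) (nat_lit 173))) (XT.nd (nat_lit 78) (nat_lit 76) (nat_lit 0) (XT.lf (nat_lit 0) (nat_lit 9819974085) (nat_lit 76) (nat_lit 27261287246) (nat_lit 76) (nat_lit 5255551386) (nat_lit 6) (nat_lit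 4) (nat_lit 7) (nat_lit 5) (nat_lit 7) (nat_lit 4) (nat_lit 223) (nat_lit 205) (nat_lit 172)) (XT.lf (nat_lit 0) (nat_lit 658660977) (nat_lit 152) (nat_lit 20618404310) (nat_lit 76) (nat_lit 26055461747) (nat_lit 5) (nat_lit 5) (nat_lit 7) (nat_lit 5) (nat_lit 6) (nat_lit 4) (nat_lit 224) (nat_lit 205) (nat_lit 171)))) (XT.nd (nat_lit 156) (nat_lit 0) (nat_lit 0) (XT.nd (nat_lit 78) (nat_lit 76) (nat_lit 0) (XT.lf (nat_lit 0) (nat_lit 6900060174) (nat_lit 152) (nat_lit 7224430428) (nat_lit 76) (nat_lit 38918927747) (nat_lit 5) (nat_lit 5) (nat_lit 7) (nat_lit 5) (nat_lit 6) (nat_lit 4) (nat_lit 225) (nat_lit 205) (nat_lit 170)) (XT.lf (nat_lit 0) (nat_lit 8940725398) (nat_lit 76) (nat_lit 5488137038) (nat_lit 152) (nat_lit 45129469780) (nat_lit 4) (nat_lit 5) (nat_lit 5) (nat_lit 5) (nat_lit 6) (nat_lit 4) (nat_lit 226) (nat_lit 205) (nat_lit 169))) (XT.nd (nat_lit 78) (nat_lit 0)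 (nat_lit 0) (XT.lf (nat_lit 0) (nat_lit 23648131795) (nat_lit 152) (nat_lit 38887722578) (nat_lit 0) (nat_lit 4430515760) (nat_lit 4) (nat_lit 5) (nat_lit 6) (nat_lit 4) (nat_lit 4) (nat_lit 4) (nat_lit 227) (nat_lit 205) (nat_lit 168)) (XT.lf (nat_lit 0) (nat_lit 34495562114) (nat_lit 152) (nat_lit 25689679746) (nat_lit 0) (nat_lit 15263632585) (nat_lit 4) (nat_lit 5) (nat_lit 6) (nat_lit 4) (nat_lit 4) (nat_lit 4) (nat_lit 228) (nat_lit 205) (nat_lit 167))))) (XT.nd (nat_lit 312) (nat_lit 76) (nat_lit 0) (XT.nd (nat_lit 156) (nat_lit 0) (nat_lit 0) (XT.nd (nat_lit 78) (nat_lit 76) (nat_lit 0) (XT.lf (nat_lit 0) (nat_lit 46956133677) (nat_lit 152) (nat_lit 10538003692) (nat_lit 0) (nat_lit 27711757629) (nat_lit 4) (nat_lit 5) (nat_lit 6) (nat_lit 4) (nat_lit 4) (nat_lit 4) (nat_lit 229) (nat_lit 205) (nat_lit 166)) (XT.lf (nat_lit 0) (nat_lit 7534527125) (nat_lit 76) (nat_lit 54051101849)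 (nat_lit 76) (nat_lit 34795902743) (nat_lit 3) (nat_lit 4) (nat_lit 4) (nat_lit 5) (nat_lit 4) (nat_lit 4) (nat_lit 230) (nat_lit 205) (nat_lit 165))) (XT.nd (nat_lit 78) (nat_lit 0) (nat_lit 0) (XT.lf (nat_lit 0) (nat_lit 29480623690) (nat_lit 76) (nat_lit 49468313102) (nat_lit 76) (nat_lit 30203702640) (nat_lit 3) (nat_lit 4) (nat_lit 4) (nat_lit 5) (nat_lit 4) (nat_lit 4) (nat_lit 231) (nat_lit 205) (nat_lit 164)) (XT.lf (nat_lit 0) (nat_lit 54699815793) (nat_lit 76) (nat_lit 44206958064) (nat_lit 76) (nat_lit 24934163815) (nat_lit 3) (nat_lit 4) (nat_lit 4) (nat_lit 5) (nat_lit 4) (nat_lit 4) (nat_lit 232) (nat_lit 205) (nat_lit 163)))) (XT.nd (nat_lit 156) (nat_lit 76) (nat_lit 0) (XT.nd (nat_lit 78) (nat_lit 0) (nat_lit 0) (XT.lf (nat_lit 0) (nat_lit 83685522408) (nat_lit 76) (nat_lit 38164097179) (nat_lit 76) (nat_lit 18884186593) (nat_lit 3) (nat_lit 4) (nat_lit 4) (nat_lit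 5) (nat_lit 4) (nat_lit 4) (nat_lit 233) (nat_lit 205) (nat_lit 162)) (XT.lf (nat_lit 0) (nat_lit 117004855188) (nat_lit 76) (nat_lit 31221500560) (nat_lit 76) (nat_lit 11935401855) (nat_lit 3) (nat_lit 4) (nat_lit 4) (nat_lit 5) (nat_lit 4) (nat_lit 4) (nat_lit 234) (nat_lit 205) (nat_lit 161))) (XT.nd (nat_lit 78) (nat_lit 76) (nat_lit 0) (XT.lf (nat_lit 0) (nat_lit 155309714121) (nat_lit 76) (nat_lit 23243334795) (nat_lit 76) (nat_lit 3951855117) (nat_lit 3) (nat_lit 4) (nat_lit 4) (nat_lit 5) (nat_lit 4) (nat_lit 4) (nat_lit 235) (nat_lit 205) (nat_lit 160)) (XT.lf (nat_lit 0) (nat_lit 4757696722) (nat_lit 152) (nat_lit 9067110831) (nat_lit 76) (nat_lit 194343147595) (nat_lit 2) (nat_lit 5) (nat_lit 4) (nat_lit 5) (nat_lit 3) (nat_lit 4) (nat_lit 236) (nat_lit 205) (nat_lit 159)))))))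
noncomputable def xc49 : XT := (XT.nd (nat_lit 1248) (nat_lit 0) (nat_lit 0) (XT.nd (nat_lit 624) (nat_lit 0) (nat_lit 0) (XT.nd (nat_lit 312) (nat_lit 0) (nat_lit 0) (XT.nd (nat_lit 156) (nat_lit 0) (nat_lit 0) (XT.nd (nat_lit 78) (nat_lit 0) (nat_lit 0) (XT.lf (nat_lit 0) (nat_lit 12714007776) (nat_lit 76) (nat_lit 2176334247) (nat_lit 152) (nat_lit 222683718742) (nat_lit 1) (nat_lit 5) (nat_lit 2) (nat_lit 5) (nat_lit 3) (nat_lit 4) (nat_lit 237) (nat_lit 205) (nat_lit 158)) (XT.lf (nat_lit 0) (nat_lit 27498885231) (nat_lit 152) (nat_lit 233035805793) (nat_lit 0) (nat_lit 10713002057) (nat_lit 1) (nat_lit 5) (nat_lit 3) (nat_lit 4) (nat_lit 1) (nat_lit 4) (nat_lit 238) (nat_lit 205) (nat_lit 157))) (XT.nd (nat_lit 78) (nat_lit 0) (nat_lit 0) (XT.lf (nat_lit 0) (nat_lit 42097907502) (nat_lit 152) (nat_lit 242550243661) (nat_lit 0) (nat_lit 25309349032) (nat_lit 1) (nat_lit 5) (nat_lit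 3) (nat_lit 4) (nat_lit 1) (nat_lit 4) (nat_lit 239) (nat_lit 205) (nat_lit 156)) (XT.lf (nat_lit 0) (nat_lit 58882924517) (nat_lit 152) (nat_lit 253499401279) (nat_lit 0) (nat_lit 42092039705) (nat_lit 1) (nat_lit 5) (nat_lit 3) (nat_lit 4) (nat_lit 1) (nat_lit 4) (nat_lit 240) (nat_lit 205) (nat_lit 155)))) (XT.nd (nat_lit 156) (nat_lit 0) (nat_lit 0) (XT.nd (nat_lit 78) (nat_lit 0) (nat_lit 0) (XT.lf (nat_lit 0) (nat_lit 78182338786) (nat_lit 152) (nat_lit 266097501295) (nat_lit 0) (nat_lit 61389431066) (nat_lit 1) (nat_lit 5) (nat_lit 3) (nat_lit 4) (nat_lit 1) (nat_lit 4) (nat_lit 241) (nat_lit 205) (nat_lit 154)) (XT.lf (nat_lit 0) (nat_lit 100373747542) (nat_lit 152) (nat_lit 280591028275) (nat_lit 0) (nat_lit 83579080773) (nat_lit 1) (nat_lit 5) (nat_lit 3) (nat_lit 4) (nat_lit 1) (nat_lit 4) (nat_lit 242) (nat_lit 205) (nat_lit 153))) (XT.nd (nat_lit 78) (nat_lit 0) (nat_lit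 0) (XT.lf (nat_lit 0) (nat_lit 125891330524) (nat_lit 152) (nat_lit 297263551226) (nat_lit 0) (nat_lit 109095134146) (nat_lit 1) (nat_lit 5) (nat_lit 3) (nat_lit 4) (nat_lit 1) (nat_lit 4) (nat_lit 243) (nat_lit 205) (nat_lit 152)) (XT.lf (nat_lit 0) (nat_lit 155234344788) (nat_lit 152) (nat_lit 316441271682) (nat_lit 0) (nat_lit 138436818316) (nat_lit 1) (nat_lit 5) (nat_lit 3) (nat_lit 4) (nat_lit 1) (nat_lit 4) (nat_lit 244) (nat_lit 205) (nat_lit 151))))) (XT.nd (nat_lit 312) (nat_lit 0) (nat_lit 0) (XT.nd (nat_lit 156) (nat_lit 0) (nat_lit 0) (XT.nd (nat_lit 78) (nat_lit 0) (nat_lit 0) (XT.lf (nat_lit 0) (nat_lit 188976892788) (nat_lit 152) (nat_lit 338499405915) (nat_lit 0) (nat_lit 172178209713) (nat_lit 1) (nat_lit 5) (nat_lit 3) (nat_lit 4) (nat_lit 1) (nat_lit 4) (nat_lit 245) (nat_lit 205) (nat_lit 150)) (XT.lf (nat_lit 0) (nat_lit 227779154812) (nat_lit 152) (nat_lit 363869526116)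 (nat_lit 0) (nat_lit 210979465994) (nat_lit 1) (nat_lit 5) (nat_lit 3) (nat_lit 4) (nat_lit 1) (nat_lit 4) (nat_lit 246) (nat_lit 205) (nat_lit 149))) (XT.nd (nat_lit 78) (nat_lit 0) (nat_lit 0) (XT.lf (nat_lit 0) (nat_lit 272400305550) (nat_lit 152) (nat_lit 393048004201) (nat_lit 0) (nat_lit 255599742173) (nat_lit 1) (nat_lit 5) (nat_lit 3) (nat_lit 4) (nat_lit 1) (nat_lit 4) (nat_lit 247) (nat_lit 205) (nat_lit 148)) (XT.lf (nat_lit 0) (nat_lit 323713367517) (nat_lit 152) (nat_lit 426605723437) (nat_lit 0) (nat_lit 306912043655) (nat_lit 1) (nat_lit 5) (nat_lit 3) (nat_lit 4) (nat_lit 1) (nat_lit 4) (nat_lit 248) (nat_lit 205) (nat_lit 147)))) (XT.nd (nat_lit 156) (nat_lit 0) (nat_lit 0) (XT.nd (nat_lit 78) (nat_lit 0) (nat_lit 0) (XT.lf (nat_lit 0) (nat_lit 382722291926) (nat_lit 152) (nat_lit 465199247897) (nat_lit 0) (nat_lit 365920306772) (nat_lit 1) (nat_lit 5) (nat_lit 3)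 (nat_lit 4) (nat_lit 1) (nat_lit 4) (nat_lit 249) (nat_lit 205) (nat_lit 146)) (XT.lf (nat_lit 0) (nat_lit 450581601211) (nat_lit 152) (nat_lit 509583668276) (nat_lit 0) (nat_lit 433779041020) (nat_lit 1) (nat_lit 5) (nat_lit 3) (nat_lit 4) (nat_lit 1) (nat_lit 4) (nat_lit 250) (nat_lit 205) (nat_lit 145))) (XT.nd (nat_lit 78) (nat_lit 0) (nat_lit 0) (XT.lf (nat_lit 0) (nat_lit 528618977509) (nat_lit 152) (nat_lit 560627375408) (nat_lit 0) (nat_lit 511815917287) (nat_lit 1) (nat_lit 5) (nat_lit 3) (nat_lit 4) (nat_lit 1) (nat_lit 4) (nat_lit 251) (nat_lit 205) (nat_lit 144)) (XT.lf (nat_lit 0) (nat_lit 618361239054) (nat_lit 152) (nat_lit 619329050519) (nat_lit 0) (nat_lit 601557744021) (nat_lit 1) (nat_lit 5) (nat_lit 3) (nat_lit 4) (nat_lit 1) (nat_lit 4) (nat_lit 252) (nat_lit 205) (nat_lit 143)))))) (XT.nd (nat_lit 624) (nat_lit 0) (nat_lit 0) (XT.nd (nat_lit 312) (nat_lit 0) (nat_lit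 0) (XT.nd (nat_lit 156) (nat_lit 0) (nat_lit 0) (XT.nd (nat_lit 78) (nat_lit 0) (nat_lit 0) (XT.lf (nat_lit 0) (nat_lit 721564212700) (nat_lit 152) (nat_lit 686837204645) (nat_lit 0) (nat_lit 704760339572) (nat_lit 1) (nat_lit 5) (nat_lit 3) (nat_lit 4) (nat_lit 1) (nat_lit 4) (nat_lit 253) (nat_lit 205) (nat_lit 142)) (XT.lf (nat_lit 0) (nat_lit 840247087064) (nat_lit 152) (nat_lit 764472649496) (nat_lit 0) (nat_lit 823442885157) (nat_lit 1) (nat_lit 5) (nat_lit 3) (nat_lit 4) (nat_lit 1) (nat_lit 4) (nat_lit 254) (nat_lit 205) (nat_lit 141))) (XT.nd (nat_lit 78) (nat_lit 0) (nat_lit 0) (XT.lf (nat_lit 0) (nat_lit 976731918382) (nat_lit 152) (nat_lit 853754339428) (nat_lit 0) (nat_lit 959927430580) (nat_lit 1) (nat_lit 5) (nat_lit 3) (nat_lit 4) (nat_lit 1) (nat_lit 4) (nat_lit 255) (nat_lit 205) (nat_lit 140)) (XT.lf (nat_lit 0) (nat_lit 1133689062050) (nat_lit 152) (nat_lit 956429090114)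 (nat_lit 0) (nat_lit 1116884325644) (nat_lit 1) (nat_lit 5) (nat_lit 3) (nat_lit 4) (nat_lit 1) (nat_lit 4) (nat_lit 256) (nat_lit 205) (nat_lit 139)))) (XT.nd (nat_lit 156) (nat_lit 0) (nat_lit 0) (XT.nd (nat_lit 78) (nat_lit 0) (nat_lit 0) (XT.lf (nat_lit 0) (nat_lit 1314189418704) (nat_lit 152) (nat_lit 1074505755371) (nat_lit 0) (nat_lit 1297384466121) (nat_lit 1) (nat_lit 5) (nat_lit 3) (nat_lit 4) (nat_lit 1) (nat_lit 4) (nat_lit 257) (nat_lit 205) (nat_lit 138)) (XT.lf (nat_lit 0) (nat_lit 1521764517063) (nat_lit 152) (nat_lit 1210294530824) (nat_lit 0) (nat_lit 1504959376499) (nat_lit 1) (nat_lit 5) (nat_lit 3) (nat_lit 4) (nat_lit 1) (nat_lit 4) (nat_lit 258) (nat_lit 205) (nat_lit 137))) (XT.nd (nat_lit 78) (nat_lit 0) (nat_lit 0) (XT.lf (nat_lit 0) (nat_lit 1760475609050) (nat_lit 152) (nat_lit 1366452153384) (nat_lit 0) (nat_lit 1743670305025) (nat_lit 1) (nat_lit 5) (nat_lit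 3) (nat_lit 4) (nat_lit 1) (nat_lit 4) (nat_lit 259) (nat_lit 205) (nat_lit 136)) (XT.lf (nat_lit 0) (nat_lit 2034993129074) (nat_lit 152) (nat_lit 1546033880884) (nat_lit 0) (nat_lit 2018187682908) (nat_lit 1) (nat_lit 5) (nat_lit 3) (nat_lit 4) (nat_lit 1) (nat_lit 4) (nat_lit 260) (nat_lit 205) (nat_lit 135))))) (XT.nd (nat_lit 312) (nat_lit 0) (nat_lit 0) (XT.nd (nat_lit 156) (nat_lit 0) (nat_lit 0) (XT.nd (nat_lit 78) (nat_lit 0) (nat_lit 0) (XT.lf (nat_lit 0) (nat_lit 2350688072091) (nat_lit 152) (nat_lit 1752553268862) (nat_lit 0) (nat_lit 2333882502326) (nat_lit 1) (nat_lit 5) (nat_lit 3) (nat_lit 4) (nat_lit 1) (nat_lit 4) (nat_lit 261) (nat_lit 205) (nat_lit 134)) (XT.lf (nat_lit 0) (nat_lit 2713737078292) (nat_lit 152) (nat_lit 1990050914039) (nat_lit 0) (nat_lit 2696931401048) (nat_lit 1) (nat_lit 5) (nat_lit 3) (nat_lit 4) (nat_lit 1) (nat_lit 4) (nat_lit 262) (nat_lit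 205) (nat_lit 133))) (XT.nd (nat_lit 78) (nat_lit 0) (nat_lit 0) (XT.lf (nat_lit 0) (nat_lit 3131243280406) (nat_lit 152) (nat_lit 2263173509473) (nat_lit 0) (nat_lit 3114437509703) (nat_lit 1) (nat_lit 5) (nat_lit 3) (nat_lit 4) (nat_lit 1) (nat_lit 4) (nat_lit 263) (nat_lit 205) (nat_lit 132)) (XT.lf (nat_lit 0) (nat_lit 3611375278041) (nat_lit 152) (nat_lit 2577264758118) (nat_lit 0) (nat_lit 3594569426068) (nat_lit 1) (nat_lit 5) (nat_lit 3) (nat_lit 4) (nat_lit 1) (nat_lit 4) (nat_lit 264) (nat_lit 205) (nat_lit 131)))) (XT.nd (nat_lit 156) (nat_lit 0) (nat_lit 0) (XT.nd (nat_lit 78) (nat_lit 0) (nat_lit 0) (XT.lf (nat_lit 0) (nat_lit 4163526958105) (nat_lit 152) (nat_lit 2938469923535) (nat_lit 0) (nat_lit 4146721035463) (nat_lit 1) (nat_lit 5) (nat_lit 3) (nat_lit 4) (nat_lit 1) (nat_lit 4) (nat_lit 265) (nat_lit 205) (nat_lit 130)) (XT.lf (nat_lit 0) (nat_lit 4798501288253)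 (nat_lit 152) (nat_lit 3353856063307) (nat_lit 0) (nat_lit 4781695304160) (nat_lit 1) (nat_lit 5) (nat_lit 3) (nat_lit 4) (nat_lit 1) (nat_lit 4) (nat_lit 266) (nat_lit 205) (nat_lit 129))) (XT.nd (nat_lit 78) (nat_lit 0) (nat_lit 0) (XT.lf (nat_lit 0) (nat_lit 5528721679291) (nat_lit 152) (nat_lit 3831550297561) (nat_lit 0) (nat_lit 5511915641763) (nat_lit 1) (nat_lit 5) (nat_lit 3) (nat_lit 4) (nat_lit 1) (nat_lit 4) (nat_lit 267) (nat_lit 205) (nat_lit 128)) (XT.nd (nat_lit 78) (nat_lit 0) (nat_lit 0) (XT.lf (nat_lit 0) (nat_lit 6368475051915) (nat_lit 152) (nat_lit 4380898817837) (nat_lit 0) (nat_lit 6351668967921) (nat_lit 1) (nat_lit 5) (nat_lit 3) (nat_lit 4) (nat_lit 1) (nat_lit 4) (nat_lit 268) (nat_lit 205) (nat_lit 127)) (XT.lf (nat_lit 0) (nat_lit 7334191363414) (nat_lit 152) (nat_lit 5012649747357) (nat_lit 0) (nat_lit 7317385239015) (nat_lit 1) (nat_lit 5) (nat_lit 3)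 (nat_lit 4) (nat_lit 1) (nat_lit 4) (nat_lit 269) (nat_lit 205) (nat_lit 126))))))))
noncomputable def xc50 : XT := (XT.nd (nat_lit 27924) (nat_lit 0) (nat_lit 0) (XT.nd (nat_lit 26676) (nat_lit 0) (nat_lit 304) (XT.nd (nat_lit 1092) (nat_lit 0) (nat_lit 0) (XT.nd (nat_lit 312) (nat_lit 0) (nat_lit 0) (XT.nd (nat_lit 156) (nat_lit 0) (nat_lit 0) (XT.nd (nat_lit 78) (nat_lit 0) (nat_lit 0) (XT.lf (nat_lit 0) (nat_lit 8444765063361) (nat_lit 152) (nat_lit 5739163430394) (nat_lit 0) (nat_lit 8427958903827) (nat_lit 1) (nat_lit 5) (nat_lit 3) (nat_lit 4) (nat_lit 1) (nat_lit 4) (nat_lit 270) (nat_lit 205) (nat_lit 125)) (XT.lf (nat_lit 0) (nat_lit 9721924767626) (nat_lit 152) (nat_lit 6574654265095) (nat_lit 0) (nat_lit 9705118577539) (nat_lit 1) (nat_lit 5) (nat_lit 3) (nat_lit 4) (nat_lit 1) (nat_lit 4) (nat_lit 271) (nat_lit 205) (nat_lit 124))) (XT.nd (nat_lit 78) (nat_lit 0) (nat_lit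 0) (XT.lf (nat_lit 0) (nat_lit 11190658383464) (nat_lit 152) (nat_lit 7535468811270) (nat_lit 0) (nat_lit 11173852166811) (nat_lit 1) (nat_lit 5) (nat_lit 3) (nat_lit 4) (nat_lit 1) (nat_lit 4) (nat_lit 272) (nat_lit 205) (nat_lit 123)) (XT.lf (nat_lit 0) (nat_lit 12879702003360) (nat_lit 152) (nat_lit 8640405614386) (nat_lit 0) (nat_lit 12862895763605) (nat_lit 1) (nat_lit 5) (nat_lit 3) (nat_lit 4) (nat_lit 1) (nat_lit 4) (nat_lit 273) (nat_lit 205) (nat_lit 122)))) (XT.nd (nat_lit 624) (nat_lit 0) (nat_lit 0) (XT.nd (nat_lit 546) (nat_lit 0) (nat_lit 0) (XT.lf (nat_lit 0) (nat_lit 14822102132922) (nat_lit 152) (nat_lit 9911083003201) (nat_lit 0) (nat_lit 14805295873078) (nat_lit 1) (nat_lit 5) (nat_lit 3) (nat_lit 4) (nat_lit 1) (nat_lit 4) (nat_lit 274) (nat_lit 205) (nat_lit 121)) (XT.lf (nat_lit 0) (nat_lit 39542676284737) (nat_lit 152) (nat_lit 26082765976960) (nat_lit 0) (nat_lit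 39525869941317) (nat_lit 1) (nat_lit 5) (nat_lit 3) (nat_lit 4) (nat_lit 1) (nat_lit 4) (nat_lit 281) (nat_lit 205) (nat_lit 114))) (XT.nd (nat_lit 78) (nat_lit 0) (nat_lit 0) (XT.lf (nat_lit 0) (nat_lit 45484522406988) (nat_lit 152) (nat_lit 29969797712874) (nat_lit 0) (nat_lit 45467716057001) (nat_lit 1) (nat_lit 5) (nat_lit 3) (nat_lit 4) (nat_lit 1) (nat_lit 4) (nat_lit 282) (nat_lit 205) (nat_lit 113)) (XT.lf (nat_lit 0) (nat_lit 52317645438105) (nat_lit 152) (nat_lit 34439884227717) (nat_lit 0) (nat_lit 52300839082408) (nat_lit 1) (nat_lit 5) (nat_lit 3) (nat_lit 4) (nat_lit 1) (nat_lit 4) (nat_lit 283) (nat_lit 205) (nat_lit 112))))) (XT.nd (nat_lit 25272) (nat_lit 0) (nat_lit 1292) (XT.nd (nat_lit 156) (nat_lit 0) (nat_lit 0) (XT.nd (nat_lit 78) (nat_lit 0) (nat_lit 0) (XT.lf (nat_lit 0) (nat_lit 60175736915653) (nat_lit 152) (nat_lit 39580483735912) (nat_lit 0) (nat_lit 60158930554990)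 (nat_lit 1) (nat_lit 5) (nat_lit 3) (nat_lit 4) (nat_lit 1) (nat_lit 4) (nat_lit 284) (nat_lit 205) (nat_lit 111)) (XT.lf (nat_lit 0) (nat_lit 69212542107672) (nat_lit 152) (nat_lit 45492173184356) (nat_lit 0) (nat_lit 69195735742691) (nat_lit 1) (nat_lit 5) (nat_lit 3) (nat_lit 4) (nat_lit 1) (nat_lit 4) (nat_lit 285) (nat_lit 205) (nat_lit 110))) (XT.nd (nat_lit 25038) (nat_lit 0) (nat_lit 1444) (XT.lf (nat_lit 0) (nat_lit 79604868072266) (nat_lit 152) (nat_lit 52290616062259) (nat_lit 0) (nat_lit 79588061703530) (nat_lit 1) (nat_lit 5) (nat_lit 3) (nat_lit 4) (nat_lit 1) (nat_lit 4) (nat_lit 286) (nat_lit 205) (nat_lit 109)) (XT.lf (nat_lit 0) (nat_lit 1625331412) (nat_lit 0) (nat_lit 1625331412) (nat_lit 228) (nat_lit 1723058167) (nat_lit 20) (nat_lit 5) (nat_lit 20) (nat_lit 3) (nat_lit 23) (nat_lit 3) (nat_lit 206) (nat_lit 206) (nat_lit 188)))) (XT.nd (nat_lit 156) (nat_lit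 152) (nat_lit 0) (XT.nd (nat_lit 78) (nat_lit 0) (nat_lit 0) (XT.lf (nat_lit 0) (nat_lit 7625118462) (nat_lit 228) (nat_lit 2388436922) (nat_lit 304) (nat_lit 578280774) (nat_lit 20) (nat_lit 5) (nat_lit 23) (nat_lit 3) (nat_lit 24) (nat_lit 5) (nat_lit 207) (nat_lit 206) (nat_lit 187)) (XT.lf (nat_lit 76) (nat_lit 2565846350) (nat_lit 0) (nat_lit 6506325476) (nat_lit 304) (nat_lit 2238624048) (nat_lit 21) (nat_lit 5) (nat_lit 20) (nat_lit 5) (nat_lit 24) (nat_lit 5) (nat_lit 208) (nat_lit 206) (nat_lit 186))) (XT.nd (nat_lit 78) (nat_lit 152) (nat_lit 0) (XT.lf (nat_lit 76) (nat_lit 8461114830) (nat_lit 0) (nat_lit 2304619125) (nat_lit 304) (nat_lit 1368413335) (nat_lit 21) (nat_lit 5) (nat_lit 20) (nat_lit 5) (nat_lit 24) (nat_lit 5) (nat_lit 209) (nat_lit 206) (nat_lit 185)) (XT.lf (nat_lit 0) (nat_lit 2172913449) (nat_lit 228) (nat_lit 10652982083) (nat_lit 304) (nat_lit 239060557)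 (nat_lit 18) (nat_lit 5) (nat_lit 21) (nat_lit 5) (nat_lit 22) (nat_lit 5) (nat_lit 210) (nat_lit 206) (nat_lit 184)))))) (XT.nd (nat_lit 624) (nat_lit 380) (nat_lit 0) (XT.nd (nat_lit 312) (nat_lit 152) (nat_lit 0) (XT.nd (nat_lit 156) (nat_lit 152) (nat_lit 0) (XT.nd (nat_lit 78) (nat_lit 228) (nat_lit 0) (XT.lf (nat_lit 0) (nat_lit 1197689548) (nat_lit 304) (nat_lit 5041234139) (nat_lit 76) (nat_lit 7855664929) (nat_lit 17) (nat_lit 5) (nat_lit 21) (nat_lit 5) (nat_lit 18) (nat_lit 5) (nat_lit 211) (nat_lit 206) (nat_lit 183)) (XT.lf (nat_lit 0) (nat_lit 1762808757) (nat_lit 228) (nat_lit 1067357775) (nat_lit 304) (nat_lit 12446640421) (nat_lit 14) (nat_lit 5) (nat_lit 17) (nat_lit 5) (nat_lit 18) (nat_lit 5) (nat_lit 212) (nat_lit 206) (nat_lit 182))) (XT.nd (nat_lit 78) (nat_lit 152) (nat_lit 0) (XT.lf (nat_lit 0) (nat_lit 5123300438) (nat_lit 304) (nat_lit 6733797399) (nat_lit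 76) (nat_lit 4717372348) (nat_lit 14) (nat_lit 5) (nat_lit 18) (nat_lit 5) (nat_lit 15) (nat_lit 5) (nat_lit 213) (nat_lit 206) (nat_lit 181)) (XT.lf (nat_lit 0) (nat_lit 1038663131) (nat_lit 152) (nat_lit 6761359082) (nat_lit 228) (nat_lit 10261235374) (nat_lit 12) (nat_lit 5) (nat_lit 14) (nat_lit 5) (nat_lit 15) (nat_lit 5) (nat_lit 214) (nat_lit 206) (nat_lit 180)))) (XT.nd (nat_lit 156) (nat_lit 152) (nat_lit 0) (XT.nd (nat_lit 78) (nat_lit 0) (nat_lit 0) (XT.lf (nat_lit 0) (nat_lit 10670385709) (nat_lit 152) (nat_lit 510089746) (nat_lit 228) (nat_lit 8545617076) (nat_lit 12) (nat_lit 5) (nat_lit 14) (nat_lit 5) (nat_lit 15) (nat_lit 5) (nat_lit 215) (nat_lit 206) (nat_lit 179)) (XT.lf (nat_lit 0) (nat_lit 15300785000) (nat_lit 228) (nat_lit 231785937) (nat_lit 76) (nat_lit 6073479108) (nat_lit 12) (nat_lit 5) (nat_lit 15) (nat_lit 5) (nat_lit 13) (nat_lit 4) (nat_lit 216) (nat_lit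 206) (nat_lit 178))) (XT.nd (nat_lit 78) (nat_lit 76) (nat_lit 0) (XT.lf (nat_lit 0) (nat_lit 10799446564) (nat_lit 76) (nat_lit 9673106063) (nat_lit 152) (nat_lit 3230711227) (nat_lit 11) (nat_lit 5) (nat_lit 12) (nat_lit 5) (nat_lit 13) (nat_lit 4) (nat_lit 217) (nat_lit 206) (nat_lit 177)) (XT.lf (nat_lit 0) (nat_lit 253461505) (nat_lit 152) (nat_lit 2669868963) (nat_lit 76) (nat_lit 23193703494) (nat_lit 10) (nat_lit 5) (nat_lit 12) (nat_lit 5) (nat_lit 11) (nat_lit 5) (nat_lit 218) (nat_lit 206) (nat_lit 176))))) (XT.nd (nat_lit 312) (nat_lit 152) (nat_lit 0) (XT.nd (nat_lit 156) (nat_lit 76) (nat_lit 0) (XT.nd (nat_lit 78) (nat_lit 0) (nat_lit 0) (XT.lf (nat_lit 0) (nat_lit 4527988448) (nat_lit 228) (nat_lit 19273272095) (nat_lit 76) (nat_lit 4978939226) (nat_lit 8) (nat_lit 5) (nat_lit 11) (nat_lit 5) (nat_lit 9) (nat_lit 4) (nat_lit 219) (nat_lit 206) (nat_lit 175)) (XT.lf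 (nat_lit 0) (nat_lit 9698524019) (nat_lit 228) (nat_lit 8206973723) (nat_lit 76) (nat_lit 13899275164) (nat_lit 8) (nat_lit 5) (nat_lit 11) (nat_lit 5) (nat_lit 9) (nat_lit 4) (nat_lit 220) (nat_lit 206) (nat_lit 174))) (XT.nd (nat_lit 78) (nat_lit 0) (nat_lit 0) (XT.lf (nat_lit 0) (nat_lit 4913659852) (nat_lit 76) (nat_lit 10907849694) (nat_lit 152) (nat_lit 19435128458) (nat_lit 7) (nat_lit 5) (nat_lit 8) (nat_lit 5) (nat_lit 9) (nat_lit 4) (nat_lit 221) (nat_lit 206) (nat_lit 173)) (XT.lf (nat_lit 0) (nat_lit 20883640031) (nat_lit 76) (nat_lit 2383476195) (nat_lit 152) (nat_lit 15898659280) (nat_lit 7) (nat_lit 5) (nat_lit 8) (nat_lit 5) (nat_lit 9) (nat_lit 4) (nat_lit 222) (nat_lit 206) (nat_lit 172)))) (XT.nd (nat_lit 156) (nat_lit 76) (nat_lit 0) (XT.nd (nat_lit 78) (nat_lit 76) (nat_lit 0) (XT.lf (nat_lit 0) (nat_lit 32114616659) (nat_lit 152) (nat_lit 4757889339) (nat_lit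 0) (nat_lit 6746122884) (nat_lit 7) (nat_lit 5) (nat_lit 9) (nat_lit 4) (nat_lit 7) (nat_lit 4) (nat_lit 223) (nat_lit 206) (nat_lit 171)) (XT.lf (nat_lit 0) (nat_lit 11688622925) (nat_lit 76) (nat_lit 31178836325) (nat_lit 76) (nat_lit 5785308157) (nat_lit 6) (nat_lit 4) (nat_lit 7) (nat_lit 5) (nat_lit 7) (nat_lit 4) (nat_lit 224) (nat_lit 206) (nat_lit 170))) (XT.nd (nat_lit 78) (nat_lit 0) (nat_lit 0) (XT.lf (nat_lit 0) (nat_lit 962291184) (nat_lit 152) (nat_lit 23346371159) (nat_lit 76) (nat_lit 30092288720) (nat_lit 5) (nat_lit 5) (nat_lit 7) (nat_lit 5) (nat_lit 6) (nat_lit 4) (nat_lit 225) (nat_lit 206) (nat_lit 169)) (XT.lf (nat_lit 0) (nat_lit 8113183166) (nat_lit 152) (nat_lit 7990882995) (nat_lit 76) (nat_lit 44868512745) (nat_lit 5) (nat_lit 5) (nat_lit 7) (nat_lit 5) (nat_lit 6) (nat_lit 4) (nat_lit 226) (nat_lit 206) (nat_lit 168))))))) (XT.nd (nat_lit 1248) (nat_lit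 0) (nat_lit 0) (XT.nd (nat_lit 624) (nat_lit 152) (nat_lit 0) (XT.nd (nat_lit 312) (nat_lit 76) (nat_lit 0) (XT.nd (nat_lit 156) (nat_lit 0) (nat_lit 0) (XT.nd (nat_lit 78) (nat_lit 0) (nat_lit 0) (XT.lf (nat_lit 0) (nat_lit 10584627479) (nat_lit 76) (nat_lit 6175984056) (nat_lit 152) (nat_lit 51705805292) (nat_lit 4) (nat_lit 5) (nat_lit 5) (nat_lit 5) (nat_lit 6) (nat_lit 4) (nat_lit 227) (nat_lit 206) (nat_lit 167)) (XT.lf (nat_lit 0) (nat_lit 27345808314) (nat_lit 152) (nat_lit 44440139258) (nat_lit 0) (nat_lit 5202329342) (nat_lit 4) (nat_lit 5) (nat_lit 6) (nat_lit 4) (nat_lit 4) (nat_lit 4) (nat_lit 228) (nat_lit 206) (nat_lit 166))) (XT.nd (nat_lit 78) (nat_lit 0) (nat_lit 0) (XT.lf (nat_lit 0) (nat_lit 39800728388) (nat_lit 152) (nat_lit 29299008484) (nat_lit 0) (nat_lit 17646426357) (nat_lit 4) (nat_lit 5) (nat_lit 6) (nat_lit 4) (nat_lit 4) (nat_lit 4) (nat_lit 229) (nat_lit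 206) (nat_lit 165)) (XT.lf (nat_lit 0) (nat_lit 54113320647) (nat_lit 152) (nat_lit 11906423182) (nat_lit 0) (nat_lit 31949607260) (nat_lit 4) (nat_lit 5) (nat_lit 6) (nat_lit 4) (nat_lit 4) (nat_lit 4) (nat_lit 230) (nat_lit 206) (nat_lit 164)))) (XT.nd (nat_lit 156) (nat_lit 0) (nat_lit 0) (XT.nd (nat_lit 78) (nat_lit 0) (nat_lit 0) (XT.lf (nat_lit 0) (nat_lit 8867338118) (nat_lit 76) (nat_lit 62063453513) (nat_lit 76) (nat_lit 39891556339) (nat_lit 3) (nat_lit 4) (nat_lit 4) (nat_lit 5) (nat_lit 4) (nat_lit 4) (nat_lit 231) (nat_lit 206) (nat_lit 163)) (XT.lf (nat_lit 0) (nat_lit 34078918917) (nat_lit 76) (nat_lit 56805678664) (nat_lit 76) (nat_lit 34626665154) (nat_lit 3) (nat_lit 4) (nat_lit 4) (nat_lit 5) (nat_lit 4) (nat_lit 4) (nat_lit 232) (nat_lit 206) (nat_lit 162))) (XT.nd (nat_lit 78) (nat_lit 0) (nat_lit 0) (XT.lf (nat_lit 0) (nat_lit 63058007008) (nat_lit 76) (nat_lit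 50765930988) (nat_lit 76) (nat_lit 28580729358) (nat_lit 3) (nat_lit 4) (nat_lit 4) (nat_lit 5) (nat_lit 4) (nat_lit 4) (nat_lit 233) (nat_lit 206) (nat_lit 161)) (XT.lf (nat_lit 0) (nat_lit 96371584549) (nat_lit 76) (nat_lit 43826041507) (nat_lit 76) (nat_lit 21635458904) (nat_lit 3) (nat_lit 4) (nat_lit 4) (nat_lit 5) (nat_lit 4) (nat_lit 4) (nat_lit 234) (nat_lit 206) (nat_lit 160))))) (XT.nd (nat_lit 312) (nat_lit 0) (nat_lit 0) (XT.nd (nat_lit 156) (nat_lit 152) (nat_lit 0) (XT.nd (nat_lit 78) (nat_lit 0) (nat_lit 0) (XT.lf (nat_lit 0) (nat_lit 134671438927) (nat_lit 76) (nat_lit 35850229776) (nat_lit 76) (nat_lit 13654968066) (nat_lit 3) (nat_lit 4) (nat_lit 4) (nat_lit 5) (nat_lit 4) (nat_lit 4) (nat_lit 235) (nat_lit 206) (nat_lit 159)) (XT.lf (nat_lit 0) (nat_lit 178706915119) (nat_lit 76) (nat_lit 26682447303) (nat_lit 76) (nat_lit 4483116804) (nat_lit 3) (nat_lit 4) (nat_lit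 4) (nat_lit 5) (nat_lit 4) (nat_lit 4) (nat_lit 236) (nat_lit 206) (nat_lit 158))) (XT.nd (nat_lit 78) (nat_lit 76) (nat_lit 0) (XT.lf (nat_lit 0) (nat_lit 5520081621) (nat_lit 152) (nat_lit 10334693090) (nat_lit 76) (nat_lit 223530945446) (nat_lit 2) (nat_lit 5) (nat_lit 4) (nat_lit 5) (nat_lit 3) (nat_lit 4) (nat_lit 237) (nat_lit 206) (nat_lit 157)) (XT.lf (nat_lit 0) (nat_lit 14709389473) (nat_lit 76) (nat_lit 2460533613) (nat_lit 152) (nat_lit 256033239107) (nat_lit 1) (nat_lit 5) (nat_lit 2) (nat_lit 5) (nat_lit 3) (nat_lit 4) (nat_lit 238) (nat_lit 206) (nat_lit 156)))) (XT.nd (nat_lit 156) (nat_lit 0) (nat_lit 0) (XT.nd (nat_lit 78) (nat_lit 0) (nat_lit 0) (XT.lf (nat_lit 0) (nat_lit 31665265212) (nat_lit 152) (nat_lit 267909838660) (nat_lit 0) (nat_lit 12353421335) (nat_lit 1) (nat_lit 5) (nat_lit 3) (nat_lit 4) (nat_lit 1) (nat_lit 4) (nat_lit 239) (nat_lit 206) (nat_lit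 155)) (XT.lf (nat_lit 0) (nat_lit 48448721623) (nat_lit 152) (nat_lit 278862051513) (nat_lit 0) (nat_lit 29134854839) (nat_lit 1) (nat_lit 5) (nat_lit 3) (nat_lit 4) (nat_lit 1) (nat_lit 4) (nat_lit 240) (nat_lit 206) (nat_lit 154))) (XT.nd (nat_lit 78) (nat_lit 0) (nat_lit 0) (XT.lf (nat_lit 0) (nat_lit 67746778844) (nat_lit 152) (nat_lit 291462808255) (nat_lit 0) (nat_lit 48431153010) (nat_lit 1) (nat_lit 5) (nat_lit 3) (nat_lit 4) (nat_lit 1) (nat_lit 4) (nat_lit 241) (nat_lit 206) (nat_lit 153)) (XT.lf (nat_lit 0) (nat_lit 89937007559) (nat_lit 152) (nat_lit 305958645432) (nat_lit 0) (nat_lit 70619852117) (nat_lit 1) (nat_lit 5) (nat_lit 3) (nat_lit 4) (nat_lit 1) (nat_lit 4) (nat_lit 242) (nat_lit 206) (nat_lit 152)))))) (XT.nd (nat_lit 624) (nat_lit 0) (nat_lit 0) (XT.nd (nat_lit 312) (nat_lit 0) (nat_lit 0) (XT.nd (nat_lit 156) (nat_lit 0) (nat_lit 0) (XT.nd (nat_lit 78) (nat_lit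 0) (nat_lit 0) (XT.lf (nat_lit 0) (nat_lit 115453564418) (nat_lit 152) (nat_lit 322633177250) (nat_lit 0) (nat_lit 96135078881) (nat_lit 1) (nat_lit 5) (nat_lit 3) (nat_lit 4) (nat_lit 1) (nat_lit 4) (nat_lit 243) (nat_lit 206) (nat_lit 151)) (XT.lf (nat_lit 0) (nat_lit 144795686401) (nat_lit 152) (nat_lit 341812644547) (nat_lit 0) (nat_lit 125476044261) (nat_lit 1) (nat_lit 5) (nat_lit 3) (nat_lit 4) (nat_lit 1) (nat_lit 4) (nat_lit 244) (nat_lit 206) (nat_lit 150))) (XT.nd (nat_lit 78) (nat_lit 0) (nat_lit 0) (XT.lf (nat_lit 0) (nat_lit 178537458505) (nat_lit 152) (nat_lit 363872297772) (nat_lit 0) (nat_lit 159216810623) (nat_lit 1) (nat_lit 5) (nat_lit 3) (nat_lit 4) (nat_lit 1) (nat_lit 4) (nat_lit 245) (nat_lit 206) (nat_lit 149)) (XT.lf (nat_lit 0) (nat_lit 217339045836) (nat_lit 152) (nat_lit 389243738835) (nat_lit 0) (nat_lit 198017523395) (nat_lit 1) (nat_lit 5) (nat_lit 3)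 (nat_lit 4) (nat_lit 1) (nat_lit 4) (nat_lit 246) (nat_lit 206) (nat_lit 148)))) (XT.nd (nat_lit 156) (nat_lit 0) (nat_lit 0) (XT.nd (nat_lit 78) (nat_lit 0) (nat_lit 0) (XT.lf (nat_lit 0) (nat_lit 261959609885) (nat_lit 152) (nat_lit 418423365496) (nat_lit 0) (nat_lit 242637326958) (nat_lit 1) (nat_lit 5) (nat_lit 3) (nat_lit 4) (nat_lit 1) (nat_lit 4) (nat_lit 247) (nat_lit 206) (nat_lit 147)) (XT.lf (nat_lit 0) (nat_lit 313272161688) (nat_lit 152) (nat_lit 451982083494) (nat_lit 0) (nat_lit 293949217469) (nat_lit 1) (nat_lit 5) (nat_lit 3) (nat_lit 4) (nat_lit 1) (nat_lit 4) (nat_lit 248) (nat_lit 206) (nat_lit 146))) (XT.nd (nat_lit 78) (nat_lit 0) (nat_lit 0) (XT.lf (nat_lit 0) (nat_lit 372280642476) (nat_lit 152) (nat_lit 490576476442) (nat_lit 0) (nat_lit 352957123221) (nat_lit 1) (nat_lit 5) (nat_lit 3) (nat_lit 4) (nat_lit 1) (nat_lit 4) (nat_lit 249) (nat_lit 206) (nat_lit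 145)) (XT.lf (nat_lit 0) (nat_lit 440139566003) (nat_lit 152) (nat_lit 534961652029) (nat_lit 0) (nat_lit 420815546716) (nat_lit 1) (nat_lit 5) (nat_lit 3) (nat_lit 4) (nat_lit 1) (nat_lit 4) (nat_lit 250) (nat_lit 206) (nat_lit 144))))) (XT.nd (nat_lit 312) (nat_lit 0) (nat_lit 0) (XT.nd (nat_lit 156) (nat_lit 0) (nat_lit 0) (XT.nd (nat_lit 78) (nat_lit 0) (nat_lit 0) (XT.lf (nat_lit 0) (nat_lit 518176606860) (nat_lit 152) (nat_lit 586006015863) (nat_lit 0) (nat_lit 498852152763) (nat_lit 1) (nat_lit 5) (nat_lit 3) (nat_lit 4) (nat_lit 1) (nat_lit 4) (nat_lit 251) (nat_lit 206) (nat_lit 143)) (XT.lf (nat_lit 0) (nat_lit 607918576717) (nat_lit 152) (nat_lit 644708262020) (nat_lit 0) (nat_lit 588593744524) (nat_lit 1) (nat_lit 5) (nat_lit 3) (nat_lit 4) (nat_lit 1) (nat_lit 4) (nat_lit 252) (nat_lit 206) (nat_lit 142))) (XT.nd (nat_lit 78) (nat_lit 0) (nat_lit 0) (XT.lf (nat_lit 0)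 (nat_lit 711121296721) (nat_lit 152) (nat_lit 712216912707) (nat_lit 0) (nat_lit 691796135749) (nat_lit 1) (nat_lit 5) (nat_lit 3) (nat_lit 4) (nat_lit 1) (nat_lit 4) (nat_lit 253) (nat_lit 206) (nat_lit 141)) (XT.lf (nat_lit 0) (nat_lit 829803950527) (nat_lit 152) (nat_lit 789852789350) (nat_lit 0) (nat_lit 810478503660) (nat_lit 1) (nat_lit 5) (nat_lit 3) (nat_lit 4) (nat_lit 1) (nat_lit 4) (nat_lit 254) (nat_lit 206) (nat_lit 140)))) (XT.nd (nat_lit 156) (nat_lit 0) (nat_lit 0) (XT.nd (nat_lit 78) (nat_lit 0) (nat_lit 0) (XT.lf (nat_lit 0) (nat_lit 966288590055) (nat_lit 152) (nat_lit 879134854754) (nat_lit 0) (nat_lit 946962894584) (nat_lit 1) (nat_lit 5) (nat_lit 3) (nat_lit 4) (nat_lit 1) (nat_lit 4) (nat_lit 255) (nat_lit 206) (nat_lit 139)) (XT.lf (nat_lit 0) (nat_lit 1123245566949) (nat_lit 152) (nat_lit 981809931936) (nat_lit 0) (nat_lit 1103919655301) (nat_lit 1) (nat_lit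 5) (nat_lit 3) (nat_lit 4) (nat_lit 1) (nat_lit 4) (nat_lit 256) (nat_lit 206) (nat_lit 138))) (XT.nd (nat_lit 78) (nat_lit 0) (nat_lit 0) (XT.lf (nat_lit 0) (nat_lit 1303745778583) (nat_lit 152) (nat_lit 1099886881104) (nat_lit 0) (nat_lit 1284419678954) (nat_lit 1) (nat_lit 5) (nat_lit 3) (nat_lit 4) (nat_lit 1) (nat_lit 4) (nat_lit 257) (nat_lit 206) (nat_lit 137)) (XT.lf (nat_lit 0) (nat_lit 1511320750837) (nat_lit 152) (nat_lit 1235675903436) (nat_lit 0) (nat_lit 1491994487747) (nat_lit 1) (nat_lit 5) (nat_lit 3) (nat_lit 4) (nat_lit 1) (nat_lit 4) (nat_lit 258) (nat_lit 206) (nat_lit 136))))))))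
noncomputable def xc51 : XT := (XT.nd (nat_lit 1794) (nat_lit 0) (nat_lit 0) (XT.nd (nat_lit 624) (nat_lit 0) (nat_lit 0) (XT.nd (nat_lit 312) (nat_lit 0) (nat_lit 0) (XT.nd (nat_lit 156) (nat_lit 0) (nat_lit 0) (XT.nd (nat_lit 78) (nat_lit 0) (nat_lit 0) (XT.lf (nat_lit 0) (nat_lit 1750031733168) (nat_lit 152) (nat_lit 1391833740673) (nat_lit 0) (nat_lit 1730705327937) (nat_lit 1) (nat_lit 5) (nat_lit 3) (nat_lit 4) (nat_lit 1) (nat_lit 4) (nat_lit 259) (nat_lit 206) (nat_lit 135)) (XT.lf (nat_lit 0) (nat_lit 2024549157838) (nat_lit 152) (nat_lit 1571415654849) (nat_lit 0) (nat_lit 2005222629007) (nat_lit 1) (nat_lit 5) (nat_lit 3) (nat_lit 4) (nat_lit 1) (nat_lit 4) (nat_lit 260) (nat_lit 206) (nat_lit 134))) (XT.nd (nat_lit 78) (nat_lit 0) (nat_lit 0) (XT.lf (nat_lit 0) (nat_lit 2340244017940) (nat_lit 152) (nat_lit 1777935205153) (nat_lit 0) (nat_lit 2320917381631) (nat_lit 1)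 (nat_lit 5) (nat_lit 3) (nat_lit 4) (nat_lit 1) (nat_lit 4) (nat_lit 261) (nat_lit 206) (nat_lit 133)) (XT.lf (nat_lit 0) (nat_lit 2703292952040) (nat_lit 152) (nat_lit 2015432991484) (nat_lit 0) (nat_lit 2683966222271) (nat_lit 1) (nat_lit 5) (nat_lit 3) (nat_lit 4) (nat_lit 1) (nat_lit 4) (nat_lit 262) (nat_lit 206) (nat_lit 132)))) (XT.nd (nat_lit 156) (nat_lit 0) (nat_lit 0) (XT.nd (nat_lit 78) (nat_lit 0) (nat_lit 0) (XT.lf (nat_lit 0) (nat_lit 3120799091458) (nat_lit 152) (nat_lit 2288555709660) (nat_lit 0) (nat_lit 3101472280420) (nat_lit 1) (nat_lit 5) (nat_lit 3) (nat_lit 4) (nat_lit 1) (nat_lit 4) (nat_lit 263) (nat_lit 206) (nat_lit 131)) (XT.lf (nat_lit 0) (nat_lit 3600931034573) (nat_lit 152) (nat_lit 2602647065038) (nat_lit 0) (nat_lit 3581604152867) (nat_lit 1) (nat_lit 5) (nat_lit 3) (nat_lit 4) (nat_lit 1) (nat_lit 4) (nat_lit 264) (nat_lit 206) (nat_lit 130))) (XT.nd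 (nat_lit 78) (nat_lit 0) (nat_lit 0) (XT.lf (nat_lit 0) (nat_lit 4153082667230) (nat_lit 152) (nat_lit 2963852323265) (nat_lit 0) (nat_lit 4133755724072) (nat_lit 1) (nat_lit 5) (nat_lit 3) (nat_lit 4) (nat_lit 1) (nat_lit 4) (nat_lit 265) (nat_lit 206) (nat_lit 129)) (XT.lf (nat_lit 0) (nat_lit 4788056956154) (nat_lit 152) (nat_lit 3379238543743) (nat_lit 0) (nat_lit 4768729959560) (nat_lit 1) (nat_lit 5) (nat_lit 3) (nat_lit 4) (nat_lit 1) (nat_lit 4) (nat_lit 266) (nat_lit 206) (nat_lit 128))))) (XT.nd (nat_lit 312) (nat_lit 0) (nat_lit 0) (XT.nd (nat_lit 156) (nat_lit 0) (nat_lit 0) (XT.nd (nat_lit 78) (nat_lit 0) (nat_lit 0) (XT.lf (nat_lit 0) (nat_lit 5518277311345) (nat_lit 152) (nat_lit 3856932848175) (nat_lit 0) (nat_lit 5498950268286) (nat_lit 1) (nat_lit 5) (nat_lit 3) (nat_lit 4) (nat_lit 1) (nat_lit 4) (nat_lit 267) (nat_lit 206) (nat_lit 127)) (XT.lf (nat_lit 0) (nat_lit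 6358030652798) (nat_lit 152) (nat_lit 4406281429475) (nat_lit 0) (nat_lit 6338703569334) (nat_lit 1) (nat_lit 5) (nat_lit 3) (nat_lit 4) (nat_lit 1) (nat_lit 4) (nat_lit 268) (nat_lit 206) (nat_lit 126))) (XT.nd (nat_lit 78) (nat_lit 0) (nat_lit 0) (XT.lf (nat_lit 0) (nat_lit 7323746937192) (nat_lit 152) (nat_lit 5038032412060) (nat_lit 0) (nat_lit 7304419818592) (nat_lit 1) (nat_lit 5) (nat_lit 3) (nat_lit 4) (nat_lit 1) (nat_lit 4) (nat_lit 269) (nat_lit 206) (nat_lit 125)) (XT.lf (nat_lit 0) (nat_lit 8434320613569) (nat_lit 152) (nat_lit 5764546141241) (nat_lit 0) (nat_lit 8414993464418) (nat_lit 1) (nat_lit 5) (nat_lit 3) (nat_lit 4) (nat_lit 1) (nat_lit 4) (nat_lit 270) (nat_lit 206) (nat_lit 124)))) (XT.nd (nat_lit 702) (nat_lit 0) (nat_lit 0) (XT.nd (nat_lit 78) (nat_lit 0) (nat_lit 0) (XT.lf (nat_lit 0) (nat_lit 9711480297338) (nat_lit 152) (nat_lit 6600037016067) (nat_lit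 0) (nat_lit 9692153121620) (nat_lit 1) (nat_lit 5) (nat_lit 3) (nat_lit 4) (nat_lit 1) (nat_lit 4) (nat_lit 271) (nat_lit 206) (nat_lit 123)) (XT.lf (nat_lit 0) (nat_lit 11180213895354) (nat_lit 152) (nat_lit 7560851597132) (nat_lit 0) (nat_lit 11160886696534) (nat_lit 1) (nat_lit 5) (nat_lit 3) (nat_lit 4) (nat_lit 1) (nat_lit 4) (nat_lit 272) (nat_lit 206) (nat_lit 122))) (XT.nd (nat_lit 78) (nat_lit 0) (nat_lit 0) (XT.lf (nat_lit 0) (nat_lit 34365408992181) (nat_lit 152) (nat_lit 22728121341486) (nat_lit 0) (nat_lit 34346081689696) (nat_lit 1) (nat_lit 5) (nat_lit 3) (nat_lit 4) (nat_lit 1) (nat_lit 4) (nat_lit 280) (nat_lit 206) (nat_lit 114)) (XT.lf (nat_lit 0) (nat_lit 39532231711587) (nat_lit 152) (nat_lit 26108148929308) (nat_lit 0) (nat_lit 39512904402535) (nat_lit 1) (nat_lit 5) (nat_lit 3) (nat_lit 4) (nat_lit 1) (nat_lit 4) (nat_lit 281) (nat_lit 206) (nat_lit 113))))))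 (XT.nd (nat_lit 25662) (nat_lit 0) (nat_lit 760) (XT.nd (nat_lit 312) (nat_lit 0) (nat_lit 0) (XT.nd (nat_lit 156) (nat_lit 0) (nat_lit 0) (XT.nd (nat_lit 78) (nat_lit 0) (nat_lit 0) (XT.lf (nat_lit 0) (nat_lit 45474077829433) (nat_lit 152) (nat_lit 29995180673846) (nat_lit 0) (nat_lit 45454750514670) (nat_lit 1) (nat_lit 5) (nat_lit 3) (nat_lit 4) (nat_lit 1) (nat_lit 4) (nat_lit 282) (nat_lit 206) (nat_lit 112)) (XT.lf (nat_lit 0) (nat_lit 52307200856719) (nat_lit 152) (nat_lit 34465267196190) (nat_lit 0) (nat_lit 52287873536991) (nat_lit 1) (nat_lit 5) (nat_lit 3) (nat_lit 4) (nat_lit 1) (nat_lit 4) (nat_lit 283) (nat_lit 206) (nat_lit 111))) (XT.nd (nat_lit 78) (nat_lit 0) (nat_lit 0) (XT.lf (nat_lit 0) (nat_lit 60165292330936) (nat_lit 152) (nat_lit 39605866710905) (nat_lit 0) (nat_lit 60145965006890) (nat_lit 1) (nat_lit 5) (nat_lit 3) (nat_lit 4) (nat_lit 1) (nat_lit 4) (nat_lit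 284) (nat_lit 206) (nat_lit 110)) (XT.lf (nat_lit 0) (nat_lit 69202097520058) (nat_lit 152) (nat_lit 45517556165020) (nat_lit 0) (nat_lit 69182770192257) (nat_lit 1) (nat_lit 5) (nat_lit 3) (nat_lit 4) (nat_lit 1) (nat_lit 4) (nat_lit 285) (nat_lit 206) (nat_lit 109)))) (XT.nd (nat_lit 25194) (nat_lit 0) (nat_lit 1444) (XT.nd (nat_lit 25116) (nat_lit 0) (nat_lit 1444) (XT.lf (nat_lit 0) (nat_lit 79594423482133) (nat_lit 152) (nat_lit 52315999047855) (nat_lit 0) (nat_lit 79575096151067) (nat_lit 1) (nat_lit 5) (nat_lit 3) (nat_lit 4) (nat_lit 1) (nat_lit 4) (nat_lit 286) (nat_lit 206) (nat_lit 108)) (XT.lf (nat_lit 0) (nat_lit 2161457581) (nat_lit 0) (nat_lit 2161457581) (nat_lit 228) (nat_lit 1303189252) (nat_lit 20) (nat_lit 5) (nat_lit 20) (nat_lit 3) (nat_lit 23) (nat_lit 3) (nat_lit 207) (nat_lit 207) (nat_lit 186))) (XT.nd (nat_lit 78) (nat_lit 0) (nat_lit 0) (XT.lf (nat_lit 0)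 (nat_lit 9764622404) (nat_lit 228) (nat_lit 2054344550) (nat_lit 304) (nat_lit 201889787) (nat_lit 20) (nat_lit 5) (nat_lit 23) (nat_lit 3) (nat_lit 24) (nat_lit 5) (nat_lit 208) (nat_lit 207) (nat_lit 185)) (XT.lf (nat_lit 76) (nat_lit 3611610400) (nat_lit 0) (nat_lit 7714610667) (nat_lit 304) (nat_lit 1538172046) (nat_lit 21) (nat_lit 5) (nat_lit 20) (nat_lit 5) (nat_lit 24) (nat_lit 5) (nat_lit 209) (nat_lit 207) (nat_lit 184))))) (XT.nd (nat_lit 312) (nat_lit 228) (nat_lit 0) (XT.nd (nat_lit 156) (nat_lit 228) (nat_lit 0) (XT.nd (nat_lit 78) (nat_lit 228) (nat_lit 0) (XT.lf (nat_lit 76) (nat_lit 10304966486) (nat_lit 0) (nat_lit 2852343619) (nat_lit 304) (nat_lit 672592198) (nat_lit 21) (nat_lit 5) (nat_lit 20) (nat_lit 5) (nat_lit 24) (nat_lit 5) (nat_lit 210) (nat_lit 207) (nat_lit 183)) (XT.lf (nat_lit 0) (nat_lit 485020784) (nat_lit 304) (nat_lit 11761385270) (nat_lit 76) (nat_lit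 2663738205) (nat_lit 17) (nat_lit 5) (nat_lit 21) (nat_lit 5) (nat_lit 18) (nat_lit 5) (nat_lit 211) (nat_lit 207) (nat_lit 182))) (XT.nd (nat_lit 78) (nat_lit 228) (nat_lit 0) (XT.lf (nat_lit 0) (nat_lit 2016877918) (nat_lit 304) (nat_lit 5142567147) (nat_lit 76) (nat_lit 8948233743) (nat_lit 17) (nat_lit 5) (nat_lit 21) (nat_lit 5) (nat_lit 18) (nat_lit 5) (nat_lit 212) (nat_lit 207) (nat_lit 181)) (XT.lf (nat_lit 0) (nat_lit 2652316179) (nat_lit 228) (nat_lit 1184376152) (nat_lit 304) (nat_lit 13639841749) (nat_lit 14) (nat_lit 5) (nat_lit 17) (nat_lit 5) (nat_lit 18) (nat_lit 5) (nat_lit 213) (nat_lit 207) (nat_lit 180)))) (XT.nd (nat_lit 156) (nat_lit 76) (nat_lit 0) (XT.nd (nat_lit 78) (nat_lit 152) (nat_lit 0) (XT.lf (nat_lit 0) (nat_lit 6399434538) (nat_lit 304) (nat_lit 7122044441) (nat_lit 76) (nat_lit 5459108234) (nat_lit 14) (nat_lit 5) (nat_lit 18) (nat_lit 5) (nat_lit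 15) (nat_lit 5) (nat_lit 214) (nat_lit 207) (nat_lit 179)) (XT.lf (nat_lit 0) (nat_lit 1788020507) (nat_lit 152) (nat_lit 7648008252) (nat_lit 228) (nat_lit 11261119031) (nat_lit 12) (nat_lit 5) (nat_lit 14) (nat_lit 5) (nat_lit 15) (nat_lit 5) (nat_lit 215) (nat_lit 207) (nat_lit 178))) (XT.nd (nat_lit 78) (nat_lit 76) (nat_lit 0) (XT.lf (nat_lit 0) (nat_lit 12787080875) (nat_lit 152) (nat_lit 475686084) (nat_lit 228) (nat_lit 9358501681) (nat_lit 12) (nat_lit 5) (nat_lit 14) (nat_lit 5) (nat_lit 15) (nat_lit 5) (nat_lit 216) (nat_lit 207) (nat_lit 177)) (XT.lf (nat_lit 0) (nat_lit 256529638) (nat_lit 76) (nat_lit 17706354612) (nat_lit 152) (nat_lit 6826456737) (nat_lit 11) (nat_lit 5) (nat_lit 12) (nat_lit 5) (nat_lit 13) (nat_lit 4) (nat_lit 217) (nat_lit 207) (nat_lit 176)))))))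
noncomputable def xc52 : XT := (XT.nd (nat_lit 1248) (nat_lit 152) (nat_lit 0) (XT.nd (nat_lit 624) (nat_lit 228) (nat_lit 0) (XT.nd (nat_lit 312) (nat_lit 152) (nat_lit 0) (XT.nd (nat_lit 156) (nat_lit 152) (nat_lit 0) (XT.nd (nat_lit 78) (nat_lit 76) (nat_lit 0) (XT.lf (nat_lit 0) (nat_lit 12896870545) (nat_lit 76) (nat_lit 10976215049) (nat_lit 152) (nat_lit 3333986118) (nat_lit 11) (nat_lit 5) (nat_lit 12) (nat_lit 5) (nat_lit 13) (nat_lit 4) (nat_lit 218) (nat_lit 207) (nat_lit 175)) (XT.lf (nat_lit 0) (nat_lit 593552904) (nat_lit 152) (nat_lit 2623915760) (nat_lit 76) (nat_lit 26770120183) (nat_lit 10) (nat_lit 5) (nat_lit 12) (nat_lit 5) (nat_lit 11) (nat_lit 5) (nat_lit 219) (nat_lit 207) (nat_lit 174))) (XT.nd (nat_lit 78) (nat_lit 0) (nat_lit 0) (XT.lf (nat_lit 0) (nat_lit 5493542029) (nat_lit 228) (nat_lit 21700643472) (nat_lit 76) (nat_lit 5858621907) (nat_lit 8) (nat_lit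 5) (nat_lit 11) (nat_lit 5) (nat_lit 9) (nat_lit 4) (nat_lit 220) (nat_lit 207) (nat_lit 173)) (XT.lf (nat_lit 0) (nat_lit 11402307242) (nat_lit 228) (nat_lit 9034872446) (nat_lit 76) (nat_lit 16099681046) (nat_lit 8) (nat_lit 5) (nat_lit 11) (nat_lit 5) (nat_lit 9) (nat_lit 4) (nat_lit 221) (nat_lit 207) (nat_lit 172)))) (XT.nd (nat_lit 156) (nat_lit 76) (nat_lit 0) (XT.nd (nat_lit 78) (nat_lit 0) (nat_lit 0) (XT.lf (nat_lit 0) (nat_lit 6035531288) (nat_lit 76) (nat_lit 12391665126) (nat_lit 152) (nat_lit 22081957430) (nat_lit 7) (nat_lit 5) (nat_lit 8) (nat_lit 5) (nat_lit 9) (nat_lit 4) (nat_lit 222) (nat_lit 207) (nat_lit 171)) (XT.lf (nat_lit 0) (nat_lit 24350814259) (nat_lit 76) (nat_lit 2608508909) (nat_lit 152) (nat_lit 18050031827) (nat_lit 7) (nat_lit 5) (nat_lit 8) (nat_lit 5) (nat_lit 9) (nat_lit 4) (nat_lit 223) (nat_lit 207) (nat_lit 170))) (XT.nd (nat_lit 78) (nat_lit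 76) (nat_lit 0) (XT.lf (nat_lit 0) (nat_lit 37112353143) (nat_lit 152) (nat_lit 5158156231) (nat_lit 0) (nat_lit 7862992320) (nat_lit 7) (nat_lit 5) (nat_lit 9) (nat_lit 4) (nat_lit 7) (nat_lit 4) (nat_lit 224) (nat_lit 207) (nat_lit 169)) (XT.lf (nat_lit 0) (nat_lit 13741086668) (nat_lit 76) (nat_lit 35725874245) (nat_lit 76) (nat_lit 6457583824) (nat_lit 6) (nat_lit 4) (nat_lit 7) (nat_lit 5) (nat_lit 7) (nat_lit 4) (nat_lit 225) (nat_lit 207) (nat_lit 168))))) (XT.nd (nat_lit 312) (nat_lit 76) (nat_lit 0) (XT.nd (nat_lit 156) (nat_lit 76) (nat_lit 0) (XT.nd (nat_lit 78) (nat_lit 0) (nat_lit 0) (XT.lf (nat_lit 0) (nat_lit 1261516570) (nat_lit 152) (nat_lit 26572490314) (nat_lit 76) (nat_lit 34703302321) (nat_lit 5) (nat_lit 5) (nat_lit 7) (nat_lit 5) (nat_lit 6) (nat_lit 4) (nat_lit 226) (nat_lit 207) (nat_lit 167)) (XT.lf (nat_lit 0) (nat_lit 9464840388) (nat_lit 152) (nat_lit 8949657601)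 (nat_lit 76) (nat_lit 51683285564) (nat_lit 5) (nat_lit 5) (nat_lit 7) (nat_lit 5) (nat_lit 6) (nat_lit 4) (nat_lit 227) (nat_lit 207) (nat_lit 166))) (XT.nd (nat_lit 78) (nat_lit 0) (nat_lit 0) (XT.lf (nat_lit 0) (nat_lit 12401276814) (nat_lit 76) (nat_lit 7000019821) (nat_lit 152) (nat_lit 59315676121) (nat_lit 4) (nat_lit 5) (nat_lit 5) (nat_lit 5) (nat_lit 6) (nat_lit 4) (nat_lit 228) (nat_lit 207) (nat_lit 165)) (XT.lf (nat_lit 0) (nat_lit 31561446479) (nat_lit 152) (nat_lit 50893879083) (nat_lit 0) (nat_lit 6063764729) (nat_lit 4) (nat_lit 5) (nat_lit 6) (nat_lit 4) (nat_lit 4) (nat_lit 4) (nat_lit 229) (nat_lit 207) (nat_lit 164)))) (XT.nd (nat_lit 156) (nat_lit 76) (nat_lit 0) (XT.nd (nat_lit 78) (nat_lit 0) (nat_lit 0) (XT.lf (nat_lit 0) (nat_lit 45869765401) (nat_lit 152) (nat_lit 33509267527) (nat_lit 0) (nat_lit 20363899864) (nat_lit 4) (nat_lit 5) (nat_lit 6) (nat_lit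 4) (nat_lit 4) (nat_lit 4) (nat_lit 230) (nat_lit 207) (nat_lit 163)) (XT.lf (nat_lit 0) (nat_lit 62316342878) (nat_lit 152) (nat_lit 13531871677) (nat_lit 0) (nat_lit 36803361004) (nat_lit 4) (nat_lit 5) (nat_lit 6) (nat_lit 4) (nat_lit 4) (nat_lit 4) (nat_lit 231) (nat_lit 207) (nat_lit 162))) (XT.nd (nat_lit 78) (nat_lit 0) (nat_lit 0) (XT.lf (nat_lit 0) (nat_lit 10350657683) (nat_lit 76) (nat_lit 71300900754) (nat_lit 76) (nat_lit 45781730761) (nat_lit 3) (nat_lit 4) (nat_lit 4) (nat_lit 5) (nat_lit 4) (nat_lit 4) (nat_lit 232) (nat_lit 207) (nat_lit 161)) (XT.lf (nat_lit 0) (nat_lit 39323990535) (nat_lit 76) (nat_lit 65263860216) (nat_lit 76) (nat_lit 39739309250) (nat_lit 3) (nat_lit 4) (nat_lit 4) (nat_lit 5) (nat_lit 4) (nat_lit 4) (nat_lit 233) (nat_lit 207) (nat_lit 160)))))) (XT.nd (nat_lit 624) (nat_lit 0) (nat_lit 0) (XT.nd (nat_lit 312) (nat_lit 152) (nat_lit 0) (XT.nd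 (nat_lit 156) (nat_lit 0) (nat_lit 0) (XT.nd (nat_lit 78) (nat_lit 0) (nat_lit 0) (XT.lf (nat_lit 0) (nat_lit 72632563520) (nat_lit 76) (nat_lit 58326324768) (nat_lit 76) (nat_lit 32797094695) (nat_lit 3) (nat_lit 4) (nat_lit 4) (nat_lit 5) (nat_lit 4) (nat_lit 4) (nat_lit 234) (nat_lit 207) (nat_lit 159)) (XT.lf (nat_lit 0) (nat_lit 110928066111) (nat_lit 76) (nat_lit 50352560022) (nat_lit 76) (nat_lit 24819261160) (nat_lit 3) (nat_lit 4) (nat_lit 4) (nat_lit 5) (nat_lit 4) (nat_lit 4) (nat_lit 235) (nat_lit 207) (nat_lit 158))) (XT.nd (nat_lit 78) (nat_lit 0) (nat_lit 0) (XT.lf (nat_lit 0) (nat_lit 154959758139) (nat_lit 76) (nat_lit 41186557537) (nat_lit 76) (nat_lit 15649720598) (nat_lit 3) (nat_lit 4) (nat_lit 4) (nat_lit 5) (nat_lit 4) (nat_lit 4) (nat_lit 236) (nat_lit 207) (nat_lit 157)) (XT.lf (nat_lit 0) (nat_lit 205589129232) (nat_lit 76) (nat_lit 30648982481) (nat_lit 76)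 (nat_lit 5109068953) (nat_lit 3) (nat_lit 4) (nat_lit 4) (nat_lit 5) (nat_lit 4) (nat_lit 4) (nat_lit 237) (nat_lit 207) (nat_lit 156)))) (XT.nd (nat_lit 156) (nat_lit 0) (nat_lit 0) (XT.nd (nat_lit 78) (nat_lit 76) (nat_lit 0) (XT.lf (nat_lit 0) (nat_lit 6384941040) (nat_lit 152) (nat_lit 11814965586) (nat_lit 76) (nat_lit 257088054720) (nat_lit 2) (nat_lit 5) (nat_lit 4) (nat_lit 5) (nat_lit 3) (nat_lit 4) (nat_lit 238) (nat_lit 207) (nat_lit 155)) (XT.lf (nat_lit 0) (nat_lit 16982550659) (nat_lit 76) (nat_lit 2797666003) (nat_lit 152) (nat_lit 294398121044) (nat_lit 1) (nat_lit 5) (nat_lit 2) (nat_lit 5) (nat_lit 3) (nat_lit 4) (nat_lit 239) (nat_lit 207) (nat_lit 154))) (XT.nd (nat_lit 78) (nat_lit 0) (nat_lit 0) (XT.lf (nat_lit 0) (nat_lit 36446470643) (nat_lit 152) (nat_lit 308034811243) (nat_lit 0) (nat_lit 14231741884) (nat_lit 1) (nat_lit 5) (nat_lit 3) (nat_lit 4) (nat_lit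 1) (nat_lit 4) (nat_lit 240) (nat_lit 207) (nat_lit 153)) (XT.lf (nat_lit 0) (nat_lit 55743347822) (nat_lit 152) (nat_lit 320637878183) (nat_lit 0) (nat_lit 33527089455) (nat_lit 1) (nat_lit 5) (nat_lit 3) (nat_lit 4) (nat_lit 1) (nat_lit 4) (nat_lit 241) (nat_lit 207) (nat_lit 152))))) (XT.nd (nat_lit 312) (nat_lit 0) (nat_lit 0) (XT.nd (nat_lit 156) (nat_lit 0) (nat_lit 0) (XT.nd (nat_lit 78) (nat_lit 0) (nat_lit 0) (XT.lf (nat_lit 0) (nat_lit 77932550415) (nat_lit 152) (nat_lit 335135724227) (nat_lit 0) (nat_lit 55714961953) (nat_lit 1) (nat_lit 5) (nat_lit 3) (nat_lit 4) (nat_lit 1) (nat_lit 4) (nat_lit 242) (nat_lit 207) (nat_lit 151)) (XT.lf (nat_lit 0) (nat_lit 103448214993) (nat_lit 152) (nat_lit 351812002885) (nat_lit 0) (nat_lit 81229469927) (nat_lit 1) (nat_lit 5) (nat_lit 3) (nat_lit 4) (nat_lit 1) (nat_lit 4) (nat_lit 243) (nat_lit 207) (nat_lit 150))) (XT.nd (nat_lit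 78) (nat_lit 0) (nat_lit 0) (XT.lf (nat_lit 0) (nat_lit 132789561080) (nat_lit 152) (nat_lit 370992989174) (nat_lit 0) (nat_lit 110569810272) (nat_lit 1) (nat_lit 5) (nat_lit 3) (nat_lit 4) (nat_lit 1) (nat_lit 4) (nat_lit 244) (nat_lit 207) (nat_lit 149)) (XT.lf (nat_lit 0) (nat_lit 166530658491) (nat_lit 152) (nat_lit 393053963261) (nat_lit 0) (nat_lit 144310033125) (nat_lit 1) (nat_lit 5) (nat_lit 3) (nat_lit 4) (nat_lit 1) (nat_lit 4) (nat_lit 245) (nat_lit 207) (nat_lit 148)))) (XT.nd (nat_lit 156) (nat_lit 0) (nat_lit 0) (XT.nd (nat_lit 78) (nat_lit 0) (nat_lit 0) (XT.lf (nat_lit 0) (nat_lit 205331659133) (nat_lit 152) (nat_lit 418426552900) (nat_lit 0) (nat_lit 183110273281) (nat_lit 1) (nat_lit 5) (nat_lit 3) (nat_lit 4) (nat_lit 1) (nat_lit 4) (nat_lit 246) (nat_lit 207) (nat_lit 147)) (XT.lf (nat_lit 0) (nat_lit 249951713018) (nat_lit 152) (nat_lit 447607178323) (nat_lit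 0) (nat_lit 227729665874) (nat_lit 1) (nat_lit 5) (nat_lit 3) (nat_lit 4) (nat_lit 1) (nat_lit 4) (nat_lit 247) (nat_lit 207) (nat_lit 146))) (XT.nd (nat_lit 78) (nat_lit 0) (nat_lit 0) (XT.lf (nat_lit 0) (nat_lit 301263821200) (nat_lit 152) (nat_lit 481166764810) (nat_lit 0) (nat_lit 279041199019) (nat_lit 1) (nat_lit 5) (nat_lit 3) (nat_lit 4) (nat_lit 1) (nat_lit 4) (nat_lit 248) (nat_lit 207) (nat_lit 145)) (XT.nd (nat_lit 78) (nat_lit 0) (nat_lit 0) (XT.lf (nat_lit 0) (nat_lit 360271916230) (nat_lit 152) (nat_lit 519761912966) (nat_lit 0) (nat_lit 338048794018) (nat_lit 1) (nat_lit 5) (nat_lit 3) (nat_lit 4) (nat_lit 1) (nat_lit 4) (nat_lit 249) (nat_lit 207) (nat_lit 144)) (XT.lf (nat_lit 0) (nat_lit 428130504316) (nat_lit 152) (nat_lit 564147745255) (nat_lit 0) (nat_lit 405906947293) (nat_lit 1) (nat_lit 5) (nat_lit 3) (nat_lit 4) (nat_lit 1) (nat_lit 4) (nat_lit 250) (nat_lit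 207) (nat_lit 143))))))))
noncomputable def xc53 : XT := (XT.nd (nat_lit 28236) (nat_lit 0) (nat_lit 0) (XT.nd (nat_lit 1248) (nat_lit 0) (nat_lit 0) (XT.nd (nat_lit 624) (nat_lit 0) (nat_lit 0) (XT.nd (nat_lit 312) (nat_lit 0) (nat_lit 0) (XT.nd (nat_lit 156) (nat_lit 0) (nat_lit 0) (XT.nd (nat_lit 78) (nat_lit 0) (nat_lit 0) (XT.lf (nat_lit 0) (nat_lit 506167253485) (nat_lit 152) (nat_lit 615192680134) (nat_lit 0) (nat_lit 483943318367) (nat_lit 1) (nat_lit 5) (nat_lit 3) (nat_lit 4) (nat_lit 1) (nat_lit 4) (nat_lit 251) (nat_lit 207) (nat_lit 142)) (XT.lf (nat_lit 0) (nat_lit 595908969699) (nat_lit 152) (nat_lit 673895422852) (nat_lit 0) (nat_lit 573684705802) (nat_lit 1) (nat_lit 5) (nat_lit 3) (nat_lit 4) (nat_lit 1) (nat_lit 4) (nat_lit 252) (nat_lit 207) (nat_lit 141))) (XT.nd (nat_lit 78) (nat_lit 0) (nat_lit 0) (XT.lf (nat_lit 0) (nat_lit 699111469145) (nat_lit 152) (nat_lit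 741404505331) (nat_lit 0) (nat_lit 676886919354) (nat_lit 1) (nat_lit 5) (nat_lit 3) (nat_lit 4) (nat_lit 1) (nat_lit 4) (nat_lit 253) (nat_lit 207) (nat_lit 140)) (XT.lf (nat_lit 0) (nat_lit 817793931161) (nat_lit 152) (nat_lit 819040757446) (nat_lit 0) (nat_lit 795569132765) (nat_lit 1) (nat_lit 5) (nat_lit 3) (nat_lit 4) (nat_lit 1) (nat_lit 4) (nat_lit 254) (nat_lit 207) (nat_lit 139)))) (XT.nd (nat_lit 156) (nat_lit 0) (nat_lit 0) (XT.nd (nat_lit 78) (nat_lit 0) (nat_lit 0) (XT.lf (nat_lit 0) (nat_lit 954278403916) (nat_lit 152) (nat_lit 908323149346) (nat_lit 0) (nat_lit 932053389342) (nat_lit 1) (nat_lit 5) (nat_lit 3) (nat_lit 4) (nat_lit 1) (nat_lit 4) (nat_lit 255) (nat_lit 207) (nat_lit 138)) (XT.lf (nat_lit 0) (nat_lit 1111235235789) (nat_lit 152) (nat_lit 1010998510440) (nat_lit 0) (nat_lit 1089010033236) (nat_lit 1) (nat_lit 5) (nat_lit 3) (nat_lit 4) (nat_lit 1) (nat_lit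 4) (nat_lit 256) (nat_lit 207) (nat_lit 137))) (XT.nd (nat_lit 78) (nat_lit 0) (nat_lit 0) (XT.lf (nat_lit 0) (nat_lit 1291735321319) (nat_lit 152) (nat_lit 1129075706486) (nat_lit 0) (nat_lit 1269509955304) (nat_lit 1) (nat_lit 5) (nat_lit 3) (nat_lit 4) (nat_lit 1) (nat_lit 4) (nat_lit 257) (nat_lit 207) (nat_lit 136)) (XT.lf (nat_lit 0) (nat_lit 1499310183916) (nat_lit 152) (nat_lit 1264864943495) (nat_lit 0) (nat_lit 1477084675761) (nat_lit 1) (nat_lit 5) (nat_lit 3) (nat_lit 4) (nat_lit 1) (nat_lit 4) (nat_lit 258) (nat_lit 207) (nat_lit 135))))) (XT.nd (nat_lit 312) (nat_lit 0) (nat_lit 0) (XT.nd (nat_lit 156) (nat_lit 0) (nat_lit 0) (XT.nd (nat_lit 78) (nat_lit 0) (nat_lit 0) (XT.lf (nat_lit 0) (nat_lit 1738021070893) (nat_lit 152) (nat_lit 1421022967408) (nat_lit 0) (nat_lit 1715795439138) (nat_lit 1) (nat_lit 5) (nat_lit 3) (nat_lit 4) (nat_lit 1) (nat_lit 4) (nat_lit 259)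 (nat_lit 207) (nat_lit 134)) (XT.lf (nat_lit 0) (nat_lit 2012538412648) (nat_lit 152) (nat_lit 1600605043910) (nat_lit 0) (nat_lit 1990312673414) (nat_lit 1) (nat_lit 5) (nat_lit 3) (nat_lit 4) (nat_lit 1) (nat_lit 4) (nat_lit 260) (nat_lit 207) (nat_lit 133))) (XT.nd (nat_lit 78) (nat_lit 0) (nat_lit 0) (XT.lf (nat_lit 0) (nat_lit 2328233200648) (nat_lit 152) (nat_lit 1807124735369) (nat_lit 0) (nat_lit 2306007367955) (nat_lit 1) (nat_lit 5) (nat_lit 3) (nat_lit 4) (nat_lit 1) (nat_lit 4) (nat_lit 261) (nat_lit 207) (nat_lit 132)) (XT.lf (nat_lit 0) (nat_lit 2691282072052) (nat_lit 152) (nat_lit 2044622644442) (nat_lit 0) (nat_lit 2669056158090) (nat_lit 1) (nat_lit 5) (nat_lit 3) (nat_lit 4) (nat_lit 1) (nat_lit 4) (nat_lit 262) (nat_lit 207) (nat_lit 131)))) (XT.nd (nat_lit 156) (nat_lit 0) (nat_lit 0) (XT.nd (nat_lit 78) (nat_lit 0) (nat_lit 0) (XT.lf (nat_lit 0) (nat_lit 3108788156951)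 (nat_lit 152) (nat_lit 2317745469350) (nat_lit 0) (nat_lit 3086562172320) (nat_lit 1) (nat_lit 5) (nat_lit 3) (nat_lit 4) (nat_lit 1) (nat_lit 4) (nat_lit 263) (nat_lit 207) (nat_lit 130)) (XT.lf (nat_lit 0) (nat_lit 3588920052659) (nat_lit 152) (nat_lit 2631836917539) (nat_lit 0) (nat_lit 3566694006577) (nat_lit 1) (nat_lit 5) (nat_lit 3) (nat_lit 4) (nat_lit 1) (nat_lit 4) (nat_lit 264) (nat_lit 207) (nat_lit 129))) (XT.nd (nat_lit 78) (nat_lit 0) (nat_lit 0) (XT.lf (nat_lit 0) (nat_lit 4141071644092) (nat_lit 152) (nat_lit 2993042256471) (nat_lit 0) (nat_lit 4118845544574) (nat_lit 1) (nat_lit 5) (nat_lit 3) (nat_lit 4) (nat_lit 1) (nat_lit 4) (nat_lit 265) (nat_lit 207) (nat_lit 128)) (XT.lf (nat_lit 0) (nat_lit 4776045897169) (nat_lit 152) (nat_lit 3408428547127) (nat_lit 0) (nat_lit 4753819751185) (nat_lit 1) (nat_lit 5) (nat_lit 3) (nat_lit 4) (nat_lit 1) (nat_lit 4) (nat_lit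 266) (nat_lit 207) (nat_lit 127)))))) (XT.nd (nat_lit 1170) (nat_lit 0) (nat_lit 0) (XT.nd (nat_lit 312) (nat_lit 0) (nat_lit 0) (XT.nd (nat_lit 156) (nat_lit 0) (nat_lit 0) (XT.nd (nat_lit 78) (nat_lit 0) (nat_lit 0) (XT.lf (nat_lit 0) (nat_lit 5506266221190) (nat_lit 152) (nat_lit 3886122912584) (nat_lit 0) (nat_lit 5484040034801) (nat_lit 1) (nat_lit 5) (nat_lit 3) (nat_lit 4) (nat_lit 1) (nat_lit 4) (nat_lit 267) (nat_lit 207) (nat_lit 126)) (XT.lf (nat_lit 0) (nat_lit 6346019535537) (nat_lit 152) (nat_lit 4435471546949) (nat_lit 0) (nat_lit 6323793314013) (nat_lit 1) (nat_lit 5) (nat_lit 3) (nat_lit 4) (nat_lit 1) (nat_lit 4) (nat_lit 268) (nat_lit 207) (nat_lit 125))) (XT.nd (nat_lit 78) (nat_lit 0) (nat_lit 0) (XT.lf (nat_lit 0) (nat_lit 7311735796361) (nat_lit 152) (nat_lit 5067222575677) (nat_lit 0) (nat_lit 7289509544285) (nat_lit 1) (nat_lit 5) (nat_lit 3) (nat_lit 4) (nat_lit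 1) (nat_lit 4) (nat_lit 269) (nat_lit 207) (nat_lit 124)) (XT.lf (nat_lit 0) (nat_lit 8422309452243) (nat_lit 152) (nat_lit 5793736344983) (nat_lit 0) (nat_lit 8400083173600) (nat_lit 1) (nat_lit 5) (nat_lit 3) (nat_lit 4) (nat_lit 1) (nat_lit 4) (nat_lit 270) (nat_lit 207) (nat_lit 123)))) (XT.nd (nat_lit 702) (nat_lit 0) (nat_lit 0) (XT.nd (nat_lit 78) (nat_lit 0) (nat_lit 0) (XT.lf (nat_lit 0) (nat_lit 9699469118189) (nat_lit 152) (nat_lit 6629227254700) (nat_lit 0) (nat_lit 9677242816444) (nat_lit 1) (nat_lit 5) (nat_lit 3) (nat_lit 4) (nat_lit 1) (nat_lit 4) (nat_lit 271) (nat_lit 207) (nat_lit 122)) (XT.lf (nat_lit 0) (nat_lit 11168202700708) (nat_lit 152) (nat_lit 7590041866105) (nat_lit 0) (nat_lit 11145976378875) (nat_lit 1) (nat_lit 5) (nat_lit 3) (nat_lit 4) (nat_lit 1) (nat_lit 4) (nat_lit 272) (nat_lit 207) (nat_lit 121))) (XT.nd (nat_lit 78) (nat_lit 0) (nat_lit 0) (XT.lf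 (nat_lit 0) (nat_lit 34353397727992) (nat_lit 152) (nat_lit 22757311746604) (nat_lit 0) (nat_lit 34331171316015) (nat_lit 1) (nat_lit 5) (nat_lit 3) (nat_lit 4) (nat_lit 1) (nat_lit 4) (nat_lit 280) (nat_lit 207) (nat_lit 113)) (XT.lf (nat_lit 0) (nat_lit 39520220442993) (nat_lit 152) (nat_lit 26137339343051) (nat_lit 0) (nat_lit 39497994025306) (nat_lit 1) (nat_lit 5) (nat_lit 3) (nat_lit 4) (nat_lit 1) (nat_lit 4) (nat_lit 281) (nat_lit 207) (nat_lit 112))))) (XT.nd (nat_lit 25506) (nat_lit 0) (nat_lit 1444) (XT.nd (nat_lit 156) (nat_lit 0) (nat_lit 0) (XT.nd (nat_lit 78) (nat_lit 0) (nat_lit 0) (XT.lf (nat_lit 0) (nat_lit 45462066557007) (nat_lit 152) (nat_lit 30024371095089) (nat_lit 0) (nat_lit 45439840134355) (nat_lit 1) (nat_lit 5) (nat_lit 3) (nat_lit 4) (nat_lit 1) (nat_lit 4) (nat_lit 282) (nat_lit 207) (nat_lit 111)) (XT.lf (nat_lit 0) (nat_lit 52295189580962) (nat_lit 152)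 (nat_lit 34494457623954) (nat_lit 0) (nat_lit 52272963153992) (nat_lit 1) (nat_lit 5) (nat_lit 3) (nat_lit 4) (nat_lit 1) (nat_lit 4) (nat_lit 283) (nat_lit 207) (nat_lit 110))) (XT.nd (nat_lit 78) (nat_lit 0) (nat_lit 0) (XT.lf (nat_lit 0) (nat_lit 60153281052283) (nat_lit 152) (nat_lit 39635057144340) (nat_lit 0) (nat_lit 60131054621558) (nat_lit 1) (nat_lit 5) (nat_lit 3) (nat_lit 4) (nat_lit 1) (nat_lit 4) (nat_lit 284) (nat_lit 207) (nat_lit 109)) (XT.lf (nat_lit 0) (nat_lit 69190086238886) (nat_lit 152) (nat_lit 45546746603386) (nat_lit 0) (nat_lit 69167859804896) (nat_lit 1) (nat_lit 5) (nat_lit 3) (nat_lit 4) (nat_lit 1) (nat_lit 4) (nat_lit 285) (nat_lit 207) (nat_lit 108)))) (XT.nd (nat_lit 156) (nat_lit 0) (nat_lit 0) (XT.nd (nat_lit 78) (nat_lit 0) (nat_lit 0) (XT.lf (nat_lit 0) (nat_lit 2706717017) (nat_lit 0) (nat_lit 2706717017) (nat_lit 228) (nat_lit 985754490) (nat_lit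 20) (nat_lit 5) (nat_lit 20) (nat_lit 3) (nat_lit 23) (nat_lit 3) (nat_lit 208) (nat_lit 208) (nat_lit 184)) (XT.lf (nat_lit 0) (nat_lit 11858044130) (nat_lit 0) (nat_lit 129555866) (nat_lit 228) (nat_lit 1714782948) (nat_lit 20) (nat_lit 5) (nat_lit 20) (nat_lit 3) (nat_lit 23) (nat_lit 3) (nat_lit 209) (nat_lit 208) (nat_lit 183))) (XT.nd (nat_lit 78) (nat_lit 0) (nat_lit 0) (XT.lf (nat_lit 76) (nat_lit 4653077553) (nat_lit 0) (nat_lit 9047481942) (nat_lit 304) (nat_lit 985347298) (nat_lit 21) (nat_lit 5) (nat_lit 20) (nat_lit 5) (nat_lit 24) (nat_lit 5) (nat_lit 210) (nat_lit 208) (nat_lit 182)) (XT.lf (nat_lit 76) (nat_lit 12285255453) (nat_lit 0) (nat_lit 3432960097) (nat_lit 304) (nat_lit 92132719) (nat_lit 21) (nat_lit 5) (nat_lit 20) (nat_lit 5) (nat_lit 24) (nat_lit 5) (nat_lit 211) (nat_lit 208) (nat_lit 181))))))) (XT.nd (nat_lit 1248) (nat_lit 304) (nat_lit 0) (XT.nd (nat_lit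 624) (nat_lit 456) (nat_lit 0) (XT.nd (nat_lit 312) (nat_lit 228) (nat_lit 0) (XT.nd (nat_lit 156) (nat_lit 228) (nat_lit 0) (XT.nd (nat_lit 78) (nat_lit 0) (nat_lit 0) (XT.lf (nat_lit 0) (nat_lit 1113891239) (nat_lit 304) (nat_lit 12956156440) (nat_lit 76) (nat_lit 2988706826) (nat_lit 17) (nat_lit 5) (nat_lit 21) (nat_lit 5) (nat_lit 18) (nat_lit 5) (nat_lit 212) (nat_lit 208) (nat_lit 180)) (XT.lf (nat_lit 0) (nat_lit 2802989898) (nat_lit 304) (nat_lit 5418789940) (nat_lit 76) (nat_lit 10225606100) (nat_lit 17) (nat_lit 5) (nat_lit 21) (nat_lit 5) (nat_lit 18) (nat_lit 5) (nat_lit 213) (nat_lit 208) (nat_lit 179))) (XT.nd (nat_lit 78) (nat_lit 0) (nat_lit 0) (XT.lf (nat_lit 0) (nat_lit 3522818508) (nat_lit 228) (nat_lit 1329453907) (nat_lit 304) (nat_lit 15176332389) (nat_lit 14) (nat_lit 5) (nat_lit 17) (nat_lit 5) (nat_lit 18) (nat_lit 5) (nat_lit 214) (nat_lit 208) (nat_lit 178))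 (XT.lf (nat_lit 0) (nat_lit 7743197760) (nat_lit 304) (nat_lit 7720163909) (nat_lit 76) (nat_lit 6303781678) (nat_lit 14) (nat_lit 5) (nat_lit 18) (nat_lit 5) (nat_lit 15) (nat_lit 5) (nat_lit 215) (nat_lit 208) (nat_lit 177)))) (XT.nd (nat_lit 156) (nat_lit 76) (nat_lit 0) (XT.nd (nat_lit 78) (nat_lit 0) (nat_lit 0) (XT.lf (nat_lit 0) (nat_lit 2505038635) (nat_lit 152) (nat_lit 8698759817) (nat_lit 228) (nat_lit 12542497359) (nat_lit 12) (nat_lit 5) (nat_lit 14) (nat_lit 5) (nat_lit 15) (nat_lit 5) (nat_lit 216) (nat_lit 208) (nat_lit 176)) (XT.lf (nat_lit 0) (nat_lit 15095416965) (nat_lit 152) (nat_lit 463169717) (nat_lit 228) (nat_lit 10407677344) (nat_lit 12) (nat_lit 5) (nat_lit 14) (nat_lit 5) (nat_lit 15) (nat_lit 5) (nat_lit 217) (nat_lit 208) (nat_lit 175))) (XT.nd (nat_lit 78) (nat_lit 0) (nat_lit 0) (XT.lf (nat_lit 0) (nat_lit 710232558) (nat_lit 76) (nat_lit 20233736566)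 (nat_lit 152) (nat_lit 7518832385) (nat_lit 11) (nat_lit 5) (nat_lit 12) (nat_lit 5) (nat_lit 13) (nat_lit 4) (nat_lit 218) (nat_lit 208) (nat_lit 174)) (XT.lf (nat_lit 0) (nat_lit 15192465018) (nat_lit 76) (nat_lit 12510846230) (nat_lit 152) (nat_lit 3545742416) (nat_lit 11) (nat_lit 5) (nat_lit 12) (nat_lit 5) (nat_lit 13) (nat_lit 4) (nat_lit 219) (nat_lit 208) (nat_lit 173))))) (XT.nd (nat_lit 312) (nat_lit 152) (nat_lit 0) (XT.nd (nat_lit 156) (nat_lit 76) (nat_lit 0) (XT.nd (nat_lit 78) (nat_lit 152) (nat_lit 0) (XT.lf (nat_lit 0) (nat_lit 910995800) (nat_lit 152) (nat_lit 2679935224) (nat_lit 76) (nat_lit 30859257239) (nat_lit 10) (nat_lit 5) (nat_lit 12) (nat_lit 5) (nat_lit 11) (nat_lit 5) (nat_lit 220) (nat_lit 208) (nat_lit 172)) (XT.lf (nat_lit 0) (nat_lit 6534099090) (nat_lit 228) (nat_lit 24605177092) (nat_lit 76) (nat_lit 6837862677) (nat_lit 8) (nat_lit 5) (nat_lit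 11) (nat_lit 5) (nat_lit 9) (nat_lit 4) (nat_lit 221) (nat_lit 208) (nat_lit 171))) (XT.nd (nat_lit 78) (nat_lit 76) (nat_lit 0) (XT.lf (nat_lit 0) (nat_lit 13300936595) (nat_lit 228) (nat_lit 10085266008) (nat_lit 76) (nat_lit 18601978841) (nat_lit 8) (nat_lit 5) (nat_lit 11) (nat_lit 5) (nat_lit 9) (nat_lit 4) (nat_lit 222) (nat_lit 208) (nat_lit 170)) (XT.lf (nat_lit 0) (nat_lit 7231842045) (nat_lit 76) (nat_lit 14135207316) (nat_lit 152) (nat_lit 25191271615) (nat_lit 7) (nat_lit 5) (nat_lit 8) (nat_lit 5) (nat_lit 9) (nat_lit 4) (nat_lit 223) (nat_lit 208) (nat_lit 169)))) (XT.nd (nat_lit 156) (nat_lit 152) (nat_lit 0) (XT.nd (nat_lit 78) (nat_lit 0) (nat_lit 0) (XT.lf (nat_lit 0) (nat_lit 28256463410) (nat_lit 76) (nat_lit 2899604742) (nat_lit 152) (nat_lit 20581032749) (nat_lit 7) (nat_lit 5) (nat_lit 8) (nat_lit 5) (nat_lit 9) (nat_lit 4) (nat_lit 224) (nat_lit 208) (nat_lit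 168)) (XT.lf (nat_lit 0) (nat_lit 42815723306) (nat_lit 152) (nat_lit 5694891758) (nat_lit 0) (nat_lit 9121799205) (nat_lit 7) (nat_lit 5) (nat_lit 9) (nat_lit 4) (nat_lit 7) (nat_lit 4) (nat_lit 225) (nat_lit 208) (nat_lit 167))) (XT.nd (nat_lit 78) (nat_lit 76) (nat_lit 0) (XT.lf (nat_lit 0) (nat_lit 16028465398) (nat_lit 76) (nat_lit 40986617363) (nat_lit 76) (nat_lit 7278379766) (nat_lit 6) (nat_lit 4) (nat_lit 7) (nat_lit 5) (nat_lit 7) (nat_lit 4) (nat_lit 226) (nat_lit 208) (nat_lit 166)) (XT.lf (nat_lit 0) (nat_lit 1567856879) (nat_lit 152) (nat_lit 30349791823) (nat_lit 76) (nat_lit 39982272370) (nat_lit 5) (nat_lit 5) (nat_lit 7) (nat_lit 5) (nat_lit 6) (nat_lit 4) (nat_lit 227) (nat_lit 208) (nat_lit 165)))))) (XT.nd (nat_lit 624) (nat_lit 152) (nat_lit 0) (XT.nd (nat_lit 312) (nat_lit 76) (nat_lit 0) (XT.nd (nat_lit 156) (nat_lit 0) (nat_lit 0) (XT.nd (nat_lit 78) (nat_lit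 76) (nat_lit 0) (XT.lf (nat_lit 0) (nat_lit 10986403683) (nat_lit 152) (nat_lit 10110739252) (nat_lit 76) (nat_lit 59499669442) (nat_lit 5) (nat_lit 5) (nat_lit 7) (nat_lit 5) (nat_lit 6) (nat_lit 4) (nat_lit 228) (nat_lit 208) (nat_lit 164)) (XT.lf (nat_lit 0) (nat_lit 14434591372) (nat_lit 76) (nat_lit 7972622535) (nat_lit 152) (nat_lit 68102630589) (nat_lit 4) (nat_lit 5) (nat_lit 5) (nat_lit 5) (nat_lit 6) (nat_lit 4) (nat_lit 229) (nat_lit 208) (nat_lit 163))) (XT.nd (nat_lit 78) (nat_lit 0) (nat_lit 0) (XT.lf (nat_lit 0) (nat_lit 36381687586) (nat_lit 152) (nat_lit 58367445964) (nat_lit 0) (nat_lit 7034642094) (nat_lit 4) (nat_lit 5) (nat_lit 6) (nat_lit 4) (nat_lit 4) (nat_lit 4) (nat_lit 230) (nat_lit 208) (nat_lit 162)) (XT.lf (nat_lit 0) (nat_lit 52825033807) (nat_lit 152) (nat_lit 38396079411) (nat_lit 0) (nat_lit 23471800195) (nat_lit 4) (nat_lit 5) (nat_lit 6) (nat_lit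 4) (nat_lit 4) (nat_lit 4) (nat_lit 231) (nat_lit 208) (nat_lit 161)))) (XT.nd (nat_lit 156) (nat_lit 0) (nat_lit 0) (XT.nd (nat_lit 78) (nat_lit 76) (nat_lit 0) (XT.lf (nat_lit 0) (nat_lit 71728840915) (nat_lit 152) (nat_lit 15440280041) (nat_lit 0) (nat_lit 42370226331) (nat_lit 4) (nat_lit 5) (nat_lit 6) (nat_lit 4) (nat_lit 4) (nat_lit 4) (nat_lit 232) (nat_lit 208) (nat_lit 160)) (XT.lf (nat_lit 0) (nat_lit 12019111796) (nat_lit 76) (nat_lit 81941539999) (nat_lit 76) (nat_lit 52578246308) (nat_lit 3) (nat_lit 4) (nat_lit 4) (nat_lit 5) (nat_lit 4) (nat_lit 4) (nat_lit 233) (nat_lit 208) (nat_lit 159))) (XT.nd (nat_lit 78) (nat_lit 0) (nat_lit 0) (XT.lf (nat_lit 0) (nat_lit 45323332994) (nat_lit 76) (nat_lit 75006051537) (nat_lit 76) (nat_lit 45638689057) (nat_lit 3) (nat_lit 4) (nat_lit 4) (nat_lit 5) (nat_lit 4) (nat_lit 4) (nat_lit 234) (nat_lit 208) (nat_lit 158)) (XT.lf (nat_lit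 0) (nat_lit 83615051421) (nat_lit 76) (nat_lit 67034066778) (nat_lit 76) (nat_lit 37663166221) (nat_lit 3) (nat_lit 4) (nat_lit 4) (nat_lit 5) (nat_lit 4) (nat_lit 4) (nat_lit 235) (nat_lit 208) (nat_lit 157))))) (XT.nd (nat_lit 312) (nat_lit 76) (nat_lit 0) (XT.nd (nat_lit 156) (nat_lit 76) (nat_lit 0) (XT.nd (nat_lit 78) (nat_lit 0) (nat_lit 0) (XT.lf (nat_lit 0) (nat_lit 127643452873) (nat_lit 76) (nat_lit 57869612108) (nat_lit 76) (nat_lit 28495634962) (nat_lit 3) (nat_lit 4) (nat_lit 4) (nat_lit 5) (nat_lit 4) (nat_lit 4) (nat_lit 236) (nat_lit 208) (nat_lit 156)) (XT.lf (nat_lit 0) (nat_lit 178269962596) (nat_lit 76) (nat_lit 47333382978) (nat_lit 76) (nat_lit 17956730537) (nat_lit 3) (nat_lit 4) (nat_lit 4) (nat_lit 5) (nat_lit 4) (nat_lit 4) (nat_lit 237) (nat_lit 208) (nat_lit 155))) (XT.nd (nat_lit 78) (nat_lit 76) (nat_lit 0) (XT.lf (nat_lit 0) (nat_lit 236485099257) (nat_lit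 76) (nat_lit 35219235775) (nat_lit 76) (nat_lit 5840256991) (nat_lit 3) (nat_lit 4) (nat_lit 4) (nat_lit 5) (nat_lit 4) (nat_lit 4) (nat_lit 238) (nat_lit 208) (nat_lit 154)) (XT.lf (nat_lit 0) (nat_lit 7370543954) (nat_lit 152) (nat_lit 13534332187) (nat_lit 76) (nat_lit 295672032272) (nat_lit 2) (nat_lit 5) (nat_lit 4) (nat_lit 5) (nat_lit 3) (nat_lit 4) (nat_lit 239) (nat_lit 208) (nat_lit 153)))) (XT.nd (nat_lit 156) (nat_lit 0) (nat_lit 0) (XT.nd (nat_lit 78) (nat_lit 0) (nat_lit 0) (XT.lf (nat_lit 0) (nat_lit 19580407938) (nat_lit 76) (nat_lit 3193158888) (nat_lit 152) (nat_lit 338527514868) (nat_lit 1) (nat_lit 5) (nat_lit 2) (nat_lit 5) (nat_lit 3) (nat_lit 4) (nat_lit 240) (nat_lit 208) (nat_lit 152)) (XT.lf (nat_lit 0) (nat_lit 41937195983) (nat_lit 152) (nat_lit 354193527663) (nat_lit 0) (nat_lit 16385639158) (nat_lit 1) (nat_lit 5) (nat_lit 3) (nat_lit 4) (nat_lit 1) (nat_lit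 4) (nat_lit 241) (nat_lit 208) (nat_lit 151))) (XT.nd (nat_lit 78) (nat_lit 0) (nat_lit 0) (XT.lf (nat_lit 0) (nat_lit 64125506295) (nat_lit 152) (nat_lit 368693120548) (nat_lit 0) (nat_lit 38572792866) (nat_lit 1) (nat_lit 5) (nat_lit 3) (nat_lit 4) (nat_lit 1) (nat_lit 4) (nat_lit 242) (nat_lit 208) (nat_lit 150)) (XT.lf (nat_lit 0) (nat_lit 89640394976) (nat_lit 152) (nat_lit 385370918198) (nat_lit 0) (nat_lit 64086675805) (nat_lit 1) (nat_lit 5) (nat_lit 3) (nat_lit 4) (nat_lit 1) (nat_lit 4) (nat_lit 243) (nat_lit 208) (nat_lit 149))))))))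
noncomputable def xc54 : XT := (XT.nd (nat_lit 1248) (nat_lit 0) (nat_lit 0) (XT.nd (nat_lit 624) (nat_lit 0) (nat_lit 0) (XT.nd (nat_lit 312) (nat_lit 0) (nat_lit 0) (XT.nd (nat_lit 156) (nat_lit 0) (nat_lit 0) (XT.nd (nat_lit 78) (nat_lit 0) (nat_lit 0) (XT.lf (nat_lit 0) (nat_lit 118981066371) (nat_lit 152) (nat_lit 404553225350) (nat_lit 0) (nat_lit 93426472642) (nat_lit 1) (nat_lit 5) (nat_lit 3) (nat_lit 4) (nat_lit 1) (nat_lit 4) (nat_lit 244) (nat_lit 208) (nat_lit 148)) (XT.lf (nat_lit 0) (nat_lit 152721577094) (nat_lit 152) (nat_lit 426615348013) (nat_lit 0) (nat_lit 127166222878) (nat_lit 1) (nat_lit 5) (nat_lit 3) (nat_lit 4) (nat_lit 1) (nat_lit 4) (nat_lit 245) (nat_lit 208) (nat_lit 147))) (XT.nd (nat_lit 78) (nat_lit 0) (nat_lit 0) (XT.lf (nat_lit 0) (nat_lit 191522067571) (nat_lit 152) (nat_lit 451988936414) (nat_lit 0) (nat_lit 165966052064) (nat_lit 1) (nat_lit 5)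 (nat_lit 3) (nat_lit 4) (nat_lit 1) (nat_lit 4) (nat_lit 246) (nat_lit 208) (nat_lit 146)) (XT.lf (nat_lit 0) (nat_lit 236141677835) (nat_lit 152) (nat_lit 481170430325) (nat_lit 0) (nat_lit 210585087291) (nat_lit 1) (nat_lit 5) (nat_lit 3) (nat_lit 4) (nat_lit 1) (nat_lit 4) (nat_lit 247) (nat_lit 208) (nat_lit 145)))) (XT.nd (nat_lit 156) (nat_lit 0) (nat_lit 0) (XT.nd (nat_lit 78) (nat_lit 0) (nat_lit 0) (XT.lf (nat_lit 0) (nat_lit 287453400259) (nat_lit 152) (nat_lit 514730772020) (nat_lit 0) (nat_lit 261896309683) (nat_lit 1) (nat_lit 5) (nat_lit 3) (nat_lit 4) (nat_lit 1) (nat_lit 4) (nat_lit 248) (nat_lit 208) (nat_lit 144)) (XT.lf (nat_lit 0) (nat_lit 346461159848) (nat_lit 152) (nat_lit 553326576877) (nat_lit 0) (nat_lit 320903634462) (nat_lit 1) (nat_lit 5) (nat_lit 3) (nat_lit 4) (nat_lit 1) (nat_lit 4) (nat_lit 249) (nat_lit 208) (nat_lit 143))) (XT.nd (nat_lit 78) (nat_lit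 0) (nat_lit 0) (XT.lf (nat_lit 0) (nat_lit 414319456245) (nat_lit 152) (nat_lit 597712980212) (nat_lit 0) (nat_lit 388761552764) (nat_lit 1) (nat_lit 5) (nat_lit 3) (nat_lit 4) (nat_lit 1) (nat_lit 4) (nat_lit 250) (nat_lit 208) (nat_lit 142)) (XT.lf (nat_lit 0) (nat_lit 492355951772) (nat_lit 152) (nat_lit 648758411652) (nat_lit 0) (nat_lit 466797719512) (nat_lit 1) (nat_lit 5) (nat_lit 3) (nat_lit 4) (nat_lit 1) (nat_lit 4) (nat_lit 251) (nat_lit 208) (nat_lit 141))))) (XT.nd (nat_lit 312) (nat_lit 0) (nat_lit 0) (XT.nd (nat_lit 156) (nat_lit 0) (nat_lit 0) (XT.nd (nat_lit 78) (nat_lit 0) (nat_lit 0) (XT.lf (nat_lit 0) (nat_lit 582097447429) (nat_lit 152) (nat_lit 707461586162) (nat_lit 0) (nat_lit 556538929274) (nat_lit 1) (nat_lit 5) (nat_lit 3) (nat_lit 4) (nat_lit 1) (nat_lit 4) (nat_lit 252) (nat_lit 208) (nat_lit 140)) (XT.lf (nat_lit 0) (nat_lit 685299755085) (nat_lit 152)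 (nat_lit 774971044113) (nat_lit 0) (nat_lit 659740988326) (nat_lit 1) (nat_lit 5) (nat_lit 3) (nat_lit 4) (nat_lit 1) (nat_lit 4) (nat_lit 253) (nat_lit 208) (nat_lit 139))) (XT.nd (nat_lit 78) (nat_lit 0) (nat_lit 0) (XT.lf (nat_lit 0) (nat_lit 803982050327) (nat_lit 152) (nat_lit 852607622725) (nat_lit 0) (nat_lit 778423067391) (nat_lit 1) (nat_lit 5) (nat_lit 3) (nat_lit 4) (nat_lit 1) (nat_lit 4) (nat_lit 254) (nat_lit 208) (nat_lit 138)) (XT.lf (nat_lit 0) (nat_lit 940466378061) (nat_lit 152) (nat_lit 941890298536) (nat_lit 0) (nat_lit 914907207144) (nat_lit 1) (nat_lit 5) (nat_lit 3) (nat_lit 4) (nat_lit 1) (nat_lit 4) (nat_lit 255) (nat_lit 208) (nat_lit 137)))) (XT.nd (nat_lit 156) (nat_lit 0) (nat_lit 0) (XT.nd (nat_lit 78) (nat_lit 0) (nat_lit 0) (XT.lf (nat_lit 0) (nat_lit 1097423083830) (nat_lit 152) (nat_lit 1044565906508) (nat_lit 0) (nat_lit 1071863749452) (nat_lit 1)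 (nat_lit 5) (nat_lit 3) (nat_lit 4) (nat_lit 1) (nat_lit 4) (nat_lit 256) (nat_lit 208) (nat_lit 136)) (XT.lf (nat_lit 0) (nat_lit 1277923059703) (nat_lit 152) (nat_lit 1162643317231) (nat_lit 0) (nat_lit 1252363583184) (nat_lit 1) (nat_lit 5) (nat_lit 3) (nat_lit 4) (nat_lit 1) (nat_lit 4) (nat_lit 257) (nat_lit 208) (nat_lit 135))) (XT.nd (nat_lit 78) (nat_lit 0) (nat_lit 0) (XT.lf (nat_lit 0) (nat_lit 1485497826947) (nat_lit 152) (nat_lit 1298432740916) (nat_lit 0) (nat_lit 1459938226828) (nat_lit 1) (nat_lit 5) (nat_lit 3) (nat_lit 4) (nat_lit 1) (nat_lit 4) (nat_lit 258) (nat_lit 208) (nat_lit 134)) (XT.lf (nat_lit 0) (nat_lit 1724208631008) (nat_lit 152) (nat_lit 1454590927155) (nat_lit 0) (nat_lit 1698648923411) (nat_lit 1) (nat_lit 5) (nat_lit 3) (nat_lit 4) (nat_lit 1) (nat_lit 4) (nat_lit 259) (nat_lit 208) (nat_lit 133)))))) (XT.nd (nat_lit 624) (nat_lit 0) (nat_lit 0) (XT.nd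 (nat_lit 312) (nat_lit 0) (nat_lit 0) (XT.nd (nat_lit 156) (nat_lit 0) (nat_lit 0) (XT.nd (nat_lit 78) (nat_lit 0) (nat_lit 0) (XT.lf (nat_lit 0) (nat_lit 1998725900662) (nat_lit 152) (nat_lit 1634173144812) (nat_lit 0) (nat_lit 1973166099605) (nat_lit 1) (nat_lit 5) (nat_lit 3) (nat_lit 4) (nat_lit 1) (nat_lit 4) (nat_lit 260) (nat_lit 208) (nat_lit 132)) (XT.lf (nat_lit 0) (nat_lit 2314420625966) (nat_lit 152) (nat_lit 1840692959012) (nat_lit 0) (nat_lit 2288860743640) (nat_lit 1) (nat_lit 5) (nat_lit 3) (nat_lit 4) (nat_lit 1) (nat_lit 4) (nat_lit 261) (nat_lit 208) (nat_lit 131))) (XT.nd (nat_lit 78) (nat_lit 0) (nat_lit 0) (XT.lf (nat_lit 0) (nat_lit 2677469442851) (nat_lit 152) (nat_lit 2078190974818) (nat_lit 0) (nat_lit 2651909489857) (nat_lit 1) (nat_lit 5) (nat_lit 3) (nat_lit 4) (nat_lit 1) (nat_lit 4) (nat_lit 262) (nat_lit 208) (nat_lit 130)) (XT.lf (nat_lit 0) (nat_lit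 3094975480343) (nat_lit 152) (nat_lit 2351313892537) (nat_lit 0) (nat_lit 3069415465897) (nat_lit 1) (nat_lit 5) (nat_lit 3) (nat_lit 4) (nat_lit 1) (nat_lit 4) (nat_lit 263) (nat_lit 208) (nat_lit 129)))) (XT.nd (nat_lit 156) (nat_lit 0) (nat_lit 0) (XT.nd (nat_lit 78) (nat_lit 0) (nat_lit 0) (XT.lf (nat_lit 0) (nat_lit 3575107334827) (nat_lit 152) (nat_lit 2665405421431) (nat_lit 0) (nat_lit 3549547266946) (nat_lit 1) (nat_lit 5) (nat_lit 3) (nat_lit 4) (nat_lit 1) (nat_lit 4) (nat_lit 264) (nat_lit 208) (nat_lit 128)) (XT.lf (nat_lit 0) (nat_lit 4127258890413) (nat_lit 152) (nat_lit 3026610830541) (nat_lit 0) (nat_lit 4101698776066) (nat_lit 1) (nat_lit 5) (nat_lit 3) (nat_lit 4) (nat_lit 1) (nat_lit 4) (nat_lit 265) (nat_lit 208) (nat_lit 127))) (XT.nd (nat_lit 78) (nat_lit 0) (nat_lit 0) (XT.lf (nat_lit 0) (nat_lit 4762233112319) (nat_lit 152) (nat_lit 3441997182222) (nat_lit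 0) (nat_lit 4736672957567) (nat_lit 1) (nat_lit 5) (nat_lit 3) (nat_lit 4) (nat_lit 1) (nat_lit 4) (nat_lit 266) (nat_lit 208) (nat_lit 126)) (XT.lf (nat_lit 0) (nat_lit 5492453409234) (nat_lit 152) (nat_lit 3919691600744) (nat_lit 0) (nat_lit 5466893219347) (nat_lit 1) (nat_lit 5) (nat_lit 3) (nat_lit 4) (nat_lit 1) (nat_lit 4) (nat_lit 267) (nat_lit 208) (nat_lit 125))))) (XT.nd (nat_lit 312) (nat_lit 0) (nat_lit 0) (XT.nd (nat_lit 156) (nat_lit 0) (nat_lit 0) (XT.nd (nat_lit 78) (nat_lit 0) (nat_lit 0) (XT.lf (nat_lit 0) (nat_lit 6332206700012) (nat_lit 152) (nat_lit 4469040281252) (nat_lit 0) (nat_lit 6306646479572) (nat_lit 1) (nat_lit 5) (nat_lit 3) (nat_lit 4) (nat_lit 1) (nat_lit 4) (nat_lit 268) (nat_lit 208) (nat_lit 124)) (XT.lf (nat_lit 0) (nat_lit 7297922940340) (nat_lit 152) (nat_lit 5100791350105) (nat_lit 0) (nat_lit 7272362693333) (nat_lit 1) (nat_lit 5) (nat_lit 3)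 (nat_lit 4) (nat_lit 1) (nat_lit 4) (nat_lit 269) (nat_lit 208) (nat_lit 123))) (XT.nd (nat_lit 78) (nat_lit 0) (nat_lit 0) (XT.lf (nat_lit 0) (nat_lit 8408496578400) (nat_lit 152) (nat_lit 5827305154301) (nat_lit 0) (nat_lit 8382936308291) (nat_lit 1) (nat_lit 5) (nat_lit 3) (nat_lit 4) (nat_lit 1) (nat_lit 4) (nat_lit 270) (nat_lit 208) (nat_lit 122)) (XT.lf (nat_lit 0) (nat_lit 9685656228848) (nat_lit 152) (nat_lit 6662796094358) (nat_lit 0) (nat_lit 9660095938652) (nat_lit 1) (nat_lit 5) (nat_lit 3) (nat_lit 4) (nat_lit 1) (nat_lit 4) (nat_lit 271) (nat_lit 208) (nat_lit 121)))) (XT.nd (nat_lit 702) (nat_lit 0) (nat_lit 0) (XT.nd (nat_lit 624) (nat_lit 0) (nat_lit 0) (XT.lf (nat_lit 0) (nat_lit 11154389797891) (nat_lit 152) (nat_lit 7623610732147) (nat_lit 0) (nat_lit 11128829490226) (nat_lit 1) (nat_lit 5) (nat_lit 3) (nat_lit 4) (nat_lit 1) (nat_lit 4) (nat_lit 272) (nat_lit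 208) (nat_lit 120)) (XT.lf (nat_lit 0) (nat_lit 34339584764703) (nat_lit 152) (nat_lit 22790880731033) (nat_lit 0) (nat_lit 34314024378653) (nat_lit 1) (nat_lit 5) (nat_lit 3) (nat_lit 4) (nat_lit 1) (nat_lit 4) (nat_lit 280) (nat_lit 208) (nat_lit 112))) (XT.nd (nat_lit 78) (nat_lit 0) (nat_lit 0) (XT.lf (nat_lit 0) (nat_lit 39506407475873) (nat_lit 152) (nat_lit 26170908334980) (nat_lit 0) (nat_lit 39480847084857) (nat_lit 1) (nat_lit 5) (nat_lit 3) (nat_lit 4) (nat_lit 1) (nat_lit 4) (nat_lit 281) (nat_lit 208) (nat_lit 111)) (XT.lf (nat_lit 0) (nat_lit 45448253586557) (nat_lit 152) (nat_lit 30057940093539) (nat_lit 0) (nat_lit 45422693191223) (nat_lit 1) (nat_lit 5) (nat_lit 3) (nat_lit 4) (nat_lit 1) (nat_lit 4) (nat_lit 282) (nat_lit 208) (nat_lit 110)))))))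
noncomputable def xc55 : XT := (XT.nd (nat_lit 26598) (nat_lit 0) (nat_lit 152) (XT.nd (nat_lit 25974) (nat_lit 0) (nat_lit 532) (XT.nd (nat_lit 25662) (nat_lit 0) (nat_lit 1140) (XT.nd (nat_lit 25506) (nat_lit 0) (nat_lit 1444) (XT.nd (nat_lit 78) (nat_lit 0) (nat_lit 0) (XT.lf (nat_lit 0) (nat_lit 52281376607615) (nat_lit 152) (nat_lit 34528026628074) (nat_lit 0) (nat_lit 52255816208526) (nat_lit 1) (nat_lit 5) (nat_lit 3) (nat_lit 4) (nat_lit 1) (nat_lit 4) (nat_lit 283) (nat_lit 208) (nat_lit 109)) (XT.lf (nat_lit 0) (nat_lit 60139468076417) (nat_lit 152) (nat_lit 39668626153392) (nat_lit 0) (nat_lit 60113907674063) (nat_lit 1) (nat_lit 5) (nat_lit 3) (nat_lit 4) (nat_lit 1) (nat_lit 4) (nat_lit 284) (nat_lit 208) (nat_lit 108))) (XT.nd (nat_lit 78) (nat_lit 0) (nat_lit 0) (XT.lf (nat_lit 0) (nat_lit 3279863171) (nat_lit 0) (nat_lit 3279863171) (nat_lit 228) (nat_lit 745781633)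 (nat_lit 20) (nat_lit 5) (nat_lit 20) (nat_lit 3) (nat_lit 23) (nat_lit 3) (nat_lit 209) (nat_lit 209) (nat_lit 182)) (XT.lf (nat_lit 0) (nat_lit 13927426577) (nat_lit 0) (nat_lit 439665074) (nat_lit 228) (nat_lit 1297502946) (nat_lit 20) (nat_lit 5) (nat_lit 20) (nat_lit 3) (nat_lit 23) (nat_lit 3) (nat_lit 210) (nat_lit 209) (nat_lit 181)))) (XT.nd (nat_lit 156) (nat_lit 0) (nat_lit 76) (XT.nd (nat_lit 78) (nat_lit 304) (nat_lit 0) (XT.lf (nat_lit 76) (nat_lit 5728903528) (nat_lit 0) (nat_lit 10537443307) (nat_lit 304) (nat_lit 540672603) (nat_lit 21) (nat_lit 5) (nat_lit 20) (nat_lit 5) (nat_lit 24) (nat_lit 5) (nat_lit 211) (nat_lit 209) (nat_lit 180)) (XT.lf (nat_lit 0) (nat_lit 372810799) (nat_lit 304) (nat_lit 3671117713) (nat_lit 380) (nat_lit 14064322823) (nat_lit 16) (nat_lit 5) (nat_lit 20) (nat_lit 5) (nat_lit 21) (nat_lit 5) (nat_lit 212) (nat_lit 209) (nat_lit 179)))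 (XT.nd (nat_lit 78) (nat_lit 0) (nat_lit 0) (XT.lf (nat_lit 0) (nat_lit 1701479527) (nat_lit 304) (nat_lit 14469004012) (nat_lit 76) (nat_lit 3380610499) (nat_lit 17) (nat_lit 5) (nat_lit 21) (nat_lit 5) (nat_lit 18) (nat_lit 5) (nat_lit 213) (nat_lit 209) (nat_lit 178)) (XT.lf (nat_lit 0) (nat_lit 3589094559) (nat_lit 304) (nat_lit 5857194610) (nat_lit 76) (nat_lit 11710401492) (nat_lit 17) (nat_lit 5) (nat_lit 21) (nat_lit 5) (nat_lit 18) (nat_lit 5) (nat_lit 214) (nat_lit 209) (nat_lit 177))))) (XT.nd (nat_lit 312) (nat_lit 304) (nat_lit 0) (XT.nd (nat_lit 156) (nat_lit 152) (nat_lit 0) (XT.nd (nat_lit 78) (nat_lit 0) (nat_lit 0) (XT.lf (nat_lit 0) (nat_lit 4408636295) (nat_lit 228) (nat_lit 1504237839) (nat_lit 304) (nat_lit 17067537921) (nat_lit 14) (nat_lit 5) (nat_lit 17) (nat_lit 5) (nat_lit 18) (nat_lit 5) (nat_lit 215) (nat_lit 209) (nat_lit 176)) (XT.lf (nat_lit 0) (nat_lit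 9194921690) (nat_lit 304) (nat_lit 8522659424) (nat_lit 76) (nat_lit 7268862887) (nat_lit 14) (nat_lit 5) (nat_lit 18) (nat_lit 5) (nat_lit 15) (nat_lit 5) (nat_lit 216) (nat_lit 209) (nat_lit 175))) (XT.nd (nat_lit 78) (nat_lit 0) (nat_lit 0) (XT.lf (nat_lit 0) (nat_lit 3220163090) (nat_lit 152) (nat_lit 9930643981) (nat_lit 228) (nat_lit 14115524494) (nat_lit 12) (nat_lit 5) (nat_lit 14) (nat_lit 5) (nat_lit 15) (nat_lit 5) (nat_lit 217) (nat_lit 209) (nat_lit 174)) (XT.lf (nat_lit 0) (nat_lit 17654832692) (nat_lit 152) (nat_lit 469227949) (nat_lit 228) (nat_lit 11700700713) (nat_lit 12) (nat_lit 5) (nat_lit 14) (nat_lit 5) (nat_lit 15) (nat_lit 5) (nat_lit 218) (nat_lit 209) (nat_lit 173)))) (XT.nd (nat_lit 156) (nat_lit 228) (nat_lit 0) (XT.nd (nat_lit 78) (nat_lit 0) (nat_lit 0) (XT.lf (nat_lit 0) (nat_lit 1130736043) (nat_lit 76) (nat_lit 23171578723) (nat_lit 152) (nat_lit 8395925399)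 (nat_lit 11) (nat_lit 5) (nat_lit 12) (nat_lit 5) (nat_lit 13) (nat_lit 4) (nat_lit 219) (nat_lit 209) (nat_lit 172)) (XT.lf (nat_lit 0) (nat_lit 17744350945) (nat_lit 76) (nat_lit 14302935488) (nat_lit 152) (nat_lit 3859576089) (nat_lit 11) (nat_lit 5) (nat_lit 12) (nat_lit 5) (nat_lit 13) (nat_lit 4) (nat_lit 220) (nat_lit 209) (nat_lit 171))) (XT.nd (nat_lit 78) (nat_lit 152) (nat_lit 0) (XT.lf (nat_lit 0) (nat_lit 1220355916) (nat_lit 152) (nat_lit 2826675677) (nat_lit 76) (nat_lit 35543812387) (nat_lit 10) (nat_lit 5) (nat_lit 12) (nat_lit 5) (nat_lit 11) (nat_lit 5) (nat_lit 221) (nat_lit 209) (nat_lit 170)) (XT.lf (nat_lit 0) (nat_lit 7677938533) (nat_lit 228) (nat_lit 28030877738) (nat_lit 76) (nat_lit 7939494808) (nat_lit 8) (nat_lit 5) (nat_lit 11) (nat_lit 5) (nat_lit 9) (nat_lit 4) (nat_lit 222) (nat_lit 209) (nat_lit 169)))))) (XT.nd (nat_lit 624) (nat_lit 76) (nat_lit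 0) (XT.nd (nat_lit 312) (nat_lit 228) (nat_lit 0) (XT.nd (nat_lit 156) (nat_lit 0) (nat_lit 0) (XT.nd (nat_lit 78) (nat_lit 76) (nat_lit 0) (XT.lf (nat_lit 0) (nat_lit 15438446284) (nat_lit 228) (nat_lit 11367555111) (nat_lit 76) (nat_lit 21458321518) (nat_lit 8) (nat_lit 5) (nat_lit 11) (nat_lit 5) (nat_lit 9) (nat_lit 4) (nat_lit 223) (nat_lit 209) (nat_lit 168)) (XT.lf (nat_lit 0) (nat_lit 8536641841) (nat_lit 76) (nat_lit 16168374932) (nat_lit 152) (nat_lit 28816480747) (nat_lit 7) (nat_lit 5) (nat_lit 8) (nat_lit 5) (nat_lit 9) (nat_lit 4) (nat_lit 224) (nat_lit 209) (nat_lit 167))) (XT.nd (nat_lit 78) (nat_lit 0) (nat_lit 0) (XT.lf (nat_lit 0) (nat_lit 32686257695) (nat_lit 76) (nat_lit 3258794600) (nat_lit 152) (nat_lit 23534725392) (nat_lit 7) (nat_lit 5) (nat_lit 8) (nat_lit 5) (nat_lit 9) (nat_lit 4) (nat_lit 225) (nat_lit 209) (nat_lit 166)) (XT.lf (nat_lit 0) (nat_lit 49341308412)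 (nat_lit 152) (nat_lit 6369928616) (nat_lit 0) (nat_lit 10550075163) (nat_lit 7) (nat_lit 5) (nat_lit 9) (nat_lit 4) (nat_lit 7) (nat_lit 4) (nat_lit 226) (nat_lit 209) (nat_lit 165)))) (XT.nd (nat_lit 156) (nat_lit 76) (nat_lit 0) (XT.nd (nat_lit 78) (nat_lit 76) (nat_lit 0) (XT.lf (nat_lit 0) (nat_lit 18603786800) (nat_lit 76) (nat_lit 47060403526) (nat_lit 76) (nat_lit 8258347218) (nat_lit 6) (nat_lit 4) (nat_lit 7) (nat_lit 5) (nat_lit 7) (nat_lit 4) (nat_lit 227) (nat_lit 209) (nat_lit 164)) (XT.lf (nat_lit 0) (nat_lit 1891589530) (nat_lit 152) (nat_lit 34744550171) (nat_lit 76) (nat_lit 46035170655) (nat_lit 5) (nat_lit 5) (nat_lit 7) (nat_lit 5) (nat_lit 6) (nat_lit 4) (nat_lit 228) (nat_lit 209) (nat_lit 163))) (XT.nd (nat_lit 78) (nat_lit 76) (nat_lit 0) (XT.lf (nat_lit 0) (nat_lit 12711367818) (nat_lit 152) (nat_lit 11490210640) (nat_lit 76) (nat_lit 68472930667) (nat_lit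 5) (nat_lit 5) (nat_lit 7) (nat_lit 5) (nat_lit 6) (nat_lit 4) (nat_lit 229) (nat_lit 209) (nat_lit 162)) (XT.lf (nat_lit 0) (nat_lit 16730685964) (nat_lit 76) (nat_lit 9109990199) (nat_lit 152) (nat_lit 78234549224) (nat_lit 4) (nat_lit 5) (nat_lit 5) (nat_lit 5) (nat_lit 6) (nat_lit 4) (nat_lit 230) (nat_lit 209) (nat_lit 161))))) (XT.nd (nat_lit 312) (nat_lit 0) (nat_lit 0) (XT.nd (nat_lit 156) (nat_lit 76) (nat_lit 0) (XT.nd (nat_lit 78) (nat_lit 0) (nat_lit 0) (XT.lf (nat_lit 0) (nat_lit 41903987329) (nat_lit 152) (nat_lit 67001190471) (nat_lit 0) (nat_lit 8136199584) (nat_lit 4) (nat_lit 5) (nat_lit 6) (nat_lit 4) (nat_lit 4) (nat_lit 4) (nat_lit 231) (nat_lit 209) (nat_lit 160)) (XT.lf (nat_lit 0) (nat_lit 60805351143) (nat_lit 152) (nat_lit 44049950116) (nat_lit 0) (nat_lit 27032884291) (nat_lit 4) (nat_lit 5) (nat_lit 6) (nat_lit 4) (nat_lit 4) (nat_lit 4) (nat_lit 232) (nat_lit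 209) (nat_lit 159))) (XT.nd (nat_lit 78) (nat_lit 76) (nat_lit 0) (XT.lf (nat_lit 0) (nat_lit 82537351631) (nat_lit 152) (nat_lit 17664547085) (nat_lit 0) (nat_lit 48760815990) (nat_lit 4) (nat_lit 5) (nat_lit 6) (nat_lit 4) (nat_lit 4) (nat_lit 4) (nat_lit 233) (nat_lit 209) (nat_lit 158)) (XT.lf (nat_lit 0) (nat_lit 13909581938) (nat_lit 76) (nat_lit 94191564294) (nat_lit 76) (nat_lit 60411490576) (nat_lit 3) (nat_lit 4) (nat_lit 4) (nat_lit 5) (nat_lit 4) (nat_lit 4) (nat_lit 234) (nat_lit 209) (nat_lit 157)))) (XT.nd (nat_lit 156) (nat_lit 0) (nat_lit 0) (XT.nd (nat_lit 78) (nat_lit 0) (nat_lit 0) (XT.lf (nat_lit 0) (nat_lit 52198009789) (nat_lit 76) (nat_lit 86221127350) (nat_lit 76) (nat_lit 52437977043) (nat_lit 3) (nat_lit 4) (nat_lit 4) (nat_lit 5) (nat_lit 4) (nat_lit 4) (nat_lit 235) (nat_lit 209) (nat_lit 156)) (XT.lf (nat_lit 0) (nat_lit 96223549870) (nat_lit 76) (nat_lit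 77058018606) (nat_lit 76) (nat_lit 43272193004) (nat_lit 3) (nat_lit 4) (nat_lit 4) (nat_lit 5) (nat_lit 4) (nat_lit 4) (nat_lit 236) (nat_lit 209) (nat_lit 155))) (XT.nd (nat_lit 78) (nat_lit 0) (nat_lit 0) (XT.lf (nat_lit 0) (nat_lit 146847571444) (nat_lit 76) (nat_lit 66522959846) (nat_lit 76) (nat_lit 32734807902) (nat_lit 3) (nat_lit 4) (nat_lit 4) (nat_lit 5) (nat_lit 4) (nat_lit 4) (nat_lit 237) (nat_lit 209) (nat_lit 154)) (XT.nd (nat_lit 78) (nat_lit 0) (nat_lit 0) (XT.lf (nat_lit 0) (nat_lit 205060544498) (nat_lit 76) (nat_lit 54409830357) (nat_lit 76) (nat_lit 20619655506) (nat_lit 3) (nat_lit 4) (nat_lit 4) (nat_lit 5) (nat_lit 4) (nat_lit 4) (nat_lit 238) (nat_lit 209) (nat_lit 153)) (XT.lf (nat_lit 0) (nat_lit 272001418504) (nat_lit 76) (nat_lit 40481634126) (nat_lit 76) (nat_lit 6689700225) (nat_lit 3) (nat_lit 4) (nat_lit 4) (nat_lit 5) (nat_lit 4) (nat_lit 4) (nat_lit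 239) (nat_lit 209) (nat_lit 152))))))))
noncomputable def xc56 : XT := (XT.nd (nat_lit 2496) (nat_lit 0) (nat_lit 0) (XT.nd (nat_lit 1248) (nat_lit 0) (nat_lit 0) (XT.nd (nat_lit 624) (nat_lit 0) (nat_lit 0) (XT.nd (nat_lit 312) (nat_lit 0) (nat_lit 0) (XT.nd (nat_lit 156) (nat_lit 0) (nat_lit 0) (XT.nd (nat_lit 78) (nat_lit 76) (nat_lit 0) (XT.lf (nat_lit 0) (nat_lit 8497193040) (nat_lit 152) (nat_lit 15524498472) (nat_lit 76) (nat_lit 340038541721) (nat_lit 2) (nat_lit 5) (nat_lit 4) (nat_lit 5) (nat_lit 3) (nat_lit 4) (nat_lit 240) (nat_lit 209) (nat_lit 151)) (XT.lf (nat_lit 0) (nat_lit 22555635239) (nat_lit 76) (nat_lit 3653866548) (nat_lit 152) (nat_lit 389283712546) (nat_lit 1) (nat_lit 5) (nat_lit 2) (nat_lit 5) (nat_lit 3) (nat_lit 4) (nat_lit 241) (nat_lit 209) (nat_lit 150))) (XT.nd (nat_lit 78) (nat_lit 0) (nat_lit 0) (XT.lf (nat_lit 0) (nat_lit 48245737380) (nat_lit 152)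 (nat_lit 407287392149) (nat_lit 0) (nat_lit 18857954591) (nat_lit 1) (nat_lit 5) (nat_lit 3) (nat_lit 4) (nat_lit 1) (nat_lit 4) (nat_lit 242) (nat_lit 209) (nat_lit 149)) (XT.lf (nat_lit 0) (nat_lit 73759951369) (nat_lit 152) (nat_lit 423966510662) (nat_lit 0) (nat_lit 44371294022) (nat_lit 1) (nat_lit 5) (nat_lit 3) (nat_lit 4) (nat_lit 1) (nat_lit 4) (nat_lit 243) (nat_lit 209) (nat_lit 148)))) (XT.nd (nat_lit 156) (nat_lit 0) (nat_lit 0) (XT.nd (nat_lit 78) (nat_lit 0) (nat_lit 0) (XT.lf (nat_lit 0) (nat_lit 103100036075) (nat_lit 152) (nat_lit 443149966390) (nat_lit 0) (nat_lit 73710618242) (nat_lit 1) (nat_lit 5) (nat_lit 3) (nat_lit 4) (nat_lit 1) (nat_lit 4) (nat_lit 244) (nat_lit 209) (nat_lit 147)) (XT.lf (nat_lit 0) (nat_lit 136840036633) (nat_lit 152) (nat_lit 465213087815) (nat_lit 0) (nat_lit 107449957508) (nat_lit 1) (nat_lit 5) (nat_lit 3) (nat_lit 4) (nat_lit 1) (nat_lit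 4) (nat_lit 245) (nat_lit 209) (nat_lit 146))) (XT.nd (nat_lit 78) (nat_lit 0) (nat_lit 0) (XT.lf (nat_lit 0) (nat_lit 175640083489) (nat_lit 152) (nat_lit 490587544705) (nat_lit 0) (nat_lit 146249429328) (nat_lit 1) (nat_lit 5) (nat_lit 3) (nat_lit 4) (nat_lit 1) (nat_lit 4) (nat_lit 246) (nat_lit 209) (nat_lit 145)) (XT.lf (nat_lit 0) (nat_lit 220259307995) (nat_lit 152) (nat_lit 519769793824) (nat_lit 0) (nat_lit 190868153802) (nat_lit 1) (nat_lit 5) (nat_lit 3) (nat_lit 4) (nat_lit 1) (nat_lit 4) (nat_lit 247) (nat_lit 209) (nat_lit 144))))) (XT.nd (nat_lit 312) (nat_lit 0) (nat_lit 0) (XT.nd (nat_lit 156) (nat_lit 0) (nat_lit 0) (XT.nd (nat_lit 78) (nat_lit 0) (nat_lit 0) (XT.lf (nat_lit 0) (nat_lit 271570694978) (nat_lit 152) (nat_lit 553330792220) (nat_lit 0) (nat_lit 242179105974) (nat_lit 1) (nat_lit 5) (nat_lit 3) (nat_lit 4) (nat_lit 1) (nat_lit 4) (nat_lit 248) (nat_lit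 209) (nat_lit 143)) (XT.lf (nat_lit 0) (nat_lit 330578162879) (nat_lit 152) (nat_lit 591927168123) (nat_lit 0) (nat_lit 301186195779) (nat_lit 1) (nat_lit 5) (nat_lit 3) (nat_lit 4) (nat_lit 1) (nat_lit 4) (nat_lit 249) (nat_lit 209) (nat_lit 142))) (XT.nd (nat_lit 78) (nat_lit 0) (nat_lit 0) (XT.lf (nat_lit 0) (nat_lit 398436205634) (nat_lit 152) (nat_lit 636314068018) (nat_lit 0) (nat_lit 369043909756) (nat_lit 1) (nat_lit 5) (nat_lit 3) (nat_lit 4) (nat_lit 1) (nat_lit 4) (nat_lit 250) (nat_lit 209) (nat_lit 141)) (XT.lf (nat_lit 0) (nat_lit 476472480603) (nat_lit 152) (nat_lit 687359931251) (nat_lit 0) (nat_lit 447079898830) (nat_lit 1) (nat_lit 5) (nat_lit 3) (nat_lit 4) (nat_lit 1) (nat_lit 4) (nat_lit 251) (nat_lit 209) (nat_lit 140)))) (XT.nd (nat_lit 156) (nat_lit 0) (nat_lit 0) (XT.nd (nat_lit 78) (nat_lit 0) (nat_lit 0) (XT.lf (nat_lit 0) (nat_lit 566213784470) (nat_lit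 152) (nat_lit 746063481233) (nat_lit 0) (nat_lit 536820954093) (nat_lit 1) (nat_lit 5) (nat_lit 3) (nat_lit 4) (nat_lit 1) (nat_lit 4) (nat_lit 252) (nat_lit 209) (nat_lit 139)) (XT.lf (nat_lit 0) (nat_lit 669415925353) (nat_lit 152) (nat_lit 813573265681) (nat_lit 0) (nat_lit 640022878798) (nat_lit 1) (nat_lit 5) (nat_lit 3) (nat_lit 4) (nat_lit 1) (nat_lit 4) (nat_lit 253) (nat_lit 209) (nat_lit 138))) (XT.nd (nat_lit 78) (nat_lit 0) (nat_lit 0) (XT.lf (nat_lit 0) (nat_lit 788098075574) (nat_lit 152) (nat_lit 891210128203) (nat_lit 0) (nat_lit 758704841039) (nat_lit 1) (nat_lit 5) (nat_lit 3) (nat_lit 4) (nat_lit 1) (nat_lit 4) (nat_lit 254) (nat_lit 209) (nat_lit 137)) (XT.lf (nat_lit 0) (nat_lit 924582277204) (nat_lit 152) (nat_lit 980493050893) (nat_lit 0) (nat_lit 895188879207) (nat_lit 1) (nat_lit 5) (nat_lit 3) (nat_lit 4) (nat_lit 1) (nat_lit 4) (nat_lit 255) (nat_lit 209)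 (nat_lit 136)))))) (XT.nd (nat_lit 624) (nat_lit 0) (nat_lit 0) (XT.nd (nat_lit 312) (nat_lit 0) (nat_lit 0) (XT.nd (nat_lit 156) (nat_lit 0) (nat_lit 0) (XT.nd (nat_lit 78) (nat_lit 0) (nat_lit 0) (XT.lf (nat_lit 0) (nat_lit 1081538873316) (nat_lit 152) (nat_lit 1083168873542) (nat_lit 0) (nat_lit 1052145333179) (nat_lit 1) (nat_lit 5) (nat_lit 3) (nat_lit 4) (nat_lit 1) (nat_lit 4) (nat_lit 256) (nat_lit 209) (nat_lit 135)) (XT.lf (nat_lit 0) (nat_lit 1262038753835) (nat_lit 152) (nat_lit 1201246470941) (nat_lit 0) (nat_lit 1232645090099) (nat_lit 1) (nat_lit 5) (nat_lit 3) (nat_lit 4) (nat_lit 1) (nat_lit 4) (nat_lit 257) (nat_lit 209) (nat_lit 134))) (XT.nd (nat_lit 78) (nat_lit 0) (nat_lit 0) (XT.lf (nat_lit 0) (nat_lit 1469613438163) (nat_lit 152) (nat_lit 1337036056952) (nat_lit 0) (nat_lit 1440219666948) (nat_lit 1) (nat_lit 5) (nat_lit 3) (nat_lit 4) (nat_lit 1) (nat_lit 4)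 (nat_lit 258) (nat_lit 209) (nat_lit 133)) (XT.lf (nat_lit 0) (nat_lit 1708324170124) (nat_lit 152) (nat_lit 1493194384346) (nat_lit 0) (nat_lit 1678930305449) (nat_lit 1) (nat_lit 5) (nat_lit 3) (nat_lit 4) (nat_lit 1) (nat_lit 4) (nat_lit 259) (nat_lit 209) (nat_lit 132)))) (XT.nd (nat_lit 156) (nat_lit 0) (nat_lit 0) (XT.nd (nat_lit 78) (nat_lit 0) (nat_lit 0) (XT.lf (nat_lit 0) (nat_lit 1982841377081) (nat_lit 152) (nat_lit 1672776724744) (nat_lit 0) (nat_lit 1953447431137) (nat_lit 1) (nat_lit 5) (nat_lit 3) (nat_lit 4) (nat_lit 1) (nat_lit 4) (nat_lit 260) (nat_lit 209) (nat_lit 131)) (XT.lf (nat_lit 0) (nat_lit 2298536047867) (nat_lit 152) (nat_lit 1879296645677) (nat_lit 0) (nat_lit 2269142031254) (nat_lit 1) (nat_lit 5) (nat_lit 3) (nat_lit 4) (nat_lit 1) (nat_lit 4) (nat_lit 261) (nat_lit 209) (nat_lit 130))) (XT.nd (nat_lit 78) (nat_lit 0) (nat_lit 0) (XT.lf (nat_lit 0)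 (nat_lit 2661584817345) (nat_lit 152) (nat_lit 2116794754293) (nat_lit 0) (nat_lit 2632190739281) (nat_lit 1) (nat_lit 5) (nat_lit 3) (nat_lit 4) (nat_lit 1) (nat_lit 4) (nat_lit 262) (nat_lit 209) (nat_lit 129)) (XT.lf (nat_lit 0) (nat_lit 3079090813612) (nat_lit 152) (nat_lit 2389917752718) (nat_lit 0) (nat_lit 3049696682113) (nat_lit 1) (nat_lit 5) (nat_lit 3) (nat_lit 4) (nat_lit 1) (nat_lit 4) (nat_lit 263) (nat_lit 209) (nat_lit 128))))) (XT.nd (nat_lit 312) (nat_lit 0) (nat_lit 0) (XT.nd (nat_lit 156) (nat_lit 0) (nat_lit 0) (XT.nd (nat_lit 78) (nat_lit 0) (nat_lit 0) (XT.lf (nat_lit 0) (nat_lit 3559222632250) (nat_lit 152) (nat_lit 2704009351790) (nat_lit 0) (nat_lit 3529828454284) (nat_lit 1) (nat_lit 5) (nat_lit 3) (nat_lit 4) (nat_lit 1) (nat_lit 4) (nat_lit 264) (nat_lit 209) (nat_lit 127)) (XT.lf (nat_lit 0) (nat_lit 4111374156665) (nat_lit 152) (nat_lit 3065214821925)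 (nat_lit 0) (nat_lit 4081979938294) (nat_lit 1) (nat_lit 5) (nat_lit 3) (nat_lit 4) (nat_lit 1) (nat_lit 4) (nat_lit 265) (nat_lit 209) (nat_lit 126))) (XT.nd (nat_lit 78) (nat_lit 0) (nat_lit 0) (XT.lf (nat_lit 0) (nat_lit 4746348351465) (nat_lit 152) (nat_lit 3480601226670) (nat_lit 0) (nat_lit 4716954097959) (nat_lit 1) (nat_lit 5) (nat_lit 3) (nat_lit 4) (nat_lit 1) (nat_lit 4) (nat_lit 266) (nat_lit 209) (nat_lit 125)) (XT.lf (nat_lit 0) (nat_lit 5476568624810) (nat_lit 152) (nat_lit 3958295691336) (nat_lit 0) (nat_lit 5447174340753) (nat_lit 1) (nat_lit 5) (nat_lit 3) (nat_lit 4) (nat_lit 1) (nat_lit 4) (nat_lit 267) (nat_lit 209) (nat_lit 124)))) (XT.nd (nat_lit 156) (nat_lit 0) (nat_lit 0) (XT.nd (nat_lit 78) (nat_lit 0) (nat_lit 0) (XT.lf (nat_lit 0) (nat_lit 6316321895092) (nat_lit 152) (nat_lit 4507644411969) (nat_lit 0) (nat_lit 6286927584467) (nat_lit 1) (nat_lit 5) (nat_lit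 3) (nat_lit 4) (nat_lit 1) (nat_lit 4) (nat_lit 268) (nat_lit 209) (nat_lit 123)) (XT.lf (nat_lit 0) (nat_lit 7282038117598) (nat_lit 152) (nat_lit 5139395515713) (nat_lit 0) (nat_lit 7252643783872) (nat_lit 1) (nat_lit 5) (nat_lit 3) (nat_lit 4) (nat_lit 1) (nat_lit 4) (nat_lit 269) (nat_lit 209) (nat_lit 122))) (XT.nd (nat_lit 78) (nat_lit 0) (nat_lit 0) (XT.lf (nat_lit 0) (nat_lit 8392611740160) (nat_lit 152) (nat_lit 5865909350249) (nat_lit 0) (nat_lit 8363217386345) (nat_lit 1) (nat_lit 5) (nat_lit 3) (nat_lit 4) (nat_lit 1) (nat_lit 4) (nat_lit 270) (nat_lit 209) (nat_lit 121)) (XT.lf (nat_lit 0) (nat_lit 9669771377133) (nat_lit 152) (nat_lit 6701400316689) (nat_lit 0) (nat_lit 9640377005850) (nat_lit 1) (nat_lit 5) (nat_lit 3) (nat_lit 4) (nat_lit 1) (nat_lit 4) (nat_lit 271) (nat_lit 209) (nat_lit 120))))))) (XT.nd (nat_lit 26988) (nat_lit 0) (nat_lit 228) (XT.nd (nat_lit 858)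 (nat_lit 0) (nat_lit 0) (XT.nd (nat_lit 312) (nat_lit 0) (nat_lit 0) (XT.nd (nat_lit 156) (nat_lit 0) (nat_lit 0) (XT.nd (nat_lit 78) (nat_lit 0) (nat_lit 0) (XT.lf (nat_lit 0) (nat_lit 11138504934457) (nat_lit 152) (nat_lit 7662214977418) (nat_lit 0) (nat_lit 11109110547984) (nat_lit 1) (nat_lit 5) (nat_lit 3) (nat_lit 4) (nat_lit 1) (nat_lit 4) (nat_lit 272) (nat_lit 209) (nat_lit 119)) (XT.lf (nat_lit 0) (nat_lit 12827548503471) (nat_lit 152) (nat_lit 8767151880148) (nat_lit 0) (nat_lit 12798154103790) (nat_lit 1) (nat_lit 5) (nat_lit 3) (nat_lit 4) (nat_lit 1) (nat_lit 4) (nat_lit 273) (nat_lit 209) (nat_lit 118))) (XT.nd (nat_lit 78) (nat_lit 0) (nat_lit 0) (XT.lf (nat_lit 0) (nat_lit 14769948588787) (nat_lit 152) (nat_lit 10037829355583) (nat_lit 0) (nat_lit 14740554177620) (nat_lit 1) (nat_lit 5) (nat_lit 3) (nat_lit 4) (nat_lit 1) (nat_lit 4) (nat_lit 274) (nat_lit 209) (nat_lit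 117)) (XT.lf (nat_lit 0) (nat_lit 17003708670334) (nat_lit 152) (nat_lit 11499108484765) (nat_lit 0) (nat_lit 16974314249180) (nat_lit 1) (nat_lit 5) (nat_lit 3) (nat_lit 4) (nat_lit 1) (nat_lit 4) (nat_lit 275) (nat_lit 209) (nat_lit 116)))) (XT.nd (nat_lit 390) (nat_lit 0) (nat_lit 0) (XT.nd (nat_lit 312) (nat_lit 0) (nat_lit 0) (XT.lf (nat_lit 0) (nat_lit 19572532749709) (nat_lit 152) (nat_lit 13179579511525) (nat_lit 0) (nat_lit 19543138319869) (nat_lit 1) (nat_lit 5) (nat_lit 3) (nat_lit 4) (nat_lit 1) (nat_lit 4) (nat_lit 276) (nat_lit 209) (nat_lit 115)) (XT.lf (nat_lit 0) (nat_lit 34323699848685) (nat_lit 152) (nat_lit 22829485079251) (nat_lit 0) (nat_lit 34294305394051) (nat_lit 1) (nat_lit 5) (nat_lit 3) (nat_lit 4) (nat_lit 1) (nat_lit 4) (nat_lit 280) (nat_lit 209) (nat_lit 111))) (XT.nd (nat_lit 78) (nat_lit 0) (nat_lit 0) (XT.lf (nat_lit 0) (nat_lit 39490522556524) (nat_lit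 152) (nat_lit 26209512689718) (nat_lit 0) (nat_lit 39461128097572) (nat_lit 1) (nat_lit 5) (nat_lit 3) (nat_lit 4) (nat_lit 1) (nat_lit 4) (nat_lit 281) (nat_lit 209) (nat_lit 110)) (XT.lf (nat_lit 0) (nat_lit 45432368664311) (nat_lit 152) (nat_lit 30096544453948) (nat_lit 0) (nat_lit 45402974201604) (nat_lit 1) (nat_lit 5) (nat_lit 3) (nat_lit 4) (nat_lit 1) (nat_lit 4) (nat_lit 282) (nat_lit 209) (nat_lit 109))))) (XT.nd (nat_lit 25818) (nat_lit 0) (nat_lit 988) (XT.nd (nat_lit 25662) (nat_lit 0) (nat_lit 1444) (XT.nd (nat_lit 25584) (nat_lit 0) (nat_lit 1444) (XT.lf (nat_lit 0) (nat_lit 52265491682850) (nat_lit 152) (nat_lit 34566630993415) (nat_lit 0) (nat_lit 52236097216879) (nat_lit 1) (nat_lit 5) (nat_lit 3) (nat_lit 4) (nat_lit 1) (nat_lit 4) (nat_lit 283) (nat_lit 209) (nat_lit 108)) (XT.lf (nat_lit 0) (nat_lit 3898223441) (nat_lit 0) (nat_lit 3898223441) (nat_lit 228) (nat_lit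 564389120) (nat_lit 20) (nat_lit 5) (nat_lit 20) (nat_lit 3) (nat_lit 23) (nat_lit 3) (nat_lit 210) (nat_lit 210) (nat_lit 180))) (XT.nd (nat_lit 78) (nat_lit 0) (nat_lit 0) (XT.lf (nat_lit 0) (nat_lit 16236333250) (nat_lit 0) (nat_lit 725407521) (nat_lit 228) (nat_lit 982111418) (nat_lit 20) (nat_lit 5) (nat_lit 20) (nat_lit 3) (nat_lit 23) (nat_lit 3) (nat_lit 211) (nat_lit 210) (nat_lit 179)) (XT.lf (nat_lit 76) (nat_lit 6873958787) (nat_lit 0) (nat_lit 12218505227) (nat_lit 304) (nat_lit 173775921) (nat_lit 21) (nat_lit 5) (nat_lit 20) (nat_lit 5) (nat_lit 24) (nat_lit 5) (nat_lit 212) (nat_lit 210) (nat_lit 178)))) (XT.nd (nat_lit 156) (nat_lit 152) (nat_lit 0) (XT.nd (nat_lit 78) (nat_lit 0) (nat_lit 76) (XT.lf (nat_lit 0) (nat_lit 783613924) (nat_lit 304) (nat_lit 3935697088) (nat_lit 380) (nat_lit 16048991056) (nat_lit 16) (nat_lit 5) (nat_lit 20) (nat_lit 5) (nat_lit 21) (nat_lit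 5) (nat_lit 213) (nat_lit 210) (nat_lit 177)) (XT.lf (nat_lit 0) (nat_lit 2274663349) (nat_lit 304) (nat_lit 16313777378) (nat_lit 76) (nat_lit 3845053793) (nat_lit 17) (nat_lit 5) (nat_lit 21) (nat_lit 5) (nat_lit 18) (nat_lit 5) (nat_lit 214) (nat_lit 210) (nat_lit 176))) (XT.nd (nat_lit 78) (nat_lit 228) (nat_lit 0) (XT.lf (nat_lit 0) (nat_lit 4403947345) (nat_lit 304) (nat_lit 6452663162) (nat_lit 76) (nat_lit 13429876254) (nat_lit 17) (nat_lit 5) (nat_lit 21) (nat_lit 5) (nat_lit 18) (nat_lit 5) (nat_lit 215) (nat_lit 210) (nat_lit 175)) (XT.lf (nat_lit 0) (nat_lit 5340173714) (nat_lit 228) (nat_lit 1711246556) (nat_lit 304) (nat_lit 19336368551) (nat_lit 14) (nat_lit 5) (nat_lit 17) (nat_lit 5) (nat_lit 18) (nat_lit 5) (nat_lit 216) (nat_lit 210) (nat_lit 174)))))) (XT.nd (nat_lit 624) (nat_lit 304) (nat_lit 0) (XT.nd (nat_lit 312) (nat_lit 228) (nat_lit 0) (XT.nd (nat_lit 156)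 (nat_lit 76) (nat_lit 0) (XT.nd (nat_lit 78) (nat_lit 152) (nat_lit 0) (XT.lf (nat_lit 0) (nat_lit 10793626307) (nat_lit 304) (nat_lit 9532227281) (nat_lit 76) (nat_lit 8373947675) (nat_lit 14) (nat_lit 5) (nat_lit 18) (nat_lit 5) (nat_lit 15) (nat_lit 5) (nat_lit 217) (nat_lit 210) (nat_lit 173)) (XT.lf (nat_lit 0) (nat_lit 3959799016) (nat_lit 152) (nat_lit 11365095165) (nat_lit 228) (nat_lit 15999698183) (nat_lit 12) (nat_lit 5) (nat_lit 14) (nat_lit 5) (nat_lit 15) (nat_lit 5) (nat_lit 218) (nat_lit 210) (nat_lit 172))) (XT.nd (nat_lit 78) (nat_lit 76) (nat_lit 0) (XT.lf (nat_lit 0) (nat_lit 20526197998) (nat_lit 152) (nat_lit 491659608) (nat_lit 228) (nat_lit 13253062354) (nat_lit 12) (nat_lit 5) (nat_lit 14) (nat_lit 5) (nat_lit 15) (nat_lit 5) (nat_lit 219) (nat_lit 210) (nat_lit 171)) (XT.lf (nat_lit 0) (nat_lit 1537751819) (nat_lit 76) (nat_lit 26573804509) (nat_lit 152) (nat_lit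 9465724913) (nat_lit 11) (nat_lit 5) (nat_lit 12) (nat_lit 5) (nat_lit 13) (nat_lit 4) (nat_lit 220) (nat_lit 210) (nat_lit 170)))) (XT.nd (nat_lit 156) (nat_lit 152) (nat_lit 0) (XT.nd (nat_lit 78) (nat_lit 76) (nat_lit 0) (XT.lf (nat_lit 0) (nat_lit 20612443039) (nat_lit 76) (nat_lit 16384453183) (nat_lit 152) (nat_lit 4273652245) (nat_lit 11) (nat_lit 5) (nat_lit 12) (nat_lit 5) (nat_lit 13) (nat_lit 4) (nat_lit 221) (nat_lit 210) (nat_lit 169)) (XT.lf (nat_lit 0) (nat_lit 1534003440) (nat_lit 152) (nat_lit 3057671487) (nat_lit 76) (nat_lit 40917476164) (nat_lit 10) (nat_lit 5) (nat_lit 12) (nat_lit 5) (nat_lit 11) (nat_lit 5) (nat_lit 222) (nat_lit 210) (nat_lit 168))) (XT.nd (nat_lit 78) (nat_lit 0) (nat_lit 0) (XT.lf (nat_lit 0) (nat_lit 8953428618) (nat_lit 228) (nat_lit 32035073923) (nat_lit 76) (nat_lit 9187850204) (nat_lit 8) (nat_lit 5) (nat_lit 11) (nat_lit 5) (nat_lit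 9) (nat_lit 4) (nat_lit 223) (nat_lit 210) (nat_lit 167)) (XT.lf (nat_lit 0) (nat_lit 17861864796) (nat_lit 228) (nat_lit 12898396659) (nat_lit 76) (nat_lit 24727009898) (nat_lit 8) (nat_lit 5) (nat_lit 11) (nat_lit 5) (nat_lit 9) (nat_lit 4) (nat_lit 224) (nat_lit 210) (nat_lit 166))))) (XT.nd (nat_lit 312) (nat_lit 152) (nat_lit 0) (XT.nd (nat_lit 156) (nat_lit 76) (nat_lit 0) (XT.nd (nat_lit 78) (nat_lit 0) (nat_lit 0) (XT.lf (nat_lit 0) (nat_lit 9983507485) (nat_lit 76) (nat_lit 18527760864) (nat_lit 152) (nat_lit 33022898711) (nat_lit 7) (nat_lit 5) (nat_lit 8) (nat_lit 5) (nat_lit 9) (nat_lit 4) (nat_lit 225) (nat_lit 210) (nat_lit 165)) (XT.lf (nat_lit 0) (nat_lit 37733865365) (nat_lit 76) (nat_lit 3690335262) (nat_lit 152) (nat_lit 26964017550) (nat_lit 7) (nat_lit 5) (nat_lit 8) (nat_lit 5) (nat_lit 9) (nat_lit 4) (nat_lit 226) (nat_lit 210) (nat_lit 164))) (XT.nd (nat_lit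 78) (nat_lit 76) (nat_lit 0) (XT.lf (nat_lit 0) (nat_lit 56820558821) (nat_lit 152) (nat_lit 7189919302) (nat_lit 0) (nat_lit 12177959652) (nat_lit 7) (nat_lit 5) (nat_lit 9) (nat_lit 4) (nat_lit 7) (nat_lit 4) (nat_lit 227) (nat_lit 210) (nat_lit 163)) (XT.lf (nat_lit 0) (nat_lit 21523694399) (nat_lit 76) (nat_lit 54063353324) (nat_lit 76) (nat_lit 9412570368) (nat_lit 6) (nat_lit 4) (nat_lit 7) (nat_lit 5) (nat_lit 7) (nat_lit 4) (nat_lit 228) (nat_lit 210) (nat_lit 162)))) (XT.nd (nat_lit 156) (nat_lit 76) (nat_lit 0) (XT.nd (nat_lit 78) (nat_lit 0) (nat_lit 0) (XT.lf (nat_lit 0) (nat_lit 2242287597) (nat_lit 152) (nat_lit 39836980958) (nat_lit 76) (nat_lit 52982455652) (nat_lit 5) (nat_lit 5) (nat_lit 7) (nat_lit 5) (nat_lit 6) (nat_lit 4) (nat_lit 229) (nat_lit 210) (nat_lit 161)) (XT.lf (nat_lit 0) (nat_lit 14676298762) (nat_lit 152) (nat_lit 13110045071) (nat_lit 76) (nat_lit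 78780400180) (nat_lit 5) (nat_lit 5) (nat_lit 7) (nat_lit 5) (nat_lit 6) (nat_lit 4) (nat_lit 230) (nat_lit 210) (nat_lit 160))) (XT.nd (nat_lit 78) (nat_lit 0) (nat_lit 0) (XT.lf (nat_lit 0) (nat_lit 19339272516) (nat_lit 76) (nat_lit 10432234879) (nat_lit 152) (nat_lit 89906611793) (nat_lit 4) (nat_lit 5) (nat_lit 5) (nat_lit 5) (nat_lit 6) (nat_lit 4) (nat_lit 231) (nat_lit 210) (nat_lit 159)) (XT.lf (nat_lit 0) (nat_lit 48238770006) (nat_lit 152) (nat_lit 76959594080) (nat_lit 0) (nat_lit 9391685231) (nat_lit 4) (nat_lit 5) (nat_lit 6) (nat_lit 4) (nat_lit 4) (nat_lit 4) (nat_lit 232) (nat_lit 210) (nat_lit 158))))))))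
noncomputable def xc57 : XT := (XT.nd (nat_lit 1248) (nat_lit 0) (nat_lit 0) (XT.nd (nat_lit 624) (nat_lit 152) (nat_lit 0) (XT.nd (nat_lit 312) (nat_lit 0) (nat_lit 0) (XT.nd (nat_lit 156) (nat_lit 76) (nat_lit 0) (XT.nd (nat_lit 78) (nat_lit 0) (nat_lit 0) (XT.lf (nat_lit 0) (nat_lit 69968923013) (nat_lit 152) (nat_lit 50577638319) (nat_lit 0) (nat_lit 31118300160) (nat_lit 4) (nat_lit 5) (nat_lit 6) (nat_lit 4) (nat_lit 4) (nat_lit 4) (nat_lit 233) (nat_lit 210) (nat_lit 157)) (XT.lf (nat_lit 0) (nat_lit 94955144983) (nat_lit 152) (nat_lit 20244834092) (nat_lit 0) (nat_lit 56101445541) (nat_lit 4) (nat_lit 5) (nat_lit 6) (nat_lit 4) (nat_lit 4) (nat_lit 4) (nat_lit 234) (nat_lit 210) (nat_lit 156))) (XT.nd (nat_lit 78) (nat_lit 0) (nat_lit 0) (XT.lf (nat_lit 0) (nat_lit 16062259965) (nat_lit 76) (nat_lit 108289140749) (nat_lit 76) (nat_lit 69432766013) (nat_lit 3) (nat_lit 4) (nat_lit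 4) (nat_lit 5) (nat_lit 4) (nat_lit 4) (nat_lit 235) (nat_lit 210) (nat_lit 155)) (XT.lf (nat_lit 0) (nat_lit 60085311897) (nat_lit 76) (nat_lit 99127202375) (nat_lit 76) (nat_lit 60268501296) (nat_lit 3) (nat_lit 4) (nat_lit 4) (nat_lit 5) (nat_lit 4) (nat_lit 4) (nat_lit 236) (nat_lit 210) (nat_lit 154)))) (XT.nd (nat_lit 156) (nat_lit 0) (nat_lit 0) (XT.nd (nat_lit 78) (nat_lit 0) (nat_lit 0) (XT.lf (nat_lit 0) (nat_lit 110707169863) (nat_lit 76) (nat_lit 88593161329) (nat_lit 76) (nat_lit 49732437343) (nat_lit 3) (nat_lit 4) (nat_lit 4) (nat_lit 5) (nat_lit 4) (nat_lit 4) (nat_lit 237) (nat_lit 210) (nat_lit 153)) (XT.lf (nat_lit 0) (nat_lit 168918261519) (nat_lit 76) (nat_lit 76480916808) (nat_lit 76) (nat_lit 37618433772) (nat_lit 3) (nat_lit 4) (nat_lit 4) (nat_lit 5) (nat_lit 4) (nat_lit 4) (nat_lit 238) (nat_lit 210) (nat_lit 152))) (XT.nd (nat_lit 78) (nat_lit 0) (nat_lit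 0) (XT.lf (nat_lit 0) (nat_lit 235857499528) (nat_lit 76) (nat_lit 62553490115) (nat_lit 76) (nat_lit 23689477470) (nat_lit 3) (nat_lit 4) (nat_lit 4) (nat_lit 5) (nat_lit 4) (nat_lit 4) (nat_lit 239) (nat_lit 210) (nat_lit 151)) (XT.lf (nat_lit 0) (nat_lit 312834564633) (nat_lit 76) (nat_lit 46538388118) (nat_lit 76) (nat_lit 7673045380) (nat_lit 3) (nat_lit 4) (nat_lit 4) (nat_lit 5) (nat_lit 4) (nat_lit 4) (nat_lit 240) (nat_lit 210) (nat_lit 150))))) (XT.nd (nat_lit 312) (nat_lit 0) (nat_lit 0) (XT.nd (nat_lit 156) (nat_lit 0) (nat_lit 0) (XT.nd (nat_lit 78) (nat_lit 76) (nat_lit 0) (XT.lf (nat_lit 0) (nat_lit 9787702047) (nat_lit 152) (nat_lit 17822939939) (nat_lit 76) (nat_lit 391056197919) (nat_lit 2) (nat_lit 5) (nat_lit 4) (nat_lit 5) (nat_lit 3) (nat_lit 4) (nat_lit 241) (nat_lit 210) (nat_lit 149)) (XT.lf (nat_lit 0) (nat_lit 25967839587) (nat_lit 76) (nat_lit 4188134678)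 (nat_lit 152) (nat_lit 447658931393) (nat_lit 1) (nat_lit 5) (nat_lit 2) (nat_lit 5) (nat_lit 3) (nat_lit 4) (nat_lit 242) (nat_lit 210) (nat_lit 148))) (XT.nd (nat_lit 78) (nat_lit 0) (nat_lit 0) (XT.lf (nat_lit 0) (nat_lit 55496179839) (nat_lit 152) (nat_lit 468353911434) (nat_lit 0) (nat_lit 21697588845) (nat_lit 1) (nat_lit 5) (nat_lit 3) (nat_lit 4) (nat_lit 1) (nat_lit 4) (nat_lit 243) (nat_lit 210) (nat_lit 147)) (XT.lf (nat_lit 0) (nat_lit 84835754381) (nat_lit 152) (nat_lit 487538365924) (nat_lit 0) (nat_lit 51036502095) (nat_lit 1) (nat_lit 5) (nat_lit 3) (nat_lit 4) (nat_lit 1) (nat_lit 4) (nat_lit 244) (nat_lit 210) (nat_lit 146)))) (XT.nd (nat_lit 156) (nat_lit 0) (nat_lit 0) (XT.nd (nat_lit 78) (nat_lit 0) (nat_lit 0) (XT.lf (nat_lit 0) (nat_lit 118575311318) (nat_lit 152) (nat_lit 509602355838) (nat_lit 0) (nat_lit 84775483995) (nat_lit 1) (nat_lit 5) (nat_lit 3) (nat_lit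 4) (nat_lit 1) (nat_lit 4) (nat_lit 245) (nat_lit 210) (nat_lit 145)) (XT.lf (nat_lit 0) (nat_lit 157374972416) (nat_lit 152) (nat_lit 534977567935) (nat_lit 0) (nat_lit 123574645062) (nat_lit 1) (nat_lit 5) (nat_lit 3) (nat_lit 4) (nat_lit 1) (nat_lit 4) (nat_lit 246) (nat_lit 210) (nat_lit 144))) (XT.nd (nat_lit 78) (nat_lit 0) (nat_lit 0) (XT.lf (nat_lit 0) (nat_lit 201993861481) (nat_lit 152) (nat_lit 564160473756) (nat_lit 0) (nat_lit 168193099316) (nat_lit 1) (nat_lit 5) (nat_lit 3) (nat_lit 4) (nat_lit 1) (nat_lit 4) (nat_lit 247) (nat_lit 210) (nat_lit 143)) (XT.lf (nat_lit 0) (nat_lit 253304956775) (nat_lit 152) (nat_lit 597722043198) (nat_lit 0) (nat_lit 219503816515) (nat_lit 1) (nat_lit 5) (nat_lit 3) (nat_lit 4) (nat_lit 1) (nat_lit 4) (nat_lit 248) (nat_lit 210) (nat_lit 142)))))) (XT.nd (nat_lit 624) (nat_lit 0) (nat_lit 0) (XT.nd (nat_lit 312) (nat_lit 0) (nat_lit 0)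 (XT.nd (nat_lit 156) (nat_lit 0) (nat_lit 0) (XT.nd (nat_lit 78) (nat_lit 0) (nat_lit 0) (XT.lf (nat_lit 0) (nat_lit 312312171034) (nat_lit 152) (nat_lit 636318915662) (nat_lit 0) (nat_lit 278510701995) (nat_lit 1) (nat_lit 5) (nat_lit 3) (nat_lit 4) (nat_lit 1) (nat_lit 4) (nat_lit 249) (nat_lit 210) (nat_lit 141)) (XT.lf (nat_lit 0) (nat_lit 380169993232) (nat_lit 152) (nat_lit 680706247350) (nat_lit 0) (nat_lit 346368238298) (nat_lit 1) (nat_lit 5) (nat_lit 3) (nat_lit 4) (nat_lit 1) (nat_lit 4) (nat_lit 250) (nat_lit 210) (nat_lit 140))) (XT.nd (nat_lit 78) (nat_lit 0) (nat_lit 0) (XT.lf (nat_lit 0) (nat_lit 458206076411) (nat_lit 152) (nat_lit 731752486054) (nat_lit 0) (nat_lit 424404072873) (nat_lit 1) (nat_lit 5) (nat_lit 3) (nat_lit 4) (nat_lit 1) (nat_lit 4) (nat_lit 251) (nat_lit 210) (nat_lit 139)) (XT.lf (nat_lit 0) (nat_lit 547947213504) (nat_lit 152) (nat_lit 790456362533)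 (nat_lit 0) (nat_lit 514144993788) (nat_lit 1) (nat_lit 5) (nat_lit 3) (nat_lit 4) (nat_lit 1) (nat_lit 4) (nat_lit 252) (nat_lit 210) (nat_lit 138)))) (XT.nd (nat_lit 156) (nat_lit 0) (nat_lit 0) (XT.nd (nat_lit 78) (nat_lit 0) (nat_lit 0) (XT.lf (nat_lit 0) (nat_lit 651149209366) (nat_lit 152) (nat_lit 857966430891) (nat_lit 0) (nat_lit 617346801671) (nat_lit 1) (nat_lit 5) (nat_lit 3) (nat_lit 4) (nat_lit 1) (nat_lit 4) (nat_lit 253) (nat_lit 210) (nat_lit 137)) (XT.lf (nat_lit 0) (nat_lit 769831233483) (nat_lit 152) (nat_lit 935603540292) (nat_lit 0) (nat_lit 736028662326) (nat_lit 1) (nat_lit 5) (nat_lit 3) (nat_lit 4) (nat_lit 1) (nat_lit 4) (nat_lit 254) (nat_lit 210) (nat_lit 136))) (XT.nd (nat_lit 78) (nat_lit 0) (nat_lit 0) (XT.lf (nat_lit 0) (nat_lit 906315325456) (nat_lit 152) (nat_lit 1024886677659) (nat_lit 0) (nat_lit 872512612159) (nat_lit 1) (nat_lit 5) (nat_lit 3)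 (nat_lit 4) (nat_lit 1) (nat_lit 4) (nat_lit 255) (nat_lit 210) (nat_lit 135)) (XT.lf (nat_lit 0) (nat_lit 1063271826215) (nat_lit 152) (nat_lit 1127562686984) (nat_lit 0) (nat_lit 1029468989317) (nat_lit 1) (nat_lit 5) (nat_lit 3) (nat_lit 4) (nat_lit 1) (nat_lit 4) (nat_lit 256) (nat_lit 210) (nat_lit 134))))) (XT.nd (nat_lit 312) (nat_lit 0) (nat_lit 0) (XT.nd (nat_lit 156) (nat_lit 0) (nat_lit 0) (XT.nd (nat_lit 78) (nat_lit 0) (nat_lit 0) (XT.lf (nat_lit 0) (nat_lit 1243771623818) (nat_lit 152) (nat_lit 1245640446709) (nat_lit 0) (nat_lit 1209968679442) (nat_lit 1) (nat_lit 5) (nat_lit 3) (nat_lit 4) (nat_lit 1) (nat_lit 4) (nat_lit 257) (nat_lit 210) (nat_lit 133)) (XT.lf (nat_lit 0) (nat_lit 1451346236046) (nat_lit 152) (nat_lit 1381430173874) (nat_lit 0) (nat_lit 1417543198210) (nat_lit 1) (nat_lit 5) (nat_lit 3) (nat_lit 4) (nat_lit 1) (nat_lit 4) (nat_lit 258) (nat_lit 210)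 (nat_lit 132))) (XT.nd (nat_lit 78) (nat_lit 0) (nat_lit 0) (XT.lf (nat_lit 0) (nat_lit 1690056905310) (nat_lit 152) (nat_lit 1537588624010) (nat_lit 0) (nat_lit 1656253786205) (nat_lit 1) (nat_lit 5) (nat_lit 3) (nat_lit 4) (nat_lit 1) (nat_lit 4) (nat_lit 259) (nat_lit 210) (nat_lit 131)) (XT.lf (nat_lit 0) (nat_lit 1964574057748) (nat_lit 152) (nat_lit 1717171071141) (nat_lit 0) (nat_lit 1930770867975) (nat_lit 1) (nat_lit 5) (nat_lit 3) (nat_lit 4) (nat_lit 1) (nat_lit 4) (nat_lit 260) (nat_lit 210) (nat_lit 130)))) (XT.nd (nat_lit 156) (nat_lit 0) (nat_lit 0) (XT.nd (nat_lit 78) (nat_lit 0) (nat_lit 0) (XT.lf (nat_lit 0) (nat_lit 2280268681127) (nat_lit 152) (nat_lit 1923691084885) (nat_lit 0) (nat_lit 2246465429902) (nat_lit 1) (nat_lit 5) (nat_lit 3) (nat_lit 4) (nat_lit 1) (nat_lit 4) (nat_lit 261) (nat_lit 210) (nat_lit 129)) (XT.lf (nat_lit 0) (nat_lit 2643317409380) (nat_lit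 152) (nat_lit 2161189274206) (nat_lit 0) (nat_lit 2609514104720) (nat_lit 1) (nat_lit 5) (nat_lit 3) (nat_lit 4) (nat_lit 1) (nat_lit 4) (nat_lit 262) (nat_lit 210) (nat_lit 128))) (XT.nd (nat_lit 78) (nat_lit 0) (nat_lit 0) (XT.lf (nat_lit 0) (nat_lit 3060823369801) (nat_lit 152) (nat_lit 2434312342809) (nat_lit 0) (nat_lit 3027020018675) (nat_lit 1) (nat_lit 5) (nat_lit 3) (nat_lit 4) (nat_lit 1) (nat_lit 4) (nat_lit 263) (nat_lit 210) (nat_lit 127)) (XT.lf (nat_lit 0) (nat_lit 3540955157267) (nat_lit 152) (nat_lit 2748404002906) (nat_lit 0) (nat_lit 3507151765736) (nat_lit 1) (nat_lit 5) (nat_lit 3) (nat_lit 4) (nat_lit 1) (nat_lit 4) (nat_lit 264) (nat_lit 210) (nat_lit 126)))))))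
noncomputable def xc58 : XT := (XT.nd (nat_lit 27300) (nat_lit 0) (nat_lit 304) (XT.nd (nat_lit 624) (nat_lit 0) (nat_lit 0) (XT.nd (nat_lit 312) (nat_lit 0) (nat_lit 0) (XT.nd (nat_lit 156) (nat_lit 0) (nat_lit 0) (XT.nd (nat_lit 78) (nat_lit 0) (nat_lit 0) (XT.lf (nat_lit 0) (nat_lit 4093106654577) (nat_lit 152) (nat_lit 3109609526106) (nat_lit 0) (nat_lit 4059303227911) (nat_lit 1) (nat_lit 5) (nat_lit 3) (nat_lit 4) (nat_lit 1) (nat_lit 4) (nat_lit 265) (nat_lit 210) (nat_lit 125)) (XT.lf (nat_lit 0) (nat_lit 4728080825807) (nat_lit 152) (nat_lit 3524995976995) (nat_lit 0) (nat_lit 4694277368589) (nat_lit 1) (nat_lit 5) (nat_lit 3) (nat_lit 4) (nat_lit 1) (nat_lit 4) (nat_lit 266) (nat_lit 210) (nat_lit 124))) (XT.nd (nat_lit 78) (nat_lit 0) (nat_lit 0) (XT.lf (nat_lit 0) (nat_lit 5458301078657) (nat_lit 152) (nat_lit 4002690481785) (nat_lit 0) (nat_lit 5424497594872) (nat_lit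 1) (nat_lit 5) (nat_lit 3) (nat_lit 4) (nat_lit 1) (nat_lit 4) (nat_lit 267) (nat_lit 210) (nat_lit 123)) (XT.lf (nat_lit 0) (nat_lit 6298054331116) (nat_lit 152) (nat_lit 4552039237309) (nat_lit 0) (nat_lit 6264250824229) (nat_lit 1) (nat_lit 5) (nat_lit 3) (nat_lit 4) (nat_lit 1) (nat_lit 4) (nat_lit 268) (nat_lit 210) (nat_lit 122)))) (XT.nd (nat_lit 156) (nat_lit 0) (nat_lit 0) (XT.nd (nat_lit 78) (nat_lit 0) (nat_lit 0) (XT.lf (nat_lit 0) (nat_lit 7263770538125) (nat_lit 152) (nat_lit 5183790371393) (nat_lit 0) (nat_lit 7229967011149) (nat_lit 1) (nat_lit 5) (nat_lit 3) (nat_lit 4) (nat_lit 1) (nat_lit 4) (nat_lit 269) (nat_lit 210) (nat_lit 121)) (XT.lf (nat_lit 0) (nat_lit 8374344147211) (nat_lit 152) (nat_lit 5910304232312) (nat_lit 0) (nat_lit 8340540602767) (nat_lit 1) (nat_lit 5) (nat_lit 3) (nat_lit 4) (nat_lit 1) (nat_lit 4) (nat_lit 270) (nat_lit 210) (nat_lit 120)))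 (XT.nd (nat_lit 78) (nat_lit 0) (nat_lit 0) (XT.lf (nat_lit 0) (nat_lit 9651503772465) (nat_lit 152) (nat_lit 6745795221693) (nat_lit 0) (nat_lit 9617700212832) (nat_lit 1) (nat_lit 5) (nat_lit 3) (nat_lit 4) (nat_lit 1) (nat_lit 4) (nat_lit 271) (nat_lit 210) (nat_lit 119)) (XT.lf (nat_lit 0) (nat_lit 11120237319599) (nat_lit 152) (nat_lit 7706609902372) (nat_lit 0) (nat_lit 11086433746757) (nat_lit 1) (nat_lit 5) (nat_lit 3) (nat_lit 4) (nat_lit 1) (nat_lit 4) (nat_lit 272) (nat_lit 210) (nat_lit 118))))) (XT.nd (nat_lit 624) (nat_lit 0) (nat_lit 0) (XT.nd (nat_lit 156) (nat_lit 0) (nat_lit 0) (XT.nd (nat_lit 78) (nat_lit 0) (nat_lit 0) (XT.lf (nat_lit 0) (nat_lit 12809280879753) (nat_lit 152) (nat_lit 8811546822448) (nat_lit 0) (nat_lit 12775477295425) (nat_lit 1) (nat_lit 5) (nat_lit 3) (nat_lit 4) (nat_lit 1) (nat_lit 4) (nat_lit 273) (nat_lit 210) (nat_lit 117)) (XT.lf (nat_lit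 0) (nat_lit 14751680957364) (nat_lit 152) (nat_lit 10082224312967) (nat_lit 0) (nat_lit 14717877363048) (nat_lit 1) (nat_lit 5) (nat_lit 3) (nat_lit 4) (nat_lit 1) (nat_lit 4) (nat_lit 274) (nat_lit 210) (nat_lit 116))) (XT.nd (nat_lit 78) (nat_lit 0) (nat_lit 0) (XT.lf (nat_lit 0) (nat_lit 16985441032211) (nat_lit 152) (nat_lit 11543503455266) (nat_lit 0) (nat_lit 16951637429211) (nat_lit 1) (nat_lit 5) (nat_lit 3) (nat_lit 4) (nat_lit 1) (nat_lit 4) (nat_lit 275) (nat_lit 210) (nat_lit 115)) (XT.lf (nat_lit 0) (nat_lit 19554265105759) (nat_lit 152) (nat_lit 13223974493432) (nat_lit 0) (nat_lit 19520461495207) (nat_lit 1) (nat_lit 5) (nat_lit 3) (nat_lit 4) (nat_lit 1) (nat_lit 4) (nat_lit 276) (nat_lit 210) (nat_lit 114)))) (XT.nd (nat_lit 25896) (nat_lit 0) (nat_lit 1140) (XT.nd (nat_lit 25818) (nat_lit 0) (nat_lit 1444) (XT.lf (nat_lit 0) (nat_lit 39472254893044) (nat_lit 152)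 (nat_lit 26253907709860) (nat_lit 0) (nat_lit 39438451257177) (nat_lit 1) (nat_lit 5) (nat_lit 3) (nat_lit 4) (nat_lit 1) (nat_lit 4) (nat_lit 281) (nat_lit 210) (nat_lit 109)) (XT.lf (nat_lit 0) (nat_lit 4578518994) (nat_lit 0) (nat_lit 4578518994) (nat_lit 228) (nat_lit 427300980) (nat_lit 20) (nat_lit 5) (nat_lit 20) (nat_lit 3) (nat_lit 23) (nat_lit 3) (nat_lit 211) (nat_lit 211) (nat_lit 178))) (XT.nd (nat_lit 78) (nat_lit 304) (nat_lit 0) (XT.lf (nat_lit 0) (nat_lit 18837978085) (nat_lit 0) (nat_lit 1000413497) (nat_lit 228) (nat_lit 743782028) (nat_lit 20) (nat_lit 5) (nat_lit 20) (nat_lit 3) (nat_lit 23) (nat_lit 3) (nat_lit 212) (nat_lit 211) (nat_lit 177)) (XT.lf (nat_lit 0) (nat_lit 126541648) (nat_lit 304) (nat_lit 13994075857) (nat_lit 380) (nat_lit 7987941444) (nat_lit 16) (nat_lit 5) (nat_lit 20) (nat_lit 5) (nat_lit 21) (nat_lit 5) (nat_lit 213) (nat_lit 211) (nat_lit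 176)))))) (XT.nd (nat_lit 624) (nat_lit 456) (nat_lit 0) (XT.nd (nat_lit 312) (nat_lit 228) (nat_lit 0) (XT.nd (nat_lit 156) (nat_lit 152) (nat_lit 0) (XT.nd (nat_lit 78) (nat_lit 0) (nat_lit 76) (XT.lf (nat_lit 0) (nat_lit 1169497415) (nat_lit 304) (nat_lit 4309727808) (nat_lit 380) (nat_lit 18361836735) (nat_lit 16) (nat_lit 5) (nat_lit 20) (nat_lit 5) (nat_lit 21) (nat_lit 5) (nat_lit 214) (nat_lit 211) (nat_lit 175)) (XT.lf (nat_lit 0) (nat_lit 2856287722) (nat_lit 304) (nat_lit 18514660819) (nat_lit 76) (nat_lit 4389563634) (nat_lit 17) (nat_lit 5) (nat_lit 21) (nat_lit 5) (nat_lit 18) (nat_lit 5) (nat_lit 215) (nat_lit 211) (nat_lit 174))) (XT.nd (nat_lit 78) (nat_lit 228) (nat_lit 0) (XT.lf (nat_lit 0) (nat_lit 5273604552) (nat_lit 304) (nat_lit 7206490319) (nat_lit 76) (nat_lit 15416315755) (nat_lit 17) (nat_lit 5) (nat_lit 21) (nat_lit 5) (nat_lit 18) (nat_lit 5) (nat_lit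 216) (nat_lit 211) (nat_lit 173)) (XT.lf (nat_lit 0) (nat_lit 6345541529) (nat_lit 228) (nat_lit 1953848882) (nat_lit 304) (nat_lit 22016559140) (nat_lit 14) (nat_lit 5) (nat_lit 17) (nat_lit 5) (nat_lit 18) (nat_lit 5) (nat_lit 217) (nat_lit 211) (nat_lit 172)))) (XT.nd (nat_lit 156) (nat_lit 76) (nat_lit 0) (XT.nd (nat_lit 78) (nat_lit 152) (nat_lit 0) (XT.lf (nat_lit 0) (nat_lit 12578618353) (nat_lit 304) (nat_lit 10758786473) (nat_lit 76) (nat_lit 9641196995) (nat_lit 14) (nat_lit 5) (nat_lit 18) (nat_lit 5) (nat_lit 15) (nat_lit 5) (nat_lit 218) (nat_lit 211) (nat_lit 171)) (XT.lf (nat_lit 0) (nat_lit 4747804001) (nat_lit 152) (nat_lit 13028161584) (nat_lit 228) (nat_lit 18223354244) (nat_lit 12) (nat_lit 5) (nat_lit 14) (nat_lit 5) (nat_lit 15) (nat_lit 5) (nat_lit 219) (nat_lit 211) (nat_lit 170))) (XT.nd (nat_lit 78) (nat_lit 76) (nat_lit 0) (XT.lf (nat_lit 0) (nat_lit 23773853900)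 (nat_lit 152) (nat_lit 529149544) (nat_lit 228) (nat_lit 15087718519) (nat_lit 12) (nat_lit 5) (nat_lit 14) (nat_lit 5) (nat_lit 15) (nat_lit 5) (nat_lit 220) (nat_lit 211) (nat_lit 169)) (XT.lf (nat_lit 0) (nat_lit 1947927159) (nat_lit 76) (nat_lit 30504290291) (nat_lit 152) (nat_lit 10742226905) (nat_lit 11) (nat_lit 5) (nat_lit 12) (nat_lit 5) (nat_lit 13) (nat_lit 4) (nat_lit 221) (nat_lit 211) (nat_lit 168))))) (XT.nd (nat_lit 312) (nat_lit 228) (nat_lit 0) (XT.nd (nat_lit 156) (nat_lit 152) (nat_lit 0) (XT.nd (nat_lit 78) (nat_lit 76) (nat_lit 0) (XT.lf (nat_lit 0) (nat_lit 23860407379) (nat_lit 76) (nat_lit 18793786470) (nat_lit 152) (nat_lit 4790042043) (nat_lit 11) (nat_lit 5) (nat_lit 12) (nat_lit 5) (nat_lit 13) (nat_lit 4) (nat_lit 222) (nat_lit 211) (nat_lit 167)) (XT.lf (nat_lit 0) (nat_lit 1862851885) (nat_lit 152) (nat_lit 3370382291) (nat_lit 76) (nat_lit 47086925126)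 (nat_lit 10) (nat_lit 5) (nat_lit 12) (nat_lit 5) (nat_lit 11) (nat_lit 5) (nat_lit 223) (nat_lit 211) (nat_lit 166))) (XT.nd (nat_lit 78) (nat_lit 0) (nat_lit 0) (XT.lf (nat_lit 0) (nat_lit 10390052970) (nat_lit 228) (nat_lit 36688776995) (nat_lit 76) (nat_lit 10609453954) (nat_lit 8) (nat_lit 5) (nat_lit 11) (nat_lit 5) (nat_lit 9) (nat_lit 4) (nat_lit 224) (nat_lit 211) (nat_lit 165)) (XT.lf (nat_lit 0) (nat_lit 20622544568) (nat_lit 228) (nat_lit 14701366579) (nat_lit 76) (nat_lit 28473823312) (nat_lit 8) (nat_lit 5) (nat_lit 11) (nat_lit 5) (nat_lit 9) (nat_lit 4) (nat_lit 225) (nat_lit 211) (nat_lit 164)))) (XT.nd (nat_lit 156) (nat_lit 152) (nat_lit 0) (XT.nd (nat_lit 78) (nat_lit 0) (nat_lit 0) (XT.lf (nat_lit 0) (nat_lit 11606832751) (nat_lit 76) (nat_lit 21257117578) (nat_lit 152) (nat_lit 37888579909) (nat_lit 7) (nat_lit 5) (nat_lit 8) (nat_lit 5) (nat_lit 9) (nat_lit 4)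 (nat_lit 226) (nat_lit 211) (nat_lit 163)) (XT.lf (nat_lit 0) (nat_lit 43503335729) (nat_lit 76) (nat_lit 4200574755) (nat_lit 152) (nat_lit 30932312697) (nat_lit 7) (nat_lit 5) (nat_lit 8) (nat_lit 5) (nat_lit 9) (nat_lit 4) (nat_lit 227) (nat_lit 211) (nat_lit 162))) (XT.nd (nat_lit 78) (nat_lit 152) (nat_lit 0) (XT.lf (nat_lit 0) (nat_lit 65402662793) (nat_lit 152) (nat_lit 8165950785) (nat_lit 0) (nat_lit 14038962269) (nat_lit 7) (nat_lit 5) (nat_lit 9) (nat_lit 4) (nat_lit 7) (nat_lit 4) (nat_lit 228) (nat_lit 211) (nat_lit 161)) (XT.nd (nat_lit 78) (nat_lit 76) (nat_lit 0) (XT.lf (nat_lit 0) (nat_lit 24850047862) (nat_lit 76) (nat_lit 62130428549) (nat_lit 76) (nat_lit 10760539907) (nat_lit 6) (nat_lit 4) (nat_lit 7) (nat_lit 5) (nat_lit 7) (nat_lit 4) (nat_lit 229) (nat_lit 211) (nat_lit 160)) (XT.lf (nat_lit 0) (nat_lit 2629261842) (nat_lit 152) (nat_lit 45722356654) (nat_lit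 76) (nat_lit 60961589141) (nat_lit 5) (nat_lit 5) (nat_lit 7) (nat_lit 5) (nat_lit 6) (nat_lit 4) (nat_lit 230) (nat_lit 211) (nat_lit 159))))))))
noncomputable def xc59 : XT := (XT.nd (nat_lit 2496) (nat_lit 0) (nat_lit 0) (XT.nd (nat_lit 1248) (nat_lit 0) (nat_lit 0) (XT.nd (nat_lit 624) (nat_lit 152) (nat_lit 0) (XT.nd (nat_lit 312) (nat_lit 76) (nat_lit 0) (XT.nd (nat_lit 156) (nat_lit 0) (nat_lit 0) (XT.nd (nat_lit 78) (nat_lit 76) (nat_lit 0) (XT.lf (nat_lit 0) (nat_lit 16921770625) (nat_lit 152) (nat_lit 14998141877) (nat_lit 76) (nat_lit 90625082068) (nat_lit 5) (nat_lit 5) (nat_lit 7) (nat_lit 5) (nat_lit 6) (nat_lit 4) (nat_lit 231) (nat_lit 211) (nat_lit 158)) (XT.lf (nat_lit 0) (nat_lit 22315009259) (nat_lit 76) (nat_lit 11963607843) (nat_lit 152) (nat_lit 103344875914) (nat_lit 4) (nat_lit 5) (nat_lit 5) (nat_lit 5) (nat_lit 6) (nat_lit 4) (nat_lit 232) (nat_lit 211) (nat_lit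 157))) (XT.nd (nat_lit 78) (nat_lit 0) (nat_lit 0) (XT.lf (nat_lit 0) (nat_lit 55511776115) (nat_lit 152) (nat_lit 88434138135) (nat_lit 0) (nat_lit 10826945168) (nat_lit 4) (nat_lit 5) (nat_lit 6) (nat_lit 4) (nat_lit 4) (nat_lit 4) (nat_lit 233) (nat_lit 211) (nat_lit 156)) (XT.lf (nat_lit 0) (nat_lit 80496601123) (nat_lit 152) (nat_lit 58103940540) (nat_lit 0) (nat_lit 35809094882) (nat_lit 4) (nat_lit 5) (nat_lit 6) (nat_lit 4) (nat_lit 4) (nat_lit 4) (nat_lit 234) (nat_lit 211) (nat_lit 155)))) (XT.nd (nat_lit 156) (nat_lit 0) (nat_lit 0) (XT.nd (nat_lit 78) (nat_lit 76) (nat_lit 0) (XT.lf (nat_lit 0) (nat_lit 109226538173) (nat_lit 152) (nat_lit 23229086573) (nat_lit 0) (nat_lit 64536705588) (nat_lit 4) (nat_lit 5) (nat_lit 6) (nat_lit 4) (nat_lit 4) (nat_lit 4) (nat_lit 235) (nat_lit 211) (nat_lit 154)) (XT.lf (nat_lit 0) (nat_lit 18521686472) (nat_lit 76) (nat_lit 124508951793)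 (nat_lit 76) (nat_lit 79817096302) (nat_lit 3) (nat_lit 4) (nat_lit 4) (nat_lit 5) (nat_lit 4) (nat_lit 4) (nat_lit 236) (nat_lit 211) (nat_lit 153))) (XT.nd (nat_lit 78) (nat_lit 0) (nat_lit 0) (XT.lf (nat_lit 0) (nat_lit 69141663041) (nat_lit 76) (nat_lit 113975795716) (nat_lit 76) (nat_lit 69282181175) (nat_lit 3) (nat_lit 4) (nat_lit 4) (nat_lit 5) (nat_lit 4) (nat_lit 4) (nat_lit 237) (nat_lit 211) (nat_lit 152)) (XT.lf (nat_lit 0) (nat_lit 127351118699) (nat_lit 76) (nat_lit 101864320733) (nat_lit 76) (nat_lit 57169176583) (nat_lit 3) (nat_lit 4) (nat_lit 4) (nat_lit 5) (nat_lit 4) (nat_lit 4) (nat_lit 238) (nat_lit 211) (nat_lit 151))))) (XT.nd (nat_lit 312) (nat_lit 76) (nat_lit 0) (XT.nd (nat_lit 156) (nat_lit 76) (nat_lit 0) (XT.nd (nat_lit 78) (nat_lit 0) (nat_lit 0) (XT.lf (nat_lit 0) (nat_lit 194288934100) (nat_lit 76) (nat_lit 87937563202) (nat_lit 76) (nat_lit 43241088959)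 (nat_lit 3) (nat_lit 4) (nat_lit 4) (nat_lit 5) (nat_lit 4) (nat_lit 4) (nat_lit 239) (nat_lit 211) (nat_lit 150)) (XT.lf (nat_lit 0) (nat_lit 271264762155) (nat_lit 76) (nat_lit 71923043087) (nat_lit 76) (nat_lit 27225412240) (nat_lit 3) (nat_lit 4) (nat_lit 4) (nat_lit 5) (nat_lit 4) (nat_lit 4) (nat_lit 240) (nat_lit 211) (nat_lit 149))) (XT.nd (nat_lit 78) (nat_lit 76) (nat_lit 0) (XT.lf (nat_lit 0) (nat_lit 359784651674) (nat_lit 76) (nat_lit 53507432819) (nat_lit 76) (nat_lit 8808796229) (nat_lit 3) (nat_lit 4) (nat_lit 4) (nat_lit 5) (nat_lit 4) (nat_lit 4) (nat_lit 241) (nat_lit 211) (nat_lit 148)) (XT.lf (nat_lit 0) (nat_lit 11267902762) (nat_lit 152) (nat_lit 20473520209) (nat_lit 76) (nat_lit 449723606768) (nat_lit 2) (nat_lit 5) (nat_lit 4) (nat_lit 5) (nat_lit 3) (nat_lit 4) (nat_lit 242) (nat_lit 211) (nat_lit 147)))) (XT.nd (nat_lit 156) (nat_lit 0) (nat_lit 0) (XT.nd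 (nat_lit 78) (nat_lit 0) (nat_lit 0) (XT.lf (nat_lit 0) (nat_lit 29884837122) (nat_lit 76) (nat_lit 4805911136) (nat_lit 152) (nat_lit 514794661056) (nat_lit 1) (nat_lit 5) (nat_lit 2) (nat_lit 5) (nat_lit 3) (nat_lit 4) (nat_lit 243) (nat_lit 211) (nat_lit 146)) (XT.lf (nat_lit 0) (nat_lit 63830876647) (nat_lit 152) (nat_lit 538586892640) (nat_lit 0) (nat_lit 24960500190) (nat_lit 1) (nat_lit 5) (nat_lit 3) (nat_lit 4) (nat_lit 1) (nat_lit 4) (nat_lit 244) (nat_lit 211) (nat_lit 145))) (XT.nd (nat_lit 78) (nat_lit 0) (nat_lit 0) (XT.lf (nat_lit 0) (nat_lit 97570047826) (nat_lit 152) (nat_lit 560651637761) (nat_lit 0) (nat_lit 58699171337) (nat_lit 1) (nat_lit 5) (nat_lit 3) (nat_lit 4) (nat_lit 1) (nat_lit 4) (nat_lit 245) (nat_lit 211) (nat_lit 144)) (XT.lf (nat_lit 0) (nat_lit 136369373483) (nat_lit 152) (nat_lit 586027506560) (nat_lit 0) (nat_lit 97498062184) (nat_lit 1) (nat_lit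 5) (nat_lit 3) (nat_lit 4) (nat_lit 1) (nat_lit 4) (nat_lit 246) (nat_lit 211) (nat_lit 143)))))) (XT.nd (nat_lit 624) (nat_lit 0) (nat_lit 0) (XT.nd (nat_lit 312) (nat_lit 0) (nat_lit 0) (XT.nd (nat_lit 156) (nat_lit 0) (nat_lit 0) (XT.nd (nat_lit 78) (nat_lit 0) (nat_lit 0) (XT.lf (nat_lit 0) (nat_lit 180987970860) (nat_lit 152) (nat_lit 615210983426) (nat_lit 0) (nat_lit 142116281465) (nat_lit 1) (nat_lit 5) (nat_lit 3) (nat_lit 4) (nat_lit 1) (nat_lit 4) (nat_lit 247) (nat_lit 211) (nat_lit 142)) (XT.lf (nat_lit 0) (nat_lit 232298812512) (nat_lit 152) (nat_lit 648773049429) (nat_lit 0) (nat_lit 193426794339) (nat_lit 1) (nat_lit 5) (nat_lit 3) (nat_lit 4) (nat_lit 1) (nat_lit 4) (nat_lit 248) (nat_lit 211) (nat_lit 141))) (XT.nd (nat_lit 78) (nat_lit 0) (nat_lit 0) (XT.lf (nat_lit 0) (nat_lit 291305806213) (nat_lit 152) (nat_lit 687370353686) (nat_lit 0) (nat_lit 252433502144)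 (nat_lit 1) (nat_lit 5) (nat_lit 3) (nat_lit 4) (nat_lit 1) (nat_lit 4) (nat_lit 249) (nat_lit 211) (nat_lit 140)) (XT.lf (nat_lit 0) (nat_lit 359163436621) (nat_lit 152) (nat_lit 731758060845) (nat_lit 0) (nat_lit 320290883948) (nat_lit 1) (nat_lit 5) (nat_lit 3) (nat_lit 4) (nat_lit 1) (nat_lit 4) (nat_lit 250) (nat_lit 211) (nat_lit 139)))) (XT.nd (nat_lit 156) (nat_lit 0) (nat_lit 0) (XT.nd (nat_lit 78) (nat_lit 0) (nat_lit 0) (XT.lf (nat_lit 0) (nat_lit 437199353027) (nat_lit 152) (nat_lit 782804626046) (nat_lit 0) (nat_lit 398326584176) (nat_lit 1) (nat_lit 5) (nat_lit 3) (nat_lit 4) (nat_lit 1) (nat_lit 4) (nat_lit 251) (nat_lit 211) (nat_lit 138)) (XT.lf (nat_lit 0) (nat_lit 526940345099) (nat_lit 152) (nat_lit 841508786436) (nat_lit 0) (nat_lit 488067388268) (nat_lit 1) (nat_lit 5) (nat_lit 3) (nat_lit 4) (nat_lit 1) (nat_lit 4) (nat_lit 252) (nat_lit 211) (nat_lit 137)))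 (XT.nd (nat_lit 78) (nat_lit 0) (nat_lit 0) (XT.lf (nat_lit 0) (nat_lit 630142214857) (nat_lit 152) (nat_lit 909019101672) (nat_lit 0) (nat_lit 591269094565) (nat_lit 1) (nat_lit 5) (nat_lit 3) (nat_lit 4) (nat_lit 1) (nat_lit 4) (nat_lit 253) (nat_lit 211) (nat_lit 136)) (XT.lf (nat_lit 0) (nat_lit 748824129317) (nat_lit 152) (nat_lit 986656425750) (nat_lit 0) (nat_lit 709950866885) (nat_lit 1) (nat_lit 5) (nat_lit 3) (nat_lit 4) (nat_lit 1) (nat_lit 4) (nat_lit 254) (nat_lit 211) (nat_lit 135))))) (XT.nd (nat_lit 312) (nat_lit 0) (nat_lit 0) (XT.nd (nat_lit 156) (nat_lit 0) (nat_lit 0) (XT.nd (nat_lit 78) (nat_lit 0) (nat_lit 0) (XT.lf (nat_lit 0) (nat_lit 885308125936) (nat_lit 152) (nat_lit 1075939749793) (nat_lit 0) (nat_lit 846434739904) (nat_lit 1) (nat_lit 5) (nat_lit 3) (nat_lit 4) (nat_lit 1) (nat_lit 4) (nat_lit 255) (nat_lit 211) (nat_lit 134)) (XT.lf (nat_lit 0) (nat_lit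 1042264543779) (nat_lit 152) (nat_lit 1178615921444) (nat_lit 0) (nat_lit 1003391050268) (nat_lit 1) (nat_lit 5) (nat_lit 3) (nat_lit 4) (nat_lit 1) (nat_lit 4) (nat_lit 256) (nat_lit 211) (nat_lit 133))) (XT.nd (nat_lit 78) (nat_lit 0) (nat_lit 0) (XT.lf (nat_lit 0) (nat_lit 1222764269282) (nat_lit 152) (nat_lit 1296693822324) (nat_lit 0) (nat_lit 1183890682312) (nat_lit 1) (nat_lit 5) (nat_lit 3) (nat_lit 4) (nat_lit 1) (nat_lit 4) (nat_lit 257) (nat_lit 211) (nat_lit 132)) (XT.lf (nat_lit 0) (nat_lit 1430338818813) (nat_lit 152) (nat_lit 1432483672231) (nat_lit 0) (nat_lit 1391465150573) (nat_lit 1) (nat_lit 5) (nat_lit 3) (nat_lit 4) (nat_lit 1) (nat_lit 4) (nat_lit 258) (nat_lit 211) (nat_lit 131)))) (XT.nd (nat_lit 156) (nat_lit 0) (nat_lit 0) (XT.nd (nat_lit 78) (nat_lit 0) (nat_lit 0) (XT.lf (nat_lit 0) (nat_lit 1669049433558) (nat_lit 152) (nat_lit 1588642229099) (nat_lit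 0) (nat_lit 1630175694650) (nat_lit 1) (nat_lit 5) (nat_lit 3) (nat_lit 4) (nat_lit 1) (nat_lit 4) (nat_lit 259) (nat_lit 211) (nat_lit 130)) (XT.lf (nat_lit 0) (nat_lit 1943566538589) (nat_lit 152) (nat_lit 1768224769041) (nat_lit 0) (nat_lit 1904692738230) (nat_lit 1) (nat_lit 5) (nat_lit 3) (nat_lit 4) (nat_lit 1) (nat_lit 4) (nat_lit 260) (nat_lit 211) (nat_lit 129))) (XT.nd (nat_lit 78) (nat_lit 0) (nat_lit 0) (XT.lf (nat_lit 0) (nat_lit 2259261120744) (nat_lit 152) (nat_lit 1974744863490) (nat_lit 0) (nat_lit 2220387266949) (nat_lit 1) (nat_lit 5) (nat_lit 3) (nat_lit 4) (nat_lit 1) (nat_lit 4) (nat_lit 261) (nat_lit 211) (nat_lit 128)) (XT.lf (nat_lit 0) (nat_lit 2622309813151) (nat_lit 152) (nat_lit 2212243122990) (nat_lit 0) (nat_lit 2583435912890) (nat_lit 1) (nat_lit 5) (nat_lit 3) (nat_lit 4) (nat_lit 1) (nat_lit 4) (nat_lit 262) (nat_lit 211) (nat_lit 127))))))) (XT.nd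 (nat_lit 27534) (nat_lit 0) (nat_lit 380) (XT.nd (nat_lit 624) (nat_lit 0) (nat_lit 0) (XT.nd (nat_lit 312) (nat_lit 0) (nat_lit 0) (XT.nd (nat_lit 156) (nat_lit 0) (nat_lit 0) (XT.nd (nat_lit 78) (nat_lit 0) (nat_lit 0) (XT.lf (nat_lit 0) (nat_lit 3039815742400) (nat_lit 152) (nat_lit 2485366252617) (nat_lit 0) (nat_lit 3000941801734) (nat_lit 1) (nat_lit 5) (nat_lit 3) (nat_lit 4) (nat_lit 1) (nat_lit 4) (nat_lit 263) (nat_lit 211) (nat_lit 126)) (XT.lf (nat_lit 0) (nat_lit 3519947502761) (nat_lit 152) (nat_lit 2799457965779) (nat_lit 0) (nat_lit 3481073526960) (nat_lit 1) (nat_lit 5) (nat_lit 3) (nat_lit 4) (nat_lit 1) (nat_lit 4) (nat_lit 264) (nat_lit 211) (nat_lit 125))) (XT.nd (nat_lit 78) (nat_lit 0) (nat_lit 0) (XT.lf (nat_lit 0) (nat_lit 4072098976501) (nat_lit 152) (nat_lit 3160663535122) (nat_lit 0) (nat_lit 4033224970148) (nat_lit 1) (nat_lit 5) (nat_lit 3) (nat_lit 4)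 (nat_lit 1) (nat_lit 4) (nat_lit 265) (nat_lit 211) (nat_lit 124)) (XT.lf (nat_lit 0) (nat_lit 4707073127236) (nat_lit 152) (nat_lit 3576050026136) (nat_lit 0) (nat_lit 4668199094315) (nat_lit 1) (nat_lit 5) (nat_lit 3) (nat_lit 4) (nat_lit 1) (nat_lit 4) (nat_lit 266) (nat_lit 211) (nat_lit 123)))) (XT.nd (nat_lit 156) (nat_lit 0) (nat_lit 0) (XT.nd (nat_lit 78) (nat_lit 0) (nat_lit 0) (XT.lf (nat_lit 0) (nat_lit 5437293362263) (nat_lit 152) (nat_lit 4053744565817) (nat_lit 0) (nat_lit 5398419306241) (nat_lit 1) (nat_lit 5) (nat_lit 3) (nat_lit 4) (nat_lit 1) (nat_lit 4) (nat_lit 267) (nat_lit 211) (nat_lit 122)) (XT.lf (nat_lit 0) (nat_lit 6277046599225) (nat_lit 152) (nat_lit 4603093351681) (nat_lit 0) (nat_lit 6238172523115) (nat_lit 1) (nat_lit 5) (nat_lit 3) (nat_lit 4) (nat_lit 1) (nat_lit 4) (nat_lit 268) (nat_lit 211) (nat_lit 121))) (XT.nd (nat_lit 78) (nat_lit 0) (nat_lit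 0) (XT.lf (nat_lit 0) (nat_lit 7242762792757) (nat_lit 152) (nat_lit 5234844512147) (nat_lit 0) (nat_lit 7203888699179) (nat_lit 1) (nat_lit 5) (nat_lit 3) (nat_lit 4) (nat_lit 1) (nat_lit 4) (nat_lit 269) (nat_lit 211) (nat_lit 120)) (XT.lf (nat_lit 0) (nat_lit 8353336390125) (nat_lit 152) (nat_lit 5961358396008) (nat_lit 0) (nat_lit 8314462281356) (nat_lit 1) (nat_lit 5) (nat_lit 3) (nat_lit 4) (nat_lit 1) (nat_lit 4) (nat_lit 270) (nat_lit 211) (nat_lit 119))))) (XT.nd (nat_lit 312) (nat_lit 0) (nat_lit 0) (XT.nd (nat_lit 156) (nat_lit 0) (nat_lit 0) (XT.nd (nat_lit 78) (nat_lit 0) (nat_lit 0) (XT.lf (nat_lit 0) (nat_lit 9630496005189) (nat_lit 152) (nat_lit 6796849405338) (nat_lit 0) (nat_lit 9591621883212) (nat_lit 1) (nat_lit 5) (nat_lit 3) (nat_lit 4) (nat_lit 1) (nat_lit 4) (nat_lit 271) (nat_lit 211) (nat_lit 118)) (XT.lf (nat_lit 0) (nat_lit 11099229543462) (nat_lit 152)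 (nat_lit 7757664103364) (nat_lit 0) (nat_lit 11060355410000) (nat_lit 1) (nat_lit 5) (nat_lit 3) (nat_lit 4) (nat_lit 1) (nat_lit 4) (nat_lit 272) (nat_lit 211) (nat_lit 117))) (XT.nd (nat_lit 78) (nat_lit 0) (nat_lit 0) (XT.lf (nat_lit 0) (nat_lit 12788273095911) (nat_lit 152) (nat_lit 8862601038525) (nat_lit 0) (nat_lit 12749398952461) (nat_lit 1) (nat_lit 5) (nat_lit 3) (nat_lit 4) (nat_lit 1) (nat_lit 4) (nat_lit 273) (nat_lit 211) (nat_lit 116)) (XT.lf (nat_lit 0) (nat_lit 14730673166822) (nat_lit 152) (nat_lit 10133278542161) (nat_lit 0) (nat_lit 14691799014687) (nat_lit 1) (nat_lit 5) (nat_lit 3) (nat_lit 4) (nat_lit 1) (nat_lit 4) (nat_lit 274) (nat_lit 211) (nat_lit 115)))) (XT.nd (nat_lit 26442) (nat_lit 0) (nat_lit 1140) (XT.nd (nat_lit 26364) (nat_lit 0) (nat_lit 1444) (XT.lf (nat_lit 0) (nat_lit 16964433235843) (nat_lit 152) (nat_lit 11594557695865) (nat_lit 0) (nat_lit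 16925559076156) (nat_lit 1) (nat_lit 5) (nat_lit 3) (nat_lit 4) (nat_lit 1) (nat_lit 4) (nat_lit 275) (nat_lit 211) (nat_lit 114)) (XT.lf (nat_lit 0) (nat_lit 5337555473) (nat_lit 0) (nat_lit 5337555473) (nat_lit 228) (nat_lit 323723908) (nat_lit 20) (nat_lit 5) (nat_lit 20) (nat_lit 3) (nat_lit 23) (nat_lit 3) (nat_lit 212) (nat_lit 212) (nat_lit 176))) (XT.nd (nat_lit 78) (nat_lit 304) (nat_lit 0) (XT.lf (nat_lit 0) (nat_lit 21789341979) (nat_lit 0) (nat_lit 1276142703) (nat_lit 228) (nat_lit 563745474) (nat_lit 20) (nat_lit 5) (nat_lit 20) (nat_lit 3) (nat_lit 23) (nat_lit 3) (nat_lit 213) (nat_lit 212) (nat_lit 175)) (XT.lf (nat_lit 0) (nat_lit 378863245) (nat_lit 304) (nat_lit 15905079546) (nat_lit 380) (nat_lit 9103956156) (nat_lit 16) (nat_lit 5) (nat_lit 20) (nat_lit 5) (nat_lit 21) (nat_lit 5) (nat_lit 214) (nat_lit 212) (nat_lit 174)))))) (XT.nd (nat_lit 624) (nat_lit 380)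 (nat_lit 0) (XT.nd (nat_lit 312) (nat_lit 228) (nat_lit 0) (XT.nd (nat_lit 156) (nat_lit 152) (nat_lit 0) (XT.nd (nat_lit 78) (nat_lit 0) (nat_lit 76) (XT.lf (nat_lit 0) (nat_lit 1547826680) (nat_lit 304) (nat_lit 4792615075) (nat_lit 380) (nat_lit 21044654416) (nat_lit 16) (nat_lit 5) (nat_lit 20) (nat_lit 5) (nat_lit 21) (nat_lit 5) (nat_lit 215) (nat_lit 212) (nat_lit 173)) (XT.lf (nat_lit 0) (nat_lit 3466526625) (nat_lit 304) (nat_lit 21105710101) (nat_lit 76) (nat_lit 5023613886) (nat_lit 17) (nat_lit 5) (nat_lit 21) (nat_lit 5) (nat_lit 18) (nat_lit 5) (nat_lit 216) (nat_lit 212) (nat_lit 172))) (XT.nd (nat_lit 78) (nat_lit 228) (nat_lit 0) (XT.lf (nat_lit 0) (nat_lit 6222728491) (nat_lit 304) (nat_lit 8125594439) (nat_lit 76) (nat_lit 17707559385) (nat_lit 17) (nat_lit 5) (nat_lit 21) (nat_lit 5) (nat_lit 18) (nat_lit 5) (nat_lit 217) (nat_lit 212) (nat_lit 171)) (XT.lf (nat_lit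 0) (nat_lit 7451884484) (nat_lit 228) (nat_lit 2236276190) (nat_lit 304) (nat_lit 25152491257) (nat_lit 14) (nat_lit 5) (nat_lit 17) (nat_lit 5) (nat_lit 18) (nat_lit 5) (nat_lit 218) (nat_lit 212) (nat_lit 170)))) (XT.nd (nat_lit 156) (nat_lit 76) (nat_lit 0) (XT.nd (nat_lit 78) (nat_lit 152) (nat_lit 0) (XT.lf (nat_lit 0) (nat_lit 14590891712) (nat_lit 304) (nat_lit 12218899415) (nat_lit 76) (nat_lit 11095812967) (nat_lit 14) (nat_lit 5) (nat_lit 18) (nat_lit 5) (nat_lit 15) (nat_lit 5) (nat_lit 219) (nat_lit 212) (nat_lit 169)) (XT.lf (nat_lit 0) (nat_lit 5606693038) (nat_lit 152) (nat_lit 14950856253) (nat_lit 228) (nat_lit 20823550261) (nat_lit 12) (nat_lit 5) (nat_lit 14) (nat_lit 5) (nat_lit 15) (nat_lit 5) (nat_lit 220) (nat_lit 212) (nat_lit 168))) (XT.nd (nat_lit 78) (nat_lit 76) (nat_lit 0) (XT.lf (nat_lit 0) (nat_lit 27467513235) (nat_lit 152) (nat_lit 581104960) (nat_lit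 228) (nat_lit 17234957063) (nat_lit 12) (nat_lit 5) (nat_lit 14) (nat_lit 5) (nat_lit 15) (nat_lit 5) (nat_lit 221) (nat_lit 212) (nat_lit 167)) (XT.lf (nat_lit 0) (nat_lit 2375853523) (nat_lit 76) (nat_lit 35037903669) (nat_lit 152) (nat_lit 12245162646) (nat_lit 11) (nat_lit 5) (nat_lit 12) (nat_lit 5) (nat_lit 13) (nat_lit 4) (nat_lit 222) (nat_lit 212) (nat_lit 166))))) (XT.nd (nat_lit 312) (nat_lit 152) (nat_lit 0) (XT.nd (nat_lit 156) (nat_lit 152) (nat_lit 0) (XT.nd (nat_lit 78) (nat_lit 76) (nat_lit 0) (XT.lf (nat_lit 0) (nat_lit 27557500912) (nat_lit 76) (nat_lit 21576306470) (nat_lit 152) (nat_lit 5414288962) (nat_lit 11) (nat_lit 5) (nat_lit 12) (nat_lit 5) (nat_lit 13) (nat_lit 4) (nat_lit 223) (nat_lit 212) (nat_lit 165)) (XT.lf (nat_lit 0) (nat_lit 2216947289) (nat_lit 152) (nat_lit 3765588090) (nat_lit 76) (nat_lit 54174030086) (nat_lit 10) (nat_lit 5) (nat_lit 12) (nat_lit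 5) (nat_lit 11) (nat_lit 5) (nat_lit 224) (nat_lit 212) (nat_lit 164))) (XT.nd (nat_lit 78) (nat_lit 0) (nat_lit 0) (XT.lf (nat_lit 0) (nat_lit 12019343570) (nat_lit 228) (nat_lit 42077493910) (nat_lit 76) (nat_lit 12233708507) (nat_lit 8) (nat_lit 5) (nat_lit 11) (nat_lit 5) (nat_lit 9) (nat_lit 4) (nat_lit 225) (nat_lit 212) (nat_lit 163)) (XT.lf (nat_lit 0) (nat_lit 23777476387) (nat_lit 228) (nat_lit 16806919710) (nat_lit 76) (nat_lit 32773450253) (nat_lit 8) (nat_lit 5) (nat_lit 11) (nat_lit 5) (nat_lit 9) (nat_lit 4) (nat_lit 226) (nat_lit 212) (nat_lit 162)))) (XT.nd (nat_lit 156) (nat_lit 76) (nat_lit 0) (XT.nd (nat_lit 78) (nat_lit 0) (nat_lit 0) (XT.lf (nat_lit 0) (nat_lit 13442979890) (nat_lit 76) (nat_lit 24408023653) (nat_lit 152) (nat_lit 43505512560) (nat_lit 7) (nat_lit 5) (nat_lit 8) (nat_lit 5) (nat_lit 9) (nat_lit 4) (nat_lit 227) (nat_lit 212) (nat_lit 161)) (XT.lf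 (nat_lit 0) (nat_lit 50111551068) (nat_lit 76) (nat_lit 4797911785) (nat_lit 152) (nat_lit 35514460179) (nat_lit 7) (nat_lit 5) (nat_lit 8) (nat_lit 5) (nat_lit 9) (nat_lit 4) (nat_lit 228) (nat_lit 212) (nat_lit 160))) (XT.nd (nat_lit 78) (nat_lit 76) (nat_lit 0) (XT.lf (nat_lit 0) (nat_lit 75257689924) (nat_lit 152) (nat_lit 9313371635) (nat_lit 0) (nat_lit 16170748893) (nat_lit 7) (nat_lit 5) (nat_lit 9) (nat_lit 4) (nat_lit 7) (nat_lit 4) (nat_lit 229) (nat_lit 212) (nat_lit 159)) (XT.lf (nat_lit 0) (nat_lit 28651505364) (nat_lit 76) (nat_lit 71417911339) (nat_lit 76) (nat_lit 12326291201) (nat_lit 6) (nat_lit 4) (nat_lit 7) (nat_lit 5) (nat_lit 7) (nat_lit 4) (nat_lit 230) (nat_lit 212) (nat_lit 158))))))))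
noncomputable def xc60 : XT := (XT.nd (nat_lit 1248) (nat_lit 0) (nat_lit 0) (XT.nd (nat_lit 624) (nat_lit 152) (nat_lit 0) (XT.nd (nat_lit 312) (nat_lit 76) (nat_lit 0) (XT.nd (nat_lit 156) (nat_lit 76) (nat_lit 0) (XT.nd (nat_lit 78) (nat_lit 0) (nat_lit 0) (XT.lf (nat_lit 0) (nat_lit 3061935508) (nat_lit 152) (nat_lit 52512527583) (nat_lit 76) (nat_lit 70129846522) (nat_lit 5) (nat_lit 5) (nat_lit 7) (nat_lit 5) (nat_lit 6) (nat_lit 4) (nat_lit 231) (nat_lit 212) (nat_lit 157)) (XT.lf (nat_lit 0) (nat_lit 19493326992) (nat_lit 152) (nat_lit 17188573969) (nat_lit 76) (nat_lit 104239730474) (nat_lit 5) (nat_lit 5) (nat_lit 7) (nat_lit 5) (nat_lit 6) (nat_lit 4) (nat_lit 232) (nat_lit 212) (nat_lit 156))) (XT.nd (nat_lit 78) (nat_lit 0) (nat_lit 0) (XT.lf (nat_lit 0) (nat_lit 25718854875) (nat_lit 76) (nat_lit 13732846737) (nat_lit 152) (nat_lit 118810518343) (nat_lit 4) (nat_lit 5)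 (nat_lit 5) (nat_lit 5) (nat_lit 6) (nat_lit 4) (nat_lit 233) (nat_lit 212) (nat_lit 155)) (XT.lf (nat_lit 0) (nat_lit 63866663974) (nat_lit 152) (nat_lit 101646786223) (nat_lit 0) (nat_lit 12471030159) (nat_lit 4) (nat_lit 5) (nat_lit 6) (nat_lit 4) (nat_lit 4) (nat_lit 4) (nat_lit 234) (nat_lit 212) (nat_lit 154)))) (XT.nd (nat_lit 156) (nat_lit 76) (nat_lit 0) (XT.nd (nat_lit 78) (nat_lit 0) (nat_lit 0) (XT.lf (nat_lit 0) (nat_lit 92595544720) (nat_lit 152) (nat_lit 66773903245) (nat_lit 0) (nat_lit 41197887998) (nat_lit 4) (nat_lit 5) (nat_lit 6) (nat_lit 4) (nat_lit 4) (nat_lit 4) (nat_lit 235) (nat_lit 212) (nat_lit 153)) (XT.lf (nat_lit 0) (nat_lit 125631782749) (nat_lit 152) (nat_lit 26673772711) (nat_lit 0) (nat_lit 74232366977) (nat_lit 4) (nat_lit 5) (nat_lit 6) (nat_lit 4) (nat_lit 4) (nat_lit 4) (nat_lit 236) (nat_lit 212) (nat_lit 152))) (XT.nd (nat_lit 78) (nat_lit 0)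 (nat_lit 0) (XT.lf (nat_lit 0) (nat_lit 21337812798) (nat_lit 76) (nat_lit 143167479767) (nat_lit 76) (nat_lit 91766534386) (nat_lit 3) (nat_lit 4) (nat_lit 4) (nat_lit 5) (nat_lit 4) (nat_lit 4) (nat_lit 237) (nat_lit 212) (nat_lit 151)) (XT.lf (nat_lit 0) (nat_lit 79545845849) (nat_lit 76) (nat_lit 131056673946) (nat_lit 76) (nat_lit 79654398472) (nat_lit 3) (nat_lit 4) (nat_lit 4) (nat_lit 5) (nat_lit 4) (nat_lit 4) (nat_lit 238) (nat_lit 212) (nat_lit 150))))) (XT.nd (nat_lit 312) (nat_lit 152) (nat_lit 0) (XT.nd (nat_lit 156) (nat_lit 0) (nat_lit 0) (XT.nd (nat_lit 78) (nat_lit 0) (nat_lit 0) (XT.lf (nat_lit 0) (nat_lit 146482424201) (nat_lit 76) (nat_lit 117130498297) (nat_lit 76) (nat_lit 65727066219) (nat_lit 3) (nat_lit 4) (nat_lit 4) (nat_lit 5) (nat_lit 4) (nat_lit 4) (nat_lit 239) (nat_lit 212) (nat_lit 149)) (XT.lf (nat_lit 0) (nat_lit 223457176561) (nat_lit 76) (nat_lit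 101116484165) (nat_lit 76) (nat_lit 49712046345) (nat_lit 3) (nat_lit 4) (nat_lit 4) (nat_lit 5) (nat_lit 4) (nat_lit 4) (nat_lit 240) (nat_lit 212) (nat_lit 148))) (XT.nd (nat_lit 78) (nat_lit 0) (nat_lit 0) (XT.lf (nat_lit 0) (nat_lit 311976130693) (nat_lit 76) (nat_lit 82701313883) (nat_lit 76) (nat_lit 31296001504) (nat_lit 3) (nat_lit 4) (nat_lit 4) (nat_lit 5) (nat_lit 4) (nat_lit 4) (nat_lit 241) (nat_lit 212) (nat_lit 147)) (XT.lf (nat_lit 0) (nat_lit 413771179176) (nat_lit 76) (nat_lit 61524690640) (nat_lit 76) (nat_lit 10118617775) (nat_lit 3) (nat_lit 4) (nat_lit 4) (nat_lit 5) (nat_lit 4) (nat_lit 4) (nat_lit 242) (nat_lit 212) (nat_lit 146)))) (XT.nd (nat_lit 156) (nat_lit 0) (nat_lit 0) (XT.nd (nat_lit 78) (nat_lit 76) (nat_lit 0) (XT.lf (nat_lit 0) (nat_lit 12967196234) (nat_lit 152) (nat_lit 23527262251) (nat_lit 76) (nat_lit 517188937318) (nat_lit 2) (nat_lit 5) (nat_lit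 4) (nat_lit 5) (nat_lit 3) (nat_lit 4) (nat_lit 243) (nat_lit 212) (nat_lit 145)) (XT.lf (nat_lit 0) (nat_lit 34384062953) (nat_lit 76) (nat_lit 5518900835) (nat_lit 152) (nat_lit 592003947137) (nat_lit 1) (nat_lit 5) (nat_lit 2) (nat_lit 5) (nat_lit 3) (nat_lit 4) (nat_lit 244) (nat_lit 212) (nat_lit 144))) (XT.nd (nat_lit 78) (nat_lit 0) (nat_lit 0) (XT.lf (nat_lit 0) (nat_lit 73413273612) (nat_lit 152) (nat_lit 619359723881) (nat_lit 0) (nat_lit 28710830808) (nat_lit 1) (nat_lit 5) (nat_lit 3) (nat_lit 4) (nat_lit 1) (nat_lit 4) (nat_lit 245) (nat_lit 212) (nat_lit 143)) (XT.lf (nat_lit 0) (nat_lit 112212307581) (nat_lit 152) (nat_lit 644736163726) (nat_lit 0) (nat_lit 67509486681) (nat_lit 1) (nat_lit 5) (nat_lit 3) (nat_lit 4) (nat_lit 1) (nat_lit 4) (nat_lit 246) (nat_lit 212) (nat_lit 142)))))) (XT.nd (nat_lit 624) (nat_lit 0) (nat_lit 0) (XT.nd (nat_lit 312) (nat_lit 0) (nat_lit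 0) (XT.nd (nat_lit 156) (nat_lit 0) (nat_lit 0) (XT.nd (nat_lit 78) (nat_lit 0) (nat_lit 0) (XT.lf (nat_lit 0) (nat_lit 156830651315) (nat_lit 152) (nat_lit 673920137153) (nat_lit 0) (nat_lit 112127501636) (nat_lit 1) (nat_lit 5) (nat_lit 3) (nat_lit 4) (nat_lit 1) (nat_lit 4) (nat_lit 247) (nat_lit 212) (nat_lit 141)) (XT.lf (nat_lit 0) (nat_lit 208141272410) (nat_lit 152) (nat_lit 707482634948) (nat_lit 0) (nat_lit 163437836836) (nat_lit 1) (nat_lit 5) (nat_lit 3) (nat_lit 4) (nat_lit 1) (nat_lit 4) (nat_lit 248) (nat_lit 212) (nat_lit 140))) (XT.nd (nat_lit 78) (nat_lit 0) (nat_lit 0) (XT.lf (nat_lit 0) (nat_lit 267148074321) (nat_lit 152) (nat_lit 746080314677) (nat_lit 0) (nat_lit 222444390143) (nat_lit 1) (nat_lit 5) (nat_lit 3) (nat_lit 4) (nat_lit 1) (nat_lit 4) (nat_lit 249) (nat_lit 212) (nat_lit 139)) (XT.lf (nat_lit 0) (nat_lit 335005537955) (nat_lit 152) (nat_lit 790468348333)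 (nat_lit 0) (nat_lit 290301637600) (nat_lit 1) (nat_lit 5) (nat_lit 3) (nat_lit 4) (nat_lit 1) (nat_lit 4) (nat_lit 250) (nat_lit 212) (nat_lit 138)))) (XT.nd (nat_lit 156) (nat_lit 0) (nat_lit 0) (XT.nd (nat_lit 78) (nat_lit 0) (nat_lit 0) (XT.lf (nat_lit 0) (nat_lit 413041309340) (nat_lit 152) (nat_lit 841515197445) (nat_lit 0) (nat_lit 368337221004) (nat_lit 1) (nat_lit 5) (nat_lit 3) (nat_lit 4) (nat_lit 1) (nat_lit 4) (nat_lit 251) (nat_lit 212) (nat_lit 137)) (XT.lf (nat_lit 0) (nat_lit 502782175308) (nat_lit 152) (nat_lit 900219604713) (nat_lit 0) (nat_lit 458077923511) (nat_lit 1) (nat_lit 5) (nat_lit 3) (nat_lit 4) (nat_lit 1) (nat_lit 4) (nat_lit 252) (nat_lit 212) (nat_lit 136))) (XT.nd (nat_lit 78) (nat_lit 0) (nat_lit 0) (XT.lf (nat_lit 0) (nat_lit 605983935409) (nat_lit 152) (nat_lit 967730134626) (nat_lit 0) (nat_lit 561279541472) (nat_lit 1) (nat_lit 5) (nat_lit 3)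 (nat_lit 4) (nat_lit 1) (nat_lit 4) (nat_lit 253) (nat_lit 212) (nat_lit 135)) (XT.lf (nat_lit 0) (nat_lit 724665754516) (nat_lit 152) (nat_lit 1045367645380) (nat_lit 0) (nat_lit 679961236978) (nat_lit 1) (nat_lit 5) (nat_lit 3) (nat_lit 4) (nat_lit 1) (nat_lit 4) (nat_lit 254) (nat_lit 212) (nat_lit 134))))) (XT.nd (nat_lit 312) (nat_lit 0) (nat_lit 0) (XT.nd (nat_lit 156) (nat_lit 0) (nat_lit 0) (XT.nd (nat_lit 78) (nat_lit 0) (nat_lit 0) (XT.lf (nat_lit 0) (nat_lit 861149668219) (nat_lit 152) (nat_lit 1134651131749) (nat_lit 0) (nat_lit 816445043203) (nat_lit 1) (nat_lit 5) (nat_lit 3) (nat_lit 4) (nat_lit 1) (nat_lit 4) (nat_lit 255) (nat_lit 212) (nat_lit 133)) (XT.lf (nat_lit 0) (nat_lit 1018106013961) (nat_lit 152) (nat_lit 1237327444554) (nat_lit 0) (nat_lit 973401295486) (nat_lit 1) (nat_lit 5) (nat_lit 3) (nat_lit 4) (nat_lit 1) (nat_lit 4) (nat_lit 256) (nat_lit 212) (nat_lit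 132))) (XT.nd (nat_lit 78) (nat_lit 0) (nat_lit 0) (XT.lf (nat_lit 0) (nat_lit 1198605676768) (nat_lit 152) (nat_lit 1355405468176) (nat_lit 0) (nat_lit 1153900877023) (nat_lit 1) (nat_lit 5) (nat_lit 3) (nat_lit 4) (nat_lit 1) (nat_lit 4) (nat_lit 257) (nat_lit 212) (nat_lit 131)) (XT.lf (nat_lit 0) (nat_lit 1406180171780) (nat_lit 152) (nat_lit 1491195424816) (nat_lit 0) (nat_lit 1361475301367) (nat_lit 1) (nat_lit 5) (nat_lit 3) (nat_lit 4) (nat_lit 1) (nat_lit 4) (nat_lit 258) (nat_lit 212) (nat_lit 130)))) (XT.nd (nat_lit 156) (nat_lit 0) (nat_lit 0) (XT.nd (nat_lit 78) (nat_lit 0) (nat_lit 0) (XT.lf (nat_lit 0) (nat_lit 1644890739118) (nat_lit 152) (nat_lit 1647354074495) (nat_lit 0) (nat_lit 1600185807253) (nat_lit 1) (nat_lit 5) (nat_lit 3) (nat_lit 4) (nat_lit 1) (nat_lit 4) (nat_lit 259) (nat_lit 212) (nat_lit 129)) (XT.lf (nat_lit 0) (nat_lit 1919407802925) (nat_lit 152)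 (nat_lit 1826936695142) (nat_lit 0) (nat_lit 1874702817625) (nat_lit 1) (nat_lit 5) (nat_lit 3) (nat_lit 4) (nat_lit 1) (nat_lit 4) (nat_lit 260) (nat_lit 212) (nat_lit 128))) (XT.nd (nat_lit 78) (nat_lit 0) (nat_lit 0) (XT.lf (nat_lit 0) (nat_lit 2235102349233) (nat_lit 152) (nat_lit 2033456859769) (nat_lit 0) (nat_lit 2190397317467) (nat_lit 1) (nat_lit 5) (nat_lit 3) (nat_lit 4) (nat_lit 1) (nat_lit 4) (nat_lit 261) (nat_lit 212) (nat_lit 127)) (XT.lf (nat_lit 0) (nat_lit 2598151010468) (nat_lit 152) (nat_lit 2270955180294) (nat_lit 0) (nat_lit 2553445938297) (nat_lit 1) (nat_lit 5) (nat_lit 3) (nat_lit 4) (nat_lit 1) (nat_lit 4) (nat_lit 262) (nat_lit 212) (nat_lit 126)))))))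
noncomputable def xc61 : XT := (XT.nd (nat_lit 27690) (nat_lit 0) (nat_lit 304) (XT.nd (nat_lit 624) (nat_lit 0) (nat_lit 0) (XT.nd (nat_lit 312) (nat_lit 0) (nat_lit 0) (XT.nd (nat_lit 156) (nat_lit 0) (nat_lit 0) (XT.nd (nat_lit 78) (nat_lit 0) (nat_lit 0) (XT.lf (nat_lit 0) (nat_lit 3015656912613) (nat_lit 152) (nat_lit 2544078362986) (nat_lit 0) (nat_lit 2970951805307) (nat_lit 1) (nat_lit 5) (nat_lit 3) (nat_lit 4) (nat_lit 1) (nat_lit 4) (nat_lit 263) (nat_lit 212) (nat_lit 125)) (XT.lf (nat_lit 0) (nat_lit 3495788649404) (nat_lit 152) (nat_lit 2858170122291) (nat_lit 0) (nat_lit 3451083511545) (nat_lit 1) (nat_lit 5) (nat_lit 3) (nat_lit 4) (nat_lit 1) (nat_lit 4) (nat_lit 264) (nat_lit 212) (nat_lit 124))) (XT.nd (nat_lit 78) (nat_lit 0) (nat_lit 0) (XT.lf (nat_lit 0) (nat_lit 4047940102648) (nat_lit 152) (nat_lit 3219375731759) (nat_lit 0) (nat_lit 4003234938222) (nat_lit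 1) (nat_lit 5) (nat_lit 3) (nat_lit 4) (nat_lit 1) (nat_lit 4) (nat_lit 265) (nat_lit 212) (nat_lit 123)) (XT.lf (nat_lit 0) (nat_lit 4682914235560) (nat_lit 152) (nat_lit 3634762257663) (nat_lit 0) (nat_lit 4638209048033) (nat_lit 1) (nat_lit 5) (nat_lit 3) (nat_lit 4) (nat_lit 1) (nat_lit 4) (nat_lit 266) (nat_lit 212) (nat_lit 122)))) (XT.nd (nat_lit 156) (nat_lit 0) (nat_lit 0) (XT.nd (nat_lit 78) (nat_lit 0) (nat_lit 0) (XT.lf (nat_lit 0) (nat_lit 5413134455090) (nat_lit 152) (nat_lit 4112456827684) (nat_lit 0) (nat_lit 5368429247475) (nat_lit 1) (nat_lit 5) (nat_lit 3) (nat_lit 4) (nat_lit 1) (nat_lit 4) (nat_lit 267) (nat_lit 212) (nat_lit 121)) (XT.lf (nat_lit 0) (nat_lit 6252887678576) (nat_lit 152) (nat_lit 4661805639931) (nat_lit 0) (nat_lit 6208182453492) (nat_lit 1) (nat_lit 5) (nat_lit 3) (nat_lit 4) (nat_lit 1) (nat_lit 4) (nat_lit 268) (nat_lit 212) (nat_lit 120)))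 (XT.nd (nat_lit 78) (nat_lit 0) (nat_lit 0) (XT.lf (nat_lit 0) (nat_lit 7218603860390) (nat_lit 152) (nat_lit 5293556823339) (nat_lit 0) (nat_lit 7173898620116) (nat_lit 1) (nat_lit 5) (nat_lit 3) (nat_lit 4) (nat_lit 1) (nat_lit 4) (nat_lit 269) (nat_lit 212) (nat_lit 119)) (XT.lf (nat_lit 0) (nat_lit 8329177447567) (nat_lit 152) (nat_lit 6020070727149) (nat_lit 0) (nat_lit 8284472194085) (nat_lit 1) (nat_lit 5) (nat_lit 3) (nat_lit 4) (nat_lit 1) (nat_lit 4) (nat_lit 270) (nat_lit 212) (nat_lit 118))))) (XT.nd (nat_lit 26754) (nat_lit 0) (nat_lit 1140) (XT.nd (nat_lit 156) (nat_lit 0) (nat_lit 0) (XT.nd (nat_lit 78) (nat_lit 0) (nat_lit 0) (XT.lf (nat_lit 0) (nat_lit 9606337053771) (nat_lit 152) (nat_lit 6855561753826) (nat_lit 0) (nat_lit 9561631788803) (nat_lit 1) (nat_lit 5) (nat_lit 3) (nat_lit 4) (nat_lit 1) (nat_lit 4) (nat_lit 271) (nat_lit 212) (nat_lit 117)) (XT.lf (nat_lit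 0) (nat_lit 11075070584339) (nat_lit 152) (nat_lit 7816376466936) (nat_lit 0) (nat_lit 11030365309384) (nat_lit 1) (nat_lit 5) (nat_lit 3) (nat_lit 4) (nat_lit 1) (nat_lit 4) (nat_lit 272) (nat_lit 212) (nat_lit 116))) (XT.nd (nat_lit 78) (nat_lit 0) (nat_lit 0) (XT.lf (nat_lit 0) (nat_lit 12764114130088) (nat_lit 152) (nat_lit 8921313415214) (nat_lit 0) (nat_lit 12719408846448) (nat_lit 1) (nat_lit 5) (nat_lit 3) (nat_lit 4) (nat_lit 1) (nat_lit 4) (nat_lit 273) (nat_lit 212) (nat_lit 115)) (XT.lf (nat_lit 0) (nat_lit 14706514195172) (nat_lit 152) (nat_lit 10191990930256) (nat_lit 0) (nat_lit 14661808903980) (nat_lit 1) (nat_lit 5) (nat_lit 3) (nat_lit 4) (nat_lit 1) (nat_lit 4) (nat_lit 274) (nat_lit 212) (nat_lit 114)))) (XT.nd (nat_lit 156) (nat_lit 304) (nat_lit 0) (XT.nd (nat_lit 78) (nat_lit 0) (nat_lit 0) (XT.lf (nat_lit 0) (nat_lit 6192826699) (nat_lit 0) (nat_lit 6192826699)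 (nat_lit 228) (nat_lit 245498208) (nat_lit 20) (nat_lit 5) (nat_lit 20) (nat_lit 3) (nat_lit 23) (nat_lit 3) (nat_lit 213) (nat_lit 213) (nat_lit 174)) (XT.lf (nat_lit 0) (nat_lit 25152765720) (nat_lit 0) (nat_lit 1562586552) (nat_lit 228) (nat_lit 427812885) (nat_lit 20) (nat_lit 5) (nat_lit 20) (nat_lit 3) (nat_lit 23) (nat_lit 3) (nat_lit 214) (nat_lit 213) (nat_lit 173))) (XT.nd (nat_lit 78) (nat_lit 0) (nat_lit 0) (XT.lf (nat_lit 0) (nat_lit 612131560) (nat_lit 304) (nat_lit 18148605040) (nat_lit 380) (nat_lit 10407412337) (nat_lit 16) (nat_lit 5) (nat_lit 20) (nat_lit 5) (nat_lit 21) (nat_lit 5) (nat_lit 215) (nat_lit 213) (nat_lit 172)) (XT.lf (nat_lit 0) (nat_lit 1933425750) (nat_lit 304) (nat_lit 5387823477) (nat_lit 380) (nat_lit 24147320193) (nat_lit 16) (nat_lit 5) (nat_lit 20) (nat_lit 5) (nat_lit 21) (nat_lit 5) (nat_lit 216) (nat_lit 213) (nat_lit 171)))))) (XT.nd (nat_lit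 624) (nat_lit 456) (nat_lit 0) (XT.nd (nat_lit 312) (nat_lit 228) (nat_lit 0) (XT.nd (nat_lit 156) (nat_lit 228) (nat_lit 0) (XT.nd (nat_lit 78) (nat_lit 0) (nat_lit 0) (XT.lf (nat_lit 0) (nat_lit 4123969319) (nat_lit 304) (nat_lit 24130810593) (nat_lit 76) (nat_lit 5758717940) (nat_lit 17) (nat_lit 5) (nat_lit 21) (nat_lit 5) (nat_lit 18) (nat_lit 5) (nat_lit 217) (nat_lit 213) (nat_lit 170)) (XT.lf (nat_lit 0) (nat_lit 7275671417) (nat_lit 304) (nat_lit 9222037063) (nat_lit 76) (nat_lit 20347660225) (nat_lit 17) (nat_lit 5) (nat_lit 21) (nat_lit 5) (nat_lit 18) (nat_lit 5) (nat_lit 218) (nat_lit 213) (nat_lit 169))) (XT.nd (nat_lit 78) (nat_lit 0) (nat_lit 0) (XT.lf (nat_lit 0) (nat_lit 8686500220) (nat_lit 228) (nat_lit 2563664670) (nat_lit 304) (nat_lit 28799427892) (nat_lit 14) (nat_lit 5) (nat_lit 17) (nat_lit 5) (nat_lit 18) (nat_lit 5) (nat_lit 219) (nat_lit 213) (nat_lit 168))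 (XT.lf (nat_lit 0) (nat_lit 16874406834) (nat_lit 304) (nat_lit 13935511243) (nat_lit 76) (nat_lit 12766564059) (nat_lit 14) (nat_lit 5) (nat_lit 18) (nat_lit 5) (nat_lit 15) (nat_lit 5) (nat_lit 220) (nat_lit 213) (nat_lit 167)))) (XT.nd (nat_lit 156) (nat_lit 76) (nat_lit 0) (XT.nd (nat_lit 78) (nat_lit 0) (nat_lit 0) (XT.lf (nat_lit 0) (nat_lit 6558637211) (nat_lit 152) (nat_lit 17169643807) (nat_lit 228) (nat_lit 23846283466) (nat_lit 12) (nat_lit 5) (nat_lit 14) (nat_lit 5) (nat_lit 15) (nat_lit 5) (nat_lit 221) (nat_lit 213) (nat_lit 166)) (XT.lf (nat_lit 0) (nat_lit 31684109974) (nat_lit 152) (nat_lit 647539500) (nat_lit 228) (nat_lit 19732549027) (nat_lit 12) (nat_lit 5) (nat_lit 14) (nat_lit 5) (nat_lit 15) (nat_lit 5) (nat_lit 222) (nat_lit 213) (nat_lit 165))) (XT.nd (nat_lit 78) (nat_lit 0) (nat_lit 0) (XT.lf (nat_lit 0) (nat_lit 2834868445) (nat_lit 76) (nat_lit 40261808376)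 (nat_lit 152) (nat_lit 13999972358) (nat_lit 11) (nat_lit 5) (nat_lit 12) (nat_lit 5) (nat_lit 13) (nat_lit 4) (nat_lit 223) (nat_lit 213) (nat_lit 164)) (XT.lf (nat_lit 0) (nat_lit 31780375521) (nat_lit 76) (nat_lit 24785116925) (nat_lit 152) (nat_lit 6155158668) (nat_lit 11) (nat_lit 5) (nat_lit 12) (nat_lit 5) (nat_lit 13) (nat_lit 4) (nat_lit 224) (nat_lit 213) (nat_lit 163))))) (XT.nd (nat_lit 312) (nat_lit 152) (nat_lit 0) (XT.nd (nat_lit 156) (nat_lit 76) (nat_lit 0) (XT.nd (nat_lit 78) (nat_lit 152) (nat_lit 0) (XT.lf (nat_lit 0) (nat_lit 2605948832) (nat_lit 152) (nat_lit 4246984681) (nat_lit 76) (nat_lit 62318332097) (nat_lit 10) (nat_lit 5) (nat_lit 12) (nat_lit 5) (nat_lit 11) (nat_lit 5) (nat_lit 225) (nat_lit 213) (nat_lit 162)) (XT.lf (nat_lit 0) (nat_lit 13875766961) (nat_lit 228) (nat_lit 48302464209) (nat_lit 76) (nat_lit 14093593865) (nat_lit 8) (nat_lit 5) (nat_lit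 11) (nat_lit 5) (nat_lit 9) (nat_lit 4) (nat_lit 226) (nat_lit 213) (nat_lit 161))) (XT.nd (nat_lit 78) (nat_lit 76) (nat_lit 0) (XT.lf (nat_lit 0) (nat_lit 27390638589) (nat_lit 228) (nat_lit 19252606546) (nat_lit 76) (nat_lit 37711058297) (nat_lit 8) (nat_lit 5) (nat_lit 11) (nat_lit 5) (nat_lit 9) (nat_lit 4) (nat_lit 227) (nat_lit 213) (nat_lit 160)) (XT.lf (nat_lit 0) (nat_lit 15531352942) (nat_lit 76) (nat_lit 28040749650) (nat_lit 152) (nat_lit 49981166033) (nat_lit 7) (nat_lit 5) (nat_lit 8) (nat_lit 5) (nat_lit 9) (nat_lit 4) (nat_lit 228) (nat_lit 213) (nat_lit 159)))) (XT.nd (nat_lit 156) (nat_lit 152) (nat_lit 0) (XT.nd (nat_lit 78) (nat_lit 0) (nat_lit 0) (XT.lf (nat_lit 0) (nat_lit 57690828136) (nat_lit 76) (nat_lit 5492835464) (nat_lit 152) (nat_lit 40798000153) (nat_lit 7) (nat_lit 5) (nat_lit 8) (nat_lit 5) (nat_lit 9) (nat_lit 4) (nat_lit 229) (nat_lit 213) (nat_lit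 158)) (XT.lf (nat_lit 0) (nat_lit 86580088374) (nat_lit 152) (nat_lit 10651797594) (nat_lit 0) (nat_lit 18615977320) (nat_lit 7) (nat_lit 5) (nat_lit 9) (nat_lit 4) (nat_lit 7) (nat_lit 4) (nat_lit 230) (nat_lit 213) (nat_lit 157))) (XT.nd (nat_lit 78) (nat_lit 76) (nat_lit 0) (XT.lf (nat_lit 0) (nat_lit 33005148238) (nat_lit 76) (nat_lit 82106339823) (nat_lit 76) (nat_lit 14138690691) (nat_lit 6) (nat_lit 4) (nat_lit 7) (nat_lit 5) (nat_lit 7) (nat_lit 4) (nat_lit 231) (nat_lit 213) (nat_lit 156)) (XT.nd (nat_lit 78) (nat_lit 0) (nat_lit 0) (XT.lf (nat_lit 0) (nat_lit 3550174333) (nat_lit 152) (nat_lit 60337850903) (nat_lit 76) (nat_lit 80667485323) (nat_lit 5) (nat_lit 5) (nat_lit 7) (nat_lit 5) (nat_lit 6) (nat_lit 4) (nat_lit 232) (nat_lit 213) (nat_lit 155)) (XT.lf (nat_lit 0) (nat_lit 22442498649) (nat_lit 152) (nat_lit 19722028918) (nat_lit 76) (nat_lit 119891482935) (nat_lit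 5) (nat_lit 5) (nat_lit 7) (nat_lit 5) (nat_lit 6) (nat_lit 4) (nat_lit 233) (nat_lit 213) (nat_lit 154))))))))
noncomputable def xc62 : XT := (XT.nd (nat_lit 2496) (nat_lit 0) (nat_lit 0) (XT.nd (nat_lit 1248) (nat_lit 0) (nat_lit 0) (XT.nd (nat_lit 624) (nat_lit 152) (nat_lit 0) (XT.nd (nat_lit 312) (nat_lit 76) (nat_lit 0) (XT.nd (nat_lit 156) (nat_lit 0) (nat_lit 0) (XT.nd (nat_lit 78) (nat_lit 0) (nat_lit 0) (XT.lf (nat_lit 0) (nat_lit 29619476473) (nat_lit 76) (nat_lit 15773641587) (nat_lit 152) (nat_lit 136604807657) (nat_lit 4) (nat_lit 5) (nat_lit 5) (nat_lit 5) (nat_lit 6) (nat_lit 4) (nat_lit 234) (nat_lit 213) (nat_lit 153)) (XT.lf (nat_lit 0) (nat_lit 73467927421) (nat_lit 152) (nat_lit 116854127308) (nat_lit 0) (nat_lit 14356840234) (nat_lit 4) (nat_lit 5) (nat_lit 6) (nat_lit 4) (nat_lit 4) (nat_lit 4) (nat_lit 235) (nat_lit 213) (nat_lit 152))) (XT.nd (nat_lit 78) (nat_lit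 0) (nat_lit 0) (XT.lf (nat_lit 0) (nat_lit 106503366733) (nat_lit 152) (nat_lit 76755487124) (nat_lit 0) (nat_lit 47390749937) (nat_lit 4) (nat_lit 5) (nat_lit 6) (nat_lit 4) (nat_lit 4) (nat_lit 4) (nat_lit 236) (nat_lit 213) (nat_lit 151)) (XT.lf (nat_lit 0) (nat_lit 144492628688) (nat_lit 152) (nat_lit 30644837219) (nat_lit 0) (nat_lit 85378681798) (nat_lit 4) (nat_lit 5) (nat_lit 6) (nat_lit 4) (nat_lit 4) (nat_lit 4) (nat_lit 237) (nat_lit 213) (nat_lit 150)))) (XT.nd (nat_lit 156) (nat_lit 0) (nat_lit 0) (XT.nd (nat_lit 78) (nat_lit 0) (nat_lit 0) (XT.lf (nat_lit 0) (nat_lit 24567122416) (nat_lit 76) (nat_lit 164629131187) (nat_lit 76) (nat_lit 105514027693) (nat_lit 3) (nat_lit 4) (nat_lit 4) (nat_lit 5) (nat_lit 4) (nat_lit 4) (nat_lit 238) (nat_lit 213) (nat_lit 149)) (XT.lf (nat_lit 0) (nat_lit 91502625073) (nat_lit 76) (nat_lit 150703461521) (nat_lit 76) (nat_lit 91587352285)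 (nat_lit 3) (nat_lit 4) (nat_lit 4) (nat_lit 5) (nat_lit 4) (nat_lit 4) (nat_lit 239) (nat_lit 213) (nat_lit 148))) (XT.nd (nat_lit 78) (nat_lit 0) (nat_lit 0) (XT.lf (nat_lit 0) (nat_lit 168476442046) (nat_lit 76) (nat_lit 134689887375) (nat_lit 76) (nat_lit 75572903580) (nat_lit 3) (nat_lit 4) (nat_lit 4) (nat_lit 5) (nat_lit 4) (nat_lit 4) (nat_lit 240) (nat_lit 213) (nat_lit 147)) (XT.lf (nat_lit 0) (nat_lit 256994582797) (nat_lit 76) (nat_lit 116275099688) (nat_lit 76) (nat_lit 57157355408) (nat_lit 3) (nat_lit 4) (nat_lit 4) (nat_lit 5) (nat_lit 4) (nat_lit 4) (nat_lit 241) (nat_lit 213) (nat_lit 146))))) (XT.nd (nat_lit 312) (nat_lit 0) (nat_lit 0) (XT.nd (nat_lit 156) (nat_lit 152) (nat_lit 0) (XT.nd (nat_lit 78) (nat_lit 0) (nat_lit 0) (XT.lf (nat_lit 0) (nat_lit 358788923993) (nat_lit 76) (nat_lit 95098809137) (nat_lit 76) (nat_lit 35980403565) (nat_lit 3) (nat_lit 4) (nat_lit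 4) (nat_lit 5) (nat_lit 4) (nat_lit 4) (nat_lit 242) (nat_lit 213) (nat_lit 145)) (XT.lf (nat_lit 0) (nat_lit 475851094050) (nat_lit 76) (nat_lit 70746696994) (nat_lit 76) (nat_lit 11627716385) (nat_lit 3) (nat_lit 4) (nat_lit 4) (nat_lit 5) (nat_lit 4) (nat_lit 4) (nat_lit 243) (nat_lit 213) (nat_lit 144))) (XT.nd (nat_lit 78) (nat_lit 76) (nat_lit 0) (XT.lf (nat_lit 0) (nat_lit 14919162670) (nat_lit 152) (nat_lit 27043280898) (nat_lit 76) (nat_lit 594772411780) (nat_lit 2) (nat_lit 5) (nat_lit 4) (nat_lit 5) (nat_lit 3) (nat_lit 4) (nat_lit 244) (nat_lit 213) (nat_lit 143)) (XT.lf (nat_lit 0) (nat_lit 39554148965) (nat_lit 76) (nat_lit 6340764716) (nat_lit 152) (nat_lit 680797043496) (nat_lit 1) (nat_lit 5) (nat_lit 2) (nat_lit 5) (nat_lit 3) (nat_lit 4) (nat_lit 245) (nat_lit 213) (nat_lit 142)))) (XT.nd (nat_lit 156) (nat_lit 0) (nat_lit 0) (XT.nd (nat_lit 78) (nat_lit 0) (nat_lit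 0) (XT.lf (nat_lit 0) (nat_lit 84431136463) (nat_lit 152) (nat_lit 712252187073) (nat_lit 0) (nat_lit 33022185553) (nat_lit 1) (nat_lit 5) (nat_lit 3) (nat_lit 4) (nat_lit 1) (nat_lit 4) (nat_lit 246) (nat_lit 213) (nat_lit 141)) (XT.lf (nat_lit 0) (nat_lit 129049259639) (nat_lit 152) (nat_lit 741436592293) (nat_lit 0) (nat_lit 77640022835) (nat_lit 1) (nat_lit 5) (nat_lit 3) (nat_lit 4) (nat_lit 1) (nat_lit 4) (nat_lit 247) (nat_lit 213) (nat_lit 140))) (XT.nd (nat_lit 78) (nat_lit 0) (nat_lit 0) (XT.lf (nat_lit 0) (nat_lit 180359688944) (nat_lit 152) (nat_lit 774999465559) (nat_lit 0) (nat_lit 128950203536) (nat_lit 1) (nat_lit 5) (nat_lit 3) (nat_lit 4) (nat_lit 1) (nat_lit 4) (nat_lit 248) (nat_lit 213) (nat_lit 139)) (XT.lf (nat_lit 0) (nat_lit 239366324082) (nat_lit 152) (nat_lit 813597471785) (nat_lit 0) (nat_lit 187956622495) (nat_lit 1) (nat_lit 5) (nat_lit 3) (nat_lit 4)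 (nat_lit 1) (nat_lit 4) (nat_lit 249) (nat_lit 213) (nat_lit 138)))))) (XT.nd (nat_lit 624) (nat_lit 0) (nat_lit 0) (XT.nd (nat_lit 312) (nat_lit 0) (nat_lit 0) (XT.nd (nat_lit 156) (nat_lit 0) (nat_lit 0) (XT.nd (nat_lit 78) (nat_lit 0) (nat_lit 0) (XT.lf (nat_lit 0) (nat_lit 307223642695) (nat_lit 152) (nat_lit 857985789351) (nat_lit 0) (nat_lit 255813753129) (nat_lit 1) (nat_lit 5) (nat_lit 3) (nat_lit 4) (nat_lit 1) (nat_lit 4) (nat_lit 250) (nat_lit 213) (nat_lit 137)) (XT.lf (nat_lit 0) (nat_lit 385259287975) (nat_lit 152) (nat_lit 909032885342) (nat_lit 0) (nat_lit 333849234948) (nat_lit 1) (nat_lit 5) (nat_lit 3) (nat_lit 4) (nat_lit 1) (nat_lit 4) (nat_lit 251) (nat_lit 213) (nat_lit 136))) (XT.nd (nat_lit 78) (nat_lit 0) (nat_lit 0) (XT.lf (nat_lit 0) (nat_lit 475000044287) (nat_lit 152) (nat_lit 967737507287) (nat_lit 0) (nat_lit 423589849119) (nat_lit 1) (nat_lit 5) (nat_lit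 3) (nat_lit 4) (nat_lit 1) (nat_lit 4) (nat_lit 252) (nat_lit 213) (nat_lit 135)) (XT.lf (nat_lit 0) (nat_lit 578201709035) (nat_lit 152) (nat_lit 1035248223876) (nat_lit 0) (nat_lit 526791390266) (nat_lit 1) (nat_lit 5) (nat_lit 3) (nat_lit 4) (nat_lit 1) (nat_lit 4) (nat_lit 253) (nat_lit 213) (nat_lit 134)))) (XT.nd (nat_lit 156) (nat_lit 0) (nat_lit 0) (XT.nd (nat_lit 78) (nat_lit 0) (nat_lit 0) (XT.lf (nat_lit 0) (nat_lit 696883445225) (nat_lit 152) (nat_lit 1112885896957) (nat_lit 0) (nat_lit 645473018979) (nat_lit 1) (nat_lit 5) (nat_lit 3) (nat_lit 4) (nat_lit 1) (nat_lit 4) (nat_lit 254) (nat_lit 213) (nat_lit 133)) (XT.lf (nat_lit 0) (nat_lit 833367286828) (nat_lit 152) (nat_lit 1202169524480) (nat_lit 0) (nat_lit 781956767122) (nat_lit 1) (nat_lit 5) (nat_lit 3) (nat_lit 4) (nat_lit 1) (nat_lit 4) (nat_lit 255) (nat_lit 213) (nat_lit 132))) (XT.nd (nat_lit 78) (nat_lit 0)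 (nat_lit 0) (XT.lf (nat_lit 0) (nat_lit 990323569874) (nat_lit 152) (nat_lit 1304845960027) (nat_lit 0) (nat_lit 938912968899) (nat_lit 1) (nat_lit 5) (nat_lit 3) (nat_lit 4) (nat_lit 1) (nat_lit 4) (nat_lit 256) (nat_lit 213) (nat_lit 131)) (XT.lf (nat_lit 0) (nat_lit 1170823178161) (nat_lit 152) (nat_lit 1422924090381) (nat_lit 0) (nat_lit 1119412506517) (nat_lit 1) (nat_lit 5) (nat_lit 3) (nat_lit 4) (nat_lit 1) (nat_lit 4) (nat_lit 257) (nat_lit 213) (nat_lit 130))))) (XT.nd (nat_lit 312) (nat_lit 0) (nat_lit 0) (XT.nd (nat_lit 156) (nat_lit 0) (nat_lit 0) (XT.nd (nat_lit 78) (nat_lit 0) (nat_lit 0) (XT.lf (nat_lit 0) (nat_lit 1378397625766) (nat_lit 152) (nat_lit 1558714139832) (nat_lit 0) (nat_lit 1326986892671) (nat_lit 1) (nat_lit 5) (nat_lit 3) (nat_lit 4) (nat_lit 1) (nat_lit 4) (nat_lit 258) (nat_lit 213) (nat_lit 129)) (XT.lf (nat_lit 0) (nat_lit 1617108151880) (nat_lit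 152) (nat_lit 1714872870216) (nat_lit 0) (nat_lit 1565697365349) (nat_lit 1) (nat_lit 5) (nat_lit 3) (nat_lit 4) (nat_lit 1) (nat_lit 4) (nat_lit 259) (nat_lit 213) (nat_lit 128))) (XT.nd (nat_lit 78) (nat_lit 0) (nat_lit 0) (XT.lf (nat_lit 0) (nat_lit 1891625179841) (nat_lit 152) (nat_lit 1894455561041) (nat_lit 0) (nat_lit 1840214346844) (nat_lit 1) (nat_lit 5) (nat_lit 3) (nat_lit 4) (nat_lit 1) (nat_lit 4) (nat_lit 260) (nat_lit 213) (nat_lit 127)) (XT.lf (nat_lit 0) (nat_lit 2207319694977) (nat_lit 152) (nat_lit 2100975786693) (nat_lit 0) (nat_lit 2155908821575) (nat_lit 1) (nat_lit 5) (nat_lit 3) (nat_lit 4) (nat_lit 1) (nat_lit 4) (nat_lit 261) (nat_lit 213) (nat_lit 126)))) (XT.nd (nat_lit 156) (nat_lit 0) (nat_lit 0) (XT.nd (nat_lit 78) (nat_lit 0) (nat_lit 0) (XT.lf (nat_lit 0) (nat_lit 2570368329107) (nat_lit 152) (nat_lit 2338474160282) (nat_lit 0) (nat_lit 2518957420570)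 (nat_lit 1) (nat_lit 5) (nat_lit 3) (nat_lit 4) (nat_lit 1) (nat_lit 4) (nat_lit 262) (nat_lit 213) (nat_lit 125)) (XT.lf (nat_lit 0) (nat_lit 2987874207682) (nat_lit 152) (nat_lit 2611597389118) (nat_lit 0) (nat_lit 2936463268593) (nat_lit 1) (nat_lit 5) (nat_lit 3) (nat_lit 4) (nat_lit 1) (nat_lit 4) (nat_lit 263) (nat_lit 213) (nat_lit 124))) (XT.nd (nat_lit 78) (nat_lit 0) (nat_lit 0) (XT.lf (nat_lit 0) (nat_lit 3468005923977) (nat_lit 152) (nat_lit 2925689188548) (nat_lit 0) (nat_lit 3416594958321) (nat_lit 1) (nat_lit 5) (nat_lit 3) (nat_lit 4) (nat_lit 1) (nat_lit 4) (nat_lit 264) (nat_lit 213) (nat_lit 123)) (XT.lf (nat_lit 0) (nat_lit 4020157359399) (nat_lit 152) (nat_lit 3286894832907) (nat_lit 0) (nat_lit 3968746370641) (nat_lit 1) (nat_lit 5) (nat_lit 3) (nat_lit 4) (nat_lit 1) (nat_lit 4) (nat_lit 265) (nat_lit 213) (nat_lit 122))))))) (XT.nd (nat_lit 27846) (nat_lit 0)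 (nat_lit 228) (XT.nd (nat_lit 27222) (nat_lit 0) (nat_lit 988) (XT.nd (nat_lit 312) (nat_lit 0) (nat_lit 0) (XT.nd (nat_lit 156) (nat_lit 0) (nat_lit 0) (XT.nd (nat_lit 78) (nat_lit 0) (nat_lit 0) (XT.lf (nat_lit 0) (nat_lit 4655131476814) (nat_lit 152) (nat_lit 3702281389151) (nat_lit 0) (nat_lit 4603720467968) (nat_lit 1) (nat_lit 5) (nat_lit 3) (nat_lit 4) (nat_lit 1) (nat_lit 4) (nat_lit 266) (nat_lit 213) (nat_lit 121)) (XT.lf (nat_lit 0) (nat_lit 5385351682868) (nat_lit 152) (nat_lit 4179975985555) (nat_lit 0) (nat_lit 5333940656553) (nat_lit 1) (nat_lit 5) (nat_lit 3) (nat_lit 4) (nat_lit 1) (nat_lit 4) (nat_lit 267) (nat_lit 213) (nat_lit 120))) (XT.nd (nat_lit 78) (nat_lit 0) (nat_lit 0) (XT.lf (nat_lit 0) (nat_lit 6225104894635) (nat_lit 152) (nat_lit 4729324820743) (nat_lit 0) (nat_lit 6173693853131) (nat_lit 1) (nat_lit 5) (nat_lit 3) (nat_lit 4) (nat_lit 1) (nat_lit 4)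 (nat_lit 268) (nat_lit 213) (nat_lit 119)) (XT.lf (nat_lit 0) (nat_lit 7190821066259) (nat_lit 152) (nat_lit 5361076024100) (nat_lit 0) (nat_lit 7139410011546) (nat_lit 1) (nat_lit 5) (nat_lit 3) (nat_lit 4) (nat_lit 1) (nat_lit 4) (nat_lit 269) (nat_lit 213) (nat_lit 118)))) (XT.nd (nat_lit 156) (nat_lit 0) (nat_lit 0) (XT.nd (nat_lit 78) (nat_lit 0) (nat_lit 0) (XT.lf (nat_lit 0) (nat_lit 8301394644576) (nat_lit 152) (nat_lit 6087589945257) (nat_lit 0) (nat_lit 8249983578377) (nat_lit 1) (nat_lit 5) (nat_lit 3) (nat_lit 4) (nat_lit 1) (nat_lit 4) (nat_lit 270) (nat_lit 213) (nat_lit 117)) (XT.lf (nat_lit 0) (nat_lit 9578554243074) (nat_lit 152) (nat_lit 6923080987018) (nat_lit 0) (nat_lit 9527143166888) (nat_lit 1) (nat_lit 5) (nat_lit 3) (nat_lit 4) (nat_lit 1) (nat_lit 4) (nat_lit 271) (nat_lit 213) (nat_lit 116))) (XT.nd (nat_lit 78) (nat_lit 0) (nat_lit 0) (XT.lf (nat_lit 0)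 (nat_lit 11047287766943) (nat_lit 152) (nat_lit 7883895713245) (nat_lit 0) (nat_lit 10995876682072) (nat_lit 1) (nat_lit 5) (nat_lit 3) (nat_lit 4) (nat_lit 1) (nat_lit 4) (nat_lit 272) (nat_lit 213) (nat_lit 115)) (XT.lf (nat_lit 0) (nat_lit 12736331306865) (nat_lit 152) (nat_lit 8988832672929) (nat_lit 0) (nat_lit 12684920214442) (nat_lit 1) (nat_lit 5) (nat_lit 3) (nat_lit 4) (nat_lit 1) (nat_lit 4) (nat_lit 273) (nat_lit 213) (nat_lit 114))))) (XT.nd (nat_lit 312) (nat_lit 152) (nat_lit 0) (XT.nd (nat_lit 156) (nat_lit 304) (nat_lit 0) (XT.nd (nat_lit 78) (nat_lit 0) (nat_lit 0) (XT.lf (nat_lit 0) (nat_lit 7163064810) (nat_lit 0) (nat_lit 7163064810) (nat_lit 228) (nat_lit 186455805) (nat_lit 20) (nat_lit 5) (nat_lit 20) (nat_lit 3) (nat_lit 23) (nat_lit 3) (nat_lit 214) (nat_lit 214) (nat_lit 172)) (XT.lf (nat_lit 0) (nat_lit 28997531197) (nat_lit 0) (nat_lit 1868825153) (nat_lit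 228) (nat_lit 325259365) (nat_lit 20) (nat_lit 5) (nat_lit 20) (nat_lit 3) (nat_lit 23) (nat_lit 3) (nat_lit 215) (nat_lit 214) (nat_lit 171))) (XT.nd (nat_lit 78) (nat_lit 0) (nat_lit 0) (XT.lf (nat_lit 0) (nat_lit 837364397) (nat_lit 304) (nat_lit 20763344614) (nat_lit 380) (nat_lit 11921539504) (nat_lit 16) (nat_lit 5) (nat_lit 20) (nat_lit 5) (nat_lit 21) (nat_lit 5) (nat_lit 216) (nat_lit 214) (nat_lit 170)) (XT.lf (nat_lit 0) (nat_lit 2339451006) (nat_lit 304) (nat_lit 6102474232) (nat_lit 380) (nat_lit 27728561976) (nat_lit 16) (nat_lit 5) (nat_lit 20) (nat_lit 5) (nat_lit 21) (nat_lit 5) (nat_lit 217) (nat_lit 214) (nat_lit 169)))) (XT.nd (nat_lit 156) (nat_lit 228) (nat_lit 0) (XT.nd (nat_lit 78) (nat_lit 0) (nat_lit 0) (XT.lf (nat_lit 0) (nat_lit 4846507023) (nat_lit 304) (nat_lit 27644000406) (nat_lit 76) (nat_lit 6608583833) (nat_lit 17) (nat_lit 5) (nat_lit 21) (nat_lit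 5) (nat_lit 18) (nat_lit 5) (nat_lit 218) (nat_lit 214) (nat_lit 168)) (XT.lf (nat_lit 0) (nat_lit 8457406744) (nat_lit 304) (nat_lit 10512793252) (nat_lit 76) (nat_lit 23387685955) (nat_lit 17) (nat_lit 5) (nat_lit 21) (nat_lit 5) (nat_lit 18) (nat_lit 5) (nat_lit 219) (nat_lit 214) (nat_lit 167))) (XT.nd (nat_lit 78) (nat_lit 0) (nat_lit 0) (XT.lf (nat_lit 0) (nat_lit 10077817834) (nat_lit 228) (nat_lit 2942125185) (nat_lit 304) (nat_lit 33024115570) (nat_lit 14) (nat_lit 5) (nat_lit 17) (nat_lit 5) (nat_lit 18) (nat_lit 5) (nat_lit 220) (nat_lit 214) (nat_lit 166)) (XT.lf (nat_lit 0) (nat_lit 19477311803) (nat_lit 304) (nat_lit 15937956580) (nat_lit 76) (nat_lit 14686372220) (nat_lit 14) (nat_lit 5) (nat_lit 18) (nat_lit 5) (nat_lit 15) (nat_lit 5) (nat_lit 221) (nat_lit 214) (nat_lit 165)))))) (XT.nd (nat_lit 624) (nat_lit 228) (nat_lit 0) (XT.nd (nat_lit 312) (nat_lit 304) (nat_lit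 0) (XT.nd (nat_lit 156) (nat_lit 76) (nat_lit 0) (XT.nd (nat_lit 78) (nat_lit 0) (nat_lit 0) (XT.lf (nat_lit 0) (nat_lit 7626319535) (nat_lit 152) (nat_lit 19727063244) (nat_lit 228) (nat_lit 27347007207) (nat_lit 12) (nat_lit 5) (nat_lit 14) (nat_lit 5) (nat_lit 15) (nat_lit 5) (nat_lit 222) (nat_lit 214) (nat_lit 164)) (XT.lf (nat_lit 0) (nat_lit 36509671464) (nat_lit 152) (nat_lit 728994657) (nat_lit 228) (nat_lit 22626154183) (nat_lit 12) (nat_lit 5) (nat_lit 14) (nat_lit 5) (nat_lit 15) (nat_lit 5) (nat_lit 223) (nat_lit 214) (nat_lit 163))) (XT.nd (nat_lit 78) (nat_lit 0) (nat_lit 0) (XT.lf (nat_lit 0) (nat_lit 3337706948) (nat_lit 76) (nat_lit 46277048749) (nat_lit 152) (nat_lit 16037991135) (nat_lit 11) (nat_lit 5) (nat_lit 12) (nat_lit 5) (nat_lit 13) (nat_lit 4) (nat_lit 224) (nat_lit 214) (nat_lit 162)) (XT.lf (nat_lit 0) (nat_lit 36614917272) (nat_lit 76) (nat_lit 28481988043)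 (nat_lit 152) (nat_lit 7024539358) (nat_lit 11) (nat_lit 5) (nat_lit 12) (nat_lit 5) (nat_lit 13) (nat_lit 4) (nat_lit 225) (nat_lit 214) (nat_lit 161)))) (XT.nd (nat_lit 156) (nat_lit 76) (nat_lit 0) (XT.nd (nat_lit 78) (nat_lit 152) (nat_lit 0) (XT.lf (nat_lit 0) (nat_lit 3039532612) (nat_lit 152) (nat_lit 4820938529) (nat_lit 76) (nat_lit 71679841835) (nat_lit 10) (nat_lit 5) (nat_lit 12) (nat_lit 5) (nat_lit 11) (nat_lit 5) (nat_lit 226) (nat_lit 214) (nat_lit 160)) (XT.lf (nat_lit 0) (nat_lit 15997602217) (nat_lit 228) (nat_lit 55482311128) (nat_lit 76) (nat_lit 16226407298) (nat_lit 8) (nat_lit 5) (nat_lit 11) (nat_lit 5) (nat_lit 9) (nat_lit 4) (nat_lit 227) (nat_lit 214) (nat_lit 159))) (XT.nd (nat_lit 78) (nat_lit 76) (nat_lit 0) (XT.lf (nat_lit 0) (nat_lit 31534425866) (nat_lit 228) (nat_lit 22083521256) (nat_lit 76) (nat_lit 43384042566) (nat_lit 8) (nat_lit 5) (nat_lit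 11) (nat_lit 5) (nat_lit 9) (nat_lit 4) (nat_lit 228) (nat_lit 214) (nat_lit 158)) (XT.lf (nat_lit 0) (nat_lit 17915442325) (nat_lit 76) (nat_lit 32225328977) (nat_lit 152) (nat_lit 57440402631) (nat_lit 7) (nat_lit 5) (nat_lit 8) (nat_lit 5) (nat_lit 9) (nat_lit 4) (nat_lit 229) (nat_lit 214) (nat_lit 157))))) (XT.nd (nat_lit 312) (nat_lit 76) (nat_lit 0) (XT.nd (nat_lit 156) (nat_lit 152) (nat_lit 0) (XT.nd (nat_lit 78) (nat_lit 0) (nat_lit 0) (XT.lf (nat_lit 0) (nat_lit 66391744914) (nat_lit 76) (nat_lit 6298036331) (nat_lit 152) (nat_lit 46884710344) (nat_lit 7) (nat_lit 5) (nat_lit 8) (nat_lit 5) (nat_lit 9) (nat_lit 4) (nat_lit 230) (nat_lit 214) (nat_lit 156)) (XT.lf (nat_lit 0) (nat_lit 99592617670) (nat_lit 152) (nat_lit 12205272499) (nat_lit 0) (nat_lit 21423206502) (nat_lit 7) (nat_lit 5) (nat_lit 9) (nat_lit 4) (nat_lit 7) (nat_lit 4) (nat_lit 231) (nat_lit 214) (nat_lit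 155))) (XT.nd (nat_lit 78) (nat_lit 76) (nat_lit 0) (XT.lf (nat_lit 0) (nat_lit 37998201811) (nat_lit 76) (nat_lit 94403948099) (nat_lit 76) (nat_lit 16231861637) (nat_lit 6) (nat_lit 4) (nat_lit 7) (nat_lit 5) (nat_lit 7) (nat_lit 4) (nat_lit 232) (nat_lit 214) (nat_lit 154)) (XT.lf (nat_lit 0) (nat_lit 4104589707) (nat_lit 152) (nat_lit 69349544933) (nat_lit 76) (nat_lit 92781341069) (nat_lit 5) (nat_lit 5) (nat_lit 7) (nat_lit 5) (nat_lit 6) (nat_lit 4) (nat_lit 233) (nat_lit 214) (nat_lit 153)))) (XT.nd (nat_lit 156) (nat_lit 0) (nat_lit 0) (XT.nd (nat_lit 78) (nat_lit 76) (nat_lit 0) (XT.lf (nat_lit 0) (nat_lit 25827907554) (nat_lit 152) (nat_lit 22646434469) (nat_lit 76) (nat_lit 137887147068) (nat_lit 5) (nat_lit 5) (nat_lit 7) (nat_lit 5) (nat_lit 6) (nat_lit 4) (nat_lit 234) (nat_lit 214) (nat_lit 152)) (XT.lf (nat_lit 0) (nat_lit 34094755878) (nat_lit 76) (nat_lit 18125221163)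 (nat_lit 152) (nat_lit 157074894826) (nat_lit 4) (nat_lit 5) (nat_lit 5) (nat_lit 5) (nat_lit 6) (nat_lit 4) (nat_lit 235) (nat_lit 214) (nat_lit 151))) (XT.nd (nat_lit 78) (nat_lit 0) (nat_lit 0) (XT.lf (nat_lit 0) (nat_lit 84504195060) (nat_lit 152) (nat_lit 134352245006) (nat_lit 0) (nat_lit 16521826043) (nat_lit 4) (nat_lit 5) (nat_lit 6) (nat_lit 4) (nat_lit 4) (nat_lit 4) (nat_lit 236) (nat_lit 214) (nat_lit 150)) (XT.lf (nat_lit 0) (nat_lit 122492853070) (nat_lit 152) (nat_lit 88242722021) (nat_lit 0) (nat_lit 54509327449) (nat_lit 4) (nat_lit 5) (nat_lit 6) (nat_lit 4) (nat_lit 4) (nat_lit 4) (nat_lit 237) (nat_lit 214) (nat_lit 149))))))))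
noncomputable def xc63 : XT := (XT.nd (nat_lit 1248) (nat_lit 0) (nat_lit 0) (XT.nd (nat_lit 624) (nat_lit 76) (nat_lit 0) (XT.nd (nat_lit 312) (nat_lit 76) (nat_lit 0) (XT.nd (nat_lit 156) (nat_lit 0) (nat_lit 0) (XT.nd (nat_lit 78) (nat_lit 76) (nat_lit 0) (XT.lf (nat_lit 0) (nat_lit 166178680666) (nat_lit 152) (nat_lit 35218877435) (nat_lit 0) (nat_lit 98194149303) (nat_lit 4) (nat_lit 5) (nat_lit 6) (nat_lit 4) (nat_lit 4) (nat_lit 4) (nat_lit 238) (nat_lit 214) (nat_lit 148)) (XT.lf (nat_lit 0) (nat_lit 28273844993) (nat_lit 76) (nat_lit 189313315197) (nat_lit 76) (nat_lit 121327909275) (nat_lit 3) (nat_lit 4) (nat_lit 4) (nat_lit 5) (nat_lit 4) (nat_lit 4) (nat_lit 239) (nat_lit 214) (nat_lit 147))) (XT.nd (nat_lit 78) (nat_lit 0) (nat_lit 0) (XT.lf (nat_lit 0) (nat_lit 105246848585) (nat_lit 76) (nat_lit 173300123647) (nat_lit 76) (nat_lit 105313957239) (nat_lit 3) (nat_lit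 4) (nat_lit 4) (nat_lit 5) (nat_lit 4) (nat_lit 4) (nat_lit 240) (nat_lit 214) (nat_lit 146)) (XT.lf (nat_lit 0) (nat_lit 193764282049) (nat_lit 76) (nat_lit 154885668653) (nat_lit 76) (nat_lit 86898840953) (nat_lit 3) (nat_lit 4) (nat_lit 4) (nat_lit 5) (nat_lit 4) (nat_lit 4) (nat_lit 241) (nat_lit 214) (nat_lit 145)))) (XT.nd (nat_lit 156) (nat_lit 76) (nat_lit 0) (XT.nd (nat_lit 78) (nat_lit 0) (nat_lit 0) (XT.lf (nat_lit 0) (nat_lit 295558008214) (nat_lit 76) (nat_lit 133709667400) (nat_lit 76) (nat_lit 65722264664) (nat_lit 3) (nat_lit 4) (nat_lit 4) (nat_lit 5) (nat_lit 4) (nat_lit 4) (nat_lit 242) (nat_lit 214) (nat_lit 144)) (XT.lf (nat_lit 0) (nat_lit 412619643460) (nat_lit 76) (nat_lit 109357806820) (nat_lit 76) (nat_lit 41369904052) (nat_lit 3) (nat_lit 4) (nat_lit 4) (nat_lit 5) (nat_lit 4) (nat_lit 4) (nat_lit 243) (nat_lit 214) (nat_lit 143))) (XT.nd (nat_lit 78) (nat_lit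 76) (nat_lit 0) (XT.lf (nat_lit 0) (nat_lit 547239524129) (nat_lit 76) (nat_lit 81353637466) (nat_lit 76) (nat_lit 13365299888) (nat_lit 3) (nat_lit 4) (nat_lit 4) (nat_lit 5) (nat_lit 4) (nat_lit 4) (nat_lit 244) (nat_lit 214) (nat_lit 142)) (XT.lf (nat_lit 0) (nat_lit 17162244633) (nat_lit 152) (nat_lit 31089889712) (nat_lit 76) (nat_lit 683992155486) (nat_lit 2) (nat_lit 5) (nat_lit 4) (nat_lit 5) (nat_lit 3) (nat_lit 4) (nat_lit 245) (nat_lit 214) (nat_lit 141))))) (XT.nd (nat_lit 312) (nat_lit 0) (nat_lit 0) (XT.nd (nat_lit 156) (nat_lit 0) (nat_lit 0) (XT.nd (nat_lit 78) (nat_lit 0) (nat_lit 0) (XT.lf (nat_lit 0) (nat_lit 45496705388) (nat_lit 76) (nat_lit 7287364305) (nat_lit 152) (nat_lit 782910932186) (nat_lit 1) (nat_lit 5) (nat_lit 2) (nat_lit 5) (nat_lit 3) (nat_lit 4) (nat_lit 246) (nat_lit 214) (nat_lit 140)) (XT.lf (nat_lit 0) (nat_lit 97100246864) (nat_lit 152) (nat_lit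 819081322967) (nat_lit 0) (nat_lit 37979090040) (nat_lit 1) (nat_lit 5) (nat_lit 3) (nat_lit 4) (nat_lit 1) (nat_lit 4) (nat_lit 247) (nat_lit 214) (nat_lit 139))) (XT.nd (nat_lit 78) (nat_lit 0) (nat_lit 0) (XT.lf (nat_lit 0) (nat_lit 148410509395) (nat_lit 152) (nat_lit 852644522731) (nat_lit 0) (nat_lit 89289136394) (nat_lit 1) (nat_lit 5) (nat_lit 3) (nat_lit 4) (nat_lit 1) (nat_lit 4) (nat_lit 248) (nat_lit 214) (nat_lit 138)) (XT.lf (nat_lit 0) (nat_lit 207416999512) (nat_lit 152) (nat_lit 891242812866) (nat_lit 0) (nat_lit 148295438530) (nat_lit 1) (nat_lit 5) (nat_lit 3) (nat_lit 4) (nat_lit 1) (nat_lit 4) (nat_lit 249) (nat_lit 214) (nat_lit 137)))) (XT.nd (nat_lit 156) (nat_lit 0) (nat_lit 0) (XT.nd (nat_lit 78) (nat_lit 0) (nat_lit 0) (XT.lf (nat_lit 0) (nat_lit 275274192021) (nat_lit 152) (nat_lit 935631377312) (nat_lit 0) (nat_lit 216152467578) (nat_lit 1) (nat_lit 5)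 (nat_lit 3) (nat_lit 4) (nat_lit 1) (nat_lit 4) (nat_lit 250) (nat_lit 214) (nat_lit 136)) (XT.lf (nat_lit 0) (nat_lit 353309727645) (nat_lit 152) (nat_lit 986678687979) (nat_lit 0) (nat_lit 294187861061) (nat_lit 1) (nat_lit 5) (nat_lit 3) (nat_lit 4) (nat_lit 1) (nat_lit 4) (nat_lit 251) (nat_lit 214) (nat_lit 135))) (XT.nd (nat_lit 78) (nat_lit 0) (nat_lit 0) (XT.lf (nat_lit 0) (nat_lit 443050388603) (nat_lit 152) (nat_lit 1045383496600) (nat_lit 0) (nat_lit 383928398419) (nat_lit 1) (nat_lit 5) (nat_lit 3) (nat_lit 4) (nat_lit 1) (nat_lit 4) (nat_lit 252) (nat_lit 214) (nat_lit 134)) (XT.lf (nat_lit 0) (nat_lit 546251970435) (nat_lit 152) (nat_lit 1112894375516) (nat_lit 0) (nat_lit 487129872773) (nat_lit 1) (nat_lit 5) (nat_lit 3) (nat_lit 4) (nat_lit 1) (nat_lit 4) (nat_lit 253) (nat_lit 214) (nat_lit 133)))))) (XT.nd (nat_lit 624) (nat_lit 0) (nat_lit 0) (XT.nd (nat_lit 312)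 (nat_lit 0) (nat_lit 0) (XT.nd (nat_lit 156) (nat_lit 0) (nat_lit 0) (XT.nd (nat_lit 78) (nat_lit 0) (nat_lit 0) (XT.lf (nat_lit 0) (nat_lit 664933634525) (nat_lit 152) (nat_lit 1190532189750) (nat_lit 0) (nat_lit 605811443403) (nat_lit 1) (nat_lit 5) (nat_lit 3) (nat_lit 4) (nat_lit 1) (nat_lit 4) (nat_lit 254) (nat_lit 214) (nat_lit 132)) (XT.lf (nat_lit 0) (nat_lit 801417413431) (nat_lit 152) (nat_lit 1279815940016) (nat_lit 0) (nat_lit 742295141040) (nat_lit 1) (nat_lit 5) (nat_lit 3) (nat_lit 4) (nat_lit 1) (nat_lit 4) (nat_lit 255) (nat_lit 214) (nat_lit 131))) (XT.nd (nat_lit 78) (nat_lit 0) (nat_lit 0) (XT.lf (nat_lit 0) (nat_lit 958373641958) (nat_lit 152) (nat_lit 1382492482296) (nat_lit 0) (nat_lit 899251298898) (nat_lit 1) (nat_lit 5) (nat_lit 3) (nat_lit 4) (nat_lit 1) (nat_lit 4) (nat_lit 256) (nat_lit 214) (nat_lit 130)) (XT.lf (nat_lit 0) (nat_lit 1138873202838) (nat_lit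 152) (nat_lit 1500570705461) (nat_lit 0) (nat_lit 1079750798327) (nat_lit 1) (nat_lit 5) (nat_lit 3) (nat_lit 4) (nat_lit 1) (nat_lit 4) (nat_lit 257) (nat_lit 214) (nat_lit 129)))) (XT.nd (nat_lit 156) (nat_lit 0) (nat_lit 0) (XT.nd (nat_lit 78) (nat_lit 0) (nat_lit 0) (XT.lf (nat_lit 0) (nat_lit 1346447609219) (nat_lit 152) (nat_lit 1636360835616) (nat_lit 0) (nat_lit 1287325151273) (nat_lit 1) (nat_lit 5) (nat_lit 3) (nat_lit 4) (nat_lit 1) (nat_lit 4) (nat_lit 258) (nat_lit 214) (nat_lit 128)) (XT.lf (nat_lit 0) (nat_lit 1585158099486) (nat_lit 152) (nat_lit 1792519636179) (nat_lit 0) (nat_lit 1526035595074) (nat_lit 1) (nat_lit 5) (nat_lit 3) (nat_lit 4) (nat_lit 1) (nat_lit 4) (nat_lit 259) (nat_lit 214) (nat_lit 127))) (XT.nd (nat_lit 78) (nat_lit 0) (nat_lit 0) (XT.lf (nat_lit 0) (nat_lit 1859675096275) (nat_lit 152) (nat_lit 1972102388029) (nat_lit 0) (nat_lit 1800552551458)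 (nat_lit 1) (nat_lit 5) (nat_lit 3) (nat_lit 4) (nat_lit 1) (nat_lit 4) (nat_lit 260) (nat_lit 214) (nat_lit 126)) (XT.lf (nat_lit 0) (nat_lit 2175369584306) (nat_lit 152) (nat_lit 2178622666745) (nat_lit 0) (nat_lit 2116247004354) (nat_lit 1) (nat_lit 5) (nat_lit 3) (nat_lit 4) (nat_lit 1) (nat_lit 4) (nat_lit 261) (nat_lit 214) (nat_lit 125))))) (XT.nd (nat_lit 312) (nat_lit 0) (nat_lit 0) (XT.nd (nat_lit 156) (nat_lit 0) (nat_lit 0) (XT.nd (nat_lit 78) (nat_lit 0) (nat_lit 0) (XT.lf (nat_lit 0) (nat_lit 2538418194867) (nat_lit 152) (nat_lit 2416121086478) (nat_lit 0) (nat_lit 2479295584362) (nat_lit 1) (nat_lit 5) (nat_lit 3) (nat_lit 4) (nat_lit 1) (nat_lit 4) (nat_lit 262) (nat_lit 214) (nat_lit 124)) (XT.lf (nat_lit 0) (nat_lit 2955924052946) (nat_lit 152) (nat_lit 2689244355438) (nat_lit 0) (nat_lit 2896801415874) (nat_lit 1) (nat_lit 5) (nat_lit 3) (nat_lit 4) (nat_lit 1) (nat_lit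 4) (nat_lit 263) (nat_lit 214) (nat_lit 123))) (XT.nd (nat_lit 78) (nat_lit 0) (nat_lit 0) (XT.lf (nat_lit 0) (nat_lit 3436055751419) (nat_lit 152) (nat_lit 3003336189759) (nat_lit 0) (nat_lit 3376933091245) (nat_lit 1) (nat_lit 5) (nat_lit 3) (nat_lit 4) (nat_lit 1) (nat_lit 4) (nat_lit 264) (nat_lit 214) (nat_lit 122)) (XT.lf (nat_lit 0) (nat_lit 3988207171343) (nat_lit 152) (nat_lit 3364541864458) (nat_lit 0) (nat_lit 3929084491081) (nat_lit 1) (nat_lit 5) (nat_lit 3) (nat_lit 4) (nat_lit 1) (nat_lit 4) (nat_lit 265) (nat_lit 214) (nat_lit 121)))) (XT.nd (nat_lit 156) (nat_lit 0) (nat_lit 0) (XT.nd (nat_lit 78) (nat_lit 0) (nat_lit 0) (XT.lf (nat_lit 0) (nat_lit 4623181275282) (nat_lit 152) (nat_lit 3779928447085) (nat_lit 0) (nat_lit 4564058577552) (nat_lit 1) (nat_lit 5) (nat_lit 3) (nat_lit 4) (nat_lit 1) (nat_lit 4) (nat_lit 266) (nat_lit 214) (nat_lit 120)) (XT.lf (nat_lit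 0) (nat_lit 5353401469617) (nat_lit 152) (nat_lit 4257623066430) (nat_lit 0) (nat_lit 5294278756698) (nat_lit 1) (nat_lit 5) (nat_lit 3) (nat_lit 4) (nat_lit 1) (nat_lit 4) (nat_lit 267) (nat_lit 214) (nat_lit 119))) (XT.nd (nat_lit 78) (nat_lit 0) (nat_lit 0) (XT.lf (nat_lit 0) (nat_lit 6193154671194) (nat_lit 152) (nat_lit 4806971921568) (nat_lit 0) (nat_lit 6134031945066) (nat_lit 1) (nat_lit 5) (nat_lit 3) (nat_lit 4) (nat_lit 1) (nat_lit 4) (nat_lit 268) (nat_lit 214) (nat_lit 118)) (XT.lf (nat_lit 0) (nat_lit 7158870833958) (nat_lit 152) (nat_lit 5438723142272) (nat_lit 0) (nat_lit 7099748096344) (nat_lit 1) (nat_lit 5) (nat_lit 3) (nat_lit 4) (nat_lit 1) (nat_lit 4) (nat_lit 269) (nat_lit 214) (nat_lit 117)))))))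
noncomputable def xc64 : XT := (XT.nd (nat_lit 28002) (nat_lit 0) (nat_lit 152) (XT.nd (nat_lit 27378) (nat_lit 0) (nat_lit 684) (XT.nd (nat_lit 27066) (nat_lit 0) (nat_lit 1140) (XT.nd (nat_lit 156) (nat_lit 0) (nat_lit 0) (XT.nd (nat_lit 78) (nat_lit 0) (nat_lit 0) (XT.lf (nat_lit 0) (nat_lit 8269444404569) (nat_lit 152) (nat_lit 6165237078513) (nat_lit 0) (nat_lit 8210321656968) (nat_lit 1) (nat_lit 5) (nat_lit 3) (nat_lit 4) (nat_lit 1) (nat_lit 4) (nat_lit 270) (nat_lit 214) (nat_lit 116)) (XT.lf (nat_lit 0) (nat_lit 9546603996368) (nat_lit 152) (nat_lit 7000728133391) (nat_lit 0) (nat_lit 9487481240082) (nat_lit 1) (nat_lit 5) (nat_lit 3) (nat_lit 4) (nat_lit 1) (nat_lit 4) (nat_lit 271) (nat_lit 214) (nat_lit 115))) (XT.nd (nat_lit 26832) (nat_lit 0) (nat_lit 1444) (XT.lf (nat_lit 0) (nat_lit 11015337514410) (nat_lit 152) (nat_lit 7961542871024) (nat_lit 0) (nat_lit 10956214750572)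 (nat_lit 1) (nat_lit 5) (nat_lit 3) (nat_lit 4) (nat_lit 1) (nat_lit 4) (nat_lit 272) (nat_lit 214) (nat_lit 114)) (XT.lf (nat_lit 0) (nat_lit 8268763931) (nat_lit 0) (nat_lit 8268763931) (nat_lit 228) (nat_lit 141934848) (nat_lit 20) (nat_lit 5) (nat_lit 20) (nat_lit 3) (nat_lit 23) (nat_lit 3) (nat_lit 215) (nat_lit 215) (nat_lit 170)))) (XT.nd (nat_lit 156) (nat_lit 0) (nat_lit 0) (XT.nd (nat_lit 78) (nat_lit 304) (nat_lit 0) (XT.lf (nat_lit 0) (nat_lit 33401490267) (nat_lit 0) (nat_lit 2203478317) (nat_lit 228) (nat_lit 247979875) (nat_lit 20) (nat_lit 5) (nat_lit 20) (nat_lit 3) (nat_lit 23) (nat_lit 3) (nat_lit 216) (nat_lit 215) (nat_lit 169)) (XT.lf (nat_lit 0) (nat_lit 1063848529) (nat_lit 304) (nat_lit 23796522161) (nat_lit 380) (nat_lit 13674243260) (nat_lit 16) (nat_lit 5) (nat_lit 20) (nat_lit 5) (nat_lit 21) (nat_lit 5) (nat_lit 217) (nat_lit 215) (nat_lit 168))) (XT.nd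 (nat_lit 78) (nat_lit 0) (nat_lit 76) (XT.lf (nat_lit 0) (nat_lit 2778089938) (nat_lit 304) (nat_lit 6947128719) (nat_lit 380) (nat_lit 31856953081) (nat_lit 16) (nat_lit 5) (nat_lit 20) (nat_lit 5) (nat_lit 21) (nat_lit 5) (nat_lit 218) (nat_lit 215) (nat_lit 167)) (XT.lf (nat_lit 0) (nat_lit 5652078394) (nat_lit 304) (nat_lit 31710122753) (nat_lit 76) (nat_lit 7589329405) (nat_lit 17) (nat_lit 5) (nat_lit 21) (nat_lit 5) (nat_lit 18) (nat_lit 5) (nat_lit 219) (nat_lit 215) (nat_lit 166))))) (XT.nd (nat_lit 312) (nat_lit 152) (nat_lit 0) (XT.nd (nat_lit 156) (nat_lit 152) (nat_lit 0) (XT.nd (nat_lit 78) (nat_lit 228) (nat_lit 0) (XT.lf (nat_lit 0) (nat_lit 9794361510) (nat_lit 304) (nat_lit 12019731620) (nat_lit 76) (nat_lit 26886671890) (nat_lit 17) (nat_lit 5) (nat_lit 21) (nat_lit 5) (nat_lit 18) (nat_lit 5) (nat_lit 220) (nat_lit 215) (nat_lit 165)) (XT.lf (nat_lit 0) (nat_lit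 11656290192) (nat_lit 228) (nat_lit 3378839663) (nat_lit 304) (nat_lit 37905727987) (nat_lit 14) (nat_lit 5) (nat_lit 17) (nat_lit 5) (nat_lit 18) (nat_lit 5) (nat_lit 221) (nat_lit 215) (nat_lit 164))) (XT.nd (nat_lit 78) (nat_lit 152) (nat_lit 0) (XT.lf (nat_lit 0) (nat_lit 22453157302) (nat_lit 304) (nat_lit 18262199142) (nat_lit 76) (nat_lit 16892975351) (nat_lit 14) (nat_lit 5) (nat_lit 18) (nat_lit 5) (nat_lit 15) (nat_lit 5) (nat_lit 222) (nat_lit 215) (nat_lit 163)) (XT.lf (nat_lit 0) (nat_lit 8833697894) (nat_lit 152) (nat_lit 22672491628) (nat_lit 228) (nat_lit 31391425942) (nat_lit 12) (nat_lit 5) (nat_lit 14) (nat_lit 5) (nat_lit 15) (nat_lit 5) (nat_lit 223) (nat_lit 215) (nat_lit 162)))) (XT.nd (nat_lit 156) (nat_lit 76) (nat_lit 0) (XT.nd (nat_lit 78) (nat_lit 76) (nat_lit 0) (XT.lf (nat_lit 0) (nat_lit 42041279078) (nat_lit 152) (nat_lit 826490723) (nat_lit 228) (nat_lit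 25969962226) (nat_lit 12) (nat_lit 5) (nat_lit 14) (nat_lit 5) (nat_lit 15) (nat_lit 5) (nat_lit 224) (nat_lit 215) (nat_lit 161)) (XT.lf (nat_lit 0) (nat_lit 3897045967) (nat_lit 76) (nat_lit 53200435260) (nat_lit 152) (nat_lit 18396826231) (nat_lit 11) (nat_lit 5) (nat_lit 12) (nat_lit 5) (nat_lit 13) (nat_lit 4) (nat_lit 225) (nat_lit 215) (nat_lit 160))) (XT.nd (nat_lit 78) (nat_lit 76) (nat_lit 0) (XT.lf (nat_lit 0) (nat_lit 42158183538) (nat_lit 76) (nat_lit 32738485553) (nat_lit 152) (nat_lit 8037469327) (nat_lit 11) (nat_lit 5) (nat_lit 12) (nat_lit 5) (nat_lit 13) (nat_lit 4) (nat_lit 226) (nat_lit 215) (nat_lit 159)) (XT.lf (nat_lit 0) (nat_lit 3527743377) (nat_lit 152) (nat_lit 5496371290) (nat_lit 76) (nat_lit 82442222589) (nat_lit 10) (nat_lit 5) (nat_lit 12) (nat_lit 5) (nat_lit 11) (nat_lit 5) (nat_lit 227) (nat_lit 215) (nat_lit 158)))))) (XT.nd (nat_lit 624) (nat_lit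 152) (nat_lit 0) (XT.nd (nat_lit 312) (nat_lit 152) (nat_lit 0) (XT.nd (nat_lit 156) (nat_lit 76) (nat_lit 0) (XT.nd (nat_lit 78) (nat_lit 0) (nat_lit 0) (XT.lf (nat_lit 0) (nat_lit 18427843844) (nat_lit 228) (nat_lit 63755113213) (nat_lit 76) (nat_lit 18674564501) (nat_lit 8) (nat_lit 5) (nat_lit 11) (nat_lit 5) (nat_lit 9) (nat_lit 4) (nat_lit 228) (nat_lit 215) (nat_lit 157)) (XT.lf (nat_lit 0) (nat_lit 36291199567) (nat_lit 228) (nat_lit 25352967198) (nat_lit 76) (nat_lit 49903993393) (nat_lit 8) (nat_lit 5) (nat_lit 11) (nat_lit 5) (nat_lit 9) (nat_lit 4) (nat_lit 229) (nat_lit 215) (nat_lit 156))) (XT.nd (nat_lit 78) (nat_lit 0) (nat_lit 0) (XT.lf (nat_lit 0) (nat_lit 20643882637) (nat_lit 76) (nat_lit 37042846191) (nat_lit 152) (nat_lit 66027776215) (nat_lit 7) (nat_lit 5) (nat_lit 8) (nat_lit 5) (nat_lit 9) (nat_lit 4) (nat_lit 230) (nat_lit 215) (nat_lit 155)) (XT.lf (nat_lit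 0) (nat_lit 76386266620) (nat_lit 76) (nat_lit 7228583405) (nat_lit 152) (nat_lit 53892471844) (nat_lit 7) (nat_lit 5) (nat_lit 8) (nat_lit 5) (nat_lit 9) (nat_lit 4) (nat_lit 231) (nat_lit 215) (nat_lit 154)))) (XT.nd (nat_lit 156) (nat_lit 76) (nat_lit 0) (XT.nd (nat_lit 78) (nat_lit 76) (nat_lit 0) (XT.lf (nat_lit 0) (nat_lit 114550804112) (nat_lit 152) (nat_lit 14002570191) (nat_lit 0) (nat_lit 24647903043) (nat_lit 7) (nat_lit 5) (nat_lit 9) (nat_lit 4) (nat_lit 7) (nat_lit 4) (nat_lit 232) (nat_lit 215) (nat_lit 153)) (XT.lf (nat_lit 0) (nat_lit 43729902849) (nat_lit 76) (nat_lit 108550670600) (nat_lit 76) (nat_lit 18645746623) (nat_lit 6) (nat_lit 4) (nat_lit 7) (nat_lit 5) (nat_lit 7) (nat_lit 4) (nat_lit 233) (nat_lit 215) (nat_lit 152))) (XT.nd (nat_lit 78) (nat_lit 0) (nat_lit 0) (XT.lf (nat_lit 0) (nat_lit 4736829561) (nat_lit 152) (nat_lit 79722499467) (nat_lit 76) (nat_lit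 106708926310) (nat_lit 5) (nat_lit 5) (nat_lit 7) (nat_lit 5) (nat_lit 6) (nat_lit 4) (nat_lit 234) (nat_lit 215) (nat_lit 151)) (XT.lf (nat_lit 0) (nat_lit 29716486208) (nat_lit 152) (nat_lit 26017767286) (nat_lit 76) (nat_lit 158579248764) (nat_lit 5) (nat_lit 5) (nat_lit 7) (nat_lit 5) (nat_lit 6) (nat_lit 4) (nat_lit 235) (nat_lit 215) (nat_lit 150))))) (XT.nd (nat_lit 312) (nat_lit 76) (nat_lit 0) (XT.nd (nat_lit 156) (nat_lit 0) (nat_lit 0) (XT.nd (nat_lit 78) (nat_lit 0) (nat_lit 0) (XT.lf (nat_lit 0) (nat_lit 39233436506) (nat_lit 76) (nat_lit 20833065463) (nat_lit 152) (nat_lit 180620526797) (nat_lit 4) (nat_lit 5) (nat_lit 5) (nat_lit 5) (nat_lit 6) (nat_lit 4) (nat_lit 236) (nat_lit 215) (nat_lit 149)) (XT.lf (nat_lit 0) (nat_lit 97191981995) (nat_lit 152) (nat_lit 154482396390) (nat_lit 0) (nat_lit 19008765184) (nat_lit 4) (nat_lit 5) (nat_lit 6) (nat_lit 4) (nat_lit 4)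 (nat_lit 4) (nat_lit 237) (nat_lit 215) (nat_lit 148))) (XT.nd (nat_lit 78) (nat_lit 0) (nat_lit 0) (XT.lf (nat_lit 0) (nat_lit 140877352922) (nat_lit 152) (nat_lit 101459403918) (nat_lit 0) (nat_lit 62693261553) (nat_lit 4) (nat_lit 5) (nat_lit 6) (nat_lit 4) (nat_lit 4) (nat_lit 4) (nat_lit 238) (nat_lit 215) (nat_lit 147)) (XT.lf (nat_lit 0) (nat_lit 191114675716) (nat_lit 152) (nat_lit 40484555654) (nat_lit 0) (nat_lit 112929823861) (nat_lit 4) (nat_lit 5) (nat_lit 6) (nat_lit 4) (nat_lit 4) (nat_lit 4) (nat_lit 239) (nat_lit 215) (nat_lit 146)))) (XT.nd (nat_lit 156) (nat_lit 0) (nat_lit 0) (XT.nd (nat_lit 78) (nat_lit 0) (nat_lit 0) (XT.lf (nat_lit 0) (nat_lit 32531295439) (nat_lit 76) (nat_lit 217702610649) (nat_lit 76) (nat_lit 139517097502) (nat_lit 3) (nat_lit 4) (nat_lit 4) (nat_lit 5) (nat_lit 4) (nat_lit 4) (nat_lit 240) (nat_lit 215) (nat_lit 145)) (XT.lf (nat_lit 0)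 (nat_lit 121048113870) (nat_lit 76) (nat_lit 199288444953) (nat_lit 76) (nat_lit 121102356770) (nat_lit 3) (nat_lit 4) (nat_lit 4) (nat_lit 5) (nat_lit 4) (nat_lit 4) (nat_lit 241) (nat_lit 215) (nat_lit 144))) (XT.nd (nat_lit 78) (nat_lit 0) (nat_lit 0) (XT.lf (nat_lit 0) (nat_lit 222841305224) (nat_lit 76) (nat_lit 178112695263) (nat_lit 76) (nat_lit 99926107048) (nat_lit 3) (nat_lit 4) (nat_lit 4) (nat_lit 5) (nat_lit 4) (nat_lit 4) (nat_lit 242) (nat_lit 215) (nat_lit 143)) (XT.nd (nat_lit 78) (nat_lit 0) (nat_lit 0) (XT.lf (nat_lit 0) (nat_lit 339902475417) (nat_lit 76) (nat_lit 153761053433) (nat_lit 76) (nat_lit 75574030408) (nat_lit 3) (nat_lit 4) (nat_lit 4) (nat_lit 5) (nat_lit 4) (nat_lit 4) (nat_lit 243) (nat_lit 215) (nat_lit 142)) (XT.lf (nat_lit 0) (nat_lit 474521951693) (nat_lit 76) (nat_lit 125757074298) (nat_lit 76) (nat_lit 47569673177) (nat_lit 3) (nat_lit 4) (nat_lit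 4) (nat_lit 5) (nat_lit 4) (nat_lit 4) (nat_lit 244) (nat_lit 215) (nat_lit 141))))))))
noncomputable def xc65 : XT := (XT.nd (nat_lit 29406) (nat_lit 0) (nat_lit 0) (XT.nd (nat_lit 1248) (nat_lit 0) (nat_lit 0) (XT.nd (nat_lit 624) (nat_lit 0) (nat_lit 0) (XT.nd (nat_lit 312) (nat_lit 0) (nat_lit 0) (XT.nd (nat_lit 156) (nat_lit 76) (nat_lit 0) (XT.nd (nat_lit 78) (nat_lit 76) (nat_lit 0) (XT.lf (nat_lit 0) (nat_lit 629333593370) (nat_lit 76) (nat_lit 93552853917) (nat_lit 76) (nat_lit 15365124017) (nat_lit 3) (nat_lit 4) (nat_lit 4) (nat_lit 5) (nat_lit 4) (nat_lit 4) (nat_lit 245) (nat_lit 215) (nat_lit 140)) (XT.lf (nat_lit 0) (nat_lit 19740518993) (nat_lit 152) (nat_lit 35745899959) (nat_lit 76) (nat_lit 786593914113) (nat_lit 2) (nat_lit 5) (nat_lit 4) (nat_lit 5) (nat_lit 3) (nat_lit 4) (nat_lit 246) (nat_lit 215) (nat_lit 139))) (XT.nd (nat_lit 78) (nat_lit 0) (nat_lit 0) (XT.lf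 (nat_lit 0) (nat_lit 52328344715) (nat_lit 76) (nat_lit 8377054872) (nat_lit 152) (nat_lit 900343286317) (nat_lit 1) (nat_lit 5) (nat_lit 2) (nat_lit 5) (nat_lit 3) (nat_lit 4) (nat_lit 247) (nat_lit 215) (nat_lit 138)) (XT.lf (nat_lit 0) (nat_lit 111668641120) (nat_lit 152) (nat_lit 941936948885) (nat_lit 0) (nat_lit 43678658010) (nat_lit 1) (nat_lit 5) (nat_lit 3) (nat_lit 4) (nat_lit 1) (nat_lit 4) (nat_lit 248) (nat_lit 215) (nat_lit 137)))) (XT.nd (nat_lit 156) (nat_lit 0) (nat_lit 0) (XT.nd (nat_lit 78) (nat_lit 0) (nat_lit 0) (XT.lf (nat_lit 0) (nat_lit 170675005132) (nat_lit 152) (nat_lit 980535485899) (nat_lit 0) (nat_lit 102684858561) (nat_lit 1) (nat_lit 5) (nat_lit 3) (nat_lit 4) (nat_lit 1) (nat_lit 4) (nat_lit 249) (nat_lit 215) (nat_lit 136)) (XT.lf (nat_lit 0) (nat_lit 238532087984) (nat_lit 152) (nat_lit 1024924265022) (nat_lit 0) (nat_lit 170541799273) (nat_lit 1)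 (nat_lit 5) (nat_lit 3) (nat_lit 4) (nat_lit 1) (nat_lit 4) (nat_lit 250) (nat_lit 215) (nat_lit 135))) (XT.nd (nat_lit 78) (nat_lit 0) (nat_lit 0) (XT.lf (nat_lit 0) (nat_lit 316567528255) (nat_lit 152) (nat_lit 1075971762365) (nat_lit 0) (nat_lit 248577115943) (nat_lit 1) (nat_lit 5) (nat_lit 3) (nat_lit 4) (nat_lit 1) (nat_lit 4) (nat_lit 251) (nat_lit 215) (nat_lit 134)) (XT.lf (nat_lit 0) (nat_lit 406308106297) (nat_lit 152) (nat_lit 1134676733313) (nat_lit 0) (nat_lit 338317586507) (nat_lit 1) (nat_lit 5) (nat_lit 3) (nat_lit 4) (nat_lit 1) (nat_lit 4) (nat_lit 252) (nat_lit 215) (nat_lit 133))))) (XT.nd (nat_lit 312) (nat_lit 0) (nat_lit 0) (XT.nd (nat_lit 156) (nat_lit 0) (nat_lit 0) (XT.nd (nat_lit 78) (nat_lit 0) (nat_lit 0) (XT.lf (nat_lit 0) (nat_lit 509509616028) (nat_lit 152) (nat_lit 1202187753383) (nat_lit 0) (nat_lit 441519002778) (nat_lit 1) (nat_lit 5) (nat_lit 3)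 (nat_lit 4) (nat_lit 1) (nat_lit 4) (nat_lit 253) (nat_lit 215) (nat_lit 132)) (XT.lf (nat_lit 0) (nat_lit 628191217421) (nat_lit 152) (nat_lit 1279825690359) (nat_lit 0) (nat_lit 560200522903) (nat_lit 1) (nat_lit 5) (nat_lit 3) (nat_lit 4) (nat_lit 1) (nat_lit 4) (nat_lit 254) (nat_lit 215) (nat_lit 131))) (XT.nd (nat_lit 78) (nat_lit 0) (nat_lit 0) (XT.lf (nat_lit 0) (nat_lit 764674941809) (nat_lit 152) (nat_lit 1369109547357) (nat_lit 0) (nat_lit 696684176622) (nat_lit 1) (nat_lit 5) (nat_lit 3) (nat_lit 4) (nat_lit 1) (nat_lit 4) (nat_lit 255) (nat_lit 215) (nat_lit 130)) (XT.lf (nat_lit 0) (nat_lit 921631122929) (nat_lit 152) (nat_lit 1471786182447) (nat_lit 0) (nat_lit 853640296290) (nat_lit 1) (nat_lit 5) (nat_lit 3) (nat_lit 4) (nat_lit 1) (nat_lit 4) (nat_lit 256) (nat_lit 215) (nat_lit 129)))) (XT.nd (nat_lit 156) (nat_lit 0) (nat_lit 0) (XT.nd (nat_lit 78) (nat_lit 0) (nat_lit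 0) (XT.lf (nat_lit 0) (nat_lit 1102130642585) (nat_lit 152) (nat_lit 1589864486318) (nat_lit 0) (nat_lit 1034139762511) (nat_lit 1) (nat_lit 5) (nat_lit 3) (nat_lit 4) (nat_lit 1) (nat_lit 4) (nat_lit 257) (nat_lit 215) (nat_lit 128)) (XT.lf (nat_lit 0) (nat_lit 1309705013119) (nat_lit 152) (nat_lit 1725654686652) (nat_lit 0) (nat_lit 1241714086579) (nat_lit 1) (nat_lit 5) (nat_lit 3) (nat_lit 4) (nat_lit 1) (nat_lit 4) (nat_lit 258) (nat_lit 215) (nat_lit 127))) (XT.nd (nat_lit 78) (nat_lit 0) (nat_lit 0) (XT.lf (nat_lit 0) (nat_lit 1548415472215) (nat_lit 152) (nat_lit 1881813548239) (nat_lit 0) (nat_lit 1480424505270) (nat_lit 1) (nat_lit 5) (nat_lit 3) (nat_lit 4) (nat_lit 1) (nat_lit 4) (nat_lit 259) (nat_lit 215) (nat_lit 126)) (XT.lf (nat_lit 0) (nat_lit 1822932441899) (nat_lit 152) (nat_lit 2061396353153) (nat_lit 0) (nat_lit 1754941439819) (nat_lit 1) (nat_lit 5) (nat_lit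 3) (nat_lit 4) (nat_lit 1) (nat_lit 4) (nat_lit 260) (nat_lit 215) (nat_lit 125)))))) (XT.nd (nat_lit 624) (nat_lit 0) (nat_lit 0) (XT.nd (nat_lit 312) (nat_lit 0) (nat_lit 0) (XT.nd (nat_lit 156) (nat_lit 0) (nat_lit 0) (XT.nd (nat_lit 78) (nat_lit 0) (nat_lit 0) (XT.lf (nat_lit 0) (nat_lit 2138626906360) (nat_lit 152) (nat_lit 2267916678014) (nat_lit 0) (nat_lit 2070635873728) (nat_lit 1) (nat_lit 5) (nat_lit 3) (nat_lit 4) (nat_lit 1) (nat_lit 4) (nat_lit 261) (nat_lit 215) (nat_lit 124)) (XT.lf (nat_lit 0) (nat_lit 2501675496425) (nat_lit 152) (nat_lit 2505415137871) (nat_lit 0) (nat_lit 2433684437225) (nat_lit 1) (nat_lit 5) (nat_lit 3) (nat_lit 4) (nat_lit 1) (nat_lit 4) (nat_lit 262) (nat_lit 215) (nat_lit 123))) (XT.nd (nat_lit 78) (nat_lit 0) (nat_lit 0) (XT.lf (nat_lit 0) (nat_lit 2919181336681) (nat_lit 152) (nat_lit 2778538441722) (nat_lit 0) (nat_lit 2851190254380) (nat_lit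 1) (nat_lit 5) (nat_lit 3) (nat_lit 4) (nat_lit 1) (nat_lit 4) (nat_lit 263) (nat_lit 215) (nat_lit 122)) (XT.lf (nat_lit 0) (nat_lit 3399313019657) (nat_lit 152) (nat_lit 3092630306383) (nat_lit 0) (nat_lit 3331321917267) (nat_lit 1) (nat_lit 5) (nat_lit 3) (nat_lit 4) (nat_lit 1) (nat_lit 4) (nat_lit 264) (nat_lit 215) (nat_lit 121)))) (XT.nd (nat_lit 156) (nat_lit 0) (nat_lit 0) (XT.nd (nat_lit 78) (nat_lit 0) (nat_lit 0) (XT.lf (nat_lit 0) (nat_lit 3951464426105) (nat_lit 152) (nat_lit 3453836007465) (nat_lit 0) (nat_lit 3883473306247) (nat_lit 1) (nat_lit 5) (nat_lit 3) (nat_lit 4) (nat_lit 1) (nat_lit 4) (nat_lit 265) (nat_lit 215) (nat_lit 120)) (XT.lf (nat_lit 0) (nat_lit 4586438518325) (nat_lit 152) (nat_lit 3869222613033) (nat_lit 0) (nat_lit 4518447383278) (nat_lit 1) (nat_lit 5) (nat_lit 3) (nat_lit 4) (nat_lit 1) (nat_lit 4) (nat_lit 266) (nat_lit 215) (nat_lit 119)))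 (XT.nd (nat_lit 78) (nat_lit 0) (nat_lit 0) (XT.lf (nat_lit 0) (nat_lit 5316658702471) (nat_lit 152) (nat_lit 4346917252327) (nat_lit 0) (nat_lit 5248667554215) (nat_lit 1) (nat_lit 5) (nat_lit 3) (nat_lit 4) (nat_lit 1) (nat_lit 4) (nat_lit 267) (nat_lit 215) (nat_lit 118)) (XT.lf (nat_lit 0) (nat_lit 6156411895187) (nat_lit 152) (nat_lit 4896266124812) (nat_lit 0) (nat_lit 6088420735446) (nat_lit 1) (nat_lit 5) (nat_lit 3) (nat_lit 4) (nat_lit 1) (nat_lit 4) (nat_lit 268) (nat_lit 215) (nat_lit 117))))) (XT.nd (nat_lit 27222) (nat_lit 0) (nat_lit 1140) (XT.nd (nat_lit 156) (nat_lit 0) (nat_lit 0) (XT.nd (nat_lit 78) (nat_lit 0) (nat_lit 0) (XT.lf (nat_lit 0) (nat_lit 7122128050245) (nat_lit 152) (nat_lit 5528017360600) (nat_lit 0) (nat_lit 7054136880516) (nat_lit 1) (nat_lit 5) (nat_lit 3) (nat_lit 4) (nat_lit 1) (nat_lit 4) (nat_lit 269) (nat_lit 215) (nat_lit 116)) (XT.lf (nat_lit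 0) (nat_lit 8232701614157) (nat_lit 152) (nat_lit 6254531309958) (nat_lit 0) (nat_lit 8164710435743) (nat_lit 1) (nat_lit 5) (nat_lit 3) (nat_lit 4) (nat_lit 1) (nat_lit 4) (nat_lit 270) (nat_lit 215) (nat_lit 115))) (XT.nd (nat_lit 26988) (nat_lit 0) (nat_lit 1444) (XT.lf (nat_lit 0) (nat_lit 9509861200130) (nat_lit 152) (nat_lit 7090022376242) (nat_lit 0) (nat_lit 9441870014164) (nat_lit 1) (nat_lit 5) (nat_lit 3) (nat_lit 4) (nat_lit 1) (nat_lit 4) (nat_lit 271) (nat_lit 215) (nat_lit 114)) (XT.lf (nat_lit 0) (nat_lit 9532699995) (nat_lit 0) (nat_lit 9532699995) (nat_lit 228) (nat_lit 108412730) (nat_lit 20) (nat_lit 5) (nat_lit 20) (nat_lit 3) (nat_lit 23) (nat_lit 3) (nat_lit 216) (nat_lit 216) (nat_lit 168)))) (XT.nd (nat_lit 156) (nat_lit 0) (nat_lit 0) (XT.nd (nat_lit 78) (nat_lit 304) (nat_lit 0) (XT.lf (nat_lit 0) (nat_lit 38452794632) (nat_lit 0) (nat_lit 2575080889) (nat_lit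 228) (nat_lit 189851037) (nat_lit 20) (nat_lit 5) (nat_lit 20) (nat_lit 3) (nat_lit 23) (nat_lit 3) (nat_lit 217) (nat_lit 216) (nat_lit 167)) (XT.lf (nat_lit 0) (nat_lit 1299705183) (nat_lit 304) (nat_lit 27304507748) (nat_lit 380) (nat_lit 15698516104) (nat_lit 16) (nat_lit 5) (nat_lit 20) (nat_lit 5) (nat_lit 21) (nat_lit 5) (nat_lit 218) (nat_lit 216) (nat_lit 166))) (XT.nd (nat_lit 78) (nat_lit 0) (nat_lit 76) (XT.lf (nat_lit 0) (nat_lit 3261133319) (nat_lit 304) (nat_lit 7935726082) (nat_lit 380) (nat_lit 36612136352) (nat_lit 16) (nat_lit 5) (nat_lit 20) (nat_lit 5) (nat_lit 21) (nat_lit 5) (nat_lit 219) (nat_lit 216) (nat_lit 165)) (XT.lf (nat_lit 0) (nat_lit 6559319504) (nat_lit 304) (nat_lit 36405788453) (nat_lit 76) (nat_lit 8719757547) (nat_lit 17) (nat_lit 5) (nat_lit 21) (nat_lit 5) (nat_lit 18) (nat_lit 5) (nat_lit 220) (nat_lit 216) (nat_lit 164))))))) (XT.nd (nat_lit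 1248) (nat_lit 304) (nat_lit 0) (XT.nd (nat_lit 624) (nat_lit 380) (nat_lit 0) (XT.nd (nat_lit 312) (nat_lit 152) (nat_lit 0) (XT.nd (nat_lit 156) (nat_lit 152) (nat_lit 0) (XT.nd (nat_lit 78) (nat_lit 228) (nat_lit 0) (XT.lf (nat_lit 0) (nat_lit 11315193433) (nat_lit 304) (nat_lit 13769775960) (nat_lit 76) (nat_lit 30912741136) (nat_lit 17) (nat_lit 5) (nat_lit 21) (nat_lit 5) (nat_lit 18) (nat_lit 5) (nat_lit 221) (nat_lit 216) (nat_lit 163)) (XT.lf (nat_lit 0) (nat_lit 13455243879) (nat_lit 228) (nat_lit 3882184101) (nat_lit 304) (nat_lit 43537141121) (nat_lit 14) (nat_lit 5) (nat_lit 17) (nat_lit 5) (nat_lit 18) (nat_lit 5) (nat_lit 222) (nat_lit 216) (nat_lit 162))) (XT.nd (nat_lit 78) (nat_lit 152) (nat_lit 0) (XT.lf (nat_lit 0) (nat_lit 25862150730) (nat_lit 304) (nat_lit 20951282566) (nat_lit 76) (nat_lit 19429679535) (nat_lit 14) (nat_lit 5) (nat_lit 18) (nat_lit 5) (nat_lit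 15) (nat_lit 5) (nat_lit 223) (nat_lit 216) (nat_lit 161)) (XT.lf (nat_lit 0) (nat_lit 10206715096) (nat_lit 152) (nat_lit 26063058300) (nat_lit 228) (nat_lit 36056561499) (nat_lit 12) (nat_lit 5) (nat_lit 14) (nat_lit 5) (nat_lit 15) (nat_lit 5) (nat_lit 224) (nat_lit 216) (nat_lit 160)))) (XT.nd (nat_lit 156) (nat_lit 76) (nat_lit 0) (XT.nd (nat_lit 78) (nat_lit 76) (nat_lit 0) (XT.lf (nat_lit 0) (nat_lit 48389177476) (nat_lit 152) (nat_lit 941501660) (nat_lit 228) (nat_lit 29827562357) (nat_lit 12) (nat_lit 5) (nat_lit 14) (nat_lit 5) (nat_lit 15) (nat_lit 5) (nat_lit 225) (nat_lit 216) (nat_lit 159)) (XT.lf (nat_lit 0) (nat_lit 4525975623) (nat_lit 76) (nat_lit 61166760814) (nat_lit 152) (nat_lit 21120914571) (nat_lit 11) (nat_lit 5) (nat_lit 12) (nat_lit 5) (nat_lit 13) (nat_lit 4) (nat_lit 226) (nat_lit 216) (nat_lit 158))) (XT.nd (nat_lit 78) (nat_lit 76) (nat_lit 0) (XT.lf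 (nat_lit 0) (nat_lit 48520496079) (nat_lit 76) (nat_lit 37637310790) (nat_lit 152) (nat_lit 9212276166) (nat_lit 11) (nat_lit 5) (nat_lit 12) (nat_lit 5) (nat_lit 13) (nat_lit 4) (nat_lit 227) (nat_lit 216) (nat_lit 157)) (XT.lf (nat_lit 0) (nat_lit 4081313861) (nat_lit 152) (nat_lit 6284752868) (nat_lit 76) (nat_lit 94816423258) (nat_lit 10) (nat_lit 5) (nat_lit 12) (nat_lit 5) (nat_lit 11) (nat_lit 5) (nat_lit 228) (nat_lit 216) (nat_lit 156))))) (XT.nd (nat_lit 312) (nat_lit 152) (nat_lit 0) (XT.nd (nat_lit 156) (nat_lit 76) (nat_lit 0) (XT.nd (nat_lit 78) (nat_lit 0) (nat_lit 0) (XT.lf (nat_lit 0) (nat_lit 21215159396) (nat_lit 228) (nat_lit 73280917371) (nat_lit 76) (nat_lit 21486483474) (nat_lit 8) (nat_lit 5) (nat_lit 11) (nat_lit 5) (nat_lit 9) (nat_lit 4) (nat_lit 229) (nat_lit 216) (nat_lit 155)) (XT.lf (nat_lit 0) (nat_lit 41755000350) (nat_lit 228) (nat_lit 29123335909)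 (nat_lit 76) (nat_lit 57398926573) (nat_lit 8) (nat_lit 5) (nat_lit 11) (nat_lit 5) (nat_lit 9) (nat_lit 4) (nat_lit 230) (nat_lit 216) (nat_lit 154))) (XT.nd (nat_lit 78) (nat_lit 0) (nat_lit 0) (XT.lf (nat_lit 0) (nat_lit 23771560657) (nat_lit 76) (nat_lit 42586961489) (nat_lit 152) (nat_lit 75910251298) (nat_lit 7) (nat_lit 5) (nat_lit 8) (nat_lit 5) (nat_lit 9) (nat_lit 4) (nat_lit 231) (nat_lit 216) (nat_lit 153)) (XT.lf (nat_lit 0) (nat_lit 87871246286) (nat_lit 76) (nat_lit 8302165149) (nat_lit 152) (nat_lit 61957480577) (nat_lit 7) (nat_lit 5) (nat_lit 8) (nat_lit 5) (nat_lit 9) (nat_lit 4) (nat_lit 232) (nat_lit 216) (nat_lit 152)))) (XT.nd (nat_lit 156) (nat_lit 76) (nat_lit 0) (XT.nd (nat_lit 78) (nat_lit 76) (nat_lit 0) (XT.lf (nat_lit 0) (nat_lit 131748013607) (nat_lit 152) (nat_lit 16077630061) (nat_lit 0) (nat_lit 28353569077) (nat_lit 7) (nat_lit 5) (nat_lit 9) (nat_lit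 4) (nat_lit 7) (nat_lit 4) (nat_lit 233) (nat_lit 216) (nat_lit 151)) (XT.lf (nat_lit 0) (nat_lit 50313562768) (nat_lit 76) (nat_lit 124822783693) (nat_lit 76) (nat_lit 21426809555) (nat_lit 6) (nat_lit 4) (nat_lit 7) (nat_lit 5) (nat_lit 7) (nat_lit 4) (nat_lit 234) (nat_lit 216) (nat_lit 150))) (XT.nd (nat_lit 78) (nat_lit 0) (nat_lit 0) (XT.lf (nat_lit 0) (nat_lit 5459869231) (nat_lit 152) (nat_lit 91658585384) (nat_lit 76) (nat_lit 122723117114) (nat_lit 5) (nat_lit 5) (nat_lit 7) (nat_lit 5) (nat_lit 6) (nat_lit 4) (nat_lit 235) (nat_lit 216) (nat_lit 149)) (XT.lf (nat_lit 0) (nat_lit 34184841952) (nat_lit 152) (nat_lit 29901050638) (nat_lit 76) (nat_lit 182372963780) (nat_lit 5) (nat_lit 5) (nat_lit 7) (nat_lit 5) (nat_lit 6) (nat_lit 4) (nat_lit 236) (nat_lit 216) (nat_lit 148)))))) (XT.nd (nat_lit 624) (nat_lit 152) (nat_lit 0) (XT.nd (nat_lit 312) (nat_lit 76) (nat_lit 0)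 (XT.nd (nat_lit 156) (nat_lit 0) (nat_lit 0) (XT.nd (nat_lit 78) (nat_lit 0) (nat_lit 0) (XT.lf (nat_lit 0) (nat_lit 45136952735) (nat_lit 76) (nat_lit 23949753922) (nat_lit 152) (nat_lit 207701808272) (nat_lit 4) (nat_lit 5) (nat_lit 5) (nat_lit 5) (nat_lit 6) (nat_lit 4) (nat_lit 237) (nat_lit 216) (nat_lit 147)) (XT.lf (nat_lit 0) (nat_lit 111779972244) (nat_lit 152) (nat_lit 177637602452) (nat_lit 0) (nat_lit 21866632125) (nat_lit 4) (nat_lit 5) (nat_lit 6) (nat_lit 4) (nat_lit 4) (nat_lit 4) (nat_lit 238) (nat_lit 216) (nat_lit 146))) (XT.nd (nat_lit 78) (nat_lit 0) (nat_lit 0) (XT.lf (nat_lit 0) (nat_lit 162016949730) (nat_lit 152) (nat_lit 116663398508) (nat_lit 0) (nat_lit 72102948319) (nat_lit 4) (nat_lit 5) (nat_lit 6) (nat_lit 4) (nat_lit 4) (nat_lit 4) (nat_lit 239) (nat_lit 216) (nat_lit 145)) (XT.lf (nat_lit 0) (nat_lit 219788828264) (nat_lit 152) (nat_lit 46544268570)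 (nat_lit 0) (nat_lit 129874251816) (nat_lit 4) (nat_lit 5) (nat_lit 6) (nat_lit 4) (nat_lit 4) (nat_lit 4) (nat_lit 240) (nat_lit 216) (nat_lit 144)))) (XT.nd (nat_lit 156) (nat_lit 0) (nat_lit 0) (XT.nd (nat_lit 78) (nat_lit 0) (nat_lit 0) (XT.lf (nat_lit 0) (nat_lit 37423370621) (nat_lit 76) (nat_lit 250352178558) (nat_lit 76) (nat_lit 160437102079) (nat_lit 3) (nat_lit 4) (nat_lit 4) (nat_lit 5) (nat_lit 4) (nat_lit 4) (nat_lit 241) (nat_lit 216) (nat_lit 143)) (XT.lf (nat_lit 0) (nat_lit 139216096922) (nat_lit 76) (nat_lit 229176647619) (nat_lit 76) (nat_lit 139261136330) (nat_lit 3) (nat_lit 4) (nat_lit 4) (nat_lit 5) (nat_lit 4) (nat_lit 4) (nat_lit 242) (nat_lit 216) (nat_lit 142))) (XT.nd (nat_lit 78) (nat_lit 0) (nat_lit 0) (XT.lf (nat_lit 0) (nat_lit 256276862722) (nat_lit 76) (nat_lit 204825196007) (nat_lit 76) (nat_lit 114909306622) (nat_lit 3) (nat_lit 4) (nat_lit 4) (nat_lit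 5) (nat_lit 4) (nat_lit 4) (nat_lit 243) (nat_lit 216) (nat_lit 141)) (XT.lf (nat_lit 0) (nat_lit 390895987351) (nat_lit 76) (nat_lit 176821382279) (nat_lit 76) (nat_lit 86905164115) (nat_lit 3) (nat_lit 4) (nat_lit 4) (nat_lit 5) (nat_lit 4) (nat_lit 4) (nat_lit 244) (nat_lit 216) (nat_lit 140))))) (XT.nd (nat_lit 312) (nat_lit 0) (nat_lit 0) (XT.nd (nat_lit 156) (nat_lit 152) (nat_lit 0) (XT.nd (nat_lit 78) (nat_lit 0) (nat_lit 0) (XT.lf (nat_lit 0) (nat_lit 545707323248) (nat_lit 76) (nat_lit 144617305730) (nat_lit 76) (nat_lit 54700801671) (nat_lit 3) (nat_lit 4) (nat_lit 4) (nat_lit 5) (nat_lit 4) (nat_lit 4) (nat_lit 245) (nat_lit 216) (nat_lit 139)) (XT.lf (nat_lit 0) (nat_lit 723739787854) (nat_lit 76) (nat_lit 107582886602) (nat_lit 76) (nat_lit 17666133939) (nat_lit 3) (nat_lit 4) (nat_lit 4) (nat_lit 5) (nat_lit 4) (nat_lit 4) (nat_lit 246) (nat_lit 216) (nat_lit 138)))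 (XT.nd (nat_lit 78) (nat_lit 76) (nat_lit 0) (XT.lf (nat_lit 0) (nat_lit 22704574282) (nat_lit 152) (nat_lit 41102134132) (nat_lit 76) (nat_lit 904585220741) (nat_lit 2) (nat_lit 5) (nat_lit 4) (nat_lit 5) (nat_lit 3) (nat_lit 4) (nat_lit 247) (nat_lit 216) (nat_lit 137)) (XT.lf (nat_lit 0) (nat_lit 60182990388) (nat_lit 76) (nat_lit 9631031569) (nat_lit 152) (nat_lit 1035391538661) (nat_lit 1) (nat_lit 5) (nat_lit 2) (nat_lit 5) (nat_lit 3) (nat_lit 4) (nat_lit 248) (nat_lit 216) (nat_lit 136)))) (XT.nd (nat_lit 156) (nat_lit 0) (nat_lit 0) (XT.nd (nat_lit 78) (nat_lit 0) (nat_lit 0) (XT.lf (nat_lit 0) (nat_lit 128421475833) (nat_lit 152) (nat_lit 1083222521443) (nat_lit 0) (nat_lit 50232501675) (nat_lit 1) (nat_lit 5) (nat_lit 3) (nat_lit 4) (nat_lit 1) (nat_lit 4) (nat_lit 249) (nat_lit 216) (nat_lit 135)) (XT.lf (nat_lit 0) (nat_lit 196278463332) (nat_lit 152) (nat_lit 1127611487241)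 (nat_lit 0) (nat_lit 118089365574) (nat_lit 1) (nat_lit 5) (nat_lit 3) (nat_lit 4) (nat_lit 1) (nat_lit 4) (nat_lit 250) (nat_lit 216) (nat_lit 134))) (XT.nd (nat_lit 78) (nat_lit 0) (nat_lit 0) (XT.lf (nat_lit 0) (nat_lit 274313820687) (nat_lit 152) (nat_lit 1178659146911) (nat_lit 0) (nat_lit 196124615450) (nat_lit 1) (nat_lit 5) (nat_lit 3) (nat_lit 4) (nat_lit 1) (nat_lit 4) (nat_lit 251) (nat_lit 216) (nat_lit 133)) (XT.lf (nat_lit 0) (nat_lit 364054326628) (nat_lit 152) (nat_lit 1237364259013) (nat_lit 0) (nat_lit 285865027932) (nat_lit 1) (nat_lit 5) (nat_lit 3) (nat_lit 4) (nat_lit 1) (nat_lit 4) (nat_lit 252) (nat_lit 216) (nat_lit 132))))))))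
noncomputable def xc66 : XT := (XT.nd (nat_lit 1248) (nat_lit 0) (nat_lit 0) (XT.nd (nat_lit 624) (nat_lit 0) (nat_lit 0) (XT.nd (nat_lit 312) (nat_lit 0) (nat_lit 0) (XT.nd (nat_lit 156) (nat_lit 0) (nat_lit 0) (XT.nd (nat_lit 78) (nat_lit 0) (nat_lit 0) (XT.lf (nat_lit 0) (nat_lit 467255773663) (nat_lit 152) (nat_lit 1304875401825) (nat_lit 0) (nat_lit 389066393697) (nat_lit 1) (nat_lit 5) (nat_lit 3) (nat_lit 4) (nat_lit 1) (nat_lit 4) (nat_lit 253) (nat_lit 216) (nat_lit 131)) (XT.lf (nat_lit 0) (nat_lit 585937320538) (nat_lit 152) (nat_lit 1382513445534) (nat_lit 0) (nat_lit 507747869903) (nat_lit 1) (nat_lit 5) (nat_lit 3) (nat_lit 4) (nat_lit 1) (nat_lit 4) (nat_lit 254) (nat_lit 216) (nat_lit 130))) (XT.nd (nat_lit 78) (nat_lit 0) (nat_lit 0) (XT.lf (nat_lit 0) (nat_lit 722420997518) (nat_lit 152) (nat_lit 1471797395342) (nat_lit 0) (nat_lit 644231485432) (nat_lit 1) (nat_lit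 5) (nat_lit 3) (nat_lit 4) (nat_lit 1) (nat_lit 4) (nat_lit 255) (nat_lit 216) (nat_lit 129)) (XT.lf (nat_lit 0) (nat_lit 879377137414) (nat_lit 152) (nat_lit 1574474111138) (nat_lit 0) (nat_lit 801187571893) (nat_lit 1) (nat_lit 5) (nat_lit 3) (nat_lit 4) (nat_lit 1) (nat_lit 4) (nat_lit 256) (nat_lit 216) (nat_lit 128)))) (XT.nd (nat_lit 156) (nat_lit 0) (nat_lit 0) (XT.nd (nat_lit 78) (nat_lit 0) (nat_lit 0) (XT.lf (nat_lit 0) (nat_lit 1059876621223) (nat_lit 152) (nat_lit 1692552485186) (nat_lit 0) (nat_lit 981687009236) (nat_lit 1) (nat_lit 5) (nat_lit 3) (nat_lit 4) (nat_lit 1) (nat_lit 4) (nat_lit 257) (nat_lit 216) (nat_lit 127)) (XT.lf (nat_lit 0) (nat_lit 1267450960586) (nat_lit 152) (nat_lit 1828342746545) (nat_lit 0) (nat_lit 1189261308194) (nat_lit 1) (nat_lit 5) (nat_lit 3) (nat_lit 4) (nat_lit 1) (nat_lit 4) (nat_lit 258) (nat_lit 216) (nat_lit 126))) (XT.nd (nat_lit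 78) (nat_lit 0) (nat_lit 0) (XT.lf (nat_lit 0) (nat_lit 1506161392576) (nat_lit 152) (nat_lit 1984501661197) (nat_lit 0) (nat_lit 1427971705049) (nat_lit 1) (nat_lit 5) (nat_lit 3) (nat_lit 4) (nat_lit 1) (nat_lit 4) (nat_lit 259) (nat_lit 216) (nat_lit 125)) (XT.lf (nat_lit 0) (nat_lit 1780678338690) (nat_lit 152) (nat_lit 2164084512255) (nat_lit 0) (nat_lit 1702488620611) (nat_lit 1) (nat_lit 5) (nat_lit 3) (nat_lit 4) (nat_lit 1) (nat_lit 4) (nat_lit 260) (nat_lit 216) (nat_lit 124))))) (XT.nd (nat_lit 312) (nat_lit 0) (nat_lit 0) (XT.nd (nat_lit 156) (nat_lit 0) (nat_lit 0) (XT.nd (nat_lit 78) (nat_lit 0) (nat_lit 0) (XT.lf (nat_lit 0) (nat_lit 2096372782656) (nat_lit 152) (nat_lit 2370604877240) (nat_lit 0) (nat_lit 2018183038010) (nat_lit 1) (nat_lit 5) (nat_lit 3) (nat_lit 4) (nat_lit 1) (nat_lit 4) (nat_lit 261) (nat_lit 216) (nat_lit 123)) (XT.lf (nat_lit 0) (nat_lit 2459421354898)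 (nat_lit 152) (nat_lit 2608103371988) (nat_lit 0) (nat_lit 2381231587151) (nat_lit 1) (nat_lit 5) (nat_lit 3) (nat_lit 4) (nat_lit 1) (nat_lit 4) (nat_lit 262) (nat_lit 216) (nat_lit 122))) (XT.nd (nat_lit 78) (nat_lit 0) (nat_lit 0) (XT.lf (nat_lit 0) (nat_lit 2876927179657) (nat_lit 152) (nat_lit 2881226706180) (nat_lit 0) (nat_lit 2798737391821) (nat_lit 1) (nat_lit 5) (nat_lit 3) (nat_lit 4) (nat_lit 1) (nat_lit 4) (nat_lit 263) (nat_lit 216) (nat_lit 121)) (XT.lf (nat_lit 0) (nat_lit 3357058849157) (nat_lit 152) (nat_lit 3195318597223) (nat_lit 0) (nat_lit 3278869043852) (nat_lit 1) (nat_lit 5) (nat_lit 3) (nat_lit 4) (nat_lit 1) (nat_lit 4) (nat_lit 264) (nat_lit 216) (nat_lit 120)))) (XT.nd (nat_lit 156) (nat_lit 0) (nat_lit 0) (XT.nd (nat_lit 78) (nat_lit 0) (nat_lit 0) (XT.lf (nat_lit 0) (nat_lit 3909210243886) (nat_lit 152) (nat_lit 3556524321246) (nat_lit 0) (nat_lit 3831020423392)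 (nat_lit 1) (nat_lit 5) (nat_lit 3) (nat_lit 4) (nat_lit 1) (nat_lit 4) (nat_lit 265) (nat_lit 216) (nat_lit 119)) (XT.lf (nat_lit 0) (nat_lit 4544184325917) (nat_lit 152) (nat_lit 3971910946764) (nat_lit 0) (nat_lit 4465994492214) (nat_lit 1) (nat_lit 5) (nat_lit 3) (nat_lit 4) (nat_lit 1) (nat_lit 4) (nat_lit 266) (nat_lit 216) (nat_lit 118))) (XT.nd (nat_lit 78) (nat_lit 0) (nat_lit 0) (XT.lf (nat_lit 0) (nat_lit 5274404501202) (nat_lit 152) (nat_lit 4449605603405) (nat_lit 0) (nat_lit 5196214656013) (nat_lit 1) (nat_lit 5) (nat_lit 3) (nat_lit 4) (nat_lit 1) (nat_lit 4) (nat_lit 267) (nat_lit 216) (nat_lit 117)) (XT.lf (nat_lit 0) (nat_lit 6114157686213) (nat_lit 152) (nat_lit 4998954490974) (nat_lit 0) (nat_lit 6035967831037) (nat_lit 1) (nat_lit 5) (nat_lit 3) (nat_lit 4) (nat_lit 1) (nat_lit 4) (nat_lit 268) (nat_lit 216) (nat_lit 116)))))) (XT.nd (nat_lit 936) (nat_lit 0) (nat_lit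 0) (XT.nd (nat_lit 624) (nat_lit 0) (nat_lit 0) (XT.nd (nat_lit 156) (nat_lit 0) (nat_lit 0) (XT.nd (nat_lit 78) (nat_lit 0) (nat_lit 0) (XT.lf (nat_lit 0) (nat_lit 7079873834571) (nat_lit 152) (nat_lit 5630705739879) (nat_lit 0) (nat_lit 7001683970710) (nat_lit 1) (nat_lit 5) (nat_lit 3) (nat_lit 4) (nat_lit 1) (nat_lit 4) (nat_lit 269) (nat_lit 216) (nat_lit 115)) (XT.lf (nat_lit 0) (nat_lit 8190447392657) (nat_lit 152) (nat_lit 6357219700643) (nat_lit 0) (nat_lit 8112257521244) (nat_lit 1) (nat_lit 5) (nat_lit 3) (nat_lit 4) (nat_lit 1) (nat_lit 4) (nat_lit 270) (nat_lit 216) (nat_lit 114))) (XT.nd (nat_lit 390) (nat_lit 0) (nat_lit 0) (XT.lf (nat_lit 0) (nat_lit 9467606973563) (nat_lit 152) (nat_lit 7192710776845) (nat_lit 0) (nat_lit 9389417095583) (nat_lit 1) (nat_lit 5) (nat_lit 3) (nat_lit 4) (nat_lit 1) (nat_lit 4) (nat_lit 271) (nat_lit 216) (nat_lit 113)) (XT.lf (nat_lit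 0) (nat_lit 19370368158195) (nat_lit 152) (nat_lit 13670890339623) (nat_lit 0) (nat_lit 19292178258202) (nat_lit 1) (nat_lit 5) (nat_lit 3) (nat_lit 4) (nat_lit 1) (nat_lit 4) (nat_lit 276) (nat_lit 216) (nat_lit 108)))) (XT.nd (nat_lit 156) (nat_lit 0) (nat_lit 0) (XT.nd (nat_lit 78) (nat_lit 0) (nat_lit 0) (XT.lf (nat_lit 0) (nat_lit 22324515812711) (nat_lit 152) (nat_lit 15603432092373) (nat_lit 0) (nat_lit 22246325909878) (nat_lit 1) (nat_lit 5) (nat_lit 3) (nat_lit 4) (nat_lit 1) (nat_lit 4) (nat_lit 277) (nat_lit 216) (nat_lit 107)) (XT.lf (nat_lit 0) (nat_lit 25721785611308) (nat_lit 152) (nat_lit 17825855116053) (nat_lit 0) (nat_lit 25643595706007) (nat_lit 1) (nat_lit 5) (nat_lit 3) (nat_lit 4) (nat_lit 1) (nat_lit 4) (nat_lit 278) (nat_lit 216) (nat_lit 106))) (XT.nd (nat_lit 78) (nat_lit 0) (nat_lit 0) (XT.lf (nat_lit 0) (nat_lit 29628645876135) (nat_lit 152) (nat_lit 20381641600255)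 (nat_lit 0) (nat_lit 29550455968687) (nat_lit 1) (nat_lit 5) (nat_lit 3) (nat_lit 4) (nat_lit 1) (nat_lit 4) (nat_lit 279) (nat_lit 216) (nat_lit 105)) (XT.lf (nat_lit 0) (nat_lit 34121535177589) (nat_lit 152) (nat_lit 23320796063149) (nat_lit 0) (nat_lit 34043345268275) (nat_lit 1) (nat_lit 5) (nat_lit 3) (nat_lit 4) (nat_lit 1) (nat_lit 4) (nat_lit 280) (nat_lit 216) (nat_lit 104))))) (XT.nd (nat_lit 26520) (nat_lit 0) (nat_lit 988) (XT.nd (nat_lit 26364) (nat_lit 0) (nat_lit 1140) (XT.nd (nat_lit 26286) (nat_lit 0) (nat_lit 1444) (XT.lf (nat_lit 0) (nat_lit 39288357871569) (nat_lit 152) (nat_lit 26700823700749) (nat_lit 0) (nat_lit 39210167960632) (nat_lit 1) (nat_lit 5) (nat_lit 3) (nat_lit 4) (nat_lit 1) (nat_lit 4) (nat_lit 281) (nat_lit 216) (nat_lit 103)) (XT.lf (nat_lit 0) (nat_lit 10980466222) (nat_lit 0) (nat_lit 10980466222) (nat_lit 228) (nat_lit 83228631) (nat_lit 20)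 (nat_lit 5) (nat_lit 20) (nat_lit 3) (nat_lit 23) (nat_lit 3) (nat_lit 217) (nat_lit 217) (nat_lit 166))) (XT.nd (nat_lit 78) (nat_lit 304) (nat_lit 0) (XT.lf (nat_lit 0) (nat_lit 44251776832) (nat_lit 0) (nat_lit 2992406028) (nat_lit 228) (nat_lit 146248679) (nat_lit 20) (nat_lit 5) (nat_lit 20) (nat_lit 3) (nat_lit 23) (nat_lit 3) (nat_lit 218) (nat_lit 217) (nat_lit 165)) (XT.lf (nat_lit 0) (nat_lit 1552339127) (nat_lit 304) (nat_lit 31353686566) (nat_lit 380) (nat_lit 18032980744) (nat_lit 16) (nat_lit 5) (nat_lit 20) (nat_lit 5) (nat_lit 21) (nat_lit 5) (nat_lit 219) (nat_lit 217) (nat_lit 164)))) (XT.nd (nat_lit 156) (nat_lit 152) (nat_lit 0) (XT.nd (nat_lit 78) (nat_lit 0) (nat_lit 76) (XT.lf (nat_lit 0) (nat_lit 3800458244) (nat_lit 304) (nat_lit 9085652521) (nat_lit 380) (nat_lit 42086293522) (nat_lit 16) (nat_lit 5) (nat_lit 20) (nat_lit 5) (nat_lit 21) (nat_lit 5) (nat_lit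 220) (nat_lit 217) (nat_lit 163)) (XT.lf (nat_lit 0) (nat_lit 7588154557) (nat_lit 304) (nat_lit 41820643327) (nat_lit 76) (nat_lit 10021693755) (nat_lit 17) (nat_lit 5) (nat_lit 21) (nat_lit 5) (nat_lit 18) (nat_lit 5) (nat_lit 221) (nat_lit 217) (nat_lit 162))) (XT.nd (nat_lit 78) (nat_lit 228) (nat_lit 0) (XT.lf (nat_lit 0) (nat_lit 13051548211) (nat_lit 304) (nat_lit 15795230707) (nat_lit 76) (nat_lit 35544411067) (nat_lit 17) (nat_lit 5) (nat_lit 21) (nat_lit 5) (nat_lit 18) (nat_lit 5) (nat_lit 222) (nat_lit 217) (nat_lit 161)) (XT.lf (nat_lit 0) (nat_lit 15511723396) (nat_lit 228) (nat_lit 4461879193) (nat_lit 304) (nat_lit 50026543243) (nat_lit 14) (nat_lit 5) (nat_lit 17) (nat_lit 5) (nat_lit 18) (nat_lit 5) (nat_lit 223) (nat_lit 217) (nat_lit 160)))))))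
noncomputable def xc67 : XT := (XT.nd (nat_lit 1248) (nat_lit 228) (nat_lit 0) (XT.nd (nat_lit 624) (nat_lit 304) (nat_lit 0) (XT.nd (nat_lit 312) (nat_lit 228) (nat_lit 0) (XT.nd (nat_lit 156) (nat_lit 76) (nat_lit 0) (XT.nd (nat_lit 78) (nat_lit 152) (nat_lit 0) (XT.lf (nat_lit 0) (nat_lit 29772490226) (nat_lit 304) (nat_lit 24055981419) (nat_lit 76) (nat_lit 22346216820) (nat_lit 14) (nat_lit 5) (nat_lit 18) (nat_lit 5) (nat_lit 15) (nat_lit 5) (nat_lit 224) (nat_lit 217) (nat_lit 159)) (XT.lf (nat_lit 0) (nat_lit 11773988914) (nat_lit 152) (nat_lit 29964723418) (nat_lit 228) (nat_lit 41432094243) (nat_lit 12) (nat_lit 5) (nat_lit 14) (nat_lit 5) (nat_lit 15) (nat_lit 5) (nat_lit 225) (nat_lit 217) (nat_lit 158))) (XT.nd (nat_lit 78) (nat_lit 76) (nat_lit 0) (XT.lf (nat_lit 0) (nat_lit 55679090232) (nat_lit 152) (nat_lit 1075949842) (nat_lit 228) (nat_lit 34273043249) (nat_lit 12)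 (nat_lit 5) (nat_lit 14) (nat_lit 5) (nat_lit 15) (nat_lit 5) (nat_lit 226) (nat_lit 217) (nat_lit 157)) (XT.lf (nat_lit 0) (nat_lit 5238424148) (nat_lit 76) (nat_lit 70331385722) (nat_lit 152) (nat_lit 24262257356) (nat_lit 11) (nat_lit 5) (nat_lit 12) (nat_lit 5) (nat_lit 13) (nat_lit 4) (nat_lit 227) (nat_lit 217) (nat_lit 156)))) (XT.nd (nat_lit 156) (nat_lit 152) (nat_lit 0) (XT.nd (nat_lit 78) (nat_lit 76) (nat_lit 0) (XT.lf (nat_lit 0) (nat_lit 55827746301) (nat_lit 76) (nat_lit 43273873309) (nat_lit 152) (nat_lit 10570818112) (nat_lit 11) (nat_lit 5) (nat_lit 12) (nat_lit 5) (nat_lit 13) (nat_lit 4) (nat_lit 228) (nat_lit 217) (nat_lit 155)) (XT.lf (nat_lit 0) (nat_lit 4711967634) (nat_lit 152) (nat_lit 7200188584) (nat_lit 76) (nat_lit 109044835541) (nat_lit 10) (nat_lit 5) (nat_lit 12) (nat_lit 5) (nat_lit 11) (nat_lit 5) (nat_lit 229) (nat_lit 217) (nat_lit 154))) (XT.nd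 (nat_lit 78) (nat_lit 0) (nat_lit 0) (XT.lf (nat_lit 0) (nat_lit 24414929695) (nat_lit 228) (nat_lit 84244727700) (nat_lit 76) (nat_lit 24717572666) (nat_lit 8) (nat_lit 5) (nat_lit 11) (nat_lit 5) (nat_lit 9) (nat_lit 4) (nat_lit 230) (nat_lit 217) (nat_lit 153)) (XT.lf (nat_lit 0) (nat_lit 48033464655) (nat_lit 228) (nat_lit 33467203881) (nat_lit 76) (nat_lit 66015823534) (nat_lit 8) (nat_lit 5) (nat_lit 11) (nat_lit 5) (nat_lit 9) (nat_lit 4) (nat_lit 231) (nat_lit 217) (nat_lit 152))))) (XT.nd (nat_lit 312) (nat_lit 152) (nat_lit 0) (XT.nd (nat_lit 156) (nat_lit 76) (nat_lit 0) (XT.nd (nat_lit 78) (nat_lit 0) (nat_lit 0) (XT.lf (nat_lit 0) (nat_lit 27360807516) (nat_lit 76) (nat_lit 48965696350) (nat_lit 152) (nat_lit 87280387215) (nat_lit 7) (nat_lit 5) (nat_lit 8) (nat_lit 5) (nat_lit 9) (nat_lit 4) (nat_lit 232) (nat_lit 217) (nat_lit 151)) (XT.lf (nat_lit 0) (nat_lit 101072379107)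 (nat_lit 76) (nat_lit 9539394824) (nat_lit 152) (nat_lit 71236840249) (nat_lit 7) (nat_lit 5) (nat_lit 8) (nat_lit 5) (nat_lit 9) (nat_lit 4) (nat_lit 233) (nat_lit 217) (nat_lit 150))) (XT.nd (nat_lit 78) (nat_lit 76) (nat_lit 0) (XT.lf (nat_lit 0) (nat_lit 151521246936) (nat_lit 152) (nat_lit 18470124734) (nat_lit 0) (nat_lit 32613016975) (nat_lit 7) (nat_lit 5) (nat_lit 9) (nat_lit 4) (nat_lit 7) (nat_lit 4) (nat_lit 234) (nat_lit 217) (nat_lit 149)) (XT.lf (nat_lit 0) (nat_lit 57878876573) (nat_lit 76) (nat_lit 143538271193) (nat_lit 76) (nat_lit 24628884628) (nat_lit 6) (nat_lit 4) (nat_lit 7) (nat_lit 5) (nat_lit 7) (nat_lit 4) (nat_lit 235) (nat_lit 217) (nat_lit 148)))) (XT.nd (nat_lit 156) (nat_lit 76) (nat_lit 0) (XT.nd (nat_lit 78) (nat_lit 0) (nat_lit 0) (XT.lf (nat_lit 0) (nat_lit 6288312931) (nat_lit 152) (nat_lit 105390519504) (nat_lit 76) (nat_lit 141137521813) (nat_lit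 5) (nat_lit 5) (nat_lit 7) (nat_lit 5) (nat_lit 6) (nat_lit 4) (nat_lit 236) (nat_lit 217) (nat_lit 147)) (XT.lf (nat_lit 0) (nat_lit 39320797215) (nat_lit 152) (nat_lit 34371552852) (nat_lit 76) (nat_lit 209734071071) (nat_lit 5) (nat_lit 5) (nat_lit 7) (nat_lit 5) (nat_lit 6) (nat_lit 4) (nat_lit 237) (nat_lit 217) (nat_lit 146))) (XT.nd (nat_lit 78) (nat_lit 0) (nat_lit 0) (XT.lf (nat_lit 0) (nat_lit 51921484872) (nat_lit 76) (nat_lit 27535962673) (nat_lit 152) (nat_lit 238848158875) (nat_lit 4) (nat_lit 5) (nat_lit 5) (nat_lit 5) (nat_lit 6) (nat_lit 4) (nat_lit 238) (nat_lit 217) (nat_lit 145)) (XT.lf (nat_lit 0) (nat_lit 128553919271) (nat_lit 152) (nat_lit 204270272388) (nat_lit 0) (nat_lit 25151581320) (nat_lit 4) (nat_lit 5) (nat_lit 6) (nat_lit 4) (nat_lit 4) (nat_lit 4) (nat_lit 239) (nat_lit 217) (nat_lit 144)))))) (XT.nd (nat_lit 624) (nat_lit 152) (nat_lit 0) (XT.nd (nat_lit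 312) (nat_lit 0) (nat_lit 0) (XT.nd (nat_lit 156) (nat_lit 76) (nat_lit 0) (XT.nd (nat_lit 78) (nat_lit 0) (nat_lit 0) (XT.lf (nat_lit 0) (nat_lit 186325536702) (nat_lit 152) (nat_lit 134151629648) (nat_lit 0) (nat_lit 82922698720) (nat_lit 4) (nat_lit 5) (nat_lit 6) (nat_lit 4) (nat_lit 4) (nat_lit 4) (nat_lit 240) (nat_lit 217) (nat_lit 143)) (XT.lf (nat_lit 0) (nat_lit 252762408602) (nat_lit 152) (nat_lit 53516101346) (nat_lit 0) (nat_lit 149359135809) (nat_lit 4) (nat_lit 5) (nat_lit 6) (nat_lit 4) (nat_lit 4) (nat_lit 4) (nat_lit 241) (nat_lit 217) (nat_lit 142))) (XT.nd (nat_lit 78) (nat_lit 0) (nat_lit 0) (XT.lf (nat_lit 0) (nat_lit 43046237929) (nat_lit 76) (nat_lit 287900601797) (nat_lit 76) (nat_lit 184496950909) (nat_lit 3) (nat_lit 4) (nat_lit 4) (nat_lit 5) (nat_lit 4) (nat_lit 4) (nat_lit 242) (nat_lit 217) (nat_lit 141)) (XT.lf (nat_lit 0) (nat_lit 160106652082) (nat_lit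 76) (nat_lit 263549315592) (nat_lit 76) (nat_lit 160145335925) (nat_lit 3) (nat_lit 4) (nat_lit 4) (nat_lit 5) (nat_lit 4) (nat_lit 4) (nat_lit 243) (nat_lit 217) (nat_lit 140)))) (XT.nd (nat_lit 156) (nat_lit 0) (nat_lit 0) (XT.nd (nat_lit 78) (nat_lit 0) (nat_lit 0) (XT.lf (nat_lit 0) (nat_lit 294725470931) (nat_lit 76) (nat_lit 235545645696) (nat_lit 76) (nat_lit 132141380134) (nat_lit 3) (nat_lit 4) (nat_lit 4) (nat_lit 5) (nat_lit 4) (nat_lit 4) (nat_lit 244) (nat_lit 217) (nat_lit 139)) (XT.lf (nat_lit 0) (nat_lit 449536540933) (nat_lit 76) (nat_lit 203341694218) (nat_lit 76) (nat_lit 99937180052) (nat_lit 3) (nat_lit 4) (nat_lit 4) (nat_lit 5) (nat_lit 4) (nat_lit 4) (nat_lit 245) (nat_lit 217) (nat_lit 138))) (XT.nd (nat_lit 78) (nat_lit 0) (nat_lit 0) (XT.lf (nat_lit 0) (nat_lit 627568774326) (nat_lit 76) (nat_lit 166307383848) (nat_lit 76) (nat_lit 62902653504) (nat_lit 3)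 (nat_lit 4) (nat_lit 4) (nat_lit 5) (nat_lit 4) (nat_lit 4) (nat_lit 246) (nat_lit 217) (nat_lit 137)) (XT.lf (nat_lit 0) (nat_lit 832305410459) (nat_lit 76) (nat_lit 123718130252) (nat_lit 76) (nat_lit 20313211928) (nat_lit 3) (nat_lit 4) (nat_lit 4) (nat_lit 5) (nat_lit 4) (nat_lit 4) (nat_lit 247) (nat_lit 217) (nat_lit 136))))) (XT.nd (nat_lit 312) (nat_lit 0) (nat_lit 0) (XT.nd (nat_lit 156) (nat_lit 0) (nat_lit 0) (XT.nd (nat_lit 78) (nat_lit 76) (nat_lit 0) (XT.lf (nat_lit 0) (nat_lit 26112511797) (nat_lit 152) (nat_lit 47263181420) (nat_lit 76) (nat_lit 1040274682121) (nat_lit 2) (nat_lit 5) (nat_lit 4) (nat_lit 5) (nat_lit 3) (nat_lit 4) (nat_lit 248) (nat_lit 217) (nat_lit 135)) (XT.lf (nat_lit 0) (nat_lit 69214517558) (nat_lit 76) (nat_lit 11073734294) (nat_lit 152) (nat_lit 1190697819099) (nat_lit 1) (nat_lit 5) (nat_lit 2) (nat_lit 5) (nat_lit 3) (nat_lit 4) (nat_lit 249)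 (nat_lit 217) (nat_lit 134))) (XT.nd (nat_lit 78) (nat_lit 0) (nat_lit 0) (XT.lf (nat_lit 0) (nat_lit 147686616713) (nat_lit 152) (nat_lit 1245702141796) (nat_lit 0) (nat_lit 57768923213) (nat_lit 1) (nat_lit 5) (nat_lit 3) (nat_lit 4) (nat_lit 1) (nat_lit 4) (nat_lit 250) (nat_lit 217) (nat_lit 133)) (XT.lf (nat_lit 0) (nat_lit 225721901967) (nat_lit 152) (nat_lit 1296749942620) (nat_lit 0) (nat_lit 135804115007) (nat_lit 1) (nat_lit 5) (nat_lit 3) (nat_lit 4) (nat_lit 1) (nat_lit 4) (nat_lit 251) (nat_lit 217) (nat_lit 132)))) (XT.nd (nat_lit 156) (nat_lit 0) (nat_lit 0) (XT.nd (nat_lit 78) (nat_lit 0) (nat_lit 0) (XT.lf (nat_lit 0) (nat_lit 315462345212) (nat_lit 152) (nat_lit 1355455177464) (nat_lit 0) (nat_lit 225544476982) (nat_lit 1) (nat_lit 5) (nat_lit 3) (nat_lit 4) (nat_lit 1) (nat_lit 4) (nat_lit 252) (nat_lit 217) (nat_lit 131)) (XT.lf (nat_lit 0) (nat_lit 418663737728)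 (nat_lit 152) (nat_lit 1422966427008) (nat_lit 0) (nat_lit 328745798830) (nat_lit 1) (nat_lit 5) (nat_lit 3) (nat_lit 4) (nat_lit 1) (nat_lit 4) (nat_lit 253) (nat_lit 217) (nat_lit 130))) (XT.nd (nat_lit 78) (nat_lit 0) (nat_lit 0) (XT.lf (nat_lit 0) (nat_lit 537345237195) (nat_lit 152) (nat_lit 1500604563528) (nat_lit 0) (nat_lit 447427236846) (nat_lit 1) (nat_lit 5) (nat_lit 3) (nat_lit 4) (nat_lit 1) (nat_lit 4) (nat_lit 254) (nat_lit 217) (nat_lit 129)) (XT.nd (nat_lit 78) (nat_lit 0) (nat_lit 0) (XT.lf (nat_lit 0) (nat_lit 673828872951) (nat_lit 152) (nat_lit 1589888594042) (nat_lit 0) (nat_lit 583910819167) (nat_lit 1) (nat_lit 5) (nat_lit 3) (nat_lit 4) (nat_lit 1) (nat_lit 4) (nat_lit 255) (nat_lit 217) (nat_lit 128)) (XT.lf (nat_lit 0) (nat_lit 830784977000) (nat_lit 152) (nat_lit 1692565380016) (nat_lit 0) (nat_lit 740866876750) (nat_lit 1) (nat_lit 5) (nat_lit 3) (nat_lit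 4) (nat_lit 1) (nat_lit 4) (nat_lit 256) (nat_lit 217) (nat_lit 127))))))))
noncomputable def xc68 : XT := (XT.nd (nat_lit 28938) (nat_lit 0) (nat_lit 0) (XT.nd (nat_lit 1404) (nat_lit 0) (nat_lit 0) (XT.nd (nat_lit 624) (nat_lit 0) (nat_lit 0) (XT.nd (nat_lit 312) (nat_lit 0) (nat_lit 0) (XT.nd (nat_lit 156) (nat_lit 0) (nat_lit 0) (XT.nd (nat_lit 78) (nat_lit 0) (nat_lit 0) (XT.lf (nat_lit 0) (nat_lit 1011284429639) (nat_lit 152) (nat_lit 1810643815089) (nat_lit 0) (nat_lit 921366288983) (nat_lit 1) (nat_lit 5) (nat_lit 3) (nat_lit 4) (nat_lit 1) (nat_lit 4) (nat_lit 257) (nat_lit 217) (nat_lit 126)) (XT.lf (nat_lit 0) (nat_lit 1218858741896) (nat_lit 152) (nat_lit 1946434129512) (nat_lit 0) (nat_lit 1128940566105) (nat_lit 1) (nat_lit 5) (nat_lit 3) (nat_lit 4) (nat_lit 1) (nat_lit 4) (nat_lit 258) (nat_lit 217) (nat_lit 125))) (XT.nd (nat_lit 78) (nat_lit 0) (nat_lit 0) (XT.lf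 (nat_lit 0) (nat_lit 1457569150317) (nat_lit 152) (nat_lit 2102593090308) (nat_lit 0) (nat_lit 1367650943974) (nat_lit 1) (nat_lit 5) (nat_lit 3) (nat_lit 4) (nat_lit 1) (nat_lit 4) (nat_lit 259) (nat_lit 217) (nat_lit 124)) (XT.lf (nat_lit 0) (nat_lit 1732086075935) (nat_lit 152) (nat_lit 2282175981490) (nat_lit 0) (nat_lit 1642167843025) (nat_lit 1) (nat_lit 5) (nat_lit 3) (nat_lit 4) (nat_lit 1) (nat_lit 4) (nat_lit 260) (nat_lit 217) (nat_lit 123)))) (XT.nd (nat_lit 156) (nat_lit 0) (nat_lit 0) (XT.nd (nat_lit 78) (nat_lit 0) (nat_lit 0) (XT.lf (nat_lit 0) (nat_lit 2047780502078) (nat_lit 152) (nat_lit 2488696381366) (nat_lit 0) (nat_lit 1957862246067) (nat_lit 1) (nat_lit 5) (nat_lit 3) (nat_lit 4) (nat_lit 1) (nat_lit 4) (nat_lit 261) (nat_lit 217) (nat_lit 122)) (XT.lf (nat_lit 0) (nat_lit 2410829058823) (nat_lit 152) (nat_lit 2726194906455) (nat_lit 0) (nat_lit 2320910782723)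 (nat_lit 1) (nat_lit 5) (nat_lit 3) (nat_lit 4) (nat_lit 1) (nat_lit 4) (nat_lit 262) (nat_lit 217) (nat_lit 121))) (XT.nd (nat_lit 78) (nat_lit 0) (nat_lit 0) (XT.lf (nat_lit 0) (nat_lit 2828334870106) (nat_lit 152) (nat_lit 2999318267029) (nat_lit 0) (nat_lit 2738416576538) (nat_lit 1) (nat_lit 5) (nat_lit 3) (nat_lit 4) (nat_lit 1) (nat_lit 4) (nat_lit 263) (nat_lit 217) (nat_lit 120)) (XT.lf (nat_lit 0) (nat_lit 3308466527887) (nat_lit 152) (nat_lit 3313410181013) (nat_lit 0) (nat_lit 3218548219129) (nat_lit 1) (nat_lit 5) (nat_lit 3) (nat_lit 4) (nat_lit 1) (nat_lit 4) (nat_lit 264) (nat_lit 217) (nat_lit 119))))) (XT.nd (nat_lit 312) (nat_lit 0) (nat_lit 0) (XT.nd (nat_lit 156) (nat_lit 0) (nat_lit 0) (XT.nd (nat_lit 78) (nat_lit 0) (nat_lit 0) (XT.lf (nat_lit 0) (nat_lit 3860617912427) (nat_lit 152) (nat_lit 3674615924986) (nat_lit 0) (nat_lit 3770699590460) (nat_lit 1) (nat_lit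 5) (nat_lit 3) (nat_lit 4) (nat_lit 1) (nat_lit 4) (nat_lit 265) (nat_lit 217) (nat_lit 118)) (XT.lf (nat_lit 0) (nat_lit 4495591985597) (nat_lit 152) (nat_lit 4090002567850) (nat_lit 0) (nat_lit 4405673652144) (nat_lit 1) (nat_lit 5) (nat_lit 3) (nat_lit 4) (nat_lit 1) (nat_lit 4) (nat_lit 266) (nat_lit 217) (nat_lit 117))) (XT.nd (nat_lit 78) (nat_lit 0) (nat_lit 0) (XT.lf (nat_lit 0) (nat_lit 5225812153176) (nat_lit 152) (nat_lit 4567697239576) (nat_lit 0) (nat_lit 5135893809737) (nat_lit 1) (nat_lit 5) (nat_lit 3) (nat_lit 4) (nat_lit 1) (nat_lit 4) (nat_lit 267) (nat_lit 217) (nat_lit 116)) (XT.lf (nat_lit 0) (nat_lit 6065565331488) (nat_lit 152) (nat_lit 5117046140261) (nat_lit 0) (nat_lit 5975646979363) (nat_lit 1) (nat_lit 5) (nat_lit 3) (nat_lit 4) (nat_lit 1) (nat_lit 4) (nat_lit 268) (nat_lit 217) (nat_lit 115)))) (XT.nd (nat_lit 156) (nat_lit 0) (nat_lit 0) (XT.nd (nat_lit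 78) (nat_lit 0) (nat_lit 0) (XT.lf (nat_lit 0) (nat_lit 7031281474020) (nat_lit 152) (nat_lit 5748797400572) (nat_lit 0) (nat_lit 6941363114343) (nat_lit 1) (nat_lit 5) (nat_lit 3) (nat_lit 4) (nat_lit 1) (nat_lit 4) (nat_lit 269) (nat_lit 217) (nat_lit 114)) (XT.lf (nat_lit 0) (nat_lit 8141855027039) (nat_lit 152) (nat_lit 6475311371254) (nat_lit 0) (nat_lit 8051936660796) (nat_lit 1) (nat_lit 5) (nat_lit 3) (nat_lit 4) (nat_lit 1) (nat_lit 4) (nat_lit 270) (nat_lit 217) (nat_lit 113))) (XT.nd (nat_lit 234) (nat_lit 0) (nat_lit 0) (XT.lf (nat_lit 0) (nat_lit 9419014603540) (nat_lit 152) (nat_lit 7310802456081) (nat_lit 0) (nat_lit 9329096231586) (nat_lit 1) (nat_lit 5) (nat_lit 3) (nat_lit 4) (nat_lit 1) (nat_lit 4) (nat_lit 271) (nat_lit 217) (nat_lit 112)) (XT.lf (nat_lit 0) (nat_lit 14519191677123) (nat_lit 152) (nat_lit 10647231765280) (nat_lit 0) (nat_lit 14429273292131) (nat_lit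 1) (nat_lit 5) (nat_lit 3) (nat_lit 4) (nat_lit 1) (nat_lit 4) (nat_lit 274) (nat_lit 217) (nat_lit 109)))))) (XT.nd (nat_lit 26910) (nat_lit 0) (nat_lit 836) (XT.nd (nat_lit 312) (nat_lit 0) (nat_lit 0) (XT.nd (nat_lit 156) (nat_lit 0) (nat_lit 0) (XT.nd (nat_lit 78) (nat_lit 0) (nat_lit 0) (XT.lf (nat_lit 0) (nat_lit 16752951724096) (nat_lit 152) (nat_lit 12108510962150) (nat_lit 0) (nat_lit 16663033335839) (nat_lit 1) (nat_lit 5) (nat_lit 3) (nat_lit 4) (nat_lit 1) (nat_lit 4) (nat_lit 275) (nat_lit 217) (nat_lit 108)) (XT.lf (nat_lit 0) (nat_lit 19321775773405) (nat_lit 152) (nat_lit 13788982047770) (nat_lit 0) (nat_lit 19231857382309) (nat_lit 1) (nat_lit 5) (nat_lit 3) (nat_lit 4) (nat_lit 1) (nat_lit 4) (nat_lit 276) (nat_lit 217) (nat_lit 107))) (XT.nd (nat_lit 78) (nat_lit 0) (nat_lit 0) (XT.lf (nat_lit 0) (nat_lit 22275923426015) (nat_lit 152) (nat_lit 15721523804249) (nat_lit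 0) (nat_lit 22186005032450) (nat_lit 1) (nat_lit 5) (nat_lit 3) (nat_lit 4) (nat_lit 1) (nat_lit 4) (nat_lit 277) (nat_lit 217) (nat_lit 106)) (XT.lf (nat_lit 0) (nat_lit 25673193222957) (nat_lit 152) (nat_lit 17943946831171) (nat_lit 0) (nat_lit 25583274827245) (nat_lit 1) (nat_lit 5) (nat_lit 3) (nat_lit 4) (nat_lit 1) (nat_lit 4) (nat_lit 278) (nat_lit 217) (nat_lit 105)))) (XT.nd (nat_lit 156) (nat_lit 0) (nat_lit 0) (XT.nd (nat_lit 78) (nat_lit 0) (nat_lit 0) (XT.lf (nat_lit 0) (nat_lit 29580053486344) (nat_lit 152) (nat_lit 20499733318192) (nat_lit 0) (nat_lit 29490135088765) (nat_lit 1) (nat_lit 5) (nat_lit 3) (nat_lit 4) (nat_lit 1) (nat_lit 4) (nat_lit 279) (nat_lit 217) (nat_lit 104)) (XT.lf (nat_lit 0) (nat_lit 34072942786546) (nat_lit 152) (nat_lit 23438887783538) (nat_lit 0) (nat_lit 33983024387344) (nat_lit 1) (nat_lit 5) (nat_lit 3) (nat_lit 4) (nat_lit 1) (nat_lit 4)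 (nat_lit 280) (nat_lit 217) (nat_lit 103))) (XT.nd (nat_lit 26364) (nat_lit 0) (nat_lit 1444) (XT.lf (nat_lit 0) (nat_lit 39239765479437) (nat_lit 152) (nat_lit 26818915423269) (nat_lit 0) (nat_lit 39149847078823) (nat_lit 1) (nat_lit 5) (nat_lit 3) (nat_lit 4) (nat_lit 1) (nat_lit 4) (nat_lit 281) (nat_lit 217) (nat_lit 102)) (XT.lf (nat_lit 0) (nat_lit 12641041810) (nat_lit 0) (nat_lit 12641041810) (nat_lit 228) (nat_lit 64373790) (nat_lit 20) (nat_lit 5) (nat_lit 20) (nat_lit 3) (nat_lit 23) (nat_lit 3) (nat_lit 218) (nat_lit 218) (nat_lit 164))))) (XT.nd (nat_lit 312) (nat_lit 304) (nat_lit 0) (XT.nd (nat_lit 156) (nat_lit 0) (nat_lit 0) (XT.nd (nat_lit 78) (nat_lit 304) (nat_lit 0) (XT.lf (nat_lit 0) (nat_lit 50913031451) (nat_lit 0) (nat_lit 3464755027) (nat_lit 228) (nat_lit 113683135) (nat_lit 20) (nat_lit 5) (nat_lit 20) (nat_lit 3) (nat_lit 23) (nat_lit 3) (nat_lit 219) (nat_lit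 218) (nat_lit 163)) (XT.lf (nat_lit 0) (nat_lit 1828802976) (nat_lit 304) (nat_lit 36021580879) (nat_lit 380) (nat_lit 20722568480) (nat_lit 16) (nat_lit 5) (nat_lit 20) (nat_lit 5) (nat_lit 21) (nat_lit 5) (nat_lit 220) (nat_lit 218) (nat_lit 162))) (XT.nd (nat_lit 78) (nat_lit 0) (nat_lit 76) (XT.lf (nat_lit 0) (nat_lit 4408451311) (nat_lit 304) (nat_lit 10417927641) (nat_lit 380) (nat_lit 48385881571) (nat_lit 16) (nat_lit 5) (nat_lit 20) (nat_lit 5) (nat_lit 21) (nat_lit 5) (nat_lit 221) (nat_lit 218) (nat_lit 161)) (XT.lf (nat_lit 0) (nat_lit 8760356665) (nat_lit 304) (nat_lit 48058947090) (nat_lit 76) (nat_lit 11520390220) (nat_lit 17) (nat_lit 5) (nat_lit 21) (nat_lit 5) (nat_lit 18) (nat_lit 5) (nat_lit 222) (nat_lit 218) (nat_lit 160)))) (XT.nd (nat_lit 156) (nat_lit 152) (nat_lit 0) (XT.nd (nat_lit 78) (nat_lit 228) (nat_lit 0) (XT.lf (nat_lit 0) (nat_lit 15038827333) (nat_lit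 304) (nat_lit 18134260760) (nat_lit 76) (nat_lit 40872109598) (nat_lit 17) (nat_lit 5) (nat_lit 21) (nat_lit 5) (nat_lit 18) (nat_lit 5) (nat_lit 223) (nat_lit 218) (nat_lit 159)) (XT.lf (nat_lit 0) (nat_lit 17867361252) (nat_lit 228) (nat_lit 5129170506) (nat_lit 304) (nat_lit 57499395016) (nat_lit 14) (nat_lit 5) (nat_lit 17) (nat_lit 5) (nat_lit 18) (nat_lit 5) (nat_lit 224) (nat_lit 218) (nat_lit 158))) (XT.nd (nat_lit 78) (nat_lit 152) (nat_lit 0) (XT.lf (nat_lit 0) (nat_lit 34261816982) (nat_lit 304) (nat_lit 27635650063) (nat_lit 76) (nat_lit 25699726171) (nat_lit 14) (nat_lit 5) (nat_lit 18) (nat_lit 5) (nat_lit 15) (nat_lit 5) (nat_lit 225) (nat_lit 218) (nat_lit 157)) (XT.lf (nat_lit 0) (nat_lit 13567509976) (nat_lit 152) (nat_lit 34453538829) (nat_lit 228) (nat_lit 47621992326) (nat_lit 12) (nat_lit 5) (nat_lit 14) (nat_lit 5) (nat_lit 15) (nat_lit 5) (nat_lit 226) (nat_lit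 218) (nat_lit 156))))))) (XT.nd (nat_lit 1248) (nat_lit 228) (nat_lit 0) (XT.nd (nat_lit 624) (nat_lit 228) (nat_lit 0) (XT.nd (nat_lit 312) (nat_lit 228) (nat_lit 0) (XT.nd (nat_lit 156) (nat_lit 76) (nat_lit 0) (XT.nd (nat_lit 78) (nat_lit 76) (nat_lit 0) (XT.lf (nat_lit 0) (nat_lit 64054799614) (nat_lit 152) (nat_lit 1232217882) (nat_lit 228) (nat_lit 39392333602) (nat_lit 12) (nat_lit 5) (nat_lit 14) (nat_lit 5) (nat_lit 15) (nat_lit 5) (nat_lit 227) (nat_lit 218) (nat_lit 155)) (XT.lf (nat_lit 0) (nat_lit 6049558041) (nat_lit 76) (nat_lit 80873237842) (nat_lit 152) (nat_lit 27881335543) (nat_lit 11) (nat_lit 5) (nat_lit 12) (nat_lit 5) (nat_lit 13) (nat_lit 4) (nat_lit 228) (nat_lit 218) (nat_lit 154))) (XT.nd (nat_lit 78) (nat_lit 76) (nat_lit 0) (XT.lf (nat_lit 0) (nat_lit 64223969351) (nat_lit 76) (nat_lit 49758123229) (nat_lit 152) (nat_lit 12138823075) (nat_lit 11) (nat_lit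 5) (nat_lit 12) (nat_lit 5) (nat_lit 13) (nat_lit 4) (nat_lit 229) (nat_lit 218) (nat_lit 153)) (XT.lf (nat_lit 0) (nat_lit 5432718692) (nat_lit 152) (nat_lit 8259591378) (nat_lit 76) (nat_lit 125406059015) (nat_lit 10) (nat_lit 5) (nat_lit 12) (nat_lit 5) (nat_lit 11) (nat_lit 5) (nat_lit 230) (nat_lit 218) (nat_lit 152)))) (XT.nd (nat_lit 156) (nat_lit 76) (nat_lit 0) (XT.nd (nat_lit 78) (nat_lit 0) (nat_lit 0) (XT.lf (nat_lit 0) (nat_lit 28090398934) (nat_lit 228) (nat_lit 96860017364) (nat_lit 76) (nat_lit 28431345935) (nat_lit 8) (nat_lit 5) (nat_lit 11) (nat_lit 5) (nat_lit 9) (nat_lit 4) (nat_lit 231) (nat_lit 218) (nat_lit 151)) (XT.lf (nat_lit 0) (nat_lit 55249988513) (nat_lit 228) (nat_lit 38468658819) (nat_lit 76) (nat_lit 75923533907) (nat_lit 8) (nat_lit 5) (nat_lit 11) (nat_lit 5) (nat_lit 9) (nat_lit 4) (nat_lit 232) (nat_lit 218) (nat_lit 150))) (XT.nd (nat_lit 78)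 (nat_lit 0) (nat_lit 0) (XT.lf (nat_lit 0) (nat_lit 31482707667) (nat_lit 76) (nat_lit 56303511587) (nat_lit 152) (nat_lit 100360043198) (nat_lit 7) (nat_lit 5) (nat_lit 8) (nat_lit 5) (nat_lit 9) (nat_lit 4) (nat_lit 233) (nat_lit 218) (nat_lit 149)) (XT.lf (nat_lit 0) (nat_lit 116248695994) (nat_lit 76) (nat_lit 10964182991) (nat_lit 152) (nat_lit 81911581851) (nat_lit 7) (nat_lit 5) (nat_lit 8) (nat_lit 5) (nat_lit 9) (nat_lit 4) (nat_lit 234) (nat_lit 218) (nat_lit 148))))) (XT.nd (nat_lit 312) (nat_lit 76) (nat_lit 0) (XT.nd (nat_lit 156) (nat_lit 76) (nat_lit 0) (XT.nd (nat_lit 78) (nat_lit 76) (nat_lit 0) (XT.lf (nat_lit 0) (nat_lit 174257775215) (nat_lit 152) (nat_lit 21226163417) (nat_lit 0) (nat_lit 37509818319) (nat_lit 7) (nat_lit 5) (nat_lit 9) (nat_lit 4) (nat_lit 7) (nat_lit 4) (nat_lit 235) (nat_lit 218) (nat_lit 147)) (XT.lf (nat_lit 0) (nat_lit 66574529903) (nat_lit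 76) (nat_lit 165063015611) (nat_lit 76) (nat_lit 28314184157) (nat_lit 6) (nat_lit 4) (nat_lit 7) (nat_lit 5) (nat_lit 7) (nat_lit 4) (nat_lit 236) (nat_lit 218) (nat_lit 146))) (XT.nd (nat_lit 78) (nat_lit 0) (nat_lit 0) (XT.lf (nat_lit 0) (nat_lit 7238715497) (nat_lit 152) (nat_lit 121186353620) (nat_lit 76) (nat_lit 162312639409) (nat_lit 5) (nat_lit 5) (nat_lit 7) (nat_lit 5) (nat_lit 6) (nat_lit 4) (nat_lit 237) (nat_lit 218) (nat_lit 145)) (XT.lf (nat_lit 0) (nat_lit 45225139081) (nat_lit 152) (nat_lit 39516204206) (nat_lit 76) (nat_lit 241198085492) (nat_lit 5) (nat_lit 5) (nat_lit 7) (nat_lit 5) (nat_lit 6) (nat_lit 4) (nat_lit 238) (nat_lit 218) (nat_lit 144)))) (XT.nd (nat_lit 156) (nat_lit 0) (nat_lit 0) (XT.nd (nat_lit 78) (nat_lit 0) (nat_lit 0) (XT.lf (nat_lit 0) (nat_lit 59720285469) (nat_lit 76) (nat_lit 31661627896) (nat_lit 152) (nat_lit 274668637422) (nat_lit 4)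 (nat_lit 5) (nat_lit 5) (nat_lit 5) (nat_lit 6) (nat_lit 4) (nat_lit 239) (nat_lit 218) (nat_lit 143)) (XT.lf (nat_lit 0) (nat_lit 147842263260) (nat_lit 152) (nat_lit 234901005736) (nat_lit 0) (nat_lit 28928064738) (nat_lit 4) (nat_lit 5) (nat_lit 6) (nat_lit 4) (nat_lit 4) (nat_lit 4) (nat_lit 240) (nat_lit 218) (nat_lit 142))) (XT.nd (nat_lit 78) (nat_lit 0) (nat_lit 0) (XT.lf (nat_lit 0) (nat_lit 214278937728) (nat_lit 152) (nat_lit 154265845826) (nat_lit 0) (nat_lit 95364361111) (nat_lit 4) (nat_lit 5) (nat_lit 6) (nat_lit 4) (nat_lit 4) (nat_lit 4) (nat_lit 241) (nat_lit 218) (nat_lit 141)) (XT.lf (nat_lit 0) (nat_lit 290680744258) (nat_lit 152) (nat_lit 61536100661) (nat_lit 0) (nat_lit 171765838862) (nat_lit 4) (nat_lit 5) (nat_lit 6) (nat_lit 4) (nat_lit 4) (nat_lit 4) (nat_lit 242) (nat_lit 218) (nat_lit 140)))))) (XT.nd (nat_lit 624) (nat_lit 0) (nat_lit 0) (XT.nd (nat_lit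 312) (nat_lit 152) (nat_lit 0) (XT.nd (nat_lit 156) (nat_lit 0) (nat_lit 0) (XT.nd (nat_lit 78) (nat_lit 0) (nat_lit 0) (XT.lf (nat_lit 0) (nat_lit 49510252419) (nat_lit 76) (nat_lit 331082362354) (nat_lit 76) (nat_lit 212167171063) (nat_lit 3) (nat_lit 4) (nat_lit 4) (nat_lit 5) (nat_lit 4) (nat_lit 4) (nat_lit 243) (nat_lit 218) (nat_lit 139)) (XT.lf (nat_lit 0) (nat_lit 184128805373) (nat_lit 76) (nat_lit 303078817529) (nat_lit 76) (nat_lit 184163377633) (nat_lit 3) (nat_lit 4) (nat_lit 4) (nat_lit 5) (nat_lit 4) (nat_lit 4) (nat_lit 244) (nat_lit 218) (nat_lit 138))) (XT.nd (nat_lit 78) (nat_lit 0) (nat_lit 0) (XT.lf (nat_lit 0) (nat_lit 338939644161) (nat_lit 76) (nat_lit 270874974809) (nat_lit 76) (nat_lit 151959318736) (nat_lit 3) (nat_lit 4) (nat_lit 4) (nat_lit 5) (nat_lit 4) (nat_lit 4) (nat_lit 245) (nat_lit 218) (nat_lit 137)) (XT.lf (nat_lit 0) (nat_lit 516971676499) (nat_lit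 76) (nat_lit 233840759011) (nat_lit 76) (nat_lit 114924914958) (nat_lit 3) (nat_lit 4) (nat_lit 4) (nat_lit 5) (nat_lit 4) (nat_lit 4) (nat_lit 246) (nat_lit 218) (nat_lit 136)))) (XT.nd (nat_lit 156) (nat_lit 152) (nat_lit 0) (XT.nd (nat_lit 78) (nat_lit 0) (nat_lit 0) (XT.lf (nat_lit 0) (nat_lit 721708137802) (nat_lit 76) (nat_lit 191251587651) (nat_lit 76) (nat_lit 72335580137) (nat_lit 3) (nat_lit 4) (nat_lit 4) (nat_lit 5) (nat_lit 4) (nat_lit 4) (nat_lit 247) (nat_lit 218) (nat_lit 135)) (XT.lf (nat_lit 0) (nat_lit 957154741443) (nat_lit 76) (nat_lit 142274194334) (nat_lit 76) (nat_lit 23358044680) (nat_lit 3) (nat_lit 4) (nat_lit 4) (nat_lit 5) (nat_lit 4) (nat_lit 4) (nat_lit 248) (nat_lit 218) (nat_lit 134))) (XT.nd (nat_lit 78) (nat_lit 76) (nat_lit 0) (XT.lf (nat_lit 0) (nat_lit 30031090928) (nat_lit 152) (nat_lit 54349427758) (nat_lit 76) (nat_lit 1196317153452) (nat_lit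 2) (nat_lit 5) (nat_lit 4) (nat_lit 5) (nat_lit 3) (nat_lit 4) (nat_lit 249) (nat_lit 218) (nat_lit 133)) (XT.lf (nat_lit 0) (nat_lit 79599779209) (nat_lit 76) (nat_lit 12733318438) (nat_lit 152) (nat_lit 1369300639139) (nat_lit 1) (nat_lit 5) (nat_lit 2) (nat_lit 5) (nat_lit 3) (nat_lit 4) (nat_lit 250) (nat_lit 218) (nat_lit 132))))) (XT.nd (nat_lit 312) (nat_lit 0) (nat_lit 0) (XT.nd (nat_lit 156) (nat_lit 0) (nat_lit 0) (XT.nd (nat_lit 78) (nat_lit 0) (nat_lit 0) (XT.lf (nat_lit 0) (nat_lit 169841060642) (nat_lit 152) (nat_lit 1432554621581) (nat_lit 0) (nat_lit 66435430909) (nat_lit 1) (nat_lit 5) (nat_lit 3) (nat_lit 4) (nat_lit 1) (nat_lit 4) (nat_lit 251) (nat_lit 218) (nat_lit 131)) (XT.lf (nat_lit 0) (nat_lit 259581449368) (nat_lit 152) (nat_lit 1491259963157) (nat_lit 0) (nat_lit 156175748966) (nat_lit 1) (nat_lit 5) (nat_lit 3) (nat_lit 4) (nat_lit 1) (nat_lit 4) (nat_lit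 252) (nat_lit 218) (nat_lit 130))) (XT.nd (nat_lit 78) (nat_lit 0) (nat_lit 0) (XT.lf (nat_lit 0) (nat_lit 362782794477) (nat_lit 152) (nat_lit 1558771305512) (nat_lit 0) (nat_lit 259377032624) (nat_lit 1) (nat_lit 5) (nat_lit 3) (nat_lit 4) (nat_lit 1) (nat_lit 4) (nat_lit 253) (nat_lit 218) (nat_lit 129)) (XT.lf (nat_lit 0) (nat_lit 481464252720) (nat_lit 152) (nat_lit 1636409522737) (nat_lit 0) (nat_lit 378058437432) (nat_lit 1) (nat_lit 5) (nat_lit 3) (nat_lit 4) (nat_lit 1) (nat_lit 4) (nat_lit 254) (nat_lit 218) (nat_lit 128)))) (XT.nd (nat_lit 156) (nat_lit 0) (nat_lit 0) (XT.nd (nat_lit 78) (nat_lit 0) (nat_lit 0) (XT.lf (nat_lit 0) (nat_lit 617947852630) (nat_lit 152) (nat_lit 1725693623429) (nat_lit 0) (nat_lit 514541990875) (nat_lit 1) (nat_lit 5) (nat_lit 3) (nat_lit 4) (nat_lit 1) (nat_lit 4) (nat_lit 255) (nat_lit 218) (nat_lit 127)) (XT.lf (nat_lit 0) (nat_lit 774903925507)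 (nat_lit 152) (nat_lit 1828370470428) (nat_lit 0) (nat_lit 671498023348) (nat_lit 1) (nat_lit 5) (nat_lit 3) (nat_lit 4) (nat_lit 1) (nat_lit 4) (nat_lit 256) (nat_lit 218) (nat_lit 126))) (XT.nd (nat_lit 78) (nat_lit 0) (nat_lit 0) (XT.lf (nat_lit 0) (nat_lit 955403351040) (nat_lit 152) (nat_lit 1946448958566) (nat_lit 0) (nat_lit 851997413746) (nat_lit 1) (nat_lit 5) (nat_lit 3) (nat_lit 4) (nat_lit 1) (nat_lit 4) (nat_lit 257) (nat_lit 218) (nat_lit 125)) (XT.lf (nat_lit 0) (nat_lit 1162977639728) (nat_lit 152) (nat_lit 2082239319133) (nat_lit 0) (nat_lit 1059571671881) (nat_lit 1) (nat_lit 5) (nat_lit 3) (nat_lit 4) (nat_lit 1) (nat_lit 4) (nat_lit 258) (nat_lit 218) (nat_lit 124))))))))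
noncomputable def xc69 : XT := (XT.nd (nat_lit 1404) (nat_lit 0) (nat_lit 0) (XT.nd (nat_lit 624) (nat_lit 0) (nat_lit 0) (XT.nd (nat_lit 312) (nat_lit 0) (nat_lit 0) (XT.nd (nat_lit 156) (nat_lit 0) (nat_lit 0) (XT.nd (nat_lit 78) (nat_lit 0) (nat_lit 0) (XT.lf (nat_lit 0) (nat_lit 1401688027653) (nat_lit 152) (nat_lit 2238398320053) (nat_lit 0) (nat_lit 1298282033239) (nat_lit 1) (nat_lit 5) (nat_lit 3) (nat_lit 4) (nat_lit 1) (nat_lit 4) (nat_lit 259) (nat_lit 218) (nat_lit 123)) (XT.lf (nat_lit 0) (nat_lit 1676204935449) (nat_lit 152) (nat_lit 2417981246127) (nat_lit 0) (nat_lit 1572798917934) (nat_lit 1) (nat_lit 5) (nat_lit 3) (nat_lit 4) (nat_lit 1) (nat_lit 4) (nat_lit 260) (nat_lit 218) (nat_lit 122))) (XT.nd (nat_lit 78) (nat_lit 0) (nat_lit 0) (XT.lf (nat_lit 0) (nat_lit 1991899346095) (nat_lit 152) (nat_lit 2624501676342) (nat_lit 0) (nat_lit 1888493308491) (nat_lit 1)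 (nat_lit 5) (nat_lit 3) (nat_lit 4) (nat_lit 1) (nat_lit 4) (nat_lit 261) (nat_lit 218) (nat_lit 121)) (XT.lf (nat_lit 0) (nat_lit 2354947889363) (nat_lit 152) (nat_lit 2862000227813) (nat_lit 0) (nat_lit 2251541834291) (nat_lit 1) (nat_lit 5) (nat_lit 3) (nat_lit 4) (nat_lit 1) (nat_lit 4) (nat_lit 262) (nat_lit 218) (nat_lit 120)))) (XT.nd (nat_lit 156) (nat_lit 0) (nat_lit 0) (XT.nd (nat_lit 78) (nat_lit 0) (nat_lit 0) (XT.lf (nat_lit 0) (nat_lit 2772453688928) (nat_lit 152) (nat_lit 3135123611329) (nat_lit 0) (nat_lit 2669047618666) (nat_lit 1) (nat_lit 5) (nat_lit 3) (nat_lit 4) (nat_lit 1) (nat_lit 4) (nat_lit 263) (nat_lit 218) (nat_lit 119)) (XT.lf (nat_lit 0) (nat_lit 3252585336519) (nat_lit 152) (nat_lit 3449215545262) (nat_lit 0) (nat_lit 3149179253049) (nat_lit 1) (nat_lit 5) (nat_lit 3) (nat_lit 4) (nat_lit 1) (nat_lit 4) (nat_lit 264) (nat_lit 218) (nat_lit 118))) (XT.nd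 (nat_lit 78) (nat_lit 0) (nat_lit 0) (XT.lf (nat_lit 0) (nat_lit 3804736712198) (nat_lit 152) (nat_lit 3810421306582) (nat_lit 0) (nat_lit 3701330617242) (nat_lit 1) (nat_lit 5) (nat_lit 3) (nat_lit 4) (nat_lit 1) (nat_lit 4) (nat_lit 265) (nat_lit 218) (nat_lit 117)) (XT.lf (nat_lit 0) (nat_lit 4439710777663) (nat_lit 152) (nat_lit 4225807964531) (nat_lit 0) (nat_lit 4336304672719) (nat_lit 1) (nat_lit 5) (nat_lit 3) (nat_lit 4) (nat_lit 1) (nat_lit 4) (nat_lit 266) (nat_lit 218) (nat_lit 116))))) (XT.nd (nat_lit 312) (nat_lit 0) (nat_lit 0) (XT.nd (nat_lit 156) (nat_lit 0) (nat_lit 0) (XT.nd (nat_lit 78) (nat_lit 0) (nat_lit 0) (XT.lf (nat_lit 0) (nat_lit 5169930938542) (nat_lit 152) (nat_lit 4703502649373) (nat_lit 0) (nat_lit 5066524824914) (nat_lit 1) (nat_lit 5) (nat_lit 3) (nat_lit 4) (nat_lit 1) (nat_lit 4) (nat_lit 267) (nat_lit 218) (nat_lit 115)) (XT.lf (nat_lit 0) (nat_lit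 6009684111028) (nat_lit 152) (nat_lit 5252851561465) (nat_lit 0) (nat_lit 5906277989847) (nat_lit 1) (nat_lit 5) (nat_lit 3) (nat_lit 4) (nat_lit 1) (nat_lit 4) (nat_lit 268) (nat_lit 218) (nat_lit 114))) (XT.nd (nat_lit 78) (nat_lit 0) (nat_lit 0) (XT.lf (nat_lit 0) (nat_lit 6975400248493) (nat_lit 152) (nat_lit 5884602831694) (nat_lit 0) (nat_lit 6871994120746) (nat_lit 1) (nat_lit 5) (nat_lit 3) (nat_lit 4) (nat_lit 1) (nat_lit 4) (nat_lit 269) (nat_lit 218) (nat_lit 113)) (XT.lf (nat_lit 0) (nat_lit 8085973797107) (nat_lit 152) (nat_lit 6611116811000) (nat_lit 0) (nat_lit 7982567663650) (nat_lit 1) (nat_lit 5) (nat_lit 3) (nat_lit 4) (nat_lit 1) (nat_lit 4) (nat_lit 270) (nat_lit 218) (nat_lit 112)))) (XT.nd (nat_lit 312) (nat_lit 0) (nat_lit 0) (XT.nd (nat_lit 234) (nat_lit 0) (nat_lit 0) (XT.lf (nat_lit 0) (nat_lit 9363133369777) (nat_lit 152) (nat_lit 7446607903327) (nat_lit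 0) (nat_lit 9259727231354) (nat_lit 1) (nat_lit 5) (nat_lit 3) (nat_lit 4) (nat_lit 1) (nat_lit 4) (nat_lit 271) (nat_lit 218) (nat_lit 111)) (XT.lf (nat_lit 0) (nat_lit 14463310434614) (nat_lit 152) (nat_lit 10783037229649) (nat_lit 0) (nat_lit 14359904284854) (nat_lit 1) (nat_lit 5) (nat_lit 3) (nat_lit 4) (nat_lit 1) (nat_lit 4) (nat_lit 274) (nat_lit 218) (nat_lit 108))) (XT.nd (nat_lit 78) (nat_lit 0) (nat_lit 0) (XT.lf (nat_lit 0) (nat_lit 16697070479396) (nat_lit 152) (nat_lit 12244316430807) (nat_lit 0) (nat_lit 16593664326797) (nat_lit 1) (nat_lit 5) (nat_lit 3) (nat_lit 4) (nat_lit 1) (nat_lit 4) (nat_lit 275) (nat_lit 218) (nat_lit 107)) (XT.lf (nat_lit 0) (nat_lit 19265894526801) (nat_lit 152) (nat_lit 13924787520155) (nat_lit 0) (nat_lit 19162488371732) (nat_lit 1) (nat_lit 5) (nat_lit 3) (nat_lit 4) (nat_lit 1) (nat_lit 4) (nat_lit 276) (nat_lit 218) (nat_lit 106))))))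 (XT.nd (nat_lit 27066) (nat_lit 0) (nat_lit 760) (XT.nd (nat_lit 26754) (nat_lit 0) (nat_lit 1140) (XT.nd (nat_lit 156) (nat_lit 0) (nat_lit 0) (XT.nd (nat_lit 78) (nat_lit 0) (nat_lit 0) (XT.lf (nat_lit 0) (nat_lit 22220042177755) (nat_lit 152) (nat_lit 15857329279877) (nat_lit 0) (nat_lit 22116636020540) (nat_lit 1) (nat_lit 5) (nat_lit 3) (nat_lit 4) (nat_lit 1) (nat_lit 4) (nat_lit 277) (nat_lit 218) (nat_lit 105)) (XT.lf (nat_lit 0) (nat_lit 25617311973257) (nat_lit 152) (nat_lit 18079752309618) (nat_lit 0) (nat_lit 25513905814175) (nat_lit 1) (nat_lit 5) (nat_lit 3) (nat_lit 4) (nat_lit 1) (nat_lit 4) (nat_lit 278) (nat_lit 218) (nat_lit 104))) (XT.nd (nat_lit 78) (nat_lit 0) (nat_lit 0) (XT.lf (nat_lit 0) (nat_lit 29524172235391) (nat_lit 152) (nat_lit 20635538799091) (nat_lit 0) (nat_lit 29420766074686) (nat_lit 1) (nat_lit 5) (nat_lit 3) (nat_lit 4) (nat_lit 1) (nat_lit 4)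 (nat_lit 279) (nat_lit 218) (nat_lit 103)) (XT.lf (nat_lit 0) (nat_lit 34017061534504) (nat_lit 152) (nat_lit 23574693266569) (nat_lit 0) (nat_lit 33913655372387) (nat_lit 1) (nat_lit 5) (nat_lit 3) (nat_lit 4) (nat_lit 1) (nat_lit 4) (nat_lit 280) (nat_lit 218) (nat_lit 102)))) (XT.nd (nat_lit 156) (nat_lit 304) (nat_lit 0) (XT.nd (nat_lit 78) (nat_lit 0) (nat_lit 0) (XT.lf (nat_lit 0) (nat_lit 14547410296) (nat_lit 0) (nat_lit 14547410296) (nat_lit 228) (nat_lit 50332969) (nat_lit 20) (nat_lit 5) (nat_lit 20) (nat_lit 3) (nat_lit 23) (nat_lit 3) (nat_lit 219) (nat_lit 219) (nat_lit 162)) (XT.lf (nat_lit 0) (nat_lit 58567746543) (nat_lit 0) (nat_lit 4002228655) (nat_lit 228) (nat_lit 89523623) (nat_lit 20) (nat_lit 5) (nat_lit 20) (nat_lit 3) (nat_lit 23) (nat_lit 3) (nat_lit 220) (nat_lit 219) (nat_lit 161))) (XT.nd (nat_lit 78) (nat_lit 0) (nat_lit 0) (XT.lf (nat_lit 0) (nat_lit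 2136101101) (nat_lit 304) (nat_lit 41398233004) (nat_lit 380) (nat_lit 23819339857) (nat_lit 16) (nat_lit 5) (nat_lit 20) (nat_lit 5) (nat_lit 21) (nat_lit 5) (nat_lit 221) (nat_lit 219) (nat_lit 160)) (XT.lf (nat_lit 0) (nat_lit 5098395250) (nat_lit 304) (nat_lit 11957499389) (nat_lit 380) (nat_lit 55633664768) (nat_lit 16) (nat_lit 5) (nat_lit 20) (nat_lit 5) (nat_lit 21) (nat_lit 5) (nat_lit 222) (nat_lit 219) (nat_lit 159))))) (XT.nd (nat_lit 312) (nat_lit 228) (nat_lit 0) (XT.nd (nat_lit 156) (nat_lit 228) (nat_lit 0) (XT.nd (nat_lit 78) (nat_lit 0) (nat_lit 0) (XT.lf (nat_lit 0) (nat_lit 10100103114) (nat_lit 304) (nat_lit 55241480846) (nat_lit 76) (nat_lit 13245002553) (nat_lit 17) (nat_lit 5) (nat_lit 21) (nat_lit 5) (nat_lit 18) (nat_lit 5) (nat_lit 223) (nat_lit 219) (nat_lit 158)) (XT.lf (nat_lit 0) (nat_lit 17316993128) (nat_lit 304) (nat_lit 20831523085) (nat_lit 76) (nat_lit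 46999929343) (nat_lit 17) (nat_lit 5) (nat_lit 21) (nat_lit 5) (nat_lit 18) (nat_lit 5) (nat_lit 224) (nat_lit 219) (nat_lit 157))) (XT.nd (nat_lit 78) (nat_lit 0) (nat_lit 0) (XT.lf (nat_lit 0) (nat_lit 20569302375) (nat_lit 228) (nat_lit 5897040929) (nat_lit 304) (nat_lit 66100765733) (nat_lit 14) (nat_lit 5) (nat_lit 17) (nat_lit 5) (nat_lit 18) (nat_lit 5) (nat_lit 225) (nat_lit 219) (nat_lit 156)) (XT.lf (nat_lit 0) (nat_lit 39418823535) (nat_lit 304) (nat_lit 31759274647) (nat_lit 76) (nat_lit 29555877405) (nat_lit 14) (nat_lit 5) (nat_lit 18) (nat_lit 5) (nat_lit 15) (nat_lit 5) (nat_lit 226) (nat_lit 219) (nat_lit 155)))) (XT.nd (nat_lit 156) (nat_lit 76) (nat_lit 0) (XT.nd (nat_lit 78) (nat_lit 0) (nat_lit 0) (XT.lf (nat_lit 0) (nat_lit 15623371992) (nat_lit 152) (nat_lit 39617113622) (nat_lit 228) (nat_lit 54746451059) (nat_lit 12) (nat_lit 5) (nat_lit 14) (nat_lit 5) (nat_lit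 15) (nat_lit 5) (nat_lit 227) (nat_lit 219) (nat_lit 154)) (XT.lf (nat_lit 0) (nat_lit 73681050443) (nat_lit 152) (nat_lit 1413175754) (nat_lit 228) (nat_lit 45284800933) (nat_lit 12) (nat_lit 5) (nat_lit 14) (nat_lit 5) (nat_lit 15) (nat_lit 5) (nat_lit 228) (nat_lit 219) (nat_lit 153))) (XT.nd (nat_lit 78) (nat_lit 0) (nat_lit 0) (XT.lf (nat_lit 0) (nat_lit 6976175316) (nat_lit 76) (nat_lit 92998283451) (nat_lit 152) (nat_lit 32048216088) (nat_lit 11) (nat_lit 5) (nat_lit 12) (nat_lit 5) (nat_lit 13) (nat_lit 4) (nat_lit 229) (nat_lit 219) (nat_lit 152)) (XT.lf (nat_lit 0) (nat_lit 73874246118) (nat_lit 76) (nat_lit 57216676438) (nat_lit 152) (nat_lit 13946324984) (nat_lit 11) (nat_lit 5) (nat_lit 12) (nat_lit 5) (nat_lit 13) (nat_lit 4) (nat_lit 230) (nat_lit 219) (nat_lit 151)))))))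
noncomputable def xc70 : XT := (XT.nd (nat_lit 1248) (nat_lit 152) (nat_lit 0) (XT.nd (nat_lit 624) (nat_lit 152) (nat_lit 0) (XT.nd (nat_lit 312) (nat_lit 152) (nat_lit 0) (XT.nd (nat_lit 156) (nat_lit 76) (nat_lit 0) (XT.nd (nat_lit 78) (nat_lit 152) (nat_lit 0) (XT.lf (nat_lit 0) (nat_lit 6258179170) (nat_lit 152) (nat_lit 9482934249) (nat_lit 76) (nat_lit 144220369110) (nat_lit 10) (nat_lit 5) (nat_lit 12) (nat_lit 5) (nat_lit 11) (nat_lit 5) (nat_lit 231) (nat_lit 219) (nat_lit 150)) (XT.lf (nat_lit 0) (nat_lit 32313962392) (nat_lit 228) (nat_lit 111372823756) (nat_lit 76) (nat_lit 32700688558) (nat_lit 8) (nat_lit 5) (nat_lit 11) (nat_lit 5) (nat_lit 9) (nat_lit 4) (nat_lit 232) (nat_lit 219) (nat_lit 149))) (XT.nd (nat_lit 78) (nat_lit 76) (nat_lit 0) (XT.lf (nat_lit 0) (nat_lit 63546185588) (nat_lit 228) (nat_lit 44224873978) (nat_lit 76) (nat_lit 87316099413) (nat_lit 8) (nat_lit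 5) (nat_lit 11) (nat_lit 5) (nat_lit 9) (nat_lit 4) (nat_lit 233) (nat_lit 219) (nat_lit 148)) (XT.lf (nat_lit 0) (nat_lit 36218557314) (nat_lit 76) (nat_lit 64743715667) (nat_lit 152) (nat_lit 115404671909) (nat_lit 7) (nat_lit 5) (nat_lit 8) (nat_lit 5) (nat_lit 9) (nat_lit 4) (nat_lit 234) (nat_lit 219) (nat_lit 147)))) (XT.nd (nat_lit 156) (nat_lit 152) (nat_lit 0) (XT.nd (nat_lit 78) (nat_lit 0) (nat_lit 0) (XT.lf (nat_lit 0) (nat_lit 133697690390) (nat_lit 76) (nat_lit 12604182042) (nat_lit 152) (nat_lit 94190164547) (nat_lit 7) (nat_lit 5) (nat_lit 8) (nat_lit 5) (nat_lit 9) (nat_lit 4) (nat_lit 235) (nat_lit 219) (nat_lit 146)) (XT.lf (nat_lit 0) (nat_lit 200402748671) (nat_lit 152) (nat_lit 24399138949) (nat_lit 0) (nat_lit 43139957455) (nat_lit 7) (nat_lit 5) (nat_lit 9) (nat_lit 4) (nat_lit 7) (nat_lit 4) (nat_lit 236) (nat_lit 219) (nat_lit 145))) (XT.nd (nat_lit 78) (nat_lit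 76) (nat_lit 0) (XT.lf (nat_lit 0) (nat_lit 76571160688) (nat_lit 76) (nat_lit 189817933919) (nat_lit 76) (nat_lit 32554481410) (nat_lit 6) (nat_lit 4) (nat_lit 7) (nat_lit 5) (nat_lit 7) (nat_lit 4) (nat_lit 237) (nat_lit 219) (nat_lit 144)) (XT.lf (nat_lit 0) (nat_lit 8329933503) (nat_lit 152) (nat_lit 139354670512) (nat_lit 76) (nat_lit 186662929895) (nat_lit 5) (nat_lit 5) (nat_lit 7) (nat_lit 5) (nat_lit 6) (nat_lit 4) (nat_lit 238) (nat_lit 219) (nat_lit 143))))) (XT.nd (nat_lit 312) (nat_lit 76) (nat_lit 0) (XT.nd (nat_lit 156) (nat_lit 0) (nat_lit 0) (XT.nd (nat_lit 78) (nat_lit 76) (nat_lit 0) (XT.lf (nat_lit 0) (nat_lit 52013614883) (nat_lit 152) (nat_lit 45435255576) (nat_lit 76) (nat_lit 277380750120) (nat_lit 5) (nat_lit 5) (nat_lit 7) (nat_lit 5) (nat_lit 6) (nat_lit 4) (nat_lit 239) (nat_lit 219) (nat_lit 142)) (XT.lf (nat_lit 0) (nat_lit 68686326676) (nat_lit 76) (nat_lit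 36407296143) (nat_lit 152) (nat_lit 315863832631) (nat_lit 4) (nat_lit 5) (nat_lit 5) (nat_lit 5) (nat_lit 6) (nat_lit 4) (nat_lit 240) (nat_lit 219) (nat_lit 141))) (XT.nd (nat_lit 78) (nat_lit 0) (nat_lit 0) (XT.lf (nat_lit 0) (nat_lit 170022577115) (nat_lit 152) (nat_lit 270128740710) (nat_lit 0) (nat_lit 33270107130) (nat_lit 4) (nat_lit 5) (nat_lit 6) (nat_lit 4) (nat_lit 4) (nat_lit 4) (nat_lit 241) (nat_lit 219) (nat_lit 140)) (XT.lf (nat_lit 0) (nat_lit 246424234358) (nat_lit 152) (nat_lit 177399274102) (nat_lit 0) (nat_lit 109671478479) (nat_lit 4) (nat_lit 5) (nat_lit 6) (nat_lit 4) (nat_lit 4) (nat_lit 4) (nat_lit 242) (nat_lit 219) (nat_lit 139)))) (XT.nd (nat_lit 156) (nat_lit 0) (nat_lit 0) (XT.nd (nat_lit 78) (nat_lit 76) (nat_lit 0) (XT.lf (nat_lit 0) (nat_lit 334285861088) (nat_lit 152) (nat_lit 70760908284) (nat_lit 0) (nat_lit 197532856605) (nat_lit 4) (nat_lit 5)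 (nat_lit 6) (nat_lit 4) (nat_lit 4) (nat_lit 4) (nat_lit 243) (nat_lit 219) (nat_lit 138)) (XT.lf (nat_lit 0) (nat_lit 56942142873) (nat_lit 76) (nat_lit 380742198966) (nat_lit 76) (nat_lit 243988978305) (nat_lit 3) (nat_lit 4) (nat_lit 4) (nat_lit 5) (nat_lit 4) (nat_lit 4) (nat_lit 244) (nat_lit 219) (nat_lit 137))) (XT.nd (nat_lit 78) (nat_lit 0) (nat_lit 0) (XT.lf (nat_lit 0) (nat_lit 211752780606) (nat_lit 76) (nat_lit 348538450818) (nat_lit 76) (nat_lit 211785042176) (nat_lit 3) (nat_lit 4) (nat_lit 4) (nat_lit 5) (nat_lit 4) (nat_lit 4) (nat_lit 245) (nat_lit 219) (nat_lit 136)) (XT.lf (nat_lit 0) (nat_lit 389784638113) (nat_lit 76) (nat_lit 311504317256) (nat_lit 76) (nat_lit 174750745153) (nat_lit 3) (nat_lit 4) (nat_lit 4) (nat_lit 5) (nat_lit 4) (nat_lit 4) (nat_lit 246) (nat_lit 219) (nat_lit 135)))))) (XT.nd (nat_lit 624) (nat_lit 0) (nat_lit 0) (XT.nd (nat_lit 312) (nat_lit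 76) (nat_lit 0) (XT.nd (nat_lit 156) (nat_lit 76) (nat_lit 0) (XT.nd (nat_lit 78) (nat_lit 0) (nat_lit 0) (XT.lf (nat_lit 0) (nat_lit 594520947389) (nat_lit 76) (nat_lit 268915217407) (nat_lit 76) (nat_lit 132161503164) (nat_lit 3) (nat_lit 4) (nat_lit 4) (nat_lit 5) (nat_lit 4) (nat_lit 4) (nat_lit 247) (nat_lit 219) (nat_lit 134)) (XT.lf (nat_lit 0) (nat_lit 829967418833) (nat_lit 76) (nat_lit 219937886272) (nat_lit 76) (nat_lit 83184048429) (nat_lit 3) (nat_lit 4) (nat_lit 4) (nat_lit 5) (nat_lit 4) (nat_lit 4) (nat_lit 248) (nat_lit 219) (nat_lit 133))) (XT.nd (nat_lit 78) (nat_lit 76) (nat_lit 0) (XT.lf (nat_lit 0) (nat_lit 1100730613843) (nat_lit 76) (nat_lit 163614071722) (nat_lit 76) (nat_lit 26860126401) (nat_lit 3) (nat_lit 4) (nat_lit 4) (nat_lit 5) (nat_lit 4) (nat_lit 4) (nat_lit 249) (nat_lit 219) (nat_lit 132)) (XT.lf (nat_lit 0) (nat_lit 34537041797) (nat_lit 152) (nat_lit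 62499398916) (nat_lit 76) (nat_lit 1375765686026) (nat_lit 2) (nat_lit 5) (nat_lit 4) (nat_lit 5) (nat_lit 3) (nat_lit 4) (nat_lit 250) (nat_lit 219) (nat_lit 131)))) (XT.nd (nat_lit 156) (nat_lit 0) (nat_lit 0) (XT.nd (nat_lit 78) (nat_lit 0) (nat_lit 0) (XT.lf (nat_lit 0) (nat_lit 91542078051) (nat_lit 76) (nat_lit 14642200135) (nat_lit 152) (nat_lit 1574694334008) (nat_lit 1) (nat_lit 5) (nat_lit 2) (nat_lit 5) (nat_lit 3) (nat_lit 4) (nat_lit 251) (nat_lit 219) (nat_lit 130)) (XT.lf (nat_lit 0) (nat_lit 195318317221) (nat_lit 152) (nat_lit 1647435666247) (nat_lit 0) (nat_lit 76401629640) (nat_lit 1) (nat_lit 5) (nat_lit 3) (nat_lit 4) (nat_lit 1) (nat_lit 4) (nat_lit 252) (nat_lit 219) (nat_lit 129))) (XT.nd (nat_lit 78) (nat_lit 0) (nat_lit 0) (XT.lf (nat_lit 0) (nat_lit 298519621106) (nat_lit 152) (nat_lit 1714947089308) (nat_lit 0) (nat_lit 179602880089) (nat_lit 1) (nat_lit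 5) (nat_lit 3) (nat_lit 4) (nat_lit 1) (nat_lit 4) (nat_lit 253) (nat_lit 219) (nat_lit 128)) (XT.lf (nat_lit 0) (nat_lit 417201043503) (nat_lit 152) (nat_lit 1792585376711) (nat_lit 0) (nat_lit 298284256020) (nat_lit 1) (nat_lit 5) (nat_lit 3) (nat_lit 4) (nat_lit 1) (nat_lit 4) (nat_lit 254) (nat_lit 219) (nat_lit 127))))) (XT.nd (nat_lit 312) (nat_lit 0) (nat_lit 0) (XT.nd (nat_lit 156) (nat_lit 0) (nat_lit 0) (XT.nd (nat_lit 78) (nat_lit 0) (nat_lit 0) (XT.lf (nat_lit 0) (nat_lit 553684612241) (nat_lit 152) (nat_lit 1881869538428) (nat_lit 0) (nat_lit 434767784353) (nat_lit 1) (nat_lit 5) (nat_lit 3) (nat_lit 4) (nat_lit 1) (nat_lit 4) (nat_lit 255) (nat_lit 219) (nat_lit 126)) (XT.lf (nat_lit 0) (nat_lit 710640658014) (nat_lit 152) (nat_lit 1984546438491) (nat_lit 0) (nat_lit 591723794990) (nat_lit 1) (nat_lit 5) (nat_lit 3) (nat_lit 4) (nat_lit 1) (nat_lit 4) (nat_lit 256) (nat_lit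 219) (nat_lit 125))) (XT.nd (nat_lit 78) (nat_lit 0) (nat_lit 0) (XT.lf (nat_lit 0) (nat_lit 891140059977) (nat_lit 152) (nat_lit 2102624972773) (nat_lit 0) (nat_lit 772223166401) (nat_lit 1) (nat_lit 5) (nat_lit 3) (nat_lit 4) (nat_lit 1) (nat_lit 4) (nat_lit 257) (nat_lit 219) (nat_lit 124)) (XT.lf (nat_lit 0) (nat_lit 1098714328168) (nat_lit 152) (nat_lit 2238415373464) (nat_lit 0) (nat_lit 979797408026) (nat_lit 1) (nat_lit 5) (nat_lit 3) (nat_lit 4) (nat_lit 1) (nat_lit 4) (nat_lit 258) (nat_lit 219) (nat_lit 123)))) (XT.nd (nat_lit 156) (nat_lit 0) (nat_lit 0) (XT.nd (nat_lit 78) (nat_lit 0) (nat_lit 0) (XT.lf (nat_lit 0) (nat_lit 1337424698271) (nat_lit 152) (nat_lit 2394574409275) (nat_lit 0) (nat_lit 1218507755027) (nat_lit 1) (nat_lit 5) (nat_lit 3) (nat_lit 4) (nat_lit 1) (nat_lit 4) (nat_lit 259) (nat_lit 219) (nat_lit 122)) (XT.lf (nat_lit 0) (nat_lit 1611941590570) (nat_lit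 152) (nat_lit 2574157365689) (nat_lit 0) (nat_lit 1493024627237) (nat_lit 1) (nat_lit 5) (nat_lit 3) (nat_lit 4) (nat_lit 1) (nat_lit 4) (nat_lit 260) (nat_lit 219) (nat_lit 121))) (XT.nd (nat_lit 78) (nat_lit 0) (nat_lit 0) (XT.lf (nat_lit 0) (nat_lit 1927635987739) (nat_lit 152) (nat_lit 2780677822288) (nat_lit 0) (nat_lit 1808719006938) (nat_lit 1) (nat_lit 5) (nat_lit 3) (nat_lit 4) (nat_lit 1) (nat_lit 4) (nat_lit 261) (nat_lit 219) (nat_lit 120)) (XT.nd (nat_lit 78) (nat_lit 0) (nat_lit 0) (XT.lf (nat_lit 0) (nat_lit 2290684519290) (nat_lit 152) (nat_lit 3018176396700) (nat_lit 0) (nat_lit 2171767523299) (nat_lit 1) (nat_lit 5) (nat_lit 3) (nat_lit 4) (nat_lit 1) (nat_lit 4) (nat_lit 262) (nat_lit 219) (nat_lit 119)) (XT.lf (nat_lit 0) (nat_lit 2708190308665) (nat_lit 152) (nat_lit 3291299800165) (nat_lit 0) (nat_lit 2589273299465) (nat_lit 1) (nat_lit 5) (nat_lit 3) (nat_lit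 4) (nat_lit 1) (nat_lit 4) (nat_lit 263) (nat_lit 219) (nat_lit 118))))))))
noncomputable def xc71 : XT := (XT.nd (nat_lit 27846) (nat_lit 0) (nat_lit 456) (XT.nd (nat_lit 702) (nat_lit 0) (nat_lit 0) (XT.nd (nat_lit 312) (nat_lit 0) (nat_lit 0) (XT.nd (nat_lit 156) (nat_lit 0) (nat_lit 0) (XT.nd (nat_lit 78) (nat_lit 0) (nat_lit 0) (XT.lf (nat_lit 0) (nat_lit 3188321947395) (nat_lit 152) (nat_lit 3605391751445) (nat_lit 0) (nat_lit 3069404926710) (nat_lit 1) (nat_lit 5) (nat_lit 3) (nat_lit 4) (nat_lit 1) (nat_lit 4) (nat_lit 264) (nat_lit 219) (nat_lit 117)) (XT.lf (nat_lit 0) (nat_lit 3740473315369) (nat_lit 152) (nat_lit 3966597527849) (nat_lit 0) (nat_lit 3621556284696) (nat_lit 1) (nat_lit 5) (nat_lit 3) (nat_lit 4) (nat_lit 1) (nat_lit 4) (nat_lit 265) (nat_lit 219) (nat_lit 116))) (XT.nd (nat_lit 78) (nat_lit 0) (nat_lit 0) (XT.lf (nat_lit 0) (nat_lit 4375447374133) (nat_lit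 152) (nat_lit 4381984198915) (nat_lit 0) (nat_lit 4256530334776) (nat_lit 1) (nat_lit 5) (nat_lit 3) (nat_lit 4) (nat_lit 1) (nat_lit 4) (nat_lit 266) (nat_lit 219) (nat_lit 115)) (XT.lf (nat_lit 0) (nat_lit 5105667529187) (nat_lit 152) (nat_lit 4859678895163) (nat_lit 0) (nat_lit 4986750482278) (nat_lit 1) (nat_lit 5) (nat_lit 3) (nat_lit 4) (nat_lit 1) (nat_lit 4) (nat_lit 267) (nat_lit 219) (nat_lit 114)))) (XT.nd (nat_lit 156) (nat_lit 0) (nat_lit 0) (XT.nd (nat_lit 78) (nat_lit 0) (nat_lit 0) (XT.lf (nat_lit 0) (nat_lit 5945420696606) (nat_lit 152) (nat_lit 5409027817173) (nat_lit 0) (nat_lit 5826503643130) (nat_lit 1) (nat_lit 5) (nat_lit 3) (nat_lit 4) (nat_lit 1) (nat_lit 4) (nat_lit 268) (nat_lit 219) (nat_lit 113)) (XT.lf (nat_lit 0) (nat_lit 6911136829666) (nat_lit 152) (nat_lit 6040779096027) (nat_lit 0) (nat_lit 6792219770480) (nat_lit 1) (nat_lit 5) (nat_lit 3) (nat_lit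 4) (nat_lit 1) (nat_lit 4) (nat_lit 269) (nat_lit 219) (nat_lit 112))) (XT.nd (nat_lit 78) (nat_lit 0) (nat_lit 0) (XT.lf (nat_lit 0) (nat_lit 8021710374450) (nat_lit 152) (nat_lit 6767293082833) (nat_lit 0) (nat_lit 7902793310298) (nat_lit 1) (nat_lit 5) (nat_lit 3) (nat_lit 4) (nat_lit 1) (nat_lit 4) (nat_lit 270) (nat_lit 219) (nat_lit 111)) (XT.lf (nat_lit 0) (nat_lit 9298869943789) (nat_lit 152) (nat_lit 7602784181681) (nat_lit 0) (nat_lit 9179952875319) (nat_lit 1) (nat_lit 5) (nat_lit 3) (nat_lit 4) (nat_lit 1) (nat_lit 4) (nat_lit 271) (nat_lit 219) (nat_lit 110))))) (XT.nd (nat_lit 312) (nat_lit 0) (nat_lit 0) (XT.nd (nat_lit 156) (nat_lit 0) (nat_lit 0) (XT.nd (nat_lit 78) (nat_lit 0) (nat_lit 0) (XT.lf (nat_lit 0) (nat_lit 12456646960174) (nat_lit 152) (nat_lit 9668535960397) (nat_lit 0) (nat_lit 12337729884685) (nat_lit 1) (nat_lit 5) (nat_lit 3) (nat_lit 4) (nat_lit 1)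 (nat_lit 4) (nat_lit 273) (nat_lit 219) (nat_lit 108)) (XT.lf (nat_lit 0) (nat_lit 14399047001020) (nat_lit 152) (nat_lit 10939213522893) (nat_lit 0) (nat_lit 14280129922691) (nat_lit 1) (nat_lit 5) (nat_lit 3) (nat_lit 4) (nat_lit 1) (nat_lit 4) (nat_lit 274) (nat_lit 219) (nat_lit 107))) (XT.nd (nat_lit 78) (nat_lit 0) (nat_lit 0) (XT.lf (nat_lit 0) (nat_lit 16632807043897) (nat_lit 152) (nat_lit 12400492727779) (nat_lit 0) (nat_lit 16513889963100) (nat_lit 1) (nat_lit 5) (nat_lit 3) (nat_lit 4) (nat_lit 1) (nat_lit 4) (nat_lit 275) (nat_lit 219) (nat_lit 106)) (XT.lf (nat_lit 0) (nat_lit 19201631089646) (nat_lit 152) (nat_lit 14080963820370) (nat_lit 0) (nat_lit 19082714006701) (nat_lit 1) (nat_lit 5) (nat_lit 3) (nat_lit 4) (nat_lit 1) (nat_lit 4) (nat_lit 276) (nat_lit 219) (nat_lit 105)))) (XT.nd (nat_lit 156) (nat_lit 0) (nat_lit 0) (XT.nd (nat_lit 78) (nat_lit 0) (nat_lit 0)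 (XT.lf (nat_lit 0) (nat_lit 22155778739160) (nat_lit 152) (nat_lit 16013505582910) (nat_lit 0) (nat_lit 22036861654349) (nat_lit 1) (nat_lit 5) (nat_lit 3) (nat_lit 4) (nat_lit 1) (nat_lit 4) (nat_lit 277) (nat_lit 219) (nat_lit 104)) (XT.lf (nat_lit 0) (nat_lit 25553048533409) (nat_lit 152) (nat_lit 18235928615103) (nat_lit 0) (nat_lit 25434131446975) (nat_lit 1) (nat_lit 5) (nat_lit 3) (nat_lit 4) (nat_lit 1) (nat_lit 4) (nat_lit 278) (nat_lit 219) (nat_lit 103))) (XT.nd (nat_lit 78) (nat_lit 0) (nat_lit 0) (XT.lf (nat_lit 0) (nat_lit 29459908794454) (nat_lit 152) (nat_lit 20791715106708) (nat_lit 0) (nat_lit 29340991706609) (nat_lit 1) (nat_lit 5) (nat_lit 3) (nat_lit 4) (nat_lit 1) (nat_lit 4) (nat_lit 279) (nat_lit 219) (nat_lit 102)) (XT.lf (nat_lit 0) (nat_lit 33952798092621) (nat_lit 152) (nat_lit 23730869576040) (nat_lit 0) (nat_lit 33833881003548) (nat_lit 1) (nat_lit 5)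 (nat_lit 3) (nat_lit 4) (nat_lit 1) (nat_lit 4) (nat_lit 280) (nat_lit 219) (nat_lit 101)))))) (XT.nd (nat_lit 624) (nat_lit 532) (nat_lit 0) (XT.nd (nat_lit 312) (nat_lit 152) (nat_lit 0) (XT.nd (nat_lit 156) (nat_lit 304) (nat_lit 0) (XT.nd (nat_lit 78) (nat_lit 0) (nat_lit 0) (XT.lf (nat_lit 0) (nat_lit 16737243743) (nat_lit 0) (nat_lit 16737243743) (nat_lit 228) (nat_lit 39964661) (nat_lit 20) (nat_lit 5) (nat_lit 20) (nat_lit 3) (nat_lit 23) (nat_lit 3) (nat_lit 220) (nat_lit 220) (nat_lit 160)) (XT.lf (nat_lit 0) (nat_lit 67366337919) (nat_lit 0) (nat_lit 4615992348) (nat_lit 228) (nat_lit 71789988) (nat_lit 20) (nat_lit 5) (nat_lit 20) (nat_lit 3) (nat_lit 23) (nat_lit 3) (nat_lit 221) (nat_lit 220) (nat_lit 159))) (XT.nd (nat_lit 78) (nat_lit 0) (nat_lit 0) (XT.lf (nat_lit 0) (nat_lit 2481452129) (nat_lit 304) (nat_lit 47587865869) (nat_lit 380) (nat_lit 27383459063) (nat_lit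 16) (nat_lit 5) (nat_lit 20) (nat_lit 5) (nat_lit 21) (nat_lit 5) (nat_lit 222) (nat_lit 220) (nat_lit 158)) (XT.lf (nat_lit 0) (nat_lit 5884837897) (nat_lit 304) (nat_lit 13733644224) (nat_lit 380) (nat_lit 63971078159) (nat_lit 16) (nat_lit 5) (nat_lit 20) (nat_lit 5) (nat_lit 21) (nat_lit 5) (nat_lit 223) (nat_lit 220) (nat_lit 157)))) (XT.nd (nat_lit 156) (nat_lit 228) (nat_lit 0) (XT.nd (nat_lit 78) (nat_lit 0) (nat_lit 0) (XT.lf (nat_lit 0) (nat_lit 11634546141) (nat_lit 304) (nat_lit 63507810113) (nat_lit 76) (nat_lit 15229147114) (nat_lit 17) (nat_lit 5) (nat_lit 21) (nat_lit 5) (nat_lit 18) (nat_lit 5) (nat_lit 224) (nat_lit 220) (nat_lit 156)) (XT.lf (nat_lit 0) (nat_lit 19931435628) (nat_lit 304) (nat_lit 23938953409) (nat_lit 76) (nat_lit 54047652812) (nat_lit 17) (nat_lit 5) (nat_lit 21) (nat_lit 5) (nat_lit 18) (nat_lit 5) (nat_lit 225) (nat_lit 220) (nat_lit 155))) (XT.nd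 (nat_lit 78) (nat_lit 0) (nat_lit 0) (XT.lf (nat_lit 0) (nat_lit 23671209591) (nat_lit 228) (nat_lit 6780458956) (nat_lit 304) (nat_lit 75998082078) (nat_lit 14) (nat_lit 5) (nat_lit 17) (nat_lit 5) (nat_lit 18) (nat_lit 5) (nat_lit 226) (nat_lit 220) (nat_lit 154)) (XT.lf (nat_lit 0) (nat_lit 45345056521) (nat_lit 304) (nat_lit 36506740191) (nat_lit 76) (nat_lit 33990160572) (nat_lit 14) (nat_lit 5) (nat_lit 18) (nat_lit 5) (nat_lit 15) (nat_lit 5) (nat_lit 227) (nat_lit 220) (nat_lit 153))))) (XT.nd (nat_lit 312) (nat_lit 304) (nat_lit 0) (XT.nd (nat_lit 156) (nat_lit 76) (nat_lit 0) (XT.nd (nat_lit 78) (nat_lit 0) (nat_lit 0) (XT.lf (nat_lit 0) (nat_lit 17982556823) (nat_lit 152) (nat_lit 45556311265) (nat_lit 228) (nat_lit 62944172883) (nat_lit 12) (nat_lit 5) (nat_lit 14) (nat_lit 5) (nat_lit 15) (nat_lit 5) (nat_lit 228) (nat_lit 220) (nat_lit 152)) (XT.lf (nat_lit 0) (nat_lit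 84746841950) (nat_lit 152) (nat_lit 1622222204) (nat_lit 228) (nat_lit 52065133391) (nat_lit 12) (nat_lit 5) (nat_lit 14) (nat_lit 5) (nat_lit 15) (nat_lit 5) (nat_lit 229) (nat_lit 220) (nat_lit 151))) (XT.nd (nat_lit 78) (nat_lit 0) (nat_lit 0) (XT.lf (nat_lit 0) (nat_lit 8037107148) (nat_lit 76) (nat_lit 106943534425) (nat_lit 152) (nat_lit 36843864543) (nat_lit 11) (nat_lit 5) (nat_lit 12) (nat_lit 5) (nat_lit 13) (nat_lit 4) (nat_lit 230) (nat_lit 220) (nat_lit 150)) (XT.lf (nat_lit 0) (nat_lit 84967996544) (nat_lit 76) (nat_lit 65795272213) (nat_lit 152) (nat_lit 16028200724) (nat_lit 11) (nat_lit 5) (nat_lit 12) (nat_lit 5) (nat_lit 13) (nat_lit 4) (nat_lit 231) (nat_lit 220) (nat_lit 149)))) (XT.nd (nat_lit 156) (nat_lit 76) (nat_lit 0) (XT.nd (nat_lit 78) (nat_lit 152) (nat_lit 0) (XT.lf (nat_lit 0) (nat_lit 7204885384) (nat_lit 152) (nat_lit 10893581694) (nat_lit 76) (nat_lit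 165855996304) (nat_lit 10) (nat_lit 5) (nat_lit 12) (nat_lit 5) (nat_lit 11) (nat_lit 5) (nat_lit 232) (nat_lit 220) (nat_lit 148)) (XT.lf (nat_lit 0) (nat_lit 37168620922) (nat_lit 228) (nat_lit 128066500657) (nat_lit 76) (nat_lit 37609300903) (nat_lit 8) (nat_lit 5) (nat_lit 11) (nat_lit 5) (nat_lit 9) (nat_lit 4) (nat_lit 233) (nat_lit 220) (nat_lit 147))) (XT.nd (nat_lit 78) (nat_lit 76) (nat_lit 0) (XT.lf (nat_lit 0) (nat_lit 73084690967) (nat_lit 228) (nat_lit 50847955803) (nat_lit 76) (nat_lit 100416565682) (nat_lit 8) (nat_lit 5) (nat_lit 11) (nat_lit 5) (nat_lit 9) (nat_lit 4) (nat_lit 234) (nat_lit 220) (nat_lit 146)) (XT.lf (nat_lit 0) (nat_lit 41661506126) (nat_lit 76) (nat_lit 74451248324) (nat_lit 152) (nat_lit 132708281754) (nat_lit 7) (nat_lit 5) (nat_lit 8) (nat_lit 5) (nat_lit 9) (nat_lit 4) (nat_lit 235) (nat_lit 220) (nat_lit 145)))))))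
noncomputable def xc72 : XT := (XT.nd (nat_lit 1248) (nat_lit 76) (nat_lit 0) (XT.nd (nat_lit 624) (nat_lit 152) (nat_lit 0) (XT.nd (nat_lit 312) (nat_lit 76) (nat_lit 0) (XT.nd (nat_lit 156) (nat_lit 152) (nat_lit 0) (XT.nd (nat_lit 78) (nat_lit 0) (nat_lit 0) (XT.lf (nat_lit 0) (nat_lit 153761183266) (nat_lit 76) (nat_lit 14491309614) (nat_lit 152) (nat_lit 108312523194) (nat_lit 7) (nat_lit 5) (nat_lit 8) (nat_lit 5) (nat_lit 9) (nat_lit 4) (nat_lit 236) (nat_lit 220) (nat_lit 144)) (XT.lf (nat_lit 0) (nat_lit 230467930102) (nat_lit 152) (nat_lit 28050730789) (nat_lit 0) (nat_lit 49613723390) (nat_lit 7) (nat_lit 5) (nat_lit 9) (nat_lit 4) (nat_lit 7) (nat_lit 4) (nat_lit 237) (nat_lit 220) (nat_lit 143))) (XT.nd (nat_lit 78) (nat_lit 76) (nat_lit 0) (XT.lf (nat_lit 0) (nat_lit 88064737476) (nat_lit 76) (nat_lit 218287195625) (nat_lit 76) (nat_lit 37432488881) (nat_lit 6) (nat_lit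 4) (nat_lit 7) (nat_lit 5) (nat_lit 7) (nat_lit 4) (nat_lit 238) (nat_lit 220) (nat_lit 142)) (XT.lf (nat_lit 0) (nat_lit 9583514781) (nat_lit 152) (nat_lit 160250584774) (nat_lit 76) (nat_lit 214664936166) (nat_lit 5) (nat_lit 5) (nat_lit 7) (nat_lit 5) (nat_lit 6) (nat_lit 4) (nat_lit 239) (nat_lit 220) (nat_lit 141)))) (XT.nd (nat_lit 156) (nat_lit 0) (nat_lit 0) (XT.nd (nat_lit 78) (nat_lit 76) (nat_lit 0) (XT.lf (nat_lit 0) (nat_lit 59819214727) (nat_lit 152) (nat_lit 52244207986) (nat_lit 76) (nat_lit 318990094625) (nat_lit 5) (nat_lit 5) (nat_lit 7) (nat_lit 5) (nat_lit 6) (nat_lit 4) (nat_lit 240) (nat_lit 220) (nat_lit 140)) (XT.lf (nat_lit 0) (nat_lit 78995323606) (nat_lit 76) (nat_lit 41865686642) (nat_lit 152) (nat_lit 363239550887) (nat_lit 4) (nat_lit 5) (nat_lit 5) (nat_lit 5) (nat_lit 6) (nat_lit 4) (nat_lit 241) (nat_lit 220) (nat_lit 139))) (XT.nd (nat_lit 78) (nat_lit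 0) (nat_lit 0) (XT.lf (nat_lit 0) (nat_lit 195528968873) (nat_lit 152) (nat_lit 310642444341) (nat_lit 0) (nat_lit 38262765113) (nat_lit 4) (nat_lit 5) (nat_lit 6) (nat_lit 4) (nat_lit 4) (nat_lit 4) (nat_lit 242) (nat_lit 220) (nat_lit 138)) (XT.lf (nat_lit 0) (nat_lit 283390482722) (nat_lit 152) (nat_lit 204004289152) (nat_lit 0) (nat_lit 126124062784) (nat_lit 4) (nat_lit 5) (nat_lit 6) (nat_lit 4) (nat_lit 4) (nat_lit 4) (nat_lit 243) (nat_lit 220) (nat_lit 137))))) (XT.nd (nat_lit 312) (nat_lit 76) (nat_lit 0) (XT.nd (nat_lit 156) (nat_lit 0) (nat_lit 0) (XT.nd (nat_lit 78) (nat_lit 76) (nat_lit 0) (XT.lf (nat_lit 0) (nat_lit 384431012608) (nat_lit 152) (nat_lit 81370804470) (nat_lit 0) (nat_lit 227164404690) (nat_lit 4) (nat_lit 5) (nat_lit 6) (nat_lit 4) (nat_lit 4) (nat_lit 4) (nat_lit 244) (nat_lit 220) (nat_lit 136)) (XT.lf (nat_lit 0) (nat_lit 65487511631) (nat_lit 76) (nat_lit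 437851625037) (nat_lit 76) (nat_lit 280584853657) (nat_lit 3) (nat_lit 4) (nat_lit 4) (nat_lit 5) (nat_lit 4) (nat_lit 4) (nat_lit 245) (nat_lit 220) (nat_lit 135))) (XT.nd (nat_lit 78) (nat_lit 0) (nat_lit 0) (XT.lf (nat_lit 0) (nat_lit 243519217112) (nat_lit 76) (nat_lit 400817562985) (nat_lit 76) (nat_lit 243550649465) (nat_lit 3) (nat_lit 4) (nat_lit 4) (nat_lit 5) (nat_lit 4) (nat_lit 4) (nat_lit 246) (nat_lit 220) (nat_lit 134)) (XT.lf (nat_lit 0) (nat_lit 448255394191) (nat_lit 76) (nat_lit 358228525318) (nat_lit 76) (nat_lit 200961488198) (nat_lit 3) (nat_lit 4) (nat_lit 4) (nat_lit 5) (nat_lit 4) (nat_lit 4) (nat_lit 247) (nat_lit 220) (nat_lit 133)))) (XT.nd (nat_lit 156) (nat_lit 76) (nat_lit 0) (XT.nd (nat_lit 78) (nat_lit 0) (nat_lit 0) (XT.lf (nat_lit 0) (nat_lit 683701750681) (nat_lit 76) (nat_lit 309251248255) (nat_lit 76) (nat_lit 151984103657) (nat_lit 3) (nat_lit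 4) (nat_lit 4) (nat_lit 5) (nat_lit 4) (nat_lit 4) (nat_lit 248) (nat_lit 220) (nat_lit 132)) (XT.lf (nat_lit 0) (nat_lit 954464845731) (nat_lit 76) (nat_lit 252927480724) (nat_lit 76) (nat_lit 95660242667) (nat_lit 3) (nat_lit 4) (nat_lit 4) (nat_lit 5) (nat_lit 4) (nat_lit 4) (nat_lit 249) (nat_lit 220) (nat_lit 131))) (XT.nd (nat_lit 78) (nat_lit 76) (nat_lit 0) (XT.lf (nat_lit 0) (nat_lit 1265842218157) (nat_lit 76) (nat_lit 188155235968) (nat_lit 76) (nat_lit 30887916642) (nat_lit 3) (nat_lit 4) (nat_lit 4) (nat_lit 5) (nat_lit 4) (nat_lit 4) (nat_lit 250) (nat_lit 220) (nat_lit 130)) (XT.lf (nat_lit 0) (nat_lit 39718571397) (nat_lit 152) (nat_lit 71872461490) (nat_lit 76) (nat_lit 1582131264492) (nat_lit 2) (nat_lit 5) (nat_lit 4) (nat_lit 5) (nat_lit 3) (nat_lit 4) (nat_lit 251) (nat_lit 220) (nat_lit 129)))))) (XT.nd (nat_lit 624) (nat_lit 0) (nat_lit 0) (XT.nd (nat_lit 312)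 (nat_lit 0) (nat_lit 0) (XT.nd (nat_lit 156) (nat_lit 0) (nat_lit 0) (XT.nd (nat_lit 78) (nat_lit 0) (nat_lit 0) (XT.lf (nat_lit 0) (nat_lit 105275153055) (nat_lit 76) (nat_lit 16837686247) (nat_lit 152) (nat_lit 1810897424751) (nat_lit 1) (nat_lit 5) (nat_lit 2) (nat_lit 5) (nat_lit 3) (nat_lit 4) (nat_lit 252) (nat_lit 220) (nat_lit 128)) (XT.lf (nat_lit 0) (nat_lit 224616894660) (nat_lit 152) (nat_lit 1894549391556) (nat_lit 0) (nat_lit 87862542588) (nat_lit 1) (nat_lit 5) (nat_lit 3) (nat_lit 4) (nat_lit 1) (nat_lit 4) (nat_lit 253) (nat_lit 220) (nat_lit 127))) (XT.nd (nat_lit 78) (nat_lit 0) (nat_lit 0) (XT.lf (nat_lit 0) (nat_lit 343298285885) (nat_lit 152) (nat_lit 1972187739984) (nat_lit 0) (nat_lit 206543893408) (nat_lit 1) (nat_lit 5) (nat_lit 3) (nat_lit 4) (nat_lit 1) (nat_lit 4) (nat_lit 254) (nat_lit 220) (nat_lit 126)) (XT.lf (nat_lit 0) (nat_lit 479781827518) (nat_lit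 152) (nat_lit 2061471954766) (nat_lit 0) (nat_lit 343027399906) (nat_lit 1) (nat_lit 5) (nat_lit 3) (nat_lit 4) (nat_lit 1) (nat_lit 4) (nat_lit 255) (nat_lit 220) (nat_lit 125)))) (XT.nd (nat_lit 156) (nat_lit 0) (nat_lit 0) (XT.nd (nat_lit 78) (nat_lit 0) (nat_lit 0) (XT.lf (nat_lit 0) (nat_lit 636737849721) (nat_lit 152) (nat_lit 2164148900973) (nat_lit 0) (nat_lit 499983391557) (nat_lit 1) (nat_lit 5) (nat_lit 3) (nat_lit 4) (nat_lit 1) (nat_lit 4) (nat_lit 256) (nat_lit 220) (nat_lit 124)) (XT.lf (nat_lit 0) (nat_lit 817237231188) (nat_lit 152) (nat_lit 2282227475379) (nat_lit 0) (nat_lit 680482746457) (nat_lit 1) (nat_lit 5) (nat_lit 3) (nat_lit 4) (nat_lit 1) (nat_lit 4) (nat_lit 257) (nat_lit 220) (nat_lit 123))) (XT.nd (nat_lit 78) (nat_lit 0) (nat_lit 0) (XT.lf (nat_lit 0) (nat_lit 1024811481558) (nat_lit 152) (nat_lit 2418017910961) (nat_lit 0) (nat_lit 888056973725) (nat_lit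 1) (nat_lit 5) (nat_lit 3) (nat_lit 4) (nat_lit 1) (nat_lit 4) (nat_lit 258) (nat_lit 220) (nat_lit 122)) (XT.lf (nat_lit 0) (nat_lit 1263521836163) (nat_lit 152) (nat_lit 2574176977112) (nat_lit 0) (nat_lit 1126767308242) (nat_lit 1) (nat_lit 5) (nat_lit 3) (nat_lit 4) (nat_lit 1) (nat_lit 4) (nat_lit 259) (nat_lit 220) (nat_lit 121))))) (XT.nd (nat_lit 312) (nat_lit 0) (nat_lit 0) (XT.nd (nat_lit 156) (nat_lit 0) (nat_lit 0) (XT.nd (nat_lit 78) (nat_lit 0) (nat_lit 0) (XT.lf (nat_lit 0) (nat_lit 1538038714985) (nat_lit 152) (nat_lit 2753759959909) (nat_lit 0) (nat_lit 1401284169596) (nat_lit 1) (nat_lit 5) (nat_lit 3) (nat_lit 4) (nat_lit 1) (nat_lit 4) (nat_lit 260) (nat_lit 220) (nat_lit 120)) (XT.lf (nat_lit 0) (nat_lit 1853733100436) (nat_lit 152) (nat_lit 2960280439449) (nat_lit 0) (nat_lit 1716978539857) (nat_lit 1) (nat_lit 5) (nat_lit 3) (nat_lit 4) (nat_lit 1) (nat_lit 4)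 (nat_lit 261) (nat_lit 220) (nat_lit 119))) (XT.nd (nat_lit 78) (nat_lit 0) (nat_lit 0) (XT.lf (nat_lit 0) (nat_lit 2216781621797) (nat_lit 152) (nat_lit 3197779033810) (nat_lit 0) (nat_lit 2080027048009) (nat_lit 1) (nat_lit 5) (nat_lit 3) (nat_lit 4) (nat_lit 1) (nat_lit 4) (nat_lit 262) (nat_lit 220) (nat_lit 118)) (XT.lf (nat_lit 0) (nat_lit 2634287402311) (nat_lit 152) (nat_lit 3470902454622) (nat_lit 0) (nat_lit 2497532817038) (nat_lit 1) (nat_lit 5) (nat_lit 3) (nat_lit 4) (nat_lit 1) (nat_lit 4) (nat_lit 263) (nat_lit 220) (nat_lit 117)))) (XT.nd (nat_lit 156) (nat_lit 0) (nat_lit 0) (XT.nd (nat_lit 78) (nat_lit 0) (nat_lit 0) (XT.lf (nat_lit 0) (nat_lit 3114419033336) (nat_lit 152) (nat_lit 3784994420987) (nat_lit 0) (nat_lit 2977664438075) (nat_lit 1) (nat_lit 5) (nat_lit 3) (nat_lit 4) (nat_lit 1) (nat_lit 4) (nat_lit 264) (nat_lit 220) (nat_lit 116)) (XT.lf (nat_lit 0)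 (nat_lit 3666570394610) (nat_lit 152) (nat_lit 4146200210507) (nat_lit 0) (nat_lit 3529815790664) (nat_lit 1) (nat_lit 5) (nat_lit 3) (nat_lit 4) (nat_lit 1) (nat_lit 4) (nat_lit 265) (nat_lit 220) (nat_lit 115))) (XT.nd (nat_lit 78) (nat_lit 0) (nat_lit 0) (XT.lf (nat_lit 0) (nat_lit 4301544447549) (nat_lit 152) (nat_lit 4561586892979) (nat_lit 0) (nat_lit 4164789836051) (nat_lit 1) (nat_lit 5) (nat_lit 3) (nat_lit 4) (nat_lit 1) (nat_lit 4) (nat_lit 266) (nat_lit 220) (nat_lit 114)) (XT.nd (nat_lit 78) (nat_lit 0) (nat_lit 0) (XT.lf (nat_lit 0) (nat_lit 5031764597536) (nat_lit 152) (nat_lit 5039281599146) (nat_lit 0) (nat_lit 4895009979471) (nat_lit 1) (nat_lit 5) (nat_lit 3) (nat_lit 4) (nat_lit 1) (nat_lit 4) (nat_lit 267) (nat_lit 220) (nat_lit 113)) (XT.lf (nat_lit 0) (nat_lit 5871517760549) (nat_lit 152) (nat_lit 5588630529780) (nat_lit 0) (nat_lit 5734763136775) (nat_lit 1)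 (nat_lit 5) (nat_lit 3) (nat_lit 4) (nat_lit 1) (nat_lit 4) (nat_lit 268) (nat_lit 220) (nat_lit 112))))))))
noncomputable def xc73 : XT := (XT.nd (nat_lit 28080) (nat_lit 0) (nat_lit 228) (XT.nd (nat_lit 780) (nat_lit 0) (nat_lit 0) (XT.nd (nat_lit 468) (nat_lit 0) (nat_lit 0) (XT.nd (nat_lit 312) (nat_lit 0) (nat_lit 0) (XT.nd (nat_lit 78) (nat_lit 0) (nat_lit 0) (XT.lf (nat_lit 0) (nat_lit 6837233889779) (nat_lit 152) (nat_lit 6220381816133) (nat_lit 0) (nat_lit 6700479261039) (nat_lit 1) (nat_lit 5) (nat_lit 3) (nat_lit 4) (nat_lit 1) (nat_lit 4) (nat_lit 269) (nat_lit 220) (nat_lit 111)) (XT.lf (nat_lit 0) (nat_lit 7947807431231) (nat_lit 152) (nat_lit 6946895809461) (nat_lit 0) (nat_lit 7811052798173) (nat_lit 1) (nat_lit 5) (nat_lit 3) (nat_lit 4) (nat_lit 1) (nat_lit 4) (nat_lit 270) (nat_lit 220) (nat_lit 110))) (XT.nd (nat_lit 78) (nat_lit 0) (nat_lit 0) (XT.lf (nat_lit 0)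 (nat_lit 12382744009350) (nat_lit 152) (nat_lit 9848138701915) (nat_lit 0) (nat_lit 12245989366433) (nat_lit 1) (nat_lit 5) (nat_lit 3) (nat_lit 4) (nat_lit 1) (nat_lit 4) (nat_lit 273) (nat_lit 220) (nat_lit 107)) (XT.lf (nat_lit 0) (nat_lit 14325144048291) (nat_lit 152) (nat_lit 11118816268139) (nat_lit 0) (nat_lit 14188389402905) (nat_lit 1) (nat_lit 5) (nat_lit 3) (nat_lit 4) (nat_lit 1) (nat_lit 4) (nat_lit 274) (nat_lit 220) (nat_lit 106)))) (XT.nd (nat_lit 156) (nat_lit 0) (nat_lit 0) (XT.nd (nat_lit 78) (nat_lit 0) (nat_lit 0) (XT.lf (nat_lit 0) (nat_lit 16558904089513) (nat_lit 152) (nat_lit 12580095476268) (nat_lit 0) (nat_lit 16422149441980) (nat_lit 1) (nat_lit 5) (nat_lit 3) (nat_lit 4) (nat_lit 1) (nat_lit 4) (nat_lit 275) (nat_lit 220) (nat_lit 105)) (XT.lf (nat_lit 0) (nat_lit 19127728133821) (nat_lit 152) (nat_lit 14260566571678) (nat_lit 0) (nat_lit 18990973484421)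 (nat_lit 1) (nat_lit 5) (nat_lit 3) (nat_lit 4) (nat_lit 1) (nat_lit 4) (nat_lit 276) (nat_lit 220) (nat_lit 104))) (XT.nd (nat_lit 78) (nat_lit 0) (nat_lit 0) (XT.lf (nat_lit 0) (nat_lit 22081875782083) (nat_lit 152) (nat_lit 16193108336670) (nat_lit 0) (nat_lit 21945121131060) (nat_lit 1) (nat_lit 5) (nat_lit 3) (nat_lit 4) (nat_lit 1) (nat_lit 4) (nat_lit 277) (nat_lit 220) (nat_lit 103)) (XT.lf (nat_lit 0) (nat_lit 25479145575243) (nat_lit 152) (nat_lit 18415531370995) (nat_lit 0) (nat_lit 25342390922809) (nat_lit 1) (nat_lit 5) (nat_lit 3) (nat_lit 4) (nat_lit 1) (nat_lit 4) (nat_lit 278) (nat_lit 220) (nat_lit 102))))) (XT.nd (nat_lit 26988) (nat_lit 0) (nat_lit 988) (XT.nd (nat_lit 26832) (nat_lit 0) (nat_lit 1140) (XT.nd (nat_lit 26754) (nat_lit 0) (nat_lit 1444) (XT.lf (nat_lit 0) (nat_lit 29386005835342) (nat_lit 152) (nat_lit 20971317864454) (nat_lit 0) (nat_lit 29249251181680)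 (nat_lit 1) (nat_lit 5) (nat_lit 3) (nat_lit 4) (nat_lit 1) (nat_lit 4) (nat_lit 279) (nat_lit 220) (nat_lit 101)) (XT.lf (nat_lit 0) (nat_lit 19253669171) (nat_lit 0) (nat_lit 19253669171) (nat_lit 228) (nat_lit 32410587) (nat_lit 20) (nat_lit 5) (nat_lit 20) (nat_lit 3) (nat_lit 23) (nat_lit 3) (nat_lit 221) (nat_lit 221) (nat_lit 158))) (XT.nd (nat_lit 78) (nat_lit 304) (nat_lit 0) (XT.lf (nat_lit 0) (nat_lit 77481443159) (nat_lit 0) (nat_lit 5318545752) (nat_lit 228) (nat_lit 58995402) (nat_lit 20) (nat_lit 5) (nat_lit 20) (nat_lit 3) (nat_lit 23) (nat_lit 3) (nat_lit 222) (nat_lit 221) (nat_lit 157)) (XT.lf (nat_lit 0) (nat_lit 2872525043) (nat_lit 304) (nat_lit 54710845686) (nat_lit 380) (nat_lit 31484337640) (nat_lit 16) (nat_lit 5) (nat_lit 20) (nat_lit 5) (nat_lit 21) (nat_lit 5) (nat_lit 223) (nat_lit 221) (nat_lit 156)))) (XT.nd (nat_lit 156) (nat_lit 152) (nat_lit 0) (XT.nd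 (nat_lit 78) (nat_lit 0) (nat_lit 76) (XT.lf (nat_lit 0) (nat_lit 6783959316) (nat_lit 304) (nat_lit 15780473410) (nat_lit 380) (nat_lit 73560965724) (nat_lit 16) (nat_lit 5) (nat_lit 20) (nat_lit 5) (nat_lit 21) (nat_lit 5) (nat_lit 224) (nat_lit 221) (nat_lit 155)) (XT.lf (nat_lit 0) (nat_lit 13394418089) (nat_lit 304) (nat_lit 73018939771) (nat_lit 76) (nat_lit 17511548806) (nat_lit 17) (nat_lit 5) (nat_lit 21) (nat_lit 5) (nat_lit 18) (nat_lit 5) (nat_lit 225) (nat_lit 221) (nat_lit 154))) (XT.nd (nat_lit 78) (nat_lit 228) (nat_lit 0) (XT.lf (nat_lit 0) (nat_lit 22933924908) (nat_lit 304) (nat_lit 27516716542) (nat_lit 76) (nat_lit 62153087364) (nat_lit 17) (nat_lit 5) (nat_lit 21) (nat_lit 5) (nat_lit 18) (nat_lit 5) (nat_lit 226) (nat_lit 221) (nat_lit 153)) (XT.lf (nat_lit 0) (nat_lit 27234376368) (nat_lit 228) (nat_lit 7796667223) (nat_lit 304) (nat_lit 87384336155) (nat_lit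 14) (nat_lit 5) (nat_lit 17) (nat_lit 5) (nat_lit 18) (nat_lit 5) (nat_lit 227) (nat_lit 221) (nat_lit 152)))))) (XT.nd (nat_lit 624) (nat_lit 304) (nat_lit 0) (XT.nd (nat_lit 312) (nat_lit 228) (nat_lit 0) (XT.nd (nat_lit 156) (nat_lit 76) (nat_lit 0) (XT.nd (nat_lit 78) (nat_lit 152) (nat_lit 0) (XT.lf (nat_lit 0) (nat_lit 52156954475) (nat_lit 304) (nat_lit 41970331067) (nat_lit 76) (nat_lit 39089366364) (nat_lit 14) (nat_lit 5) (nat_lit 18) (nat_lit 5) (nat_lit 15) (nat_lit 5) (nat_lit 228) (nat_lit 221) (nat_lit 151)) (XT.lf (nat_lit 0) (nat_lit 20691795947) (nat_lit 152) (nat_lit 52387210205) (nat_lit 228) (nat_lit 72375026918) (nat_lit 12) (nat_lit 5) (nat_lit 14) (nat_lit 5) (nat_lit 15) (nat_lit 5) (nat_lit 229) (nat_lit 221) (nat_lit 150))) (XT.nd (nat_lit 78) (nat_lit 76) (nat_lit 0) (XT.lf (nat_lit 0) (nat_lit 97469177461) (nat_lit 152) (nat_lit 1863340099) (nat_lit 228)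 (nat_lit 59865536532) (nat_lit 12) (nat_lit 5) (nat_lit 14) (nat_lit 5) (nat_lit 15) (nat_lit 5) (nat_lit 230) (nat_lit 221) (nat_lit 149)) (XT.lf (nat_lit 0) (nat_lit 9253641488) (nat_lit 76) (nat_lit 122981668336) (nat_lit 152) (nat_lit 42361685087) (nat_lit 11) (nat_lit 5) (nat_lit 12) (nat_lit 5) (nat_lit 13) (nat_lit 4) (nat_lit 231) (nat_lit 221) (nat_lit 148)))) (XT.nd (nat_lit 156) (nat_lit 152) (nat_lit 0) (XT.nd (nat_lit 78) (nat_lit 76) (nat_lit 0) (XT.lf (nat_lit 0) (nat_lit 97722733650) (nat_lit 76) (nat_lit 75661609782) (nat_lit 152) (nat_lit 18424814192) (nat_lit 11) (nat_lit 5) (nat_lit 12) (nat_lit 5) (nat_lit 13) (nat_lit 4) (nat_lit 232) (nat_lit 221) (nat_lit 147)) (XT.lf (nat_lit 0) (nat_lit 8291651718) (nat_lit 152) (nat_lit 12518701979) (nat_lit 76) (nat_lit 190736340422) (nat_lit 10) (nat_lit 5) (nat_lit 12) (nat_lit 5) (nat_lit 11) (nat_lit 5) (nat_lit 233)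 (nat_lit 221) (nat_lit 146))) (XT.nd (nat_lit 78) (nat_lit 0) (nat_lit 0) (XT.lf (nat_lit 0) (nat_lit 42749633662) (nat_lit 228) (nat_lit 147267215518) (nat_lit 76) (nat_lit 43253349392) (nat_lit 8) (nat_lit 5) (nat_lit 11) (nat_lit 5) (nat_lit 9) (nat_lit 4) (nat_lit 234) (nat_lit 221) (nat_lit 145)) (XT.lf (nat_lit 0) (nat_lit 84052368178) (nat_lit 228) (nat_lit 58467096793) (nat_lit 76) (nat_lit 115481357799) (nat_lit 8) (nat_lit 5) (nat_lit 11) (nat_lit 5) (nat_lit 9) (nat_lit 4) (nat_lit 235) (nat_lit 221) (nat_lit 144))))) (XT.nd (nat_lit 312) (nat_lit 152) (nat_lit 0) (XT.nd (nat_lit 156) (nat_lit 76) (nat_lit 0) (XT.nd (nat_lit 78) (nat_lit 0) (nat_lit 0) (XT.lf (nat_lit 0) (nat_lit 47918418408) (nat_lit 76) (nat_lit 85615892325) (nat_lit 152) (nat_lit 152609162247) (nat_lit 7) (nat_lit 5) (nat_lit 8) (nat_lit 5) (nat_lit 9) (nat_lit 4) (nat_lit 236) (nat_lit 221) (nat_lit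 143)) (XT.lf (nat_lit 0) (nat_lit 176832044549) (nat_lit 76) (nat_lit 16662359755) (nat_lit 152) (nat_lit 124554739264) (nat_lit 7) (nat_lit 5) (nat_lit 8) (nat_lit 5) (nat_lit 9) (nat_lit 4) (nat_lit 237) (nat_lit 221) (nat_lit 142))) (XT.nd (nat_lit 78) (nat_lit 76) (nat_lit 0) (XT.lf (nat_lit 0) (nat_lit 265041725765) (nat_lit 152) (nat_lit 32252080292) (nat_lit 0) (nat_lit 57057878167) (nat_lit 7) (nat_lit 5) (nat_lit 9) (nat_lit 4) (nat_lit 7) (nat_lit 4) (nat_lit 238) (nat_lit 221) (nat_lit 141)) (XT.lf (nat_lit 0) (nat_lit 101280423662) (nat_lit 76) (nat_lit 251027682620) (nat_lit 76) (nat_lit 43043456927) (nat_lit 6) (nat_lit 4) (nat_lit 7) (nat_lit 5) (nat_lit 7) (nat_lit 4) (nat_lit 239) (nat_lit 221) (nat_lit 140)))) (XT.nd (nat_lit 156) (nat_lit 76) (nat_lit 0) (XT.nd (nat_lit 78) (nat_lit 0) (nat_lit 0) (XT.lf (nat_lit 0) (nat_lit 11024135573) (nat_lit 152) (nat_lit 184282662990)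 (nat_lit 76) (nat_lit 246866617449) (nat_lit 5) (nat_lit 5) (nat_lit 7) (nat_lit 5) (nat_lit 6) (nat_lit 4) (nat_lit 240) (nat_lit 221) (nat_lit 139)) (XT.lf (nat_lit 0) (nat_lit 68794787001) (nat_lit 152) (nat_lit 60076048314) (nat_lit 76) (nat_lit 366840296523) (nat_lit 5) (nat_lit 5) (nat_lit 7) (nat_lit 5) (nat_lit 6) (nat_lit 4) (nat_lit 241) (nat_lit 221) (nat_lit 138))) (XT.nd (nat_lit 78) (nat_lit 0) (nat_lit 0) (XT.lf (nat_lit 0) (nat_lit 90849195251) (nat_lit 76) (nat_lit 48143495085) (nat_lit 152) (nat_lit 417722567348) (nat_lit 4) (nat_lit 5) (nat_lit 5) (nat_lit 5) (nat_lit 6) (nat_lit 4) (nat_lit 242) (nat_lit 221) (nat_lit 137)) (XT.lf (nat_lit 0) (nat_lit 224860586561) (nat_lit 152) (nat_lit 357234570935) (nat_lit 0) (nat_lit 44003799475) (nat_lit 4) (nat_lit 5) (nat_lit 6) (nat_lit 4) (nat_lit 4) (nat_lit 4) (nat_lit 243) (nat_lit 221) (nat_lit 136)))))))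
noncomputable def xc74 : XT := (XT.nd (nat_lit 1248) (nat_lit 0) (nat_lit 0) (XT.nd (nat_lit 624) (nat_lit 152) (nat_lit 0) (XT.nd (nat_lit 312) (nat_lit 0) (nat_lit 0) (XT.nd (nat_lit 156) (nat_lit 76) (nat_lit 0) (XT.nd (nat_lit 78) (nat_lit 0) (nat_lit 0) (XT.lf (nat_lit 0) (nat_lit 325901031092) (nat_lit 152) (nat_lit 234601245518) (nat_lit 0) (nat_lit 145044080545) (nat_lit 4) (nat_lit 5) (nat_lit 6) (nat_lit 4) (nat_lit 4) (nat_lit 4) (nat_lit 244) (nat_lit 221) (nat_lit 135)) (XT.lf (nat_lit 0) (nat_lit 442097382727) (nat_lit 152) (nat_lit 93573219048) (nat_lit 0) (nat_lit 261240290039) (nat_lit 4) (nat_lit 5) (nat_lit 6) (nat_lit 4) (nat_lit 4) (nat_lit 4) (nat_lit 245) (nat_lit 221) (nat_lit 134))) (XT.nd (nat_lit 78) (nat_lit 0) (nat_lit 0) (XT.lf (nat_lit 0) (nat_lit 75313698737) (nat_lit 76) (nat_lit 503527929265) (nat_lit 76) (nat_lit 322670712978) (nat_lit 3) (nat_lit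 4) (nat_lit 4) (nat_lit 5) (nat_lit 4) (nat_lit 4) (nat_lit 246) (nat_lit 221) (nat_lit 133)) (XT.lf (nat_lit 0) (nat_lit 280049760862) (nat_lit 76) (nat_lit 460938945670) (nat_lit 76) (nat_lit 280081621904) (nat_lit 3) (nat_lit 4) (nat_lit 4) (nat_lit 5) (nat_lit 4) (nat_lit 4) (nat_lit 247) (nat_lit 221) (nat_lit 132)))) (XT.nd (nat_lit 156) (nat_lit 0) (nat_lit 0) (XT.nd (nat_lit 78) (nat_lit 0) (nat_lit 0) (XT.lf (nat_lit 0) (nat_lit 515496017393) (nat_lit 76) (nat_lit 411961715627) (nat_lit 76) (nat_lit 231104298401) (nat_lit 3) (nat_lit 4) (nat_lit 4) (nat_lit 5) (nat_lit 4) (nat_lit 4) (nat_lit 248) (nat_lit 221) (nat_lit 131)) (XT.lf (nat_lit 0) (nat_lit 786259025521) (nat_lit 76) (nat_lit 355637988982) (nat_lit 76) (nat_lit 174780490487) (nat_lit 3) (nat_lit 4) (nat_lit 4) (nat_lit 5) (nat_lit 4) (nat_lit 4) (nat_lit 249) (nat_lit 221) (nat_lit 130))) (XT.nd (nat_lit 78) (nat_lit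 0) (nat_lit 0) (XT.lf (nat_lit 0) (nat_lit 1097636322362) (nat_lit 76) (nat_lit 290865779779) (nat_lit 76) (nat_lit 110008210615) (nat_lit 3) (nat_lit 4) (nat_lit 4) (nat_lit 5) (nat_lit 4) (nat_lit 4) (nat_lit 250) (nat_lit 221) (nat_lit 129)) (XT.lf (nat_lit 0) (nat_lit 1455720072420) (nat_lit 76) (nat_lit 216377805664) (nat_lit 76) (nat_lit 35520175050) (nat_lit 3) (nat_lit 4) (nat_lit 4) (nat_lit 5) (nat_lit 4) (nat_lit 4) (nat_lit 251) (nat_lit 221) (nat_lit 128))))) (XT.nd (nat_lit 312) (nat_lit 0) (nat_lit 0) (XT.nd (nat_lit 156) (nat_lit 0) (nat_lit 0) (XT.nd (nat_lit 78) (nat_lit 76) (nat_lit 0) (XT.lf (nat_lit 0) (nat_lit 45677093084) (nat_lit 152) (nat_lit 82651933918) (nat_lit 76) (nat_lit 1819451502795) (nat_lit 2) (nat_lit 5) (nat_lit 4) (nat_lit 5) (nat_lit 3) (nat_lit 4) (nat_lit 252) (nat_lit 221) (nat_lit 127)) (XT.lf (nat_lit 0) (nat_lit 121067759319) (nat_lit 76)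 (nat_lit 19362701069) (nat_lit 152) (nat_lit 2082531237436) (nat_lit 1) (nat_lit 5) (nat_lit 2) (nat_lit 5) (nat_lit 3) (nat_lit 4) (nat_lit 253) (nat_lit 221) (nat_lit 126))) (XT.nd (nat_lit 78) (nat_lit 0) (nat_lit 0) (XT.lf (nat_lit 0) (nat_lit 258310056348) (nat_lit 152) (nat_lit 2178730571838) (nat_lit 0) (nat_lit 101042429460) (nat_lit 1) (nat_lit 5) (nat_lit 3) (nat_lit 4) (nat_lit 1) (nat_lit 4) (nat_lit 254) (nat_lit 221) (nat_lit 125)) (XT.lf (nat_lit 0) (nat_lit 394793574411) (nat_lit 152) (nat_lit 2268014832763) (nat_lit 0) (nat_lit 237525916971) (nat_lit 1) (nat_lit 5) (nat_lit 3) (nat_lit 4) (nat_lit 1) (nat_lit 4) (nat_lit 255) (nat_lit 221) (nat_lit 124)))) (XT.nd (nat_lit 156) (nat_lit 0) (nat_lit 0) (XT.nd (nat_lit 78) (nat_lit 0) (nat_lit 0) (XT.lf (nat_lit 0) (nat_lit 551749576118) (nat_lit 152) (nat_lit 2370691819094) (nat_lit 0) (nat_lit 394481892111) (nat_lit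 1) (nat_lit 5) (nat_lit 3) (nat_lit 4) (nat_lit 1) (nat_lit 4) (nat_lit 256) (nat_lit 221) (nat_lit 123)) (XT.lf (nat_lit 0) (nat_lit 732248939763) (nat_lit 152) (nat_lit 2488770428391) (nat_lit 0) (nat_lit 574981232654) (nat_lit 1) (nat_lit 5) (nat_lit 3) (nat_lit 4) (nat_lit 1) (nat_lit 4) (nat_lit 257) (nat_lit 221) (nat_lit 122))) (XT.nd (nat_lit 78) (nat_lit 0) (nat_lit 0) (XT.lf (nat_lit 0) (nat_lit 939823174635) (nat_lit 152) (nat_lit 2624560894314) (nat_lit 0) (nat_lit 782555447438) (nat_lit 1) (nat_lit 5) (nat_lit 3) (nat_lit 4) (nat_lit 1) (nat_lit 4) (nat_lit 258) (nat_lit 221) (nat_lit 121)) (XT.lf (nat_lit 0) (nat_lit 1178533515765) (nat_lit 152) (nat_lit 2780719986848) (nat_lit 0) (nat_lit 1021265771099) (nat_lit 1) (nat_lit 5) (nat_lit 3) (nat_lit 4) (nat_lit 1) (nat_lit 4) (nat_lit 259) (nat_lit 221) (nat_lit 120)))))) (XT.nd (nat_lit 624) (nat_lit 0) (nat_lit 0) (XT.nd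 (nat_lit 312) (nat_lit 0) (nat_lit 0) (XT.nd (nat_lit 156) (nat_lit 0) (nat_lit 0) (XT.nd (nat_lit 78) (nat_lit 0) (nat_lit 0) (XT.lf (nat_lit 0) (nat_lit 1453050382869) (nat_lit 152) (nat_lit 2960302992586) (nat_lit 0) (nat_lit 1295782623013) (nat_lit 1) (nat_lit 5) (nat_lit 3) (nat_lit 4) (nat_lit 1) (nat_lit 4) (nat_lit 260) (nat_lit 221) (nat_lit 119)) (XT.lf (nat_lit 0) (nat_lit 1768744758130) (nat_lit 152) (nat_lit 3166823492075) (nat_lit 0) (nat_lit 1611476985066) (nat_lit 1) (nat_lit 5) (nat_lit 3) (nat_lit 4) (nat_lit 1) (nat_lit 4) (nat_lit 261) (nat_lit 221) (nat_lit 118))) (XT.nd (nat_lit 78) (nat_lit 0) (nat_lit 0) (XT.lf (nat_lit 0) (nat_lit 2131793270629) (nat_lit 152) (nat_lit 3404322103783) (nat_lit 0) (nat_lit 1974525486080) (nat_lit 1) (nat_lit 5) (nat_lit 3) (nat_lit 4) (nat_lit 1) (nat_lit 4) (nat_lit 262) (nat_lit 221) (nat_lit 117)) (XT.lf (nat_lit 0) (nat_lit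 2549299043438) (nat_lit 152) (nat_lit 3677445539679) (nat_lit 0) (nat_lit 2392031248901) (nat_lit 1) (nat_lit 5) (nat_lit 3) (nat_lit 4) (nat_lit 1) (nat_lit 4) (nat_lit 263) (nat_lit 221) (nat_lit 116)))) (XT.nd (nat_lit 156) (nat_lit 0) (nat_lit 0) (XT.nd (nat_lit 78) (nat_lit 0) (nat_lit 0) (XT.lf (nat_lit 0) (nat_lit 3029430667763) (nat_lit 152) (nat_lit 3991537519161) (nat_lit 0) (nat_lit 2872162864541) (nat_lit 1) (nat_lit 5) (nat_lit 3) (nat_lit 4) (nat_lit 1) (nat_lit 4) (nat_lit 264) (nat_lit 221) (nat_lit 115)) (XT.lf (nat_lit 0) (nat_lit 3581582023211) (nat_lit 152) (nat_lit 4352743320087) (nat_lit 0) (nat_lit 3424314212437) (nat_lit 1) (nat_lit 5) (nat_lit 3) (nat_lit 4) (nat_lit 1) (nat_lit 4) (nat_lit 265) (nat_lit 221) (nat_lit 114))) (XT.nd (nat_lit 78) (nat_lit 0) (nat_lit 0) (XT.lf (nat_lit 0) (nat_lit 4216556071084) (nat_lit 152) (nat_lit 4768130012477) (nat_lit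 0) (nat_lit 4059288253742) (nat_lit 1) (nat_lit 5) (nat_lit 3) (nat_lit 4) (nat_lit 1) (nat_lit 4) (nat_lit 266) (nat_lit 221) (nat_lit 113)) (XT.lf (nat_lit 0) (nat_lit 4946776216665) (nat_lit 152) (nat_lit 5245824727268) (nat_lit 0) (nat_lit 4789508393614) (nat_lit 1) (nat_lit 5) (nat_lit 3) (nat_lit 4) (nat_lit 1) (nat_lit 4) (nat_lit 267) (nat_lit 221) (nat_lit 112))))) (XT.nd (nat_lit 468) (nat_lit 0) (nat_lit 0) (XT.nd (nat_lit 156) (nat_lit 0) (nat_lit 0) (XT.nd (nat_lit 78) (nat_lit 0) (nat_lit 0) (XT.lf (nat_lit 0) (nat_lit 5786529375848) (nat_lit 152) (nat_lit 5795173665402) (nat_lit 0) (nat_lit 5629261547831) (nat_lit 1) (nat_lit 5) (nat_lit 3) (nat_lit 4) (nat_lit 1) (nat_lit 4) (nat_lit 268) (nat_lit 221) (nat_lit 111)) (XT.lf (nat_lit 0) (nat_lit 6752245501747) (nat_lit 152) (nat_lit 6426924958277) (nat_lit 0) (nat_lit 6594977669412) (nat_lit 1) (nat_lit 5) (nat_lit 3)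 (nat_lit 4) (nat_lit 1) (nat_lit 4) (nat_lit 269) (nat_lit 221) (nat_lit 110))) (XT.nd (nat_lit 234) (nat_lit 0) (nat_lit 0) (XT.lf (nat_lit 0) (nat_lit 7862819040303) (nat_lit 152) (nat_lit 7153438957275) (nat_lit 0) (nat_lit 7705551204213) (nat_lit 1) (nat_lit 5) (nat_lit 3) (nat_lit 4) (nat_lit 1) (nat_lit 4) (nat_lit 270) (nat_lit 221) (nat_lit 109)) (XT.lf (nat_lit 0) (nat_lit 12297755611808) (nat_lit 152) (nat_lit 10054681862677) (nat_lit 0) (nat_lit 12140487767145) (nat_lit 1) (nat_lit 5) (nat_lit 3) (nat_lit 4) (nat_lit 1) (nat_lit 4) (nat_lit 273) (nat_lit 221) (nat_lit 106)))) (XT.nd (nat_lit 156) (nat_lit 0) (nat_lit 0) (XT.nd (nat_lit 78) (nat_lit 0) (nat_lit 0) (XT.lf (nat_lit 0) (nat_lit 14240155649093) (nat_lit 152) (nat_lit 11325359432143) (nat_lit 0) (nat_lit 14082887802283) (nat_lit 1) (nat_lit 5) (nat_lit 3) (nat_lit 4) (nat_lit 1) (nat_lit 4) (nat_lit 274) (nat_lit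 221) (nat_lit 105)) (XT.lf (nat_lit 0) (nat_lit 16473915688874) (nat_lit 152) (nat_lit 12786638643092) (nat_lit 0) (nat_lit 16316647840198) (nat_lit 1) (nat_lit 5) (nat_lit 3) (nat_lit 4) (nat_lit 1) (nat_lit 4) (nat_lit 275) (nat_lit 221) (nat_lit 104))) (XT.nd (nat_lit 78) (nat_lit 0) (nat_lit 0) (XT.lf (nat_lit 0) (nat_lit 19042739731930) (nat_lit 152) (nat_lit 14467109740953) (nat_lit 0) (nat_lit 18885471881631) (nat_lit 1) (nat_lit 5) (nat_lit 3) (nat_lit 4) (nat_lit 1) (nat_lit 4) (nat_lit 276) (nat_lit 221) (nat_lit 103)) (XT.nd (nat_lit 78) (nat_lit 0) (nat_lit 0) (XT.lf (nat_lit 0) (nat_lit 21996887379103) (nat_lit 152) (nat_lit 16399651508077) (nat_lit 0) (nat_lit 21839619527392) (nat_lit 1) (nat_lit 5) (nat_lit 3) (nat_lit 4) (nat_lit 1) (nat_lit 4) (nat_lit 277) (nat_lit 221) (nat_lit 102)) (XT.lf (nat_lit 0) (nat_lit 25394157171316) (nat_lit 152) (nat_lit 18622074544256)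 (nat_lit 0) (nat_lit 25236889318378) (nat_lit 1) (nat_lit 5) (nat_lit 3) (nat_lit 4) (nat_lit 1) (nat_lit 4) (nat_lit 278) (nat_lit 221) (nat_lit 101))))))))
noncomputable def xc75 : XT := (XT.nd (nat_lit 2496) (nat_lit 76) (nat_lit 0) (XT.nd (nat_lit 1248) (nat_lit 380) (nat_lit 0) (XT.nd (nat_lit 624) (nat_lit 532) (nat_lit 0) (XT.nd (nat_lit 312) (nat_lit 152) (nat_lit 0) (XT.nd (nat_lit 156) (nat_lit 304) (nat_lit 0) (XT.nd (nat_lit 78) (nat_lit 0) (nat_lit 0) (XT.lf (nat_lit 0) (nat_lit 22146134570) (nat_lit 0) (nat_lit 22146134570) (nat_lit 228) (nat_lit 27027355) (nat_lit 20) (nat_lit 5) (nat_lit 20) (nat_lit 3) (nat_lit 23) (nat_lit 3) (nat_lit 222) (nat_lit 222) (nat_lit 156)) (XT.lf (nat_lit 0) (nat_lit 89111337932) (nat_lit 0) (nat_lit 6124005915) (nat_lit 228) (nat_lit 50027635) (nat_lit 20) (nat_lit 5) (nat_lit 20) (nat_lit 3) (nat_lit 23) (nat_lit 3) (nat_lit 223) (nat_lit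 222) (nat_lit 155))) (XT.nd (nat_lit 78) (nat_lit 0) (nat_lit 0) (XT.lf (nat_lit 0) (nat_lit 3317660960) (nat_lit 304) (nat_lit 62905979106) (nat_lit 380) (nat_lit 36201967279) (nat_lit 16) (nat_lit 5) (nat_lit 20) (nat_lit 5) (nat_lit 21) (nat_lit 5) (nat_lit 224) (nat_lit 222) (nat_lit 154)) (XT.lf (nat_lit 0) (nat_lit 7813950744) (nat_lit 304) (nat_lit 18137550133) (nat_lit 380) (nat_lit 84590744490) (nat_lit 16) (nat_lit 5) (nat_lit 20) (nat_lit 5) (nat_lit 21) (nat_lit 5) (nat_lit 225) (nat_lit 222) (nat_lit 153)))) (XT.nd (nat_lit 156) (nat_lit 228) (nat_lit 0) (XT.nd (nat_lit 78) (nat_lit 0) (nat_lit 0) (XT.lf (nat_lit 0) (nat_lit 15414688573) (nat_lit 304) (nat_lit 83960406929) (nat_lit 76) (nat_lit 20136791240) (nat_lit 17) (nat_lit 5) (nat_lit 21) (nat_lit 5) (nat_lit 18) (nat_lit 5) (nat_lit 226) (nat_lit 222) (nat_lit 152)) (XT.lf (nat_lit 0) (nat_lit 26383672576) (nat_lit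 304) (nat_lit 31634333756) (nat_lit 76) (nat_lit 71474754915) (nat_lit 17) (nat_lit 5) (nat_lit 21) (nat_lit 5) (nat_lit 18) (nat_lit 5) (nat_lit 227) (nat_lit 222) (nat_lit 151))) (XT.nd (nat_lit 78) (nat_lit 0) (nat_lit 0) (XT.lf (nat_lit 0) (nat_lit 31328973533) (nat_lit 228) (nat_lit 8965516587) (nat_lit 304) (nat_lit 100481810220) (nat_lit 14) (nat_lit 5) (nat_lit 17) (nat_lit 5) (nat_lit 18) (nat_lit 5) (nat_lit 228) (nat_lit 222) (nat_lit 150)) (XT.lf (nat_lit 0) (nat_lit 59988164546) (nat_lit 304) (nat_lit 48256489307) (nat_lit 76) (nat_lit 44953286787) (nat_lit 14) (nat_lit 5) (nat_lit 18) (nat_lit 5) (nat_lit 15) (nat_lit 5) (nat_lit 229) (nat_lit 222) (nat_lit 149))))) (XT.nd (nat_lit 312) (nat_lit 304) (nat_lit 0) (XT.nd (nat_lit 156) (nat_lit 76) (nat_lit 0) (XT.nd (nat_lit 78) (nat_lit 0) (nat_lit 0) (XT.lf (nat_lit 0) (nat_lit 23804529877) (nat_lit 152) (nat_lit 60243365270)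 (nat_lit 228) (nat_lit 83223135853) (nat_lit 12) (nat_lit 5) (nat_lit 14) (nat_lit 5) (nat_lit 15) (nat_lit 5) (nat_lit 230) (nat_lit 222) (nat_lit 148)) (XT.lf (nat_lit 0) (nat_lit 112097349330) (nat_lit 152) (nat_lit 2141165927) (nat_lit 228) (nat_lit 68838284314) (nat_lit 12) (nat_lit 5) (nat_lit 14) (nat_lit 5) (nat_lit 15) (nat_lit 5) (nat_lit 231) (nat_lit 222) (nat_lit 147))) (XT.nd (nat_lit 78) (nat_lit 0) (nat_lit 0) (XT.lf (nat_lit 0) (nat_lit 10649981298) (nat_lit 76) (nat_lit 141426350532) (nat_lit 152) (nat_lit 48709314685) (nat_lit 11) (nat_lit 5) (nat_lit 12) (nat_lit 5) (nat_lit 13) (nat_lit 4) (nat_lit 232) (nat_lit 222) (nat_lit 146)) (XT.lf (nat_lit 0) (nat_lit 112388355511) (nat_lit 76) (nat_lit 87008618158) (nat_lit 152) (nat_lit 21182777046) (nat_lit 11) (nat_lit 5) (nat_lit 12) (nat_lit 5) (nat_lit 13) (nat_lit 4) (nat_lit 233) (nat_lit 222) (nat_lit 145))))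 (XT.nd (nat_lit 156) (nat_lit 76) (nat_lit 0) (XT.nd (nat_lit 78) (nat_lit 152) (nat_lit 0) (XT.lf (nat_lit 0) (nat_lit 9539961688) (nat_lit 152) (nat_lit 14389764766) (nat_lit 76) (nat_lit 219348261936) (nat_lit 10) (nat_lit 5) (nat_lit 12) (nat_lit 5) (nat_lit 11) (nat_lit 5) (nat_lit 234) (nat_lit 222) (nat_lit 144)) (XT.lf (nat_lit 0) (nat_lit 49166403551) (nat_lit 228) (nat_lit 169350295776) (nat_lit 76) (nat_lit 49743358118) (nat_lit 8) (nat_lit 5) (nat_lit 11) (nat_lit 5) (nat_lit 9) (nat_lit 4) (nat_lit 235) (nat_lit 222) (nat_lit 143))) (XT.nd (nat_lit 78) (nat_lit 76) (nat_lit 0) (XT.lf (nat_lit 0) (nat_lit 96663984135) (nat_lit 228) (nat_lit 67231072556) (nat_lit 76) (nat_lit 132805306093) (nat_lit 8) (nat_lit 5) (nat_lit 11) (nat_lit 5) (nat_lit 9) (nat_lit 4) (nat_lit 236) (nat_lit 222) (nat_lit 142)) (XT.lf (nat_lit 0) (nat_lit 55111993163) (nat_lit 76) (nat_lit 98455975042)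 (nat_lit 152) (nat_lit 175496482316) (nat_lit 7) (nat_lit 5) (nat_lit 8) (nat_lit 5) (nat_lit 9) (nat_lit 4) (nat_lit 237) (nat_lit 222) (nat_lit 141)))))) (XT.nd (nat_lit 624) (nat_lit 152) (nat_lit 0) (XT.nd (nat_lit 312) (nat_lit 76) (nat_lit 0) (XT.nd (nat_lit 156) (nat_lit 152) (nat_lit 0) (XT.nd (nat_lit 78) (nat_lit 0) (nat_lit 0) (XT.lf (nat_lit 0) (nat_lit 203361905140) (nat_lit 76) (nat_lit 19159712734) (nat_lit 152) (nat_lit 143234424703) (nat_lit 7) (nat_lit 5) (nat_lit 8) (nat_lit 5) (nat_lit 9) (nat_lit 4) (nat_lit 238) (nat_lit 222) (nat_lit 140)) (XT.lf (nat_lit 0) (nat_lit 304800711396) (nat_lit 152) (nat_lit 37085158789) (nat_lit 0) (nat_lit 65618144973) (nat_lit 7) (nat_lit 5) (nat_lit 9) (nat_lit 4) (nat_lit 7) (nat_lit 4) (nat_lit 239) (nat_lit 222) (nat_lit 139))) (XT.nd (nat_lit 78) (nat_lit 76) (nat_lit 0) (XT.lf (nat_lit 0) (nat_lit 116477005597) (nat_lit 76)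 (nat_lit 288679874825) (nat_lit 76) (nat_lit 49497022508) (nat_lit 6) (nat_lit 4) (nat_lit 7) (nat_lit 5) (nat_lit 7) (nat_lit 4) (nat_lit 240) (nat_lit 222) (nat_lit 138)) (XT.lf (nat_lit 0) (nat_lit 12680095096) (nat_lit 152) (nat_lit 211920896465) (nat_lit 76) (nat_lit 283898077635) (nat_lit 5) (nat_lit 5) (nat_lit 7) (nat_lit 5) (nat_lit 6) (nat_lit 4) (nat_lit 241) (nat_lit 222) (nat_lit 137)))) (XT.nd (nat_lit 156) (nat_lit 0) (nat_lit 0) (XT.nd (nat_lit 78) (nat_lit 76) (nat_lit 0) (XT.lf (nat_lit 0) (nat_lit 79116039126) (nat_lit 152) (nat_lit 69083832976) (nat_lit 76) (nat_lit 421867617147) (nat_lit 5) (nat_lit 5) (nat_lit 7) (nat_lit 5) (nat_lit 6) (nat_lit 4) (nat_lit 242) (nat_lit 222) (nat_lit 136)) (XT.lf (nat_lit 0) (nat_lit 104480032461) (nat_lit 76) (nat_lit 55363473371) (nat_lit 152) (nat_lit 480378747405) (nat_lit 4) (nat_lit 5) (nat_lit 5) (nat_lit 5) (nat_lit 6)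 (nat_lit 4) (nat_lit 243) (nat_lit 222) (nat_lit 135))) (XT.nd (nat_lit 78) (nat_lit 0) (nat_lit 0) (XT.lf (nat_lit 0) (nat_lit 258591392773) (nat_lit 152) (nat_lit 410816550483) (nat_lit 0) (nat_lit 50605594042) (nat_lit 4) (nat_lit 5) (nat_lit 6) (nat_lit 4) (nat_lit 4) (nat_lit 4) (nat_lit 244) (nat_lit 222) (nat_lit 134)) (XT.lf (nat_lit 0) (nat_lit 374787679867) (nat_lit 152) (nat_lit 269788644440) (nat_lit 0) (nat_lit 166801757536) (nat_lit 4) (nat_lit 5) (nat_lit 6) (nat_lit 4) (nat_lit 4) (nat_lit 4) (nat_lit 245) (nat_lit 222) (nat_lit 133))))) (XT.nd (nat_lit 312) (nat_lit 76) (nat_lit 0) (XT.nd (nat_lit 156) (nat_lit 0) (nat_lit 0) (XT.nd (nat_lit 78) (nat_lit 76) (nat_lit 0) (XT.lf (nat_lit 0) (nat_lit 508413289363) (nat_lit 152) (nat_lit 107606777638) (nat_lit 0) (nat_lit 300427259554) (nat_lit 4) (nat_lit 5) (nat_lit 6) (nat_lit 4) (nat_lit 4) (nat_lit 4) (nat_lit 246)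 (nat_lit 222) (nat_lit 132)) (XT.lf (nat_lit 0) (nat_lit 86613067620) (nat_lit 76) (nat_lit 579056030166) (nat_lit 76) (nat_lit 371069906897) (nat_lit 3) (nat_lit 4) (nat_lit 4) (nat_lit 5) (nat_lit 4) (nat_lit 4) (nat_lit 247) (nat_lit 222) (nat_lit 131))) (XT.nd (nat_lit 78) (nat_lit 0) (nat_lit 0) (XT.lf (nat_lit 0) (nat_lit 322059237229) (nat_lit 76) (nat_lit 530078841009) (nat_lit 76) (nat_lit 322092636470) (nat_lit 3) (nat_lit 4) (nat_lit 4) (nat_lit 5) (nat_lit 4) (nat_lit 4) (nat_lit 248) (nat_lit 222) (nat_lit 130)) (XT.lf (nat_lit 0) (nat_lit 592822169773) (nat_lit 76) (nat_lit 473755149917) (nat_lit 76) (nat_lit 265768874710) (nat_lit 3) (nat_lit 4) (nat_lit 4) (nat_lit 5) (nat_lit 4) (nat_lit 4) (nat_lit 249) (nat_lit 222) (nat_lit 129)))) (XT.nd (nat_lit 156) (nat_lit 76) (nat_lit 0) (XT.nd (nat_lit 78) (nat_lit 0) (nat_lit 0) (XT.lf (nat_lit 0) (nat_lit 904199400889)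 (nat_lit 76) (nat_lit 408982971630) (nat_lit 76) (nat_lit 200996634971) (nat_lit 3) (nat_lit 4) (nat_lit 4) (nat_lit 5) (nat_lit 4) (nat_lit 4) (nat_lit 250) (nat_lit 222) (nat_lit 128)) (XT.lf (nat_lit 0) (nat_lit 1262283093795) (nat_lit 76) (nat_lit 334495024399) (nat_lit 76) (nat_lit 126508634305) (nat_lit 3) (nat_lit 4) (nat_lit 4) (nat_lit 5) (nat_lit 4) (nat_lit 4) (nat_lit 251) (nat_lit 222) (nat_lit 127))) (XT.nd (nat_lit 78) (nat_lit 76) (nat_lit 0) (XT.lf (nat_lit 0) (nat_lit 1674079233787) (nat_lit 76) (nat_lit 248833935343) (nat_lit 76) (nat_lit 40847498783) (nat_lit 3) (nat_lit 4) (nat_lit 4) (nat_lit 5) (nat_lit 4) (nat_lit 4) (nat_lit 252) (nat_lit 222) (nat_lit 126)) (XT.lf (nat_lit 0) (nat_lit 52529213552) (nat_lit 152) (nat_lit 95048667827) (nat_lit 76) (nat_lit 2092369643057) (nat_lit 2) (nat_lit 5) (nat_lit 4) (nat_lit 5) (nat_lit 3) (nat_lit 4) (nat_lit 253) (nat_lit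 222) (nat_lit 125))))))) (XT.nd (nat_lit 1248) (nat_lit 0) (nat_lit 0) (XT.nd (nat_lit 624) (nat_lit 0) (nat_lit 0) (XT.nd (nat_lit 312) (nat_lit 0) (nat_lit 0) (XT.nd (nat_lit 156) (nat_lit 0) (nat_lit 0) (XT.nd (nat_lit 78) (nat_lit 0) (nat_lit 0) (XT.lf (nat_lit 0) (nat_lit 139228931388) (nat_lit 76) (nat_lit 22266623722) (nat_lit 152) (nat_lit 2394910317360) (nat_lit 1) (nat_lit 5) (nat_lit 2) (nat_lit 5) (nat_lit 3) (nat_lit 4) (nat_lit 254) (nat_lit 222) (nat_lit 124)) (XT.lf (nat_lit 0) (nat_lit 297057039273) (nat_lit 152) (nat_lit 2505539228727) (nat_lit 0) (nat_lit 116199176097) (nat_lit 1) (nat_lit 5) (nat_lit 3) (nat_lit 4) (nat_lit 1) (nat_lit 4) (nat_lit 255) (nat_lit 222) (nat_lit 123))) (XT.nd (nat_lit 78) (nat_lit 0) (nat_lit 0) (XT.lf (nat_lit 0) (nat_lit 454013023158) (nat_lit 152) (nat_lit 2608216249950) (nat_lit 0) (nat_lit 273155136880) (nat_lit 1) (nat_lit 5)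 (nat_lit 3) (nat_lit 4) (nat_lit 1) (nat_lit 4) (nat_lit 256) (nat_lit 222) (nat_lit 122)) (XT.lf (nat_lit 0) (nat_lit 634512371305) (nat_lit 152) (nat_lit 2726294889587) (nat_lit 0) (nat_lit 453654464939) (nat_lit 1) (nat_lit 5) (nat_lit 3) (nat_lit 4) (nat_lit 1) (nat_lit 4) (nat_lit 257) (nat_lit 222) (nat_lit 121)))) (XT.nd (nat_lit 156) (nat_lit 0) (nat_lit 0) (XT.nd (nat_lit 78) (nat_lit 0) (nat_lit 0) (XT.lf (nat_lit 0) (nat_lit 842086592701) (nat_lit 152) (nat_lit 2862085381892) (nat_lit 0) (nat_lit 661228668867) (nat_lit 1) (nat_lit 5) (nat_lit 3) (nat_lit 4) (nat_lit 1) (nat_lit 4) (nat_lit 258) (nat_lit 222) (nat_lit 120)) (XT.lf (nat_lit 0) (nat_lit 1080796922112) (nat_lit 152) (nat_lit 3018244497367) (nat_lit 0) (nat_lit 899938983088) (nat_lit 1) (nat_lit 5) (nat_lit 3) (nat_lit 4) (nat_lit 1) (nat_lit 4) (nat_lit 259) (nat_lit 222) (nat_lit 119))) (XT.nd (nat_lit 78)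 (nat_lit 0) (nat_lit 0) (XT.lf (nat_lit 0) (nat_lit 1355313779026) (nat_lit 152) (nat_lit 3197827523054) (nat_lit 0) (nat_lit 1174455826793) (nat_lit 1) (nat_lit 5) (nat_lit 3) (nat_lit 4) (nat_lit 1) (nat_lit 4) (nat_lit 260) (nat_lit 222) (nat_lit 118)) (XT.lf (nat_lit 0) (nat_lit 1671008145426) (nat_lit 152) (nat_lit 3404348039890) (nat_lit 0) (nat_lit 1490150181708) (nat_lit 1) (nat_lit 5) (nat_lit 3) (nat_lit 4) (nat_lit 1) (nat_lit 4) (nat_lit 261) (nat_lit 222) (nat_lit 117))))) (XT.nd (nat_lit 312) (nat_lit 0) (nat_lit 0) (XT.nd (nat_lit 156) (nat_lit 0) (nat_lit 0) (XT.nd (nat_lit 78) (nat_lit 0) (nat_lit 0) (XT.lf (nat_lit 0) (nat_lit 2034056650221) (nat_lit 152) (nat_lit 3641846666683) (nat_lit 0) (nat_lit 1853198676515) (nat_lit 1) (nat_lit 5) (nat_lit 3) (nat_lit 4) (nat_lit 1) (nat_lit 4) (nat_lit 262) (nat_lit 222) (nat_lit 116)) (XT.lf (nat_lit 0) (nat_lit 2451562416330)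 (nat_lit 152) (nat_lit 3914970115696) (nat_lit 0) (nat_lit 2270704433939) (nat_lit 1) (nat_lit 5) (nat_lit 3) (nat_lit 4) (nat_lit 1) (nat_lit 4) (nat_lit 263) (nat_lit 222) (nat_lit 115))) (XT.nd (nat_lit 78) (nat_lit 0) (nat_lit 0) (XT.lf (nat_lit 0) (nat_lit 2931694034829) (nat_lit 152) (nat_lit 4229062106583) (nat_lit 0) (nat_lit 2750836044886) (nat_lit 1) (nat_lit 5) (nat_lit 3) (nat_lit 4) (nat_lit 1) (nat_lit 4) (nat_lit 264) (nat_lit 222) (nat_lit 114)) (XT.lf (nat_lit 0) (nat_lit 3483845385210) (nat_lit 152) (nat_lit 4590267917428) (nat_lit 0) (nat_lit 3302987388701) (nat_lit 1) (nat_lit 5) (nat_lit 3) (nat_lit 4) (nat_lit 1) (nat_lit 4) (nat_lit 265) (nat_lit 222) (nat_lit 113)))) (XT.nd (nat_lit 156) (nat_lit 0) (nat_lit 0) (XT.nd (nat_lit 78) (nat_lit 0) (nat_lit 0) (XT.lf (nat_lit 0) (nat_lit 4118819428677) (nat_lit 152) (nat_lit 5005654618443) (nat_lit 0) (nat_lit 3937961426458)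 (nat_lit 1) (nat_lit 5) (nat_lit 3) (nat_lit 4) (nat_lit 1) (nat_lit 4) (nat_lit 266) (nat_lit 222) (nat_lit 112)) (XT.lf (nat_lit 0) (nat_lit 4849039570429) (nat_lit 152) (nat_lit 5483349340733) (nat_lit 0) (nat_lit 4668181563243) (nat_lit 1) (nat_lit 5) (nat_lit 3) (nat_lit 4) (nat_lit 1) (nat_lit 4) (nat_lit 267) (nat_lit 222) (nat_lit 111))) (XT.nd (nat_lit 78) (nat_lit 0) (nat_lit 0) (XT.lf (nat_lit 0) (nat_lit 5688792726280) (nat_lit 152) (nat_lit 6032698285388) (nat_lit 0) (nat_lit 5507934714777) (nat_lit 1) (nat_lit 5) (nat_lit 3) (nat_lit 4) (nat_lit 1) (nat_lit 4) (nat_lit 268) (nat_lit 222) (nat_lit 110)) (XT.lf (nat_lit 0) (nat_lit 6654508849282) (nat_lit 152) (nat_lit 6664449583934) (nat_lit 0) (nat_lit 6473650834024) (nat_lit 1) (nat_lit 5) (nat_lit 3) (nat_lit 4) (nat_lit 1) (nat_lit 4) (nat_lit 269) (nat_lit 222) (nat_lit 109)))))) (XT.nd (nat_lit 27768) (nat_lit 0)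 (nat_lit 836) (XT.nd (nat_lit 468) (nat_lit 0) (nat_lit 0) (XT.nd (nat_lit 312) (nat_lit 0) (nat_lit 0) (XT.nd (nat_lit 234) (nat_lit 0) (nat_lit 0) (XT.lf (nat_lit 0) (nat_lit 7765082385319) (nat_lit 152) (nat_lit 7390963587863) (nat_lit 0) (nat_lit 7584224366796) (nat_lit 1) (nat_lit 5) (nat_lit 3) (nat_lit 4) (nat_lit 1) (nat_lit 4) (nat_lit 270) (nat_lit 222) (nat_lit 108)) (XT.lf (nat_lit 0) (nat_lit 12200018951073) (nat_lit 152) (nat_lit 10292206504524) (nat_lit 0) (nat_lit 12019160925096) (nat_lit 1) (nat_lit 5) (nat_lit 3) (nat_lit 4) (nat_lit 1) (nat_lit 4) (nat_lit 273) (nat_lit 222) (nat_lit 105))) (XT.nd (nat_lit 78) (nat_lit 0) (nat_lit 0) (XT.lf (nat_lit 0) (nat_lit 14142418986918) (nat_lit 152) (nat_lit 11562884076810) (nat_lit 0) (nat_lit 13961560959074) (nat_lit 1) (nat_lit 5) (nat_lit 3) (nat_lit 4) (nat_lit 1) (nat_lit 4) (nat_lit 274) (nat_lit 222) (nat_lit 104))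 (XT.lf (nat_lit 0) (nat_lit 16376179025447) (nat_lit 152) (nat_lit 13024163290210) (nat_lit 0) (nat_lit 16195320995980) (nat_lit 1) (nat_lit 5) (nat_lit 3) (nat_lit 4) (nat_lit 1) (nat_lit 4) (nat_lit 275) (nat_lit 222) (nat_lit 103)))) (XT.nd (nat_lit 27144) (nat_lit 0) (nat_lit 1444) (XT.nd (nat_lit 78) (nat_lit 0) (nat_lit 0) (XT.lf (nat_lit 0) (nat_lit 18945003067414) (nat_lit 152) (nat_lit 14704634390203) (nat_lit 0) (nat_lit 18764145036535) (nat_lit 1) (nat_lit 5) (nat_lit 3) (nat_lit 4) (nat_lit 1) (nat_lit 4) (nat_lit 276) (nat_lit 222) (nat_lit 102)) (XT.lf (nat_lit 0) (nat_lit 21899150713640) (nat_lit 152) (nat_lit 16637176159181) (nat_lit 0) (nat_lit 21718292681534) (nat_lit 1) (nat_lit 5) (nat_lit 3) (nat_lit 4) (nat_lit 1) (nat_lit 4) (nat_lit 277) (nat_lit 222) (nat_lit 101))) (XT.nd (nat_lit 78) (nat_lit 0) (nat_lit 0) (XT.lf (nat_lit 0) (nat_lit 25471393146) (nat_lit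 0) (nat_lit 25471393146) (nat_lit 228) (nat_lit 23334903) (nat_lit 20) (nat_lit 5) (nat_lit 20) (nat_lit 3) (nat_lit 23) (nat_lit 3) (nat_lit 223) (nat_lit 223) (nat_lit 154)) (XT.lf (nat_lit 0) (nat_lit 102483844520) (nat_lit 0) (nat_lit 7048412700) (nat_lit 228) (nat_lit 44059510) (nat_lit 20) (nat_lit 5) (nat_lit 20) (nat_lit 3) (nat_lit 23) (nat_lit 3) (nat_lit 224) (nat_lit 223) (nat_lit 153))))) (XT.nd (nat_lit 312) (nat_lit 304) (nat_lit 0) (XT.nd (nat_lit 156) (nat_lit 0) (nat_lit 76) (XT.nd (nat_lit 78) (nat_lit 0) (nat_lit 0) (XT.lf (nat_lit 0) (nat_lit 3826090566) (nat_lit 304) (nat_lit 72333185286) (nat_lit 380) (nat_lit 41628465767) (nat_lit 16) (nat_lit 5) (nat_lit 20) (nat_lit 5) (nat_lit 21) (nat_lit 5) (nat_lit 225) (nat_lit 223) (nat_lit 152)) (XT.lf (nat_lit 0) (nat_lit 8995417670) (nat_lit 304) (nat_lit 20850625535) (nat_lit 380) (nat_lit 97276054769) (nat_lit 16)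 (nat_lit 5) (nat_lit 20) (nat_lit 5) (nat_lit 21) (nat_lit 5) (nat_lit 226) (nat_lit 223) (nat_lit 151))) (XT.nd (nat_lit 78) (nat_lit 0) (nat_lit 0) (XT.lf (nat_lit 0) (nat_lit 17735290929) (nat_lit 304) (nat_lit 96545867736) (nat_lit 76) (nat_lit 23156183357) (nat_lit 17) (nat_lit 5) (nat_lit 21) (nat_lit 5) (nat_lit 18) (nat_lit 5) (nat_lit 227) (nat_lit 223) (nat_lit 150)) (XT.lf (nat_lit 0) (nat_lit 30348527002) (nat_lit 304) (nat_lit 36372005357) (nat_lit 76) (nat_lit 82194988527) (nat_lit 17) (nat_lit 5) (nat_lit 21) (nat_lit 5) (nat_lit 18) (nat_lit 5) (nat_lit 228) (nat_lit 223) (nat_lit 149)))) (XT.nd (nat_lit 156) (nat_lit 152) (nat_lit 0) (XT.nd (nat_lit 78) (nat_lit 0) (nat_lit 0) (XT.lf (nat_lit 0) (nat_lit 36035458096) (nat_lit 228) (nat_lit 10309852038) (nat_lit 304) (nat_lit 115546386964) (nat_lit 14) (nat_lit 5) (nat_lit 17) (nat_lit 5) (nat_lit 18) (nat_lit 5) (nat_lit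 229) (nat_lit 223) (nat_lit 148)) (XT.lf (nat_lit 0) (nat_lit 68992186506) (nat_lit 304) (nat_lit 55487861440) (nat_lit 76) (nat_lit 51696669572) (nat_lit 14) (nat_lit 5) (nat_lit 18) (nat_lit 5) (nat_lit 15) (nat_lit 5) (nat_lit 230) (nat_lit 223) (nat_lit 147))) (XT.nd (nat_lit 78) (nat_lit 0) (nat_lit 0) (XT.lf (nat_lit 0) (nat_lit 27381987837) (nat_lit 152) (nat_lit 69278413376) (nat_lit 228) (nat_lit 95700447364) (nat_lit 12) (nat_lit 5) (nat_lit 14) (nat_lit 5) (nat_lit 15) (nat_lit 5) (nat_lit 231) (nat_lit 223) (nat_lit 146)) (XT.lf (nat_lit 0) (nat_lit 128917846059) (nat_lit 152) (nat_lit 2461074133) (nat_lit 228) (nat_lit 79158671424) (nat_lit 12) (nat_lit 5) (nat_lit 14) (nat_lit 5) (nat_lit 15) (nat_lit 5) (nat_lit 232) (nat_lit 223) (nat_lit 145))))))))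
noncomputable def xc76 : XT := (XT.nd (nat_lit 1248) (nat_lit 152) (nat_lit 0) (XT.nd (nat_lit 624) (nat_lit 304) (nat_lit 0) (XT.nd (nat_lit 312) (nat_lit 76) (nat_lit 0) (XT.nd (nat_lit 156) (nat_lit 228) (nat_lit 0) (XT.nd (nat_lit 78) (nat_lit 0) (nat_lit 0) (XT.lf (nat_lit 0) (nat_lit 12253749635) (nat_lit 76) (nat_lit 162638361293) (nat_lit 152) (nat_lit 56010703822) (nat_lit 11) (nat_lit 5) (nat_lit 12) (nat_lit 5) (nat_lit 13) (nat_lit 4) (nat_lit 233) (nat_lit 223) (nat_lit 144)) (XT.lf (nat_lit 0) (nat_lit 129252062006) (nat_lit 76) (nat_lit 100058222344) (nat_lit 152) (nat_lit 24355838764) (nat_lit 11) (nat_lit 5) (nat_lit 12) (nat_lit 5) (nat_lit 13) (nat_lit 4) (nat_lit 234) (nat_lit 223) (nat_lit 143))) (XT.nd (nat_lit 78) (nat_lit 152) (nat_lit 0) (XT.lf (nat_lit 0) (nat_lit 10974405630) (nat_lit 152) (nat_lit 16543131174) (nat_lit 76) (nat_lit 252251613099) (nat_lit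 10) (nat_lit 5) (nat_lit 12) (nat_lit 5) (nat_lit 11) (nat_lit 5) (nat_lit 235) (nat_lit 223) (nat_lit 142)) (XT.lf (nat_lit 0) (nat_lit 56544634284) (nat_lit 228) (nat_lit 194747545572) (nat_lit 76) (nat_lit 57206378900) (nat_lit 8) (nat_lit 5) (nat_lit 11) (nat_lit 5) (nat_lit 9) (nat_lit 4) (nat_lit 236) (nat_lit 223) (nat_lit 141)))) (XT.nd (nat_lit 156) (nat_lit 0) (nat_lit 0) (XT.nd (nat_lit 78) (nat_lit 76) (nat_lit 0) (XT.lf (nat_lit 0) (nat_lit 111166425408) (nat_lit 228) (nat_lit 77311129465) (nat_lit 76) (nat_lit 152727421193) (nat_lit 8) (nat_lit 5) (nat_lit 11) (nat_lit 5) (nat_lit 9) (nat_lit 4) (nat_lit 237) (nat_lit 223) (nat_lit 140)) (XT.lf (nat_lit 0) (nat_lit 63383186841) (nat_lit 76) (nat_lit 113222631312) (nat_lit 152) (nat_lit 201817889054) (nat_lit 7) (nat_lit 5) (nat_lit 8) (nat_lit 5) (nat_lit 9) (nat_lit 4) (nat_lit 238) (nat_lit 223) (nat_lit 139))) (XT.nd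 (nat_lit 78) (nat_lit 0) (nat_lit 0) (XT.lf (nat_lit 0) (nat_lit 233870012392) (nat_lit 76) (nat_lit 22032156612) (nat_lit 152) (nat_lit 164716922662) (nat_lit 7) (nat_lit 5) (nat_lit 8) (nat_lit 5) (nat_lit 9) (nat_lit 4) (nat_lit 239) (nat_lit 223) (nat_lit 138)) (XT.lf (nat_lit 0) (nat_lit 350522879932) (nat_lit 152) (nat_lit 42644353366) (nat_lit 0) (nat_lit 75462065268) (nat_lit 7) (nat_lit 5) (nat_lit 9) (nat_lit 4) (nat_lit 7) (nat_lit 4) (nat_lit 240) (nat_lit 223) (nat_lit 137))))) (XT.nd (nat_lit 312) (nat_lit 76) (nat_lit 0) (XT.nd (nat_lit 156) (nat_lit 76) (nat_lit 0) (XT.nd (nat_lit 78) (nat_lit 76) (nat_lit 0) (XT.lf (nat_lit 0) (nat_lit 133951972985) (nat_lit 76) (nat_lit 331980373865) (nat_lit 76) (nat_lit 56919343024) (nat_lit 6) (nat_lit 4) (nat_lit 7) (nat_lit 5) (nat_lit 7) (nat_lit 4) (nat_lit 241) (nat_lit 223) (nat_lit 136)) (XT.lf (nat_lit 0) (nat_lit 14583878121)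 (nat_lit 152) (nat_lit 243705880859) (nat_lit 76) (nat_lit 326483898973) (nat_lit 5) (nat_lit 5) (nat_lit 7) (nat_lit 5) (nat_lit 6) (nat_lit 4) (nat_lit 242) (nat_lit 223) (nat_lit 135))) (XT.nd (nat_lit 78) (nat_lit 76) (nat_lit 0) (XT.lf (nat_lit 0) (nat_lit 90984983049) (nat_lit 152) (nat_lit 79443668726) (nat_lit 76) (nat_lit 485148724670) (nat_lit 5) (nat_lit 5) (nat_lit 7) (nat_lit 5) (nat_lit 6) (nat_lit 4) (nat_lit 243) (nat_lit 223) (nat_lit 134)) (XT.lf (nat_lit 0) (nat_lit 120154652017) (nat_lit 76) (nat_lit 63666825396) (nat_lit 152) (nat_lit 552433892184) (nat_lit 4) (nat_lit 5) (nat_lit 5) (nat_lit 5) (nat_lit 6) (nat_lit 4) (nat_lit 244) (nat_lit 223) (nat_lit 133)))) (XT.nd (nat_lit 156) (nat_lit 76) (nat_lit 0) (XT.nd (nat_lit 78) (nat_lit 0) (nat_lit 0) (XT.lf (nat_lit 0) (nat_lit 297381400916) (nat_lit 152) (nat_lit 472436608788) (nat_lit 0) (nat_lit 58197359157)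 (nat_lit 4) (nat_lit 5) (nat_lit 6) (nat_lit 4) (nat_lit 4) (nat_lit 4) (nat_lit 245) (nat_lit 223) (nat_lit 132)) (XT.lf (nat_lit 0) (nat_lit 431006961610) (nat_lit 152) (nat_lit 310254833048) (nat_lit 0) (nat_lit 191822826391) (nat_lit 4) (nat_lit 5) (nat_lit 6) (nat_lit 4) (nat_lit 4) (nat_lit 4) (nat_lit 246) (nat_lit 223) (nat_lit 131))) (XT.nd (nat_lit 78) (nat_lit 76) (nat_lit 0) (XT.lf (nat_lit 0) (nat_lit 584676265170) (nat_lit 152) (nat_lit 123745961190) (nat_lit 0) (nat_lit 345492048682) (nat_lit 4) (nat_lit 5) (nat_lit 6) (nat_lit 4) (nat_lit 4) (nat_lit 4) (nat_lit 247) (nat_lit 223) (nat_lit 130)) (XT.lf (nat_lit 0) (nat_lit 99606777535) (nat_lit 76) (nat_lit 665913611637) (nat_lit 76) (nat_lit 426729324480) (nat_lit 3) (nat_lit 4) (nat_lit 4) (nat_lit 5) (nat_lit 4) (nat_lit 4) (nat_lit 248) (nat_lit 223) (nat_lit 129)))))) (XT.nd (nat_lit 624) (nat_lit 0) (nat_lit 0)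 (XT.nd (nat_lit 312) (nat_lit 152) (nat_lit 0) (XT.nd (nat_lit 156) (nat_lit 0) (nat_lit 0) (XT.nd (nat_lit 78) (nat_lit 0) (nat_lit 0) (XT.lf (nat_lit 0) (nat_lit 370369644354) (nat_lit 76) (nat_lit 609589951461) (nat_lit 76) (nat_lit 370405602853) (nat_lit 3) (nat_lit 4) (nat_lit 4) (nat_lit 5) (nat_lit 4) (nat_lit 4) (nat_lit 249) (nat_lit 223) (nat_lit 128)) (XT.lf (nat_lit 0) (nat_lit 681746818317) (nat_lit 76) (nat_lit 544817800057) (nat_lit 76) (nat_lit 305633398013) (nat_lit 3) (nat_lit 4) (nat_lit 4) (nat_lit 5) (nat_lit 4) (nat_lit 4) (nat_lit 250) (nat_lit 223) (nat_lit 127))) (XT.nd (nat_lit 78) (nat_lit 0) (nat_lit 0) (XT.lf (nat_lit 0) (nat_lit 1039830461525) (nat_lit 76) (nat_lit 470329876203) (nat_lit 76) (nat_lit 231145427693) (nat_lit 3) (nat_lit 4) (nat_lit 4) (nat_lit 5) (nat_lit 4) (nat_lit 4) (nat_lit 251) (nat_lit 223) (nat_lit 126)) (XT.lf (nat_lit 0) (nat_lit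 1451626558302) (nat_lit 76) (nat_lit 384668807475) (nat_lit 76) (nat_lit 145484318560) (nat_lit 3) (nat_lit 4) (nat_lit 4) (nat_lit 5) (nat_lit 4) (nat_lit 4) (nat_lit 252) (nat_lit 223) (nat_lit 125)))) (XT.nd (nat_lit 156) (nat_lit 76) (nat_lit 0) (XT.nd (nat_lit 78) (nat_lit 76) (nat_lit 0) (XT.lf (nat_lit 0) (nat_lit 1925191988800) (nat_lit 76) (nat_lit 286158616441) (nat_lit 76) (nat_lit 46974092391) (nat_lit 3) (nat_lit 4) (nat_lit 4) (nat_lit 5) (nat_lit 4) (nat_lit 4) (nat_lit 253) (nat_lit 223) (nat_lit 124)) (XT.lf (nat_lit 0) (nat_lit 60409016383) (nat_lit 152) (nat_lit 109305169378) (nat_lit 76) (nat_lit 2406225403197) (nat_lit 2) (nat_lit 5) (nat_lit 4) (nat_lit 5) (nat_lit 3) (nat_lit 4) (nat_lit 254) (nat_lit 223) (nat_lit 123))) (XT.nd (nat_lit 78) (nat_lit 0) (nat_lit 0) (XT.lf (nat_lit 0) (nat_lit 160114033418) (nat_lit 76) (nat_lit 25606252436) (nat_lit 152) (nat_lit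 2754146406974) (nat_lit 1) (nat_lit 5) (nat_lit 2) (nat_lit 5) (nat_lit 3) (nat_lit 4) (nat_lit 255) (nat_lit 223) (nat_lit 122)) (XT.lf (nat_lit 0) (nat_lit 341615953933) (nat_lit 152) (nat_lit 2881369410665) (nat_lit 0) (nat_lit 133629341524) (nat_lit 1) (nat_lit 5) (nat_lit 3) (nat_lit 4) (nat_lit 1) (nat_lit 4) (nat_lit 256) (nat_lit 223) (nat_lit 121))))) (XT.nd (nat_lit 312) (nat_lit 0) (nat_lit 0) (XT.nd (nat_lit 156) (nat_lit 0) (nat_lit 0) (XT.nd (nat_lit 78) (nat_lit 0) (nat_lit 0) (XT.lf (nat_lit 0) (nat_lit 522115288605) (nat_lit 152) (nat_lit 2999448076684) (nat_lit 0) (nat_lit 314128658727) (nat_lit 1) (nat_lit 5) (nat_lit 3) (nat_lit 4) (nat_lit 1) (nat_lit 4) (nat_lit 257) (nat_lit 223) (nat_lit 120)) (XT.lf (nat_lit 0) (nat_lit 729689498282) (nat_lit 152) (nat_lit 3135238591931) (nat_lit 0) (nat_lit 521702853215) (nat_lit 1) (nat_lit 5) (nat_lit 3) (nat_lit 4) (nat_lit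 1) (nat_lit 4) (nat_lit 258) (nat_lit 223) (nat_lit 119))) (XT.nd (nat_lit 78) (nat_lit 0) (nat_lit 0) (XT.lf (nat_lit 0) (nat_lit 968399817503) (nat_lit 152) (nat_lit 3291397727355) (nat_lit 0) (nat_lit 760413159227) (nat_lit 1) (nat_lit 5) (nat_lit 3) (nat_lit 4) (nat_lit 1) (nat_lit 4) (nat_lit 259) (nat_lit 223) (nat_lit 118)) (XT.lf (nat_lit 0) (nat_lit 1242916665556) (nat_lit 152) (nat_lit 3470980770389) (nat_lit 0) (nat_lit 1034929995795) (nat_lit 1) (nat_lit 5) (nat_lit 3) (nat_lit 4) (nat_lit 1) (nat_lit 4) (nat_lit 260) (nat_lit 223) (nat_lit 117)))) (XT.nd (nat_lit 156) (nat_lit 0) (nat_lit 0) (XT.nd (nat_lit 78) (nat_lit 0) (nat_lit 0) (XT.lf (nat_lit 0) (nat_lit 1558611024252) (nat_lit 152) (nat_lit 3677501302310) (nat_lit 0) (nat_lit 1350624344503) (nat_lit 1) (nat_lit 5) (nat_lit 3) (nat_lit 4) (nat_lit 1) (nat_lit 4) (nat_lit 261) (nat_lit 223) (nat_lit 116)) (XT.lf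 (nat_lit 0) (nat_lit 1921659522346) (nat_lit 152) (nat_lit 3914999942219) (nat_lit 0) (nat_lit 1713672833912) (nat_lit 1) (nat_lit 5) (nat_lit 3) (nat_lit 4) (nat_lit 1) (nat_lit 4) (nat_lit 262) (nat_lit 223) (nat_lit 115))) (XT.nd (nat_lit 78) (nat_lit 0) (nat_lit 0) (XT.lf (nat_lit 0) (nat_lit 2339165282629) (nat_lit 152) (nat_lit 4188123402638) (nat_lit 0) (nat_lit 2131178586643) (nat_lit 1) (nat_lit 5) (nat_lit 3) (nat_lit 4) (nat_lit 1) (nat_lit 4) (nat_lit 263) (nat_lit 223) (nat_lit 114)) (XT.lf (nat_lit 0) (nat_lit 2819296896062) (nat_lit 152) (nat_lit 4502215403444) (nat_lit 0) (nat_lit 2611310193509) (nat_lit 1) (nat_lit 5) (nat_lit 3) (nat_lit 4) (nat_lit 1) (nat_lit 4) (nat_lit 264) (nat_lit 223) (nat_lit 113)))))))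
noncomputable def xc77 : XT := (XT.nd (nat_lit 28704) (nat_lit 0) (nat_lit 228) (XT.nd (nat_lit 28080) (nat_lit 0) (nat_lit 988) (XT.nd (nat_lit 312) (nat_lit 0) (nat_lit 0) (XT.nd (nat_lit 156) (nat_lit 0) (nat_lit 0) (XT.nd (nat_lit 78) (nat_lit 0) (nat_lit 0) (XT.lf (nat_lit 0) (nat_lit 3371448242038) (nat_lit 152) (nat_lit 4863421222913) (nat_lit 0) (nat_lit 3163461533775) (nat_lit 1) (nat_lit 5) (nat_lit 3) (nat_lit 4) (nat_lit 1) (nat_lit 4) (nat_lit 265) (nat_lit 223) (nat_lit 112)) (XT.lf (nat_lit 0) (nat_lit 4006422281674) (nat_lit 152) (nat_lit 5278807931427) (nat_lit 0) (nat_lit 3798435568445) (nat_lit 1) (nat_lit 5) (nat_lit 3) (nat_lit 4) (nat_lit 1) (nat_lit 4) (nat_lit 266) (nat_lit 223) (nat_lit 111))) (XT.nd (nat_lit 78) (nat_lit 0) (nat_lit 0) (XT.lf (nat_lit 0) (nat_lit 4736642420094) (nat_lit 152) (nat_lit 5756502660239) (nat_lit 0) (nat_lit 4528655702548) (nat_lit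 1) (nat_lit 5) (nat_lit 3) (nat_lit 4) (nat_lit 1) (nat_lit 4) (nat_lit 267) (nat_lit 223) (nat_lit 110)) (XT.lf (nat_lit 0) (nat_lit 5576395573049) (nat_lit 152) (nat_lit 6305851610565) (nat_lit 0) (nat_lit 5368408851748) (nat_lit 1) (nat_lit 5) (nat_lit 3) (nat_lit 4) (nat_lit 1) (nat_lit 4) (nat_lit 268) (nat_lit 223) (nat_lit 109)))) (XT.nd (nat_lit 390) (nat_lit 0) (nat_lit 0) (XT.nd (nat_lit 312) (nat_lit 0) (nat_lit 0) (XT.lf (nat_lit 0) (nat_lit 6542111693533) (nat_lit 152) (nat_lit 6937602914042) (nat_lit 0) (nat_lit 6334124968966) (nat_lit 1) (nat_lit 5) (nat_lit 3) (nat_lit 4) (nat_lit 1) (nat_lit 4) (nat_lit 269) (nat_lit 223) (nat_lit 108)) (XT.lf (nat_lit 0) (nat_lit 12087621788133) (nat_lit 152) (nat_lit 10565359848710) (nat_lit 0) (nat_lit 11879635054245) (nat_lit 1) (nat_lit 5) (nat_lit 3) (nat_lit 4) (nat_lit 1) (nat_lit 4) (nat_lit 273) (nat_lit 223) (nat_lit 104)))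 (XT.nd (nat_lit 78) (nat_lit 0) (nat_lit 0) (XT.lf (nat_lit 0) (nat_lit 14030021822725) (nat_lit 152) (nat_lit 11836037423448) (nat_lit 0) (nat_lit 13822035087214) (nat_lit 1) (nat_lit 5) (nat_lit 3) (nat_lit 4) (nat_lit 1) (nat_lit 4) (nat_lit 274) (nat_lit 223) (nat_lit 103)) (XT.lf (nat_lit 0) (nat_lit 16263781860165) (nat_lit 152) (nat_lit 13297316638979) (nat_lit 0) (nat_lit 16055795123243) (nat_lit 1) (nat_lit 5) (nat_lit 3) (nat_lit 4) (nat_lit 1) (nat_lit 4) (nat_lit 275) (nat_lit 223) (nat_lit 102))))) (XT.nd (nat_lit 312) (nat_lit 152) (nat_lit 0) (XT.nd (nat_lit 156) (nat_lit 304) (nat_lit 0) (XT.nd (nat_lit 78) (nat_lit 0) (nat_lit 0) (XT.lf (nat_lit 0) (nat_lit 29294626422) (nat_lit 0) (nat_lit 29294626422) (nat_lit 228) (nat_lit 20977630) (nat_lit 20) (nat_lit 5) (nat_lit 20) (nat_lit 3) (nat_lit 23) (nat_lit 3) (nat_lit 224) (nat_lit 224) (nat_lit 152)) (XT.lf (nat_lit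 0) (nat_lit 117860811291) (nat_lit 0) (nat_lit 8110064697) (nat_lit 228) (nat_lit 40481465) (nat_lit 20) (nat_lit 5) (nat_lit 20) (nat_lit 3) (nat_lit 23) (nat_lit 3) (nat_lit 225) (nat_lit 224) (nat_lit 151))) (XT.nd (nat_lit 78) (nat_lit 0) (nat_lit 0) (XT.lf (nat_lit 0) (nat_lit 4408155728) (nat_lit 304) (nat_lit 83176591672) (nat_lit 380) (nat_lit 47869864855) (nat_lit 16) (nat_lit 5) (nat_lit 20) (nat_lit 5) (nat_lit 21) (nat_lit 5) (nat_lit 226) (nat_lit 224) (nat_lit 150)) (XT.lf (nat_lit 0) (nat_lit 10351818649) (nat_lit 304) (nat_lit 23972505098) (nat_lit 380) (nat_lit 111864966657) (nat_lit 16) (nat_lit 5) (nat_lit 20) (nat_lit 5) (nat_lit 21) (nat_lit 5) (nat_lit 227) (nat_lit 224) (nat_lit 149)))) (XT.nd (nat_lit 156) (nat_lit 228) (nat_lit 0) (XT.nd (nat_lit 78) (nat_lit 0) (nat_lit 0) (XT.lf (nat_lit 0) (nat_lit 20401935473) (nat_lit 304) (nat_lit 111021244885) (nat_lit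 76) (nat_lit 26628759013) (nat_lit 17) (nat_lit 5) (nat_lit 21) (nat_lit 5) (nat_lit 18) (nat_lit 5) (nat_lit 228) (nat_lit 224) (nat_lit 148)) (XT.lf (nat_lit 0) (nat_lit 34906328577) (nat_lit 304) (nat_lit 41822151368) (nat_lit 76) (nat_lit 94523496069) (nat_lit 17) (nat_lit 5) (nat_lit 21) (nat_lit 5) (nat_lit 18) (nat_lit 5) (nat_lit 229) (nat_lit 224) (nat_lit 147))) (XT.nd (nat_lit 78) (nat_lit 0) (nat_lit 0) (XT.lf (nat_lit 0) (nat_lit 41446174566) (nat_lit 228) (nat_lit 11855957792) (nat_lit 304) (nat_lit 132872526642) (nat_lit 14) (nat_lit 5) (nat_lit 17) (nat_lit 5) (nat_lit 18) (nat_lit 5) (nat_lit 230) (nat_lit 224) (nat_lit 146)) (XT.lf (nat_lit 0) (nat_lit 79345398057) (nat_lit 304) (nat_lit 63805671082) (nat_lit 76) (nat_lit 59451464729) (nat_lit 14) (nat_lit 5) (nat_lit 18) (nat_lit 5) (nat_lit 15) (nat_lit 5) (nat_lit 231) (nat_lit 224) (nat_lit 145)))))) (XT.nd (nat_lit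 624) (nat_lit 228) (nat_lit 0) (XT.nd (nat_lit 312) (nat_lit 304) (nat_lit 0) (XT.nd (nat_lit 156) (nat_lit 76) (nat_lit 0) (XT.nd (nat_lit 78) (nat_lit 0) (nat_lit 0) (XT.lf (nat_lit 0) (nat_lit 31494411516) (nat_lit 152) (nat_lit 79669073919) (nat_lit 228) (nat_lit 110050857480) (nat_lit 12) (nat_lit 5) (nat_lit 14) (nat_lit 5) (nat_lit 15) (nat_lit 5) (nat_lit 232) (nat_lit 224) (nat_lit 144)) (XT.lf (nat_lit 0) (nat_lit 148259979927) (nat_lit 152) (nat_lit 2829277460) (nat_lit 228) (nat_lit 91028422582) (nat_lit 12) (nat_lit 5) (nat_lit 14) (nat_lit 5) (nat_lit 15) (nat_lit 5) (nat_lit 233) (nat_lit 224) (nat_lit 143))) (XT.nd (nat_lit 78) (nat_lit 0) (nat_lit 0) (XT.lf (nat_lit 0) (nat_lit 14096553965) (nat_lit 76) (nat_lit 187032647194) (nat_lit 152) (nat_lit 64408522579) (nat_lit 11) (nat_lit 5) (nat_lit 12) (nat_lit 5) (nat_lit 13) (nat_lit 4) (nat_lit 234) (nat_lit 224) (nat_lit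 142)) (XT.lf (nat_lit 0) (nat_lit 148643994685) (nat_lit 76) (nat_lit 115065678919) (nat_lit 152) (nat_lit 28005921694) (nat_lit 11) (nat_lit 5) (nat_lit 12) (nat_lit 5) (nat_lit 13) (nat_lit 4) (nat_lit 235) (nat_lit 224) (nat_lit 141)))) (XT.nd (nat_lit 156) (nat_lit 76) (nat_lit 0) (XT.nd (nat_lit 78) (nat_lit 152) (nat_lit 0) (XT.lf (nat_lit 0) (nat_lit 12623174934) (nat_lit 152) (nat_lit 19020745798) (nat_lit 76) (nat_lit 290090195799) (nat_lit 10) (nat_lit 5) (nat_lit 12) (nat_lit 5) (nat_lit 11) (nat_lit 5) (nat_lit 236) (nat_lit 224) (nat_lit 140)) (XT.lf (nat_lit 0) (nat_lit 65028802168) (nat_lit 228) (nat_lit 223955673952) (nat_lit 76) (nat_lit 65788482853) (nat_lit 8) (nat_lit 5) (nat_lit 11) (nat_lit 5) (nat_lit 9) (nat_lit 4) (nat_lit 237) (nat_lit 224) (nat_lit 139))) (XT.nd (nat_lit 78) (nat_lit 76) (nat_lit 0) (XT.lf (nat_lit 0) (nat_lit 127843539429) (nat_lit 228)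 (nat_lit 88904317618) (nat_lit 76) (nat_lit 175637531866) (nat_lit 8) (nat_lit 5) (nat_lit 11) (nat_lit 5) (nat_lit 9) (nat_lit 4) (nat_lit 238) (nat_lit 224) (nat_lit 138)) (XT.lf (nat_lit 0) (nat_lit 72893987894) (nat_lit 76) (nat_lit 130204710329) (nat_lit 152) (nat_lit 232088254371) (nat_lit 7) (nat_lit 5) (nat_lit 8) (nat_lit 5) (nat_lit 9) (nat_lit 4) (nat_lit 239) (nat_lit 224) (nat_lit 137))))) (XT.nd (nat_lit 312) (nat_lit 76) (nat_lit 0) (XT.nd (nat_lit 156) (nat_lit 152) (nat_lit 0) (XT.nd (nat_lit 78) (nat_lit 0) (nat_lit 0) (XT.lf (nat_lit 0) (nat_lit 268953403839) (nat_lit 76) (nat_lit 25335836035) (nat_lit 152) (nat_lit 189422445373) (nat_lit 7) (nat_lit 5) (nat_lit 8) (nat_lit 5) (nat_lit 9) (nat_lit 4) (nat_lit 240) (nat_lit 224) (nat_lit 136)) (XT.lf (nat_lit 0) (nat_lit 403102870959) (nat_lit 152) (nat_lit 49038299951) (nat_lit 0) (nat_lit 86782281334) (nat_lit 7)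 (nat_lit 5) (nat_lit 9) (nat_lit 4) (nat_lit 7) (nat_lit 4) (nat_lit 241) (nat_lit 224) (nat_lit 135))) (XT.nd (nat_lit 78) (nat_lit 76) (nat_lit 0) (XT.lf (nat_lit 0) (nat_lit 154047352334) (nat_lit 76) (nat_lit 381776309201) (nat_lit 76) (nat_lit 65455556115) (nat_lit 6) (nat_lit 4) (nat_lit 7) (nat_lit 5) (nat_lit 7) (nat_lit 4) (nat_lit 242) (nat_lit 224) (nat_lit 134)) (XT.lf (nat_lit 0) (nat_lit 16772797277) (nat_lit 152) (nat_lit 280259381079) (nat_lit 76) (nat_lit 375457322906) (nat_lit 5) (nat_lit 5) (nat_lit 7) (nat_lit 5) (nat_lit 6) (nat_lit 4) (nat_lit 243) (nat_lit 224) (nat_lit 133)))) (XT.nd (nat_lit 156) (nat_lit 0) (nat_lit 0) (XT.nd (nat_lit 78) (nat_lit 76) (nat_lit 0) (XT.lf (nat_lit 0) (nat_lit 104633893496) (nat_lit 152) (nat_lit 91358147810) (nat_lit 76) (nat_lit 557921763011) (nat_lit 5) (nat_lit 5) (nat_lit 7) (nat_lit 5) (nat_lit 6) (nat_lit 4) (nat_lit 244)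 (nat_lit 224) (nat_lit 132)) (XT.lf (nat_lit 0) (nat_lit 138179826899) (nat_lit 76) (nat_lit 73215965289) (nat_lit 152) (nat_lit 635297715270) (nat_lit 4) (nat_lit 5) (nat_lit 5) (nat_lit 5) (nat_lit 6) (nat_lit 4) (nat_lit 245) (nat_lit 224) (nat_lit 131))) (XT.nd (nat_lit 78) (nat_lit 0) (nat_lit 0) (XT.lf (nat_lit 0) (nat_lit 341989593456) (nat_lit 152) (nat_lit 543300267013) (nat_lit 0) (nat_lit 66927663226) (nat_lit 4) (nat_lit 5) (nat_lit 6) (nat_lit 4) (nat_lit 4) (nat_lit 4) (nat_lit 246) (nat_lit 224) (nat_lit 130)) (XT.nd (nat_lit 78) (nat_lit 0) (nat_lit 0) (XT.lf (nat_lit 0) (nat_lit 495658860115) (nat_lit 152) (nat_lit 356791464011) (nat_lit 0) (nat_lit 220596859216) (nat_lit 4) (nat_lit 5) (nat_lit 6) (nat_lit 4) (nat_lit 4) (nat_lit 4) (nat_lit 247) (nat_lit 224) (nat_lit 129)) (XT.lf (nat_lit 0) (nat_lit 672378447783) (nat_lit 152) (nat_lit 142306469287) (nat_lit 0)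 (nat_lit 397316385433) (nat_lit 4) (nat_lit 5) (nat_lit 6) (nat_lit 4) (nat_lit 4) (nat_lit 4) (nat_lit 248) (nat_lit 224) (nat_lit 128))))))))
noncomputable def xc78 : XT := (XT.nd (nat_lit 30030) (nat_lit 0) (nat_lit 0) (XT.nd (nat_lit 1248) (nat_lit 0) (nat_lit 0) (XT.nd (nat_lit 624) (nat_lit 0) (nat_lit 0) (XT.nd (nat_lit 312) (nat_lit 152) (nat_lit 0) (XT.nd (nat_lit 156) (nat_lit 0) (nat_lit 0) (XT.nd (nat_lit 78) (nat_lit 0) (nat_lit 0) (XT.lf (nat_lit 0) (nat_lit 114549117244) (nat_lit 76) (nat_lit 765800031036) (nat_lit 76) (nat_lit 490737915250) (nat_lit 3) (nat_lit 4) (nat_lit 4) (nat_lit 5) (nat_lit 4) (nat_lit 4) (nat_lit 249) (nat_lit 224) (nat_lit 127)) (XT.lf (nat_lit 0) (nat_lit 425926241510) (nat_lit 76) (nat_lit 701027903009) (nat_lit 76) (nat_lit 425965740757) (nat_lit 3) (nat_lit 4) (nat_lit 4) (nat_lit 5) (nat_lit 4) (nat_lit 4) (nat_lit 250) (nat_lit 224) (nat_lit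 126))) (XT.nd (nat_lit 78) (nat_lit 0) (nat_lit 0) (XT.lf (nat_lit 0) (nat_lit 784009841502) (nat_lit 76) (nat_lit 626539999482) (nat_lit 76) (nat_lit 351477796825) (nat_lit 3) (nat_lit 4) (nat_lit 4) (nat_lit 5) (nat_lit 4) (nat_lit 4) (nat_lit 251) (nat_lit 224) (nat_lit 125)) (XT.lf (nat_lit 0) (nat_lit 1195805900700) (nat_lit 76) (nat_lit 540878948430) (nat_lit 76) (nat_lit 265816710638) (nat_lit 3) (nat_lit 4) (nat_lit 4) (nat_lit 5) (nat_lit 4) (nat_lit 4) (nat_lit 252) (nat_lit 224) (nat_lit 124)))) (XT.nd (nat_lit 156) (nat_lit 152) (nat_lit 0) (XT.nd (nat_lit 78) (nat_lit 0) (nat_lit 0) (XT.lf (nat_lit 0) (nat_lit 1669371298521) (nat_lit 76) (nat_lit 442368772767) (nat_lit 76) (nat_lit 167306504423) (nat_lit 3) (nat_lit 4) (nat_lit 4) (nat_lit 5) (nat_lit 4) (nat_lit 4) (nat_lit 253) (nat_lit 224) (nat_lit 123)) (XT.lf (nat_lit 0) (nat_lit 2213971444924) (nat_lit 76) (nat_lit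 329082099491) (nat_lit 76) (nat_lit 54019804579) (nat_lit 3) (nat_lit 4) (nat_lit 4) (nat_lit 5) (nat_lit 4) (nat_lit 4) (nat_lit 254) (nat_lit 224) (nat_lit 122))) (XT.nd (nat_lit 78) (nat_lit 76) (nat_lit 0) (XT.lf (nat_lit 0) (nat_lit 69470687023) (nat_lit 152) (nat_lit 125700340911) (nat_lit 76) (nat_lit 2767159450864) (nat_lit 2) (nat_lit 5) (nat_lit 4) (nat_lit 5) (nat_lit 3) (nat_lit 4) (nat_lit 255) (nat_lit 224) (nat_lit 121)) (XT.lf (nat_lit 0) (nat_lit 184131714855) (nat_lit 76) (nat_lit 29446914426) (nat_lit 152) (nat_lit 3167268021713) (nat_lit 1) (nat_lit 5) (nat_lit 2) (nat_lit 5) (nat_lit 3) (nat_lit 4) (nat_lit 256) (nat_lit 224) (nat_lit 120))))) (XT.nd (nat_lit 312) (nat_lit 0) (nat_lit 0) (XT.nd (nat_lit 156) (nat_lit 0) (nat_lit 0) (XT.nd (nat_lit 78) (nat_lit 0) (nat_lit 0) (XT.lf (nat_lit 0) (nat_lit 392858618304) (nat_lit 152) (nat_lit 3313574291171) (nat_lit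 0) (nat_lit 153673961287) (nat_lit 1) (nat_lit 5) (nat_lit 3) (nat_lit 4) (nat_lit 1) (nat_lit 4) (nat_lit 257) (nat_lit 224) (nat_lit 119)) (XT.lf (nat_lit 0) (nat_lit 600432817792) (nat_lit 152) (nat_lit 3449364826366) (nat_lit 0) (nat_lit 361248147566) (nat_lit 1) (nat_lit 5) (nat_lit 3) (nat_lit 4) (nat_lit 1) (nat_lit 4) (nat_lit 258) (nat_lit 224) (nat_lit 118))) (XT.nd (nat_lit 78) (nat_lit 0) (nat_lit 0) (XT.lf (nat_lit 0) (nat_lit 839143128152) (nat_lit 152) (nat_lit 3605523979138) (nat_lit 0) (nat_lit 599958446441) (nat_lit 1) (nat_lit 5) (nat_lit 3) (nat_lit 4) (nat_lit 1) (nat_lit 4) (nat_lit 259) (nat_lit 224) (nat_lit 117)) (XT.lf (nat_lit 0) (nat_lit 1113659968500) (nat_lit 152) (nat_lit 3785107037256) (nat_lit 0) (nat_lit 874475276801) (nat_lit 1) (nat_lit 5) (nat_lit 3) (nat_lit 4) (nat_lit 1) (nat_lit 4) (nat_lit 260) (nat_lit 224) (nat_lit 116)))) (XT.nd (nat_lit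 156) (nat_lit 0) (nat_lit 0) (XT.nd (nat_lit 78) (nat_lit 0) (nat_lit 0) (XT.lf (nat_lit 0) (nat_lit 1429354320495) (nat_lit 152) (nat_lit 3991627582293) (nat_lit 0) (nat_lit 1190169620112) (nat_lit 1) (nat_lit 5) (nat_lit 3) (nat_lit 4) (nat_lit 1) (nat_lit 4) (nat_lit 261) (nat_lit 224) (nat_lit 115)) (XT.lf (nat_lit 0) (nat_lit 1792402812764) (nat_lit 152) (nat_lit 4229126233609) (nat_lit 0) (nat_lit 1553218104828) (nat_lit 1) (nat_lit 5) (nat_lit 3) (nat_lit 4) (nat_lit 1) (nat_lit 4) (nat_lit 262) (nat_lit 224) (nat_lit 114))) (XT.nd (nat_lit 78) (nat_lit 0) (nat_lit 0) (XT.lf (nat_lit 0) (nat_lit 2209908567980) (nat_lit 152) (nat_lit 4502249703946) (nat_lit 0) (nat_lit 1970723853478) (nat_lit 1) (nat_lit 5) (nat_lit 3) (nat_lit 4) (nat_lit 1) (nat_lit 4) (nat_lit 263) (nat_lit 224) (nat_lit 113)) (XT.lf (nat_lit 0) (nat_lit 2690040177008) (nat_lit 152) (nat_lit 4816341713376)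 (nat_lit 0) (nat_lit 2450855456795) (nat_lit 1) (nat_lit 5) (nat_lit 3) (nat_lit 4) (nat_lit 1) (nat_lit 4) (nat_lit 264) (nat_lit 224) (nat_lit 112)))))) (XT.nd (nat_lit 28158) (nat_lit 0) (nat_lit 988) (XT.nd (nat_lit 312) (nat_lit 0) (nat_lit 0) (XT.nd (nat_lit 156) (nat_lit 0) (nat_lit 0) (XT.nd (nat_lit 78) (nat_lit 0) (nat_lit 0) (XT.lf (nat_lit 0) (nat_lit 3242191519153) (nat_lit 152) (nat_lit 5177547540345) (nat_lit 0) (nat_lit 3003006793975) (nat_lit 1) (nat_lit 5) (nat_lit 3) (nat_lit 4) (nat_lit 1) (nat_lit 4) (nat_lit 265) (nat_lit 224) (nat_lit 111)) (XT.lf (nat_lit 0) (nat_lit 3877165555458) (nat_lit 152) (nat_lit 5592934255380) (nat_lit 0) (nat_lit 3637980825962) (nat_lit 1) (nat_lit 5) (nat_lit 3) (nat_lit 4) (nat_lit 1) (nat_lit 4) (nat_lit 266) (nat_lit 224) (nat_lit 110))) (XT.nd (nat_lit 78) (nat_lit 0) (nat_lit 0) (XT.lf (nat_lit 0) (nat_lit 4607385690982) (nat_lit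 152) (nat_lit 6070628989863) (nat_lit 0) (nat_lit 4368200957731) (nat_lit 1) (nat_lit 5) (nat_lit 3) (nat_lit 4) (nat_lit 1) (nat_lit 4) (nat_lit 267) (nat_lit 224) (nat_lit 109)) (XT.lf (nat_lit 0) (nat_lit 5447138841418) (nat_lit 152) (nat_lit 6619977945120) (nat_lit 0) (nat_lit 5207954104902) (nat_lit 1) (nat_lit 5) (nat_lit 3) (nat_lit 4) (nat_lit 1) (nat_lit 4) (nat_lit 268) (nat_lit 224) (nat_lit 108)))) (XT.nd (nat_lit 1170) (nat_lit 0) (nat_lit 0) (XT.nd (nat_lit 1092) (nat_lit 0) (nat_lit 0) (XT.lf (nat_lit 0) (nat_lit 6412854959711) (nat_lit 152) (nat_lit 7251729252885) (nat_lit 0) (nat_lit 6173670220356) (nat_lit 1) (nat_lit 5) (nat_lit 3) (nat_lit 4) (nat_lit 1) (nat_lit 4) (nat_lit 269) (nat_lit 224) (nat_lit 107)) (XT.lf (nat_lit 0) (nat_lit 51396307928398) (nat_lit 152) (nat_lit 36678965898499) (nat_lit 0) (nat_lit 51157123172790) (nat_lit 1) (nat_lit 5) (nat_lit 3)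 (nat_lit 4) (nat_lit 1) (nat_lit 4) (nat_lit 283) (nat_lit 224) (nat_lit 93))) (XT.nd (nat_lit 78) (nat_lit 0) (nat_lit 0) (XT.lf (nat_lit 0) (nat_lit 59254399382202) (nat_lit 152) (nat_lit 41819565453177) (nat_lit 0) (nat_lit 59015214626246) (nat_lit 1) (nat_lit 5) (nat_lit 3) (nat_lit 4) (nat_lit 1) (nat_lit 4) (nat_lit 284) (nat_lit 224) (nat_lit 92)) (XT.lf (nat_lit 0) (nat_lit 68291204553574) (nat_lit 152) (nat_lit 47731254942042) (nat_lit 0) (nat_lit 68052019797314) (nat_lit 1) (nat_lit 5) (nat_lit 3) (nat_lit 4) (nat_lit 1) (nat_lit 4) (nat_lit 285) (nat_lit 224) (nat_lit 91))))) (XT.nd (nat_lit 312) (nat_lit 152) (nat_lit 0) (XT.nd (nat_lit 156) (nat_lit 304) (nat_lit 0) (XT.nd (nat_lit 78) (nat_lit 0) (nat_lit 0) (XT.lf (nat_lit 0) (nat_lit 33690729121) (nat_lit 0) (nat_lit 33690729121) (nat_lit 228) (nat_lit 19695157) (nat_lit 20) (nat_lit 5) (nat_lit 20) (nat_lit 3) (nat_lit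 23) (nat_lit 3) (nat_lit 225) (nat_lit 225) (nat_lit 150)) (XT.lf (nat_lit 0) (nat_lit 135543252526) (nat_lit 0) (nat_lit 9329893943) (nat_lit 228) (nat_lit 38850871) (nat_lit 20) (nat_lit 5) (nat_lit 20) (nat_lit 3) (nat_lit 23) (nat_lit 3) (nat_lit 226) (nat_lit 225) (nat_lit 149))) (XT.nd (nat_lit 78) (nat_lit 0) (nat_lit 0) (XT.lf (nat_lit 0) (nat_lit 5075542851) (nat_lit 304) (nat_lit 95648111495) (nat_lit 380) (nat_lit 55048173864) (nat_lit 16) (nat_lit 5) (nat_lit 20) (nat_lit 5) (nat_lit 21) (nat_lit 5) (nat_lit 227) (nat_lit 225) (nat_lit 148)) (XT.lf (nat_lit 0) (nat_lit 11909951241) (nat_lit 304) (nat_lit 27564060056) (nat_lit 380) (nat_lit 128642824073) (nat_lit 16) (nat_lit 5) (nat_lit 20) (nat_lit 5) (nat_lit 21) (nat_lit 5) (nat_lit 228) (nat_lit 225) (nat_lit 147)))) (XT.nd (nat_lit 156) (nat_lit 228) (nat_lit 0) (XT.nd (nat_lit 78) (nat_lit 0) (nat_lit 0) (XT.lf (nat_lit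 0) (nat_lit 23467027990) (nat_lit 304) (nat_lit 127669514407) (nat_lit 76) (nat_lit 30622428746) (nat_lit 17) (nat_lit 5) (nat_lit 21) (nat_lit 5) (nat_lit 18) (nat_lit 5) (nat_lit 229) (nat_lit 225) (nat_lit 146)) (XT.lf (nat_lit 0) (nat_lit 40146453686) (nat_lit 304) (nat_lit 48091198238) (nat_lit 76) (nat_lit 108701460376) (nat_lit 17) (nat_lit 5) (nat_lit 21) (nat_lit 5) (nat_lit 18) (nat_lit 5) (nat_lit 230) (nat_lit 225) (nat_lit 145))) (XT.nd (nat_lit 78) (nat_lit 0) (nat_lit 0) (XT.lf (nat_lit 0) (nat_lit 47667182231) (nat_lit 228) (nat_lit 13634070137) (nat_lit 304) (nat_lit 152799006118) (nat_lit 14) (nat_lit 5) (nat_lit 17) (nat_lit 5) (nat_lit 18) (nat_lit 5) (nat_lit 231) (nat_lit 225) (nat_lit 144)) (XT.lf (nat_lit 0) (nat_lit 91250522378) (nat_lit 304) (nat_lit 73372461574) (nat_lit 76) (nat_lit 68369407289) (nat_lit 14) (nat_lit 5) (nat_lit 18) (nat_lit 5) (nat_lit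 15) (nat_lit 5) (nat_lit 232) (nat_lit 225) (nat_lit 143))))))) (XT.nd (nat_lit 1248) (nat_lit 228) (nat_lit 0) (XT.nd (nat_lit 624) (nat_lit 228) (nat_lit 0) (XT.nd (nat_lit 312) (nat_lit 304) (nat_lit 0) (XT.nd (nat_lit 156) (nat_lit 76) (nat_lit 0) (XT.nd (nat_lit 78) (nat_lit 0) (nat_lit 0) (XT.lf (nat_lit 0) (nat_lit 36222448860) (nat_lit 152) (nat_lit 91618602143) (nat_lit 228) (nat_lit 126554964749) (nat_lit 12) (nat_lit 5) (nat_lit 14) (nat_lit 5) (nat_lit 15) (nat_lit 5) (nat_lit 233) (nat_lit 225) (nat_lit 142)) (XT.lf (nat_lit 0) (nat_lit 170502347018) (nat_lit 152) (nat_lit 3252944849) (nat_lit 228) (nat_lit 104679623924) (nat_lit 12) (nat_lit 5) (nat_lit 14) (nat_lit 5) (nat_lit 15) (nat_lit 5) (nat_lit 234) (nat_lit 225) (nat_lit 141))) (XT.nd (nat_lit 78) (nat_lit 0) (nat_lit 0) (XT.lf (nat_lit 0) (nat_lit 16214622606) (nat_lit 76) (nat_lit 215086434032) (nat_lit 152)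 (nat_lit 74066937588) (nat_lit 11) (nat_lit 5) (nat_lit 12) (nat_lit 5) (nat_lit 13) (nat_lit 4) (nat_lit 235) (nat_lit 225) (nat_lit 140)) (XT.lf (nat_lit 0) (nat_lit 170943711754) (nat_lit 76) (nat_lit 132324565329) (nat_lit 152) (nat_lit 32204320055) (nat_lit 11) (nat_lit 5) (nat_lit 12) (nat_lit 5) (nat_lit 13) (nat_lit 4) (nat_lit 236) (nat_lit 225) (nat_lit 139)))) (XT.nd (nat_lit 156) (nat_lit 76) (nat_lit 0) (XT.nd (nat_lit 78) (nat_lit 152) (nat_lit 0) (XT.lf (nat_lit 0) (nat_lit 14518623544) (nat_lit 152) (nat_lit 21870942695) (nat_lit 76) (nat_lit 333604360885) (nat_lit 10) (nat_lit 5) (nat_lit 12) (nat_lit 5) (nat_lit 11) (nat_lit 5) (nat_lit 237) (nat_lit 225) (nat_lit 138)) (XT.lf (nat_lit 0) (nat_lit 74784992241) (nat_lit 228) (nat_lit 257545997857) (nat_lit 76) (nat_lit 75657622667) (nat_lit 8) (nat_lit 5) (nat_lit 11) (nat_lit 5) (nat_lit 9) (nat_lit 4) (nat_lit 238)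 (nat_lit 225) (nat_lit 137))) (XT.nd (nat_lit 78) (nat_lit 76) (nat_lit 0) (XT.lf (nat_lit 0) (nat_lit 147021696211) (nat_lit 228) (nat_lit 102237332924) (nat_lit 76) (nat_lit 201983915894) (nat_lit 8) (nat_lit 5) (nat_lit 11) (nat_lit 5) (nat_lit 9) (nat_lit 4) (nat_lit 239) (nat_lit 225) (nat_lit 136)) (XT.lf (nat_lit 0) (nat_lit 83830598764) (nat_lit 76) (nat_lit 149734422036) (nat_lit 152) (nat_lit 266899739755) (nat_lit 7) (nat_lit 5) (nat_lit 8) (nat_lit 5) (nat_lit 9) (nat_lit 4) (nat_lit 240) (nat_lit 225) (nat_lit 135))))) (XT.nd (nat_lit 312) (nat_lit 76) (nat_lit 0) (XT.nd (nat_lit 156) (nat_lit 152) (nat_lit 0) (XT.nd (nat_lit 78) (nat_lit 0) (nat_lit 0) (XT.lf (nat_lit 0) (nat_lit 309298599360) (nat_lit 76) (nat_lit 29135346359) (nat_lit 152) (nat_lit 217834288029) (nat_lit 7) (nat_lit 5) (nat_lit 8) (nat_lit 5) (nat_lit 9) (nat_lit 4) (nat_lit 241) (nat_lit 225) (nat_lit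 134)) (XT.lf (nat_lit 0) (nat_lit 463569480459) (nat_lit 152) (nat_lit 56391998501) (nat_lit 0) (nat_lit 99800308808) (nat_lit 7) (nat_lit 5) (nat_lit 9) (nat_lit 4) (nat_lit 7) (nat_lit 4) (nat_lit 242) (nat_lit 225) (nat_lit 133))) (XT.nd (nat_lit 78) (nat_lit 76) (nat_lit 0) (XT.lf (nat_lit 0) (nat_lit 177156408607) (nat_lit 76) (nat_lit 439041908138) (nat_lit 76) (nat_lit 75272612887) (nat_lit 6) (nat_lit 4) (nat_lit 7) (nat_lit 5) (nat_lit 7) (nat_lit 4) (nat_lit 243) (nat_lit 225) (nat_lit 132)) (XT.lf (nat_lit 0) (nat_lit 19289728164) (nat_lit 152) (nat_lit 322296487176) (nat_lit 76) (nat_lit 431776555812) (nat_lit 5) (nat_lit 5) (nat_lit 7) (nat_lit 5) (nat_lit 6) (nat_lit 4) (nat_lit 244) (nat_lit 225) (nat_lit 131)))) (XT.nd (nat_lit 156) (nat_lit 0) (nat_lit 0) (XT.nd (nat_lit 78) (nat_lit 76) (nat_lit 0) (XT.lf (nat_lit 0) (nat_lit 120329856907) (nat_lit 152) (nat_lit 105060303838)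 (nat_lit 76) (nat_lit 641610579176) (nat_lit 5) (nat_lit 5) (nat_lit 7) (nat_lit 5) (nat_lit 6) (nat_lit 4) (nat_lit 245) (nat_lit 225) (nat_lit 130)) (XT.lf (nat_lit 0) (nat_lit 158908295889) (nat_lit 76) (nat_lit 84197691714) (nat_lit 152) (nat_lit 730591419259) (nat_lit 4) (nat_lit 5) (nat_lit 5) (nat_lit 5) (nat_lit 6) (nat_lit 4) (nat_lit 246) (nat_lit 225) (nat_lit 129))) (XT.nd (nat_lit 78) (nat_lit 0) (nat_lit 0) (XT.lf (nat_lit 0) (nat_lit 393288775312) (nat_lit 152) (nat_lit 624793920983) (nat_lit 0) (nat_lit 76967342158) (nat_lit 4) (nat_lit 5) (nat_lit 6) (nat_lit 4) (nat_lit 4) (nat_lit 4) (nat_lit 247) (nat_lit 225) (nat_lit 128)) (XT.lf (nat_lit 0) (nat_lit 570008335078) (nat_lit 152) (nat_lit 410308978323) (nat_lit 0) (nat_lit 253686848488) (nat_lit 4) (nat_lit 5) (nat_lit 6) (nat_lit 4) (nat_lit 4) (nat_lit 4) (nat_lit 248) (nat_lit 225) (nat_lit 127)))))) (XT.nd (nat_lit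 624) (nat_lit 76) (nat_lit 0) (XT.nd (nat_lit 312) (nat_lit 76) (nat_lit 0) (XT.nd (nat_lit 156) (nat_lit 0) (nat_lit 0) (XT.nd (nat_lit 78) (nat_lit 76) (nat_lit 0) (XT.lf (nat_lit 0) (nat_lit 773235776643) (nat_lit 152) (nat_lit 163651391602) (nat_lit 0) (nat_lit 456914243587) (nat_lit 4) (nat_lit 5) (nat_lit 6) (nat_lit 4) (nat_lit 4) (nat_lit 4) (nat_lit 249) (nat_lit 225) (nat_lit 126)) (XT.lf (nat_lit 0) (nat_lit 131732485268) (nat_lit 76) (nat_lit 880669565107) (nat_lit 76) (nat_lit 564347991646) (nat_lit 3) (nat_lit 4) (nat_lit 4) (nat_lit 5) (nat_lit 4) (nat_lit 4) (nat_lit 250) (nat_lit 225) (nat_lit 125))) (XT.nd (nat_lit 78) (nat_lit 0) (nat_lit 0) (XT.lf (nat_lit 0) (nat_lit 489816047682) (nat_lit 76) (nat_lit 806181679257) (nat_lit 76) (nat_lit 489860070661) (nat_lit 3) (nat_lit 4) (nat_lit 4) (nat_lit 5) (nat_lit 4) (nat_lit 4) (nat_lit 251) (nat_lit 225) (nat_lit 124))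 (XT.lf (nat_lit 0) (nat_lit 901612074202) (nat_lit 76) (nat_lit 720520643575) (nat_lit 76) (nat_lit 404199004427) (nat_lit 3) (nat_lit 4) (nat_lit 4) (nat_lit 5) (nat_lit 4) (nat_lit 4) (nat_lit 252) (nat_lit 225) (nat_lit 123)))) (XT.nd (nat_lit 156) (nat_lit 76) (nat_lit 0) (XT.nd (nat_lit 78) (nat_lit 0) (nat_lit 0) (XT.lf (nat_lit 0) (nat_lit 1375177443609) (nat_lit 76) (nat_lit 622010481278) (nat_lit 76) (nat_lit 305688815563) (nat_lit 3) (nat_lit 4) (nat_lit 4) (nat_lit 5) (nat_lit 4) (nat_lit 4) (nat_lit 253) (nat_lit 225) (nat_lit 122)) (XT.lf (nat_lit 0) (nat_lit 1919777565303) (nat_lit 76) (nat_lit 508723819624) (nat_lit 76) (nat_lit 192402130807) (nat_lit 3) (nat_lit 4) (nat_lit 4) (nat_lit 5) (nat_lit 4) (nat_lit 4) (nat_lit 254) (nat_lit 225) (nat_lit 121))) (XT.nd (nat_lit 78) (nat_lit 76) (nat_lit 0) (XT.lf (nat_lit 0) (nat_lit 2546067659057) (nat_lit 76) (nat_lit 378444180451)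 (nat_lit 76) (nat_lit 62122471546) (nat_lit 3) (nat_lit 4) (nat_lit 4) (nat_lit 5) (nat_lit 4) (nat_lit 4) (nat_lit 255) (nat_lit 225) (nat_lit 120)) (XT.lf (nat_lit 0) (nat_lit 79891530670) (nat_lit 152) (nat_lit 144554935432) (nat_lit 76) (nat_lit 3182233547841) (nat_lit 2) (nat_lit 5) (nat_lit 4) (nat_lit 5) (nat_lit 3) (nat_lit 4) (nat_lit 256) (nat_lit 225) (nat_lit 119))))) (XT.nd (nat_lit 312) (nat_lit 0) (nat_lit 0) (XT.nd (nat_lit 156) (nat_lit 0) (nat_lit 0) (XT.nd (nat_lit 78) (nat_lit 0) (nat_lit 0) (XT.lf (nat_lit 0) (nat_lit 211751907944) (nat_lit 76) (nat_lit 33863742989) (nat_lit 152) (nat_lit 3642357963113) (nat_lit 1) (nat_lit 5) (nat_lit 2) (nat_lit 5) (nat_lit 3) (nat_lit 4) (nat_lit 257) (nat_lit 225) (nat_lit 118)) (XT.lf (nat_lit 0) (nat_lit 451787616177) (nat_lit 152) (nat_lit 3810610033263) (nat_lit 0) (nat_lit 176725220724) (nat_lit 1) (nat_lit 5) (nat_lit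 3) (nat_lit 4) (nat_lit 1) (nat_lit 4) (nat_lit 258) (nat_lit 225) (nat_lit 117))) (XT.nd (nat_lit 78) (nat_lit 0) (nat_lit 0) (XT.lf (nat_lit 0) (nat_lit 690497918832) (nat_lit 152) (nat_lit 3966769201119) (nat_lit 0) (nat_lit 415435513391) (nat_lit 1) (nat_lit 5) (nat_lit 3) (nat_lit 4) (nat_lit 1) (nat_lit 4) (nat_lit 259) (nat_lit 225) (nat_lit 116)) (XT.lf (nat_lit 0) (nat_lit 965014752481) (nat_lit 152) (nat_lit 4146352272354) (nat_lit 0) (nat_lit 689952338355) (nat_lit 1) (nat_lit 5) (nat_lit 3) (nat_lit 4) (nat_lit 1) (nat_lit 4) (nat_lit 260) (nat_lit 225) (nat_lit 115)))) (XT.nd (nat_lit 156) (nat_lit 0) (nat_lit 0) (XT.nd (nat_lit 78) (nat_lit 0) (nat_lit 0) (XT.lf (nat_lit 0) (nat_lit 1280709098650) (nat_lit 152) (nat_lit 4352872828797) (nat_lit 0) (nat_lit 1005646676972) (nat_lit 1) (nat_lit 5) (nat_lit 3) (nat_lit 4) (nat_lit 1) (nat_lit 4) (nat_lit 261) (nat_lit 225)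 (nat_lit 114)) (XT.lf (nat_lit 0) (nat_lit 1643757585852) (nat_lit 152) (nat_lit 4590371490031) (nat_lit 0) (nat_lit 1368695157607) (nat_lit 1) (nat_lit 5) (nat_lit 3) (nat_lit 4) (nat_lit 1) (nat_lit 4) (nat_lit 262) (nat_lit 225) (nat_lit 113))) (XT.nd (nat_lit 78) (nat_lit 0) (nat_lit 0) (XT.lf (nat_lit 0) (nat_lit 2061263336663) (nat_lit 152) (nat_lit 4863494968992) (nat_lit 0) (nat_lit 1786200902708) (nat_lit 1) (nat_lit 5) (nat_lit 3) (nat_lit 4) (nat_lit 1) (nat_lit 4) (nat_lit 263) (nat_lit 225) (nat_lit 112)) (XT.lf (nat_lit 0) (nat_lit 2541394941860) (nat_lit 152) (nat_lit 5177586985922) (nat_lit 0) (nat_lit 2266332502939) (nat_lit 1) (nat_lit 5) (nat_lit 3) (nat_lit 4) (nat_lit 1) (nat_lit 4) (nat_lit 264) (nat_lit 225) (nat_lit 111))))))))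
noncomputable def xc79 : XT := (XT.nd (nat_lit 28782) (nat_lit 0) (nat_lit 228) (XT.nd (nat_lit 1560) (nat_lit 0) (nat_lit 0) (XT.nd (nat_lit 312) (nat_lit 0) (nat_lit 0) (XT.nd (nat_lit 156) (nat_lit 0) (nat_lit 0) (XT.nd (nat_lit 78) (nat_lit 0) (nat_lit 0) (XT.lf (nat_lit 0) (nat_lit 3093546280674) (nat_lit 152) (nat_lit 5538792819412) (nat_lit 0) (nat_lit 2818483837435) (nat_lit 1) (nat_lit 5) (nat_lit 3) (nat_lit 4) (nat_lit 1) (nat_lit 4) (nat_lit 265) (nat_lit 225) (nat_lit 110)) (XT.lf (nat_lit 0) (nat_lit 3728520314083) (nat_lit 152) (nat_lit 5954179540118) (nat_lit 0) (nat_lit 3453457867089) (nat_lit 1) (nat_lit 5) (nat_lit 3) (nat_lit 4) (nat_lit 1) (nat_lit 4) (nat_lit 266) (nat_lit 225) (nat_lit 109))) (XT.nd (nat_lit 78) (nat_lit 0) (nat_lit 0) (XT.lf (nat_lit 0) (nat_lit 4458740447087) (nat_lit 152) (nat_lit 6431874279532) (nat_lit 0) (nat_lit 4183677996829) (nat_lit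 1) (nat_lit 5) (nat_lit 3) (nat_lit 4) (nat_lit 1) (nat_lit 4) (nat_lit 267) (nat_lit 225) (nat_lit 108)) (XT.lf (nat_lit 0) (nat_lit 5298493595334) (nat_lit 152) (nat_lit 6981223239077) (nat_lit 0) (nat_lit 5023431142236) (nat_lit 1) (nat_lit 5) (nat_lit 3) (nat_lit 4) (nat_lit 1) (nat_lit 4) (nat_lit 268) (nat_lit 225) (nat_lit 107)))) (XT.nd (nat_lit 1092) (nat_lit 0) (nat_lit 0) (XT.nd (nat_lit 1014) (nat_lit 0) (nat_lit 0) (XT.lf (nat_lit 0) (nat_lit 6264209711722) (nat_lit 152) (nat_lit 7612974550571) (nat_lit 0) (nat_lit 5989147256156) (nat_lit 1) (nat_lit 5) (nat_lit 3) (nat_lit 4) (nat_lit 1) (nat_lit 4) (nat_lit 269) (nat_lit 225) (nat_lit 106)) (XT.lf (nat_lit 0) (nat_lit 44414539665964) (nat_lit 152) (nat_lit 32570124648701) (nat_lit 0) (nat_lit 44139477196614) (nat_lit 1) (nat_lit 5) (nat_lit 3) (nat_lit 4) (nat_lit 1) (nat_lit 4) (nat_lit 282) (nat_lit 225) (nat_lit 93)))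 (XT.nd (nat_lit 78) (nat_lit 0) (nat_lit 0) (XT.lf (nat_lit 0) (nat_lit 51247662669506) (nat_lit 152) (nat_lit 37040211217529) (nat_lit 0) (nat_lit 50972600199807) (nat_lit 1) (nat_lit 5) (nat_lit 3) (nat_lit 4) (nat_lit 1) (nat_lit 4) (nat_lit 283) (nat_lit 225) (nat_lit 92)) (XT.lf (nat_lit 0) (nat_lit 59105754123076) (nat_lit 152) (nat_lit 42180810772665) (nat_lit 0) (nat_lit 58830691653074) (nat_lit 1) (nat_lit 5) (nat_lit 3) (nat_lit 4) (nat_lit 1) (nat_lit 4) (nat_lit 284) (nat_lit 225) (nat_lit 91))))) (XT.nd (nat_lit 26910) (nat_lit 0) (nat_lit 988) (XT.nd (nat_lit 26754) (nat_lit 0) (nat_lit 1140) (XT.nd (nat_lit 26676) (nat_lit 0) (nat_lit 1444) (XT.lf (nat_lit 0) (nat_lit 68142559294244) (nat_lit 152) (nat_lit 48092500261929) (nat_lit 0) (nat_lit 67867496823978) (nat_lit 1) (nat_lit 5) (nat_lit 3) (nat_lit 4) (nat_lit 1) (nat_lit 4) (nat_lit 285) (nat_lit 225) (nat_lit 90))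 (XT.lf (nat_lit 0) (nat_lit 38745781768) (nat_lit 0) (nat_lit 38745781768) (nat_lit 228) (nat_lit 19300381) (nat_lit 20) (nat_lit 5) (nat_lit 20) (nat_lit 3) (nat_lit 23) (nat_lit 3) (nat_lit 226) (nat_lit 226) (nat_lit 148))) (XT.nd (nat_lit 78) (nat_lit 304) (nat_lit 0) (XT.lf (nat_lit 0) (nat_lit 155877250454) (nat_lit 0) (nat_lit 10731888084) (nat_lit 228) (nat_lit 38854067) (nat_lit 20) (nat_lit 5) (nat_lit 20) (nat_lit 3) (nat_lit 23) (nat_lit 3) (nat_lit 227) (nat_lit 226) (nat_lit 147)) (XT.lf (nat_lit 0) (nat_lit 5841534970) (nat_lit 304) (nat_lit 109991570996) (nat_lit 380) (nat_lit 63303758567) (nat_lit 16) (nat_lit 5) (nat_lit 20) (nat_lit 5) (nat_lit 21) (nat_lit 5) (nat_lit 228) (nat_lit 226) (nat_lit 146)))) (XT.nd (nat_lit 156) (nat_lit 152) (nat_lit 0) (XT.nd (nat_lit 78) (nat_lit 0) (nat_lit 76) (XT.lf (nat_lit 0) (nat_lit 13700496703) (nat_lit 304) (nat_lit 31695401913)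 (nat_lit 380) (nat_lit 147937820400) (nat_lit 16) (nat_lit 5) (nat_lit 20) (nat_lit 5) (nat_lit 21) (nat_lit 5) (nat_lit 229) (nat_lit 226) (nat_lit 145)) (XT.lf (nat_lit 0) (nat_lit 26990713338) (nat_lit 304) (nat_lit 146816223451) (nat_lit 76) (nat_lit 35215306011) (nat_lit 17) (nat_lit 5) (nat_lit 21) (nat_lit 5) (nat_lit 18) (nat_lit 5) (nat_lit 230) (nat_lit 226) (nat_lit 144))) (XT.nd (nat_lit 78) (nat_lit 228) (nat_lit 0) (XT.lf (nat_lit 0) (nat_lit 46171579261) (nat_lit 304) (nat_lit 55301644828) (nat_lit 76) (nat_lit 125006255913) (nat_lit 17) (nat_lit 5) (nat_lit 21) (nat_lit 5) (nat_lit 18) (nat_lit 5) (nat_lit 231) (nat_lit 226) (nat_lit 143)) (XT.lf (nat_lit 0) (nat_lit 54820345750) (nat_lit 228) (nat_lit 15678967937) (nat_lit 304) (nat_lit 175715530366) (nat_lit 14) (nat_lit 5) (nat_lit 17) (nat_lit 5) (nat_lit 18) (nat_lit 5) (nat_lit 232) (nat_lit 226) (nat_lit 142))))))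 (XT.nd (nat_lit 624) (nat_lit 304) (nat_lit 0) (XT.nd (nat_lit 312) (nat_lit 228) (nat_lit 0) (XT.nd (nat_lit 156) (nat_lit 76) (nat_lit 0) (XT.nd (nat_lit 78) (nat_lit 152) (nat_lit 0) (XT.lf (nat_lit 0) (nat_lit 104940607058) (nat_lit 304) (nat_lit 84375260738) (nat_lit 76) (nat_lit 78624986890) (nat_lit 14) (nat_lit 5) (nat_lit 18) (nat_lit 5) (nat_lit 15) (nat_lit 5) (nat_lit 233) (nat_lit 226) (nat_lit 141)) (XT.lf (nat_lit 0) (nat_lit 41658746712) (nat_lit 152) (nat_lit 105360762700) (nat_lit 228) (nat_lit 145535546813) (nat_lit 12) (nat_lit 5) (nat_lit 14) (nat_lit 5) (nat_lit 15) (nat_lit 5) (nat_lit 234) (nat_lit 226) (nat_lit 140))) (XT.nd (nat_lit 78) (nat_lit 76) (nat_lit 0) (XT.lf (nat_lit 0) (nat_lit 196080247351) (nat_lit 152) (nat_lit 3740338955) (nat_lit 228) (nat_lit 120379252167) (nat_lit 12) (nat_lit 5) (nat_lit 14) (nat_lit 5) (nat_lit 15) (nat_lit 5) (nat_lit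 235) (nat_lit 226) (nat_lit 139)) (XT.lf (nat_lit 0) (nat_lit 18649527186) (nat_lit 76) (nat_lit 247348559635) (nat_lit 152) (nat_lit 85174813102) (nat_lit 11) (nat_lit 5) (nat_lit 12) (nat_lit 5) (nat_lit 13) (nat_lit 4) (nat_lit 236) (nat_lit 226) (nat_lit 138)))) (XT.nd (nat_lit 156) (nat_lit 152) (nat_lit 0) (XT.nd (nat_lit 78) (nat_lit 76) (nat_lit 0) (XT.lf (nat_lit 0) (nat_lit 196587626072) (nat_lit 76) (nat_lit 152172520128) (nat_lit 152) (nat_lit 37033085346) (nat_lit 11) (nat_lit 5) (nat_lit 12) (nat_lit 5) (nat_lit 13) (nat_lit 4) (nat_lit 237) (nat_lit 226) (nat_lit 137)) (XT.lf (nat_lit 0) (nat_lit 16697908471) (nat_lit 152) (nat_lit 25149379961) (nat_lit 76) (nat_lit 383645495711) (nat_lit 10) (nat_lit 5) (nat_lit 12) (nat_lit 5) (nat_lit 11) (nat_lit 5) (nat_lit 238) (nat_lit 226) (nat_lit 136))) (XT.nd (nat_lit 78) (nat_lit 0) (nat_lit 0) (XT.lf (nat_lit 0) (nat_lit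 86004154875) (nat_lit 228) (nat_lit 296175608546) (nat_lit 76) (nat_lit 87006921936) (nat_lit 8) (nat_lit 5) (nat_lit 11) (nat_lit 5) (nat_lit 9) (nat_lit 4) (nat_lit 239) (nat_lit 226) (nat_lit 135)) (XT.lf (nat_lit 0) (nat_lit 169076180032) (nat_lit 228) (nat_lit 117570942437) (nat_lit 76) (nat_lit 232282073599) (nat_lit 8) (nat_lit 5) (nat_lit 11) (nat_lit 5) (nat_lit 9) (nat_lit 4) (nat_lit 240) (nat_lit 226) (nat_lit 134))))) (XT.nd (nat_lit 312) (nat_lit 152) (nat_lit 0) (XT.nd (nat_lit 156) (nat_lit 76) (nat_lit 0) (XT.nd (nat_lit 78) (nat_lit 0) (nat_lit 0) (XT.lf (nat_lit 0) (nat_lit 96407088530) (nat_lit 76) (nat_lit 172193833097) (nat_lit 152) (nat_lit 306933375371) (nat_lit 7) (nat_lit 5) (nat_lit 8) (nat_lit 5) (nat_lit 9) (nat_lit 4) (nat_lit 241) (nat_lit 226) (nat_lit 133)) (XT.lf (nat_lit 0) (nat_lit 355695041395) (nat_lit 76) (nat_lit 33504994188) (nat_lit 152) (nat_lit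 250508278758) (nat_lit 7) (nat_lit 5) (nat_lit 8) (nat_lit 5) (nat_lit 9) (nat_lit 4) (nat_lit 242) (nat_lit 226) (nat_lit 132))) (XT.nd (nat_lit 78) (nat_lit 76) (nat_lit 0) (XT.lf (nat_lit 0) (nat_lit 533105793912) (nat_lit 152) (nat_lit 64849250871) (nat_lit 0) (nat_lit 114770873295) (nat_lit 7) (nat_lit 5) (nat_lit 9) (nat_lit 4) (nat_lit 7) (nat_lit 4) (nat_lit 243) (nat_lit 226) (nat_lit 131)) (XT.lf (nat_lit 0) (nat_lit 203731346967) (nat_lit 76) (nat_lit 504897553570) (nat_lit 76) (nat_lit 86562539493) (nat_lit 6) (nat_lit 4) (nat_lit 7) (nat_lit 5) (nat_lit 7) (nat_lit 4) (nat_lit 244) (nat_lit 226) (nat_lit 130)))) (XT.nd (nat_lit 156) (nat_lit 76) (nat_lit 0) (XT.nd (nat_lit 78) (nat_lit 0) (nat_lit 0) (XT.lf (nat_lit 0) (nat_lit 22183952073) (nat_lit 152) (nat_lit 370639598388) (nat_lit 76) (nat_lit 496543518935) (nat_lit 5) (nat_lit 5) (nat_lit 7) (nat_lit 5) (nat_lit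 6) (nat_lit 4) (nat_lit 245) (nat_lit 226) (nat_lit 129)) (XT.lf (nat_lit 0) (nat_lit 138380000386) (nat_lit 152) (nat_lit 120818165184) (nat_lit 76) (nat_lit 737852583227) (nat_lit 5) (nat_lit 5) (nat_lit 7) (nat_lit 5) (nat_lit 6) (nat_lit 4) (nat_lit 246) (nat_lit 226) (nat_lit 128))) (XT.nd (nat_lit 78) (nat_lit 0) (nat_lit 0) (XT.lf (nat_lit 0) (nat_lit 182745670674) (nat_lit 76) (nat_lit 96826840088) (nat_lit 152) (nat_lit 840179411315) (nat_lit 4) (nat_lit 5) (nat_lit 5) (nat_lit 5) (nat_lit 6) (nat_lit 4) (nat_lit 247) (nat_lit 226) (nat_lit 127)) (XT.lf (nat_lit 0) (nat_lit 452282653301) (nat_lit 152) (nat_lit 718511961053) (nat_lit 0) (nat_lit 88512843821) (nat_lit 4) (nat_lit 5) (nat_lit 6) (nat_lit 4) (nat_lit 4) (nat_lit 4) (nat_lit 248) (nat_lit 226) (nat_lit 126)))))))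
noncomputable def xc80 : XT := (XT.nd (nat_lit 1248) (nat_lit 0) (nat_lit 0) (XT.nd (nat_lit 624) (nat_lit 152) (nat_lit 0) (XT.nd (nat_lit 312) (nat_lit 0) (nat_lit 0) (XT.nd (nat_lit 156) (nat_lit 76) (nat_lit 0) (XT.nd (nat_lit 78) (nat_lit 0) (nat_lit 0) (XT.lf (nat_lit 0) (nat_lit 655510073767) (nat_lit 152) (nat_lit 471854413700) (nat_lit 0) (nat_lit 291740223882) (nat_lit 4) (nat_lit 5) (nat_lit 6) (nat_lit 4) (nat_lit 4) (nat_lit 4) (nat_lit 249) (nat_lit 226) (nat_lit 125)) (XT.lf (nat_lit 0) (nat_lit 889221567859) (nat_lit 152) (nat_lit 188198307846) (nat_lit 0) (nat_lit 525451682839) (nat_lit 4) (nat_lit 5) (nat_lit 6) (nat_lit 4) (nat_lit 4) (nat_lit 4) (nat_lit 250) (nat_lit 226) (nat_lit 124))) (XT.nd (nat_lit 78) (nat_lit 0) (nat_lit 0) (XT.lf (nat_lit 0) (nat_lit 151493114532) (nat_lit 76) (nat_lit 1012769644045) (nat_lit 76) (nat_lit 648999728472) (nat_lit 3) (nat_lit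 4) (nat_lit 4) (nat_lit 5) (nat_lit 4) (nat_lit 4) (nat_lit 251) (nat_lit 226) (nat_lit 123)) (XT.lf (nat_lit 0) (nat_lit 563289112638) (nat_lit 76) (nat_lit 927108621729) (nat_lit 76) (nat_lit 563338679590) (nat_lit 3) (nat_lit 4) (nat_lit 4) (nat_lit 5) (nat_lit 4) (nat_lit 4) (nat_lit 252) (nat_lit 226) (nat_lit 122)))) (XT.nd (nat_lit 156) (nat_lit 0) (nat_lit 0) (XT.nd (nat_lit 78) (nat_lit 0) (nat_lit 0) (XT.lf (nat_lit 0) (nat_lit 1036854457336) (nat_lit 76) (nat_lit 828598471054) (nat_lit 76) (nat_lit 464828505813) (nat_lit 3) (nat_lit 4) (nat_lit 4) (nat_lit 5) (nat_lit 4) (nat_lit 4) (nat_lit 253) (nat_lit 226) (nat_lit 121)) (XT.lf (nat_lit 0) (nat_lit 1581454557545) (nat_lit 76) (nat_lit 715311819506) (nat_lit 76) (nat_lit 351541834177) (nat_lit 3) (nat_lit 4) (nat_lit 4) (nat_lit 5) (nat_lit 4) (nat_lit 4) (nat_lit 254) (nat_lit 226) (nat_lit 120))) (XT.nd (nat_lit 78)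 (nat_lit 0) (nat_lit 0) (XT.lf (nat_lit 0) (nat_lit 2207744632615) (nat_lit 76) (nat_lit 585032189122) (nat_lit 76) (nat_lit 221262186324) (nat_lit 3) (nat_lit 4) (nat_lit 4) (nat_lit 5) (nat_lit 4) (nat_lit 4) (nat_lit 255) (nat_lit 226) (nat_lit 119)) (XT.lf (nat_lit 0) (nat_lit 2927978184017) (nat_lit 76) (nat_lit 435210630609) (nat_lit 76) (nat_lit 71440612621) (nat_lit 3) (nat_lit 4) (nat_lit 4) (nat_lit 5) (nat_lit 4) (nat_lit 4) (nat_lit 256) (nat_lit 226) (nat_lit 118))))) (XT.nd (nat_lit 312) (nat_lit 0) (nat_lit 0) (XT.nd (nat_lit 156) (nat_lit 0) (nat_lit 0) (XT.nd (nat_lit 78) (nat_lit 76) (nat_lit 0) (XT.lf (nat_lit 0) (nat_lit 91875442192) (nat_lit 152) (nat_lit 166237830481) (nat_lit 76) (nat_lit 3659568715630) (nat_lit 2) (nat_lit 5) (nat_lit 4) (nat_lit 5) (nat_lit 3) (nat_lit 4) (nat_lit 257) (nat_lit 226) (nat_lit 117)) (XT.lf (nat_lit 0) (nat_lit 243515023708) (nat_lit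 76) (nat_lit 38943146705) (nat_lit 152) (nat_lit 4188711459579) (nat_lit 1) (nat_lit 5) (nat_lit 2) (nat_lit 5) (nat_lit 3) (nat_lit 4) (nat_lit 258) (nat_lit 226) (nat_lit 116))) (XT.nd (nat_lit 78) (nat_lit 0) (nat_lit 0) (XT.lf (nat_lit 0) (nat_lit 519555913710) (nat_lit 152) (nat_lit 4382201234598) (nat_lit 0) (nat_lit 203234128780) (nat_lit 1) (nat_lit 5) (nat_lit 3) (nat_lit 4) (nat_lit 1) (nat_lit 4) (nat_lit 259) (nat_lit 226) (nat_lit 115)) (XT.lf (nat_lit 0) (nat_lit 794072741532) (nat_lit 152) (nat_lit 4561784317239) (nat_lit 0) (nat_lit 477750949050) (nat_lit 1) (nat_lit 5) (nat_lit 3) (nat_lit 4) (nat_lit 1) (nat_lit 4) (nat_lit 260) (nat_lit 226) (nat_lit 114)))) (XT.nd (nat_lit 156) (nat_lit 0) (nat_lit 0) (XT.nd (nat_lit 78) (nat_lit 0) (nat_lit 0) (XT.lf (nat_lit 0) (nat_lit 1109767082635) (nat_lit 152) (nat_lit 4768304883600) (nat_lit 0) (nat_lit 793445283586) (nat_lit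 1) (nat_lit 5) (nat_lit 3) (nat_lit 4) (nat_lit 1) (nat_lit 4) (nat_lit 261) (nat_lit 226) (nat_lit 113)) (XT.lf (nat_lit 0) (nat_lit 1472815565432) (nat_lit 152) (nat_lit 5005803553459) (nat_lit 0) (nat_lit 1156493760673) (nat_lit 1) (nat_lit 5) (nat_lit 3) (nat_lit 4) (nat_lit 1) (nat_lit 4) (nat_lit 262) (nat_lit 226) (nat_lit 112))) (XT.nd (nat_lit 78) (nat_lit 0) (nat_lit 0) (XT.lf (nat_lit 0) (nat_lit 1890321312412) (nat_lit 152) (nat_lit 5278927039920) (nat_lit 0) (nat_lit 1573999502688) (nat_lit 1) (nat_lit 5) (nat_lit 3) (nat_lit 4) (nat_lit 1) (nat_lit 4) (nat_lit 263) (nat_lit 226) (nat_lit 111)) (XT.lf (nat_lit 0) (nat_lit 2370452914278) (nat_lit 152) (nat_lit 5593019063371) (nat_lit 0) (nat_lit 2054131100235) (nat_lit 1) (nat_lit 5) (nat_lit 3) (nat_lit 4) (nat_lit 1) (nat_lit 4) (nat_lit 264) (nat_lit 226) (nat_lit 110)))))) (XT.nd (nat_lit 1482) (nat_lit 0) (nat_lit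 0) (XT.nd (nat_lit 312) (nat_lit 0) (nat_lit 0) (XT.nd (nat_lit 156) (nat_lit 0) (nat_lit 0) (XT.nd (nat_lit 78) (nat_lit 0) (nat_lit 0) (XT.lf (nat_lit 0) (nat_lit 2922604250195) (nat_lit 152) (nat_lit 5954224902532) (nat_lit 0) (nat_lit 2606282432398) (nat_lit 1) (nat_lit 5) (nat_lit 3) (nat_lit 4) (nat_lit 1) (nat_lit 4) (nat_lit 265) (nat_lit 226) (nat_lit 109)) (XT.lf (nat_lit 0) (nat_lit 3557578281085) (nat_lit 152) (nat_lit 6369611628169) (nat_lit 0) (nat_lit 3241256460023) (nat_lit 1) (nat_lit 5) (nat_lit 3) (nat_lit 4) (nat_lit 1) (nat_lit 4) (nat_lit 266) (nat_lit 226) (nat_lit 108))) (XT.nd (nat_lit 78) (nat_lit 0) (nat_lit 0) (XT.lf (nat_lit 0) (nat_lit 4287798411900) (nat_lit 152) (nat_lit 6847306371871) (nat_lit 0) (nat_lit 3971476587998) (nat_lit 1) (nat_lit 5) (nat_lit 3) (nat_lit 4) (nat_lit 1) (nat_lit 4) (nat_lit 267) (nat_lit 226) (nat_lit 107)) (XT.lf (nat_lit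 0) (nat_lit 5127551558241) (nat_lit 152) (nat_lit 7396655335145) (nat_lit 0) (nat_lit 4811229731871) (nat_lit 1) (nat_lit 5) (nat_lit 3) (nat_lit 4) (nat_lit 1) (nat_lit 4) (nat_lit 268) (nat_lit 226) (nat_lit 106)))) (XT.nd (nat_lit 1014) (nat_lit 0) (nat_lit 0) (XT.nd (nat_lit 936) (nat_lit 0) (nat_lit 0) (XT.lf (nat_lit 0) (nat_lit 6093267672973) (nat_lit 152) (nat_lit 8028406649880) (nat_lit 0) (nat_lit 5776945844457) (nat_lit 1) (nat_lit 5) (nat_lit 3) (nat_lit 4) (nat_lit 1) (nat_lit 4) (nat_lit 269) (nat_lit 226) (nat_lit 105)) (XT.lf (nat_lit 0) (nat_lit 38301751527698) (nat_lit 152) (nat_lit 29098524967591) (nat_lit 0) (nat_lit 37985429687545) (nat_lit 1) (nat_lit 5) (nat_lit 3) (nat_lit 4) (nat_lit 1) (nat_lit 4) (nat_lit 281) (nat_lit 226) (nat_lit 93))) (XT.nd (nat_lit 78) (nat_lit 0) (nat_lit 0) (XT.lf (nat_lit 0) (nat_lit 44243597617969) (nat_lit 152) (nat_lit 32985556766113)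 (nat_lit 0) (nat_lit 43927275777467) (nat_lit 1) (nat_lit 5) (nat_lit 3) (nat_lit 4) (nat_lit 1) (nat_lit 4) (nat_lit 282) (nat_lit 226) (nat_lit 92)) (XT.lf (nat_lit 0) (nat_lit 51076720621277) (nat_lit 152) (nat_lit 37455643335399) (nat_lit 0) (nat_lit 50760398780471) (nat_lit 1) (nat_lit 5) (nat_lit 3) (nat_lit 4) (nat_lit 1) (nat_lit 4) (nat_lit 283) (nat_lit 226) (nat_lit 91))))) (XT.nd (nat_lit 27066) (nat_lit 0) (nat_lit 988) (XT.nd (nat_lit 26910) (nat_lit 0) (nat_lit 1140) (XT.nd (nat_lit 26832) (nat_lit 0) (nat_lit 1444) (XT.lf (nat_lit 0) (nat_lit 58934812074644) (nat_lit 152) (nat_lit 42596242890934) (nat_lit 0) (nat_lit 58618490233574) (nat_lit 1) (nat_lit 5) (nat_lit 3) (nat_lit 4) (nat_lit 1) (nat_lit 4) (nat_lit 284) (nat_lit 226) (nat_lit 90)) (XT.lf (nat_lit 0) (nat_lit 44558740359) (nat_lit 0) (nat_lit 44558740359) (nat_lit 228) (nat_lit 19663075) (nat_lit 20) (nat_lit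 5) (nat_lit 20) (nat_lit 3) (nat_lit 23) (nat_lit 3) (nat_lit 227) (nat_lit 227) (nat_lit 146))) (XT.nd (nat_lit 78) (nat_lit 304) (nat_lit 0) (XT.lf (nat_lit 0) (nat_lit 179260735981) (nat_lit 0) (nat_lit 12343569256) (nat_lit 228) (nat_lit 40278069) (nat_lit 20) (nat_lit 5) (nat_lit 20) (nat_lit 3) (nat_lit 23) (nat_lit 3) (nat_lit 228) (nat_lit 227) (nat_lit 145)) (XT.lf (nat_lit 0) (nat_lit 6721289368) (nat_lit 304) (nat_lit 126487465645) (nat_lit 380) (nat_lit 72798081236) (nat_lit 16) (nat_lit 5) (nat_lit 20) (nat_lit 5) (nat_lit 21) (nat_lit 5) (nat_lit 229) (nat_lit 227) (nat_lit 144)))) (XT.nd (nat_lit 156) (nat_lit 152) (nat_lit 0) (XT.nd (nat_lit 78) (nat_lit 0) (nat_lit 76) (XT.lf (nat_lit 0) (nat_lit 15758635688) (nat_lit 304) (nat_lit 36447241765) (nat_lit 380) (nat_lit 170127414229) (nat_lit 16) (nat_lit 5) (nat_lit 20) (nat_lit 5) (nat_lit 21) (nat_lit 5) (nat_lit 230)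 (nat_lit 227) (nat_lit 143)) (XT.lf (nat_lit 0) (nat_lit 31042066010) (nat_lit 304) (nat_lit 168835845537) (nat_lit 76) (nat_lit 40497233635) (nat_lit 17) (nat_lit 5) (nat_lit 21) (nat_lit 5) (nat_lit 18) (nat_lit 5) (nat_lit 231) (nat_lit 227) (nat_lit 142))) (XT.nd (nat_lit 78) (nat_lit 228) (nat_lit 0) (XT.lf (nat_lit 0) (nat_lit 53099703690) (nat_lit 304) (nat_lit 63594446830) (nat_lit 76) (nat_lit 143756874059) (nat_lit 17) (nat_lit 5) (nat_lit 21) (nat_lit 5) (nat_lit 18) (nat_lit 5) (nat_lit 232) (nat_lit 227) (nat_lit 141)) (XT.nd (nat_lit 78) (nat_lit 0) (nat_lit 0) (XT.lf (nat_lit 0) (nat_lit 63045731212) (nat_lit 228) (nat_lit 18030652279) (nat_lit 304) (nat_lit 202070344481) (nat_lit 14) (nat_lit 5) (nat_lit 17) (nat_lit 5) (nat_lit 18) (nat_lit 5) (nat_lit 233) (nat_lit 227) (nat_lit 140)) (XT.lf (nat_lit 0) (nat_lit 120683593258) (nat_lit 304) (nat_lit 97029228433) (nat_lit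 76) (nat_lit 90418862339) (nat_lit 14) (nat_lit 5) (nat_lit 18) (nat_lit 5) (nat_lit 15) (nat_lit 5) (nat_lit 234) (nat_lit 227) (nat_lit 139))))))))
noncomputable def xc81 : XT := (XT.nd (nat_lit 2496) (nat_lit 0) (nat_lit 0) (XT.nd (nat_lit 1248) (nat_lit 228) (nat_lit 0) (XT.nd (nat_lit 624) (nat_lit 228) (nat_lit 0) (XT.nd (nat_lit 312) (nat_lit 304) (nat_lit 0) (XT.nd (nat_lit 156) (nat_lit 76) (nat_lit 0) (XT.nd (nat_lit 78) (nat_lit 0) (nat_lit 0) (XT.lf (nat_lit 0) (nat_lit 47909774616) (nat_lit 152) (nat_lit 121164400912) (nat_lit 228) (nat_lit 167363865491) (nat_lit 12) (nat_lit 5) (nat_lit 14) (nat_lit 5) (nat_lit 15) (nat_lit 5) (nat_lit 235) (nat_lit 227) (nat_lit 138)) (XT.lf (nat_lit 0) (nat_lit 225494211321) (nat_lit 152) (nat_lit 4300975717) (nat_lit 228) (nat_lit 138434389257) (nat_lit 12) (nat_lit 5) (nat_lit 14) (nat_lit 5) (nat_lit 15) (nat_lit 5) (nat_lit 236)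 (nat_lit 227) (nat_lit 137))) (XT.nd (nat_lit 78) (nat_lit 0) (nat_lit 0) (XT.lf (nat_lit 0) (nat_lit 21449006311) (nat_lit 76) (nat_lit 284450208796) (nat_lit 152) (nat_lit 97949397922) (nat_lit 11) (nat_lit 5) (nat_lit 12) (nat_lit 5) (nat_lit 13) (nat_lit 4) (nat_lit 237) (nat_lit 227) (nat_lit 136)) (XT.lf (nat_lit 0) (nat_lit 226077552633) (nat_lit 76) (nat_lit 174997846161) (nat_lit 152) (nat_lit 42586624543) (nat_lit 11) (nat_lit 5) (nat_lit 12) (nat_lit 5) (nat_lit 13) (nat_lit 4) (nat_lit 238) (nat_lit 227) (nat_lit 135)))) (XT.nd (nat_lit 156) (nat_lit 76) (nat_lit 0) (XT.nd (nat_lit 78) (nat_lit 152) (nat_lit 0) (XT.lf (nat_lit 0) (nat_lit 19203722451) (nat_lit 152) (nat_lit 28920120309) (nat_lit 76) (nat_lit 441192683541) (nat_lit 10) (nat_lit 5) (nat_lit 12) (nat_lit 5) (nat_lit 11) (nat_lit 5) (nat_lit 239) (nat_lit 227) (nat_lit 134)) (XT.lf (nat_lit 0) (nat_lit 98905847140)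 (nat_lit 228) (nat_lit 340600219024) (nat_lit 76) (nat_lit 100058456157) (nat_lit 8) (nat_lit 5) (nat_lit 11) (nat_lit 5) (nat_lit 9) (nat_lit 4) (nat_lit 240) (nat_lit 227) (nat_lit 133))) (XT.nd (nat_lit 78) (nat_lit 76) (nat_lit 0) (XT.lf (nat_lit 0) (nat_lit 194438536632) (nat_lit 228) (nat_lit 135205078756) (nat_lit 76) (nat_lit 267124815883) (nat_lit 8) (nat_lit 5) (nat_lit 11) (nat_lit 5) (nat_lit 9) (nat_lit 4) (nat_lit 241) (nat_lit 227) (nat_lit 132)) (XT.lf (nat_lit 0) (nat_lit 110869588445) (nat_lit 76) (nat_lit 198022339257) (nat_lit 152) (nat_lit 352972379523) (nat_lit 7) (nat_lit 5) (nat_lit 8) (nat_lit 5) (nat_lit 9) (nat_lit 4) (nat_lit 242) (nat_lit 227) (nat_lit 131))))) (XT.nd (nat_lit 312) (nat_lit 76) (nat_lit 0) (XT.nd (nat_lit 156) (nat_lit 152) (nat_lit 0) (XT.nd (nat_lit 78) (nat_lit 0) (nat_lit 0) (XT.lf (nat_lit 0) (nat_lit 409050546853) (nat_lit 76) (nat_lit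 38530248704) (nat_lit 152) (nat_lit 288083649134) (nat_lit 7) (nat_lit 5) (nat_lit 8) (nat_lit 5) (nat_lit 9) (nat_lit 4) (nat_lit 243) (nat_lit 227) (nat_lit 130)) (XT.lf (nat_lit 0) (nat_lit 613072337014) (nat_lit 152) (nat_lit 74575468441) (nat_lit 0) (nat_lit 131986896097) (nat_lit 7) (nat_lit 5) (nat_lit 9) (nat_lit 4) (nat_lit 7) (nat_lit 4) (nat_lit 244) (nat_lit 227) (nat_lit 129))) (XT.nd (nat_lit 78) (nat_lit 76) (nat_lit 0) (XT.lf (nat_lit 0) (nat_lit 234292165887) (nat_lit 76) (nat_lit 580631702077) (nat_lit 76) (nat_lit 99546190491) (nat_lit 6) (nat_lit 4) (nat_lit 7) (nat_lit 5) (nat_lit 7) (nat_lit 4) (nat_lit 245) (nat_lit 227) (nat_lit 128)) (XT.lf (nat_lit 0) (nat_lit 25512123095) (nat_lit 152) (nat_lit 426234508381) (nat_lit 76) (nat_lit 571025409535) (nat_lit 5) (nat_lit 5) (nat_lit 7) (nat_lit 5) (nat_lit 6) (nat_lit 4) (nat_lit 246) (nat_lit 227) (nat_lit 127))))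 (XT.nd (nat_lit 156) (nat_lit 0) (nat_lit 0) (XT.nd (nat_lit 78) (nat_lit 76) (nat_lit 0) (XT.lf (nat_lit 0) (nat_lit 159137503236) (nat_lit 152) (nat_lit 138939994514) (nat_lit 76) (nat_lit 848530786155) (nat_lit 5) (nat_lit 5) (nat_lit 7) (nat_lit 5) (nat_lit 6) (nat_lit 4) (nat_lit 247) (nat_lit 227) (nat_lit 126)) (XT.lf (nat_lit 0) (nat_lit 210158376020) (nat_lit 76) (nat_lit 111350483960) (nat_lit 152) (nat_lit 966205777958) (nat_lit 4) (nat_lit 5) (nat_lit 5) (nat_lit 5) (nat_lit 6) (nat_lit 4) (nat_lit 248) (nat_lit 227) (nat_lit 125))) (XT.nd (nat_lit 78) (nat_lit 0) (nat_lit 0) (XT.lf (nat_lit 0) (nat_lit 520125476016) (nat_lit 152) (nat_lit 826287962714) (nat_lit 0) (nat_lit 101790073108) (nat_lit 4) (nat_lit 5) (nat_lit 6) (nat_lit 4) (nat_lit 4) (nat_lit 4) (nat_lit 249) (nat_lit 227) (nat_lit 124)) (XT.lf (nat_lit 0) (nat_lit 753836954154) (nat_lit 152) (nat_lit 542631886628)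 (nat_lit 0) (nat_lit 335501520694) (nat_lit 4) (nat_lit 5) (nat_lit 6) (nat_lit 4) (nat_lit 4) (nat_lit 4) (nat_lit 250) (nat_lit 227) (nat_lit 123)))))) (XT.nd (nat_lit 624) (nat_lit 76) (nat_lit 0) (XT.nd (nat_lit 312) (nat_lit 76) (nat_lit 0) (XT.nd (nat_lit 156) (nat_lit 0) (nat_lit 0) (XT.nd (nat_lit 78) (nat_lit 76) (nat_lit 0) (XT.lf (nat_lit 0) (nat_lit 1022605124187) (nat_lit 152) (nat_lit 216427454781) (nat_lit 0) (nat_lit 604269664160) (nat_lit 4) (nat_lit 5) (nat_lit 6) (nat_lit 4) (nat_lit 4) (nat_lit 4) (nat_lit 251) (nat_lit 227) (nat_lit 122)) (XT.lf (nat_lit 0) (nat_lit 174217653716) (nat_lit 76) (nat_lit 1164684821593) (nat_lit 76) (nat_lit 746349338465) (nat_lit 3) (nat_lit 4) (nat_lit 4) (nat_lit 5) (nat_lit 4) (nat_lit 4) (nat_lit 252) (nat_lit 227) (nat_lit 121))) (XT.nd (nat_lit 78) (nat_lit 0) (nat_lit 0) (XT.lf (nat_lit 0) (nat_lit 647782976928) (nat_lit 76)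 (nat_lit 1066174681025) (nat_lit 76) (nat_lit 647839177808) (nat_lit 3) (nat_lit 4) (nat_lit 4) (nat_lit 5) (nat_lit 4) (nat_lit 4) (nat_lit 253) (nat_lit 227) (nat_lit 120)) (XT.lf (nat_lit 0) (nat_lit 1192383058453) (nat_lit 76) (nat_lit 952888038266) (nat_lit 76) (nat_lit 534552517580) (nat_lit 3) (nat_lit 4) (nat_lit 4) (nat_lit 5) (nat_lit 4) (nat_lit 4) (nat_lit 254) (nat_lit 227) (nat_lit 119)))) (XT.nd (nat_lit 156) (nat_lit 76) (nat_lit 0) (XT.nd (nat_lit 78) (nat_lit 0) (nat_lit 0) (XT.lf (nat_lit 0) (nat_lit 1818673117278) (nat_lit 76) (nat_lit 822608415523) (nat_lit 76) (nat_lit 404272879647) (nat_lit 3) (nat_lit 4) (nat_lit 4) (nat_lit 5) (nat_lit 4) (nat_lit 4) (nat_lit 255) (nat_lit 227) (nat_lit 118)) (XT.lf (nat_lit 0) (nat_lit 2538906654553) (nat_lit 76) (nat_lit 672786863655) (nat_lit 76) (nat_lit 254451314571) (nat_lit 3) (nat_lit 4) (nat_lit 4) (nat_lit 5) (nat_lit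 4) (nat_lit 4) (nat_lit 256) (nat_lit 227) (nat_lit 117))) (XT.nd (nat_lit 78) (nat_lit 76) (nat_lit 0) (XT.lf (nat_lit 0) (nat_lit 3367175196007) (nat_lit 76) (nat_lit 500492091431) (nat_lit 76) (nat_lit 82156530861) (nat_lit 3) (nat_lit 4) (nat_lit 4) (nat_lit 5) (nat_lit 4) (nat_lit 4) (nat_lit 257) (nat_lit 227) (nat_lit 116)) (XT.lf (nat_lit 0) (nat_lit 105656896081) (nat_lit 152) (nat_lit 191173243982) (nat_lit 76) (nat_lit 4208504125518) (nat_lit 2) (nat_lit 5) (nat_lit 4) (nat_lit 5) (nat_lit 3) (nat_lit 4) (nat_lit 258) (nat_lit 227) (nat_lit 115))))) (XT.nd (nat_lit 312) (nat_lit 0) (nat_lit 0) (XT.nd (nat_lit 156) (nat_lit 0) (nat_lit 0) (XT.nd (nat_lit 78) (nat_lit 0) (nat_lit 0) (XT.lf (nat_lit 0) (nat_lit 280042526469) (nat_lit 76) (nat_lit 44784499442) (nat_lit 152) (nat_lit 4817018028798) (nat_lit 1) (nat_lit 5) (nat_lit 2) (nat_lit 5) (nat_lit 3) (nat_lit 4) (nat_lit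 259) (nat_lit 227) (nat_lit 114)) (XT.lf (nat_lit 0) (nat_lit 597489418049) (nat_lit 152) (nat_lit 5039531190181) (nat_lit 0) (nat_lit 233719342576) (nat_lit 1) (nat_lit 5) (nat_lit 3) (nat_lit 4) (nat_lit 1) (nat_lit 4) (nat_lit 260) (nat_lit 227) (nat_lit 113))) (XT.nd (nat_lit 78) (nat_lit 0) (nat_lit 0) (XT.lf (nat_lit 0) (nat_lit 913183754746) (nat_lit 152) (nat_lit 5246051765167) (nat_lit 0) (nat_lit 549413673563) (nat_lit 1) (nat_lit 5) (nat_lit 3) (nat_lit 4) (nat_lit 1) (nat_lit 4) (nat_lit 261) (nat_lit 227) (nat_lit 112)) (XT.lf (nat_lit 0) (nat_lit 1276232233713) (nat_lit 152) (nat_lit 5483550442525) (nat_lit 0) (nat_lit 912462147564) (nat_lit 1) (nat_lit 5) (nat_lit 3) (nat_lit 4) (nat_lit 1) (nat_lit 4) (nat_lit 262) (nat_lit 227) (nat_lit 111)))) (XT.nd (nat_lit 156) (nat_lit 0) (nat_lit 0) (XT.nd (nat_lit 78) (nat_lit 0) (nat_lit 0) (XT.lf (nat_lit 0) (nat_lit 1693737977362)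 (nat_lit 152) (nat_lit 5756673935507) (nat_lit 0) (nat_lit 1329967886895) (nat_lit 1) (nat_lit 5) (nat_lit 3) (nat_lit 4) (nat_lit 1) (nat_lit 4) (nat_lit 263) (nat_lit 227) (nat_lit 110)) (XT.lf (nat_lit 0) (nat_lit 2173869576331) (nat_lit 152) (nat_lit 6070765964629) (nat_lit 0) (nat_lit 1810099482109) (nat_lit 1) (nat_lit 5) (nat_lit 3) (nat_lit 4) (nat_lit 1) (nat_lit 4) (nat_lit 264) (nat_lit 227) (nat_lit 109))) (XT.nd (nat_lit 78) (nat_lit 0) (nat_lit 0) (XT.lf (nat_lit 0) (nat_lit 2726020909730) (nat_lit 152) (nat_lit 6431971808722) (nat_lit 0) (nat_lit 2362250812243) (nat_lit 1) (nat_lit 5) (nat_lit 3) (nat_lit 4) (nat_lit 1) (nat_lit 4) (nat_lit 265) (nat_lit 227) (nat_lit 108)) (XT.lf (nat_lit 0) (nat_lit 3360994938429) (nat_lit 152) (nat_lit 6847358538647) (nat_lit 0) (nat_lit 2997224838104) (nat_lit 1) (nat_lit 5) (nat_lit 3) (nat_lit 4) (nat_lit 1) (nat_lit 4) (nat_lit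 266) (nat_lit 227) (nat_lit 107))))))) (XT.nd (nat_lit 29016) (nat_lit 0) (nat_lit 152) (XT.nd (nat_lit 28392) (nat_lit 0) (nat_lit 836) (XT.nd (nat_lit 1170) (nat_lit 0) (nat_lit 0) (XT.nd (nat_lit 156) (nat_lit 0) (nat_lit 0) (XT.nd (nat_lit 78) (nat_lit 0) (nat_lit 0) (XT.lf (nat_lit 0) (nat_lit 4091215067339) (nat_lit 152) (nat_lit 7325053286077) (nat_lit 0) (nat_lit 3727444964545) (nat_lit 1) (nat_lit 5) (nat_lit 3) (nat_lit 4) (nat_lit 1) (nat_lit 4) (nat_lit 267) (nat_lit 227) (nat_lit 106)) (XT.lf (nat_lit 0) (nat_lit 4930968212024) (nat_lit 152) (nat_lit 7874402252593) (nat_lit 0) (nat_lit 4567198107083) (nat_lit 1) (nat_lit 5) (nat_lit 3) (nat_lit 4) (nat_lit 1) (nat_lit 4) (nat_lit 268) (nat_lit 227) (nat_lit 105))) (XT.nd (nat_lit 936) (nat_lit 0) (nat_lit 0) (XT.lf (nat_lit 0) (nat_lit 5896684325317) (nat_lit 152) (nat_lit 8506153570148) (nat_lit 0) (nat_lit 5532914218509)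 (nat_lit 1) (nat_lit 5) (nat_lit 3) (nat_lit 4) (nat_lit 1) (nat_lit 4) (nat_lit 269) (nat_lit 227) (nat_lit 104)) (XT.lf (nat_lit 0) (nat_lit 38105168172235) (nat_lit 152) (nat_lit 29576271903142) (nat_lit 0) (nat_lit 37741398055308) (nat_lit 1) (nat_lit 5) (nat_lit 3) (nat_lit 4) (nat_lit 1) (nat_lit 4) (nat_lit 281) (nat_lit 227) (nat_lit 92)))) (XT.nd (nat_lit 27066) (nat_lit 0) (nat_lit 1444) (XT.nd (nat_lit 78) (nat_lit 0) (nat_lit 0) (XT.lf (nat_lit 0) (nat_lit 44047014262272) (nat_lit 152) (nat_lit 33463303702122) (nat_lit 0) (nat_lit 43683244145042) (nat_lit 1) (nat_lit 5) (nat_lit 3) (nat_lit 4) (nat_lit 1) (nat_lit 4) (nat_lit 282) (nat_lit 227) (nat_lit 91)) (XT.lf (nat_lit 0) (nat_lit 50880137265376) (nat_lit 152) (nat_lit 37933390271806) (nat_lit 0) (nat_lit 50516367147882) (nat_lit 1) (nat_lit 5) (nat_lit 3) (nat_lit 4) (nat_lit 1) (nat_lit 4) (nat_lit 283) (nat_lit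 227) (nat_lit 90))) (XT.nd (nat_lit 78) (nat_lit 0) (nat_lit 0) (XT.lf (nat_lit 0) (nat_lit 51243376613) (nat_lit 0) (nat_lit 51243376613) (nat_lit 228) (nat_lit 20697707) (nat_lit 20) (nat_lit 5) (nat_lit 20) (nat_lit 3) (nat_lit 23) (nat_lit 3) (nat_lit 228) (nat_lit 228) (nat_lit 144)) (XT.lf (nat_lit 0) (nat_lit 206151281507) (nat_lit 0) (nat_lit 14196539773) (nat_lit 228) (nat_lit 42989640) (nat_lit 20) (nat_lit 5) (nat_lit 20) (nat_lit 3) (nat_lit 23) (nat_lit 3) (nat_lit 229) (nat_lit 228) (nat_lit 143))))) (XT.nd (nat_lit 312) (nat_lit 304) (nat_lit 0) (XT.nd (nat_lit 156) (nat_lit 0) (nat_lit 76) (XT.nd (nat_lit 78) (nat_lit 0) (nat_lit 0) (XT.lf (nat_lit 0) (nat_lit 7732147538) (nat_lit 304) (nat_lit 145458437287) (nat_lit 380) (nat_lit 83716854960) (nat_lit 16) (nat_lit 5) (nat_lit 20) (nat_lit 5) (nat_lit 21) (nat_lit 5) (nat_lit 230) (nat_lit 228) (nat_lit 142)) (XT.lf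 (nat_lit 0) (nat_lit 18124748228) (nat_lit 304) (nat_lit 41912460026) (nat_lit 380) (nat_lit 195645710309) (nat_lit 16) (nat_lit 5) (nat_lit 20) (nat_lit 5) (nat_lit 21) (nat_lit 5) (nat_lit 231) (nat_lit 228) (nat_lit 141))) (XT.nd (nat_lit 78) (nat_lit 0) (nat_lit 0) (XT.lf (nat_lit 0) (nat_lit 35700452033) (nat_lit 304) (nat_lit 194159096522) (nat_lit 76) (nat_lit 46571540210) (nat_lit 17) (nat_lit 5) (nat_lit 21) (nat_lit 5) (nat_lit 18) (nat_lit 5) (nat_lit 232) (nat_lit 228) (nat_lit 140)) (XT.lf (nat_lit 0) (nat_lit 61066464567) (nat_lit 304) (nat_lit 73131765292) (nat_lit 76) (nat_lit 165320163020) (nat_lit 17) (nat_lit 5) (nat_lit 21) (nat_lit 5) (nat_lit 18) (nat_lit 5) (nat_lit 233) (nat_lit 228) (nat_lit 139)))) (XT.nd (nat_lit 156) (nat_lit 152) (nat_lit 0) (XT.nd (nat_lit 78) (nat_lit 0) (nat_lit 0) (XT.lf (nat_lit 0) (nat_lit 72504355430) (nat_lit 228) (nat_lit 20735128497)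 (nat_lit 304) (nat_lit 232378994119) (nat_lit 14) (nat_lit 5) (nat_lit 17) (nat_lit 5) (nat_lit 18) (nat_lit 5) (nat_lit 234) (nat_lit 228) (nat_lit 138)) (XT.lf (nat_lit 0) (nat_lit 138787565245) (nat_lit 304) (nat_lit 111581857375) (nat_lit 76) (nat_lit 103981788034) (nat_lit 14) (nat_lit 5) (nat_lit 18) (nat_lit 5) (nat_lit 15) (nat_lit 5) (nat_lit 235) (nat_lit 228) (nat_lit 137))) (XT.nd (nat_lit 78) (nat_lit 0) (nat_lit 0) (XT.lf (nat_lit 0) (nat_lit 55097916344) (nat_lit 152) (nat_lit 139338700979) (nat_lit 228) (nat_lit 192466922937) (nat_lit 12) (nat_lit 5) (nat_lit 14) (nat_lit 5) (nat_lit 15) (nat_lit 5) (nat_lit 236) (nat_lit 228) (nat_lit 136)) (XT.lf (nat_lit 0) (nat_lit 259319800007) (nat_lit 152) (nat_lit 4945808970) (nat_lit 228) (nat_lit 159198223839) (nat_lit 12) (nat_lit 5) (nat_lit 14) (nat_lit 5) (nat_lit 15) (nat_lit 5) (nat_lit 237) (nat_lit 228) (nat_lit 135))))))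 (XT.nd (nat_lit 624) (nat_lit 304) (nat_lit 0) (XT.nd (nat_lit 312) (nat_lit 76) (nat_lit 0) (XT.nd (nat_lit 156) (nat_lit 228) (nat_lit 0) (XT.nd (nat_lit 78) (nat_lit 0) (nat_lit 0) (XT.lf (nat_lit 0) (nat_lit 24667907389) (nat_lit 76) (nat_lit 327117260128) (nat_lit 152) (nat_lit 112640569693) (nat_lit 11) (nat_lit 5) (nat_lit 12) (nat_lit 5) (nat_lit 13) (nat_lit 4) (nat_lit 238) (nat_lit 228) (nat_lit 134)) (XT.lf (nat_lit 0) (nat_lit 259990533468) (nat_lit 76) (nat_lit 201247105704) (nat_lit 152) (nat_lit 48973541775) (nat_lit 11) (nat_lit 5) (nat_lit 12) (nat_lit 5) (nat_lit 13) (nat_lit 4) (nat_lit 239) (nat_lit 228) (nat_lit 133))) (XT.nd (nat_lit 78) (nat_lit 152) (nat_lit 0) (XT.lf (nat_lit 0) (nat_lit 22085133529) (nat_lit 152) (nat_lit 33256878133) (nat_lit 76) (nat_lit 507371860910) (nat_lit 10) (nat_lit 5) (nat_lit 12) (nat_lit 5) (nat_lit 11) (nat_lit 5) (nat_lit 240)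 (nat_lit 228) (nat_lit 132)) (XT.lf (nat_lit 0) (nat_lit 113742532555) (nat_lit 228) (nat_lit 391688943141) (nat_lit 76) (nat_lit 115067599575) (nat_lit 8) (nat_lit 5) (nat_lit 11) (nat_lit 5) (nat_lit 9) (nat_lit 4) (nat_lit 241) (nat_lit 228) (nat_lit 131)))) (XT.nd (nat_lit 156) (nat_lit 0) (nat_lit 0) (XT.nd (nat_lit 78) (nat_lit 76) (nat_lit 0) (XT.lf (nat_lit 0) (nat_lit 223605020035) (nat_lit 228) (nat_lit 155484702537) (nat_lit 76) (nat_lit 307193864348) (nat_lit 8) (nat_lit 5) (nat_lit 11) (nat_lit 5) (nat_lit 9) (nat_lit 4) (nat_lit 242) (nat_lit 228) (nat_lit 130)) (XT.lf (nat_lit 0) (nat_lit 127501113016) (nat_lit 76) (nat_lit 227725260048) (nat_lit 152) (nat_lit 405917478680) (nat_lit 7) (nat_lit 5) (nat_lit 8) (nat_lit 5) (nat_lit 9) (nat_lit 4) (nat_lit 243) (nat_lit 228) (nat_lit 129))) (XT.nd (nat_lit 78) (nat_lit 0) (nat_lit 0) (XT.lf (nat_lit 0) (nat_lit 470409073493)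 (nat_lit 76) (nat_lit 44309412011) (nat_lit 152) (nat_lit 331295537572) (nat_lit 7) (nat_lit 5) (nat_lit 8) (nat_lit 5) (nat_lit 9) (nat_lit 4) (nat_lit 244) (nat_lit 228) (nat_lit 128)) (XT.lf (nat_lit 0) (nat_lit 705033697218) (nat_lit 152) (nat_lit 85760903974) (nat_lit 0) (nat_lit 151785226774) (nat_lit 7) (nat_lit 5) (nat_lit 9) (nat_lit 4) (nat_lit 7) (nat_lit 4) (nat_lit 245) (nat_lit 228) (nat_lit 127))))) (XT.nd (nat_lit 312) (nat_lit 76) (nat_lit 0) (XT.nd (nat_lit 156) (nat_lit 76) (nat_lit 0) (XT.nd (nat_lit 78) (nat_lit 76) (nat_lit 0) (XT.lf (nat_lit 0) (nat_lit 269436835289) (nat_lit 76) (nat_lit 667726091016) (nat_lit 76) (nat_lit 114477567136) (nat_lit 6) (nat_lit 4) (nat_lit 7) (nat_lit 5) (nat_lit 7) (nat_lit 4) (nat_lit 246) (nat_lit 228) (nat_lit 126)) (XT.lf (nat_lit 0) (nat_lit 29339378770) (nat_lit 152) (nat_lit 490168905988) (nat_lit 76) (nat_lit 656679495265)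 (nat_lit 5) (nat_lit 5) (nat_lit 7) (nat_lit 5) (nat_lit 6) (nat_lit 4) (nat_lit 247) (nat_lit 228) (nat_lit 125))) (XT.nd (nat_lit 78) (nat_lit 76) (nat_lit 0) (XT.lf (nat_lit 0) (nat_lit 183008508905) (nat_lit 152) (nat_lit 159780316603) (nat_lit 76) (nat_lit 975810642599) (nat_lit 5) (nat_lit 5) (nat_lit 7) (nat_lit 5) (nat_lit 6) (nat_lit 4) (nat_lit 248) (nat_lit 228) (nat_lit 124)) (XT.lf (nat_lit 0) (nat_lit 241682778734) (nat_lit 76) (nat_lit 128052767600) (nat_lit 152) (nat_lit 1111136232513) (nat_lit 4) (nat_lit 5) (nat_lit 5) (nat_lit 5) (nat_lit 6) (nat_lit 4) (nat_lit 249) (nat_lit 228) (nat_lit 123)))) (XT.nd (nat_lit 156) (nat_lit 76) (nat_lit 0) (XT.nd (nat_lit 78) (nat_lit 0) (nat_lit 0) (XT.lf (nat_lit 0) (nat_lit 598144618567) (nat_lit 152) (nat_lit 950230557879) (nat_lit 0) (nat_lit 117058812969) (nat_lit 4) (nat_lit 5) (nat_lit 6) (nat_lit 4) (nat_lit 4) (nat_lit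 4) (nat_lit 250) (nat_lit 228) (nat_lit 122)) (XT.lf (nat_lit 0) (nat_lit 866912776537) (nat_lit 152) (nat_lit 624026148542) (nat_lit 0) (nat_lit 385826947837) (nat_lit 4) (nat_lit 5) (nat_lit 6) (nat_lit 4) (nat_lit 4) (nat_lit 4) (nat_lit 251) (nat_lit 228) (nat_lit 121))) (XT.nd (nat_lit 78) (nat_lit 76) (nat_lit 0) (XT.lf (nat_lit 0) (nat_lit 1175996135650) (nat_lit 152) (nat_lit 248891119886) (nat_lit 0) (nat_lit 694910286861) (nat_lit 4) (nat_lit 5) (nat_lit 6) (nat_lit 4) (nat_lit 4) (nat_lit 4) (nat_lit 252) (nat_lit 228) (nat_lit 120)) (XT.lf (nat_lit 0) (nat_lit 200350734290) (nat_lit 76) (nat_lit 1339387341386) (nat_lit 76) (nat_lit 858301475129) (nat_lit 3) (nat_lit 4) (nat_lit 4) (nat_lit 5) (nat_lit 4) (nat_lit 4) (nat_lit 253) (nat_lit 228) (nat_lit 119))))))))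
noncomputable def xc82 : XT := (XT.nd (nat_lit 1248) (nat_lit 0) (nat_lit 0) (XT.nd (nat_lit 624) (nat_lit 0) (nat_lit 0) (XT.nd (nat_lit 312) (nat_lit 152) (nat_lit 0) (XT.nd (nat_lit 156) (nat_lit 0) (nat_lit 0) (XT.nd (nat_lit 78) (nat_lit 0) (nat_lit 0) (XT.lf (nat_lit 0) (nat_lit 744950799569) (nat_lit 76) (nat_lit 1226100706269) (nat_lit 76) (nat_lit 745014824822) (nat_lit 3) (nat_lit 4) (nat_lit 4) (nat_lit 5) (nat_lit 4) (nat_lit 4) (nat_lit 254) (nat_lit 228) (nat_lit 118)) (XT.lf (nat_lit 0) (nat_lit 1371240844266) (nat_lit 76) (nat_lit 1095821090171) (nat_lit 76) (nat_lit 614735195516) (nat_lit 3) (nat_lit 4) (nat_lit 4) (nat_lit 5) (nat_lit 4) (nat_lit 4) (nat_lit 255) (nat_lit 228) (nat_lit 117))) (XT.nd (nat_lit 78) (nat_lit 0) (nat_lit 0) (XT.lf (nat_lit 0) (nat_lit 2091474369256) (nat_lit 76) (nat_lit 945999544082) (nat_lit 76) (nat_lit 464913637941) (nat_lit 3) (nat_lit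 4) (nat_lit 4) (nat_lit 5) (nat_lit 4) (nat_lit 4) (nat_lit 256) (nat_lit 228) (nat_lit 116)) (XT.lf (nat_lit 0) (nat_lit 2919742900028) (nat_lit 76) (nat_lit 773704776882) (nat_lit 76) (nat_lit 292618860754) (nat_lit 3) (nat_lit 4) (nat_lit 4) (nat_lit 5) (nat_lit 4) (nat_lit 4) (nat_lit 257) (nat_lit 228) (nat_lit 115)))) (XT.nd (nat_lit 156) (nat_lit 76) (nat_lit 0) (XT.nd (nat_lit 78) (nat_lit 76) (nat_lit 0) (XT.lf (nat_lit 0) (nat_lit 3872251690445) (nat_lit 76) (nat_lit 575565803997) (nat_lit 76) (nat_lit 94479879184) (nat_lit 3) (nat_lit 4) (nat_lit 4) (nat_lit 5) (nat_lit 4) (nat_lit 4) (nat_lit 258) (nat_lit 228) (nat_lit 114)) (XT.lf (nat_lit 0) (nat_lit 121505534508) (nat_lit 152) (nat_lit 219849033171) (nat_lit 76) (nat_lit 4839779821882) (nat_lit 2) (nat_lit 5) (nat_lit 4) (nat_lit 5) (nat_lit 3) (nat_lit 4) (nat_lit 259) (nat_lit 228) (nat_lit 113))) (XT.nd (nat_lit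 78) (nat_lit 0) (nat_lit 0) (XT.lf (nat_lit 0) (nat_lit 322049093873) (nat_lit 76) (nat_lit 51502084175) (nat_lit 152) (nat_lit 5539570619909) (nat_lit 1) (nat_lit 5) (nat_lit 2) (nat_lit 5) (nat_lit 3) (nat_lit 4) (nat_lit 260) (nat_lit 228) (nat_lit 112)) (XT.lf (nat_lit 0) (nat_lit 687112919438) (nat_lit 152) (nat_lit 5795460695093) (nat_lit 0) (nat_lit 268777315402) (nat_lit 1) (nat_lit 5) (nat_lit 3) (nat_lit 4) (nat_lit 1) (nat_lit 4) (nat_lit 261) (nat_lit 228) (nat_lit 111))))) (XT.nd (nat_lit 312) (nat_lit 0) (nat_lit 0) (XT.nd (nat_lit 156) (nat_lit 0) (nat_lit 0) (XT.nd (nat_lit 78) (nat_lit 0) (nat_lit 0) (XT.lf (nat_lit 0) (nat_lit 1050161395073) (nat_lit 152) (nat_lit 6032959378972) (nat_lit 0) (nat_lit 631825786719) (nat_lit 1) (nat_lit 5) (nat_lit 3) (nat_lit 4) (nat_lit 1) (nat_lit 4) (nat_lit 262) (nat_lit 228) (nat_lit 110)) (XT.lf (nat_lit 0) (nat_lit 1467667135826)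 (nat_lit 152) (nat_lit 6306082877625) (nat_lit 0) (nat_lit 1049331523717) (nat_lit 1) (nat_lit 5) (nat_lit 3) (nat_lit 4) (nat_lit 1) (nat_lit 4) (nat_lit 263) (nat_lit 228) (nat_lit 109))) (XT.nd (nat_lit 78) (nat_lit 0) (nat_lit 0) (XT.lf (nat_lit 0) (nat_lit 1947798732276) (nat_lit 152) (nat_lit 6620174911679) (nat_lit 0) (nat_lit 1529463116902) (nat_lit 1) (nat_lit 5) (nat_lit 3) (nat_lit 4) (nat_lit 1) (nat_lit 4) (nat_lit 264) (nat_lit 228) (nat_lit 108)) (XT.lf (nat_lit 0) (nat_lit 2499950063485) (nat_lit 152) (nat_lit 6981380760059) (nat_lit 0) (nat_lit 2081614445271) (nat_lit 1) (nat_lit 5) (nat_lit 3) (nat_lit 4) (nat_lit 1) (nat_lit 4) (nat_lit 265) (nat_lit 228) (nat_lit 107)))) (XT.nd (nat_lit 156) (nat_lit 0) (nat_lit 0) (XT.nd (nat_lit 78) (nat_lit 0) (nat_lit 0) (XT.lf (nat_lit 0) (nat_lit 3134924090280) (nat_lit 152) (nat_lit 7396767493712) (nat_lit 0) (nat_lit 2716588469598)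 (nat_lit 1) (nat_lit 5) (nat_lit 3) (nat_lit 4) (nat_lit 1) (nat_lit 4) (nat_lit 266) (nat_lit 228) (nat_lit 106)) (XT.lf (nat_lit 0) (nat_lit 3865144217533) (nat_lit 152) (nat_lit 7874462244385) (nat_lit 0) (nat_lit 3446808594705) (nat_lit 1) (nat_lit 5) (nat_lit 3) (nat_lit 4) (nat_lit 1) (nat_lit 4) (nat_lit 267) (nat_lit 228) (nat_lit 105))) (XT.nd (nat_lit 78) (nat_lit 0) (nat_lit 0) (XT.lf (nat_lit 0) (nat_lit 4704897360779) (nat_lit 152) (nat_lit 8423811213720) (nat_lit 0) (nat_lit 4286561736083) (nat_lit 1) (nat_lit 5) (nat_lit 3) (nat_lit 4) (nat_lit 1) (nat_lit 4) (nat_lit 268) (nat_lit 228) (nat_lit 104)) (XT.lf (nat_lit 0) (nat_lit 5670613472819) (nat_lit 152) (nat_lit 9055562533727) (nat_lit 0) (nat_lit 5252277846500) (nat_lit 1) (nat_lit 5) (nat_lit 3) (nat_lit 4) (nat_lit 1) (nat_lit 4) (nat_lit 269) (nat_lit 228) (nat_lit 103)))))) (XT.nd (nat_lit 28236) (nat_lit 0)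 (nat_lit 836) (XT.nd (nat_lit 312) (nat_lit 0) (nat_lit 0) (XT.nd (nat_lit 156) (nat_lit 0) (nat_lit 0) (XT.nd (nat_lit 78) (nat_lit 0) (nat_lit 0) (XT.lf (nat_lit 0) (nat_lit 6781186999323) (nat_lit 152) (nat_lit 9782076556318) (nat_lit 0) (nat_lit 6362851371593) (nat_lit 1) (nat_lit 5) (nat_lit 3) (nat_lit 4) (nat_lit 1) (nat_lit 4) (nat_lit 270) (nat_lit 228) (nat_lit 102)) (XT.lf (nat_lit 0) (nat_lit 8058346552767) (nat_lit 152) (nat_lit 10617567686283) (nat_lit 0) (nat_lit 7640010923810) (nat_lit 1) (nat_lit 5) (nat_lit 3) (nat_lit 4) (nat_lit 1) (nat_lit 4) (nat_lit 271) (nat_lit 228) (nat_lit 101))) (XT.nd (nat_lit 78) (nat_lit 0) (nat_lit 0) (XT.lf (nat_lit 0) (nat_lit 9527080037458) (nat_lit 152) (nat_lit 11578382489209) (nat_lit 0) (nat_lit 9108744407433) (nat_lit 1) (nat_lit 5) (nat_lit 3) (nat_lit 4) (nat_lit 1) (nat_lit 4) (nat_lit 272) (nat_lit 228) (nat_lit 100)) (XT.lf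 (nat_lit 0) (nat_lit 11216123543313) (nat_lit 152) (nat_lit 12683319515587) (nat_lit 0) (nat_lit 10797787912360) (nat_lit 1) (nat_lit 5) (nat_lit 3) (nat_lit 4) (nat_lit 1) (nat_lit 4) (nat_lit 273) (nat_lit 228) (nat_lit 99)))) (XT.nd (nat_lit 27768) (nat_lit 0) (nat_lit 1444) (XT.nd (nat_lit 78) (nat_lit 0) (nat_lit 0) (XT.lf (nat_lit 0) (nat_lit 13158523573708) (nat_lit 152) (nat_lit 13953997098543) (nat_lit 0) (nat_lit 12740187941947) (nat_lit 1) (nat_lit 5) (nat_lit 3) (nat_lit 4) (nat_lit 1) (nat_lit 4) (nat_lit 274) (nat_lit 228) (nat_lit 98)) (XT.lf (nat_lit 0) (nat_lit 15392283607497) (nat_lit 152) (nat_lit 15415276321221) (nat_lit 0) (nat_lit 14973947975035) (nat_lit 1) (nat_lit 5) (nat_lit 3) (nat_lit 4) (nat_lit 1) (nat_lit 4) (nat_lit 275) (nat_lit 228) (nat_lit 97))) (XT.nd (nat_lit 78) (nat_lit 0) (nat_lit 0) (XT.lf (nat_lit 0) (nat_lit 58930507074) (nat_lit 0) (nat_lit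 58930507074) (nat_lit 228) (nat_lit 22354476) (nat_lit 20) (nat_lit 5) (nat_lit 20) (nat_lit 3) (nat_lit 23) (nat_lit 3) (nat_lit 229) (nat_lit 229) (nat_lit 142)) (XT.lf (nat_lit 0) (nat_lit 237075058897) (nat_lit 0) (nat_lit 16327105903) (nat_lit 228) (nat_lit 46920022) (nat_lit 20) (nat_lit 5) (nat_lit 20) (nat_lit 3) (nat_lit 23) (nat_lit 3) (nat_lit 230) (nat_lit 229) (nat_lit 141))))) (XT.nd (nat_lit 312) (nat_lit 304) (nat_lit 0) (XT.nd (nat_lit 156) (nat_lit 0) (nat_lit 76) (XT.nd (nat_lit 78) (nat_lit 0) (nat_lit 0) (XT.lf (nat_lit 0) (nat_lit 8893984615) (nat_lit 304) (nat_lit 167275578528) (nat_lit 380) (nat_lit 96273673591) (nat_lit 16) (nat_lit 5) (nat_lit 20) (nat_lit 5) (nat_lit 21) (nat_lit 5) (nat_lit 231) (nat_lit 229) (nat_lit 140)) (XT.lf (nat_lit 0) (nat_lit 20845212589) (nat_lit 304) (nat_lit 48197916550) (nat_lit 380) (nat_lit 224991949801) (nat_lit 16) (nat_lit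 5) (nat_lit 20) (nat_lit 5) (nat_lit 21) (nat_lit 5) (nat_lit 232) (nat_lit 229) (nat_lit 139))) (XT.nd (nat_lit 78) (nat_lit 0) (nat_lit 0) (XT.lf (nat_lit 0) (nat_lit 41057089685) (nat_lit 304) (nat_lit 223281353556) (nat_lit 76) (nat_lit 53557060678) (nat_lit 17) (nat_lit 5) (nat_lit 21) (nat_lit 5) (nat_lit 18) (nat_lit 5) (nat_lit 233) (nat_lit 229) (nat_lit 138)) (XT.lf (nat_lit 0) (nat_lit 70227799336) (nat_lit 304) (nat_lit 84100132308) (nat_lit 76) (nat_lit 190118004374) (nat_lit 17) (nat_lit 5) (nat_lit 21) (nat_lit 5) (nat_lit 18) (nat_lit 5) (nat_lit 234) (nat_lit 229) (nat_lit 137)))) (XT.nd (nat_lit 156) (nat_lit 152) (nat_lit 0) (XT.nd (nat_lit 78) (nat_lit 0) (nat_lit 0) (XT.lf (nat_lit 0) (nat_lit 83381342987) (nat_lit 228) (nat_lit 23845305806) (nat_lit 304) (nat_lit 267234405026) (nat_lit 14) (nat_lit 5) (nat_lit 17) (nat_lit 5) (nat_lit 18) (nat_lit 5) (nat_lit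 235) (nat_lit 229) (nat_lit 136)) (XT.lf (nat_lit 0) (nat_lit 159606783584) (nat_lit 304) (nat_lit 128317808705) (nat_lit 76) (nat_lit 119579129090) (nat_lit 14) (nat_lit 5) (nat_lit 18) (nat_lit 5) (nat_lit 15) (nat_lit 5) (nat_lit 236) (nat_lit 229) (nat_lit 135))) (XT.nd (nat_lit 78) (nat_lit 0) (nat_lit 0) (XT.lf (nat_lit 0) (nat_lit 63363870742) (nat_lit 152) (nat_lit 160239233861) (nat_lit 228) (nat_lit 221335810241) (nat_lit 12) (nat_lit 5) (nat_lit 14) (nat_lit 5) (nat_lit 15) (nat_lit 5) (nat_lit 237) (nat_lit 229) (nat_lit 134)) (XT.lf (nat_lit 0) (nat_lit 298218871700) (nat_lit 152) (nat_lit 5687443564) (nat_lit 228) (nat_lit 183076956427) (nat_lit 12) (nat_lit 5) (nat_lit 14) (nat_lit 5) (nat_lit 15) (nat_lit 5) (nat_lit 238) (nat_lit 229) (nat_lit 133)))))))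
noncomputable def xc83 : XT := (XT.nd (nat_lit 1248) (nat_lit 152) (nat_lit 0) (XT.nd (nat_lit 624) (nat_lit 304) (nat_lit 0) (XT.nd (nat_lit 312) (nat_lit 76) (nat_lit 0) (XT.nd (nat_lit 156) (nat_lit 228) (nat_lit 0) (XT.nd (nat_lit 78) (nat_lit 0) (nat_lit 0) (XT.lf (nat_lit 0) (nat_lit 28369265618) (nat_lit 76) (nat_lit 376184486207) (nat_lit 152) (nat_lit 129535719104) (nat_lit 11) (nat_lit 5) (nat_lit 12) (nat_lit 5) (nat_lit 13) (nat_lit 4) (nat_lit 239) (nat_lit 229) (nat_lit 132)) (XT.lf (nat_lit 0) (nat_lit 298990132724) (nat_lit 76) (nat_lit 231433855960) (nat_lit 152) (nat_lit 56318759091) (nat_lit 11) (nat_lit 5) (nat_lit 12) (nat_lit 5) (nat_lit 13) (nat_lit 4) (nat_lit 240) (nat_lit 229) (nat_lit 131))) (XT.nd (nat_lit 78) (nat_lit 152) (nat_lit 0) (XT.lf (nat_lit 0) (nat_lit 25398548330) (nat_lit 152) (nat_lit 38244456943) (nat_lit 76) (nat_lit 583477847863) (nat_lit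 10) (nat_lit 5) (nat_lit 12) (nat_lit 5) (nat_lit 11) (nat_lit 5) (nat_lit 241) (nat_lit 229) (nat_lit 130)) (XT.lf (nat_lit 0) (nat_lit 130804523662) (nat_lit 228) (nat_lit 450441295019) (nat_lit 76) (nat_lit 132328023062) (nat_lit 8) (nat_lit 5) (nat_lit 11) (nat_lit 5) (nat_lit 9) (nat_lit 4) (nat_lit 242) (nat_lit 229) (nat_lit 129)))) (XT.nd (nat_lit 156) (nat_lit 0) (nat_lit 0) (XT.nd (nat_lit 78) (nat_lit 76) (nat_lit 0) (XT.lf (nat_lit 0) (nat_lit 257146304539) (nat_lit 228) (nat_lit 178806547402) (nat_lit 76) (nat_lit 353273190566) (nat_lit 8) (nat_lit 5) (nat_lit 11) (nat_lit 5) (nat_lit 9) (nat_lit 4) (nat_lit 243) (nat_lit 229) (nat_lit 128)) (XT.lf (nat_lit 0) (nat_lit 146627101369) (nat_lit 76) (nat_lit 261883723839) (nat_lit 152) (nat_lit 466804527498) (nat_lit 7) (nat_lit 5) (nat_lit 8) (nat_lit 5) (nat_lit 9) (nat_lit 4) (nat_lit 244) (nat_lit 229) (nat_lit 127)))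 (XT.nd (nat_lit 78) (nat_lit 0) (nat_lit 0) (XT.lf (nat_lit 0) (nat_lit 540971148779) (nat_lit 76) (nat_lit 50955541016) (nat_lit 152) (nat_lit 380989369961) (nat_lit 7) (nat_lit 5) (nat_lit 8) (nat_lit 5) (nat_lit 9) (nat_lit 4) (nat_lit 245) (nat_lit 229) (nat_lit 126)) (XT.lf (nat_lit 0) (nat_lit 810789137171) (nat_lit 152) (nat_lit 98624370584) (nat_lit 0) (nat_lit 174553234808) (nat_lit 7) (nat_lit 5) (nat_lit 9) (nat_lit 4) (nat_lit 7) (nat_lit 4) (nat_lit 246) (nat_lit 229) (nat_lit 125))))) (XT.nd (nat_lit 312) (nat_lit 76) (nat_lit 0) (XT.nd (nat_lit 156) (nat_lit 76) (nat_lit 0) (XT.nd (nat_lit 78) (nat_lit 76) (nat_lit 0) (XT.lf (nat_lit 0) (nat_lit 309852999160) (nat_lit 76) (nat_lit 767884727637) (nat_lit 76) (nat_lit 131648784868) (nat_lit 6) (nat_lit 4) (nat_lit 7) (nat_lit 5) (nat_lit 7) (nat_lit 4) (nat_lit 247) (nat_lit 229) (nat_lit 124)) (XT.lf (nat_lit 0) (nat_lit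 33740616180) (nat_lit 152) (nat_lit 563693653115) (nat_lit 76) (nat_lit 755181626964) (nat_lit 5) (nat_lit 5) (nat_lit 7) (nat_lit 5) (nat_lit 6) (nat_lit 4) (nat_lit 248) (nat_lit 229) (nat_lit 123))) (XT.nd (nat_lit 78) (nat_lit 76) (nat_lit 0) (XT.lf (nat_lit 0) (nat_lit 210460072714) (nat_lit 152) (nat_lit 183746852119) (nat_lit 76) (nat_lit 1122182419345) (nat_lit 5) (nat_lit 5) (nat_lit 7) (nat_lit 5) (nat_lit 6) (nat_lit 4) (nat_lit 249) (nat_lit 229) (nat_lit 122)) (XT.lf (nat_lit 0) (nat_lit 277935684248) (nat_lit 76) (nat_lit 147260464249) (nat_lit 152) (nat_lit 1277806355754) (nat_lit 4) (nat_lit 5) (nat_lit 5) (nat_lit 5) (nat_lit 6) (nat_lit 4) (nat_lit 250) (nat_lit 229) (nat_lit 121)))) (XT.nd (nat_lit 156) (nat_lit 76) (nat_lit 0) (XT.nd (nat_lit 78) (nat_lit 0) (nat_lit 0) (XT.lf (nat_lit 0) (nat_lit 687866554187) (nat_lit 152) (nat_lit 1092764688449) (nat_lit 0) (nat_lit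 134617807992) (nat_lit 4) (nat_lit 5) (nat_lit 6) (nat_lit 4) (nat_lit 4) (nat_lit 4) (nat_lit 251) (nat_lit 229) (nat_lit 120)) (XT.lf (nat_lit 0) (nat_lit 996949904179) (nat_lit 152) (nat_lit 717629676812) (nat_lit 0) (nat_lit 443701140515) (nat_lit 4) (nat_lit 5) (nat_lit 6) (nat_lit 4) (nat_lit 4) (nat_lit 4) (nat_lit 252) (nat_lit 229) (nat_lit 119))) (XT.nd (nat_lit 78) (nat_lit 76) (nat_lit 0) (XT.lf (nat_lit 0) (nat_lit 1352395739615) (nat_lit 152) (nat_lit 286224445250) (nat_lit 0) (nat_lit 799146960762) (nat_lit 4) (nat_lit 5) (nat_lit 6) (nat_lit 4) (nat_lit 4) (nat_lit 4) (nat_lit 253) (nat_lit 229) (nat_lit 118)) (XT.lf (nat_lit 0) (nat_lit 230403671478) (nat_lit 76) (nat_lit 1540295288760) (nat_lit 76) (nat_lit 987046496698) (nat_lit 3) (nat_lit 4) (nat_lit 4) (nat_lit 5) (nat_lit 4) (nat_lit 4) (nat_lit 254) (nat_lit 229) (nat_lit 117)))))) (XT.nd (nat_lit 624) (nat_lit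 0) (nat_lit 0) (XT.nd (nat_lit 312) (nat_lit 152) (nat_lit 0) (XT.nd (nat_lit 156) (nat_lit 0) (nat_lit 0) (XT.nd (nat_lit 78) (nat_lit 0) (nat_lit 0) (XT.lf (nat_lit 0) (nat_lit 856693703891) (nat_lit 76) (nat_lit 1410015678440) (nat_lit 76) (nat_lit 856766874893) (nat_lit 3) (nat_lit 4) (nat_lit 4) (nat_lit 5) (nat_lit 4) (nat_lit 4) (nat_lit 255) (nat_lit 229) (nat_lit 116)) (XT.lf (nat_lit 0) (nat_lit 1576927218199) (nat_lit 76) (nat_lit 1260194137375) (nat_lit 76) (nat_lit 706945323841) (nat_lit 3) (nat_lit 4) (nat_lit 4) (nat_lit 5) (nat_lit 4) (nat_lit 4) (nat_lit 256) (nat_lit 229) (nat_lit 115))) (XT.nd (nat_lit 78) (nat_lit 0) (nat_lit 0) (XT.lf (nat_lit 0) (nat_lit 2405195739682) (nat_lit 76) (nat_lit 1087899374545) (nat_lit 76) (nat_lit 534650552326) (nat_lit 3) (nat_lit 4) (nat_lit 4) (nat_lit 5) (nat_lit 4) (nat_lit 4) (nat_lit 257) (nat_lit 229) (nat_lit 114)) (XT.lf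 (nat_lit 0) (nat_lit 3357704522022) (nat_lit 76) (nat_lit 889760405459) (nat_lit 76) (nat_lit 336511575688) (nat_lit 3) (nat_lit 4) (nat_lit 4) (nat_lit 5) (nat_lit 4) (nat_lit 4) (nat_lit 258) (nat_lit 229) (nat_lit 113)))) (XT.nd (nat_lit 156) (nat_lit 76) (nat_lit 0) (XT.nd (nat_lit 78) (nat_lit 76) (nat_lit 0) (XT.lf (nat_lit 0) (nat_lit 4453089606611) (nat_lit 76) (nat_lit 661900598114) (nat_lit 76) (nat_lit 108651761775) (nat_lit 3) (nat_lit 4) (nat_lit 4) (nat_lit 5) (nat_lit 4) (nat_lit 4) (nat_lit 259) (nat_lit 229) (nat_lit 112)) (XT.lf (nat_lit 0) (nat_lit 139731443334) (nat_lit 152) (nat_lit 252826238879) (nat_lit 76) (nat_lit 5565746853794) (nat_lit 2) (nat_lit 5) (nat_lit 4) (nat_lit 5) (nat_lit 3) (nat_lit 4) (nat_lit 260) (nat_lit 229) (nat_lit 111))) (XT.nd (nat_lit 78) (nat_lit 0) (nat_lit 0) (XT.lf (nat_lit 0) (nat_lit 370356600438) (nat_lit 76) (nat_lit 59227328609)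 (nat_lit 152) (nat_lit 6370506127294) (nat_lit 1) (nat_lit 5) (nat_lit 2) (nat_lit 5) (nat_lit 3) (nat_lit 4) (nat_lit 261) (nat_lit 229) (nat_lit 110)) (XT.lf (nat_lit 0) (nat_lit 790179924411) (nat_lit 152) (nat_lit 6664779668079) (nat_lit 0) (nat_lit 309093966730) (nat_lit 1) (nat_lit 5) (nat_lit 3) (nat_lit 4) (nat_lit 1) (nat_lit 4) (nat_lit 262) (nat_lit 229) (nat_lit 109))))) (XT.nd (nat_lit 312) (nat_lit 0) (nat_lit 0) (XT.nd (nat_lit 156) (nat_lit 0) (nat_lit 0) (XT.nd (nat_lit 78) (nat_lit 0) (nat_lit 0) (XT.lf (nat_lit 0) (nat_lit 1207685662645) (nat_lit 152) (nat_lit 6937903171663) (nat_lit 0) (nat_lit 726599701699) (nat_lit 1) (nat_lit 5) (nat_lit 3) (nat_lit 4) (nat_lit 1) (nat_lit 4) (nat_lit 263) (nat_lit 229) (nat_lit 108)) (XT.lf (nat_lit 0) (nat_lit 1687817256904) (nat_lit 152) (nat_lit 7251995210004) (nat_lit 0) (nat_lit 1206731293120) (nat_lit 1) (nat_lit 5) (nat_lit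 3) (nat_lit 4) (nat_lit 1) (nat_lit 4) (nat_lit 264) (nat_lit 229) (nat_lit 107))) (XT.nd (nat_lit 78) (nat_lit 0) (nat_lit 0) (XT.lf (nat_lit 0) (nat_lit 2239968586208) (nat_lit 152) (nat_lit 7613201062113) (nat_lit 0) (nat_lit 1758882619955) (nat_lit 1) (nat_lit 5) (nat_lit 3) (nat_lit 4) (nat_lit 1) (nat_lit 4) (nat_lit 265) (nat_lit 229) (nat_lit 106)) (XT.lf (nat_lit 0) (nat_lit 2874942611347) (nat_lit 152) (nat_lit 8028587799009) (nat_lit 0) (nat_lit 2393856642947) (nat_lit 1) (nat_lit 5) (nat_lit 3) (nat_lit 4) (nat_lit 1) (nat_lit 4) (nat_lit 266) (nat_lit 229) (nat_lit 105)))) (XT.nd (nat_lit 156) (nat_lit 0) (nat_lit 0) (XT.nd (nat_lit 78) (nat_lit 0) (nat_lit 0) (XT.lf (nat_lit 0) (nat_lit 3605162737161) (nat_lit 152) (nat_lit 8506282552501) (nat_lit 0) (nat_lit 3124076766894) (nat_lit 1) (nat_lit 5) (nat_lit 3) (nat_lit 4) (nat_lit 1) (nat_lit 4) (nat_lit 267) (nat_lit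 229) (nat_lit 104)) (XT.lf (nat_lit 0) (nat_lit 4444915879154) (nat_lit 152) (nat_lit 9055631524288) (nat_lit 0) (nat_lit 3963829907264) (nat_lit 1) (nat_lit 5) (nat_lit 3) (nat_lit 4) (nat_lit 1) (nat_lit 4) (nat_lit 268) (nat_lit 229) (nat_lit 103))) (XT.nd (nat_lit 78) (nat_lit 0) (nat_lit 0) (XT.lf (nat_lit 0) (nat_lit 5410631990105) (nat_lit 152) (nat_lit 9687382846426) (nat_lit 0) (nat_lit 4929546016803) (nat_lit 1) (nat_lit 5) (nat_lit 3) (nat_lit 4) (nat_lit 1) (nat_lit 4) (nat_lit 269) (nat_lit 229) (nat_lit 102)) (XT.nd (nat_lit 78) (nat_lit 0) (nat_lit 0) (XT.lf (nat_lit 0) (nat_lit 6521205515662) (nat_lit 152) (nat_lit 10413896870871) (nat_lit 0) (nat_lit 6040119541133) (nat_lit 1) (nat_lit 5) (nat_lit 3) (nat_lit 4) (nat_lit 1) (nat_lit 4) (nat_lit 270) (nat_lit 229) (nat_lit 101)) (XT.lf (nat_lit 0) (nat_lit 7798365068283) (nat_lit 152) (nat_lit 11249388002448) (nat_lit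 0) (nat_lit 7317279092687) (nat_lit 1) (nat_lit 5) (nat_lit 3) (nat_lit 4) (nat_lit 1) (nat_lit 4) (nat_lit 271) (nat_lit 229) (nat_lit 100))))))))
noncomputable def xc84 : XT := (XT.nd (nat_lit 28938) (nat_lit 0) (nat_lit 152) (XT.nd (nat_lit 28314) (nat_lit 0) (nat_lit 760) (XT.nd (nat_lit 28002) (nat_lit 0) (nat_lit 1140) (XT.nd (nat_lit 156) (nat_lit 0) (nat_lit 0) (XT.nd (nat_lit 78) (nat_lit 0) (nat_lit 0) (XT.lf (nat_lit 0) (nat_lit 9267098552258) (nat_lit 152) (nat_lit 12210202806776) (nat_lit 0) (nat_lit 8786012575734) (nat_lit 1) (nat_lit 5) (nat_lit 3) (nat_lit 4) (nat_lit 1) (nat_lit 4) (nat_lit 272) (nat_lit 229) (nat_lit 99)) (XT.lf (nat_lit 0) (nat_lit 10956142057490) (nat_lit 152) (nat_lit 13315139834373) (nat_lit 0) (nat_lit 10475056080159) (nat_lit 1) (nat_lit 5) (nat_lit 3) (nat_lit 4) (nat_lit 1) (nat_lit 4) (nat_lit 273) (nat_lit 229) (nat_lit 98))) (XT.nd (nat_lit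 78) (nat_lit 0) (nat_lit 0) (XT.lf (nat_lit 0) (nat_lit 12898542087343) (nat_lit 152) (nat_lit 14585817418389) (nat_lit 0) (nat_lit 12417456109310) (nat_lit 1) (nat_lit 5) (nat_lit 3) (nat_lit 4) (nat_lit 1) (nat_lit 4) (nat_lit 274) (nat_lit 229) (nat_lit 97)) (XT.lf (nat_lit 0) (nat_lit 15132302120662) (nat_lit 152) (nat_lit 16047096641988) (nat_lit 0) (nat_lit 14651216142019) (nat_lit 1) (nat_lit 5) (nat_lit 3) (nat_lit 4) (nat_lit 1) (nat_lit 4) (nat_lit 275) (nat_lit 229) (nat_lit 96)))) (XT.nd (nat_lit 156) (nat_lit 304) (nat_lit 0) (XT.nd (nat_lit 78) (nat_lit 0) (nat_lit 0) (XT.lf (nat_lit 0) (nat_lit 67770554945) (nat_lit 0) (nat_lit 67770554945) (nat_lit 228) (nat_lit 24612838) (nat_lit 20) (nat_lit 5) (nat_lit 20) (nat_lit 3) (nat_lit 23) (nat_lit 3) (nat_lit 230) (nat_lit 230) (nat_lit 140)) (XT.lf (nat_lit 0) (nat_lit 272637138272) (nat_lit 0) (nat_lit 18776992328) (nat_lit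 228) (nat_lit 52054008) (nat_lit 20) (nat_lit 5) (nat_lit 20) (nat_lit 3) (nat_lit 23) (nat_lit 3) (nat_lit 231) (nat_lit 230) (nat_lit 139))) (XT.nd (nat_lit 78) (nat_lit 0) (nat_lit 0) (XT.lf (nat_lit 0) (nat_lit 10229605895) (nat_lit 304) (nat_lit 192365687065) (nat_lit 380) (nat_lit 110714188061) (nat_lit 16) (nat_lit 5) (nat_lit 20) (nat_lit 5) (nat_lit 21) (nat_lit 5) (nat_lit 232) (nat_lit 230) (nat_lit 138)) (XT.lf (nat_lit 0) (nat_lit 23973319337) (nat_lit 304) (nat_lit 55426535996) (nat_lit 380) (nat_lit 258740275690) (nat_lit 16) (nat_lit 5) (nat_lit 20) (nat_lit 5) (nat_lit 21) (nat_lit 5) (nat_lit 233) (nat_lit 230) (nat_lit 137))))) (XT.nd (nat_lit 312) (nat_lit 228) (nat_lit 0) (XT.nd (nat_lit 156) (nat_lit 228) (nat_lit 0) (XT.nd (nat_lit 78) (nat_lit 0) (nat_lit 0) (XT.lf (nat_lit 0) (nat_lit 47216840167) (nat_lit 304) (nat_lit 256772341130) (nat_lit 76) (nat_lit 61590460563)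 (nat_lit 17) (nat_lit 5) (nat_lit 21) (nat_lit 5) (nat_lit 18) (nat_lit 5) (nat_lit 234) (nat_lit 230) (nat_lit 136)) (XT.lf (nat_lit 0) (nat_lit 80763001435) (nat_lit 304) (nat_lit 96714095233) (nat_lit 76) (nat_lit 218635566581) (nat_lit 17) (nat_lit 5) (nat_lit 21) (nat_lit 5) (nat_lit 18) (nat_lit 5) (nat_lit 235) (nat_lit 230) (nat_lit 135))) (XT.nd (nat_lit 78) (nat_lit 0) (nat_lit 0) (XT.lf (nat_lit 0) (nat_lit 95889553314) (nat_lit 228) (nat_lit 27422032138) (nat_lit 304) (nat_lit 307318478286) (nat_lit 14) (nat_lit 5) (nat_lit 17) (nat_lit 5) (nat_lit 18) (nat_lit 5) (nat_lit 236) (nat_lit 230) (nat_lit 134)) (XT.lf (nat_lit 0) (nat_lit 183548620443) (nat_lit 304) (nat_lit 147564476398) (nat_lit 76) (nat_lit 137516053539) (nat_lit 14) (nat_lit 5) (nat_lit 18) (nat_lit 5) (nat_lit 15) (nat_lit 5) (nat_lit 237) (nat_lit 230) (nat_lit 133)))) (XT.nd (nat_lit 156) (nat_lit 76)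 (nat_lit 0) (XT.nd (nat_lit 78) (nat_lit 0) (nat_lit 0) (XT.lf (nat_lit 0) (nat_lit 72869409347) (nat_lit 152) (nat_lit 184274913068) (nat_lit 228) (nat_lit 254535311353) (nat_lit 12) (nat_lit 5) (nat_lit 14) (nat_lit 5) (nat_lit 15) (nat_lit 5) (nat_lit 238) (nat_lit 230) (nat_lit 132)) (XT.lf (nat_lit 0) (nat_lit 342952535493) (nat_lit 152) (nat_lit 6540381080) (nat_lit 228) (nat_lit 210537743000) (nat_lit 12) (nat_lit 5) (nat_lit 14) (nat_lit 5) (nat_lit 15) (nat_lit 5) (nat_lit 239) (nat_lit 230) (nat_lit 131))) (XT.nd (nat_lit 78) (nat_lit 0) (nat_lit 0) (XT.lf (nat_lit 0) (nat_lit 32625541753) (nat_lit 76) (nat_lit 432611884704) (nat_lit 152) (nat_lit 148965369187) (nat_lit 11) (nat_lit 5) (nat_lit 12) (nat_lit 5) (nat_lit 13) (nat_lit 4) (nat_lit 240) (nat_lit 230) (nat_lit 130)) (XT.lf (nat_lit 0) (nat_lit 343839423322) (nat_lit 76) (nat_lit 266148695715) (nat_lit 152) (nat_lit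 64765957491) (nat_lit 11) (nat_lit 5) (nat_lit 12) (nat_lit 5) (nat_lit 13) (nat_lit 4) (nat_lit 241) (nat_lit 230) (nat_lit 129)))))) (XT.nd (nat_lit 624) (nat_lit 152) (nat_lit 0) (XT.nd (nat_lit 312) (nat_lit 152) (nat_lit 0) (XT.nd (nat_lit 156) (nat_lit 76) (nat_lit 0) (XT.nd (nat_lit 78) (nat_lit 152) (nat_lit 0) (XT.lf (nat_lit 0) (nat_lit 29208818120) (nat_lit 152) (nat_lit 43980404947) (nat_lit 76) (nat_lit 670999682182) (nat_lit 10) (nat_lit 5) (nat_lit 12) (nat_lit 5) (nat_lit 11) (nat_lit 5) (nat_lit 242) (nat_lit 230) (nat_lit 128)) (XT.lf (nat_lit 0) (nat_lit 150425664384) (nat_lit 228) (nat_lit 518006740997) (nat_lit 76) (nat_lit 152177440926) (nat_lit 8) (nat_lit 5) (nat_lit 11) (nat_lit 5) (nat_lit 9) (nat_lit 4) (nat_lit 243) (nat_lit 230) (nat_lit 127))) (XT.nd (nat_lit 78) (nat_lit 76) (nat_lit 0) (XT.lf (nat_lit 0) (nat_lit 295718652110) (nat_lit 228) (nat_lit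 205626878839) (nat_lit 76) (nat_lit 406264355590) (nat_lit 8) (nat_lit 5) (nat_lit 11) (nat_lit 5) (nat_lit 9) (nat_lit 4) (nat_lit 244) (nat_lit 230) (nat_lit 126)) (XT.lf (nat_lit 0) (nat_lit 168621787672) (nat_lit 76) (nat_lit 301166036506) (nat_lit 152) (nat_lit 536824773364) (nat_lit 7) (nat_lit 5) (nat_lit 8) (nat_lit 5) (nat_lit 9) (nat_lit 4) (nat_lit 245) (nat_lit 230) (nat_lit 125)))) (XT.nd (nat_lit 156) (nat_lit 152) (nat_lit 0) (XT.nd (nat_lit 78) (nat_lit 0) (nat_lit 0) (XT.lf (nat_lit 0) (nat_lit 622117361181) (nat_lit 76) (nat_lit 58598658334) (nat_lit 152) (nat_lit 438137398708) (nat_lit 7) (nat_lit 5) (nat_lit 8) (nat_lit 5) (nat_lit 9) (nat_lit 4) (nat_lit 246) (nat_lit 230) (nat_lit 124)) (XT.lf (nat_lit 0) (nat_lit 932407799142) (nat_lit 152) (nat_lit 113417520323) (nat_lit 0) (nat_lit 200736389418) (nat_lit 7) (nat_lit 5) (nat_lit 9) (nat_lit 4) (nat_lit 7) (nat_lit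 4) (nat_lit 247) (nat_lit 230) (nat_lit 123))) (XT.nd (nat_lit 78) (nat_lit 76) (nat_lit 0) (XT.lf (nat_lit 0) (nat_lit 356331431890) (nat_lit 76) (nat_lit 883067227308) (nat_lit 76) (nat_lit 151395787032) (nat_lit 6) (nat_lit 4) (nat_lit 7) (nat_lit 5) (nat_lit 7) (nat_lit 4) (nat_lit 248) (nat_lit 230) (nat_lit 122)) (XT.lf (nat_lit 0) (nat_lit 38801958584) (nat_lit 152) (nat_lit 648247255886) (nat_lit 76) (nat_lit 868459027840) (nat_lit 5) (nat_lit 5) (nat_lit 7) (nat_lit 5) (nat_lit 6) (nat_lit 4) (nat_lit 249) (nat_lit 230) (nat_lit 121))))) (XT.nd (nat_lit 312) (nat_lit 76) (nat_lit 0) (XT.nd (nat_lit 156) (nat_lit 0) (nat_lit 0) (XT.nd (nat_lit 78) (nat_lit 76) (nat_lit 0) (XT.lf (nat_lit 0) (nat_lit 242029300992) (nat_lit 152) (nat_lit 211308492810) (nat_lit 76) (nat_lit 1290509918621) (nat_lit 5) (nat_lit 5) (nat_lit 7) (nat_lit 5) (nat_lit 6) (nat_lit 4) (nat_lit 250) (nat_lit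 230) (nat_lit 120)) (XT.lf (nat_lit 0) (nat_lit 319626406415) (nat_lit 76) (nat_lit 169349368676) (nat_lit 152) (nat_lit 1469477073476) (nat_lit 4) (nat_lit 5) (nat_lit 5) (nat_lit 5) (nat_lit 6) (nat_lit 4) (nat_lit 251) (nat_lit 230) (nat_lit 119))) (XT.nd (nat_lit 78) (nat_lit 0) (nat_lit 0) (XT.lf (nat_lit 0) (nat_lit 791046720933) (nat_lit 152) (nat_lit 1256679049098) (nat_lit 0) (nat_lit 154810610062) (nat_lit 4) (nat_lit 5) (nat_lit 6) (nat_lit 4) (nat_lit 4) (nat_lit 4) (nat_lit 252) (nat_lit 230) (nat_lit 118)) (XT.lf (nat_lit 0) (nat_lit 1146492549473) (nat_lit 152) (nat_lit 825273830405) (nat_lit 0) (nat_lit 510256425394) (nat_lit 4) (nat_lit 5) (nat_lit 6) (nat_lit 4) (nat_lit 4) (nat_lit 4) (nat_lit 253) (nat_lit 230) (nat_lit 117)))) (XT.nd (nat_lit 156) (nat_lit 0) (nat_lit 0) (XT.nd (nat_lit 78) (nat_lit 76) (nat_lit 0) (XT.lf (nat_lit 0) (nat_lit 1555255239400) (nat_lit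 152) (nat_lit 329157852969) (nat_lit 0) (nat_lit 919019103834) (nat_lit 4) (nat_lit 5) (nat_lit 6) (nat_lit 4) (nat_lit 4) (nat_lit 4) (nat_lit 254) (nat_lit 230) (nat_lit 116)) (XT.lf (nat_lit 0) (nat_lit 264964469493) (nat_lit 76) (nat_lit 1771339465752) (nat_lit 76) (nat_lit 1135103320200) (nat_lit 3) (nat_lit 4) (nat_lit 4) (nat_lit 5) (nat_lit 4) (nat_lit 4) (nat_lit 255) (nat_lit 230) (nat_lit 115))) (XT.nd (nat_lit 78) (nat_lit 0) (nat_lit 0) (XT.lf (nat_lit 0) (nat_lit 985197974512) (nat_lit 76) (nat_lit 1621517929057) (nat_lit 76) (nat_lit 985281774820) (nat_lit 3) (nat_lit 4) (nat_lit 4) (nat_lit 5) (nat_lit 4) (nat_lit 4) (nat_lit 256) (nat_lit 230) (nat_lit 114)) (XT.lf (nat_lit 0) (nat_lit 1813466487918) (nat_lit 76) (nat_lit 1449223170026) (nat_lit 76) (nat_lit 812987008237) (nat_lit 3) (nat_lit 4) (nat_lit 4) (nat_lit 5) (nat_lit 4) (nat_lit 4) (nat_lit 257) (nat_lit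 230) (nat_lit 113)))))))
noncomputable def xc85 : XT := (XT.nd (nat_lit 1248) (nat_lit 0) (nat_lit 0) (XT.nd (nat_lit 624) (nat_lit 0) (nat_lit 0) (XT.nd (nat_lit 312) (nat_lit 76) (nat_lit 0) (XT.nd (nat_lit 156) (nat_lit 76) (nat_lit 0) (XT.nd (nat_lit 78) (nat_lit 0) (nat_lit 0) (XT.lf (nat_lit 0) (nat_lit 2765975263234) (nat_lit 76) (nat_lit 1251084204244) (nat_lit 76) (nat_lit 614848035888) (nat_lit 3) (nat_lit 4) (nat_lit 4) (nat_lit 5) (nat_lit 4) (nat_lit 4) (nat_lit 258) (nat_lit 230) (nat_lit 112)) (XT.lf (nat_lit 0) (nat_lit 3861360341715) (nat_lit 76) (nat_lit 1023224399771) (nat_lit 76) (nat_lit 386988225704) (nat_lit 3) (nat_lit 4) (nat_lit 4) (nat_lit 5) (nat_lit 4) (nat_lit 4) (nat_lit 259) (nat_lit 230) (nat_lit 111))) (XT.nd (nat_lit 78) (nat_lit 76) (nat_lit 0) (XT.lf (nat_lit 0) (nat_lit 5121053170551) (nat_lit 76) (nat_lit 761185629998) (nat_lit 76) (nat_lit 124949450966)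 (nat_lit 3) (nat_lit 4) (nat_lit 4) (nat_lit 5) (nat_lit 4) (nat_lit 4) (nat_lit 260) (nat_lit 230) (nat_lit 110)) (XT.lf (nat_lit 0) (nat_lit 160691219305) (nat_lit 152) (nat_lit 290750061843) (nat_lit 76) (nat_lit 6400608926195) (nat_lit 2) (nat_lit 5) (nat_lit 4) (nat_lit 5) (nat_lit 3) (nat_lit 4) (nat_lit 261) (nat_lit 230) (nat_lit 109)))) (XT.nd (nat_lit 156) (nat_lit 0) (nat_lit 0) (XT.nd (nat_lit 78) (nat_lit 0) (nat_lit 0) (XT.lf (nat_lit 0) (nat_lit 425910198242) (nat_lit 76) (nat_lit 68111376337) (nat_lit 152) (nat_lit 7326081981661) (nat_lit 1) (nat_lit 5) (nat_lit 2) (nat_lit 5) (nat_lit 3) (nat_lit 4) (nat_lit 262) (nat_lit 230) (nat_lit 108)) (XT.lf (nat_lit 0) (nat_lit 908706963777) (nat_lit 152) (nat_lit 7664496519025) (nat_lit 0) (nat_lit 355458102586) (nat_lit 1) (nat_lit 5) (nat_lit 3) (nat_lit 4) (nat_lit 1) (nat_lit 4) (nat_lit 263) (nat_lit 230) (nat_lit 107)))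 (XT.nd (nat_lit 78) (nat_lit 0) (nat_lit 0) (XT.lf (nat_lit 0) (nat_lit 1388838556132) (nat_lit 152) (nat_lit 7978588561095) (nat_lit 0) (nat_lit 835589692472) (nat_lit 1) (nat_lit 5) (nat_lit 3) (nat_lit 4) (nat_lit 1) (nat_lit 4) (nat_lit 264) (nat_lit 230) (nat_lit 106)) (XT.lf (nat_lit 0) (nat_lit 1940989883780) (nat_lit 152) (nat_lit 8339794416446) (nat_lit 0) (nat_lit 1387741017973) (nat_lit 1) (nat_lit 5) (nat_lit 3) (nat_lit 4) (nat_lit 1) (nat_lit 4) (nat_lit 265) (nat_lit 230) (nat_lit 105))))) (XT.nd (nat_lit 312) (nat_lit 0) (nat_lit 0) (XT.nd (nat_lit 156) (nat_lit 0) (nat_lit 0) (XT.nd (nat_lit 78) (nat_lit 0) (nat_lit 0) (XT.lf (nat_lit 0) (nat_lit 2575963907479) (nat_lit 152) (nat_lit 8755181156161) (nat_lit 0) (nat_lit 2022715039805) (nat_lit 1) (nat_lit 5) (nat_lit 3) (nat_lit 4) (nat_lit 1) (nat_lit 4) (nat_lit 266) (nat_lit 230) (nat_lit 104)) (XT.lf (nat_lit 0)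 (nat_lit 3306184032040) (nat_lit 152) (nat_lit 9232875912105) (nat_lit 0) (nat_lit 2752935162743) (nat_lit 1) (nat_lit 5) (nat_lit 3) (nat_lit 4) (nat_lit 1) (nat_lit 4) (nat_lit 267) (nat_lit 230) (nat_lit 103))) (XT.nd (nat_lit 78) (nat_lit 0) (nat_lit 0) (XT.lf (nat_lit 0) (nat_lit 4145937172944) (nat_lit 152) (nat_lit 9782224886024) (nat_lit 0) (nat_lit 3592688302236) (nat_lit 1) (nat_lit 5) (nat_lit 3) (nat_lit 4) (nat_lit 1) (nat_lit 4) (nat_lit 268) (nat_lit 230) (nat_lit 102)) (XT.lf (nat_lit 0) (nat_lit 5111653282948) (nat_lit 152) (nat_lit 10413976210016) (nat_lit 0) (nat_lit 4558404411012) (nat_lit 1) (nat_lit 5) (nat_lit 3) (nat_lit 4) (nat_lit 1) (nat_lit 4) (nat_lit 269) (nat_lit 230) (nat_lit 101)))) (XT.nd (nat_lit 156) (nat_lit 0) (nat_lit 0) (XT.nd (nat_lit 78) (nat_lit 0) (nat_lit 0) (XT.lf (nat_lit 0) (nat_lit 6222226807682) (nat_lit 152) (nat_lit 11140490236073)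 (nat_lit 0) (nat_lit 5668977934679) (nat_lit 1) (nat_lit 5) (nat_lit 3) (nat_lit 4) (nat_lit 1) (nat_lit 4) (nat_lit 270) (nat_lit 230) (nat_lit 100)) (XT.lf (nat_lit 0) (nat_lit 7499386359587) (nat_lit 152) (nat_lit 11975981369052) (nat_lit 0) (nat_lit 6946137485656) (nat_lit 1) (nat_lit 5) (nat_lit 3) (nat_lit 4) (nat_lit 1) (nat_lit 4) (nat_lit 271) (nat_lit 230) (nat_lit 99))) (XT.nd (nat_lit 78) (nat_lit 0) (nat_lit 0) (XT.lf (nat_lit 0) (nat_lit 8968119842939) (nat_lit 152) (nat_lit 12936796174598) (nat_lit 0) (nat_lit 8414870968201) (nat_lit 1) (nat_lit 5) (nat_lit 3) (nat_lit 4) (nat_lit 1) (nat_lit 4) (nat_lit 272) (nat_lit 230) (nat_lit 98)) (XT.lf (nat_lit 0) (nat_lit 10657163347630) (nat_lit 152) (nat_lit 14041733203255) (nat_lit 0) (nat_lit 10103914472190) (nat_lit 1) (nat_lit 5) (nat_lit 3) (nat_lit 4) (nat_lit 1) (nat_lit 4) (nat_lit 273) (nat_lit 230) (nat_lit 97))))))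 (XT.nd (nat_lit 28392) (nat_lit 0) (nat_lit 532) (XT.nd (nat_lit 28080) (nat_lit 0) (nat_lit 1140) (XT.nd (nat_lit 27924) (nat_lit 0) (nat_lit 1444) (XT.nd (nat_lit 78) (nat_lit 0) (nat_lit 0) (XT.lf (nat_lit 0) (nat_lit 12599563377012) (nat_lit 152) (nat_lit 15312410788193) (nat_lit 0) (nat_lit 12046314500962) (nat_lit 1) (nat_lit 5) (nat_lit 3) (nat_lit 4) (nat_lit 1) (nat_lit 4) (nat_lit 274) (nat_lit 230) (nat_lit 96)) (XT.lf (nat_lit 0) (nat_lit 14833323409922) (nat_lit 152) (nat_lit 16773690012594) (nat_lit 0) (nat_lit 14280074533341) (nat_lit 1) (nat_lit 5) (nat_lit 3) (nat_lit 4) (nat_lit 1) (nat_lit 4) (nat_lit 275) (nat_lit 230) (nat_lit 95))) (XT.nd (nat_lit 78) (nat_lit 0) (nat_lit 0) (XT.lf (nat_lit 0) (nat_lit 77936494944) (nat_lit 0) (nat_lit 77936494944) (nat_lit 228) (nat_lit 27476929) (nat_lit 20) (nat_lit 5) (nat_lit 20) (nat_lit 3) (nat_lit 23) (nat_lit 3) (nat_lit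 231) (nat_lit 231) (nat_lit 138)) (XT.lf (nat_lit 0) (nat_lit 313533329458) (nat_lit 0) (nat_lit 21594161623) (nat_lit 228) (nat_lit 58422398) (nat_lit 20) (nat_lit 5) (nat_lit 20) (nat_lit 3) (nat_lit 23) (nat_lit 3) (nat_lit 232) (nat_lit 231) (nat_lit 137)))) (XT.nd (nat_lit 156) (nat_lit 0) (nat_lit 76) (XT.nd (nat_lit 78) (nat_lit 0) (nat_lit 0) (XT.lf (nat_lit 0) (nat_lit 11765198831) (nat_lit 304) (nat_lit 221219611396) (nat_lit 380) (nat_lit 127320910548) (nat_lit 16) (nat_lit 5) (nat_lit 20) (nat_lit 5) (nat_lit 21) (nat_lit 5) (nat_lit 233) (nat_lit 231) (nat_lit 136)) (XT.lf (nat_lit 0) (nat_lit 27570319022) (nat_lit 304) (nat_lit 63739708805) (nat_lit 380) (nat_lit 297550964241) (nat_lit 16) (nat_lit 5) (nat_lit 20) (nat_lit 5) (nat_lit 21) (nat_lit 5) (nat_lit 234) (nat_lit 231) (nat_lit 135))) (XT.nd (nat_lit 78) (nat_lit 0) (nat_lit 0) (XT.lf (nat_lit 0) (nat_lit 54300263756)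 (nat_lit 304) (nat_lit 295287273238) (nat_lit 76) (nat_lit 70828909257) (nat_lit 17) (nat_lit 5) (nat_lit 21) (nat_lit 5) (nat_lit 18) (nat_lit 5) (nat_lit 235) (nat_lit 231) (nat_lit 134)) (XT.lf (nat_lit 0) (nat_lit 92878232142) (nat_lit 304) (nat_lit 111220410334) (nat_lit 76) (nat_lit 251430796881) (nat_lit 17) (nat_lit 5) (nat_lit 21) (nat_lit 5) (nat_lit 18) (nat_lit 5) (nat_lit 236) (nat_lit 231) (nat_lit 133))))) (XT.nd (nat_lit 312) (nat_lit 304) (nat_lit 0) (XT.nd (nat_lit 156) (nat_lit 152) (nat_lit 0) (XT.nd (nat_lit 78) (nat_lit 0) (nat_lit 0) (XT.lf (nat_lit 0) (nat_lit 110273749169) (nat_lit 228) (nat_lit 31535284378) (nat_lit 304) (nat_lit 353415427727) (nat_lit 14) (nat_lit 5) (nat_lit 17) (nat_lit 5) (nat_lit 18) (nat_lit 5) (nat_lit 237) (nat_lit 231) (nat_lit 132)) (XT.lf (nat_lit 0) (nat_lit 211081533035) (nat_lit 304) (nat_lit 169698388983) (nat_lit 76) (nat_lit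 158143503222) (nat_lit 14) (nat_lit 5) (nat_lit 18) (nat_lit 5) (nat_lit 15) (nat_lit 5) (nat_lit 238) (nat_lit 231) (nat_lit 131))) (XT.nd (nat_lit 78) (nat_lit 0) (nat_lit 0) (XT.lf (nat_lit 0) (nat_lit 83800545130) (nat_lit 152) (nat_lit 211915994361) (nat_lit 228) (nat_lit 292714949890) (nat_lit 12) (nat_lit 5) (nat_lit 14) (nat_lit 5) (nat_lit 15) (nat_lit 5) (nat_lit 239) (nat_lit 231) (nat_lit 130)) (XT.lf (nat_lit 0) (nat_lit 394396045713) (nat_lit 152) (nat_lit 7521302878) (nat_lit 228) (nat_lit 242117832132) (nat_lit 12) (nat_lit 5) (nat_lit 14) (nat_lit 5) (nat_lit 15) (nat_lit 5) (nat_lit 240) (nat_lit 231) (nat_lit 129)))) (XT.nd (nat_lit 156) (nat_lit 228) (nat_lit 0) (XT.nd (nat_lit 78) (nat_lit 0) (nat_lit 0) (XT.lf (nat_lit 0) (nat_lit 37520043181) (nat_lit 76) (nat_lit 497503459898) (nat_lit 152) (nat_lit 171309639379) (nat_lit 11) (nat_lit 5) (nat_lit 12) (nat_lit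 5) (nat_lit 13) (nat_lit 4) (nat_lit 241) (nat_lit 231) (nat_lit 128)) (XT.lf (nat_lit 0) (nat_lit 395415919572) (nat_lit 76) (nat_lit 306070819628) (nat_lit 152) (nat_lit 74480385736) (nat_lit 11) (nat_lit 5) (nat_lit 12) (nat_lit 5) (nat_lit 13) (nat_lit 4) (nat_lit 242) (nat_lit 231) (nat_lit 127))) (XT.nd (nat_lit 78) (nat_lit 152) (nat_lit 0) (XT.lf (nat_lit 0) (nat_lit 33590509488) (nat_lit 152) (nat_lit 50576920860) (nat_lit 76) (nat_lit 771649753329) (nat_lit 10) (nat_lit 5) (nat_lit 12) (nat_lit 5) (nat_lit 11) (nat_lit 5) (nat_lit 243) (nat_lit 231) (nat_lit 126)) (XT.nd (nat_lit 78) (nat_lit 0) (nat_lit 0) (XT.lf (nat_lit 0) (nat_lit 172989863511) (nat_lit 228) (nat_lit 595707186344) (nat_lit 76) (nat_lit 175004219186) (nat_lit 8) (nat_lit 5) (nat_lit 11) (nat_lit 5) (nat_lit 9) (nat_lit 4) (nat_lit 244) (nat_lit 231) (nat_lit 125)) (XT.lf (nat_lit 0) (nat_lit 340076753812)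 (nat_lit 228) (nat_lit 236470418662) (nat_lit 76) (nat_lit 467204149903) (nat_lit 8) (nat_lit 5) (nat_lit 11) (nat_lit 5) (nat_lit 9) (nat_lit 4) (nat_lit 245) (nat_lit 231) (nat_lit 124))))))))
noncomputable def xc86 : XT := (XT.nd (nat_lit 1248) (nat_lit 152) (nat_lit 0) (XT.nd (nat_lit 624) (nat_lit 76) (nat_lit 0) (XT.nd (nat_lit 312) (nat_lit 152) (nat_lit 0) (XT.nd (nat_lit 156) (nat_lit 76) (nat_lit 0) (XT.nd (nat_lit 78) (nat_lit 0) (nat_lit 0) (XT.lf (nat_lit 0) (nat_lit 193915525462) (nat_lit 76) (nat_lit 346340756038) (nat_lit 152) (nat_lit 617348161763) (nat_lit 7) (nat_lit 5) (nat_lit 8) (nat_lit 5) (nat_lit 9) (nat_lit 4) (nat_lit 246) (nat_lit 231) (nat_lit 123)) (XT.lf (nat_lit 0) (nat_lit 715435373740) (nat_lit 76) (nat_lit 67388295394) (nat_lit 152) (nat_lit 503857723640) (nat_lit 7) (nat_lit 5) (nat_lit 8) (nat_lit 5) (nat_lit 9) (nat_lit 4) (nat_lit 247) (nat_lit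 231) (nat_lit 122))) (XT.nd (nat_lit 78) (nat_lit 76) (nat_lit 0) (XT.lf (nat_lit 0) (nat_lit 1072269189350) (nat_lit 152) (nat_lit 130429765876) (nat_lit 0) (nat_lit 230846975914) (nat_lit 7) (nat_lit 5) (nat_lit 9) (nat_lit 4) (nat_lit 7) (nat_lit 4) (nat_lit 248) (nat_lit 231) (nat_lit 121)) (XT.lf (nat_lit 0) (nat_lit 409781511782) (nat_lit 76) (nat_lit 1015527153011) (nat_lit 76) (nat_lit 174104916472) (nat_lit 6) (nat_lit 4) (nat_lit 7) (nat_lit 5) (nat_lit 7) (nat_lit 4) (nat_lit 249) (nat_lit 231) (nat_lit 120)))) (XT.nd (nat_lit 156) (nat_lit 76) (nat_lit 0) (XT.nd (nat_lit 78) (nat_lit 0) (nat_lit 0) (XT.lf (nat_lit 0) (nat_lit 44622441390) (nat_lit 152) (nat_lit 745484007637) (nat_lit 76) (nat_lit 998728000603) (nat_lit 5) (nat_lit 5) (nat_lit 7) (nat_lit 5) (nat_lit 6) (nat_lit 4) (nat_lit 250) (nat_lit 231) (nat_lit 119)) (XT.lf (nat_lit 0) (nat_lit 278333860505) (nat_lit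 152) (nat_lit 243004474008) (nat_lit 76) (nat_lit 1484086509534) (nat_lit 5) (nat_lit 5) (nat_lit 7) (nat_lit 5) (nat_lit 6) (nat_lit 4) (nat_lit 251) (nat_lit 231) (nat_lit 118))) (XT.nd (nat_lit 78) (nat_lit 0) (nat_lit 0) (XT.lf (nat_lit 0) (nat_lit 367570646796) (nat_lit 76) (nat_lit 194751649055) (nat_lit 152) (nat_lit 1689898456318) (nat_lit 4) (nat_lit 5) (nat_lit 5) (nat_lit 5) (nat_lit 6) (nat_lit 4) (nat_lit 252) (nat_lit 231) (nat_lit 117)) (XT.lf (nat_lit 0) (nat_lit 909703867915) (nat_lit 152) (nat_lit 1445180647394) (nat_lit 0) (nat_lit 178032300529) (nat_lit 4) (nat_lit 5) (nat_lit 6) (nat_lit 4) (nat_lit 4) (nat_lit 4) (nat_lit 253) (nat_lit 231) (nat_lit 116))))) (XT.nd (nat_lit 312) (nat_lit 0) (nat_lit 0) (XT.nd (nat_lit 156) (nat_lit 76) (nat_lit 0) (XT.nd (nat_lit 78) (nat_lit 0) (nat_lit 0) (XT.lf (nat_lit 0) (nat_lit 1318466552626) (nat_lit 152) (nat_lit 949064679689)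 (nat_lit 0) (nat_lit 586794975253) (nat_lit 4) (nat_lit 5) (nat_lit 6) (nat_lit 4) (nat_lit 4) (nat_lit 4) (nat_lit 254) (nat_lit 231) (nat_lit 115)) (XT.lf (nat_lit 0) (nat_lit 1788543630294) (nat_lit 152) (nat_lit 378531335022) (nat_lit 0) (nat_lit 1056872044236) (nat_lit 4) (nat_lit 5) (nat_lit 6) (nat_lit 4) (nat_lit 4) (nat_lit 4) (nat_lit 255) (nat_lit 231) (nat_lit 114))) (XT.nd (nat_lit 78) (nat_lit 0) (nat_lit 0) (XT.lf (nat_lit 0) (nat_lit 304709326906) (nat_lit 76) (nat_lit 2037040297660) (nat_lit 76) (nat_lit 1305368704050) (nat_lit 3) (nat_lit 4) (nat_lit 4) (nat_lit 5) (nat_lit 4) (nat_lit 4) (nat_lit 256) (nat_lit 231) (nat_lit 113)) (XT.lf (nat_lit 0) (nat_lit 1132977833288) (nat_lit 76) (nat_lit 1864745541933) (nat_lit 76) (nat_lit 1133073941756) (nat_lit 3) (nat_lit 4) (nat_lit 4) (nat_lit 5) (nat_lit 4) (nat_lit 4) (nat_lit 257) (nat_lit 231) (nat_lit 112)))) (XT.nd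 (nat_lit 156) (nat_lit 0) (nat_lit 0) (XT.nd (nat_lit 78) (nat_lit 0) (nat_lit 0) (XT.lf (nat_lit 0) (nat_lit 2085486602496) (nat_lit 76) (nat_lit 1666606579023) (nat_lit 76) (nat_lit 934934973136) (nat_lit 3) (nat_lit 4) (nat_lit 4) (nat_lit 5) (nat_lit 4) (nat_lit 4) (nat_lit 258) (nat_lit 231) (nat_lit 111)) (XT.lf (nat_lit 0) (nat_lit 3180871675667) (nat_lit 76) (nat_lit 1438746777049) (nat_lit 76) (nat_lit 707075166196) (nat_lit 3) (nat_lit 4) (nat_lit 4) (nat_lit 5) (nat_lit 4) (nat_lit 4) (nat_lit 259) (nat_lit 231) (nat_lit 110))) (XT.nd (nat_lit 78) (nat_lit 0) (nat_lit 0) (XT.lf (nat_lit 0) (nat_lit 4440564499884) (nat_lit 76) (nat_lit 1176708009448) (nat_lit 76) (nat_lit 445036394277) (nat_lit 3) (nat_lit 4) (nat_lit 4) (nat_lit 5) (nat_lit 4) (nat_lit 4) (nat_lit 260) (nat_lit 231) (nat_lit 109)) (XT.lf (nat_lit 0) (nat_lit 5889211239100) (nat_lit 76) (nat_lit 875363430769)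 (nat_lit 76) (nat_lit 143691811843) (nat_lit 3) (nat_lit 4) (nat_lit 4) (nat_lit 5) (nat_lit 4) (nat_lit 4) (nat_lit 261) (nat_lit 231) (nat_lit 108)))))) (XT.nd (nat_lit 624) (nat_lit 0) (nat_lit 0) (XT.nd (nat_lit 312) (nat_lit 0) (nat_lit 0) (XT.nd (nat_lit 156) (nat_lit 0) (nat_lit 0) (XT.nd (nat_lit 78) (nat_lit 76) (nat_lit 0) (XT.lf (nat_lit 0) (nat_lit 184794947169) (nat_lit 152) (nat_lit 334362485774) (nat_lit 76) (nat_lit 7360700298646) (nat_lit 2) (nat_lit 5) (nat_lit 4) (nat_lit 5) (nat_lit 3) (nat_lit 4) (nat_lit 262) (nat_lit 231) (nat_lit 107)) (XT.lf (nat_lit 0) (nat_lit 489796809443) (nat_lit 76) (nat_lit 78328043799) (nat_lit 152) (nat_lit 8424994229967) (nat_lit 1) (nat_lit 5) (nat_lit 2) (nat_lit 5) (nat_lit 3) (nat_lit 4) (nat_lit 263) (nat_lit 231) (nat_lit 106))) (XT.nd (nat_lit 78) (nat_lit 0) (nat_lit 0) (XT.lf (nat_lit 0) (nat_lit 1045013046683) (nat_lit 152)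 (nat_lit 8814170921820) (nat_lit 0) (nat_lit 408776848859) (nat_lit 1) (nat_lit 5) (nat_lit 3) (nat_lit 4) (nat_lit 1) (nat_lit 4) (nat_lit 264) (nat_lit 231) (nat_lit 105)) (XT.lf (nat_lit 0) (nat_lit 1597164372891) (nat_lit 152) (nat_lit 9175376779991) (nat_lit 0) (nat_lit 960928173200) (nat_lit 1) (nat_lit 5) (nat_lit 3) (nat_lit 4) (nat_lit 1) (nat_lit 4) (nat_lit 265) (nat_lit 231) (nat_lit 104)))) (XT.nd (nat_lit 156) (nat_lit 0) (nat_lit 0) (XT.nd (nat_lit 78) (nat_lit 0) (nat_lit 0) (XT.lf (nat_lit 0) (nat_lit 2232138395337) (nat_lit 152) (nat_lit 9590763522158) (nat_lit 0) (nat_lit 1595902194023) (nat_lit 1) (nat_lit 5) (nat_lit 3) (nat_lit 4) (nat_lit 1) (nat_lit 4) (nat_lit 266) (nat_lit 231) (nat_lit 103)) (XT.lf (nat_lit 0) (nat_lit 2962358518810) (nat_lit 152) (nat_lit 10068458280233) (nat_lit 0) (nat_lit 2326122316084) (nat_lit 1) (nat_lit 5) (nat_lit 3) (nat_lit 4)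 (nat_lit 1) (nat_lit 4) (nat_lit 267) (nat_lit 231) (nat_lit 102))) (XT.nd (nat_lit 78) (nat_lit 0) (nat_lit 0) (XT.lf (nat_lit 0) (nat_lit 3802111658767) (nat_lit 152) (nat_lit 10617807256006) (nat_lit 0) (nat_lit 3165875454813) (nat_lit 1) (nat_lit 5) (nat_lit 3) (nat_lit 4) (nat_lit 1) (nat_lit 4) (nat_lit 268) (nat_lit 231) (nat_lit 101)) (XT.lf (nat_lit 0) (nat_lit 4767827767947) (nat_lit 152) (nat_lit 11249558581610) (nat_lit 0) (nat_lit 4131591562927) (nat_lit 1) (nat_lit 5) (nat_lit 3) (nat_lit 4) (nat_lit 1) (nat_lit 4) (nat_lit 269) (nat_lit 231) (nat_lit 100))))) (XT.nd (nat_lit 312) (nat_lit 0) (nat_lit 0) (XT.nd (nat_lit 156) (nat_lit 0) (nat_lit 0) (XT.nd (nat_lit 78) (nat_lit 0) (nat_lit 0) (XT.lf (nat_lit 0) (nat_lit 5878401291966) (nat_lit 152) (nat_lit 11976072609068) (nat_lit 0) (nat_lit 5242165086017) (nat_lit 1) (nat_lit 5) (nat_lit 3) (nat_lit 4) (nat_lit 1) (nat_lit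 4) (nat_lit 270) (nat_lit 231) (nat_lit 99)) (XT.lf (nat_lit 0) (nat_lit 7155560843248) (nat_lit 152) (nat_lit 12811563743266) (nat_lit 0) (nat_lit 6519324636492) (nat_lit 1) (nat_lit 5) (nat_lit 3) (nat_lit 4) (nat_lit 1) (nat_lit 4) (nat_lit 271) (nat_lit 231) (nat_lit 98))) (XT.nd (nat_lit 78) (nat_lit 0) (nat_lit 0) (XT.lf (nat_lit 0) (nat_lit 8624294326059) (nat_lit 152) (nat_lit 13772378549873) (nat_lit 0) (nat_lit 7988058118601) (nat_lit 1) (nat_lit 5) (nat_lit 3) (nat_lit 4) (nat_lit 1) (nat_lit 4) (nat_lit 272) (nat_lit 231) (nat_lit 97)) (XT.lf (nat_lit 0) (nat_lit 10313337830279) (nat_lit 152) (nat_lit 14877315579451) (nat_lit 0) (nat_lit 9677101622211) (nat_lit 1) (nat_lit 5) (nat_lit 3) (nat_lit 4) (nat_lit 1) (nat_lit 4) (nat_lit 273) (nat_lit 231) (nat_lit 96)))) (XT.nd (nat_lit 28080) (nat_lit 0) (nat_lit 1140) (XT.nd (nat_lit 28002) (nat_lit 0) (nat_lit 1444) (XT.lf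 (nat_lit 0) (nat_lit 12255737859252) (nat_lit 152) (nat_lit 16147993165190) (nat_lit 0) (nat_lit 11619501650653) (nat_lit 1) (nat_lit 5) (nat_lit 3) (nat_lit 4) (nat_lit 1) (nat_lit 4) (nat_lit 274) (nat_lit 231) (nat_lit 95)) (XT.lf (nat_lit 0) (nat_lit 89627238944) (nat_lit 0) (nat_lit 89627238944) (nat_lit 228) (nat_lit 30972508) (nat_lit 20) (nat_lit 5) (nat_lit 20) (nat_lit 3) (nat_lit 23) (nat_lit 3) (nat_lit 232) (nat_lit 232) (nat_lit 136))) (XT.nd (nat_lit 78) (nat_lit 304) (nat_lit 0) (XT.lf (nat_lit 0) (nat_lit 360563798023) (nat_lit 0) (nat_lit 24833755013) (nat_lit 228) (nat_lit 66097130) (nat_lit 20) (nat_lit 5) (nat_lit 20) (nat_lit 3) (nat_lit 23) (nat_lit 3) (nat_lit 233) (nat_lit 232) (nat_lit 135)) (XT.lf (nat_lit 0) (nat_lit 13530849772) (nat_lit 304) (nat_lit 254401850854) (nat_lit 380) (nat_lit 146418740345) (nat_lit 16) (nat_lit 5) (nat_lit 20) (nat_lit 5) (nat_lit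 21) (nat_lit 5) (nat_lit 234) (nat_lit 232) (nat_lit 134)))))))
noncomputable def xc87 : XT := (XT.nd (nat_lit 1248) (nat_lit 380) (nat_lit 0) (XT.nd (nat_lit 624) (nat_lit 380) (nat_lit 0) (XT.nd (nat_lit 312) (nat_lit 228) (nat_lit 0) (XT.nd (nat_lit 156) (nat_lit 152) (nat_lit 0) (XT.nd (nat_lit 78) (nat_lit 0) (nat_lit 76) (XT.lf (nat_lit 0) (nat_lit 31706624367) (nat_lit 304) (nat_lit 73300054473) (nat_lit 380) (nat_lit 342183342108) (nat_lit 16) (nat_lit 5) (nat_lit 20) (nat_lit 5) (nat_lit 21) (nat_lit 5) (nat_lit 235) (nat_lit 232) (nat_lit 133)) (XT.lf (nat_lit 0) (nat_lit 62445982008) (nat_lit 304) (nat_lit 339579669281) (nat_lit 76) (nat_lit 81453154614) (nat_lit 17) (nat_lit 5) (nat_lit 21) (nat_lit 5) (nat_lit 18) (nat_lit 5) (nat_lit 236) (nat_lit 232) (nat_lit 132))) (XT.nd (nat_lit 78) (nat_lit 228) (nat_lit 0) (XT.lf (nat_lit 0) (nat_lit 106810557127) (nat_lit 304)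 (nat_lit 127902867586) (nat_lit 76) (nat_lit 289145337255) (nat_lit 17) (nat_lit 5) (nat_lit 21) (nat_lit 5) (nat_lit 18) (nat_lit 5) (nat_lit 237) (nat_lit 232) (nat_lit 131)) (XT.lf (nat_lit 0) (nat_lit 126815388374) (nat_lit 228) (nat_lit 36265537275) (nat_lit 304) (nat_lit 406427120108) (nat_lit 14) (nat_lit 5) (nat_lit 17) (nat_lit 5) (nat_lit 18) (nat_lit 5) (nat_lit 238) (nat_lit 232) (nat_lit 130)))) (XT.nd (nat_lit 156) (nat_lit 76) (nat_lit 0) (XT.nd (nat_lit 78) (nat_lit 152) (nat_lit 0) (XT.lf (nat_lit 0) (nat_lit 242744231440) (nat_lit 304) (nat_lit 195152573512) (nat_lit 76) (nat_lit 181865060201) (nat_lit 14) (nat_lit 5) (nat_lit 18) (nat_lit 5) (nat_lit 15) (nat_lit 5) (nat_lit 239) (nat_lit 232) (nat_lit 129)) (XT.lf (nat_lit 0) (nat_lit 96371174635) (nat_lit 152) (nat_lit 243703275807) (nat_lit 228) (nat_lit 336621694705) (nat_lit 12) (nat_lit 5) (nat_lit 14) (nat_lit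 5) (nat_lit 15) (nat_lit 5) (nat_lit 240) (nat_lit 232) (nat_lit 128))) (XT.nd (nat_lit 78) (nat_lit 76) (nat_lit 0) (XT.lf (nat_lit 0) (nat_lit 453555928862) (nat_lit 152) (nat_lit 8649395956) (nat_lit 228) (nat_lit 278435074197) (nat_lit 12) (nat_lit 5) (nat_lit 14) (nat_lit 5) (nat_lit 15) (nat_lit 5) (nat_lit 241) (nat_lit 232) (nat_lit 127)) (XT.lf (nat_lit 0) (nat_lit 43148556398) (nat_lit 76) (nat_lit 572128821973) (nat_lit 152) (nat_lit 197005680609) (nat_lit 11) (nat_lit 5) (nat_lit 12) (nat_lit 5) (nat_lit 13) (nat_lit 4) (nat_lit 242) (nat_lit 232) (nat_lit 126))))) (XT.nd (nat_lit 312) (nat_lit 152) (nat_lit 0) (XT.nd (nat_lit 156) (nat_lit 152) (nat_lit 0) (XT.nd (nat_lit 78) (nat_lit 76) (nat_lit 0) (XT.lf (nat_lit 0) (nat_lit 454728748151) (nat_lit 76) (nat_lit 351981306129) (nat_lit 152) (nat_lit 85652091703) (nat_lit 11) (nat_lit 5) (nat_lit 12) (nat_lit 5) (nat_lit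 13) (nat_lit 4) (nat_lit 243) (nat_lit 232) (nat_lit 125)) (XT.lf (nat_lit 0) (nat_lit 38629364663) (nat_lit 152) (nat_lit 58163047020) (nat_lit 76) (nat_lit 887397306174) (nat_lit 10) (nat_lit 5) (nat_lit 12) (nat_lit 5) (nat_lit 11) (nat_lit 5) (nat_lit 244) (nat_lit 232) (nat_lit 124))) (XT.nd (nat_lit 78) (nat_lit 0) (nat_lit 0) (XT.lf (nat_lit 0) (nat_lit 198938607287) (nat_lit 228) (nat_lit 685062836467) (nat_lit 76) (nat_lit 201254974650) (nat_lit 8) (nat_lit 5) (nat_lit 11) (nat_lit 5) (nat_lit 9) (nat_lit 4) (nat_lit 245) (nat_lit 232) (nat_lit 123)) (XT.lf (nat_lit 0) (nat_lit 391088496666) (nat_lit 228) (nat_lit 271940609437) (nat_lit 76) (nat_lit 537284878985) (nat_lit 8) (nat_lit 5) (nat_lit 11) (nat_lit 5) (nat_lit 9) (nat_lit 4) (nat_lit 246) (nat_lit 232) (nat_lit 122)))) (XT.nd (nat_lit 156) (nat_lit 76) (nat_lit 0) (XT.nd (nat_lit 78) (nat_lit 0) (nat_lit 0) (XT.lf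 (nat_lit 0) (nat_lit 223003209396) (nat_lit 76) (nat_lit 398291728844) (nat_lit 152) (nat_lit 709950138311) (nat_lit 7) (nat_lit 5) (nat_lit 8) (nat_lit 5) (nat_lit 9) (nat_lit 4) (nat_lit 247) (nat_lit 232) (nat_lit 121)) (XT.lf (nat_lit 0) (nat_lit 822750988596) (nat_lit 76) (nat_lit 77496417443) (nat_lit 152) (nat_lit 579436166780) (nat_lit 7) (nat_lit 5) (nat_lit 8) (nat_lit 5) (nat_lit 9) (nat_lit 4) (nat_lit 248) (nat_lit 232) (nat_lit 120))) (XT.nd (nat_lit 78) (nat_lit 76) (nat_lit 0) (XT.lf (nat_lit 0) (nat_lit 1233109734359) (nat_lit 152) (nat_lit 149993941537) (nat_lit 0) (nat_lit 265474119150) (nat_lit 7) (nat_lit 5) (nat_lit 9) (nat_lit 4) (nat_lit 7) (nat_lit 4) (nat_lit 249) (nat_lit 232) (nat_lit 119)) (XT.lf (nat_lit 0) (nat_lit 471249014624) (nat_lit 76) (nat_lit 1167856106194) (nat_lit 76) (nat_lit 200220473517) (nat_lit 6) (nat_lit 4) (nat_lit 7) (nat_lit 5) (nat_lit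 7) (nat_lit 4) (nat_lit 250) (nat_lit 232) (nat_lit 118)))))) (XT.nd (nat_lit 624) (nat_lit 152) (nat_lit 0) (XT.nd (nat_lit 312) (nat_lit 76) (nat_lit 0) (XT.nd (nat_lit 156) (nat_lit 76) (nat_lit 0) (XT.nd (nat_lit 78) (nat_lit 0) (nat_lit 0) (XT.lf (nat_lit 0) (nat_lit 51315950523) (nat_lit 152) (nat_lit 857306354241) (nat_lit 76) (nat_lit 1148537290362) (nat_lit 5) (nat_lit 5) (nat_lit 7) (nat_lit 5) (nat_lit 6) (nat_lit 4) (nat_lit 251) (nat_lit 232) (nat_lit 117)) (XT.lf (nat_lit 0) (nat_lit 320084063863) (nat_lit 152) (nat_lit 279454923768) (nat_lit 76) (nat_lit 1706699563937) (nat_lit 5) (nat_lit 5) (nat_lit 7) (nat_lit 5) (nat_lit 6) (nat_lit 4) (nat_lit 252) (nat_lit 232) (nat_lit 116))) (XT.nd (nat_lit 78) (nat_lit 0) (nat_lit 0) (XT.lf (nat_lit 0) (nat_lit 422706455095) (nat_lit 76) (nat_lit 223964301954) (nat_lit 152) (nat_lit 1943383090037) (nat_lit 4) (nat_lit 5) (nat_lit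 5) (nat_lit 5) (nat_lit 6) (nat_lit 4) (nat_lit 253) (nat_lit 232) (nat_lit 115)) (XT.lf (nat_lit 0) (nat_lit 1046159553087) (nat_lit 152) (nat_lit 1661957548610) (nat_lit 0) (nat_lit 204737220435) (nat_lit 4) (nat_lit 5) (nat_lit 6) (nat_lit 4) (nat_lit 4) (nat_lit 4) (nat_lit 254) (nat_lit 232) (nat_lit 114)))) (XT.nd (nat_lit 156) (nat_lit 76) (nat_lit 0) (XT.nd (nat_lit 78) (nat_lit 0) (nat_lit 0) (XT.lf (nat_lit 0) (nat_lit 1516236626811) (nat_lit 152) (nat_lit 1091424211301) (nat_lit 0) (nat_lit 674814286607) (nat_lit 4) (nat_lit 5) (nat_lit 6) (nat_lit 4) (nat_lit 4) (nat_lit 4) (nat_lit 255) (nat_lit 232) (nat_lit 113)) (XT.lf (nat_lit 0) (nat_lit 2056825254221) (nat_lit 152) (nat_lit 435310887152) (nat_lit 0) (nat_lit 1215402907451) (nat_lit 4) (nat_lit 5) (nat_lit 6) (nat_lit 4) (nat_lit 4) (nat_lit 4) (nat_lit 256) (nat_lit 232) (nat_lit 112))) (XT.nd (nat_lit 78) (nat_lit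 0) (nat_lit 0) (XT.lf (nat_lit 0) (nat_lit 350415867332) (nat_lit 76) (nat_lit 2342596275802) (nat_lit 76) (nat_lit 1501173923321) (nat_lit 3) (nat_lit 4) (nat_lit 4) (nat_lit 5) (nat_lit 4) (nat_lit 4) (nat_lit 257) (nat_lit 232) (nat_lit 111)) (XT.lf (nat_lit 0) (nat_lit 1302924631229) (nat_lit 76) (nat_lit 2144457315391) (nat_lit 76) (nat_lit 1303034957944) (nat_lit 3) (nat_lit 4) (nat_lit 4) (nat_lit 5) (nat_lit 4) (nat_lit 4) (nat_lit 258) (nat_lit 232) (nat_lit 110))))) (XT.nd (nat_lit 312) (nat_lit 152) (nat_lit 0) (XT.nd (nat_lit 156) (nat_lit 0) (nat_lit 0) (XT.nd (nat_lit 78) (nat_lit 0) (nat_lit 0) (XT.lf (nat_lit 0) (nat_lit 2398309699782) (nat_lit 76) (nat_lit 1916597515588) (nat_lit 76) (nat_lit 1075175153824) (nat_lit 3) (nat_lit 4) (nat_lit 4) (nat_lit 5) (nat_lit 4) (nat_lit 4) (nat_lit 259) (nat_lit 232) (nat_lit 109)) (XT.lf (nat_lit 0) (nat_lit 3658002519983) (nat_lit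 76) (nat_lit 1654558749877) (nat_lit 76) (nat_lit 813136384358) (nat_lit 3) (nat_lit 4) (nat_lit 4) (nat_lit 5) (nat_lit 4) (nat_lit 4) (nat_lit 260) (nat_lit 232) (nat_lit 108))) (XT.nd (nat_lit 78) (nat_lit 0) (nat_lit 0) (XT.lf (nat_lit 0) (nat_lit 5106649255707) (nat_lit 76) (nat_lit 1353214172840) (nat_lit 76) (nat_lit 511791804056) (nat_lit 3) (nat_lit 4) (nat_lit 4) (nat_lit 5) (nat_lit 4) (nat_lit 4) (nat_lit 261) (nat_lit 232) (nat_lit 107)) (XT.lf (nat_lit 0) (nat_lit 6772592995261) (nat_lit 76) (nat_lit 1006667912319) (nat_lit 76) (nat_lit 165245540696) (nat_lit 3) (nat_lit 4) (nat_lit 4) (nat_lit 5) (nat_lit 4) (nat_lit 4) (nat_lit 262) (nat_lit 232) (nat_lit 106)))) (XT.nd (nat_lit 156) (nat_lit 0) (nat_lit 0) (XT.nd (nat_lit 78) (nat_lit 76) (nat_lit 0) (XT.lf (nat_lit 0) (nat_lit 212514223248) (nat_lit 152) (nat_lit 384516794108) (nat_lit 76) (nat_lit 8464805368790)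 (nat_lit 2) (nat_lit 5) (nat_lit 4) (nat_lit 5) (nat_lit 3) (nat_lit 4) (nat_lit 263) (nat_lit 232) (nat_lit 105)) (XT.lf (nat_lit 0) (nat_lit 563266392459) (nat_lit 76) (nat_lit 90077220888) (nat_lit 152) (nat_lit 9688743327455) (nat_lit 1) (nat_lit 5) (nat_lit 2) (nat_lit 5) (nat_lit 3) (nat_lit 4) (nat_lit 264) (nat_lit 232) (nat_lit 104))) (XT.nd (nat_lit 78) (nat_lit 0) (nat_lit 0) (XT.lf (nat_lit 0) (nat_lit 1201765032676) (nat_lit 152) (nat_lit 10136296503338) (nat_lit 0) (nat_lit 470093399541) (nat_lit 1) (nat_lit 5) (nat_lit 3) (nat_lit 4) (nat_lit 1) (nat_lit 4) (nat_lit 265) (nat_lit 232) (nat_lit 103)) (XT.nd (nat_lit 78) (nat_lit 0) (nat_lit 0) (XT.lf (nat_lit 0) (nat_lit 1836739054034) (nat_lit 152) (nat_lit 10551683247637) (nat_lit 0) (nat_lit 1105067419487) (nat_lit 1) (nat_lit 5) (nat_lit 3) (nat_lit 4) (nat_lit 1) (nat_lit 4) (nat_lit 266) (nat_lit 232) (nat_lit 102))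 (XT.lf (nat_lit 0) (nat_lit 2566959176559) (nat_lit 152) (nat_lit 11029378007566) (nat_lit 0) (nat_lit 1835287540785) (nat_lit 1) (nat_lit 5) (nat_lit 3) (nat_lit 4) (nat_lit 1) (nat_lit 4) (nat_lit 267) (nat_lit 232) (nat_lit 101))))))))
noncomputable def xc88 : XT := (XT.nd (nat_lit 30576) (nat_lit 0) (nat_lit 0) (XT.nd (nat_lit 29328) (nat_lit 0) (nat_lit 152) (XT.nd (nat_lit 28704) (nat_lit 0) (nat_lit 836) (XT.nd (nat_lit 312) (nat_lit 0) (nat_lit 0) (XT.nd (nat_lit 156) (nat_lit 0) (nat_lit 0) (XT.nd (nat_lit 78) (nat_lit 0) (nat_lit 0) (XT.lf (nat_lit 0) (nat_lit 3406712315693) (nat_lit 152) (nat_lit 11578726984951) (nat_lit 0) (nat_lit 2675040678852) (nat_lit 1) (nat_lit 5) (nat_lit 3) (nat_lit 4) (nat_lit 1) (nat_lit 4) (nat_lit 268) (nat_lit 232) (nat_lit 100)) (XT.lf (nat_lit 0) (nat_lit 4372428424157) (nat_lit 152) (nat_lit 12210478311957) (nat_lit 0) (nat_lit 3640756786388)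 (nat_lit 1) (nat_lit 5) (nat_lit 3) (nat_lit 4) (nat_lit 1) (nat_lit 4) (nat_lit 269) (nat_lit 232) (nat_lit 99))) (XT.nd (nat_lit 78) (nat_lit 0) (nat_lit 0) (XT.lf (nat_lit 0) (nat_lit 5483001947553) (nat_lit 152) (nat_lit 12936992340634) (nat_lit 0) (nat_lit 4751330308977) (nat_lit 1) (nat_lit 5) (nat_lit 3) (nat_lit 4) (nat_lit 1) (nat_lit 4) (nat_lit 270) (nat_lit 232) (nat_lit 98)) (XT.lf (nat_lit 0) (nat_lit 6760161498294) (nat_lit 152) (nat_lit 13772483475892) (nat_lit 0) (nat_lit 6028489859016) (nat_lit 1) (nat_lit 5) (nat_lit 3) (nat_lit 4) (nat_lit 1) (nat_lit 4) (nat_lit 271) (nat_lit 232) (nat_lit 97)))) (XT.nd (nat_lit 28236) (nat_lit 0) (nat_lit 1444) (XT.nd (nat_lit 78) (nat_lit 0) (nat_lit 0) (XT.lf (nat_lit 0) (nat_lit 8228894980634) (nat_lit 152) (nat_lit 14733298283420) (nat_lit 0) (nat_lit 7497223340745) (nat_lit 1) (nat_lit 5) (nat_lit 3) (nat_lit 4) (nat_lit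 1) (nat_lit 4) (nat_lit 272) (nat_lit 232) (nat_lit 96)) (XT.lf (nat_lit 0) (nat_lit 9917938484445) (nat_lit 152) (nat_lit 15838235313800) (nat_lit 0) (nat_lit 9186266844026) (nat_lit 1) (nat_lit 5) (nat_lit 3) (nat_lit 4) (nat_lit 1) (nat_lit 4) (nat_lit 273) (nat_lit 232) (nat_lit 95))) (XT.nd (nat_lit 78) (nat_lit 0) (nat_lit 0) (XT.lf (nat_lit 0) (nat_lit 103071528763) (nat_lit 0) (nat_lit 103071528763) (nat_lit 228) (nat_lit 35145067) (nat_lit 20) (nat_lit 5) (nat_lit 20) (nat_lit 3) (nat_lit 23) (nat_lit 3) (nat_lit 233) (nat_lit 233) (nat_lit 134)) (XT.lf (nat_lit 0) (nat_lit 414648722469) (nat_lit 0) (nat_lit 28559173007) (nat_lit 228) (nat_lit 75188540) (nat_lit 20) (nat_lit 5) (nat_lit 20) (nat_lit 3) (nat_lit 23) (nat_lit 3) (nat_lit 234) (nat_lit 233) (nat_lit 133))))) (XT.nd (nat_lit 312) (nat_lit 304) (nat_lit 0) (XT.nd (nat_lit 156) (nat_lit 0) (nat_lit 76) (XT.nd (nat_lit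 78) (nat_lit 0) (nat_lit 0) (XT.lf (nat_lit 0) (nat_lit 15561135927) (nat_lit 304) (nat_lit 292561597479) (nat_lit 380) (nat_lit 168381319423) (nat_lit 16) (nat_lit 5) (nat_lit 20) (nat_lit 5) (nat_lit 21) (nat_lit 5) (nat_lit 235) (nat_lit 233) (nat_lit 132)) (XT.lf (nat_lit 0) (nat_lit 36463190796) (nat_lit 304) (nat_lit 84294600901) (nat_lit 380) (nat_lit 393510641708) (nat_lit 16) (nat_lit 5) (nat_lit 20) (nat_lit 5) (nat_lit 21) (nat_lit 5) (nat_lit 236) (nat_lit 233) (nat_lit 131))) (XT.nd (nat_lit 78) (nat_lit 0) (nat_lit 0) (XT.lf (nat_lit 0) (nat_lit 71813392495) (nat_lit 304) (nat_lit 390516094196) (nat_lit 76) (nat_lit 93671058972) (nat_lit 17) (nat_lit 5) (nat_lit 21) (nat_lit 5) (nat_lit 18) (nat_lit 5) (nat_lit 237) (nat_lit 233) (nat_lit 130)) (XT.lf (nat_lit 0) (nat_lit 122832586944) (nat_lit 304) (nat_lit 147087840788) (nat_lit 76) (nat_lit 332517077988) (nat_lit 17)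 (nat_lit 5) (nat_lit 21) (nat_lit 5) (nat_lit 18) (nat_lit 5) (nat_lit 238) (nat_lit 233) (nat_lit 129)))) (XT.nd (nat_lit 156) (nat_lit 152) (nat_lit 0) (XT.nd (nat_lit 78) (nat_lit 0) (nat_lit 0) (XT.lf (nat_lit 0) (nat_lit 145838132797) (nat_lit 228) (nat_lit 41705337803) (nat_lit 304) (nat_lit 467390717970) (nat_lit 14) (nat_lit 5) (nat_lit 17) (nat_lit 5) (nat_lit 18) (nat_lit 5) (nat_lit 239) (nat_lit 233) (nat_lit 128)) (XT.lf (nat_lit 0) (nat_lit 279156220371) (nat_lit 304) (nat_lit 224425025650) (nat_lit 76) (nat_lit 209144843046) (nat_lit 14) (nat_lit 5) (nat_lit 18) (nat_lit 5) (nat_lit 15) (nat_lit 5) (nat_lit 240) (nat_lit 233) (nat_lit 127))) (XT.nd (nat_lit 78) (nat_lit 0) (nat_lit 0) (XT.lf (nat_lit 0) (nat_lit 110827264997) (nat_lit 152) (nat_lit 280258678174) (nat_lit 228) (nat_lit 387114572603) (nat_lit 12) (nat_lit 5) (nat_lit 14) (nat_lit 5) (nat_lit 15) (nat_lit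 5) (nat_lit 241) (nat_lit 233) (nat_lit 126)) (XT.lf (nat_lit 0) (nat_lit 521589678337) (nat_lit 152) (nat_lit 9946727955) (nat_lit 228) (nat_lit 320200008102) (nat_lit 12) (nat_lit 5) (nat_lit 14) (nat_lit 5) (nat_lit 15) (nat_lit 5) (nat_lit 242) (nat_lit 233) (nat_lit 125)))))) (XT.nd (nat_lit 624) (nat_lit 304) (nat_lit 0) (XT.nd (nat_lit 312) (nat_lit 76) (nat_lit 0) (XT.nd (nat_lit 156) (nat_lit 228) (nat_lit 0) (XT.nd (nat_lit 78) (nat_lit 0) (nat_lit 0) (XT.lf (nat_lit 0) (nat_lit 49621223027) (nat_lit 76) (nat_lit 657948026624) (nat_lit 152) (nat_lit 226556226706) (nat_lit 11) (nat_lit 5) (nat_lit 12) (nat_lit 5) (nat_lit 13) (nat_lit 4) (nat_lit 243) (nat_lit 233) (nat_lit 124)) (XT.lf (nat_lit 0) (nat_lit 522938393564) (nat_lit 76) (nat_lit 404778398879) (nat_lit 152) (nat_lit 98499639377) (nat_lit 11) (nat_lit 5) (nat_lit 12) (nat_lit 5) (nat_lit 13) (nat_lit 4) (nat_lit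 244) (nat_lit 233) (nat_lit 123))) (XT.nd (nat_lit 78) (nat_lit 152) (nat_lit 0) (XT.lf (nat_lit 0) (nat_lit 44423980140) (nat_lit 152) (nat_lit 66887192565) (nat_lit 76) (nat_lit 1020506970035) (nat_lit 10) (nat_lit 5) (nat_lit 12) (nat_lit 5) (nat_lit 11) (nat_lit 5) (nat_lit 245) (nat_lit 233) (nat_lit 122)) (XT.lf (nat_lit 0) (nat_lit 228779598190) (nat_lit 228) (nat_lit 787821938437) (nat_lit 76) (nat_lit 231443313541) (nat_lit 8) (nat_lit 5) (nat_lit 11) (nat_lit 5) (nat_lit 9) (nat_lit 4) (nat_lit 246) (nat_lit 233) (nat_lit 121)))) (XT.nd (nat_lit 156) (nat_lit 0) (nat_lit 0) (XT.nd (nat_lit 78) (nat_lit 76) (nat_lit 0) (XT.lf (nat_lit 0) (nat_lit 449751944914) (nat_lit 228) (nat_lit 312731419548) (nat_lit 76) (nat_lit 617877691436) (nat_lit 8) (nat_lit 5) (nat_lit 11) (nat_lit 5) (nat_lit 9) (nat_lit 4) (nat_lit 247) (nat_lit 233) (nat_lit 120)) (XT.lf (nat_lit 0) (nat_lit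 256453959323) (nat_lit 76) (nat_lit 458035381857) (nat_lit 152) (nat_lit 816442471748) (nat_lit 7) (nat_lit 5) (nat_lit 8) (nat_lit 5) (nat_lit 9) (nat_lit 4) (nat_lit 248) (nat_lit 233) (nat_lit 119))) (XT.nd (nat_lit 78) (nat_lit 0) (nat_lit 0) (XT.lf (nat_lit 0) (nat_lit 946163870379) (nat_lit 76) (nat_lit 89120787613) (nat_lit 152) (nat_lit 666351428919) (nat_lit 7) (nat_lit 5) (nat_lit 8) (nat_lit 5) (nat_lit 9) (nat_lit 4) (nat_lit 249) (nat_lit 233) (nat_lit 118)) (XT.lf (nat_lit 0) (nat_lit 1418076320491) (nat_lit 152) (nat_lit 172492814075) (nat_lit 0) (nat_lit 305295310254) (nat_lit 7) (nat_lit 5) (nat_lit 9) (nat_lit 4) (nat_lit 7) (nat_lit 4) (nat_lit 250) (nat_lit 233) (nat_lit 117))))) (XT.nd (nat_lit 312) (nat_lit 76) (nat_lit 0) (XT.nd (nat_lit 156) (nat_lit 76) (nat_lit 0) (XT.nd (nat_lit 78) (nat_lit 76) (nat_lit 0) (XT.lf (nat_lit 0) (nat_lit 541936575570) (nat_lit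 76) (nat_lit 1343034431562) (nat_lit 76) (nat_lit 230253408116) (nat_lit 6) (nat_lit 4) (nat_lit 7) (nat_lit 5) (nat_lit 7) (nat_lit 4) (nat_lit 251) (nat_lit 233) (nat_lit 116)) (XT.lf (nat_lit 0) (nat_lit 59013451174) (nat_lit 152) (nat_lit 985902114906) (nat_lit 76) (nat_lit 1320817951719) (nat_lit 5) (nat_lit 5) (nat_lit 7) (nat_lit 5) (nat_lit 6) (nat_lit 4) (nat_lit 252) (nat_lit 233) (nat_lit 115))) (XT.nd (nat_lit 78) (nat_lit 76) (nat_lit 0) (XT.lf (nat_lit 0) (nat_lit 368096767418) (nat_lit 152) (nat_lit 321372994968) (nat_lit 76) (nat_lit 1962704557486) (nat_lit 5) (nat_lit 5) (nat_lit 7) (nat_lit 5) (nat_lit 6) (nat_lit 4) (nat_lit 253) (nat_lit 233) (nat_lit 114)) (XT.lf (nat_lit 0) (nat_lit 486112583117) (nat_lit 76) (nat_lit 257558875822) (nat_lit 152) (nat_lit 2234890451669) (nat_lit 4) (nat_lit 5) (nat_lit 5) (nat_lit 5) (nat_lit 6) (nat_lit 4) (nat_lit 254) (nat_lit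 233) (nat_lit 113)))) (XT.nd (nat_lit 156) (nat_lit 76) (nat_lit 0) (XT.nd (nat_lit 78) (nat_lit 0) (nat_lit 0) (XT.lf (nat_lit 0) (nat_lit 1203083565433) (nat_lit 152) (nat_lit 1911251032778) (nat_lit 0) (nat_lit 235447860080) (nat_lit 4) (nat_lit 5) (nat_lit 6) (nat_lit 4) (nat_lit 4) (nat_lit 4) (nat_lit 255) (nat_lit 233) (nat_lit 112)) (XT.lf (nat_lit 0) (nat_lit 1743672189861) (nat_lit 152) (nat_lit 1255137714193) (nat_lit 0) (nat_lit 776036478798) (nat_lit 4) (nat_lit 5) (nat_lit 6) (nat_lit 4) (nat_lit 4) (nat_lit 4) (nat_lit 256) (nat_lit 233) (nat_lit 111))) (XT.nd (nat_lit 78) (nat_lit 76) (nat_lit 0) (XT.lf (nat_lit 0) (nat_lit 2365349102379) (nat_lit 152) (nat_lit 500607408222) (nat_lit 0) (nat_lit 1397713386350) (nat_lit 4) (nat_lit 5) (nat_lit 6) (nat_lit 4) (nat_lit 4) (nat_lit 4) (nat_lit 257) (nat_lit 233) (nat_lit 110)) (XT.lf (nat_lit 0) (nat_lit 402978354344) (nat_lit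 76) (nat_lit 2693985666883) (nat_lit 76) (nat_lit 1726349946537) (nat_lit 3) (nat_lit 4) (nat_lit 4) (nat_lit 5) (nat_lit 4) (nat_lit 4) (nat_lit 258) (nat_lit 233) (nat_lit 109))))))) (XT.nd (nat_lit 29484) (nat_lit 0) (nat_lit 456) (XT.nd (nat_lit 624) (nat_lit 0) (nat_lit 0) (XT.nd (nat_lit 312) (nat_lit 152) (nat_lit 0) (XT.nd (nat_lit 156) (nat_lit 0) (nat_lit 0) (XT.nd (nat_lit 78) (nat_lit 0) (nat_lit 0) (XT.lf (nat_lit 0) (nat_lit 1498363418880) (nat_lit 76) (nat_lit 2466125868970) (nat_lit 76) (nat_lit 1498490144868) (nat_lit 3) (nat_lit 4) (nat_lit 4) (nat_lit 5) (nat_lit 4) (nat_lit 4) (nat_lit 259) (nat_lit 233) (nat_lit 108)) (XT.lf (nat_lit 0) (nat_lit 2758056235590) (nat_lit 76) (nat_lit 2204087104901) (nat_lit 76) (nat_lit 1236451377535) (nat_lit 3) (nat_lit 4) (nat_lit 4) (nat_lit 5) (nat_lit 4) (nat_lit 4) (nat_lit 260) (nat_lit 233) (nat_lit 107))) (XT.nd (nat_lit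 78) (nat_lit 0) (nat_lit 0) (XT.lf (nat_lit 0) (nat_lit 4206702968277) (nat_lit 76) (nat_lit 1902742529293) (nat_lit 76) (nat_lit 935106799087) (nat_lit 3) (nat_lit 4) (nat_lit 4) (nat_lit 5) (nat_lit 4) (nat_lit 4) (nat_lit 261) (nat_lit 233) (nat_lit 106)) (XT.lf (nat_lit 0) (nat_lit 5872646705191) (nat_lit 76) (nat_lit 1556196270013) (nat_lit 76) (nat_lit 588560537339) (nat_lit 3) (nat_lit 4) (nat_lit 4) (nat_lit 5) (nat_lit 4) (nat_lit 4) (nat_lit 262) (nat_lit 233) (nat_lit 105)))) (XT.nd (nat_lit 156) (nat_lit 76) (nat_lit 0) (XT.nd (nat_lit 78) (nat_lit 76) (nat_lit 0) (XT.lf (nat_lit 0) (nat_lit 7788481997704) (nat_lit 76) (nat_lit 1157668074164) (nat_lit 76) (nat_lit 190032339343) (nat_lit 3) (nat_lit 4) (nat_lit 4) (nat_lit 5) (nat_lit 4) (nat_lit 4) (nat_lit 263) (nat_lit 233) (nat_lit 104)) (XT.lf (nat_lit 0) (nat_lit 244391382446) (nat_lit 152) (nat_lit 442194264428) (nat_lit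 76) (nat_lit 9734526193274) (nat_lit 2) (nat_lit 5) (nat_lit 4) (nat_lit 5) (nat_lit 3) (nat_lit 4) (nat_lit 264) (nat_lit 233) (nat_lit 103))) (XT.nd (nat_lit 78) (nat_lit 0) (nat_lit 0) (XT.lf (nat_lit 0) (nat_lit 647756397906) (nat_lit 76) (nat_lit 103588781729) (nat_lit 152) (nat_lit 11142054798590) (nat_lit 1) (nat_lit 5) (nat_lit 2) (nat_lit 5) (nat_lit 3) (nat_lit 4) (nat_lit 265) (nat_lit 233) (nat_lit 102)) (XT.lf (nat_lit 0) (nat_lit 1382029809499) (nat_lit 152) (nat_lit 11656740935924) (nat_lit 0) (nat_lit 540607427131) (nat_lit 1) (nat_lit 5) (nat_lit 3) (nat_lit 4) (nat_lit 1) (nat_lit 4) (nat_lit 266) (nat_lit 233) (nat_lit 101))))) (XT.nd (nat_lit 312) (nat_lit 0) (nat_lit 0) (XT.nd (nat_lit 156) (nat_lit 0) (nat_lit 0) (XT.nd (nat_lit 78) (nat_lit 0) (nat_lit 0) (XT.lf (nat_lit 0) (nat_lit 2112249931200) (nat_lit 152) (nat_lit 12134435697465) (nat_lit 0) (nat_lit 1270827547766)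 (nat_lit 1) (nat_lit 5) (nat_lit 3) (nat_lit 4) (nat_lit 1) (nat_lit 4) (nat_lit 267) (nat_lit 233) (nat_lit 100)) (XT.lf (nat_lit 0) (nat_lit 2952003069618) (nat_lit 152) (nat_lit 12683784676251) (nat_lit 0) (nat_lit 2110580685256) (nat_lit 1) (nat_lit 5) (nat_lit 3) (nat_lit 4) (nat_lit 1) (nat_lit 4) (nat_lit 268) (nat_lit 233) (nat_lit 99))) (XT.nd (nat_lit 78) (nat_lit 0) (nat_lit 0) (XT.lf (nat_lit 0) (nat_lit 3917719177460) (nat_lit 152) (nat_lit 13315536004476) (nat_lit 0) (nat_lit 3076296792290) (nat_lit 1) (nat_lit 5) (nat_lit 3) (nat_lit 4) (nat_lit 1) (nat_lit 4) (nat_lit 269) (nat_lit 233) (nat_lit 98)) (XT.lf (nat_lit 0) (nat_lit 5028292700314) (nat_lit 152) (nat_lit 14042050034213) (nat_lit 0) (nat_lit 4186870314443) (nat_lit 1) (nat_lit 5) (nat_lit 3) (nat_lit 4) (nat_lit 1) (nat_lit 4) (nat_lit 270) (nat_lit 233) (nat_lit 97)))) (XT.nd (nat_lit 28392) (nat_lit 0) (nat_lit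 1444) (XT.nd (nat_lit 78) (nat_lit 0) (nat_lit 0) (XT.lf (nat_lit 0) (nat_lit 6305452250585) (nat_lit 152) (nat_lit 14877541170393) (nat_lit 0) (nat_lit 5464029864103) (nat_lit 1) (nat_lit 5) (nat_lit 3) (nat_lit 4) (nat_lit 1) (nat_lit 4) (nat_lit 271) (nat_lit 233) (nat_lit 96)) (XT.lf (nat_lit 0) (nat_lit 7774185732515) (nat_lit 152) (nat_lit 15838355978722) (nat_lit 0) (nat_lit 6932763345503) (nat_lit 1) (nat_lit 5) (nat_lit 3) (nat_lit 4) (nat_lit 1) (nat_lit 4) (nat_lit 272) (nat_lit 233) (nat_lit 95))) (XT.nd (nat_lit 78) (nat_lit 0) (nat_lit 0) (XT.lf (nat_lit 0) (nat_lit 118532412313) (nat_lit 0) (nat_lit 118532412313) (nat_lit 228) (nat_lit 40058932) (nat_lit 20) (nat_lit 5) (nat_lit 20) (nat_lit 3) (nat_lit 23) (nat_lit 3) (nat_lit 234) (nat_lit 234) (nat_lit 132)) (XT.lf (nat_lit 0) (nat_lit 476846299075) (nat_lit 0) (nat_lit 32843317194) (nat_lit 228) (nat_lit 85844394)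 (nat_lit 20) (nat_lit 5) (nat_lit 20) (nat_lit 3) (nat_lit 23) (nat_lit 3) (nat_lit 235) (nat_lit 234) (nat_lit 131)))))) (XT.nd (nat_lit 624) (nat_lit 380) (nat_lit 0) (XT.nd (nat_lit 312) (nat_lit 304) (nat_lit 0) (XT.nd (nat_lit 156) (nat_lit 0) (nat_lit 76) (XT.nd (nat_lit 78) (nat_lit 0) (nat_lit 0) (XT.lf (nat_lit 0) (nat_lit 17895804380) (nat_lit 304) (nat_lit 336445435586) (nat_lit 380) (nat_lit 193638341931) (nat_lit 16) (nat_lit 5) (nat_lit 20) (nat_lit 5) (nat_lit 21) (nat_lit 5) (nat_lit 236) (nat_lit 234) (nat_lit 130)) (XT.lf (nat_lit 0) (nat_lit 41933102514) (nat_lit 304) (nat_lit 96938441893) (nat_lit 380) (nat_lit 452537085438) (nat_lit 16) (nat_lit 5) (nat_lit 20) (nat_lit 5) (nat_lit 21) (nat_lit 5) (nat_lit 237) (nat_lit 234) (nat_lit 129))) (XT.nd (nat_lit 78) (nat_lit 0) (nat_lit 0) (XT.lf (nat_lit 0) (nat_lit 82585789411) (nat_lit 304) (nat_lit 449093110990)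 (nat_lit 76) (nat_lit 107721665770) (nat_lit 17) (nat_lit 5) (nat_lit 21) (nat_lit 5) (nat_lit 18) (nat_lit 5) (nat_lit 238) (nat_lit 234) (nat_lit 128)) (XT.lf (nat_lit 0) (nat_lit 141257812413) (nat_lit 304) (nat_lit 169150671397) (nat_lit 76) (nat_lit 382394594427) (nat_lit 17) (nat_lit 5) (nat_lit 21) (nat_lit 5) (nat_lit 18) (nat_lit 5) (nat_lit 239) (nat_lit 234) (nat_lit 127)))) (XT.nd (nat_lit 156) (nat_lit 152) (nat_lit 0) (XT.nd (nat_lit 78) (nat_lit 0) (nat_lit 0) (XT.lf (nat_lit 0) (nat_lit 167714182521) (nat_lit 228) (nat_lit 47961115741) (nat_lit 304) (nat_lit 537498970162) (nat_lit 14) (nat_lit 5) (nat_lit 17) (nat_lit 5) (nat_lit 18) (nat_lit 5) (nat_lit 240) (nat_lit 234) (nat_lit 126)) (XT.lf (nat_lit 0) (nat_lit 321029921265) (nat_lit 304) (nat_lit 258088451415) (nat_lit 76) (nat_lit 240516587510) (nat_lit 14) (nat_lit 5) (nat_lit 18) (nat_lit 5) (nat_lit 15) (nat_lit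 5) (nat_lit 241) (nat_lit 234) (nat_lit 125))) (XT.nd (nat_lit 78) (nat_lit 0) (nat_lit 0) (XT.lf (nat_lit 0) (nat_lit 127451667916) (nat_lit 152) (nat_lit 322297412601) (nat_lit 228) (nat_lit 445181473950) (nat_lit 12) (nat_lit 5) (nat_lit 14) (nat_lit 5) (nat_lit 15) (nat_lit 5) (nat_lit 242) (nat_lit 234) (nat_lit 124)) (XT.lf (nat_lit 0) (nat_lit 599828402409) (nat_lit 152) (nat_lit 11438678627) (nat_lit 228) (nat_lit 368229761888) (nat_lit 12) (nat_lit 5) (nat_lit 14) (nat_lit 5) (nat_lit 15) (nat_lit 5) (nat_lit 243) (nat_lit 234) (nat_lit 123))))) (XT.nd (nat_lit 312) (nat_lit 76) (nat_lit 0) (XT.nd (nat_lit 156) (nat_lit 228) (nat_lit 0) (XT.nd (nat_lit 78) (nat_lit 0) (nat_lit 0) (XT.lf (nat_lit 0) (nat_lit 57064696211) (nat_lit 76) (nat_lit 756640140904) (nat_lit 152) (nat_lit 260539429336) (nat_lit 11) (nat_lit 5) (nat_lit 12) (nat_lit 5) (nat_lit 13) (nat_lit 4) (nat_lit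 244) (nat_lit 234) (nat_lit 122)) (XT.lf (nat_lit 0) (nat_lit 601379404538) (nat_lit 76) (nat_lit 465495080699) (nat_lit 152) (nat_lit 113274384087) (nat_lit 11) (nat_lit 5) (nat_lit 12) (nat_lit 5) (nat_lit 13) (nat_lit 4) (nat_lit 245) (nat_lit 234) (nat_lit 121))) (XT.nd (nat_lit 78) (nat_lit 152) (nat_lit 0) (XT.lf (nat_lit 0) (nat_lit 51087736539) (nat_lit 152) (nat_lit 76920035905) (nat_lit 76) (nat_lit 1173583066910) (nat_lit 10) (nat_lit 5) (nat_lit 12) (nat_lit 5) (nat_lit 11) (nat_lit 5) (nat_lit 246) (nat_lit 234) (nat_lit 120)) (XT.lf (nat_lit 0) (nat_lit 263096689004) (nat_lit 228) (nat_lit 905994984591) (nat_lit 76) (nat_lit 266159880661) (nat_lit 8) (nat_lit 5) (nat_lit 11) (nat_lit 5) (nat_lit 9) (nat_lit 4) (nat_lit 247) (nat_lit 234) (nat_lit 119)))) (XT.nd (nat_lit 156) (nat_lit 0) (nat_lit 0) (XT.nd (nat_lit 78) (nat_lit 76) (nat_lit 0) (XT.lf (nat_lit 0) (nat_lit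 517214868029) (nat_lit 228) (nat_lit 359640919774) (nat_lit 76) (nat_lit 710559406098) (nat_lit 8) (nat_lit 5) (nat_lit 11) (nat_lit 5) (nat_lit 9) (nat_lit 4) (nat_lit 248) (nat_lit 234) (nat_lit 118)) (XT.lf (nat_lit 0) (nat_lit 294922256259) (nat_lit 76) (nat_lit 526740608748) (nat_lit 152) (nat_lit 938908700877) (nat_lit 7) (nat_lit 5) (nat_lit 8) (nat_lit 5) (nat_lit 9) (nat_lit 4) (nat_lit 249) (nat_lit 234) (nat_lit 117))) (XT.nd (nat_lit 78) (nat_lit 0) (nat_lit 0) (XT.lf (nat_lit 0) (nat_lit 1088088627490) (nat_lit 76) (nat_lit 102488835852) (nat_lit 152) (nat_lit 766304020098) (nat_lit 7) (nat_lit 5) (nat_lit 8) (nat_lit 5) (nat_lit 9) (nat_lit 4) (nat_lit 250) (nat_lit 234) (nat_lit 116)) (XT.lf (nat_lit 0) (nat_lit 1630787863823) (nat_lit 152) (nat_lit 198366570823) (nat_lit 0) (nat_lit 351089662166) (nat_lit 7) (nat_lit 5) (nat_lit 9) (nat_lit 4) (nat_lit 7) (nat_lit 4)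 (nat_lit 251) (nat_lit 234) (nat_lit 115))))))))
noncomputable def xc89 : XT := (XT.nd (nat_lit 1248) (nat_lit 0) (nat_lit 0) (XT.nd (nat_lit 624) (nat_lit 152) (nat_lit 0) (XT.nd (nat_lit 312) (nat_lit 76) (nat_lit 0) (XT.nd (nat_lit 156) (nat_lit 76) (nat_lit 0) (XT.nd (nat_lit 78) (nat_lit 76) (nat_lit 0) (XT.lf (nat_lit 0) (nat_lit 623227219752) (nat_lit 76) (nat_lit 1544489527818) (nat_lit 76) (nat_lit 264791316174) (nat_lit 6) (nat_lit 4) (nat_lit 7) (nat_lit 5) (nat_lit 7) (nat_lit 4) (nat_lit 252) (nat_lit 234) (nat_lit 114)) (XT.lf (nat_lit 0) (nat_lit 67865550568) (nat_lit 152) (nat_lit 1133787286607) (nat_lit 76) (nat_lit 1518940695746) (nat_lit 5) (nat_lit 5) (nat_lit 7) (nat_lit 5) (nat_lit 6) (nat_lit 4) (nat_lit 253) (nat_lit 234) (nat_lit 113))) (XT.nd (nat_lit 78) (nat_lit 76) (nat_lit 0) (XT.lf (nat_lit 0) (nat_lit 423311353590) (nat_lit 152) (nat_lit 369578817661)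 (nat_lit 76) (nat_lit 2257110285691) (nat_lit 5) (nat_lit 5) (nat_lit 7) (nat_lit 5) (nat_lit 6) (nat_lit 4) (nat_lit 254) (nat_lit 234) (nat_lit 112)) (XT.lf (nat_lit 0) (nat_lit 559029591385) (nat_lit 76) (nat_lit 296192653188) (nat_lit 152) (nat_lit 2570123942387) (nat_lit 4) (nat_lit 5) (nat_lit 5) (nat_lit 5) (nat_lit 6) (nat_lit 4) (nat_lit 255) (nat_lit 234) (nat_lit 111)))) (XT.nd (nat_lit 156) (nat_lit 76) (nat_lit 0) (XT.nd (nat_lit 78) (nat_lit 0) (nat_lit 0) (XT.lf (nat_lit 0) (nat_lit 1383546160273) (nat_lit 152) (nat_lit 2197938575692) (nat_lit 0) (nat_lit 270765081874) (nat_lit 4) (nat_lit 5) (nat_lit 6) (nat_lit 4) (nat_lit 4) (nat_lit 4) (nat_lit 256) (nat_lit 234) (nat_lit 110)) (XT.lf (nat_lit 0) (nat_lit 2005223070536) (nat_lit 152) (nat_lit 1443408273928) (nat_lit 0) (nat_lit 892441987820) (nat_lit 4) (nat_lit 5) (nat_lit 6) (nat_lit 4) (nat_lit 4) (nat_lit 4)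 (nat_lit 257) (nat_lit 234) (nat_lit 109))) (XT.nd (nat_lit 78) (nat_lit 76) (nat_lit 0) (XT.lf (nat_lit 0) (nat_lit 2720151513124) (nat_lit 152) (nat_lit 575698434765) (nat_lit 0) (nat_lit 1607370426652) (nat_lit 4) (nat_lit 5) (nat_lit 6) (nat_lit 4) (nat_lit 4) (nat_lit 4) (nat_lit 258) (nat_lit 234) (nat_lit 108)) (XT.lf (nat_lit 0) (nat_lit 463425188336) (nat_lit 76) (nat_lit 3098083478890) (nat_lit 76) (nat_lit 1985302389154) (nat_lit 3) (nat_lit 4) (nat_lit 4) (nat_lit 5) (nat_lit 4) (nat_lit 4) (nat_lit 259) (nat_lit 234) (nat_lit 107))))) (XT.nd (nat_lit 312) (nat_lit 152) (nat_lit 0) (XT.nd (nat_lit 156) (nat_lit 0) (nat_lit 0) (XT.nd (nat_lit 78) (nat_lit 0) (nat_lit 0) (XT.lf (nat_lit 0) (nat_lit 1723118002009) (nat_lit 76) (nat_lit 2836044716250) (nat_lit 76) (nat_lit 1723263623674) (nat_lit 3) (nat_lit 4) (nat_lit 4) (nat_lit 5) (nat_lit 4) (nat_lit 4) (nat_lit 260) (nat_lit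 234) (nat_lit 106)) (XT.lf (nat_lit 0) (nat_lit 3171764732055) (nat_lit 76) (nat_lit 2534700141883) (nat_lit 76) (nat_lit 1421919046839) (nat_lit 3) (nat_lit 4) (nat_lit 4) (nat_lit 5) (nat_lit 4) (nat_lit 4) (nat_lit 261) (nat_lit 234) (nat_lit 105))) (XT.nd (nat_lit 78) (nat_lit 0) (nat_lit 0) (XT.lf (nat_lit 0) (nat_lit 4837708466673) (nat_lit 76) (nat_lit 2188153883684) (nat_lit 76) (nat_lit 1075372786493) (nat_lit 3) (nat_lit 4) (nat_lit 4) (nat_lit 5) (nat_lit 4) (nat_lit 4) (nat_lit 262) (nat_lit 234) (nat_lit 104)) (XT.lf (nat_lit 0) (nat_lit 6753543757190) (nat_lit 76) (nat_lit 1789625688774) (nat_lit 76) (nat_lit 676844589716) (nat_lit 3) (nat_lit 4) (nat_lit 4) (nat_lit 5) (nat_lit 4) (nat_lit 4) (nat_lit 263) (nat_lit 234) (nat_lit 103)))) (XT.nd (nat_lit 156) (nat_lit 76) (nat_lit 0) (XT.nd (nat_lit 78) (nat_lit 76) (nat_lit 0) (XT.lf (nat_lit 0) (nat_lit 8956754337552)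 (nat_lit 76) (nat_lit 1331318266383) (nat_lit 76) (nat_lit 218537165702) (nat_lit 3) (nat_lit 4) (nat_lit 4) (nat_lit 5) (nat_lit 4) (nat_lit 4) (nat_lit 264) (nat_lit 234) (nat_lit 102)) (XT.lf (nat_lit 0) (nat_lit 281050109254) (nat_lit 152) (nat_lit 508523367195) (nat_lit 76) (nat_lit 11194705136758) (nat_lit 2) (nat_lit 5) (nat_lit 4) (nat_lit 5) (nat_lit 3) (nat_lit 4) (nat_lit 265) (nat_lit 234) (nat_lit 101))) (XT.nd (nat_lit 78) (nat_lit 0) (nat_lit 0) (XT.lf (nat_lit 0) (nat_lit 744919892812) (nat_lit 76) (nat_lit 119127082132) (nat_lit 152) (nat_lit 12813362997219) (nat_lit 1) (nat_lit 5) (nat_lit 2) (nat_lit 5) (nat_lit 3) (nat_lit 4) (nat_lit 266) (nat_lit 234) (nat_lit 100)) (XT.lf (nat_lit 0) (nat_lit 1589334297499) (nat_lit 152) (nat_lit 13405252043862) (nat_lit 0) (nat_lit 621698554553) (nat_lit 1) (nat_lit 5) (nat_lit 3) (nat_lit 4) (nat_lit 1) (nat_lit 4) (nat_lit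 267) (nat_lit 234) (nat_lit 99)))))) (XT.nd (nat_lit 29016) (nat_lit 0) (nat_lit 760) (XT.nd (nat_lit 28704) (nat_lit 0) (nat_lit 1140) (XT.nd (nat_lit 156) (nat_lit 0) (nat_lit 0) (XT.nd (nat_lit 78) (nat_lit 0) (nat_lit 0) (XT.lf (nat_lit 0) (nat_lit 2429087435294) (nat_lit 152) (nat_lit 13954601023868) (nat_lit 0) (nat_lit 1461451691542) (nat_lit 1) (nat_lit 5) (nat_lit 3) (nat_lit 4) (nat_lit 1) (nat_lit 4) (nat_lit 268) (nat_lit 234) (nat_lit 98)) (XT.lf (nat_lit 0) (nat_lit 3394803542594) (nat_lit 152) (nat_lit 14586352353152) (nat_lit 0) (nat_lit 2427167798140) (nat_lit 1) (nat_lit 5) (nat_lit 3) (nat_lit 4) (nat_lit 1) (nat_lit 4) (nat_lit 269) (nat_lit 234) (nat_lit 97))) (XT.nd (nat_lit 78) (nat_lit 0) (nat_lit 0) (XT.lf (nat_lit 0) (nat_lit 4505377064978) (nat_lit 152) (nat_lit 15312866383811) (nat_lit 0) (nat_lit 3537741319913) (nat_lit 1) (nat_lit 5) (nat_lit 3) (nat_lit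 4) (nat_lit 1) (nat_lit 4) (nat_lit 270) (nat_lit 234) (nat_lit 96)) (XT.lf (nat_lit 0) (nat_lit 5782536614839) (nat_lit 152) (nat_lit 16148357520792) (nat_lit 0) (nat_lit 4814900869244) (nat_lit 1) (nat_lit 5) (nat_lit 3) (nat_lit 4) (nat_lit 1) (nat_lit 4) (nat_lit 271) (nat_lit 234) (nat_lit 95)))) (XT.nd (nat_lit 156) (nat_lit 304) (nat_lit 0) (XT.nd (nat_lit 78) (nat_lit 0) (nat_lit 0) (XT.lf (nat_lit 0) (nat_lit 136312390784) (nat_lit 0) (nat_lit 136312390784) (nat_lit 228) (nat_lit 45797151) (nat_lit 20) (nat_lit 5) (nat_lit 20) (nat_lit 3) (nat_lit 23) (nat_lit 3) (nat_lit 235) (nat_lit 235) (nat_lit 130)) (XT.lf (nat_lit 0) (nat_lit 548373446762) (nat_lit 0) (nat_lit 37770017598) (nat_lit 228) (nat_lit 98250409) (nat_lit 20) (nat_lit 5) (nat_lit 20) (nat_lit 3) (nat_lit 23) (nat_lit 3) (nat_lit 236) (nat_lit 235) (nat_lit 129))) (XT.nd (nat_lit 78) (nat_lit 0) (nat_lit 0)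 (XT.lf (nat_lit 0) (nat_lit 20580551645) (nat_lit 304) (nat_lit 386911947321) (nat_lit 380) (nat_lit 222683960589) (nat_lit 16) (nat_lit 5) (nat_lit 20) (nat_lit 5) (nat_lit 21) (nat_lit 5) (nat_lit 237) (nat_lit 235) (nat_lit 128)) (XT.lf (nat_lit 0) (nat_lit 48223395376) (nat_lit 304) (nat_lit 111478944175) (nat_lit 380) (nat_lit 520417532922) (nat_lit 16) (nat_lit 5) (nat_lit 20) (nat_lit 5) (nat_lit 21) (nat_lit 5) (nat_lit 238) (nat_lit 235) (nat_lit 127))))) (XT.nd (nat_lit 312) (nat_lit 228) (nat_lit 0) (XT.nd (nat_lit 156) (nat_lit 228) (nat_lit 0) (XT.nd (nat_lit 78) (nat_lit 0) (nat_lit 0) (XT.lf (nat_lit 0) (nat_lit 94973951238) (nat_lit 304) (nat_lit 516456777195) (nat_lit 76) (nat_lit 123879876280) (nat_lit 17) (nat_lit 5) (nat_lit 21) (nat_lit 5) (nat_lit 18) (nat_lit 5) (nat_lit 239) (nat_lit 235) (nat_lit 126)) (XT.lf (nat_lit 0) (nat_lit 162446739419) (nat_lit 304)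 (nat_lit 194523010852) (nat_lit 76) (nat_lit 439753749368) (nat_lit 17) (nat_lit 5) (nat_lit 21) (nat_lit 5) (nat_lit 18) (nat_lit 5) (nat_lit 240) (nat_lit 235) (nat_lit 125))) (XT.nd (nat_lit 78) (nat_lit 0) (nat_lit 0) (XT.lf (nat_lit 0) (nat_lit 192871559279) (nat_lit 228) (nat_lit 55155265914) (nat_lit 304) (nat_lit 618123546875) (nat_lit 14) (nat_lit 5) (nat_lit 17) (nat_lit 5) (nat_lit 18) (nat_lit 5) (nat_lit 241) (nat_lit 235) (nat_lit 124)) (XT.lf (nat_lit 0) (nat_lit 369184611978) (nat_lit 304) (nat_lit 296801471050) (nat_lit 76) (nat_lit 276594089253) (nat_lit 14) (nat_lit 5) (nat_lit 18) (nat_lit 5) (nat_lit 15) (nat_lit 5) (nat_lit 242) (nat_lit 235) (nat_lit 123)))) (XT.nd (nat_lit 156) (nat_lit 76) (nat_lit 0) (XT.nd (nat_lit 78) (nat_lit 0) (nat_lit 0) (XT.lf (nat_lit 0) (nat_lit 146569654905) (nat_lit 152) (nat_lit 370641973603) (nat_lit 228) (nat_lit 511958479887)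 (nat_lit 12) (nat_lit 5) (nat_lit 14) (nat_lit 5) (nat_lit 15) (nat_lit 5) (nat_lit 243) (nat_lit 235) (nat_lit 122)) (XT.lf (nat_lit 0) (nat_lit 689802868684) (nat_lit 152) (nat_lit 13154436170) (nat_lit 228) (nat_lit 423464039080) (nat_lit 12) (nat_lit 5) (nat_lit 14) (nat_lit 5) (nat_lit 15) (nat_lit 5) (nat_lit 244) (nat_lit 235) (nat_lit 121))) (XT.nd (nat_lit 78) (nat_lit 0) (nat_lit 0) (XT.lf (nat_lit 0) (nat_lit 65624619721) (nat_lit 76) (nat_lit 870136094204) (nat_lit 152) (nat_lit 299620168784) (nat_lit 11) (nat_lit 5) (nat_lit 12) (nat_lit 5) (nat_lit 13) (nat_lit 4) (nat_lit 245) (nat_lit 235) (nat_lit 120)) (XT.lf (nat_lit 0) (nat_lit 691586505722) (nat_lit 76) (nat_lit 535319283816) (nat_lit 152) (nat_lit 130265389567) (nat_lit 11) (nat_lit 5) (nat_lit 12) (nat_lit 5) (nat_lit 13) (nat_lit 4) (nat_lit 246) (nat_lit 235) (nat_lit 119)))))))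
noncomputable def xc90 : XT := (XT.nd (nat_lit 1248) (nat_lit 152) (nat_lit 0) (XT.nd (nat_lit 624) (nat_lit 152) (nat_lit 0) (XT.nd (nat_lit 312) (nat_lit 152) (nat_lit 0) (XT.nd (nat_lit 156) (nat_lit 76) (nat_lit 0) (XT.nd (nat_lit 78) (nat_lit 152) (nat_lit 0) (XT.lf (nat_lit 0) (nat_lit 58751017532) (nat_lit 152) (nat_lit 88457863185) (nat_lit 76) (nat_lit 1349620565789) (nat_lit 10) (nat_lit 5) (nat_lit 12) (nat_lit 5) (nat_lit 11) (nat_lit 5) (nat_lit 247) (nat_lit 235) (nat_lit 118)) (XT.lf (nat_lit 0) (nat_lit 302561306596) (nat_lit 228) (nat_lit 1041894047318) (nat_lit 76) (nat_lit 306083915758) (nat_lit 8) (nat_lit 5) (nat_lit 11) (nat_lit 5) (nat_lit 9) (nat_lit 4) (nat_lit 248) (nat_lit 235) (nat_lit 117))) (XT.nd (nat_lit 78) (nat_lit 76) (nat_lit 0) (XT.lf (nat_lit 0) (nat_lit 594797197575) (nat_lit 228) (nat_lit 413586896904) (nat_lit 76) (nat_lit 817143363098) (nat_lit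 8) (nat_lit 5) (nat_lit 11) (nat_lit 5) (nat_lit 9) (nat_lit 4) (nat_lit 249) (nat_lit 235) (nat_lit 116)) (XT.lf (nat_lit 0) (nat_lit 339160748224) (nat_lit 76) (nat_lit 605751639275) (nat_lit 152) (nat_lit 1079744898914) (nat_lit 7) (nat_lit 5) (nat_lit 8) (nat_lit 5) (nat_lit 9) (nat_lit 4) (nat_lit 250) (nat_lit 235) (nat_lit 115)))) (XT.nd (nat_lit 156) (nat_lit 152) (nat_lit 0) (XT.nd (nat_lit 78) (nat_lit 0) (nat_lit 0) (XT.lf (nat_lit 0) (nat_lit 1251302055115) (nat_lit 76) (nat_lit 117862108373) (nat_lit 152) (nat_lit 881249529987) (nat_lit 7) (nat_lit 5) (nat_lit 8) (nat_lit 5) (nat_lit 9) (nat_lit 4) (nat_lit 251) (nat_lit 235) (nat_lit 114)) (XT.lf (nat_lit 0) (nat_lit 1875406115425) (nat_lit 152) (nat_lit 228121431409) (nat_lit 0) (nat_lit 403753153361) (nat_lit 7) (nat_lit 5) (nat_lit 9) (nat_lit 4) (nat_lit 7) (nat_lit 4) (nat_lit 252) (nat_lit 235) (nat_lit 113))) (XT.nd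 (nat_lit 78) (nat_lit 76) (nat_lit 0) (XT.lf (nat_lit 0) (nat_lit 716711422070) (nat_lit 76) (nat_lit 1776162905212) (nat_lit 76) (nat_lit 304509935597) (nat_lit 6) (nat_lit 4) (nat_lit 7) (nat_lit 5) (nat_lit 7) (nat_lit 4) (nat_lit 253) (nat_lit 235) (nat_lit 112)) (XT.lf (nat_lit 0) (nat_lit 78045444943) (nat_lit 152) (nat_lit 1303855269553) (nat_lit 76) (nat_lit 1746781838874) (nat_lit 5) (nat_lit 5) (nat_lit 7) (nat_lit 5) (nat_lit 6) (nat_lit 4) (nat_lit 254) (nat_lit 235) (nat_lit 111))))) (XT.nd (nat_lit 312) (nat_lit 76) (nat_lit 0) (XT.nd (nat_lit 156) (nat_lit 0) (nat_lit 0) (XT.nd (nat_lit 78) (nat_lit 76) (nat_lit 0) (XT.lf (nat_lit 0) (nat_lit 486808110360) (nat_lit 152) (nat_lit 425015544618) (nat_lit 76) (nat_lit 2595676862254) (nat_lit 5) (nat_lit 5) (nat_lit 7) (nat_lit 5) (nat_lit 6) (nat_lit 4) (nat_lit 255) (nat_lit 235) (nat_lit 110)) (XT.lf (nat_lit 0) (nat_lit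 642884121435) (nat_lit 76) (nat_lit 340621510328) (nat_lit 152) (nat_lit 2955642475498) (nat_lit 4) (nat_lit 5) (nat_lit 5) (nat_lit 5) (nat_lit 6) (nat_lit 4) (nat_lit 256) (nat_lit 235) (nat_lit 109))) (XT.nd (nat_lit 78) (nat_lit 0) (nat_lit 0) (XT.lf (nat_lit 0) (nat_lit 1591078129701) (nat_lit 152) (nat_lit 2527629277356) (nat_lit 0) (nat_lit 311379876505) (nat_lit 4) (nat_lit 5) (nat_lit 6) (nat_lit 4) (nat_lit 4) (nat_lit 4) (nat_lit 257) (nat_lit 235) (nat_lit 108)) (XT.lf (nat_lit 0) (nat_lit 2306006570584) (nat_lit 152) (nat_lit 1659919441374) (nat_lit 0) (nat_lit 1026308314122) (nat_lit 4) (nat_lit 5) (nat_lit 6) (nat_lit 4) (nat_lit 4) (nat_lit 4) (nat_lit 258) (nat_lit 235) (nat_lit 107)))) (XT.nd (nat_lit 156) (nat_lit 0) (nat_lit 0) (XT.nd (nat_lit 78) (nat_lit 76) (nat_lit 0) (XT.lf (nat_lit 0) (nat_lit 3128174274412) (nat_lit 152) (nat_lit 662053135942) (nat_lit 0)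 (nat_lit 1848476015111) (nat_lit 4) (nat_lit 5) (nat_lit 6) (nat_lit 4) (nat_lit 4) (nat_lit 4) (nat_lit 259) (nat_lit 235) (nat_lit 106)) (XT.lf (nat_lit 0) (nat_lit 532939027713) (nat_lit 76) (nat_lit 3562795971971) (nat_lit 76) (nat_lit 2283097710202) (nat_lit 3) (nat_lit 4) (nat_lit 4) (nat_lit 5) (nat_lit 4) (nat_lit 4) (nat_lit 260) (nat_lit 235) (nat_lit 105))) (XT.nd (nat_lit 78) (nat_lit 0) (nat_lit 0) (XT.lf (nat_lit 0) (nat_lit 1981585755464) (nat_lit 76) (nat_lit 3261451398685) (nat_lit 76) (nat_lit 1981753134769) (nat_lit 3) (nat_lit 4) (nat_lit 4) (nat_lit 5) (nat_lit 4) (nat_lit 4) (nat_lit 261) (nat_lit 235) (nat_lit 104)) (XT.lf (nat_lit 0) (nat_lit 3647529488085) (nat_lit 76) (nat_lit 2914905141425) (nat_lit 76) (nat_lit 1635206875642) (nat_lit 3) (nat_lit 4) (nat_lit 4) (nat_lit 5) (nat_lit 4) (nat_lit 4) (nat_lit 262) (nat_lit 235) (nat_lit 103)))))) (XT.nd (nat_lit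 29172) (nat_lit 0) (nat_lit 836) (XT.nd (nat_lit 312) (nat_lit 76) (nat_lit 0) (XT.nd (nat_lit 156) (nat_lit 76) (nat_lit 0) (XT.nd (nat_lit 78) (nat_lit 0) (nat_lit 0) (XT.lf (nat_lit 0) (nat_lit 5563364776866) (nat_lit 76) (nat_lit 2516376947331) (nat_lit 76) (nat_lit 1236678679925) (nat_lit 3) (nat_lit 4) (nat_lit 4) (nat_lit 5) (nat_lit 4) (nat_lit 4) (nat_lit 263) (nat_lit 235) (nat_lit 102)) (XT.lf (nat_lit 0) (nat_lit 7766575355718) (nat_lit 76) (nat_lit 2058069525651) (nat_lit 76) (nat_lit 778371256833) (nat_lit 3) (nat_lit 4) (nat_lit 4) (nat_lit 5) (nat_lit 4) (nat_lit 4) (nat_lit 264) (nat_lit 235) (nat_lit 101))) (XT.nd (nat_lit 78) (nat_lit 76) (nat_lit 0) (XT.lf (nat_lit 0) (nat_lit 10300267518576) (nat_lit 76) (nat_lit 1531015992046) (nat_lit 76) (nat_lit 251317722000) (nat_lit 3) (nat_lit 4) (nat_lit 4) (nat_lit 5) (nat_lit 4) (nat_lit 4) (nat_lit 265) (nat_lit 235)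 (nat_lit 100)) (XT.lf (nat_lit 0) (nat_lit 323207640342) (nat_lit 152) (nat_lit 584801844375) (nat_lit 76) (nat_lit 12873910918230) (nat_lit 2) (nat_lit 5) (nat_lit 4) (nat_lit 5) (nat_lit 3) (nat_lit 4) (nat_lit 266) (nat_lit 235) (nat_lit 99)))) (XT.nd (nat_lit 156) (nat_lit 0) (nat_lit 0) (XT.nd (nat_lit 78) (nat_lit 0) (nat_lit 0) (XT.lf (nat_lit 0) (nat_lit 856657903365) (nat_lit 76) (nat_lit 136996131707) (nat_lit 152) (nat_lit 14735367430802) (nat_lit 1) (nat_lit 5) (nat_lit 2) (nat_lit 5) (nat_lit 3) (nat_lit 4) (nat_lit 267) (nat_lit 235) (nat_lit 98)) (XT.lf (nat_lit 0) (nat_lit 1827734454657) (nat_lit 152) (nat_lit 15416039825905) (nat_lit 0) (nat_lit 714953347833) (nat_lit 1) (nat_lit 5) (nat_lit 3) (nat_lit 4) (nat_lit 1) (nat_lit 4) (nat_lit 268) (nat_lit 235) (nat_lit 97))) (XT.nd (nat_lit 78) (nat_lit 0) (nat_lit 0) (XT.lf (nat_lit 0) (nat_lit 2793450561487) (nat_lit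 152) (nat_lit 16047791156111) (nat_lit 0) (nat_lit 1680669454052) (nat_lit 1) (nat_lit 5) (nat_lit 3) (nat_lit 4) (nat_lit 1) (nat_lit 4) (nat_lit 269) (nat_lit 235) (nat_lit 96)) (XT.lf (nat_lit 0) (nat_lit 3904024083461) (nat_lit 152) (nat_lit 16774305187572) (nat_lit 0) (nat_lit 2791242975496) (nat_lit 1) (nat_lit 5) (nat_lit 3) (nat_lit 4) (nat_lit 1) (nat_lit 4) (nat_lit 270) (nat_lit 235) (nat_lit 95))))) (XT.nd (nat_lit 312) (nat_lit 304) (nat_lit 0) (XT.nd (nat_lit 156) (nat_lit 304) (nat_lit 0) (XT.nd (nat_lit 78) (nat_lit 0) (nat_lit 0) (XT.lf (nat_lit 0) (nat_lit 156759337586) (nat_lit 0) (nat_lit 156759337586) (nat_lit 228) (nat_lit 52462096) (nat_lit 20) (nat_lit 5) (nat_lit 20) (nat_lit 3) (nat_lit 23) (nat_lit 3) (nat_lit 236) (nat_lit 236) (nat_lit 128)) (XT.lf (nat_lit 0) (nat_lit 630629617141) (nat_lit 0) (nat_lit 43435673603) (nat_lit 228) (nat_lit 112632096) (nat_lit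 20) (nat_lit 5) (nat_lit 20) (nat_lit 3) (nat_lit 23) (nat_lit 3) (nat_lit 237) (nat_lit 236) (nat_lit 127))) (XT.nd (nat_lit 78) (nat_lit 0) (nat_lit 0) (XT.lf (nat_lit 0) (nat_lit 23667919161) (nat_lit 304) (nat_lit 444948509851) (nat_lit 380) (nat_lit 256086454389) (nat_lit 16) (nat_lit 5) (nat_lit 20) (nat_lit 5) (nat_lit 21) (nat_lit 5) (nat_lit 238) (nat_lit 236) (nat_lit 126)) (XT.lf (nat_lit 0) (nat_lit 55457152308) (nat_lit 304) (nat_lit 128200586178) (nat_lit 380) (nat_lit 598480075653) (nat_lit 16) (nat_lit 5) (nat_lit 20) (nat_lit 5) (nat_lit 21) (nat_lit 5) (nat_lit 239) (nat_lit 236) (nat_lit 125)))) (XT.nd (nat_lit 156) (nat_lit 380) (nat_lit 0) (XT.nd (nat_lit 78) (nat_lit 0) (nat_lit 0) (XT.lf (nat_lit 0) (nat_lit 109220265788) (nat_lit 304) (nat_lit 593925066597) (nat_lit 76) (nat_lit 142461827963) (nat_lit 17) (nat_lit 5) (nat_lit 21) (nat_lit 5) (nat_lit 18) (nat_lit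 5) (nat_lit 240) (nat_lit 236) (nat_lit 124)) (XT.lf (nat_lit 0) (nat_lit 186813943258) (nat_lit 304) (nat_lit 223701264934) (nat_lit 76) (nat_lit 505716785896) (nat_lit 17) (nat_lit 5) (nat_lit 21) (nat_lit 5) (nat_lit 18) (nat_lit 5) (nat_lit 241) (nat_lit 236) (nat_lit 123))) (XT.nd (nat_lit 78) (nat_lit 152) (nat_lit 0) (XT.lf (nat_lit 0) (nat_lit 221802481738) (nat_lit 228) (nat_lit 63428542803) (nat_lit 304) (nat_lit 710841875645) (nat_lit 14) (nat_lit 5) (nat_lit 17) (nat_lit 5) (nat_lit 18) (nat_lit 5) (nat_lit 242) (nat_lit 236) (nat_lit 122)) (XT.nd (nat_lit 78) (nat_lit 152) (nat_lit 0) (XT.lf (nat_lit 0) (nat_lit 424562456912) (nat_lit 304) (nat_lit 341321504126) (nat_lit 76) (nat_lit 318083212937) (nat_lit 14) (nat_lit 5) (nat_lit 18) (nat_lit 5) (nat_lit 15) (nat_lit 5) (nat_lit 243) (nat_lit 236) (nat_lit 121)) (XT.lf (nat_lit 0) (nat_lit 168555282197) (nat_lit 152)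 (nat_lit 426238231165) (nat_lit 228) (nat_lit 588752089181) (nat_lit 12) (nat_lit 5) (nat_lit 14) (nat_lit 5) (nat_lit 15) (nat_lit 5) (nat_lit 244) (nat_lit 236) (nat_lit 120))))))))
noncomputable def xc91 : XT := (XT.nd (nat_lit 31044) (nat_lit 0) (nat_lit 0) (XT.nd (nat_lit 1248) (nat_lit 228) (nat_lit 0) (XT.nd (nat_lit 624) (nat_lit 228) (nat_lit 0) (XT.nd (nat_lit 312) (nat_lit 228) (nat_lit 0) (XT.nd (nat_lit 156) (nat_lit 76) (nat_lit 0) (XT.nd (nat_lit 78) (nat_lit 76) (nat_lit 0) (XT.lf (nat_lit 0) (nat_lit 793273454688) (nat_lit 152) (nat_lit 15127568136) (nat_lit 228) (nat_lit 486983503473) (nat_lit 12) (nat_lit 5) (nat_lit 14) (nat_lit 5) (nat_lit 15) (nat_lit 5) (nat_lit 245) (nat_lit 236) (nat_lit 119)) (XT.lf (nat_lit 0) (nat_lit 75468478333) (nat_lit 76) (nat_lit 1000656457041) (nat_lit 152) (nat_lit 344563061812) (nat_lit 11) (nat_lit 5) (nat_lit 12) (nat_lit 5) (nat_lit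 13) (nat_lit 4) (nat_lit 246) (nat_lit 236) (nat_lit 118))) (XT.nd (nat_lit 78) (nat_lit 76) (nat_lit 0) (XT.lf (nat_lit 0) (nat_lit 795324625627) (nat_lit 76) (nat_lit 615617131785) (nat_lit 152) (nat_lit 149805082968) (nat_lit 11) (nat_lit 5) (nat_lit 12) (nat_lit 5) (nat_lit 13) (nat_lit 4) (nat_lit 247) (nat_lit 236) (nat_lit 117)) (XT.lf (nat_lit 0) (nat_lit 67563761286) (nat_lit 152) (nat_lit 101726407990) (nat_lit 76) (nat_lit 1552063680028) (nat_lit 10) (nat_lit 5) (nat_lit 12) (nat_lit 5) (nat_lit 11) (nat_lit 5) (nat_lit 248) (nat_lit 236) (nat_lit 116)))) (XT.nd (nat_lit 156) (nat_lit 76) (nat_lit 0) (XT.nd (nat_lit 78) (nat_lit 0) (nat_lit 0) (XT.lf (nat_lit 0) (nat_lit 347945588969) (nat_lit 228) (nat_lit 1198178014557) (nat_lit 76) (nat_lit 351996543195) (nat_lit 8) (nat_lit 5) (nat_lit 11) (nat_lit 5) (nat_lit 9) (nat_lit 4) (nat_lit 249) (nat_lit 236) (nat_lit 115))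 (XT.lf (nat_lit 0) (nat_lit 684016852327) (nat_lit 228) (nat_lit 475624809824) (nat_lit 76) (nat_lit 939714902409) (nat_lit 8) (nat_lit 5) (nat_lit 11) (nat_lit 5) (nat_lit 9) (nat_lit 4) (nat_lit 250) (nat_lit 236) (nat_lit 114))) (XT.nd (nat_lit 78) (nat_lit 0) (nat_lit 0) (XT.lf (nat_lit 0) (nat_lit 390034976545) (nat_lit 76) (nat_lit 696614339204) (nat_lit 152) (nat_lit 1241706552772) (nat_lit 7) (nat_lit 5) (nat_lit 8) (nat_lit 5) (nat_lit 9) (nat_lit 4) (nat_lit 251) (nat_lit 236) (nat_lit 113)) (XT.lf (nat_lit 0) (nat_lit 1438997464328) (nat_lit 76) (nat_lit 135541384662) (nat_lit 152) (nat_lit 1013436889069) (nat_lit 7) (nat_lit 5) (nat_lit 8) (nat_lit 5) (nat_lit 9) (nat_lit 4) (nat_lit 252) (nat_lit 236) (nat_lit 112))))) (XT.nd (nat_lit 312) (nat_lit 76) (nat_lit 0) (XT.nd (nat_lit 156) (nat_lit 76) (nat_lit 0) (XT.nd (nat_lit 78) (nat_lit 76) (nat_lit 0) (XT.lf (nat_lit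 0) (nat_lit 2156717087202) (nat_lit 152) (nat_lit 262339551573) (nat_lit 0) (nat_lit 464316158025) (nat_lit 7) (nat_lit 5) (nat_lit 9) (nat_lit 4) (nat_lit 7) (nat_lit 4) (nat_lit 253) (nat_lit 236) (nat_lit 111)) (XT.lf (nat_lit 0) (nat_lit 824218225630) (nat_lit 76) (nat_lit 2042587301842) (nat_lit 76) (nat_lit 350186366955) (nat_lit 6) (nat_lit 4) (nat_lit 7) (nat_lit 5) (nat_lit 7) (nat_lit 4) (nat_lit 254) (nat_lit 236) (nat_lit 110))) (XT.nd (nat_lit 78) (nat_lit 0) (nat_lit 0) (XT.lf (nat_lit 0) (nat_lit 89752308407) (nat_lit 152) (nat_lit 1499433476775) (nat_lit 76) (nat_lit 2008799144018) (nat_lit 5) (nat_lit 5) (nat_lit 7) (nat_lit 5) (nat_lit 6) (nat_lit 4) (nat_lit 255) (nat_lit 236) (nat_lit 109)) (XT.lf (nat_lit 0) (nat_lit 559829367542) (nat_lit 152) (nat_lit 488767803954) (nat_lit 76) (nat_lit 2985028417082) (nat_lit 5) (nat_lit 5) (nat_lit 7) (nat_lit 5) (nat_lit 6)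 (nat_lit 4) (nat_lit 256) (nat_lit 236) (nat_lit 108)))) (XT.nd (nat_lit 156) (nat_lit 0) (nat_lit 0) (XT.nd (nat_lit 78) (nat_lit 0) (nat_lit 0) (XT.lf (nat_lit 0) (nat_lit 739316808718) (nat_lit 76) (nat_lit 391714705999) (nat_lit 152) (nat_lit 3398988802780) (nat_lit 4) (nat_lit 5) (nat_lit 5) (nat_lit 5) (nat_lit 6) (nat_lit 4) (nat_lit 257) (nat_lit 236) (nat_lit 107)) (XT.lf (nat_lit 0) (nat_lit 1829739883476) (nat_lit 152) (nat_lit 2906773604922) (nat_lit 0) (nat_lit 358086882441) (nat_lit 4) (nat_lit 5) (nat_lit 6) (nat_lit 4) (nat_lit 4) (nat_lit 4) (nat_lit 258) (nat_lit 236) (nat_lit 106))) (XT.nd (nat_lit 78) (nat_lit 0) (nat_lit 0) (XT.lf (nat_lit 0) (nat_lit 2651907586015) (nat_lit 152) (nat_lit 1908907301895) (nat_lit 0) (nat_lit 1180254582511) (nat_lit 4) (nat_lit 5) (nat_lit 6) (nat_lit 4) (nat_lit 4) (nat_lit 4) (nat_lit 259) (nat_lit 236) (nat_lit 105)) (XT.lf (nat_lit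 0) (nat_lit 3597400441524) (nat_lit 152) (nat_lit 761361057912) (nat_lit 0) (nat_lit 2125747435874) (nat_lit 4) (nat_lit 5) (nat_lit 6) (nat_lit 4) (nat_lit 4) (nat_lit 4) (nat_lit 260) (nat_lit 236) (nat_lit 104)))))) (XT.nd (nat_lit 624) (nat_lit 0) (nat_lit 0) (XT.nd (nat_lit 312) (nat_lit 152) (nat_lit 0) (XT.nd (nat_lit 156) (nat_lit 0) (nat_lit 0) (XT.nd (nat_lit 78) (nat_lit 0) (nat_lit 0) (XT.lf (nat_lit 0) (nat_lit 612879928091) (nat_lit 76) (nat_lit 4097215346026) (nat_lit 76) (nat_lit 2625562338509) (nat_lit 3) (nat_lit 4) (nat_lit 4) (nat_lit 5) (nat_lit 4) (nat_lit 4) (nat_lit 261) (nat_lit 236) (nat_lit 103)) (XT.lf (nat_lit 0) (nat_lit 2278823658975) (nat_lit 76) (nat_lit 3750669089582) (nat_lit 76) (nat_lit 2279016080442) (nat_lit 3) (nat_lit 4) (nat_lit 4) (nat_lit 5) (nat_lit 4) (nat_lit 4) (nat_lit 262) (nat_lit 236) (nat_lit 102))) (XT.nd (nat_lit 78) (nat_lit 0)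 (nat_lit 0) (XT.lf (nat_lit 0) (nat_lit 4194658946247) (nat_lit 76) (nat_lit 3352140896199) (nat_lit 76) (nat_lit 1880487885647) (nat_lit 3) (nat_lit 4) (nat_lit 4) (nat_lit 5) (nat_lit 4) (nat_lit 4) (nat_lit 263) (nat_lit 236) (nat_lit 101)) (XT.lf (nat_lit 0) (nat_lit 6397869523787) (nat_lit 76) (nat_lit 2893833475136) (nat_lit 76) (nat_lit 1422180463356) (nat_lit 3) (nat_lit 4) (nat_lit 4) (nat_lit 5) (nat_lit 4) (nat_lit 4) (nat_lit 264) (nat_lit 236) (nat_lit 100)))) (XT.nd (nat_lit 156) (nat_lit 152) (nat_lit 0) (XT.nd (nat_lit 78) (nat_lit 0) (nat_lit 0) (XT.lf (nat_lit 0) (nat_lit 8931561685503) (nat_lit 76) (nat_lit 2366779942068) (nat_lit 76) (nat_lit 895126929221) (nat_lit 3) (nat_lit 4) (nat_lit 4) (nat_lit 5) (nat_lit 4) (nat_lit 4) (nat_lit 265) (nat_lit 236) (nat_lit 99)) (XT.lf (nat_lit 0) (nat_lit 11845307669342) (nat_lit 76) (nat_lit 1760668380043) (nat_lit 76) (nat_lit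 289015366268) (nat_lit 3) (nat_lit 4) (nat_lit 4) (nat_lit 5) (nat_lit 4) (nat_lit 4) (nat_lit 266) (nat_lit 236) (nat_lit 98))) (XT.nd (nat_lit 78) (nat_lit 76) (nat_lit 0) (XT.lf (nat_lit 0) (nat_lit 371688797509) (nat_lit 152) (nat_lit 672522099936) (nat_lit 76) (nat_lit 14804997564250) (nat_lit 2) (nat_lit 5) (nat_lit 4) (nat_lit 5) (nat_lit 3) (nat_lit 4) (nat_lit 267) (nat_lit 236) (nat_lit 97)) (XT.lf (nat_lit 0) (nat_lit 985156609007) (nat_lit 76) (nat_lit 157545541825) (nat_lit 152) (nat_lit 16945672533324) (nat_lit 1) (nat_lit 5) (nat_lit 2) (nat_lit 5) (nat_lit 3) (nat_lit 4) (nat_lit 268) (nat_lit 236) (nat_lit 96))))) (XT.nd (nat_lit 28860) (nat_lit 0) (nat_lit 1140) (XT.nd (nat_lit 624) (nat_lit 0) (nat_lit 0) (XT.nd (nat_lit 546) (nat_lit 0) (nat_lit 0) (XT.lf (nat_lit 0) (nat_lit 2101894632333) (nat_lit 152) (nat_lit 17728445781238) (nat_lit 0) (nat_lit 822196357642)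 (nat_lit 1) (nat_lit 5) (nat_lit 3) (nat_lit 4) (nat_lit 1) (nat_lit 4) (nat_lit 269) (nat_lit 236) (nat_lit 95)) (XT.lf (nat_lit 0) (nat_lit 14392388781478) (nat_lit 152) (nat_lit 25768630722563) (nat_lit 0) (nat_lit 13112690504580) (nat_lit 1) (nat_lit 5) (nat_lit 3) (nat_lit 4) (nat_lit 1) (nat_lit 4) (nat_lit 276) (nat_lit 236) (nat_lit 88))) (XT.nd (nat_lit 28158) (nat_lit 0) (nat_lit 1444) (XT.lf (nat_lit 0) (nat_lit 17346536422284) (nat_lit 152) (nat_lit 27701172502153) (nat_lit 0) (nat_lit 16066838145212) (nat_lit 1) (nat_lit 5) (nat_lit 3) (nat_lit 4) (nat_lit 1) (nat_lit 4) (nat_lit 277) (nat_lit 236) (nat_lit 87)) (XT.lf (nat_lit 0) (nat_lit 180273304905) (nat_lit 0) (nat_lit 180273304905) (nat_lit 228) (nat_lit 60176683) (nat_lit 20) (nat_lit 5) (nat_lit 20) (nat_lit 3) (nat_lit 23) (nat_lit 3) (nat_lit 237) (nat_lit 237) (nat_lit 126)))) (XT.nd (nat_lit 156) (nat_lit 0)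 (nat_lit 0) (XT.nd (nat_lit 78) (nat_lit 304) (nat_lit 0) (XT.lf (nat_lit 0) (nat_lit 725224175678) (nat_lit 0) (nat_lit 49951140609) (nat_lit 228) (nat_lit 129257818) (nat_lit 20) (nat_lit 5) (nat_lit 20) (nat_lit 3) (nat_lit 23) (nat_lit 3) (nat_lit 238) (nat_lit 237) (nat_lit 125)) (XT.lf (nat_lit 0) (nat_lit 27218322362) (nat_lit 304) (nat_lit 511690612743) (nat_lit 380) (nat_lit 294499346715) (nat_lit 16) (nat_lit 5) (nat_lit 20) (nat_lit 5) (nat_lit 21) (nat_lit 5) (nat_lit 239) (nat_lit 237) (nat_lit 124))) (XT.nd (nat_lit 78) (nat_lit 0) (nat_lit 76) (XT.lf (nat_lit 0) (nat_lit 63775912395) (nat_lit 304) (nat_lit 147430523160) (nat_lit 380) (nat_lit 688252021059) (nat_lit 16) (nat_lit 5) (nat_lit 20) (nat_lit 5) (nat_lit 21) (nat_lit 5) (nat_lit 240) (nat_lit 237) (nat_lit 123)) (XT.lf (nat_lit 0) (nat_lit 125603473418) (nat_lit 304) (nat_lit 683013654807) (nat_lit 76) (nat_lit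 163831079656) (nat_lit 17) (nat_lit 5) (nat_lit 21) (nat_lit 5) (nat_lit 18) (nat_lit 5) (nat_lit 241) (nat_lit 237) (nat_lit 122))))))) (XT.nd (nat_lit 1248) (nat_lit 304) (nat_lit 0) (XT.nd (nat_lit 624) (nat_lit 380) (nat_lit 0) (XT.nd (nat_lit 312) (nat_lit 152) (nat_lit 0) (XT.nd (nat_lit 156) (nat_lit 152) (nat_lit 0) (XT.nd (nat_lit 78) (nat_lit 228) (nat_lit 0) (XT.lf (nat_lit 0) (nat_lit 214836180626) (nat_lit 304) (nat_lit 257256305301) (nat_lit 76) (nat_lit 581574284214) (nat_lit 17) (nat_lit 5) (nat_lit 21) (nat_lit 5) (nat_lit 18) (nat_lit 5) (nat_lit 242) (nat_lit 237) (nat_lit 121)) (XT.lf (nat_lit 0) (nat_lit 255072996582) (nat_lit 228) (nat_lit 72942814396) (nat_lit 304) (nat_lit 817468003298) (nat_lit 14) (nat_lit 5) (nat_lit 17) (nat_lit 5) (nat_lit 18) (nat_lit 5) (nat_lit 243) (nat_lit 237) (nat_lit 120))) (XT.nd (nat_lit 78) (nat_lit 152) (nat_lit 0) (XT.lf (nat_lit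 0) (nat_lit 488246941242) (nat_lit 304) (nat_lit 392519587905) (nat_lit 76) (nat_lit 365795702663) (nat_lit 14) (nat_lit 5) (nat_lit 18) (nat_lit 5) (nat_lit 15) (nat_lit 5) (nat_lit 244) (nat_lit 237) (nat_lit 119)) (XT.lf (nat_lit 0) (nat_lit 193838709918) (nat_lit 152) (nat_lit 490173936744) (nat_lit 228) (nat_lit 677064779543) (nat_lit 12) (nat_lit 5) (nat_lit 14) (nat_lit 5) (nat_lit 15) (nat_lit 5) (nat_lit 245) (nat_lit 237) (nat_lit 118)))) (XT.nd (nat_lit 156) (nat_lit 76) (nat_lit 0) (XT.nd (nat_lit 78) (nat_lit 76) (nat_lit 0) (XT.lf (nat_lit 0) (nat_lit 912264590623) (nat_lit 152) (nat_lit 17396678056) (nat_lit 228) (nat_lit 560030922024) (nat_lit 12) (nat_lit 5) (nat_lit 14) (nat_lit 5) (nat_lit 15) (nat_lit 5) (nat_lit 246) (nat_lit 237) (nat_lit 117)) (XT.lf (nat_lit 0) (nat_lit 86788875342) (nat_lit 76) (nat_lit 1150754886812) (nat_lit 152) (nat_lit 396247421053) (nat_lit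 11) (nat_lit 5) (nat_lit 12) (nat_lit 5) (nat_lit 13) (nat_lit 4) (nat_lit 247) (nat_lit 237) (nat_lit 116))) (XT.nd (nat_lit 78) (nat_lit 76) (nat_lit 0) (XT.lf (nat_lit 0) (nat_lit 914623428392) (nat_lit 76) (nat_lit 707959667827) (nat_lit 152) (nat_lit 172275758430) (nat_lit 11) (nat_lit 5) (nat_lit 12) (nat_lit 5) (nat_lit 13) (nat_lit 4) (nat_lit 248) (nat_lit 237) (nat_lit 115)) (XT.lf (nat_lit 0) (nat_lit 77698394383) (nat_lit 152) (nat_lit 116985267356) (nat_lit 76) (nat_lit 1784873254240) (nat_lit 10) (nat_lit 5) (nat_lit 12) (nat_lit 5) (nat_lit 11) (nat_lit 5) (nat_lit 249) (nat_lit 237) (nat_lit 114))))) (XT.nd (nat_lit 312) (nat_lit 152) (nat_lit 0) (XT.nd (nat_lit 156) (nat_lit 76) (nat_lit 0) (XT.nd (nat_lit 78) (nat_lit 0) (nat_lit 0) (XT.lf (nat_lit 0) (nat_lit 400137492633) (nat_lit 228) (nat_lit 1377904610988) (nat_lit 76) (nat_lit 404796054976) (nat_lit 8) (nat_lit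 5) (nat_lit 11) (nat_lit 5) (nat_lit 9) (nat_lit 4) (nat_lit 250) (nat_lit 237) (nat_lit 113)) (XT.lf (nat_lit 0) (nat_lit 786619436975) (nat_lit 228) (nat_lit 546968439339) (nat_lit 76) (nat_lit 1080672164120) (nat_lit 8) (nat_lit 5) (nat_lit 11) (nat_lit 5) (nat_lit 9) (nat_lit 4) (nat_lit 251) (nat_lit 237) (nat_lit 112))) (XT.nd (nat_lit 78) (nat_lit 0) (nat_lit 0) (XT.lf (nat_lit 0) (nat_lit 448540310806) (nat_lit 76) (nat_lit 801106455330) (nat_lit 152) (nat_lit 1427962474457) (nat_lit 7) (nat_lit 5) (nat_lit 8) (nat_lit 5) (nat_lit 9) (nat_lit 4) (nat_lit 252) (nat_lit 237) (nat_lit 111)) (XT.lf (nat_lit 0) (nat_lit 1654847160306) (nat_lit 76) (nat_lit 155872562140) (nat_lit 152) (nat_lit 1165452369184) (nat_lit 7) (nat_lit 5) (nat_lit 8) (nat_lit 5) (nat_lit 9) (nat_lit 4) (nat_lit 253) (nat_lit 237) (nat_lit 110)))) (XT.nd (nat_lit 156) (nat_lit 76) (nat_lit 0) (XT.nd (nat_lit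 78) (nat_lit 76) (nat_lit 0) (XT.lf (nat_lit 0) (nat_lit 2480224691465) (nat_lit 152) (nat_lit 301690412818) (nat_lit 0) (nat_lit 533963605669) (nat_lit 7) (nat_lit 5) (nat_lit 9) (nat_lit 4) (nat_lit 7) (nat_lit 4) (nat_lit 254) (nat_lit 237) (nat_lit 109)) (XT.lf (nat_lit 0) (nat_lit 947851027716) (nat_lit 76) (nat_lit 2348975367513) (nat_lit 76) (nat_lit 402714277399) (nat_lit 6) (nat_lit 4) (nat_lit 7) (nat_lit 5) (nat_lit 7) (nat_lit 4) (nat_lit 255) (nat_lit 237) (nat_lit 108))) (XT.nd (nat_lit 78) (nat_lit 0) (nat_lit 0) (XT.lf (nat_lit 0) (nat_lit 103215189997) (nat_lit 152) (nat_lit 1724348435373) (nat_lit 76) (nat_lit 2310119037785) (nat_lit 5) (nat_lit 5) (nat_lit 7) (nat_lit 5) (nat_lit 6) (nat_lit 4) (nat_lit 256) (nat_lit 237) (nat_lit 107)) (XT.lf (nat_lit 0) (nat_lit 643803803394) (nat_lit 152) (nat_lit 562082919835) (nat_lit 76) (nat_lit 3432782698918) (nat_lit 5)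 (nat_lit 5) (nat_lit 7) (nat_lit 5) (nat_lit 6) (nat_lit 4) (nat_lit 257) (nat_lit 237) (nat_lit 106)))))) (XT.nd (nat_lit 624) (nat_lit 152) (nat_lit 0) (XT.nd (nat_lit 312) (nat_lit 76) (nat_lit 0) (XT.nd (nat_lit 156) (nat_lit 0) (nat_lit 0) (XT.nd (nat_lit 78) (nat_lit 0) (nat_lit 0) (XT.lf (nat_lit 0) (nat_lit 850214382251) (nat_lit 76) (nat_lit 450471888550) (nat_lit 152) (nat_lit 3908837089894) (nat_lit 4) (nat_lit 5) (nat_lit 5) (nat_lit 5) (nat_lit 6) (nat_lit 4) (nat_lit 258) (nat_lit 237) (nat_lit 105)) (XT.lf (nat_lit 0) (nat_lit 2104200891948) (nat_lit 152) (nat_lit 3342789597238) (nat_lit 0) (nat_lit 411799933303) (nat_lit 4) (nat_lit 5) (nat_lit 6) (nat_lit 4) (nat_lit 4) (nat_lit 4) (nat_lit 259) (nat_lit 237) (nat_lit 104))) (XT.nd (nat_lit 78) (nat_lit 0) (nat_lit 0) (XT.lf (nat_lit 0) (nat_lit 3049693746483) (nat_lit 152) (nat_lit 2195243355074) (nat_lit 0) (nat_lit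 1357292785971) (nat_lit 4) (nat_lit 5) (nat_lit 6) (nat_lit 4) (nat_lit 4) (nat_lit 4) (nat_lit 260) (nat_lit 237) (nat_lit 103)) (XT.lf (nat_lit 0) (nat_lit 4137010527375) (nat_lit 152) (nat_lit 875565179985) (nat_lit 0) (nat_lit 2444609565241) (nat_lit 4) (nat_lit 5) (nat_lit 6) (nat_lit 4) (nat_lit 4) (nat_lit 4) (nat_lit 261) (nat_lit 237) (nat_lit 102)))) (XT.nd (nat_lit 156) (nat_lit 0) (nat_lit 0) (XT.nd (nat_lit 78) (nat_lit 0) (nat_lit 0) (XT.lf (nat_lit 0) (nat_lit 704811952254) (nat_lit 76) (nat_lit 4711797631490) (nat_lit 76) (nat_lit 3019396667944) (nat_lit 3) (nat_lit 4) (nat_lit 4) (nat_lit 5) (nat_lit 4) (nat_lit 4) (nat_lit 262) (nat_lit 237) (nat_lit 101)) (XT.lf (nat_lit 0) (nat_lit 2620647238213) (nat_lit 76) (nat_lit 4313269438724) (nat_lit 76) (nat_lit 2620868473951) (nat_lit 3) (nat_lit 4) (nat_lit 4) (nat_lit 5) (nat_lit 4) (nat_lit 4) (nat_lit 263) (nat_lit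 237) (nat_lit 100))) (XT.nd (nat_lit 78) (nat_lit 0) (nat_lit 0) (XT.lf (nat_lit 0) (nat_lit 4823857814611) (nat_lit 76) (nat_lit 3854962018198) (nat_lit 76) (nat_lit 2162561052357) (nat_lit 3) (nat_lit 4) (nat_lit 4) (nat_lit 5) (nat_lit 4) (nat_lit 4) (nat_lit 264) (nat_lit 237) (nat_lit 99)) (XT.lf (nat_lit 0) (nat_lit 7357549975335) (nat_lit 76) (nat_lit 3327908485597) (nat_lit 76) (nat_lit 1635507518828) (nat_lit 3) (nat_lit 4) (nat_lit 4) (nat_lit 5) (nat_lit 4) (nat_lit 4) (nat_lit 265) (nat_lit 237) (nat_lit 98))))) (XT.nd (nat_lit 780) (nat_lit 0) (nat_lit 0) (XT.nd (nat_lit 156) (nat_lit 152) (nat_lit 0) (XT.nd (nat_lit 78) (nat_lit 0) (nat_lit 0) (XT.lf (nat_lit 0) (nat_lit 10271295958311) (nat_lit 76) (nat_lit 2721796923979) (nat_lit 76) (nat_lit 1029395956402) (nat_lit 3) (nat_lit 4) (nat_lit 4) (nat_lit 5) (nat_lit 4) (nat_lit 4) (nat_lit 266) (nat_lit 237) (nat_lit 97))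 (XT.lf (nat_lit 0) (nat_lit 13622103837120) (nat_lit 76) (nat_lit 2024768628876) (nat_lit 76) (nat_lit 332367660598) (nat_lit 3) (nat_lit 4) (nat_lit 4) (nat_lit 5) (nat_lit 4) (nat_lit 4) (nat_lit 267) (nat_lit 237) (nat_lit 96))) (XT.nd (nat_lit 546) (nat_lit 76) (nat_lit 0) (XT.lf (nat_lit 0) (nat_lit 427442125540) (nat_lit 152) (nat_lit 773400398975) (nat_lit 76) (nat_lit 17025747205153) (nat_lit 2) (nat_lit 5) (nat_lit 4) (nat_lit 5) (nat_lit 3) (nat_lit 4) (nat_lit 268) (nat_lit 237) (nat_lit 95)) (XT.lf (nat_lit 0) (nat_lit 11028275425105) (nat_lit 152) (nat_lit 26020912433397) (nat_lit 0) (nat_lit 9556622406473) (nat_lit 1) (nat_lit 5) (nat_lit 3) (nat_lit 4) (nat_lit 1) (nat_lit 4) (nat_lit 275) (nat_lit 237) (nat_lit 88)))) (XT.nd (nat_lit 28392) (nat_lit 0) (nat_lit 1140) (XT.nd (nat_lit 28314) (nat_lit 0) (nat_lit 1444) (XT.lf (nat_lit 0) (nat_lit 13597099460704) (nat_lit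 152) (nat_lit 27701383545856) (nat_lit 0) (nat_lit 12125446441899) (nat_lit 1) (nat_lit 5) (nat_lit 3) (nat_lit 4) (nat_lit 1) (nat_lit 4) (nat_lit 276) (nat_lit 237) (nat_lit 87)) (XT.lf (nat_lit 0) (nat_lit 207314351060) (nat_lit 0) (nat_lit 207314351060) (nat_lit 228) (nat_lit 69086189) (nat_lit 20) (nat_lit 5) (nat_lit 20) (nat_lit 3) (nat_lit 23) (nat_lit 3) (nat_lit 238) (nat_lit 238) (nat_lit 124))) (XT.nd (nat_lit 78) (nat_lit 304) (nat_lit 0) (XT.lf (nat_lit 0) (nat_lit 834007889716) (nat_lit 0) (nat_lit 57443899388) (nat_lit 228) (nat_lit 148443019) (nat_lit 20) (nat_lit 5) (nat_lit 20) (nat_lit 3) (nat_lit 23) (nat_lit 3) (nat_lit 239) (nat_lit 238) (nat_lit 123)) (XT.lf (nat_lit 0) (nat_lit 31301233535) (nat_lit 304) (nat_lit 588444073399) (nat_lit 380) (nat_lit 338674191382) (nat_lit 16) (nat_lit 5) (nat_lit 20) (nat_lit 5) (nat_lit 21) (nat_lit 5) (nat_lit 240) (nat_lit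 238) (nat_lit 122))))))))
noncomputable def xc92 : XT := (XT.nd (nat_lit 1248) (nat_lit 380) (nat_lit 0) (XT.nd (nat_lit 624) (nat_lit 380) (nat_lit 0) (XT.nd (nat_lit 312) (nat_lit 228) (nat_lit 0) (XT.nd (nat_lit 156) (nat_lit 152) (nat_lit 0) (XT.nd (nat_lit 78) (nat_lit 0) (nat_lit 76) (XT.lf (nat_lit 0) (nat_lit 73342440836) (nat_lit 304) (nat_lit 169544987498) (nat_lit 380) (nat_lit 791489774357) (nat_lit 16) (nat_lit 5) (nat_lit 20) (nat_lit 5) (nat_lit 21) (nat_lit 5) (nat_lit 241) (nat_lit 238) (nat_lit 121)) (XT.lf (nat_lit 0) (nat_lit 144444121282) (nat_lit 304) (nat_lit 785465573138) (nat_lit 76) (nat_lit 188405724589) (nat_lit 17) (nat_lit 5) (nat_lit 21) (nat_lit 5) (nat_lit 18) (nat_lit 5) (nat_lit 242) (nat_lit 238) (nat_lit 120))) (XT.nd (nat_lit 78) (nat_lit 228) (nat_lit 0) (XT.lf (nat_lit 0) (nat_lit 247061718026) (nat_lit 304) (nat_lit 295844638148) (nat_lit 76)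 (nat_lit 668810412051) (nat_lit 17) (nat_lit 5) (nat_lit 21) (nat_lit 5) (nat_lit 18) (nat_lit 5) (nat_lit 243) (nat_lit 238) (nat_lit 119)) (XT.lf (nat_lit 0) (nat_lit 293334053883) (nat_lit 228) (nat_lit 83884229124) (nat_lit 304) (nat_lit 940088087578) (nat_lit 14) (nat_lit 5) (nat_lit 17) (nat_lit 5) (nat_lit 18) (nat_lit 5) (nat_lit 244) (nat_lit 238) (nat_lit 118)))) (XT.nd (nat_lit 156) (nat_lit 76) (nat_lit 0) (XT.nd (nat_lit 78) (nat_lit 152) (nat_lit 0) (XT.lf (nat_lit 0) (nat_lit 561484069985) (nat_lit 304) (nat_lit 451397418841) (nat_lit 76) (nat_lit 420665063949) (nat_lit 14) (nat_lit 5) (nat_lit 18) (nat_lit 5) (nat_lit 15) (nat_lit 5) (nat_lit 245) (nat_lit 238) (nat_lit 117)) (XT.lf (nat_lit 0) (nat_lit 222914618782) (nat_lit 152) (nat_lit 563700005255) (nat_lit 228) (nat_lit 778624403456) (nat_lit 12) (nat_lit 5) (nat_lit 14) (nat_lit 5) (nat_lit 15) (nat_lit 5) (nat_lit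 246) (nat_lit 238) (nat_lit 116))) (XT.nd (nat_lit 78) (nat_lit 76) (nat_lit 0) (XT.lf (nat_lit 0) (nat_lit 1049104368239) (nat_lit 152) (nat_lit 20006160633) (nat_lit 228) (nat_lit 644035479443) (nat_lit 12) (nat_lit 5) (nat_lit 14) (nat_lit 5) (nat_lit 15) (nat_lit 5) (nat_lit 247) (nat_lit 238) (nat_lit 115)) (XT.lf (nat_lit 0) (nat_lit 99807301357) (nat_lit 76) (nat_lit 1323368090506) (nat_lit 152) (nat_lit 455684458574) (nat_lit 11) (nat_lit 5) (nat_lit 12) (nat_lit 5) (nat_lit 13) (nat_lit 4) (nat_lit 248) (nat_lit 238) (nat_lit 114))))) (XT.nd (nat_lit 312) (nat_lit 152) (nat_lit 0) (XT.nd (nat_lit 156) (nat_lit 152) (nat_lit 0) (XT.nd (nat_lit 78) (nat_lit 76) (nat_lit 0) (XT.lf (nat_lit 0) (nat_lit 1051817025010) (nat_lit 76) (nat_lit 814153592499) (nat_lit 152) (nat_lit 198117056423) (nat_lit 11) (nat_lit 5) (nat_lit 12) (nat_lit 5) (nat_lit 13) (nat_lit 4) (nat_lit 249)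 (nat_lit 238) (nat_lit 113)) (XT.lf (nat_lit 0) (nat_lit 89353205641) (nat_lit 152) (nat_lit 134532980459) (nat_lit 76) (nat_lit 2052604259169) (nat_lit 10) (nat_lit 5) (nat_lit 12) (nat_lit 5) (nat_lit 11) (nat_lit 5) (nat_lit 250) (nat_lit 238) (nat_lit 112))) (XT.nd (nat_lit 78) (nat_lit 0) (nat_lit 0) (XT.lf (nat_lit 0) (nat_lit 460158165918) (nat_lit 228) (nat_lit 1584590222673) (nat_lit 76) (nat_lit 465515486135) (nat_lit 8) (nat_lit 5) (nat_lit 11) (nat_lit 5) (nat_lit 9) (nat_lit 4) (nat_lit 251) (nat_lit 238) (nat_lit 111)) (XT.lf (nat_lit 0) (nat_lit 904612395469) (nat_lit 228) (nat_lit 629013635706) (nat_lit 76) (nat_lit 1242773008662) (nat_lit 8) (nat_lit 5) (nat_lit 11) (nat_lit 5) (nat_lit 9) (nat_lit 4) (nat_lit 252) (nat_lit 238) (nat_lit 110)))) (XT.nd (nat_lit 156) (nat_lit 76) (nat_lit 0) (XT.nd (nat_lit 78) (nat_lit 0) (nat_lit 0) (XT.lf (nat_lit 0) (nat_lit 515821423801)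 (nat_lit 76) (nat_lit 921272397350) (nat_lit 152) (nat_lit 1642156799325) (nat_lit 7) (nat_lit 5) (nat_lit 8) (nat_lit 5) (nat_lit 9) (nat_lit 4) (nat_lit 253) (nat_lit 238) (nat_lit 109)) (XT.lf (nat_lit 0) (nat_lit 1903074292068) (nat_lit 76) (nat_lit 179253423610) (nat_lit 152) (nat_lit 1340270184301) (nat_lit 7) (nat_lit 5) (nat_lit 8) (nat_lit 5) (nat_lit 9) (nat_lit 4) (nat_lit 254) (nat_lit 238) (nat_lit 108))) (XT.nd (nat_lit 78) (nat_lit 76) (nat_lit 0) (XT.lf (nat_lit 0) (nat_lit 2852258426325) (nat_lit 152) (nat_lit 346943920683) (nat_lit 0) (nat_lit 614058164621) (nat_lit 7) (nat_lit 5) (nat_lit 9) (nat_lit 4) (nat_lit 7) (nat_lit 4) (nat_lit 255) (nat_lit 238) (nat_lit 107)) (XT.lf (nat_lit 0) (nat_lit 1090028733473) (nat_lit 76) (nat_lit 2701321650255) (nat_lit 76) (nat_lit 463121385286) (nat_lit 6) (nat_lit 4) (nat_lit 7) (nat_lit 5) (nat_lit 7) (nat_lit 4) (nat_lit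 256) (nat_lit 238) (nat_lit 106)))))) (XT.nd (nat_lit 624) (nat_lit 152) (nat_lit 0) (XT.nd (nat_lit 312) (nat_lit 76) (nat_lit 0) (XT.nd (nat_lit 156) (nat_lit 76) (nat_lit 0) (XT.nd (nat_lit 78) (nat_lit 0) (nat_lit 0) (XT.lf (nat_lit 0) (nat_lit 118697495211) (nat_lit 152) (nat_lit 1983000653103) (nat_lit 76) (nat_lit 2656636910213) (nat_lit 5) (nat_lit 5) (nat_lit 7) (nat_lit 5) (nat_lit 6) (nat_lit 4) (nat_lit 257) (nat_lit 238) (nat_lit 105)) (XT.lf (nat_lit 0) (nat_lit 740374397132) (nat_lit 152) (nat_lit 646395316440) (nat_lit 76) (nat_lit 3947700118329) (nat_lit 5) (nat_lit 5) (nat_lit 7) (nat_lit 5) (nat_lit 6) (nat_lit 4) (nat_lit 258) (nat_lit 238) (nat_lit 104))) (XT.nd (nat_lit 78) (nat_lit 0) (nat_lit 0) (XT.lf (nat_lit 0) (nat_lit 977746579079) (nat_lit 76) (nat_lit 518042654177) (nat_lit 152) (nat_lit 4495162628197) (nat_lit 4) (nat_lit 5) (nat_lit 5) (nat_lit 5) (nat_lit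 6) (nat_lit 4) (nat_lit 259) (nat_lit 238) (nat_lit 103)) (XT.lf (nat_lit 0) (nat_lit 2419831045363) (nat_lit 152) (nat_lit 3844208000210) (nat_lit 0) (nat_lit 473569937285) (nat_lit 4) (nat_lit 5) (nat_lit 6) (nat_lit 4) (nat_lit 4) (nat_lit 4) (nat_lit 260) (nat_lit 238) (nat_lit 102)))) (XT.nd (nat_lit 156) (nat_lit 76) (nat_lit 0) (XT.nd (nat_lit 78) (nat_lit 0) (nat_lit 0) (XT.lf (nat_lit 0) (nat_lit 3507147825518) (nat_lit 152) (nat_lit 2524529826497) (nat_lit 0) (nat_lit 1560886716028) (nat_lit 4) (nat_lit 5) (nat_lit 6) (nat_lit 4) (nat_lit 4) (nat_lit 4) (nat_lit 261) (nat_lit 238) (nat_lit 101)) (XT.lf (nat_lit 0) (nat_lit 4757562121319) (nat_lit 152) (nat_lit 1006899929297) (nat_lit 0) (nat_lit 2811301010602) (nat_lit 4) (nat_lit 5) (nat_lit 6) (nat_lit 4) (nat_lit 4) (nat_lit 4) (nat_lit 262) (nat_lit 238) (nat_lit 100))) (XT.nd (nat_lit 78) (nat_lit 0) (nat_lit 0) (XT.lf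 (nat_lit 0) (nat_lit 810533771519) (nat_lit 76) (nat_lit 5418567263783) (nat_lit 76) (nat_lit 3472306151999) (nat_lit 3) (nat_lit 4) (nat_lit 4) (nat_lit 5) (nat_lit 4) (nat_lit 4) (nat_lit 263) (nat_lit 238) (nat_lit 99)) (XT.lf (nat_lit 0) (nat_lit 3013744346925) (nat_lit 76) (nat_lit 4960259843724) (nat_lit 76) (nat_lit 3013998731011) (nat_lit 3) (nat_lit 4) (nat_lit 4) (nat_lit 5) (nat_lit 4) (nat_lit 4) (nat_lit 264) (nat_lit 238) (nat_lit 98))))) (XT.nd (nat_lit 29328) (nat_lit 0) (nat_lit 1140) (XT.nd (nat_lit 780) (nat_lit 0) (nat_lit 0) (XT.nd (nat_lit 702) (nat_lit 152) (nat_lit 0) (XT.lf (nat_lit 0) (nat_lit 5547436506785) (nat_lit 76) (nat_lit 4433206311529) (nat_lit 76) (nat_lit 2486945198009) (nat_lit 3) (nat_lit 4) (nat_lit 4) (nat_lit 5) (nat_lit 4) (nat_lit 4) (nat_lit 265) (nat_lit 238) (nat_lit 97)) (XT.lf (nat_lit 0) (nat_lit 7879932675009) (nat_lit 152) (nat_lit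 26782298952448) (nat_lit 0) (nat_lit 6187531703382) (nat_lit 1) (nat_lit 5) (nat_lit 3) (nat_lit 4) (nat_lit 1) (nat_lit 4) (nat_lit 274) (nat_lit 238) (nat_lit 88))) (XT.nd (nat_lit 28470) (nat_lit 0) (nat_lit 1444) (XT.lf (nat_lit 0) (nat_lit 10113692706081) (nat_lit 152) (nat_lit 28243578180445) (nat_lit 0) (nat_lit 8421291734281) (nat_lit 1) (nat_lit 5) (nat_lit 3) (nat_lit 4) (nat_lit 1) (nat_lit 4) (nat_lit 275) (nat_lit 238) (nat_lit 87)) (XT.lf (nat_lit 0) (nat_lit 238411541844) (nat_lit 0) (nat_lit 238411541844) (nat_lit 228) (nat_lit 79360651) (nat_lit 20) (nat_lit 5) (nat_lit 20) (nat_lit 3) (nat_lit 23) (nat_lit 3) (nat_lit 239) (nat_lit 239) (nat_lit 122)))) (XT.nd (nat_lit 156) (nat_lit 0) (nat_lit 0) (XT.nd (nat_lit 78) (nat_lit 304) (nat_lit 0) (XT.lf (nat_lit 0) (nat_lit 959109139477) (nat_lit 0) (nat_lit 66060550600) (nat_lit 228) (nat_lit 170555617) (nat_lit 20)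 (nat_lit 5) (nat_lit 20) (nat_lit 3) (nat_lit 23) (nat_lit 3) (nat_lit 240) (nat_lit 239) (nat_lit 121)) (XT.lf (nat_lit 0) (nat_lit 35996541679) (nat_lit 304) (nat_lit 676710585161) (nat_lit 380) (nat_lit 389475276732) (nat_lit 16) (nat_lit 5) (nat_lit 20) (nat_lit 5) (nat_lit 21) (nat_lit 5) (nat_lit 241) (nat_lit 239) (nat_lit 120))) (XT.nd (nat_lit 78) (nat_lit 0) (nat_lit 76) (XT.lf (nat_lit 0) (nat_lit 84343914016) (nat_lit 304) (nat_lit 194976649320) (nat_lit 380) (nat_lit 910213202809) (nat_lit 16) (nat_lit 5) (nat_lit 20) (nat_lit 5) (nat_lit 21) (nat_lit 5) (nat_lit 242) (nat_lit 239) (nat_lit 119)) (XT.lf (nat_lit 0) (nat_lit 166110835393) (nat_lit 304) (nat_lit 903285310894) (nat_lit 76) (nat_lit 216666570412) (nat_lit 17) (nat_lit 5) (nat_lit 21) (nat_lit 5) (nat_lit 18) (nat_lit 5) (nat_lit 243) (nat_lit 239) (nat_lit 118)))))))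
noncomputable def xc93 : XT := (XT.nd (nat_lit 1248) (nat_lit 304) (nat_lit 0) (XT.nd (nat_lit 624) (nat_lit 380) (nat_lit 0) (XT.nd (nat_lit 312) (nat_lit 152) (nat_lit 0) (XT.nd (nat_lit 156) (nat_lit 152) (nat_lit 0) (XT.nd (nat_lit 78) (nat_lit 228) (nat_lit 0) (XT.lf (nat_lit 0) (nat_lit 284121059137) (nat_lit 304) (nat_lit 340221248466) (nat_lit 76) (nat_lit 769131962671) (nat_lit 17) (nat_lit 5) (nat_lit 21) (nat_lit 5) (nat_lit 18) (nat_lit 5) (nat_lit 244) (nat_lit 239) (nat_lit 117)) (XT.lf (nat_lit 0) (nat_lit 337334243488) (nat_lit 228) (nat_lit 96466857874) (nat_lit 304) (nat_lit 1081101212840) (nat_lit 14) (nat_lit 5) (nat_lit 17) (nat_lit 5) (nat_lit 18) (nat_lit 5) (nat_lit 245) (nat_lit 239) (nat_lit 116))) (XT.nd (nat_lit 78) (nat_lit 152) (nat_lit 0) (XT.lf (nat_lit 0) (nat_lit 645706746689) (nat_lit 304) (nat_lit 519106950570) (nat_lit 76) (nat_lit 483764827992)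 (nat_lit 14) (nat_lit 5) (nat_lit 18) (nat_lit 5) (nat_lit 15) (nat_lit 5) (nat_lit 246) (nat_lit 239) (nat_lit 115)) (XT.lf (nat_lit 0) (nat_lit 256351889010) (nat_lit 152) (nat_lit 648254989408) (nat_lit 228) (nat_lit 895417993640) (nat_lit 12) (nat_lit 5) (nat_lit 14) (nat_lit 5) (nat_lit 15) (nat_lit 5) (nat_lit 247) (nat_lit 239) (nat_lit 114)))) (XT.nd (nat_lit 156) (nat_lit 76) (nat_lit 0) (XT.nd (nat_lit 78) (nat_lit 76) (nat_lit 0) (XT.lf (nat_lit 0) (nat_lit 1206470090789) (nat_lit 152) (nat_lit 23007070263) (nat_lit 228) (nat_lit 740640740199) (nat_lit 12) (nat_lit 5) (nat_lit 14) (nat_lit 5) (nat_lit 15) (nat_lit 5) (nat_lit 248) (nat_lit 239) (nat_lit 113)) (XT.lf (nat_lit 0) (nat_lit 114778468177) (nat_lit 76) (nat_lit 1521873281907) (nat_lit 152) (nat_lit 524037070168) (nat_lit 11) (nat_lit 5) (nat_lit 12) (nat_lit 5) (nat_lit 13) (nat_lit 4) (nat_lit 249) (nat_lit 239)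 (nat_lit 112))) (XT.nd (nat_lit 78) (nat_lit 76) (nat_lit 0) (XT.lf (nat_lit 0) (nat_lit 1209589641037) (nat_lit 76) (nat_lit 936276612091) (nat_lit 152) (nat_lit 227834565154) (nat_lit 11) (nat_lit 5) (nat_lit 12) (nat_lit 5) (nat_lit 13) (nat_lit 4) (nat_lit 250) (nat_lit 239) (nat_lit 111)) (XT.lf (nat_lit 0) (nat_lit 102756225883) (nat_lit 152) (nat_lit 154712869305) (nat_lit 76) (nat_lit 2360494910742) (nat_lit 10) (nat_lit 5) (nat_lit 12) (nat_lit 5) (nat_lit 11) (nat_lit 5) (nat_lit 251) (nat_lit 239) (nat_lit 110))))) (XT.nd (nat_lit 312) (nat_lit 152) (nat_lit 0) (XT.nd (nat_lit 156) (nat_lit 76) (nat_lit 0) (XT.nd (nat_lit 78) (nat_lit 0) (nat_lit 0) (XT.lf (nat_lit 0) (nat_lit 529181928152) (nat_lit 228) (nat_lit 1822278695609) (nat_lit 76) (nat_lit 535342826380) (nat_lit 8) (nat_lit 5) (nat_lit 11) (nat_lit 5) (nat_lit 9) (nat_lit 4) (nat_lit 252) (nat_lit 239) (nat_lit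 109)) (XT.lf (nat_lit 0) (nat_lit 1040304287264) (nat_lit 228) (nat_lit 723365628484) (nat_lit 76) (nat_lit 1429188975026) (nat_lit 8) (nat_lit 5) (nat_lit 11) (nat_lit 5) (nat_lit 9) (nat_lit 4) (nat_lit 253) (nat_lit 239) (nat_lit 108))) (XT.nd (nat_lit 78) (nat_lit 0) (nat_lit 0) (XT.lf (nat_lit 0) (nat_lit 593194687559) (nat_lit 76) (nat_lit 1059463237082) (nat_lit 152) (nat_lit 1888480284214) (nat_lit 7) (nat_lit 5) (nat_lit 8) (nat_lit 5) (nat_lit 9) (nat_lit 4) (nat_lit 254) (nat_lit 239) (nat_lit 107)) (XT.lf (nat_lit 0) (nat_lit 2188535479520) (nat_lit 76) (nat_lit 206141419872) (nat_lit 152) (nat_lit 1541310681503) (nat_lit 7) (nat_lit 5) (nat_lit 8) (nat_lit 5) (nat_lit 9) (nat_lit 4) (nat_lit 255) (nat_lit 239) (nat_lit 106)))) (XT.nd (nat_lit 156) (nat_lit 76) (nat_lit 0) (XT.nd (nat_lit 78) (nat_lit 76) (nat_lit 0) (XT.lf (nat_lit 0) (nat_lit 3280097213820) (nat_lit 152)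 (nat_lit 398985467911) (nat_lit 0) (nat_lit 706166903002) (nat_lit 7) (nat_lit 5) (nat_lit 9) (nat_lit 4) (nat_lit 7) (nat_lit 4) (nat_lit 256) (nat_lit 239) (nat_lit 105)) (XT.lf (nat_lit 0) (nat_lit 1253533082512) (nat_lit 76) (nat_lit 3106519880867) (nat_lit 76) (nat_lit 532589567580) (nat_lit 6) (nat_lit 4) (nat_lit 7) (nat_lit 5) (nat_lit 7) (nat_lit 4) (nat_lit 257) (nat_lit 239) (nat_lit 104))) (XT.nd (nat_lit 78) (nat_lit 0) (nat_lit 0) (XT.lf (nat_lit 0) (nat_lit 136502139692) (nat_lit 152) (nat_lit 2280450715094) (nat_lit 76) (nat_lit 3055132459418) (nat_lit 5) (nat_lit 5) (nat_lit 7) (nat_lit 5) (nat_lit 6) (nat_lit 4) (nat_lit 258) (nat_lit 239) (nat_lit 103)) (XT.lf (nat_lit 0) (nat_lit 851430574267) (nat_lit 152) (nat_lit 743354582624) (nat_lit 76) (nat_lit 4539855147099) (nat_lit 5) (nat_lit 5) (nat_lit 7) (nat_lit 5) (nat_lit 6) (nat_lit 4) (nat_lit 259) (nat_lit 239)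 (nat_lit 102)))))) (XT.nd (nat_lit 29796) (nat_lit 0) (nat_lit 836) (XT.nd (nat_lit 312) (nat_lit 228) (nat_lit 0) (XT.nd (nat_lit 156) (nat_lit 0) (nat_lit 0) (XT.nd (nat_lit 78) (nat_lit 0) (nat_lit 0) (XT.lf (nat_lit 0) (nat_lit 1124408595801) (nat_lit 76) (nat_lit 595749038954) (nat_lit 152) (nat_lit 5169437003385) (nat_lit 4) (nat_lit 5) (nat_lit 5) (nat_lit 5) (nat_lit 6) (nat_lit 4) (nat_lit 260) (nat_lit 239) (nat_lit 101)) (XT.lf (nat_lit 0) (nat_lit 2782805717005) (nat_lit 152) (nat_lit 4420839172557) (nat_lit 0) (nat_lit 544605438452) (nat_lit 4) (nat_lit 5) (nat_lit 6) (nat_lit 4) (nat_lit 4) (nat_lit 4) (nat_lit 261) (nat_lit 239) (nat_lit 100))) (XT.nd (nat_lit 78) (nat_lit 0) (nat_lit 0) (XT.lf (nat_lit 0) (nat_lit 4033220012248) (nat_lit 152) (nat_lit 2903209276397) (nat_lit 0) (nat_lit 1795019732629) (nat_lit 4) (nat_lit 5) (nat_lit 6) (nat_lit 4) (nat_lit 4) (nat_lit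 4) (nat_lit 262) (nat_lit 239) (nat_lit 99)) (XT.lf (nat_lit 0) (nat_lit 5471196450736) (nat_lit 152) (nat_lit 1157934897758) (nat_lit 0) (nat_lit 3232996170189) (nat_lit 4) (nat_lit 5) (nat_lit 6) (nat_lit 4) (nat_lit 4) (nat_lit 4) (nat_lit 263) (nat_lit 239) (nat_lit 98)))) (XT.nd (nat_lit 780) (nat_lit 152) (nat_lit 0) (XT.nd (nat_lit 78) (nat_lit 0) (nat_lit 0) (XT.lf (nat_lit 0) (nat_lit 932113857230) (nat_lit 76) (nat_lit 6231352343951) (nat_lit 76) (nat_lit 3993152062597) (nat_lit 3) (nat_lit 4) (nat_lit 4) (nat_lit 5) (nat_lit 4) (nat_lit 4) (nat_lit 264) (nat_lit 239) (nat_lit 97)) (XT.lf (nat_lit 0) (nat_lit 3465806016340) (nat_lit 76) (nat_lit 5704298812109) (nat_lit 76) (nat_lit 3466098530053) (nat_lit 3) (nat_lit 4) (nat_lit 4) (nat_lit 5) (nat_lit 4) (nat_lit 4) (nat_lit 265) (nat_lit 239) (nat_lit 96))) (XT.nd (nat_lit 28626) (nat_lit 0) (nat_lit 1444) (XT.lf (nat_lit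 0) (nat_lit 6828162547998) (nat_lit 152) (nat_lit 29338364561816) (nat_lit 0) (nat_lit 4881901430255) (nat_lit 1) (nat_lit 5) (nat_lit 3) (nat_lit 4) (nat_lit 1) (nat_lit 4) (nat_lit 274) (nat_lit 239) (nat_lit 87)) (XT.lf (nat_lit 0) (nat_lit 274173301949) (nat_lit 0) (nat_lit 274173301949) (nat_lit 228) (nat_lit 91197855) (nat_lit 20) (nat_lit 5) (nat_lit 20) (nat_lit 3) (nat_lit 23) (nat_lit 3) (nat_lit 240) (nat_lit 240) (nat_lit 120))))) (XT.nd (nat_lit 312) (nat_lit 304) (nat_lit 0) (XT.nd (nat_lit 156) (nat_lit 0) (nat_lit 0) (XT.nd (nat_lit 78) (nat_lit 304) (nat_lit 0) (XT.lf (nat_lit 0) (nat_lit 1102975560534) (nat_lit 0) (nat_lit 75969683325) (nat_lit 228) (nat_lit 196022624) (nat_lit 20) (nat_lit 5) (nat_lit 20) (nat_lit 3) (nat_lit 23) (nat_lit 3) (nat_lit 241) (nat_lit 240) (nat_lit 119)) (XT.lf (nat_lit 0) (nat_lit 41396116022) (nat_lit 304) (nat_lit 778217097889) (nat_lit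 380) (nat_lit 447896535458) (nat_lit 16) (nat_lit 5) (nat_lit 20) (nat_lit 5) (nat_lit 21) (nat_lit 5) (nat_lit 242) (nat_lit 240) (nat_lit 118))) (XT.nd (nat_lit 78) (nat_lit 0) (nat_lit 76) (XT.lf (nat_lit 0) (nat_lit 96995582068) (nat_lit 304) (nat_lit 224223081461) (nat_lit 380) (nat_lit 1046745154722) (nat_lit 16) (nat_lit 5) (nat_lit 20) (nat_lit 5) (nat_lit 21) (nat_lit 5) (nat_lit 243) (nat_lit 240) (nat_lit 117)) (XT.lf (nat_lit 0) (nat_lit 191027533230) (nat_lit 304) (nat_lit 1038778033263) (nat_lit 76) (nat_lit 249166546246) (nat_lit 17) (nat_lit 5) (nat_lit 21) (nat_lit 5) (nat_lit 18) (nat_lit 5) (nat_lit 244) (nat_lit 240) (nat_lit 116)))) (XT.nd (nat_lit 156) (nat_lit 152) (nat_lit 0) (XT.nd (nat_lit 78) (nat_lit 228) (nat_lit 0) (XT.lf (nat_lit 0) (nat_lit 326739281075) (nat_lit 304) (nat_lit 391254371158) (nat_lit 76) (nat_lit 884501748613) (nat_lit 17) (nat_lit 5)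 (nat_lit 21) (nat_lit 5) (nat_lit 18) (nat_lit 5) (nat_lit 245) (nat_lit 240) (nat_lit 115)) (XT.lf (nat_lit 0) (nat_lit 387934441654) (nat_lit 228) (nat_lit 110936882306) (nat_lit 304) (nat_lit 1243266328320) (nat_lit 14) (nat_lit 5) (nat_lit 17) (nat_lit 5) (nat_lit 18) (nat_lit 5) (nat_lit 246) (nat_lit 240) (nat_lit 114))) (XT.nd (nat_lit 78) (nat_lit 152) (nat_lit 0) (XT.lf (nat_lit 0) (nat_lit 742562808753) (nat_lit 304) (nat_lit 596972931834) (nat_lit 76) (nat_lit 556329555557) (nat_lit 14) (nat_lit 5) (nat_lit 18) (nat_lit 5) (nat_lit 15) (nat_lit 5) (nat_lit 247) (nat_lit 240) (nat_lit 113)) (XT.nd (nat_lit 78) (nat_lit 0) (nat_lit 0) (XT.lf (nat_lit 0) (nat_lit 294804730895) (nat_lit 152) (nat_lit 745493225241) (nat_lit 228) (nat_lit 1029730639503) (nat_lit 12) (nat_lit 5) (nat_lit 14) (nat_lit 5) (nat_lit 15) (nat_lit 5) (nat_lit 248) (nat_lit 240) (nat_lit 112)) (XT.lf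 (nat_lit 0) (nat_lit 1387440655306) (nat_lit 152) (nat_lit 26458119864) (nat_lit 228) (nat_lit 851736804982) (nat_lit 12) (nat_lit 5) (nat_lit 14) (nat_lit 5) (nat_lit 15) (nat_lit 5) (nat_lit 249) (nat_lit 240) (nat_lit 111))))))))
noncomputable def xc94 : XT := (XT.nd (nat_lit 31824) (nat_lit 0) (nat_lit 0) (XT.nd (nat_lit 30576) (nat_lit 0) (nat_lit 304) (XT.nd (nat_lit 624) (nat_lit 304) (nat_lit 0) (XT.nd (nat_lit 312) (nat_lit 76) (nat_lit 0) (XT.nd (nat_lit 156) (nat_lit 228) (nat_lit 0) (XT.nd (nat_lit 78) (nat_lit 0) (nat_lit 0) (XT.lf (nat_lit 0) (nat_lit 131995292556) (nat_lit 76) (nat_lit 1750154257425) (nat_lit 152) (nat_lit 602642587448) (nat_lit 11) (nat_lit 5) (nat_lit 12) (nat_lit 5) (nat_lit 13) (nat_lit 4) (nat_lit 250) (nat_lit 240) (nat_lit 110)) (XT.lf (nat_lit 0) (nat_lit 1391028134282) (nat_lit 76) (nat_lit 1076718089323) (nat_lit 152) (nat_lit 262009712322)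 (nat_lit 11) (nat_lit 5) (nat_lit 12) (nat_lit 5) (nat_lit 13) (nat_lit 4) (nat_lit 251) (nat_lit 240) (nat_lit 109))) (XT.nd (nat_lit 78) (nat_lit 152) (nat_lit 0) (XT.lf (nat_lit 0) (nat_lit 118169689554) (nat_lit 152) (nat_lit 177919755676) (nat_lit 76) (nat_lit 2714569156955) (nat_lit 10) (nat_lit 5) (nat_lit 12) (nat_lit 5) (nat_lit 11) (nat_lit 5) (nat_lit 252) (nat_lit 240) (nat_lit 108)) (XT.lf (nat_lit 0) (nat_lit 608559245614) (nat_lit 228) (nat_lit 2095620454231) (nat_lit 76) (nat_lit 615644263437) (nat_lit 8) (nat_lit 5) (nat_lit 11) (nat_lit 5) (nat_lit 9) (nat_lit 4) (nat_lit 253) (nat_lit 240) (nat_lit 107)))) (XT.nd (nat_lit 156) (nat_lit 0) (nat_lit 0) (XT.nd (nat_lit 78) (nat_lit 76) (nat_lit 0) (XT.lf (nat_lit 0) (nat_lit 1196349954909) (nat_lit 228) (nat_lit 831870433000) (nat_lit 76) (nat_lit 1643567332672) (nat_lit 8) (nat_lit 5) (nat_lit 11) (nat_lit 5) (nat_lit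 9) (nat_lit 4) (nat_lit 254) (nat_lit 240) (nat_lit 106)) (XT.lf (nat_lit 0) (nat_lit 682173928642) (nat_lit 76) (nat_lit 1218382707620) (nat_lit 152) (nat_lit 2171752300374) (nat_lit 7) (nat_lit 5) (nat_lit 8) (nat_lit 5) (nat_lit 9) (nat_lit 4) (nat_lit 255) (nat_lit 240) (nat_lit 105))) (XT.nd (nat_lit 78) (nat_lit 0) (nat_lit 0) (XT.lf (nat_lit 0) (nat_lit 2516815834448) (nat_lit 76) (nat_lit 237062619788) (nat_lit 152) (nat_lit 1772507260709) (nat_lit 7) (nat_lit 5) (nat_lit 8) (nat_lit 5) (nat_lit 9) (nat_lit 4) (nat_lit 256) (nat_lit 240) (nat_lit 104)) (XT.lf (nat_lit 0) (nat_lit 3772111813697) (nat_lit 152) (nat_lit 458833257190) (nat_lit 0) (nat_lit 812091948802) (nat_lit 7) (nat_lit 5) (nat_lit 9) (nat_lit 4) (nat_lit 7) (nat_lit 4) (nat_lit 257) (nat_lit 240) (nat_lit 103))))) (XT.nd (nat_lit 312) (nat_lit 76) (nat_lit 0) (XT.nd (nat_lit 156) (nat_lit 76) (nat_lit 0) (XT.nd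 (nat_lit 78) (nat_lit 76) (nat_lit 0) (XT.lf (nat_lit 0) (nat_lit 1441563074391) (nat_lit 76) (nat_lit 3572497850198) (nat_lit 76) (nat_lit 612477983436) (nat_lit 6) (nat_lit 4) (nat_lit 7) (nat_lit 5) (nat_lit 7) (nat_lit 4) (nat_lit 258) (nat_lit 240) (nat_lit 102)) (XT.lf (nat_lit 0) (nat_lit 156977475919) (nat_lit 152) (nat_lit 2622518295157) (nat_lit 76) (nat_lit 3513402337913) (nat_lit 5) (nat_lit 5) (nat_lit 7) (nat_lit 5) (nat_lit 6) (nat_lit 4) (nat_lit 259) (nat_lit 240) (nat_lit 101))) (XT.nd (nat_lit 78) (nat_lit 76) (nat_lit 0) (XT.lf (nat_lit 0) (nat_lit 979145173689) (nat_lit 152) (nat_lit 854857746364) (nat_lit 76) (nat_lit 5220833427496) (nat_lit 5) (nat_lit 5) (nat_lit 7) (nat_lit 5) (nat_lit 6) (nat_lit 4) (nat_lit 260) (nat_lit 240) (nat_lit 100)) (XT.lf (nat_lit 0) (nat_lit 1293069907749) (nat_lit 76) (nat_lit 685111384703) (nat_lit 152) (nat_lit 5944852539495)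 (nat_lit 4) (nat_lit 5) (nat_lit 5) (nat_lit 5) (nat_lit 6) (nat_lit 4) (nat_lit 261) (nat_lit 240) (nat_lit 99)))) (XT.nd (nat_lit 156) (nat_lit 76) (nat_lit 0) (XT.nd (nat_lit 78) (nat_lit 0) (nat_lit 0) (XT.lf (nat_lit 0) (nat_lit 3200226585774) (nat_lit 152) (nat_lit 5083965027506) (nat_lit 0) (nat_lit 626296262217) (nat_lit 4) (nat_lit 5) (nat_lit 6) (nat_lit 4) (nat_lit 4) (nat_lit 4) (nat_lit 262) (nat_lit 240) (nat_lit 98)) (XT.lf (nat_lit 0) (nat_lit 4638203023841) (nat_lit 152) (nat_lit 3338690649653) (nat_lit 0) (nat_lit 2064272699476) (nat_lit 4) (nat_lit 5) (nat_lit 6) (nat_lit 4) (nat_lit 4) (nat_lit 4) (nat_lit 263) (nat_lit 240) (nat_lit 97))) (XT.nd (nat_lit 78) (nat_lit 76) (nat_lit 0) (XT.lf (nat_lit 0) (nat_lit 6291875926830) (nat_lit 152) (nat_lit 1331625116593) (nat_lit 0) (nat_lit 3717945601763) (nat_lit 4) (nat_lit 5) (nat_lit 6) (nat_lit 4) (nat_lit 4) (nat_lit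 4) (nat_lit 264) (nat_lit 240) (nat_lit 96)) (XT.lf (nat_lit 0) (nat_lit 1071930950924) (nat_lit 76) (nat_lit 7166055188437) (nat_lit 76) (nat_lit 4592124862760) (nat_lit 3) (nat_lit 4) (nat_lit 4) (nat_lit 5) (nat_lit 4) (nat_lit 4) (nat_lit 265) (nat_lit 240) (nat_lit 95)))))) (XT.nd (nat_lit 624) (nat_lit 532) (nat_lit 0) (XT.nd (nat_lit 312) (nat_lit 152) (nat_lit 0) (XT.nd (nat_lit 156) (nat_lit 304) (nat_lit 0) (XT.nd (nat_lit 78) (nat_lit 0) (nat_lit 0) (XT.lf (nat_lit 0) (nat_lit 315299319039) (nat_lit 0) (nat_lit 315299319039) (nat_lit 228) (nat_lit 104826953) (nat_lit 20) (nat_lit 5) (nat_lit 20) (nat_lit 3) (nat_lit 23) (nat_lit 3) (nat_lit 241) (nat_lit 241) (nat_lit 118)) (XT.lf (nat_lit 0) (nat_lit 1268421932524) (nat_lit 0) (nat_lit 87365173733) (nat_lit 228) (nat_lit 225338050) (nat_lit 20) (nat_lit 5) (nat_lit 20) (nat_lit 3) (nat_lit 23) (nat_lit 3) (nat_lit 242)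 (nat_lit 241) (nat_lit 117))) (XT.nd (nat_lit 78) (nat_lit 0) (nat_lit 0) (XT.lf (nat_lit 0) (nat_lit 47605603816) (nat_lit 304) (nat_lit 894949605827) (nat_lit 380) (nat_lit 515080990987) (nat_lit 16) (nat_lit 5) (nat_lit 20) (nat_lit 5) (nat_lit 21) (nat_lit 5) (nat_lit 243) (nat_lit 241) (nat_lit 116)) (XT.lf (nat_lit 0) (nat_lit 111544980588) (nat_lit 304) (nat_lit 257856494336) (nat_lit 380) (nat_lit 1203756906374) (nat_lit 16) (nat_lit 5) (nat_lit 20) (nat_lit 5) (nat_lit 21) (nat_lit 5) (nat_lit 244) (nat_lit 241) (nat_lit 115)))) (XT.nd (nat_lit 156) (nat_lit 228) (nat_lit 0) (XT.nd (nat_lit 78) (nat_lit 0) (nat_lit 0) (XT.lf (nat_lit 0) (nat_lit 219681718055) (nat_lit 304) (nat_lit 1194594682098) (nat_lit 76) (nat_lit 286541520827) (nat_lit 17) (nat_lit 5) (nat_lit 21) (nat_lit 5) (nat_lit 18) (nat_lit 5) (nat_lit 245) (nat_lit 241) (nat_lit 114)) (XT.lf (nat_lit 0) (nat_lit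 375750220925) (nat_lit 304) (nat_lit 449942478001) (nat_lit 76) (nat_lit 1017177004508) (nat_lit 17) (nat_lit 5) (nat_lit 21) (nat_lit 5) (nat_lit 18) (nat_lit 5) (nat_lit 246) (nat_lit 241) (nat_lit 113))) (XT.nd (nat_lit 78) (nat_lit 0) (nat_lit 0) (XT.lf (nat_lit 0) (nat_lit 446124654513) (nat_lit 228) (nat_lit 127577411440) (nat_lit 304) (nat_lit 1429756227325) (nat_lit 14) (nat_lit 5) (nat_lit 17) (nat_lit 5) (nat_lit 18) (nat_lit 5) (nat_lit 247) (nat_lit 241) (nat_lit 112)) (XT.lf (nat_lit 0) (nat_lit 853947267919) (nat_lit 304) (nat_lit 686518825242) (nat_lit 76) (nat_lit 639778991436) (nat_lit 14) (nat_lit 5) (nat_lit 18) (nat_lit 5) (nat_lit 15) (nat_lit 5) (nat_lit 248) (nat_lit 241) (nat_lit 111))))) (XT.nd (nat_lit 312) (nat_lit 304) (nat_lit 0) (XT.nd (nat_lit 156) (nat_lit 76) (nat_lit 0) (XT.nd (nat_lit 78) (nat_lit 0) (nat_lit 0) (XT.lf (nat_lit 0) (nat_lit 339025484789)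 (nat_lit 152) (nat_lit 857317199515) (nat_lit 228) (nat_lit 1184190195214) (nat_lit 12) (nat_lit 5) (nat_lit 14) (nat_lit 5) (nat_lit 15) (nat_lit 5) (nat_lit 249) (nat_lit 241) (nat_lit 110)) (XT.lf (nat_lit 0) (nat_lit 1595556792088) (nat_lit 152) (nat_lit 30426829573) (nat_lit 228) (nat_lit 979497290761) (nat_lit 12) (nat_lit 5) (nat_lit 14) (nat_lit 5) (nat_lit 15) (nat_lit 5) (nat_lit 250) (nat_lit 241) (nat_lit 109))) (XT.nd (nat_lit 78) (nat_lit 0) (nat_lit 0) (XT.lf (nat_lit 0) (nat_lit 151794627387) (nat_lit 76) (nat_lit 2012677383359) (nat_lit 152) (nat_lit 693038942865) (nat_lit 11) (nat_lit 5) (nat_lit 12) (nat_lit 5) (nat_lit 13) (nat_lit 4) (nat_lit 251) (nat_lit 241) (nat_lit 108)) (XT.lf (nat_lit 0) (nat_lit 1599682390031) (nat_lit 76) (nat_lit 1238225791697) (nat_lit 152) (nat_lit 301311140736) (nat_lit 11) (nat_lit 5) (nat_lit 12) (nat_lit 5) (nat_lit 13) (nat_lit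 4) (nat_lit 252) (nat_lit 241) (nat_lit 107)))) (XT.nd (nat_lit 156) (nat_lit 76) (nat_lit 0) (XT.nd (nat_lit 78) (nat_lit 152) (nat_lit 0) (XT.lf (nat_lit 0) (nat_lit 135895165512) (nat_lit 152) (nat_lit 204607685738) (nat_lit 76) (nat_lit 3121754537758) (nat_lit 10) (nat_lit 5) (nat_lit 12) (nat_lit 5) (nat_lit 11) (nat_lit 5) (nat_lit 253) (nat_lit 241) (nat_lit 106)) (XT.lf (nat_lit 0) (nat_lit 699843153809) (nat_lit 228) (nat_lit 2409963487795) (nat_lit 76) (nat_lit 707990912859) (nat_lit 8) (nat_lit 5) (nat_lit 11) (nat_lit 5) (nat_lit 9) (nat_lit 4) (nat_lit 254) (nat_lit 241) (nat_lit 105))) (XT.nd (nat_lit 78) (nat_lit 76) (nat_lit 0) (XT.lf (nat_lit 0) (nat_lit 1375802466713) (nat_lit 228) (nat_lit 956650967889) (nat_lit 76) (nat_lit 1890102441186) (nat_lit 8) (nat_lit 5) (nat_lit 11) (nat_lit 5) (nat_lit 9) (nat_lit 4) (nat_lit 255) (nat_lit 241) (nat_lit 104)) (XT.lf (nat_lit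 0) (nat_lit 784500046633) (nat_lit 76) (nat_lit 1401140102401) (nat_lit 152) (nat_lit 2497515125414) (nat_lit 7) (nat_lit 5) (nat_lit 8) (nat_lit 5) (nat_lit 9) (nat_lit 4) (nat_lit 256) (nat_lit 241) (nat_lit 103))))))) (XT.nd (nat_lit 30342) (nat_lit 0) (nat_lit 228) (XT.nd (nat_lit 624) (nat_lit 76) (nat_lit 0) (XT.nd (nat_lit 312) (nat_lit 76) (nat_lit 0) (XT.nd (nat_lit 156) (nat_lit 152) (nat_lit 0) (XT.nd (nat_lit 78) (nat_lit 0) (nat_lit 0) (XT.lf (nat_lit 0) (nat_lit 2894338234567) (nat_lit 76) (nat_lit 272622002877) (nat_lit 152) (nat_lit 2038383332409) (nat_lit 7) (nat_lit 5) (nat_lit 8) (nat_lit 5) (nat_lit 9) (nat_lit 4) (nat_lit 257) (nat_lit 241) (nat_lit 102)) (XT.lf (nat_lit 0) (nat_lit 4337928599214) (nat_lit 152) (nat_lit 527658222398) (nat_lit 0) (nat_lit 933905748948) (nat_lit 7) (nat_lit 5) (nat_lit 9) (nat_lit 4) (nat_lit 7) (nat_lit 4) (nat_lit 258) (nat_lit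 241) (nat_lit 101))) (XT.nd (nat_lit 78) (nat_lit 76) (nat_lit 0) (XT.lf (nat_lit 0) (nat_lit 1657797557858) (nat_lit 76) (nat_lit 4108372518049) (nat_lit 76) (nat_lit 704349666372) (nat_lit 6) (nat_lit 4) (nat_lit 7) (nat_lit 5) (nat_lit 7) (nat_lit 4) (nat_lit 259) (nat_lit 241) (nat_lit 100)) (XT.lf (nat_lit 0) (nat_lit 180524108856) (nat_lit 152) (nat_lit 3015896018862) (nat_lit 76) (nat_lit 4040412695845) (nat_lit 5) (nat_lit 5) (nat_lit 7) (nat_lit 5) (nat_lit 6) (nat_lit 4) (nat_lit 260) (nat_lit 241) (nat_lit 99)))) (XT.nd (nat_lit 156) (nat_lit 0) (nat_lit 0) (XT.nd (nat_lit 78) (nat_lit 76) (nat_lit 0) (XT.lf (nat_lit 0) (nat_lit 1126016959785) (nat_lit 152) (nat_lit 983086390434) (nat_lit 76) (nat_lit 6003958447921) (nat_lit 5) (nat_lit 5) (nat_lit 7) (nat_lit 5) (nat_lit 6) (nat_lit 4) (nat_lit 261) (nat_lit 241) (nat_lit 98)) (XT.lf (nat_lit 0) (nat_lit 1487030410984)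 (nat_lit 76) (nat_lit 787878084775) (nat_lit 152) (nat_lit 6836580409533) (nat_lit 4) (nat_lit 5) (nat_lit 5) (nat_lit 5) (nat_lit 6) (nat_lit 4) (nat_lit 262) (nat_lit 241) (nat_lit 97))) (XT.nd (nat_lit 78) (nat_lit 0) (nat_lit 0) (XT.lf (nat_lit 0) (nat_lit 3680260582124) (nat_lit 152) (nat_lit 5846559765803) (nat_lit 0) (nat_lit 720240707596) (nat_lit 4) (nat_lit 5) (nat_lit 6) (nat_lit 4) (nat_lit 4) (nat_lit 4) (nat_lit 263) (nat_lit 241) (nat_lit 96)) (XT.lf (nat_lit 0) (nat_lit 5333933484794) (nat_lit 152) (nat_lit 3839494233337) (nat_lit 0) (nat_lit 2373913609655) (nat_lit 4) (nat_lit 5) (nat_lit 6) (nat_lit 4) (nat_lit 4) (nat_lit 4) (nat_lit 264) (nat_lit 241) (nat_lit 95))))) (XT.nd (nat_lit 312) (nat_lit 0) (nat_lit 0) (XT.nd (nat_lit 156) (nat_lit 0) (nat_lit 0) (XT.nd (nat_lit 78) (nat_lit 76) (nat_lit 0) (XT.lf (nat_lit 0) (nat_lit 7235657322269) (nat_lit 152) (nat_lit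 1531368872112) (nat_lit 0) (nat_lit 4275637446600) (nat_lit 4) (nat_lit 5) (nat_lit 6) (nat_lit 4) (nat_lit 4) (nat_lit 4) (nat_lit 265) (nat_lit 241) (nat_lit 94)) (XT.lf (nat_lit 0) (nat_lit 1232720604988) (nat_lit 76) (nat_lit 8240963461328) (nat_lit 76) (nat_lit 5280943585198) (nat_lit 3) (nat_lit 4) (nat_lit 4) (nat_lit 5) (nat_lit 4) (nat_lit 4) (nat_lit 266) (nat_lit 241) (nat_lit 93))) (XT.nd (nat_lit 78) (nat_lit 0) (nat_lit 0) (XT.lf (nat_lit 0) (nat_lit 4583528481654) (nat_lit 76) (nat_lit 7543935167234) (nat_lit 76) (nat_lit 4583915290702) (nat_lit 3) (nat_lit 4) (nat_lit 4) (nat_lit 5) (nat_lit 4) (nat_lit 4) (nat_lit 267) (nat_lit 241) (nat_lit 92)) (XT.lf (nat_lit 0) (nat_lit 8436957539017) (nat_lit 76) (nat_lit 6742352629403) (nat_lit 76) (nat_lit 3782332752523) (nat_lit 3) (nat_lit 4) (nat_lit 4) (nat_lit 5) (nat_lit 4) (nat_lit 4) (nat_lit 268) (nat_lit 241) (nat_lit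 91)))) (XT.nd (nat_lit 29250) (nat_lit 0) (nat_lit 988) (XT.nd (nat_lit 29172) (nat_lit 0) (nat_lit 1292) (XT.lf (nat_lit 0) (nat_lit 12868400954288) (nat_lit 76) (nat_lit 5820532711226) (nat_lit 76) (nat_lit 2860512834042) (nat_lit 3) (nat_lit 4) (nat_lit 4) (nat_lit 5) (nat_lit 4) (nat_lit 4) (nat_lit 269) (nat_lit 241) (nat_lit 90)) (XT.lf (nat_lit 0) (nat_lit 362594233377) (nat_lit 0) (nat_lit 362594233377) (nat_lit 228) (nat_lit 120512749) (nat_lit 20) (nat_lit 5) (nat_lit 20) (nat_lit 3) (nat_lit 23) (nat_lit 3) (nat_lit 242) (nat_lit 242) (nat_lit 116))) (XT.nd (nat_lit 78) (nat_lit 304) (nat_lit 0) (XT.lf (nat_lit 0) (nat_lit 1458685251068) (nat_lit 0) (nat_lit 100469978458) (nat_lit 228) (nat_lit 259072243) (nat_lit 20) (nat_lit 5) (nat_lit 20) (nat_lit 3) (nat_lit 23) (nat_lit 3) (nat_lit 243) (nat_lit 242) (nat_lit 115)) (XT.lf (nat_lit 0) (nat_lit 54746497614) (nat_lit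 304) (nat_lit 1029192003793) (nat_lit 380) (nat_lit 592343120890) (nat_lit 16) (nat_lit 5) (nat_lit 20) (nat_lit 5) (nat_lit 21) (nat_lit 5) (nat_lit 244) (nat_lit 242) (nat_lit 114)))))) (XT.nd (nat_lit 624) (nat_lit 380) (nat_lit 0) (XT.nd (nat_lit 312) (nat_lit 228) (nat_lit 0) (XT.nd (nat_lit 156) (nat_lit 152) (nat_lit 0) (XT.nd (nat_lit 78) (nat_lit 0) (nat_lit 76) (XT.lf (nat_lit 0) (nat_lit 128276773959) (nat_lit 304) (nat_lit 296534931176) (nat_lit 380) (nat_lit 1384320426030) (nat_lit 16) (nat_lit 5) (nat_lit 20) (nat_lit 5) (nat_lit 21) (nat_lit 5) (nat_lit 245) (nat_lit 242) (nat_lit 113)) (XT.lf (nat_lit 0) (nat_lit 252634017232) (nat_lit 304) (nat_lit 1373783841951) (nat_lit 76) (nat_lit 329522743389) (nat_lit 17) (nat_lit 5) (nat_lit 21) (nat_lit 5) (nat_lit 18) (nat_lit 5) (nat_lit 246) (nat_lit 242) (nat_lit 112))) (XT.nd (nat_lit 78) (nat_lit 228) (nat_lit 0) (XT.lf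 (nat_lit 0) (nat_lit 432112790122) (nat_lit 304) (nat_lit 517433812779) (nat_lit 76) (nat_lit 1169753550348) (nat_lit 17) (nat_lit 5) (nat_lit 21) (nat_lit 5) (nat_lit 18) (nat_lit 5) (nat_lit 247) (nat_lit 242) (nat_lit 111)) (XT.lf (nat_lit 0) (nat_lit 513043387934) (nat_lit 228) (nat_lit 146714020726) (nat_lit 304) (nat_lit 1644219623433) (nat_lit 14) (nat_lit 5) (nat_lit 17) (nat_lit 5) (nat_lit 18) (nat_lit 5) (nat_lit 248) (nat_lit 242) (nat_lit 110)))) (XT.nd (nat_lit 156) (nat_lit 76) (nat_lit 0) (XT.nd (nat_lit 78) (nat_lit 152) (nat_lit 0) (XT.lf (nat_lit 0) (nat_lit 982039386729) (nat_lit 304) (nat_lit 789496613968) (nat_lit 76) (nat_lit 735745842076) (nat_lit 14) (nat_lit 5) (nat_lit 18) (nat_lit 5) (nat_lit 15) (nat_lit 5) (nat_lit 249) (nat_lit 242) (nat_lit 109)) (XT.lf (nat_lit 0) (nat_lit 389879340974) (nat_lit 152) (nat_lit 985914772251) (nat_lit 228) (nat_lit 1361818694089)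 (nat_lit 12) (nat_lit 5) (nat_lit 14) (nat_lit 5) (nat_lit 15) (nat_lit 5) (nat_lit 250) (nat_lit 242) (nat_lit 108))) (XT.nd (nat_lit 78) (nat_lit 76) (nat_lit 0) (XT.lf (nat_lit 0) (nat_lit 1834890340003) (nat_lit 152) (nat_lit 34990847755) (nat_lit 228) (nat_lit 1126421857934) (nat_lit 12) (nat_lit 5) (nat_lit 14) (nat_lit 5) (nat_lit 15) (nat_lit 5) (nat_lit 251) (nat_lit 242) (nat_lit 107)) (XT.lf (nat_lit 0) (nat_lit 174563852457) (nat_lit 76) (nat_lit 2314578981276) (nat_lit 152) (nat_lit 796994759569) (nat_lit 11) (nat_lit 5) (nat_lit 12) (nat_lit 5) (nat_lit 13) (nat_lit 4) (nat_lit 252) (nat_lit 242) (nat_lit 106))))) (XT.nd (nat_lit 312) (nat_lit 152) (nat_lit 0) (XT.nd (nat_lit 156) (nat_lit 152) (nat_lit 0) (XT.nd (nat_lit 78) (nat_lit 76) (nat_lit 0) (XT.lf (nat_lit 0) (nat_lit 1839634775459) (nat_lit 76) (nat_lit 1423959652115) (nat_lit 152) (nat_lit 346507790346) (nat_lit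 11) (nat_lit 5) (nat_lit 12) (nat_lit 5) (nat_lit 13) (nat_lit 4) (nat_lit 253) (nat_lit 242) (nat_lit 105)) (XT.lf (nat_lit 0) (nat_lit 156279457371) (nat_lit 152) (nat_lit 235298813427) (nat_lit 76) (nat_lit 3590017723912) (nat_lit 10) (nat_lit 5) (nat_lit 12) (nat_lit 5) (nat_lit 11) (nat_lit 5) (nat_lit 254) (nat_lit 242) (nat_lit 104))) (XT.nd (nat_lit 78) (nat_lit 0) (nat_lit 0) (XT.lf (nat_lit 0) (nat_lit 804819643026) (nat_lit 228) (nat_lit 2771457984824) (nat_lit 76) (nat_lit 814189557278) (nat_lit 8) (nat_lit 5) (nat_lit 11) (nat_lit 5) (nat_lit 9) (nat_lit 4) (nat_lit 255) (nat_lit 242) (nat_lit 103)) (XT.lf (nat_lit 0) (nat_lit 1582172850760) (nat_lit 228) (nat_lit 1100148590341) (nat_lit 76) (nat_lit 2173617813877) (nat_lit 8) (nat_lit 5) (nat_lit 11) (nat_lit 5) (nat_lit 9) (nat_lit 4) (nat_lit 256) (nat_lit 242) (nat_lit 102)))) (XT.nd (nat_lit 156) (nat_lit 76) (nat_lit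 0) (XT.nd (nat_lit 78) (nat_lit 0) (nat_lit 0) (XT.lf (nat_lit 0) (nat_lit 902175075326) (nat_lit 76) (nat_lit 1611311109171) (nat_lit 152) (nat_lit 2872142379090) (nat_lit 7) (nat_lit 5) (nat_lit 8) (nat_lit 5) (nat_lit 9) (nat_lit 4) (nat_lit 257) (nat_lit 242) (nat_lit 101)) (XT.lf (nat_lit 0) (nat_lit 3328488988620) (nat_lit 76) (nat_lit 313515295839) (nat_lit 152) (nat_lit 2344140819109) (nat_lit 7) (nat_lit 5) (nat_lit 8) (nat_lit 5) (nat_lit 9) (nat_lit 4) (nat_lit 258) (nat_lit 242) (nat_lit 100))) (XT.nd (nat_lit 78) (nat_lit 76) (nat_lit 0) (XT.lf (nat_lit 0) (nat_lit 4988617899276) (nat_lit 152) (nat_lit 606806938086) (nat_lit 0) (nat_lit 1073991617208) (nat_lit 7) (nat_lit 5) (nat_lit 9) (nat_lit 4) (nat_lit 7) (nat_lit 4) (nat_lit 259) (nat_lit 242) (nat_lit 99)) (XT.lf (nat_lit 0) (nat_lit 1906467208405) (nat_lit 76) (nat_lit 4724628388439) (nat_lit 76) (nat_lit 810002105303)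 (nat_lit 6) (nat_lit 4) (nat_lit 7) (nat_lit 5) (nat_lit 7) (nat_lit 4) (nat_lit 260) (nat_lit 242) (nat_lit 98))))))))
noncomputable def xc95 : XT := (XT.nd (nat_lit 30420) (nat_lit 0) (nat_lit 76) (XT.nd (nat_lit 624) (nat_lit 0) (nat_lit 0) (XT.nd (nat_lit 312) (nat_lit 76) (nat_lit 0) (XT.nd (nat_lit 156) (nat_lit 76) (nat_lit 0) (XT.nd (nat_lit 78) (nat_lit 0) (nat_lit 0) (XT.lf (nat_lit 0) (nat_lit 207602733918) (nat_lit 152) (nat_lit 3468280406139) (nat_lit 76) (nat_lit 4646474605701) (nat_lit 5) (nat_lit 5) (nat_lit 7) (nat_lit 5) (nat_lit 6) (nat_lit 4) (nat_lit 261) (nat_lit 242) (nat_lit 97)) (XT.lf (nat_lit 0) (nat_lit 1294919511346) (nat_lit 152) (nat_lit 1130549335475) (nat_lit 76) (nat_lit 6904552219873) (nat_lit 5) (nat_lit 5) (nat_lit 7) (nat_lit 5) (nat_lit 6) (nat_lit 4) (nat_lit 262) (nat_lit 242) (nat_lit 96))) (XT.nd (nat_lit 78) (nat_lit 0) (nat_lit 0) (XT.lf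 (nat_lit 0) (nat_lit 1710084985541) (nat_lit 76) (nat_lit 906059791720) (nat_lit 152) (nat_lit 7862067462731) (nat_lit 4) (nat_lit 5) (nat_lit 5) (nat_lit 5) (nat_lit 6) (nat_lit 4) (nat_lit 263) (nat_lit 242) (nat_lit 95)) (XT.lf (nat_lit 0) (nat_lit 4232299675857) (nat_lit 152) (nat_lit 6723543718705) (nat_lit 0) (nat_lit 828276818307) (nat_lit 4) (nat_lit 5) (nat_lit 6) (nat_lit 4) (nat_lit 4) (nat_lit 4) (nat_lit 264) (nat_lit 242) (nat_lit 94)))) (XT.nd (nat_lit 156) (nat_lit 76) (nat_lit 0) (XT.nd (nat_lit 78) (nat_lit 0) (nat_lit 0) (XT.lf (nat_lit 0) (nat_lit 6134023513091) (nat_lit 152) (nat_lit 4415418357930) (nat_lit 0) (nat_lit 2730000655079) (nat_lit 4) (nat_lit 5) (nat_lit 6) (nat_lit 4) (nat_lit 4) (nat_lit 4) (nat_lit 265) (nat_lit 242) (nat_lit 93)) (XT.lf (nat_lit 0) (nat_lit 8321005925460) (nat_lit 152) (nat_lit 1761074193879) (nat_lit 0) (nat_lit 4916983067047)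 (nat_lit 4) (nat_lit 5) (nat_lit 6) (nat_lit 4) (nat_lit 4) (nat_lit 4) (nat_lit 266) (nat_lit 242) (nat_lit 92))) (XT.nd (nat_lit 78) (nat_lit 0) (nat_lit 0) (XT.lf (nat_lit 0) (nat_lit 1417628704375) (nat_lit 76) (nat_lit 9477107976464) (nat_lit 76) (nat_lit 6073085117702) (nat_lit 3) (nat_lit 4) (nat_lit 4) (nat_lit 5) (nat_lit 4) (nat_lit 4) (nat_lit 267) (nat_lit 242) (nat_lit 91)) (XT.lf (nat_lit 0) (nat_lit 5271057761414) (nat_lit 76) (nat_lit 8675525438786) (nat_lit 76) (nat_lit 5271502579721) (nat_lit 3) (nat_lit 4) (nat_lit 4) (nat_lit 5) (nat_lit 4) (nat_lit 4) (nat_lit 268) (nat_lit 242) (nat_lit 90))))) (XT.nd (nat_lit 29484) (nat_lit 0) (nat_lit 836) (XT.nd (nat_lit 29328) (nat_lit 0) (nat_lit 988) (XT.nd (nat_lit 29250) (nat_lit 0) (nat_lit 1292) (XT.lf (nat_lit 0) (nat_lit 9702501176402) (nat_lit 76) (nat_lit 7753705520741) (nat_lit 76) (nat_lit 4349682661412) (nat_lit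 3) (nat_lit 4) (nat_lit 4) (nat_lit 5) (nat_lit 4) (nat_lit 4) (nat_lit 269) (nat_lit 242) (nat_lit 89)) (XT.lf (nat_lit 0) (nat_lit 416983380847) (nat_lit 0) (nat_lit 416983380847) (nat_lit 228) (nat_lit 138560742) (nat_lit 20) (nat_lit 5) (nat_lit 20) (nat_lit 3) (nat_lit 23) (nat_lit 3) (nat_lit 243) (nat_lit 243) (nat_lit 114))) (XT.nd (nat_lit 78) (nat_lit 304) (nat_lit 0) (XT.lf (nat_lit 0) (nat_lit 1677488060403) (nat_lit 0) (nat_lit 115540496902) (nat_lit 228) (nat_lit 297882784) (nat_lit 20) (nat_lit 5) (nat_lit 20) (nat_lit 3) (nat_lit 23) (nat_lit 3) (nat_lit 244) (nat_lit 243) (nat_lit 113)) (XT.lf (nat_lit 0) (nat_lit 62958512503) (nat_lit 304) (nat_lit 1183570771918) (nat_lit 380) (nat_lit 681194574850) (nat_lit 16) (nat_lit 5) (nat_lit 20) (nat_lit 5) (nat_lit 21) (nat_lit 5) (nat_lit 245) (nat_lit 243) (nat_lit 112)))) (XT.nd (nat_lit 156) (nat_lit 152) (nat_lit 0)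 (XT.nd (nat_lit 78) (nat_lit 0) (nat_lit 76) (XT.lf (nat_lit 0) (nat_lit 147518325050) (nat_lit 304) (nat_lit 341015142640) (nat_lit 380) (nat_lit 1591968477610) (nat_lit 16) (nat_lit 5) (nat_lit 20) (nat_lit 5) (nat_lit 21) (nat_lit 5) (nat_lit 246) (nat_lit 243) (nat_lit 111)) (XT.lf (nat_lit 0) (nat_lit 290529151173) (nat_lit 304) (nat_lit 1579851386137) (nat_lit 76) (nat_lit 378951150692) (nat_lit 17) (nat_lit 5) (nat_lit 21) (nat_lit 5) (nat_lit 18) (nat_lit 5) (nat_lit 247) (nat_lit 243) (nat_lit 110))) (XT.nd (nat_lit 78) (nat_lit 228) (nat_lit 0) (XT.lf (nat_lit 0) (nat_lit 496929735907) (nat_lit 304) (nat_lit 595048856777) (nat_lit 76) (nat_lit 1345216579243) (nat_lit 17) (nat_lit 5) (nat_lit 21) (nat_lit 5) (nat_lit 18) (nat_lit 5) (nat_lit 248) (nat_lit 243) (nat_lit 109)) (XT.lf (nat_lit 0) (nat_lit 589999922775) (nat_lit 228) (nat_lit 168721121998) (nat_lit 304) (nat_lit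 1890852538221) (nat_lit 14) (nat_lit 5) (nat_lit 17) (nat_lit 5) (nat_lit 18) (nat_lit 5) (nat_lit 249) (nat_lit 243) (nat_lit 108)))))) (XT.nd (nat_lit 624) (nat_lit 304) (nat_lit 0) (XT.nd (nat_lit 312) (nat_lit 228) (nat_lit 0) (XT.nd (nat_lit 156) (nat_lit 76) (nat_lit 0) (XT.nd (nat_lit 78) (nat_lit 152) (nat_lit 0) (XT.lf (nat_lit 0) (nat_lit 1129345316382) (nat_lit 304) (nat_lit 907921079552) (nat_lit 76) (nat_lit 846107719842) (nat_lit 14) (nat_lit 5) (nat_lit 18) (nat_lit 5) (nat_lit 15) (nat_lit 5) (nat_lit 250) (nat_lit 243) (nat_lit 107)) (XT.lf (nat_lit 0) (nat_lit 448361267426) (nat_lit 152) (nat_lit 1133801982650) (nat_lit 228) (nat_lit 1566091475210) (nat_lit 12) (nat_lit 5) (nat_lit 14) (nat_lit 5) (nat_lit 15) (nat_lit 5) (nat_lit 251) (nat_lit 243) (nat_lit 106))) (XT.nd (nat_lit 78) (nat_lit 76) (nat_lit 0) (XT.lf (nat_lit 0) (nat_lit 2110123913009) (nat_lit 152)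 (nat_lit 40239470190) (nat_lit 228) (nat_lit 1295385116630) (nat_lit 12) (nat_lit 5) (nat_lit 14) (nat_lit 5) (nat_lit 15) (nat_lit 5) (nat_lit 252) (nat_lit 243) (nat_lit 105)) (XT.lf (nat_lit 0) (nat_lit 200748453738) (nat_lit 76) (nat_lit 2661765821218) (nat_lit 152) (nat_lit 916543954808) (nat_lit 11) (nat_lit 5) (nat_lit 12) (nat_lit 5) (nat_lit 13) (nat_lit 4) (nat_lit 253) (nat_lit 243) (nat_lit 104)))) (XT.nd (nat_lit 156) (nat_lit 152) (nat_lit 0) (XT.nd (nat_lit 78) (nat_lit 76) (nat_lit 0) (XT.lf (nat_lit 0) (nat_lit 2115580012136) (nat_lit 76) (nat_lit 1637553593628) (nat_lit 152) (nat_lit 398483942640) (nat_lit 11) (nat_lit 5) (nat_lit 12) (nat_lit 5) (nat_lit 13) (nat_lit 4) (nat_lit 254) (nat_lit 243) (nat_lit 103)) (XT.lf (nat_lit 0) (nat_lit 179721388855) (nat_lit 152) (nat_lit 270593616408) (nat_lit 76) (nat_lit 4128520386649) (nat_lit 10) (nat_lit 5) (nat_lit 12)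 (nat_lit 5) (nat_lit 11) (nat_lit 5) (nat_lit 255) (nat_lit 243) (nat_lit 102))) (XT.nd (nat_lit 78) (nat_lit 0) (nat_lit 0) (XT.lf (nat_lit 0) (nat_lit 925542601688) (nat_lit 228) (nat_lit 3187176662781) (nat_lit 76) (nat_lit 936317996533) (nat_lit 8) (nat_lit 5) (nat_lit 11) (nat_lit 5) (nat_lit 9) (nat_lit 4) (nat_lit 256) (nat_lit 243) (nat_lit 101)) (XT.lf (nat_lit 0) (nat_lit 1819498788990) (nat_lit 228) (nat_lit 1265170861705) (nat_lit 76) (nat_lit 2499660490884) (nat_lit 8) (nat_lit 5) (nat_lit 11) (nat_lit 5) (nat_lit 9) (nat_lit 4) (nat_lit 257) (nat_lit 243) (nat_lit 100))))) (XT.nd (nat_lit 312) (nat_lit 152) (nat_lit 0) (XT.nd (nat_lit 156) (nat_lit 76) (nat_lit 0) (XT.nd (nat_lit 78) (nat_lit 0) (nat_lit 0) (XT.lf (nat_lit 0) (nat_lit 1037501353031) (nat_lit 76) (nat_lit 1853007769051) (nat_lit 152) (nat_lit 3302963724509) (nat_lit 7) (nat_lit 5) (nat_lit 8) (nat_lit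 5) (nat_lit 9) (nat_lit 4) (nat_lit 258) (nat_lit 243) (nat_lit 99)) (XT.lf (nat_lit 0) (nat_lit 3827762351179) (nat_lit 76) (nat_lit 360542584566) (nat_lit 152) (nat_lit 2695761932024) (nat_lit 7) (nat_lit 5) (nat_lit 8) (nat_lit 5) (nat_lit 9) (nat_lit 4) (nat_lit 259) (nat_lit 243) (nat_lit 98))) (XT.nd (nat_lit 78) (nat_lit 76) (nat_lit 0) (XT.lf (nat_lit 0) (nat_lit 5736910591865) (nat_lit 152) (nat_lit 697827965437) (nat_lit 0) (nat_lit 1235090364264) (nat_lit 7) (nat_lit 5) (nat_lit 9) (nat_lit 4) (nat_lit 7) (nat_lit 4) (nat_lit 260) (nat_lit 243) (nat_lit 97)) (XT.lf (nat_lit 0) (nat_lit 2192437302421) (nat_lit 76) (nat_lit 5433322641172) (nat_lit 76) (nat_lit 931502412763) (nat_lit 6) (nat_lit 4) (nat_lit 7) (nat_lit 5) (nat_lit 7) (nat_lit 4) (nat_lit 261) (nat_lit 243) (nat_lit 96)))) (XT.nd (nat_lit 156) (nat_lit 76) (nat_lit 0) (XT.nd (nat_lit 78) (nat_lit 0) (nat_lit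 0) (XT.lf (nat_lit 0) (nat_lit 238743150609) (nat_lit 152) (nat_lit 3988522455300) (nat_lit 76) (nat_lit 5343445800699) (nat_lit 5) (nat_lit 5) (nat_lit 7) (nat_lit 5) (nat_lit 6) (nat_lit 4) (nat_lit 262) (nat_lit 243) (nat_lit 95)) (XT.lf (nat_lit 0) (nat_lit 1489157443790) (nat_lit 152) (nat_lit 1300131725570) (nat_lit 76) (nat_lit 7940235056457) (nat_lit 5) (nat_lit 5) (nat_lit 7) (nat_lit 5) (nat_lit 6) (nat_lit 4) (nat_lit 263) (nat_lit 243) (nat_lit 94))) (XT.nd (nat_lit 78) (nat_lit 0) (nat_lit 0) (XT.lf (nat_lit 0) (nat_lit 1966597743134) (nat_lit 76) (nat_lit 1041968756114) (nat_lit 152) (nat_lit 9041377575916) (nat_lit 4) (nat_lit 5) (nat_lit 5) (nat_lit 5) (nat_lit 6) (nat_lit 4) (nat_lit 264) (nat_lit 243) (nat_lit 93)) (XT.lf (nat_lit 0) (nat_lit 4867144632086) (nat_lit 152) (nat_lit 7732075267460) (nat_lit 0) (nat_lit 952518344510) (nat_lit 4) (nat_lit 5) (nat_lit 6)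 (nat_lit 4) (nat_lit 4) (nat_lit 4) (nat_lit 265) (nat_lit 243) (nat_lit 92)))))))
noncomputable def xc96 : XT := (XT.nd (nat_lit 30576) (nat_lit 0) (nat_lit 76) (XT.nd (nat_lit 29952) (nat_lit 0) (nat_lit 532) (XT.nd (nat_lit 29640) (nat_lit 0) (nat_lit 988) (XT.nd (nat_lit 156) (nat_lit 76) (nat_lit 0) (XT.nd (nat_lit 78) (nat_lit 0) (nat_lit 0) (XT.lf (nat_lit 0) (nat_lit 7054127044272) (nat_lit 152) (nat_lit 5077731103749) (nat_lit 0) (nat_lit 3139500756347) (nat_lit 4) (nat_lit 5) (nat_lit 6) (nat_lit 4) (nat_lit 4) (nat_lit 4) (nat_lit 266) (nat_lit 243) (nat_lit 91)) (XT.lf (nat_lit 0) (nat_lit 9569156817946) (nat_lit 152) (nat_lit 2025235316117) (nat_lit 0) (nat_lit 5654530529718) (nat_lit 4) (nat_lit 5) (nat_lit 6) (nat_lit 4) (nat_lit 4) (nat_lit 4) (nat_lit 267) (nat_lit 243) (nat_lit 90))) (XT.nd (nat_lit 29406) (nat_lit 0) (nat_lit 1292) (XT.lf (nat_lit 0) (nat_lit 1630273016563)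 (nat_lit 76) (nat_lit 10898674169861) (nat_lit 76) (nat_lit 6984047881369) (nat_lit 3) (nat_lit 4) (nat_lit 4) (nat_lit 5) (nat_lit 4) (nat_lit 4) (nat_lit 268) (nat_lit 243) (nat_lit 89)) (XT.lf (nat_lit 0) (nat_lit 479530897398) (nat_lit 0) (nat_lit 479530897398) (nat_lit 228) (nat_lit 159322986) (nat_lit 20) (nat_lit 5) (nat_lit 20) (nat_lit 3) (nat_lit 23) (nat_lit 3) (nat_lit 244) (nat_lit 244) (nat_lit 112)))) (XT.nd (nat_lit 156) (nat_lit 0) (nat_lit 0) (XT.nd (nat_lit 78) (nat_lit 304) (nat_lit 0) (XT.lf (nat_lit 0) (nat_lit 1929111285852) (nat_lit 0) (nat_lit 132871587826) (nat_lit 228) (nat_lit 342527171) (nat_lit 20) (nat_lit 5) (nat_lit 20) (nat_lit 3) (nat_lit 23) (nat_lit 3) (nat_lit 245) (nat_lit 244) (nat_lit 111)) (XT.lf (nat_lit 0) (nat_lit 72402319810) (nat_lit 304) (nat_lit 1361106363173) (nat_lit 380) (nat_lit 783373750361) (nat_lit 16) (nat_lit 5) (nat_lit 20)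 (nat_lit 5) (nat_lit 21) (nat_lit 5) (nat_lit 246) (nat_lit 244) (nat_lit 110))) (XT.nd (nat_lit 78) (nat_lit 0) (nat_lit 76) (XT.lf (nat_lit 0) (nat_lit 169646100270) (nat_lit 304) (nat_lit 392167392703) (nat_lit 380) (nat_lit 1830763739932) (nat_lit 16) (nat_lit 5) (nat_lit 20) (nat_lit 5) (nat_lit 21) (nat_lit 5) (nat_lit 247) (nat_lit 244) (nat_lit 109)) (XT.lf (nat_lit 0) (nat_lit 334108547558) (nat_lit 304) (nat_lit 1816829069781) (nat_lit 76) (nat_lit 435793820116) (nat_lit 17) (nat_lit 5) (nat_lit 21) (nat_lit 5) (nat_lit 18) (nat_lit 5) (nat_lit 248) (nat_lit 244) (nat_lit 108))))) (XT.nd (nat_lit 312) (nat_lit 152) (nat_lit 0) (XT.nd (nat_lit 156) (nat_lit 152) (nat_lit 0) (XT.nd (nat_lit 78) (nat_lit 228) (nat_lit 0) (XT.lf (nat_lit 0) (nat_lit 571469216910) (nat_lit 304) (nat_lit 684306164182) (nat_lit 76) (nat_lit 1546999063364) (nat_lit 17) (nat_lit 5) (nat_lit 21) (nat_lit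 5) (nat_lit 18) (nat_lit 5) (nat_lit 249) (nat_lit 244) (nat_lit 107)) (XT.lf (nat_lit 0) (nat_lit 678499931342) (nat_lit 228) (nat_lit 194029288909) (nat_lit 304) (nat_lit 2174480397233) (nat_lit 14) (nat_lit 5) (nat_lit 17) (nat_lit 5) (nat_lit 18) (nat_lit 5) (nat_lit 250) (nat_lit 244) (nat_lit 106))) (XT.nd (nat_lit 78) (nat_lit 152) (nat_lit 0) (XT.lf (nat_lit 0) (nat_lit 1298747130204) (nat_lit 304) (nat_lit 1044109221439) (nat_lit 76) (nat_lit 973023878919) (nat_lit 14) (nat_lit 5) (nat_lit 18) (nat_lit 5) (nat_lit 15) (nat_lit 5) (nat_lit 251) (nat_lit 244) (nat_lit 105)) (XT.lf (nat_lit 0) (nat_lit 515615476675) (nat_lit 152) (nat_lit 1303872275936) (nat_lit 228) (nat_lit 1801005179106) (nat_lit 12) (nat_lit 5) (nat_lit 14) (nat_lit 5) (nat_lit 15) (nat_lit 5) (nat_lit 252) (nat_lit 244) (nat_lit 104)))) (XT.nd (nat_lit 156) (nat_lit 76) (nat_lit 0) (XT.nd (nat_lit 78) (nat_lit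 76) (nat_lit 0) (XT.lf (nat_lit 0) (nat_lit 2426642516599) (nat_lit 152) (nat_lit 46275387143) (nat_lit 228) (nat_lit 1489692869007) (nat_lit 12) (nat_lit 5) (nat_lit 14) (nat_lit 5) (nat_lit 15) (nat_lit 5) (nat_lit 253) (nat_lit 244) (nat_lit 103)) (XT.lf (nat_lit 0) (nat_lit 230860739501) (nat_lit 76) (nat_lit 3061030688920) (nat_lit 152) (nat_lit 1054025533892) (nat_lit 11) (nat_lit 5) (nat_lit 12) (nat_lit 5) (nat_lit 13) (nat_lit 4) (nat_lit 254) (nat_lit 244) (nat_lit 102))) (XT.nd (nat_lit 78) (nat_lit 76) (nat_lit 0) (XT.lf (nat_lit 0) (nat_lit 2432917029350) (nat_lit 76) (nat_lit 1883186627906) (nat_lit 152) (nat_lit 458256521743) (nat_lit 11) (nat_lit 5) (nat_lit 12) (nat_lit 5) (nat_lit 13) (nat_lit 4) (nat_lit 255) (nat_lit 244) (nat_lit 101)) (XT.lf (nat_lit 0) (nat_lit 206679606921) (nat_lit 152) (nat_lit 311182644478) (nat_lit 76) (nat_lit 4747798447786) (nat_lit 10)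 (nat_lit 5) (nat_lit 12) (nat_lit 5) (nat_lit 11) (nat_lit 5) (nat_lit 256) (nat_lit 244) (nat_lit 100)))))) (XT.nd (nat_lit 624) (nat_lit 76) (nat_lit 0) (XT.nd (nat_lit 312) (nat_lit 152) (nat_lit 0) (XT.nd (nat_lit 156) (nat_lit 76) (nat_lit 0) (XT.nd (nat_lit 78) (nat_lit 0) (nat_lit 0) (XT.lf (nat_lit 0) (nat_lit 1064374001173) (nat_lit 228) (nat_lit 3665253147253) (nat_lit 76) (nat_lit 1076765700295) (nat_lit 8) (nat_lit 5) (nat_lit 11) (nat_lit 5) (nat_lit 9) (nat_lit 4) (nat_lit 257) (nat_lit 244) (nat_lit 99)) (XT.lf (nat_lit 0) (nat_lit 2092423615366) (nat_lit 228) (nat_lit 1454946477964) (nat_lit 76) (nat_lit 2874609568240) (nat_lit 8) (nat_lit 5) (nat_lit 11) (nat_lit 5) (nat_lit 9) (nat_lit 4) (nat_lit 258) (nat_lit 244) (nat_lit 98))) (XT.nd (nat_lit 78) (nat_lit 0) (nat_lit 0) (XT.lf (nat_lit 0) (nat_lit 1193126568392) (nat_lit 76) (nat_lit 2130958929497) (nat_lit 152)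 (nat_lit 3798408274532) (nat_lit 7) (nat_lit 5) (nat_lit 8) (nat_lit 5) (nat_lit 9) (nat_lit 4) (nat_lit 259) (nat_lit 244) (nat_lit 97)) (XT.lf (nat_lit 0) (nat_lit 4401926714644) (nat_lit 76) (nat_lit 414623967980) (nat_lit 152) (nat_lit 3100126214303) (nat_lit 7) (nat_lit 5) (nat_lit 8) (nat_lit 5) (nat_lit 9) (nat_lit 4) (nat_lit 260) (nat_lit 244) (nat_lit 96)))) (XT.nd (nat_lit 156) (nat_lit 76) (nat_lit 0) (XT.nd (nat_lit 78) (nat_lit 76) (nat_lit 0) (XT.lf (nat_lit 0) (nat_lit 6597447186465) (nat_lit 152) (nat_lit 802502150149) (nat_lit 0) (nat_lit 1420353922287) (nat_lit 7) (nat_lit 5) (nat_lit 9) (nat_lit 4) (nat_lit 7) (nat_lit 4) (nat_lit 261) (nat_lit 244) (nat_lit 95)) (XT.lf (nat_lit 0) (nat_lit 2521302907429) (nat_lit 76) (nat_lit 6248321033163) (nat_lit 76) (nat_lit 1071227768375) (nat_lit 6) (nat_lit 4) (nat_lit 7) (nat_lit 5) (nat_lit 7) (nat_lit 4) (nat_lit 262)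 (nat_lit 244) (nat_lit 94))) (XT.nd (nat_lit 78) (nat_lit 0) (nat_lit 0) (XT.lf (nat_lit 0) (nat_lit 274554628193) (nat_lit 152) (nat_lit 4586800814703) (nat_lit 76) (nat_lit 6144962673937) (nat_lit 5) (nat_lit 5) (nat_lit 7) (nat_lit 5) (nat_lit 6) (nat_lit 4) (nat_lit 263) (nat_lit 244) (nat_lit 93)) (XT.lf (nat_lit 0) (nat_lit 1712531064701) (nat_lit 152) (nat_lit 1495151476673) (nat_lit 76) (nat_lit 9131270317649) (nat_lit 5) (nat_lit 5) (nat_lit 7) (nat_lit 5) (nat_lit 6) (nat_lit 4) (nat_lit 264) (nat_lit 244) (nat_lit 92))))) (XT.nd (nat_lit 29796) (nat_lit 0) (nat_lit 912) (XT.nd (nat_lit 156) (nat_lit 0) (nat_lit 0) (XT.nd (nat_lit 78) (nat_lit 0) (nat_lit 0) (XT.lf (nat_lit 0) (nat_lit 2261587411985) (nat_lit 76) (nat_lit 1198264066231) (nat_lit 152) (nat_lit 10397584207597) (nat_lit 4) (nat_lit 5) (nat_lit 5) (nat_lit 5) (nat_lit 6) (nat_lit 4) (nat_lit 265) (nat_lit 244)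 (nat_lit 91)) (XT.lf (nat_lit 0) (nat_lit 5597216330567) (nat_lit 152) (nat_lit 8891886550736) (nat_lit 0) (nat_lit 1095396098801) (nat_lit 4) (nat_lit 5) (nat_lit 6) (nat_lit 4) (nat_lit 4) (nat_lit 4) (nat_lit 266) (nat_lit 244) (nat_lit 90))) (XT.nd (nat_lit 29562) (nat_lit 0) (nat_lit 1216) (XT.lf (nat_lit 0) (nat_lit 8112246104103) (nat_lit 152) (nat_lit 5839390763361) (nat_lit 0) (nat_lit 3610425872073) (nat_lit 4) (nat_lit 5) (nat_lit 6) (nat_lit 4) (nat_lit 4) (nat_lit 4) (nat_lit 267) (nat_lit 244) (nat_lit 89)) (XT.lf (nat_lit 0) (nat_lit 551460539133) (nat_lit 0) (nat_lit 551460539133) (nat_lit 228) (nat_lit 183204899) (nat_lit 20) (nat_lit 5) (nat_lit 20) (nat_lit 3) (nat_lit 23) (nat_lit 3) (nat_lit 245) (nat_lit 245) (nat_lit 110)))) (XT.nd (nat_lit 156) (nat_lit 0) (nat_lit 0) (XT.nd (nat_lit 78) (nat_lit 304) (nat_lit 0) (XT.lf (nat_lit 0) (nat_lit 2218477991123) (nat_lit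 0) (nat_lit 152802338393) (nat_lit 228) (nat_lit 393877490) (nat_lit 20) (nat_lit 5) (nat_lit 20) (nat_lit 3) (nat_lit 23) (nat_lit 3) (nat_lit 246) (nat_lit 245) (nat_lit 109)) (XT.lf (nat_lit 0) (nat_lit 83262690792) (nat_lit 304) (nat_lit 1565272299098) (nat_lit 380) (nat_lit 900879804811) (nat_lit 16) (nat_lit 5) (nat_lit 20) (nat_lit 5) (nat_lit 21) (nat_lit 5) (nat_lit 247) (nat_lit 245) (nat_lit 108))) (XT.nd (nat_lit 78) (nat_lit 0) (nat_lit 76) (XT.lf (nat_lit 0) (nat_lit 195093035319) (nat_lit 304) (nat_lit 450992485478) (nat_lit 380) (nat_lit 2105378293875) (nat_lit 16) (nat_lit 5) (nat_lit 20) (nat_lit 5) (nat_lit 21) (nat_lit 5) (nat_lit 248) (nat_lit 245) (nat_lit 107)) (XT.nd (nat_lit 78) (nat_lit 0) (nat_lit 0) (XT.lf (nat_lit 0) (nat_lit 384224847620) (nat_lit 304) (nat_lit 2089353411891) (nat_lit 76) (nat_lit 501162890728) (nat_lit 17) (nat_lit 5) (nat_lit 21) (nat_lit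 5) (nat_lit 18) (nat_lit 5) (nat_lit 249) (nat_lit 245) (nat_lit 106)) (XT.lf (nat_lit 0) (nat_lit 657189615036) (nat_lit 304) (nat_lit 786952072847) (nat_lit 76) (nat_lit 1779048920778) (nat_lit 17) (nat_lit 5) (nat_lit 21) (nat_lit 5) (nat_lit 18) (nat_lit 5) (nat_lit 250) (nat_lit 245) (nat_lit 105))))))))
noncomputable def xc97 : XT := (XT.nd (nat_lit 30888) (nat_lit 0) (nat_lit 228) (XT.nd (nat_lit 624) (nat_lit 304) (nat_lit 0) (XT.nd (nat_lit 312) (nat_lit 304) (nat_lit 0) (XT.nd (nat_lit 156) (nat_lit 152) (nat_lit 0) (XT.nd (nat_lit 78) (nat_lit 0) (nat_lit 0) (XT.lf (nat_lit 0) (nat_lit 780274936281) (nat_lit 228) (nat_lit 223133681195) (nat_lit 304) (nat_lit 2500652440394) (nat_lit 14) (nat_lit 5) (nat_lit 17) (nat_lit 5) (nat_lit 18) (nat_lit 5) (nat_lit 251) (nat_lit 245) (nat_lit 104)) (XT.lf (nat_lit 0) (nat_lit 1493559212109) (nat_lit 304) (nat_lit 1200725589498) (nat_lit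 76) (nat_lit 1118977461588) (nat_lit 14) (nat_lit 5) (nat_lit 18) (nat_lit 5) (nat_lit 15) (nat_lit 5) (nat_lit 252) (nat_lit 245) (nat_lit 103))) (XT.nd (nat_lit 78) (nat_lit 0) (nat_lit 0) (XT.lf (nat_lit 0) (nat_lit 592957812645) (nat_lit 152) (nat_lit 1499453114217) (nat_lit 228) (nat_lit 2071155942825) (nat_lit 12) (nat_lit 5) (nat_lit 14) (nat_lit 5) (nat_lit 15) (nat_lit 5) (nat_lit 253) (nat_lit 245) (nat_lit 102)) (XT.lf (nat_lit 0) (nat_lit 2790638906671) (nat_lit 152) (nat_lit 53216692511) (nat_lit 228) (nat_lit 1713146787927) (nat_lit 12) (nat_lit 5) (nat_lit 14) (nat_lit 5) (nat_lit 15) (nat_lit 5) (nat_lit 254) (nat_lit 245) (nat_lit 101)))) (XT.nd (nat_lit 156) (nat_lit 228) (nat_lit 0) (XT.nd (nat_lit 78) (nat_lit 0) (nat_lit 0) (XT.lf (nat_lit 0) (nat_lit 265489863812) (nat_lit 76) (nat_lit 3520185288113) (nat_lit 152) (nat_lit 1212129353286) (nat_lit 11) (nat_lit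 5) (nat_lit 12) (nat_lit 5) (nat_lit 13) (nat_lit 4) (nat_lit 255) (nat_lit 245) (nat_lit 100)) (XT.lf (nat_lit 0) (nat_lit 2797854595392) (nat_lit 76) (nat_lit 2165664618488) (nat_lit 152) (nat_lit 526994990709) (nat_lit 11) (nat_lit 5) (nat_lit 12) (nat_lit 5) (nat_lit 13) (nat_lit 4) (nat_lit 256) (nat_lit 245) (nat_lit 99))) (XT.nd (nat_lit 78) (nat_lit 152) (nat_lit 0) (XT.lf (nat_lit 0) (nat_lit 237681555323) (nat_lit 152) (nat_lit 357860030267) (nat_lit 76) (nat_lit 5459968217327) (nat_lit 10) (nat_lit 5) (nat_lit 12) (nat_lit 5) (nat_lit 11) (nat_lit 5) (nat_lit 257) (nat_lit 245) (nat_lit 98)) (XT.lf (nat_lit 0) (nat_lit 1224030108329) (nat_lit 228) (nat_lit 4215041108039) (nat_lit 76) (nat_lit 1238280558578) (nat_lit 8) (nat_lit 5) (nat_lit 11) (nat_lit 5) (nat_lit 9) (nat_lit 4) (nat_lit 258) (nat_lit 245) (nat_lit 97))))) (XT.nd (nat_lit 312) (nat_lit 228) (nat_lit 0) (XT.nd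 (nat_lit 156) (nat_lit 0) (nat_lit 0) (XT.nd (nat_lit 78) (nat_lit 76) (nat_lit 0) (XT.lf (nat_lit 0) (nat_lit 2406287163741) (nat_lit 228) (nat_lit 1673188439832) (nat_lit 76) (nat_lit 3305801006292) (nat_lit 8) (nat_lit 5) (nat_lit 11) (nat_lit 5) (nat_lit 9) (nat_lit 4) (nat_lit 259) (nat_lit 245) (nat_lit 96)) (XT.lf (nat_lit 0) (nat_lit 1372095563031) (nat_lit 76) (nat_lit 2450602765208) (nat_lit 152) (nat_lit 4368169509168) (nat_lit 7) (nat_lit 5) (nat_lit 8) (nat_lit 5) (nat_lit 9) (nat_lit 4) (nat_lit 260) (nat_lit 245) (nat_lit 95))) (XT.nd (nat_lit 78) (nat_lit 0) (nat_lit 0) (XT.lf (nat_lit 0) (nat_lit 5062215729997) (nat_lit 76) (nat_lit 476817559947) (nat_lit 152) (nat_lit 3565145140758) (nat_lit 7) (nat_lit 5) (nat_lit 8) (nat_lit 5) (nat_lit 9) (nat_lit 4) (nat_lit 261) (nat_lit 245) (nat_lit 94)) (XT.lf (nat_lit 0) (nat_lit 7587064268836) (nat_lit 152) (nat_lit 922877465031)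 (nat_lit 0) (nat_lit 1633407013188) (nat_lit 7) (nat_lit 5) (nat_lit 9) (nat_lit 4) (nat_lit 7) (nat_lit 4) (nat_lit 262) (nat_lit 245) (nat_lit 93)))) (XT.nd (nat_lit 156) (nat_lit 76) (nat_lit 0) (XT.nd (nat_lit 78) (nat_lit 76) (nat_lit 0) (XT.lf (nat_lit 0) (nat_lit 2899498350836) (nat_lit 76) (nat_lit 7185569184974) (nat_lit 76) (nat_lit 1231911928865) (nat_lit 6) (nat_lit 4) (nat_lit 7) (nat_lit 5) (nat_lit 7) (nat_lit 4) (nat_lit 263) (nat_lit 245) (nat_lit 92)) (XT.lf (nat_lit 0) (nat_lit 315737826197) (nat_lit 152) (nat_lit 5274820930185) (nat_lit 76) (nat_lit 7066707077396) (nat_lit 5) (nat_lit 5) (nat_lit 7) (nat_lit 5) (nat_lit 6) (nat_lit 4) (nat_lit 264) (nat_lit 245) (nat_lit 91))) (XT.nd (nat_lit 78) (nat_lit 76) (nat_lit 0) (XT.lf (nat_lit 0) (nat_lit 1969410727689) (nat_lit 152) (nat_lit 1719424192327) (nat_lit 76) (nat_lit 10500960867357) (nat_lit 5) (nat_lit 5)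 (nat_lit 7) (nat_lit 5) (nat_lit 6) (nat_lit 4) (nat_lit 265) (nat_lit 245) (nat_lit 90)) (XT.lf (nat_lit 0) (nat_lit 2600825529364) (nat_lit 76) (nat_lit 1378003673671) (nat_lit 152) (nat_lit 11957221835178) (nat_lit 4) (nat_lit 5) (nat_lit 5) (nat_lit 5) (nat_lit 6) (nat_lit 4) (nat_lit 266) (nat_lit 245) (nat_lit 89)))))) (XT.nd (nat_lit 624) (nat_lit 532) (nat_lit 0) (XT.nd (nat_lit 312) (nat_lit 152) (nat_lit 0) (XT.nd (nat_lit 156) (nat_lit 304) (nat_lit 0) (XT.nd (nat_lit 78) (nat_lit 0) (nat_lit 0) (XT.lf (nat_lit 0) (nat_lit 634179625391) (nat_lit 0) (nat_lit 634179625391) (nat_lit 228) (nat_lit 210673131) (nat_lit 20) (nat_lit 5) (nat_lit 20) (nat_lit 3) (nat_lit 23) (nat_lit 3) (nat_lit 246) (nat_lit 246) (nat_lit 108)) (XT.lf (nat_lit 0) (nat_lit 2551249699162) (nat_lit 0) (nat_lit 175722698523) (nat_lit 228) (nat_lit 452937370) (nat_lit 20) (nat_lit 5) (nat_lit 20) (nat_lit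 3) (nat_lit 23) (nat_lit 3) (nat_lit 247) (nat_lit 246) (nat_lit 107))) (XT.nd (nat_lit 78) (nat_lit 0) (nat_lit 0) (XT.lf (nat_lit 0) (nat_lit 95752111811) (nat_lit 304) (nat_lit 1800063129936) (nat_lit 380) (nat_lit 1036011769405) (nat_lit 16) (nat_lit 5) (nat_lit 20) (nat_lit 5) (nat_lit 21) (nat_lit 5) (nat_lit 248) (nat_lit 246) (nat_lit 106)) (XT.lf (nat_lit 0) (nat_lit 224357005747) (nat_lit 304) (nat_lit 518641346103) (nat_lit 380) (nat_lit 2421185032628) (nat_lit 16) (nat_lit 5) (nat_lit 20) (nat_lit 5) (nat_lit 21) (nat_lit 5) (nat_lit 249) (nat_lit 246) (nat_lit 105)))) (XT.nd (nat_lit 156) (nat_lit 228) (nat_lit 0) (XT.nd (nat_lit 78) (nat_lit 0) (nat_lit 0) (XT.lf (nat_lit 0) (nat_lit 441858588318) (nat_lit 304) (nat_lit 2402756409794) (nat_lit 76) (nat_lit 576337322519) (nat_lit 17) (nat_lit 5) (nat_lit 21) (nat_lit 5) (nat_lit 18) (nat_lit 5) (nat_lit 250) (nat_lit 246)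 (nat_lit 104)) (XT.lf (nat_lit 0) (nat_lit 755768069079) (nat_lit 304) (nat_lit 904994871704) (nat_lit 76) (nat_lit 2045906257314) (nat_lit 17) (nat_lit 5) (nat_lit 21) (nat_lit 5) (nat_lit 18) (nat_lit 5) (nat_lit 251) (nat_lit 246) (nat_lit 103))) (XT.nd (nat_lit 78) (nat_lit 0) (nat_lit 0) (XT.lf (nat_lit 0) (nat_lit 897316188244) (nat_lit 228) (nat_lit 256603732581) (nat_lit 304) (nat_lit 2875750294034) (nat_lit 14) (nat_lit 5) (nat_lit 17) (nat_lit 5) (nat_lit 18) (nat_lit 5) (nat_lit 252) (nat_lit 246) (nat_lit 102)) (XT.lf (nat_lit 0) (nat_lit 1717593103282) (nat_lit 304) (nat_lit 1380834416461) (nat_lit 76) (nat_lit 1286824081456) (nat_lit 14) (nat_lit 5) (nat_lit 18) (nat_lit 5) (nat_lit 15) (nat_lit 5) (nat_lit 253) (nat_lit 246) (nat_lit 101))))) (XT.nd (nat_lit 312) (nat_lit 304) (nat_lit 0) (XT.nd (nat_lit 156) (nat_lit 76) (nat_lit 0) (XT.nd (nat_lit 78) (nat_lit 0) (nat_lit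 0) (XT.lf (nat_lit 0) (nat_lit 681901495482) (nat_lit 152) (nat_lit 1724371078999) (nat_lit 228) (nat_lit 2381829324309) (nat_lit 12) (nat_lit 5) (nat_lit 14) (nat_lit 5) (nat_lit 15) (nat_lit 5) (nat_lit 254) (nat_lit 246) (nat_lit 100)) (XT.lf (nat_lit 0) (nat_lit 3209234752185) (nat_lit 152) (nat_lit 61199194343) (nat_lit 228) (nat_lit 1970118797472) (nat_lit 12) (nat_lit 5) (nat_lit 14) (nat_lit 5) (nat_lit 15) (nat_lit 5) (nat_lit 255) (nat_lit 246) (nat_lit 99))) (XT.nd (nat_lit 78) (nat_lit 0) (nat_lit 0) (XT.lf (nat_lit 0) (nat_lit 305313353505) (nat_lit 76) (nat_lit 4048213078196) (nat_lit 152) (nat_lit 1393948748196) (nat_lit 11) (nat_lit 5) (nat_lit 12) (nat_lit 5) (nat_lit 13) (nat_lit 4) (nat_lit 256) (nat_lit 246) (nat_lit 98)) (XT.lf (nat_lit 0) (nat_lit 3217532793503) (nat_lit 76) (nat_lit 2490514308536) (nat_lit 152) (nat_lit 606044232287) (nat_lit 11) (nat_lit 5)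 (nat_lit 12) (nat_lit 5) (nat_lit 13) (nat_lit 4) (nat_lit 257) (nat_lit 246) (nat_lit 97)))) (XT.nd (nat_lit 156) (nat_lit 76) (nat_lit 0) (XT.nd (nat_lit 78) (nat_lit 152) (nat_lit 0) (XT.lf (nat_lit 0) (nat_lit 273333794189) (nat_lit 152) (nat_lit 411539026579) (nat_lit 76) (nat_lit 6278963451721) (nat_lit 10) (nat_lit 5) (nat_lit 12) (nat_lit 5) (nat_lit 11) (nat_lit 5) (nat_lit 258) (nat_lit 246) (nat_lit 96)) (XT.lf (nat_lit 0) (nat_lit 1407634629856) (nat_lit 228) (nat_lit 4847297265700) (nat_lit 76) (nat_lit 1424022644813) (nat_lit 8) (nat_lit 5) (nat_lit 11) (nat_lit 5) (nat_lit 9) (nat_lit 4) (nat_lit 259) (nat_lit 246) (nat_lit 95))) (XT.nd (nat_lit 78) (nat_lit 76) (nat_lit 0) (XT.lf (nat_lit 0) (nat_lit 2767230242892) (nat_lit 228) (nat_lit 1924166698376) (nat_lit 76) (nat_lit 3801671159365) (nat_lit 8) (nat_lit 5) (nat_lit 11) (nat_lit 5) (nat_lit 9) (nat_lit 4) (nat_lit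 260) (nat_lit 246) (nat_lit 94)) (XT.lf (nat_lit 0) (nat_lit 1577909904578) (nat_lit 76) (nat_lit 2818193177180) (nat_lit 152) (nat_lit 5023394930596) (nat_lit 7) (nat_lit 5) (nat_lit 8) (nat_lit 5) (nat_lit 9) (nat_lit 4) (nat_lit 261) (nat_lit 246) (nat_lit 93)))))))
noncomputable def xc98 : XT := (XT.nd (nat_lit 31044) (nat_lit 0) (nat_lit 152) (XT.nd (nat_lit 30420) (nat_lit 0) (nat_lit 456) (XT.nd (nat_lit 30108) (nat_lit 0) (nat_lit 836) (XT.nd (nat_lit 156) (nat_lit 152) (nat_lit 0) (XT.nd (nat_lit 78) (nat_lit 0) (nat_lit 0) (XT.lf (nat_lit 0) (nat_lit 5821548095665) (nat_lit 76) (nat_lit 548340191497) (nat_lit 152) (nat_lit 4099916907569) (nat_lit 7) (nat_lit 5) (nat_lit 8) (nat_lit 5) (nat_lit 9) (nat_lit 4) (nat_lit 262) (nat_lit 246) (nat_lit 92)) (XT.lf (nat_lit 0) (nat_lit 8725123912489) (nat_lit 152) (nat_lit 1061309079009) (nat_lit 0) (nat_lit 1878418067101) (nat_lit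 7) (nat_lit 5) (nat_lit 9) (nat_lit 4) (nat_lit 7) (nat_lit 4) (nat_lit 263) (nat_lit 246) (nat_lit 91))) (XT.nd (nat_lit 78) (nat_lit 76) (nat_lit 0) (XT.lf (nat_lit 0) (nat_lit 3334423108976) (nat_lit 76) (nat_lit 8263404560328) (nat_lit 76) (nat_lit 1416698714591) (nat_lit 6) (nat_lit 4) (nat_lit 7) (nat_lit 5) (nat_lit 7) (nat_lit 4) (nat_lit 264) (nat_lit 246) (nat_lit 90)) (XT.lf (nat_lit 0) (nat_lit 363098502982) (nat_lit 152) (nat_lit 6066044064628) (nat_lit 76) (nat_lit 8126713140796) (nat_lit 5) (nat_lit 5) (nat_lit 7) (nat_lit 5) (nat_lit 6) (nat_lit 4) (nat_lit 265) (nat_lit 246) (nat_lit 89)))) (XT.nd (nat_lit 156) (nat_lit 304) (nat_lit 0) (XT.nd (nat_lit 78) (nat_lit 0) (nat_lit 0) (XT.lf (nat_lit 0) (nat_lit 729306573274) (nat_lit 0) (nat_lit 729306573274) (nat_lit 228) (nat_lit 242264647) (nat_lit 20) (nat_lit 5) (nat_lit 20) (nat_lit 3) (nat_lit 23) (nat_lit 3) (nat_lit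 247) (nat_lit 247) (nat_lit 106)) (XT.lf (nat_lit 0) (nat_lit 2933937161122) (nat_lit 0) (nat_lit 202081110387) (nat_lit 228) (nat_lit 520861534) (nat_lit 20) (nat_lit 5) (nat_lit 20) (nat_lit 3) (nat_lit 23) (nat_lit 3) (nat_lit 248) (nat_lit 247) (nat_lit 105))) (XT.nd (nat_lit 78) (nat_lit 0) (nat_lit 0) (XT.lf (nat_lit 0) (nat_lit 110114941739) (nat_lit 304) (nat_lit 2070072588821) (nat_lit 380) (nat_lit 1191413530182) (nat_lit 16) (nat_lit 5) (nat_lit 20) (nat_lit 5) (nat_lit 21) (nat_lit 5) (nat_lit 249) (nat_lit 247) (nat_lit 104)) (XT.lf (nat_lit 0) (nat_lit 258010568050) (nat_lit 304) (nat_lit 596437538795) (nat_lit 380) (nat_lit 2784362783493) (nat_lit 16) (nat_lit 5) (nat_lit 20) (nat_lit 5) (nat_lit 21) (nat_lit 5) (nat_lit 250) (nat_lit 247) (nat_lit 103))))) (XT.nd (nat_lit 312) (nat_lit 228) (nat_lit 0) (XT.nd (nat_lit 156) (nat_lit 228) (nat_lit 0) (XT.nd (nat_lit 78)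 (nat_lit 0) (nat_lit 0) (XT.lf (nat_lit 0) (nat_lit 508137386817) (nat_lit 304) (nat_lit 2763169860767) (nat_lit 76) (nat_lit 662787919522) (nat_lit 17) (nat_lit 5) (nat_lit 21) (nat_lit 5) (nat_lit 18) (nat_lit 5) (nat_lit 251) (nat_lit 247) (nat_lit 102)) (XT.lf (nat_lit 0) (nat_lit 869133288354) (nat_lit 304) (nat_lit 1040744093333) (nat_lit 76) (nat_lit 2352792194715) (nat_lit 17) (nat_lit 5) (nat_lit 21) (nat_lit 5) (nat_lit 18) (nat_lit 5) (nat_lit 252) (nat_lit 247) (nat_lit 101))) (XT.nd (nat_lit 78) (nat_lit 0) (nat_lit 0) (XT.lf (nat_lit 0) (nat_lit 1031913625193) (nat_lit 228) (nat_lit 295094291867) (nat_lit 304) (nat_lit 3307112828748) (nat_lit 14) (nat_lit 5) (nat_lit 17) (nat_lit 5) (nat_lit 18) (nat_lit 5) (nat_lit 253) (nat_lit 247) (nat_lit 100)) (XT.lf (nat_lit 0) (nat_lit 1975232075849) (nat_lit 304) (nat_lit 1587959570264) (nat_lit 76) (nat_lit 1479847694150) (nat_lit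 14) (nat_lit 5) (nat_lit 18) (nat_lit 5) (nat_lit 15) (nat_lit 5) (nat_lit 254) (nat_lit 247) (nat_lit 99)))) (XT.nd (nat_lit 156) (nat_lit 76) (nat_lit 0) (XT.nd (nat_lit 78) (nat_lit 0) (nat_lit 0) (XT.lf (nat_lit 0) (nat_lit 784186728077) (nat_lit 152) (nat_lit 1983026739071) (nat_lit 228) (nat_lit 2739103715439) (nat_lit 12) (nat_lit 5) (nat_lit 14) (nat_lit 5) (nat_lit 15) (nat_lit 5) (nat_lit 255) (nat_lit 247) (nat_lit 98)) (XT.lf (nat_lit 0) (nat_lit 3690619972206) (nat_lit 152) (nat_lit 70379071948) (nat_lit 228) (nat_lit 2265636610557) (nat_lit 12) (nat_lit 5) (nat_lit 14) (nat_lit 5) (nat_lit 15) (nat_lit 5) (nat_lit 256) (nat_lit 247) (nat_lit 97))) (XT.nd (nat_lit 78) (nat_lit 0) (nat_lit 0) (XT.lf (nat_lit 0) (nat_lit 351110364185) (nat_lit 76) (nat_lit 4655445037555) (nat_lit 152) (nat_lit 1603041054314) (nat_lit 11) (nat_lit 5) (nat_lit 12) (nat_lit 5) (nat_lit 13)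 (nat_lit 4) (nat_lit 257) (nat_lit 247) (nat_lit 96)) (XT.lf (nat_lit 0) (nat_lit 3700162719183) (nat_lit 76) (nat_lit 2864091452755) (nat_lit 152) (nat_lit 696950861815) (nat_lit 11) (nat_lit 5) (nat_lit 12) (nat_lit 5) (nat_lit 13) (nat_lit 4) (nat_lit 258) (nat_lit 247) (nat_lit 95)))))) (XT.nd (nat_lit 30576) (nat_lit 0) (nat_lit 304) (XT.nd (nat_lit 312) (nat_lit 0) (nat_lit 0) (XT.nd (nat_lit 156) (nat_lit 76) (nat_lit 0) (XT.nd (nat_lit 78) (nat_lit 152) (nat_lit 0) (XT.lf (nat_lit 0) (nat_lit 314333867528) (nat_lit 152) (nat_lit 473269874343) (nat_lit 76) (nat_lit 7220807970836) (nat_lit 10) (nat_lit 5) (nat_lit 12) (nat_lit 5) (nat_lit 11) (nat_lit 5) (nat_lit 259) (nat_lit 247) (nat_lit 94)) (XT.lf (nat_lit 0) (nat_lit 1618779828326) (nat_lit 228) (nat_lit 5574391849093) (nat_lit 76) (nat_lit 1637626043387) (nat_lit 8) (nat_lit 5) (nat_lit 11) (nat_lit 5) (nat_lit 9) (nat_lit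 4) (nat_lit 260) (nat_lit 247) (nat_lit 93))) (XT.nd (nat_lit 78) (nat_lit 76) (nat_lit 0) (XT.lf (nat_lit 0) (nat_lit 3182314782796) (nat_lit 228) (nat_lit 2212791697513) (nat_lit 76) (nat_lit 4371921834880) (nat_lit 8) (nat_lit 5) (nat_lit 11) (nat_lit 5) (nat_lit 9) (nat_lit 4) (nat_lit 261) (nat_lit 247) (nat_lit 92)) (XT.lf (nat_lit 0) (nat_lit 1814596395629) (nat_lit 76) (nat_lit 3240922151634) (nat_lit 152) (nat_lit 5776904166444) (nat_lit 7) (nat_lit 5) (nat_lit 8) (nat_lit 5) (nat_lit 9) (nat_lit 4) (nat_lit 262) (nat_lit 247) (nat_lit 91)))) (XT.nd (nat_lit 30108) (nat_lit 0) (nat_lit 988) (XT.nd (nat_lit 78) (nat_lit 0) (nat_lit 0) (XT.lf (nat_lit 0) (nat_lit 6694780314678) (nat_lit 76) (nat_lit 630591218375) (nat_lit 152) (nat_lit 4714904440451) (nat_lit 7) (nat_lit 5) (nat_lit 8) (nat_lit 5) (nat_lit 9) (nat_lit 4) (nat_lit 263) (nat_lit 247) (nat_lit 90)) (XT.lf (nat_lit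 0) (nat_lit 10033892501879) (nat_lit 152) (nat_lit 1220505436493) (nat_lit 0) (nat_lit 2160180778628) (nat_lit 7) (nat_lit 5) (nat_lit 9) (nat_lit 4) (nat_lit 7) (nat_lit 4) (nat_lit 264) (nat_lit 247) (nat_lit 89))) (XT.nd (nat_lit 78) (nat_lit 0) (nat_lit 0) (XT.lf (nat_lit 0) (nat_lit 838702562346) (nat_lit 0) (nat_lit 838702562346) (nat_lit 228) (nat_lit 278597195) (nat_lit 20) (nat_lit 5) (nat_lit 20) (nat_lit 3) (nat_lit 23) (nat_lit 3) (nat_lit 248) (nat_lit 248) (nat_lit 104)) (XT.lf (nat_lit 0) (nat_lit 3374027740648) (nat_lit 0) (nat_lit 232393282302) (nat_lit 228) (nat_lit 598978332) (nat_lit 20) (nat_lit 5) (nat_lit 20) (nat_lit 3) (nat_lit 23) (nat_lit 3) (nat_lit 249) (nat_lit 248) (nat_lit 103))))) (XT.nd (nat_lit 312) (nat_lit 380) (nat_lit 0) (XT.nd (nat_lit 156) (nat_lit 0) (nat_lit 76) (XT.nd (nat_lit 78) (nat_lit 0) (nat_lit 0) (XT.lf (nat_lit 0) (nat_lit 126632192948)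 (nat_lit 304) (nat_lit 2380583469124) (nat_lit 380) (nat_lit 1370125556206) (nat_lit 16) (nat_lit 5) (nat_lit 20) (nat_lit 5) (nat_lit 21) (nat_lit 5) (nat_lit 250) (nat_lit 248) (nat_lit 102)) (XT.lf (nat_lit 0) (nat_lit 296712161908) (nat_lit 304) (nat_lit 685903162641) (nat_lit 380) (nat_lit 3202017197971) (nat_lit 16) (nat_lit 5) (nat_lit 20) (nat_lit 5) (nat_lit 21) (nat_lit 5) (nat_lit 251) (nat_lit 248) (nat_lit 101))) (XT.nd (nat_lit 78) (nat_lit 0) (nat_lit 0) (XT.lf (nat_lit 0) (nat_lit 584358002590) (nat_lit 304) (nat_lit 3177645331946) (nat_lit 76) (nat_lit 762206106411) (nat_lit 17) (nat_lit 5) (nat_lit 21) (nat_lit 5) (nat_lit 18) (nat_lit 5) (nat_lit 252) (nat_lit 248) (nat_lit 100)) (XT.lf (nat_lit 0) (nat_lit 999503288347) (nat_lit 304) (nat_lit 1196855700432) (nat_lit 76) (nat_lit 2705711023018) (nat_lit 17) (nat_lit 5) (nat_lit 21) (nat_lit 5) (nat_lit 18) (nat_lit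 5) (nat_lit 253) (nat_lit 248) (nat_lit 99)))) (XT.nd (nat_lit 156) (nat_lit 228) (nat_lit 0) (XT.nd (nat_lit 78) (nat_lit 0) (nat_lit 0) (XT.lf (nat_lit 0) (nat_lit 1186700675559) (nat_lit 228) (nat_lit 339358435193) (nat_lit 304) (nat_lit 3803179745959) (nat_lit 14) (nat_lit 5) (nat_lit 17) (nat_lit 5) (nat_lit 18) (nat_lit 5) (nat_lit 254) (nat_lit 248) (nat_lit 98)) (XT.lf (nat_lit 0) (nat_lit 2271516892576) (nat_lit 304) (nat_lit 1826153499251) (nat_lit 76) (nat_lit 1701824848632) (nat_lit 14) (nat_lit 5) (nat_lit 18) (nat_lit 5) (nat_lit 15) (nat_lit 5) (nat_lit 255) (nat_lit 248) (nat_lit 97))) (XT.nd (nat_lit 78) (nat_lit 76) (nat_lit 0) (XT.lf (nat_lit 0) (nat_lit 901814743544) (nat_lit 152) (nat_lit 2280480748588) (nat_lit 228) (nat_lit 3149969267072) (nat_lit 12) (nat_lit 5) (nat_lit 14) (nat_lit 5) (nat_lit 15) (nat_lit 5) (nat_lit 256) (nat_lit 248) (nat_lit 96)) (XT.nd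 (nat_lit 78) (nat_lit 76) (nat_lit 0) (XT.lf (nat_lit 0) (nat_lit 4244212973476) (nat_lit 152) (nat_lit 80935931572) (nat_lit 228) (nat_lit 2605482097199) (nat_lit 12) (nat_lit 5) (nat_lit 14) (nat_lit 5) (nat_lit 15) (nat_lit 5) (nat_lit 257) (nat_lit 248) (nat_lit 95)) (XT.lf (nat_lit 0) (nat_lit 403776924600) (nat_lit 76) (nat_lit 5353761791397) (nat_lit 152) (nat_lit 1843497207839) (nat_lit 11) (nat_lit 5) (nat_lit 12) (nat_lit 5) (nat_lit 13) (nat_lit 4) (nat_lit 258) (nat_lit 248) (nat_lit 94))))))))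
noncomputable def xc99 : XT := (XT.nd (nat_lit 31356) (nat_lit 0) (nat_lit 76) (XT.nd (nat_lit 30732) (nat_lit 0) (nat_lit 304) (XT.nd (nat_lit 312) (nat_lit 76) (nat_lit 0) (XT.nd (nat_lit 156) (nat_lit 152) (nat_lit 0) (XT.nd (nat_lit 78) (nat_lit 76) (nat_lit 0) (XT.lf (nat_lit 0) (nat_lit 4255187132093) (nat_lit 76) (nat_lit 3293705169111) (nat_lit 152) (nat_lit 801493487069) (nat_lit 11) (nat_lit 5) (nat_lit 12) (nat_lit 5) (nat_lit 13) (nat_lit 4) (nat_lit 259) (nat_lit 248) (nat_lit 93)) (XT.lf (nat_lit 0) (nat_lit 361483950840) (nat_lit 152) (nat_lit 544260350790) (nat_lit 76) (nat_lit 8303929167487) (nat_lit 10) (nat_lit 5) (nat_lit 12) (nat_lit 5) (nat_lit 11) (nat_lit 5) (nat_lit 260) (nat_lit 248) (nat_lit 92))) (XT.nd (nat_lit 78) (nat_lit 0) (nat_lit 0) (XT.lf (nat_lit 0) (nat_lit 1861596805593) (nat_lit 228) (nat_lit 6410550621572) (nat_lit 76) (nat_lit 1883269951295)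 (nat_lit 8) (nat_lit 5) (nat_lit 11) (nat_lit 5) (nat_lit 9) (nat_lit 4) (nat_lit 261) (nat_lit 248) (nat_lit 91)) (XT.lf (nat_lit 0) (nat_lit 3659662002840) (nat_lit 228) (nat_lit 2544710447892) (nat_lit 76) (nat_lit 5027710111329) (nat_lit 8) (nat_lit 5) (nat_lit 11) (nat_lit 5) (nat_lit 9) (nat_lit 4) (nat_lit 262) (nat_lit 248) (nat_lit 90)))) (XT.nd (nat_lit 30264) (nat_lit 0) (nat_lit 684) (XT.nd (nat_lit 30186) (nat_lit 0) (nat_lit 988) (XT.lf (nat_lit 0) (nat_lit 2086785859028) (nat_lit 76) (nat_lit 3727060472774) (nat_lit 152) (nat_lit 6643439788582) (nat_lit 7) (nat_lit 5) (nat_lit 8) (nat_lit 5) (nat_lit 9) (nat_lit 4) (nat_lit 263) (nat_lit 248) (nat_lit 89)) (XT.lf (nat_lit 0) (nat_lit 964507949028) (nat_lit 0) (nat_lit 964507949028) (nat_lit 228) (nat_lit 320381369) (nat_lit 20) (nat_lit 5) (nat_lit 20) (nat_lit 3) (nat_lit 23) (nat_lit 3) (nat_lit 249) (nat_lit 249)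 (nat_lit 102))) (XT.nd (nat_lit 78) (nat_lit 304) (nat_lit 0) (XT.lf (nat_lit 0) (nat_lit 3880131905797) (nat_lit 0) (nat_lit 267252278699) (nat_lit 228) (nat_lit 688815681) (nat_lit 20) (nat_lit 5) (nat_lit 20) (nat_lit 3) (nat_lit 23) (nat_lit 3) (nat_lit 250) (nat_lit 249) (nat_lit 101)) (XT.lf (nat_lit 0) (nat_lit 145627029412) (nat_lit 304) (nat_lit 2737670983429) (nat_lit 380) (nat_lit 1575644386988) (nat_lit 16) (nat_lit 5) (nat_lit 20) (nat_lit 5) (nat_lit 21) (nat_lit 5) (nat_lit 251) (nat_lit 249) (nat_lit 100))))) (XT.nd (nat_lit 312) (nat_lit 228) (nat_lit 0) (XT.nd (nat_lit 156) (nat_lit 152) (nat_lit 0) (XT.nd (nat_lit 78) (nat_lit 0) (nat_lit 76) (XT.lf (nat_lit 0) (nat_lit 341218992736) (nat_lit 304) (nat_lit 788788631764) (nat_lit 380) (nat_lit 3682319775363) (nat_lit 16) (nat_lit 5) (nat_lit 20) (nat_lit 5) (nat_lit 21) (nat_lit 5) (nat_lit 252) (nat_lit 249) (nat_lit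 99)) (XT.lf (nat_lit 0) (nat_lit 672011708839) (nat_lit 304) (nat_lit 3654292125737) (nat_lit 76) (nat_lit 876537021587) (nat_lit 17) (nat_lit 5) (nat_lit 21) (nat_lit 5) (nat_lit 18) (nat_lit 5) (nat_lit 253) (nat_lit 249) (nat_lit 98))) (XT.nd (nat_lit 78) (nat_lit 228) (nat_lit 0) (XT.lf (nat_lit 0) (nat_lit 1149428786695) (nat_lit 304) (nat_lit 1376384050279) (nat_lit 76) (nat_lit 3111567675788) (nat_lit 17) (nat_lit 5) (nat_lit 21) (nat_lit 5) (nat_lit 18) (nat_lit 5) (nat_lit 254) (nat_lit 249) (nat_lit 97)) (XT.lf (nat_lit 0) (nat_lit 1364705781874) (nat_lit 228) (nat_lit 390262200129) (nat_lit 304) (nat_lit 4373656702484) (nat_lit 14) (nat_lit 5) (nat_lit 17) (nat_lit 5) (nat_lit 18) (nat_lit 5) (nat_lit 255) (nat_lit 249) (nat_lit 96)))) (XT.nd (nat_lit 156) (nat_lit 76) (nat_lit 0) (XT.nd (nat_lit 78) (nat_lit 152) (nat_lit 0) (XT.lf (nat_lit 0) (nat_lit 2612244430508) (nat_lit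 304) (nat_lit 2100076519183) (nat_lit 76) (nat_lit 1957098576199) (nat_lit 14) (nat_lit 5) (nat_lit 18) (nat_lit 5) (nat_lit 15) (nat_lit 5) (nat_lit 256) (nat_lit 249) (nat_lit 95)) (XT.lf (nat_lit 0) (nat_lit 1037086959805) (nat_lit 152) (nat_lit 2622552859859) (nat_lit 228) (nat_lit 3622464652835) (nat_lit 12) (nat_lit 5) (nat_lit 14) (nat_lit 5) (nat_lit 15) (nat_lit 5) (nat_lit 257) (nat_lit 249) (nat_lit 94))) (XT.nd (nat_lit 78) (nat_lit 76) (nat_lit 0) (XT.lf (nat_lit 0) (nat_lit 4880844923610) (nat_lit 152) (nat_lit 93076320424) (nat_lit 228) (nat_lit 2996304408042) (nat_lit 12) (nat_lit 5) (nat_lit 14) (nat_lit 5) (nat_lit 15) (nat_lit 5) (nat_lit 258) (nat_lit 249) (nat_lit 93)) (XT.lf (nat_lit 0) (nat_lit 464343467665) (nat_lit 76) (nat_lit 6156826058751) (nat_lit 152) (nat_lit 2120021785521) (nat_lit 11) (nat_lit 5) (nat_lit 12) (nat_lit 5) (nat_lit 13) (nat_lit 4) (nat_lit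 259) (nat_lit 249) (nat_lit 92)))))) (XT.nd (nat_lit 30888) (nat_lit 0) (nat_lit 228) (XT.nd (nat_lit 30576) (nat_lit 0) (nat_lit 608) (XT.nd (nat_lit 156) (nat_lit 152) (nat_lit 0) (XT.nd (nat_lit 78) (nat_lit 76) (nat_lit 0) (XT.lf (nat_lit 0) (nat_lit 4893465205712) (nat_lit 76) (nat_lit 3787760943299) (nat_lit 152) (nat_lit 921717507091) (nat_lit 11) (nat_lit 5) (nat_lit 12) (nat_lit 5) (nat_lit 13) (nat_lit 4) (nat_lit 260) (nat_lit 249) (nat_lit 91)) (XT.lf (nat_lit 0) (nat_lit 415706545874) (nat_lit 152) (nat_lit 625899399852) (nat_lit 76) (nat_lit 9549518543386) (nat_lit 10) (nat_lit 5) (nat_lit 12) (nat_lit 5) (nat_lit 11) (nat_lit 5) (nat_lit 261) (nat_lit 249) (nat_lit 90))) (XT.nd (nat_lit 30342) (nat_lit 0) (nat_lit 912) (XT.lf (nat_lit 0) (nat_lit 2140836328713) (nat_lit 228) (nat_lit 7372133211113) (nat_lit 76) (nat_lit 2165760445048) (nat_lit 8) (nat_lit 5) (nat_lit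 11) (nat_lit 5) (nat_lit 9) (nat_lit 4) (nat_lit 262) (nat_lit 249) (nat_lit 89)) (XT.lf (nat_lit 0) (nat_lit 1109184143143) (nat_lit 0) (nat_lit 1109184143143) (nat_lit 228) (nat_lit 368434488) (nat_lit 20) (nat_lit 5) (nat_lit 20) (nat_lit 3) (nat_lit 23) (nat_lit 3) (nat_lit 250) (nat_lit 250) (nat_lit 100)))) (XT.nd (nat_lit 156) (nat_lit 0) (nat_lit 0) (XT.nd (nat_lit 78) (nat_lit 304) (nat_lit 0) (XT.lf (nat_lit 0) (nat_lit 4462151694730) (nat_lit 0) (nat_lit 307340123567) (nat_lit 228) (nat_lit 792130925) (nat_lit 20) (nat_lit 5) (nat_lit 20) (nat_lit 3) (nat_lit 23) (nat_lit 3) (nat_lit 251) (nat_lit 250) (nat_lit 99)) (XT.lf (nat_lit 0) (nat_lit 167471089512) (nat_lit 304) (nat_lit 3148321626358) (nat_lit 380) (nat_lit 1811991043033) (nat_lit 16) (nat_lit 5) (nat_lit 20) (nat_lit 5) (nat_lit 21) (nat_lit 5) (nat_lit 252) (nat_lit 250) (nat_lit 98))) (XT.nd (nat_lit 78) (nat_lit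 0) (nat_lit 76) (XT.lf (nat_lit 0) (nat_lit 392401846592) (nat_lit 304) (nat_lit 907106922541) (nat_lit 380) (nat_lit 4234667739926) (nat_lit 16) (nat_lit 5) (nat_lit 20) (nat_lit 5) (nat_lit 21) (nat_lit 5) (nat_lit 253) (nat_lit 250) (nat_lit 97)) (XT.lf (nat_lit 0) (nat_lit 772813469596) (nat_lit 304) (nat_lit 4202435940060) (nat_lit 76) (nat_lit 1008017574231) (nat_lit 17) (nat_lit 5) (nat_lit 21) (nat_lit 5) (nat_lit 18) (nat_lit 5) (nat_lit 254) (nat_lit 250) (nat_lit 96))))) (XT.nd (nat_lit 312) (nat_lit 76) (nat_lit 0) (XT.nd (nat_lit 156) (nat_lit 152) (nat_lit 0) (XT.nd (nat_lit 78) (nat_lit 228) (nat_lit 0) (XT.lf (nat_lit 0) (nat_lit 1321843108553) (nat_lit 304) (nat_lit 1582841653875) (nat_lit 76) (nat_lit 3578302826639) (nat_lit 17) (nat_lit 5) (nat_lit 21) (nat_lit 5) (nat_lit 18) (nat_lit 5) (nat_lit 255) (nat_lit 250) (nat_lit 95)) (XT.lf (nat_lit 0) (nat_lit 1569411652922)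 (nat_lit 228) (nat_lit 448801529889) (nat_lit 304) (nat_lit 5029705203797) (nat_lit 14) (nat_lit 5) (nat_lit 17) (nat_lit 5) (nat_lit 18) (nat_lit 5) (nat_lit 256) (nat_lit 250) (nat_lit 94))) (XT.nd (nat_lit 78) (nat_lit 152) (nat_lit 0) (XT.lf (nat_lit 0) (nat_lit 3004081098143) (nat_lit 304) (nat_lit 2415087993314) (nat_lit 76) (nat_lit 2250663362835) (nat_lit 14) (nat_lit 5) (nat_lit 18) (nat_lit 5) (nat_lit 15) (nat_lit 5) (nat_lit 257) (nat_lit 250) (nat_lit 93)) (XT.lf (nat_lit 0) (nat_lit 1192650007353) (nat_lit 152) (nat_lit 3015935788070) (nat_lit 228) (nat_lit 4165834347511) (nat_lit 12) (nat_lit 5) (nat_lit 14) (nat_lit 5) (nat_lit 15) (nat_lit 5) (nat_lit 258) (nat_lit 250) (nat_lit 92)))) (XT.nd (nat_lit 156) (nat_lit 0) (nat_lit 0) (XT.nd (nat_lit 78) (nat_lit 76) (nat_lit 0) (XT.lf (nat_lit 0) (nat_lit 5612971665262) (nat_lit 152) (nat_lit 107037767819) (nat_lit 228)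 (nat_lit 3445750066422) (nat_lit 12) (nat_lit 5) (nat_lit 14) (nat_lit 5) (nat_lit 15) (nat_lit 5) (nat_lit 259) (nat_lit 250) (nat_lit 91)) (XT.lf (nat_lit 0) (nat_lit 533994991124) (nat_lit 76) (nat_lit 7080349966540) (nat_lit 152) (nat_lit 2438025050707) (nat_lit 11) (nat_lit 5) (nat_lit 12) (nat_lit 5) (nat_lit 13) (nat_lit 4) (nat_lit 260) (nat_lit 250) (nat_lit 90))) (XT.nd (nat_lit 30498) (nat_lit 0) (nat_lit 684) (XT.lf (nat_lit 0) (nat_lit 5627484989446) (nat_lit 76) (nat_lit 4355925083903) (nat_lit 152) (nat_lit 1059975130857) (nat_lit 11) (nat_lit 5) (nat_lit 12) (nat_lit 5) (nat_lit 13) (nat_lit 4) (nat_lit 261) (nat_lit 250) (nat_lit 89)) (XT.lf (nat_lit 0) (nat_lit 1275561765947) (nat_lit 0) (nat_lit 1275561765947) (nat_lit 228) (nat_lit 423696570) (nat_lit 20) (nat_lit 5) (nat_lit 20) (nat_lit 3) (nat_lit 23) (nat_lit 3) (nat_lit 251) (nat_lit 251) (nat_lit 98)))))))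
noncomputable def xc100 : XT := (XT.nd (nat_lit 62790) (nat_lit 0) (nat_lit 0) (XT.nd (nat_lit 31356) (nat_lit 0) (nat_lit 0) (XT.nd (nat_lit 312) (nat_lit 152) (nat_lit 0) (XT.nd (nat_lit 156) (nat_lit 0) (nat_lit 0) (XT.nd (nat_lit 78) (nat_lit 304) (nat_lit 0) (XT.lf (nat_lit 0) (nat_lit 5131474451255) (nat_lit 0) (nat_lit 353441144419) (nat_lit 228) (nat_lit 910945189) (nat_lit 20) (nat_lit 5) (nat_lit 20) (nat_lit 3) (nat_lit 23) (nat_lit 3) (nat_lit 252) (nat_lit 251) (nat_lit 97)) (XT.lf (nat_lit 0) (nat_lit 192591757240) (nat_lit 304) (nat_lit 3620569866845) (nat_lit 380) (nat_lit 2083789697974) (nat_lit 16) (nat_lit 5) (nat_lit 20) (nat_lit 5) (nat_lit 21) (nat_lit 5) (nat_lit 253) (nat_lit 251) (nat_lit 96))) (XT.nd (nat_lit 78) (nat_lit 0) (nat_lit 76) (XT.lf (nat_lit 0) (nat_lit 451262127321) (nat_lit 304) (nat_lit 1043172957908) (nat_lit 380) (nat_lit 4869867899597) (nat_lit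 16) (nat_lit 5) (nat_lit 20) (nat_lit 5) (nat_lit 21) (nat_lit 5) (nat_lit 254) (nat_lit 251) (nat_lit 95)) (XT.lf (nat_lit 0) (nat_lit 888735493387) (nat_lit 304) (nat_lit 4832801327638) (nat_lit 76) (nat_lit 1159220209916) (nat_lit 17) (nat_lit 5) (nat_lit 21) (nat_lit 5) (nat_lit 18) (nat_lit 5) (nat_lit 255) (nat_lit 251) (nat_lit 94)))) (XT.nd (nat_lit 156) (nat_lit 0) (nat_lit 0) (XT.nd (nat_lit 78) (nat_lit 228) (nat_lit 0) (XT.lf (nat_lit 0) (nat_lit 1520119577750) (nat_lit 304) (nat_lit 1820267898973) (nat_lit 76) (nat_lit 4115048250244) (nat_lit 17) (nat_lit 5) (nat_lit 21) (nat_lit 5) (nat_lit 18) (nat_lit 5) (nat_lit 256) (nat_lit 251) (nat_lit 93)) (XT.lf (nat_lit 0) (nat_lit 1804823403708) (nat_lit 228) (nat_lit 516121759176) (nat_lit 304) (nat_lit 5784160981297) (nat_lit 14) (nat_lit 5) (nat_lit 17) (nat_lit 5) (nat_lit 18) (nat_lit 5) (nat_lit 257) (nat_lit 251) (nat_lit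 92))) (XT.nd (nat_lit 30810) (nat_lit 0) (nat_lit 456) (XT.lf (nat_lit 0) (nat_lit 3454693265177) (nat_lit 304) (nat_lit 2777351189478) (nat_lit 76) (nat_lit 2588262867416) (nat_lit 14) (nat_lit 5) (nat_lit 18) (nat_lit 5) (nat_lit 15) (nat_lit 5) (nat_lit 258) (nat_lit 251) (nat_lit 91)) (XT.lf (nat_lit 0) (nat_lit 1466896031846) (nat_lit 0) (nat_lit 1466896031846) (nat_lit 228) (nat_lit 487248719) (nat_lit 20) (nat_lit 5) (nat_lit 20) (nat_lit 3) (nat_lit 23) (nat_lit 3) (nat_lit 252) (nat_lit 252) (nat_lit 96))))) (XT.nd (nat_lit 312) (nat_lit 152) (nat_lit 0) (XT.nd (nat_lit 156) (nat_lit 0) (nat_lit 0) (XT.nd (nat_lit 78) (nat_lit 304) (nat_lit 0) (XT.lf (nat_lit 0) (nat_lit 5901195620695) (nat_lit 0) (nat_lit 406457317833) (nat_lit 228) (nat_lit 1047582903) (nat_lit 20) (nat_lit 5) (nat_lit 20) (nat_lit 3) (nat_lit 23) (nat_lit 3) (nat_lit 253) (nat_lit 252) (nat_lit 95)) (XT.lf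 (nat_lit 0) (nat_lit 221480524078) (nat_lit 304) (nat_lit 4163655344250) (nat_lit 380) (nat_lit 2396358151524) (nat_lit 16) (nat_lit 5) (nat_lit 20) (nat_lit 5) (nat_lit 21) (nat_lit 5) (nat_lit 254) (nat_lit 252) (nat_lit 94))) (XT.nd (nat_lit 78) (nat_lit 0) (nat_lit 76) (XT.lf (nat_lit 0) (nat_lit 518951449247) (nat_lit 304) (nat_lit 1199648899314) (nat_lit 380) (nat_lit 5600348083541) (nat_lit 16) (nat_lit 5) (nat_lit 20) (nat_lit 5) (nat_lit 21) (nat_lit 5) (nat_lit 255) (nat_lit 252) (nat_lit 93)) (XT.lf (nat_lit 0) (nat_lit 1022045819929) (nat_lit 304) (nat_lit 5557721524190) (nat_lit 76) (nat_lit 1333103241064) (nat_lit 17) (nat_lit 5) (nat_lit 21) (nat_lit 5) (nat_lit 18) (nat_lit 5) (nat_lit 256) (nat_lit 252) (nat_lit 92)))) (XT.nd (nat_lit 30966) (nat_lit 0) (nat_lit 456) (XT.nd (nat_lit 78) (nat_lit 228) (nat_lit 0) (XT.lf (nat_lit 0) (nat_lit 1748137516616) (nat_lit 304)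 (nat_lit 2093308081563) (nat_lit 76) (nat_lit 4732305487485) (nat_lit 17) (nat_lit 5) (nat_lit 21) (nat_lit 5) (nat_lit 18) (nat_lit 5) (nat_lit 257) (nat_lit 252) (nat_lit 91)) (XT.lf (nat_lit 0) (nat_lit 2075546916418) (nat_lit 228) (nat_lit 593540022904) (nat_lit 304) (nat_lit 6651785126170) (nat_lit 14) (nat_lit 5) (nat_lit 17) (nat_lit 5) (nat_lit 18) (nat_lit 5) (nat_lit 258) (nat_lit 252) (nat_lit 90))) (XT.nd (nat_lit 78) (nat_lit 0) (nat_lit 0) (XT.lf (nat_lit 0) (nat_lit 1686930437385) (nat_lit 0) (nat_lit 1686930437385) (nat_lit 228) (nat_lit 560334260) (nat_lit 20) (nat_lit 5) (nat_lit 20) (nat_lit 3) (nat_lit 23) (nat_lit 3) (nat_lit 253) (nat_lit 253) (nat_lit 94)) (XT.lf (nat_lit 0) (nat_lit 6786374965124) (nat_lit 0) (nat_lit 467425916832) (nat_lit 228) (nat_lit 1204717266) (nat_lit 20) (nat_lit 5) (nat_lit 20) (nat_lit 3) (nat_lit 23) (nat_lit 3) (nat_lit 254) (nat_lit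 253) (nat_lit 93)))))) (XT.nd (nat_lit 31434) (nat_lit 0) (nat_lit 152) (XT.nd (nat_lit 312) (nat_lit 152) (nat_lit 0) (XT.nd (nat_lit 156) (nat_lit 0) (nat_lit 76) (XT.nd (nat_lit 78) (nat_lit 0) (nat_lit 0) (XT.lf (nat_lit 0) (nat_lit 254702605149) (nat_lit 304) (nat_lit 4788203643905) (nat_lit 380) (nat_lit 2755811873387) (nat_lit 16) (nat_lit 5) (nat_lit 20) (nat_lit 5) (nat_lit 21) (nat_lit 5) (nat_lit 255) (nat_lit 253) (nat_lit 92)) (XT.lf (nat_lit 0) (nat_lit 596794168773) (nat_lit 304) (nat_lit 1379596232488) (nat_lit 380) (nat_lit 6440400295319) (nat_lit 16) (nat_lit 5) (nat_lit 20) (nat_lit 5) (nat_lit 21) (nat_lit 5) (nat_lit 256) (nat_lit 253) (nat_lit 91))) (XT.nd (nat_lit 78) (nat_lit 0) (nat_lit 0) (XT.lf (nat_lit 0) (nat_lit 1175352694834) (nat_lit 304) (nat_lit 6391379750856) (nat_lit 76) (nat_lit 1533068726966) (nat_lit 17) (nat_lit 5) (nat_lit 21) (nat_lit 5) (nat_lit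 18) (nat_lit 5) (nat_lit 257) (nat_lit 253) (nat_lit 90)) (XT.lf (nat_lit 0) (nat_lit 2010358145774) (nat_lit 304) (nat_lit 2407304292091) (nat_lit 76) (nat_lit 5442151310385) (nat_lit 17) (nat_lit 5) (nat_lit 21) (nat_lit 5) (nat_lit 18) (nat_lit 5) (nat_lit 258) (nat_lit 253) (nat_lit 89)))) (XT.nd (nat_lit 30966) (nat_lit 0) (nat_lit 152) (XT.nd (nat_lit 30888) (nat_lit 0) (nat_lit 456) (XT.lf (nat_lit 0) (nat_lit 2386878955509) (nat_lit 228) (nat_lit 682571026228) (nat_lit 304) (nat_lit 7649552893341) (nat_lit 14) (nat_lit 5) (nat_lit 17) (nat_lit 5) (nat_lit 18) (nat_lit 5) (nat_lit 259) (nat_lit 253) (nat_lit 88)) (XT.lf (nat_lit 0) (nat_lit 1939970003568) (nat_lit 0) (nat_lit 1939970003568) (nat_lit 228) (nat_lit 644383063) (nat_lit 20) (nat_lit 5) (nat_lit 20) (nat_lit 3) (nat_lit 23) (nat_lit 3) (nat_lit 254) (nat_lit 254) (nat_lit 92))) (XT.nd (nat_lit 78) (nat_lit 304) (nat_lit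 0) (XT.lf (nat_lit 0) (nat_lit 7804331210894) (nat_lit 0) (nat_lit 537539805358) (nat_lit 228) (nat_lit 1385422532) (nat_lit 20) (nat_lit 5) (nat_lit 20) (nat_lit 3) (nat_lit 23) (nat_lit 3) (nat_lit 255) (nat_lit 254) (nat_lit 91)) (XT.lf (nat_lit 0) (nat_lit 292907997781) (nat_lit 304) (nat_lit 5506434188992) (nat_lit 380) (nat_lit 3169183653740) (nat_lit 16) (nat_lit 5) (nat_lit 20) (nat_lit 5) (nat_lit 21) (nat_lit 5) (nat_lit 256) (nat_lit 254) (nat_lit 90))))) (XT.nd (nat_lit 31200) (nat_lit 0) (nat_lit 0) (XT.nd (nat_lit 156) (nat_lit 0) (nat_lit 76) (XT.nd (nat_lit 78) (nat_lit 0) (nat_lit 76) (XT.lf (nat_lit 0) (nat_lit 686313295705) (nat_lit 304) (nat_lit 1586535666057) (nat_lit 380) (nat_lit 7406460339048) (nat_lit 16) (nat_lit 5) (nat_lit 20) (nat_lit 5) (nat_lit 21) (nat_lit 5) (nat_lit 257) (nat_lit 254) (nat_lit 89)) (XT.lf (nat_lit 0) (nat_lit 1351655600508) (nat_lit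 304) (nat_lit 7350086712002) (nat_lit 76) (nat_lit 1763029035817) (nat_lit 17) (nat_lit 5) (nat_lit 21) (nat_lit 5) (nat_lit 18) (nat_lit 5) (nat_lit 258) (nat_lit 254) (nat_lit 88))) (XT.nd (nat_lit 30966) (nat_lit 0) (nat_lit 228) (XT.lf (nat_lit 0) (nat_lit 2311911868900) (nat_lit 304) (nat_lit 2768399934615) (nat_lit 76) (nat_lit 6258474006774) (nat_lit 17) (nat_lit 5) (nat_lit 21) (nat_lit 5) (nat_lit 18) (nat_lit 5) (nat_lit 259) (nat_lit 254) (nat_lit 87)) (XT.lf (nat_lit 0) (nat_lit 2230965504539) (nat_lit 0) (nat_lit 2230965504539) (nat_lit 228) (nat_lit 741039512) (nat_lit 20) (nat_lit 5) (nat_lit 20) (nat_lit 3) (nat_lit 23) (nat_lit 3) (nat_lit 255) (nat_lit 255) (nat_lit 90)))) (XT.nd (nat_lit 156) (nat_lit 0) (nat_lit 0) (XT.nd (nat_lit 78) (nat_lit 304) (nat_lit 0) (XT.lf (nat_lit 0) (nat_lit 8974980893285) (nat_lit 0) (nat_lit 618170776919) (nat_lit 228) (nat_lit 1593234155)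 (nat_lit 20) (nat_lit 5) (nat_lit 20) (nat_lit 3) (nat_lit 23) (nat_lit 3) (nat_lit 256) (nat_lit 255) (nat_lit 89)) (XT.lf (nat_lit 0) (nat_lit 336844198854) (nat_lit 304) (nat_lit 6332399316207) (nat_lit 380) (nat_lit 3644561201306) (nat_lit 16) (nat_lit 5) (nat_lit 20) (nat_lit 5) (nat_lit 21) (nat_lit 5) (nat_lit 257) (nat_lit 255) (nat_lit 88))) (XT.nd (nat_lit 31122) (nat_lit 0) (nat_lit 304) (XT.lf (nat_lit 0) (nat_lit 789260291284) (nat_lit 304) (nat_lit 1824516014981) (nat_lit 380) (nat_lit 8517429389475) (nat_lit 16) (nat_lit 5) (nat_lit 20) (nat_lit 5) (nat_lit 21) (nat_lit 5) (nat_lit 258) (nat_lit 255) (nat_lit 87)) (XT.nd (nat_lit 78) (nat_lit 0) (nat_lit 0) (XT.lf (nat_lit 0) (nat_lit 2565610330549) (nat_lit 0) (nat_lit 2565610330549) (nat_lit 228) (nat_lit 852194675) (nat_lit 20) (nat_lit 5) (nat_lit 20) (nat_lit 3) (nat_lit 23) (nat_lit 3) (nat_lit 256) (nat_lit 256)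 (nat_lit 88)) (XT.lf (nat_lit 0) (nat_lit 10321228027851) (nat_lit 0) (nat_lit 710896394030) (nat_lit 228) (nat_lit 1832217949) (nat_lit 20) (nat_lit 5) (nat_lit 20) (nat_lit 3) (nat_lit 23) (nat_lit 3) (nat_lit 257) (nat_lit 256) (nat_lit 87))))))))

set_option maxRecDepth 10000000 in
noncomputable def Tp : PT := (PT.nd (nat_lit 3167190) (PT.nd (nat_lit 3041922) pc0 pc1) (PT.nd (nat_lit 93210) pc2 pc3))

set_option maxRecDepth 10000000 in
noncomputable def Tx : XT := (XT.nd (nat_lit 4839588) (nat_lit 0) (nat_lit 76) XT.nil (XT.nd (nat_lit 3187704) (nat_lit 0) (nat_lit 0) (XT.nd (nat_lit 1593462) (nat_lit 0) (nat_lit 0) (XT.nd (nat_lit 1155024) (nat_lit 0) (nat_lit 0) (XT.nd (nat_lit 871962) (nat_lit 0) (nat_lit 0) (XT.nd (nat_lit 654420) (nat_lit 0) (nat_lit 0) (XT.nd (nat_lit 498342) (nat_lit 0) (nat_lit 0) (XT.nd (nat_lit 374868) (nat_lit 0) (nat_lit 0) xc0 (XT.nd (nat_lit 62088)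 (nat_lit 0) (nat_lit 0) xc1 xc2)) (XT.nd (nat_lit 63882) (nat_lit 0) (nat_lit 0) xc3 (XT.nd (nat_lit 60684) (nat_lit 0) (nat_lit 0) xc4 xc5))) (XT.nd (nat_lit 123864) (nat_lit 0) (nat_lit 0) (XT.nd (nat_lit 62400) (nat_lit 0) (nat_lit 0) xc6 (XT.nd (nat_lit 30810) (nat_lit 0) (nat_lit 0) xc7 xc8)) (XT.nd (nat_lit 32994) (nat_lit 0) (nat_lit 0) xc9 (XT.nd (nat_lit 30342) (nat_lit 0) (nat_lit 0) xc10 xc11)))) (XT.nd (nat_lit 156468) (nat_lit 0) (nat_lit 0) (XT.nd (nat_lit 65754) (nat_lit 0) (nat_lit 0) (XT.nd (nat_lit 32682) (nat_lit 0) (nat_lit 0) xc12 (XT.nd (nat_lit 30108) (nat_lit 0) (nat_lit 0) xc13 xc14)) (XT.nd (nat_lit 58734) (nat_lit 0) (nat_lit 0) xc15 (XT.nd (nat_lit 2496) (nat_lit 0) (nat_lit 0) xc16 xc17))) (XT.nd (nat_lit 63492) (nat_lit 0) (nat_lit 0) (XT.nd (nat_lit 31746) (nat_lit 0) (nat_lit 0) xc18 (XT.nd (nat_lit 29172) (nat_lit 0) (nat_lit 0) xc19 xc20)) (XT.nd (nat_lit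 31668) (nat_lit 0) (nat_lit 0) (XT.nd (nat_lit 29094) (nat_lit 0) (nat_lit 0) xc21 xc22) (XT.nd (nat_lit 28860) (nat_lit 0) (nat_lit 0) xc23 xc24))))) (XT.nd (nat_lit 246870) (nat_lit 0) (nat_lit 0) (XT.nd (nat_lit 124956) (nat_lit 0) (nat_lit 0) (XT.nd (nat_lit 62712) (nat_lit 0) (nat_lit 0) (XT.nd (nat_lit 31278) (nat_lit 0) (nat_lit 0) xc25 (XT.nd (nat_lit 28860) (nat_lit 0) (nat_lit 0) xc26 xc27)) (XT.nd (nat_lit 31122) (nat_lit 0) (nat_lit 0) xc28 (XT.nd (nat_lit 28548) (nat_lit 0) (nat_lit 0) xc29 xc30))) (XT.nd (nat_lit 61620) (nat_lit 0) (nat_lit 0) (XT.nd (nat_lit 30966) (nat_lit 0) (nat_lit 0) xc31 (XT.nd (nat_lit 28080) (nat_lit 0) (nat_lit 0) xc32 xc33)) (XT.nd (nat_lit 30186) (nat_lit 0) (nat_lit 0) xc34 (XT.nd (nat_lit 2496) (nat_lit 0) (nat_lit 0) xc35 xc36)))) (XT.nd (nat_lit 95238) (nat_lit 0) (nat_lit 0) (XT.nd (nat_lit 34944) (nat_lit 0) (nat_lit 0) (XT.nd (nat_lit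 29874) (nat_lit 0) (nat_lit 0) xc37 (XT.nd (nat_lit 2496) (nat_lit 0) (nat_lit 0) xc38 xc39)) (XT.nd (nat_lit 30030) (nat_lit 0) (nat_lit 0) xc40 (XT.nd (nat_lit 27690) (nat_lit 0) (nat_lit 0) xc41 xc42))) (XT.nd (nat_lit 60918) (nat_lit 0) (nat_lit 0) (XT.nd (nat_lit 30342) (nat_lit 0) (nat_lit 0) xc43 (XT.nd (nat_lit 2496) (nat_lit 0) (nat_lit 0) xc44 xc45)) (XT.nd (nat_lit 30342) (nat_lit 0) (nat_lit 0) (XT.nd (nat_lit 2496) (nat_lit 0) (nat_lit 0) xc46 xc47) (XT.nd (nat_lit 2496) (nat_lit 76) (nat_lit 0) xc48 xc49)))))) (XT.nd (nat_lit 527982) (nat_lit 0) (nat_lit 0) (XT.nd (nat_lit 247416) (nat_lit 0) (nat_lit 0) (XT.nd (nat_lit 122772) (nat_lit 0) (nat_lit 0) (XT.nd (nat_lit 61074) (nat_lit 0) (nat_lit 0) (XT.nd (nat_lit 30420) (nat_lit 0) (nat_lit 0) xc50 (XT.nd (nat_lit 28080) (nat_lit 0) (nat_lit 0) xc51 xc52)) (XT.nd (nat_lit 30732) (nat_lit 0) (nat_lit 0) xc53 (XT.nd (nat_lit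 3042) (nat_lit 0) (nat_lit 0) xc54 xc55))) (XT.nd (nat_lit 61854) (nat_lit 0) (nat_lit 0) (XT.nd (nat_lit 30732) (nat_lit 0) (nat_lit 0) xc56 (XT.nd (nat_lit 2496) (nat_lit 0) (nat_lit 0) xc57 xc58)) (XT.nd (nat_lit 31278) (nat_lit 0) (nat_lit 0) xc59 (XT.nd (nat_lit 2496) (nat_lit 0) (nat_lit 0) xc60 xc61)))) (XT.nd (nat_lit 126906) (nat_lit 0) (nat_lit 0) (XT.nd (nat_lit 63414) (nat_lit 0) (nat_lit 0) (XT.nd (nat_lit 31590) (nat_lit 0) (nat_lit 0) xc62 (XT.nd (nat_lit 2496) (nat_lit 0) (nat_lit 0) xc63 xc64)) (XT.nd (nat_lit 31902) (nat_lit 0) (nat_lit 0) xc65 (XT.nd (nat_lit 29016) (nat_lit 0) (nat_lit 0) xc66 xc67))) (XT.nd (nat_lit 63102) (nat_lit 0) (nat_lit 0) (XT.nd (nat_lit 31434) (nat_lit 0) (nat_lit 0) xc68 (XT.nd (nat_lit 29094) (nat_lit 0) (nat_lit 0) xc69 xc70)) (XT.nd (nat_lit 31668) (nat_lit 0) (nat_lit 0) (XT.nd (nat_lit 29094) (nat_lit 0) (nat_lit 0) xc71 xc72) (XT.nd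 (nat_lit 29328) (nat_lit 0) (nat_lit 0) xc73 xc74))))) (XT.nd (nat_lit 316368) (nat_lit 0) (nat_lit 0) (XT.nd (nat_lit 157404) (nat_lit 0) (nat_lit 0) (XT.nd (nat_lit 64662) (nat_lit 0) (nat_lit 0) (XT.nd (nat_lit 32136) (nat_lit 0) (nat_lit 0) xc75 (XT.nd (nat_lit 2496) (nat_lit 0) (nat_lit 0) xc76 xc77)) (XT.nd (nat_lit 32526) (nat_lit 0) (nat_lit 0) xc78 (XT.nd (nat_lit 30030) (nat_lit 0) (nat_lit 0) xc79 xc80))) (XT.nd (nat_lit 65442) (nat_lit 0) (nat_lit 0) (XT.nd (nat_lit 32760) (nat_lit 0) (nat_lit 0) xc81 (XT.nd (nat_lit 30108) (nat_lit 0) (nat_lit 0) xc82 xc83)) (XT.nd (nat_lit 60528) (nat_lit 0) (nat_lit 0) (XT.nd (nat_lit 30186) (nat_lit 0) (nat_lit 0) xc84 xc85) (XT.nd (nat_lit 30420) (nat_lit 0) (nat_lit 0) xc86 xc87)))) (XT.nd (nat_lit 248820) (nat_lit 0) (nat_lit 152) (XT.nd (nat_lit 123318) (nat_lit 0) (nat_lit 0) (XT.nd (nat_lit 61308) (nat_lit 0) (nat_lit 0) xc88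 (XT.nd (nat_lit 30888) (nat_lit 0) (nat_lit 0) xc89 xc90)) (XT.nd (nat_lit 62244) (nat_lit 0) (nat_lit 0) xc91 (XT.nd (nat_lit 31512) (nat_lit 0) (nat_lit 0) xc92 xc93))) (XT.nd (nat_lit 156468) (nat_lit 0) (nat_lit 76) (XT.nd (nat_lit 63414) (nat_lit 0) (nat_lit 0) xc94 (XT.nd (nat_lit 31668) (nat_lit 0) (nat_lit 0) xc95 xc96)) (XT.nd (nat_lit 94458) (nat_lit 0) (nat_lit 228) (XT.nd (nat_lit 32136) (nat_lit 0) (nat_lit 76) xc97 xc98) (XT.nd (nat_lit 93288) (nat_lit 0) (nat_lit 532) xc99 xc100))))))) XT.nil))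

set_option maxRecDepth 10000000 in
noncomputable def Te : XT := XT.nil

set_option maxRecDepth 10000000 in
noncomputable def Tz : ZL := (ZL.cons (nat_lit 76) (nat_lit 6) (nat_lit 189470515116366615174) (ZL.cons (nat_lit 152) (nat_lit 6) (nat_lit 179239051219310121276) (ZL.cons (nat_lit 228) (nat_lit 3) (nat_lit 88784708305885914068) (ZL.cons (nat_lit 304) (nat_lit 6) (nat_lit 167472867737695153290) (ZL.cons (nat_lit 380) (nat_lit 6) (nat_lit 158983327320513351348) (ZL.cons (nat_lit 456) (nat_lit 3) (nat_lit 78765735570022635179) (ZL.cons (nat_lit 532) (nat_lit 6) (nat_lit 149220355840754279116) (ZL.cons (nat_lit 608) (nat_lit 6) (nat_lit 142376913062227355818) (ZL.cons (nat_lit 684) (nat_lit 3) (nat_lit 70557214713518860088) (ZL.cons (nat_lit 760) (nat_lit 6) (nat_lit 136867249358797669366) (ZL.cons (nat_lit 836) (nat_lit 6) (nat_lit 134506953866921394030) (ZL.cons (nat_lit 912) (nat_lit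 6) (nat_lit 129268652464663894298) (ZL.cons (nat_lit 988) (nat_lit 3) (nat_lit 64085420303988627302) (ZL.cons (nat_lit 1064) (nat_lit 6) (nat_lit 125297036714568878594) (ZL.cons (nat_lit 1140) (nat_lit 6) (nat_lit 123244605852067769606) (ZL.cons (nat_lit 1216) (nat_lit 6) (nat_lit 120866302723336155254) (ZL.cons (nat_lit 1292) (nat_lit 6) (nat_lit 122514401091091009652) (ZL.cons (nat_lit 1368) (nat_lit 6) (nat_lit 119631866745272970840) (ZL.cons (nat_lit 1444) (nat_lit 3) (nat_lit 59338623869729250773) (ZL.cons (nat_lit 1520) (nat_lit 6) (nat_lit 116088455254600033884) (ZL.cons (nat_lit 1596) (nat_lit 6) (nat_lit 117261939261590351380) (ZL.cons (nat_lit 1672) (nat_lit 6) (nat_lit 115477216772458952262) (ZL.cons (nat_lit 1748) (nat_lit 3) (nat_lit 56477113078714884825) (ZL.cons (nat_lit 1824) (nat_lit 6) (nat_lit 113581903649540869704) (ZL.cons (nat_lit 1900) (nat_lit 3) (nat_lit 56375900083111969940)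 (ZL.cons (nat_lit 1976) (nat_lit 6) (nat_lit 111402293558185074764) (ZL.cons (nat_lit 2052) (nat_lit 1) (nat_lit 18446744073709551617) ZL.nil)))))))))))))))))))))))))))

noncomputable def vl : XL := ⟨(nat_lit 0), (nat_lit 76), (nat_lit 240035278), (nat_lit 228), (nat_lit 157026073), (nat_lit 76), (nat_lit 240035278), (nat_lit 1), (nat_lit 5), (nat_lit 3), (nat_lit 4), (nat_lit 1), (nat_lit 4), (nat_lit 0), (nat_lit 0), (nat_lit 0)⟩

noncomputable def cp0 : Nat := (nat_lit 18618754106778959080103857574559880246051682212406009299011418642005311807537633480933376)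

noncomputable def cp1 : Nat := (nat_lit 1431295554262700115889087099051264413336483585613828691765402510825573044252098267846557026951586490319261451602014296323258875412978178246466979779018440856236454928485575085646306879299074232871020042404929075578194224370145947555486226408507514171784215894218432715950892083335677917877111389674509536474295790310387833652850284574032833559625712030292719949448755446594477547579111866719586166074879200294436821003274608149867911910232930256507405935958777020349039588548805288324106309407135340415580630052743832583580473000004972065503676678117902018440046053519199230110302333877538106891524590811730081825742829095538892881264640)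

noncomputable def rc0 : Nat := (nat_lit 1431295554262700115889087099051264413336483585613828691765402510825573044252098267846557026951586490319261451602014296323258875412978178246466979779018440856236454928485575085646306879299074232871020042404929075578194224370145947555486226408507514171784215894218432715950892083335677917877111389674509536474295790310387833652850284574032833559625712030292719949448755446594477547579111866719586166074879200294436821003274608149867911910232930256507405935958777020349039588548805288324106309407135340415580630052743832583580473000004972065503676678117902018440046053519199230110302333877538106891524590811730081825742829095538892881264640)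

end Vale.Agent.Lib.P154.PChain.BR.S0
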