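import Vale.Agent.Lib.P154.PChain.BR.R0_0

set_option linter.all false

namespace Vale.Agent.Lib.P154.PChain.BR.S1

open Vale.Agent.Lib.P154.Chain

noncomputable def pc0 : PT := (PT.nd (nat_lit 2916966) (PT.nd (nat_lit 2823210) (PT.nd (nat_lit 2760810) (PT.nd (nat_lit 2760654) (PT.nd (nat_lit 2729532) (PT.nd (nat_lit 2729454) PT.nil (PT.lf (nat_lit 76) (nat_lit 6) (nat_lit 1) (nat_lit 3) (nat_lit 106) (nat_lit 87) (nat_lit 107))) (PT.lf (nat_lit 76) (nat_lit 6) (nat_lit 1) (nat_lit 1) (nat_lit 107) (nat_lit 87) (nat_lit 106))) (PT.nd (nat_lit 78) (PT.lf (nat_lit 152) (nat_lit 6) (nat_lit 2) (nat_lit 3) (nat_lit 105) (nat_lit 88) (nat_lit 107)) (PT.lf (nat_lit 228) (nat_lit 3) (nat_lit 3) (nat_lit 1) (nat_lit 106) (nat_lit 88) (nat_lit 106)))) (PT.nd (nat_lit 31200) (PT.nd (nat_lit 31122) (PT.lf (nat_lit 152) (nat_lit 6) (nat_lit 2) (nat_lit 1) (nat_lit 107) (nat_lit 88) (nat_lit 105))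 (PT.lf (nat_lit 304) (nat_lit 6) (nat_lit 4) (nat_lit 3) (nat_lit 105) (nat_lit 89) (nat_lit 106))) (PT.nd (nat_lit 31122) (PT.lf (nat_lit 304) (nat_lit 6) (nat_lit 4) (nat_lit 1) (nat_lit 106) (nat_lit 89) (nat_lit 105)) (PT.lf (nat_lit 380) (nat_lit 6) (nat_lit 5) (nat_lit 3) (nat_lit 104) (nat_lit 90) (nat_lit 106))))) (PT.nd (nat_lit 62400) (PT.nd (nat_lit 31200) (PT.nd (nat_lit 78) (PT.lf (nat_lit 456) (nat_lit 3) (nat_lit 6) (nat_lit 1) (nat_lit 105) (nat_lit 90) (nat_lit 105)) (PT.lf (nat_lit 380) (nat_lit 6) (nat_lit 5) (nat_lit 1) (nat_lit 106) (nat_lit 90) (nat_lit 104))) (PT.nd (nat_lit 78) (PT.lf (nat_lit 532) (nat_lit 6) (nat_lit 7) (nat_lit 3) (nat_lit 104) (nat_lit 91) (nat_lit 105)) (PT.lf (nat_lit 532) (nat_lit 6) (nat_lit 7) (nat_lit 1) (nat_lit 105) (nat_lit 91) (nat_lit 104)))) (PT.nd (nat_lit 156) (PT.nd (nat_lit 78) (PT.lf (nat_lit 608) (nat_lit 6) (nat_lit 8) (nat_lit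 3) (nat_lit 103) (nat_lit 92) (nat_lit 105)) (PT.lf (nat_lit 684) (nat_lit 3) (nat_lit 9) (nat_lit 1) (nat_lit 104) (nat_lit 92) (nat_lit 104))) (PT.nd (nat_lit 31044) (PT.lf (nat_lit 608) (nat_lit 6) (nat_lit 8) (nat_lit 1) (nat_lit 105) (nat_lit 92) (nat_lit 103)) (PT.nd (nat_lit 78) (PT.lf (nat_lit 760) (nat_lit 6) (nat_lit 10) (nat_lit 3) (nat_lit 102) (nat_lit 93) (nat_lit 105)) (PT.lf (nat_lit 836) (nat_lit 6) (nat_lit 11) (nat_lit 3) (nat_lit 103) (nat_lit 93) (nat_lit 104))))))) (PT.nd (nat_lit 62556) (PT.nd (nat_lit 31278) (PT.nd (nat_lit 31122) (PT.nd (nat_lit 78) (PT.lf (nat_lit 836) (nat_lit 6) (nat_lit 11) (nat_lit 1) (nat_lit 104) (nat_lit 93) (nat_lit 103)) (PT.lf (nat_lit 760) (nat_lit 6) (nat_lit 10) (nat_lit 1) (nat_lit 105) (nat_lit 93) (nat_lit 102))) (PT.nd (nat_lit 78) (PT.lf (nat_lit 912) (nat_lit 6) (nat_lit 12) (nat_lit 3) (nat_lit 102) (nat_lit 94) (nat_lit 104))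 (PT.lf (nat_lit 988) (nat_lit 3) (nat_lit 13) (nat_lit 1) (nat_lit 103) (nat_lit 94) (nat_lit 103)))) (PT.nd (nat_lit 31122) (PT.nd (nat_lit 31044) (PT.lf (nat_lit 912) (nat_lit 6) (nat_lit 12) (nat_lit 1) (nat_lit 104) (nat_lit 94) (nat_lit 102)) (PT.lf (nat_lit 1064) (nat_lit 6) (nat_lit 14) (nat_lit 3) (nat_lit 101) (nat_lit 95) (nat_lit 104))) (PT.nd (nat_lit 78) (PT.lf (nat_lit 1140) (nat_lit 6) (nat_lit 15) (nat_lit 3) (nat_lit 102) (nat_lit 95) (nat_lit 103)) (PT.lf (nat_lit 1140) (nat_lit 6) (nat_lit 15) (nat_lit 1) (nat_lit 103) (nat_lit 95) (nat_lit 102))))) (PT.nd (nat_lit 31200) (PT.nd (nat_lit 31044) (PT.nd (nat_lit 30966) (PT.lf (nat_lit 1064) (nat_lit 6) (nat_lit 14) (nat_lit 1) (nat_lit 104) (nat_lit 95) (nat_lit 101)) (PT.lf (nat_lit 1292) (nat_lit 6) (nat_lit 17) (nat_lit 3) (nat_lit 100) (nat_lit 96) (nat_lit 104))) (PT.nd (nat_lit 78) (PT.lf (nat_lit 1368) (nat_lit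 6) (nat_lit 18) (nat_lit 3) (nat_lit 101) (nat_lit 96) (nat_lit 103)) (PT.lf (nat_lit 1444) (nat_lit 3) (nat_lit 19) (nat_lit 1) (nat_lit 102) (nat_lit 96) (nat_lit 102)))) (PT.nd (nat_lit 30966) (PT.nd (nat_lit 78) (PT.lf (nat_lit 1368) (nat_lit 6) (nat_lit 18) (nat_lit 1) (nat_lit 103) (nat_lit 96) (nat_lit 101)) (PT.lf (nat_lit 1292) (nat_lit 6) (nat_lit 17) (nat_lit 1) (nat_lit 104) (nat_lit 96) (nat_lit 100))) (PT.nd (nat_lit 78) (PT.lf (nat_lit 1216) (nat_lit 6) (nat_lit 16) (nat_lit 3) (nat_lit 99) (nat_lit 97) (nat_lit 104)) (PT.nd (nat_lit 78) (PT.lf (nat_lit 1596) (nat_lit 6) (nat_lit 21) (nat_lit 3) (nat_lit 100) (nat_lit 97) (nat_lit 103)) (PT.lf (nat_lit 1672) (nat_lit 6) (nat_lit 22) (nat_lit 3) (nat_lit 101) (nat_lit 97) (nat_lit 102))))))))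
noncomputable def pc1 : PT := (PT.nd (nat_lit 93444) (PT.nd (nat_lit 62166) (PT.nd (nat_lit 31122) (PT.nd (nat_lit 156) (PT.nd (nat_lit 78) (PT.lf (nat_lit 1672) (nat_lit 6) (nat_lit 22) (nat_lit 1) (nat_lit 102) (nat_lit 97) (nat_lit 101)) (PT.lf (nat_lit 1596) (nat_lit 6) (nat_lit 21) (nat_lit 1) (nat_lit 103) (nat_lit 97) (nat_lit 100))) (PT.nd (nat_lit 30888) (PT.lf (nat_lit 1216) (nat_lit 6) (nat_lit 16) (nat_lit 1) (nat_lit 104) (nat_lit 97) (nat_lit 99)) (PT.lf (nat_lit 1520) (nat_lit 6) (nat_lit 20) (nat_lit 3) (nat_lit 99) (nat_lit 98) (nat_lit 103)))) (PT.nd (nat_lit 156) (PT.nd (nat_lit 78) (PT.lf (nat_lit 1824) (nat_lit 6) (nat_lit 24) (nat_lit 3) (nat_lit 100) (nat_lit 98) (nat_lit 102)) (PT.lf (nat_lit 1900) (nat_lit 3) (nat_lit 25) (nat_lit 1) (nat_lit 101) (nat_lit 98) (nat_lit 101))) (PT.nd (nat_lit 78) (PT.lf (nat_lit 1824) (nat_lit 6) (nat_lit 24) (nat_lit 1) (nat_lit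 102) (nat_lit 98) (nat_lit 100)) (PT.lf (nat_lit 1520) (nat_lit 6) (nat_lit 20) (nat_lit 1) (nat_lit 103) (nat_lit 98) (nat_lit 99))))) (PT.nd (nat_lit 312) (PT.nd (nat_lit 156) (PT.nd (nat_lit 78) (PT.lf (nat_lit 1216) (nat_lit 6) (nat_lit 16) (nat_lit 5) (nat_lit 97) (nat_lit 99) (nat_lit 104)) (PT.lf (nat_lit 1520) (nat_lit 6) (nat_lit 20) (nat_lit 5) (nat_lit 98) (nat_lit 99) (nat_lit 103))) (PT.nd (nat_lit 78) (PT.lf (nat_lit 1748) (nat_lit 3) (nat_lit 23) (nat_lit 3) (nat_lit 99) (nat_lit 99) (nat_lit 102)) (PT.lf (nat_lit 1976) (nat_lit 6) (nat_lit 26) (nat_lit 3) (nat_lit 100) (nat_lit 99) (nat_lit 101)))) (PT.nd (nat_lit 156) (PT.nd (nat_lit 78) (PT.lf (nat_lit 1976) (nat_lit 6) (nat_lit 26) (nat_lit 1) (nat_lit 101) (nat_lit 99) (nat_lit 100)) (PT.lf (nat_lit 1748) (nat_lit 3) (nat_lit 23) (nat_lit 0) (nat_lit 102) (nat_lit 99) (nat_lit 99))) (PT.nd (nat_lit 78) (PT.lf (nat_lit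 1520) (nat_lit 6) (nat_lit 20) (nat_lit 0) (nat_lit 103) (nat_lit 99) (nat_lit 98)) (PT.nd (nat_lit 30654) (PT.lf (nat_lit 1216) (nat_lit 6) (nat_lit 16) (nat_lit 0) (nat_lit 104) (nat_lit 99) (nat_lit 97)) (PT.lf (nat_lit 1292) (nat_lit 6) (nat_lit 17) (nat_lit 5) (nat_lit 96) (nat_lit 100) (nat_lit 104))))))) (PT.nd (nat_lit 31122) (PT.nd (nat_lit 312) (PT.nd (nat_lit 156) (PT.nd (nat_lit 78) (PT.lf (nat_lit 1596) (nat_lit 6) (nat_lit 21) (nat_lit 5) (nat_lit 97) (nat_lit 100) (nat_lit 103)) (PT.lf (nat_lit 1824) (nat_lit 6) (nat_lit 24) (nat_lit 5) (nat_lit 98) (nat_lit 100) (nat_lit 102))) (PT.nd (nat_lit 78) (PT.lf (nat_lit 1976) (nat_lit 6) (nat_lit 26) (nat_lit 5) (nat_lit 99) (nat_lit 100) (nat_lit 101)) (PT.lf (nat_lit 2052) (nat_lit 1) (nat_lit 27) (nat_lit 0) (nat_lit 100) (nat_lit 100) (nat_lit 100)))) (PT.nd (nat_lit 156) (PT.nd (nat_lit 78) (PT.lf (nat_lit 1976) (nat_lit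 6) (nat_lit 26) (nat_lit 0) (nat_lit 101) (nat_lit 100) (nat_lit 99)) (PT.lf (nat_lit 1824) (nat_lit 6) (nat_lit 24) (nat_lit 0) (nat_lit 102) (nat_lit 100) (nat_lit 98))) (PT.nd (nat_lit 78) (PT.lf (nat_lit 1596) (nat_lit 6) (nat_lit 21) (nat_lit 0) (nat_lit 103) (nat_lit 100) (nat_lit 97)) (PT.lf (nat_lit 1292) (nat_lit 6) (nat_lit 17) (nat_lit 0) (nat_lit 104) (nat_lit 100) (nat_lit 96))))) (PT.nd (nat_lit 312) (PT.nd (nat_lit 156) (PT.nd (nat_lit 78) (PT.lf (nat_lit 1064) (nat_lit 6) (nat_lit 14) (nat_lit 5) (nat_lit 95) (nat_lit 101) (nat_lit 104)) (PT.lf (nat_lit 1368) (nat_lit 6) (nat_lit 18) (nat_lit 5) (nat_lit 96) (nat_lit 101) (nat_lit 103))) (PT.nd (nat_lit 78) (PT.lf (nat_lit 1672) (nat_lit 6) (nat_lit 22) (nat_lit 5) (nat_lit 97) (nat_lit 101) (nat_lit 102)) (PT.lf (nat_lit 1900) (nat_lit 3) (nat_lit 25) (nat_lit 4) (nat_lit 98) (nat_lit 101) (nat_lit 101)))) (PT.nd (nat_lit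 156) (PT.nd (nat_lit 78) (PT.lf (nat_lit 1976) (nat_lit 6) (nat_lit 26) (nat_lit 4) (nat_lit 99) (nat_lit 101) (nat_lit 100)) (PT.lf (nat_lit 1976) (nat_lit 6) (nat_lit 26) (nat_lit 2) (nat_lit 100) (nat_lit 101) (nat_lit 99))) (PT.nd (nat_lit 78) (PT.lf (nat_lit 1900) (nat_lit 3) (nat_lit 25) (nat_lit 0) (nat_lit 101) (nat_lit 101) (nat_lit 98)) (PT.nd (nat_lit 78) (PT.lf (nat_lit 1672) (nat_lit 6) (nat_lit 22) (nat_lit 0) (nat_lit 102) (nat_lit 101) (nat_lit 97)) (PT.lf (nat_lit 1368) (nat_lit 6) (nat_lit 18) (nat_lit 0) (nat_lit 103) (nat_lit 101) (nat_lit 96))))))))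
noncomputable def pc2 : PT := (PT.nd (nat_lit 61854) (PT.nd (nat_lit 30966) (PT.nd (nat_lit 30654) (PT.nd (nat_lit 30498) (PT.nd (nat_lit 30420) (PT.lf (nat_lit 1064) (nat_lit 6) (nat_lit 14) (nat_lit 0) (nat_lit 104) (nat_lit 101) (nat_lit 95)) (PT.lf (nat_lit 760) (nat_lit 6) (nat_lit 10) (nat_lit 5) (nat_lit 93) (nat_lit 102) (nat_lit 105))) (PT.nd (nat_lit 78) (PT.lf (nat_lit 912) (nat_lit 6) (nat_lit 12) (nat_lit 5) (nat_lit 94) (nat_lit 102) (nat_lit 104)) (PT.lf (nat_lit 1140) (nat_lit 6) (nat_lit 15) (nat_lit 5) (nat_lit 95) (nat_lit 102) (nat_lit 103)))) (PT.nd (nat_lit 156) (PT.nd (nat_lit 78) (PT.lf (nat_lit 1444) (nat_lit 3) (nat_lit 19) (nat_lit 4) (nat_lit 96) (nat_lit 102) (nat_lit 102)) (PT.lf (nat_lit 1672) (nat_lit 6) (nat_lit 22) (nat_lit 4) (nat_lit 97) (nat_lit 102) (nat_lit 101))) (PT.nd (nat_lit 78) (PT.lf (nat_lit 1824) (nat_lit 6) (nat_lit 24) (nat_lit 4) (nat_lit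 98) (nat_lit 102) (nat_lit 100)) (PT.lf (nat_lit 1748) (nat_lit 3) (nat_lit 23) (nat_lit 2) (nat_lit 99) (nat_lit 102) (nat_lit 99))))) (PT.nd (nat_lit 312) (PT.nd (nat_lit 156) (PT.nd (nat_lit 78) (PT.lf (nat_lit 1824) (nat_lit 6) (nat_lit 24) (nat_lit 2) (nat_lit 100) (nat_lit 102) (nat_lit 98)) (PT.lf (nat_lit 1672) (nat_lit 6) (nat_lit 22) (nat_lit 2) (nat_lit 101) (nat_lit 102) (nat_lit 97))) (PT.nd (nat_lit 78) (PT.lf (nat_lit 1444) (nat_lit 3) (nat_lit 19) (nat_lit 0) (nat_lit 102) (nat_lit 102) (nat_lit 96)) (PT.lf (nat_lit 1140) (nat_lit 6) (nat_lit 15) (nat_lit 0) (nat_lit 103) (nat_lit 102) (nat_lit 95)))) (PT.nd (nat_lit 30342) (PT.nd (nat_lit 78) (PT.lf (nat_lit 912) (nat_lit 6) (nat_lit 12) (nat_lit 0) (nat_lit 104) (nat_lit 102) (nat_lit 94)) (PT.lf (nat_lit 760) (nat_lit 6) (nat_lit 10) (nat_lit 0) (nat_lit 105) (nat_lit 102) (nat_lit 93))) (PT.nd (nat_lit 78) (PT.lf (nat_lit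 608) (nat_lit 6) (nat_lit 8) (nat_lit 5) (nat_lit 92) (nat_lit 103) (nat_lit 105)) (PT.nd (nat_lit 78) (PT.lf (nat_lit 836) (nat_lit 6) (nat_lit 11) (nat_lit 5) (nat_lit 93) (nat_lit 103) (nat_lit 104)) (PT.lf (nat_lit 988) (nat_lit 3) (nat_lit 13) (nat_lit 4) (nat_lit 94) (nat_lit 103) (nat_lit 103))))))) (PT.nd (nat_lit 624) (PT.nd (nat_lit 312) (PT.nd (nat_lit 156) (PT.nd (nat_lit 78) (PT.lf (nat_lit 1140) (nat_lit 6) (nat_lit 15) (nat_lit 4) (nat_lit 95) (nat_lit 103) (nat_lit 102)) (PT.lf (nat_lit 1368) (nat_lit 6) (nat_lit 18) (nat_lit 4) (nat_lit 96) (nat_lit 103) (nat_lit 101))) (PT.nd (nat_lit 78) (PT.lf (nat_lit 1596) (nat_lit 6) (nat_lit 21) (nat_lit 4) (nat_lit 97) (nat_lit 103) (nat_lit 100)) (PT.lf (nat_lit 1520) (nat_lit 6) (nat_lit 20) (nat_lit 4) (nat_lit 98) (nat_lit 103) (nat_lit 99)))) (PT.nd (nat_lit 156) (PT.nd (nat_lit 78) (PT.lf (nat_lit 1520) (nat_lit 6) (nat_lit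 20) (nat_lit 2) (nat_lit 99) (nat_lit 103) (nat_lit 98)) (PT.lf (nat_lit 1596) (nat_lit 6) (nat_lit 21) (nat_lit 2) (nat_lit 100) (nat_lit 103) (nat_lit 97))) (PT.nd (nat_lit 78) (PT.lf (nat_lit 1368) (nat_lit 6) (nat_lit 18) (nat_lit 2) (nat_lit 101) (nat_lit 103) (nat_lit 96)) (PT.lf (nat_lit 1140) (nat_lit 6) (nat_lit 15) (nat_lit 2) (nat_lit 102) (nat_lit 103) (nat_lit 95))))) (PT.nd (nat_lit 30342) (PT.nd (nat_lit 156) (PT.nd (nat_lit 78) (PT.lf (nat_lit 988) (nat_lit 3) (nat_lit 13) (nat_lit 0) (nat_lit 103) (nat_lit 103) (nat_lit 94)) (PT.lf (nat_lit 836) (nat_lit 6) (nat_lit 11) (nat_lit 0) (nat_lit 104) (nat_lit 103) (nat_lit 93))) (PT.nd (nat_lit 30108) (PT.lf (nat_lit 608) (nat_lit 6) (nat_lit 8) (nat_lit 0) (nat_lit 105) (nat_lit 103) (nat_lit 92)) (PT.lf (nat_lit 380) (nat_lit 6) (nat_lit 5) (nat_lit 5) (nat_lit 90) (nat_lit 104) (nat_lit 106)))) (PT.nd (nat_lit 156) (PT.nd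 (nat_lit 78) (PT.lf (nat_lit 532) (nat_lit 6) (nat_lit 7) (nat_lit 5) (nat_lit 91) (nat_lit 104) (nat_lit 105)) (PT.lf (nat_lit 684) (nat_lit 3) (nat_lit 9) (nat_lit 4) (nat_lit 92) (nat_lit 104) (nat_lit 104))) (PT.nd (nat_lit 78) (PT.lf (nat_lit 836) (nat_lit 6) (nat_lit 11) (nat_lit 4) (nat_lit 93) (nat_lit 104) (nat_lit 103)) (PT.nd (nat_lit 78) (PT.lf (nat_lit 912) (nat_lit 6) (nat_lit 12) (nat_lit 4) (nat_lit 94) (nat_lit 104) (nat_lit 102)) (PT.lf (nat_lit 1064) (nat_lit 6) (nat_lit 14) (nat_lit 4) (nat_lit 95) (nat_lit 104) (nat_lit 101))))))))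
noncomputable def pc3 : PT := (PT.nd (nat_lit 31824) (PT.nd (nat_lit 702) (PT.nd (nat_lit 390) (PT.nd (nat_lit 234) (PT.nd (nat_lit 78) (PT.lf (nat_lit 1292) (nat_lit 6) (nat_lit 17) (nat_lit 4) (nat_lit 96) (nat_lit 104) (nat_lit 100)) (PT.lf (nat_lit 1216) (nat_lit 6) (nat_lit 16) (nat_lit 4) (nat_lit 97) (nat_lit 104) (nat_lit 99))) (PT.nd (nat_lit 78) (PT.lf (nat_lit 1216) (nat_lit 6) (nat_lit 16) (nat_lit 2) (nat_lit 99) (nat_lit 104) (nat_lit 97)) (PT.lf (nat_lit 1292) (nat_lit 6) (nat_lit 17) (nat_lit 2) (nat_lit 100) (nat_lit 104) (nat_lit 96)))) (PT.nd (nat_lit 156) (PT.nd (nat_lit 78) (PT.lf (nat_lit 1064) (nat_lit 6) (nat_lit 14) (nat_lit 2) (nat_lit 101) (nat_lit 104) (nat_lit 95)) (PT.lf (nat_lit 912) (nat_lit 6) (nat_lit 12) (nat_lit 2) (nat_lit 102) (nat_lit 104) (nat_lit 94))) (PT.nd (nat_lit 78) (PT.lf (nat_lit 836) (nat_lit 6) (nat_lit 11) (nat_lit 2) (nat_lit 103) (nat_lit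 104) (nat_lit 93)) (PT.lf (nat_lit 684) (nat_lit 3) (nat_lit 9) (nat_lit 0) (nat_lit 104) (nat_lit 104) (nat_lit 92))))) (PT.nd (nat_lit 30108) (PT.nd (nat_lit 29952) (PT.nd (nat_lit 78) (PT.lf (nat_lit 532) (nat_lit 6) (nat_lit 7) (nat_lit 0) (nat_lit 105) (nat_lit 104) (nat_lit 91)) (PT.lf (nat_lit 380) (nat_lit 6) (nat_lit 5) (nat_lit 0) (nat_lit 106) (nat_lit 104) (nat_lit 90))) (PT.nd (nat_lit 78) (PT.lf (nat_lit 152) (nat_lit 6) (nat_lit 2) (nat_lit 5) (nat_lit 88) (nat_lit 105) (nat_lit 107)) (PT.lf (nat_lit 304) (nat_lit 6) (nat_lit 4) (nat_lit 5) (nat_lit 89) (nat_lit 105) (nat_lit 106)))) (PT.nd (nat_lit 156) (PT.nd (nat_lit 78) (PT.lf (nat_lit 456) (nat_lit 3) (nat_lit 6) (nat_lit 4) (nat_lit 90) (nat_lit 105) (nat_lit 105)) (PT.lf (nat_lit 532) (nat_lit 6) (nat_lit 7) (nat_lit 4) (nat_lit 91) (nat_lit 105) (nat_lit 104))) (PT.nd (nat_lit 78) (PT.lf (nat_lit 608) (nat_lit 6)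 (nat_lit 8) (nat_lit 4) (nat_lit 92) (nat_lit 105) (nat_lit 103)) (PT.nd (nat_lit 702) (PT.lf (nat_lit 760) (nat_lit 6) (nat_lit 10) (nat_lit 4) (nat_lit 93) (nat_lit 105) (nat_lit 102)) (PT.lf (nat_lit 760) (nat_lit 6) (nat_lit 10) (nat_lit 2) (nat_lit 102) (nat_lit 105) (nat_lit 93))))))) (PT.nd (nat_lit 30264) (PT.nd (nat_lit 312) (PT.nd (nat_lit 156) (PT.nd (nat_lit 78) (PT.lf (nat_lit 608) (nat_lit 6) (nat_lit 8) (nat_lit 2) (nat_lit 103) (nat_lit 105) (nat_lit 92)) (PT.lf (nat_lit 532) (nat_lit 6) (nat_lit 7) (nat_lit 2) (nat_lit 104) (nat_lit 105) (nat_lit 91))) (PT.nd (nat_lit 78) (PT.lf (nat_lit 456) (nat_lit 3) (nat_lit 6) (nat_lit 0) (nat_lit 105) (nat_lit 105) (nat_lit 90)) (PT.lf (nat_lit 304) (nat_lit 6) (nat_lit 4) (nat_lit 0) (nat_lit 106) (nat_lit 105) (nat_lit 89)))) (PT.nd (nat_lit 29796) (PT.nd (nat_lit 29718) (PT.lf (nat_lit 152) (nat_lit 6) (nat_lit 2) (nat_lit 0)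 (nat_lit 107) (nat_lit 105) (nat_lit 88)) (PT.lf (nat_lit 76) (nat_lit 6) (nat_lit 1) (nat_lit 5) (nat_lit 87) (nat_lit 106) (nat_lit 107))) (PT.nd (nat_lit 78) (PT.lf (nat_lit 228) (nat_lit 3) (nat_lit 3) (nat_lit 4) (nat_lit 88) (nat_lit 106) (nat_lit 106)) (PT.lf (nat_lit 304) (nat_lit 6) (nat_lit 4) (nat_lit 4) (nat_lit 89) (nat_lit 106) (nat_lit 105))))) (PT.nd (nat_lit 1326) (PT.nd (nat_lit 1170) (PT.nd (nat_lit 1092) (PT.lf (nat_lit 380) (nat_lit 6) (nat_lit 5) (nat_lit 4) (nat_lit 90) (nat_lit 106) (nat_lit 104)) (PT.lf (nat_lit 380) (nat_lit 6) (nat_lit 5) (nat_lit 2) (nat_lit 104) (nat_lit 106) (nat_lit 90))) (PT.nd (nat_lit 78) (PT.lf (nat_lit 304) (nat_lit 6) (nat_lit 4) (nat_lit 2) (nat_lit 105) (nat_lit 106) (nat_lit 89)) (PT.lf (nat_lit 228) (nat_lit 3) (nat_lit 3) (nat_lit 0) (nat_lit 106) (nat_lit 106) (nat_lit 88)))) (PT.nd (nat_lit 29796) (PT.nd (nat_lit 29718) (PT.lf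 (nat_lit 76) (nat_lit 6) (nat_lit 1) (nat_lit 0) (nat_lit 107) (nat_lit 106) (nat_lit 87)) (PT.lf (nat_lit 76) (nat_lit 6) (nat_lit 1) (nat_lit 4) (nat_lit 87) (nat_lit 107) (nat_lit 106))) (PT.nd (nat_lit 1326) (PT.lf (nat_lit 152) (nat_lit 6) (nat_lit 2) (nat_lit 4) (nat_lit 88) (nat_lit 107) (nat_lit 105)) (PT.nd (nat_lit 78) (PT.lf (nat_lit 152) (nat_lit 6) (nat_lit 2) (nat_lit 2) (nat_lit 105) (nat_lit 107) (nat_lit 88)) (PT.lf (nat_lit 76) (nat_lit 6) (nat_lit 1) (nat_lit 2) (nat_lit 106) (nat_lit 107) (nat_lit 87))))))))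
noncomputable def xc0 : XT := (XT.nd (nat_lit 124878) (nat_lit 0) (nat_lit 0) (XT.nd (nat_lit 93444) (nat_lit 0) (nat_lit 0) (XT.nd (nat_lit 62322) (nat_lit 0) (nat_lit 0) (XT.nd (nat_lit 31200) (nat_lit 0) (nat_lit 0) (XT.nd (nat_lit 31122) (nat_lit 0) (nat_lit 0) (XT.lf (nat_lit 0) (nat_lit 789459019283) (nat_lit 76) (nat_lit 2051621804250) (nat_lit 76) (nat_lit 2051621804250) (nat_lit 1) (nat_lit 4) (nat_lit 2) (nat_lit 5) (nat_lit 2) (nat_lit 4) (nat_lit 264) (nat_lit 168) (nat_lit 168)) (XT.lf (nat_lit 0) (nat_lit 596241132612) (nat_lit 76) (nat_lit 1551687556306) (nat_lit 76) (nat_lit 1551687556306) (nat_lit 1) (nat_lit 4) (nat_lit 2) (nat_lit 5) (nat_lit 2) (nat_lit 4) (nat_lit 262) (nat_lit 169) (nat_lit 169))) (XT.nd (nat_lit 78) (nat_lit 0) (nat_lit 0) (XT.lf (nat_lit 0) (nat_lit 1372238521677) (nat_lit 76) (nat_lit 3568433794846) (nat_lit 76) (nat_lit 3568407170883) (nat_lit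 1) (nat_lit 4) (nat_lit 2) (nat_lit 5) (nat_lit 2) (nat_lit 4) (nat_lit 263) (nat_lit 169) (nat_lit 168)) (XT.nd (nat_lit 30966) (nat_lit 0) (nat_lit 0) (XT.lf (nat_lit 0) (nat_lit 1578883101149) (nat_lit 76) (nat_lit 4103286713378) (nat_lit 76) (nat_lit 4103236938142) (nat_lit 1) (nat_lit 4) (nat_lit 2) (nat_lit 5) (nat_lit 2) (nat_lit 4) (nat_lit 264) (nat_lit 169) (nat_lit 167)) (XT.lf (nat_lit 0) (nat_lit 450035155386) (nat_lit 76) (nat_lit 1173720448859) (nat_lit 76) (nat_lit 1173720448859) (nat_lit 1) (nat_lit 4) (nat_lit 2) (nat_lit 5) (nat_lit 2) (nat_lit 4) (nat_lit 260) (nat_lit 170) (nat_lit 170))))) (XT.nd (nat_lit 156) (nat_lit 0) (nat_lit 0) (XT.nd (nat_lit 78) (nat_lit 0) (nat_lit 0) (XT.lf (nat_lit 0) (nat_lit 1036097361557) (nat_lit 76) (nat_lit 2699042310018) (nat_lit 76) (nat_lit 2699011692460) (nat_lit 1) (nat_lit 4) (nat_lit 2) (nat_lit 5) (nat_lit 2) (nat_lit 4)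 (nat_lit 261) (nat_lit 170) (nat_lit 169)) (XT.lf (nat_lit 0) (nat_lit 1192442087194) (nat_lit 76) (nat_lit 3103424683221) (nat_lit 76) (nat_lit 3103367441700) (nat_lit 1) (nat_lit 4) (nat_lit 2) (nat_lit 5) (nat_lit 2) (nat_lit 4) (nat_lit 262) (nat_lit 170) (nat_lit 168))) (XT.nd (nat_lit 78) (nat_lit 0) (nat_lit 0) (XT.lf (nat_lit 0) (nat_lit 1372163406229) (nat_lit 76) (nat_lit 3568499846367) (nat_lit 76) (nat_lit 3568419453574) (nat_lit 1) (nat_lit 4) (nat_lit 2) (nat_lit 5) (nat_lit 2) (nat_lit 4) (nat_lit 263) (nat_lit 170) (nat_lit 167)) (XT.nd (nat_lit 30810) (nat_lit 0) (nat_lit 0) (XT.lf (nat_lit 0) (nat_lit 1578777605338) (nat_lit 76) (nat_lit 4103367096127) (nat_lit 76) (nat_lit 4103266571793) (nat_lit 1) (nat_lit 4) (nat_lit 2) (nat_lit 5) (nat_lit 2) (nat_lit 4) (nat_lit 264) (nat_lit 170) (nat_lit 166)) (XT.lf (nat_lit 0) (nat_lit 339361111402) (nat_lit 76) (nat_lit 887986273546)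 (nat_lit 76) (nat_lit 887986273546) (nat_lit 1) (nat_lit 4) (nat_lit 2) (nat_lit 5) (nat_lit 2) (nat_lit 4) (nat_lit 258) (nat_lit 171) (nat_lit 171)))))) (XT.nd (nat_lit 390) (nat_lit 0) (nat_lit 0) (XT.nd (nat_lit 156) (nat_lit 0) (nat_lit 0) (XT.nd (nat_lit 78) (nat_lit 0) (nat_lit 0) (XT.lf (nat_lit 0) (nat_lit 781699536020) (nat_lit 76) (nat_lit 2041776498445) (nat_lit 76) (nat_lit 2041741288253) (nat_lit 1) (nat_lit 4) (nat_lit 2) (nat_lit 5) (nat_lit 2) (nat_lit 4) (nat_lit 259) (nat_lit 171) (nat_lit 170)) (XT.lf (nat_lit 0) (nat_lit 900024106037) (nat_lit 76) (nat_lit 2347497903916) (nat_lit 76) (nat_lit 2347432076167) (nat_lit 1) (nat_lit 4) (nat_lit 2) (nat_lit 5) (nat_lit 2) (nat_lit 4) (nat_lit 260) (nat_lit 171) (nat_lit 169))) (XT.nd (nat_lit 78) (nat_lit 0) (nat_lit 0) (XT.lf (nat_lit 0) (nat_lit 1036010978791) (nat_lit 76) (nat_lit 2699118269267) (nat_lit 76) (nat_lit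 2699025817554) (nat_lit 1) (nat_lit 4) (nat_lit 2) (nat_lit 5) (nat_lit 2) (nat_lit 4) (nat_lit 261) (nat_lit 171) (nat_lit 168)) (XT.nd (nat_lit 78) (nat_lit 0) (nat_lit 0) (XT.lf (nat_lit 0) (nat_lit 1192320767011) (nat_lit 76) (nat_lit 3103517123383) (nat_lit 76) (nat_lit 3103401520398) (nat_lit 1) (nat_lit 4) (nat_lit 2) (nat_lit 5) (nat_lit 2) (nat_lit 4) (nat_lit 262) (nat_lit 171) (nat_lit 167)) (XT.lf (nat_lit 0) (nat_lit 1372011705682) (nat_lit 76) (nat_lit 3568606617758) (nat_lit 76) (nat_lit 3568470883232) (nat_lit 1) (nat_lit 4) (nat_lit 2) (nat_lit 5) (nat_lit 2) (nat_lit 4) (nat_lit 263) (nat_lit 171) (nat_lit 166))))) (XT.nd (nat_lit 30810) (nat_lit 0) (nat_lit 0) (XT.nd (nat_lit 30654) (nat_lit 0) (nat_lit 0) (XT.lf (nat_lit 0) (nat_lit 1578599487084) (nat_lit 76) (nat_lit 4103486329456) (nat_lit 76) (nat_lit 4103333089242) (nat_lit 1) (nat_lit 4) (nat_lit 2) (nat_lit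 5) (nat_lit 2) (nat_lit 4) (nat_lit 264) (nat_lit 171) (nat_lit 165)) (XT.nd (nat_lit 78) (nat_lit 0) (nat_lit 0) (XT.lf (nat_lit 0) (nat_lit 255536115699) (nat_lit 76) (nat_lit 672002934697) (nat_lit 76) (nat_lit 672002934697) (nat_lit 1) (nat_lit 4) (nat_lit 2) (nat_lit 5) (nat_lit 2) (nat_lit 4) (nat_lit 256) (nat_lit 172) (nat_lit 172)) (XT.lf (nat_lit 0) (nat_lit 589077392872) (nat_lit 76) (nat_lit 1544926029487) (nat_lit 76) (nat_lit 1544885537767) (nat_lit 1) (nat_lit 4) (nat_lit 2) (nat_lit 5) (nat_lit 2) (nat_lit 4) (nat_lit 257) (nat_lit 172) (nat_lit 171)))) (XT.nd (nat_lit 78) (nat_lit 0) (nat_lit 0) (XT.lf (nat_lit 0) (nat_lit 678669087359) (nat_lit 76) (nat_lit 1776038104221) (nat_lit 76) (nat_lit 1775962402309) (nat_lit 1) (nat_lit 4) (nat_lit 2) (nat_lit 5) (nat_lit 2) (nat_lit 4) (nat_lit 258) (nat_lit 172) (nat_lit 170)) (XT.nd (nat_lit 78) (nat_lit 0) (nat_lit 0) (XT.lf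 (nat_lit 0) (nat_lit 781600195839) (nat_lit 76) (nat_lit 2041863851581) (nat_lit 76) (nat_lit 2041757532112) (nat_lit 1) (nat_lit 4) (nat_lit 2) (nat_lit 5) (nat_lit 2) (nat_lit 4) (nat_lit 259) (nat_lit 172) (nat_lit 169)) (XT.lf (nat_lit 0) (nat_lit 899884587826) (nat_lit 76) (nat_lit 2347604210103) (nat_lit 76) (nat_lit 2347471266671) (nat_lit 1) (nat_lit 4) (nat_lit 2) (nat_lit 5) (nat_lit 2) (nat_lit 4) (nat_lit 260) (nat_lit 172) (nat_lit 168))))))) (XT.nd (nat_lit 31200) (nat_lit 0) (nat_lit 0) (XT.nd (nat_lit 30810) (nat_lit 0) (nat_lit 0) (XT.nd (nat_lit 156) (nat_lit 0) (nat_lit 0) (XT.nd (nat_lit 78) (nat_lit 0) (nat_lit 0) (XT.lf (nat_lit 0) (nat_lit 1035836523163) (nat_lit 76) (nat_lit 2699241056366) (nat_lit 76) (nat_lit 2699084961662) (nat_lit 1) (nat_lit 4) (nat_lit 2) (nat_lit 5) (nat_lit 2) (nat_lit 4) (nat_lit 261) (nat_lit 172) (nat_lit 167)) (XT.lf (nat_lit 0) (nat_lit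 1192115931019) (nat_lit 76) (nat_lit 3103654241711) (nat_lit 76) (nat_lit 3103478015465) (nat_lit 1) (nat_lit 4) (nat_lit 2) (nat_lit 5) (nat_lit 2) (nat_lit 4) (nat_lit 262) (nat_lit 172) (nat_lit 166))) (XT.nd (nat_lit 78) (nat_lit 0) (nat_lit 0) (XT.lf (nat_lit 0) (nat_lit 1371780451984) (nat_lit 76) (nat_lit 3568756198024) (nat_lit 76) (nat_lit 3568562466090) (nat_lit 1) (nat_lit 4) (nat_lit 2) (nat_lit 5) (nat_lit 2) (nat_lit 4) (nat_lit 263) (nat_lit 172) (nat_lit 165)) (XT.nd (nat_lit 30498) (nat_lit 0) (nat_lit 0) (XT.lf (nat_lit 0) (nat_lit 1578345261466) (nat_lit 76) (nat_lit 4103646746190) (nat_lit 76) (nat_lit 4103437791919) (nat_lit 1) (nat_lit 4) (nat_lit 2) (nat_lit 5) (nat_lit 2) (nat_lit 4) (nat_lit 264) (nat_lit 172) (nat_lit 164)) (XT.lf (nat_lit 0) (nat_lit 191991930095) (nat_lit 76) (nat_lit 508772161382) (nat_lit 76) (nat_lit 508772161382) (nat_lit 1) (nat_lit 4)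 (nat_lit 2) (nat_lit 5) (nat_lit 2) (nat_lit 4) (nat_lit 254) (nat_lit 173) (nat_lit 173))))) (XT.nd (nat_lit 156) (nat_lit 0) (nat_lit 0) (XT.nd (nat_lit 78) (nat_lit 0) (nat_lit 0) (XT.lf (nat_lit 0) (nat_lit 443127414997) (nat_lit 76) (nat_lit 1169393142814) (nat_lit 76) (nat_lit 1169346577335) (nat_lit 1) (nat_lit 4) (nat_lit 2) (nat_lit 5) (nat_lit 2) (nat_lit 4) (nat_lit 255) (nat_lit 173) (nat_lit 172)) (XT.lf (nat_lit 0) (nat_lit 511011125636) (nat_lit 76) (nat_lit 1344081260093) (nat_lit 76) (nat_lit 1343994202895) (nat_lit 1) (nat_lit 4) (nat_lit 2) (nat_lit 5) (nat_lit 2) (nat_lit 4) (nat_lit 256) (nat_lit 173) (nat_lit 171))) (XT.nd (nat_lit 78) (nat_lit 0) (nat_lit 0) (XT.lf (nat_lit 0) (nat_lit 588963151665) (nat_lit 76) (nat_lit 1545026485593) (nat_lit 76) (nat_lit 1544904218204) (nat_lit 1) (nat_lit 4) (nat_lit 2) (nat_lit 5) (nat_lit 2) (nat_lit 4) (nat_lit 257) (nat_lit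 173) (nat_lit 170)) (XT.nd (nat_lit 78) (nat_lit 0) (nat_lit 0) (XT.lf (nat_lit 0) (nat_lit 678508641417) (nat_lit 76) (nat_lit 1776160356335) (nat_lit 76) (nat_lit 1776007471388) (nat_lit 1) (nat_lit 4) (nat_lit 2) (nat_lit 5) (nat_lit 2) (nat_lit 4) (nat_lit 258) (nat_lit 173) (nat_lit 169)) (XT.lf (nat_lit 0) (nat_lit 781399571867) (nat_lit 76) (nat_lit 2042005056745) (nat_lit 76) (nat_lit 2041825547835) (nat_lit 1) (nat_lit 4) (nat_lit 2) (nat_lit 5) (nat_lit 2) (nat_lit 4) (nat_lit 259) (nat_lit 173) (nat_lit 168)))))) (XT.nd (nat_lit 30654) (nat_lit 0) (nat_lit 0) (XT.nd (nat_lit 156) (nat_lit 0) (nat_lit 0) (XT.nd (nat_lit 78) (nat_lit 0) (nat_lit 0) (XT.lf (nat_lit 0) (nat_lit 899649026436) (nat_lit 76) (nat_lit 2347761896180) (nat_lit 76) (nat_lit 2347559235998) (nat_lit 1) (nat_lit 4) (nat_lit 2) (nat_lit 5) (nat_lit 2) (nat_lit 4) (nat_lit 260) (nat_lit 173) (nat_lit 167))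 (XT.lf (nat_lit 0) (nat_lit 1035570581410) (nat_lit 76) (nat_lit 2699413073672) (nat_lit 76) (nat_lit 2699190281948) (nat_lit 1) (nat_lit 4) (nat_lit 2) (nat_lit 5) (nat_lit 2) (nat_lit 4) (nat_lit 261) (nat_lit 173) (nat_lit 166))) (XT.nd (nat_lit 78) (nat_lit 0) (nat_lit 0) (XT.lf (nat_lit 0) (nat_lit 1191823571559) (nat_lit 76) (nat_lit 3103838720955) (nat_lit 76) (nat_lit 3103598423543) (nat_lit 1) (nat_lit 4) (nat_lit 2) (nat_lit 5) (nat_lit 2) (nat_lit 4) (nat_lit 262) (nat_lit 173) (nat_lit 165)) (XT.nd (nat_lit 78) (nat_lit 0) (nat_lit 0) (XT.lf (nat_lit 0) (nat_lit 1371465120604) (nat_lit 76) (nat_lit 3568951513736) (nat_lit 76) (nat_lit 3568695993987) (nat_lit 1) (nat_lit 4) (nat_lit 2) (nat_lit 5) (nat_lit 2) (nat_lit 4) (nat_lit 263) (nat_lit 173) (nat_lit 164)) (XT.lf (nat_lit 0) (nat_lit 1578009954504) (nat_lit 76) (nat_lit 4103851484918) (nat_lit 76) (nat_lit 4103582728354)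 (nat_lit 1) (nat_lit 4) (nat_lit 2) (nat_lit 5) (nat_lit 2) (nat_lit 4) (nat_lit 264) (nat_lit 173) (nat_lit 163))))) (XT.nd (nat_lit 234) (nat_lit 0) (nat_lit 0) (XT.nd (nat_lit 78) (nat_lit 0) (nat_lit 0) (XT.lf (nat_lit 0) (nat_lit 143758883723) (nat_lit 76) (nat_lit 385442455517) (nat_lit 76) (nat_lit 385442455517) (nat_lit 1) (nat_lit 4) (nat_lit 2) (nat_lit 5) (nat_lit 2) (nat_lit 4) (nat_lit 252) (nat_lit 174) (nat_lit 174)) (XT.nd (nat_lit 78) (nat_lit 0) (nat_lit 0) (XT.lf (nat_lit 0) (nat_lit 332423304709) (nat_lit 76) (nat_lit 885617395070) (nat_lit 76) (nat_lit 885563844770) (nat_lit 1) (nat_lit 4) (nat_lit 2) (nat_lit 5) (nat_lit 2) (nat_lit 4) (nat_lit 253) (nat_lit 174) (nat_lit 173)) (XT.lf (nat_lit 0) (nat_lit 383913588564) (nat_lit 76) (nat_lit 1017631022067) (nat_lit 76) (nat_lit 1017530906289) (nat_lit 1) (nat_lit 4) (nat_lit 2) (nat_lit 5) (nat_lit 2) (nat_lit 4)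 (nat_lit 254) (nat_lit 174) (nat_lit 172)))) (XT.nd (nat_lit 78) (nat_lit 0) (nat_lit 0) (XT.lf (nat_lit 0) (nat_lit 442996037609) (nat_lit 76) (nat_lit 1169508667336) (nat_lit 76) (nat_lit 1169368059838) (nat_lit 1) (nat_lit 4) (nat_lit 2) (nat_lit 5) (nat_lit 2) (nat_lit 4) (nat_lit 255) (nat_lit 174) (nat_lit 171)) (XT.nd (nat_lit 78) (nat_lit 0) (nat_lit 0) (XT.lf (nat_lit 0) (nat_lit 510826612803) (nat_lit 76) (nat_lit 1344221850025) (nat_lit 76) (nat_lit 1344046032335) (nat_lit 1) (nat_lit 4) (nat_lit 2) (nat_lit 5) (nat_lit 2) (nat_lit 4) (nat_lit 256) (nat_lit 174) (nat_lit 170)) (XT.lf (nat_lit 0) (nat_lit 588732434096) (nat_lit 76) (nat_lit 1545188871532) (nat_lit 76) (nat_lit 1544982436285) (nat_lit 1) (nat_lit 4) (nat_lit 2) (nat_lit 5) (nat_lit 2) (nat_lit 4) (nat_lit 257) (nat_lit 174) (nat_lit 169))))))))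
noncomputable def xc1 : XT := (XT.nd (nat_lit 31746) (nat_lit 0) (nat_lit 0) (XT.nd (nat_lit 30888) (nat_lit 0) (nat_lit 0) (XT.nd (nat_lit 390) (nat_lit 0) (nat_lit 0) (XT.nd (nat_lit 156) (nat_lit 0) (nat_lit 0) (XT.nd (nat_lit 78) (nat_lit 0) (nat_lit 0) (XT.lf (nat_lit 0) (nat_lit 678237745818) (nat_lit 76) (nat_lit 1776341695324) (nat_lit 76) (nat_lit 1776108636114) (nat_lit 1) (nat_lit 4) (nat_lit 2) (nat_lit 5) (nat_lit 2) (nat_lit 4) (nat_lit 258) (nat_lit 174) (nat_lit 168)) (XT.lf (nat_lit 0) (nat_lit 781093738850) (nat_lit 76) (nat_lit 2042202876647) (nat_lit 76) (nat_lit 2041946666165) (nat_lit 1) (nat_lit 4) (nat_lit 2) (nat_lit 5) (nat_lit 2) (nat_lit 4) (nat_lit 259) (nat_lit 174) (nat_lit 167))) (XT.nd (nat_lit 78) (nat_lit 0) (nat_lit 0) (XT.lf (nat_lit 0) (nat_lit 899312813056) (nat_lit 76) (nat_lit 2347974047311) (nat_lit 76) (nat_lit 2347697705287) (nat_lit 1) (nat_lit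 4) (nat_lit 2) (nat_lit 5) (nat_lit 2) (nat_lit 4) (nat_lit 260) (nat_lit 174) (nat_lit 166)) (XT.nd (nat_lit 78) (nat_lit 0) (nat_lit 0) (XT.lf (nat_lit 0) (nat_lit 1035207950323) (nat_lit 76) (nat_lit 2699637686741) (nat_lit 76) (nat_lit 2699343839030) (nat_lit 1) (nat_lit 4) (nat_lit 2) (nat_lit 5) (nat_lit 2) (nat_lit 4) (nat_lit 261) (nat_lit 174) (nat_lit 165)) (XT.lf (nat_lit 0) (nat_lit 1191437968552) (nat_lit 76) (nat_lit 3104074170492) (nat_lit 76) (nat_lit 3103765100443) (nat_lit 1) (nat_lit 4) (nat_lit 2) (nat_lit 5) (nat_lit 2) (nat_lit 4) (nat_lit 262) (nat_lit 174) (nat_lit 164))))) (XT.nd (nat_lit 30264) (nat_lit 0) (nat_lit 0) (XT.nd (nat_lit 78) (nat_lit 0) (nat_lit 0) (XT.lf (nat_lit 0) (nat_lit 1371059542016) (nat_lit 76) (nat_lit 3569196386289) (nat_lit 76) (nat_lit 3568874079424) (nat_lit 1) (nat_lit 4) (nat_lit 2) (nat_lit 5) (nat_lit 2) (nat_lit 4) (nat_lit 263)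 (nat_lit 174) (nat_lit 163)) (XT.lf (nat_lit 0) (nat_lit 1577587005845) (nat_lit 76) (nat_lit 4104104551397) (nat_lit 76) (nat_lit 4103770734259) (nat_lit 1) (nat_lit 4) (nat_lit 2) (nat_lit 5) (nat_lit 2) (nat_lit 4) (nat_lit 264) (nat_lit 174) (nat_lit 162))) (XT.nd (nat_lit 78) (nat_lit 0) (nat_lit 0) (XT.lf (nat_lit 0) (nat_lit 107075581396) (nat_lit 76) (nat_lit 292298120577) (nat_lit 76) (nat_lit 292298120577) (nat_lit 1) (nat_lit 4) (nat_lit 2) (nat_lit 5) (nat_lit 2) (nat_lit 4) (nat_lit 250) (nat_lit 175) (nat_lit 175)) (XT.nd (nat_lit 78) (nat_lit 0) (nat_lit 0) (XT.lf (nat_lit 0) (nat_lit 248318390179) (nat_lit 76) (nat_lit 671250386815) (nat_lit 76) (nat_lit 671188803970) (nat_lit 1) (nat_lit 4) (nat_lit 2) (nat_lit 5) (nat_lit 2) (nat_lit 4) (nat_lit 251) (nat_lit 175) (nat_lit 174)) (XT.lf (nat_lit 0) (nat_lit 287436955077) (nat_lit 76) (nat_lit 770984615233) (nat_lit 76)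 (nat_lit 770869482089) (nat_lit 1) (nat_lit 4) (nat_lit 2) (nat_lit 5) (nat_lit 2) (nat_lit 4) (nat_lit 252) (nat_lit 175) (nat_lit 173)))))) (XT.nd (nat_lit 390) (nat_lit 0) (nat_lit 0) (XT.nd (nat_lit 156) (nat_lit 0) (nat_lit 0) (XT.nd (nat_lit 78) (nat_lit 0) (nat_lit 0) (XT.lf (nat_lit 0) (nat_lit 332272220713) (nat_lit 76) (nat_lit 885750248271) (nat_lit 76) (nat_lit 885588549649) (nat_lit 1) (nat_lit 4) (nat_lit 2) (nat_lit 5) (nat_lit 2) (nat_lit 4) (nat_lit 253) (nat_lit 175) (nat_lit 172)) (XT.lf (nat_lit 0) (nat_lit 383701398805) (nat_lit 76) (nat_lit 1017792700488) (nat_lit 76) (nat_lit 1017590510146) (nat_lit 1) (nat_lit 4) (nat_lit 2) (nat_lit 5) (nat_lit 2) (nat_lit 4) (nat_lit 254) (nat_lit 175) (nat_lit 171))) (XT.nd (nat_lit 78) (nat_lit 0) (nat_lit 0) (XT.lf (nat_lit 0) (nat_lit 442730712405) (nat_lit 76) (nat_lit 1169695411166) (nat_lit 76) (nat_lit 1169458010632)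 (nat_lit 1) (nat_lit 4) (nat_lit 2) (nat_lit 5) (nat_lit 2) (nat_lit 4) (nat_lit 255) (nat_lit 175) (nat_lit 170)) (XT.nd (nat_lit 78) (nat_lit 0) (nat_lit 0) (XT.lf (nat_lit 0) (nat_lit 510515082864) (nat_lit 76) (nat_lit 1344430389862) (nat_lit 76) (nat_lit 1344162371770) (nat_lit 1) (nat_lit 4) (nat_lit 2) (nat_lit 5) (nat_lit 2) (nat_lit 4) (nat_lit 256) (nat_lit 175) (nat_lit 169)) (XT.lf (nat_lit 0) (nat_lit 588380726127) (nat_lit 76) (nat_lit 1545416364420) (nat_lit 76) (nat_lit 1545121722365) (nat_lit 1) (nat_lit 4) (nat_lit 2) (nat_lit 5) (nat_lit 2) (nat_lit 4) (nat_lit 257) (nat_lit 175) (nat_lit 168))))) (XT.nd (nat_lit 234) (nat_lit 0) (nat_lit 0) (XT.nd (nat_lit 78) (nat_lit 0) (nat_lit 0) (XT.lf (nat_lit 0) (nat_lit 677851100431) (nat_lit 76) (nat_lit 1776585669124) (nat_lit 76) (nat_lit 1776267875797) (nat_lit 1) (nat_lit 4) (nat_lit 2) (nat_lit 5) (nat_lit 2) (nat_lit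 4) (nat_lit 258) (nat_lit 175) (nat_lit 167)) (XT.nd (nat_lit 78) (nat_lit 0) (nat_lit 0) (XT.lf (nat_lit 0) (nat_lit 780676713100) (nat_lit 76) (nat_lit 2042461181677) (nat_lit 76) (nat_lit 2042123256808) (nat_lit 1) (nat_lit 4) (nat_lit 2) (nat_lit 5) (nat_lit 2) (nat_lit 4) (nat_lit 259) (nat_lit 175) (nat_lit 166)) (XT.lf (nat_lit 0) (nat_lit 898869369599) (nat_lit 76) (nat_lit 2348244814278) (nat_lit 76) (nat_lit 2347889383722) (nat_lit 1) (nat_lit 4) (nat_lit 2) (nat_lit 5) (nat_lit 2) (nat_lit 4) (nat_lit 260) (nat_lit 175) (nat_lit 165)))) (XT.nd (nat_lit 78) (nat_lit 0) (nat_lit 0) (XT.lf (nat_lit 0) (nat_lit 1034741534946) (nat_lit 76) (nat_lit 2699919290176) (nat_lit 76) (nat_lit 2699548637283) (nat_lit 1) (nat_lit 4) (nat_lit 2) (nat_lit 5) (nat_lit 2) (nat_lit 4) (nat_lit 261) (nat_lit 175) (nat_lit 164)) (XT.nd (nat_lit 78) (nat_lit 0) (nat_lit 0) (XT.lf (nat_lit 0) (nat_lit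 1190951577594) (nat_lit 76) (nat_lit 3104365196943) (nat_lit 76) (nat_lit 3103981307234) (nat_lit 1) (nat_lit 4) (nat_lit 2) (nat_lit 5) (nat_lit 2) (nat_lit 4) (nat_lit 262) (nat_lit 175) (nat_lit 163)) (XT.lf (nat_lit 0) (nat_lit 1370555780986) (nat_lit 76) (nat_lit 3569495606666) (nat_lit 76) (nat_lit 3569100206683) (nat_lit 1) (nat_lit 4) (nat_lit 2) (nat_lit 5) (nat_lit 2) (nat_lit 4) (nat_lit 263) (nat_lit 175) (nat_lit 162))))))) (XT.nd (nat_lit 30732) (nat_lit 0) (nat_lit 0) (XT.nd (nat_lit 30342) (nat_lit 0) (nat_lit 0) (XT.nd (nat_lit 30108) (nat_lit 0) (nat_lit 0) (XT.nd (nat_lit 30030) (nat_lit 0) (nat_lit 0) (XT.lf (nat_lit 0) (nat_lit 1577068140405) (nat_lit 76) (nat_lit 4104410896928) (nat_lit 76) (nat_lit 4104005488011) (nat_lit 1) (nat_lit 4) (nat_lit 2) (nat_lit 5) (nat_lit 2) (nat_lit 4) (nat_lit 264) (nat_lit 175) (nat_lit 161)) (XT.lf (nat_lit 0) (nat_lit 79093716424)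 (nat_lit 76) (nat_lit 221994858877) (nat_lit 76) (nat_lit 221994858877) (nat_lit 1) (nat_lit 4) (nat_lit 2) (nat_lit 5) (nat_lit 2) (nat_lit 4) (nat_lit 248) (nat_lit 176) (nat_lit 176))) (XT.nd (nat_lit 78) (nat_lit 0) (nat_lit 0) (XT.lf (nat_lit 0) (nat_lit 184266783688) (nat_lit 76) (nat_lit 509397591327) (nat_lit 76) (nat_lit 509326771056) (nat_lit 1) (nat_lit 4) (nat_lit 2) (nat_lit 5) (nat_lit 2) (nat_lit 4) (nat_lit 249) (nat_lit 176) (nat_lit 175)) (XT.nd (nat_lit 78) (nat_lit 0) (nat_lit 0) (XT.lf (nat_lit 0) (nat_lit 214058228568) (nat_lit 76) (nat_lit 584710900982) (nat_lit 76) (nat_lit 584578497866) (nat_lit 1) (nat_lit 4) (nat_lit 2) (nat_lit 5) (nat_lit 2) (nat_lit 4) (nat_lit 250) (nat_lit 176) (nat_lit 174)) (XT.lf (nat_lit 0) (nat_lit 248144643583) (nat_lit 76) (nat_lit 671403167996) (nat_lit 76) (nat_lit 671217214580) (nat_lit 1) (nat_lit 4) (nat_lit 2) (nat_lit 5) (nat_lit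 2) (nat_lit 4) (nat_lit 251) (nat_lit 176) (nat_lit 173))))) (XT.nd (nat_lit 156) (nat_lit 0) (nat_lit 0) (XT.nd (nat_lit 78) (nat_lit 0) (nat_lit 0) (XT.lf (nat_lit 0) (nat_lit 287192936854) (nat_lit 76) (nat_lit 771170545418) (nat_lit 76) (nat_lit 770938026524) (nat_lit 1) (nat_lit 4) (nat_lit 2) (nat_lit 5) (nat_lit 2) (nat_lit 4) (nat_lit 252) (nat_lit 176) (nat_lit 172)) (XT.lf (nat_lit 0) (nat_lit 331967096728) (nat_lit 76) (nat_lit 885965003676) (nat_lit 76) (nat_lit 885691993062) (nat_lit 1) (nat_lit 4) (nat_lit 2) (nat_lit 5) (nat_lit 2) (nat_lit 4) (nat_lit 253) (nat_lit 176) (nat_lit 171))) (XT.nd (nat_lit 78) (nat_lit 0) (nat_lit 0) (XT.lf (nat_lit 0) (nat_lit 383343139376) (nat_lit 76) (nat_lit 1018032521301) (nat_lit 76) (nat_lit 1017724300496) (nat_lit 1) (nat_lit 4) (nat_lit 2) (nat_lit 5) (nat_lit 2) (nat_lit 4) (nat_lit 254) (nat_lit 176) (nat_lit 170)) (XT.nd (nat_lit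 78) (nat_lit 0) (nat_lit 0) (XT.lf (nat_lit 0) (nat_lit 442326248241) (nat_lit 76) (nat_lit 1169957027987) (nat_lit 76) (nat_lit 1169618189624) (nat_lit 1) (nat_lit 4) (nat_lit 2) (nat_lit 5) (nat_lit 2) (nat_lit 4) (nat_lit 255) (nat_lit 176) (nat_lit 169)) (XT.lf (nat_lit 0) (nat_lit 510070440669) (nat_lit 76) (nat_lit 1344710959733) (nat_lit 76) (nat_lit 1344345497406) (nat_lit 1) (nat_lit 4) (nat_lit 2) (nat_lit 5) (nat_lit 2) (nat_lit 4) (nat_lit 256) (nat_lit 176) (nat_lit 168)))))) (XT.nd (nat_lit 390) (nat_lit 0) (nat_lit 0) (XT.nd (nat_lit 156) (nat_lit 0) (nat_lit 0) (XT.nd (nat_lit 78) (nat_lit 0) (nat_lit 0) (XT.lf (nat_lit 0) (nat_lit 587901146515) (nat_lit 76) (nat_lit 1545713415203) (nat_lit 76) (nat_lit 1545324801605) (nat_lit 1) (nat_lit 4) (nat_lit 2) (nat_lit 5) (nat_lit 2) (nat_lit 4) (nat_lit 257) (nat_lit 176) (nat_lit 167)) (XT.lf (nat_lit 0) (nat_lit 677341140456)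 (nat_lit 76) (nat_lit 1776897051137) (nat_lit 76) (nat_lit 1776488305997) (nat_lit 1) (nat_lit 4) (nat_lit 2) (nat_lit 5) (nat_lit 2) (nat_lit 4) (nat_lit 258) (nat_lit 176) (nat_lit 166))) (XT.nd (nat_lit 78) (nat_lit 0) (nat_lit 0) (XT.lf (nat_lit 0) (nat_lit 780140335417) (nat_lit 76) (nat_lit 2042785025627) (nat_lit 76) (nat_lit 2042358774799) (nat_lit 1) (nat_lit 4) (nat_lit 2) (nat_lit 5) (nat_lit 2) (nat_lit 4) (nat_lit 259) (nat_lit 176) (nat_lit 165)) (XT.nd (nat_lit 78) (nat_lit 0) (nat_lit 0) (XT.lf (nat_lit 0) (nat_lit 898310019997) (nat_lit 76) (nat_lit 2348579494697) (nat_lit 76) (nat_lit 2348138021532) (nat_lit 1) (nat_lit 4) (nat_lit 2) (nat_lit 5) (nat_lit 2) (nat_lit 4) (nat_lit 260) (nat_lit 176) (nat_lit 164)) (XT.lf (nat_lit 0) (nat_lit 1034162209762) (nat_lit 76) (nat_lit 2700263393610) (nat_lit 76) (nat_lit 2699808683630) (nat_lit 1) (nat_lit 4) (nat_lit 2) (nat_lit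 5) (nat_lit 2) (nat_lit 4) (nat_lit 261) (nat_lit 176) (nat_lit 163))))) (XT.nd (nat_lit 30030) (nat_lit 0) (nat_lit 0) (XT.nd (nat_lit 78) (nat_lit 0) (nat_lit 0) (XT.lf (nat_lit 0) (nat_lit 1190354882338) (nat_lit 76) (nat_lit 3104717494303) (nat_lit 76) (nat_lit 3104251274049) (nat_lit 1) (nat_lit 4) (nat_lit 2) (nat_lit 5) (nat_lit 2) (nat_lit 4) (nat_lit 262) (nat_lit 176) (nat_lit 162)) (XT.nd (nat_lit 78) (nat_lit 0) (nat_lit 0) (XT.lf (nat_lit 0) (nat_lit 1369943981320) (nat_lit 76) (nat_lit 3569855029180) (nat_lit 76) (nat_lit 3569378799992) (nat_lit 1) (nat_lit 4) (nat_lit 2) (nat_lit 5) (nat_lit 2) (nat_lit 4) (nat_lit 263) (nat_lit 176) (nat_lit 161)) (XT.lf (nat_lit 0) (nat_lit 1576443206470) (nat_lit 76) (nat_lit 4104776515227) (nat_lit 76) (nat_lit 4104291582618) (nat_lit 1) (nat_lit 4) (nat_lit 2) (nat_lit 5) (nat_lit 2) (nat_lit 4) (nat_lit 264) (nat_lit 176) (nat_lit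 160)))) (XT.nd (nat_lit 78) (nat_lit 0) (nat_lit 0) (XT.lf (nat_lit 0) (nat_lit 57654785471) (nat_lit 76) (nat_lit 168981815658) (nat_lit 76) (nat_lit 168981815658) (nat_lit 1) (nat_lit 4) (nat_lit 2) (nat_lit 5) (nat_lit 2) (nat_lit 4) (nat_lit 246) (nat_lit 177) (nat_lit 177)) (XT.nd (nat_lit 78) (nat_lit 0) (nat_lit 0) (XT.lf (nat_lit 0) (nat_lit 135309927882) (nat_lit 76) (nat_lit 387289004310) (nat_lit 76) (nat_lit 387207560998) (nat_lit 1) (nat_lit 4) (nat_lit 2) (nat_lit 5) (nat_lit 2) (nat_lit 4) (nat_lit 247) (nat_lit 177) (nat_lit 176)) (XT.lf (nat_lit 0) (nat_lit 158080558489) (nat_lit 76) (nat_lit 444121576556) (nat_lit 76) (nat_lit 443969312973) (nat_lit 1) (nat_lit 4) (nat_lit 2) (nat_lit 5) (nat_lit 2) (nat_lit 4) (nat_lit 248) (nat_lit 177) (nat_lit 175))))))))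
noncomputable def xc2 : XT := (XT.nd (nat_lit 31356) (nat_lit 0) (nat_lit 0) (XT.nd (nat_lit 780) (nat_lit 0) (nat_lit 0) (XT.nd (nat_lit 390) (nat_lit 0) (nat_lit 0) (XT.nd (nat_lit 156) (nat_lit 0) (nat_lit 0) (XT.nd (nat_lit 78) (nat_lit 0) (nat_lit 0) (XT.lf (nat_lit 0) (nat_lit 184066975103) (nat_lit 76) (nat_lit 509573289686) (nat_lit 76) (nat_lit 509359443257) (nat_lit 1) (nat_lit 4) (nat_lit 2) (nat_lit 5) (nat_lit 2) (nat_lit 4) (nat_lit 249) (nat_lit 177) (nat_lit 174)) (XT.lf (nat_lit 0) (nat_lit 213777607612) (nat_lit 76) (nat_lit 584924720694) (nat_lit 76) (nat_lit 584657323966) (nat_lit 1) (nat_lit 4) (nat_lit 2) (nat_lit 5) (nat_lit 2) (nat_lit 4) (nat_lit 250) (nat_lit 177) (nat_lit 173))) (XT.nd (nat_lit 78) (nat_lit 0) (nat_lit 0) (XT.lf (nat_lit 0) (nat_lit 247793751001) (nat_lit 76) (nat_lit 671650136711) (nat_lit 76) (nat_lit 671336174505) (nat_lit 1) (nat_lit 4)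 (nat_lit 2) (nat_lit 5) (nat_lit 2) (nat_lit 4) (nat_lit 251) (nat_lit 177) (nat_lit 172)) (XT.nd (nat_lit 78) (nat_lit 0) (nat_lit 0) (XT.lf (nat_lit 0) (nat_lit 286780938511) (nat_lit 76) (nat_lit 771446339353) (nat_lit 76) (nat_lit 771091885426) (nat_lit 1) (nat_lit 4) (nat_lit 2) (nat_lit 5) (nat_lit 2) (nat_lit 4) (nat_lit 252) (nat_lit 177) (nat_lit 171)) (XT.lf (nat_lit 0) (nat_lit 331501962939) (nat_lit 76) (nat_lit 886265863019) (nat_lit 76) (nat_lit 885876198902) (nat_lit 1) (nat_lit 4) (nat_lit 2) (nat_lit 5) (nat_lit 2) (nat_lit 4) (nat_lit 253) (nat_lit 177) (nat_lit 170))))) (XT.nd (nat_lit 156) (nat_lit 0) (nat_lit 0) (XT.nd (nat_lit 78) (nat_lit 0) (nat_lit 0) (XT.lf (nat_lit 0) (nat_lit 382831800852) (nat_lit 76) (nat_lit 1018355176652) (nat_lit 76) (nat_lit 1017934894977) (nat_lit 1) (nat_lit 4) (nat_lit 2) (nat_lit 5) (nat_lit 2) (nat_lit 4) (nat_lit 254) (nat_lit 177)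 (nat_lit 169)) (XT.lf (nat_lit 0) (nat_lit 441774731686) (nat_lit 76) (nat_lit 1170298636388) (nat_lit 76) (nat_lit 1169851730749) (nat_lit 1) (nat_lit 4) (nat_lit 2) (nat_lit 5) (nat_lit 2) (nat_lit 4) (nat_lit 255) (nat_lit 177) (nat_lit 168))) (XT.nd (nat_lit 78) (nat_lit 0) (nat_lit 0) (XT.lf (nat_lit 0) (nat_lit 509483986697) (nat_lit 76) (nat_lit 1345069049047) (nat_lit 76) (nat_lit 1344598992136) (nat_lit 1) (nat_lit 4) (nat_lit 2) (nat_lit 5) (nat_lit 2) (nat_lit 4) (nat_lit 256) (nat_lit 177) (nat_lit 167)) (XT.nd (nat_lit 78) (nat_lit 0) (nat_lit 0) (XT.lf (nat_lit 0) (nat_lit 587284312179) (nat_lit 76) (nat_lit 1546085835746) (nat_lit 76) (nat_lit 1545595647295) (nat_lit 1) (nat_lit 4) (nat_lit 2) (nat_lit 5) (nat_lit 2) (nat_lit 4) (nat_lit 257) (nat_lit 177) (nat_lit 166)) (XT.lf (nat_lit 0) (nat_lit 676697888413) (nat_lit 76) (nat_lit 1777281933618) (nat_lit 76) (nat_lit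 1776774239478) (nat_lit 1) (nat_lit 4) (nat_lit 2) (nat_lit 5) (nat_lit 2) (nat_lit 4) (nat_lit 258) (nat_lit 177) (nat_lit 165)))))) (XT.nd (nat_lit 30108) (nat_lit 0) (nat_lit 0) (XT.nd (nat_lit 156) (nat_lit 0) (nat_lit 0) (XT.nd (nat_lit 78) (nat_lit 0) (nat_lit 0) (XT.lf (nat_lit 0) (nat_lit 779474111455) (nat_lit 76) (nat_lit 2043180744576) (nat_lit 76) (nat_lit 2042657828099) (nat_lit 1) (nat_lit 4) (nat_lit 2) (nat_lit 5) (nat_lit 2) (nat_lit 4) (nat_lit 259) (nat_lit 177) (nat_lit 164)) (XT.lf (nat_lit 0) (nat_lit 897623820453) (nat_lit 76) (nat_lit 2348984636661) (nat_lit 76) (nat_lit 2348448483369) (nat_lit 1) (nat_lit 4) (nat_lit 2) (nat_lit 5) (nat_lit 2) (nat_lit 4) (nat_lit 260) (nat_lit 177) (nat_lit 163))) (XT.nd (nat_lit 78) (nat_lit 0) (nat_lit 0) (XT.lf (nat_lit 0) (nat_lit 1033458640147) (nat_lit 76) (nat_lit 2700676729501) (nat_lit 76) (nat_lit 2700129065935) (nat_lit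 1) (nat_lit 4) (nat_lit 2) (nat_lit 5) (nat_lit 2) (nat_lit 4) (nat_lit 261) (nat_lit 177) (nat_lit 162)) (XT.nd (nat_lit 78) (nat_lit 0) (nat_lit 0) (XT.lf (nat_lit 0) (nat_lit 1189636208313) (nat_lit 76) (nat_lit 3105137955348) (nat_lit 76) (nat_lit 3104580282847) (nat_lit 1) (nat_lit 4) (nat_lit 2) (nat_lit 5) (nat_lit 2) (nat_lit 4) (nat_lit 262) (nat_lit 177) (nat_lit 161)) (XT.lf (nat_lit 0) (nat_lit 1369212173026) (nat_lit 76) (nat_lit 3570281686010) (nat_lit 76) (nat_lit 3569715310089) (nat_lit 1) (nat_lit 4) (nat_lit 2) (nat_lit 5) (nat_lit 2) (nat_lit 4) (nat_lit 263) (nat_lit 177) (nat_lit 160))))) (XT.nd (nat_lit 234) (nat_lit 0) (nat_lit 0) (XT.nd (nat_lit 78) (nat_lit 0) (nat_lit 0) (XT.lf (nat_lit 0) (nat_lit 41121159498) (nat_lit 76) (nat_lit 129064610086) (nat_lit 76) (nat_lit 129064610086) (nat_lit 1) (nat_lit 4) (nat_lit 2) (nat_lit 5) (nat_lit 2) (nat_lit 4) (nat_lit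 244) (nat_lit 178) (nat_lit 178)) (XT.nd (nat_lit 78) (nat_lit 0) (nat_lit 0) (XT.lf (nat_lit 0) (nat_lit 97688176339) (nat_lit 76) (nat_lit 295274055739) (nat_lit 76) (nat_lit 295180395930) (nat_lit 1) (nat_lit 4) (nat_lit 2) (nat_lit 5) (nat_lit 2) (nat_lit 4) (nat_lit 245) (nat_lit 178) (nat_lit 177)) (XT.lf (nat_lit 0) (nat_lit 115186665429) (nat_lit 76) (nat_lit 338115268939) (nat_lit 76) (nat_lit 337940165818) (nat_lit 1) (nat_lit 4) (nat_lit 2) (nat_lit 5) (nat_lit 2) (nat_lit 4) (nat_lit 246) (nat_lit 178) (nat_lit 176)))) (XT.nd (nat_lit 78) (nat_lit 0) (nat_lit 0) (XT.lf (nat_lit 0) (nat_lit 135080148009) (nat_lit 76) (nat_lit 387491057423) (nat_lit 76) (nat_lit 387245134030) (nat_lit 1) (nat_lit 4) (nat_lit 2) (nat_lit 5) (nat_lit 2) (nat_lit 4) (nat_lit 247) (nat_lit 178) (nat_lit 175)) (XT.nd (nat_lit 78) (nat_lit 0) (nat_lit 0) (XT.lf (nat_lit 0) (nat_lit 157757844390) (nat_lit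 76) (nat_lit 444367469225) (nat_lit 76) (nat_lit 444059962988) (nat_lit 1) (nat_lit 4) (nat_lit 2) (nat_lit 5) (nat_lit 2) (nat_lit 4) (nat_lit 248) (nat_lit 178) (nat_lit 174)) (XT.lf (nat_lit 0) (nat_lit 183663448634) (nat_lit 76) (nat_lit 509857303708) (nat_lit 76) (nat_lit 509496247171) (nat_lit 1) (nat_lit 4) (nat_lit 2) (nat_lit 5) (nat_lit 2) (nat_lit 4) (nat_lit 249) (nat_lit 178) (nat_lit 173))))))) (XT.nd (nat_lit 780) (nat_lit 0) (nat_lit 0) (XT.nd (nat_lit 390) (nat_lit 0) (nat_lit 0) (XT.nd (nat_lit 156) (nat_lit 0) (nat_lit 0) (XT.nd (nat_lit 78) (nat_lit 0) (nat_lit 0) (XT.lf (nat_lit 0) (nat_lit 213303809517) (nat_lit 76) (nat_lit 585241883720) (nat_lit 76) (nat_lit 584834261704) (nat_lit 1) (nat_lit 4) (nat_lit 2) (nat_lit 5) (nat_lit 2) (nat_lit 4) (nat_lit 250) (nat_lit 178) (nat_lit 172)) (XT.lf (nat_lit 0) (nat_lit 247258847144) (nat_lit 76) (nat_lit 671996124956)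 (nat_lit 76) (nat_lit 671548011221) (nat_lit 1) (nat_lit 4) (nat_lit 2) (nat_lit 5) (nat_lit 2) (nat_lit 4) (nat_lit 251) (nat_lit 178) (nat_lit 171))) (XT.nd (nat_lit 78) (nat_lit 0) (nat_lit 0) (XT.lf (nat_lit 0) (nat_lit 286192899208) (nat_lit 76) (nat_lit 771817393006) (nat_lit 76) (nat_lit 771334069080) (nat_lit 1) (nat_lit 4) (nat_lit 2) (nat_lit 5) (nat_lit 2) (nat_lit 4) (nat_lit 252) (nat_lit 178) (nat_lit 170)) (XT.nd (nat_lit 78) (nat_lit 0) (nat_lit 0) (XT.lf (nat_lit 0) (nat_lit 330867718902) (nat_lit 76) (nat_lit 886658712681) (nat_lit 76) (nat_lit 886144771197) (nat_lit 1) (nat_lit 4) (nat_lit 2) (nat_lit 5) (nat_lit 2) (nat_lit 4) (nat_lit 253) (nat_lit 178) (nat_lit 169)) (XT.lf (nat_lit 0) (nat_lit 382157378784) (nat_lit 76) (nat_lit 1018766979364) (nat_lit 76) (nat_lit 1018226413916) (nat_lit 1) (nat_lit 4) (nat_lit 2) (nat_lit 5) (nat_lit 2) (nat_lit 4) (nat_lit 254)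 (nat_lit 178) (nat_lit 168))))) (XT.nd (nat_lit 156) (nat_lit 0) (nat_lit 0) (XT.nd (nat_lit 78) (nat_lit 0) (nat_lit 0) (XT.lf (nat_lit 0) (nat_lit 441065372200) (nat_lit 76) (nat_lit 1170726920012) (nat_lit 76) (nat_lit 1170163203293) (nat_lit 1) (nat_lit 4) (nat_lit 2) (nat_lit 5) (nat_lit 2) (nat_lit 4) (nat_lit 255) (nat_lit 178) (nat_lit 167)) (XT.lf (nat_lit 0) (nat_lit 508744246848) (nat_lit 76) (nat_lit 1345511663900) (nat_lit 76) (nat_lit 1344927815639) (nat_lit 1) (nat_lit 4) (nat_lit 2) (nat_lit 5) (nat_lit 2) (nat_lit 4) (nat_lit 256) (nat_lit 178) (nat_lit 166))) (XT.nd (nat_lit 78) (nat_lit 0) (nat_lit 0) (XT.lf (nat_lit 0) (nat_lit 586518154623) (nat_lit 76) (nat_lit 1546540912538) (nat_lit 76) (nat_lit 1545939558589) (nat_lit 1) (nat_lit 4) (nat_lit 2) (nat_lit 5) (nat_lit 2) (nat_lit 4) (nat_lit 257) (nat_lit 178) (nat_lit 165)) (XT.nd (nat_lit 78) (nat_lit 0) (nat_lit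 0) (XT.lf (nat_lit 0) (nat_lit 675908758938) (nat_lit 76) (nat_lit 1777747846877) (nat_lit 76) (nat_lit 1777131270591) (nat_lit 1) (nat_lit 4) (nat_lit 2) (nat_lit 5) (nat_lit 2) (nat_lit 4) (nat_lit 258) (nat_lit 178) (nat_lit 164)) (XT.lf (nat_lit 0) (nat_lit 778665006398) (nat_lit 76) (nat_lit 2043656080851) (nat_lit 76) (nat_lit 2043026267749) (nat_lit 1) (nat_lit 4) (nat_lit 2) (nat_lit 5) (nat_lit 2) (nat_lit 4) (nat_lit 259) (nat_lit 178) (nat_lit 163)))))) (XT.nd (nat_lit 29952) (nat_lit 0) (nat_lit 0) (XT.nd (nat_lit 156) (nat_lit 0) (nat_lit 0) (XT.nd (nat_lit 78) (nat_lit 0) (nat_lit 0) (XT.lf (nat_lit 0) (nat_lit 896797345324) (nat_lit 76) (nat_lit 2349468166863) (nat_lit 76) (nat_lit 2348826843487) (nat_lit 1) (nat_lit 4) (nat_lit 2) (nat_lit 5) (nat_lit 2) (nat_lit 4) (nat_lit 260) (nat_lit 178) (nat_lit 162)) (XT.lf (nat_lit 0) (nat_lit 1032617060608) (nat_lit 76) (nat_lit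 2701167384856) (nat_lit 76) (nat_lit 2700516052547) (nat_lit 1) (nat_lit 4) (nat_lit 2) (nat_lit 5) (nat_lit 2) (nat_lit 4) (nat_lit 261) (nat_lit 178) (nat_lit 161))) (XT.nd (nat_lit 78) (nat_lit 0) (nat_lit 0) (XT.lf (nat_lit 0) (nat_lit 1188781494506) (nat_lit 76) (nat_lit 3105634806488) (nat_lit 76) (nat_lit 3104974770758) (nat_lit 1) (nat_lit 4) (nat_lit 2) (nat_lit 5) (nat_lit 2) (nat_lit 4) (nat_lit 262) (nat_lit 178) (nat_lit 160)) (XT.nd (nat_lit 29640) (nat_lit 0) (nat_lit 0) (XT.lf (nat_lit 0) (nat_lit 1368346038114) (nat_lit 76) (nat_lit 3570783924790) (nat_lit 76) (nat_lit 3570116320868) (nat_lit 1) (nat_lit 4) (nat_lit 2) (nat_lit 5) (nat_lit 2) (nat_lit 4) (nat_lit 263) (nat_lit 178) (nat_lit 159)) (XT.lf (nat_lit 0) (nat_lit 28248241707) (nat_lit 76) (nat_lit 99074979919) (nat_lit 76) (nat_lit 99074979919) (nat_lit 1) (nat_lit 4) (nat_lit 2) (nat_lit 5) (nat_lit 2) (nat_lit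 4) (nat_lit 242) (nat_lit 179) (nat_lit 179))))) (XT.nd (nat_lit 234) (nat_lit 0) (nat_lit 0) (XT.nd (nat_lit 78) (nat_lit 0) (nat_lit 0) (XT.lf (nat_lit 0) (nat_lit 68546891844) (nat_lit 76) (nat_lit 226061724237) (nat_lit 76) (nat_lit 225954015457) (nat_lit 1) (nat_lit 4) (nat_lit 2) (nat_lit 5) (nat_lit 2) (nat_lit 4) (nat_lit 243) (nat_lit 179) (nat_lit 178)) (XT.nd (nat_lit 78) (nat_lit 0) (nat_lit 0) (XT.lf (nat_lit 0) (nat_lit 82100977655) (nat_lit 76) (nat_lit 258303603438) (nat_lit 76) (nat_lit 258102234849) (nat_lit 1) (nat_lit 4) (nat_lit 2) (nat_lit 5) (nat_lit 2) (nat_lit 4) (nat_lit 244) (nat_lit 179) (nat_lit 177)) (XT.lf (nat_lit 0) (nat_lit 97423929485) (nat_lit 76) (nat_lit 295506416818) (nat_lit 76) (nat_lit 295223604916) (nat_lit 1) (nat_lit 4) (nat_lit 2) (nat_lit 5) (nat_lit 2) (nat_lit 4) (nat_lit 245) (nat_lit 179) (nat_lit 176)))) (XT.nd (nat_lit 78) (nat_lit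 0) (nat_lit 0) (XT.lf (nat_lit 0) (nat_lit 114815544215) (nat_lit 76) (nat_lit 338398045508) (nat_lit 76) (nat_lit 338044413335) (nat_lit 1) (nat_lit 4) (nat_lit 2) (nat_lit 5) (nat_lit 2) (nat_lit 4) (nat_lit 246) (nat_lit 179) (nat_lit 175)) (XT.nd (nat_lit 78) (nat_lit 0) (nat_lit 0) (XT.lf (nat_lit 0) (nat_lit 134616092569) (nat_lit 76) (nat_lit 387817673548) (nat_lit 76) (nat_lit 387402458531) (nat_lit 1) (nat_lit 4) (nat_lit 2) (nat_lit 5) (nat_lit 2) (nat_lit 4) (nat_lit 247) (nat_lit 179) (nat_lit 174)) (XT.lf (nat_lit 0) (nat_lit 157212976581) (nat_lit 76) (nat_lit 444732206704) (nat_lit 76) (nat_lit 444263441387) (nat_lit 1) (nat_lit 4) (nat_lit 2) (nat_lit 5) (nat_lit 2) (nat_lit 4) (nat_lit 248) (nat_lit 179) (nat_lit 173))))))))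
noncomputable def xc3 : XT := (XT.nd (nat_lit 31044) (nat_lit 0) (nat_lit 0) (XT.nd (nat_lit 780) (nat_lit 0) (nat_lit 0) (XT.nd (nat_lit 390) (nat_lit 0) (nat_lit 0) (XT.nd (nat_lit 156) (nat_lit 0) (nat_lit 0) (XT.nd (nat_lit 78) (nat_lit 0) (nat_lit 0) (XT.lf (nat_lit 0) (nat_lit 183048309198) (nat_lit 76) (nat_lit 510255190190) (nat_lit 76) (nat_lit 509739859394) (nat_lit 1) (nat_lit 4) (nat_lit 2) (nat_lit 5) (nat_lit 2) (nat_lit 4) (nat_lit 249) (nat_lit 179) (nat_lit 172)) (XT.lf (nat_lit 0) (nat_lit 212627564319) (nat_lit 76) (nat_lit 585668595421) (nat_lit 76) (nat_lit 585112772906) (nat_lit 1) (nat_lit 4) (nat_lit 2) (nat_lit 5) (nat_lit 2) (nat_lit 4) (nat_lit 250) (nat_lit 179) (nat_lit 171))) (XT.nd (nat_lit 78) (nat_lit 0) (nat_lit 0) (XT.lf (nat_lit 0) (nat_lit 246529466501) (nat_lit 76) (nat_lit 672447902067) (nat_lit 76) (nat_lit 671856869360) (nat_lit 1) (nat_lit 4)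 (nat_lit 2) (nat_lit 5) (nat_lit 2) (nat_lit 4) (nat_lit 251) (nat_lit 179) (nat_lit 170)) (XT.nd (nat_lit 78) (nat_lit 0) (nat_lit 0) (XT.lf (nat_lit 0) (nat_lit 285417313830) (nat_lit 76) (nat_lit 772290966125) (nat_lit 76) (nat_lit 771669315860) (nat_lit 1) (nat_lit 4) (nat_lit 2) (nat_lit 5) (nat_lit 2) (nat_lit 4) (nat_lit 252) (nat_lit 179) (nat_lit 169)) (XT.lf (nat_lit 0) (nat_lit 330051955493) (nat_lit 76) (nat_lit 887151238849) (nat_lit 76) (nat_lit 886502964621) (nat_lit 1) (nat_lit 4) (nat_lit 2) (nat_lit 5) (nat_lit 2) (nat_lit 4) (nat_lit 253) (nat_lit 179) (nat_lit 168))))) (XT.nd (nat_lit 156) (nat_lit 0) (nat_lit 0) (XT.nd (nat_lit 78) (nat_lit 0) (nat_lit 0) (XT.lf (nat_lit 0) (nat_lit 381306677958) (nat_lit 76) (nat_lit 1019275986445) (nat_lit 76) (nat_lit 1018604560945) (nat_lit 1) (nat_lit 4) (nat_lit 2) (nat_lit 5) (nat_lit 2) (nat_lit 4) (nat_lit 254) (nat_lit 179)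 (nat_lit 167)) (XT.lf (nat_lit 0) (nat_lit 440184291011) (nat_lit 76) (nat_lit 1171250258322) (nat_lit 76) (nat_lit 1170558701281) (nat_lit 1) (nat_lit 4) (nat_lit 2) (nat_lit 5) (nat_lit 2) (nat_lit 4) (nat_lit 255) (nat_lit 179) (nat_lit 166))) (XT.nd (nat_lit 78) (nat_lit 0) (nat_lit 0) (XT.lf (nat_lit 0) (nat_lit 507836747952) (nat_lit 76) (nat_lit 1346047464148) (nat_lit 76) (nat_lit 1345338401419) (nat_lit 1) (nat_lit 4) (nat_lit 2) (nat_lit 5) (nat_lit 2) (nat_lit 4) (nat_lit 256) (nat_lit 179) (nat_lit 165)) (XT.nd (nat_lit 78) (nat_lit 0) (nat_lit 0) (XT.lf (nat_lit 0) (nat_lit 585587683807) (nat_lit 76) (nat_lit 1547087549254) (nat_lit 76) (nat_lit 1546363264187) (nat_lit 1) (nat_lit 4) (nat_lit 2) (nat_lit 5) (nat_lit 2) (nat_lit 4) (nat_lit 257) (nat_lit 179) (nat_lit 164)) (XT.lf (nat_lit 0) (nat_lit 674958312540) (nat_lit 76) (nat_lit 1778303906609) (nat_lit 76) (nat_lit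 1777566384727) (nat_lit 1) (nat_lit 4) (nat_lit 2) (nat_lit 5) (nat_lit 2) (nat_lit 4) (nat_lit 258) (nat_lit 179) (nat_lit 163)))))) (XT.nd (nat_lit 29796) (nat_lit 0) (nat_lit 0) (XT.nd (nat_lit 156) (nat_lit 0) (nat_lit 0) (XT.nd (nat_lit 78) (nat_lit 0) (nat_lit 0) (XT.lf (nat_lit 0) (nat_lit 777697189929) (nat_lit 76) (nat_lit 2044220334509) (nat_lit 76) (nat_lit 2043471302353) (nat_lit 1) (nat_lit 4) (nat_lit 2) (nat_lit 5) (nat_lit 2) (nat_lit 4) (nat_lit 259) (nat_lit 179) (nat_lit 162)) (XT.lf (nat_lit 0) (nat_lit 895814424445) (nat_lit 76) (nat_lit 2350039545674) (nat_lit 76) (nat_lit 2349280504585) (nat_lit 1) (nat_lit 4) (nat_lit 2) (nat_lit 5) (nat_lit 2) (nat_lit 4) (nat_lit 260) (nat_lit 179) (nat_lit 161))) (XT.nd (nat_lit 78) (nat_lit 0) (nat_lit 0) (XT.lf (nat_lit 0) (nat_lit 1031621005460) (nat_lit 76) (nat_lit 2701744959454) (nat_lit 76) (nat_lit 2700977214943) (nat_lit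 1) (nat_lit 4) (nat_lit 2) (nat_lit 5) (nat_lit 2) (nat_lit 4) (nat_lit 261) (nat_lit 179) (nat_lit 160)) (XT.nd (nat_lit 78) (nat_lit 0) (nat_lit 0) (XT.lf (nat_lit 0) (nat_lit 1187774018253) (nat_lit 76) (nat_lit 3106217768725) (nat_lit 76) (nat_lit 3105442456023) (nat_lit 1) (nat_lit 4) (nat_lit 2) (nat_lit 5) (nat_lit 2) (nat_lit 4) (nat_lit 262) (nat_lit 179) (nat_lit 159)) (XT.lf (nat_lit 0) (nat_lit 1367328630467) (nat_lit 76) (nat_lit 3571371571932) (nat_lit 76) (nat_lit 3570589678193) (nat_lit 1) (nat_lit 4) (nat_lit 2) (nat_lit 5) (nat_lit 2) (nat_lit 4) (nat_lit 263) (nat_lit 179) (nat_lit 158))))) (XT.nd (nat_lit 234) (nat_lit 0) (nat_lit 0) (XT.nd (nat_lit 78) (nat_lit 0) (nat_lit 0) (XT.lf (nat_lit 0) (nat_lit 18087677044) (nat_lit 76) (nat_lit 76621049834) (nat_lit 76) (nat_lit 76621049834) (nat_lit 1) (nat_lit 4) (nat_lit 2) (nat_lit 5) (nat_lit 2) (nat_lit 4) (nat_lit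 240) (nat_lit 180) (nat_lit 180)) (XT.nd (nat_lit 78) (nat_lit 0) (nat_lit 0) (XT.lf (nat_lit 0) (nat_lit 45713983507) (nat_lit 76) (nat_lit 174146075604) (nat_lit 76) (nat_lit 174022210507) (nat_lit 1) (nat_lit 4) (nat_lit 2) (nat_lit 5) (nat_lit 2) (nat_lit 4) (nat_lit 241) (nat_lit 180) (nat_lit 179)) (XT.lf (nat_lit 0) (nat_lit 56333940873) (nat_lit 76) (nat_lit 198350500595) (nat_lit 76) (nat_lit 198118926717) (nat_lit 1) (nat_lit 4) (nat_lit 2) (nat_lit 5) (nat_lit 2) (nat_lit 4) (nat_lit 242) (nat_lit 180) (nat_lit 178)))) (XT.nd (nat_lit 78) (nat_lit 0) (nat_lit 0) (XT.lf (nat_lit 0) (nat_lit 68243007962) (nat_lit 76) (nat_lit 226328939478) (nat_lit 76) (nat_lit 226003705791) (nat_lit 1) (nat_lit 4) (nat_lit 2) (nat_lit 5) (nat_lit 2) (nat_lit 4) (nat_lit 243) (nat_lit 180) (nat_lit 177)) (XT.nd (nat_lit 78) (nat_lit 0) (nat_lit 0) (XT.lf (nat_lit 0) (nat_lit 81674188260) (nat_lit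 76) (nat_lit 258628796492) (nat_lit 76) (nat_lit 258222119494) (nat_lit 1) (nat_lit 4) (nat_lit 2) (nat_lit 5) (nat_lit 2) (nat_lit 4) (nat_lit 244) (nat_lit 180) (nat_lit 176)) (XT.lf (nat_lit 0) (nat_lit 96890265729) (nat_lit 76) (nat_lit 295882025362) (nat_lit 76) (nat_lit 295404528092) (nat_lit 1) (nat_lit 4) (nat_lit 2) (nat_lit 5) (nat_lit 2) (nat_lit 4) (nat_lit 245) (nat_lit 180) (nat_lit 175))))))) (XT.nd (nat_lit 858) (nat_lit 0) (nat_lit 0) (XT.nd (nat_lit 390) (nat_lit 0) (nat_lit 0) (XT.nd (nat_lit 156) (nat_lit 0) (nat_lit 0) (XT.nd (nat_lit 78) (nat_lit 0) (nat_lit 0) (XT.lf (nat_lit 0) (nat_lit 114188946234) (nat_lit 76) (nat_lit 338817493609) (nat_lit 76) (nat_lit 338278413494) (nat_lit 1) (nat_lit 4) (nat_lit 2) (nat_lit 5) (nat_lit 2) (nat_lit 4) (nat_lit 246) (nat_lit 180) (nat_lit 174)) (XT.lf (nat_lit 0) (nat_lit 133908682218) (nat_lit 76) (nat_lit 388275243002)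 (nat_lit 76) (nat_lit 387682612588) (nat_lit 1) (nat_lit 4) (nat_lit 2) (nat_lit 5) (nat_lit 2) (nat_lit 4) (nat_lit 247) (nat_lit 180) (nat_lit 173))) (XT.nd (nat_lit 78) (nat_lit 0) (nat_lit 0) (XT.lf (nat_lit 0) (nat_lit 156435294603) (nat_lit 76) (nat_lit 445222925161) (nat_lit 76) (nat_lit 444583729269) (nat_lit 1) (nat_lit 4) (nat_lit 2) (nat_lit 5) (nat_lit 2) (nat_lit 4) (nat_lit 248) (nat_lit 180) (nat_lit 172)) (XT.nd (nat_lit 78) (nat_lit 0) (nat_lit 0) (XT.lf (nat_lit 0) (nat_lit 182209521458) (nat_lit 76) (nat_lit 510774733867) (nat_lit 76) (nat_lit 510095046254) (nat_lit 1) (nat_lit 4) (nat_lit 2) (nat_lit 5) (nat_lit 2) (nat_lit 4) (nat_lit 249) (nat_lit 180) (nat_lit 171)) (XT.lf (nat_lit 0) (nat_lit 211735641134) (nat_lit 76) (nat_lit 586213204507) (nat_lit 76) (nat_lit 585498306703) (nat_lit 1) (nat_lit 4) (nat_lit 2) (nat_lit 5) (nat_lit 2) (nat_lit 4) (nat_lit 250)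 (nat_lit 180) (nat_lit 170))))) (XT.nd (nat_lit 234) (nat_lit 0) (nat_lit 0) (XT.nd (nat_lit 78) (nat_lit 0) (nat_lit 0) (XT.lf (nat_lit 0) (nat_lit 245591338581) (nat_lit 76) (nat_lit 673014307160) (nat_lit 76) (nat_lit 672268791798) (nat_lit 1) (nat_lit 4) (nat_lit 2) (nat_lit 5) (nat_lit 2) (nat_lit 4) (nat_lit 251) (nat_lit 180) (nat_lit 169)) (XT.nd (nat_lit 78) (nat_lit 0) (nat_lit 0) (XT.lf (nat_lit 0) (nat_lit 284439007880) (nat_lit 76) (nat_lit 772876324268) (nat_lit 76) (nat_lit 772104184943) (nat_lit 1) (nat_lit 4) (nat_lit 2) (nat_lit 5) (nat_lit 2) (nat_lit 4) (nat_lit 252) (nat_lit 180) (nat_lit 168)) (XT.lf (nat_lit 0) (nat_lit 329038712125) (nat_lit 76) (nat_lit 887753077905) (nat_lit 76) (nat_lit 886957787308) (nat_lit 1) (nat_lit 4) (nat_lit 2) (nat_lit 5) (nat_lit 2) (nat_lit 4) (nat_lit 253) (nat_lit 180) (nat_lit 167)))) (XT.nd (nat_lit 78) (nat_lit 0) (nat_lit 0)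 (XT.lf (nat_lit 0) (nat_lit 380263054226) (nat_lit 76) (nat_lit 1019892156730) (nat_lit 76) (nat_lit 1019076734592) (nat_lit 1) (nat_lit 4) (nat_lit 2) (nat_lit 5) (nat_lit 2) (nat_lit 4) (nat_lit 254) (nat_lit 180) (nat_lit 166)) (XT.nd (nat_lit 78) (nat_lit 0) (nat_lit 0) (XT.lf (nat_lit 0) (nat_lit 439114249572) (nat_lit 76) (nat_lit 1171878890546) (nat_lit 76) (nat_lit 1171045962719) (nat_lit 1) (nat_lit 4) (nat_lit 2) (nat_lit 5) (nat_lit 2) (nat_lit 4) (nat_lit 255) (nat_lit 180) (nat_lit 165)) (XT.lf (nat_lit 0) (nat_lit 506743734594) (nat_lit 76) (nat_lit 1346686932839) (nat_lit 76) (nat_lit 1345838782675) (nat_lit 1) (nat_lit 4) (nat_lit 2) (nat_lit 5) (nat_lit 2) (nat_lit 4) (nat_lit 256) (nat_lit 180) (nat_lit 164)))))) (XT.nd (nat_lit 390) (nat_lit 0) (nat_lit 0) (XT.nd (nat_lit 156) (nat_lit 0) (nat_lit 0) (XT.nd (nat_lit 78) (nat_lit 0) (nat_lit 0) (XT.lf (nat_lit 0) (nat_lit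 584474694867) (nat_lit 76) (nat_lit 1547736440961) (nat_lit 76) (nat_lit 1546875053982) (nat_lit 1) (nat_lit 4) (nat_lit 2) (nat_lit 5) (nat_lit 2) (nat_lit 4) (nat_lit 257) (nat_lit 180) (nat_lit 163)) (XT.lf (nat_lit 0) (nat_lit 673827953529) (nat_lit 76) (nat_lit 1778960992242) (nat_lit 76) (nat_lit 1778088094989) (nat_lit 1) (nat_lit 4) (nat_lit 2) (nat_lit 5) (nat_lit 2) (nat_lit 4) (nat_lit 258) (nat_lit 180) (nat_lit 162))) (XT.nd (nat_lit 78) (nat_lit 0) (nat_lit 0) (XT.lf (nat_lit 0) (nat_lit 776551726508) (nat_lit 76) (nat_lit 2044884545296) (nat_lit 76) (nat_lit 2044001639109) (nat_lit 1) (nat_lit 4) (nat_lit 2) (nat_lit 5) (nat_lit 2) (nat_lit 4) (nat_lit 259) (nat_lit 180) (nat_lit 161)) (XT.nd (nat_lit 78) (nat_lit 0) (nat_lit 0) (XT.lf (nat_lit 0) (nat_lit 894655826755) (nat_lit 76) (nat_lit 2350709952247) (nat_lit 76) (nat_lit 2349818342639) (nat_lit 1) (nat_lit 4) (nat_lit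 2) (nat_lit 5) (nat_lit 2) (nat_lit 4) (nat_lit 260) (nat_lit 180) (nat_lit 160)) (XT.lf (nat_lit 0) (nat_lit 1030450986666) (nat_lit 76) (nat_lit 2702420753666) (nat_lit 76) (nat_lit 2701521575866) (nat_lit 1) (nat_lit 4) (nat_lit 2) (nat_lit 5) (nat_lit 2) (nat_lit 4) (nat_lit 261) (nat_lit 180) (nat_lit 159))))) (XT.nd (nat_lit 29484) (nat_lit 0) (nat_lit 0) (XT.nd (nat_lit 78) (nat_lit 0) (nat_lit 0) (XT.lf (nat_lit 0) (nat_lit 1186594068064) (nat_lit 76) (nat_lit 3106898247842) (nat_lit 76) (nat_lit 3105992489005) (nat_lit 1) (nat_lit 4) (nat_lit 2) (nat_lit 5) (nat_lit 2) (nat_lit 4) (nat_lit 262) (nat_lit 180) (nat_lit 158)) (XT.nd (nat_lit 29328) (nat_lit 0) (nat_lit 0) (XT.lf (nat_lit 0) (nat_lit 1366140044283) (nat_lit 76) (nat_lit 3572056124878) (nat_lit 76) (nat_lit 3571144643401) (nat_lit 1) (nat_lit 4) (nat_lit 2) (nat_lit 5) (nat_lit 2) (nat_lit 4) (nat_lit 263) (nat_lit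 180) (nat_lit 157)) (XT.lf (nat_lit 0) (nat_lit 9914022613) (nat_lit 76) (nat_lit 59898572471) (nat_lit 76) (nat_lit 59898572471) (nat_lit 1) (nat_lit 4) (nat_lit 2) (nat_lit 5) (nat_lit 2) (nat_lit 4) (nat_lit 238) (nat_lit 181) (nat_lit 181)))) (XT.nd (nat_lit 78) (nat_lit 0) (nat_lit 0) (XT.lf (nat_lit 0) (nat_lit 27531427261) (nat_lit 76) (nat_lit 135372026818) (nat_lit 76) (nat_lit 135229581956) (nat_lit 1) (nat_lit 4) (nat_lit 2) (nat_lit 5) (nat_lit 2) (nat_lit 4) (nat_lit 239) (nat_lit 181) (nat_lit 180)) (XT.nd (nat_lit 78) (nat_lit 0) (nat_lit 0) (XT.lf (nat_lit 0) (nat_lit 35988430166) (nat_lit 76) (nat_lit 153472721538) (nat_lit 76) (nat_lit 153206411579) (nat_lit 1) (nat_lit 4) (nat_lit 2) (nat_lit 5) (nat_lit 2) (nat_lit 4) (nat_lit 240) (nat_lit 181) (nat_lit 179)) (XT.lf (nat_lit 0) (nat_lit 45364517042) (nat_lit 76) (nat_lit 174453373131) (nat_lit 76) (nat_lit 174079354392)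 (nat_lit 1) (nat_lit 4) (nat_lit 2) (nat_lit 5) (nat_lit 2) (nat_lit 4) (nat_lit 241) (nat_lit 181) (nat_lit 178))))))))
noncomputable def xc4 : XT := (XT.nd (nat_lit 1638) (nat_lit 0) (nat_lit 0) (XT.nd (nat_lit 780) (nat_lit 0) (nat_lit 0) (XT.nd (nat_lit 390) (nat_lit 0) (nat_lit 0) (XT.nd (nat_lit 156) (nat_lit 0) (nat_lit 0) (XT.nd (nat_lit 78) (nat_lit 0) (nat_lit 0) (XT.lf (nat_lit 0) (nat_lit 55843133068) (nat_lit 76) (nat_lit 198724472608) (nat_lit 76) (nat_lit 198256794059) (nat_lit 1) (nat_lit 4) (nat_lit 2) (nat_lit 5) (nat_lit 2) (nat_lit 4) (nat_lit 242) (nat_lit 181) (nat_lit 177)) (XT.lf (nat_lit 0) (nat_lit 67629294643) (nat_lit 76) (nat_lit 226760889304) (nat_lit 76) (nat_lit 226211767443) (nat_lit 1) (nat_lit 4) (nat_lit 2) (nat_lit 5) (nat_lit 2) (nat_lit 4) (nat_lit 243) (nat_lit 181) (nat_lit 176))) (XT.nd (nat_lit 78) (nat_lit 0) (nat_lit 0) (XT.lf (nat_lit 0) (nat_lit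 80953600581) (nat_lit 76) (nat_lit 259111161808) (nat_lit 76) (nat_lit 258491219676) (nat_lit 1) (nat_lit 4) (nat_lit 2) (nat_lit 5) (nat_lit 2) (nat_lit 4) (nat_lit 244) (nat_lit 181) (nat_lit 175)) (XT.nd (nat_lit 78) (nat_lit 0) (nat_lit 0) (XT.lf (nat_lit 0) (nat_lit 96076743825) (nat_lit 76) (nat_lit 296408230235) (nat_lit 76) (nat_lit 295726705258) (nat_lit 1) (nat_lit 4) (nat_lit 2) (nat_lit 5) (nat_lit 2) (nat_lit 4) (nat_lit 245) (nat_lit 181) (nat_lit 174)) (XT.lf (nat_lit 0) (nat_lit 113294611959) (nat_lit 76) (nat_lit 339381819835) (nat_lit 76) (nat_lit 338646744558) (nat_lit 1) (nat_lit 4) (nat_lit 2) (nat_lit 5) (nat_lit 2) (nat_lit 4) (nat_lit 246) (nat_lit 181) (nat_lit 173))))) (XT.nd (nat_lit 156) (nat_lit 0) (nat_lit 0) (XT.nd (nat_lit 78) (nat_lit 0) (nat_lit 0) (XT.lf (nat_lit 0) (nat_lit 132944076317) (nat_lit 76) (nat_lit 388872718231) (nat_lit 76) (nat_lit 388091077476)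 (nat_lit 1) (nat_lit 4) (nat_lit 2) (nat_lit 5) (nat_lit 2) (nat_lit 4) (nat_lit 247) (nat_lit 181) (nat_lit 172)) (XT.lf (nat_lit 0) (nat_lit 155409582940) (nat_lit 76) (nat_lit 445849225610) (nat_lit 76) (nat_lit 445027093135) (nat_lit 1) (nat_lit 4) (nat_lit 2) (nat_lit 5) (nat_lit 2) (nat_lit 4) (nat_lit 248) (nat_lit 181) (nat_lit 171))) (XT.nd (nat_lit 78) (nat_lit 0) (nat_lit 0) (XT.lf (nat_lit 0) (nat_lit 181130674350) (nat_lit 76) (nat_lit 511426099724) (nat_lit 76) (nat_lit 510568757058) (nat_lit 1) (nat_lit 4) (nat_lit 2) (nat_lit 5) (nat_lit 2) (nat_lit 4) (nat_lit 249) (nat_lit 181) (nat_lit 170)) (XT.nd (nat_lit 78) (nat_lit 0) (nat_lit 0) (XT.lf (nat_lit 0) (nat_lit 210610589291) (nat_lit 76) (nat_lit 586886366372) (nat_lit 76) (nat_lit 585998406149) (nat_lit 1) (nat_lit 4) (nat_lit 2) (nat_lit 5) (nat_lit 2) (nat_lit 4) (nat_lit 250) (nat_lit 181) (nat_lit 169)) (XT.lf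 (nat_lit 0) (nat_lit 244426108708) (nat_lit 76) (nat_lit 673706422075) (nat_lit 76) (nat_lit 672791837888) (nat_lit 1) (nat_lit 4) (nat_lit 2) (nat_lit 5) (nat_lit 2) (nat_lit 4) (nat_lit 251) (nat_lit 181) (nat_lit 168)))))) (XT.nd (nat_lit 390) (nat_lit 0) (nat_lit 0) (XT.nd (nat_lit 156) (nat_lit 0) (nat_lit 0) (XT.nd (nat_lit 78) (nat_lit 0) (nat_lit 0) (XT.lf (nat_lit 0) (nat_lit 283238840589) (nat_lit 76) (nat_lit 773584920096) (nat_lit 76) (nat_lit 772647184637) (nat_lit 1) (nat_lit 4) (nat_lit 2) (nat_lit 5) (nat_lit 2) (nat_lit 4) (nat_lit 252) (nat_lit 181) (nat_lit 167)) (XT.lf (nat_lit 0) (nat_lit 327808164471) (nat_lit 76) (nat_lit 888476004962) (nat_lit 76) (nat_lit 887518137962) (nat_lit 1) (nat_lit 4) (nat_lit 2) (nat_lit 5) (nat_lit 2) (nat_lit 4) (nat_lit 253) (nat_lit 181) (nat_lit 166))) (XT.nd (nat_lit 78) (nat_lit 0) (nat_lit 0) (XT.lf (nat_lit 0) (nat_lit 379006088865)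 (nat_lit 76) (nat_lit 1020627545725) (nat_lit 76) (nat_lit 1019652173037) (nat_lit 1) (nat_lit 4) (nat_lit 2) (nat_lit 5) (nat_lit 2) (nat_lit 4) (nat_lit 254) (nat_lit 181) (nat_lit 165)) (XT.nd (nat_lit 78) (nat_lit 0) (nat_lit 0) (XT.lf (nat_lit 0) (nat_lit 437834312292) (nat_lit 76) (nat_lit 1172625116009) (nat_lit 76) (nat_lit 1171634520983) (nat_lit 1) (nat_lit 4) (nat_lit 2) (nat_lit 5) (nat_lit 2) (nat_lit 4) (nat_lit 255) (nat_lit 181) (nat_lit 164)) (XT.lf (nat_lit 0) (nat_lit 505443821731) (nat_lit 76) (nat_lit 1347442581318) (nat_lit 76) (nat_lit 1346438749477) (nat_lit 1) (nat_lit 4) (nat_lit 2) (nat_lit 5) (nat_lit 2) (nat_lit 4) (nat_lit 256) (nat_lit 181) (nat_lit 163))))) (XT.nd (nat_lit 234) (nat_lit 0) (nat_lit 0) (XT.nd (nat_lit 78) (nat_lit 0) (nat_lit 0) (XT.lf (nat_lit 0) (nat_lit 583157411933) (nat_lit 76) (nat_lit 1548500283366) (nat_lit 76) (nat_lit 1547484941250)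 (nat_lit 1) (nat_lit 4) (nat_lit 2) (nat_lit 5) (nat_lit 2) (nat_lit 4) (nat_lit 257) (nat_lit 181) (nat_lit 162)) (XT.nd (nat_lit 78) (nat_lit 0) (nat_lit 0) (XT.lf (nat_lit 0) (nat_lit 672495566185) (nat_lit 76) (nat_lit 1779731959800) (nat_lit 76) (nat_lit 1778706608752) (nat_lit 1) (nat_lit 4) (nat_lit 2) (nat_lit 5) (nat_lit 2) (nat_lit 4) (nat_lit 258) (nat_lit 181) (nat_lit 161)) (XT.lf (nat_lit 0) (nat_lit 775206204895) (nat_lit 76) (nat_lit 2045661708640) (nat_lit 76) (nat_lit 2044627654170) (nat_lit 1) (nat_lit 4) (nat_lit 2) (nat_lit 5) (nat_lit 2) (nat_lit 4) (nat_lit 259) (nat_lit 181) (nat_lit 160)))) (XT.nd (nat_lit 78) (nat_lit 0) (nat_lit 0) (XT.lf (nat_lit 0) (nat_lit 893298884038) (nat_lit 76) (nat_lit 2351492503231) (nat_lit 76) (nat_lit 2350450880569) (nat_lit 1) (nat_lit 4) (nat_lit 2) (nat_lit 5) (nat_lit 2) (nat_lit 4) (nat_lit 260) (nat_lit 181) (nat_lit 159))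 (XT.nd (nat_lit 78) (nat_lit 0) (nat_lit 0) (XT.lf (nat_lit 0) (nat_lit 1029084112554) (nat_lit 76) (nat_lit 2703207989554) (nat_lit 76) (nat_lit 2702159785856) (nat_lit 1) (nat_lit 4) (nat_lit 2) (nat_lit 5) (nat_lit 2) (nat_lit 4) (nat_lit 261) (nat_lit 181) (nat_lit 158)) (XT.lf (nat_lit 0) (nat_lit 1185218557958) (nat_lit 76) (nat_lit 3107689557559) (nat_lit 76) (nat_lit 3106635631221) (nat_lit 1) (nat_lit 4) (nat_lit 2) (nat_lit 5) (nat_lit 2) (nat_lit 4) (nat_lit 262) (nat_lit 181) (nat_lit 157))))))) (XT.nd (nat_lit 29874) (nat_lit 0) (nat_lit 0) (XT.nd (nat_lit 29484) (nat_lit 0) (nat_lit 0) (XT.nd (nat_lit 29250) (nat_lit 0) (nat_lit 0) (XT.nd (nat_lit 29172) (nat_lit 0) (nat_lit 0) (XT.lf (nat_lit 0) (nat_lit 1364757024615) (nat_lit 76) (nat_lit 3572850977056) (nat_lit 76) (nat_lit 3571792074508) (nat_lit 1) (nat_lit 4) (nat_lit 2) (nat_lit 5) (nat_lit 2) (nat_lit 4) (nat_lit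 263) (nat_lit 181) (nat_lit 156)) (XT.lf (nat_lit 0) (nat_lit 3169136600) (nat_lit 76) (nat_lit 47548284741) (nat_lit 76) (nat_lit 47548284741) (nat_lit 1) (nat_lit 4) (nat_lit 2) (nat_lit 5) (nat_lit 2) (nat_lit 4) (nat_lit 236) (nat_lit 182) (nat_lit 182))) (XT.nd (nat_lit 78) (nat_lit 0) (nat_lit 0) (XT.lf (nat_lit 0) (nat_lit 12727565719) (nat_lit 76) (nat_lit 106607161557) (nat_lit 76) (nat_lit 106443349966) (nat_lit 1) (nat_lit 4) (nat_lit 2) (nat_lit 5) (nat_lit 2) (nat_lit 4) (nat_lit 237) (nat_lit 182) (nat_lit 181)) (XT.nd (nat_lit 78) (nat_lit 0) (nat_lit 0) (XT.lf (nat_lit 0) (nat_lit 19613082715) (nat_lit 76) (nat_lit 120062360093) (nat_lit 76) (nat_lit 119756103639) (nat_lit 1) (nat_lit 4) (nat_lit 2) (nat_lit 5) (nat_lit 2) (nat_lit 4) (nat_lit 238) (nat_lit 182) (nat_lit 180)) (XT.lf (nat_lit 0) (nat_lit 27129540826) (nat_lit 76) (nat_lit 135725418974) (nat_lit 76) (nat_lit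 135295297423) (nat_lit 1) (nat_lit 4) (nat_lit 2) (nat_lit 5) (nat_lit 2) (nat_lit 4) (nat_lit 239) (nat_lit 182) (nat_lit 179))))) (XT.nd (nat_lit 156) (nat_lit 0) (nat_lit 0) (XT.nd (nat_lit 78) (nat_lit 0) (nat_lit 0) (XT.lf (nat_lit 0) (nat_lit 35424001190) (nat_lit 76) (nat_lit 153902789352) (nat_lit 76) (nat_lit 153364959021) (nat_lit 1) (nat_lit 4) (nat_lit 2) (nat_lit 5) (nat_lit 2) (nat_lit 4) (nat_lit 240) (nat_lit 182) (nat_lit 178)) (XT.lf (nat_lit 0) (nat_lit 44658746726) (nat_lit 76) (nat_lit 174950115431) (nat_lit 76) (nat_lit 174318625291) (nat_lit 1) (nat_lit 4) (nat_lit 2) (nat_lit 5) (nat_lit 2) (nat_lit 4) (nat_lit 241) (nat_lit 182) (nat_lit 177))) (XT.nd (nat_lit 78) (nat_lit 0) (nat_lit 0) (XT.lf (nat_lit 0) (nat_lit 55014457238) (nat_lit 76) (nat_lit 199279192721) (nat_lit 76) (nat_lit 198566259269) (nat_lit 1) (nat_lit 4) (nat_lit 2) (nat_lit 5) (nat_lit 2) (nat_lit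 4) (nat_lit 242) (nat_lit 182) (nat_lit 176)) (XT.nd (nat_lit 78) (nat_lit 0) (nat_lit 0) (XT.lf (nat_lit 0) (nat_lit 66693744453) (nat_lit 76) (nat_lit 227366024907) (nat_lit 76) (nat_lit 226582271184) (nat_lit 1) (nat_lit 4) (nat_lit 2) (nat_lit 5) (nat_lit 2) (nat_lit 4) (nat_lit 243) (nat_lit 182) (nat_lit 175)) (XT.lf (nat_lit 0) (nat_lit 79925116166) (nat_lit 76) (nat_lit 259760136968) (nat_lit 76) (nat_lit 258914800400) (nat_lit 1) (nat_lit 4) (nat_lit 2) (nat_lit 5) (nat_lit 2) (nat_lit 4) (nat_lit 244) (nat_lit 182) (nat_lit 174)))))) (XT.nd (nat_lit 390) (nat_lit 0) (nat_lit 0) (XT.nd (nat_lit 156) (nat_lit 0) (nat_lit 0) (XT.nd (nat_lit 78) (nat_lit 0) (nat_lit 0) (XT.lf (nat_lit 0) (nat_lit 94967447039) (nat_lit 76) (nat_lit 297095326748) (nat_lit 76) (nat_lit 296196439880) (nat_lit 1) (nat_lit 4) (nat_lit 2) (nat_lit 5) (nat_lit 2) (nat_lit 4) (nat_lit 245) (nat_lit 182)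 (nat_lit 173)) (XT.lf (nat_lit 0) (nat_lit 112115043547) (nat_lit 76) (nat_lit 340102065351) (nat_lit 76) (nat_lit 339156613005) (nat_lit 1) (nat_lit 4) (nat_lit 2) (nat_lit 5) (nat_lit 2) (nat_lit 4) (nat_lit 246) (nat_lit 182) (nat_lit 172))) (XT.nd (nat_lit 78) (nat_lit 0) (nat_lit 0) (XT.lf (nat_lit 0) (nat_lit 131703402143) (nat_lit 76) (nat_lit 389621788967) (nat_lit 76) (nat_lit 388635844901) (nat_lit 1) (nat_lit 4) (nat_lit 2) (nat_lit 5) (nat_lit 2) (nat_lit 4) (nat_lit 247) (nat_lit 182) (nat_lit 171)) (XT.nd (nat_lit 78) (nat_lit 0) (nat_lit 0) (XT.lf (nat_lit 0) (nat_lit 154115773321) (nat_lit 76) (nat_lit 446623361755) (nat_lit 76) (nat_lit 445602207497) (nat_lit 1) (nat_lit 4) (nat_lit 2) (nat_lit 5) (nat_lit 2) (nat_lit 4) (nat_lit 248) (nat_lit 182) (nat_lit 170)) (XT.lf (nat_lit 0) (nat_lit 179790659996) (nat_lit 76) (nat_lit 512222031877) (nat_lit 76) (nat_lit 511170260062)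 (nat_lit 1) (nat_lit 4) (nat_lit 2) (nat_lit 5) (nat_lit 2) (nat_lit 4) (nat_lit 249) (nat_lit 182) (nat_lit 169))))) (XT.nd (nat_lit 234) (nat_lit 0) (nat_lit 0) (XT.nd (nat_lit 78) (nat_lit 0) (nat_lit 0) (XT.lf (nat_lit 0) (nat_lit 209230396906) (nat_lit 76) (nat_lit 587701251575) (nat_lit 76) (nat_lit 586622855796) (nat_lit 1) (nat_lit 4) (nat_lit 2) (nat_lit 5) (nat_lit 2) (nat_lit 4) (nat_lit 250) (nat_lit 182) (nat_lit 168)) (XT.nd (nat_lit 78) (nat_lit 0) (nat_lit 0) (XT.lf (nat_lit 0) (nat_lit 243010978905) (nat_lit 76) (nat_lit 674537788190) (nat_lit 76) (nat_lit 673436241140) (nat_lit 1) (nat_lit 4) (nat_lit 2) (nat_lit 5) (nat_lit 2) (nat_lit 4) (nat_lit 251) (nat_lit 182) (nat_lit 167)) (XT.lf (nat_lit 0) (nat_lit 281793330423) (nat_lit 76) (nat_lit 774430617440) (nat_lit 76) (nat_lit 773308938848) (nat_lit 1) (nat_lit 4) (nat_lit 2) (nat_lit 5) (nat_lit 2) (nat_lit 4) (nat_lit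 252) (nat_lit 182) (nat_lit 166)))) (XT.nd (nat_lit 78) (nat_lit 0) (nat_lit 0) (XT.lf (nat_lit 0) (nat_lit 326336236598) (nat_lit 76) (nat_lit 889334164245) (nat_lit 76) (nat_lit 888194979965) (nat_lit 1) (nat_lit 4) (nat_lit 2) (nat_lit 5) (nat_lit 2) (nat_lit 4) (nat_lit 253) (nat_lit 182) (nat_lit 165)) (XT.nd (nat_lit 78) (nat_lit 0) (nat_lit 0) (XT.lf (nat_lit 0) (nat_lit 377511189073) (nat_lit 76) (nat_lit 1021496541475) (nat_lit 76) (nat_lit 1020342134858) (nat_lit 1) (nat_lit 4) (nat_lit 2) (nat_lit 5) (nat_lit 2) (nat_lit 4) (nat_lit 254) (nat_lit 182) (nat_lit 164)) (XT.lf (nat_lit 0) (nat_lit 436319436918) (nat_lit 76) (nat_lit 1173503534774) (nat_lit 76) (nat_lit 1172335891342) (nat_lit 1) (nat_lit 4) (nat_lit 2) (nat_lit 5) (nat_lit 2) (nat_lit 4) (nat_lit 255) (nat_lit 182) (nat_lit 163))))))))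
noncomputable def xc5 : XT := (XT.nd (nat_lit 30576) (nat_lit 0) (nat_lit 0) (XT.nd (nat_lit 29718) (nat_lit 0) (nat_lit 0) (XT.nd (nat_lit 390) (nat_lit 0) (nat_lit 0) (XT.nd (nat_lit 156) (nat_lit 0) (nat_lit 0) (XT.nd (nat_lit 78) (nat_lit 0) (nat_lit 0) (XT.lf (nat_lit 0) (nat_lit 503911576286) (nat_lit 76) (nat_lit 1348329194010) (nat_lit 76) (nat_lit 1347150040304) (nat_lit 1) (nat_lit 4) (nat_lit 2) (nat_lit 5) (nat_lit 2) (nat_lit 4) (nat_lit 256) (nat_lit 182) (nat_lit 162)) (XT.lf (nat_lit 0) (nat_lit 581610062078) (nat_lit 76) (nat_lit 1549394021211) (nat_lit 76) (nat_lit 1548204858571) (nat_lit 1) (nat_lit 4) (nat_lit 2) (nat_lit 5) (nat_lit 2) (nat_lit 4) (nat_lit 257) (nat_lit 182) (nat_lit 161))) (XT.nd (nat_lit 78) (nat_lit 0) (nat_lit 0) (XT.lf (nat_lit 0) (nat_lit 670935082060) (nat_lit 76) (nat_lit 1780631893432) (nat_lit 76) (nat_lit 1779434027371) (nat_lit 1) (nat_lit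 4) (nat_lit 2) (nat_lit 5) (nat_lit 2) (nat_lit 4) (nat_lit 258) (nat_lit 182) (nat_lit 160)) (XT.nd (nat_lit 78) (nat_lit 0) (nat_lit 0) (XT.lf (nat_lit 0) (nat_lit 773634299666) (nat_lit 76) (nat_lit 2046567029911) (nat_lit 76) (nat_lit 2045361595658) (nat_lit 1) (nat_lit 4) (nat_lit 2) (nat_lit 5) (nat_lit 2) (nat_lit 4) (nat_lit 259) (nat_lit 182) (nat_lit 159)) (XT.lf (nat_lit 0) (nat_lit 891717047415) (nat_lit 76) (nat_lit 2352402509406) (nat_lit 76) (nat_lit 2351190494116) (nat_lit 1) (nat_lit 4) (nat_lit 2) (nat_lit 5) (nat_lit 2) (nat_lit 4) (nat_lit 260) (nat_lit 182) (nat_lit 158))))) (XT.nd (nat_lit 156) (nat_lit 0) (nat_lit 0) (XT.nd (nat_lit 78) (nat_lit 0) (nat_lit 0) (XT.lf (nat_lit 0) (nat_lit 1027493639936) (nat_lit 76) (nat_lit 2704122069559) (nat_lit 76) (nat_lit 2702904331629) (nat_lit 1) (nat_lit 4) (nat_lit 2) (nat_lit 5) (nat_lit 2) (nat_lit 4) (nat_lit 261) (nat_lit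 182) (nat_lit 157)) (XT.lf (nat_lit 0) (nat_lit 1183620575778) (nat_lit 76) (nat_lit 3108607180025) (nat_lit 76) (nat_lit 3107384465886) (nat_lit 1) (nat_lit 4) (nat_lit 2) (nat_lit 5) (nat_lit 2) (nat_lit 4) (nat_lit 262) (nat_lit 182) (nat_lit 156))) (XT.nd (nat_lit 29016) (nat_lit 0) (nat_lit 0) (XT.lf (nat_lit 0) (nat_lit 1363152512382) (nat_lit 76) (nat_lit 3573771679922) (nat_lit 76) (nat_lit 3572544638644) (nat_lit 1) (nat_lit 4) (nat_lit 2) (nat_lit 5) (nat_lit 2) (nat_lit 4) (nat_lit 263) (nat_lit 182) (nat_lit 155)) (XT.nd (nat_lit 78) (nat_lit 76) (nat_lit 0) (XT.lf (nat_lit 0) (nat_lit 36030137584) (nat_lit 152) (nat_lit 2450994538) (nat_lit 0) (nat_lit 36030137584) (nat_lit 2) (nat_lit 5) (nat_lit 4) (nat_lit 4) (nat_lit 2) (nat_lit 4) (nat_lit 234) (nat_lit 183) (nat_lit 183)) (XT.lf (nat_lit 0) (nat_lit 320197264) (nat_lit 76) (nat_lit 85493759962) (nat_lit 76) (nat_lit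 85305376632) (nat_lit 1) (nat_lit 4) (nat_lit 2) (nat_lit 5) (nat_lit 2) (nat_lit 4) (nat_lit 235) (nat_lit 183) (nat_lit 182)))))) (XT.nd (nat_lit 390) (nat_lit 0) (nat_lit 0) (XT.nd (nat_lit 156) (nat_lit 0) (nat_lit 0) (XT.nd (nat_lit 78) (nat_lit 0) (nat_lit 0) (XT.lf (nat_lit 0) (nat_lit 6091066312) (nat_lit 76) (nat_lit 95401566904) (nat_lit 76) (nat_lit 95049371982) (nat_lit 1) (nat_lit 4) (nat_lit 2) (nat_lit 5) (nat_lit 2) (nat_lit 4) (nat_lit 236) (nat_lit 183) (nat_lit 181)) (XT.lf (nat_lit 0) (nat_lit 12265396319) (nat_lit 76) (nat_lit 107013562536) (nat_lit 76) (nat_lit 106518922753) (nat_lit 1) (nat_lit 4) (nat_lit 2) (nat_lit 5) (nat_lit 2) (nat_lit 4) (nat_lit 237) (nat_lit 183) (nat_lit 180))) (XT.nd (nat_lit 78) (nat_lit 0) (nat_lit 0) (XT.lf (nat_lit 0) (nat_lit 18963989392) (nat_lit 76) (nat_lit 120556938079) (nat_lit 76) (nat_lit 119938433199) (nat_lit 1) (nat_lit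 4) (nat_lit 2) (nat_lit 5) (nat_lit 2) (nat_lit 4) (nat_lit 238) (nat_lit 183) (nat_lit 179)) (XT.nd (nat_lit 78) (nat_lit 0) (nat_lit 0) (XT.lf (nat_lit 0) (nat_lit 26317904962) (nat_lit 76) (nat_lit 136296672619) (nat_lit 76) (nat_lit 135570458958) (nat_lit 1) (nat_lit 4) (nat_lit 2) (nat_lit 5) (nat_lit 2) (nat_lit 4) (nat_lit 239) (nat_lit 183) (nat_lit 178)) (XT.lf (nat_lit 0) (nat_lit 34471023985) (nat_lit 76) (nat_lit 154540717483) (nat_lit 76) (nat_lit 153720844013) (nat_lit 1) (nat_lit 4) (nat_lit 2) (nat_lit 5) (nat_lit 2) (nat_lit 4) (nat_lit 240) (nat_lit 183) (nat_lit 177))))) (XT.nd (nat_lit 234) (nat_lit 0) (nat_lit 0) (XT.nd (nat_lit 78) (nat_lit 0) (nat_lit 0) (XT.lf (nat_lit 0) (nat_lit 43582864007) (nat_lit 76) (nat_lit 175646021375) (nat_lit 76) (nat_lit 174744704593) (nat_lit 1) (nat_lit 4) (nat_lit 2) (nat_lit 5) (nat_lit 2) (nat_lit 4) (nat_lit 241) (nat_lit 183)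 (nat_lit 176)) (XT.nd (nat_lit 78) (nat_lit 0) (nat_lit 0) (XT.lf (nat_lit 0) (nat_lit 53831700160) (nat_lit 76) (nat_lit 200025514154) (nat_lit 76) (nat_lit 199053377101) (nat_lit 1) (nat_lit 4) (nat_lit 2) (nat_lit 5) (nat_lit 2) (nat_lit 4) (nat_lit 242) (nat_lit 183) (nat_lit 175)) (XT.lf (nat_lit 0) (nat_lit 65418053150) (nat_lit 76) (nat_lit 228156185897) (nat_lit 76) (nat_lit 227122465999) (nat_lit 1) (nat_lit 4) (nat_lit 2) (nat_lit 5) (nat_lit 2) (nat_lit 4) (nat_lit 243) (nat_lit 183) (nat_lit 174)))) (XT.nd (nat_lit 78) (nat_lit 0) (nat_lit 0) (XT.lf (nat_lit 0) (nat_lit 78568612492) (nat_lit 76) (nat_lit 260588419311) (nat_lit 76) (nat_lit 259501149114) (nat_lit 1) (nat_lit 4) (nat_lit 2) (nat_lit 5) (nat_lit 2) (nat_lit 4) (nat_lit 244) (nat_lit 183) (nat_lit 173)) (XT.nd (nat_lit 78) (nat_lit 0) (nat_lit 0) (XT.lf (nat_lit 0) (nat_lit 93540671739) (nat_lit 76) (nat_lit 297956758094)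 (nat_lit 76) (nat_lit 296822922418) (nat_lit 1) (nat_lit 4) (nat_lit 2) (nat_lit 5) (nat_lit 2) (nat_lit 4) (nat_lit 245) (nat_lit 183) (nat_lit 172)) (XT.lf (nat_lit 0) (nat_lit 110627162485) (nat_lit 76) (nat_lit 340992321917) (nat_lit 76) (nat_lit 339817994521) (nat_lit 1) (nat_lit 4) (nat_lit 2) (nat_lit 5) (nat_lit 2) (nat_lit 4) (nat_lit 246) (nat_lit 183) (nat_lit 171))))))) (XT.nd (nat_lit 780) (nat_lit 0) (nat_lit 0) (XT.nd (nat_lit 390) (nat_lit 0) (nat_lit 0) (XT.nd (nat_lit 156) (nat_lit 0) (nat_lit 0) (XT.nd (nat_lit 78) (nat_lit 0) (nat_lit 0) (XT.lf (nat_lit 0) (nat_lit 130162385636) (nat_lit 76) (nat_lit 390537110942) (nat_lit 76) (nat_lit 389327573355) (nat_lit 1) (nat_lit 4) (nat_lit 2) (nat_lit 5) (nat_lit 2) (nat_lit 4) (nat_lit 247) (nat_lit 183) (nat_lit 170)) (XT.lf (nat_lit 0) (nat_lit 152528552079) (nat_lit 76) (nat_lit 447560479737) (nat_lit 76) (nat_lit 446320324592)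 (nat_lit 1) (nat_lit 4) (nat_lit 2) (nat_lit 5) (nat_lit 2) (nat_lit 4) (nat_lit 248) (nat_lit 183) (nat_lit 169))) (XT.nd (nat_lit 78) (nat_lit 0) (nat_lit 0) (XT.lf (nat_lit 0) (nat_lit 178163260723) (nat_lit 76) (nat_lit 513178102909) (nat_lit 76) (nat_lit 511911323801) (nat_lit 1) (nat_lit 4) (nat_lit 2) (nat_lit 5) (nat_lit 2) (nat_lit 4) (nat_lit 249) (nat_lit 183) (nat_lit 168)) (XT.nd (nat_lit 78) (nat_lit 0) (nat_lit 0) (XT.lf (nat_lit 0) (nat_lit 207568060216) (nat_lit 76) (nat_lit 588673803520) (nat_lit 76) (nat_lit 587383873140) (nat_lit 1) (nat_lit 4) (nat_lit 2) (nat_lit 5) (nat_lit 2) (nat_lit 4) (nat_lit 250) (nat_lit 183) (nat_lit 167)) (XT.lf (nat_lit 0) (nat_lit 241318261852) (nat_lit 76) (nat_lit 675524671365) (nat_lit 76) (nat_lit 674214609443) (nat_lit 1) (nat_lit 4) (nat_lit 2) (nat_lit 5) (nat_lit 2) (nat_lit 4) (nat_lit 251) (nat_lit 183) (nat_lit 166))))) (XT.nd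 (nat_lit 156) (nat_lit 0) (nat_lit 0) (XT.nd (nat_lit 78) (nat_lit 0) (nat_lit 0) (XT.lf (nat_lit 0) (nat_lit 280074195662) (nat_lit 76) (nat_lit 775429962553) (nat_lit 76) (nat_lit 774102394943) (nat_lit 1) (nat_lit 4) (nat_lit 2) (nat_lit 5) (nat_lit 2) (nat_lit 4) (nat_lit 252) (nat_lit 183) (nat_lit 165)) (XT.lf (nat_lit 0) (nat_lit 324594129918) (nat_lit 76) (nat_lit 890344345825) (nat_lit 76) (nat_lit 889001555878) (nat_lit 1) (nat_lit 4) (nat_lit 2) (nat_lit 5) (nat_lit 2) (nat_lit 4) (nat_lit 253) (nat_lit 183) (nat_lit 164))) (XT.nd (nat_lit 78) (nat_lit 0) (nat_lit 0) (XT.lf (nat_lit 0) (nat_lit 375749106811) (nat_lit 76) (nat_lit 1022516146071) (nat_lit 76) (nat_lit 1021160119309) (nat_lit 1) (nat_lit 4) (nat_lit 2) (nat_lit 5) (nat_lit 2) (nat_lit 4) (nat_lit 254) (nat_lit 183) (nat_lit 163)) (XT.nd (nat_lit 78) (nat_lit 0) (nat_lit 0) (XT.lf (nat_lit 0) (nat_lit 434539984584)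 (nat_lit 76) (nat_lit 1174531333297) (nat_lit 76) (nat_lit 1173163796261) (nat_lit 1) (nat_lit 4) (nat_lit 2) (nat_lit 5) (nat_lit 2) (nat_lit 4) (nat_lit 255) (nat_lit 183) (nat_lit 162)) (XT.lf (nat_lit 0) (nat_lit 502117019543) (nat_lit 76) (nat_lit 1349364117686) (nat_lit 76) (nat_lit 1347986571716) (nat_lit 1) (nat_lit 4) (nat_lit 2) (nat_lit 5) (nat_lit 2) (nat_lit 4) (nat_lit 256) (nat_lit 183) (nat_lit 161)))))) (XT.nd (nat_lit 390) (nat_lit 0) (nat_lit 0) (XT.nd (nat_lit 156) (nat_lit 0) (nat_lit 0) (XT.nd (nat_lit 78) (nat_lit 0) (nat_lit 0) (XT.lf (nat_lit 0) (nat_lit 579802371066) (nat_lit 76) (nat_lit 1550435140673) (nat_lit 76) (nat_lit 1549048891282) (nat_lit 1) (nat_lit 4) (nat_lit 2) (nat_lit 5) (nat_lit 2) (nat_lit 4) (nat_lit 257) (nat_lit 183) (nat_lit 160)) (XT.lf (nat_lit 0) (nat_lit 669115969944) (nat_lit 76) (nat_lit 1781678400533) (nat_lit 76) (nat_lit 1780284582951)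 (nat_lit 1) (nat_lit 4) (nat_lit 2) (nat_lit 5) (nat_lit 2) (nat_lit 4) (nat_lit 258) (nat_lit 183) (nat_lit 159))) (XT.nd (nat_lit 78) (nat_lit 0) (nat_lit 0) (XT.lf (nat_lit 0) (nat_lit 771805256155) (nat_lit 76) (nat_lit 2047618221917) (nat_lit 76) (nat_lit 2046217823297) (nat_lit 1) (nat_lit 4) (nat_lit 2) (nat_lit 5) (nat_lit 2) (nat_lit 4) (nat_lit 259) (nat_lit 183) (nat_lit 158)) (XT.nd (nat_lit 78) (nat_lit 0) (nat_lit 0) (XT.lf (nat_lit 0) (nat_lit 889879367908) (nat_lit 76) (nat_lit 2353457775241) (nat_lit 76) (nat_lit 2352051653981) (nat_lit 1) (nat_lit 4) (nat_lit 2) (nat_lit 5) (nat_lit 2) (nat_lit 4) (nat_lit 260) (nat_lit 183) (nat_lit 157)) (XT.lf (nat_lit 0) (nat_lit 1025648450868) (nat_lit 76) (nat_lit 2705180877855) (nat_lit 76) (nat_lit 2703769780386) (nat_lit 1) (nat_lit 4) (nat_lit 2) (nat_lit 5) (nat_lit 2) (nat_lit 4) (nat_lit 261) (nat_lit 183) (nat_lit 156)))))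 (XT.nd (nat_lit 29016) (nat_lit 0) (nat_lit 76) (XT.nd (nat_lit 78) (nat_lit 0) (nat_lit 0) (XT.lf (nat_lit 0) (nat_lit 1181768856657) (nat_lit 76) (nat_lit 3109669068721) (nat_lit 76) (nat_lit 3108253644114) (nat_lit 1) (nat_lit 4) (nat_lit 2) (nat_lit 5) (nat_lit 2) (nat_lit 4) (nat_lit 262) (nat_lit 183) (nat_lit 155)) (XT.nd (nat_lit 28860) (nat_lit 0) (nat_lit 76) (XT.lf (nat_lit 0) (nat_lit 1361295114955) (nat_lit 76) (nat_lit 3574836247227) (nat_lit 76) (nat_lit 3573417059891) (nat_lit 1) (nat_lit 4) (nat_lit 2) (nat_lit 5) (nat_lit 2) (nat_lit 4) (nat_lit 263) (nat_lit 183) (nat_lit 154)) (XT.lf (nat_lit 0) (nat_lit 24642789432) (nat_lit 152) (nat_lit 7289863850) (nat_lit 0) (nat_lit 24642789432) (nat_lit 2) (nat_lit 5) (nat_lit 4) (nat_lit 4) (nat_lit 2) (nat_lit 4) (nat_lit 232) (nat_lit 184) (nat_lit 184)))) (XT.nd (nat_lit 78) (nat_lit 0) (nat_lit 0) (XT.lf (nat_lit 0) (nat_lit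 60055896728) (nat_lit 152) (nat_lit 9933999647) (nat_lit 0) (nat_lit 59839255898) (nat_lit 2) (nat_lit 5) (nat_lit 4) (nat_lit 4) (nat_lit 2) (nat_lit 4) (nat_lit 233) (nat_lit 184) (nat_lit 183)) (XT.nd (nat_lit 78) (nat_lit 0) (nat_lit 0) (XT.lf (nat_lit 0) (nat_lit 72133571414) (nat_lit 152) (nat_lit 5172055764) (nat_lit 0) (nat_lit 71728547255) (nat_lit 2) (nat_lit 5) (nat_lit 4) (nat_lit 4) (nat_lit 2) (nat_lit 4) (nat_lit 234) (nat_lit 184) (nat_lit 182)) (XT.lf (nat_lit 0) (nat_lit 85754905254) (nat_lit 152) (nat_lit 200727586) (nat_lit 0) (nat_lit 85186069503) (nat_lit 2) (nat_lit 5) (nat_lit 4) (nat_lit 4) (nat_lit 2) (nat_lit 4) (nat_lit 235) (nat_lit 184) (nat_lit 181))))))))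
noncomputable def xc6 : XT := (XT.nd (nat_lit 1638) (nat_lit 0) (nat_lit 0) (XT.nd (nat_lit 780) (nat_lit 0) (nat_lit 0) (XT.nd (nat_lit 390) (nat_lit 0) (nat_lit 0) (XT.nd (nat_lit 156) (nat_lit 0) (nat_lit 0) (XT.nd (nat_lit 78) (nat_lit 0) (nat_lit 0) (XT.lf (nat_lit 0) (nat_lit 5344608992) (nat_lit 76) (nat_lit 95970331588) (nat_lit 76) (nat_lit 95259050976) (nat_lit 1) (nat_lit 4) (nat_lit 2) (nat_lit 5) (nat_lit 2) (nat_lit 4) (nat_lit 236) (nat_lit 184) (nat_lit 180)) (XT.lf (nat_lit 0) (nat_lit 11332015075) (nat_lit 76) (nat_lit 107670504228) (nat_lit 76) (nat_lit 106835358518) (nat_lit 1) (nat_lit 4) (nat_lit 2) (nat_lit 5) (nat_lit 2) (nat_lit 4) (nat_lit 237) (nat_lit 184) (nat_lit 179))) (XT.nd (nat_lit 78) (nat_lit 0) (nat_lit 0) (XT.lf (nat_lit 0) (nat_lit 17868065607) (nat_lit 76) (nat_lit 121290555429) (nat_lit 76) (nat_lit 120347700939) (nat_lit 1) (nat_lit 4) (nat_lit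 2) (nat_lit 5) (nat_lit 2) (nat_lit 4) (nat_lit 238) (nat_lit 184) (nat_lit 178)) (XT.nd (nat_lit 78) (nat_lit 0) (nat_lit 0) (XT.lf (nat_lit 0) (nat_lit 25080639836) (nat_lit 76) (nat_lit 137096964454) (nat_lit 76) (nat_lit 136060450155) (nat_lit 1) (nat_lit 4) (nat_lit 2) (nat_lit 5) (nat_lit 2) (nat_lit 4) (nat_lit 239) (nat_lit 184) (nat_lit 177)) (XT.lf (nat_lit 0) (nat_lit 33110853346) (nat_lit 76) (nat_lit 155398987131) (nat_lit 76) (nat_lit 154281029520) (nat_lit 1) (nat_lit 4) (nat_lit 2) (nat_lit 5) (nat_lit 2) (nat_lit 4) (nat_lit 240) (nat_lit 184) (nat_lit 176))))) (XT.nd (nat_lit 156) (nat_lit 0) (nat_lit 0) (XT.nd (nat_lit 78) (nat_lit 0) (nat_lit 0) (XT.lf (nat_lit 0) (nat_lit 42115819008) (nat_lit 76) (nat_lit 176554706513) (nat_lit 76) (nat_lit 175365928631) (nat_lit 1) (nat_lit 4) (nat_lit 2) (nat_lit 5) (nat_lit 2) (nat_lit 4) (nat_lit 241) (nat_lit 184) (nat_lit 175))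 (XT.lf (nat_lit 0) (nat_lit 52271720935) (nat_lit 76) (nat_lit 200978038849) (nat_lit 76) (nat_lit 199727678122) (nat_lit 1) (nat_lit 4) (nat_lit 2) (nat_lit 5) (nat_lit 2) (nat_lit 4) (nat_lit 242) (nat_lit 184) (nat_lit 174))) (XT.nd (nat_lit 78) (nat_lit 0) (nat_lit 0) (XT.lf (nat_lit 0) (nat_lit 63777261554) (nat_lit 76) (nat_lit 229146831946) (nat_lit 76) (nat_lit 227842920918) (nat_lit 1) (nat_lit 4) (nat_lit 2) (nat_lit 5) (nat_lit 2) (nat_lit 4) (nat_lit 243) (nat_lit 184) (nat_lit 173)) (XT.nd (nat_lit 78) (nat_lit 0) (nat_lit 0) (XT.lf (nat_lit 0) (nat_lit 76857549270) (nat_lit 76) (nat_lit 261612214363) (nat_lit 76) (nat_lit 260261737857) (nat_lit 1) (nat_lit 4) (nat_lit 2) (nat_lit 5) (nat_lit 2) (nat_lit 4) (nat_lit 244) (nat_lit 184) (nat_lit 172)) (XT.lf (nat_lit 0) (nat_lit 91768502756) (nat_lit 76) (nat_lit 299009378365) (nat_lit 76) (nat_lit 297618410140) (nat_lit 1)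 (nat_lit 4) (nat_lit 2) (nat_lit 5) (nat_lit 2) (nat_lit 4) (nat_lit 245) (nat_lit 184) (nat_lit 171)))))) (XT.nd (nat_lit 390) (nat_lit 0) (nat_lit 0) (XT.nd (nat_lit 156) (nat_lit 0) (nat_lit 0) (XT.nd (nat_lit 78) (nat_lit 0) (nat_lit 0) (XT.lf (nat_lit 0) (nat_lit 108801858056) (nat_lit 76) (nat_lit 342070007597) (nat_lit 76) (nat_lit 340643829180) (nat_lit 1) (nat_lit 4) (nat_lit 2) (nat_lit 5) (nat_lit 2) (nat_lit 4) (nat_lit 246) (nat_lit 184) (nat_lit 170)) (XT.lf (nat_lit 0) (nat_lit 128290876472) (nat_lit 76) (nat_lit 391636592630) (nat_lit 76) (nat_lit 390179796655) (nat_lit 1) (nat_lit 4) (nat_lit 2) (nat_lit 5) (nat_lit 2) (nat_lit 4) (nat_lit 247) (nat_lit 184) (nat_lit 169))) (XT.nd (nat_lit 78) (nat_lit 0) (nat_lit 0) (XT.lf (nat_lit 0) (nat_lit 150616864885) (nat_lit 76) (nat_lit 448678914475) (nat_lit 76) (nat_lit 447195494537) (nat_lit 1) (nat_lit 4) (nat_lit 2) (nat_lit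 5) (nat_lit 2) (nat_lit 4) (nat_lit 248) (nat_lit 184) (nat_lit 168)) (XT.nd (nat_lit 78) (nat_lit 0) (nat_lit 0) (XT.lf (nat_lit 0) (nat_lit 176216636111) (nat_lit 76) (nat_lit 514313018560) (nat_lit 76) (nat_lit 512806447350) (nat_lit 1) (nat_lit 4) (nat_lit 2) (nat_lit 5) (nat_lit 2) (nat_lit 4) (nat_lit 249) (nat_lit 184) (nat_lit 167)) (XT.lf (nat_lit 0) (nat_lit 205591055241) (nat_lit 76) (nat_lit 589823050400) (nat_lit 76) (nat_lit 588296347649) (nat_lit 1) (nat_lit 4) (nat_lit 2) (nat_lit 5) (nat_lit 2) (nat_lit 4) (nat_lit 250) (nat_lit 184) (nat_lit 166))))) (XT.nd (nat_lit 234) (nat_lit 0) (nat_lit 0) (XT.nd (nat_lit 78) (nat_lit 0) (nat_lit 0) (XT.lf (nat_lit 0) (nat_lit 239314839169) (nat_lit 76) (nat_lit 676686380183) (nat_lit 76) (nat_lit 675142171743) (nat_lit 1) (nat_lit 4) (nat_lit 2) (nat_lit 5) (nat_lit 2) (nat_lit 4) (nat_lit 251) (nat_lit 184) (nat_lit 165)) (XT.nd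 (nat_lit 78) (nat_lit 0) (nat_lit 0) (XT.lf (nat_lit 0) (nat_lit 278047801061) (nat_lit 76) (nat_lit 776602507838) (nat_lit 76) (nat_lit 775043077062) (nat_lit 1) (nat_lit 4) (nat_lit 2) (nat_lit 5) (nat_lit 2) (nat_lit 4) (nat_lit 252) (nat_lit 184) (nat_lit 164)) (XT.lf (nat_lit 0) (nat_lit 322547759735) (nat_lit 76) (nat_lit 891526314126) (nat_lit 76) (nat_lit 889953646534) (nat_lit 1) (nat_lit 4) (nat_lit 2) (nat_lit 5) (nat_lit 2) (nat_lit 4) (nat_lit 253) (nat_lit 184) (nat_lit 163)))) (XT.nd (nat_lit 78) (nat_lit 0) (nat_lit 0) (XT.lf (nat_lit 0) (nat_lit 373685366556) (nat_lit 76) (nat_lit 1023706308299) (nat_lit 76) (nat_lit 1022122130433) (nat_lit 1) (nat_lit 4) (nat_lit 2) (nat_lit 5) (nat_lit 2) (nat_lit 4) (nat_lit 254) (nat_lit 184) (nat_lit 162)) (XT.nd (nat_lit 78) (nat_lit 0) (nat_lit 0) (XT.lf (nat_lit 0) (nat_lit 432461139920) (nat_lit 76) (nat_lit 1175728620678) (nat_lit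 76) (nat_lit 1174134433878) (nat_lit 1) (nat_lit 4) (nat_lit 2) (nat_lit 5) (nat_lit 2) (nat_lit 4) (nat_lit 255) (nat_lit 184) (nat_lit 161)) (XT.lf (nat_lit 0) (nat_lit 500025040609) (nat_lit 76) (nat_lit 1350567600853) (nat_lit 76) (nat_lit 1348964710633) (nat_lit 1) (nat_lit 4) (nat_lit 2) (nat_lit 5) (nat_lit 2) (nat_lit 4) (nat_lit 256) (nat_lit 184) (nat_lit 160))))))) (XT.nd (nat_lit 29406) (nat_lit 0) (nat_lit 0) (XT.nd (nat_lit 390) (nat_lit 0) (nat_lit 0) (XT.nd (nat_lit 156) (nat_lit 0) (nat_lit 0) (XT.nd (nat_lit 78) (nat_lit 0) (nat_lit 0) (XT.lf (nat_lit 0) (nat_lit 577698971028) (nat_lit 76) (nat_lit 1551644011480) (nat_lit 76) (nat_lit 1550033553067) (nat_lit 1) (nat_lit 4) (nat_lit 2) (nat_lit 5) (nat_lit 2) (nat_lit 4) (nat_lit 257) (nat_lit 184) (nat_lit 159)) (XT.lf (nat_lit 0) (nat_lit 667002638511) (nat_lit 76) (nat_lit 1782891956244) (nat_lit 76) (nat_lit 1781274916795)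 (nat_lit 1) (nat_lit 4) (nat_lit 2) (nat_lit 5) (nat_lit 2) (nat_lit 4) (nat_lit 258) (nat_lit 184) (nat_lit 158))) (XT.nd (nat_lit 78) (nat_lit 0) (nat_lit 0) (XT.lf (nat_lit 0) (nat_lit 769683288728) (nat_lit 76) (nat_lit 2048835851457) (nat_lit 76) (nat_lit 2047213089368) (nat_lit 1) (nat_lit 4) (nat_lit 2) (nat_lit 5) (nat_lit 2) (nat_lit 4) (nat_lit 259) (nat_lit 184) (nat_lit 157)) (XT.nd (nat_lit 78) (nat_lit 0) (nat_lit 0) (XT.lf (nat_lit 0) (nat_lit 887749890920) (nat_lit 76) (nat_lit 2354678947242) (nat_lit 76) (nat_lit 2353051208944) (nat_lit 1) (nat_lit 4) (nat_lit 2) (nat_lit 5) (nat_lit 2) (nat_lit 4) (nat_lit 260) (nat_lit 184) (nat_lit 156)) (XT.lf (nat_lit 0) (nat_lit 1023512443826) (nat_lit 76) (nat_lit 2706405130256) (nat_lit 76) (nat_lit 2704773064819) (nat_lit 1) (nat_lit 4) (nat_lit 2) (nat_lit 5) (nat_lit 2) (nat_lit 4) (nat_lit 261) (nat_lit 184) (nat_lit 155)))))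 (XT.nd (nat_lit 28782) (nat_lit 0) (nat_lit 76) (XT.nd (nat_lit 78) (nat_lit 0) (nat_lit 0) (XT.lf (nat_lit 0) (nat_lit 1179627171308) (nat_lit 76) (nat_lit 3110895999732) (nat_lit 76) (nat_lit 3109260171566) (nat_lit 1) (nat_lit 4) (nat_lit 2) (nat_lit 5) (nat_lit 2) (nat_lit 4) (nat_lit 262) (nat_lit 184) (nat_lit 154)) (XT.lf (nat_lit 0) (nat_lit 1359148491947) (nat_lit 76) (nat_lit 3576065507463) (nat_lit 76) (nat_lit 3574426407359) (nat_lit 1) (nat_lit 4) (nat_lit 2) (nat_lit 5) (nat_lit 2) (nat_lit 4) (nat_lit 263) (nat_lit 184) (nat_lit 153))) (XT.nd (nat_lit 78) (nat_lit 0) (nat_lit 0) (XT.lf (nat_lit 0) (nat_lit 15642142599) (nat_lit 152) (nat_lit 11764228215) (nat_lit 0) (nat_lit 15642142599) (nat_lit 2) (nat_lit 5) (nat_lit 4) (nat_lit 4) (nat_lit 2) (nat_lit 4) (nat_lit 230) (nat_lit 185) (nat_lit 185)) (XT.nd (nat_lit 78) (nat_lit 0) (nat_lit 0) (XT.lf (nat_lit 0) (nat_lit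 39861031167) (nat_lit 152) (nat_lit 19200134605) (nat_lit 0) (nat_lit 39611894213) (nat_lit 2) (nat_lit 5) (nat_lit 4) (nat_lit 4) (nat_lit 2) (nat_lit 4) (nat_lit 231) (nat_lit 185) (nat_lit 184)) (XT.lf (nat_lit 0) (nat_lit 49369869546) (nat_lit 152) (nat_lit 14890304392) (nat_lit 0) (nat_lit 48904091762) (nat_lit 2) (nat_lit 5) (nat_lit 4) (nat_lit 4) (nat_lit 2) (nat_lit 4) (nat_lit 232) (nat_lit 185) (nat_lit 183)))))) (XT.nd (nat_lit 390) (nat_lit 0) (nat_lit 0) (XT.nd (nat_lit 156) (nat_lit 76) (nat_lit 0) (XT.nd (nat_lit 78) (nat_lit 0) (nat_lit 0) (XT.lf (nat_lit 0) (nat_lit 59996842825) (nat_lit 152) (nat_lit 10514643026) (nat_lit 0) (nat_lit 59342681711) (nat_lit 2) (nat_lit 5) (nat_lit 4) (nat_lit 4) (nat_lit 2) (nat_lit 4) (nat_lit 233) (nat_lit 185) (nat_lit 182)) (XT.lf (nat_lit 0) (nat_lit 71949870046) (nat_lit 152) (nat_lit 5987539742) (nat_lit 0) (nat_lit 71131897342)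 (nat_lit 2) (nat_lit 5) (nat_lit 4) (nat_lit 4) (nat_lit 2) (nat_lit 4) (nat_lit 234) (nat_lit 185) (nat_lit 181))) (XT.nd (nat_lit 78) (nat_lit 76) (nat_lit 0) (XT.lf (nat_lit 0) (nat_lit 85462814787) (nat_lit 152) (nat_lit 1220420780) (nat_lit 0) (nat_lit 84502397220) (nat_lit 2) (nat_lit 5) (nat_lit 4) (nat_lit 4) (nat_lit 2) (nat_lit 4) (nat_lit 235) (nat_lit 185) (nat_lit 180)) (XT.nd (nat_lit 78) (nat_lit 0) (nat_lit 0) (XT.lf (nat_lit 0) (nat_lit 4084296638) (nat_lit 76) (nat_lit 96813991540) (nat_lit 76) (nat_lit 95729708877) (nat_lit 1) (nat_lit 4) (nat_lit 2) (nat_lit 5) (nat_lit 2) (nat_lit 4) (nat_lit 236) (nat_lit 185) (nat_lit 179)) (XT.lf (nat_lit 0) (nat_lit 9909160180) (nat_lit 76) (nat_lit 108590839839) (nat_lit 76) (nat_lit 107398848394) (nat_lit 1) (nat_lit 4) (nat_lit 2) (nat_lit 5) (nat_lit 2) (nat_lit 4) (nat_lit 237) (nat_lit 185) (nat_lit 178))))) (XT.nd (nat_lit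 234) (nat_lit 0) (nat_lit 0) (XT.nd (nat_lit 78) (nat_lit 0) (nat_lit 0) (XT.lf (nat_lit 0) (nat_lit 16303869372) (nat_lit 76) (nat_lit 122277565525) (nat_lit 76) (nat_lit 120991914272) (nat_lit 1) (nat_lit 4) (nat_lit 2) (nat_lit 5) (nat_lit 2) (nat_lit 4) (nat_lit 238) (nat_lit 185) (nat_lit 177)) (XT.nd (nat_lit 78) (nat_lit 0) (nat_lit 0) (XT.lf (nat_lit 0) (nat_lit 23393538087) (nat_lit 76) (nat_lit 138141952363) (nat_lit 76) (nat_lit 136774857798) (nat_lit 1) (nat_lit 4) (nat_lit 2) (nat_lit 5) (nat_lit 2) (nat_lit 4) (nat_lit 239) (nat_lit 185) (nat_lit 176)) (XT.lf (nat_lit 0) (nat_lit 31316877237) (nat_lit 76) (nat_lit 156494390530) (nat_lit 76) (nat_lit 155056475694) (nat_lit 1) (nat_lit 4) (nat_lit 2) (nat_lit 5) (nat_lit 2) (nat_lit 4) (nat_lit 240) (nat_lit 185) (nat_lit 175)))) (XT.nd (nat_lit 78) (nat_lit 0) (nat_lit 0) (XT.lf (nat_lit 0) (nat_lit 40228908674) (nat_lit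 76) (nat_lit 177693949469) (nat_lit 76) (nat_lit 176194451788) (nat_lit 1) (nat_lit 4) (nat_lit 2) (nat_lit 5) (nat_lit 2) (nat_lit 4) (nat_lit 241) (nat_lit 185) (nat_lit 174)) (XT.nd (nat_lit 78) (nat_lit 0) (nat_lit 0) (XT.lf (nat_lit 0) (nat_lit 50303998230) (nat_lit 76) (nat_lit 202155403159) (nat_lit 76) (nat_lit 200602355177) (nat_lit 1) (nat_lit 4) (nat_lit 2) (nat_lit 5) (nat_lit 2) (nat_lit 4) (nat_lit 242) (nat_lit 185) (nat_lit 173)) (XT.lf (nat_lit 0) (nat_lit 61739267223) (nat_lit 76) (nat_lit 230357345258) (nat_lit 76) (nat_lit 228757731799) (nat_lit 1) (nat_lit 4) (nat_lit 2) (nat_lit 5) (nat_lit 2) (nat_lit 4) (nat_lit 243) (nat_lit 185) (nat_lit 172))))))))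
noncomputable def xc7 : XT := (XT.nd (nat_lit 30108) (nat_lit 0) (nat_lit 0) (XT.nd (nat_lit 780) (nat_lit 0) (nat_lit 0) (XT.nd (nat_lit 390) (nat_lit 0) (nat_lit 0) (XT.nd (nat_lit 156) (nat_lit 0) (nat_lit 0) (XT.nd (nat_lit 78) (nat_lit 0) (nat_lit 0) (XT.lf (nat_lit 0) (nat_lit 74758449177) (nat_lit 76) (nat_lit 262851552895) (nat_lit 76) (nat_lit 261211447716) (nat_lit 1) (nat_lit 4) (nat_lit 2) (nat_lit 5) (nat_lit 2) (nat_lit 4) (nat_lit 244) (nat_lit 185) (nat_lit 171)) (XT.lf (nat_lit 0) (nat_lit 89616267217) (nat_lit 76) (nat_lit 300273782306) (nat_lit 76) (nat_lit 298598466936) (nat_lit 1) (nat_lit 4) (nat_lit 2) (nat_lit 5) (nat_lit 2) (nat_lit 4) (nat_lit 245) (nat_lit 185) (nat_lit 170))) (XT.nd (nat_lit 78) (nat_lit 0) (nat_lit 0) (XT.lf (nat_lit 0) (nat_lit 106603417783) (nat_lit 76) (nat_lit 343356207545) (nat_lit 76) (nat_lit 341650274617) (nat_lit 1) (nat_lit 4) (nat_lit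 2) (nat_lit 5) (nat_lit 2) (nat_lit 4) (nat_lit 246) (nat_lit 185) (nat_lit 169)) (XT.nd (nat_lit 78) (nat_lit 0) (nat_lit 0) (XT.lf (nat_lit 0) (nat_lit 126052258169) (nat_lit 76) (nat_lit 392941745628) (nat_lit 76) (nat_lit 391209188737) (nat_lit 1) (nat_lit 4) (nat_lit 2) (nat_lit 5) (nat_lit 2) (nat_lit 4) (nat_lit 247) (nat_lit 185) (nat_lit 168)) (XT.lf (nat_lit 0) (nat_lit 148343309164) (nat_lit 76) (nat_lit 450000548387) (nat_lit 76) (nat_lit 448244840223) (nat_lit 1) (nat_lit 4) (nat_lit 2) (nat_lit 5) (nat_lit 2) (nat_lit 4) (nat_lit 248) (nat_lit 185) (nat_lit 167))))) (XT.nd (nat_lit 156) (nat_lit 0) (nat_lit 0) (XT.nd (nat_lit 78) (nat_lit 0) (nat_lit 0) (XT.lf (nat_lit 0) (nat_lit 173912700027) (nat_lit 76) (nat_lit 515648983700) (nat_lit 76) (nat_lit 513873143995) (nat_lit 1) (nat_lit 4) (nat_lit 2) (nat_lit 5) (nat_lit 2) (nat_lit 4) (nat_lit 249) (nat_lit 185) (nat_lit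 166)) (XT.lf (nat_lit 0) (nat_lit 203260701449) (nat_lit 76) (nat_lit 591171477478) (nat_lit 76) (nat_lit 589378132085) (nat_lit 1) (nat_lit 4) (nat_lit 2) (nat_lit 5) (nat_lit 2) (nat_lit 4) (nat_lit 250) (nat_lit 185) (nat_lit 165))) (XT.nd (nat_lit 78) (nat_lit 0) (nat_lit 0) (XT.lf (nat_lit 0) (nat_lit 236961513459) (nat_lit 76) (nat_lit 678045643729) (nat_lit 76) (nat_lit 676237075998) (nat_lit 1) (nat_lit 4) (nat_lit 2) (nat_lit 5) (nat_lit 2) (nat_lit 4) (nat_lit 251) (nat_lit 185) (nat_lit 164)) (XT.nd (nat_lit 78) (nat_lit 0) (nat_lit 0) (XT.lf (nat_lit 0) (nat_lit 275674499768) (nat_lit 76) (nat_lit 777971194400) (nat_lit 76) (nat_lit 776149389855) (nat_lit 1) (nat_lit 4) (nat_lit 2) (nat_lit 5) (nat_lit 2) (nat_lit 4) (nat_lit 252) (nat_lit 185) (nat_lit 163)) (XT.lf (nat_lit 0) (nat_lit 320157088370) (nat_lit 76) (nat_lit 892903194614) (nat_lit 76) (nat_lit 891069879795) (nat_lit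 1) (nat_lit 4) (nat_lit 2) (nat_lit 5) (nat_lit 2) (nat_lit 4) (nat_lit 253) (nat_lit 185) (nat_lit 162)))))) (XT.nd (nat_lit 390) (nat_lit 0) (nat_lit 0) (XT.nd (nat_lit 156) (nat_lit 0) (nat_lit 0) (XT.nd (nat_lit 78) (nat_lit 0) (nat_lit 0) (XT.lf (nat_lit 0) (nat_lit 371279590782) (nat_lit 76) (nat_lit 1025090313941) (nat_lit 76) (nat_lit 1023246990187) (nat_lit 1) (nat_lit 4) (nat_lit 2) (nat_lit 5) (nat_lit 2) (nat_lit 4) (nat_lit 254) (nat_lit 185) (nat_lit 161)) (XT.lf (nat_lit 0) (nat_lit 430042229876) (nat_lit 76) (nat_lit 1177118822105) (nat_lit 76) (nat_lit 1175266794931) (nat_lit 1) (nat_lit 4) (nat_lit 2) (nat_lit 5) (nat_lit 2) (nat_lit 4) (nat_lit 255) (nat_lit 185) (nat_lit 160))) (XT.nd (nat_lit 78) (nat_lit 0) (nat_lit 0) (XT.lf (nat_lit 0) (nat_lit 497594709462) (nat_lit 76) (nat_lit 1351963189920) (nat_lit 76) (nat_lit 1350103594554) (nat_lit 1) (nat_lit 4) (nat_lit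 2) (nat_lit 5) (nat_lit 2) (nat_lit 4) (nat_lit 256) (nat_lit 185) (nat_lit 159)) (XT.nd (nat_lit 78) (nat_lit 0) (nat_lit 0) (XT.lf (nat_lit 0) (nat_lit 575258708486) (nat_lit 76) (nat_lit 1553044285451) (nat_lit 76) (nat_lit 1551178109048) (nat_lit 1) (nat_lit 4) (nat_lit 2) (nat_lit 5) (nat_lit 2) (nat_lit 4) (nat_lit 257) (nat_lit 185) (nat_lit 158)) (XT.lf (nat_lit 0) (nat_lit 664553739974) (nat_lit 76) (nat_lit 1784296304045) (nat_lit 76) (nat_lit 1782424405002) (nat_lit 1) (nat_lit 4) (nat_lit 2) (nat_lit 5) (nat_lit 2) (nat_lit 4) (nat_lit 258) (nat_lit 185) (nat_lit 157))))) (XT.nd (nat_lit 234) (nat_lit 0) (nat_lit 0) (XT.nd (nat_lit 78) (nat_lit 0) (nat_lit 0) (XT.lf (nat_lit 0) (nat_lit 767226880629) (nat_lit 76) (nat_lit 2050243741719) (nat_lit 76) (nat_lit 2048366866466) (nat_lit 1) (nat_lit 4) (nat_lit 2) (nat_lit 5) (nat_lit 2) (nat_lit 4) (nat_lit 259) (nat_lit 185) (nat_lit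 156)) (XT.nd (nat_lit 78) (nat_lit 0) (nat_lit 0) (XT.lf (nat_lit 0) (nat_lit 885286952768) (nat_lit 76) (nat_lit 2356089917904) (nat_lit 76) (nat_lit 2354208715513) (nat_lit 1) (nat_lit 4) (nat_lit 2) (nat_lit 5) (nat_lit 2) (nat_lit 4) (nat_lit 260) (nat_lit 185) (nat_lit 155)) (XT.lf (nat_lit 0) (nat_lit 1021043827367) (nat_lit 76) (nat_lit 2707818779527) (nat_lit 76) (nat_lit 2705933814408) (nat_lit 1) (nat_lit 4) (nat_lit 2) (nat_lit 5) (nat_lit 2) (nat_lit 4) (nat_lit 261) (nat_lit 185) (nat_lit 154)))) (XT.nd (nat_lit 78) (nat_lit 0) (nat_lit 0) (XT.lf (nat_lit 0) (nat_lit 1177153617191) (nat_lit 76) (nat_lit 3112311978228) (nat_lit 76) (nat_lit 3110423741170) (nat_lit 1) (nat_lit 4) (nat_lit 2) (nat_lit 5) (nat_lit 2) (nat_lit 4) (nat_lit 262) (nat_lit 185) (nat_lit 153)) (XT.nd (nat_lit 28548) (nat_lit 0) (nat_lit 76) (XT.lf (nat_lit 0) (nat_lit 1356670644214) (nat_lit 76) (nat_lit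 3577483511373) (nat_lit 76) (nat_lit 3575592429151) (nat_lit 1) (nat_lit 4) (nat_lit 2) (nat_lit 5) (nat_lit 2) (nat_lit 4) (nat_lit 263) (nat_lit 185) (nat_lit 152)) (XT.lf (nat_lit 0) (nat_lit 8387658508) (nat_lit 152) (nat_lit 16085297069) (nat_lit 0) (nat_lit 8387658508) (nat_lit 2) (nat_lit 5) (nat_lit 4) (nat_lit 4) (nat_lit 2) (nat_lit 4) (nat_lit 228) (nat_lit 186) (nat_lit 186))))))) (XT.nd (nat_lit 858) (nat_lit 0) (nat_lit 0) (XT.nd (nat_lit 390) (nat_lit 76) (nat_lit 0) (XT.nd (nat_lit 156) (nat_lit 0) (nat_lit 0) (XT.nd (nat_lit 78) (nat_lit 0) (nat_lit 0) (XT.lf (nat_lit 0) (nat_lit 23758333237) (nat_lit 152) (nat_lit 27959954427) (nat_lit 0) (nat_lit 23471825740) (nat_lit 2) (nat_lit 5) (nat_lit 4) (nat_lit 4) (nat_lit 2) (nat_lit 4) (nat_lit 229) (nat_lit 186) (nat_lit 185)) (XT.lf (nat_lit 0) (nat_lit 31381219482) (nat_lit 152) (nat_lit 23885619626) (nat_lit 0) (nat_lit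 30845575031) (nat_lit 2) (nat_lit 5) (nat_lit 4) (nat_lit 4) (nat_lit 2) (nat_lit 4) (nat_lit 230) (nat_lit 186) (nat_lit 184))) (XT.nd (nat_lit 78) (nat_lit 0) (nat_lit 0) (XT.lf (nat_lit 0) (nat_lit 39793119179) (nat_lit 152) (nat_lit 19867874492) (nat_lit 0) (nat_lit 39040833898) (nat_lit 2) (nat_lit 5) (nat_lit 4) (nat_lit 4) (nat_lit 2) (nat_lit 4) (nat_lit 231) (nat_lit 186) (nat_lit 183)) (XT.nd (nat_lit 78) (nat_lit 0) (nat_lit 0) (XT.lf (nat_lit 0) (nat_lit 49158612973) (nat_lit 152) (nat_lit 15828110966) (nat_lit 0) (nat_lit 48217944363) (nat_lit 2) (nat_lit 5) (nat_lit 4) (nat_lit 4) (nat_lit 2) (nat_lit 4) (nat_lit 232) (nat_lit 186) (nat_lit 182)) (XT.lf (nat_lit 0) (nat_lit 59660938787) (nat_lit 152) (nat_lit 11687290199) (nat_lit 0) (nat_lit 58556458586) (nat_lit 2) (nat_lit 5) (nat_lit 4) (nat_lit 4) (nat_lit 2) (nat_lit 4) (nat_lit 233) (nat_lit 186) (nat_lit 181)))))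 (XT.nd (nat_lit 234) (nat_lit 0) (nat_lit 0) (XT.nd (nat_lit 78) (nat_lit 76) (nat_lit 0) (XT.lf (nat_lit 0) (nat_lit 71505576909) (nat_lit 152) (nat_lit 7364396131) (nat_lit 0) (nat_lit 70258651846) (nat_lit 2) (nat_lit 5) (nat_lit 4) (nat_lit 4) (nat_lit 2) (nat_lit 4) (nat_lit 234) (nat_lit 186) (nat_lit 180)) (XT.nd (nat_lit 78) (nat_lit 76) (nat_lit 0) (XT.lf (nat_lit 0) (nat_lit 84924270258) (nat_lit 152) (nat_lit 2774850400) (nat_lit 0) (nat_lit 83553480097) (nat_lit 2) (nat_lit 5) (nat_lit 4) (nat_lit 4) (nat_lit 2) (nat_lit 4) (nat_lit 235) (nat_lit 186) (nat_lit 179)) (XT.lf (nat_lit 0) (nat_lit 2285470968) (nat_lit 76) (nat_lit 97949053151) (nat_lit 76) (nat_lit 96470554210) (nat_lit 1) (nat_lit 4) (nat_lit 2) (nat_lit 5) (nat_lit 2) (nat_lit 4) (nat_lit 236) (nat_lit 186) (nat_lit 178)))) (XT.nd (nat_lit 78) (nat_lit 0) (nat_lit 0) (XT.lf (nat_lit 0) (nat_lit 7968993169) (nat_lit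 76) (nat_lit 109792575934) (nat_lit 76) (nat_lit 108220417184) (nat_lit 1) (nat_lit 4) (nat_lit 2) (nat_lit 5) (nat_lit 2) (nat_lit 4) (nat_lit 237) (nat_lit 186) (nat_lit 177)) (XT.nd (nat_lit 78) (nat_lit 0) (nat_lit 0) (XT.lf (nat_lit 0) (nat_lit 14240796847) (nat_lit 76) (nat_lit 123537279434) (nat_lit 76) (nat_lit 121883677372) (nat_lit 1) (nat_lit 4) (nat_lit 2) (nat_lit 5) (nat_lit 2) (nat_lit 4) (nat_lit 238) (nat_lit 186) (nat_lit 176)) (XT.lf (nat_lit 0) (nat_lit 21223591203) (nat_lit 76) (nat_lit 139452081762) (nat_lit 76) (nat_lit 137727659429) (nat_lit 1) (nat_lit 4) (nat_lit 2) (nat_lit 5) (nat_lit 2) (nat_lit 4) (nat_lit 239) (nat_lit 186) (nat_lit 175)))))) (XT.nd (nat_lit 390) (nat_lit 0) (nat_lit 0) (XT.nd (nat_lit 156) (nat_lit 0) (nat_lit 0) (XT.nd (nat_lit 78) (nat_lit 0) (nat_lit 0) (XT.lf (nat_lit 0) (nat_lit 29053996127) (nat_lit 76) (nat_lit 157848359486) (nat_lit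 76) (nat_lit 156062354308) (nat_lit 1) (nat_lit 4) (nat_lit 2) (nat_lit 5) (nat_lit 2) (nat_lit 4) (nat_lit 240) (nat_lit 186) (nat_lit 174)) (XT.lf (nat_lit 0) (nat_lit 37885215193) (nat_lit 76) (nat_lit 179086039778) (nat_lit 76) (nat_lit 177246484300) (nat_lit 1) (nat_lit 4) (nat_lit 2) (nat_lit 5) (nat_lit 2) (nat_lit 4) (nat_lit 241) (nat_lit 186) (nat_lit 173))) (XT.nd (nat_lit 78) (nat_lit 0) (nat_lit 0) (XT.lf (nat_lit 0) (nat_lit 47890033123) (nat_lit 76) (nat_lit 203580642470) (nat_lit 76) (nat_lit 201694521514) (nat_lit 1) (nat_lit 4) (nat_lit 2) (nat_lit 5) (nat_lit 2) (nat_lit 4) (nat_lit 242) (nat_lit 186) (nat_lit 172)) (XT.nd (nat_lit 78) (nat_lit 0) (nat_lit 0) (XT.lf (nat_lit 0) (nat_lit 59264196355) (nat_lit 76) (nat_lit 231811409790) (nat_lit 76) (nat_lit 229884797113) (nat_lit 1) (nat_lit 4) (nat_lit 2) (nat_lit 5) (nat_lit 2) (nat_lit 4) (nat_lit 243) (nat_lit 186)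 (nat_lit 171)) (XT.lf (nat_lit 0) (nat_lit 72230242863) (nat_lit 76) (nat_lit 264330682835) (nat_lit 76) (nat_lit 262368859968) (nat_lit 1) (nat_lit 4) (nat_lit 2) (nat_lit 5) (nat_lit 2) (nat_lit 4) (nat_lit 244) (nat_lit 186) (nat_lit 170))))) (XT.nd (nat_lit 234) (nat_lit 0) (nat_lit 0) (XT.nd (nat_lit 78) (nat_lit 0) (nat_lit 0) (XT.lf (nat_lit 0) (nat_lit 87041856168) (nat_lit 76) (nat_lit 301774708254) (nat_lit 76) (nat_lit 299782267829) (nat_lit 1) (nat_lit 4) (nat_lit 2) (nat_lit 5) (nat_lit 2) (nat_lit 4) (nat_lit 245) (nat_lit 186) (nat_lit 169)) (XT.nd (nat_lit 78) (nat_lit 0) (nat_lit 0) (XT.lf (nat_lit 0) (nat_lit 103988828704) (nat_lit 76) (nat_lit 344876086544) (nat_lit 76) (nat_lit 342857022155) (nat_lit 1) (nat_lit 4) (nat_lit 2) (nat_lit 5) (nat_lit 2) (nat_lit 4) (nat_lit 246) (nat_lit 186) (nat_lit 168)) (XT.lf (nat_lit 0) (nat_lit 123402731672) (nat_lit 76) (nat_lit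 394478105540) (nat_lit 76) (nat_lit 392435889879) (nat_lit 1) (nat_lit 4) (nat_lit 2) (nat_lit 5) (nat_lit 2) (nat_lit 4) (nat_lit 247) (nat_lit 186) (nat_lit 167)))) (XT.nd (nat_lit 78) (nat_lit 0) (nat_lit 0) (XT.lf (nat_lit 0) (nat_lit 145663402303) (nat_lit 76) (nat_lit 451551239527) (nat_lit 76) (nat_lit 449488892325) (nat_lit 1) (nat_lit 4) (nat_lit 2) (nat_lit 5) (nat_lit 2) (nat_lit 4) (nat_lit 248) (nat_lit 186) (nat_lit 166)) (XT.nd (nat_lit 78) (nat_lit 0) (nat_lit 0) (XT.lf (nat_lit 0) (nat_lit 171206375459) (nat_lit 76) (nat_lit 517212136779) (nat_lit 76) (nat_lit 515132283889) (nat_lit 1) (nat_lit 4) (nat_lit 2) (nat_lit 5) (nat_lit 2) (nat_lit 4) (nat_lit 249) (nat_lit 186) (nat_lit 165)) (XT.lf (nat_lit 0) (nat_lit 200531404962) (nat_lit 76) (nat_lit 592745467024) (nat_lit 76) (nat_lit 590650391797) (nat_lit 1) (nat_lit 4) (nat_lit 2) (nat_lit 5) (nat_lit 2) (nat_lit 4)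 (nat_lit 250) (nat_lit 186) (nat_lit 164))))))))
noncomputable def xc8 : XT := (XT.nd (nat_lit 29952) (nat_lit 0) (nat_lit 0) (XT.nd (nat_lit 780) (nat_lit 0) (nat_lit 0) (XT.nd (nat_lit 390) (nat_lit 0) (nat_lit 0) (XT.nd (nat_lit 156) (nat_lit 0) (nat_lit 0) (XT.nd (nat_lit 78) (nat_lit 0) (nat_lit 0) (XT.lf (nat_lit 0) (nat_lit 234212241390) (nat_lit 76) (nat_lit 679629056290) (nat_lit 76) (nat_lit 677520744248) (nat_lit 1) (nat_lit 4) (nat_lit 2) (nat_lit 5) (nat_lit 2) (nat_lit 4) (nat_lit 251) (nat_lit 186) (nat_lit 163)) (XT.lf (nat_lit 0) (nat_lit 272907857628) (nat_lit 76) (nat_lit 779562800888) (nat_lit 76) (nat_lit 777442978572) (nat_lit 1) (nat_lit 4) (nat_lit 2) (nat_lit 5) (nat_lit 2) (nat_lit 4) (nat_lit 252) (nat_lit 186) (nat_lit 162))) (XT.nd (nat_lit 78) (nat_lit 0) (nat_lit 0) (XT.lf (nat_lit 0) (nat_lit 317375341820) (nat_lit 76) (nat_lit 894501926256) (nat_lit 76)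 (nat_lit 892372095006) (nat_lit 1) (nat_lit 4) (nat_lit 2) (nat_lit 5) (nat_lit 2) (nat_lit 4) (nat_lit 253) (nat_lit 186) (nat_lit 161)) (XT.nd (nat_lit 78) (nat_lit 0) (nat_lit 0) (XT.lf (nat_lit 0) (nat_lit 368484709963) (nat_lit 76) (nat_lit 1026695241368) (nat_lit 76) (nat_lit 1024556706697) (nat_lit 1) (nat_lit 4) (nat_lit 2) (nat_lit 5) (nat_lit 2) (nat_lit 4) (nat_lit 254) (nat_lit 186) (nat_lit 160)) (XT.lf (nat_lit 0) (nat_lit 427235927953) (nat_lit 76) (nat_lit 1178729137172) (nat_lit 76) (nat_lit 1176583034309) (nat_lit 1) (nat_lit 4) (nat_lit 2) (nat_lit 5) (nat_lit 2) (nat_lit 4) (nat_lit 255) (nat_lit 186) (nat_lit 159))))) (XT.nd (nat_lit 156) (nat_lit 0) (nat_lit 0) (XT.nd (nat_lit 78) (nat_lit 0) (nat_lit 0) (XT.lf (nat_lit 0) (nat_lit 494778476144) (nat_lit 76) (nat_lit 1353578189891) (nat_lit 76) (nat_lit 1351425505992) (nat_lit 1) (nat_lit 4) (nat_lit 2) (nat_lit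 5) (nat_lit 2) (nat_lit 4) (nat_lit 256) (nat_lit 186) (nat_lit 158)) (XT.lf (nat_lit 0) (nat_lit 572433839173) (nat_lit 76) (nat_lit 1554663359252) (nat_lit 76) (nat_lit 1552504952712) (nat_lit 1) (nat_lit 4) (nat_lit 2) (nat_lit 5) (nat_lit 2) (nat_lit 4) (nat_lit 257) (nat_lit 186) (nat_lit 157))) (XT.nd (nat_lit 78) (nat_lit 0) (nat_lit 0) (XT.lf (nat_lit 0) (nat_lit 661721361100) (nat_lit 76) (nat_lit 1785918920306) (nat_lit 76) (nat_lit 1783755537557) (nat_lit 1) (nat_lit 4) (nat_lit 2) (nat_lit 5) (nat_lit 2) (nat_lit 4) (nat_lit 258) (nat_lit 186) (nat_lit 156)) (XT.nd (nat_lit 78) (nat_lit 0) (nat_lit 0) (XT.lf (nat_lit 0) (nat_lit 764387971702) (nat_lit 76) (nat_lit 2051869438380) (nat_lit 76) (nat_lit 2049701728493) (nat_lit 1) (nat_lit 4) (nat_lit 2) (nat_lit 5) (nat_lit 2) (nat_lit 4) (nat_lit 259) (nat_lit 186) (nat_lit 155)) (XT.lf (nat_lit 0) (nat_lit 882442365533) (nat_lit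 76) (nat_lit 2357718293175) (nat_lit 76) (nat_lit 2355546820559) (nat_lit 1) (nat_lit 4) (nat_lit 2) (nat_lit 5) (nat_lit 2) (nat_lit 4) (nat_lit 260) (nat_lit 186) (nat_lit 154)))))) (XT.nd (nat_lit 28704) (nat_lit 0) (nat_lit 76) (XT.nd (nat_lit 156) (nat_lit 0) (nat_lit 0) (XT.nd (nat_lit 78) (nat_lit 0) (nat_lit 0) (XT.lf (nat_lit 0) (nat_lit 1018194302474) (nat_lit 76) (nat_lit 2709449484023) (nat_lit 76) (nat_lit 2707274739469) (nat_lit 1) (nat_lit 4) (nat_lit 2) (nat_lit 5) (nat_lit 2) (nat_lit 4) (nat_lit 261) (nat_lit 186) (nat_lit 153)) (XT.lf (nat_lit 0) (nat_lit 1174299798682) (nat_lit 76) (nat_lit 3113944708138) (nat_lit 76) (nat_lit 3111767118419) (nat_lit 1) (nat_lit 4) (nat_lit 2) (nat_lit 5) (nat_lit 2) (nat_lit 4) (nat_lit 262) (nat_lit 186) (nat_lit 152))) (XT.nd (nat_lit 28392) (nat_lit 0) (nat_lit 76) (XT.lf (nat_lit 0) (nat_lit 1353813092126) (nat_lit 76) (nat_lit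 3579118002512) (nat_lit 76) (nat_lit 3576937938738) (nat_lit 1) (nat_lit 4) (nat_lit 2) (nat_lit 5) (nat_lit 2) (nat_lit 4) (nat_lit 263) (nat_lit 186) (nat_lit 151)) (XT.nd (nat_lit 78) (nat_lit 0) (nat_lit 0) (XT.lf (nat_lit 0) (nat_lit 2386219020) (nat_lit 152) (nat_lit 20431123480) (nat_lit 0) (nat_lit 2386219020) (nat_lit 2) (nat_lit 5) (nat_lit 4) (nat_lit 4) (nat_lit 2) (nat_lit 4) (nat_lit 226) (nat_lit 187) (nat_lit 187)) (XT.lf (nat_lit 0) (nat_lit 10625030213) (nat_lit 152) (nat_lit 36599920846) (nat_lit 0) (nat_lit 10295546592) (nat_lit 2) (nat_lit 5) (nat_lit 4) (nat_lit 4) (nat_lit 2) (nat_lit 4) (nat_lit 227) (nat_lit 187) (nat_lit 186))))) (XT.nd (nat_lit 234) (nat_lit 0) (nat_lit 0) (XT.nd (nat_lit 78) (nat_lit 0) (nat_lit 0) (XT.lf (nat_lit 0) (nat_lit 16886791444) (nat_lit 152) (nat_lit 32581331814) (nat_lit 0) (nat_lit 16270800325) (nat_lit 2) (nat_lit 5) (nat_lit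 4) (nat_lit 4) (nat_lit 2) (nat_lit 4) (nat_lit 228) (nat_lit 187) (nat_lit 185)) (XT.nd (nat_lit 78) (nat_lit 0) (nat_lit 0) (XT.lf (nat_lit 0) (nat_lit 23680234451) (nat_lit 152) (nat_lit 28727855296) (nat_lit 0) (nat_lit 22815106378) (nat_lit 2) (nat_lit 5) (nat_lit 4) (nat_lit 4) (nat_lit 2) (nat_lit 4) (nat_lit 229) (nat_lit 187) (nat_lit 184)) (XT.lf (nat_lit 0) (nat_lit 31138274423) (nat_lit 152) (nat_lit 24964097187) (nat_lit 0) (nat_lit 30056505522) (nat_lit 2) (nat_lit 5) (nat_lit 4) (nat_lit 4) (nat_lit 2) (nat_lit 4) (nat_lit 230) (nat_lit 187) (nat_lit 183)))) (XT.nd (nat_lit 78) (nat_lit 0) (nat_lit 0) (XT.lf (nat_lit 0) (nat_lit 39406829535) (nat_lit 152) (nat_lit 21216418740) (nat_lit 0) (nat_lit 38136677304) (nat_lit 2) (nat_lit 5) (nat_lit 4) (nat_lit 4) (nat_lit 2) (nat_lit 4) (nat_lit 231) (nat_lit 187) (nat_lit 182)) (XT.nd (nat_lit 78) (nat_lit 0) (nat_lit 0) (XT.lf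 (nat_lit 0) (nat_lit 48647675865) (nat_lit 152) (nat_lit 17411495814) (nat_lit 0) (nat_lit 47213712042) (nat_lit 2) (nat_lit 5) (nat_lit 4) (nat_lit 4) (nat_lit 2) (nat_lit 4) (nat_lit 232) (nat_lit 187) (nat_lit 181)) (XT.lf (nat_lit 0) (nat_lit 59041612580) (nat_lit 152) (nat_lit 13474884262) (nat_lit 0) (nat_lit 57465203895) (nat_lit 2) (nat_lit 5) (nat_lit 4) (nat_lit 4) (nat_lit 2) (nat_lit 4) (nat_lit 233) (nat_lit 187) (nat_lit 180))))))) (XT.nd (nat_lit 780) (nat_lit 0) (nat_lit 0) (XT.nd (nat_lit 390) (nat_lit 0) (nat_lit 0) (XT.nd (nat_lit 156) (nat_lit 76) (nat_lit 0) (XT.nd (nat_lit 78) (nat_lit 0) (nat_lit 0) (XT.lf (nat_lit 0) (nat_lit 70791999310) (nat_lit 152) (nat_lit 9329563425) (nat_lit 0) (nat_lit 69091725528) (nat_lit 2) (nat_lit 5) (nat_lit 4) (nat_lit 4) (nat_lit 2) (nat_lit 4) (nat_lit 234) (nat_lit 187) (nat_lit 179)) (XT.lf (nat_lit 0) (nat_lit 84128734928) (nat_lit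 152) (nat_lit 4894429199) (nat_lit 0) (nat_lit 82320752365) (nat_lit 2) (nat_lit 5) (nat_lit 4) (nat_lit 4) (nat_lit 2) (nat_lit 4) (nat_lit 235) (nat_lit 187) (nat_lit 178))) (XT.nd (nat_lit 78) (nat_lit 76) (nat_lit 0) (XT.lf (nat_lit 0) (nat_lit 99312755564) (nat_lit 152) (nat_lit 82707220) (nat_lit 0) (nat_lit 97411113193) (nat_lit 2) (nat_lit 5) (nat_lit 4) (nat_lit 4) (nat_lit 2) (nat_lit 4) (nat_lit 236) (nat_lit 187) (nat_lit 177)) (XT.nd (nat_lit 78) (nat_lit 0) (nat_lit 0) (XT.lf (nat_lit 0) (nat_lit 5473554252) (nat_lit 76) (nat_lit 111299224743) (nat_lit 76) (nat_lit 109316139059) (nat_lit 1) (nat_lit 4) (nat_lit 2) (nat_lit 5) (nat_lit 2) (nat_lit 4) (nat_lit 237) (nat_lit 187) (nat_lit 176)) (XT.lf (nat_lit 0) (nat_lit 11638483570) (nat_lit 76) (nat_lit 125094343733) (nat_lit 76) (nat_lit 123040437778) (nat_lit 1) (nat_lit 4) (nat_lit 2) (nat_lit 5) (nat_lit 2) (nat_lit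 4) (nat_lit 238) (nat_lit 187) (nat_lit 175))))) (XT.nd (nat_lit 156) (nat_lit 0) (nat_lit 0) (XT.nd (nat_lit 78) (nat_lit 0) (nat_lit 0) (XT.lf (nat_lit 0) (nat_lit 18528343700) (nat_lit 76) (nat_lit 141052985617) (nat_lit 76) (nat_lit 138937496818) (nat_lit 1) (nat_lit 4) (nat_lit 2) (nat_lit 5) (nat_lit 2) (nat_lit 4) (nat_lit 239) (nat_lit 187) (nat_lit 174)) (XT.lf (nat_lit 0) (nat_lit 26277936254) (nat_lit 76) (nat_lit 159487384695) (nat_lit 76) (nat_lit 157318345595) (nat_lit 1) (nat_lit 4) (nat_lit 2) (nat_lit 5) (nat_lit 2) (nat_lit 4) (nat_lit 240) (nat_lit 187) (nat_lit 173))) (XT.nd (nat_lit 78) (nat_lit 0) (nat_lit 0) (XT.lf (nat_lit 0) (nat_lit 35038883694) (nat_lit 76) (nat_lit 180758213990) (nat_lit 76) (nat_lit 178542609412) (nat_lit 1) (nat_lit 4) (nat_lit 2) (nat_lit 5) (nat_lit 2) (nat_lit 4) (nat_lit 241) (nat_lit 187) (nat_lit 172)) (XT.nd (nat_lit 78) (nat_lit 0)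 (nat_lit 0) (XT.lf (nat_lit 0) (nat_lit 44982595862) (nat_lit 76) (nat_lit 205281641902) (nat_lit 76) (nat_lit 203025545604) (nat_lit 1) (nat_lit 4) (nat_lit 2) (nat_lit 5) (nat_lit 2) (nat_lit 4) (nat_lit 242) (nat_lit 187) (nat_lit 171)) (XT.lf (nat_lit 0) (nat_lit 56303623648) (nat_lit 76) (nat_lit 233537474630) (nat_lit 76) (nat_lit 231246168141) (nat_lit 1) (nat_lit 4) (nat_lit 2) (nat_lit 5) (nat_lit 2) (nat_lit 4) (nat_lit 243) (nat_lit 187) (nat_lit 170)))))) (XT.nd (nat_lit 390) (nat_lit 0) (nat_lit 0) (XT.nd (nat_lit 156) (nat_lit 0) (nat_lit 0) (XT.nd (nat_lit 78) (nat_lit 0) (nat_lit 0) (XT.lf (nat_lit 0) (nat_lit 69223465422) (nat_lit 76) (nat_lit 266078543683) (nat_lit 76) (nat_lit 263756619637) (nat_lit 1) (nat_lit 4) (nat_lit 2) (nat_lit 5) (nat_lit 2) (nat_lit 4) (nat_lit 244) (nat_lit 187) (nat_lit 169)) (XT.lf (nat_lit 0) (nat_lit 83994900697) (nat_lit 76) (nat_lit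 303541522152) (nat_lit 76) (nat_lit 301192974142) (nat_lit 1) (nat_lit 4) (nat_lit 2) (nat_lit 5) (nat_lit 2) (nat_lit 4) (nat_lit 245) (nat_lit 187) (nat_lit 168))) (XT.nd (nat_lit 78) (nat_lit 0) (nat_lit 0) (XT.lf (nat_lit 0) (nat_lit 100906935814) (nat_lit 76) (nat_lit 346659381355) (nat_lit 76) (nat_lit 344287682072) (nat_lit 1) (nat_lit 4) (nat_lit 2) (nat_lit 5) (nat_lit 2) (nat_lit 4) (nat_lit 246) (nat_lit 187) (nat_lit 167)) (XT.nd (nat_lit 78) (nat_lit 0) (nat_lit 0) (XT.lf (nat_lit 0) (nat_lit 120290458419) (nat_lit 76) (nat_lit 396275731579) (nat_lit 76) (nat_lit 393883900756) (nat_lit 1) (nat_lit 4) (nat_lit 2) (nat_lit 5) (nat_lit 2) (nat_lit 4) (nat_lit 247) (nat_lit 187) (nat_lit 166)) (XT.lf (nat_lit 0) (nat_lit 142524711343) (nat_lit 76) (nat_lit 453361327504) (nat_lit 76) (nat_lit 450951990993) (nat_lit 1) (nat_lit 4) (nat_lit 2) (nat_lit 5) (nat_lit 2) (nat_lit 4)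 (nat_lit 248) (nat_lit 187) (nat_lit 165))))) (XT.nd (nat_lit 234) (nat_lit 0) (nat_lit 0) (XT.nd (nat_lit 78) (nat_lit 0) (nat_lit 0) (XT.lf (nat_lit 0) (nat_lit 168044712580) (nat_lit 76) (nat_lit 519033061224) (nat_lit 76) (nat_lit 516608502375) (nat_lit 1) (nat_lit 4) (nat_lit 2) (nat_lit 5) (nat_lit 2) (nat_lit 4) (nat_lit 249) (nat_lit 187) (nat_lit 164)) (XT.nd (nat_lit 78) (nat_lit 0) (nat_lit 0) (XT.lf (nat_lit 0) (nat_lit 197349766501) (nat_lit 76) (nat_lit 594575814486) (nat_lit 76) (nat_lit 592138018822) (nat_lit 1) (nat_lit 4) (nat_lit 2) (nat_lit 5) (nat_lit 2) (nat_lit 4) (nat_lit 250) (nat_lit 187) (nat_lit 163)) (XT.lf (nat_lit 0) (nat_lit 231013232857) (nat_lit 76) (nat_lit 681467597678) (nat_lit 76) (nat_lit 679018291740) (nat_lit 1) (nat_lit 4) (nat_lit 2) (nat_lit 5) (nat_lit 2) (nat_lit 4) (nat_lit 251) (nat_lit 187) (nat_lit 162)))) (XT.nd (nat_lit 78) (nat_lit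 0) (nat_lit 0) (XT.lf (nat_lit 0) (nat_lit 269693744686) (nat_lit 76) (nat_lit 781408467430) (nat_lit 76) (nat_lit 778949152558) (nat_lit 1) (nat_lit 4) (nat_lit 2) (nat_lit 5) (nat_lit 2) (nat_lit 4) (nat_lit 252) (nat_lit 187) (nat_lit 161)) (XT.nd (nat_lit 78) (nat_lit 0) (nat_lit 0) (XT.lf (nat_lit 0) (nat_lit 314148094609) (nat_lit 76) (nat_lit 896353788583) (nat_lit 76) (nat_lit 893885770290) (nat_lit 1) (nat_lit 4) (nat_lit 2) (nat_lit 5) (nat_lit 2) (nat_lit 4) (nat_lit 253) (nat_lit 187) (nat_lit 160)) (XT.lf (nat_lit 0) (nat_lit 365246041647) (nat_lit 76) (nat_lit 1028552491335) (nat_lit 76) (nat_lit 1026076904850) (nat_lit 1) (nat_lit 4) (nat_lit 2) (nat_lit 5) (nat_lit 2) (nat_lit 4) (nat_lit 254) (nat_lit 187) (nat_lit 159))))))))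
noncomputable def xc9 : XT := (XT.nd (nat_lit 29796) (nat_lit 0) (nat_lit 0) (XT.nd (nat_lit 28938) (nat_lit 0) (nat_lit 76) (XT.nd (nat_lit 390) (nat_lit 0) (nat_lit 0) (XT.nd (nat_lit 156) (nat_lit 0) (nat_lit 0) (XT.nd (nat_lit 78) (nat_lit 0) (nat_lit 0) (XT.lf (nat_lit 0) (nat_lit 423987328243) (nat_lit 76) (nat_lit 1180591072043) (nat_lit 76) (nat_lit 1178108904522) (nat_lit 1) (nat_lit 4) (nat_lit 2) (nat_lit 5) (nat_lit 2) (nat_lit 4) (nat_lit 255) (nat_lit 187) (nat_lit 158)) (XT.lf (nat_lit 0) (nat_lit 491521240438) (nat_lit 76) (nat_lit 1355444198592) (nat_lit 76) (nat_lit 1352956308430) (nat_lit 1) (nat_lit 4) (nat_lit 2) (nat_lit 5) (nat_lit 2) (nat_lit 4) (nat_lit 256) (nat_lit 187) (nat_lit 157))) (XT.nd (nat_lit 78) (nat_lit 0) (nat_lit 0) (XT.lf (nat_lit 0) (nat_lit 569169093906) (nat_lit 76) (nat_lit 1556532910413) (nat_lit 76) (nat_lit 1554040044042) (nat_lit 1) (nat_lit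 4) (nat_lit 2) (nat_lit 5) (nat_lit 2) (nat_lit 4) (nat_lit 257) (nat_lit 187) (nat_lit 156)) (XT.nd (nat_lit 78) (nat_lit 0) (nat_lit 0) (XT.lf (nat_lit 0) (nat_lit 658450085780) (nat_lit 76) (nat_lit 1787791551868) (nat_lit 76) (nat_lit 1785294358359) (nat_lit 1) (nat_lit 4) (nat_lit 2) (nat_lit 5) (nat_lit 2) (nat_lit 4) (nat_lit 258) (nat_lit 187) (nat_lit 155)) (XT.lf (nat_lit 0) (nat_lit 761111018075) (nat_lit 76) (nat_lit 2053744748551) (nat_lit 76) (nat_lit 2051243792313) (nat_lit 1) (nat_lit 4) (nat_lit 2) (nat_lit 5) (nat_lit 2) (nat_lit 4) (nat_lit 259) (nat_lit 187) (nat_lit 154))))) (XT.nd (nat_lit 156) (nat_lit 0) (nat_lit 0) (XT.nd (nat_lit 78) (nat_lit 0) (nat_lit 0) (XT.lf (nat_lit 0) (nat_lit 879160474248) (nat_lit 76) (nat_lit 2359595932571) (nat_lit 76) (nat_lit 2357091704395) (nat_lit 1) (nat_lit 4) (nat_lit 2) (nat_lit 5) (nat_lit 2) (nat_lit 4) (nat_lit 260) (nat_lit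 187) (nat_lit 153)) (XT.lf (nat_lit 0) (nat_lit 1014908117573) (nat_lit 76) (nat_lit 2711329148833) (nat_lit 76) (nat_lit 2708822075493) (nat_lit 1) (nat_lit 4) (nat_lit 2) (nat_lit 5) (nat_lit 2) (nat_lit 4) (nat_lit 261) (nat_lit 187) (nat_lit 152))) (XT.nd (nat_lit 78) (nat_lit 0) (nat_lit 0) (XT.lf (nat_lit 0) (nat_lit 1171009880202) (nat_lit 76) (nat_lit 3115826134176) (nat_lit 76) (nat_lit 3113316586781) (nat_lit 1) (nat_lit 4) (nat_lit 2) (nat_lit 5) (nat_lit 2) (nat_lit 4) (nat_lit 262) (nat_lit 187) (nat_lit 151)) (XT.nd (nat_lit 28236) (nat_lit 0) (nat_lit 228) (XT.lf (nat_lit 0) (nat_lit 1350519927055) (nat_lit 76) (nat_lit 3581000960053) (nat_lit 76) (nat_lit 3578489261305) (nat_lit 1) (nat_lit 4) (nat_lit 2) (nat_lit 5) (nat_lit 2) (nat_lit 4) (nat_lit 263) (nat_lit 187) (nat_lit 150)) (XT.lf (nat_lit 0) (nat_lit 14094461497) (nat_lit 76) (nat_lit 2675642609) (nat_lit 76)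 (nat_lit 2675642609) (nat_lit 4) (nat_lit 4) (nat_lit 5) (nat_lit 5) (nat_lit 5) (nat_lit 4) (nat_lit 224) (nat_lit 188) (nat_lit 188)))))) (XT.nd (nat_lit 390) (nat_lit 0) (nat_lit 0) (XT.nd (nat_lit 156) (nat_lit 0) (nat_lit 0) (XT.nd (nat_lit 78) (nat_lit 152) (nat_lit 0) (XT.lf (nat_lit 0) (nat_lit 43093075937) (nat_lit 76) (nat_lit 785558959) (nat_lit 76) (nat_lit 376340302) (nat_lit 4) (nat_lit 4) (nat_lit 5) (nat_lit 5) (nat_lit 5) (nat_lit 4) (nat_lit 225) (nat_lit 188) (nat_lit 187)) (XT.lf (nat_lit 0) (nat_lit 4900633631) (nat_lit 152) (nat_lit 41334595286) (nat_lit 0) (nat_lit 4192243844) (nat_lit 2) (nat_lit 5) (nat_lit 4) (nat_lit 4) (nat_lit 2) (nat_lit 4) (nat_lit 226) (nat_lit 188) (nat_lit 186))) (XT.nd (nat_lit 78) (nat_lit 0) (nat_lit 0) (XT.lf (nat_lit 0) (nat_lit 10535216609) (nat_lit 152) (nat_lit 37483006846) (nat_lit 0) (nat_lit 9540319326) (nat_lit 2) (nat_lit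 5) (nat_lit 4) (nat_lit 4) (nat_lit 2) (nat_lit 4) (nat_lit 227) (nat_lit 188) (nat_lit 185)) (XT.nd (nat_lit 78) (nat_lit 0) (nat_lit 0) (XT.lf (nat_lit 0) (nat_lit 16607404626) (nat_lit 152) (nat_lit 33821581008) (nat_lit 0) (nat_lit 15363370389) (nat_lit 2) (nat_lit 5) (nat_lit 4) (nat_lit 4) (nat_lit 2) (nat_lit 4) (nat_lit 228) (nat_lit 188) (nat_lit 184)) (XT.lf (nat_lit 0) (nat_lit 23236001361) (nat_lit 152) (nat_lit 30278681182) (nat_lit 0) (nat_lit 21775326295) (nat_lit 2) (nat_lit 5) (nat_lit 4) (nat_lit 4) (nat_lit 2) (nat_lit 4) (nat_lit 229) (nat_lit 188) (nat_lit 183))))) (XT.nd (nat_lit 234) (nat_lit 0) (nat_lit 0) (XT.nd (nat_lit 78) (nat_lit 0) (nat_lit 0) (XT.lf (nat_lit 0) (nat_lit 30550696749) (nat_lit 152) (nat_lit 26784989761) (nat_lit 0) (nat_lit 28901638353) (nat_lit 2) (nat_lit 5) (nat_lit 4) (nat_lit 4) (nat_lit 2) (nat_lit 4) (nat_lit 230) (nat_lit 188) (nat_lit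 182)) (XT.nd (nat_lit 78) (nat_lit 0) (nat_lit 0) (XT.lf (nat_lit 0) (nat_lit 38694604397) (nat_lit 152) (nat_lit 23272151913) (nat_lit 0) (nat_lit 36881734409) (nat_lit 2) (nat_lit 5) (nat_lit 4) (nat_lit 4) (nat_lit 2) (nat_lit 4) (nat_lit 231) (nat_lit 188) (nat_lit 181)) (XT.lf (nat_lit 0) (nat_lit 47827061626) (nat_lit 152) (nat_lit 19671438202) (nat_lit 0) (nat_lit 45871746777) (nat_lit 2) (nat_lit 5) (nat_lit 4) (nat_lit 4) (nat_lit 2) (nat_lit 4) (nat_lit 232) (nat_lit 188) (nat_lit 180)))) (XT.nd (nat_lit 78) (nat_lit 0) (nat_lit 0) (XT.lf (nat_lit 0) (nat_lit 58126746950) (nat_lit 152) (nat_lit 15912399882) (nat_lit 0) (nat_lit 56047567003) (nat_lit 2) (nat_lit 5) (nat_lit 4) (nat_lit 4) (nat_lit 2) (nat_lit 4) (nat_lit 233) (nat_lit 188) (nat_lit 179)) (XT.nd (nat_lit 78) (nat_lit 0) (nat_lit 0) (XT.lf (nat_lit 0) (nat_lit 69795175949) (nat_lit 152) (nat_lit 11921490550) (nat_lit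 0) (nat_lit 67608287222) (nat_lit 2) (nat_lit 5) (nat_lit 4) (nat_lit 4) (nat_lit 2) (nat_lit 4) (nat_lit 234) (nat_lit 188) (nat_lit 178)) (XT.lf (nat_lit 0) (nat_lit 83060643974) (nat_lit 152) (nat_lit 7620627199) (nat_lit 0) (nat_lit 80780095438) (nat_lit 2) (nat_lit 5) (nat_lit 4) (nat_lit 4) (nat_lit 2) (nat_lit 4) (nat_lit 235) (nat_lit 188) (nat_lit 177))))))) (XT.nd (nat_lit 780) (nat_lit 0) (nat_lit 0) (XT.nd (nat_lit 390) (nat_lit 0) (nat_lit 0) (XT.nd (nat_lit 156) (nat_lit 0) (nat_lit 0) (XT.nd (nat_lit 78) (nat_lit 76) (nat_lit 0) (XT.lf (nat_lit 0) (nat_lit 98182692791) (nat_lit 152) (nat_lit 2925662501) (nat_lit 0) (nat_lit 95820700943) (nat_lit 2) (nat_lit 5) (nat_lit 4) (nat_lit 4) (nat_lit 2) (nat_lit 4) (nat_lit 236) (nat_lit 188) (nat_lit 176)) (XT.lf (nat_lit 0) (nat_lit 2374019624) (nat_lit 76) (nat_lit 113140264177) (nat_lit 76) (nat_lit 110707452057) (nat_lit 1)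 (nat_lit 4) (nat_lit 2) (nat_lit 5) (nat_lit 2) (nat_lit 4) (nat_lit 237) (nat_lit 188) (nat_lit 175))) (XT.nd (nat_lit 78) (nat_lit 0) (nat_lit 0) (XT.lf (nat_lit 0) (nat_lit 8446014716) (nat_lit 76) (nat_lit 126979222723) (nat_lit 76) (nat_lit 124484827758) (nat_lit 1) (nat_lit 4) (nat_lit 2) (nat_lit 5) (nat_lit 2) (nat_lit 4) (nat_lit 238) (nat_lit 188) (nat_lit 174)) (XT.nd (nat_lit 78) (nat_lit 0) (nat_lit 0) (XT.lf (nat_lit 0) (nat_lit 15255062476) (nat_lit 76) (nat_lit 142975985961) (nat_lit 76) (nat_lit 140428040697) (nat_lit 1) (nat_lit 4) (nat_lit 2) (nat_lit 5) (nat_lit 2) (nat_lit 4) (nat_lit 239) (nat_lit 188) (nat_lit 173)) (XT.lf (nat_lit 0) (nat_lit 22934383403) (nat_lit 76) (nat_lit 161443534041) (nat_lit 76) (nat_lit 158849023299) (nat_lit 1) (nat_lit 4) (nat_lit 2) (nat_lit 5) (nat_lit 2) (nat_lit 4) (nat_lit 240) (nat_lit 188) (nat_lit 172))))) (XT.nd (nat_lit 156)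 (nat_lit 0) (nat_lit 0) (XT.nd (nat_lit 78) (nat_lit 0) (nat_lit 0) (XT.lf (nat_lit 0) (nat_lit 31634225082) (nat_lit 76) (nat_lit 182743188556) (nat_lit 76) (nat_lit 180108186094) (nat_lit 1) (nat_lit 4) (nat_lit 2) (nat_lit 5) (nat_lit 2) (nat_lit 4) (nat_lit 241) (nat_lit 188) (nat_lit 171)) (XT.lf (nat_lit 0) (nat_lit 41524801805) (nat_lit 76) (nat_lit 207291681877) (nat_lit 76) (nat_lit 204621469223) (nat_lit 1) (nat_lit 4) (nat_lit 2) (nat_lit 5) (nat_lit 2) (nat_lit 4) (nat_lit 242) (nat_lit 188) (nat_lit 170))) (XT.nd (nat_lit 78) (nat_lit 0) (nat_lit 0) (XT.lf (nat_lit 0) (nat_lit 52799624856) (nat_lit 76) (nat_lit 235569310613) (nat_lit 76) (nat_lit 232868480401) (nat_lit 1) (nat_lit 4) (nat_lit 2) (nat_lit 5) (nat_lit 2) (nat_lit 4) (nat_lit 243) (nat_lit 188) (nat_lit 169)) (XT.nd (nat_lit 78) (nat_lit 0) (nat_lit 0) (XT.lf (nat_lit 0) (nat_lit 65679288599) (nat_lit 76) (nat_lit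 268129332716) (nat_lit 76) (nat_lit 265401878541) (nat_lit 1) (nat_lit 4) (nat_lit 2) (nat_lit 5) (nat_lit 2) (nat_lit 4) (nat_lit 244) (nat_lit 188) (nat_lit 168)) (XT.lf (nat_lit 0) (nat_lit 80415786456) (nat_lit 76) (nat_lit 305608792098) (nat_lit 76) (nat_lit 302858186651) (nat_lit 1) (nat_lit 4) (nat_lit 2) (nat_lit 5) (nat_lit 2) (nat_lit 4) (nat_lit 245) (nat_lit 188) (nat_lit 167)))))) (XT.nd (nat_lit 390) (nat_lit 0) (nat_lit 0) (XT.nd (nat_lit 156) (nat_lit 0) (nat_lit 0) (XT.nd (nat_lit 78) (nat_lit 0) (nat_lit 0) (XT.lf (nat_lit 0) (nat_lit 97297441211) (nat_lit 76) (nat_lit 348740982529) (nat_lit 76) (nat_lit 345970245541) (nat_lit 1) (nat_lit 4) (nat_lit 2) (nat_lit 5) (nat_lit 2) (nat_lit 4) (nat_lit 246) (nat_lit 188) (nat_lit 166)) (XT.lf (nat_lit 0) (nat_lit 116654546108) (nat_lit 76) (nat_lit 398369794692) (nat_lit 76) (nat_lit 395581552016) (nat_lit 1) (nat_lit 4)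 (nat_lit 2) (nat_lit 5) (nat_lit 2) (nat_lit 4) (nat_lit 247) (nat_lit 188) (nat_lit 165))) (XT.nd (nat_lit 78) (nat_lit 0) (nat_lit 0) (XT.lf (nat_lit 0) (nat_lit 138865827113) (nat_lit 76) (nat_lit 455466227085) (nat_lit 76) (nat_lit 452662762071) (nat_lit 1) (nat_lit 4) (nat_lit 2) (nat_lit 5) (nat_lit 2) (nat_lit 4) (nat_lit 248) (nat_lit 188) (nat_lit 164)) (XT.nd (nat_lit 78) (nat_lit 0) (nat_lit 0) (XT.lf (nat_lit 0) (nat_lit 164365852768) (nat_lit 76) (nat_lit 521147383820) (nat_lit 76) (nat_lit 518330681992) (nat_lit 1) (nat_lit 4) (nat_lit 2) (nat_lit 5) (nat_lit 2) (nat_lit 4) (nat_lit 249) (nat_lit 188) (nat_lit 163)) (XT.lf (nat_lit 0) (nat_lit 193653536618) (nat_lit 76) (nat_lit 596698331008) (nat_lit 76) (nat_lit 593870118905) (nat_lit 1) (nat_lit 4) (nat_lit 2) (nat_lit 5) (nat_lit 2) (nat_lit 4) (nat_lit 250) (nat_lit 188) (nat_lit 162))))) (XT.nd (nat_lit 234) (nat_lit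 0) (nat_lit 0) (XT.nd (nat_lit 78) (nat_lit 0) (nat_lit 0) (XT.lf (nat_lit 0) (nat_lit 227301898564) (nat_lit 76) (nat_lit 683597239354) (nat_lit 76) (nat_lit 680759018318) (nat_lit 1) (nat_lit 4) (nat_lit 2) (nat_lit 5) (nat_lit 2) (nat_lit 4) (nat_lit 251) (nat_lit 188) (nat_lit 161)) (XT.nd (nat_lit 78) (nat_lit 0) (nat_lit 0) (XT.lf (nat_lit 0) (nat_lit 265969276123) (nat_lit 76) (nat_lit 783544304891) (nat_lit 76) (nat_lit 780697380434) (nat_lit 1) (nat_lit 4) (nat_lit 2) (nat_lit 5) (nat_lit 2) (nat_lit 4) (nat_lit 252) (nat_lit 188) (nat_lit 160)) (XT.lf (nat_lit 0) (nat_lit 310412204942) (nat_lit 76) (nat_lit 898495013685) (nat_lit 76) (nat_lit 895640521035) (nat_lit 1) (nat_lit 4) (nat_lit 2) (nat_lit 5) (nat_lit 2) (nat_lit 4) (nat_lit 253) (nat_lit 188) (nat_lit 159)))) (XT.nd (nat_lit 78) (nat_lit 0) (nat_lit 0) (XT.lf (nat_lit 0) (nat_lit 361500220586) (nat_lit 76) (nat_lit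 1030698401340) (nat_lit 76) (nat_lit 1027837327655) (nat_lit 1) (nat_lit 4) (nat_lit 2) (nat_lit 5) (nat_lit 2) (nat_lit 4) (nat_lit 254) (nat_lit 188) (nat_lit 158)) (XT.nd (nat_lit 78) (nat_lit 0) (nat_lit 0) (XT.lf (nat_lit 0) (nat_lit 420232871186) (nat_lit 76) (nat_lit 1182741055879) (nat_lit 76) (nat_lit 1179874259552) (nat_lit 1) (nat_lit 4) (nat_lit 2) (nat_lit 5) (nat_lit 2) (nat_lit 4) (nat_lit 255) (nat_lit 188) (nat_lit 157)) (XT.lf (nat_lit 0) (nat_lit 487759273820) (nat_lit 76) (nat_lit 1357597724888) (nat_lit 76) (nat_lit 1354725952352) (nat_lit 1) (nat_lit 4) (nat_lit 2) (nat_lit 5) (nat_lit 2) (nat_lit 4) (nat_lit 256) (nat_lit 188) (nat_lit 156))))))))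
noncomputable def xc10 : XT := (XT.nd (nat_lit 29640) (nat_lit 0) (nat_lit 0) (XT.nd (nat_lit 28782) (nat_lit 0) (nat_lit 76) (XT.nd (nat_lit 390) (nat_lit 0) (nat_lit 0) (XT.nd (nat_lit 156) (nat_lit 0) (nat_lit 0) (XT.nd (nat_lit 78) (nat_lit 0) (nat_lit 0) (XT.lf (nat_lit 0) (nat_lit 565400597235) (nat_lit 76) (nat_lit 1558689517109) (nat_lit 76) (nat_lit 1555813417435) (nat_lit 1) (nat_lit 4) (nat_lit 2) (nat_lit 5) (nat_lit 2) (nat_lit 4) (nat_lit 257) (nat_lit 188) (nat_lit 155)) (XT.lf (nat_lit 0) (nat_lit 654675910802) (nat_lit 76) (nat_lit 1789950837173) (nat_lit 76) (nat_lit 1787070974771) (nat_lit 1) (nat_lit 4) (nat_lit 2) (nat_lit 5) (nat_lit 2) (nat_lit 4) (nat_lit 258) (nat_lit 188) (nat_lit 154))) (XT.nd (nat_lit 78) (nat_lit 0) (nat_lit 0) (XT.lf (nat_lit 0) (nat_lit 757331905438) (nat_lit 76) (nat_lit 2055906363082) (nat_lit 76) (nat_lit 2053023228741) (nat_lit 1) (nat_lit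 4) (nat_lit 2) (nat_lit 5) (nat_lit 2) (nat_lit 4) (nat_lit 259) (nat_lit 188) (nat_lit 153)) (XT.nd (nat_lit 78) (nat_lit 0) (nat_lit 0) (XT.lf (nat_lit 0) (nat_lit 875377067996) (nat_lit 76) (nat_lit 2361759572515) (nat_lit 76) (nat_lit 2358873593011) (nat_lit 1) (nat_lit 4) (nat_lit 2) (nat_lit 5) (nat_lit 2) (nat_lit 4) (nat_lit 260) (nat_lit 188) (nat_lit 152)) (XT.lf (nat_lit 0) (nat_lit 1011120977742) (nat_lit 76) (nat_lit 2713494550006) (nat_lit 76) (nat_lit 2710606096446) (nat_lit 1) (nat_lit 4) (nat_lit 2) (nat_lit 5) (nat_lit 2) (nat_lit 4) (nat_lit 261) (nat_lit 188) (nat_lit 151))))) (XT.nd (nat_lit 28158) (nat_lit 0) (nat_lit 228) (XT.nd (nat_lit 78) (nat_lit 0) (nat_lit 0) (XT.lf (nat_lit 0) (nat_lit 1167219493780) (nat_lit 76) (nat_lit 3117993066853) (nat_lit 76) (nat_lit 3115102461940) (nat_lit 1) (nat_lit 4) (nat_lit 2) (nat_lit 5) (nat_lit 2) (nat_lit 4) (nat_lit 262)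 (nat_lit 188) (nat_lit 150)) (XT.lf (nat_lit 0) (nat_lit 1346726717511) (nat_lit 76) (nat_lit 3583169224472) (nat_lit 76) (nat_lit 3580276748818) (nat_lit 1) (nat_lit 4) (nat_lit 2) (nat_lit 5) (nat_lit 2) (nat_lit 4) (nat_lit 263) (nat_lit 188) (nat_lit 149))) (XT.nd (nat_lit 78) (nat_lit 0) (nat_lit 0) (XT.lf (nat_lit 0) (nat_lit 888856560) (nat_lit 76) (nat_lit 7122601314) (nat_lit 76) (nat_lit 7122601314) (nat_lit 4) (nat_lit 4) (nat_lit 5) (nat_lit 5) (nat_lit 5) (nat_lit 4) (nat_lit 222) (nat_lit 189) (nat_lit 189)) (XT.nd (nat_lit 78) (nat_lit 0) (nat_lit 0) (XT.lf (nat_lit 0) (nat_lit 14321556755) (nat_lit 76) (nat_lit 10208301123) (nat_lit 76) (nat_lit 9737699666) (nat_lit 4) (nat_lit 4) (nat_lit 5) (nat_lit 5) (nat_lit 5) (nat_lit 4) (nat_lit 223) (nat_lit 189) (nat_lit 188)) (XT.lf (nat_lit 0) (nat_lit 27703658700) (nat_lit 76) (nat_lit 6044514748) (nat_lit 76) (nat_lit 5164694633)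 (nat_lit 4) (nat_lit 4) (nat_lit 5) (nat_lit 5) (nat_lit 5) (nat_lit 4) (nat_lit 224) (nat_lit 189) (nat_lit 187)))))) (XT.nd (nat_lit 390) (nat_lit 0) (nat_lit 0) (XT.nd (nat_lit 156) (nat_lit 0) (nat_lit 0) (XT.nd (nat_lit 78) (nat_lit 152) (nat_lit 0) (XT.lf (nat_lit 0) (nat_lit 42185842690) (nat_lit 76) (nat_lit 1672378116) (nat_lit 76) (nat_lit 436715690) (nat_lit 4) (nat_lit 4) (nat_lit 5) (nat_lit 5) (nat_lit 5) (nat_lit 4) (nat_lit 225) (nat_lit 189) (nat_lit 186)) (XT.lf (nat_lit 0) (nat_lit 4579338790) (nat_lit 152) (nat_lit 42760881860) (nat_lit 0) (nat_lit 3148699418) (nat_lit 2) (nat_lit 5) (nat_lit 4) (nat_lit 4) (nat_lit 2) (nat_lit 4) (nat_lit 226) (nat_lit 189) (nat_lit 185))) (XT.nd (nat_lit 78) (nat_lit 0) (nat_lit 0) (XT.lf (nat_lit 0) (nat_lit 10024348556) (nat_lit 152) (nat_lit 39266456615) (nat_lit 0) (nat_lit 8344572230) (nat_lit 2) (nat_lit 5) (nat_lit 4) (nat_lit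 4) (nat_lit 2) (nat_lit 4) (nat_lit 227) (nat_lit 189) (nat_lit 184)) (XT.nd (nat_lit 78) (nat_lit 0) (nat_lit 0) (XT.lf (nat_lit 0) (nat_lit 15931690301) (nat_lit 152) (nat_lit 35915607469) (nat_lit 0) (nat_lit 14035273145) (nat_lit 2) (nat_lit 5) (nat_lit 4) (nat_lit 4) (nat_lit 2) (nat_lit 4) (nat_lit 228) (nat_lit 189) (nat_lit 183)) (XT.lf (nat_lit 0) (nat_lit 22416942451) (nat_lit 152) (nat_lit 32642774330) (nat_lit 0) (nat_lit 20332141966) (nat_lit 2) (nat_lit 5) (nat_lit 4) (nat_lit 4) (nat_lit 2) (nat_lit 4) (nat_lit 229) (nat_lit 189) (nat_lit 182))))) (XT.nd (nat_lit 234) (nat_lit 0) (nat_lit 0) (XT.nd (nat_lit 78) (nat_lit 0) (nat_lit 0) (XT.lf (nat_lit 0) (nat_lit 29606990375) (nat_lit 152) (nat_lit 29383923507) (nat_lit 0) (nat_lit 27358378298) (nat_lit 2) (nat_lit 5) (nat_lit 4) (nat_lit 4) (nat_lit 2) (nat_lit 4) (nat_lit 230) (nat_lit 189) (nat_lit 181)) (XT.nd (nat_lit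 78) (nat_lit 0) (nat_lit 0) (XT.lf (nat_lit 0) (nat_lit 37642508922) (nat_lit 152) (nat_lit 26075294875) (nat_lit 0) (nat_lit 35251451983) (nat_lit 2) (nat_lit 5) (nat_lit 4) (nat_lit 4) (nat_lit 2) (nat_lit 4) (nat_lit 231) (nat_lit 189) (nat_lit 180)) (XT.lf (nat_lit 0) (nat_lit 46680714761) (nat_lit 152) (nat_lit 22652154396) (nat_lit 0) (nat_lit 44165792725) (nat_lit 2) (nat_lit 5) (nat_lit 4) (nat_lit 4) (nat_lit 2) (nat_lit 4) (nat_lit 232) (nat_lit 189) (nat_lit 179)))) (XT.nd (nat_lit 78) (nat_lit 0) (nat_lit 0) (XT.lf (nat_lit 0) (nat_lit 56898442353) (nat_lit 152) (nat_lit 19047527581) (nat_lit 0) (nat_lit 54275811536) (nat_lit 2) (nat_lit 5) (nat_lit 4) (nat_lit 4) (nat_lit 2) (nat_lit 4) (nat_lit 233) (nat_lit 189) (nat_lit 178)) (XT.nd (nat_lit 78) (nat_lit 0) (nat_lit 0) (XT.lf (nat_lit 0) (nat_lit 68495603760) (nat_lit 152) (nat_lit 15190889124) (nat_lit 0) (nat_lit 65779313134)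 (nat_lit 2) (nat_lit 5) (nat_lit 4) (nat_lit 4) (nat_lit 2) (nat_lit 4) (nat_lit 234) (nat_lit 189) (nat_lit 177)) (XT.lf (nat_lit 0) (nat_lit 81699099965) (nat_lit 152) (nat_lit 11006783055) (nat_lit 0) (nat_lit 78901366027) (nat_lit 2) (nat_lit 5) (nat_lit 4) (nat_lit 4) (nat_lit 2) (nat_lit 4) (nat_lit 235) (nat_lit 189) (nat_lit 176))))))) (XT.nd (nat_lit 780) (nat_lit 0) (nat_lit 0) (XT.nd (nat_lit 390) (nat_lit 0) (nat_lit 0) (XT.nd (nat_lit 156) (nat_lit 76) (nat_lit 0) (XT.nd (nat_lit 78) (nat_lit 0) (nat_lit 0) (XT.lf (nat_lit 0) (nat_lit 96767260243) (nat_lit 152) (nat_lit 6413346428) (nat_lit 0) (nat_lit 93898706034) (nat_lit 2) (nat_lit 5) (nat_lit 4) (nat_lit 4) (nat_lit 2) (nat_lit 4) (nat_lit 236) (nat_lit 189) (nat_lit 175)) (XT.lf (nat_lit 0) (nat_lit 113994896425) (nat_lit 152) (nat_lit 1320707658) (nat_lit 0) (nat_lit 111064759371) (nat_lit 2) (nat_lit 5) (nat_lit 4)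 (nat_lit 4) (nat_lit 2) (nat_lit 4) (nat_lit 237) (nat_lit 189) (nat_lit 174))) (XT.nd (nat_lit 78) (nat_lit 0) (nat_lit 0) (XT.lf (nat_lit 0) (nat_lit 4600928938) (nat_lit 76) (nat_lit 129228794471) (nat_lit 76) (nat_lit 126245107118) (nat_lit 1) (nat_lit 4) (nat_lit 2) (nat_lit 5) (nat_lit 2) (nat_lit 4) (nat_lit 238) (nat_lit 189) (nat_lit 173)) (XT.nd (nat_lit 78) (nat_lit 0) (nat_lit 0) (XT.lf (nat_lit 0) (nat_lit 11339705072) (nat_lit 76) (nat_lit 145258706712) (nat_lit 76) (nat_lit 142228453881) (nat_lit 1) (nat_lit 4) (nat_lit 2) (nat_lit 5) (nat_lit 2) (nat_lit 4) (nat_lit 239) (nat_lit 189) (nat_lit 172)) (XT.lf (nat_lit 0) (nat_lit 18957920237) (nat_lit 76) (nat_lit 163755080012) (nat_lit 76) (nat_lit 160684335461) (nat_lit 1) (nat_lit 4) (nat_lit 2) (nat_lit 5) (nat_lit 2) (nat_lit 4) (nat_lit 240) (nat_lit 189) (nat_lit 171))))) (XT.nd (nat_lit 156) (nat_lit 0) (nat_lit 0)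 (XT.nd (nat_lit 78) (nat_lit 0) (nat_lit 0) (XT.lf (nat_lit 0) (nat_lit 27604626470) (nat_lit 76) (nat_lit 185079799936) (nat_lit 76) (nat_lit 181973845193) (nat_lit 1) (nat_lit 4) (nat_lit 2) (nat_lit 5) (nat_lit 2) (nat_lit 4) (nat_lit 241) (nat_lit 189) (nat_lit 170)) (XT.lf (nat_lit 0) (nat_lit 37448998458) (nat_lit 76) (nat_lit 209650089265) (nat_lit 76) (nat_lit 206513516964) (nat_lit 1) (nat_lit 4) (nat_lit 2) (nat_lit 5) (nat_lit 2) (nat_lit 4) (nat_lit 242) (nat_lit 189) (nat_lit 169))) (XT.nd (nat_lit 78) (nat_lit 0) (nat_lit 0) (XT.lf (nat_lit 0) (nat_lit 48683643479) (nat_lit 76) (nat_lit 237946671050) (nat_lit 76) (nat_lit 234783474786) (nat_lit 1) (nat_lit 4) (nat_lit 2) (nat_lit 5) (nat_lit 2) (nat_lit 4) (nat_lit 243) (nat_lit 189) (nat_lit 168)) (XT.nd (nat_lit 78) (nat_lit 0) (nat_lit 0) (XT.lf (nat_lit 0) (nat_lit 61528369805) (nat_lit 76) (nat_lit 270523174067) (nat_lit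 76) (nat_lit 267336826530) (nat_lit 1) (nat_lit 4) (nat_lit 2) (nat_lit 5) (nat_lit 2) (nat_lit 4) (nat_lit 244) (nat_lit 189) (nat_lit 167)) (XT.lf (nat_lit 0) (nat_lit 76234487299) (nat_lit 76) (nat_lit 308016964678) (nat_lit 76) (nat_lit 304810485600) (nat_lit 1) (nat_lit 4) (nat_lit 2) (nat_lit 5) (nat_lit 2) (nat_lit 4) (nat_lit 245) (nat_lit 189) (nat_lit 166)))))) (XT.nd (nat_lit 390) (nat_lit 0) (nat_lit 0) (XT.nd (nat_lit 156) (nat_lit 0) (nat_lit 0) (XT.nd (nat_lit 78) (nat_lit 0) (nat_lit 0) (XT.lf (nat_lit 0) (nat_lit 93089724346) (nat_lit 76) (nat_lit 351161617047) (nat_lit 76) (nat_lit 347937632281) (nat_lit 1) (nat_lit 4) (nat_lit 2) (nat_lit 5) (nat_lit 2) (nat_lit 4) (nat_lit 246) (nat_lit 189) (nat_lit 165)) (XT.lf (nat_lit 0) (nat_lit 112423857324) (nat_lit 76) (nat_lit 400801265677) (nat_lit 76) (nat_lit 397562058574) (nat_lit 1) (nat_lit 4) (nat_lit 2) (nat_lit 5)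 (nat_lit 2) (nat_lit 4) (nat_lit 247) (nat_lit 189) (nat_lit 164))) (XT.nd (nat_lit 78) (nat_lit 0) (nat_lit 0) (XT.lf (nat_lit 0) (nat_lit 134615162747) (nat_lit 76) (nat_lit 457907121086) (nat_lit 76) (nat_lit 454654677168) (nat_lit 1) (nat_lit 4) (nat_lit 2) (nat_lit 5) (nat_lit 2) (nat_lit 4) (nat_lit 248) (nat_lit 189) (nat_lit 163)) (XT.nd (nat_lit 78) (nat_lit 0) (nat_lit 0) (XT.lf (nat_lit 0) (nat_lit 160097818331) (nat_lit 76) (nat_lit 523596471748) (nat_lit 76) (nat_lit 520332517556) (nat_lit 1) (nat_lit 4) (nat_lit 2) (nat_lit 5) (nat_lit 2) (nat_lit 4) (nat_lit 249) (nat_lit 189) (nat_lit 162)) (XT.lf (nat_lit 0) (nat_lit 189370397771) (nat_lit 76) (nat_lit 599154544089) (nat_lit 76) (nat_lit 595880580963) (nat_lit 1) (nat_lit 4) (nat_lit 2) (nat_lit 5) (nat_lit 2) (nat_lit 4) (nat_lit 250) (nat_lit 189) (nat_lit 161))))) (XT.nd (nat_lit 234) (nat_lit 0) (nat_lit 0) (XT.nd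 (nat_lit 78) (nat_lit 0) (nat_lit 0) (XT.lf (nat_lit 0) (nat_lit 223005625447) (nat_lit 76) (nat_lit 686059648221) (nat_lit 76) (nat_lit 682776981674) (nat_lit 1) (nat_lit 4) (nat_lit 2) (nat_lit 5) (nat_lit 2) (nat_lit 4) (nat_lit 251) (nat_lit 189) (nat_lit 160)) (XT.nd (nat_lit 78) (nat_lit 0) (nat_lit 0) (XT.lf (nat_lit 0) (nat_lit 261661581902) (nat_lit 76) (nat_lit 786012101398) (nat_lit 76) (nat_lit 782721866659) (nat_lit 1) (nat_lit 4) (nat_lit 2) (nat_lit 5) (nat_lit 2) (nat_lit 4) (nat_lit 252) (nat_lit 189) (nat_lit 159)) (XT.lf (nat_lit 0) (nat_lit 306094579327) (nat_lit 76) (nat_lit 900967495095) (nat_lit 76) (nat_lit 897670679320) (nat_lit 1) (nat_lit 4) (nat_lit 2) (nat_lit 5) (nat_lit 2) (nat_lit 4) (nat_lit 253) (nat_lit 189) (nat_lit 158)))) (XT.nd (nat_lit 78) (nat_lit 0) (nat_lit 0) (XT.lf (nat_lit 0) (nat_lit 357173958976) (nat_lit 76) (nat_lit 1033174956581) (nat_lit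 76) (nat_lit 1029872418165) (nat_lit 1) (nat_lit 4) (nat_lit 2) (nat_lit 5) (nat_lit 2) (nat_lit 4) (nat_lit 254) (nat_lit 189) (nat_lit 157)) (XT.nd (nat_lit 78) (nat_lit 0) (nat_lit 0) (XT.lf (nat_lit 0) (nat_lit 415899100015) (nat_lit 76) (nat_lit 1185221153579) (nat_lit 76) (nat_lit 1181913638955) (nat_lit 1) (nat_lit 4) (nat_lit 2) (nat_lit 5) (nat_lit 2) (nat_lit 4) (nat_lit 255) (nat_lit 189) (nat_lit 156)) (XT.lf (nat_lit 0) (nat_lit 483418972596) (nat_lit 76) (nat_lit 1360080902989) (nat_lit 76) (nat_lit 1356769061226) (nat_lit 1) (nat_lit 4) (nat_lit 2) (nat_lit 5) (nat_lit 2) (nat_lit 4) (nat_lit 256) (nat_lit 189) (nat_lit 155))))))))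
noncomputable def xc11 : XT := (XT.nd (nat_lit 29484) (nat_lit 0) (nat_lit 0) (XT.nd (nat_lit 28626) (nat_lit 0) (nat_lit 76) (XT.nd (nat_lit 390) (nat_lit 0) (nat_lit 0) (XT.nd (nat_lit 156) (nat_lit 0) (nat_lit 0) (XT.nd (nat_lit 78) (nat_lit 0) (nat_lit 0) (XT.lf (nat_lit 0) (nat_lit 561054617703) (nat_lit 76) (nat_lit 1561175373820) (nat_lit 76) (nat_lit 1557859769327) (nat_lit 1) (nat_lit 4) (nat_lit 2) (nat_lit 5) (nat_lit 2) (nat_lit 4) (nat_lit 257) (nat_lit 189) (nat_lit 154)) (XT.lf (nat_lit 0) (nat_lit 650324993612) (nat_lit 76) (nat_lit 1792439023109) (nat_lit 76) (nat_lit 1789120146679) (nat_lit 1) (nat_lit 4) (nat_lit 2) (nat_lit 5) (nat_lit 2) (nat_lit 4) (nat_lit 258) (nat_lit 189) (nat_lit 153))) (XT.nd (nat_lit 78) (nat_lit 0) (nat_lit 0) (XT.lf (nat_lit 0) (nat_lit 752976694632) (nat_lit 76) (nat_lit 2058396574431) (nat_lit 76) (nat_lit 2055074852837) (nat_lit 1) (nat_lit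 4) (nat_lit 2) (nat_lit 5) (nat_lit 2) (nat_lit 4) (nat_lit 259) (nat_lit 189) (nat_lit 152)) (XT.nd (nat_lit 78) (nat_lit 0) (nat_lit 0) (XT.lf (nat_lit 0) (nat_lit 871018123610) (nat_lit 76) (nat_lit 2364251545093) (nat_lit 76) (nat_lit 2360927349444) (nat_lit 1) (nat_lit 4) (nat_lit 2) (nat_lit 5) (nat_lit 2) (nat_lit 4) (nat_lit 260) (nat_lit 189) (nat_lit 151)) (XT.lf (nat_lit 0) (nat_lit 1006758786766) (nat_lit 76) (nat_lit 2715988054088) (nat_lit 76) (nat_lit 2712661707086) (nat_lit 1) (nat_lit 4) (nat_lit 2) (nat_lit 5) (nat_lit 2) (nat_lit 4) (nat_lit 261) (nat_lit 189) (nat_lit 150))))) (XT.nd (nat_lit 28002) (nat_lit 0) (nat_lit 228) (XT.nd (nat_lit 78) (nat_lit 0) (nat_lit 0) (XT.lf (nat_lit 0) (nat_lit 1162854479682) (nat_lit 76) (nat_lit 3120487902676) (nat_lit 76) (nat_lit 3117159684933) (nat_lit 1) (nat_lit 4) (nat_lit 2) (nat_lit 5) (nat_lit 2) (nat_lit 4) (nat_lit 262)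 (nat_lit 189) (nat_lit 149)) (XT.lf (nat_lit 0) (nat_lit 1342359248524) (nat_lit 76) (nat_lit 3585665218332) (nat_lit 76) (nat_lit 3582335373858) (nat_lit 1) (nat_lit 4) (nat_lit 2) (nat_lit 5) (nat_lit 2) (nat_lit 4) (nat_lit 263) (nat_lit 189) (nat_lit 148))) (XT.nd (nat_lit 78) (nat_lit 76) (nat_lit 0) (XT.lf (nat_lit 0) (nat_lit 942301176) (nat_lit 152) (nat_lit 10033422902) (nat_lit 0) (nat_lit 942301176) (nat_lit 5) (nat_lit 5) (nat_lit 7) (nat_lit 4) (nat_lit 5) (nat_lit 4) (nat_lit 220) (nat_lit 190) (nat_lit 190)) (XT.nd (nat_lit 78) (nat_lit 76) (nat_lit 0) (XT.lf (nat_lit 0) (nat_lit 8846766558) (nat_lit 152) (nat_lit 9664385800) (nat_lit 0) (nat_lit 8305574883) (nat_lit 5) (nat_lit 5) (nat_lit 7) (nat_lit 4) (nat_lit 5) (nat_lit 4) (nat_lit 221) (nat_lit 190) (nat_lit 189)) (XT.lf (nat_lit 0) (nat_lit 1219659182) (nat_lit 76) (nat_lit 15042416586) (nat_lit 76) (nat_lit 14030623454)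 (nat_lit 4) (nat_lit 4) (nat_lit 5) (nat_lit 5) (nat_lit 5) (nat_lit 4) (nat_lit 222) (nat_lit 190) (nat_lit 188)))))) (XT.nd (nat_lit 390) (nat_lit 0) (nat_lit 0) (XT.nd (nat_lit 156) (nat_lit 152) (nat_lit 0) (XT.nd (nat_lit 78) (nat_lit 0) (nat_lit 0) (XT.lf (nat_lit 0) (nat_lit 13278238521) (nat_lit 76) (nat_lit 11228143153) (nat_lit 76) (nat_lit 9807131364) (nat_lit 4) (nat_lit 4) (nat_lit 5) (nat_lit 5) (nat_lit 5) (nat_lit 4) (nat_lit 223) (nat_lit 190) (nat_lit 187)) (XT.lf (nat_lit 0) (nat_lit 26238371514) (nat_lit 76) (nat_lit 7257946406) (nat_lit 76) (nat_lit 5481092305) (nat_lit 4) (nat_lit 4) (nat_lit 5) (nat_lit 5) (nat_lit 5) (nat_lit 4) (nat_lit 224) (nat_lit 190) (nat_lit 186))) (XT.nd (nat_lit 78) (nat_lit 152) (nat_lit 0) (XT.lf (nat_lit 0) (nat_lit 40353625979) (nat_lit 76) (nat_lit 3054148581) (nat_lit 76) (nat_lit 967866383) (nat_lit 4) (nat_lit 4) (nat_lit 5) (nat_lit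 5) (nat_lit 5) (nat_lit 4) (nat_lit 225) (nat_lit 190) (nat_lit 185)) (XT.nd (nat_lit 78) (nat_lit 0) (nat_lit 0) (XT.lf (nat_lit 0) (nat_lit 3802267317) (nat_lit 152) (nat_lit 45169012290) (nat_lit 0) (nat_lit 1621387587) (nat_lit 2) (nat_lit 5) (nat_lit 4) (nat_lit 4) (nat_lit 2) (nat_lit 4) (nat_lit 226) (nat_lit 190) (nat_lit 184)) (XT.lf (nat_lit 0) (nat_lit 9082430810) (nat_lit 152) (nat_lit 41985163735) (nat_lit 0) (nat_lit 6684910251) (nat_lit 2) (nat_lit 5) (nat_lit 4) (nat_lit 4) (nat_lit 2) (nat_lit 4) (nat_lit 227) (nat_lit 190) (nat_lit 183))))) (XT.nd (nat_lit 234) (nat_lit 0) (nat_lit 0) (XT.nd (nat_lit 78) (nat_lit 0) (nat_lit 0) (XT.lf (nat_lit 0) (nat_lit 14846427970) (nat_lit 152) (nat_lit 38904381277) (nat_lit 0) (nat_lit 12260524082) (nat_lit 2) (nat_lit 5) (nat_lit 4) (nat_lit 4) (nat_lit 2) (nat_lit 4) (nat_lit 228) (nat_lit 190) (nat_lit 182)) (XT.nd (nat_lit 78)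 (nat_lit 0) (nat_lit 0) (XT.lf (nat_lit 0) (nat_lit 21207032656) (nat_lit 152) (nat_lit 35866388737) (nat_lit 0) (nat_lit 18457317176) (nat_lit 2) (nat_lit 5) (nat_lit 4) (nat_lit 4) (nat_lit 2) (nat_lit 4) (nat_lit 229) (nat_lit 190) (nat_lit 181)) (XT.lf (nat_lit 0) (nat_lit 28288691480) (nat_lit 152) (nat_lit 32811747130) (nat_lit 0) (nat_lit 25396531138) (nat_lit 2) (nat_lit 5) (nat_lit 4) (nat_lit 4) (nat_lit 2) (nat_lit 4) (nat_lit 230) (nat_lit 190) (nat_lit 180)))) (XT.nd (nat_lit 78) (nat_lit 0) (nat_lit 0) (XT.lf (nat_lit 0) (nat_lit 36229958636) (nat_lit 152) (nat_lit 29680691730) (nat_lit 0) (nat_lit 33213933197) (nat_lit 2) (nat_lit 5) (nat_lit 4) (nat_lit 4) (nat_lit 2) (nat_lit 4) (nat_lit 231) (nat_lit 190) (nat_lit 179)) (XT.nd (nat_lit 78) (nat_lit 0) (nat_lit 0) (XT.lf (nat_lit 0) (nat_lit 45186206743) (nat_lit 152) (nat_lit 26411962756) (nat_lit 0) (nat_lit 42062472524)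 (nat_lit 2) (nat_lit 5) (nat_lit 4) (nat_lit 4) (nat_lit 2) (nat_lit 4) (nat_lit 232) (nat_lit 190) (nat_lit 178)) (XT.lf (nat_lit 0) (nat_lit 55332666743) (nat_lit 152) (nat_lit 22941606815) (nat_lit 0) (nat_lit 52115272714) (nat_lit 2) (nat_lit 5) (nat_lit 4) (nat_lit 4) (nat_lit 2) (nat_lit 4) (nat_lit 233) (nat_lit 190) (nat_lit 177))))))) (XT.nd (nat_lit 858) (nat_lit 0) (nat_lit 0) (XT.nd (nat_lit 390) (nat_lit 0) (nat_lit 0) (XT.nd (nat_lit 156) (nat_lit 76) (nat_lit 0) (XT.nd (nat_lit 78) (nat_lit 0) (nat_lit 0) (XT.lf (nat_lit 0) (nat_lit 66867856330) (nat_lit 152) (nat_lit 19201725640) (nat_lit 0) (nat_lit 63569018989) (nat_lit 2) (nat_lit 5) (nat_lit 4) (nat_lit 4) (nat_lit 2) (nat_lit 4) (nat_lit 234) (nat_lit 190) (nat_lit 176)) (XT.lf (nat_lit 0) (nat_lit 80017463996) (nat_lit 152) (nat_lit 15119147642) (nat_lit 0) (nat_lit 76647806384) (nat_lit 2) (nat_lit 5) (nat_lit 4)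 (nat_lit 4) (nat_lit 2) (nat_lit 4) (nat_lit 235) (nat_lit 190) (nat_lit 175))) (XT.nd (nat_lit 78) (nat_lit 76) (nat_lit 0) (XT.lf (nat_lit 0) (nat_lit 95038764676) (nat_lit 152) (nat_lit 10613996295) (nat_lit 0) (nat_lit 91607524219) (nat_lit 2) (nat_lit 5) (nat_lit 4) (nat_lit 4) (nat_lit 2) (nat_lit 4) (nat_lit 236) (nat_lit 190) (nat_lit 174)) (XT.nd (nat_lit 78) (nat_lit 76) (nat_lit 0) (XT.lf (nat_lit 0) (nat_lit 112225653380) (nat_lit 152) (nat_lit 5598127333) (nat_lit 0) (nat_lit 108740862624) (nat_lit 2) (nat_lit 5) (nat_lit 4) (nat_lit 4) (nat_lit 2) (nat_lit 4) (nat_lit 237) (nat_lit 190) (nat_lit 173)) (XT.lf (nat_lit 0) (nat_lit 27996297) (nat_lit 76) (nat_lit 131887072338) (nat_lit 76) (nat_lit 128355716104) (nat_lit 1) (nat_lit 4) (nat_lit 2) (nat_lit 5) (nat_lit 2) (nat_lit 4) (nat_lit 238) (nat_lit 190) (nat_lit 172))))) (XT.nd (nat_lit 234) (nat_lit 0) (nat_lit 0) (XT.nd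 (nat_lit 78) (nat_lit 0) (nat_lit 0) (XT.lf (nat_lit 0) (nat_lit 6705666669) (nat_lit 76) (nat_lit 147945809799) (nat_lit 76) (nat_lit 144373961845) (nat_lit 1) (nat_lit 4) (nat_lit 2) (nat_lit 5) (nat_lit 2) (nat_lit 4) (nat_lit 239) (nat_lit 190) (nat_lit 171)) (XT.nd (nat_lit 78) (nat_lit 0) (nat_lit 0) (XT.lf (nat_lit 0) (nat_lit 14270746389) (nat_lit 76) (nat_lit 166467248508) (nat_lit 76) (nat_lit 162860190362) (nat_lit 1) (nat_lit 4) (nat_lit 2) (nat_lit 5) (nat_lit 2) (nat_lit 4) (nat_lit 240) (nat_lit 190) (nat_lit 170)) (XT.lf (nat_lit 0) (nat_lit 22871247887) (nat_lit 76) (nat_lit 187813764439) (nat_lit 76) (nat_lit 184176088736) (nat_lit 1) (nat_lit 4) (nat_lit 2) (nat_lit 5) (nat_lit 2) (nat_lit 4) (nat_lit 241) (nat_lit 190) (nat_lit 169)))) (XT.nd (nat_lit 78) (nat_lit 0) (nat_lit 0) (XT.lf (nat_lit 0) (nat_lit 32675441845) (nat_lit 76) (nat_lit 212403006818) (nat_lit 76)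 (nat_lit 208738707151) (nat_lit 1) (nat_lit 4) (nat_lit 2) (nat_lit 5) (nat_lit 2) (nat_lit 4) (nat_lit 242) (nat_lit 190) (nat_lit 168)) (XT.nd (nat_lit 78) (nat_lit 0) (nat_lit 0) (XT.lf (nat_lit 0) (nat_lit 43875149448) (nat_lit 76) (nat_lit 240716069517) (nat_lit 76) (nat_lit 237028618578) (nat_lit 1) (nat_lit 4) (nat_lit 2) (nat_lit 5) (nat_lit 2) (nat_lit 4) (nat_lit 243) (nat_lit 190) (nat_lit 167)) (XT.lf (nat_lit 0) (nat_lit 56689495410) (nat_lit 76) (nat_lit 273306903762) (nat_lit 76) (nat_lit 269599321282) (nat_lit 1) (nat_lit 4) (nat_lit 2) (nat_lit 5) (nat_lit 2) (nat_lit 4) (nat_lit 244) (nat_lit 190) (nat_lit 166)))))) (XT.nd (nat_lit 390) (nat_lit 0) (nat_lit 0) (XT.nd (nat_lit 156) (nat_lit 0) (nat_lit 0) (XT.nd (nat_lit 78) (nat_lit 0) (nat_lit 0) (XT.lf (nat_lit 0) (nat_lit 71369195197) (nat_lit 76) (nat_lit 310813156311) (nat_lit 76) (nat_lit 307088068142) (nat_lit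 1) (nat_lit 4) (nat_lit 2) (nat_lit 5) (nat_lit 2) (nat_lit 4) (nat_lit 245) (nat_lit 190) (nat_lit 165)) (XT.lf (nat_lit 0) (nat_lit 88201460325) (nat_lit 76) (nat_lit 353968645148) (nat_lit 76) (nat_lit 350228334642) (nat_lit 1) (nat_lit 4) (nat_lit 2) (nat_lit 5) (nat_lit 2) (nat_lit 4) (nat_lit 246) (nat_lit 190) (nat_lit 164))) (XT.nd (nat_lit 78) (nat_lit 0) (nat_lit 0) (XT.lf (nat_lit 0) (nat_lit 107515617721) (nat_lit 76) (nat_lit 403617716794) (nat_lit 76) (nat_lit 399864169473) (nat_lit 1) (nat_lit 4) (nat_lit 2) (nat_lit 5) (nat_lit 2) (nat_lit 4) (nat_lit 247) (nat_lit 190) (nat_lit 163)) (XT.nd (nat_lit 78) (nat_lit 0) (nat_lit 0) (XT.lf (nat_lit 0) (nat_lit 129689553073) (nat_lit 76) (nat_lit 460731766129) (nat_lit 76) (nat_lit 456966708534) (nat_lit 1) (nat_lit 4) (nat_lit 2) (nat_lit 5) (nat_lit 2) (nat_lit 4) (nat_lit 248) (nat_lit 190) (nat_lit 162)) (XT.lf (nat_lit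 0) (nat_lit 155157104246) (nat_lit 76) (nat_lit 526428241945) (nat_lit 76) (nat_lit 522653175416) (nat_lit 1) (nat_lit 4) (nat_lit 2) (nat_lit 5) (nat_lit 2) (nat_lit 4) (nat_lit 249) (nat_lit 190) (nat_lit 161))))) (XT.nd (nat_lit 234) (nat_lit 0) (nat_lit 0) (XT.nd (nat_lit 78) (nat_lit 0) (nat_lit 0) (XT.lf (nat_lit 0) (nat_lit 184416549417) (nat_lit 76) (nat_lit 601992510072) (nat_lit 76) (nat_lit 598208740122) (nat_lit 1) (nat_lit 4) (nat_lit 2) (nat_lit 5) (nat_lit 2) (nat_lit 4) (nat_lit 250) (nat_lit 190) (nat_lit 160)) (XT.nd (nat_lit 78) (nat_lit 0) (nat_lit 0) (XT.lf (nat_lit 0) (nat_lit 218040355990) (nat_lit 76) (nat_lit 688903001843) (nat_lit 76) (nat_lit 685111663702) (nat_lit 1) (nat_lit 4) (nat_lit 2) (nat_lit 5) (nat_lit 2) (nat_lit 4) (nat_lit 251) (nat_lit 190) (nat_lit 159)) (XT.lf (nat_lit 0) (nat_lit 256686381050) (nat_lit 76) (nat_lit 788860139924) (nat_lit 76)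 (nat_lit 785062220746) (nat_lit 1) (nat_lit 4) (nat_lit 2) (nat_lit 5) (nat_lit 2) (nat_lit 4) (nat_lit 252) (nat_lit 190) (nat_lit 158)))) (XT.nd (nat_lit 78) (nat_lit 0) (nat_lit 0) (XT.lf (nat_lit 0) (nat_lit 301110742480) (nat_lit 76) (nat_lit 903819607451) (nat_lit 76) (nat_lit 900015965632) (nat_lit 1) (nat_lit 4) (nat_lit 2) (nat_lit 5) (nat_lit 2) (nat_lit 4) (nat_lit 253) (nat_lit 190) (nat_lit 157)) (XT.nd (nat_lit 78) (nat_lit 0) (nat_lit 0) (XT.lf (nat_lit 0) (nat_lit 352182612567) (nat_lit 76) (nat_lit 1036030611397) (nat_lit 76) (nat_lit 1032221993370) (nat_lit 1) (nat_lit 4) (nat_lit 2) (nat_lit 5) (nat_lit 2) (nat_lit 4) (nat_lit 254) (nat_lit 190) (nat_lit 156)) (XT.lf (nat_lit 0) (nat_lit 410901223553) (nat_lit 76) (nat_lit 1188079888796) (nat_lit 76) (nat_lit 1184266943630) (nat_lit 1) (nat_lit 4) (nat_lit 2) (nat_lit 5) (nat_lit 2) (nat_lit 4) (nat_lit 255) (nat_lit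 190) (nat_lit 155))))))))
noncomputable def xc12 : XT := (XT.nd (nat_lit 29328) (nat_lit 0) (nat_lit 0) (XT.nd (nat_lit 28470) (nat_lit 0) (nat_lit 76) (XT.nd (nat_lit 390) (nat_lit 0) (nat_lit 0) (XT.nd (nat_lit 156) (nat_lit 0) (nat_lit 0) (XT.nd (nat_lit 78) (nat_lit 0) (nat_lit 0) (XT.lf (nat_lit 0) (nat_lit 478415417827) (nat_lit 76) (nat_lit 1362942316815) (nat_lit 76) (nat_lit 1359125608920) (nat_lit 1) (nat_lit 4) (nat_lit 2) (nat_lit 5) (nat_lit 2) (nat_lit 4) (nat_lit 256) (nat_lit 190) (nat_lit 154)) (XT.lf (nat_lit 0) (nat_lit 556046125276) (nat_lit 76) (nat_lit 1564039116871) (nat_lit 76) (nat_lit 1560219137038) (nat_lit 1) (nat_lit 4) (nat_lit 2) (nat_lit 5) (nat_lit 2) (nat_lit 4) (nat_lit 257) (nat_lit 190) (nat_lit 153))) (XT.nd (nat_lit 78) (nat_lit 0) (nat_lit 0) (XT.lf (nat_lit 0) (nat_lit 645312207569) (nat_lit 76) (nat_lit 1795304791574) (nat_lit 76) (nat_lit 1791481966577)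 (nat_lit 1) (nat_lit 4) (nat_lit 2) (nat_lit 5) (nat_lit 2) (nat_lit 4) (nat_lit 258) (nat_lit 190) (nat_lit 152)) (XT.nd (nat_lit 78) (nat_lit 0) (nat_lit 0) (XT.lf (nat_lit 0) (nat_lit 747960175010) (nat_lit 76) (nat_lit 2061264104125) (nat_lit 76) (nat_lit 2057438805072) (nat_lit 1) (nat_lit 4) (nat_lit 2) (nat_lit 5) (nat_lit 2) (nat_lit 4) (nat_lit 259) (nat_lit 190) (nat_lit 151)) (XT.lf (nat_lit 0) (nat_lit 865998357398) (nat_lit 76) (nat_lit 2367120606291) (nat_lit 76) (nat_lit 2363293155886) (nat_lit 1) (nat_lit 4) (nat_lit 2) (nat_lit 5) (nat_lit 2) (nat_lit 4) (nat_lit 260) (nat_lit 190) (nat_lit 150))))) (XT.nd (nat_lit 156) (nat_lit 0) (nat_lit 0) (XT.nd (nat_lit 78) (nat_lit 0) (nat_lit 0) (XT.lf (nat_lit 0) (nat_lit 1001736197431) (nat_lit 76) (nat_lit 2718858447027) (nat_lit 76) (nat_lit 2715029125881) (nat_lit 1) (nat_lit 4) (nat_lit 2) (nat_lit 5) (nat_lit 2) (nat_lit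 4) (nat_lit 261) (nat_lit 190) (nat_lit 149)) (XT.lf (nat_lit 0) (nat_lit 1157829435458) (nat_lit 76) (nat_lit 3123359453652) (nat_lit 76) (nat_lit 3119528505775) (nat_lit 1) (nat_lit 4) (nat_lit 2) (nat_lit 5) (nat_lit 2) (nat_lit 4) (nat_lit 262) (nat_lit 190) (nat_lit 148))) (XT.nd (nat_lit 27768) (nat_lit 0) (nat_lit 456) (XT.lf (nat_lit 0) (nat_lit 1337332069614) (nat_lit 76) (nat_lit 3588537776297) (nat_lit 76) (nat_lit 3584705413870) (nat_lit 1) (nat_lit 4) (nat_lit 2) (nat_lit 5) (nat_lit 2) (nat_lit 4) (nat_lit 263) (nat_lit 190) (nat_lit 147)) (XT.nd (nat_lit 78) (nat_lit 76) (nat_lit 0) (XT.lf (nat_lit 0) (nat_lit 4507100224) (nat_lit 152) (nat_lit 500525816) (nat_lit 0) (nat_lit 4507100224) (nat_lit 8) (nat_lit 5) (nat_lit 10) (nat_lit 4) (nat_lit 8) (nat_lit 4) (nat_lit 218) (nat_lit 191) (nat_lit 191)) (XT.lf (nat_lit 0) (nat_lit 12528970381) (nat_lit 76) (nat_lit 4701473899)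 (nat_lit 76) (nat_lit 4029313839) (nat_lit 7) (nat_lit 4) (nat_lit 8) (nat_lit 5) (nat_lit 8) (nat_lit 4) (nat_lit 219) (nat_lit 191) (nat_lit 190)))))) (XT.nd (nat_lit 390) (nat_lit 152) (nat_lit 0) (XT.nd (nat_lit 156) (nat_lit 76) (nat_lit 0) (XT.nd (nat_lit 78) (nat_lit 0) (nat_lit 0) (XT.lf (nat_lit 0) (nat_lit 2175070766) (nat_lit 152) (nat_lit 20676504299) (nat_lit 0) (nat_lit 1011508665) (nat_lit 5) (nat_lit 5) (nat_lit 7) (nat_lit 4) (nat_lit 5) (nat_lit 4) (nat_lit 220) (nat_lit 191) (nat_lit 189)) (XT.lf (nat_lit 0) (nat_lit 8848624525) (nat_lit 152) (nat_lit 10804182115) (nat_lit 0) (nat_lit 7214460967) (nat_lit 5) (nat_lit 5) (nat_lit 7) (nat_lit 4) (nat_lit 5) (nat_lit 4) (nat_lit 221) (nat_lit 191) (nat_lit 188))) (XT.nd (nat_lit 78) (nat_lit 76) (nat_lit 0) (XT.lf (nat_lit 0) (nat_lit 15983635298) (nat_lit 152) (nat_lit 442138834) (nat_lit 0) (nat_lit 13940253082) (nat_lit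 5) (nat_lit 5) (nat_lit 7) (nat_lit 4) (nat_lit 5) (nat_lit 4) (nat_lit 222) (nat_lit 191) (nat_lit 187)) (XT.nd (nat_lit 78) (nat_lit 0) (nat_lit 0) (XT.lf (nat_lit 0) (nat_lit 11171189304) (nat_lit 76) (nat_lit 12817179188) (nat_lit 76) (nat_lit 10417954661) (nat_lit 4) (nat_lit 4) (nat_lit 5) (nat_lit 5) (nat_lit 5) (nat_lit 4) (nat_lit 223) (nat_lit 191) (nat_lit 186)) (XT.lf (nat_lit 0) (nat_lit 23764392773) (nat_lit 76) (nat_lit 9015321247) (nat_lit 76) (nat_lit 6306668623) (nat_lit 4) (nat_lit 4) (nat_lit 5) (nat_lit 5) (nat_lit 5) (nat_lit 4) (nat_lit 224) (nat_lit 191) (nat_lit 185))))) (XT.nd (nat_lit 234) (nat_lit 0) (nat_lit 0) (XT.nd (nat_lit 78) (nat_lit 152) (nat_lit 0) (XT.lf (nat_lit 0) (nat_lit 37560578087) (nat_lit 76) (nat_lit 4957904993) (nat_lit 76) (nat_lit 1980184460) (nat_lit 4) (nat_lit 4) (nat_lit 5) (nat_lit 5) (nat_lit 5) (nat_lit 4) (nat_lit 225) (nat_lit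 191) (nat_lit 184)) (XT.nd (nat_lit 78) (nat_lit 0) (nat_lit 0) (XT.lf (nat_lit 0) (nat_lit 2123169909) (nat_lit 76) (nat_lit 441667849) (nat_lit 152) (nat_lit 48175056442) (nat_lit 2) (nat_lit 5) (nat_lit 3) (nat_lit 5) (nat_lit 4) (nat_lit 4) (nat_lit 226) (nat_lit 191) (nat_lit 183)) (XT.lf (nat_lit 0) (nat_lit 7691034545) (nat_lit 152) (nat_lit 45692320303) (nat_lit 0) (nat_lit 4528861743) (nat_lit 2) (nat_lit 5) (nat_lit 4) (nat_lit 4) (nat_lit 2) (nat_lit 4) (nat_lit 227) (nat_lit 191) (nat_lit 182)))) (XT.nd (nat_lit 78) (nat_lit 0) (nat_lit 0) (XT.lf (nat_lit 0) (nat_lit 13330384241) (nat_lit 152) (nat_lit 42846378444) (nat_lit 0) (nat_lit 10004399848) (nat_lit 2) (nat_lit 5) (nat_lit 4) (nat_lit 4) (nat_lit 2) (nat_lit 4) (nat_lit 228) (nat_lit 191) (nat_lit 181)) (XT.nd (nat_lit 78) (nat_lit 0) (nat_lit 0) (XT.lf (nat_lit 0) (nat_lit 19582599827) (nat_lit 152) (nat_lit 40012595120)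 (nat_lit 0) (nat_lit 16114170572) (nat_lit 2) (nat_lit 5) (nat_lit 4) (nat_lit 4) (nat_lit 2) (nat_lit 4) (nat_lit 229) (nat_lit 191) (nat_lit 180)) (XT.lf (nat_lit 0) (nat_lit 26570007259) (nat_lit 152) (nat_lit 37135526744) (nat_lit 0) (nat_lit 22977712907) (nat_lit 2) (nat_lit 5) (nat_lit 4) (nat_lit 4) (nat_lit 2) (nat_lit 4) (nat_lit 230) (nat_lit 191) (nat_lit 179))))))) (XT.nd (nat_lit 780) (nat_lit 0) (nat_lit 0) (XT.nd (nat_lit 390) (nat_lit 76) (nat_lit 0) (XT.nd (nat_lit 156) (nat_lit 0) (nat_lit 0) (XT.nd (nat_lit 78) (nat_lit 0) (nat_lit 0) (XT.lf (nat_lit 0) (nat_lit 34429316684) (nat_lit 152) (nat_lit 34158882849) (nat_lit 0) (nat_lit 30729313551) (nat_lit 2) (nat_lit 5) (nat_lit 4) (nat_lit 4) (nat_lit 2) (nat_lit 4) (nat_lit 231) (nat_lit 191) (nat_lit 178)) (XT.lf (nat_lit 0) (nat_lit 43314297199) (nat_lit 152) (nat_lit 31024424749) (nat_lit 0) (nat_lit 39520634257)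 (nat_lit 2) (nat_lit 5) (nat_lit 4) (nat_lit 4) (nat_lit 2) (nat_lit 4) (nat_lit 232) (nat_lit 191) (nat_lit 177))) (XT.nd (nat_lit 78) (nat_lit 0) (nat_lit 0) (XT.lf (nat_lit 0) (nat_lit 53398785379) (nat_lit 152) (nat_lit 27670826091) (nat_lit 0) (nat_lit 49523679125) (nat_lit 2) (nat_lit 5) (nat_lit 4) (nat_lit 4) (nat_lit 2) (nat_lit 4) (nat_lit 233) (nat_lit 191) (nat_lit 176)) (XT.nd (nat_lit 78) (nat_lit 0) (nat_lit 0) (XT.lf (nat_lit 0) (nat_lit 64880086427) (nat_lit 152) (nat_lit 24032472987) (nat_lit 0) (nat_lit 60934159902) (nat_lit 2) (nat_lit 5) (nat_lit 4) (nat_lit 4) (nat_lit 2) (nat_lit 4) (nat_lit 234) (nat_lit 191) (nat_lit 175)) (XT.lf (nat_lit 0) (nat_lit 77982834495) (nat_lit 152) (nat_lit 20038180268) (nat_lit 0) (nat_lit 73975325125) (nat_lit 2) (nat_lit 5) (nat_lit 4) (nat_lit 4) (nat_lit 2) (nat_lit 4) (nat_lit 235) (nat_lit 191) (nat_lit 174))))) (XT.nd (nat_lit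 156) (nat_lit 76) (nat_lit 0) (XT.nd (nat_lit 78) (nat_lit 0) (nat_lit 0) (XT.lf (nat_lit 0) (nat_lit 92963387696) (nat_lit 152) (nat_lit 15609798729) (nat_lit 0) (nat_lit 88902328027) (nat_lit 2) (nat_lit 5) (nat_lit 4) (nat_lit 4) (nat_lit 2) (nat_lit 4) (nat_lit 236) (nat_lit 191) (nat_lit 173)) (XT.lf (nat_lit 0) (nat_lit 110114843812) (nat_lit 152) (nat_lit 10660686122) (nat_lit 0) (nat_lit 106007218664) (nat_lit 2) (nat_lit 5) (nat_lit 4) (nat_lit 4) (nat_lit 2) (nat_lit 4) (nat_lit 237) (nat_lit 191) (nat_lit 172))) (XT.nd (nat_lit 78) (nat_lit 76) (nat_lit 0) (XT.lf (nat_lit 0) (nat_lit 129772774809) (nat_lit 152) (nat_lit 5094011984) (nat_lit 0) (nat_lit 125624657941) (nat_lit 2) (nat_lit 5) (nat_lit 4) (nat_lit 4) (nat_lit 2) (nat_lit 4) (nat_lit 238) (nat_lit 191) (nat_lit 171)) (XT.nd (nat_lit 78) (nat_lit 0) (nat_lit 0) (XT.lf (nat_lit 0) (nat_lit 1262281298) (nat_lit 76)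 (nat_lit 151089868978) (nat_lit 76) (nat_lit 146906541919) (nat_lit 1) (nat_lit 4) (nat_lit 2) (nat_lit 5) (nat_lit 2) (nat_lit 4) (nat_lit 239) (nat_lit 191) (nat_lit 170)) (XT.lf (nat_lit 0) (nat_lit 8781156283) (nat_lit 76) (nat_lit 169633103694) (nat_lit 76) (nat_lit 165419159078) (nat_lit 1) (nat_lit 4) (nat_lit 2) (nat_lit 5) (nat_lit 2) (nat_lit 4) (nat_lit 240) (nat_lit 191) (nat_lit 169)))))) (XT.nd (nat_lit 390) (nat_lit 0) (nat_lit 0) (XT.nd (nat_lit 156) (nat_lit 0) (nat_lit 0) (XT.nd (nat_lit 78) (nat_lit 0) (nat_lit 0) (XT.lf (nat_lit 0) (nat_lit 17341479751) (nat_lit 76) (nat_lit 190998572676) (nat_lit 76) (nat_lit 186758004096) (nat_lit 1) (nat_lit 4) (nat_lit 2) (nat_lit 5) (nat_lit 2) (nat_lit 4) (nat_lit 241) (nat_lit 191) (nat_lit 168)) (XT.lf (nat_lit 0) (nat_lit 27110736291) (nat_lit 76) (nat_lit 215604295968) (nat_lit 76) (nat_lit 211340576115) (nat_lit 1) (nat_lit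 4) (nat_lit 2) (nat_lit 5) (nat_lit 2) (nat_lit 4) (nat_lit 242) (nat_lit 191) (nat_lit 167))) (XT.nd (nat_lit 78) (nat_lit 0) (nat_lit 0) (XT.lf (nat_lit 0) (nat_lit 38280063531) (nat_lit 76) (nat_lit 243931689895) (nat_lit 76) (nat_lit 239647838501) (nat_lit 1) (nat_lit 4) (nat_lit 2) (nat_lit 5) (nat_lit 2) (nat_lit 4) (nat_lit 243) (nat_lit 191) (nat_lit 166)) (XT.nd (nat_lit 78) (nat_lit 0) (nat_lit 0) (XT.lf (nat_lit 0) (nat_lit 51067991786) (nat_lit 76) (nat_lit 276534986078) (nat_lit 76) (nat_lit 272233628997) (nat_lit 1) (nat_lit 4) (nat_lit 2) (nat_lit 5) (nat_lit 2) (nat_lit 4) (nat_lit 244) (nat_lit 191) (nat_lit 165)) (XT.lf (nat_lit 0) (nat_lit 65724719653) (nat_lit 76) (nat_lit 314052075095) (nat_lit 76) (nat_lit 309735495676) (nat_lit 1) (nat_lit 4) (nat_lit 2) (nat_lit 5) (nat_lit 2) (nat_lit 4) (nat_lit 245) (nat_lit 191) (nat_lit 164))))) (XT.nd (nat_lit 234) (nat_lit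 0) (nat_lit 0) (XT.nd (nat_lit 78) (nat_lit 0) (nat_lit 0) (XT.lf (nat_lit 0) (nat_lit 82537009199) (nat_lit 76) (nat_lit 357216986948) (nat_lit 76) (nat_lit 352887170714) (nat_lit 1) (nat_lit 4) (nat_lit 2) (nat_lit 5) (nat_lit 2) (nat_lit 4) (nat_lit 246) (nat_lit 191) (nat_lit 163)) (XT.nd (nat_lit 78) (nat_lit 0) (nat_lit 0) (XT.lf (nat_lit 0) (nat_lit 101833796524) (nat_lit 76) (nat_lit 406874252520) (nat_lit 76) (nat_lit 402532926012) (nat_lit 1) (nat_lit 4) (nat_lit 2) (nat_lit 5) (nat_lit 2) (nat_lit 4) (nat_lit 247) (nat_lit 191) (nat_lit 162)) (XT.lf (nat_lit 0) (nat_lit 123992627466) (nat_lit 76) (nat_lit 463995427009) (nat_lit 76) (nat_lit 459644091567) (nat_lit 1) (nat_lit 4) (nat_lit 2) (nat_lit 5) (nat_lit 2) (nat_lit 4) (nat_lit 248) (nat_lit 191) (nat_lit 161)))) (XT.nd (nat_lit 78) (nat_lit 0) (nat_lit 0) (XT.lf (nat_lit 0) (nat_lit 149447044370) (nat_lit 76) (nat_lit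 529698098610) (nat_lit 76) (nat_lit 525338059747) (nat_lit 1) (nat_lit 4) (nat_lit 2) (nat_lit 5) (nat_lit 2) (nat_lit 4) (nat_lit 249) (nat_lit 191) (nat_lit 160)) (XT.nd (nat_lit 78) (nat_lit 0) (nat_lit 0) (XT.lf (nat_lit 0) (nat_lit 178695068437) (nat_lit 76) (nat_lit 605267754377) (nat_lit 76) (nat_lit 600900147322) (nat_lit 1) (nat_lit 4) (nat_lit 2) (nat_lit 5) (nat_lit 2) (nat_lit 4) (nat_lit 250) (nat_lit 191) (nat_lit 159)) (XT.lf (nat_lit 0) (nat_lit 212308943615) (nat_lit 76) (nat_lit 692182931052) (nat_lit 76) (nat_lit 687808742961) (nat_lit 1) (nat_lit 4) (nat_lit 2) (nat_lit 5) (nat_lit 2) (nat_lit 4) (nat_lit 251) (nat_lit 191) (nat_lit 158))))))))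
noncomputable def xc13 : XT := (XT.nd (nat_lit 29172) (nat_lit 0) (nat_lit 0) (XT.nd (nat_lit 780) (nat_lit 0) (nat_lit 0) (XT.nd (nat_lit 390) (nat_lit 0) (nat_lit 0) (XT.nd (nat_lit 156) (nat_lit 0) (nat_lit 0) (XT.nd (nat_lit 78) (nat_lit 0) (nat_lit 0) (XT.lf (nat_lit 0) (nat_lit 250946332680) (nat_lit 76) (nat_lit 792144142963) (nat_lit 76) (nat_lit 787764232231) (nat_lit 1) (nat_lit 4) (nat_lit 2) (nat_lit 5) (nat_lit 2) (nat_lit 4) (nat_lit 252) (nat_lit 191) (nat_lit 157)) (XT.lf (nat_lit 0) (nat_lit 295363184549) (nat_lit 76) (nat_lit 907107152951) (nat_lit 76) (nat_lit 902722266010) (nat_lit 1) (nat_lit 4) (nat_lit 2) (nat_lit 5) (nat_lit 2) (nat_lit 4) (nat_lit 253) (nat_lit 191) (nat_lit 156))) (XT.nd (nat_lit 78) (nat_lit 0) (nat_lit 0) (XT.lf (nat_lit 0) (nat_lit 346428524583) (nat_lit 76) (nat_lit 1039321237297) (nat_lit 76) (nat_lit 1034932023218) (nat_lit 1) (nat_lit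 4) (nat_lit 2) (nat_lit 5) (nat_lit 2) (nat_lit 4) (nat_lit 254) (nat_lit 191) (nat_lit 155)) (XT.nd (nat_lit 78) (nat_lit 0) (nat_lit 0) (XT.lf (nat_lit 0) (nat_lit 405141457262) (nat_lit 76) (nat_lit 1191373193306) (nat_lit 76) (nat_lit 1186980216497) (nat_lit 1) (nat_lit 4) (nat_lit 2) (nat_lit 5) (nat_lit 2) (nat_lit 4) (nat_lit 255) (nat_lit 191) (nat_lit 154)) (XT.lf (nat_lit 0) (nat_lit 472650713877) (nat_lit 76) (nat_lit 1366237950550) (nat_lit 76) (nat_lit 1361841701803) (nat_lit 1) (nat_lit 4) (nat_lit 2) (nat_lit 5) (nat_lit 2) (nat_lit 4) (nat_lit 256) (nat_lit 191) (nat_lit 153))))) (XT.nd (nat_lit 156) (nat_lit 0) (nat_lit 0) (XT.nd (nat_lit 78) (nat_lit 0) (nat_lit 0) (XT.lf (nat_lit 0) (nat_lit 550277127711) (nat_lit 76) (nat_lit 1567336776019) (nat_lit 76) (nat_lit 1562937682109) (nat_lit 1) (nat_lit 4) (nat_lit 2) (nat_lit 5) (nat_lit 2) (nat_lit 4) (nat_lit 257) (nat_lit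 191) (nat_lit 152)) (XT.lf (nat_lit 0) (nat_lit 639539476424) (nat_lit 76) (nat_lit 1798604211951) (nat_lit 76) (nat_lit 1794202643985) (nat_lit 1) (nat_lit 4) (nat_lit 2) (nat_lit 5) (nat_lit 2) (nat_lit 4) (nat_lit 258) (nat_lit 191) (nat_lit 151))) (XT.nd (nat_lit 78) (nat_lit 0) (nat_lit 0) (XT.lf (nat_lit 0) (nat_lit 742184197275) (nat_lit 76) (nat_lit 2064565056005) (nat_lit 76) (nat_lit 2060161336687) (nat_lit 1) (nat_lit 4) (nat_lit 2) (nat_lit 5) (nat_lit 2) (nat_lit 4) (nat_lit 259) (nat_lit 191) (nat_lit 150)) (XT.nd (nat_lit 78) (nat_lit 0) (nat_lit 0) (XT.lf (nat_lit 0) (nat_lit 860219556540) (nat_lit 76) (nat_lit 2370422889913) (nat_lit 76) (nat_lit 2366017299854) (nat_lit 1) (nat_lit 4) (nat_lit 2) (nat_lit 5) (nat_lit 2) (nat_lit 4) (nat_lit 260) (nat_lit 191) (nat_lit 149)) (XT.lf (nat_lit 0) (nat_lit 995954941684) (nat_lit 76) (nat_lit 2722161888686) (nat_lit 76) (nat_lit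 2717754671895) (nat_lit 1) (nat_lit 4) (nat_lit 2) (nat_lit 5) (nat_lit 2) (nat_lit 4) (nat_lit 261) (nat_lit 191) (nat_lit 148)))))) (XT.nd (nat_lit 27924) (nat_lit 0) (nat_lit 228) (XT.nd (nat_lit 27690) (nat_lit 0) (nat_lit 532) (XT.nd (nat_lit 78) (nat_lit 0) (nat_lit 0) (XT.lf (nat_lit 0) (nat_lit 1152046045026) (nat_lit 76) (nat_lit 3126663902300) (nat_lit 76) (nat_lit 3122255270960) (nat_lit 1) (nat_lit 4) (nat_lit 2) (nat_lit 5) (nat_lit 2) (nat_lit 4) (nat_lit 262) (nat_lit 191) (nat_lit 147)) (XT.lf (nat_lit 0) (nat_lit 1331546822933) (nat_lit 76) (nat_lit 3591843100586) (nat_lit 76) (nat_lit 3587433239203) (nat_lit 1) (nat_lit 4) (nat_lit 2) (nat_lit 5) (nat_lit 2) (nat_lit 4) (nat_lit 263) (nat_lit 191) (nat_lit 146))) (XT.nd (nat_lit 78) (nat_lit 152) (nat_lit 0) (XT.lf (nat_lit 0) (nat_lit 3262485166) (nat_lit 76) (nat_lit 2231585701) (nat_lit 76) (nat_lit 2231585701) (nat_lit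 10) (nat_lit 4) (nat_lit 11) (nat_lit 5) (nat_lit 11) (nat_lit 4) (nat_lit 216) (nat_lit 192) (nat_lit 192)) (XT.nd (nat_lit 78) (nat_lit 0) (nat_lit 0) (XT.lf (nat_lit 0) (nat_lit 2281247862) (nat_lit 152) (nat_lit 13330571875) (nat_lit 0) (nat_lit 1508263792) (nat_lit 8) (nat_lit 5) (nat_lit 10) (nat_lit 4) (nat_lit 8) (nat_lit 4) (nat_lit 217) (nat_lit 192) (nat_lit 191)) (XT.lf (nat_lit 0) (nat_lit 9453740164) (nat_lit 152) (nat_lit 1594389356) (nat_lit 0) (nat_lit 8008596034) (nat_lit 8) (nat_lit 5) (nat_lit 10) (nat_lit 4) (nat_lit 8) (nat_lit 4) (nat_lit 218) (nat_lit 192) (nat_lit 190))))) (XT.nd (nat_lit 234) (nat_lit 76) (nat_lit 0) (XT.nd (nat_lit 78) (nat_lit 152) (nat_lit 0) (XT.lf (nat_lit 0) (nat_lit 11361273904) (nat_lit 76) (nat_lit 5990675351) (nat_lit 76) (nat_lit 3961044212) (nat_lit 7) (nat_lit 4) (nat_lit 8) (nat_lit 5) (nat_lit 8) (nat_lit 4) (nat_lit 219) (nat_lit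 192) (nat_lit 189)) (XT.nd (nat_lit 78) (nat_lit 0) (nat_lit 0) (XT.lf (nat_lit 0) (nat_lit 1414691862) (nat_lit 76) (nat_lit 485583413) (nat_lit 152) (nat_lit 22043502762) (nat_lit 5) (nat_lit 5) (nat_lit 6) (nat_lit 5) (nat_lit 7) (nat_lit 4) (nat_lit 220) (nat_lit 192) (nat_lit 188)) (XT.lf (nat_lit 0) (nat_lit 8311185138) (nat_lit 152) (nat_lit 13106075109) (nat_lit 0) (nat_lit 5552076932) (nat_lit 5) (nat_lit 5) (nat_lit 7) (nat_lit 4) (nat_lit 5) (nat_lit 4) (nat_lit 221) (nat_lit 192) (nat_lit 187)))) (XT.nd (nat_lit 78) (nat_lit 76) (nat_lit 0) (XT.lf (nat_lit 0) (nat_lit 15227964949) (nat_lit 152) (nat_lit 3144892185) (nat_lit 0) (nat_lit 12113014432) (nat_lit 5) (nat_lit 5) (nat_lit 7) (nat_lit 4) (nat_lit 5) (nat_lit 4) (nat_lit 222) (nat_lit 192) (nat_lit 186)) (XT.nd (nat_lit 78) (nat_lit 0) (nat_lit 0) (XT.lf (nat_lit 0) (nat_lit 7959184228) (nat_lit 76) (nat_lit 15006499062)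 (nat_lit 76) (nat_lit 11582120448) (nat_lit 4) (nat_lit 4) (nat_lit 5) (nat_lit 5) (nat_lit 5) (nat_lit 4) (nat_lit 223) (nat_lit 192) (nat_lit 185)) (XT.lf (nat_lit 0) (nat_lit 20233318546) (nat_lit 76) (nat_lit 11351022693) (nat_lit 76) (nat_lit 7657576169) (nat_lit 4) (nat_lit 4) (nat_lit 5) (nat_lit 5) (nat_lit 5) (nat_lit 4) (nat_lit 224) (nat_lit 192) (nat_lit 184))))))) (XT.nd (nat_lit 780) (nat_lit 76) (nat_lit 0) (XT.nd (nat_lit 390) (nat_lit 0) (nat_lit 0) (XT.nd (nat_lit 156) (nat_lit 76) (nat_lit 0) (XT.nd (nat_lit 78) (nat_lit 76) (nat_lit 0) (XT.lf (nat_lit 0) (nat_lit 33752052425) (nat_lit 76) (nat_lit 7420894762) (nat_lit 76) (nat_lit 3493476142) (nat_lit 4) (nat_lit 4) (nat_lit 5) (nat_lit 5) (nat_lit 5) (nat_lit 4) (nat_lit 225) (nat_lit 192) (nat_lit 183)) (XT.lf (nat_lit 0) (nat_lit 942044746) (nat_lit 152) (nat_lit 2171419543) (nat_lit 76) (nat_lit 47812080913) (nat_lit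 3) (nat_lit 5) (nat_lit 5) (nat_lit 5) (nat_lit 4) (nat_lit 4) (nat_lit 226) (nat_lit 192) (nat_lit 182))) (XT.nd (nat_lit 78) (nat_lit 0) (nat_lit 0) (XT.lf (nat_lit 0) (nat_lit 5822936791) (nat_lit 152) (nat_lit 50460457643) (nat_lit 0) (nat_lit 1834243148) (nat_lit 2) (nat_lit 5) (nat_lit 4) (nat_lit 4) (nat_lit 2) (nat_lit 4) (nat_lit 227) (nat_lit 192) (nat_lit 181)) (XT.nd (nat_lit 78) (nat_lit 0) (nat_lit 0) (XT.lf (nat_lit 0) (nat_lit 11353897387) (nat_lit 152) (nat_lit 47818725000) (nat_lit 0) (nat_lit 7222758882) (nat_lit 2) (nat_lit 5) (nat_lit 4) (nat_lit 4) (nat_lit 2) (nat_lit 4) (nat_lit 228) (nat_lit 192) (nat_lit 180)) (XT.lf (nat_lit 0) (nat_lit 17511861582) (nat_lit 152) (nat_lit 45162514907) (nat_lit 0) (nat_lit 13256857979) (nat_lit 2) (nat_lit 5) (nat_lit 4) (nat_lit 4) (nat_lit 2) (nat_lit 4) (nat_lit 229) (nat_lit 192) (nat_lit 179))))) (XT.nd (nat_lit 156) (nat_lit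 0) (nat_lit 0) (XT.nd (nat_lit 78) (nat_lit 0) (nat_lit 0) (XT.lf (nat_lit 0) (nat_lit 24417311283) (nat_lit 152) (nat_lit 42439858037) (nat_lit 0) (nat_lit 20054598900) (nat_lit 2) (nat_lit 5) (nat_lit 4) (nat_lit 4) (nat_lit 2) (nat_lit 4) (nat_lit 230) (nat_lit 192) (nat_lit 178)) (XT.lf (nat_lit 0) (nat_lit 32205353116) (nat_lit 152) (nat_lit 39597485016) (nat_lit 0) (nat_lit 27748980924) (nat_lit 2) (nat_lit 5) (nat_lit 4) (nat_lit 4) (nat_lit 2) (nat_lit 4) (nat_lit 231) (nat_lit 192) (nat_lit 177))) (XT.nd (nat_lit 78) (nat_lit 0) (nat_lit 0) (XT.lf (nat_lit 0) (nat_lit 41028361811) (nat_lit 152) (nat_lit 36579784198) (nat_lit 0) (nat_lit 36490546307) (nat_lit 2) (nat_lit 5) (nat_lit 4) (nat_lit 4) (nat_lit 2) (nat_lit 4) (nat_lit 232) (nat_lit 192) (nat_lit 176)) (XT.nd (nat_lit 78) (nat_lit 0) (nat_lit 0) (XT.lf (nat_lit 0) (nat_lit 51058961452) (nat_lit 152) (nat_lit 33327713611)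 (nat_lit 0) (nat_lit 46450325676) (nat_lit 2) (nat_lit 5) (nat_lit 4) (nat_lit 4) (nat_lit 2) (nat_lit 4) (nat_lit 233) (nat_lit 192) (nat_lit 175)) (XT.lf (nat_lit 0) (nat_lit 62493402901) (nat_lit 152) (nat_lit 29777645786) (nat_lit 0) (nat_lit 57823184281) (nat_lit 2) (nat_lit 5) (nat_lit 4) (nat_lit 4) (nat_lit 2) (nat_lit 4) (nat_lit 234) (nat_lit 192) (nat_lit 174)))))) (XT.nd (nat_lit 390) (nat_lit 76) (nat_lit 0) (XT.nd (nat_lit 156) (nat_lit 0) (nat_lit 0) (XT.nd (nat_lit 78) (nat_lit 0) (nat_lit 0) (XT.lf (nat_lit 0) (nat_lit 75555403491) (nat_lit 152) (nat_lit 25860122876) (nat_lit 0) (nat_lit 70831634571) (nat_lit 2) (nat_lit 5) (nat_lit 4) (nat_lit 4) (nat_lit 2) (nat_lit 4) (nat_lit 235) (nat_lit 192) (nat_lit 173)) (XT.lf (nat_lit 0) (nat_lit 90500524104) (nat_lit 152) (nat_lit 21498497692) (nat_lit 0) (nat_lit 85730189706) (nat_lit 2) (nat_lit 5) (nat_lit 4) (nat_lit 4)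 (nat_lit 2) (nat_lit 4) (nat_lit 236) (nat_lit 192) (nat_lit 172))) (XT.nd (nat_lit 78) (nat_lit 0) (nat_lit 0) (XT.lf (nat_lit 0) (nat_lit 107621169273) (nat_lit 152) (nat_lit 16607434089) (nat_lit 0) (nat_lit 102810343155) (nat_lit 2) (nat_lit 5) (nat_lit 4) (nat_lit 4) (nat_lit 2) (nat_lit 4) (nat_lit 237) (nat_lit 192) (nat_lit 171)) (XT.nd (nat_lit 78) (nat_lit 0) (nat_lit 0) (XT.lf (nat_lit 0) (nat_lit 127252308142) (nat_lit 152) (nat_lit 11091237346) (nat_lit 0) (nat_lit 122406271833) (nat_lit 2) (nat_lit 5) (nat_lit 4) (nat_lit 4) (nat_lit 2) (nat_lit 4) (nat_lit 238) (nat_lit 192) (nat_lit 170)) (XT.lf (nat_lit 0) (nat_lit 149778028212) (nat_lit 152) (nat_lit 4841981873) (nat_lit 0) (nat_lit 144901374345) (nat_lit 2) (nat_lit 5) (nat_lit 4) (nat_lit 4) (nat_lit 2) (nat_lit 4) (nat_lit 239) (nat_lit 192) (nat_lit 169))))) (XT.nd (nat_lit 234) (nat_lit 0) (nat_lit 0) (XT.nd (nat_lit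 78) (nat_lit 0) (nat_lit 0) (XT.lf (nat_lit 0) (nat_lit 2381744897) (nat_lit 76) (nat_lit 173314586216) (nat_lit 76) (nat_lit 168411308386) (nat_lit 1) (nat_lit 4) (nat_lit 2) (nat_lit 5) (nat_lit 2) (nat_lit 4) (nat_lit 240) (nat_lit 192) (nat_lit 168)) (XT.nd (nat_lit 78) (nat_lit 0) (nat_lit 0) (XT.lf (nat_lit 0) (nat_lit 10907130947) (nat_lit 76) (nat_lit 194696536111) (nat_lit 76) (nat_lit 189770107008) (nat_lit 1) (nat_lit 4) (nat_lit 2) (nat_lit 5) (nat_lit 2) (nat_lit 4) (nat_lit 241) (nat_lit 192) (nat_lit 167)) (XT.lf (nat_lit 0) (nat_lit 20646007123) (nat_lit 76) (nat_lit 219316590631) (nat_lit 76) (nat_lit 214370029988) (nat_lit 1) (nat_lit 4) (nat_lit 2) (nat_lit 5) (nat_lit 2) (nat_lit 4) (nat_lit 242) (nat_lit 192) (nat_lit 166)))) (XT.nd (nat_lit 78) (nat_lit 0) (nat_lit 0) (XT.lf (nat_lit 0) (nat_lit 31788916656) (nat_lit 76) (nat_lit 247656446497) (nat_lit 76) (nat_lit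 242692380165) (nat_lit 1) (nat_lit 4) (nat_lit 2) (nat_lit 5) (nat_lit 2) (nat_lit 4) (nat_lit 243) (nat_lit 192) (nat_lit 165)) (XT.nd (nat_lit 78) (nat_lit 0) (nat_lit 0) (XT.lf (nat_lit 0) (nat_lit 44553872992) (nat_lit 76) (nat_lit 280270579148) (nat_lit 76) (nat_lit 275291290479) (nat_lit 1) (nat_lit 4) (nat_lit 2) (nat_lit 5) (nat_lit 2) (nat_lit 4) (nat_lit 244) (nat_lit 192) (nat_lit 164)) (XT.lf (nat_lit 0) (nat_lit 59190625277) (nat_lit 76) (nat_lit 317797091180) (nat_lit 76) (nat_lit 312804565696) (nat_lit 1) (nat_lit 4) (nat_lit 2) (nat_lit 5) (nat_lit 2) (nat_lit 4) (nat_lit 245) (nat_lit 192) (nat_lit 163))))))))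
noncomputable def xc14 : XT := (XT.nd (nat_lit 29016) (nat_lit 0) (nat_lit 76) (XT.nd (nat_lit 780) (nat_lit 0) (nat_lit 0) (XT.nd (nat_lit 390) (nat_lit 0) (nat_lit 0) (XT.nd (nat_lit 156) (nat_lit 0) (nat_lit 0) (XT.nd (nat_lit 78) (nat_lit 0) (nat_lit 0) (XT.lf (nat_lit 0) (nat_lit 75985544752) (nat_lit 76) (nat_lit 360970196959) (nat_lit 76) (nat_lit 355966161201) (nat_lit 1) (nat_lit 4) (nat_lit 2) (nat_lit 5) (nat_lit 2) (nat_lit 4) (nat_lit 246) (nat_lit 192) (nat_lit 162)) (XT.lf (nat_lit 0) (nat_lit 95267227667) (nat_lit 76) (nat_lit 410634587686) (nat_lit 76) (nat_lit 405620542993) (nat_lit 1) (nat_lit 4) (nat_lit 2) (nat_lit 5) (nat_lit 2) (nat_lit 4) (nat_lit 247) (nat_lit 192) (nat_lit 161))) (XT.nd (nat_lit 78) (nat_lit 0) (nat_lit 0) (XT.lf (nat_lit 0) (nat_lit 117412924339) (nat_lit 76) (nat_lit 467761957960) (nat_lit 76) (nat_lit 462739209847) (nat_lit 1) (nat_lit 4)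 (nat_lit 2) (nat_lit 5) (nat_lit 2) (nat_lit 4) (nat_lit 248) (nat_lit 192) (nat_lit 160)) (XT.nd (nat_lit 78) (nat_lit 0) (nat_lit 0) (XT.lf (nat_lit 0) (nat_lit 142855920140) (nat_lit 76) (nat_lit 533470017201) (nat_lit 76) (nat_lit 528439700896) (nat_lit 1) (nat_lit 4) (nat_lit 2) (nat_lit 5) (nat_lit 2) (nat_lit 4) (nat_lit 249) (nat_lit 192) (nat_lit 159)) (XT.lf (nat_lit 0) (nat_lit 172094012812) (nat_lit 76) (nat_lit 609044357872) (nat_lit 76) (nat_lit 604007460530) (nat_lit 1) (nat_lit 4) (nat_lit 2) (nat_lit 5) (nat_lit 2) (nat_lit 4) (nat_lit 250) (nat_lit 192) (nat_lit 158))))) (XT.nd (nat_lit 156) (nat_lit 0) (nat_lit 0) (XT.nd (nat_lit 78) (nat_lit 0) (nat_lit 0) (XT.lf (nat_lit 0) (nat_lit 205699251995) (nat_lit 76) (nat_lit 695963608377) (nat_lit 76) (nat_lit 690920988395) (nat_lit 1) (nat_lit 4) (nat_lit 2) (nat_lit 5) (nat_lit 2) (nat_lit 4) (nat_lit 251) (nat_lit 192)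 (nat_lit 157)) (XT.lf (nat_lit 0) (nat_lit 244329131499) (nat_lit 76) (nat_lit 795928362748) (nat_lit 76) (nat_lit 790880766557) (nat_lit 1) (nat_lit 4) (nat_lit 2) (nat_lit 5) (nat_lit 2) (nat_lit 4) (nat_lit 252) (nat_lit 192) (nat_lit 156))) (XT.nd (nat_lit 78) (nat_lit 0) (nat_lit 0) (XT.lf (nat_lit 0) (nat_lit 288739453314) (nat_lit 76) (nat_lit 910894453136) (nat_lit 76) (nat_lit 905842529807) (nat_lit 1) (nat_lit 4) (nat_lit 2) (nat_lit 5) (nat_lit 2) (nat_lit 4) (nat_lit 253) (nat_lit 192) (nat_lit 155)) (XT.nd (nat_lit 78) (nat_lit 0) (nat_lit 0) (XT.lf (nat_lit 0) (nat_lit 339799115041) (nat_lit 76) (nat_lit 1043111216092) (nat_lit 76) (nat_lit 1038055530033) (nat_lit 1) (nat_lit 4) (nat_lit 2) (nat_lit 5) (nat_lit 2) (nat_lit 4) (nat_lit 254) (nat_lit 192) (nat_lit 154)) (XT.lf (nat_lit 0) (nat_lit 398507110062) (nat_lit 76) (nat_lit 1195165501326) (nat_lit 76) (nat_lit 1190106543329)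 (nat_lit 1) (nat_lit 4) (nat_lit 2) (nat_lit 5) (nat_lit 2) (nat_lit 4) (nat_lit 255) (nat_lit 192) (nat_lit 153)))))) (XT.nd (nat_lit 390) (nat_lit 0) (nat_lit 0) (XT.nd (nat_lit 156) (nat_lit 0) (nat_lit 0) (XT.nd (nat_lit 78) (nat_lit 0) (nat_lit 0) (XT.lf (nat_lit 0) (nat_lit 466012073061) (nat_lit 76) (nat_lit 1370032283983) (nat_lit 76) (nat_lit 1364970480823) (nat_lit 1) (nat_lit 4) (nat_lit 2) (nat_lit 5) (nat_lit 2) (nat_lit 4) (nat_lit 256) (nat_lit 192) (nat_lit 152)) (XT.lf (nat_lit 0) (nat_lit 543634753315) (nat_lit 76) (nat_lit 1571132870681) (nat_lit 76) (nat_lit 1566068593465) (nat_lit 1) (nat_lit 4) (nat_lit 2) (nat_lit 5) (nat_lit 2) (nat_lit 4) (nat_lit 257) (nat_lit 192) (nat_lit 151))) (XT.nd (nat_lit 78) (nat_lit 0) (nat_lit 0) (XT.lf (nat_lit 0) (nat_lit 632893855438) (nat_lit 76) (nat_lit 1802401838117) (nat_lit 76) (nat_lit 1797335409548) (nat_lit 1) (nat_lit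 4) (nat_lit 2) (nat_lit 5) (nat_lit 2) (nat_lit 4) (nat_lit 258) (nat_lit 192) (nat_lit 150)) (XT.nd (nat_lit 78) (nat_lit 0) (nat_lit 0) (XT.lf (nat_lit 0) (nat_lit 735535753166) (nat_lit 76) (nat_lit 2068364013913) (nat_lit 76) (nat_lit 2063295714603) (nat_lit 1) (nat_lit 4) (nat_lit 2) (nat_lit 5) (nat_lit 2) (nat_lit 4) (nat_lit 259) (nat_lit 192) (nat_lit 149)) (XT.lf (nat_lit 0) (nat_lit 853568657543) (nat_lit 76) (nat_lit 2374223005858) (nat_lit 76) (nat_lit 2369153079816) (nat_lit 1) (nat_lit 4) (nat_lit 2) (nat_lit 5) (nat_lit 2) (nat_lit 4) (nat_lit 260) (nat_lit 192) (nat_lit 148))))) (XT.nd (nat_lit 27612) (nat_lit 0) (nat_lit 684) (XT.nd (nat_lit 78) (nat_lit 0) (nat_lit 0) (XT.lf (nat_lit 0) (nat_lit 989301908001) (nat_lit 76) (nat_lit 2725963011619) (nat_lit 76) (nat_lit 2720891671029) (nat_lit 1) (nat_lit 4) (nat_lit 2) (nat_lit 5) (nat_lit 2) (nat_lit 4) (nat_lit 261)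 (nat_lit 192) (nat_lit 147)) (XT.nd (nat_lit 78) (nat_lit 0) (nat_lit 0) (XT.lf (nat_lit 0) (nat_lit 1145391155094) (nat_lit 76) (nat_lit 3130465900875) (nat_lit 76) (nat_lit 3125393330242) (nat_lit 1) (nat_lit 4) (nat_lit 2) (nat_lit 5) (nat_lit 2) (nat_lit 4) (nat_lit 262) (nat_lit 192) (nat_lit 146)) (XT.lf (nat_lit 0) (nat_lit 1324890318872) (nat_lit 76) (nat_lit 3595645860589) (nat_lit 76) (nat_lit 3590572220354) (nat_lit 1) (nat_lit 4) (nat_lit 2) (nat_lit 5) (nat_lit 2) (nat_lit 4) (nat_lit 263) (nat_lit 192) (nat_lit 145)))) (XT.nd (nat_lit 78) (nat_lit 228) (nat_lit 0) (XT.lf (nat_lit 0) (nat_lit 3628258763) (nat_lit 152) (nat_lit 1381965008) (nat_lit 152) (nat_lit 1381965008) (nat_lit 13) (nat_lit 4) (nat_lit 15) (nat_lit 5) (nat_lit 15) (nat_lit 4) (nat_lit 214) (nat_lit 193) (nat_lit 193)) (XT.nd (nat_lit 78) (nat_lit 76) (nat_lit 0) (XT.lf (nat_lit 0) (nat_lit 4147498379)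 (nat_lit 152) (nat_lit 6692739402) (nat_lit 0) (nat_lit 3187452164) (nat_lit 11) (nat_lit 5) (nat_lit 13) (nat_lit 4) (nat_lit 11) (nat_lit 4) (nat_lit 215) (nat_lit 193) (nat_lit 192)) (XT.lf (nat_lit 0) (nat_lit 5919301073) (nat_lit 76) (nat_lit 5677852927) (nat_lit 76) (nat_lit 3882983918) (nat_lit 10) (nat_lit 4) (nat_lit 11) (nat_lit 5) (nat_lit 11) (nat_lit 4) (nat_lit 216) (nat_lit 193) (nat_lit 191))))))) (XT.nd (nat_lit 780) (nat_lit 152) (nat_lit 0) (XT.nd (nat_lit 390) (nat_lit 76) (nat_lit 0) (XT.nd (nat_lit 156) (nat_lit 228) (nat_lit 0) (XT.nd (nat_lit 78) (nat_lit 0) (nat_lit 0) (XT.lf (nat_lit 0) (nat_lit 2453274180) (nat_lit 152) (nat_lit 14606247981) (nat_lit 0) (nat_lit 119198370) (nat_lit 8) (nat_lit 5) (nat_lit 10) (nat_lit 4) (nat_lit 8) (nat_lit 4) (nat_lit 217) (nat_lit 193) (nat_lit 190)) (XT.lf (nat_lit 0) (nat_lit 9335814870) (nat_lit 152) (nat_lit 3386011308)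 (nat_lit 0) (nat_lit 6417252051) (nat_lit 8) (nat_lit 5) (nat_lit 10) (nat_lit 4) (nat_lit 8) (nat_lit 4) (nat_lit 218) (nat_lit 193) (nat_lit 189))) (XT.nd (nat_lit 78) (nat_lit 152) (nat_lit 0) (XT.lf (nat_lit 0) (nat_lit 9003034715) (nat_lit 76) (nat_lit 7922141700) (nat_lit 76) (nat_lit 4495329308) (nat_lit 7) (nat_lit 4) (nat_lit 8) (nat_lit 5) (nat_lit 8) (nat_lit 4) (nat_lit 219) (nat_lit 193) (nat_lit 188)) (XT.nd (nat_lit 78) (nat_lit 76) (nat_lit 0) (XT.lf (nat_lit 0) (nat_lit 1123247734) (nat_lit 152) (nat_lit 1532413253) (nat_lit 76) (nat_lit 21418578585) (nat_lit 6) (nat_lit 5) (nat_lit 8) (nat_lit 5) (nat_lit 7) (nat_lit 4) (nat_lit 220) (nat_lit 193) (nat_lit 187)) (XT.lf (nat_lit 0) (nat_lit 7223933276) (nat_lit 152) (nat_lit 16615101818) (nat_lit 0) (nat_lit 3285897870) (nat_lit 5) (nat_lit 5) (nat_lit 7) (nat_lit 4) (nat_lit 5) (nat_lit 4) (nat_lit 221) (nat_lit 193)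 (nat_lit 186))))) (XT.nd (nat_lit 156) (nat_lit 0) (nat_lit 0) (XT.nd (nat_lit 78) (nat_lit 76) (nat_lit 0) (XT.lf (nat_lit 0) (nat_lit 13950947034) (nat_lit 152) (nat_lit 7002493116) (nat_lit 0) (nat_lit 9703483532) (nat_lit 5) (nat_lit 5) (nat_lit 7) (nat_lit 4) (nat_lit 5) (nat_lit 4) (nat_lit 222) (nat_lit 193) (nat_lit 185)) (XT.lf (nat_lit 0) (nat_lit 3579379717) (nat_lit 76) (nat_lit 17838937296) (nat_lit 76) (nat_lit 13322405883) (nat_lit 4) (nat_lit 4) (nat_lit 5) (nat_lit 5) (nat_lit 5) (nat_lit 4) (nat_lit 223) (nat_lit 193) (nat_lit 184))) (XT.nd (nat_lit 78) (nat_lit 0) (nat_lit 0) (XT.lf (nat_lit 0) (nat_lit 15576062599) (nat_lit 76) (nat_lit 14310749249) (nat_lit 76) (nat_lit 9560245741) (nat_lit 4) (nat_lit 4) (nat_lit 5) (nat_lit 5) (nat_lit 5) (nat_lit 4) (nat_lit 224) (nat_lit 193) (nat_lit 183)) (XT.nd (nat_lit 78) (nat_lit 0) (nat_lit 0) (XT.lf (nat_lit 0) (nat_lit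 28853534360) (nat_lit 76) (nat_lit 10491306816) (nat_lit 76) (nat_lit 5537349311) (nat_lit 4) (nat_lit 4) (nat_lit 5) (nat_lit 5) (nat_lit 5) (nat_lit 4) (nat_lit 225) (nat_lit 193) (nat_lit 182)) (XT.lf (nat_lit 0) (nat_lit 43671571621) (nat_lit 76) (nat_lit 6305881776) (nat_lit 76) (nat_lit 1175007752) (nat_lit 4) (nat_lit 4) (nat_lit 5) (nat_lit 5) (nat_lit 5) (nat_lit 4) (nat_lit 226) (nat_lit 193) (nat_lit 181)))))) (XT.nd (nat_lit 390) (nat_lit 0) (nat_lit 0) (XT.nd (nat_lit 156) (nat_lit 0) (nat_lit 0) (XT.nd (nat_lit 78) (nat_lit 0) (nat_lit 0) (XT.lf (nat_lit 0) (nat_lit 1950230347) (nat_lit 76) (nat_lit 1528108508) (nat_lit 152) (nat_lit 54891507936) (nat_lit 2) (nat_lit 5) (nat_lit 3) (nat_lit 5) (nat_lit 4) (nat_lit 4) (nat_lit 227) (nat_lit 193) (nat_lit 180)) (XT.lf (nat_lit 0) (nat_lit 8878297015) (nat_lit 152) (nat_lit 53918705986) (nat_lit 0) (nat_lit 3861177775) (nat_lit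 2) (nat_lit 5) (nat_lit 4) (nat_lit 4) (nat_lit 2) (nat_lit 4) (nat_lit 228) (nat_lit 193) (nat_lit 179))) (XT.nd (nat_lit 78) (nat_lit 0) (nat_lit 0) (XT.lf (nat_lit 0) (nat_lit 14954303478) (nat_lit 152) (nat_lit 51416907398) (nat_lit 0) (nat_lit 9829475457) (nat_lit 2) (nat_lit 5) (nat_lit 4) (nat_lit 4) (nat_lit 2) (nat_lit 4) (nat_lit 229) (nat_lit 193) (nat_lit 178)) (XT.nd (nat_lit 78) (nat_lit 0) (nat_lit 0) (XT.lf (nat_lit 0) (nat_lit 21788485587) (nat_lit 152) (nat_lit 48828521403) (nat_lit 0) (nat_lit 16569997757) (nat_lit 2) (nat_lit 5) (nat_lit 4) (nat_lit 4) (nat_lit 2) (nat_lit 4) (nat_lit 230) (nat_lit 193) (nat_lit 177)) (XT.lf (nat_lit 0) (nat_lit 29514555599) (nat_lit 152) (nat_lit 46102905664) (nat_lit 0) (nat_lit 24214624458) (nat_lit 2) (nat_lit 5) (nat_lit 4) (nat_lit 4) (nat_lit 2) (nat_lit 4) (nat_lit 231) (nat_lit 193) (nat_lit 176))))) (XT.nd (nat_lit 234) (nat_lit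 0) (nat_lit 0) (XT.nd (nat_lit 78) (nat_lit 0) (nat_lit 0) (XT.lf (nat_lit 0) (nat_lit 38283675756) (nat_lit 152) (nat_lit 43186732917) (nat_lit 0) (nat_lit 32912924343) (nat_lit 2) (nat_lit 5) (nat_lit 4) (nat_lit 4) (nat_lit 2) (nat_lit 4) (nat_lit 232) (nat_lit 193) (nat_lit 175)) (XT.nd (nat_lit 78) (nat_lit 0) (nat_lit 0) (XT.lf (nat_lit 0) (nat_lit 48267415798) (nat_lit 152) (nat_lit 40022947610) (nat_lit 0) (nat_lit 42835081540) (nat_lit 2) (nat_lit 5) (nat_lit 4) (nat_lit 4) (nat_lit 2) (nat_lit 4) (nat_lit 233) (nat_lit 193) (nat_lit 174)) (XT.lf (nat_lit 0) (nat_lit 59661109770) (nat_lit 152) (nat_lit 36549649593) (nat_lit 0) (nat_lit 54175225212) (nat_lit 2) (nat_lit 5) (nat_lit 4) (nat_lit 4) (nat_lit 2) (nat_lit 4) (nat_lit 234) (nat_lit 193) (nat_lit 173)))) (XT.nd (nat_lit 78) (nat_lit 0) (nat_lit 0) (XT.lf (nat_lit 0) (nat_lit 72687677771) (nat_lit 152) (nat_lit 32698883038)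 (nat_lit 0) (nat_lit 67155227736) (nat_lit 2) (nat_lit 5) (nat_lit 4) (nat_lit 4) (nat_lit 2) (nat_lit 4) (nat_lit 235) (nat_lit 193) (nat_lit 172)) (XT.nd (nat_lit 78) (nat_lit 0) (nat_lit 0) (XT.lf (nat_lit 0) (nat_lit 87601987437) (nat_lit 152) (nat_lit 28395306858) (nat_lit 0) (nat_lit 82029045681) (nat_lit 2) (nat_lit 5) (nat_lit 4) (nat_lit 4) (nat_lit 2) (nat_lit 4) (nat_lit 236) (nat_lit 193) (nat_lit 171)) (XT.lf (nat_lit 0) (nat_lit 104695840478) (nat_lit 152) (nat_lit 23554720650) (nat_lit 0) (nat_lit 99087688531) (nat_lit 2) (nat_lit 5) (nat_lit 4) (nat_lit 4) (nat_lit 2) (nat_lit 4) (nat_lit 237) (nat_lit 193) (nat_lit 170))))))))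
noncomputable def xc15 : XT := (XT.nd (nat_lit 1638) (nat_lit 0) (nat_lit 0) (XT.nd (nat_lit 780) (nat_lit 0) (nat_lit 0) (XT.nd (nat_lit 390) (nat_lit 0) (nat_lit 0) (XT.nd (nat_lit 156) (nat_lit 76) (nat_lit 0) (XT.nd (nat_lit 78) (nat_lit 0) (nat_lit 0) (XT.lf (nat_lit 0) (nat_lit 124303681845) (nat_lit 152) (nat_lit 18082417294) (nat_lit 0) (nat_lit 118664912340) (nat_lit 2) (nat_lit 5) (nat_lit 4) (nat_lit 4) (nat_lit 2) (nat_lit 4) (nat_lit 238) (nat_lit 193) (nat_lit 169)) (XT.lf (nat_lit 0) (nat_lit 146809143217) (nat_lit 152) (nat_lit 11871329983) (nat_lit 0) (nat_lit 141143749749) (nat_lit 2) (nat_lit 5) (nat_lit 4) (nat_lit 4) (nat_lit 2) (nat_lit 4) (nat_lit 239) (nat_lit 193) (nat_lit 168))) (XT.nd (nat_lit 78) (nat_lit 76) (nat_lit 0) (XT.lf (nat_lit 0) (nat_lit 172652548837) (nat_lit 152) (nat_lit 4799937446) (nat_lit 0) (nat_lit 166964004097) (nat_lit 2) (nat_lit 5) (nat_lit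 4) (nat_lit 4) (nat_lit 2) (nat_lit 4) (nat_lit 240) (nat_lit 193) (nat_lit 167)) (XT.nd (nat_lit 78) (nat_lit 0) (nat_lit 0) (XT.lf (nat_lit 0) (nat_lit 3442312040) (nat_lit 76) (nat_lit 198980006203) (nat_lit 76) (nat_lit 193271329921) (nat_lit 1) (nat_lit 4) (nat_lit 2) (nat_lit 5) (nat_lit 2) (nat_lit 4) (nat_lit 241) (nat_lit 193) (nat_lit 166)) (XT.lf (nat_lit 0) (nat_lit 13154770510) (nat_lit 76) (nat_lit 223612522661) (nat_lit 76) (nat_lit 217886340692) (nat_lit 1) (nat_lit 4) (nat_lit 2) (nat_lit 5) (nat_lit 2) (nat_lit 4) (nat_lit 242) (nat_lit 193) (nat_lit 165))))) (XT.nd (nat_lit 156) (nat_lit 0) (nat_lit 0) (XT.nd (nat_lit 78) (nat_lit 0) (nat_lit 0) (XT.lf (nat_lit 0) (nat_lit 24274708123) (nat_lit 76) (nat_lit 251963214995) (nat_lit 76) (nat_lit 246221810688) (nat_lit 1) (nat_lit 4) (nat_lit 2) (nat_lit 5) (nat_lit 2) (nat_lit 4) (nat_lit 243) (nat_lit 193) (nat_lit 164))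 (XT.lf (nat_lit 0) (nat_lit 37019688877) (nat_lit 76) (nat_lit 284586770661) (nat_lit 76) (nat_lit 278832129539) (nat_lit 1) (nat_lit 4) (nat_lit 2) (nat_lit 5) (nat_lit 2) (nat_lit 4) (nat_lit 244) (nat_lit 193) (nat_lit 163))) (XT.nd (nat_lit 78) (nat_lit 0) (nat_lit 0) (XT.lf (nat_lit 0) (nat_lit 51639071091) (nat_lit 76) (nat_lit 322121476620) (nat_lit 76) (nat_lit 316355325224) (nat_lit 1) (nat_lit 4) (nat_lit 2) (nat_lit 5) (nat_lit 2) (nat_lit 4) (nat_lit 245) (nat_lit 193) (nat_lit 162)) (XT.nd (nat_lit 78) (nat_lit 0) (nat_lit 0) (XT.lf (nat_lit 0) (nat_lit 68418886156) (nat_lit 76) (nat_lit 365301707553) (nat_lit 76) (nat_lit 359525547223) (nat_lit 1) (nat_lit 4) (nat_lit 2) (nat_lit 5) (nat_lit 2) (nat_lit 4) (nat_lit 246) (nat_lit 193) (nat_lit 161)) (XT.lf (nat_lit 0) (nat_lit 87687434801) (nat_lit 76) (nat_lit 414972294065) (nat_lit 76) (nat_lit 409187430314) (nat_lit 1)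 (nat_lit 4) (nat_lit 2) (nat_lit 5) (nat_lit 2) (nat_lit 4) (nat_lit 247) (nat_lit 193) (nat_lit 160)))))) (XT.nd (nat_lit 390) (nat_lit 0) (nat_lit 0) (XT.nd (nat_lit 156) (nat_lit 0) (nat_lit 0) (XT.nd (nat_lit 78) (nat_lit 0) (nat_lit 0) (XT.lf (nat_lit 0) (nat_lit 109821710370) (nat_lit 76) (nat_lit 472105051979) (nat_lit 76) (nat_lit 466312620036) (nat_lit 1) (nat_lit 4) (nat_lit 2) (nat_lit 5) (nat_lit 2) (nat_lit 4) (nat_lit 248) (nat_lit 193) (nat_lit 159)) (XT.lf (nat_lit 0) (nat_lit 135254774776) (nat_lit 76) (nat_lit 537817796124) (nat_lit 76) (nat_lit 532018783145) (nat_lit 1) (nat_lit 4) (nat_lit 2) (nat_lit 5) (nat_lit 2) (nat_lit 4) (nat_lit 249) (nat_lit 193) (nat_lit 158))) (XT.nd (nat_lit 78) (nat_lit 0) (nat_lit 0) (XT.lf (nat_lit 0) (nat_lit 164484231453) (nat_lit 76) (nat_lit 613396210624) (nat_lit 76) (nat_lit 607591475005) (nat_lit 1) (nat_lit 4) (nat_lit 2) (nat_lit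 5) (nat_lit 2) (nat_lit 4) (nat_lit 250) (nat_lit 193) (nat_lit 157)) (XT.nd (nat_lit 78) (nat_lit 0) (nat_lit 0) (XT.lf (nat_lit 0) (nat_lit 198081961075) (nat_lit 76) (nat_lit 700319003590) (nat_lit 76) (nat_lit 694509291761) (nat_lit 1) (nat_lit 4) (nat_lit 2) (nat_lit 5) (nat_lit 2) (nat_lit 4) (nat_lit 251) (nat_lit 193) (nat_lit 156)) (XT.lf (nat_lit 0) (nat_lit 236705310525) (nat_lit 76) (nat_lit 800286838362) (nat_lit 76) (nat_lit 794472799395) (nat_lit 1) (nat_lit 4) (nat_lit 2) (nat_lit 5) (nat_lit 2) (nat_lit 4) (nat_lit 252) (nat_lit 193) (nat_lit 155))))) (XT.nd (nat_lit 234) (nat_lit 0) (nat_lit 0) (XT.nd (nat_lit 78) (nat_lit 0) (nat_lit 0) (XT.lf (nat_lit 0) (nat_lit 281109954033) (nat_lit 76) (nat_lit 915255607359) (nat_lit 76) (nat_lit 909437805663) (nat_lit 1) (nat_lit 4) (nat_lit 2) (nat_lit 5) (nat_lit 2) (nat_lit 4) (nat_lit 253) (nat_lit 193) (nat_lit 154)) (XT.nd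 (nat_lit 78) (nat_lit 0) (nat_lit 0) (XT.lf (nat_lit 0) (nat_lit 332164678102) (nat_lit 76) (nat_lit 1047474699540) (nat_lit 76) (nat_lit 1041653625906) (nat_lit 1) (nat_lit 4) (nat_lit 2) (nat_lit 5) (nat_lit 2) (nat_lit 4) (nat_lit 254) (nat_lit 193) (nat_lit 153)) (XT.lf (nat_lit 0) (nat_lit 390868379507) (nat_lit 76) (nat_lit 1199531010187) (nat_lit 76) (nat_lit 1193707091389) (nat_lit 1) (nat_lit 4) (nat_lit 2) (nat_lit 5) (nat_lit 2) (nat_lit 4) (nat_lit 255) (nat_lit 193) (nat_lit 152)))) (XT.nd (nat_lit 78) (nat_lit 0) (nat_lit 0) (XT.lf (nat_lit 0) (nat_lit 458369608927) (nat_lit 76) (nat_lit 1374399554074) (nat_lit 76) (nat_lit 1368573161220) (nat_lit 1) (nat_lit 4) (nat_lit 2) (nat_lit 5) (nat_lit 2) (nat_lit 4) (nat_lit 256) (nat_lit 193) (nat_lit 151)) (XT.nd (nat_lit 78) (nat_lit 0) (nat_lit 0) (XT.lf (nat_lit 0) (nat_lit 535989042591) (nat_lit 76) (nat_lit 1575501672275)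 (nat_lit 76) (nat_lit 1569673128069) (nat_lit 1) (nat_lit 4) (nat_lit 2) (nat_lit 5) (nat_lit 2) (nat_lit 4) (nat_lit 257) (nat_lit 193) (nat_lit 150)) (XT.lf (nat_lit 0) (nat_lit 625245321591) (nat_lit 76) (nat_lit 1806771971453) (nat_lit 76) (nat_lit 1800941556505) (nat_lit 1) (nat_lit 4) (nat_lit 2) (nat_lit 5) (nat_lit 2) (nat_lit 4) (nat_lit 258) (nat_lit 193) (nat_lit 149))))))) (XT.nd (nat_lit 28080) (nat_lit 0) (nat_lit 76) (XT.nd (nat_lit 27612) (nat_lit 0) (nat_lit 532) (XT.nd (nat_lit 156) (nat_lit 0) (nat_lit 0) (XT.nd (nat_lit 78) (nat_lit 0) (nat_lit 0) (XT.lf (nat_lit 0) (nat_lit 727884764431) (nat_lit 76) (nat_lit 2072735305286) (nat_lit 76) (nat_lit 2066903263607) (nat_lit 1) (nat_lit 4) (nat_lit 2) (nat_lit 5) (nat_lit 2) (nat_lit 4) (nat_lit 259) (nat_lit 193) (nat_lit 148)) (XT.lf (nat_lit 0) (nat_lit 845915534122) (nat_lit 76) (nat_lit 2378595304219) (nat_lit 76)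 (nat_lit 2372761847991) (nat_lit 1) (nat_lit 4) (nat_lit 2) (nat_lit 5) (nat_lit 2) (nat_lit 4) (nat_lit 260) (nat_lit 193) (nat_lit 147))) (XT.nd (nat_lit 78) (nat_lit 0) (nat_lit 0) (XT.lf (nat_lit 0) (nat_lit 981646928331) (nat_lit 76) (nat_lit 2730336185622) (nat_lit 76) (nat_lit 2724501499351) (nat_lit 1) (nat_lit 4) (nat_lit 2) (nat_lit 5) (nat_lit 2) (nat_lit 4) (nat_lit 261) (nat_lit 193) (nat_lit 146)) (XT.nd (nat_lit 78) (nat_lit 0) (nat_lit 0) (XT.lf (nat_lit 0) (nat_lit 1137734561294) (nat_lit 76) (nat_lit 3134839836306) (nat_lit 76) (nat_lit 3129004080433) (nat_lit 1) (nat_lit 4) (nat_lit 2) (nat_lit 5) (nat_lit 2) (nat_lit 4) (nat_lit 262) (nat_lit 193) (nat_lit 145)) (XT.lf (nat_lit 0) (nat_lit 1317232321482) (nat_lit 76) (nat_lit 3600020458132) (nat_lit 76) (nat_lit 3594183772169) (nat_lit 1) (nat_lit 4) (nat_lit 2) (nat_lit 5) (nat_lit 2) (nat_lit 4) (nat_lit 263) (nat_lit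 193) (nat_lit 144))))) (XT.nd (nat_lit 234) (nat_lit 380) (nat_lit 0) (XT.nd (nat_lit 78) (nat_lit 304) (nat_lit 0) (XT.lf (nat_lit 0) (nat_lit 2308861548) (nat_lit 152) (nat_lit 1542849564) (nat_lit 152) (nat_lit 1542849564) (nat_lit 17) (nat_lit 4) (nat_lit 19) (nat_lit 5) (nat_lit 19) (nat_lit 4) (nat_lit 212) (nat_lit 194) (nat_lit 194)) (XT.nd (nat_lit 78) (nat_lit 152) (nat_lit 0) (XT.lf (nat_lit 0) (nat_lit 3623299062) (nat_lit 152) (nat_lit 5667532728) (nat_lit 0) (nat_lit 2430921664) (nat_lit 15) (nat_lit 5) (nat_lit 17) (nat_lit 4) (nat_lit 15) (nat_lit 4) (nat_lit 213) (nat_lit 194) (nat_lit 193)) (XT.lf (nat_lit 0) (nat_lit 6671946564) (nat_lit 152) (nat_lit 4185504913) (nat_lit 152) (nat_lit 1956277604) (nat_lit 13) (nat_lit 4) (nat_lit 15) (nat_lit 5) (nat_lit 15) (nat_lit 4) (nat_lit 214) (nat_lit 194) (nat_lit 192)))) (XT.nd (nat_lit 78) (nat_lit 228) (nat_lit 0) (XT.lf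 (nat_lit 0) (nat_lit 4528146209) (nat_lit 152) (nat_lit 7929787546) (nat_lit 0) (nat_lit 1629224054) (nat_lit 11) (nat_lit 5) (nat_lit 13) (nat_lit 4) (nat_lit 11) (nat_lit 4) (nat_lit 215) (nat_lit 194) (nat_lit 191)) (XT.nd (nat_lit 78) (nat_lit 152) (nat_lit 0) (XT.lf (nat_lit 0) (nat_lit 4090443245) (nat_lit 76) (nat_lit 7550793999) (nat_lit 76) (nat_lit 3925938978) (nat_lit 10) (nat_lit 4) (nat_lit 11) (nat_lit 5) (nat_lit 11) (nat_lit 4) (nat_lit 216) (nat_lit 194) (nat_lit 190)) (XT.lf (nat_lit 0) (nat_lit 62274458) (nat_lit 76) (nat_lit 2013867584) (nat_lit 152) (nat_lit 15217125052) (nat_lit 8) (nat_lit 5) (nat_lit 9) (nat_lit 5) (nat_lit 10) (nat_lit 4) (nat_lit 217) (nat_lit 194) (nat_lit 189)))))) (XT.nd (nat_lit 390) (nat_lit 228) (nat_lit 0) (XT.nd (nat_lit 156) (nat_lit 152) (nat_lit 0) (XT.nd (nat_lit 78) (nat_lit 76) (nat_lit 0) (XT.lf (nat_lit 0) (nat_lit 8658117332)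 (nat_lit 152) (nat_lit 6410970962) (nat_lit 0) (nat_lit 4209033508) (nat_lit 8) (nat_lit 5) (nat_lit 10) (nat_lit 4) (nat_lit 8) (nat_lit 4) (nat_lit 218) (nat_lit 194) (nat_lit 188)) (XT.lf (nat_lit 0) (nat_lit 5408113350) (nat_lit 76) (nat_lit 10533662506) (nat_lit 76) (nat_lit 5642622531) (nat_lit 7) (nat_lit 4) (nat_lit 8) (nat_lit 5) (nat_lit 8) (nat_lit 4) (nat_lit 219) (nat_lit 194) (nat_lit 187))) (XT.nd (nat_lit 78) (nat_lit 152) (nat_lit 0) (XT.lf (nat_lit 0) (nat_lit 18620509847) (nat_lit 76) (nat_lit 5455763754) (nat_lit 76) (nat_lit 180414083) (nat_lit 7) (nat_lit 4) (nat_lit 8) (nat_lit 5) (nat_lit 8) (nat_lit 4) (nat_lit 220) (nat_lit 194) (nat_lit 186)) (XT.nd (nat_lit 78) (nat_lit 0) (nat_lit 0) (XT.lf (nat_lit 0) (nat_lit 5565596620) (nat_lit 152) (nat_lit 21399917112) (nat_lit 0) (nat_lit 371585496) (nat_lit 5) (nat_lit 5) (nat_lit 7) (nat_lit 4) (nat_lit 5) (nat_lit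 4) (nat_lit 221) (nat_lit 194) (nat_lit 185)) (XT.lf (nat_lit 0) (nat_lit 12127596420) (nat_lit 152) (nat_lit 12090416430) (nat_lit 0) (nat_lit 6664517385) (nat_lit 5) (nat_lit 5) (nat_lit 7) (nat_lit 4) (nat_lit 5) (nat_lit 4) (nat_lit 222) (nat_lit 194) (nat_lit 184))))) (XT.nd (nat_lit 234) (nat_lit 152) (nat_lit 0) (XT.nd (nat_lit 78) (nat_lit 76) (nat_lit 0) (XT.lf (nat_lit 0) (nat_lit 19365391831) (nat_lit 152) (nat_lit 1951170858) (nat_lit 0) (nat_lit 13668340701) (nat_lit 5) (nat_lit 5) (nat_lit 7) (nat_lit 4) (nat_lit 5) (nat_lit 4) (nat_lit 223) (nat_lit 194) (nat_lit 183)) (XT.nd (nat_lit 78) (nat_lit 0) (nat_lit 0) (XT.lf (nat_lit 0) (nat_lit 9701504706) (nat_lit 76) (nat_lit 17952408610) (nat_lit 76) (nat_lit 12051903483) (nat_lit 4) (nat_lit 4) (nat_lit 5) (nat_lit 5) (nat_lit 5) (nat_lit 4) (nat_lit 224) (nat_lit 194) (nat_lit 182)) (XT.lf (nat_lit 0) (nat_lit 22769183321)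 (nat_lit 76) (nat_lit 14229214436) (nat_lit 76) (nat_lit 8151792791) (nat_lit 4) (nat_lit 4) (nat_lit 5) (nat_lit 5) (nat_lit 5) (nat_lit 4) (nat_lit 225) (nat_lit 194) (nat_lit 181)))) (XT.nd (nat_lit 78) (nat_lit 152) (nat_lit 0) (XT.lf (nat_lit 0) (nat_lit 37404791759) (nat_lit 76) (nat_lit 10127483534) (nat_lit 76) (nat_lit 3896221438) (nat_lit 4) (nat_lit 4) (nat_lit 5) (nat_lit 5) (nat_lit 5) (nat_lit 4) (nat_lit 226) (nat_lit 194) (nat_lit 180)) (XT.nd (nat_lit 78) (nat_lit 76) (nat_lit 0) (XT.lf (nat_lit 0) (nat_lit 758148972) (nat_lit 152) (nat_lit 4788086538) (nat_lit 76) (nat_lit 53115800772) (nat_lit 3) (nat_lit 5) (nat_lit 5) (nat_lit 5) (nat_lit 4) (nat_lit 4) (nat_lit 227) (nat_lit 194) (nat_lit 179)) (XT.lf (nat_lit 0) (nat_lit 5705038921) (nat_lit 76) (nat_lit 153807619) (nat_lit 152) (nat_lit 61115560314) (nat_lit 2) (nat_lit 5) (nat_lit 3) (nat_lit 5) (nat_lit 4) (nat_lit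 4) (nat_lit 228) (nat_lit 194) (nat_lit 178))))))))
noncomputable def xc16 : XT := (XT.nd (nat_lit 1638) (nat_lit 0) (nat_lit 0) (XT.nd (nat_lit 780) (nat_lit 76) (nat_lit 0) (XT.nd (nat_lit 390) (nat_lit 0) (nat_lit 0) (XT.nd (nat_lit 156) (nat_lit 0) (nat_lit 0) (XT.nd (nat_lit 78) (nat_lit 0) (nat_lit 0) (XT.lf (nat_lit 0) (nat_lit 11859886335) (nat_lit 152) (nat_lit 58898141144) (nat_lit 0) (nat_lit 5764965522) (nat_lit 2) (nat_lit 5) (nat_lit 4) (nat_lit 4) (nat_lit 2) (nat_lit 4) (nat_lit 229) (nat_lit 194) (nat_lit 177)) (XT.lf (nat_lit 0) (nat_lit 18632096624) (nat_lit 152) (nat_lit 56426512430) (nat_lit 0) (nat_lit 12455732498) (nat_lit 2) (nat_lit 5) (nat_lit 4) (nat_lit 4) (nat_lit 2) (nat_lit 4) (nat_lit 230) (nat_lit 194) (nat_lit 176))) (XT.nd (nat_lit 78) (nat_lit 0) (nat_lit 0) (XT.lf (nat_lit 0) (nat_lit 26304278098) (nat_lit 152) (nat_lit 53802424762) (nat_lit 0) (nat_lit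 20057093701) (nat_lit 2) (nat_lit 5) (nat_lit 4) (nat_lit 4) (nat_lit 2) (nat_lit 4) (nat_lit 231) (nat_lit 194) (nat_lit 175)) (XT.nd (nat_lit 78) (nat_lit 0) (nat_lit 0) (XT.lf (nat_lit 0) (nat_lit 35026538655) (nat_lit 152) (nat_lit 50974537295) (nat_lit 0) (nat_lit 28717771414) (nat_lit 2) (nat_lit 5) (nat_lit 4) (nat_lit 4) (nat_lit 2) (nat_lit 4) (nat_lit 232) (nat_lit 194) (nat_lit 174)) (XT.lf (nat_lit 0) (nat_lit 44969531220) (nat_lit 152) (nat_lit 47887521796) (nat_lit 0) (nat_lit 38607213679) (nat_lit 2) (nat_lit 5) (nat_lit 4) (nat_lit 4) (nat_lit 2) (nat_lit 4) (nat_lit 233) (nat_lit 194) (nat_lit 173))))) (XT.nd (nat_lit 156) (nat_lit 0) (nat_lit 0) (XT.nd (nat_lit 78) (nat_lit 0) (nat_lit 0) (XT.lf (nat_lit 0) (nat_lit 56327792603) (nat_lit 152) (nat_lit 44480980134) (nat_lit 0) (nat_lit 49918909583) (nat_lit 2) (nat_lit 5) (nat_lit 4) (nat_lit 4) (nat_lit 2) (nat_lit 4)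 (nat_lit 234) (nat_lit 194) (nat_lit 172)) (XT.lf (nat_lit 0) (nat_lit 69323549657) (nat_lit 152) (nat_lit 40688262583) (nat_lit 0) (nat_lit 62874174918) (nat_lit 2) (nat_lit 5) (nat_lit 4) (nat_lit 4) (nat_lit 2) (nat_lit 4) (nat_lit 235) (nat_lit 194) (nat_lit 171))) (XT.nd (nat_lit 78) (nat_lit 0) (nat_lit 0) (XT.lf (nat_lit 0) (nat_lit 84211067195) (nat_lit 152) (nat_lit 36435163798) (nat_lit 0) (nat_lit 77726482265) (nat_lit 2) (nat_lit 5) (nat_lit 4) (nat_lit 4) (nat_lit 2) (nat_lit 4) (nat_lit 236) (nat_lit 194) (nat_lit 170)) (XT.nd (nat_lit 78) (nat_lit 0) (nat_lit 0) (XT.lf (nat_lit 0) (nat_lit 101281622734) (nat_lit 152) (nat_lit 31638470978) (nat_lit 0) (nat_lit 94766420245) (nat_lit 2) (nat_lit 5) (nat_lit 4) (nat_lit 4) (nat_lit 2) (nat_lit 4) (nat_lit 237) (nat_lit 194) (nat_lit 169)) (XT.lf (nat_lit 0) (nat_lit 120869205403) (nat_lit 152) (nat_lit 26204335784) (nat_lit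 0) (nat_lit 114327378951) (nat_lit 2) (nat_lit 5) (nat_lit 4) (nat_lit 4) (nat_lit 2) (nat_lit 4) (nat_lit 238) (nat_lit 194) (nat_lit 168)))))) (XT.nd (nat_lit 390) (nat_lit 0) (nat_lit 0) (XT.nd (nat_lit 156) (nat_lit 76) (nat_lit 0) (XT.nd (nat_lit 78) (nat_lit 0) (nat_lit 0) (XT.lf (nat_lit 0) (nat_lit 143357050516) (nat_lit 152) (nat_lit 20026438180) (nat_lit 0) (nat_lit 136792072792) (nat_lit 2) (nat_lit 5) (nat_lit 4) (nat_lit 4) (nat_lit 2) (nat_lit 4) (nat_lit 239) (nat_lit 194) (nat_lit 167)) (XT.lf (nat_lit 0) (nat_lit 169185137650) (nat_lit 152) (nat_lit 12983906257) (nat_lit 0) (nat_lit 162600028385) (nat_lit 2) (nat_lit 5) (nat_lit 4) (nat_lit 4) (nat_lit 2) (nat_lit 4) (nat_lit 240) (nat_lit 194) (nat_lit 166))) (XT.nd (nat_lit 78) (nat_lit 76) (nat_lit 0) (XT.lf (nat_lit 0) (nat_lit 198858798947) (nat_lit 152) (nat_lit 4938951346) (nat_lit 0) (nat_lit 192256183994) (nat_lit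 2) (nat_lit 5) (nat_lit 4) (nat_lit 4) (nat_lit 2) (nat_lit 4) (nat_lit 241) (nat_lit 194) (nat_lit 165)) (XT.nd (nat_lit 78) (nat_lit 0) (nat_lit 0) (XT.lf (nat_lit 0) (nat_lit 4490458778) (nat_lit 76) (nat_lit 228576142902) (nat_lit 76) (nat_lit 221958305612) (nat_lit 1) (nat_lit 4) (nat_lit 2) (nat_lit 5) (nat_lit 2) (nat_lit 4) (nat_lit 242) (nat_lit 194) (nat_lit 164)) (XT.lf (nat_lit 0) (nat_lit 15590420809) (nat_lit 76) (nat_lit 256936258251) (nat_lit 76) (nat_lit 250305184145) (nat_lit 1) (nat_lit 4) (nat_lit 2) (nat_lit 5) (nat_lit 2) (nat_lit 4) (nat_lit 243) (nat_lit 194) (nat_lit 163))))) (XT.nd (nat_lit 234) (nat_lit 0) (nat_lit 0) (XT.nd (nat_lit 78) (nat_lit 0) (nat_lit 0) (XT.lf (nat_lit 0) (nat_lit 28318031492) (nat_lit 76) (nat_lit 289568007844) (nat_lit 76) (nat_lit 282925423465) (nat_lit 1) (nat_lit 4) (nat_lit 2) (nat_lit 5) (nat_lit 2) (nat_lit 4) (nat_lit 244) (nat_lit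 194) (nat_lit 162)) (XT.nd (nat_lit 78) (nat_lit 0) (nat_lit 0) (XT.lf (nat_lit 0) (nat_lit 42922309296) (nat_lit 76) (nat_lit 327109838957) (nat_lit 76) (nat_lit 320457245643) (nat_lit 1) (nat_lit 4) (nat_lit 2) (nat_lit 5) (nat_lit 2) (nat_lit 4) (nat_lit 245) (nat_lit 194) (nat_lit 161)) (XT.lf (nat_lit 0) (nat_lit 59688990092) (nat_lit 76) (nat_lit 370296265675) (nat_lit 76) (nat_lit 363634968941) (nat_lit 1) (nat_lit 4) (nat_lit 2) (nat_lit 5) (nat_lit 2) (nat_lit 4) (nat_lit 246) (nat_lit 194) (nat_lit 160)))) (XT.nd (nat_lit 78) (nat_lit 0) (nat_lit 0) (XT.lf (nat_lit 0) (nat_lit 78946117633) (nat_lit 76) (nat_lit 419972239827) (nat_lit 76) (nat_lit 413303374900) (nat_lit 1) (nat_lit 4) (nat_lit 2) (nat_lit 5) (nat_lit 2) (nat_lit 4) (nat_lit 247) (nat_lit 194) (nat_lit 159)) (XT.nd (nat_lit 78) (nat_lit 0) (nat_lit 0) (XT.lf (nat_lit 0) (nat_lit 101070461807) (nat_lit 76) (nat_lit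 477109682645) (nat_lit 76) (nat_lit 470434236682) (nat_lit 1) (nat_lit 4) (nat_lit 2) (nat_lit 5) (nat_lit 2) (nat_lit 4) (nat_lit 248) (nat_lit 194) (nat_lit 158)) (XT.lf (nat_lit 0) (nat_lit 126494890218) (nat_lit 76) (nat_lit 542826500619) (nat_lit 76) (nat_lit 536145332016) (nat_lit 1) (nat_lit 4) (nat_lit 2) (nat_lit 5) (nat_lit 2) (nat_lit 4) (nat_lit 249) (nat_lit 194) (nat_lit 157))))))) (XT.nd (nat_lit 780) (nat_lit 0) (nat_lit 0) (XT.nd (nat_lit 390) (nat_lit 0) (nat_lit 0) (XT.nd (nat_lit 156) (nat_lit 0) (nat_lit 0) (XT.nd (nat_lit 78) (nat_lit 0) (nat_lit 0) (XT.lf (nat_lit 0) (nat_lit 155716837334) (nat_lit 76) (nat_lit 618408457580) (nat_lit 76) (nat_lit 611722312768) (nat_lit 1) (nat_lit 4) (nat_lit 2) (nat_lit 5) (nat_lit 2) (nat_lit 4) (nat_lit 250) (nat_lit 194) (nat_lit 156)) (XT.lf (nat_lit 0) (nat_lit 189308036902) (nat_lit 76) (nat_lit 705334330947) (nat_lit 76)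 (nat_lit 698643858996) (nat_lit 1) (nat_lit 4) (nat_lit 2) (nat_lit 5) (nat_lit 2) (nat_lit 4) (nat_lit 251) (nat_lit 194) (nat_lit 155))) (XT.nd (nat_lit 78) (nat_lit 0) (nat_lit 0) (XT.lf (nat_lit 0) (nat_lit 227925708046) (nat_lit 76) (nat_lit 805304844328) (nat_lit 76) (nat_lit 798610609648) (nat_lit 1) (nat_lit 4) (nat_lit 2) (nat_lit 5) (nat_lit 2) (nat_lit 4) (nat_lit 252) (nat_lit 194) (nat_lit 154)) (XT.nd (nat_lit 78) (nat_lit 0) (nat_lit 0) (XT.lf (nat_lit 0) (nat_lit 272325413895) (nat_lit 76) (nat_lit 920275942550) (nat_lit 76) (nat_lit 913578435932) (nat_lit 1) (nat_lit 4) (nat_lit 2) (nat_lit 5) (nat_lit 2) (nat_lit 4) (nat_lit 253) (nat_lit 194) (nat_lit 153)) (XT.lf (nat_lit 0) (nat_lit 323375844348) (nat_lit 76) (nat_lit 1052497060144) (nat_lit 76) (nat_lit 1045796708363) (nat_lit 1) (nat_lit 4) (nat_lit 2) (nat_lit 5) (nat_lit 2) (nat_lit 4) (nat_lit 254) (nat_lit 194)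 (nat_lit 152))))) (XT.nd (nat_lit 156) (nat_lit 0) (nat_lit 0) (XT.nd (nat_lit 78) (nat_lit 0) (nat_lit 0) (XT.lf (nat_lit 0) (nat_lit 382075812174) (nat_lit 76) (nat_lit 1204555132020) (nat_lit 76) (nat_lit 1197852306183) (nat_lit 1) (nat_lit 4) (nat_lit 2) (nat_lit 5) (nat_lit 2) (nat_lit 4) (nat_lit 255) (nat_lit 194) (nat_lit 151)) (XT.lf (nat_lit 0) (nat_lit 449573795003) (nat_lit 76) (nat_lit 1379425207410) (nat_lit 76) (nat_lit 1372720230221) (nat_lit 1) (nat_lit 4) (nat_lit 2) (nat_lit 5) (nat_lit 2) (nat_lit 4) (nat_lit 256) (nat_lit 194) (nat_lit 150))) (XT.nd (nat_lit 78) (nat_lit 0) (nat_lit 0) (XT.lf (nat_lit 0) (nat_lit 527190405545) (nat_lit 76) (nat_lit 1580528657354) (nat_lit 76) (nat_lit 1573821809423) (nat_lit 1) (nat_lit 4) (nat_lit 2) (nat_lit 5) (nat_lit 2) (nat_lit 4) (nat_lit 257) (nat_lit 194) (nat_lit 149)) (XT.nd (nat_lit 78) (nat_lit 0) (nat_lit 0) (XT.lf (nat_lit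 0) (nat_lit 616444229657) (nat_lit 76) (nat_lit 1811800114568) (nat_lit 76) (nat_lit 1805091639906) (nat_lit 1) (nat_lit 4) (nat_lit 2) (nat_lit 5) (nat_lit 2) (nat_lit 4) (nat_lit 258) (nat_lit 194) (nat_lit 148)) (XT.lf (nat_lit 0) (nat_lit 719081537810) (nat_lit 76) (nat_lit 2077764455390) (nat_lit 76) (nat_lit 2071054566178) (nat_lit 1) (nat_lit 4) (nat_lit 2) (nat_lit 5) (nat_lit 2) (nat_lit 4) (nat_lit 259) (nat_lit 194) (nat_lit 147)))))) (XT.nd (nat_lit 27456) (nat_lit 0) (nat_lit 684) (XT.nd (nat_lit 156) (nat_lit 0) (nat_lit 0) (XT.nd (nat_lit 78) (nat_lit 0) (nat_lit 0) (XT.lf (nat_lit 0) (nat_lit 837110451252) (nat_lit 76) (nat_lit 2383625329965) (nat_lit 76) (nat_lit 2376914210710) (nat_lit 1) (nat_lit 4) (nat_lit 2) (nat_lit 5) (nat_lit 2) (nat_lit 4) (nat_lit 260) (nat_lit 194) (nat_lit 146)) (XT.lf (nat_lit 0) (nat_lit 972840231333) (nat_lit 76) (nat_lit 2735366972796)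 (nat_lit 76) (nat_lit 2728654783939) (nat_lit 1) (nat_lit 4) (nat_lit 2) (nat_lit 5) (nat_lit 2) (nat_lit 4) (nat_lit 261) (nat_lit 194) (nat_lit 145))) (XT.nd (nat_lit 78) (nat_lit 0) (nat_lit 0) (XT.lf (nat_lit 0) (nat_lit 1128926460705) (nat_lit 76) (nat_lit 3139871285591) (nat_lit 76) (nat_lit 3133158166645) (nat_lit 1) (nat_lit 4) (nat_lit 2) (nat_lit 5) (nat_lit 2) (nat_lit 4) (nat_lit 262) (nat_lit 194) (nat_lit 144)) (XT.nd (nat_lit 27144) (nat_lit 0) (nat_lit 1596) (XT.lf (nat_lit 0) (nat_lit 1308423000379) (nat_lit 76) (nat_lit 3605052483166) (nat_lit 76) (nat_lit 3598338555447) (nat_lit 1) (nat_lit 4) (nat_lit 2) (nat_lit 5) (nat_lit 2) (nat_lit 4) (nat_lit 263) (nat_lit 194) (nat_lit 143)) (XT.lf (nat_lit 0) (nat_lit 362826228) (nat_lit 152) (nat_lit 2143288715) (nat_lit 152) (nat_lit 2143288715) (nat_lit 22) (nat_lit 4) (nat_lit 24) (nat_lit 5) (nat_lit 24) (nat_lit 4) (nat_lit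 210) (nat_lit 195) (nat_lit 195))))) (XT.nd (nat_lit 234) (nat_lit 380) (nat_lit 0) (XT.nd (nat_lit 78) (nat_lit 304) (nat_lit 0) (XT.lf (nat_lit 0) (nat_lit 2054124056) (nat_lit 228) (nat_lit 7371623941) (nat_lit 0) (nat_lit 573191327) (nat_lit 19) (nat_lit 5) (nat_lit 22) (nat_lit 4) (nat_lit 19) (nat_lit 4) (nat_lit 211) (nat_lit 195) (nat_lit 194)) (XT.nd (nat_lit 78) (nat_lit 152) (nat_lit 0) (XT.lf (nat_lit 0) (nat_lit 4056998716) (nat_lit 152) (nat_lit 4765459681) (nat_lit 152) (nat_lit 1996759362) (nat_lit 17) (nat_lit 4) (nat_lit 19) (nat_lit 5) (nat_lit 19) (nat_lit 4) (nat_lit 212) (nat_lit 195) (nat_lit 193)) (XT.lf (nat_lit 0) (nat_lit 4260706857) (nat_lit 152) (nat_lit 6861488691) (nat_lit 0) (nat_lit 660245539) (nat_lit 15) (nat_lit 5) (nat_lit 17) (nat_lit 4) (nat_lit 15) (nat_lit 4) (nat_lit 213) (nat_lit 195) (nat_lit 192)))) (XT.nd (nat_lit 78) (nat_lit 228) (nat_lit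 0) (XT.lf (nat_lit 0) (nat_lit 4906796421) (nat_lit 152) (nat_lit 6248815715) (nat_lit 152) (nat_lit 1746745779) (nat_lit 13) (nat_lit 4) (nat_lit 15) (nat_lit 5) (nat_lit 15) (nat_lit 4) (nat_lit 214) (nat_lit 195) (nat_lit 191)) (XT.nd (nat_lit 78) (nat_lit 76) (nat_lit 0) (XT.lf (nat_lit 0) (nat_lit 3763922321) (nat_lit 76) (nat_lit 587039097) (nat_lit 152) (nat_lit 9855166157) (nat_lit 11) (nat_lit 5) (nat_lit 12) (nat_lit 5) (nat_lit 13) (nat_lit 4) (nat_lit 215) (nat_lit 195) (nat_lit 190)) (XT.lf (nat_lit 0) (nat_lit 1002614846) (nat_lit 76) (nat_lit 10118639119) (nat_lit 76) (nat_lit 4592877010) (nat_lit 10) (nat_lit 4) (nat_lit 11) (nat_lit 5) (nat_lit 11) (nat_lit 4) (nat_lit 216) (nat_lit 195) (nat_lit 189))))))))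
noncomputable def xc17 : XT := (XT.nd (nat_lit 1638) (nat_lit 76) (nat_lit 0) (XT.nd (nat_lit 780) (nat_lit 152) (nat_lit 0) (XT.nd (nat_lit 390) (nat_lit 152) (nat_lit 0) (XT.nd (nat_lit 156) (nat_lit 152) (nat_lit 0) (XT.nd (nat_lit 78) (nat_lit 76) (nat_lit 0) (XT.lf (nat_lit 0) (nat_lit 1203800140) (nat_lit 152) (nat_lit 3570767355) (nat_lit 76) (nat_lit 12686490664) (nat_lit 9) (nat_lit 5) (nat_lit 11) (nat_lit 5) (nat_lit 10) (nat_lit 4) (nat_lit 217) (nat_lit 195) (nat_lit 188)) (XT.lf (nat_lit 0) (nat_lit 7407388250) (nat_lit 152) (nat_lit 10728452311) (nat_lit 0) (nat_lit 1340736130) (nat_lit 8) (nat_lit 5) (nat_lit 10) (nat_lit 4) (nat_lit 8) (nat_lit 4) (nat_lit 218) (nat_lit 195) (nat_lit 187))) (XT.nd (nat_lit 78) (nat_lit 76) (nat_lit 0) (XT.lf (nat_lit 0) (nat_lit 506174392) (nat_lit 76) (nat_lit 13876332740) (nat_lit 76) (nat_lit 7425370923) (nat_lit 7) (nat_lit 4) (nat_lit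 8) (nat_lit 5) (nat_lit 8) (nat_lit 4) (nat_lit 219) (nat_lit 195) (nat_lit 186)) (XT.nd (nat_lit 78) (nat_lit 76) (nat_lit 0) (XT.lf (nat_lit 0) (nat_lit 13408043331) (nat_lit 76) (nat_lit 8935712576) (nat_lit 76) (nat_lit 2150568415) (nat_lit 7) (nat_lit 4) (nat_lit 8) (nat_lit 5) (nat_lit 8) (nat_lit 4) (nat_lit 220) (nat_lit 195) (nat_lit 185)) (XT.lf (nat_lit 0) (nat_lit 3386746761) (nat_lit 152) (nat_lit 31304240) (nat_lit 76) (nat_lit 24185294668) (nat_lit 6) (nat_lit 5) (nat_lit 8) (nat_lit 5) (nat_lit 7) (nat_lit 4) (nat_lit 221) (nat_lit 195) (nat_lit 184))))) (XT.nd (nat_lit 156) (nat_lit 76) (nat_lit 0) (XT.nd (nat_lit 78) (nat_lit 0) (nat_lit 0) (XT.lf (nat_lit 0) (nat_lit 9722238855) (nat_lit 152) (nat_lit 18508208453) (nat_lit 0) (nat_lit 2936657959) (nat_lit 5) (nat_lit 5) (nat_lit 7) (nat_lit 4) (nat_lit 5) (nat_lit 4) (nat_lit 222) (nat_lit 195) (nat_lit 183)) (XT.lf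 (nat_lit 0) (nat_lit 16835260007) (nat_lit 152) (nat_lit 8598156090) (nat_lit 0) (nat_lit 9846225114) (nat_lit 5) (nat_lit 5) (nat_lit 7) (nat_lit 4) (nat_lit 5) (nat_lit 4) (nat_lit 223) (nat_lit 195) (nat_lit 182))) (XT.nd (nat_lit 78) (nat_lit 0) (nat_lit 0) (XT.lf (nat_lit 0) (nat_lit 2494707865) (nat_lit 76) (nat_lit 22347250632) (nat_lit 76) (nat_lit 15181299221) (nat_lit 4) (nat_lit 4) (nat_lit 5) (nat_lit 5) (nat_lit 5) (nat_lit 4) (nat_lit 224) (nat_lit 195) (nat_lit 181)) (XT.nd (nat_lit 78) (nat_lit 0) (nat_lit 0) (XT.lf (nat_lit 0) (nat_lit 15379957657) (nat_lit 76) (nat_lit 18707750597) (nat_lit 76) (nat_lit 11387958735) (nat_lit 4) (nat_lit 4) (nat_lit 5) (nat_lit 5) (nat_lit 5) (nat_lit 4) (nat_lit 225) (nat_lit 195) (nat_lit 180)) (XT.lf (nat_lit 0) (nat_lit 29856932336) (nat_lit 76) (nat_lit 14678797207) (nat_lit 76) (nat_lit 7225231040) (nat_lit 4) (nat_lit 4) (nat_lit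 5) (nat_lit 5) (nat_lit 5) (nat_lit 4) (nat_lit 226) (nat_lit 195) (nat_lit 179)))))) (XT.nd (nat_lit 390) (nat_lit 0) (nat_lit 0) (XT.nd (nat_lit 156) (nat_lit 76) (nat_lit 0) (XT.nd (nat_lit 78) (nat_lit 76) (nat_lit 0) (XT.lf (nat_lit 0) (nat_lit 46208877060) (nat_lit 76) (nat_lit 10181563112) (nat_lit 76) (nat_lit 2611671462) (nat_lit 4) (nat_lit 4) (nat_lit 5) (nat_lit 5) (nat_lit 5) (nat_lit 4) (nat_lit 227) (nat_lit 195) (nat_lit 178)) (XT.lf (nat_lit 0) (nat_lit 2415774868) (nat_lit 152) (nat_lit 2646232517) (nat_lit 76) (nat_lit 62273894746) (nat_lit 3) (nat_lit 5) (nat_lit 5) (nat_lit 5) (nat_lit 4) (nat_lit 4) (nat_lit 228) (nat_lit 195) (nat_lit 177))) (XT.nd (nat_lit 78) (nat_lit 0) (nat_lit 0) (XT.lf (nat_lit 0) (nat_lit 8168067208) (nat_lit 152) (nat_lit 67752588107) (nat_lit 0) (nat_lit 983805151) (nat_lit 2) (nat_lit 5) (nat_lit 4) (nat_lit 4) (nat_lit 2) (nat_lit 4)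 (nat_lit 229) (nat_lit 195) (nat_lit 176)) (XT.nd (nat_lit 78) (nat_lit 0) (nat_lit 0) (XT.lf (nat_lit 0) (nat_lit 14886388958) (nat_lit 152) (nat_lit 65382487465) (nat_lit 0) (nat_lit 7631306630) (nat_lit 2) (nat_lit 5) (nat_lit 4) (nat_lit 4) (nat_lit 2) (nat_lit 4) (nat_lit 230) (nat_lit 195) (nat_lit 175)) (XT.lf (nat_lit 0) (nat_lit 22511710833) (nat_lit 152) (nat_lit 62846685076) (nat_lit 0) (nat_lit 15195045660) (nat_lit 2) (nat_lit 5) (nat_lit 4) (nat_lit 4) (nat_lit 2) (nat_lit 4) (nat_lit 231) (nat_lit 195) (nat_lit 174))))) (XT.nd (nat_lit 234) (nat_lit 0) (nat_lit 0) (XT.nd (nat_lit 78) (nat_lit 0) (nat_lit 0) (XT.lf (nat_lit 0) (nat_lit 31193223913) (nat_lit 152) (nat_lit 60095567418) (nat_lit 0) (nat_lit 23823008441) (nat_lit 2) (nat_lit 5) (nat_lit 4) (nat_lit 4) (nat_lit 2) (nat_lit 4) (nat_lit 232) (nat_lit 195) (nat_lit 173)) (XT.nd (nat_lit 78) (nat_lit 0) (nat_lit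 0) (XT.lf (nat_lit 0) (nat_lit 41100783888) (nat_lit 152) (nat_lit 57075308273) (nat_lit 0) (nat_lit 33684002938) (nat_lit 2) (nat_lit 5) (nat_lit 4) (nat_lit 4) (nat_lit 2) (nat_lit 4) (nat_lit 233) (nat_lit 195) (nat_lit 172)) (XT.lf (nat_lit 0) (nat_lit 52428234325) (nat_lit 152) (nat_lit 53726815616) (nat_lit 0) (nat_lit 44970961654) (nat_lit 2) (nat_lit 5) (nat_lit 4) (nat_lit 4) (nat_lit 2) (nat_lit 4) (nat_lit 234) (nat_lit 195) (nat_lit 171)))) (XT.nd (nat_lit 78) (nat_lit 0) (nat_lit 0) (XT.lf (nat_lit 0) (nat_lit 65397199251) (nat_lit 152) (nat_lit 49984575460) (nat_lit 0) (nat_lit 57904716390) (nat_lit 2) (nat_lit 5) (nat_lit 4) (nat_lit 4) (nat_lit 2) (nat_lit 4) (nat_lit 235) (nat_lit 195) (nat_lit 170)) (XT.nd (nat_lit 78) (nat_lit 0) (nat_lit 0) (XT.lf (nat_lit 0) (nat_lit 80261419287) (nat_lit 152) (nat_lit 45775370062) (nat_lit 0) (nat_lit 72738318868) (nat_lit 2) (nat_lit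 5) (nat_lit 4) (nat_lit 4) (nat_lit 2) (nat_lit 4) (nat_lit 236) (nat_lit 195) (nat_lit 169)) (XT.lf (nat_lit 0) (nat_lit 97311716128) (nat_lit 152) (nat_lit 41016845404) (nat_lit 0) (nat_lit 89761991745) (nat_lit 2) (nat_lit 5) (nat_lit 4) (nat_lit 4) (nat_lit 2) (nat_lit 4) (nat_lit 237) (nat_lit 195) (nat_lit 168))))))) (XT.nd (nat_lit 780) (nat_lit 0) (nat_lit 0) (XT.nd (nat_lit 390) (nat_lit 76) (nat_lit 0) (XT.nd (nat_lit 156) (nat_lit 0) (nat_lit 0) (XT.nd (nat_lit 78) (nat_lit 0) (nat_lit 0) (XT.lf (nat_lit 0) (nat_lit 116881682538) (nat_lit 152) (nat_lit 35615899917) (nat_lit 0) (nat_lit 109308806883) (nat_lit 2) (nat_lit 5) (nat_lit 4) (nat_lit 4) (nat_lit 2) (nat_lit 4) (nat_lit 238) (nat_lit 195) (nat_lit 167)) (XT.lf (nat_lit 0) (nat_lit 139354209165) (nat_lit 152) (nat_lit 29466862927) (nat_lit 0) (nat_lit 131761201969) (nat_lit 2) (nat_lit 5) (nat_lit 4) (nat_lit 4) (nat_lit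 2) (nat_lit 4) (nat_lit 239) (nat_lit 195) (nat_lit 166))) (XT.nd (nat_lit 78) (nat_lit 0) (nat_lit 0) (XT.lf (nat_lit 0) (nat_lit 165168975877) (nat_lit 152) (nat_lit 22449427190) (nat_lit 0) (nat_lit 157558462993) (nat_lit 2) (nat_lit 5) (nat_lit 4) (nat_lit 4) (nat_lit 2) (nat_lit 4) (nat_lit 240) (nat_lit 195) (nat_lit 165)) (XT.nd (nat_lit 78) (nat_lit 0) (nat_lit 0) (XT.lf (nat_lit 0) (nat_lit 194831054197) (nat_lit 152) (nat_lit 14426295050) (nat_lit 0) (nat_lit 187205318976) (nat_lit 2) (nat_lit 5) (nat_lit 4) (nat_lit 4) (nat_lit 2) (nat_lit 4) (nat_lit 241) (nat_lit 195) (nat_lit 164)) (XT.lf (nat_lit 0) (nat_lit 228920789136) (nat_lit 152) (nat_lit 5240492183) (nat_lit 0) (nat_lit 221281817099) (nat_lit 2) (nat_lit 5) (nat_lit 4) (nat_lit 4) (nat_lit 2) (nat_lit 4) (nat_lit 242) (nat_lit 195) (nat_lit 163))))) (XT.nd (nat_lit 156) (nat_lit 0) (nat_lit 0) (XT.nd (nat_lit 78)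 (nat_lit 0) (nat_lit 0) (XT.lf (nat_lit 0) (nat_lit 5566144745) (nat_lit 76) (nat_lit 262672874938) (nat_lit 76) (nat_lit 255022392627) (nat_lit 1) (nat_lit 4) (nat_lit 2) (nat_lit 5) (nat_lit 2) (nat_lit 4) (nat_lit 243) (nat_lit 195) (nat_lit 162)) (XT.lf (nat_lit 0) (nat_lit 18278651018) (nat_lit 76) (nat_lit 295311749684) (nat_lit 76) (nat_lit 287651258440) (nat_lit 1) (nat_lit 4) (nat_lit 2) (nat_lit 5) (nat_lit 2) (nat_lit 4) (nat_lit 244) (nat_lit 195) (nat_lit 161))) (XT.nd (nat_lit 78) (nat_lit 0) (nat_lit 0) (XT.lf (nat_lit 0) (nat_lit 32869794553) (nat_lit 76) (nat_lit 332859776582) (nat_lit 76) (nat_lit 325190581917) (nat_lit 1) (nat_lit 4) (nat_lit 2) (nat_lit 5) (nat_lit 2) (nat_lit 4) (nat_lit 245) (nat_lit 195) (nat_lit 160)) (XT.nd (nat_lit 78) (nat_lit 0) (nat_lit 0) (XT.lf (nat_lit 0) (nat_lit 49625054244) (nat_lit 76) (nat_lit 376051590941) (nat_lit 76) (nat_lit 368374828083)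 (nat_lit 1) (nat_lit 4) (nat_lit 2) (nat_lit 5) (nat_lit 2) (nat_lit 4) (nat_lit 246) (nat_lit 195) (nat_lit 159)) (XT.lf (nat_lit 0) (nat_lit 68872250391) (nat_lit 76) (nat_lit 425732249996) (nat_lit 76) (nat_lit 418048906103) (nat_lit 1) (nat_lit 4) (nat_lit 2) (nat_lit 5) (nat_lit 2) (nat_lit 4) (nat_lit 247) (nat_lit 195) (nat_lit 158)))))) (XT.nd (nat_lit 390) (nat_lit 0) (nat_lit 0) (XT.nd (nat_lit 156) (nat_lit 0) (nat_lit 0) (XT.nd (nat_lit 78) (nat_lit 0) (nat_lit 0) (XT.lf (nat_lit 0) (nat_lit 90987958570) (nat_lit 76) (nat_lit 482873766644) (nat_lit 76) (nat_lit 475184700110) (nat_lit 1) (nat_lit 4) (nat_lit 2) (nat_lit 5) (nat_lit 2) (nat_lit 4) (nat_lit 248) (nat_lit 195) (nat_lit 157)) (XT.lf (nat_lit 0) (nat_lit 116404877420) (nat_lit 76) (nat_lit 548594127079) (nat_lit 76) (nat_lit 540900084336) (nat_lit 1) (nat_lit 4) (nat_lit 2) (nat_lit 5) (nat_lit 2) (nat_lit 4) (nat_lit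 249) (nat_lit 195) (nat_lit 156))) (XT.nd (nat_lit 78) (nat_lit 0) (nat_lit 0) (XT.lf (nat_lit 0) (nat_lit 145620294482) (nat_lit 76) (nat_lit 624179164441) (nat_lit 76) (nat_lit 616480794559) (nat_lit 1) (nat_lit 4) (nat_lit 2) (nat_lit 5) (nat_lit 2) (nat_lit 4) (nat_lit 250) (nat_lit 195) (nat_lit 155)) (XT.nd (nat_lit 78) (nat_lit 0) (nat_lit 0) (XT.lf (nat_lit 0) (nat_lit 179205815743) (nat_lit 76) (nat_lit 711107716416) (nat_lit 76) (nat_lit 703405583806) (nat_lit 1) (nat_lit 4) (nat_lit 2) (nat_lit 5) (nat_lit 2) (nat_lit 4) (nat_lit 251) (nat_lit 195) (nat_lit 154)) (XT.lf (nat_lit 0) (nat_lit 217818549229) (nat_lit 76) (nat_lit 811080559022) (nat_lit 76) (nat_lit 803375154474) (nat_lit 1) (nat_lit 4) (nat_lit 2) (nat_lit 5) (nat_lit 2) (nat_lit 4) (nat_lit 252) (nat_lit 195) (nat_lit 153))))) (XT.nd (nat_lit 234) (nat_lit 0) (nat_lit 0) (XT.nd (nat_lit 78) (nat_lit 0) (nat_lit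 0) (XT.lf (nat_lit 0) (nat_lit 262213961462) (nat_lit 76) (nat_lit 926053682658) (nat_lit 76) (nat_lit 918345432946) (nat_lit 1) (nat_lit 4) (nat_lit 2) (nat_lit 5) (nat_lit 2) (nat_lit 4) (nat_lit 253) (nat_lit 195) (nat_lit 152)) (XT.nd (nat_lit 78) (nat_lit 0) (nat_lit 0) (XT.lf (nat_lit 0) (nat_lit 313260658336) (nat_lit 76) (nat_lit 1058276561482) (nat_lit 76) (nat_lit 1050565837714) (nat_lit 1) (nat_lit 4) (nat_lit 2) (nat_lit 5) (nat_lit 2) (nat_lit 4) (nat_lit 254) (nat_lit 195) (nat_lit 151)) (XT.lf (nat_lit 0) (nat_lit 371957379571) (nat_lit 76) (nat_lit 1210336164861) (nat_lit 76) (nat_lit 1202623289741) (nat_lit 1) (nat_lit 4) (nat_lit 2) (nat_lit 5) (nat_lit 2) (nat_lit 4) (nat_lit 255) (nat_lit 195) (nat_lit 150)))) (XT.nd (nat_lit 78) (nat_lit 0) (nat_lit 0) (XT.lf (nat_lit 0) (nat_lit 439452539279) (nat_lit 76) (nat_lit 1385207571993) (nat_lit 76) (nat_lit 1377492826131)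 (nat_lit 1) (nat_lit 4) (nat_lit 2) (nat_lit 5) (nat_lit 2) (nat_lit 4) (nat_lit 256) (nat_lit 195) (nat_lit 149)) (XT.nd (nat_lit 78) (nat_lit 0) (nat_lit 0) (XT.lf (nat_lit 0) (nat_lit 517066694931) (nat_lit 76) (nat_lit 1586312179973) (nat_lit 76) (nat_lit 1578595807380) (nat_lit 1) (nat_lit 4) (nat_lit 2) (nat_lit 5) (nat_lit 2) (nat_lit 4) (nat_lit 257) (nat_lit 195) (nat_lit 148)) (XT.lf (nat_lit 0) (nat_lit 606318384357) (nat_lit 76) (nat_lit 1817584644176) (nat_lit 76) (nat_lit 1809866857034) (nat_lit 1) (nat_lit 4) (nat_lit 2) (nat_lit 5) (nat_lit 2) (nat_lit 4) (nat_lit 258) (nat_lit 195) (nat_lit 147))))))))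
noncomputable def xc18 : XT := (XT.nd (nat_lit 28626) (nat_lit 0) (nat_lit 0) (XT.nd (nat_lit 27768) (nat_lit 0) (nat_lit 304) (XT.nd (nat_lit 27378) (nat_lit 0) (nat_lit 1064) (XT.nd (nat_lit 156) (nat_lit 0) (nat_lit 0) (XT.nd (nat_lit 78) (nat_lit 0) (nat_lit 0) (XT.lf (nat_lit 0) (nat_lit 708953836262) (nat_lit 76) (nat_lit 2083549860640) (nat_lit 76) (nat_lit 2075830843454) (nat_lit 1) (nat_lit 4) (nat_lit 2) (nat_lit 5) (nat_lit 2) (nat_lit 4) (nat_lit 259) (nat_lit 195) (nat_lit 146)) (XT.lf (nat_lit 0) (nat_lit 826981135575) (nat_lit 76) (nat_lit 2389411496643) (nat_lit 76) (nat_lit 2381691409855) (nat_lit 1) (nat_lit 4) (nat_lit 2) (nat_lit 5) (nat_lit 2) (nat_lit 4) (nat_lit 260) (nat_lit 195) (nat_lit 145))) (XT.nd (nat_lit 78) (nat_lit 0) (nat_lit 0) (XT.lf (nat_lit 0) (nat_lit 962709512064) (nat_lit 76) (nat_lit 2741153801585) (nat_lit 76) (nat_lit 2733432784708) (nat_lit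 1) (nat_lit 4) (nat_lit 2) (nat_lit 5) (nat_lit 2) (nat_lit 4) (nat_lit 261) (nat_lit 195) (nat_lit 144)) (XT.nd (nat_lit 27066) (nat_lit 0) (nat_lit 2204) (XT.lf (nat_lit 0) (nat_lit 1118794520923) (nat_lit 76) (nat_lit 3145658690129) (nat_lit 76) (nat_lit 3137936864479) (nat_lit 1) (nat_lit 4) (nat_lit 2) (nat_lit 5) (nat_lit 2) (nat_lit 4) (nat_lit 262) (nat_lit 195) (nat_lit 143)) (XT.lf (nat_lit 0) (nat_lit 1301208030) (nat_lit 228) (nat_lit 1493624261) (nat_lit 0) (nat_lit 1301208030) (nat_lit 30) (nat_lit 5) (nat_lit 33) (nat_lit 4) (nat_lit 30) (nat_lit 4) (nat_lit 208) (nat_lit 196) (nat_lit 196))))) (XT.nd (nat_lit 156) (nat_lit 532) (nat_lit 0) (XT.nd (nat_lit 78) (nat_lit 304) (nat_lit 0) (XT.lf (nat_lit 0) (nat_lit 330890399) (nat_lit 304) (nat_lit 1298211893) (nat_lit 76) (nat_lit 7083976411) (nat_lit 26) (nat_lit 5) (nat_lit 30) (nat_lit 5) (nat_lit 27) (nat_lit 4) (nat_lit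 209) (nat_lit 196) (nat_lit 195)) (XT.lf (nat_lit 0) (nat_lit 192221174) (nat_lit 152) (nat_lit 6288211445) (nat_lit 152) (nat_lit 2849485650) (nat_lit 22) (nat_lit 4) (nat_lit 24) (nat_lit 5) (nat_lit 24) (nat_lit 4) (nat_lit 210) (nat_lit 196) (nat_lit 194))) (XT.nd (nat_lit 78) (nat_lit 304) (nat_lit 0) (XT.lf (nat_lit 0) (nat_lit 1504433548) (nat_lit 152) (nat_lit 1540733923) (nat_lit 228) (nat_lit 7013195259) (nat_lit 19) (nat_lit 5) (nat_lit 21) (nat_lit 5) (nat_lit 22) (nat_lit 4) (nat_lit 211) (nat_lit 196) (nat_lit 193)) (XT.nd (nat_lit 78) (nat_lit 152) (nat_lit 0) (XT.lf (nat_lit 0) (nat_lit 2363854881) (nat_lit 152) (nat_lit 7068905901) (nat_lit 152) (nat_lit 1477335040) (nat_lit 17) (nat_lit 4) (nat_lit 19) (nat_lit 5) (nat_lit 19) (nat_lit 4) (nat_lit 212) (nat_lit 196) (nat_lit 192)) (XT.lf (nat_lit 0) (nat_lit 2585123023) (nat_lit 76) (nat_lit 1814122741) (nat_lit 152)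 (nat_lit 7502267579) (nat_lit 15) (nat_lit 5) (nat_lit 16) (nat_lit 5) (nat_lit 17) (nat_lit 4) (nat_lit 213) (nat_lit 196) (nat_lit 191)))))) (XT.nd (nat_lit 390) (nat_lit 228) (nat_lit 0) (XT.nd (nat_lit 156) (nat_lit 228) (nat_lit 0) (XT.nd (nat_lit 78) (nat_lit 152) (nat_lit 0) (XT.lf (nat_lit 0) (nat_lit 1926531549) (nat_lit 152) (nat_lit 8994231546) (nat_lit 152) (nat_lit 2131235007) (nat_lit 13) (nat_lit 4) (nat_lit 15) (nat_lit 5) (nat_lit 15) (nat_lit 4) (nat_lit 214) (nat_lit 196) (nat_lit 190)) (XT.lf (nat_lit 0) (nat_lit 60419808) (nat_lit 76) (nat_lit 3595908073) (nat_lit 152) (nat_lit 10727090988) (nat_lit 11) (nat_lit 5) (nat_lit 12) (nat_lit 5) (nat_lit 13) (nat_lit 4) (nat_lit 215) (nat_lit 196) (nat_lit 189))) (XT.nd (nat_lit 78) (nat_lit 228) (nat_lit 0) (XT.lf (nat_lit 0) (nat_lit 10108911245) (nat_lit 152) (nat_lit 3234286367) (nat_lit 0) (nat_lit 2574129311) (nat_lit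 11) (nat_lit 5) (nat_lit 13) (nat_lit 4) (nat_lit 11) (nat_lit 4) (nat_lit 216) (nat_lit 196) (nat_lit 188)) (XT.nd (nat_lit 78) (nat_lit 152) (nat_lit 0) (XT.lf (nat_lit 0) (nat_lit 9169698466) (nat_lit 76) (nat_lit 8266059705) (nat_lit 76) (nat_lit 253965128) (nat_lit 10) (nat_lit 4) (nat_lit 11) (nat_lit 5) (nat_lit 11) (nat_lit 4) (nat_lit 217) (nat_lit 196) (nat_lit 187)) (XT.lf (nat_lit 0) (nat_lit 3254049548) (nat_lit 76) (nat_lit 2361911315) (nat_lit 152) (nat_lit 14117820524) (nat_lit 8) (nat_lit 5) (nat_lit 9) (nat_lit 5) (nat_lit 10) (nat_lit 4) (nat_lit 218) (nat_lit 196) (nat_lit 186))))) (XT.nd (nat_lit 234) (nat_lit 76) (nat_lit 0) (XT.nd (nat_lit 78) (nat_lit 152) (nat_lit 0) (XT.lf (nat_lit 0) (nat_lit 12356321441) (nat_lit 152) (nat_lit 5508615717) (nat_lit 0) (nat_lit 4219223311) (nat_lit 8) (nat_lit 5) (nat_lit 10) (nat_lit 4) (nat_lit 8) (nat_lit 4) (nat_lit 219)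 (nat_lit 196) (nat_lit 185)) (XT.nd (nat_lit 78) (nat_lit 76) (nat_lit 0) (XT.lf (nat_lit 0) (nat_lit 6833155315) (nat_lit 76) (nat_lit 13194304995) (nat_lit 76) (nat_lit 4766613522) (nat_lit 7) (nat_lit 4) (nat_lit 8) (nat_lit 5) (nat_lit 8) (nat_lit 4) (nat_lit 220) (nat_lit 196) (nat_lit 184)) (XT.lf (nat_lit 0) (nat_lit 766949710) (nat_lit 152) (nat_lit 7085125939) (nat_lit 76) (nat_lit 20067030150) (nat_lit 6) (nat_lit 5) (nat_lit 8) (nat_lit 5) (nat_lit 7) (nat_lit 4) (nat_lit 221) (nat_lit 196) (nat_lit 183)))) (XT.nd (nat_lit 78) (nat_lit 0) (nat_lit 0) (XT.lf (nat_lit 0) (nat_lit 5092319248) (nat_lit 76) (nat_lit 1634810992) (nat_lit 152) (nat_lit 24785940931) (nat_lit 5) (nat_lit 5) (nat_lit 6) (nat_lit 5) (nat_lit 7) (nat_lit 4) (nat_lit 222) (nat_lit 196) (nat_lit 182)) (XT.nd (nat_lit 78) (nat_lit 0) (nat_lit 0) (XT.lf (nat_lit 0) (nat_lit 13692334791) (nat_lit 152) (nat_lit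 16670680760) (nat_lit 0) (nat_lit 5274574150) (nat_lit 5) (nat_lit 5) (nat_lit 7) (nat_lit 4) (nat_lit 5) (nat_lit 4) (nat_lit 223) (nat_lit 196) (nat_lit 181)) (XT.lf (nat_lit 0) (nat_lit 21544688231) (nat_lit 152) (nat_lit 5875915189) (nat_lit 0) (nat_lit 12973087139) (nat_lit 5) (nat_lit 5) (nat_lit 7) (nat_lit 4) (nat_lit 5) (nat_lit 4) (nat_lit 224) (nat_lit 196) (nat_lit 180))))))) (XT.nd (nat_lit 780) (nat_lit 76) (nat_lit 0) (XT.nd (nat_lit 390) (nat_lit 76) (nat_lit 0) (XT.nd (nat_lit 156) (nat_lit 76) (nat_lit 0) (XT.nd (nat_lit 78) (nat_lit 0) (nat_lit 0) (XT.lf (nat_lit 0) (nat_lit 6541285562) (nat_lit 76) (nat_lit 24014538832) (nat_lit 76) (nat_lit 15309163434) (nat_lit 4) (nat_lit 4) (nat_lit 5) (nat_lit 5) (nat_lit 5) (nat_lit 4) (nat_lit 225) (nat_lit 196) (nat_lit 179)) (XT.lf (nat_lit 0) (nat_lit 20880317842) (nat_lit 76) (nat_lit 20048870234) (nat_lit 76) (nat_lit 11227169354)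 (nat_lit 4) (nat_lit 4) (nat_lit 5) (nat_lit 5) (nat_lit 5) (nat_lit 4) (nat_lit 226) (nat_lit 196) (nat_lit 178))) (XT.nd (nat_lit 78) (nat_lit 76) (nat_lit 0) (XT.lf (nat_lit 0) (nat_lit 37112312654) (nat_lit 76) (nat_lit 15606666394) (nat_lit 76) (nat_lit 6683812921) (nat_lit 4) (nat_lit 4) (nat_lit 5) (nat_lit 5) (nat_lit 5) (nat_lit 4) (nat_lit 227) (nat_lit 196) (nat_lit 177)) (XT.nd (nat_lit 78) (nat_lit 76) (nat_lit 0) (XT.lf (nat_lit 0) (nat_lit 55554852503) (nat_lit 76) (nat_lit 10601014628) (nat_lit 76) (nat_lit 1590202378) (nat_lit 4) (nat_lit 4) (nat_lit 5) (nat_lit 5) (nat_lit 5) (nat_lit 4) (nat_lit 228) (nat_lit 196) (nat_lit 176)) (XT.lf (nat_lit 0) (nat_lit 3945553991) (nat_lit 152) (nat_lit 880545842) (nat_lit 76) (nat_lit 72515337262) (nat_lit 3) (nat_lit 5) (nat_lit 5) (nat_lit 5) (nat_lit 4) (nat_lit 4) (nat_lit 229) (nat_lit 196) (nat_lit 175))))) (XT.nd (nat_lit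 156) (nat_lit 0) (nat_lit 0) (XT.nd (nat_lit 78) (nat_lit 0) (nat_lit 0) (XT.lf (nat_lit 0) (nat_lit 10478077004) (nat_lit 152) (nat_lit 75871672105) (nat_lit 0) (nat_lit 2002329211) (nat_lit 2) (nat_lit 5) (nat_lit 4) (nat_lit 4) (nat_lit 2) (nat_lit 4) (nat_lit 230) (nat_lit 196) (nat_lit 174)) (XT.lf (nat_lit 0) (nat_lit 18062651402) (nat_lit 152) (nat_lit 73412639525) (nat_lit 0) (nat_lit 9533353309) (nat_lit 2) (nat_lit 5) (nat_lit 4) (nat_lit 4) (nat_lit 2) (nat_lit 4) (nat_lit 231) (nat_lit 196) (nat_lit 173))) (XT.nd (nat_lit 78) (nat_lit 0) (nat_lit 0) (XT.lf (nat_lit 0) (nat_lit 26708731893) (nat_lit 152) (nat_lit 70728278221) (nat_lit 0) (nat_lit 18132868322) (nat_lit 2) (nat_lit 5) (nat_lit 4) (nat_lit 4) (nat_lit 2) (nat_lit 4) (nat_lit 232) (nat_lit 196) (nat_lit 172)) (XT.nd (nat_lit 78) (nat_lit 0) (nat_lit 0) (XT.lf (nat_lit 0) (nat_lit 36585480922) (nat_lit 152) (nat_lit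 67766068081) (nat_lit 0) (nat_lit 27969125631) (nat_lit 2) (nat_lit 5) (nat_lit 4) (nat_lit 4) (nat_lit 2) (nat_lit 4) (nat_lit 233) (nat_lit 196) (nat_lit 171)) (XT.lf (nat_lit 0) (nat_lit 47886139230) (nat_lit 152) (nat_lit 64468052819) (nat_lit 0) (nat_lit 39234573748) (nat_lit 2) (nat_lit 5) (nat_lit 4) (nat_lit 4) (nat_lit 2) (nat_lit 4) (nat_lit 234) (nat_lit 196) (nat_lit 170)))))) (XT.nd (nat_lit 390) (nat_lit 76) (nat_lit 0) (XT.nd (nat_lit 156) (nat_lit 0) (nat_lit 0) (XT.nd (nat_lit 78) (nat_lit 0) (nat_lit 0) (XT.lf (nat_lit 0) (nat_lit 60831806654) (nat_lit 152) (nat_lit 60769706050) (nat_lit 0) (nat_lit 52149623615) (nat_lit 2) (nat_lit 5) (nat_lit 4) (nat_lit 4) (nat_lit 2) (nat_lit 4) (nat_lit 235) (nat_lit 196) (nat_lit 169)) (XT.lf (nat_lit 0) (nat_lit 75675767992) (nat_lit 152) (nat_lit 56598668814) (nat_lit 0) (nat_lit 66966960989) (nat_lit 2) (nat_lit 5) (nat_lit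 4) (nat_lit 4) (nat_lit 2) (nat_lit 4) (nat_lit 236) (nat_lit 196) (nat_lit 168))) (XT.nd (nat_lit 78) (nat_lit 0) (nat_lit 0) (XT.lf (nat_lit 0) (nat_lit 92708448574) (nat_lit 152) (nat_lit 51873333863) (nat_lit 0) (nat_lit 83976490299) (nat_lit 2) (nat_lit 5) (nat_lit 4) (nat_lit 4) (nat_lit 2) (nat_lit 4) (nat_lit 237) (nat_lit 196) (nat_lit 167)) (XT.nd (nat_lit 78) (nat_lit 0) (nat_lit 0) (XT.lf (nat_lit 0) (nat_lit 112263096498) (nat_lit 152) (nat_lit 46501248990) (nat_lit 0) (nat_lit 103511006682) (nat_lit 2) (nat_lit 5) (nat_lit 4) (nat_lit 4) (nat_lit 2) (nat_lit 4) (nat_lit 238) (nat_lit 196) (nat_lit 166)) (XT.lf (nat_lit 0) (nat_lit 134722302702) (nat_lit 152) (nat_lit 40377308187) (nat_lit 0) (nat_lit 125952707198) (nat_lit 2) (nat_lit 5) (nat_lit 4) (nat_lit 4) (nat_lit 2) (nat_lit 4) (nat_lit 239) (nat_lit 196) (nat_lit 165))))) (XT.nd (nat_lit 234) (nat_lit 76) (nat_lit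 0) (XT.nd (nat_lit 78) (nat_lit 0) (nat_lit 0) (XT.lf (nat_lit 0) (nat_lit 160525486438) (nat_lit 152) (nat_lit 33381695221) (nat_lit 0) (nat_lit 151740668596) (nat_lit 2) (nat_lit 5) (nat_lit 4) (nat_lit 4) (nat_lit 2) (nat_lit 4) (nat_lit 240) (nat_lit 196) (nat_lit 164)) (XT.nd (nat_lit 78) (nat_lit 0) (nat_lit 0) (XT.lf (nat_lit 0) (nat_lit 190177492605) (nat_lit 152) (nat_lit 25377539404) (nat_lit 0) (nat_lit 181379437948) (nat_lit 2) (nat_lit 5) (nat_lit 4) (nat_lit 4) (nat_lit 2) (nat_lit 4) (nat_lit 241) (nat_lit 196) (nat_lit 163)) (XT.lf (nat_lit 0) (nat_lit 224258469150) (nat_lit 152) (nat_lit 16208237686) (nat_lit 0) (nat_lit 215448904219) (nat_lit 2) (nat_lit 5) (nat_lit 4) (nat_lit 4) (nat_lit 2) (nat_lit 4) (nat_lit 242) (nat_lit 196) (nat_lit 162)))) (XT.nd (nat_lit 78) (nat_lit 76) (nat_lit 0) (XT.lf (nat_lit 0) (nat_lit 263435217787) (nat_lit 152) (nat_lit 5694390687)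 (nat_lit 0) (nat_lit 254615643922) (nat_lit 2) (nat_lit 5) (nat_lit 4) (nat_lit 4) (nat_lit 2) (nat_lit 4) (nat_lit 243) (nat_lit 196) (nat_lit 161)) (XT.nd (nat_lit 78) (nat_lit 0) (nat_lit 0) (XT.lf (nat_lit 0) (nat_lit 6705124794) (nat_lit 76) (nat_lit 301930373740) (nat_lit 76) (nat_lit 293102096454) (nat_lit 1) (nat_lit 4) (nat_lit 2) (nat_lit 5) (nat_lit 2) (nat_lit 4) (nat_lit 244) (nat_lit 196) (nat_lit 160)) (XT.lf (nat_lit 0) (nat_lit 21284847224) (nat_lit 76) (nat_lit 339483788278) (nat_lit 76) (nat_lit 330647942800) (nat_lit 1) (nat_lit 4) (nat_lit 2) (nat_lit 5) (nat_lit 2) (nat_lit 4) (nat_lit 245) (nat_lit 196) (nat_lit 159))))))))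
noncomputable def xc19 : XT := (XT.nd (nat_lit 28470) (nat_lit 0) (nat_lit 76) (XT.nd (nat_lit 780) (nat_lit 0) (nat_lit 0) (XT.nd (nat_lit 390) (nat_lit 0) (nat_lit 0) (XT.nd (nat_lit 156) (nat_lit 0) (nat_lit 0) (XT.nd (nat_lit 78) (nat_lit 0) (nat_lit 0) (XT.lf (nat_lit 0) (nat_lit 38030175521) (nat_lit 76) (nat_lit 382680287540) (nat_lit 76) (nat_lit 373837861026) (nat_lit 1) (nat_lit 4) (nat_lit 2) (nat_lit 5) (nat_lit 2) (nat_lit 4) (nat_lit 246) (nat_lit 196) (nat_lit 158)) (XT.lf (nat_lit 0) (nat_lit 57268735673) (nat_lit 76) (nat_lit 432365020425) (nat_lit 76) (nat_lit 423516871270) (nat_lit 1) (nat_lit 4) (nat_lit 2) (nat_lit 5) (nat_lit 2) (nat_lit 4) (nat_lit 247) (nat_lit 196) (nat_lit 157))) (XT.nd (nat_lit 78) (nat_lit 0) (nat_lit 0) (XT.lf (nat_lit 0) (nat_lit 79376934291) (nat_lit 76) (nat_lit 489510079533) (nat_lit 76) (nat_lit 480656954170) (nat_lit 1) (nat_lit 4) (nat_lit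 2) (nat_lit 5) (nat_lit 2) (nat_lit 4) (nat_lit 248) (nat_lit 196) (nat_lit 156)) (XT.nd (nat_lit 78) (nat_lit 0) (nat_lit 0) (XT.lf (nat_lit 0) (nat_lit 104787323087) (nat_lit 76) (nat_lit 555233520369) (nat_lit 76) (nat_lit 546376067867) (nat_lit 1) (nat_lit 4) (nat_lit 2) (nat_lit 5) (nat_lit 2) (nat_lit 4) (nat_lit 249) (nat_lit 196) (nat_lit 155)) (XT.lf (nat_lit 0) (nat_lit 133997061842) (nat_lit 76) (nat_lit 630821236340) (nat_lit 76) (nat_lit 621960021109) (nat_lit 1) (nat_lit 4) (nat_lit 2) (nat_lit 5) (nat_lit 2) (nat_lit 4) (nat_lit 250) (nat_lit 196) (nat_lit 154))))) (XT.nd (nat_lit 156) (nat_lit 0) (nat_lit 0) (XT.nd (nat_lit 78) (nat_lit 0) (nat_lit 0) (XT.lf (nat_lit 0) (nat_lit 167577645445) (nat_lit 76) (nat_lit 717752117541) (nat_lit 76) (nat_lit 708887630371) (nat_lit 1) (nat_lit 4) (nat_lit 2) (nat_lit 5) (nat_lit 2) (nat_lit 4) (nat_lit 251) (nat_lit 196) (nat_lit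 153)) (XT.lf (nat_lit 0) (nat_lit 206186085315) (nat_lit 76) (nat_lit 817726985560) (nat_lit 76) (nat_lit 808859653227) (nat_lit 1) (nat_lit 4) (nat_lit 2) (nat_lit 5) (nat_lit 2) (nat_lit 4) (nat_lit 252) (nat_lit 196) (nat_lit 152))) (XT.nd (nat_lit 78) (nat_lit 0) (nat_lit 0) (XT.lf (nat_lit 0) (nat_lit 250577763969) (nat_lit 76) (nat_lit 932701870425) (nat_lit 76) (nat_lit 923832064036) (nat_lit 1) (nat_lit 4) (nat_lit 2) (nat_lit 5) (nat_lit 2) (nat_lit 4) (nat_lit 253) (nat_lit 196) (nat_lit 151)) (XT.nd (nat_lit 78) (nat_lit 0) (nat_lit 0) (XT.lf (nat_lit 0) (nat_lit 301621214252) (nat_lit 76) (nat_lit 1064926280752) (nat_lit 76) (nat_lit 1056054323011) (nat_lit 1) (nat_lit 4) (nat_lit 2) (nat_lit 5) (nat_lit 2) (nat_lit 4) (nat_lit 254) (nat_lit 196) (nat_lit 150)) (XT.lf (nat_lit 0) (nat_lit 360315112365) (nat_lit 76) (nat_lit 1216987215873) (nat_lit 76) (nat_lit 1208113387391)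 (nat_lit 1) (nat_lit 4) (nat_lit 2) (nat_lit 5) (nat_lit 2) (nat_lit 4) (nat_lit 255) (nat_lit 196) (nat_lit 149)))))) (XT.nd (nat_lit 390) (nat_lit 0) (nat_lit 0) (XT.nd (nat_lit 156) (nat_lit 0) (nat_lit 0) (XT.nd (nat_lit 78) (nat_lit 0) (nat_lit 0) (XT.lf (nat_lit 0) (nat_lit 427807817184) (nat_lit 76) (nat_lit 1391859781042) (nat_lit 76) (nat_lit 1382984325828) (nat_lit 1) (nat_lit 4) (nat_lit 2) (nat_lit 5) (nat_lit 2) (nat_lit 4) (nat_lit 256) (nat_lit 196) (nat_lit 148)) (XT.lf (nat_lit 0) (nat_lit 505419838151) (nat_lit 76) (nat_lit 1592965396011) (nat_lit 76) (nat_lit 1584088526248) (nat_lit 1) (nat_lit 4) (nat_lit 2) (nat_lit 5) (nat_lit 2) (nat_lit 4) (nat_lit 257) (nat_lit 196) (nat_lit 147))) (XT.nd (nat_lit 78) (nat_lit 0) (nat_lit 0) (XT.lf (nat_lit 0) (nat_lit 594669671328) (nat_lit 76) (nat_lit 1824238735856) (nat_lit 76) (nat_lit 1815360636050) (nat_lit 1) (nat_lit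 4) (nat_lit 2) (nat_lit 5) (nat_lit 2) (nat_lit 4) (nat_lit 258) (nat_lit 196) (nat_lit 146)) (XT.nd (nat_lit 78) (nat_lit 0) (nat_lit 0) (XT.lf (nat_lit 0) (nat_lit 697303509103) (nat_lit 76) (nat_lit 2090204713747) (nat_lit 76) (nat_lit 2081325544339) (nat_lit 1) (nat_lit 4) (nat_lit 2) (nat_lit 5) (nat_lit 2) (nat_lit 4) (nat_lit 259) (nat_lit 196) (nat_lit 145)) (XT.lf (nat_lit 0) (nat_lit 815329404825) (nat_lit 76) (nat_lit 2396067011861) (nat_lit 76) (nat_lit 2387186912364) (nat_lit 1) (nat_lit 4) (nat_lit 2) (nat_lit 5) (nat_lit 2) (nat_lit 4) (nat_lit 260) (nat_lit 196) (nat_lit 144))))) (XT.nd (nat_lit 27066) (nat_lit 0) (nat_lit 1900) (XT.nd (nat_lit 78) (nat_lit 0) (nat_lit 0) (XT.lf (nat_lit 0) (nat_lit 951056560802) (nat_lit 76) (nat_lit 2747809892552) (nat_lit 76) (nat_lit 2738928984282) (nat_lit 1) (nat_lit 4) (nat_lit 2) (nat_lit 5) (nat_lit 2) (nat_lit 4) (nat_lit 261)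 (nat_lit 196) (nat_lit 143)) (XT.nd (nat_lit 26910) (nat_lit 0) (nat_lit 2660) (XT.lf (nat_lit 0) (nat_lit 1107140508344) (nat_lit 76) (nat_lit 3152315281748) (nat_lit 76) (nat_lit 3143433670196) (nat_lit 1) (nat_lit 4) (nat_lit 2) (nat_lit 5) (nat_lit 2) (nat_lit 4) (nat_lit 262) (nat_lit 196) (nat_lit 142)) (XT.lf (nat_lit 0) (nat_lit 369906107) (nat_lit 532) (nat_lit 2958088387) (nat_lit 0) (nat_lit 369906107) (nat_lit 36) (nat_lit 5) (nat_lit 43) (nat_lit 4) (nat_lit 36) (nat_lit 4) (nat_lit 206) (nat_lit 197) (nat_lit 197)))) (XT.nd (nat_lit 78) (nat_lit 532) (nat_lit 0) (XT.lf (nat_lit 0) (nat_lit 3064375436) (nat_lit 228) (nat_lit 3584455904) (nat_lit 228) (nat_lit 1117267709) (nat_lit 33) (nat_lit 4) (nat_lit 36) (nat_lit 5) (nat_lit 36) (nat_lit 4) (nat_lit 207) (nat_lit 197) (nat_lit 196)) (XT.nd (nat_lit 78) (nat_lit 304) (nat_lit 0) (XT.lf (nat_lit 0) (nat_lit 4515250796)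 (nat_lit 228) (nat_lit 3463970136) (nat_lit 0) (nat_lit 244353358) (nat_lit 30) (nat_lit 5) (nat_lit 33) (nat_lit 4) (nat_lit 30) (nat_lit 4) (nat_lit 208) (nat_lit 197) (nat_lit 195)) (XT.lf (nat_lit 0) (nat_lit 1761988556) (nat_lit 304) (nat_lit 2333321175) (nat_lit 76) (nat_lit 4675555062) (nat_lit 26) (nat_lit 5) (nat_lit 30) (nat_lit 5) (nat_lit 27) (nat_lit 4) (nat_lit 209) (nat_lit 197) (nat_lit 194))))))) (XT.nd (nat_lit 858) (nat_lit 456) (nat_lit 0) (XT.nd (nat_lit 390) (nat_lit 532) (nat_lit 0) (XT.nd (nat_lit 156) (nat_lit 456) (nat_lit 0) (XT.nd (nat_lit 78) (nat_lit 228) (nat_lit 0) (XT.lf (nat_lit 0) (nat_lit 7509155914) (nat_lit 228) (nat_lit 1347549786) (nat_lit 0) (nat_lit 564424905) (nat_lit 24) (nat_lit 5) (nat_lit 27) (nat_lit 4) (nat_lit 24) (nat_lit 4) (nat_lit 210) (nat_lit 197) (nat_lit 193)) (XT.lf (nat_lit 0) (nat_lit 3575670602) (nat_lit 228) (nat_lit 716717892)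 (nat_lit 76) (nat_lit 5885186953) (nat_lit 21) (nat_lit 5) (nat_lit 24) (nat_lit 5) (nat_lit 22) (nat_lit 4) (nat_lit 211) (nat_lit 197) (nat_lit 192))) (XT.nd (nat_lit 78) (nat_lit 304) (nat_lit 0) (XT.lf (nat_lit 0) (nat_lit 9558170875) (nat_lit 228) (nat_lit 470081477) (nat_lit 0) (nat_lit 1034329173) (nat_lit 19) (nat_lit 5) (nat_lit 22) (nat_lit 4) (nat_lit 19) (nat_lit 4) (nat_lit 212) (nat_lit 197) (nat_lit 191)) (XT.nd (nat_lit 78) (nat_lit 76) (nat_lit 0) (XT.lf (nat_lit 0) (nat_lit 4054293956) (nat_lit 228) (nat_lit 937638366) (nat_lit 76) (nat_lit 7088354165) (nat_lit 16) (nat_lit 5) (nat_lit 19) (nat_lit 5) (nat_lit 17) (nat_lit 4) (nat_lit 213) (nat_lit 197) (nat_lit 190)) (XT.lf (nat_lit 0) (nat_lit 10204277680) (nat_lit 152) (nat_lit 2210743732) (nat_lit 0) (nat_lit 846078518) (nat_lit 15) (nat_lit 5) (nat_lit 17) (nat_lit 4) (nat_lit 15) (nat_lit 4) (nat_lit 214) (nat_lit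 197) (nat_lit 189))))) (XT.nd (nat_lit 234) (nat_lit 152) (nat_lit 0) (XT.nd (nat_lit 78) (nat_lit 152) (nat_lit 0) (XT.lf (nat_lit 0) (nat_lit 2509203167) (nat_lit 228) (nat_lit 4731878876) (nat_lit 76) (nat_lit 7375134534) (nat_lit 12) (nat_lit 5) (nat_lit 15) (nat_lit 5) (nat_lit 13) (nat_lit 4) (nat_lit 215) (nat_lit 197) (nat_lit 188)) (XT.nd (nat_lit 78) (nat_lit 76) (nat_lit 0) (XT.lf (nat_lit 0) (nat_lit 7395492471) (nat_lit 76) (nat_lit 1192013100) (nat_lit 152) (nat_lit 7592985815) (nat_lit 11) (nat_lit 5) (nat_lit 12) (nat_lit 5) (nat_lit 13) (nat_lit 4) (nat_lit 216) (nat_lit 197) (nat_lit 187)) (XT.lf (nat_lit 0) (nat_lit 3055748114) (nat_lit 76) (nat_lit 12515611929) (nat_lit 76) (nat_lit 2409336052) (nat_lit 10) (nat_lit 4) (nat_lit 11) (nat_lit 5) (nat_lit 11) (nat_lit 4) (nat_lit 217) (nat_lit 197) (nat_lit 186)))) (XT.nd (nat_lit 78) (nat_lit 76) (nat_lit 0) (XT.lf (nat_lit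 0) (nat_lit 3334142062) (nat_lit 152) (nat_lit 3532177319) (nat_lit 76) (nat_lit 13181620252) (nat_lit 9) (nat_lit 5) (nat_lit 11) (nat_lit 5) (nat_lit 10) (nat_lit 4) (nat_lit 218) (nat_lit 197) (nat_lit 185)) (XT.nd (nat_lit 78) (nat_lit 0) (nat_lit 0) (XT.lf (nat_lit 0) (nat_lit 9471205624) (nat_lit 76) (nat_lit 265447858) (nat_lit 152) (nat_lit 12688951470) (nat_lit 8) (nat_lit 5) (nat_lit 9) (nat_lit 5) (nat_lit 10) (nat_lit 4) (nat_lit 219) (nat_lit 197) (nat_lit 184)) (XT.lf (nat_lit 0) (nat_lit 17111716691) (nat_lit 152) (nat_lit 1171123999) (nat_lit 0) (nat_lit 6876588291) (nat_lit 8) (nat_lit 5) (nat_lit 10) (nat_lit 4) (nat_lit 8) (nat_lit 4) (nat_lit 220) (nat_lit 197) (nat_lit 183)))))) (XT.nd (nat_lit 390) (nat_lit 228) (nat_lit 0) (XT.nd (nat_lit 156) (nat_lit 76) (nat_lit 0) (XT.nd (nat_lit 78) (nat_lit 76) (nat_lit 0) (XT.lf (nat_lit 0) (nat_lit 12584824086) (nat_lit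 76) (nat_lit 13083864614) (nat_lit 76) (nat_lit 2629005897) (nat_lit 7) (nat_lit 4) (nat_lit 8) (nat_lit 5) (nat_lit 8) (nat_lit 4) (nat_lit 221) (nat_lit 197) (nat_lit 182)) (XT.lf (nat_lit 0) (nat_lit 3238427875) (nat_lit 152) (nat_lit 3909998575) (nat_lit 76) (nat_lit 24766389813) (nat_lit 6) (nat_lit 5) (nat_lit 8) (nat_lit 5) (nat_lit 7) (nat_lit 4) (nat_lit 222) (nat_lit 197) (nat_lit 181))) (XT.nd (nat_lit 78) (nat_lit 0) (nat_lit 0) (XT.lf (nat_lit 0) (nat_lit 9735346579) (nat_lit 76) (nat_lit 143222085) (nat_lit 152) (nat_lit 26186907977) (nat_lit 5) (nat_lit 5) (nat_lit 6) (nat_lit 5) (nat_lit 7) (nat_lit 4) (nat_lit 223) (nat_lit 197) (nat_lit 180)) (XT.nd (nat_lit 78) (nat_lit 0) (nat_lit 0) (XT.lf (nat_lit 0) (nat_lit 17645436509) (nat_lit 152) (nat_lit 15682618253) (nat_lit 0) (nat_lit 7500480497) (nat_lit 5) (nat_lit 5) (nat_lit 7) (nat_lit 4) (nat_lit 5) (nat_lit 4) (nat_lit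 224) (nat_lit 197) (nat_lit 179)) (XT.lf (nat_lit 0) (nat_lit 26427914509) (nat_lit 152) (nat_lit 3723681058) (nat_lit 0) (nat_lit 16166633014) (nat_lit 5) (nat_lit 5) (nat_lit 7) (nat_lit 4) (nat_lit 5) (nat_lit 4) (nat_lit 225) (nat_lit 197) (nat_lit 178))))) (XT.nd (nat_lit 234) (nat_lit 152) (nat_lit 0) (XT.nd (nat_lit 78) (nat_lit 0) (nat_lit 0) (XT.lf (nat_lit 0) (nat_lit 10299318863) (nat_lit 76) (nat_lit 26342769263) (nat_lit 76) (nat_lit 15980335175) (nat_lit 4) (nat_lit 4) (nat_lit 5) (nat_lit 5) (nat_lit 5) (nat_lit 4) (nat_lit 226) (nat_lit 197) (nat_lit 177)) (XT.nd (nat_lit 78) (nat_lit 0) (nat_lit 0) (XT.lf (nat_lit 0) (nat_lit 26427009403) (nat_lit 76) (nat_lit 21948417819) (nat_lit 76) (nat_lit 11498024953) (nat_lit 4) (nat_lit 4) (nat_lit 5) (nat_lit 5) (nat_lit 5) (nat_lit 4) (nat_lit 227) (nat_lit 197) (nat_lit 176)) (XT.lf (nat_lit 0) (nat_lit 44778849886) (nat_lit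 76) (nat_lit 16984376831) (nat_lit 76) (nat_lit 6457498072) (nat_lit 4) (nat_lit 4) (nat_lit 5) (nat_lit 5) (nat_lit 5) (nat_lit 4) (nat_lit 228) (nat_lit 197) (nat_lit 175)))) (XT.nd (nat_lit 78) (nat_lit 152) (nat_lit 0) (XT.lf (nat_lit 0) (nat_lit 65713898060) (nat_lit 76) (nat_lit 11353523760) (nat_lit 76) (nat_lit 760135529) (nat_lit 4) (nat_lit 4) (nat_lit 5) (nat_lit 5) (nat_lit 5) (nat_lit 4) (nat_lit 229) (nat_lit 197) (nat_lit 174)) (XT.nd (nat_lit 78) (nat_lit 0) (nat_lit 0) (XT.lf (nat_lit 0) (nat_lit 655411194) (nat_lit 76) (nat_lit 4780470415) (nat_lit 152) (nat_lit 83433789542) (nat_lit 2) (nat_lit 5) (nat_lit 3) (nat_lit 5) (nat_lit 4) (nat_lit 4) (nat_lit 230) (nat_lit 197) (nat_lit 173)) (XT.lf (nat_lit 0) (nat_lit 12870052990) (nat_lit 152) (nat_lit 85707013304) (nat_lit 0) (nat_lit 2961244406) (nat_lit 2) (nat_lit 5) (nat_lit 4) (nat_lit 4) (nat_lit 2) (nat_lit 4)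 (nat_lit 231) (nat_lit 197) (nat_lit 172))))))))
noncomputable def xc20 : XT := (XT.nd (nat_lit 1638) (nat_lit 0) (nat_lit 0) (XT.nd (nat_lit 780) (nat_lit 76) (nat_lit 0) (XT.nd (nat_lit 390) (nat_lit 0) (nat_lit 0) (XT.nd (nat_lit 156) (nat_lit 0) (nat_lit 0) (XT.nd (nat_lit 78) (nat_lit 0) (nat_lit 0) (XT.lf (nat_lit 0) (nat_lit 21485322534) (nat_lit 152) (nat_lit 83080701005) (nat_lit 0) (nat_lit 11536022230) (nat_lit 2) (nat_lit 5) (nat_lit 4) (nat_lit 4) (nat_lit 2) (nat_lit 4) (nat_lit 232) (nat_lit 197) (nat_lit 171)) (XT.lf (nat_lit 0) (nat_lit 31335279435) (nat_lit 152) (nat_lit 80168968259) (nat_lit 0) (nat_lit 21350768939) (nat_lit 2) (nat_lit 5) (nat_lit 4) (nat_lit 4) (nat_lit 2) (nat_lit 4) (nat_lit 233) (nat_lit 197) (nat_lit 170))) (XT.nd (nat_lit 78) (nat_lit 0) (nat_lit 0) (XT.lf (nat_lit 0) (nat_lit 42612640241) (nat_lit 152) (nat_lit 76914846384) (nat_lit 0) (nat_lit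 32597512188) (nat_lit 2) (nat_lit 5) (nat_lit 4) (nat_lit 4) (nat_lit 2) (nat_lit 4) (nat_lit 234) (nat_lit 197) (nat_lit 169)) (XT.nd (nat_lit 78) (nat_lit 0) (nat_lit 0) (XT.lf (nat_lit 0) (nat_lit 55538048968) (nat_lit 152) (nat_lit 73254667778) (nat_lit 0) (nat_lit 45496296951) (nat_lit 2) (nat_lit 5) (nat_lit 4) (nat_lit 4) (nat_lit 2) (nat_lit 4) (nat_lit 235) (nat_lit 197) (nat_lit 168)) (XT.lf (nat_lit 0) (nat_lit 70364394047) (nat_lit 152) (nat_lit 69116820249) (nat_lit 0) (nat_lit 60299490758) (nat_lit 2) (nat_lit 5) (nat_lit 4) (nat_lit 4) (nat_lit 2) (nat_lit 4) (nat_lit 236) (nat_lit 197) (nat_lit 167))))) (XT.nd (nat_lit 156) (nat_lit 0) (nat_lit 0) (XT.nd (nat_lit 78) (nat_lit 0) (nat_lit 0) (XT.lf (nat_lit 0) (nat_lit 87381756142) (nat_lit 152) (nat_lit 64420345912) (nat_lit 0) (nat_lit 77296721312) (nat_lit 2) (nat_lit 5) (nat_lit 4) (nat_lit 4) (nat_lit 2) (nat_lit 4)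 (nat_lit 237) (nat_lit 197) (nat_lit 166)) (XT.lf (nat_lit 0) (nat_lit 106923083644) (nat_lit 152) (nat_lit 59073357226) (nat_lit 0) (nat_lit 96820543126) (nat_lit 2) (nat_lit 5) (nat_lit 4) (nat_lit 4) (nat_lit 2) (nat_lit 4) (nat_lit 238) (nat_lit 197) (nat_lit 165))) (XT.nd (nat_lit 78) (nat_lit 0) (nat_lit 0) (XT.lf (nat_lit 0) (nat_lit 129370706872) (nat_lit 152) (nat_lit 52971239194) (nat_lit 0) (nat_lit 119252944016) (nat_lit 2) (nat_lit 5) (nat_lit 4) (nat_lit 4) (nat_lit 2) (nat_lit 4) (nat_lit 239) (nat_lit 197) (nat_lit 164)) (XT.nd (nat_lit 78) (nat_lit 0) (nat_lit 0) (XT.lf (nat_lit 0) (nat_lit 155163818455) (nat_lit 152) (nat_lit 45994602550) (nat_lit 0) (nat_lit 145032818784) (nat_lit 2) (nat_lit 5) (nat_lit 4) (nat_lit 4) (nat_lit 2) (nat_lit 4) (nat_lit 240) (nat_lit 197) (nat_lit 163)) (XT.lf (nat_lit 0) (nat_lit 184807066227) (nat_lit 152) (nat_lit 38006947883) (nat_lit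 0) (nat_lit 174664556283) (nat_lit 2) (nat_lit 5) (nat_lit 4) (nat_lit 4) (nat_lit 2) (nat_lit 4) (nat_lit 241) (nat_lit 197) (nat_lit 162)))))) (XT.nd (nat_lit 390) (nat_lit 0) (nat_lit 0) (XT.nd (nat_lit 156) (nat_lit 76) (nat_lit 0) (XT.nd (nat_lit 78) (nat_lit 0) (nat_lit 0) (XT.lf (nat_lit 0) (nat_lit 218880426777) (nat_lit 152) (nat_lit 28851994991) (nat_lit 0) (nat_lit 208727907899) (nat_lit 2) (nat_lit 5) (nat_lit 4) (nat_lit 4) (nat_lit 2) (nat_lit 4) (nat_lit 242) (nat_lit 197) (nat_lit 161)) (XT.lf (nat_lit 0) (nat_lit 258050552810) (nat_lit 152) (nat_lit 18350625232) (nat_lit 0) (nat_lit 247889330511) (nat_lit 2) (nat_lit 5) (nat_lit 4) (nat_lit 4) (nat_lit 2) (nat_lit 4) (nat_lit 243) (nat_lit 197) (nat_lit 160))) (XT.nd (nat_lit 78) (nat_lit 76) (nat_lit 0) (XT.lf (nat_lit 0) (nat_lit 303083816358) (nat_lit 152) (nat_lit 6297377023) (nat_lit 0) (nat_lit 292915025867) (nat_lit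 2) (nat_lit 5) (nat_lit 4) (nat_lit 4) (nat_lit 2) (nat_lit 4) (nat_lit 244) (nat_lit 197) (nat_lit 159)) (XT.nd (nat_lit 78) (nat_lit 0) (nat_lit 0) (XT.lf (nat_lit 0) (nat_lit 7940805299) (nat_lit 76) (nat_lit 347111474271) (nat_lit 76) (nat_lit 336936102743) (nat_lit 1) (nat_lit 4) (nat_lit 2) (nat_lit 5) (nat_lit 2) (nat_lit 4) (nat_lit 245) (nat_lit 197) (nat_lit 158)) (XT.lf (nat_lit 0) (nat_lit 24677497600) (nat_lit 76) (nat_lit 390312047363) (nat_lit 76) (nat_lit 380130953194) (nat_lit 1) (nat_lit 4) (nat_lit 2) (nat_lit 5) (nat_lit 2) (nat_lit 4) (nat_lit 246) (nat_lit 197) (nat_lit 157))))) (XT.nd (nat_lit 234) (nat_lit 0) (nat_lit 0) (XT.nd (nat_lit 78) (nat_lit 0) (nat_lit 0) (XT.lf (nat_lit 0) (nat_lit 43908548191) (nat_lit 76) (nat_lit 440000322709) (nat_lit 76) (nat_lit 429814252331) (nat_lit 1) (nat_lit 4) (nat_lit 2) (nat_lit 5) (nat_lit 2) (nat_lit 4) (nat_lit 247) (nat_lit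 197) (nat_lit 156)) (XT.nd (nat_lit 78) (nat_lit 0) (nat_lit 0) (XT.lf (nat_lit 0) (nat_lit 66010216755) (nat_lit 76) (nat_lit 497148462217) (nat_lit 76) (nat_lit 486958064702) (nat_lit 1) (nat_lit 4) (nat_lit 2) (nat_lit 5) (nat_lit 2) (nat_lit 4) (nat_lit 248) (nat_lit 197) (nat_lit 155)) (XT.lf (nat_lit 0) (nat_lit 91414927244) (nat_lit 76) (nat_lit 562874581662) (nat_lit 76) (nat_lit 552680421418) (nat_lit 1) (nat_lit 4) (nat_lit 2) (nat_lit 5) (nat_lit 2) (nat_lit 4) (nat_lit 249) (nat_lit 197) (nat_lit 154)))) (XT.nd (nat_lit 78) (nat_lit 0) (nat_lit 0) (XT.lf (nat_lit 0) (nat_lit 120619728341) (nat_lit 76) (nat_lit 638464626858) (nat_lit 76) (nat_lit 628267194675) (nat_lit 1) (nat_lit 4) (nat_lit 2) (nat_lit 5) (nat_lit 2) (nat_lit 4) (nat_lit 250) (nat_lit 197) (nat_lit 153)) (XT.nd (nat_lit 78) (nat_lit 0) (nat_lit 0) (XT.lf (nat_lit 0) (nat_lit 154196018328) (nat_lit 76) (nat_lit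 725397533472) (nat_lit 76) (nat_lit 715197256126) (nat_lit 1) (nat_lit 4) (nat_lit 2) (nat_lit 5) (nat_lit 2) (nat_lit 4) (nat_lit 251) (nat_lit 197) (nat_lit 152)) (XT.lf (nat_lit 0) (nat_lit 192800724619) (nat_lit 76) (nat_lit 825374162721) (nat_lit 76) (nat_lit 815171411319) (nat_lit 1) (nat_lit 4) (nat_lit 2) (nat_lit 5) (nat_lit 2) (nat_lit 4) (nat_lit 252) (nat_lit 197) (nat_lit 151))))))) (XT.nd (nat_lit 27456) (nat_lit 0) (nat_lit 1064) (XT.nd (nat_lit 390) (nat_lit 0) (nat_lit 0) (XT.nd (nat_lit 156) (nat_lit 0) (nat_lit 0) (XT.nd (nat_lit 78) (nat_lit 0) (nat_lit 0) (XT.lf (nat_lit 0) (nat_lit 237189156683) (nat_lit 76) (nat_lit 940350579089) (nat_lit 76) (nat_lit 930145676334) (nat_lit 1) (nat_lit 4) (nat_lit 2) (nat_lit 5) (nat_lit 2) (nat_lit 4) (nat_lit 253) (nat_lit 197) (nat_lit 150)) (XT.lf (nat_lit 0) (nat_lit 288229783844) (nat_lit 76) (nat_lit 1072576321158) (nat_lit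 76) (nat_lit 1062369547662) (nat_lit 1) (nat_lit 4) (nat_lit 2) (nat_lit 5) (nat_lit 2) (nat_lit 4) (nat_lit 254) (nat_lit 197) (nat_lit 149))) (XT.nd (nat_lit 78) (nat_lit 0) (nat_lit 0) (XT.lf (nat_lit 0) (nat_lit 346921227067) (nat_lit 76) (nat_lit 1224638414316) (nat_lit 76) (nat_lit 1214430014089) (nat_lit 1) (nat_lit 4) (nat_lit 2) (nat_lit 5) (nat_lit 2) (nat_lit 4) (nat_lit 255) (nat_lit 197) (nat_lit 148)) (XT.nd (nat_lit 78) (nat_lit 0) (nat_lit 0) (XT.lf (nat_lit 0) (nat_lit 414411797200) (nat_lit 76) (nat_lit 1399511986473) (nat_lit 76) (nat_lit 1389302171697) (nat_lit 1) (nat_lit 4) (nat_lit 2) (nat_lit 5) (nat_lit 2) (nat_lit 4) (nat_lit 256) (nat_lit 197) (nat_lit 147)) (XT.lf (nat_lit 0) (nat_lit 492021961918) (nat_lit 76) (nat_lit 1600618477084) (nat_lit 76) (nat_lit 1590407432265) (nat_lit 1) (nat_lit 4) (nat_lit 2) (nat_lit 5) (nat_lit 2) (nat_lit 4) (nat_lit 257) (nat_lit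 197) (nat_lit 146))))) (XT.nd (nat_lit 156) (nat_lit 0) (nat_lit 0) (XT.nd (nat_lit 78) (nat_lit 0) (nat_lit 0) (XT.lf (nat_lit 0) (nat_lit 581270180966) (nat_lit 76) (nat_lit 1831892578357) (nat_lit 76) (nat_lit 1821680463935) (nat_lit 1) (nat_lit 4) (nat_lit 2) (nat_lit 5) (nat_lit 2) (nat_lit 4) (nat_lit 258) (nat_lit 197) (nat_lit 145)) (XT.lf (nat_lit 0) (nat_lit 683902615151) (nat_lit 76) (nat_lit 2097859218359) (nat_lit 76) (nat_lit 2087646173848) (nat_lit 1) (nat_lit 4) (nat_lit 2) (nat_lit 5) (nat_lit 2) (nat_lit 4) (nat_lit 259) (nat_lit 197) (nat_lit 144))) (XT.nd (nat_lit 78) (nat_lit 0) (nat_lit 0) (XT.lf (nat_lit 0) (nat_lit 801927290360) (nat_lit 76) (nat_lit 2403722092222) (nat_lit 76) (nat_lit 2393508238938) (nat_lit 1) (nat_lit 4) (nat_lit 2) (nat_lit 5) (nat_lit 2) (nat_lit 4) (nat_lit 260) (nat_lit 197) (nat_lit 143)) (XT.nd (nat_lit 78) (nat_lit 0) (nat_lit 0) (XT.lf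 (nat_lit 0) (nat_lit 937653385019) (nat_lit 76) (nat_lit 2755465473565) (nat_lit 76) (nat_lit 2745250917000) (nat_lit 1) (nat_lit 4) (nat_lit 2) (nat_lit 5) (nat_lit 2) (nat_lit 4) (nat_lit 261) (nat_lit 197) (nat_lit 142)) (XT.lf (nat_lit 0) (nat_lit 1093736409678) (nat_lit 76) (nat_lit 3159971298109) (nat_lit 76) (nat_lit 3149756129995) (nat_lit 1) (nat_lit 4) (nat_lit 2) (nat_lit 5) (nat_lit 2) (nat_lit 4) (nat_lit 262) (nat_lit 197) (nat_lit 141)))))) (XT.nd (nat_lit 390) (nat_lit 1140) (nat_lit 0) (XT.nd (nat_lit 156) (nat_lit 988) (nat_lit 0) (XT.nd (nat_lit 78) (nat_lit 760) (nat_lit 0) (XT.lf (nat_lit 0) (nat_lit 3040952597) (nat_lit 228) (nat_lit 193445222) (nat_lit 228) (nat_lit 193445222) (nat_lit 53) (nat_lit 4) (nat_lit 56) (nat_lit 5) (nat_lit 56) (nat_lit 4) (nat_lit 204) (nat_lit 198) (nat_lit 198)) (XT.lf (nat_lit 0) (nat_lit 401676) (nat_lit 380) (nat_lit 5083202756)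 (nat_lit 380) (nat_lit 2018955018) (nat_lit 43) (nat_lit 4) (nat_lit 48) (nat_lit 5) (nat_lit 48) (nat_lit 4) (nat_lit 205) (nat_lit 198) (nat_lit 197))) (XT.nd (nat_lit 78) (nat_lit 456) (nat_lit 0) (XT.lf (nat_lit 0) (nat_lit 1013504020) (nat_lit 456) (nat_lit 2227993579) (nat_lit 532) (nat_lit 4183343142) (nat_lit 36) (nat_lit 5) (nat_lit 42) (nat_lit 5) (nat_lit 43) (nat_lit 4) (nat_lit 206) (nat_lit 198) (nat_lit 196)) (XT.nd (nat_lit 78) (nat_lit 152) (nat_lit 0) (XT.lf (nat_lit 0) (nat_lit 862153448) (nat_lit 304) (nat_lit 5656556483) (nat_lit 76) (nat_lit 1309620508) (nat_lit 32) (nat_lit 5) (nat_lit 36) (nat_lit 5) (nat_lit 33) (nat_lit 4) (nat_lit 207) (nat_lit 198) (nat_lit 195)) (XT.lf (nat_lit 0) (nat_lit 3343981954) (nat_lit 152) (nat_lit 2742251862) (nat_lit 228) (nat_lit 2227161499) (nat_lit 30) (nat_lit 5) (nat_lit 32) (nat_lit 5) (nat_lit 33) (nat_lit 4) (nat_lit 208)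 (nat_lit 198) (nat_lit 194))))) (XT.nd (nat_lit 234) (nat_lit 456) (nat_lit 0) (XT.nd (nat_lit 78) (nat_lit 380) (nat_lit 0) (XT.lf (nat_lit 0) (nat_lit 2765091661) (nat_lit 304) (nat_lit 4376017373) (nat_lit 76) (nat_lit 1750280497) (nat_lit 26) (nat_lit 5) (nat_lit 30) (nat_lit 5) (nat_lit 27) (nat_lit 4) (nat_lit 209) (nat_lit 198) (nat_lit 193)) (XT.nd (nat_lit 78) (nat_lit 228) (nat_lit 0) (XT.lf (nat_lit 0) (nat_lit 5575879757) (nat_lit 152) (nat_lit 2601726042) (nat_lit 228) (nat_lit 1391896808) (nat_lit 24) (nat_lit 5) (nat_lit 26) (nat_lit 5) (nat_lit 27) (nat_lit 4) (nat_lit 210) (nat_lit 198) (nat_lit 192)) (XT.lf (nat_lit 0) (nat_lit 3687190664) (nat_lit 228) (nat_lit 3968891104) (nat_lit 76) (nat_lit 2700333907) (nat_lit 21) (nat_lit 5) (nat_lit 24) (nat_lit 5) (nat_lit 22) (nat_lit 4) (nat_lit 211) (nat_lit 198) (nat_lit 191)))) (XT.nd (nat_lit 78) (nat_lit 304) (nat_lit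 0) (XT.lf (nat_lit 0) (nat_lit 6863399871) (nat_lit 152) (nat_lit 2471270272) (nat_lit 228) (nat_lit 1934305922) (nat_lit 19) (nat_lit 5) (nat_lit 21) (nat_lit 5) (nat_lit 22) (nat_lit 4) (nat_lit 212) (nat_lit 198) (nat_lit 190)) (XT.nd (nat_lit 78) (nat_lit 76) (nat_lit 0) (XT.lf (nat_lit 0) (nat_lit 3271337340) (nat_lit 228) (nat_lit 5554786990) (nat_lit 76) (nat_lit 3491955128) (nat_lit 16) (nat_lit 5) (nat_lit 19) (nat_lit 5) (nat_lit 17) (nat_lit 4) (nat_lit 213) (nat_lit 198) (nat_lit 189)) (XT.lf (nat_lit 0) (nat_lit 5908933614) (nat_lit 76) (nat_lit 3181619442) (nat_lit 152) (nat_lit 4435328238) (nat_lit 15) (nat_lit 5) (nat_lit 16) (nat_lit 5) (nat_lit 17) (nat_lit 4) (nat_lit 214) (nat_lit 198) (nat_lit 188))))))))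
noncomputable def xc21 : XT := (XT.nd (nat_lit 1638) (nat_lit 76) (nat_lit 0) (XT.nd (nat_lit 780) (nat_lit 228) (nat_lit 0) (XT.nd (nat_lit 390) (nat_lit 228) (nat_lit 0) (XT.nd (nat_lit 156) (nat_lit 228) (nat_lit 0) (XT.nd (nat_lit 78) (nat_lit 76) (nat_lit 0) (XT.lf (nat_lit 0) (nat_lit 801008830) (nat_lit 228) (nat_lit 10885896273) (nat_lit 76) (nat_lit 3229061109) (nat_lit 12) (nat_lit 5) (nat_lit 15) (nat_lit 5) (nat_lit 13) (nat_lit 4) (nat_lit 215) (nat_lit 198) (nat_lit 187)) (XT.lf (nat_lit 0) (nat_lit 642234292) (nat_lit 76) (nat_lit 5916654054) (nat_lit 152) (nat_lit 9947355443) (nat_lit 11) (nat_lit 5) (nat_lit 12) (nat_lit 5) (nat_lit 13) (nat_lit 4) (nat_lit 216) (nat_lit 198) (nat_lit 186))) (XT.nd (nat_lit 78) (nat_lit 228) (nat_lit 0) (XT.lf (nat_lit 0) (nat_lit 13210160051) (nat_lit 152) (nat_lit 4311244495) (nat_lit 0) (nat_lit 811971388) (nat_lit 11) (nat_lit 5)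 (nat_lit 13) (nat_lit 4) (nat_lit 11) (nat_lit 4) (nat_lit 217) (nat_lit 198) (nat_lit 185)) (XT.nd (nat_lit 78) (nat_lit 76) (nat_lit 0) (XT.lf (nat_lit 0) (nat_lit 508381730) (nat_lit 152) (nat_lit 11654595473) (nat_lit 76) (nat_lit 8262933265) (nat_lit 9) (nat_lit 5) (nat_lit 11) (nat_lit 5) (nat_lit 10) (nat_lit 4) (nat_lit 218) (nat_lit 198) (nat_lit 184)) (XT.lf (nat_lit 0) (nat_lit 705879583) (nat_lit 76) (nat_lit 5876242584) (nat_lit 152) (nat_lit 16247979912) (nat_lit 8) (nat_lit 5) (nat_lit 9) (nat_lit 5) (nat_lit 10) (nat_lit 4) (nat_lit 219) (nat_lit 198) (nat_lit 183))))) (XT.nd (nat_lit 156) (nat_lit 152) (nat_lit 0) (XT.nd (nat_lit 78) (nat_lit 76) (nat_lit 0) (XT.lf (nat_lit 0) (nat_lit 13713242077) (nat_lit 152) (nat_lit 10399970573) (nat_lit 0) (nat_lit 1470424237) (nat_lit 8) (nat_lit 5) (nat_lit 10) (nat_lit 4) (nat_lit 8) (nat_lit 4) (nat_lit 220) (nat_lit 198) (nat_lit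 182)) (XT.lf (nat_lit 0) (nat_lit 2692457666) (nat_lit 76) (nat_lit 19245059073) (nat_lit 76) (nat_lit 6811171393) (nat_lit 7) (nat_lit 4) (nat_lit 8) (nat_lit 5) (nat_lit 8) (nat_lit 4) (nat_lit 221) (nat_lit 198) (nat_lit 181))) (XT.nd (nat_lit 78) (nat_lit 152) (nat_lit 0) (XT.lf (nat_lit 0) (nat_lit 18046608548) (nat_lit 76) (nat_lit 13466416987) (nat_lit 76) (nat_lit 866381620) (nat_lit 7) (nat_lit 4) (nat_lit 8) (nat_lit 5) (nat_lit 8) (nat_lit 4) (nat_lit 222) (nat_lit 198) (nat_lit 180)) (XT.nd (nat_lit 78) (nat_lit 76) (nat_lit 0) (XT.lf (nat_lit 0) (nat_lit 5505995994) (nat_lit 152) (nat_lit 1292039946) (nat_lit 76) (nat_lit 29758705669) (nat_lit 6) (nat_lit 5) (nat_lit 8) (nat_lit 5) (nat_lit 7) (nat_lit 4) (nat_lit 223) (nat_lit 198) (nat_lit 179)) (XT.lf (nat_lit 0) (nat_lit 13007915838) (nat_lit 152) (nat_lit 27242066993) (nat_lit 0) (nat_lit 1091116636) (nat_lit 5) (nat_lit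 5) (nat_lit 7) (nat_lit 4) (nat_lit 5) (nat_lit 4) (nat_lit 224) (nat_lit 198) (nat_lit 178)))))) (XT.nd (nat_lit 390) (nat_lit 152) (nat_lit 0) (XT.nd (nat_lit 156) (nat_lit 76) (nat_lit 0) (XT.nd (nat_lit 78) (nat_lit 0) (nat_lit 0) (XT.lf (nat_lit 0) (nat_lit 21728358979) (nat_lit 152) (nat_lit 15397079330) (nat_lit 0) (nat_lit 9710407183) (nat_lit 5) (nat_lit 5) (nat_lit 7) (nat_lit 4) (nat_lit 5) (nat_lit 4) (nat_lit 225) (nat_lit 198) (nat_lit 177)) (XT.lf (nat_lit 0) (nat_lit 31640890375) (nat_lit 152) (nat_lit 1988379599) (nat_lit 0) (nat_lit 19534979802) (nat_lit 5) (nat_lit 5) (nat_lit 7) (nat_lit 4) (nat_lit 5) (nat_lit 4) (nat_lit 226) (nat_lit 198) (nat_lit 176))) (XT.nd (nat_lit 78) (nat_lit 0) (nat_lit 0) (XT.lf (nat_lit 0) (nat_lit 13943907027) (nat_lit 76) (nat_lit 29330895130) (nat_lit 76) (nat_lit 17148498665) (nat_lit 4) (nat_lit 4) (nat_lit 5) (nat_lit 5) (nat_lit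 5) (nat_lit 4) (nat_lit 227) (nat_lit 198) (nat_lit 175)) (XT.nd (nat_lit 78) (nat_lit 0) (nat_lit 0) (XT.lf (nat_lit 0) (nat_lit 32216878496) (nat_lit 76) (nat_lit 24403037429) (nat_lit 76) (nat_lit 12154131491) (nat_lit 4) (nat_lit 4) (nat_lit 5) (nat_lit 5) (nat_lit 5) (nat_lit 4) (nat_lit 228) (nat_lit 198) (nat_lit 174)) (XT.lf (nat_lit 0) (nat_lit 53083344918) (nat_lit 76) (nat_lit 18803648084) (nat_lit 76) (nat_lit 6496907822) (nat_lit 4) (nat_lit 4) (nat_lit 5) (nat_lit 5) (nat_lit 5) (nat_lit 4) (nat_lit 229) (nat_lit 198) (nat_lit 173))))) (XT.nd (nat_lit 234) (nat_lit 0) (nat_lit 0) (XT.nd (nat_lit 78) (nat_lit 152) (nat_lit 0) (XT.lf (nat_lit 0) (nat_lit 76951563247) (nat_lit 76) (nat_lit 12423173826) (nat_lit 76) (nat_lit 66142848) (nat_lit 4) (nat_lit 4) (nat_lit 5) (nat_lit 5) (nat_lit 5) (nat_lit 4) (nat_lit 230) (nat_lit 198) (nat_lit 172)) (XT.nd (nat_lit 78) (nat_lit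 0) (nat_lit 0) (XT.lf (nat_lit 0) (nat_lit 2055319921) (nat_lit 76) (nat_lit 4894719481) (nat_lit 152) (nat_lit 95193347150) (nat_lit 2) (nat_lit 5) (nat_lit 3) (nat_lit 5) (nat_lit 4) (nat_lit 4) (nat_lit 231) (nat_lit 198) (nat_lit 171)) (XT.lf (nat_lit 0) (nat_lit 15420798697) (nat_lit 152) (nat_lit 97394513605) (nat_lit 0) (nat_lit 3903401435) (nat_lit 2) (nat_lit 5) (nat_lit 4) (nat_lit 4) (nat_lit 2) (nat_lit 4) (nat_lit 232) (nat_lit 198) (nat_lit 170)))) (XT.nd (nat_lit 78) (nat_lit 0) (nat_lit 0) (XT.lf (nat_lit 0) (nat_lit 25247458095) (nat_lit 152) (nat_lit 94526674247) (nat_lit 0) (nat_lit 13699443276) (nat_lit 2) (nat_lit 5) (nat_lit 4) (nat_lit 4) (nat_lit 2) (nat_lit 4) (nat_lit 233) (nat_lit 198) (nat_lit 169)) (XT.nd (nat_lit 78) (nat_lit 0) (nat_lit 0) (XT.lf (nat_lit 0) (nat_lit 36504560204) (nat_lit 152) (nat_lit 91310720534) (nat_lit 0) (nat_lit 24929921421) (nat_lit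 2) (nat_lit 5) (nat_lit 4) (nat_lit 4) (nat_lit 2) (nat_lit 4) (nat_lit 234) (nat_lit 198) (nat_lit 168)) (XT.lf (nat_lit 0) (nat_lit 49412352671) (nat_lit 152) (nat_lit 87683731634) (nat_lit 0) (nat_lit 37814562616) (nat_lit 2) (nat_lit 5) (nat_lit 4) (nat_lit 4) (nat_lit 2) (nat_lit 4) (nat_lit 235) (nat_lit 198) (nat_lit 167))))))) (XT.nd (nat_lit 780) (nat_lit 76) (nat_lit 0) (XT.nd (nat_lit 390) (nat_lit 0) (nat_lit 0) (XT.nd (nat_lit 156) (nat_lit 0) (nat_lit 0) (XT.nd (nat_lit 78) (nat_lit 0) (nat_lit 0) (XT.lf (nat_lit 0) (nat_lit 64223379264) (nat_lit 152) (nat_lit 83574744720) (nat_lit 0) (nat_lit 52605457668) (nat_lit 2) (nat_lit 5) (nat_lit 4) (nat_lit 4) (nat_lit 2) (nat_lit 4) (nat_lit 236) (nat_lit 198) (nat_lit 166)) (XT.lf (nat_lit 0) (nat_lit 81227420937) (nat_lit 152) (nat_lit 78903366570) (nat_lit 0) (nat_lit 69591993653) (nat_lit 2) (nat_lit 5) (nat_lit 4) (nat_lit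 4) (nat_lit 2) (nat_lit 4) (nat_lit 237) (nat_lit 198) (nat_lit 165))) (XT.nd (nat_lit 78) (nat_lit 0) (nat_lit 0) (XT.lf (nat_lit 0) (nat_lit 100757165463) (nat_lit 152) (nat_lit 73578200654) (nat_lit 0) (nat_lit 89106515841) (nat_lit 2) (nat_lit 5) (nat_lit 4) (nat_lit 4) (nat_lit 2) (nat_lit 4) (nat_lit 238) (nat_lit 198) (nat_lit 164)) (XT.nd (nat_lit 78) (nat_lit 0) (nat_lit 0) (XT.lf (nat_lit 0) (nat_lit 123194716537) (nat_lit 152) (nat_lit 67495058945) (nat_lit 0) (nat_lit 111530830101) (nat_lit 2) (nat_lit 5) (nat_lit 4) (nat_lit 4) (nat_lit 2) (nat_lit 4) (nat_lit 239) (nat_lit 198) (nat_lit 163)) (XT.lf (nat_lit 0) (nat_lit 148979069726) (nat_lit 152) (nat_lit 60534923451) (nat_lit 0) (nat_lit 137303673016) (nat_lit 2) (nat_lit 5) (nat_lit 4) (nat_lit 4) (nat_lit 2) (nat_lit 4) (nat_lit 240) (nat_lit 198) (nat_lit 162))))) (XT.nd (nat_lit 156) (nat_lit 0) (nat_lit 0) (XT.nd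 (nat_lit 78) (nat_lit 0) (nat_lit 0) (XT.lf (nat_lit 0) (nat_lit 178614701504) (nat_lit 152) (nat_lit 52561617610) (nat_lit 0) (nat_lit 166929295860) (nat_lit 2) (nat_lit 5) (nat_lit 4) (nat_lit 4) (nat_lit 2) (nat_lit 4) (nat_lit 241) (nat_lit 198) (nat_lit 161)) (XT.lf (nat_lit 0) (nat_lit 212681439450) (nat_lit 152) (nat_lit 43419141958) (nat_lit 0) (nat_lit 200987330385) (nat_lit 2) (nat_lit 5) (nat_lit 4) (nat_lit 4) (nat_lit 2) (nat_lit 4) (nat_lit 242) (nat_lit 198) (nat_lit 160))) (XT.nd (nat_lit 78) (nat_lit 0) (nat_lit 0) (XT.lf (nat_lit 0) (nat_lit 251845806697) (nat_lit 152) (nat_lit 32928621973) (nat_lit 0) (nat_lit 240144129439) (nat_lit 2) (nat_lit 5) (nat_lit 4) (nat_lit 4) (nat_lit 2) (nat_lit 4) (nat_lit 243) (nat_lit 198) (nat_lit 159)) (XT.nd (nat_lit 78) (nat_lit 0) (nat_lit 0) (XT.lf (nat_lit 0) (nat_lit 296874062604) (nat_lit 152) (nat_lit 20884808349) (nat_lit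 0) (nat_lit 285165804310) (nat_lit 2) (nat_lit 5) (nat_lit 4) (nat_lit 4) (nat_lit 2) (nat_lit 4) (nat_lit 244) (nat_lit 198) (nat_lit 158)) (XT.lf (nat_lit 0) (nat_lit 348647194787) (nat_lit 152) (nat_lit 7052061257) (nat_lit 0) (nat_lit 336933213853) (nat_lit 2) (nat_lit 5) (nat_lit 4) (nat_lit 4) (nat_lit 2) (nat_lit 4) (nat_lit 245) (nat_lit 198) (nat_lit 157)))))) (XT.nd (nat_lit 390) (nat_lit 0) (nat_lit 0) (XT.nd (nat_lit 156) (nat_lit 0) (nat_lit 0) (XT.nd (nat_lit 78) (nat_lit 0) (nat_lit 0) (XT.lf (nat_lit 0) (nat_lit 9305772434) (nat_lit 76) (nat_lit 399096187449) (nat_lit 76) (nat_lit 387377230306) (nat_lit 1) (nat_lit 4) (nat_lit 2) (nat_lit 5) (nat_lit 2) (nat_lit 4) (nat_lit 246) (nat_lit 198) (nat_lit 156)) (XT.lf (nat_lit 0) (nat_lit 28530292972) (nat_lit 76) (nat_lit 448787543196) (nat_lit 76) (nat_lit 437064258914) (nat_lit 1) (nat_lit 4) (nat_lit 2) (nat_lit 5) (nat_lit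 2) (nat_lit 4) (nat_lit 247) (nat_lit 198) (nat_lit 155))) (XT.nd (nat_lit 78) (nat_lit 0) (nat_lit 0) (XT.lf (nat_lit 0) (nat_lit 50626283229) (nat_lit 76) (nat_lit 505938361314) (nat_lit 76) (nat_lit 494211314303) (nat_lit 1) (nat_lit 4) (nat_lit 2) (nat_lit 5) (nat_lit 2) (nat_lit 4) (nat_lit 248) (nat_lit 198) (nat_lit 154)) (XT.nd (nat_lit 78) (nat_lit 0) (nat_lit 0) (XT.lf (nat_lit 0) (nat_lit 76026056060) (nat_lit 76) (nat_lit 571666809984) (nat_lit 76) (nat_lit 559936491035) (nat_lit 1) (nat_lit 4) (nat_lit 2) (nat_lit 5) (nat_lit 2) (nat_lit 4) (nat_lit 249) (nat_lit 198) (nat_lit 153)) (XT.lf (nat_lit 0) (nat_lit 105226563541) (nat_lit 76) (nat_lit 647258880593) (nat_lit 76) (nat_lit 635525716481) (nat_lit 1) (nat_lit 4) (nat_lit 2) (nat_lit 5) (nat_lit 2) (nat_lit 4) (nat_lit 250) (nat_lit 198) (nat_lit 152))))) (XT.nd (nat_lit 234) (nat_lit 0) (nat_lit 0) (XT.nd (nat_lit 78)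 (nat_lit 0) (nat_lit 0) (XT.lf (nat_lit 0) (nat_lit 138799119949) (nat_lit 76) (nat_lit 734193548436) (nat_lit 76) (nat_lit 722457910268) (nat_lit 1) (nat_lit 4) (nat_lit 2) (nat_lit 5) (nat_lit 2) (nat_lit 4) (nat_lit 251) (nat_lit 198) (nat_lit 151)) (XT.nd (nat_lit 78) (nat_lit 0) (nat_lit 0) (XT.lf (nat_lit 0) (nat_lit 177400579648) (nat_lit 76) (nat_lit 834171709188) (nat_lit 76) (nat_lit 822433919668) (nat_lit 1) (nat_lit 4) (nat_lit 2) (nat_lit 5) (nat_lit 2) (nat_lit 4) (nat_lit 252) (nat_lit 198) (nat_lit 150)) (XT.lf (nat_lit 0) (nat_lit 221786188590) (nat_lit 76) (nat_lit 949149457299) (nat_lit 76) (nat_lit 937409797037) (nat_lit 1) (nat_lit 4) (nat_lit 2) (nat_lit 5) (nat_lit 2) (nat_lit 4) (nat_lit 253) (nat_lit 198) (nat_lit 149)))) (XT.nd (nat_lit 78) (nat_lit 0) (nat_lit 0) (XT.lf (nat_lit 0) (nat_lit 272824360862) (nat_lit 76) (nat_lit 1081376357404) (nat_lit 76) (nat_lit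 1069635070411) (nat_lit 1) (nat_lit 4) (nat_lit 2) (nat_lit 5) (nat_lit 2) (nat_lit 4) (nat_lit 254) (nat_lit 198) (nat_lit 148)) (XT.nd (nat_lit 78) (nat_lit 0) (nat_lit 0) (XT.lf (nat_lit 0) (nat_lit 331513669400) (nat_lit 76) (nat_lit 1233439457551) (nat_lit 76) (nat_lit 1221696756008) (nat_lit 1) (nat_lit 4) (nat_lit 2) (nat_lit 5) (nat_lit 2) (nat_lit 4) (nat_lit 255) (nat_lit 198) (nat_lit 147)) (XT.lf (nat_lit 0) (nat_lit 399002383284) (nat_lit 76) (nat_lit 1408313905350) (nat_lit 76) (nat_lit 1396569973765) (nat_lit 1) (nat_lit 4) (nat_lit 2) (nat_lit 5) (nat_lit 2) (nat_lit 4) (nat_lit 256) (nat_lit 198) (nat_lit 146))))))))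
noncomputable def xc22 : XT := (XT.nd (nat_lit 28158) (nat_lit 0) (nat_lit 76) (XT.nd (nat_lit 27300) (nat_lit 0) (nat_lit 836) (XT.nd (nat_lit 390) (nat_lit 0) (nat_lit 0) (XT.nd (nat_lit 156) (nat_lit 0) (nat_lit 0) (XT.nd (nat_lit 78) (nat_lit 0) (nat_lit 0) (XT.lf (nat_lit 0) (nat_lit 476610933873) (nat_lit 76) (nat_lit 1609421157389) (nat_lit 76) (nat_lit 1597676156201) (nat_lit 1) (nat_lit 4) (nat_lit 2) (nat_lit 5) (nat_lit 2) (nat_lit 4) (nat_lit 257) (nat_lit 198) (nat_lit 145)) (XT.lf (nat_lit 0) (nat_lit 565857749330) (nat_lit 76) (nat_lit 1840695920773) (nat_lit 76) (nat_lit 1828949989496) (nat_lit 1) (nat_lit 4) (nat_lit 2) (nat_lit 5) (nat_lit 2) (nat_lit 4) (nat_lit 258) (nat_lit 198) (nat_lit 144))) (XT.nd (nat_lit 78) (nat_lit 0) (nat_lit 0) (XT.lf (nat_lit 0) (nat_lit 668488963002) (nat_lit 76) (nat_lit 2106663136524) (nat_lit 76) (nat_lit 2094916396474) (nat_lit 1)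 (nat_lit 4) (nat_lit 2) (nat_lit 5) (nat_lit 2) (nat_lit 4) (nat_lit 259) (nat_lit 198) (nat_lit 143)) (XT.nd (nat_lit 78) (nat_lit 0) (nat_lit 0) (XT.lf (nat_lit 0) (nat_lit 786512576894) (nat_lit 76) (nat_lit 2412526511038) (nat_lit 76) (nat_lit 2400779067707) (nat_lit 1) (nat_lit 4) (nat_lit 2) (nat_lit 5) (nat_lit 2) (nat_lit 4) (nat_lit 260) (nat_lit 198) (nat_lit 142)) (XT.lf (nat_lit 0) (nat_lit 922237748670) (nat_lit 76) (nat_lit 2764270327730) (nat_lit 76) (nat_lit 2752522272850) (nat_lit 1) (nat_lit 4) (nat_lit 2) (nat_lit 5) (nat_lit 2) (nat_lit 4) (nat_lit 261) (nat_lit 198) (nat_lit 141))))) (XT.nd (nat_lit 26676) (nat_lit 0) (nat_lit 3496) (XT.nd (nat_lit 26598) (nat_lit 0) (nat_lit 4408) (XT.lf (nat_lit 0) (nat_lit 1078319970822) (nat_lit 76) (nat_lit 3168776530838) (nat_lit 76) (nat_lit 3157027944177) (nat_lit 1) (nat_lit 4) (nat_lit 2) (nat_lit 5) (nat_lit 2) (nat_lit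 4) (nat_lit 262) (nat_lit 198) (nat_lit 140)) (XT.lf (nat_lit 0) (nat_lit 2610022873) (nat_lit 76) (nat_lit 330493607) (nat_lit 76) (nat_lit 330493607) (nat_lit 59) (nat_lit 4) (nat_lit 60) (nat_lit 5) (nat_lit 60) (nat_lit 4) (nat_lit 202) (nat_lit 199) (nat_lit 199))) (XT.nd (nat_lit 78) (nat_lit 684) (nat_lit 0) (XT.lf (nat_lit 0) (nat_lit 4553396859) (nat_lit 228) (nat_lit 1377189453) (nat_lit 0) (nat_lit 747601169) (nat_lit 56) (nat_lit 5) (nat_lit 59) (nat_lit 4) (nat_lit 56) (nat_lit 4) (nat_lit 203) (nat_lit 199) (nat_lit 198)) (XT.nd (nat_lit 78) (nat_lit 380) (nat_lit 0) (XT.lf (nat_lit 0) (nat_lit 2843405040) (nat_lit 304) (nat_lit 1200900761) (nat_lit 76) (nat_lit 2839883896) (nat_lit 52) (nat_lit 5) (nat_lit 56) (nat_lit 5) (nat_lit 53) (nat_lit 4) (nat_lit 204) (nat_lit 199) (nat_lit 197)) (XT.lf (nat_lit 0) (nat_lit 671301119) (nat_lit 380) (nat_lit 800354352) (nat_lit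 76) (nat_lit 5693391247) (nat_lit 47) (nat_lit 5) (nat_lit 52) (nat_lit 5) (nat_lit 48) (nat_lit 5) (nat_lit 205) (nat_lit 199) (nat_lit 196)))))) (XT.nd (nat_lit 390) (nat_lit 912) (nat_lit 0) (XT.nd (nat_lit 156) (nat_lit 608) (nat_lit 0) (XT.nd (nat_lit 78) (nat_lit 760) (nat_lit 0) (XT.lf (nat_lit 0) (nat_lit 5420765939) (nat_lit 456) (nat_lit 294514254) (nat_lit 76) (nat_lit 1802869669) (nat_lit 42) (nat_lit 5) (nat_lit 48) (nat_lit 5) (nat_lit 43) (nat_lit 4) (nat_lit 206) (nat_lit 199) (nat_lit 195)) (XT.lf (nat_lit 0) (nat_lit 319119477) (nat_lit 228) (nat_lit 2135315006) (nat_lit 304) (nat_lit 5495873522) (nat_lit 32) (nat_lit 5) (nat_lit 35) (nat_lit 5) (nat_lit 36) (nat_lit 5) (nat_lit 207) (nat_lit 199) (nat_lit 194))) (XT.nd (nat_lit 78) (nat_lit 456) (nat_lit 0) (XT.lf (nat_lit 0) (nat_lit 981249353) (nat_lit 152) (nat_lit 6317647960) (nat_lit 228) (nat_lit 1168180130) (nat_lit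 30) (nat_lit 5) (nat_lit 32) (nat_lit 5) (nat_lit 33) (nat_lit 4) (nat_lit 208) (nat_lit 199) (nat_lit 193)) (XT.nd (nat_lit 78) (nat_lit 152) (nat_lit 0) (XT.lf (nat_lit 0) (nat_lit 1562921757) (nat_lit 228) (nat_lit 1841184419) (nat_lit 304) (nat_lit 5669362390) (nat_lit 26) (nat_lit 5) (nat_lit 29) (nat_lit 5) (nat_lit 30) (nat_lit 5) (nat_lit 209) (nat_lit 199) (nat_lit 192)) (XT.lf (nat_lit 0) (nat_lit 2007362530) (nat_lit 152) (nat_lit 6453134274) (nat_lit 228) (nat_lit 1320509507) (nat_lit 24) (nat_lit 5) (nat_lit 26) (nat_lit 5) (nat_lit 27) (nat_lit 4) (nat_lit 210) (nat_lit 199) (nat_lit 191))))) (XT.nd (nat_lit 234) (nat_lit 304) (nat_lit 0) (XT.nd (nat_lit 78) (nat_lit 380) (nat_lit 0) (XT.lf (nat_lit 0) (nat_lit 2179259059) (nat_lit 152) (nat_lit 1195213768) (nat_lit 228) (nat_lit 7224504574) (nat_lit 21) (nat_lit 5) (nat_lit 23) (nat_lit 5) (nat_lit 24) (nat_lit 5) (nat_lit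 211) (nat_lit 199) (nat_lit 190)) (XT.nd (nat_lit 78) (nat_lit 228) (nat_lit 0) (XT.lf (nat_lit 0) (nat_lit 1918064029) (nat_lit 152) (nat_lit 6766233867) (nat_lit 228) (nat_lit 2854906724) (nat_lit 19) (nat_lit 5) (nat_lit 21) (nat_lit 5) (nat_lit 22) (nat_lit 4) (nat_lit 212) (nat_lit 199) (nat_lit 189)) (XT.lf (nat_lit 0) (nat_lit 1115729403) (nat_lit 152) (nat_lit 878278138) (nat_lit 228) (nat_lit 10628821158) (nat_lit 16) (nat_lit 5) (nat_lit 18) (nat_lit 5) (nat_lit 19) (nat_lit 5) (nat_lit 213) (nat_lit 199) (nat_lit 188)))) (XT.nd (nat_lit 78) (nat_lit 304) (nat_lit 0) (XT.lf (nat_lit 0) (nat_lit 7488998821) (nat_lit 228) (nat_lit 569197259) (nat_lit 76) (nat_lit 5798830630) (nat_lit 16) (nat_lit 5) (nat_lit 19) (nat_lit 5) (nat_lit 17) (nat_lit 4) (nat_lit 214) (nat_lit 199) (nat_lit 187)) (XT.nd (nat_lit 78) (nat_lit 228) (nat_lit 0) (XT.lf (nat_lit 0) (nat_lit 12121548340)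 (nat_lit 76) (nat_lit 1701520258) (nat_lit 152) (nat_lit 1452956114) (nat_lit 15) (nat_lit 5) (nat_lit 16) (nat_lit 5) (nat_lit 17) (nat_lit 4) (nat_lit 215) (nat_lit 199) (nat_lit 186)) (XT.lf (nat_lit 0) (nat_lit 4101907071) (nat_lit 228) (nat_lit 7256373896) (nat_lit 76) (nat_lit 5533193554) (nat_lit 12) (nat_lit 5) (nat_lit 15) (nat_lit 5) (nat_lit 13) (nat_lit 4) (nat_lit 216) (nat_lit 199) (nat_lit 185))))))) (XT.nd (nat_lit 780) (nat_lit 228) (nat_lit 0) (XT.nd (nat_lit 390) (nat_lit 228) (nat_lit 0) (XT.nd (nat_lit 156) (nat_lit 228) (nat_lit 0) (XT.nd (nat_lit 78) (nat_lit 0) (nat_lit 0) (XT.lf (nat_lit 0) (nat_lit 5555539727) (nat_lit 76) (nat_lit 4868897007) (nat_lit 152) (nat_lit 8320748266) (nat_lit 11) (nat_lit 5) (nat_lit 12) (nat_lit 5) (nat_lit 13) (nat_lit 4) (nat_lit 217) (nat_lit 199) (nat_lit 184)) (XT.lf (nat_lit 0) (nat_lit 17737995423) (nat_lit 152) (nat_lit 603650547)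 (nat_lit 0) (nat_lit 2532415666) (nat_lit 11) (nat_lit 5) (nat_lit 13) (nat_lit 4) (nat_lit 11) (nat_lit 4) (nat_lit 218) (nat_lit 199) (nat_lit 183))) (XT.nd (nat_lit 78) (nat_lit 76) (nat_lit 0) (XT.lf (nat_lit 0) (nat_lit 2959319316) (nat_lit 152) (nat_lit 9287504320) (nat_lit 76) (nat_lit 11048477415) (nat_lit 9) (nat_lit 5) (nat_lit 11) (nat_lit 5) (nat_lit 10) (nat_lit 4) (nat_lit 219) (nat_lit 199) (nat_lit 182)) (XT.nd (nat_lit 78) (nat_lit 0) (nat_lit 0) (XT.lf (nat_lit 0) (nat_lit 4578703999) (nat_lit 76) (nat_lit 5146270964) (nat_lit 152) (nat_lit 16353267877) (nat_lit 8) (nat_lit 5) (nat_lit 9) (nat_lit 5) (nat_lit 10) (nat_lit 4) (nat_lit 220) (nat_lit 199) (nat_lit 181)) (XT.lf (nat_lit 0) (nat_lit 17678305669) (nat_lit 152) (nat_lit 8564694309) (nat_lit 0) (nat_lit 3022117310) (nat_lit 8) (nat_lit 5) (nat_lit 10) (nat_lit 4) (nat_lit 8) (nat_lit 4) (nat_lit 221) (nat_lit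 199) (nat_lit 180))))) (XT.nd (nat_lit 156) (nat_lit 76) (nat_lit 0) (XT.nd (nat_lit 78) (nat_lit 76) (nat_lit 0) (XT.lf (nat_lit 0) (nat_lit 6204205315) (nat_lit 76) (nat_lit 20757881134) (nat_lit 76) (nat_lit 5957216526) (nat_lit 7) (nat_lit 4) (nat_lit 8) (nat_lit 5) (nat_lit 8) (nat_lit 4) (nat_lit 222) (nat_lit 199) (nat_lit 179)) (XT.lf (nat_lit 0) (nat_lit 602896771) (nat_lit 152) (nat_lit 13672270846) (nat_lit 76) (nat_lit 22836722271) (nat_lit 6) (nat_lit 5) (nat_lit 8) (nat_lit 5) (nat_lit 7) (nat_lit 4) (nat_lit 223) (nat_lit 199) (nat_lit 178))) (XT.nd (nat_lit 78) (nat_lit 0) (nat_lit 0) (XT.lf (nat_lit 0) (nat_lit 986535499) (nat_lit 76) (nat_lit 6716385861) (nat_lit 152) (nat_lit 34225567918) (nat_lit 5) (nat_lit 5) (nat_lit 6) (nat_lit 5) (nat_lit 7) (nat_lit 4) (nat_lit 224) (nat_lit 199) (nat_lit 177)) (XT.nd (nat_lit 78) (nat_lit 0) (nat_lit 0) (XT.lf (nat_lit 0) (nat_lit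 16207891904) (nat_lit 152) (nat_lit 29034523424) (nat_lit 0) (nat_lit 2198135968) (nat_lit 5) (nat_lit 5) (nat_lit 7) (nat_lit 4) (nat_lit 5) (nat_lit 4) (nat_lit 225) (nat_lit 199) (nat_lit 176)) (XT.lf (nat_lit 0) (nat_lit 26073516034) (nat_lit 152) (nat_lit 15711985910) (nat_lit 0) (nat_lit 11987274205) (nat_lit 5) (nat_lit 5) (nat_lit 7) (nat_lit 4) (nat_lit 5) (nat_lit 4) (nat_lit 226) (nat_lit 199) (nat_lit 175)))))) (XT.nd (nat_lit 390) (nat_lit 76) (nat_lit 0) (XT.nd (nat_lit 156) (nat_lit 76) (nat_lit 0) (XT.nd (nat_lit 78) (nat_lit 76) (nat_lit 0) (XT.lf (nat_lit 0) (nat_lit 37331287591) (nat_lit 152) (nat_lit 552153652) (nat_lit 0) (nat_lit 23178536290) (nat_lit 5) (nat_lit 5) (nat_lit 7) (nat_lit 4) (nat_lit 5) (nat_lit 4) (nat_lit 227) (nat_lit 199) (nat_lit 174)) (XT.lf (nat_lit 0) (nat_lit 17623160631) (nat_lit 76) (nat_lit 33002144128) (nat_lit 76) (nat_lit 18791558503)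 (nat_lit 4) (nat_lit 4) (nat_lit 5) (nat_lit 5) (nat_lit 5) (nat_lit 4) (nat_lit 228) (nat_lit 199) (nat_lit 173))) (XT.nd (nat_lit 78) (nat_lit 76) (nat_lit 0) (XT.lf (nat_lit 0) (nat_lit 38429990748) (nat_lit 76) (nat_lit 27430114546) (nat_lit 76) (nat_lit 13169238204) (nat_lit 4) (nat_lit 4) (nat_lit 5) (nat_lit 5) (nat_lit 5) (nat_lit 4) (nat_lit 229) (nat_lit 199) (nat_lit 172)) (XT.nd (nat_lit 78) (nat_lit 76) (nat_lit 0) (XT.lf (nat_lit 0) (nat_lit 62246351419) (nat_lit 76) (nat_lit 21073431386) (nat_lit 76) (nat_lit 6768823987) (nat_lit 4) (nat_lit 4) (nat_lit 5) (nat_lit 5) (nat_lit 5) (nat_lit 4) (nat_lit 230) (nat_lit 199) (nat_lit 171)) (XT.lf (nat_lit 0) (nat_lit 508151297) (nat_lit 152) (nat_lit 13285679706) (nat_lit 76) (nat_lit 89016169865) (nat_lit 3) (nat_lit 5) (nat_lit 5) (nat_lit 5) (nat_lit 4) (nat_lit 4) (nat_lit 231) (nat_lit 199) (nat_lit 170))))) (XT.nd (nat_lit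 234) (nat_lit 0) (nat_lit 0) (XT.nd (nat_lit 78) (nat_lit 0) (nat_lit 0) (XT.lf (nat_lit 0) (nat_lit 3347812273) (nat_lit 76) (nat_lit 5173107746) (nat_lit 152) (nat_lit 108901074497) (nat_lit 2) (nat_lit 5) (nat_lit 3) (nat_lit 5) (nat_lit 4) (nat_lit 4) (nat_lit 232) (nat_lit 199) (nat_lit 169)) (XT.nd (nat_lit 78) (nat_lit 0) (nat_lit 0) (XT.lf (nat_lit 0) (nat_lit 18202907355) (nat_lit 152) (nat_lit 111120097682) (nat_lit 0) (nat_lit 4865448792) (nat_lit 2) (nat_lit 5) (nat_lit 4) (nat_lit 4) (nat_lit 2) (nat_lit 4) (nat_lit 233) (nat_lit 199) (nat_lit 168)) (XT.lf (nat_lit 0) (nat_lit 29442393204) (nat_lit 152) (nat_lit 107937333676) (nat_lit 0) (nat_lit 16081783368) (nat_lit 2) (nat_lit 5) (nat_lit 4) (nat_lit 4) (nat_lit 2) (nat_lit 4) (nat_lit 234) (nat_lit 199) (nat_lit 167)))) (XT.nd (nat_lit 78) (nat_lit 0) (nat_lit 0) (XT.lf (nat_lit 0) (nat_lit 42334867185) (nat_lit 152)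 (nat_lit 104339205390) (nat_lit 0) (nat_lit 28954125809) (nat_lit 2) (nat_lit 5) (nat_lit 4) (nat_lit 4) (nat_lit 2) (nat_lit 4) (nat_lit 235) (nat_lit 199) (nat_lit 166)) (XT.nd (nat_lit 78) (nat_lit 0) (nat_lit 0) (XT.lf (nat_lit 0) (nat_lit 57132573356) (nat_lit 152) (nat_lit 100255314663) (nat_lit 0) (nat_lit 43734326291) (nat_lit 2) (nat_lit 5) (nat_lit 4) (nat_lit 4) (nat_lit 2) (nat_lit 4) (nat_lit 236) (nat_lit 199) (nat_lit 165)) (XT.lf (nat_lit 0) (nat_lit 74125032053) (nat_lit 152) (nat_lit 95605759283) (nat_lit 0) (nat_lit 60711562651) (nat_lit 2) (nat_lit 5) (nat_lit 4) (nat_lit 4) (nat_lit 2) (nat_lit 4) (nat_lit 237) (nat_lit 199) (nat_lit 164))))))))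
noncomputable def xc23 : XT := (XT.nd (nat_lit 1638) (nat_lit 0) (nat_lit 0) (XT.nd (nat_lit 780) (nat_lit 0) (nat_lit 0) (XT.nd (nat_lit 390) (nat_lit 76) (nat_lit 0) (XT.nd (nat_lit 156) (nat_lit 0) (nat_lit 0) (XT.nd (nat_lit 78) (nat_lit 0) (nat_lit 0) (XT.lf (nat_lit 0) (nat_lit 93644704425) (nat_lit 152) (nat_lit 90299569690) (nat_lit 0) (nat_lit 80217998208) (nat_lit 2) (nat_lit 5) (nat_lit 4) (nat_lit 4) (nat_lit 2) (nat_lit 4) (nat_lit 238) (nat_lit 199) (nat_lit 163)) (XT.lf (nat_lit 0) (nat_lit 116073497105) (nat_lit 152) (nat_lit 84232929131) (nat_lit 0) (nat_lit 102635280615) (nat_lit 2) (nat_lit 5) (nat_lit 4) (nat_lit 4) (nat_lit 2) (nat_lit 4) (nat_lit 239) (nat_lit 199) (nat_lit 162))) (XT.nd (nat_lit 78) (nat_lit 0) (nat_lit 0) (XT.lf (nat_lit 0) (nat_lit 141850234299) (nat_lit 152) (nat_lit 77287142463) (nat_lit 0) (nat_lit 128402008874) (nat_lit 2) (nat_lit 5) (nat_lit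 4) (nat_lit 4) (nat_lit 2) (nat_lit 4) (nat_lit 240) (nat_lit 199) (nat_lit 161)) (XT.nd (nat_lit 78) (nat_lit 0) (nat_lit 0) (XT.lf (nat_lit 0) (nat_lit 171479243473) (nat_lit 152) (nat_lit 69326313862) (nat_lit 0) (nat_lit 158022314627) (nat_lit 2) (nat_lit 5) (nat_lit 4) (nat_lit 4) (nat_lit 2) (nat_lit 4) (nat_lit 241) (nat_lit 199) (nat_lit 160)) (XT.lf (nat_lit 0) (nat_lit 205540222632) (nat_lit 152) (nat_lit 60194687984) (nat_lit 0) (nat_lit 192075725595) (nat_lit 2) (nat_lit 5) (nat_lit 4) (nat_lit 4) (nat_lit 2) (nat_lit 4) (nat_lit 242) (nat_lit 199) (nat_lit 159))))) (XT.nd (nat_lit 156) (nat_lit 76) (nat_lit 0) (XT.nd (nat_lit 78) (nat_lit 0) (nat_lit 0) (XT.lf (nat_lit 0) (nat_lit 244699582239) (nat_lit 152) (nat_lit 49713602585) (nat_lit 0) (nat_lit 231228504165) (nat_lit 2) (nat_lit 5) (nat_lit 4) (nat_lit 4) (nat_lit 2) (nat_lit 4) (nat_lit 243) (nat_lit 199) (nat_lit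 158)) (XT.lf (nat_lit 0) (nat_lit 289723483677) (nat_lit 152) (nat_lit 37677992949) (nat_lit 0) (nat_lit 276246682962) (nat_lit 2) (nat_lit 5) (nat_lit 4) (nat_lit 4) (nat_lit 2) (nat_lit 4) (nat_lit 244) (nat_lit 199) (nat_lit 157))) (XT.nd (nat_lit 78) (nat_lit 76) (nat_lit 0) (XT.lf (nat_lit 0) (nat_lit 341492829365) (nat_lit 152) (nat_lit 23852379759) (nat_lit 0) (nat_lit 328011052441) (nat_lit 2) (nat_lit 5) (nat_lit 4) (nat_lit 4) (nat_lit 2) (nat_lit 4) (nat_lit 245) (nat_lit 199) (nat_lit 156)) (XT.nd (nat_lit 78) (nat_lit 76) (nat_lit 0) (XT.lf (nat_lit 0) (nat_lit 401020497806) (nat_lit 152) (nat_lit 7966261886) (nat_lit 0) (nat_lit 387534393744) (nat_lit 2) (nat_lit 5) (nat_lit 4) (nat_lit 4) (nat_lit 2) (nat_lit 4) (nat_lit 246) (nat_lit 199) (nat_lit 155)) (XT.lf (nat_lit 0) (nat_lit 10833091109) (nat_lit 76) (nat_lit 458898605765) (nat_lit 76) (nat_lit 445408738974) (nat_lit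 1) (nat_lit 4) (nat_lit 2) (nat_lit 5) (nat_lit 2) (nat_lit 4) (nat_lit 247) (nat_lit 199) (nat_lit 154)))))) (XT.nd (nat_lit 390) (nat_lit 0) (nat_lit 0) (XT.nd (nat_lit 156) (nat_lit 0) (nat_lit 0) (XT.nd (nat_lit 78) (nat_lit 0) (nat_lit 0) (XT.lf (nat_lit 0) (nat_lit 32924143708) (nat_lit 76) (nat_lit 516051753109) (nat_lit 76) (nat_lit 502558614379) (nat_lit 1) (nat_lit 4) (nat_lit 2) (nat_lit 5) (nat_lit 2) (nat_lit 4) (nat_lit 248) (nat_lit 199) (nat_lit 153)) (XT.lf (nat_lit 0) (nat_lit 58319622923) (nat_lit 76) (nat_lit 581782227192) (nat_lit 76) (nat_lit 568286243299) (nat_lit 1) (nat_lit 4) (nat_lit 2) (nat_lit 5) (nat_lit 2) (nat_lit 4) (nat_lit 249) (nat_lit 199) (nat_lit 152))) (XT.nd (nat_lit 78) (nat_lit 0) (nat_lit 0) (XT.lf (nat_lit 0) (nat_lit 87516396825) (nat_lit 76) (nat_lit 657376059031) (nat_lit 76) (nat_lit 643877601082) (nat_lit 1) (nat_lit 4) (nat_lit 2) (nat_lit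 5) (nat_lit 2) (nat_lit 4) (nat_lit 250) (nat_lit 199) (nat_lit 151)) (XT.nd (nat_lit 78) (nat_lit 0) (nat_lit 0) (XT.lf (nat_lit 0) (nat_lit 121085706643) (nat_lit 76) (nat_lit 744312258377) (nat_lit 76) (nat_lit 730811649076) (nat_lit 1) (nat_lit 4) (nat_lit 2) (nat_lit 5) (nat_lit 2) (nat_lit 4) (nat_lit 251) (nat_lit 199) (nat_lit 150)) (XT.lf (nat_lit 0) (nat_lit 159684343220) (nat_lit 76) (nat_lit 844291750871) (nat_lit 76) (nat_lit 830789270829) (nat_lit 1) (nat_lit 4) (nat_lit 2) (nat_lit 5) (nat_lit 2) (nat_lit 4) (nat_lit 252) (nat_lit 199) (nat_lit 149))))) (XT.nd (nat_lit 234) (nat_lit 0) (nat_lit 0) (XT.nd (nat_lit 78) (nat_lit 0) (nat_lit 0) (XT.lf (nat_lit 0) (nat_lit 204067497273) (nat_lit 76) (nat_lit 959270657018) (nat_lit 76) (nat_lit 945766550244) (nat_lit 1) (nat_lit 4) (nat_lit 2) (nat_lit 5) (nat_lit 2) (nat_lit 4) (nat_lit 253) (nat_lit 199) (nat_lit 148)) (XT.nd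 (nat_lit 78) (nat_lit 0) (nat_lit 0) (XT.lf (nat_lit 0) (nat_lit 255103534859) (nat_lit 76) (nat_lit 1091498564112) (nat_lit 76) (nat_lit 1077993042789) (nat_lit 1) (nat_lit 4) (nat_lit 2) (nat_lit 5) (nat_lit 2) (nat_lit 4) (nat_lit 254) (nat_lit 199) (nat_lit 147)) (XT.lf (nat_lit 0) (nat_lit 313790987148) (nat_lit 76) (nat_lit 1243562539901) (nat_lit 76) (nat_lit 1230055788535) (nat_lit 1) (nat_lit 4) (nat_lit 2) (nat_lit 5) (nat_lit 2) (nat_lit 4) (nat_lit 255) (nat_lit 199) (nat_lit 146)))) (XT.nd (nat_lit 78) (nat_lit 0) (nat_lit 0) (XT.lf (nat_lit 0) (nat_lit 381278086903) (nat_lit 76) (nat_lit 1418437749128) (nat_lit 76) (nat_lit 1404929928160) (nat_lit 1) (nat_lit 4) (nat_lit 2) (nat_lit 5) (nat_lit 2) (nat_lit 4) (nat_lit 256) (nat_lit 199) (nat_lit 145)) (XT.nd (nat_lit 78) (nat_lit 0) (nat_lit 0) (XT.lf (nat_lit 0) (nat_lit 458885233901) (nat_lit 76) (nat_lit 1619545663278)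 (nat_lit 76) (nat_lit 1606036912221) (nat_lit 1) (nat_lit 4) (nat_lit 2) (nat_lit 5) (nat_lit 2) (nat_lit 4) (nat_lit 257) (nat_lit 199) (nat_lit 144)) (XT.lf (nat_lit 0) (nat_lit 548130828845) (nat_lit 76) (nat_lit 1850821002411) (nat_lit 76) (nat_lit 1837311442580) (nat_lit 1) (nat_lit 4) (nat_lit 2) (nat_lit 5) (nat_lit 2) (nat_lit 4) (nat_lit 258) (nat_lit 199) (nat_lit 143))))))) (XT.nd (nat_lit 27222) (nat_lit 0) (nat_lit 836) (XT.nd (nat_lit 26754) (nat_lit 0) (nat_lit 3116) (XT.nd (nat_lit 156) (nat_lit 0) (nat_lit 0) (XT.nd (nat_lit 78) (nat_lit 0) (nat_lit 0) (XT.lf (nat_lit 0) (nat_lit 650760981200) (nat_lit 76) (nat_lit 2116788718813) (nat_lit 76) (nat_lit 2103278455702) (nat_lit 1) (nat_lit 4) (nat_lit 2) (nat_lit 5) (nat_lit 2) (nat_lit 4) (nat_lit 259) (nat_lit 199) (nat_lit 142)) (XT.lf (nat_lit 0) (nat_lit 768783672209) (nat_lit 76) (nat_lit 2422652528676) (nat_lit 76)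 (nat_lit 2409141654016) (nat_lit 1) (nat_lit 4) (nat_lit 2) (nat_lit 5) (nat_lit 2) (nat_lit 4) (nat_lit 260) (nat_lit 199) (nat_lit 141))) (XT.nd (nat_lit 78) (nat_lit 0) (nat_lit 0) (XT.lf (nat_lit 0) (nat_lit 904508041477) (nat_lit 76) (nat_lit 2774396723932) (nat_lit 76) (nat_lit 2760885317491) (nat_lit 1) (nat_lit 4) (nat_lit 2) (nat_lit 5) (nat_lit 2) (nat_lit 4) (nat_lit 261) (nat_lit 199) (nat_lit 140)) (XT.nd (nat_lit 26442) (nat_lit 0) (nat_lit 4560) (XT.lf (nat_lit 0) (nat_lit 1060589565796) (nat_lit 76) (nat_lit 3178903256227) (nat_lit 76) (nat_lit 3165391387367) (nat_lit 1) (nat_lit 4) (nat_lit 2) (nat_lit 5) (nat_lit 2) (nat_lit 4) (nat_lit 262) (nat_lit 199) (nat_lit 139)) (XT.lf (nat_lit 0) (nat_lit 1073741823) (nat_lit 0) (nat_lit 0) (nat_lit 0) (nat_lit 0) (nat_lit 61) (nat_lit 0) (nat_lit 1) (nat_lit 0) (nat_lit 1) (nat_lit 0) (nat_lit 200) (nat_lit 200) (nat_lit 200)))))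 (XT.nd (nat_lit 234) (nat_lit 988) (nat_lit 0) (XT.nd (nat_lit 78) (nat_lit 380) (nat_lit 0) (XT.lf (nat_lit 0) (nat_lit 5098189537) (nat_lit 76) (nat_lit 1004081989) (nat_lit 0) (nat_lit 371391290) (nat_lit 60) (nat_lit 5) (nat_lit 61) (nat_lit 0) (nat_lit 60) (nat_lit 4) (nat_lit 201) (nat_lit 200) (nat_lit 199)) (XT.nd (nat_lit 78) (nat_lit 228) (nat_lit 0) (XT.lf (nat_lit 0) (nat_lit 3425197951) (nat_lit 152) (nat_lit 1712645852) (nat_lit 76) (nat_lit 1434714652) (nat_lit 58) (nat_lit 5) (nat_lit 60) (nat_lit 5) (nat_lit 59) (nat_lit 4) (nat_lit 202) (nat_lit 200) (nat_lit 198)) (XT.lf (nat_lit 0) (nat_lit 1374605136) (nat_lit 228) (nat_lit 2153100427) (nat_lit 76) (nat_lit 3213175138) (nat_lit 55) (nat_lit 5) (nat_lit 58) (nat_lit 5) (nat_lit 56) (nat_lit 5) (nat_lit 203) (nat_lit 200) (nat_lit 197)))) (XT.nd (nat_lit 78) (nat_lit 760) (nat_lit 0) (XT.lf (nat_lit 0) (nat_lit 4602781917)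 (nat_lit 228) (nat_lit 1206022785) (nat_lit 304) (nat_lit 1170575051) (nat_lit 52) (nat_lit 5) (nat_lit 55) (nat_lit 5) (nat_lit 56) (nat_lit 5) (nat_lit 204) (nat_lit 200) (nat_lit 196)) (XT.nd (nat_lit 78) (nat_lit 380) (nat_lit 0) (XT.lf (nat_lit 0) (nat_lit 3015875077) (nat_lit 380) (nat_lit 2468196412) (nat_lit 76) (nat_lit 1803114494) (nat_lit 47) (nat_lit 5) (nat_lit 52) (nat_lit 5) (nat_lit 48) (nat_lit 5) (nat_lit 205) (nat_lit 200) (nat_lit 195)) (XT.lf (nat_lit 0) (nat_lit 5248684527) (nat_lit 380) (nat_lit 2141883288) (nat_lit 456) (nat_lit 281361342) (nat_lit 42) (nat_lit 5) (nat_lit 47) (nat_lit 5) (nat_lit 48) (nat_lit 5) (nat_lit 206) (nat_lit 200) (nat_lit 194)))))) (XT.nd (nat_lit 390) (nat_lit 836) (nat_lit 0) (XT.nd (nat_lit 156) (nat_lit 684) (nat_lit 0) (XT.nd (nat_lit 78) (nat_lit 228) (nat_lit 0) (XT.lf (nat_lit 0) (nat_lit 3801561357) (nat_lit 532) (nat_lit 2370512429)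 (nat_lit 76) (nat_lit 1960098713) (nat_lit 35) (nat_lit 5) (nat_lit 42) (nat_lit 5) (nat_lit 36) (nat_lit 5) (nat_lit 207) (nat_lit 200) (nat_lit 193)) (XT.lf (nat_lit 0) (nat_lit 6384843163) (nat_lit 228) (nat_lit 1888305604) (nat_lit 304) (nat_lit 406784211) (nat_lit 32) (nat_lit 5) (nat_lit 35) (nat_lit 5) (nat_lit 36) (nat_lit 5) (nat_lit 208) (nat_lit 200) (nat_lit 192))) (XT.nd (nat_lit 78) (nat_lit 456) (nat_lit 0) (XT.lf (nat_lit 0) (nat_lit 3766952222) (nat_lit 228) (nat_lit 2369466662) (nat_lit 76) (nat_lit 3178212019) (nat_lit 29) (nat_lit 5) (nat_lit 32) (nat_lit 5) (nat_lit 30) (nat_lit 5) (nat_lit 209) (nat_lit 200) (nat_lit 191)) (XT.nd (nat_lit 78) (nat_lit 228) (nat_lit 0) (XT.lf (nat_lit 0) (nat_lit 7478901262) (nat_lit 228) (nat_lit 957815702) (nat_lit 304) (nat_lit 1617194614) (nat_lit 26) (nat_lit 5) (nat_lit 29) (nat_lit 5) (nat_lit 30) (nat_lit 5) (nat_lit 210)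 (nat_lit 200) (nat_lit 190)) (XT.lf (nat_lit 0) (nat_lit 2768397591) (nat_lit 228) (nat_lit 3142808712) (nat_lit 76) (nat_lit 4987840185) (nat_lit 23) (nat_lit 5) (nat_lit 26) (nat_lit 5) (nat_lit 24) (nat_lit 5) (nat_lit 211) (nat_lit 200) (nat_lit 189))))) (XT.nd (nat_lit 234) (nat_lit 304) (nat_lit 0) (XT.nd (nat_lit 78) (nat_lit 380) (nat_lit 0) (XT.lf (nat_lit 0) (nat_lit 7671847223) (nat_lit 228) (nat_lit 4096280767) (nat_lit 76) (nat_lit 104224861) (nat_lit 21) (nat_lit 5) (nat_lit 24) (nat_lit 5) (nat_lit 22) (nat_lit 4) (nat_lit 212) (nat_lit 200) (nat_lit 188)) (XT.nd (nat_lit 78) (nat_lit 152) (nat_lit 0) (XT.lf (nat_lit 0) (nat_lit 429223749) (nat_lit 228) (nat_lit 5704629754) (nat_lit 76) (nat_lit 6848090356) (nat_lit 18) (nat_lit 5) (nat_lit 21) (nat_lit 5) (nat_lit 19) (nat_lit 5) (nat_lit 213) (nat_lit 200) (nat_lit 187)) (XT.lf (nat_lit 0) (nat_lit 5509653218) (nat_lit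 228) (nat_lit 8149040337) (nat_lit 76) (nat_lit 591011714) (nat_lit 16) (nat_lit 5) (nat_lit 19) (nat_lit 5) (nat_lit 17) (nat_lit 4) (nat_lit 214) (nat_lit 200) (nat_lit 186)))) (XT.nd (nat_lit 78) (nat_lit 228) (nat_lit 0) (XT.lf (nat_lit 0) (nat_lit 3942497497) (nat_lit 76) (nat_lit 7582786175) (nat_lit 152) (nat_lit 4169241225) (nat_lit 15) (nat_lit 5) (nat_lit 16) (nat_lit 5) (nat_lit 17) (nat_lit 4) (nat_lit 215) (nat_lit 200) (nat_lit 185)) (XT.nd (nat_lit 78) (nat_lit 0) (nat_lit 0) (XT.lf (nat_lit 0) (nat_lit 615172285) (nat_lit 152) (nat_lit 432497337) (nat_lit 228) (nat_lit 16305716745) (nat_lit 12) (nat_lit 5) (nat_lit 14) (nat_lit 5) (nat_lit 15) (nat_lit 5) (nat_lit 216) (nat_lit 200) (nat_lit 184)) (XT.lf (nat_lit 0) (nat_lit 7122294771) (nat_lit 228) (nat_lit 4365694391) (nat_lit 76) (nat_lit 7739182627) (nat_lit 12) (nat_lit 5) (nat_lit 15) (nat_lit 5) (nat_lit 13) (nat_lit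 4) (nat_lit 217) (nat_lit 200) (nat_lit 183))))))))
noncomputable def xc24 : XT := (XT.nd (nat_lit 1638) (nat_lit 76) (nat_lit 0) (XT.nd (nat_lit 780) (nat_lit 228) (nat_lit 0) (XT.nd (nat_lit 390) (nat_lit 228) (nat_lit 0) (XT.nd (nat_lit 156) (nat_lit 152) (nat_lit 0) (XT.nd (nat_lit 78) (nat_lit 76) (nat_lit 0) (XT.lf (nat_lit 0) (nat_lit 10031192267) (nat_lit 76) (nat_lit 4135900628) (nat_lit 152) (nat_lit 7210667316) (nat_lit 11) (nat_lit 5) (nat_lit 12) (nat_lit 5) (nat_lit 13) (nat_lit 4) (nat_lit 218) (nat_lit 200) (nat_lit 182)) (XT.lf (nat_lit 0) (nat_lit 2735083544) (nat_lit 76) (nat_lit 19654767230) (nat_lit 76) (nat_lit 1451781288) (nat_lit 10) (nat_lit 4) (nat_lit 11) (nat_lit 5) (nat_lit 11) (nat_lit 4) (nat_lit 219) (nat_lit 200) (nat_lit 181))) (XT.nd (nat_lit 78) (nat_lit 76) (nat_lit 0) (XT.lf (nat_lit 0) (nat_lit 5198816704) (nat_lit 152) (nat_lit 7568886698) (nat_lit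 76) (nat_lit 13874825897) (nat_lit 9) (nat_lit 5) (nat_lit 11) (nat_lit 5) (nat_lit 10) (nat_lit 4) (nat_lit 220) (nat_lit 200) (nat_lit 180)) (XT.nd (nat_lit 78) (nat_lit 0) (nat_lit 0) (XT.lf (nat_lit 0) (nat_lit 8113859300) (nat_lit 76) (nat_lit 4699755648) (nat_lit 152) (nat_lit 17042999819) (nat_lit 8) (nat_lit 5) (nat_lit 9) (nat_lit 5) (nat_lit 10) (nat_lit 4) (nat_lit 221) (nat_lit 200) (nat_lit 179)) (XT.lf (nat_lit 0) (nat_lit 21772832072) (nat_lit 152) (nat_lit 7282085146) (nat_lit 0) (nat_lit 4481960001) (nat_lit 8) (nat_lit 5) (nat_lit 10) (nat_lit 4) (nat_lit 8) (nat_lit 4) (nat_lit 222) (nat_lit 200) (nat_lit 178))))) (XT.nd (nat_lit 156) (nat_lit 76) (nat_lit 0) (XT.nd (nat_lit 78) (nat_lit 76) (nat_lit 0) (XT.lf (nat_lit 0) (nat_lit 9484839137) (nat_lit 76) (nat_lit 22832669694) (nat_lit 76) (nat_lit 5432552822) (nat_lit 7) (nat_lit 4) (nat_lit 8) (nat_lit 5) (nat_lit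 8) (nat_lit 4) (nat_lit 223) (nat_lit 200) (nat_lit 177)) (XT.lf (nat_lit 0) (nat_lit 1864896299) (nat_lit 152) (nat_lit 13616128049) (nat_lit 76) (nat_lit 27102113826) (nat_lit 6) (nat_lit 5) (nat_lit 8) (nat_lit 5) (nat_lit 7) (nat_lit 4) (nat_lit 224) (nat_lit 200) (nat_lit 176))) (XT.nd (nat_lit 78) (nat_lit 0) (nat_lit 0) (XT.lf (nat_lit 0) (nat_lit 3063153596) (nat_lit 76) (nat_lit 6860341938) (nat_lit 152) (nat_lit 38207482349) (nat_lit 5) (nat_lit 5) (nat_lit 6) (nat_lit 5) (nat_lit 7) (nat_lit 4) (nat_lit 225) (nat_lit 200) (nat_lit 175)) (XT.nd (nat_lit 78) (nat_lit 0) (nat_lit 0) (XT.lf (nat_lit 0) (nat_lit 19583339349) (nat_lit 152) (nat_lit 31655219051) (nat_lit 0) (nat_lit 3241165881) (nat_lit 5) (nat_lit 5) (nat_lit 7) (nat_lit 4) (nat_lit 5) (nat_lit 4) (nat_lit 226) (nat_lit 200) (nat_lit 174)) (XT.lf (nat_lit 0) (nat_lit 30805642274) (nat_lit 152) (nat_lit 16560537808)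 (nat_lit 0) (nat_lit 14405634481) (nat_lit 5) (nat_lit 5) (nat_lit 7) (nat_lit 4) (nat_lit 5) (nat_lit 4) (nat_lit 227) (nat_lit 200) (nat_lit 173)))))) (XT.nd (nat_lit 390) (nat_lit 76) (nat_lit 0) (XT.nd (nat_lit 156) (nat_lit 76) (nat_lit 0) (XT.nd (nat_lit 78) (nat_lit 0) (nat_lit 0) (XT.lf (nat_lit 0) (nat_lit 712167029) (nat_lit 76) (nat_lit 42949940321) (nat_lit 76) (nat_lit 26499641813) (nat_lit 4) (nat_lit 4) (nat_lit 5) (nat_lit 5) (nat_lit 5) (nat_lit 4) (nat_lit 228) (nat_lit 200) (nat_lit 172)) (XT.lf (nat_lit 0) (nat_lit 21467139489) (nat_lit 76) (nat_lit 37401701836) (nat_lit 76) (nat_lit 20907672270) (nat_lit 4) (nat_lit 4) (nat_lit 5) (nat_lit 5) (nat_lit 5) (nat_lit 4) (nat_lit 229) (nat_lit 200) (nat_lit 171))) (XT.nd (nat_lit 78) (nat_lit 76) (nat_lit 0) (XT.lf (nat_lit 0) (nat_lit 45238406545) (nat_lit 76) (nat_lit 31065706588) (nat_lit 76) (nat_lit 14533650015) (nat_lit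 4) (nat_lit 4) (nat_lit 5) (nat_lit 5) (nat_lit 5) (nat_lit 4) (nat_lit 230) (nat_lit 200) (nat_lit 170)) (XT.nd (nat_lit 78) (nat_lit 76) (nat_lit 0) (XT.lf (nat_lit 0) (nat_lit 72491058207) (nat_lit 76) (nat_lit 23817989450) (nat_lit 76) (nat_lit 7252865915) (nat_lit 4) (nat_lit 4) (nat_lit 5) (nat_lit 5) (nat_lit 5) (nat_lit 4) (nat_lit 231) (nat_lit 200) (nat_lit 169)) (XT.lf (nat_lit 0) (nat_lit 1023247739) (nat_lit 152) (nat_lit 14465522117) (nat_lit 76) (nat_lit 102707073381) (nat_lit 3) (nat_lit 5) (nat_lit 5) (nat_lit 5) (nat_lit 4) (nat_lit 4) (nat_lit 232) (nat_lit 200) (nat_lit 168))))) (XT.nd (nat_lit 234) (nat_lit 0) (nat_lit 0) (XT.nd (nat_lit 78) (nat_lit 0) (nat_lit 0) (XT.lf (nat_lit 0) (nat_lit 4594176451) (nat_lit 76) (nat_lit 5604408760) (nat_lit 152) (nat_lit 124804269906) (nat_lit 2) (nat_lit 5) (nat_lit 3) (nat_lit 5) (nat_lit 4) (nat_lit 4) (nat_lit 233) (nat_lit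 200) (nat_lit 167)) (XT.nd (nat_lit 78) (nat_lit 0) (nat_lit 0) (XT.lf (nat_lit 0) (nat_lit 21287966409) (nat_lit 152) (nat_lit 127119989110) (nat_lit 0) (nat_lit 5879982285) (nat_lit 2) (nat_lit 5) (nat_lit 4) (nat_lit 4) (nat_lit 2) (nat_lit 4) (nat_lit 234) (nat_lit 200) (nat_lit 166)) (XT.lf (nat_lit 0) (nat_lit 34167119968) (nat_lit 152) (nat_lit 123546957011) (nat_lit 0) (nat_lit 18741630156) (nat_lit 2) (nat_lit 5) (nat_lit 4) (nat_lit 4) (nat_lit 2) (nat_lit 4) (nat_lit 235) (nat_lit 200) (nat_lit 165)))) (XT.nd (nat_lit 78) (nat_lit 0) (nat_lit 0) (XT.lf (nat_lit 0) (nat_lit 48953243162) (nat_lit 152) (nat_lit 119484889054) (nat_lit 0) (nat_lit 33512531013) (nat_lit 2) (nat_lit 5) (nat_lit 4) (nat_lit 4) (nat_lit 2) (nat_lit 4) (nat_lit 236) (nat_lit 200) (nat_lit 164)) (XT.nd (nat_lit 78) (nat_lit 0) (nat_lit 0) (XT.lf (nat_lit 0) (nat_lit 65935629706) (nat_lit 152) (nat_lit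 114854309997) (nat_lit 0) (nat_lit 50481680741) (nat_lit 2) (nat_lit 5) (nat_lit 4) (nat_lit 4) (nat_lit 2) (nat_lit 4) (nat_lit 237) (nat_lit 200) (nat_lit 163)) (XT.lf (nat_lit 0) (nat_lit 85446543684) (nat_lit 152) (nat_lit 109564621554) (nat_lit 0) (nat_lit 69981084445) (nat_lit 2) (nat_lit 5) (nat_lit 4) (nat_lit 4) (nat_lit 2) (nat_lit 4) (nat_lit 238) (nat_lit 200) (nat_lit 162))))))) (XT.nd (nat_lit 780) (nat_lit 0) (nat_lit 0) (XT.nd (nat_lit 390) (nat_lit 76) (nat_lit 0) (XT.nd (nat_lit 156) (nat_lit 0) (nat_lit 0) (XT.nd (nat_lit 78) (nat_lit 0) (nat_lit 0) (XT.lf (nat_lit 0) (nat_lit 107867720370) (nat_lit 152) (nat_lit 103512329820) (nat_lit 0) (nat_lit 92392252197) (nat_lit 2) (nat_lit 5) (nat_lit 4) (nat_lit 4) (nat_lit 2) (nat_lit 4) (nat_lit 239) (nat_lit 200) (nat_lit 161)) (XT.lf (nat_lit 0) (nat_lit 133637834959) (nat_lit 152) (nat_lit 96579020393) (nat_lit 0) (nat_lit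 118153663366) (nat_lit 2) (nat_lit 5) (nat_lit 4) (nat_lit 4) (nat_lit 2) (nat_lit 4) (nat_lit 240) (nat_lit 200) (nat_lit 160))) (XT.nd (nat_lit 78) (nat_lit 0) (nat_lit 0) (XT.lf (nat_lit 0) (nat_lit 163261085347) (nat_lit 152) (nat_lit 88629041565) (nat_lit 0) (nat_lit 147769345562) (nat_lit 2) (nat_lit 5) (nat_lit 4) (nat_lit 4) (nat_lit 2) (nat_lit 4) (nat_lit 241) (nat_lit 200) (nat_lit 159)) (XT.nd (nat_lit 78) (nat_lit 0) (nat_lit 0) (XT.lf (nat_lit 0) (nat_lit 197317056866) (nat_lit 152) (nat_lit 79506850274) (nat_lit 0) (nat_lit 181818736044) (nat_lit 2) (nat_lit 5) (nat_lit 4) (nat_lit 4) (nat_lit 2) (nat_lit 4) (nat_lit 242) (nat_lit 200) (nat_lit 158)) (XT.lf (nat_lit 0) (nat_lit 236472062003) (nat_lit 152) (nat_lit 69033968862) (nat_lit 0) (nat_lit 220968018540) (nat_lit 2) (nat_lit 5) (nat_lit 4) (nat_lit 4) (nat_lit 2) (nat_lit 4) (nat_lit 243) (nat_lit 200) (nat_lit 157)))))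 (XT.nd (nat_lit 156) (nat_lit 76) (nat_lit 0) (XT.nd (nat_lit 78) (nat_lit 0) (nat_lit 0) (XT.lf (nat_lit 0) (nat_lit 281492176945) (nat_lit 152) (nat_lit 57005493129) (nat_lit 0) (nat_lit 265983157274) (nat_lit 2) (nat_lit 5) (nat_lit 4) (nat_lit 4) (nat_lit 2) (nat_lit 4) (nat_lit 244) (nat_lit 200) (nat_lit 156)) (XT.lf (nat_lit 0) (nat_lit 333258230028) (nat_lit 152) (nat_lit 43186083333) (nat_lit 0) (nat_lit 317744883218) (nat_lit 2) (nat_lit 5) (nat_lit 4) (nat_lit 4) (nat_lit 2) (nat_lit 4) (nat_lit 245) (nat_lit 200) (nat_lit 155))) (XT.nd (nat_lit 78) (nat_lit 76) (nat_lit 0) (XT.lf (nat_lit 0) (nat_lit 392783035335) (nat_lit 152) (nat_lit 27305359715) (nat_lit 0) (nat_lit 377265925796) (nat_lit 2) (nat_lit 5) (nat_lit 4) (nat_lit 4) (nat_lit 2) (nat_lit 4) (nat_lit 246) (nat_lit 200) (nat_lit 154)) (XT.nd (nat_lit 78) (nat_lit 76) (nat_lit 0) (XT.lf (nat_lit 0) (nat_lit 461231208620)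 (nat_lit 152) (nat_lit 9052612467) (nat_lit 0) (nat_lit 445710827143) (nat_lit 2) (nat_lit 5) (nat_lit 4) (nat_lit 4) (nat_lit 2) (nat_lit 4) (nat_lit 247) (nat_lit 200) (nat_lit 153)) (XT.lf (nat_lit 0) (nat_lit 12557451985) (nat_lit 76) (nat_lit 527686508312) (nat_lit 76) (nat_lit 512163281671) (nat_lit 1) (nat_lit 4) (nat_lit 2) (nat_lit 5) (nat_lit 2) (nat_lit 4) (nat_lit 248) (nat_lit 200) (nat_lit 152)))))) (XT.nd (nat_lit 390) (nat_lit 0) (nat_lit 0) (XT.nd (nat_lit 156) (nat_lit 0) (nat_lit 0) (XT.nd (nat_lit 78) (nat_lit 0) (nat_lit 0) (XT.lf (nat_lit 0) (nat_lit 37949197621) (nat_lit 76) (nat_lit 593418743624) (nat_lit 76) (nat_lit 577893042928) (nat_lit 1) (nat_lit 4) (nat_lit 2) (nat_lit 5) (nat_lit 2) (nat_lit 4) (nat_lit 249) (nat_lit 200) (nat_lit 151)) (XT.lf (nat_lit 0) (nat_lit 67142724932) (nat_lit 76) (nat_lit 669014106966) (nat_lit 76) (nat_lit 653486254917) (nat_lit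 1) (nat_lit 4) (nat_lit 2) (nat_lit 5) (nat_lit 2) (nat_lit 4) (nat_lit 250) (nat_lit 200) (nat_lit 150))) (XT.nd (nat_lit 78) (nat_lit 0) (nat_lit 0) (XT.lf (nat_lit 0) (nat_lit 100709211628) (nat_lit 76) (nat_lit 755951638055) (nat_lit 76) (nat_lit 740421915265) (nat_lit 1) (nat_lit 4) (nat_lit 2) (nat_lit 5) (nat_lit 2) (nat_lit 4) (nat_lit 251) (nat_lit 200) (nat_lit 149)) (XT.nd (nat_lit 78) (nat_lit 0) (nat_lit 0) (XT.lf (nat_lit 0) (nat_lit 139305393316) (nat_lit 76) (nat_lit 855932288585) (nat_lit 76) (nat_lit 840400939064) (nat_lit 1) (nat_lit 4) (nat_lit 2) (nat_lit 5) (nat_lit 2) (nat_lit 4) (nat_lit 252) (nat_lit 200) (nat_lit 148)) (XT.lf (nat_lit 0) (nat_lit 183686412683) (nat_lit 76) (nat_lit 970912201721) (nat_lit 76) (nat_lit 955379437650) (nat_lit 1) (nat_lit 4) (nat_lit 2) (nat_lit 5) (nat_lit 2) (nat_lit 4) (nat_lit 253) (nat_lit 200) (nat_lit 147))))) (XT.nd (nat_lit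 234) (nat_lit 0) (nat_lit 0) (XT.nd (nat_lit 78) (nat_lit 0) (nat_lit 0) (XT.lf (nat_lit 0) (nat_lit 234720594021) (nat_lit 76) (nat_lit 1103140984457) (nat_lit 76) (nat_lit 1087606990343) (nat_lit 1) (nat_lit 4) (nat_lit 2) (nat_lit 5) (nat_lit 2) (nat_lit 4) (nat_lit 254) (nat_lit 200) (nat_lit 146)) (XT.nd (nat_lit 78) (nat_lit 0) (nat_lit 0) (XT.lf (nat_lit 0) (nat_lit 293406432181) (nat_lit 76) (nat_lit 1255205721673) (nat_lit 76) (nat_lit 1239670657958) (nat_lit 1) (nat_lit 4) (nat_lit 2) (nat_lit 5) (nat_lit 2) (nat_lit 4) (nat_lit 255) (nat_lit 200) (nat_lit 145)) (XT.lf (nat_lit 0) (nat_lit 360892128345) (nat_lit 76) (nat_lit 1430081593012) (nat_lit 76) (nat_lit 1414545599207) (nat_lit 1) (nat_lit 4) (nat_lit 2) (nat_lit 5) (nat_lit 2) (nat_lit 4) (nat_lit 256) (nat_lit 200) (nat_lit 144)))) (XT.nd (nat_lit 78) (nat_lit 0) (nat_lit 0) (XT.lf (nat_lit 0) (nat_lit 438498054829)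 (nat_lit 76) (nat_lit 1631190082911) (nat_lit 76) (nat_lit 1615653280333) (nat_lit 1) (nat_lit 4) (nat_lit 2) (nat_lit 5) (nat_lit 2) (nat_lit 4) (nat_lit 257) (nat_lit 200) (nat_lit 143)) (XT.nd (nat_lit 78) (nat_lit 0) (nat_lit 0) (XT.lf (nat_lit 0) (nat_lit 527742588457) (nat_lit 76) (nat_lit 1862465922694) (nat_lit 76) (nat_lit 1846928416835) (nat_lit 1) (nat_lit 4) (nat_lit 2) (nat_lit 5) (nat_lit 2) (nat_lit 4) (nat_lit 258) (nat_lit 200) (nat_lit 142)) (XT.lf (nat_lit 0) (nat_lit 630371817928) (nat_lit 76) (nat_lit 2128434074446) (nat_lit 76) (nat_lit 2112895957038) (nat_lit 1) (nat_lit 4) (nat_lit 2) (nat_lit 5) (nat_lit 2) (nat_lit 4) (nat_lit 259) (nat_lit 200) (nat_lit 141))))))))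
noncomputable def xc25 : XT := (XT.nd (nat_lit 28080) (nat_lit 0) (nat_lit 76) (XT.nd (nat_lit 27222) (nat_lit 0) (nat_lit 836) (XT.nd (nat_lit 26832) (nat_lit 0) (nat_lit 2584) (XT.nd (nat_lit 156) (nat_lit 0) (nat_lit 0) (XT.nd (nat_lit 78) (nat_lit 0) (nat_lit 0) (XT.lf (nat_lit 0) (nat_lit 748393706429) (nat_lit 76) (nat_lit 2434298262873) (nat_lit 76) (nat_lit 2418759613684) (nat_lit 1) (nat_lit 4) (nat_lit 2) (nat_lit 5) (nat_lit 2) (nat_lit 4) (nat_lit 260) (nat_lit 200) (nat_lit 140)) (XT.lf (nat_lit 0) (nat_lit 884117377865) (nat_lit 76) (nat_lit 2786042787315) (nat_lit 76) (nat_lit 2770503675708) (nat_lit 1) (nat_lit 4) (nat_lit 2) (nat_lit 5) (nat_lit 2) (nat_lit 4) (nat_lit 261) (nat_lit 200) (nat_lit 139))) (XT.nd (nat_lit 26520) (nat_lit 0) (nat_lit 4028) (XT.lf (nat_lit 0) (nat_lit 1040198295373) (nat_lit 76) (nat_lit 3190549605859) (nat_lit 76) (nat_lit 3175010092148)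 (nat_lit 1) (nat_lit 4) (nat_lit 2) (nat_lit 5) (nat_lit 2) (nat_lit 4) (nat_lit 262) (nat_lit 200) (nat_lit 138)) (XT.nd (nat_lit 78) (nat_lit 228) (nat_lit 0) (XT.lf (nat_lit 0) (nat_lit 1525849300) (nat_lit 228) (nat_lit 871466975) (nat_lit 228) (nat_lit 871466975) (nat_lit 57) (nat_lit 3) (nat_lit 60) (nat_lit 3) (nat_lit 60) (nat_lit 5) (nat_lit 201) (nat_lit 201) (nat_lit 198)) (XT.lf (nat_lit 0) (nat_lit 647571789) (nat_lit 228) (nat_lit 2828185643) (nat_lit 304) (nat_lit 3194142798) (nat_lit 54) (nat_lit 5) (nat_lit 57) (nat_lit 3) (nat_lit 58) (nat_lit 5) (nat_lit 202) (nat_lit 201) (nat_lit 197))))) (XT.nd (nat_lit 156) (nat_lit 1216) (nat_lit 0) (XT.nd (nat_lit 78) (nat_lit 228) (nat_lit 0) (XT.lf (nat_lit 76) (nat_lit 3162197760) (nat_lit 0) (nat_lit 1424206810) (nat_lit 304) (nat_lit 2282186009) (nat_lit 55) (nat_lit 5) (nat_lit 54) (nat_lit 5) (nat_lit 58) (nat_lit 5) (nat_lit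 203) (nat_lit 201) (nat_lit 196)) (XT.lf (nat_lit 0) (nat_lit 1425596274) (nat_lit 304) (nat_lit 4404223833) (nat_lit 76) (nat_lit 1306870644) (nat_lit 51) (nat_lit 5) (nat_lit 55) (nat_lit 5) (nat_lit 52) (nat_lit 5) (nat_lit 204) (nat_lit 201) (nat_lit 195))) (XT.nd (nat_lit 78) (nat_lit 912) (nat_lit 0) (XT.lf (nat_lit 0) (nat_lit 2474560818) (nat_lit 304) (nat_lit 2699537909) (nat_lit 380) (nat_lit 2300155593) (nat_lit 47) (nat_lit 5) (nat_lit 51) (nat_lit 5) (nat_lit 52) (nat_lit 5) (nat_lit 205) (nat_lit 201) (nat_lit 194)) (XT.nd (nat_lit 78) (nat_lit 456) (nat_lit 0) (XT.lf (nat_lit 0) (nat_lit 1217253139) (nat_lit 456) (nat_lit 5502723438) (nat_lit 76) (nat_lit 1168145747) (nat_lit 41) (nat_lit 5) (nat_lit 47) (nat_lit 5) (nat_lit 42) (nat_lit 5) (nat_lit 206) (nat_lit 201) (nat_lit 193)) (XT.lf (nat_lit 0) (nat_lit 2339088176) (nat_lit 456) (nat_lit 2590020090) (nat_lit 532)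 (nat_lit 3448436486) (nat_lit 35) (nat_lit 5) (nat_lit 41) (nat_lit 5) (nat_lit 42) (nat_lit 5) (nat_lit 207) (nat_lit 201) (nat_lit 192)))))) (XT.nd (nat_lit 390) (nat_lit 684) (nat_lit 0) (XT.nd (nat_lit 156) (nat_lit 608) (nat_lit 0) (XT.nd (nat_lit 78) (nat_lit 152) (nat_lit 0) (XT.lf (nat_lit 0) (nat_lit 83036632) (nat_lit 304) (nat_lit 6593803834) (nat_lit 76) (nat_lit 2277970728) (nat_lit 31) (nat_lit 5) (nat_lit 35) (nat_lit 5) (nat_lit 32) (nat_lit 5) (nat_lit 208) (nat_lit 201) (nat_lit 191)) (XT.lf (nat_lit 0) (nat_lit 2278750072) (nat_lit 152) (nat_lit 1579407374) (nat_lit 228) (nat_lit 5761643209) (nat_lit 29) (nat_lit 5) (nat_lit 31) (nat_lit 5) (nat_lit 32) (nat_lit 5) (nat_lit 209) (nat_lit 201) (nat_lit 190))) (XT.nd (nat_lit 78) (nat_lit 380) (nat_lit 0) (XT.lf (nat_lit 0) (nat_lit 2072096279) (nat_lit 228) (nat_lit 6123083748) (nat_lit 304) (nat_lit 2191227509) (nat_lit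 26) (nat_lit 5) (nat_lit 29) (nat_lit 5) (nat_lit 30) (nat_lit 5) (nat_lit 210) (nat_lit 201) (nat_lit 189)) (XT.nd (nat_lit 78) (nat_lit 152) (nat_lit 0) (XT.lf (nat_lit 0) (nat_lit 1661245899) (nat_lit 152) (nat_lit 133573991) (nat_lit 228) (nat_lit 9472656928) (nat_lit 23) (nat_lit 5) (nat_lit 25) (nat_lit 5) (nat_lit 26) (nat_lit 5) (nat_lit 211) (nat_lit 201) (nat_lit 188)) (XT.lf (nat_lit 0) (nat_lit 780471779) (nat_lit 152) (nat_lit 5606090188) (nat_lit 228) (nat_lit 5879652696) (nat_lit 21) (nat_lit 5) (nat_lit 23) (nat_lit 5) (nat_lit 24) (nat_lit 5) (nat_lit 212) (nat_lit 201) (nat_lit 187))))) (XT.nd (nat_lit 234) (nat_lit 304) (nat_lit 0) (XT.nd (nat_lit 78) (nat_lit 380) (nat_lit 0) (XT.lf (nat_lit 0) (nat_lit 11714314384) (nat_lit 228) (nat_lit 511601016) (nat_lit 76) (nat_lit 1185993069) (nat_lit 21) (nat_lit 5) (nat_lit 24) (nat_lit 5) (nat_lit 22) (nat_lit 4) (nat_lit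 213) (nat_lit 201) (nat_lit 186)) (XT.nd (nat_lit 78) (nat_lit 152) (nat_lit 0) (XT.lf (nat_lit 0) (nat_lit 3176503634) (nat_lit 228) (nat_lit 2567339518) (nat_lit 76) (nat_lit 8962739563) (nat_lit 18) (nat_lit 5) (nat_lit 21) (nat_lit 5) (nat_lit 19) (nat_lit 5) (nat_lit 214) (nat_lit 201) (nat_lit 185)) (XT.lf (nat_lit 0) (nat_lit 8786638477) (nat_lit 228) (nat_lit 5545435819) (nat_lit 76) (nat_lit 1852068982) (nat_lit 16) (nat_lit 5) (nat_lit 19) (nat_lit 5) (nat_lit 17) (nat_lit 4) (nat_lit 215) (nat_lit 201) (nat_lit 184)))) (XT.nd (nat_lit 78) (nat_lit 228) (nat_lit 0) (XT.lf (nat_lit 0) (nat_lit 8035984184) (nat_lit 76) (nat_lit 7433219898) (nat_lit 152) (nat_lit 2396224280) (nat_lit 15) (nat_lit 5) (nat_lit 16) (nat_lit 5) (nat_lit 17) (nat_lit 4) (nat_lit 216) (nat_lit 201) (nat_lit 183)) (XT.nd (nat_lit 78) (nat_lit 0) (nat_lit 0) (XT.lf (nat_lit 0) (nat_lit 3284250988) (nat_lit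 228) (nat_lit 15776866483) (nat_lit 76) (nat_lit 724039091) (nat_lit 12) (nat_lit 5) (nat_lit 15) (nat_lit 5) (nat_lit 13) (nat_lit 4) (nat_lit 217) (nat_lit 201) (nat_lit 182)) (XT.lf (nat_lit 0) (nat_lit 10009241360) (nat_lit 228) (nat_lit 2011750372) (nat_lit 76) (nat_lit 9940521300) (nat_lit 12) (nat_lit 5) (nat_lit 15) (nat_lit 5) (nat_lit 13) (nat_lit 4) (nat_lit 218) (nat_lit 201) (nat_lit 181))))))) (XT.nd (nat_lit 780) (nat_lit 228) (nat_lit 0) (XT.nd (nat_lit 390) (nat_lit 228) (nat_lit 0) (XT.nd (nat_lit 156) (nat_lit 152) (nat_lit 0) (XT.nd (nat_lit 78) (nat_lit 76) (nat_lit 0) (XT.lf (nat_lit 0) (nat_lit 14289989505) (nat_lit 76) (nat_lit 3649797306) (nat_lit 152) (nat_lit 6509134567) (nat_lit 11) (nat_lit 5) (nat_lit 12) (nat_lit 5) (nat_lit 13) (nat_lit 4) (nat_lit 219) (nat_lit 201) (nat_lit 180)) (XT.lf (nat_lit 0) (nat_lit 5766016712) (nat_lit 76) (nat_lit 21501200656)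 (nat_lit 76) (nat_lit 25937545) (nat_lit 10) (nat_lit 4) (nat_lit 11) (nat_lit 5) (nat_lit 11) (nat_lit 4) (nat_lit 220) (nat_lit 201) (nat_lit 179))) (XT.nd (nat_lit 78) (nat_lit 76) (nat_lit 0) (XT.lf (nat_lit 0) (nat_lit 7336370393) (nat_lit 152) (nat_lit 6351294735) (nat_lit 76) (nat_lit 16840039853) (nat_lit 9) (nat_lit 5) (nat_lit 11) (nat_lit 5) (nat_lit 10) (nat_lit 4) (nat_lit 221) (nat_lit 201) (nat_lit 178)) (XT.nd (nat_lit 78) (nat_lit 0) (nat_lit 0) (XT.lf (nat_lit 0) (nat_lit 11484699784) (nat_lit 76) (nat_lit 4483391237) (nat_lit 152) (nat_lit 18266173240) (nat_lit 8) (nat_lit 5) (nat_lit 9) (nat_lit 5) (nat_lit 10) (nat_lit 4) (nat_lit 222) (nat_lit 201) (nat_lit 177)) (XT.lf (nat_lit 0) (nat_lit 26129706261) (nat_lit 152) (nat_lit 6433140218) (nat_lit 0) (nat_lit 5915331578) (nat_lit 8) (nat_lit 5) (nat_lit 10) (nat_lit 4) (nat_lit 8) (nat_lit 4) (nat_lit 223) (nat_lit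 201) (nat_lit 176))))) (XT.nd (nat_lit 156) (nat_lit 76) (nat_lit 0) (XT.nd (nat_lit 78) (nat_lit 76) (nat_lit 0) (XT.lf (nat_lit 0) (nat_lit 12684504912) (nat_lit 76) (nat_lit 25472017324) (nat_lit 76) (nat_lit 5175037876) (nat_lit 7) (nat_lit 4) (nat_lit 8) (nat_lit 5) (nat_lit 8) (nat_lit 4) (nat_lit 224) (nat_lit 201) (nat_lit 175)) (XT.lf (nat_lit 0) (nat_lit 3030502209) (nat_lit 152) (nat_lit 14065365083) (nat_lit 76) (nat_lit 31802503274) (nat_lit 6) (nat_lit 5) (nat_lit 8) (nat_lit 5) (nat_lit 7) (nat_lit 4) (nat_lit 225) (nat_lit 201) (nat_lit 174))) (XT.nd (nat_lit 78) (nat_lit 0) (nat_lit 0) (XT.lf (nat_lit 0) (nat_lit 4980953873) (nat_lit 76) (nat_lit 7236461809) (nat_lit 152) (nat_lit 43067587116) (nat_lit 5) (nat_lit 5) (nat_lit 6) (nat_lit 5) (nat_lit 7) (nat_lit 4) (nat_lit 226) (nat_lit 201) (nat_lit 173)) (XT.nd (nat_lit 78) (nat_lit 0) (nat_lit 0) (XT.lf (nat_lit 0)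 (nat_lit 23234839238) (nat_lit 152) (nat_lit 35091983658) (nat_lit 0) (nat_lit 4266705237) (nat_lit 5) (nat_lit 5) (nat_lit 7) (nat_lit 4) (nat_lit 5) (nat_lit 4) (nat_lit 227) (nat_lit 201) (nat_lit 172)) (XT.lf (nat_lit 0) (nat_lit 36047357299) (nat_lit 152) (nat_lit 17904167827) (nat_lit 0) (nat_lit 17035492240) (nat_lit 5) (nat_lit 5) (nat_lit 7) (nat_lit 4) (nat_lit 5) (nat_lit 4) (nat_lit 228) (nat_lit 201) (nat_lit 171)))))) (XT.nd (nat_lit 390) (nat_lit 76) (nat_lit 0) (XT.nd (nat_lit 156) (nat_lit 76) (nat_lit 0) (XT.nd (nat_lit 78) (nat_lit 0) (nat_lit 0) (XT.lf (nat_lit 0) (nat_lit 1862909268) (nat_lit 76) (nat_lit 48913506230) (nat_lit 76) (nat_lit 29863614164) (nat_lit 4) (nat_lit 4) (nat_lit 5) (nat_lit 5) (nat_lit 5) (nat_lit 4) (nat_lit 229) (nat_lit 201) (nat_lit 170)) (XT.lf (nat_lit 0) (nat_lit 25594964486) (nat_lit 76) (nat_lit 42595500469) (nat_lit 76) (nat_lit 23512541441)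 (nat_lit 4) (nat_lit 4) (nat_lit 5) (nat_lit 5) (nat_lit 5) (nat_lit 4) (nat_lit 230) (nat_lit 201) (nat_lit 169))) (XT.nd (nat_lit 78) (nat_lit 76) (nat_lit 0) (XT.lf (nat_lit 0) (nat_lit 52813518896) (nat_lit 76) (nat_lit 35363426364) (nat_lit 76) (nat_lit 16251713456) (nat_lit 4) (nat_lit 4) (nat_lit 5) (nat_lit 5) (nat_lit 5) (nat_lit 4) (nat_lit 231) (nat_lit 201) (nat_lit 168)) (XT.nd (nat_lit 78) (nat_lit 76) (nat_lit 0) (XT.lf (nat_lit 0) (nat_lit 84051109433) (nat_lit 76) (nat_lit 27075786814) (nat_lit 76) (nat_lit 7939070532) (nat_lit 4) (nat_lit 4) (nat_lit 5) (nat_lit 5) (nat_lit 5) (nat_lit 4) (nat_lit 232) (nat_lit 201) (nat_lit 167)) (XT.lf (nat_lit 0) (nat_lit 1508586504) (nat_lit 152) (nat_lit 16020598416) (nat_lit 76) (nat_lit 118369072412) (nat_lit 3) (nat_lit 5) (nat_lit 5) (nat_lit 5) (nat_lit 4) (nat_lit 4) (nat_lit 233) (nat_lit 201) (nat_lit 166))))) (XT.nd (nat_lit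 234) (nat_lit 0) (nat_lit 0) (XT.nd (nat_lit 78) (nat_lit 0) (nat_lit 0) (XT.lf (nat_lit 0) (nat_lit 5846019240) (nat_lit 76) (nat_lit 6184453706) (nat_lit 152) (nat_lit 143198282214) (nat_lit 2) (nat_lit 5) (nat_lit 3) (nat_lit 5) (nat_lit 4) (nat_lit 4) (nat_lit 234) (nat_lit 201) (nat_lit 165)) (XT.nd (nat_lit 78) (nat_lit 0) (nat_lit 0) (XT.lf (nat_lit 0) (nat_lit 24749307269) (nat_lit 152) (nat_lit 145682790331) (nat_lit 0) (nat_lit 6977265960) (nat_lit 2) (nat_lit 5) (nat_lit 4) (nat_lit 4) (nat_lit 2) (nat_lit 4) (nat_lit 235) (nat_lit 201) (nat_lit 164)) (XT.lf (nat_lit 0) (nat_lit 39525358310) (nat_lit 152) (nat_lit 141639698697) (nat_lit 0) (nat_lit 21740080186) (nat_lit 2) (nat_lit 5) (nat_lit 4) (nat_lit 4) (nat_lit 2) (nat_lit 4) (nat_lit 236) (nat_lit 201) (nat_lit 163)))) (XT.nd (nat_lit 78) (nat_lit 0) (nat_lit 0) (XT.lf (nat_lit 0) (nat_lit 56498986460) (nat_lit 152)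 (nat_lit 137025620790) (nat_lit 0) (nat_lit 38702198062) (nat_lit 2) (nat_lit 5) (nat_lit 4) (nat_lit 4) (nat_lit 2) (nat_lit 4) (nat_lit 237) (nat_lit 201) (nat_lit 162)) (XT.nd (nat_lit 78) (nat_lit 0) (nat_lit 0) (XT.lf (nat_lit 0) (nat_lit 76002284443) (nat_lit 152) (nat_lit 131750281173) (nat_lit 0) (nat_lit 58195487111) (nat_lit 2) (nat_lit 5) (nat_lit 4) (nat_lit 4) (nat_lit 2) (nat_lit 4) (nat_lit 238) (nat_lit 201) (nat_lit 161)) (XT.lf (nat_lit 0) (nat_lit 98416838525) (nat_lit 152) (nat_lit 125710466680) (nat_lit 0) (nat_lit 80601337772) (nat_lit 2) (nat_lit 5) (nat_lit 4) (nat_lit 4) (nat_lit 2) (nat_lit 4) (nat_lit 239) (nat_lit 201) (nat_lit 160))))))))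
noncomputable def xc26 : XT := (XT.nd (nat_lit 1638) (nat_lit 0) (nat_lit 0) (XT.nd (nat_lit 780) (nat_lit 0) (nat_lit 0) (XT.nd (nat_lit 390) (nat_lit 76) (nat_lit 0) (XT.nd (nat_lit 156) (nat_lit 0) (nat_lit 0) (XT.nd (nat_lit 78) (nat_lit 0) (nat_lit 0) (XT.lf (nat_lit 0) (nat_lit 124181194328) (nat_lit 152) (nat_lit 118788007026) (nat_lit 0) (nat_lit 106358125383) (nat_lit 2) (nat_lit 5) (nat_lit 4) (nat_lit 4) (nat_lit 2) (nat_lit 4) (nat_lit 240) (nat_lit 201) (nat_lit 159)) (XT.lf (nat_lit 0) (nat_lit 153799437075) (nat_lit 152) (nat_lit 110847462785) (nat_lit 0) (nat_lit 135969787094) (nat_lit 2) (nat_lit 5) (nat_lit 4) (nat_lit 4) (nat_lit 2) (nat_lit 4) (nat_lit 241) (nat_lit 201) (nat_lit 158))) (XT.nd (nat_lit 78) (nat_lit 0) (nat_lit 0) (XT.lf (nat_lit 0) (nat_lit 187851054124) (nat_lit 152) (nat_lit 101733475481) (nat_lit 0) (nat_lit 170015681502) (nat_lit 2) (nat_lit 5)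 (nat_lit 4) (nat_lit 4) (nat_lit 2) (nat_lit 4) (nat_lit 242) (nat_lit 201) (nat_lit 157)) (XT.nd (nat_lit 78) (nat_lit 0) (nat_lit 0) (XT.lf (nat_lit 0) (nat_lit 227002272766) (nat_lit 152) (nat_lit 91267727972) (nat_lit 0) (nat_lit 209161923935) (nat_lit 2) (nat_lit 5) (nat_lit 4) (nat_lit 4) (nat_lit 2) (nat_lit 4) (nat_lit 243) (nat_lit 201) (nat_lit 156)) (XT.lf (nat_lit 0) (nat_lit 272019095103) (nat_lit 152) (nat_lit 79245455633) (nat_lit 0) (nat_lit 254174419134) (nat_lit 2) (nat_lit 5) (nat_lit 4) (nat_lit 4) (nat_lit 2) (nat_lit 4) (nat_lit 244) (nat_lit 201) (nat_lit 155))))) (XT.nd (nat_lit 156) (nat_lit 76) (nat_lit 0) (XT.nd (nat_lit 78) (nat_lit 0) (nat_lit 0) (XT.lf (nat_lit 0) (nat_lit 323782285052) (nat_lit 152) (nat_lit 65431440091) (nat_lit 0) (nat_lit 305933846353) (nat_lit 2) (nat_lit 5) (nat_lit 4) (nat_lit 4) (nat_lit 2) (nat_lit 4) (nat_lit 245) (nat_lit 201)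 (nat_lit 154)) (XT.lf (nat_lit 0) (nat_lit 383304600676) (nat_lit 152) (nat_lit 49555407130) (nat_lit 0) (nat_lit 365452890039) (nat_lit 2) (nat_lit 5) (nat_lit 4) (nat_lit 4) (nat_lit 2) (nat_lit 4) (nat_lit 246) (nat_lit 201) (nat_lit 153))) (XT.nd (nat_lit 78) (nat_lit 76) (nat_lit 0) (XT.lf (nat_lit 0) (nat_lit 451750609021) (nat_lit 152) (nat_lit 31306738714) (nat_lit 0) (nat_lit 433896053220) (nat_lit 2) (nat_lit 5) (nat_lit 4) (nat_lit 4) (nat_lit 2) (nat_lit 4) (nat_lit 247) (nat_lit 201) (nat_lit 152)) (XT.nd (nat_lit 78) (nat_lit 76) (nat_lit 0) (XT.lf (nat_lit 0) (nat_lit 530459471118) (nat_lit 152) (nat_lit 10328395677) (nat_lit 0) (nat_lit 512602441262) (nat_lit 2) (nat_lit 5) (nat_lit 4) (nat_lit 4) (nat_lit 2) (nat_lit 4) (nat_lit 248) (nat_lit 201) (nat_lit 151)) (XT.lf (nat_lit 0) (nat_lit 14516228354) (nat_lit 76) (nat_lit 606804030253) (nat_lit 76) (nat_lit 588944849045)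 (nat_lit 1) (nat_lit 4) (nat_lit 2) (nat_lit 5) (nat_lit 2) (nat_lit 4) (nat_lit 249) (nat_lit 201) (nat_lit 150)))))) (XT.nd (nat_lit 390) (nat_lit 0) (nat_lit 0) (XT.nd (nat_lit 156) (nat_lit 0) (nat_lit 0) (XT.nd (nat_lit 78) (nat_lit 0) (nat_lit 0) (XT.lf (nat_lit 0) (nat_lit 43706932543) (nat_lit 76) (nat_lit 682400725337) (nat_lit 76) (nat_lit 664539673388) (nat_lit 1) (nat_lit 4) (nat_lit 2) (nat_lit 5) (nat_lit 2) (nat_lit 4) (nat_lit 250) (nat_lit 201) (nat_lit 149)) (XT.lf (nat_lit 0) (nat_lit 77270964349) (nat_lit 76) (nat_lit 769339414463) (nat_lit 76) (nat_lit 751476735781) (nat_lit 1) (nat_lit 4) (nat_lit 2) (nat_lit 5) (nat_lit 2) (nat_lit 4) (nat_lit 251) (nat_lit 201) (nat_lit 148))) (XT.nd (nat_lit 78) (nat_lit 0) (nat_lit 0) (XT.lf (nat_lit 0) (nat_lit 115865011352) (nat_lit 76) (nat_lit 869321071982) (nat_lit 76) (nat_lit 851456978751) (nat_lit 1) (nat_lit 4) (nat_lit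 2) (nat_lit 5) (nat_lit 2) (nat_lit 4) (nat_lit 252) (nat_lit 201) (nat_lit 147)) (XT.nd (nat_lit 78) (nat_lit 0) (nat_lit 0) (XT.lf (nat_lit 0) (nat_lit 160244174470) (nat_lit 76) (nat_lit 984301860759) (nat_lit 76) (nat_lit 966436537486) (nat_lit 1) (nat_lit 4) (nat_lit 2) (nat_lit 5) (nat_lit 2) (nat_lit 4) (nat_lit 253) (nat_lit 201) (nat_lit 146)) (XT.lf (nat_lit 0) (nat_lit 211276741679) (nat_lit 76) (nat_lit 1116531404923) (nat_lit 76) (nat_lit 1098665012048) (nat_lit 1) (nat_lit 4) (nat_lit 2) (nat_lit 5) (nat_lit 2) (nat_lit 4) (nat_lit 254) (nat_lit 201) (nat_lit 145))))) (XT.nd (nat_lit 234) (nat_lit 0) (nat_lit 0) (XT.nd (nat_lit 78) (nat_lit 0) (nat_lit 0) (XT.lf (nat_lit 0) (nat_lit 269961176248) (nat_lit 76) (nat_lit 1268596804251) (nat_lit 76) (nat_lit 1250729481286) (nat_lit 1) (nat_lit 4) (nat_lit 2) (nat_lit 5) (nat_lit 2) (nat_lit 4) (nat_lit 255) (nat_lit 201) (nat_lit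 144)) (XT.nd (nat_lit 78) (nat_lit 0) (nat_lit 0) (XT.lf (nat_lit 0) (nat_lit 337445651898) (nat_lit 76) (nat_lit 1443473251338) (nat_lit 76) (nat_lit 1425605119600) (nat_lit 1) (nat_lit 4) (nat_lit 2) (nat_lit 5) (nat_lit 2) (nat_lit 4) (nat_lit 256) (nat_lit 201) (nat_lit 143)) (XT.lf (nat_lit 0) (nat_lit 415050517067) (nat_lit 76) (nat_lit 1644582241888) (nat_lit 76) (nat_lit 1626713406869) (nat_lit 1) (nat_lit 4) (nat_lit 2) (nat_lit 5) (nat_lit 2) (nat_lit 4) (nat_lit 257) (nat_lit 201) (nat_lit 142)))) (XT.nd (nat_lit 78) (nat_lit 0) (nat_lit 0) (XT.lf (nat_lit 0) (nat_lit 504294127810) (nat_lit 76) (nat_lit 1875858517021) (nat_lit 76) (nat_lit 1857989070454) (nat_lit 1) (nat_lit 4) (nat_lit 2) (nat_lit 5) (nat_lit 2) (nat_lit 4) (nat_lit 258) (nat_lit 201) (nat_lit 141)) (XT.nd (nat_lit 78) (nat_lit 0) (nat_lit 0) (XT.lf (nat_lit 0) (nat_lit 606922554774) (nat_lit 76) (nat_lit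 2141827047337) (nat_lit 76) (nat_lit 2123957068988) (nat_lit 1) (nat_lit 4) (nat_lit 2) (nat_lit 5) (nat_lit 2) (nat_lit 4) (nat_lit 259) (nat_lit 201) (nat_lit 140)) (XT.lf (nat_lit 0) (nat_lit 724943745443) (nat_lit 76) (nat_lit 2447691564950) (nat_lit 76) (nat_lit 2429821124183) (nat_lit 1) (nat_lit 4) (nat_lit 2) (nat_lit 5) (nat_lit 2) (nat_lit 4) (nat_lit 260) (nat_lit 201) (nat_lit 139))))))) (XT.nd (nat_lit 27300) (nat_lit 0) (nat_lit 760) (XT.nd (nat_lit 26910) (nat_lit 0) (nat_lit 2280) (XT.nd (nat_lit 26676) (nat_lit 0) (nat_lit 3724) (XT.nd (nat_lit 78) (nat_lit 0) (nat_lit 0) (XT.lf (nat_lit 0) (nat_lit 860666810068) (nat_lit 76) (nat_lit 2799436375641) (nat_lit 76) (nat_lit 2781565532771) (nat_lit 1) (nat_lit 4) (nat_lit 2) (nat_lit 5) (nat_lit 2) (nat_lit 4) (nat_lit 261) (nat_lit 201) (nat_lit 138)) (XT.lf (nat_lit 0) (nat_lit 1016747199914) (nat_lit 76) (nat_lit 3203943443097)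 (nat_lit 76) (nat_lit 3186072250571) (nat_lit 1) (nat_lit 4) (nat_lit 2) (nat_lit 5) (nat_lit 2) (nat_lit 4) (nat_lit 262) (nat_lit 201) (nat_lit 137))) (XT.nd (nat_lit 78) (nat_lit 304) (nat_lit 0) (XT.lf (nat_lit 0) (nat_lit 1045405291) (nat_lit 0) (nat_lit 1045405291) (nat_lit 228) (nat_lit 1325137763) (nat_lit 54) (nat_lit 5) (nat_lit 54) (nat_lit 3) (nat_lit 57) (nat_lit 3) (nat_lit 202) (nat_lit 202) (nat_lit 196)) (XT.nd (nat_lit 78) (nat_lit 0) (nat_lit 0) (XT.lf (nat_lit 0) (nat_lit 620715750) (nat_lit 304) (nat_lit 6070558680) (nat_lit 380) (nat_lit 372293237) (nat_lit 50) (nat_lit 5) (nat_lit 54) (nat_lit 5) (nat_lit 55) (nat_lit 5) (nat_lit 203) (nat_lit 202) (nat_lit 195)) (XT.lf (nat_lit 76) (nat_lit 29543291) (nat_lit 0) (nat_lit 3812221506) (nat_lit 380) (nat_lit 3516975901) (nat_lit 51) (nat_lit 5) (nat_lit 50) (nat_lit 5) (nat_lit 55) (nat_lit 5) (nat_lit 204) (nat_lit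 202) (nat_lit 194))))) (XT.nd (nat_lit 156) (nat_lit 1140) (nat_lit 0) (XT.nd (nat_lit 78) (nat_lit 304) (nat_lit 0) (XT.lf (nat_lit 76) (nat_lit 7052906796) (nat_lit 0) (nat_lit 149610845) (nat_lit 380) (nat_lit 526248564) (nat_lit 51) (nat_lit 5) (nat_lit 50) (nat_lit 5) (nat_lit 55) (nat_lit 5) (nat_lit 205) (nat_lit 202) (nat_lit 193)) (XT.lf (nat_lit 0) (nat_lit 2573831533) (nat_lit 380) (nat_lit 1370512882) (nat_lit 76) (nat_lit 4222325051) (nat_lit 46) (nat_lit 5) (nat_lit 51) (nat_lit 5) (nat_lit 47) (nat_lit 5) (nat_lit 206) (nat_lit 202) (nat_lit 192))) (XT.nd (nat_lit 78) (nat_lit 760) (nat_lit 0) (XT.lf (nat_lit 0) (nat_lit 5904391220) (nat_lit 456) (nat_lit 1979412754) (nat_lit 76) (nat_lit 803801126) (nat_lit 41) (nat_lit 5) (nat_lit 47) (nat_lit 5) (nat_lit 42) (nat_lit 5) (nat_lit 207) (nat_lit 202) (nat_lit 191)) (XT.nd (nat_lit 78) (nat_lit 228) (nat_lit 0) (XT.lf (nat_lit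 0) (nat_lit 368945975) (nat_lit 532) (nat_lit 2631601856) (nat_lit 76) (nat_lit 6291539570) (nat_lit 34) (nat_lit 5) (nat_lit 41) (nat_lit 5) (nat_lit 35) (nat_lit 5) (nat_lit 208) (nat_lit 202) (nat_lit 190)) (XT.lf (nat_lit 0) (nat_lit 3789191217) (nat_lit 304) (nat_lit 3415169707) (nat_lit 76) (nat_lit 2781812818) (nat_lit 31) (nat_lit 5) (nat_lit 35) (nat_lit 5) (nat_lit 32) (nat_lit 5) (nat_lit 209) (nat_lit 202) (nat_lit 189)))))) (XT.nd (nat_lit 390) (nat_lit 532) (nat_lit 0) (XT.nd (nat_lit 156) (nat_lit 532) (nat_lit 0) (XT.nd (nat_lit 78) (nat_lit 304) (nat_lit 0) (XT.lf (nat_lit 0) (nat_lit 6435491840) (nat_lit 152) (nat_lit 1305050615) (nat_lit 228) (nat_lit 3043706513) (nat_lit 29) (nat_lit 5) (nat_lit 31) (nat_lit 5) (nat_lit 32) (nat_lit 5) (nat_lit 210) (nat_lit 202) (nat_lit 188)) (XT.lf (nat_lit 0) (nat_lit 668411745) (nat_lit 304) (nat_lit 5592438437) (nat_lit 76) (nat_lit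 5431929005) (nat_lit 25) (nat_lit 5) (nat_lit 29) (nat_lit 5) (nat_lit 26) (nat_lit 5) (nat_lit 211) (nat_lit 202) (nat_lit 187))) (XT.nd (nat_lit 78) (nat_lit 380) (nat_lit 0) (XT.lf (nat_lit 0) (nat_lit 4829161044) (nat_lit 228) (nat_lit 7255941284) (nat_lit 76) (nat_lit 641324454) (nat_lit 23) (nat_lit 5) (nat_lit 26) (nat_lit 5) (nat_lit 24) (nat_lit 5) (nat_lit 212) (nat_lit 202) (nat_lit 186)) (XT.nd (nat_lit 78) (nat_lit 228) (nat_lit 0) (XT.lf (nat_lit 0) (nat_lit 4364476948) (nat_lit 152) (nat_lit 5471112211) (nat_lit 228) (nat_lit 4062611572) (nat_lit 21) (nat_lit 5) (nat_lit 23) (nat_lit 5) (nat_lit 24) (nat_lit 5) (nat_lit 213) (nat_lit 202) (nat_lit 185)) (XT.lf (nat_lit 0) (nat_lit 463097147) (nat_lit 228) (nat_lit 12524709751) (nat_lit 76) (nat_lit 2247255405) (nat_lit 18) (nat_lit 5) (nat_lit 21) (nat_lit 5) (nat_lit 19) (nat_lit 5) (nat_lit 214) (nat_lit 202) (nat_lit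 184))))) (XT.nd (nat_lit 234) (nat_lit 304) (nat_lit 0) (XT.nd (nat_lit 78) (nat_lit 76) (nat_lit 0) (XT.lf (nat_lit 0) (nat_lit 70348778) (nat_lit 152) (nat_lit 5612977356) (nat_lit 228) (nat_lit 11060751191) (nat_lit 16) (nat_lit 5) (nat_lit 18) (nat_lit 5) (nat_lit 19) (nat_lit 5) (nat_lit 215) (nat_lit 202) (nat_lit 183)) (XT.nd (nat_lit 78) (nat_lit 76) (nat_lit 0) (XT.lf (nat_lit 0) (nat_lit 11957592492) (nat_lit 228) (nat_lit 3484275337) (nat_lit 76) (nat_lit 3016386333) (nat_lit 16) (nat_lit 5) (nat_lit 19) (nat_lit 5) (nat_lit 17) (nat_lit 4) (nat_lit 216) (nat_lit 202) (nat_lit 182)) (XT.lf (nat_lit 0) (nat_lit 11889481669) (nat_lit 76) (nat_lit 7575057927) (nat_lit 152) (nat_lit 942120584) (nat_lit 15) (nat_lit 5) (nat_lit 16) (nat_lit 5) (nat_lit 17) (nat_lit 4) (nat_lit 217) (nat_lit 202) (nat_lit 181)))) (XT.nd (nat_lit 78) (nat_lit 76) (nat_lit 0) (XT.lf (nat_lit 0) (nat_lit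 5358282004) (nat_lit 228) (nat_lit 15527050215) (nat_lit 76) (nat_lit 1737393892) (nat_lit 12) (nat_lit 5) (nat_lit 15) (nat_lit 5) (nat_lit 13) (nat_lit 4) (nat_lit 218) (nat_lit 202) (nat_lit 180)) (XT.nd (nat_lit 78) (nat_lit 76) (nat_lit 0) (XT.lf (nat_lit 0) (nat_lit 12885752231) (nat_lit 228) (nat_lit 38429240) (nat_lit 76) (nat_lit 12218337702) (nat_lit 12) (nat_lit 5) (nat_lit 15) (nat_lit 5) (nat_lit 13) (nat_lit 4) (nat_lit 219) (nat_lit 202) (nat_lit 179)) (XT.lf (nat_lit 0) (nat_lit 18515997116) (nat_lit 76) (nat_lit 3360602693) (nat_lit 152) (nat_lit 6137200143) (nat_lit 11) (nat_lit 5) (nat_lit 12) (nat_lit 5) (nat_lit 13) (nat_lit 4) (nat_lit 220) (nat_lit 202) (nat_lit 178))))))))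
noncomputable def xc27 : XT := (XT.nd (nat_lit 1638) (nat_lit 76) (nat_lit 0) (XT.nd (nat_lit 780) (nat_lit 152) (nat_lit 0) (XT.nd (nat_lit 390) (nat_lit 228) (nat_lit 0) (XT.nd (nat_lit 156) (nat_lit 152) (nat_lit 0) (XT.nd (nat_lit 78) (nat_lit 0) (nat_lit 0) (XT.lf (nat_lit 0) (nat_lit 1152299761) (nat_lit 152) (nat_lit 22709469852) (nat_lit 76) (nat_lit 7428717046) (nat_lit 9) (nat_lit 5) (nat_lit 11) (nat_lit 5) (nat_lit 10) (nat_lit 4) (nat_lit 221) (nat_lit 202) (nat_lit 177)) (XT.lf (nat_lit 0) (nat_lit 9463465789) (nat_lit 152) (nat_lit 5524839631) (nat_lit 76) (nat_lit 20034469326) (nat_lit 9) (nat_lit 5) (nat_lit 11) (nat_lit 5) (nat_lit 10) (nat_lit 4) (nat_lit 222) (nat_lit 202) (nat_lit 176))) (XT.nd (nat_lit 78) (nat_lit 76) (nat_lit 0) (XT.lf (nat_lit 0) (nat_lit 14835957937) (nat_lit 76) (nat_lit 4459243772) (nat_lit 152) (nat_lit 19997950605) (nat_lit 8) (nat_lit 5)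 (nat_lit 9) (nat_lit 5) (nat_lit 10) (nat_lit 4) (nat_lit 223) (nat_lit 202) (nat_lit 175)) (XT.nd (nat_lit 78) (nat_lit 76) (nat_lit 0) (XT.lf (nat_lit 0) (nat_lit 30874076664) (nat_lit 152) (nat_lit 5930241534) (nat_lit 0) (nat_lit 7378115304) (nat_lit 8) (nat_lit 5) (nat_lit 10) (nat_lit 4) (nat_lit 8) (nat_lit 4) (nat_lit 224) (nat_lit 202) (nat_lit 174)) (XT.lf (nat_lit 0) (nat_lit 15930802506) (nat_lit 76) (nat_lit 28698829129) (nat_lit 76) (nat_lit 5140406700) (nat_lit 7) (nat_lit 4) (nat_lit 8) (nat_lit 5) (nat_lit 8) (nat_lit 4) (nat_lit 225) (nat_lit 202) (nat_lit 173))))) (XT.nd (nat_lit 156) (nat_lit 76) (nat_lit 0) (XT.nd (nat_lit 78) (nat_lit 76) (nat_lit 0) (XT.lf (nat_lit 0) (nat_lit 4154923638) (nat_lit 152) (nat_lit 14970495234) (nat_lit 76) (nat_lit 37053084719) (nat_lit 6) (nat_lit 5) (nat_lit 8) (nat_lit 5) (nat_lit 7) (nat_lit 4) (nat_lit 226) (nat_lit 202) (nat_lit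 172)) (XT.lf (nat_lit 0) (nat_lit 6830801860) (nat_lit 76) (nat_lit 7828221123) (nat_lit 152) (nat_lit 48869110752) (nat_lit 5) (nat_lit 5) (nat_lit 6) (nat_lit 5) (nat_lit 7) (nat_lit 4) (nat_lit 227) (nat_lit 202) (nat_lit 171))) (XT.nd (nat_lit 78) (nat_lit 76) (nat_lit 0) (XT.lf (nat_lit 0) (nat_lit 27259950936) (nat_lit 152) (nat_lit 39364084987) (nat_lit 0) (nat_lit 5314548054) (nat_lit 5) (nat_lit 5) (nat_lit 7) (nat_lit 4) (nat_lit 5) (nat_lit 4) (nat_lit 228) (nat_lit 202) (nat_lit 170)) (XT.nd (nat_lit 78) (nat_lit 76) (nat_lit 0) (XT.lf (nat_lit 0) (nat_lit 41923926817) (nat_lit 152) (nat_lit 19727448462) (nat_lit 0) (nat_lit 19945456973) (nat_lit 5) (nat_lit 5) (nat_lit 7) (nat_lit 4) (nat_lit 5) (nat_lit 4) (nat_lit 229) (nat_lit 202) (nat_lit 169)) (XT.lf (nat_lit 0) (nat_lit 2931697028) (nat_lit 76) (nat_lit 55888395952) (nat_lit 76) (nat_lit 33881172228) (nat_lit 4) (nat_lit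 4) (nat_lit 5) (nat_lit 5) (nat_lit 5) (nat_lit 4) (nat_lit 230) (nat_lit 202) (nat_lit 168)))))) (XT.nd (nat_lit 390) (nat_lit 0) (nat_lit 0) (XT.nd (nat_lit 156) (nat_lit 152) (nat_lit 0) (XT.nd (nat_lit 78) (nat_lit 0) (nat_lit 0) (XT.lf (nat_lit 0) (nat_lit 30120601654) (nat_lit 76) (nat_lit 48669924485) (nat_lit 76) (nat_lit 26637697387) (nat_lit 4) (nat_lit 4) (nat_lit 5) (nat_lit 5) (nat_lit 5) (nat_lit 4) (nat_lit 231) (nat_lit 202) (nat_lit 167)) (XT.lf (nat_lit 0) (nat_lit 61332409770) (nat_lit 76) (nat_lit 40394113316) (nat_lit 76) (nat_lit 18340144153) (nat_lit 4) (nat_lit 4) (nat_lit 5) (nat_lit 5) (nat_lit 5) (nat_lit 4) (nat_lit 232) (nat_lit 202) (nat_lit 166))) (XT.nd (nat_lit 78) (nat_lit 152) (nat_lit 0) (XT.lf (nat_lit 0) (nat_lit 97177787186) (nat_lit 76) (nat_lit 30899044399) (nat_lit 76) (nat_lit 8826169093) (nat_lit 4) (nat_lit 4) (nat_lit 5) (nat_lit 5) (nat_lit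 5) (nat_lit 4) (nat_lit 233) (nat_lit 202) (nat_lit 165)) (XT.nd (nat_lit 78) (nat_lit 76) (nat_lit 0) (XT.lf (nat_lit 0) (nat_lit 1985801969) (nat_lit 152) (nat_lit 17958847333) (nat_lit 76) (nat_lit 136317959189) (nat_lit 3) (nat_lit 5) (nat_lit 5) (nat_lit 5) (nat_lit 4) (nat_lit 4) (nat_lit 234) (nat_lit 202) (nat_lit 164)) (XT.lf (nat_lit 0) (nat_lit 7148416510) (nat_lit 76) (nat_lit 6915058345) (nat_lit 152) (nat_lit 164431046717) (nat_lit 2) (nat_lit 5) (nat_lit 3) (nat_lit 5) (nat_lit 4) (nat_lit 4) (nat_lit 235) (nat_lit 202) (nat_lit 163))))) (XT.nd (nat_lit 234) (nat_lit 0) (nat_lit 0) (XT.nd (nat_lit 78) (nat_lit 0) (nat_lit 0) (XT.lf (nat_lit 0) (nat_lit 28664460183) (nat_lit 152) (nat_lit 167153207259) (nat_lit 0) (nat_lit 8186643251) (nat_lit 2) (nat_lit 5) (nat_lit 4) (nat_lit 4) (nat_lit 2) (nat_lit 4) (nat_lit 236) (nat_lit 202) (nat_lit 162)) (XT.nd (nat_lit 78) (nat_lit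 0) (nat_lit 0) (XT.lf (nat_lit 0) (nat_lit 45630472338) (nat_lit 152) (nat_lit 162553478178) (nat_lit 0) (nat_lit 25142646472) (nat_lit 2) (nat_lit 5) (nat_lit 4) (nat_lit 4) (nat_lit 2) (nat_lit 4) (nat_lit 237) (nat_lit 202) (nat_lit 161)) (XT.lf (nat_lit 0) (nat_lit 65127147717) (nat_lit 152) (nat_lit 157290615801) (nat_lit 0) (nat_lit 44630618430) (nat_lit 2) (nat_lit 5) (nat_lit 4) (nat_lit 4) (nat_lit 2) (nat_lit 4) (nat_lit 238) (nat_lit 202) (nat_lit 160)))) (XT.nd (nat_lit 78) (nat_lit 0) (nat_lit 0) (XT.lf (nat_lit 0) (nat_lit 87535943012) (nat_lit 152) (nat_lit 151261651082) (nat_lit 0) (nat_lit 67031845533) (nat_lit 2) (nat_lit 5) (nat_lit 4) (nat_lit 4) (nat_lit 2) (nat_lit 4) (nat_lit 239) (nat_lit 202) (nat_lit 159)) (XT.nd (nat_lit 78) (nat_lit 0) (nat_lit 0) (XT.lf (nat_lit 0) (nat_lit 113295291175) (nat_lit 152) (nat_lit 144348626014) (nat_lit 0) (nat_lit 92784612660)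 (nat_lit 2) (nat_lit 5) (nat_lit 4) (nat_lit 4) (nat_lit 2) (nat_lit 4) (nat_lit 240) (nat_lit 202) (nat_lit 158)) (XT.lf (nat_lit 0) (nat_lit 142909179453) (nat_lit 152) (nat_lit 136416285761) (nat_lit 0) (nat_lit 122392778297) (nat_lit 2) (nat_lit 5) (nat_lit 4) (nat_lit 4) (nat_lit 2) (nat_lit 4) (nat_lit 241) (nat_lit 202) (nat_lit 157))))))) (XT.nd (nat_lit 858) (nat_lit 0) (nat_lit 0) (XT.nd (nat_lit 390) (nat_lit 76) (nat_lit 0) (XT.nd (nat_lit 156) (nat_lit 0) (nat_lit 0) (XT.nd (nat_lit 78) (nat_lit 0) (nat_lit 0) (XT.lf (nat_lit 0) (nat_lit 176957010006) (nat_lit 152) (nat_lit 127309432360) (nat_lit 0) (nat_lit 156435632642) (nat_lit 2) (nat_lit 5) (nat_lit 4) (nat_lit 4) (nat_lit 2) (nat_lit 4) (nat_lit 242) (nat_lit 202) (nat_lit 156)) (XT.lf (nat_lit 0) (nat_lit 216104936043) (nat_lit 152) (nat_lit 116849888244) (nat_lit 0) (nat_lit 195579231540) (nat_lit 2) (nat_lit 5) (nat_lit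 4) (nat_lit 4) (nat_lit 2) (nat_lit 4) (nat_lit 243) (nat_lit 202) (nat_lit 155))) (XT.nd (nat_lit 78) (nat_lit 0) (nat_lit 0) (XT.lf (nat_lit 0) (nat_lit 261118895246) (nat_lit 152) (nat_lit 104833010160) (nat_lit 0) (nat_lit 240589428014) (nat_lit 2) (nat_lit 5) (nat_lit 4) (nat_lit 4) (nat_lit 2) (nat_lit 4) (nat_lit 244) (nat_lit 202) (nat_lit 154)) (XT.nd (nat_lit 78) (nat_lit 0) (nat_lit 0) (XT.lf (nat_lit 0) (nat_lit 312879595512) (nat_lit 152) (nat_lit 91023685275) (nat_lit 0) (nat_lit 292346856342) (nat_lit 2) (nat_lit 5) (nat_lit 4) (nat_lit 4) (nat_lit 2) (nat_lit 4) (nat_lit 245) (nat_lit 202) (nat_lit 153)) (XT.lf (nat_lit 0) (nat_lit 372399746196) (nat_lit 152) (nat_lit 75151731146) (nat_lit 0) (nat_lit 351864161861) (nat_lit 2) (nat_lit 5) (nat_lit 4) (nat_lit 4) (nat_lit 2) (nat_lit 4) (nat_lit 246) (nat_lit 202) (nat_lit 152))))) (XT.nd (nat_lit 234) (nat_lit 76) (nat_lit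 0) (XT.nd (nat_lit 78) (nat_lit 0) (nat_lit 0) (XT.lf (nat_lit 0) (nat_lit 440843871983) (nat_lit 152) (nat_lit 56906609540) (nat_lit 0) (nat_lit 420305813593) (nat_lit 2) (nat_lit 5) (nat_lit 4) (nat_lit 4) (nat_lit 2) (nat_lit 4) (nat_lit 247) (nat_lit 202) (nat_lit 151)) (XT.nd (nat_lit 78) (nat_lit 0) (nat_lit 0) (XT.lf (nat_lit 0) (nat_lit 519551097074) (nat_lit 152) (nat_lit 35931350687) (nat_lit 0) (nat_lit 499010887332) (nat_lit 2) (nat_lit 5) (nat_lit 4) (nat_lit 4) (nat_lit 2) (nat_lit 4) (nat_lit 248) (nat_lit 202) (nat_lit 150)) (XT.lf (nat_lit 0) (nat_lit 610061345438) (nat_lit 152) (nat_lit 11815569086) (nat_lit 0) (nat_lit 589519264955) (nat_lit 2) (nat_lit 5) (nat_lit 4) (nat_lit 4) (nat_lit 2) (nat_lit 4) (nat_lit 249) (nat_lit 202) (nat_lit 149)))) (XT.nd (nat_lit 78) (nat_lit 0) (nat_lit 0) (XT.lf (nat_lit 0) (nat_lit 16750493284) (nat_lit 76) (nat_lit 697797826243)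 (nat_lit 76) (nat_lit 677254119028) (nat_lit 1) (nat_lit 4) (nat_lit 2) (nat_lit 5) (nat_lit 2) (nat_lit 4) (nat_lit 250) (nat_lit 202) (nat_lit 148)) (XT.nd (nat_lit 78) (nat_lit 0) (nat_lit 0) (XT.lf (nat_lit 0) (nat_lit 50312390405) (nat_lit 76) (nat_lit 784737522357) (nat_lit 76) (nat_lit 764192400593) (nat_lit 1) (nat_lit 4) (nat_lit 2) (nat_lit 5) (nat_lit 2) (nat_lit 4) (nat_lit 251) (nat_lit 202) (nat_lit 147)) (XT.lf (nat_lit 0) (nat_lit 88904581159) (nat_lit 76) (nat_lit 884720055518) (nat_lit 76) (nat_lit 864173703711) (nat_lit 1) (nat_lit 4) (nat_lit 2) (nat_lit 5) (nat_lit 2) (nat_lit 4) (nat_lit 252) (nat_lit 202) (nat_lit 146)))))) (XT.nd (nat_lit 390) (nat_lit 0) (nat_lit 0) (XT.nd (nat_lit 156) (nat_lit 0) (nat_lit 0) (XT.nd (nat_lit 78) (nat_lit 0) (nat_lit 0) (XT.lf (nat_lit 0) (nat_lit 133282130148) (nat_lit 76) (nat_lit 999701605723) (nat_lit 76) (nat_lit 979154184314)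 (nat_lit 1) (nat_lit 4) (nat_lit 2) (nat_lit 5) (nat_lit 2) (nat_lit 4) (nat_lit 253) (nat_lit 202) (nat_lit 145)) (XT.lf (nat_lit 0) (nat_lit 184313293765) (nat_lit 76) (nat_lit 1131931811999) (nat_lit 76) (nat_lit 1111383460500) (nat_lit 1) (nat_lit 4) (nat_lit 2) (nat_lit 5) (nat_lit 2) (nat_lit 4) (nat_lit 254) (nat_lit 202) (nat_lit 144))) (XT.nd (nat_lit 78) (nat_lit 0) (nat_lit 0) (XT.lf (nat_lit 0) (nat_lit 242996507821) (nat_lit 76) (nat_lit 1283997787075) (nat_lit 76) (nat_lit 1263448626804) (nat_lit 1) (nat_lit 4) (nat_lit 2) (nat_lit 5) (nat_lit 2) (nat_lit 4) (nat_lit 255) (nat_lit 202) (nat_lit 143)) (XT.nd (nat_lit 78) (nat_lit 0) (nat_lit 0) (XT.lf (nat_lit 0) (nat_lit 310479922155) (nat_lit 76) (nat_lit 1458874734813) (nat_lit 76) (nat_lit 1438324871261) (nat_lit 1) (nat_lit 4) (nat_lit 2) (nat_lit 5) (nat_lit 2) (nat_lit 4) (nat_lit 256) (nat_lit 202) (nat_lit 142))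 (XT.lf (nat_lit 0) (nat_lit 388083864440) (nat_lit 76) (nat_lit 1659984160712) (nat_lit 76) (nat_lit 1639433685611) (nat_lit 1) (nat_lit 4) (nat_lit 2) (nat_lit 5) (nat_lit 2) (nat_lit 4) (nat_lit 257) (nat_lit 202) (nat_lit 141))))) (XT.nd (nat_lit 234) (nat_lit 0) (nat_lit 0) (XT.nd (nat_lit 78) (nat_lit 0) (nat_lit 0) (XT.lf (nat_lit 0) (nat_lit 477326672676) (nat_lit 76) (nat_lit 1891260814409) (nat_lit 76) (nat_lit 1870709807527) (nat_lit 1) (nat_lit 4) (nat_lit 2) (nat_lit 5) (nat_lit 2) (nat_lit 4) (nat_lit 258) (nat_lit 202) (nat_lit 140)) (XT.nd (nat_lit 78) (nat_lit 0) (nat_lit 0) (XT.lf (nat_lit 0) (nat_lit 579954401807) (nat_lit 76) (nat_lit 2157229673912) (nat_lit 76) (nat_lit 2136678204610) (nat_lit 1) (nat_lit 4) (nat_lit 2) (nat_lit 5) (nat_lit 2) (nat_lit 4) (nat_lit 259) (nat_lit 202) (nat_lit 139)) (XT.lf (nat_lit 0) (nat_lit 697974985665) (nat_lit 76) (nat_lit 2463094477774)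 (nat_lit 76) (nat_lit 2442542606370) (nat_lit 1) (nat_lit 4) (nat_lit 2) (nat_lit 5) (nat_lit 2) (nat_lit 4) (nat_lit 260) (nat_lit 202) (nat_lit 138)))) (XT.nd (nat_lit 78) (nat_lit 0) (nat_lit 0) (XT.lf (nat_lit 0) (nat_lit 833697522628) (nat_lit 76) (nat_lit 2814839537377) (nat_lit 76) (nat_lit 2794287316318) (nat_lit 1) (nat_lit 4) (nat_lit 2) (nat_lit 5) (nat_lit 2) (nat_lit 4) (nat_lit 261) (nat_lit 202) (nat_lit 137)) (XT.nd (nat_lit 26676) (nat_lit 0) (nat_lit 3648) (XT.lf (nat_lit 0) (nat_lit 989777453638) (nat_lit 76) (nat_lit 3219346821278) (nat_lit 76) (nat_lit 3198794296171) (nat_lit 1) (nat_lit 4) (nat_lit 2) (nat_lit 5) (nat_lit 2) (nat_lit 4) (nat_lit 262) (nat_lit 202) (nat_lit 136)) (XT.lf (nat_lit 0) (nat_lit 1709628263) (nat_lit 380) (nat_lit 974932771) (nat_lit 380) (nat_lit 974932771) (nat_lit 49) (nat_lit 3) (nat_lit 54) (nat_lit 3) (nat_lit 54) (nat_lit 5) (nat_lit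 203) (nat_lit 203) (nat_lit 194))))))))
noncomputable def xc28 : XT := (XT.nd (nat_lit 1638) (nat_lit 456) (nat_lit 0) (XT.nd (nat_lit 780) (nat_lit 1140) (nat_lit 0) (XT.nd (nat_lit 390) (nat_lit 836) (nat_lit 0) (XT.nd (nat_lit 156) (nat_lit 836) (nat_lit 0) (XT.nd (nat_lit 78) (nat_lit 304) (nat_lit 0) (XT.lf (nat_lit 76) (nat_lit 4292494949) (nat_lit 0) (nat_lit 1976942707) (nat_lit 380) (nat_lit 1375834392) (nat_lit 50) (nat_lit 5) (nat_lit 49) (nat_lit 3) (nat_lit 54) (nat_lit 5) (nat_lit 204) (nat_lit 203) (nat_lit 193)) (XT.lf (nat_lit 0) (nat_lit 1182432123) (nat_lit 380) (nat_lit 4675077343) (nat_lit 456) (nat_lit 2183976224) (nat_lit 45) (nat_lit 5) (nat_lit 50) (nat_lit 5) (nat_lit 51) (nat_lit 5) (nat_lit 205) (nat_lit 203) (nat_lit 192))) (XT.nd (nat_lit 78) (nat_lit 836) (nat_lit 0) (XT.lf (nat_lit 76) (nat_lit 2543902106) (nat_lit 0) (nat_lit 1311611169) (nat_lit 456)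 (nat_lit 4655926652) (nat_lit 46) (nat_lit 5) (nat_lit 45) (nat_lit 5) (nat_lit 51) (nat_lit 5) (nat_lit 206) (nat_lit 203) (nat_lit 191)) (XT.nd (nat_lit 78) (nat_lit 532) (nat_lit 0) (XT.lf (nat_lit 0) (nat_lit 1775899499) (nat_lit 380) (nat_lit 5072984033) (nat_lit 456) (nat_lit 2211345071) (nat_lit 41) (nat_lit 5) (nat_lit 46) (nat_lit 5) (nat_lit 47) (nat_lit 5) (nat_lit 207) (nat_lit 203) (nat_lit 190)) (XT.lf (nat_lit 0) (nat_lit 497044810) (nat_lit 532) (nat_lit 8645902219) (nat_lit 76) (nat_lit 554583455) (nat_lit 34) (nat_lit 5) (nat_lit 41) (nat_lit 5) (nat_lit 35) (nat_lit 5) (nat_lit 208) (nat_lit 203) (nat_lit 189))))) (XT.nd (nat_lit 156) (nat_lit 608) (nat_lit 0) (XT.nd (nat_lit 78) (nat_lit 0) (nat_lit 0) (XT.lf (nat_lit 0) (nat_lit 171060348) (nat_lit 228) (nat_lit 3384953976) (nat_lit 304) (nat_lit 6865119198) (nat_lit 31) (nat_lit 5) (nat_lit 34) (nat_lit 5) (nat_lit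 35) (nat_lit 5) (nat_lit 209) (nat_lit 203) (nat_lit 188)) (XT.lf (nat_lit 0) (nat_lit 7150537075) (nat_lit 304) (nat_lit 776061645) (nat_lit 76) (nat_lit 3321690775) (nat_lit 31) (nat_lit 5) (nat_lit 35) (nat_lit 5) (nat_lit 32) (nat_lit 5) (nat_lit 210) (nat_lit 203) (nat_lit 187))) (XT.nd (nat_lit 78) (nat_lit 456) (nat_lit 0) (XT.lf (nat_lit 0) (nat_lit 10285450215) (nat_lit 152) (nat_lit 1114216250) (nat_lit 228) (nat_lit 791617366) (nat_lit 29) (nat_lit 5) (nat_lit 31) (nat_lit 5) (nat_lit 32) (nat_lit 5) (nat_lit 211) (nat_lit 203) (nat_lit 186)) (XT.nd (nat_lit 78) (nat_lit 152) (nat_lit 0) (XT.lf (nat_lit 0) (nat_lit 3084187454) (nat_lit 304) (nat_lit 3475980516) (nat_lit 76) (nat_lit 6692624279) (nat_lit 25) (nat_lit 5) (nat_lit 29) (nat_lit 5) (nat_lit 26) (nat_lit 5) (nat_lit 212) (nat_lit 203) (nat_lit 185)) (XT.lf (nat_lit 0) (nat_lit 7647155237) (nat_lit 228) (nat_lit 5480415692)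 (nat_lit 76) (nat_lit 1332797486) (nat_lit 23) (nat_lit 5) (nat_lit 26) (nat_lit 5) (nat_lit 24) (nat_lit 5) (nat_lit 213) (nat_lit 203) (nat_lit 184)))))) (XT.nd (nat_lit 390) (nat_lit 456) (nat_lit 0) (XT.nd (nat_lit 156) (nat_lit 304) (nat_lit 0) (XT.nd (nat_lit 78) (nat_lit 228) (nat_lit 0) (XT.lf (nat_lit 0) (nat_lit 7640648983) (nat_lit 152) (nat_lit 5553864862) (nat_lit 228) (nat_lit 2631179846) (nat_lit 21) (nat_lit 5) (nat_lit 23) (nat_lit 5) (nat_lit 24) (nat_lit 5) (nat_lit 214) (nat_lit 203) (nat_lit 183)) (XT.lf (nat_lit 0) (nat_lit 2296609602) (nat_lit 228) (nat_lit 11777963958) (nat_lit 76) (nat_lit 3299350309) (nat_lit 18) (nat_lit 5) (nat_lit 21) (nat_lit 5) (nat_lit 19) (nat_lit 5) (nat_lit 215) (nat_lit 203) (nat_lit 182))) (XT.nd (nat_lit 78) (nat_lit 152) (nat_lit 0) (XT.lf (nat_lit 0) (nat_lit 2484121893) (nat_lit 152) (nat_lit 5643455358) (nat_lit 228) (nat_lit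 10996185453) (nat_lit 16) (nat_lit 5) (nat_lit 18) (nat_lit 5) (nat_lit 19) (nat_lit 5) (nat_lit 216) (nat_lit 203) (nat_lit 181)) (XT.nd (nat_lit 78) (nat_lit 152) (nat_lit 0) (XT.lf (nat_lit 0) (nat_lit 15152334007) (nat_lit 228) (nat_lit 1819411265) (nat_lit 76) (nat_lit 4139170939) (nat_lit 16) (nat_lit 5) (nat_lit 19) (nat_lit 5) (nat_lit 17) (nat_lit 4) (nat_lit 217) (nat_lit 203) (nat_lit 180)) (XT.lf (nat_lit 0) (nat_lit 273456373) (nat_lit 152) (nat_lit 7694546065) (nat_lit 76) (nat_lit 15394314702) (nat_lit 14) (nat_lit 5) (nat_lit 16) (nat_lit 5) (nat_lit 15) (nat_lit 5) (nat_lit 218) (nat_lit 203) (nat_lit 179))))) (XT.nd (nat_lit 234) (nat_lit 228) (nat_lit 0) (XT.nd (nat_lit 78) (nat_lit 76) (nat_lit 0) (XT.lf (nat_lit 0) (nat_lit 7357784886) (nat_lit 228) (nat_lit 15877774105) (nat_lit 76) (nat_lit 2682123155) (nat_lit 12) (nat_lit 5) (nat_lit 15) (nat_lit 5) (nat_lit 13)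 (nat_lit 4) (nat_lit 219) (nat_lit 203) (nat_lit 178)) (XT.nd (nat_lit 78) (nat_lit 0) (nat_lit 0) (XT.lf (nat_lit 0) (nat_lit 1764356768) (nat_lit 76) (nat_lit 14136482930) (nat_lit 152) (nat_lit 12924051524) (nat_lit 11) (nat_lit 5) (nat_lit 12) (nat_lit 5) (nat_lit 13) (nat_lit 4) (nat_lit 220) (nat_lit 203) (nat_lit 177)) (XT.lf (nat_lit 0) (nat_lit 22868072817) (nat_lit 76) (nat_lit 3232054754) (nat_lit 152) (nat_lit 6038268172) (nat_lit 11) (nat_lit 5) (nat_lit 12) (nat_lit 5) (nat_lit 13) (nat_lit 4) (nat_lit 221) (nat_lit 203) (nat_lit 176)))) (XT.nd (nat_lit 78) (nat_lit 76) (nat_lit 0) (XT.lf (nat_lit 0) (nat_lit 2217875018) (nat_lit 152) (nat_lit 24568803970) (nat_lit 76) (nat_lit 9124262425) (nat_lit 9) (nat_lit 5) (nat_lit 11) (nat_lit 5) (nat_lit 10) (nat_lit 4) (nat_lit 222) (nat_lit 203) (nat_lit 175)) (XT.nd (nat_lit 78) (nat_lit 76) (nat_lit 0) (XT.lf (nat_lit 0) (nat_lit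 11659272868) (nat_lit 152) (nat_lit 5008273089) (nat_lit 76) (nat_lit 23545063918) (nat_lit 9) (nat_lit 5) (nat_lit 11) (nat_lit 5) (nat_lit 10) (nat_lit 4) (nat_lit 223) (nat_lit 203) (nat_lit 174)) (XT.lf (nat_lit 0) (nat_lit 18292771806) (nat_lit 76) (nat_lit 4601358202) (nat_lit 152) (nat_lit 22235338000) (nat_lit 8) (nat_lit 5) (nat_lit 9) (nat_lit 5) (nat_lit 10) (nat_lit 4) (nat_lit 224) (nat_lit 203) (nat_lit 173))))))) (XT.nd (nat_lit 780) (nat_lit 152) (nat_lit 0) (XT.nd (nat_lit 390) (nat_lit 76) (nat_lit 0) (XT.nd (nat_lit 156) (nat_lit 152) (nat_lit 0) (XT.nd (nat_lit 78) (nat_lit 76) (nat_lit 0) (XT.lf (nat_lit 0) (nat_lit 36128942011) (nat_lit 152) (nat_lit 5709857374) (nat_lit 0) (nat_lit 8919981174) (nat_lit 8) (nat_lit 5) (nat_lit 10) (nat_lit 4) (nat_lit 8) (nat_lit 4) (nat_lit 225) (nat_lit 203) (nat_lit 172)) (XT.lf (nat_lit 0) (nat_lit 19336394039) (nat_lit 76) (nat_lit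 32554511122) (nat_lit 76) (nat_lit 5298320742) (nat_lit 7) (nat_lit 4) (nat_lit 8) (nat_lit 5) (nat_lit 8) (nat_lit 4) (nat_lit 226) (nat_lit 203) (nat_lit 171))) (XT.nd (nat_lit 78) (nat_lit 76) (nat_lit 0) (XT.lf (nat_lit 0) (nat_lit 5284662069) (nat_lit 152) (nat_lit 16305162441) (nat_lit 76) (nat_lit 42974152118) (nat_lit 6) (nat_lit 5) (nat_lit 8) (nat_lit 5) (nat_lit 7) (nat_lit 4) (nat_lit 227) (nat_lit 203) (nat_lit 170)) (XT.nd (nat_lit 78) (nat_lit 0) (nat_lit 0) (XT.lf (nat_lit 0) (nat_lit 8689225470) (nat_lit 76) (nat_lit 8629138633) (nat_lit 152) (nat_lit 55701470234) (nat_lit 5) (nat_lit 5) (nat_lit 6) (nat_lit 5) (nat_lit 7) (nat_lit 4) (nat_lit 228) (nat_lit 203) (nat_lit 169)) (XT.lf (nat_lit 0) (nat_lit 31757174814) (nat_lit 152) (nat_lit 44518832919) (nat_lit 0) (nat_lit 6420113651) (nat_lit 5) (nat_lit 5) (nat_lit 7) (nat_lit 4) (nat_lit 5) (nat_lit 4) (nat_lit 229)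 (nat_lit 203) (nat_lit 168))))) (XT.nd (nat_lit 156) (nat_lit 0) (nat_lit 0) (XT.nd (nat_lit 78) (nat_lit 76) (nat_lit 0) (XT.lf (nat_lit 0) (nat_lit 48567499525) (nat_lit 152) (nat_lit 22034509369) (nat_lit 0) (nat_lit 23205434988) (nat_lit 5) (nat_lit 5) (nat_lit 7) (nat_lit 4) (nat_lit 5) (nat_lit 4) (nat_lit 230) (nat_lit 203) (nat_lit 167)) (XT.lf (nat_lit 0) (nat_lit 3968314621) (nat_lit 76) (nat_lit 63997828342) (nat_lit 76) (nat_lit 38614021740) (nat_lit 4) (nat_lit 4) (nat_lit 5) (nat_lit 5) (nat_lit 5) (nat_lit 4) (nat_lit 231) (nat_lit 203) (nat_lit 166))) (XT.nd (nat_lit 78) (nat_lit 0) (nat_lit 0) (XT.lf (nat_lit 0) (nat_lit 35157703240) (nat_lit 76) (nat_lit 55732302721) (nat_lit 76) (nat_lit 30329589976) (nat_lit 4) (nat_lit 4) (nat_lit 5) (nat_lit 5) (nat_lit 5) (nat_lit 4) (nat_lit 232) (nat_lit 203) (nat_lit 165)) (XT.nd (nat_lit 78) (nat_lit 0) (nat_lit 0) (XT.lf (nat_lit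 0) (nat_lit 70983585442) (nat_lit 76) (nat_lit 46246177759) (nat_lit 76) (nat_lit 20827024889) (nat_lit 4) (nat_lit 4) (nat_lit 5) (nat_lit 5) (nat_lit 5) (nat_lit 4) (nat_lit 233) (nat_lit 203) (nat_lit 164)) (XT.lf (nat_lit 0) (nat_lit 112146902400) (nat_lit 76) (nat_lit 35353855359) (nat_lit 76) (nat_lit 9920406730) (nat_lit 4) (nat_lit 4) (nat_lit 5) (nat_lit 5) (nat_lit 5) (nat_lit 4) (nat_lit 234) (nat_lit 203) (nat_lit 163)))))) (XT.nd (nat_lit 390) (nat_lit 0) (nat_lit 0) (XT.nd (nat_lit 156) (nat_lit 0) (nat_lit 0) (XT.nd (nat_lit 78) (nat_lit 76) (nat_lit 0) (XT.lf (nat_lit 0) (nat_lit 2473409497) (nat_lit 152) (nat_lit 20301187971) (nat_lit 76) (nat_lit 156911986463) (nat_lit 3) (nat_lit 5) (nat_lit 5) (nat_lit 5) (nat_lit 4) (nat_lit 4) (nat_lit 235) (nat_lit 203) (nat_lit 162)) (XT.lf (nat_lit 0) (nat_lit 8542413870) (nat_lit 76) (nat_lit 7803308843) (nat_lit 152) (nat_lit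 188908953004) (nat_lit 2) (nat_lit 5) (nat_lit 3) (nat_lit 5) (nat_lit 4) (nat_lit 4) (nat_lit 236) (nat_lit 203) (nat_lit 161))) (XT.nd (nat_lit 78) (nat_lit 0) (nat_lit 0) (XT.lf (nat_lit 0) (nat_lit 33117442499) (nat_lit 152) (nat_lit 191937340241) (nat_lit 0) (nat_lit 9537730398) (nat_lit 2) (nat_lit 5) (nat_lit 4) (nat_lit 4) (nat_lit 2) (nat_lit 4) (nat_lit 237) (nat_lit 203) (nat_lit 160)) (XT.nd (nat_lit 78) (nat_lit 0) (nat_lit 0) (XT.lf (nat_lit 0) (nat_lit 52608359091) (nat_lit 152) (nat_lit 186685327638) (nat_lit 0) (nat_lit 29021078799) (nat_lit 2) (nat_lit 5) (nat_lit 4) (nat_lit 4) (nat_lit 2) (nat_lit 4) (nat_lit 238) (nat_lit 203) (nat_lit 159)) (XT.lf (nat_lit 0) (nat_lit 75012146746) (nat_lit 152) (nat_lit 180665797505) (nat_lit 0) (nat_lit 51418285417) (nat_lit 2) (nat_lit 5) (nat_lit 4) (nat_lit 4) (nat_lit 2) (nat_lit 4) (nat_lit 239) (nat_lit 203) (nat_lit 158)))))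 (XT.nd (nat_lit 234) (nat_lit 0) (nat_lit 0) (XT.nd (nat_lit 78) (nat_lit 0) (nat_lit 0) (XT.lf (nat_lit 0) (nat_lit 100767140440) (nat_lit 152) (nat_lit 173760976425) (nat_lit 0) (nat_lit 77167556470) (nat_lit 2) (nat_lit 5) (nat_lit 4) (nat_lit 4) (nat_lit 2) (nat_lit 4) (nat_lit 240) (nat_lit 203) (nat_lit 157)) (XT.nd (nat_lit 78) (nat_lit 0) (nat_lit 0) (XT.lf (nat_lit 0) (nat_lit 130377242222) (nat_lit 152) (nat_lit 165835770074) (nat_lit 0) (nat_lit 106772682043) (nat_lit 2) (nat_lit 5) (nat_lit 4) (nat_lit 4) (nat_lit 2) (nat_lit 4) (nat_lit 241) (nat_lit 203) (nat_lit 156)) (XT.lf (nat_lit 0) (nat_lit 164421780171) (nat_lit 152) (nat_lit 156735120066) (nat_lit 0) (nat_lit 140812892854) (nat_lit 2) (nat_lit 5) (nat_lit 4) (nat_lit 4) (nat_lit 2) (nat_lit 4) (nat_lit 242) (nat_lit 203) (nat_lit 155)))) (XT.nd (nat_lit 78) (nat_lit 0) (nat_lit 0) (XT.lf (nat_lit 0) (nat_lit 203566843073)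 (nat_lit 152) (nat_lit 146280970206) (nat_lit 0) (nat_lit 179954193027) (nat_lit 2) (nat_lit 5) (nat_lit 4) (nat_lit 4) (nat_lit 2) (nat_lit 4) (nat_lit 243) (nat_lit 203) (nat_lit 154)) (XT.nd (nat_lit 78) (nat_lit 0) (nat_lit 0) (XT.lf (nat_lit 0) (nat_lit 248578312593) (nat_lit 152) (nat_lit 134268782778) (nat_lit 0) (nat_lit 224962390609) (nat_lit 2) (nat_lit 5) (nat_lit 4) (nat_lit 4) (nat_lit 2) (nat_lit 4) (nat_lit 244) (nat_lit 203) (nat_lit 153)) (XT.lf (nat_lit 0) (nat_lit 300336847919) (nat_lit 152) (nat_lit 120463536725) (nat_lit 0) (nat_lit 276718080771) (nat_lit 2) (nat_lit 5) (nat_lit 4) (nat_lit 4) (nat_lit 2) (nat_lit 4) (nat_lit 245) (nat_lit 203) (nat_lit 152))))))))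
noncomputable def xc29 : XT := (XT.nd (nat_lit 28314) (nat_lit 0) (nat_lit 380) (XT.nd (nat_lit 780) (nat_lit 0) (nat_lit 0) (XT.nd (nat_lit 390) (nat_lit 76) (nat_lit 0) (XT.nd (nat_lit 156) (nat_lit 0) (nat_lit 0) (XT.nd (nat_lit 78) (nat_lit 0) (nat_lit 0) (XT.lf (nat_lit 0) (nat_lit 359855116044) (nat_lit 152) (nat_lit 104595129407) (nat_lit 0) (nat_lit 336233874841) (nat_lit 2) (nat_lit 5) (nat_lit 4) (nat_lit 4) (nat_lit 2) (nat_lit 4) (nat_lit 246) (nat_lit 203) (nat_lit 151)) (XT.lf (nat_lit 0) (nat_lit 428297604825) (nat_lit 152) (nat_lit 86353091984) (nat_lit 0) (nat_lit 404674212269) (nat_lit 2) (nat_lit 5) (nat_lit 4) (nat_lit 4) (nat_lit 2) (nat_lit 4) (nat_lit 247) (nat_lit 203) (nat_lit 150))) (XT.nd (nat_lit 78) (nat_lit 0) (nat_lit 0) (XT.lf (nat_lit 0) (nat_lit 507003406432) (nat_lit 152) (nat_lit 65380515028) (nat_lit 0) (nat_lit 483378143135) (nat_lit 2) (nat_lit 5)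 (nat_lit 4) (nat_lit 4) (nat_lit 2) (nat_lit 4) (nat_lit 248) (nat_lit 203) (nat_lit 149)) (XT.nd (nat_lit 78) (nat_lit 0) (nat_lit 0) (XT.lf (nat_lit 0) (nat_lit 597512416985) (nat_lit 152) (nat_lit 41267065513) (nat_lit 0) (nat_lit 573885526956) (nat_lit 2) (nat_lit 5) (nat_lit 4) (nat_lit 4) (nat_lit 2) (nat_lit 4) (nat_lit 249) (nat_lit 203) (nat_lit 148)) (XT.lf (nat_lit 0) (nat_lit 701595464950) (nat_lit 152) (nat_lit 13540958556) (nat_lit 0) (nat_lit 677967160372) (nat_lit 2) (nat_lit 5) (nat_lit 4) (nat_lit 4) (nat_lit 2) (nat_lit 4) (nat_lit 250) (nat_lit 203) (nat_lit 147))))) (XT.nd (nat_lit 156) (nat_lit 0) (nat_lit 0) (XT.nd (nat_lit 78) (nat_lit 0) (nat_lit 0) (XT.lf (nat_lit 0) (nat_lit 19306039434) (nat_lit 76) (nat_lit 802447229066) (nat_lit 76) (nat_lit 778817694445) (nat_lit 1) (nat_lit 4) (nat_lit 2) (nat_lit 5) (nat_lit 2) (nat_lit 4) (nat_lit 251) (nat_lit 203) (nat_lit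 146)) (XT.lf (nat_lit 0) (nat_lit 57896616058) (nat_lit 76) (nat_lit 902430523655) (nat_lit 76) (nat_lit 878799919431) (nat_lit 1) (nat_lit 4) (nat_lit 2) (nat_lit 5) (nat_lit 2) (nat_lit 4) (nat_lit 252) (nat_lit 203) (nat_lit 145))) (XT.nd (nat_lit 78) (nat_lit 0) (nat_lit 0) (XT.lf (nat_lit 0) (nat_lit 102272761457) (nat_lit 76) (nat_lit 1017412735971) (nat_lit 76) (nat_lit 993781201659) (nat_lit 1) (nat_lit 4) (nat_lit 2) (nat_lit 5) (nat_lit 2) (nat_lit 4) (nat_lit 253) (nat_lit 203) (nat_lit 144)) (XT.nd (nat_lit 78) (nat_lit 0) (nat_lit 0) (XT.lf (nat_lit 0) (nat_lit 153302704561) (nat_lit 76) (nat_lit 1149643517995) (nat_lit 76) (nat_lit 1126011174910) (nat_lit 1) (nat_lit 4) (nat_lit 2) (nat_lit 5) (nat_lit 2) (nat_lit 4) (nat_lit 254) (nat_lit 203) (nat_lit 143)) (XT.lf (nat_lit 0) (nat_lit 211984857300) (nat_lit 76) (nat_lit 1301709993723) (nat_lit 76) (nat_lit 1278076947357)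 (nat_lit 1) (nat_lit 4) (nat_lit 2) (nat_lit 5) (nat_lit 2) (nat_lit 4) (nat_lit 255) (nat_lit 203) (nat_lit 142)))))) (XT.nd (nat_lit 390) (nat_lit 0) (nat_lit 0) (XT.nd (nat_lit 156) (nat_lit 0) (nat_lit 0) (XT.nd (nat_lit 78) (nat_lit 0) (nat_lit 0) (XT.lf (nat_lit 0) (nat_lit 279467348751) (nat_lit 76) (nat_lit 1476587376810) (nat_lit 76) (nat_lit 1452953718895) (nat_lit 1) (nat_lit 4) (nat_lit 2) (nat_lit 5) (nat_lit 2) (nat_lit 4) (nat_lit 256) (nat_lit 203) (nat_lit 141)) (XT.lf (nat_lit 0) (nat_lit 357070488528) (nat_lit 76) (nat_lit 1677697181274) (nat_lit 76) (nat_lit 1654062991577) (nat_lit 1) (nat_lit 4) (nat_lit 2) (nat_lit 5) (nat_lit 2) (nat_lit 4) (nat_lit 257) (nat_lit 203) (nat_lit 140))) (XT.nd (nat_lit 78) (nat_lit 0) (nat_lit 0) (XT.lf (nat_lit 0) (nat_lit 446312598931) (nat_lit 76) (nat_lit 1908974164157) (nat_lit 76) (nat_lit 1885339512042) (nat_lit 1) (nat_lit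 4) (nat_lit 2) (nat_lit 5) (nat_lit 2) (nat_lit 4) (nat_lit 258) (nat_lit 203) (nat_lit 139)) (XT.nd (nat_lit 78) (nat_lit 0) (nat_lit 0) (XT.lf (nat_lit 0) (nat_lit 548939721252) (nat_lit 76) (nat_lit 2174943309908) (nat_lit 76) (nat_lit 2151308255690) (nat_lit 1) (nat_lit 4) (nat_lit 2) (nat_lit 5) (nat_lit 2) (nat_lit 4) (nat_lit 259) (nat_lit 203) (nat_lit 138)) (XT.lf (nat_lit 0) (nat_lit 666959777447) (nat_lit 76) (nat_lit 2480808362683) (nat_lit 76) (nat_lit 2457172958809) (nat_lit 1) (nat_lit 4) (nat_lit 2) (nat_lit 5) (nat_lit 2) (nat_lit 4) (nat_lit 260) (nat_lit 203) (nat_lit 137))))) (XT.nd (nat_lit 26910) (nat_lit 0) (nat_lit 3268) (XT.nd (nat_lit 78) (nat_lit 0) (nat_lit 0) (XT.lf (nat_lit 0) (nat_lit 802681855575) (nat_lit 76) (nat_lit 2832553638731) (nat_lit 76) (nat_lit 2808917930810) (nat_lit 1) (nat_lit 4) (nat_lit 2) (nat_lit 5) (nat_lit 2) (nat_lit 4) (nat_lit 261)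 (nat_lit 203) (nat_lit 136)) (XT.nd (nat_lit 26754) (nat_lit 0) (nat_lit 3268) (XT.lf (nat_lit 0) (nat_lit 958761387596) (nat_lit 76) (nat_lit 3237061110845) (nat_lit 76) (nat_lit 3213425138535) (nat_lit 1) (nat_lit 4) (nat_lit 2) (nat_lit 5) (nat_lit 2) (nat_lit 4) (nat_lit 262) (nat_lit 203) (nat_lit 135)) (XT.lf (nat_lit 0) (nat_lit 170830022) (nat_lit 0) (nat_lit 170830022) (nat_lit 380) (nat_lit 3659886721) (nat_lit 44) (nat_lit 5) (nat_lit 44) (nat_lit 3) (nat_lit 49) (nat_lit 3) (nat_lit 204) (nat_lit 204) (nat_lit 192)))) (XT.nd (nat_lit 78) (nat_lit 0) (nat_lit 76) (XT.lf (nat_lit 0) (nat_lit 2839281805) (nat_lit 380) (nat_lit 1192204489) (nat_lit 456) (nat_lit 4392861744) (nat_lit 44) (nat_lit 5) (nat_lit 49) (nat_lit 3) (nat_lit 50) (nat_lit 5) (nat_lit 205) (nat_lit 204) (nat_lit 191)) (XT.nd (nat_lit 78) (nat_lit 0) (nat_lit 0) (XT.lf (nat_lit 0) (nat_lit 5159139873) (nat_lit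 380) (nat_lit 2611704678) (nat_lit 456) (nat_lit 1152593459) (nat_lit 45) (nat_lit 5) (nat_lit 50) (nat_lit 5) (nat_lit 51) (nat_lit 5) (nat_lit 206) (nat_lit 204) (nat_lit 190)) (XT.lf (nat_lit 76) (nat_lit 5456109168) (nat_lit 0) (nat_lit 2342369074) (nat_lit 456) (nat_lit 1702834376) (nat_lit 46) (nat_lit 5) (nat_lit 45) (nat_lit 5) (nat_lit 51) (nat_lit 5) (nat_lit 207) (nat_lit 204) (nat_lit 189))))))) (XT.nd (nat_lit 780) (nat_lit 760) (nat_lit 0) (XT.nd (nat_lit 390) (nat_lit 684) (nat_lit 0) (XT.nd (nat_lit 156) (nat_lit 684) (nat_lit 0) (XT.nd (nat_lit 78) (nat_lit 456) (nat_lit 0) (XT.lf (nat_lit 0) (nat_lit 646725098) (nat_lit 456) (nat_lit 5542979407) (nat_lit 76) (nat_lit 3975217669) (nat_lit 40) (nat_lit 5) (nat_lit 46) (nat_lit 5) (nat_lit 41) (nat_lit 5) (nat_lit 208) (nat_lit 204) (nat_lit 188)) (XT.lf (nat_lit 0) (nat_lit 3291264530) (nat_lit 532) (nat_lit 7169878550)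 (nat_lit 76) (nat_lit 461071005) (nat_lit 34) (nat_lit 5) (nat_lit 41) (nat_lit 5) (nat_lit 35) (nat_lit 5) (nat_lit 209) (nat_lit 204) (nat_lit 187))) (XT.nd (nat_lit 78) (nat_lit 456) (nat_lit 0) (XT.lf (nat_lit 0) (nat_lit 2734915467) (nat_lit 228) (nat_lit 3780469028) (nat_lit 304) (nat_lit 5264082541) (nat_lit 31) (nat_lit 5) (nat_lit 34) (nat_lit 5) (nat_lit 35) (nat_lit 5) (nat_lit 210) (nat_lit 204) (nat_lit 186)) (XT.nd (nat_lit 78) (nat_lit 304) (nat_lit 0) (XT.lf (nat_lit 0) (nat_lit 1568911083) (nat_lit 152) (nat_lit 8803823345) (nat_lit 228) (nat_lit 2381473434) (nat_lit 29) (nat_lit 5) (nat_lit 31) (nat_lit 5) (nat_lit 32) (nat_lit 5) (nat_lit 211) (nat_lit 204) (nat_lit 185)) (XT.lf (nat_lit 0) (nat_lit 127763221) (nat_lit 228) (nat_lit 956158766) (nat_lit 304) (nat_lit 12774373805) (nat_lit 25) (nat_lit 5) (nat_lit 28) (nat_lit 5) (nat_lit 29) (nat_lit 5) (nat_lit 212)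 (nat_lit 204) (nat_lit 184))))) (XT.nd (nat_lit 156) (nat_lit 532) (nat_lit 0) (XT.nd (nat_lit 78) (nat_lit 152) (nat_lit 0) (XT.lf (nat_lit 0) (nat_lit 5297676780) (nat_lit 304) (nat_lit 1762728304) (nat_lit 76) (nat_lit 8033686861) (nat_lit 25) (nat_lit 5) (nat_lit 29) (nat_lit 5) (nat_lit 26) (nat_lit 5) (nat_lit 213) (nat_lit 204) (nat_lit 183)) (XT.lf (nat_lit 0) (nat_lit 10377306055) (nat_lit 228) (nat_lit 4136945506) (nat_lit 76) (nat_lit 1982830049) (nat_lit 23) (nat_lit 5) (nat_lit 26) (nat_lit 5) (nat_lit 24) (nat_lit 5) (nat_lit 214) (nat_lit 204) (nat_lit 182))) (XT.nd (nat_lit 78) (nat_lit 380) (nat_lit 0) (XT.lf (nat_lit 0) (nat_lit 10768977327) (nat_lit 152) (nat_lit 5828975456) (nat_lit 228) (nat_lit 1482701087) (nat_lit 21) (nat_lit 5) (nat_lit 23) (nat_lit 5) (nat_lit 24) (nat_lit 5) (nat_lit 215) (nat_lit 204) (nat_lit 181)) (XT.nd (nat_lit 78) (nat_lit 152) (nat_lit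 0) (XT.lf (nat_lit 0) (nat_lit 3974974677) (nat_lit 228) (nat_lit 11559439455) (nat_lit 76) (nat_lit 4334900563) (nat_lit 18) (nat_lit 5) (nat_lit 21) (nat_lit 5) (nat_lit 19) (nat_lit 5) (nat_lit 216) (nat_lit 204) (nat_lit 180)) (XT.lf (nat_lit 0) (nat_lit 4673920366) (nat_lit 152) (nat_lit 5876386818) (nat_lit 228) (nat_lit 11342264751) (nat_lit 16) (nat_lit 5) (nat_lit 18) (nat_lit 5) (nat_lit 19) (nat_lit 5) (nat_lit 217) (nat_lit 204) (nat_lit 179)))))) (XT.nd (nat_lit 390) (nat_lit 380) (nat_lit 0) (XT.nd (nat_lit 156) (nat_lit 228) (nat_lit 0) (XT.nd (nat_lit 78) (nat_lit 152) (nat_lit 0) (XT.lf (nat_lit 0) (nat_lit 18484618998) (nat_lit 228) (nat_lit 438254621) (nat_lit 76) (nat_lit 5266909837) (nat_lit 16) (nat_lit 5) (nat_lit 19) (nat_lit 5) (nat_lit 17) (nat_lit 4) (nat_lit 218) (nat_lit 204) (nat_lit 178)) (XT.lf (nat_lit 0) (nat_lit 1299500958) (nat_lit 152) (nat_lit 7280370700)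 (nat_lit 76) (nat_lit 18205563108) (nat_lit 14) (nat_lit 5) (nat_lit 16) (nat_lit 5) (nat_lit 15) (nat_lit 5) (nat_lit 219) (nat_lit 204) (nat_lit 177))) (XT.nd (nat_lit 78) (nat_lit 76) (nat_lit 0) (XT.lf (nat_lit 0) (nat_lit 9365619409) (nat_lit 228) (nat_lit 16763535766) (nat_lit 76) (nat_lit 3601734770) (nat_lit 12) (nat_lit 5) (nat_lit 15) (nat_lit 5) (nat_lit 13) (nat_lit 4) (nat_lit 220) (nat_lit 204) (nat_lit 176)) (XT.nd (nat_lit 78) (nat_lit 0) (nat_lit 0) (XT.lf (nat_lit 0) (nat_lit 3398293877) (nat_lit 76) (nat_lit 15706835071) (nat_lit 152) (nat_lit 13976127086) (nat_lit 11) (nat_lit 5) (nat_lit 12) (nat_lit 5) (nat_lit 13) (nat_lit 4) (nat_lit 221) (nat_lit 204) (nat_lit 175)) (XT.lf (nat_lit 0) (nat_lit 27488965125) (nat_lit 76) (nat_lit 3238497490) (nat_lit 152) (nat_lit 6173110861) (nat_lit 11) (nat_lit 5) (nat_lit 12) (nat_lit 5) (nat_lit 13) (nat_lit 4) (nat_lit 222)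 (nat_lit 204) (nat_lit 174))))) (XT.nd (nat_lit 234) (nat_lit 152) (nat_lit 0) (XT.nd (nat_lit 78) (nat_lit 76) (nat_lit 0) (XT.lf (nat_lit 0) (nat_lit 3225588628) (nat_lit 152) (nat_lit 27084305012) (nat_lit 76) (nat_lit 10932401086) (nat_lit 9) (nat_lit 5) (nat_lit 11) (nat_lit 5) (nat_lit 10) (nat_lit 4) (nat_lit 223) (nat_lit 204) (nat_lit 173)) (XT.nd (nat_lit 78) (nat_lit 76) (nat_lit 0) (XT.lf (nat_lit 0) (nat_lit 13995148457) (nat_lit 152) (nat_lit 4742279658) (nat_lit 76) (nat_lit 27458996808) (nat_lit 9) (nat_lit 5) (nat_lit 11) (nat_lit 5) (nat_lit 10) (nat_lit 4) (nat_lit 224) (nat_lit 204) (nat_lit 172)) (XT.lf (nat_lit 0) (nat_lit 21967818147) (nat_lit 76) (nat_lit 4893246518) (nat_lit 152) (nat_lit 24994226454) (nat_lit 8) (nat_lit 5) (nat_lit 9) (nat_lit 5) (nat_lit 10) (nat_lit 4) (nat_lit 225) (nat_lit 204) (nat_lit 171)))) (XT.nd (nat_lit 78) (nat_lit 152) (nat_lit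 0) (XT.lf (nat_lit 0) (nat_lit 42019930834) (nat_lit 152) (nat_lit 5727076705) (nat_lit 0) (nat_lit 10587013189) (nat_lit 8) (nat_lit 5) (nat_lit 10) (nat_lit 4) (nat_lit 8) (nat_lit 4) (nat_lit 226) (nat_lit 204) (nat_lit 170)) (XT.nd (nat_lit 78) (nat_lit 76) (nat_lit 0) (XT.lf (nat_lit 0) (nat_lit 23005073302) (nat_lit 76) (nat_lit 37098071626) (nat_lit 76) (nat_lit 5629441661) (nat_lit 7) (nat_lit 4) (nat_lit 8) (nat_lit 5) (nat_lit 8) (nat_lit 4) (nat_lit 227) (nat_lit 204) (nat_lit 169)) (XT.lf (nat_lit 0) (nat_lit 6460348061) (nat_lit 152) (nat_lit 18062160188) (nat_lit 76) (nat_lit 49694834248) (nat_lit 6) (nat_lit 5) (nat_lit 8) (nat_lit 5) (nat_lit 7) (nat_lit 4) (nat_lit 228) (nat_lit 204) (nat_lit 168))))))))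
noncomputable def xc30 : XT := (XT.nd (nat_lit 1638) (nat_lit 76) (nat_lit 0) (XT.nd (nat_lit 780) (nat_lit 0) (nat_lit 0) (XT.nd (nat_lit 390) (nat_lit 152) (nat_lit 0) (XT.nd (nat_lit 156) (nat_lit 76) (nat_lit 0) (XT.nd (nat_lit 78) (nat_lit 0) (nat_lit 0) (XT.lf (nat_lit 0) (nat_lit 10623084399) (nat_lit 76) (nat_lit 9641229157) (nat_lit 152) (nat_lit 63680125830) (nat_lit 5) (nat_lit 5) (nat_lit 6) (nat_lit 5) (nat_lit 7) (nat_lit 4) (nat_lit 229) (nat_lit 204) (nat_lit 167)) (XT.lf (nat_lit 0) (nat_lit 36829432502) (nat_lit 152) (nat_lit 50629652324) (nat_lit 0) (nat_lit 7616312845) (nat_lit 5) (nat_lit 5) (nat_lit 7) (nat_lit 4) (nat_lit 5) (nat_lit 4) (nat_lit 230) (nat_lit 204) (nat_lit 166))) (XT.nd (nat_lit 78) (nat_lit 76) (nat_lit 0) (XT.lf (nat_lit 0) (nat_lit 56121043120) (nat_lit 152) (nat_lit 24846637485) (nat_lit 0) (nat_lit 26889017320) (nat_lit 5) (nat_lit 5) (nat_lit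 7) (nat_lit 4) (nat_lit 5) (nat_lit 4) (nat_lit 231) (nat_lit 204) (nat_lit 165)) (XT.nd (nat_lit 78) (nat_lit 0) (nat_lit 0) (XT.lf (nat_lit 0) (nat_lit 5014876021) (nat_lit 76) (nat_lit 73390450039) (nat_lit 76) (nat_lit 44141984115) (nat_lit 4) (nat_lit 4) (nat_lit 5) (nat_lit 5) (nat_lit 5) (nat_lit 4) (nat_lit 232) (nat_lit 204) (nat_lit 164)) (XT.lf (nat_lit 0) (nat_lit 40823805863) (nat_lit 76) (nat_lit 63912102429) (nat_lit 76) (nat_lit 34649340745) (nat_lit 4) (nat_lit 4) (nat_lit 5) (nat_lit 5) (nat_lit 5) (nat_lit 4) (nat_lit 233) (nat_lit 204) (nat_lit 163))))) (XT.nd (nat_lit 156) (nat_lit 152) (nat_lit 0) (XT.nd (nat_lit 78) (nat_lit 0) (nat_lit 0) (XT.lf (nat_lit 0) (nat_lit 81972381638) (nat_lit 76) (nat_lit 53026542945) (nat_lit 76) (nat_lit 23751350164) (nat_lit 4) (nat_lit 4) (nat_lit 5) (nat_lit 5) (nat_lit 5) (nat_lit 4) (nat_lit 234) (nat_lit 204) (nat_lit 162))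 (XT.lf (nat_lit 0) (nat_lit 129265684177) (nat_lit 76) (nat_lit 40520793248) (nat_lit 76) (nat_lit 11234790819) (nat_lit 4) (nat_lit 4) (nat_lit 5) (nat_lit 5) (nat_lit 5) (nat_lit 4) (nat_lit 235) (nat_lit 204) (nat_lit 161))) (XT.nd (nat_lit 78) (nat_lit 76) (nat_lit 0) (XT.lf (nat_lit 0) (nat_lit 2987889528) (nat_lit 152) (nat_lit 23080591904) (nat_lit 76) (nat_lit 180559433503) (nat_lit 3) (nat_lit 5) (nat_lit 5) (nat_lit 5) (nat_lit 4) (nat_lit 4) (nat_lit 236) (nat_lit 204) (nat_lit 160)) (XT.nd (nat_lit 78) (nat_lit 0) (nat_lit 0) (XT.lf (nat_lit 0) (nat_lit 10067053746) (nat_lit 76) (nat_lit 8861133521) (nat_lit 152) (nat_lit 217104085580) (nat_lit 2) (nat_lit 5) (nat_lit 3) (nat_lit 5) (nat_lit 4) (nat_lit 4) (nat_lit 237) (nat_lit 204) (nat_lit 159)) (XT.lf (nat_lit 0) (nat_lit 38200985745) (nat_lit 152) (nat_lit 220509530610) (nat_lit 0) (nat_lit 11061464180) (nat_lit 2) (nat_lit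 5) (nat_lit 4) (nat_lit 4) (nat_lit 2) (nat_lit 4) (nat_lit 238) (nat_lit 204) (nat_lit 158)))))) (XT.nd (nat_lit 390) (nat_lit 0) (nat_lit 0) (XT.nd (nat_lit 156) (nat_lit 0) (nat_lit 0) (XT.nd (nat_lit 78) (nat_lit 0) (nat_lit 0) (XT.lf (nat_lit 0) (nat_lit 60600418931) (nat_lit 152) (nat_lit 214498204464) (nat_lit 0) (nat_lit 33455174725) (nat_lit 2) (nat_lit 5) (nat_lit 4) (nat_lit 4) (nat_lit 2) (nat_lit 4) (nat_lit 239) (nat_lit 204) (nat_lit 157)) (XT.lf (nat_lit 0) (nat_lit 86351626128) (nat_lit 152) (nat_lit 207600517287) (nat_lit 0) (nat_lit 59201405714) (nat_lit 2) (nat_lit 5) (nat_lit 4) (nat_lit 4) (nat_lit 2) (nat_lit 4) (nat_lit 240) (nat_lit 204) (nat_lit 156))) (XT.nd (nat_lit 78) (nat_lit 0) (nat_lit 0) (XT.lf (nat_lit 0) (nat_lit 115958435306) (nat_lit 152) (nat_lit 199681514330) (nat_lit 0) (nat_lit 88803887753) (nat_lit 2) (nat_lit 5) (nat_lit 4) (nat_lit 4) (nat_lit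 2) (nat_lit 4) (nat_lit 241) (nat_lit 204) (nat_lit 155)) (XT.nd (nat_lit 78) (nat_lit 0) (nat_lit 0) (XT.lf (nat_lit 0) (nat_lit 150000110120) (nat_lit 152) (nat_lit 190586258577) (nat_lit 0) (nat_lit 122841799838) (nat_lit 2) (nat_lit 5) (nat_lit 4) (nat_lit 4) (nat_lit 2) (nat_lit 4) (nat_lit 242) (nat_lit 204) (nat_lit 154)) (XT.lf (nat_lit 0) (nat_lit 189142683340) (nat_lit 152) (nat_lit 180136799374) (nat_lit 0) (nat_lit 161981101120) (nat_lit 2) (nat_lit 5) (nat_lit 4) (nat_lit 4) (nat_lit 2) (nat_lit 4) (nat_lit 243) (nat_lit 204) (nat_lit 153))))) (XT.nd (nat_lit 234) (nat_lit 0) (nat_lit 0) (XT.nd (nat_lit 78) (nat_lit 0) (nat_lit 0) (XT.lf (nat_lit 0) (nat_lit 234151987919) (nat_lit 152) (nat_lit 168128690778) (nat_lit 0) (nat_lit 206987560536) (nat_lit 2) (nat_lit 5) (nat_lit 4) (nat_lit 4) (nat_lit 2) (nat_lit 4) (nat_lit 244) (nat_lit 204) (nat_lit 152)) (XT.nd (nat_lit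 78) (nat_lit 0) (nat_lit 0) (XT.lf (nat_lit 0) (nat_lit 285908640687) (nat_lit 152) (nat_lit 154326991536) (nat_lit 0) (nat_lit 258741739248) (nat_lit 2) (nat_lit 5) (nat_lit 4) (nat_lit 4) (nat_lit 2) (nat_lit 4) (nat_lit 245) (nat_lit 204) (nat_lit 151)) (XT.lf (nat_lit 0) (nat_lit 345425271807) (nat_lit 152) (nat_lit 138461668400) (nat_lit 0) (nat_lit 318256219015) (nat_lit 2) (nat_lit 5) (nat_lit 4) (nat_lit 4) (nat_lit 2) (nat_lit 4) (nat_lit 246) (nat_lit 204) (nat_lit 150)))) (XT.nd (nat_lit 78) (nat_lit 0) (nat_lit 0) (XT.lf (nat_lit 0) (nat_lit 413866337103) (nat_lit 152) (nat_lit 120222312875) (nat_lit 0) (nat_lit 386695413570) (nat_lit 2) (nat_lit 5) (nat_lit 4) (nat_lit 4) (nat_lit 2) (nat_lit 4) (nat_lit 247) (nat_lit 204) (nat_lit 149)) (XT.nd (nat_lit 78) (nat_lit 0) (nat_lit 0) (XT.lf (nat_lit 0) (nat_lit 492570900899) (nat_lit 152) (nat_lit 99252068005) (nat_lit 0) (nat_lit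 465398350634) (nat_lit 2) (nat_lit 5) (nat_lit 4) (nat_lit 4) (nat_lit 2) (nat_lit 4) (nat_lit 248) (nat_lit 204) (nat_lit 148)) (XT.lf (nat_lit 0) (nat_lit 583078835093) (nat_lit 152) (nat_lit 75140646390) (nat_lit 0) (nat_lit 555904870279) (nat_lit 2) (nat_lit 5) (nat_lit 4) (nat_lit 4) (nat_lit 2) (nat_lit 4) (nat_lit 249) (nat_lit 204) (nat_lit 147))))))) (XT.nd (nat_lit 780) (nat_lit 0) (nat_lit 0) (XT.nd (nat_lit 390) (nat_lit 0) (nat_lit 0) (XT.nd (nat_lit 156) (nat_lit 76) (nat_lit 0) (XT.nd (nat_lit 78) (nat_lit 0) (nat_lit 0) (XT.lf (nat_lit 0) (nat_lit 687160947094) (nat_lit 152) (nat_lit 47416302825) (nat_lit 0) (nat_lit 659985752237) (nat_lit 2) (nat_lit 5) (nat_lit 4) (nat_lit 4) (nat_lit 2) (nat_lit 4) (nat_lit 250) (nat_lit 204) (nat_lit 146)) (XT.lf (nat_lit 0) (nat_lit 806853626050) (nat_lit 152) (nat_lit 15536604500) (nat_lit 0) (nat_lit 779677361591) (nat_lit 2) (nat_lit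 5) (nat_lit 4) (nat_lit 4) (nat_lit 2) (nat_lit 4) (nat_lit 251) (nat_lit 204) (nat_lit 145))) (XT.nd (nat_lit 78) (nat_lit 0) (nat_lit 0) (XT.lf (nat_lit 0) (nat_lit 22234438473) (nat_lit 76) (nat_lit 922798985551) (nat_lit 76) (nat_lit 895621791003) (nat_lit 1) (nat_lit 4) (nat_lit 2) (nat_lit 5) (nat_lit 2) (nat_lit 4) (nat_lit 252) (nat_lit 204) (nat_lit 144)) (XT.nd (nat_lit 78) (nat_lit 0) (nat_lit 0) (XT.lf (nat_lit 0) (nat_lit 66609363358) (nat_lit 76) (nat_lit 1037781773616) (nat_lit 76) (nat_lit 1010603770295) (nat_lit 1) (nat_lit 4) (nat_lit 2) (nat_lit 5) (nat_lit 2) (nat_lit 4) (nat_lit 253) (nat_lit 204) (nat_lit 143)) (XT.lf (nat_lit 0) (nat_lit 117638245145) (nat_lit 76) (nat_lit 1170013056292) (nat_lit 76) (nat_lit 1142834349690) (nat_lit 1) (nat_lit 4) (nat_lit 2) (nat_lit 5) (nat_lit 2) (nat_lit 4) (nat_lit 254) (nat_lit 204) (nat_lit 142))))) (XT.nd (nat_lit 156) (nat_lit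 0) (nat_lit 0) (XT.nd (nat_lit 78) (nat_lit 0) (nat_lit 0) (XT.lf (nat_lit 0) (nat_lit 176319475001) (nat_lit 76) (nat_lit 1322079967368) (nat_lit 76) (nat_lit 1294900649218) (nat_lit 1) (nat_lit 4) (nat_lit 2) (nat_lit 5) (nat_lit 2) (nat_lit 4) (nat_lit 255) (nat_lit 204) (nat_lit 141)) (XT.lf (nat_lit 0) (nat_lit 243801163944) (nat_lit 76) (nat_lit 1496957729020) (nat_lit 76) (nat_lit 1469777879087) (nat_lit 1) (nat_lit 4) (nat_lit 2) (nat_lit 5) (nat_lit 2) (nat_lit 4) (nat_lit 256) (nat_lit 204) (nat_lit 140))) (XT.nd (nat_lit 78) (nat_lit 0) (nat_lit 0) (XT.lf (nat_lit 0) (nat_lit 321403605889) (nat_lit 76) (nat_lit 1698067862669) (nat_lit 76) (nat_lit 1670887550318) (nat_lit 1) (nat_lit 4) (nat_lit 2) (nat_lit 5) (nat_lit 2) (nat_lit 4) (nat_lit 257) (nat_lit 204) (nat_lit 139)) (XT.nd (nat_lit 78) (nat_lit 0) (nat_lit 0) (XT.lf (nat_lit 0) (nat_lit 410645109481) (nat_lit 76) (nat_lit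 1929345131802) (nat_lit 76) (nat_lit 1902164417347) (nat_lit 1) (nat_lit 4) (nat_lit 2) (nat_lit 5) (nat_lit 2) (nat_lit 4) (nat_lit 258) (nat_lit 204) (nat_lit 138)) (XT.lf (nat_lit 0) (nat_lit 513271704140) (nat_lit 76) (nat_lit 2195314526465) (nat_lit 76) (nat_lit 2168133462356) (nat_lit 1) (nat_lit 4) (nat_lit 2) (nat_lit 5) (nat_lit 2) (nat_lit 4) (nat_lit 259) (nat_lit 204) (nat_lit 137)))))) (XT.nd (nat_lit 27144) (nat_lit 0) (nat_lit 2128) (XT.nd (nat_lit 156) (nat_lit 0) (nat_lit 0) (XT.nd (nat_lit 78) (nat_lit 0) (nat_lit 0) (XT.lf (nat_lit 0) (nat_lit 631291301499) (nat_lit 76) (nat_lit 2501179795685) (nat_lit 76) (nat_lit 2473998427528) (nat_lit 1) (nat_lit 4) (nat_lit 2) (nat_lit 5) (nat_lit 2) (nat_lit 4) (nat_lit 260) (nat_lit 204) (nat_lit 136)) (XT.lf (nat_lit 0) (nat_lit 767012980638) (nat_lit 76) (nat_lit 2852925259946) (nat_lit 76) (nat_lit 2825743627400) (nat_lit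 1) (nat_lit 4) (nat_lit 2) (nat_lit 5) (nat_lit 2) (nat_lit 4) (nat_lit 261) (nat_lit 204) (nat_lit 135))) (XT.nd (nat_lit 26832) (nat_lit 0) (nat_lit 3268) (XT.lf (nat_lit 0) (nat_lit 923092165714) (nat_lit 76) (nat_lit 3257432895724) (nat_lit 76) (nat_lit 3230251033274) (nat_lit 1) (nat_lit 4) (nat_lit 2) (nat_lit 5) (nat_lit 2) (nat_lit 4) (nat_lit 262) (nat_lit 204) (nat_lit 134)) (XT.nd (nat_lit 78) (nat_lit 0) (nat_lit 0) (XT.lf (nat_lit 0) (nat_lit 1151931722) (nat_lit 0) (nat_lit 1151931722) (nat_lit 380) (nat_lit 2134877436) (nat_lit 44) (nat_lit 5) (nat_lit 44) (nat_lit 3) (nat_lit 49) (nat_lit 3) (nat_lit 205) (nat_lit 205) (nat_lit 190)) (XT.lf (nat_lit 76) (nat_lit 646513627) (nat_lit 0) (nat_lit 5917644148) (nat_lit 456) (nat_lit 2842251513) (nat_lit 45) (nat_lit 5) (nat_lit 44) (nat_lit 5) (nat_lit 50) (nat_lit 5) (nat_lit 206) (nat_lit 205) (nat_lit 189))))) (XT.nd (nat_lit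 234) (nat_lit 760) (nat_lit 0) (XT.nd (nat_lit 78) (nat_lit 456) (nat_lit 0) (XT.lf (nat_lit 0) (nat_lit 8805859950) (nat_lit 380) (nat_lit 912999686) (nat_lit 456) (nat_lit 297898963) (nat_lit 45) (nat_lit 5) (nat_lit 50) (nat_lit 5) (nat_lit 51) (nat_lit 5) (nat_lit 207) (nat_lit 205) (nat_lit 188)) (XT.nd (nat_lit 78) (nat_lit 0) (nat_lit 76) (XT.lf (nat_lit 0) (nat_lit 762626356) (nat_lit 456) (nat_lit 2540882613) (nat_lit 532) (nat_lit 7404561238) (nat_lit 39) (nat_lit 5) (nat_lit 45) (nat_lit 5) (nat_lit 46) (nat_lit 5) (nat_lit 208) (nat_lit 205) (nat_lit 187)) (XT.lf (nat_lit 0) (nat_lit 3059468023) (nat_lit 456) (nat_lit 4277761875) (nat_lit 76) (nat_lit 4156412796) (nat_lit 40) (nat_lit 5) (nat_lit 46) (nat_lit 5) (nat_lit 41) (nat_lit 5) (nat_lit 209) (nat_lit 205) (nat_lit 186)))) (XT.nd (nat_lit 78) (nat_lit 380) (nat_lit 0) (XT.lf (nat_lit 0) (nat_lit 5841410162) (nat_lit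 532) (nat_lit 6148642751) (nat_lit 76) (nat_lit 396621094) (nat_lit 34) (nat_lit 5) (nat_lit 41) (nat_lit 5) (nat_lit 35) (nat_lit 5) (nat_lit 210) (nat_lit 205) (nat_lit 185)) (XT.nd (nat_lit 78) (nat_lit 152) (nat_lit 0) (XT.lf (nat_lit 0) (nat_lit 5064393669) (nat_lit 228) (nat_lit 4262678857) (nat_lit 304) (nat_lit 4064428732) (nat_lit 31) (nat_lit 5) (nat_lit 34) (nat_lit 5) (nat_lit 35) (nat_lit 5) (nat_lit 211) (nat_lit 205) (nat_lit 184)) (XT.lf (nat_lit 0) (nat_lit 3700941819) (nat_lit 152) (nat_lit 9870206359) (nat_lit 228) (nat_lit 957716311) (nat_lit 29) (nat_lit 5) (nat_lit 31) (nat_lit 5) (nat_lit 32) (nat_lit 5) (nat_lit 212) (nat_lit 205) (nat_lit 183))))))))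
noncomputable def xc31 : XT := (XT.nd (nat_lit 1638) (nat_lit 228) (nat_lit 0) (XT.nd (nat_lit 780) (nat_lit 532) (nat_lit 0) (XT.nd (nat_lit 390) (nat_lit 532) (nat_lit 0) (XT.nd (nat_lit 156) (nat_lit 532) (nat_lit 0) (XT.nd (nat_lit 78) (nat_lit 0) (nat_lit 0) (XT.lf (nat_lit 0) (nat_lit 1970622438) (nat_lit 228) (nat_lit 790953313) (nat_lit 304) (nat_lit 13048563308) (nat_lit 25) (nat_lit 5) (nat_lit 28) (nat_lit 5) (nat_lit 29) (nat_lit 5) (nat_lit 213) (nat_lit 205) (nat_lit 182)) (XT.lf (nat_lit 0) (nat_lit 7416230912) (nat_lit 304) (nat_lit 337421641) (nat_lit 76) (nat_lit 9493688049) (nat_lit 25) (nat_lit 5) (nat_lit 29) (nat_lit 5) (nat_lit 26) (nat_lit 5) (nat_lit 214) (nat_lit 205) (nat_lit 181))) (XT.nd (nat_lit 78) (nat_lit 380) (nat_lit 0) (XT.lf (nat_lit 0) (nat_lit 13130936014) (nat_lit 228) (nat_lit 3120033615) (nat_lit 76) (nat_lit 2620604606) (nat_lit 23) (nat_lit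 5) (nat_lit 26) (nat_lit 5) (nat_lit 24) (nat_lit 5) (nat_lit 215) (nat_lit 205) (nat_lit 180)) (XT.nd (nat_lit 78) (nat_lit 228) (nat_lit 0) (XT.lf (nat_lit 0) (nat_lit 13883175341) (nat_lit 152) (nat_lit 6281416946) (nat_lit 228) (nat_lit 538258812) (nat_lit 21) (nat_lit 5) (nat_lit 23) (nat_lit 5) (nat_lit 24) (nat_lit 5) (nat_lit 216) (nat_lit 205) (nat_lit 179)) (XT.lf (nat_lit 0) (nat_lit 5579820980) (nat_lit 228) (nat_lit 11792244525) (nat_lit 76) (nat_lit 5393942988) (nat_lit 18) (nat_lit 5) (nat_lit 21) (nat_lit 5) (nat_lit 19) (nat_lit 5) (nat_lit 217) (nat_lit 205) (nat_lit 178))))) (XT.nd (nat_lit 156) (nat_lit 304) (nat_lit 0) (XT.nd (nat_lit 78) (nat_lit 76) (nat_lit 0) (XT.lf (nat_lit 0) (nat_lit 6749057712) (nat_lit 152) (nat_lit 6293885035) (nat_lit 228) (nat_lit 12058085735) (nat_lit 16) (nat_lit 5) (nat_lit 18) (nat_lit 5) (nat_lit 19) (nat_lit 5) (nat_lit 218) (nat_lit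 205) (nat_lit 177)) (XT.lf (nat_lit 0) (nat_lit 786041459) (nat_lit 76) (nat_lit 21291259687) (nat_lit 152) (nat_lit 5673070610) (nat_lit 15) (nat_lit 5) (nat_lit 16) (nat_lit 5) (nat_lit 17) (nat_lit 4) (nat_lit 219) (nat_lit 205) (nat_lit 176))) (XT.nd (nat_lit 78) (nat_lit 228) (nat_lit 0) (XT.lf (nat_lit 0) (nat_lit 2239247371) (nat_lit 152) (nat_lit 7186522883) (nat_lit 76) (nat_lit 21316058216) (nat_lit 14) (nat_lit 5) (nat_lit 16) (nat_lit 5) (nat_lit 15) (nat_lit 5) (nat_lit 220) (nat_lit 205) (nat_lit 175)) (XT.nd (nat_lit 78) (nat_lit 76) (nat_lit 0) (XT.lf (nat_lit 0) (nat_lit 11454142314) (nat_lit 228) (nat_lit 18146947450) (nat_lit 76) (nat_lit 4533142919) (nat_lit 12) (nat_lit 5) (nat_lit 15) (nat_lit 5) (nat_lit 13) (nat_lit 4) (nat_lit 221) (nat_lit 205) (nat_lit 174)) (XT.lf (nat_lit 0) (nat_lit 4943413076) (nat_lit 76) (nat_lit 17646890352) (nat_lit 152) (nat_lit 15402200465)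 (nat_lit 11) (nat_lit 5) (nat_lit 12) (nat_lit 5) (nat_lit 13) (nat_lit 4) (nat_lit 222) (nat_lit 205) (nat_lit 173)))))) (XT.nd (nat_lit 390) (nat_lit 304) (nat_lit 0) (XT.nd (nat_lit 156) (nat_lit 76) (nat_lit 0) (XT.nd (nat_lit 78) (nat_lit 152) (nat_lit 0) (XT.lf (nat_lit 0) (nat_lit 32512636083) (nat_lit 76) (nat_lit 3362559088) (nat_lit 152) (nat_lit 6516168200) (nat_lit 11) (nat_lit 5) (nat_lit 12) (nat_lit 5) (nat_lit 13) (nat_lit 4) (nat_lit 223) (nat_lit 205) (nat_lit 172)) (XT.lf (nat_lit 0) (nat_lit 4219848364) (nat_lit 152) (nat_lit 30262399117) (nat_lit 76) (nat_lit 12904585860) (nat_lit 9) (nat_lit 5) (nat_lit 11) (nat_lit 5) (nat_lit 10) (nat_lit 4) (nat_lit 224) (nat_lit 205) (nat_lit 171))) (XT.nd (nat_lit 78) (nat_lit 76) (nat_lit 0) (XT.lf (nat_lit 0) (nat_lit 16538265458) (nat_lit 152) (nat_lit 4684446261) (nat_lit 76) (nat_lit 31866824252) (nat_lit 9) (nat_lit 5)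 (nat_lit 11) (nat_lit 5) (nat_lit 10) (nat_lit 4) (nat_lit 225) (nat_lit 205) (nat_lit 170)) (XT.nd (nat_lit 78) (nat_lit 0) (nat_lit 0) (XT.lf (nat_lit 0) (nat_lit 25967059353) (nat_lit 76) (nat_lit 5326049817) (nat_lit 152) (nat_lit 28307509952) (nat_lit 8) (nat_lit 5) (nat_lit 9) (nat_lit 5) (nat_lit 10) (nat_lit 4) (nat_lit 226) (nat_lit 205) (nat_lit 169)) (XT.lf (nat_lit 0) (nat_lit 48679553746) (nat_lit 152) (nat_lit 5951537625) (nat_lit 0) (nat_lit 12423862777) (nat_lit 8) (nat_lit 5) (nat_lit 10) (nat_lit 4) (nat_lit 8) (nat_lit 4) (nat_lit 227) (nat_lit 205) (nat_lit 168))))) (XT.nd (nat_lit 234) (nat_lit 76) (nat_lit 0) (XT.nd (nat_lit 78) (nat_lit 152) (nat_lit 0) (XT.lf (nat_lit 0) (nat_lit 27036719105) (nat_lit 76) (nat_lit 42405983758) (nat_lit 76) (nat_lit 6123289144) (nat_lit 7) (nat_lit 4) (nat_lit 8) (nat_lit 5) (nat_lit 8) (nat_lit 4) (nat_lit 228) (nat_lit 205) (nat_lit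 167)) (XT.nd (nat_lit 78) (nat_lit 76) (nat_lit 0) (XT.lf (nat_lit 0) (nat_lit 7718993223) (nat_lit 152) (nat_lit 20250670138) (nat_lit 76) (nat_lit 57356665671) (nat_lit 6) (nat_lit 5) (nat_lit 8) (nat_lit 5) (nat_lit 7) (nat_lit 4) (nat_lit 229) (nat_lit 205) (nat_lit 166)) (XT.lf (nat_lit 0) (nat_lit 12693276820) (nat_lit 76) (nat_lit 10873969092) (nat_lit 152) (nat_lit 72947407511) (nat_lit 5) (nat_lit 5) (nat_lit 6) (nat_lit 5) (nat_lit 7) (nat_lit 4) (nat_lit 230) (nat_lit 205) (nat_lit 165)))) (XT.nd (nat_lit 78) (nat_lit 76) (nat_lit 0) (XT.lf (nat_lit 0) (nat_lit 42587254913) (nat_lit 152) (nat_lit 57795362530) (nat_lit 0) (nat_lit 8935078975) (nat_lit 5) (nat_lit 5) (nat_lit 7) (nat_lit 4) (nat_lit 5) (nat_lit 4) (nat_lit 231) (nat_lit 205) (nat_lit 164)) (XT.nd (nat_lit 78) (nat_lit 76) (nat_lit 0) (XT.lf (nat_lit 0) (nat_lit 64742162662) (nat_lit 152) (nat_lit 28200817766)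 (nat_lit 0) (nat_lit 31075690964) (nat_lit 5) (nat_lit 5) (nat_lit 7) (nat_lit 4) (nat_lit 5) (nat_lit 4) (nat_lit 232) (nat_lit 205) (nat_lit 163)) (XT.lf (nat_lit 0) (nat_lit 6108365804) (nat_lit 76) (nat_lit 84242456067) (nat_lit 76) (nat_lit 50563553274) (nat_lit 4) (nat_lit 4) (nat_lit 5) (nat_lit 5) (nat_lit 5) (nat_lit 4) (nat_lit 233) (nat_lit 205) (nat_lit 162))))))) (XT.nd (nat_lit 858) (nat_lit 76) (nat_lit 0) (XT.nd (nat_lit 390) (nat_lit 0) (nat_lit 0) (XT.nd (nat_lit 156) (nat_lit 152) (nat_lit 0) (XT.nd (nat_lit 78) (nat_lit 0) (nat_lit 0) (XT.lf (nat_lit 0) (nat_lit 47244123160) (nat_lit 76) (nat_lit 73362777378) (nat_lit 76) (nat_lit 39673064936) (nat_lit 4) (nat_lit 4) (nat_lit 5) (nat_lit 5) (nat_lit 5) (nat_lit 4) (nat_lit 234) (nat_lit 205) (nat_lit 161)) (XT.lf (nat_lit 0) (nat_lit 94526279247) (nat_lit 76) (nat_lit 60862141417) (nat_lit 76) (nat_lit 27163029280)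 (nat_lit 4) (nat_lit 4) (nat_lit 5) (nat_lit 5) (nat_lit 5) (nat_lit 4) (nat_lit 235) (nat_lit 205) (nat_lit 160))) (XT.nd (nat_lit 78) (nat_lit 152) (nat_lit 0) (XT.lf (nat_lit 0) (nat_lit 148879919728) (nat_lit 76) (nat_lit 46495970522) (nat_lit 76) (nat_lit 12788684738) (nat_lit 4) (nat_lit 4) (nat_lit 5) (nat_lit 5) (nat_lit 5) (nat_lit 4) (nat_lit 236) (nat_lit 205) (nat_lit 159)) (XT.nd (nat_lit 78) (nat_lit 76) (nat_lit 0) (XT.lf (nat_lit 0) (nat_lit 3544555835) (nat_lit 152) (nat_lit 26341717165) (nat_lit 76) (nat_lit 207727015122) (nat_lit 3) (nat_lit 5) (nat_lit 5) (nat_lit 5) (nat_lit 4) (nat_lit 4) (nat_lit 237) (nat_lit 205) (nat_lit 158)) (XT.lf (nat_lit 0) (nat_lit 11761064772) (nat_lit 76) (nat_lit 10105107596) (nat_lit 152) (nat_lit 249562923086) (nat_lit 2) (nat_lit 5) (nat_lit 3) (nat_lit 5) (nat_lit 4) (nat_lit 4) (nat_lit 238) (nat_lit 205) (nat_lit 157))))) (XT.nd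 (nat_lit 234) (nat_lit 0) (nat_lit 0) (XT.nd (nat_lit 78) (nat_lit 0) (nat_lit 0) (XT.lf (nat_lit 0) (nat_lit 44018790977) (nat_lit 152) (nat_lit 253420810359) (nat_lit 0) (nat_lit 12791061291) (nat_lit 2) (nat_lit 5) (nat_lit 4) (nat_lit 4) (nat_lit 2) (nat_lit 4) (nat_lit 239) (nat_lit 205) (nat_lit 156)) (XT.nd (nat_lit 78) (nat_lit 0) (nat_lit 0) (XT.lf (nat_lit 0) (nat_lit 69766705570) (nat_lit 152) (nat_lit 246529326575) (nat_lit 0) (nat_lit 38534648746) (nat_lit 2) (nat_lit 5) (nat_lit 4) (nat_lit 4) (nat_lit 2) (nat_lit 4) (nat_lit 240) (nat_lit 205) (nat_lit 155)) (XT.lf (nat_lit 0) (nat_lit 99370651613) (nat_lit 152) (nat_lit 238615717873) (nat_lit 0) (nat_lit 68134832060) (nat_lit 2) (nat_lit 5) (nat_lit 4) (nat_lit 4) (nat_lit 2) (nat_lit 4) (nat_lit 241) (nat_lit 205) (nat_lit 154)))) (XT.nd (nat_lit 78) (nat_lit 0) (nat_lit 0) (XT.lf (nat_lit 0) (nat_lit 133409836745) (nat_lit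 152) (nat_lit 229525152777) (nat_lit 0) (nat_lit 102170745254) (nat_lit 2) (nat_lit 5) (nat_lit 4) (nat_lit 4) (nat_lit 2) (nat_lit 4) (nat_lit 242) (nat_lit 205) (nat_lit 153)) (XT.nd (nat_lit 78) (nat_lit 0) (nat_lit 0) (XT.lf (nat_lit 0) (nat_lit 172550245024) (nat_lit 152) (nat_lit 219079772405) (nat_lit 0) (nat_lit 141308308369) (nat_lit 2) (nat_lit 5) (nat_lit 4) (nat_lit 4) (nat_lit 2) (nat_lit 4) (nat_lit 243) (nat_lit 205) (nat_lit 152)) (XT.lf (nat_lit 0) (nat_lit 217557667046) (nat_lit 152) (nat_lit 207075210620) (nat_lit 0) (nat_lit 186313256335) (nat_lit 2) (nat_lit 5) (nat_lit 4) (nat_lit 4) (nat_lit 2) (nat_lit 4) (nat_lit 244) (nat_lit 205) (nat_lit 151)))))) (XT.nd (nat_lit 390) (nat_lit 76) (nat_lit 0) (XT.nd (nat_lit 156) (nat_lit 0) (nat_lit 0) (XT.nd (nat_lit 78) (nat_lit 0) (nat_lit 0) (XT.lf (nat_lit 0) (nat_lit 269312682808) (nat_lit 152) (nat_lit 193276595560)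 (nat_lit 0) (nat_lit 238066120744) (nat_lit 2) (nat_lit 5) (nat_lit 4) (nat_lit 4) (nat_lit 2) (nat_lit 4) (nat_lit 245) (nat_lit 205) (nat_lit 150)) (XT.lf (nat_lit 0) (nat_lit 328827890443) (nat_lit 152) (nat_lit 177413954323) (nat_lit 0) (nat_lit 297579457638) (nat_lit 2) (nat_lit 5) (nat_lit 4) (nat_lit 4) (nat_lit 2) (nat_lit 4) (nat_lit 246) (nat_lit 205) (nat_lit 149))) (XT.nd (nat_lit 78) (nat_lit 0) (nat_lit 0) (XT.lf (nat_lit 0) (nat_lit 397267717927) (nat_lit 152) (nat_lit 159176930883) (nat_lit 0) (nat_lit 366017658391) (nat_lit 2) (nat_lit 5) (nat_lit 4) (nat_lit 4) (nat_lit 2) (nat_lit 4) (nat_lit 247) (nat_lit 205) (nat_lit 148)) (XT.nd (nat_lit 78) (nat_lit 0) (nat_lit 0) (XT.lf (nat_lit 0) (nat_lit 475971205364) (nat_lit 152) (nat_lit 138208713914) (nat_lit 0) (nat_lit 444719731279) (nat_lit 2) (nat_lit 5) (nat_lit 4) (nat_lit 4) (nat_lit 2) (nat_lit 4) (nat_lit 248)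 (nat_lit 205) (nat_lit 147)) (XT.lf (nat_lit 0) (nat_lit 566478203595) (nat_lit 152) (nat_lit 114099055690) (nat_lit 0) (nat_lit 535225499467) (nat_lit 2) (nat_lit 5) (nat_lit 4) (nat_lit 4) (nat_lit 2) (nat_lit 4) (nat_lit 249) (nat_lit 205) (nat_lit 146))))) (XT.nd (nat_lit 234) (nat_lit 76) (nat_lit 0) (XT.nd (nat_lit 78) (nat_lit 0) (nat_lit 0) (XT.lf (nat_lit 0) (nat_lit 670559501714) (nat_lit 152) (nat_lit 86376245509) (nat_lit 0) (nat_lit 639305727984) (nat_lit 2) (nat_lit 5) (nat_lit 4) (nat_lit 4) (nat_lit 2) (nat_lit 4) (nat_lit 250) (nat_lit 205) (nat_lit 145)) (XT.nd (nat_lit 78) (nat_lit 0) (nat_lit 0) (XT.lf (nat_lit 0) (nat_lit 790251472947) (nat_lit 152) (nat_lit 54497880562) (nat_lit 0) (nat_lit 758996769128) (nat_lit 2) (nat_lit 5) (nat_lit 4) (nat_lit 4) (nat_lit 2) (nat_lit 4) (nat_lit 251) (nat_lit 205) (nat_lit 144)) (XT.lf (nat_lit 0) (nat_lit 927895916730) (nat_lit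 152) (nat_lit 17840253709) (nat_lit 0) (nat_lit 896640404138) (nat_lit 2) (nat_lit 5) (nat_lit 4) (nat_lit 4) (nat_lit 2) (nat_lit 4) (nat_lit 252) (nat_lit 205) (nat_lit 143)))) (XT.nd (nat_lit 78) (nat_lit 0) (nat_lit 0) (XT.lf (nat_lit 0) (nat_lit 25594173714) (nat_lit 76) (nat_lit 1061207243308) (nat_lit 76) (nat_lit 1029951027435) (nat_lit 1) (nat_lit 4) (nat_lit 2) (nat_lit 5) (nat_lit 2) (nat_lit 4) (nat_lit 253) (nat_lit 205) (nat_lit 142)) (XT.nd (nat_lit 78) (nat_lit 0) (nat_lit 0) (XT.lf (nat_lit 0) (nat_lit 76622132618) (nat_lit 76) (nat_lit 1193438961333) (nat_lit 76) (nat_lit 1162182133910) (nat_lit 1) (nat_lit 4) (nat_lit 2) (nat_lit 5) (nat_lit 2) (nat_lit 4) (nat_lit 254) (nat_lit 205) (nat_lit 141)) (XT.lf (nat_lit 0) (nat_lit 135302559966) (nat_lit 76) (nat_lit 1345506250974) (nat_lit 76) (nat_lit 1314248891770) (nat_lit 1) (nat_lit 4) (nat_lit 2) (nat_lit 5) (nat_lit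 2) (nat_lit 4) (nat_lit 255) (nat_lit 205) (nat_lit 140))))))))
noncomputable def xc32 : XT := (XT.nd (nat_lit 28470) (nat_lit 0) (nat_lit 76) (XT.nd (nat_lit 27612) (nat_lit 0) (nat_lit 1140) (XT.nd (nat_lit 390) (nat_lit 0) (nat_lit 0) (XT.nd (nat_lit 156) (nat_lit 0) (nat_lit 0) (XT.nd (nat_lit 78) (nat_lit 0) (nat_lit 0) (XT.lf (nat_lit 0) (nat_lit 202783551077) (nat_lit 76) (nat_lit 1520384341811) (nat_lit 76) (nat_lit 1489126520189) (nat_lit 1) (nat_lit 4) (nat_lit 2) (nat_lit 5) (nat_lit 2) (nat_lit 4) (nat_lit 256) (nat_lit 205) (nat_lit 139)) (XT.lf (nat_lit 0) (nat_lit 280385386210) (nat_lit 76) (nat_lit 1721494761710) (nat_lit 76) (nat_lit 1690236537984) (nat_lit 1) (nat_lit 4) (nat_lit 2) (nat_lit 5) (nat_lit 2) (nat_lit 4) (nat_lit 257) (nat_lit 205) (nat_lit 138))) (XT.nd (nat_lit 78) (nat_lit 0) (nat_lit 0) (XT.lf (nat_lit 0) (nat_lit 369626362141) (nat_lit 76) (nat_lit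 1952772279754) (nat_lit 76) (nat_lit 1921513706374) (nat_lit 1) (nat_lit 4) (nat_lit 2) (nat_lit 5) (nat_lit 2) (nat_lit 4) (nat_lit 258) (nat_lit 205) (nat_lit 137)) (XT.nd (nat_lit 78) (nat_lit 0) (nat_lit 0) (XT.lf (nat_lit 0) (nat_lit 472252497964) (nat_lit 76) (nat_lit 2218741890862) (nat_lit 76) (nat_lit 2187483013434) (nat_lit 1) (nat_lit 4) (nat_lit 2) (nat_lit 5) (nat_lit 2) (nat_lit 4) (nat_lit 259) (nat_lit 205) (nat_lit 136)) (XT.lf (nat_lit 0) (nat_lit 590271696335) (nat_lit 76) (nat_lit 2524607348296) (nat_lit 76) (nat_lit 2493348206478) (nat_lit 1) (nat_lit 4) (nat_lit 2) (nat_lit 5) (nat_lit 2) (nat_lit 4) (nat_lit 260) (nat_lit 205) (nat_lit 135))))) (XT.nd (nat_lit 26988) (nat_lit 0) (nat_lit 2812) (XT.nd (nat_lit 78) (nat_lit 0) (nat_lit 0) (XT.lf (nat_lit 0) (nat_lit 725993028528) (nat_lit 76) (nat_lit 2876352976221) (nat_lit 76) (nat_lit 2845093604500) (nat_lit 1)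 (nat_lit 4) (nat_lit 2) (nat_lit 5) (nat_lit 2) (nat_lit 4) (nat_lit 261) (nat_lit 205) (nat_lit 134)) (XT.lf (nat_lit 0) (nat_lit 882071911911) (nat_lit 76) (nat_lit 3280860754316) (nat_lit 76) (nat_lit 3249601182678) (nat_lit 1) (nat_lit 4) (nat_lit 2) (nat_lit 5) (nat_lit 2) (nat_lit 4) (nat_lit 262) (nat_lit 205) (nat_lit 133))) (XT.nd (nat_lit 78) (nat_lit 456) (nat_lit 0) (XT.lf (nat_lit 0) (nat_lit 2047199511) (nat_lit 0) (nat_lit 2047199511) (nat_lit 380) (nat_lit 886872913) (nat_lit 44) (nat_lit 5) (nat_lit 44) (nat_lit 3) (nat_lit 49) (nat_lit 3) (nat_lit 206) (nat_lit 206) (nat_lit 188)) (XT.nd (nat_lit 78) (nat_lit 456) (nat_lit 0) (XT.lf (nat_lit 76) (nat_lit 2323638173) (nat_lit 0) (nat_lit 7745894459) (nat_lit 456) (nat_lit 532815185) (nat_lit 45) (nat_lit 5) (nat_lit 44) (nat_lit 5) (nat_lit 50) (nat_lit 5) (nat_lit 207) (nat_lit 206) (nat_lit 187)) (XT.lf (nat_lit 76)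 (nat_lit 522374691) (nat_lit 0) (nat_lit 418346914) (nat_lit 532) (nat_lit 10389383358) (nat_lit 39) (nat_lit 5) (nat_lit 38) (nat_lit 5) (nat_lit 45) (nat_lit 5) (nat_lit 208) (nat_lit 206) (nat_lit 186)))))) (XT.nd (nat_lit 390) (nat_lit 912) (nat_lit 0) (XT.nd (nat_lit 156) (nat_lit 836) (nat_lit 0) (XT.nd (nat_lit 78) (nat_lit 0) (nat_lit 76) (XT.lf (nat_lit 0) (nat_lit 2860329055) (nat_lit 456) (nat_lit 1361330569) (nat_lit 532) (nat_lit 7924600699) (nat_lit 39) (nat_lit 5) (nat_lit 45) (nat_lit 5) (nat_lit 46) (nat_lit 5) (nat_lit 209) (nat_lit 206) (nat_lit 185)) (XT.lf (nat_lit 0) (nat_lit 5269415948) (nat_lit 456) (nat_lit 3334046615) (nat_lit 76) (nat_lit 4466008913) (nat_lit 40) (nat_lit 5) (nat_lit 46) (nat_lit 5) (nat_lit 41) (nat_lit 5) (nat_lit 210) (nat_lit 206) (nat_lit 184))) (XT.nd (nat_lit 78) (nat_lit 456) (nat_lit 0) (XT.lf (nat_lit 0) (nat_lit 8272597832) (nat_lit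 532) (nat_lit 5485519441) (nat_lit 76) (nat_lit 355085477) (nat_lit 34) (nat_lit 5) (nat_lit 41) (nat_lit 5) (nat_lit 35) (nat_lit 5) (nat_lit 211) (nat_lit 206) (nat_lit 183)) (XT.nd (nat_lit 78) (nat_lit 228) (nat_lit 0) (XT.lf (nat_lit 0) (nat_lit 7275274558) (nat_lit 228) (nat_lit 4837913937) (nat_lit 304) (nat_lit 3169922010) (nat_lit 31) (nat_lit 5) (nat_lit 34) (nat_lit 5) (nat_lit 35) (nat_lit 5) (nat_lit 212) (nat_lit 206) (nat_lit 182)) (XT.lf (nat_lit 0) (nat_lit 233030602) (nat_lit 228) (nat_lit 10919130712) (nat_lit 76) (nat_lit 5450854232) (nat_lit 28) (nat_lit 5) (nat_lit 31) (nat_lit 5) (nat_lit 29) (nat_lit 5) (nat_lit 213) (nat_lit 206) (nat_lit 181))))) (XT.nd (nat_lit 234) (nat_lit 532) (nat_lit 0) (XT.nd (nat_lit 78) (nat_lit 152) (nat_lit 0) (XT.lf (nat_lit 0) (nat_lit 3645191028) (nat_lit 228) (nat_lit 676228243) (nat_lit 304) (nat_lit 13764285181) (nat_lit 25)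 (nat_lit 5) (nat_lit 28) (nat_lit 5) (nat_lit 29) (nat_lit 5) (nat_lit 214) (nat_lit 206) (nat_lit 180)) (XT.nd (nat_lit 78) (nat_lit 0) (nat_lit 0) (XT.lf (nat_lit 0) (nat_lit 936479599) (nat_lit 152) (nat_lit 8615768885) (nat_lit 228) (nat_lit 10196561449) (nat_lit 23) (nat_lit 5) (nat_lit 25) (nat_lit 5) (nat_lit 26) (nat_lit 5) (nat_lit 215) (nat_lit 206) (nat_lit 179)) (XT.lf (nat_lit 0) (nat_lit 16005706133) (nat_lit 228) (nat_lit 2349888399) (nat_lit 76) (nat_lit 3271048831) (nat_lit 23) (nat_lit 5) (nat_lit 26) (nat_lit 5) (nat_lit 24) (nat_lit 5) (nat_lit 216) (nat_lit 206) (nat_lit 178)))) (XT.nd (nat_lit 78) (nat_lit 304) (nat_lit 0) (XT.lf (nat_lit 0) (nat_lit 250135001) (nat_lit 228) (nat_lit 6647634689) (nat_lit 76) (nat_lit 16842024513) (nat_lit 20) (nat_lit 5) (nat_lit 23) (nat_lit 5) (nat_lit 21) (nat_lit 5) (nat_lit 217) (nat_lit 206) (nat_lit 177)) (XT.nd (nat_lit 78)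 (nat_lit 152) (nat_lit 0) (XT.lf (nat_lit 0) (nat_lit 7179440708) (nat_lit 228) (nat_lit 12426025742) (nat_lit 76) (nat_lit 6512151518) (nat_lit 18) (nat_lit 5) (nat_lit 21) (nat_lit 5) (nat_lit 19) (nat_lit 5) (nat_lit 218) (nat_lit 206) (nat_lit 176)) (XT.lf (nat_lit 0) (nat_lit 8800395039) (nat_lit 152) (nat_lit 6887147521) (nat_lit 228) (nat_lit 13121604849) (nat_lit 16) (nat_lit 5) (nat_lit 18) (nat_lit 5) (nat_lit 19) (nat_lit 5) (nat_lit 219) (nat_lit 206) (nat_lit 175))))))) (XT.nd (nat_lit 780) (nat_lit 380) (nat_lit 0) (XT.nd (nat_lit 390) (nat_lit 304) (nat_lit 0) (XT.nd (nat_lit 156) (nat_lit 228) (nat_lit 0) (XT.nd (nat_lit 78) (nat_lit 76) (nat_lit 0) (XT.lf (nat_lit 0) (nat_lit 1899466500) (nat_lit 76) (nat_lit 24119107406) (nat_lit 152) (nat_lit 5842255343) (nat_lit 15) (nat_lit 5) (nat_lit 16) (nat_lit 5) (nat_lit 17) (nat_lit 4) (nat_lit 220) (nat_lit 206) (nat_lit 174))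 (XT.lf (nat_lit 0) (nat_lit 3138326363) (nat_lit 152) (nat_lit 7367787953) (nat_lit 76) (nat_lit 24800544940) (nat_lit 14) (nat_lit 5) (nat_lit 16) (nat_lit 5) (nat_lit 15) (nat_lit 5) (nat_lit 221) (nat_lit 206) (nat_lit 173))) (XT.nd (nat_lit 78) (nat_lit 76) (nat_lit 0) (XT.lf (nat_lit 0) (nat_lit 13689223958) (nat_lit 228) (nat_lit 20013701340) (nat_lit 76) (nat_lit 5508878390) (nat_lit 12) (nat_lit 5) (nat_lit 15) (nat_lit 5) (nat_lit 13) (nat_lit 4) (nat_lit 222) (nat_lit 206) (nat_lit 172)) (XT.nd (nat_lit 78) (nat_lit 0) (nat_lit 0) (XT.lf (nat_lit 0) (nat_lit 6467817377) (nat_lit 76) (nat_lit 19979390839) (nat_lit 152) (nat_lit 17205652890) (nat_lit 11) (nat_lit 5) (nat_lit 12) (nat_lit 5) (nat_lit 13) (nat_lit 4) (nat_lit 223) (nat_lit 206) (nat_lit 171)) (XT.lf (nat_lit 0) (nat_lit 38070307443) (nat_lit 76) (nat_lit 3593435937) (nat_lit 152) (nat_lit 7052830261) (nat_lit 11)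 (nat_lit 5) (nat_lit 12) (nat_lit 5) (nat_lit 13) (nat_lit 4) (nat_lit 224) (nat_lit 206) (nat_lit 170))))) (XT.nd (nat_lit 156) (nat_lit 152) (nat_lit 0) (XT.nd (nat_lit 78) (nat_lit 0) (nat_lit 0) (XT.lf (nat_lit 0) (nat_lit 5238777560) (nat_lit 152) (nat_lit 34132910857) (nat_lit 76) (nat_lit 15091558890) (nat_lit 9) (nat_lit 5) (nat_lit 11) (nat_lit 5) (nat_lit 10) (nat_lit 4) (nat_lit 225) (nat_lit 206) (nat_lit 169)) (XT.lf (nat_lit 0) (nat_lit 19354615661) (nat_lit 152) (nat_lit 4805506134) (nat_lit 76) (nat_lit 36865356716) (nat_lit 9) (nat_lit 5) (nat_lit 11) (nat_lit 5) (nat_lit 10) (nat_lit 4) (nat_lit 226) (nat_lit 206) (nat_lit 168))) (XT.nd (nat_lit 78) (nat_lit 76) (nat_lit 0) (XT.lf (nat_lit 0) (nat_lit 30394495181) (nat_lit 76) (nat_lit 5897219158) (nat_lit 152) (nat_lit 32224070873) (nat_lit 8) (nat_lit 5) (nat_lit 9) (nat_lit 5) (nat_lit 10) (nat_lit 4) (nat_lit 227)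 (nat_lit 206) (nat_lit 167)) (XT.nd (nat_lit 78) (nat_lit 76) (nat_lit 0) (XT.lf (nat_lit 0) (nat_lit 56251152810) (nat_lit 152) (nat_lit 6364419055) (nat_lit 0) (nat_lit 14475568930) (nat_lit 8) (nat_lit 5) (nat_lit 10) (nat_lit 4) (nat_lit 8) (nat_lit 4) (nat_lit 228) (nat_lit 206) (nat_lit 166)) (XT.lf (nat_lit 0) (nat_lit 31531459339) (nat_lit 76) (nat_lit 48572704678) (nat_lit 76) (nat_lit 6776702164) (nat_lit 7) (nat_lit 4) (nat_lit 8) (nat_lit 5) (nat_lit 8) (nat_lit 4) (nat_lit 229) (nat_lit 206) (nat_lit 165)))))) (XT.nd (nat_lit 390) (nat_lit 152) (nat_lit 0) (XT.nd (nat_lit 156) (nat_lit 76) (nat_lit 0) (XT.nd (nat_lit 78) (nat_lit 76) (nat_lit 0) (XT.lf (nat_lit 0) (nat_lit 9095816084) (nat_lit 152) (nat_lit 22894460391) (nat_lit 76) (nat_lit 66117145700) (nat_lit 6) (nat_lit 5) (nat_lit 8) (nat_lit 5) (nat_lit 7) (nat_lit 4) (nat_lit 230) (nat_lit 206) (nat_lit 164)) (XT.lf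 (nat_lit 0) (nat_lit 14957744532) (nat_lit 76) (nat_lit 12343669795) (nat_lit 152) (nat_lit 83674216412) (nat_lit 5) (nat_lit 5) (nat_lit 6) (nat_lit 5) (nat_lit 7) (nat_lit 4) (nat_lit 231) (nat_lit 206) (nat_lit 163))) (XT.nd (nat_lit 78) (nat_lit 76) (nat_lit 0) (XT.lf (nat_lit 0) (nat_lit 49151832779) (nat_lit 152) (nat_lit 66140479657) (nat_lit 0) (nat_lit 10408663471) (nat_lit 5) (nat_lit 5) (nat_lit 7) (nat_lit 4) (nat_lit 5) (nat_lit 4) (nat_lit 232) (nat_lit 206) (nat_lit 162)) (XT.nd (nat_lit 78) (nat_lit 76) (nat_lit 0) (XT.lf (nat_lit 0) (nat_lit 74606956304) (nat_lit 152) (nat_lit 32149038472) (nat_lit 0) (nat_lit 35852977347) (nat_lit 5) (nat_lit 5) (nat_lit 7) (nat_lit 4) (nat_lit 5) (nat_lit 4) (nat_lit 233) (nat_lit 206) (nat_lit 161)) (XT.lf (nat_lit 0) (nat_lit 7282661038) (nat_lit 76) (nat_lit 96760441508) (nat_lit 76) (nat_lit 57997062856) (nat_lit 4) (nat_lit 4)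 (nat_lit 5) (nat_lit 5) (nat_lit 5) (nat_lit 4) (nat_lit 234) (nat_lit 206) (nat_lit 160))))) (XT.nd (nat_lit 234) (nat_lit 152) (nat_lit 0) (XT.nd (nat_lit 78) (nat_lit 0) (nat_lit 0) (XT.lf (nat_lit 0) (nat_lit 54555124558) (nat_lit 76) (nat_lit 84264252272) (nat_lit 76) (nat_lit 45492699973) (nat_lit 4) (nat_lit 4) (nat_lit 5) (nat_lit 5) (nat_lit 5) (nat_lit 4) (nat_lit 235) (nat_lit 206) (nat_lit 159)) (XT.nd (nat_lit 78) (nat_lit 0) (nat_lit 0) (XT.lf (nat_lit 0) (nat_lit 108900336720) (nat_lit 76) (nat_lit 69901948096) (nat_lit 76) (nat_lit 31123288278) (nat_lit 4) (nat_lit 4) (nat_lit 5) (nat_lit 5) (nat_lit 5) (nat_lit 4) (nat_lit 236) (nat_lit 206) (nat_lit 158)) (XT.lf (nat_lit 0) (nat_lit 171381573415) (nat_lit 76) (nat_lit 53392527376) (nat_lit 76) (nat_lit 14607687106) (nat_lit 4) (nat_lit 4) (nat_lit 5) (nat_lit 5) (nat_lit 5) (nat_lit 4) (nat_lit 237) (nat_lit 206) (nat_lit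 157)))) (XT.nd (nat_lit 78) (nat_lit 76) (nat_lit 0) (XT.lf (nat_lit 0) (nat_lit 4158267852) (nat_lit 152) (nat_lit 30141017442) (nat_lit 76) (nat_lit 238949331356) (nat_lit 3) (nat_lit 5) (nat_lit 5) (nat_lit 5) (nat_lit 4) (nat_lit 4) (nat_lit 238) (nat_lit 206) (nat_lit 156)) (XT.nd (nat_lit 78) (nat_lit 0) (nat_lit 0) (XT.lf (nat_lit 0) (nat_lit 13664319356) (nat_lit 76) (nat_lit 11556453355) (nat_lit 152) (nat_lit 286916624059) (nat_lit 2) (nat_lit 5) (nat_lit 3) (nat_lit 5) (nat_lit 4) (nat_lit 4) (nat_lit 239) (nat_lit 206) (nat_lit 155)) (XT.lf (nat_lit 0) (nat_lit 50687891189) (nat_lit 152) (nat_lit 291309054905) (nat_lit 0) (nat_lit 14762935974) (nat_lit 2) (nat_lit 5) (nat_lit 4) (nat_lit 4) (nat_lit 2) (nat_lit 4) (nat_lit 240) (nat_lit 206) (nat_lit 154))))))))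
noncomputable def xc33 : XT := (XT.nd (nat_lit 28626) (nat_lit 0) (nat_lit 608) (XT.nd (nat_lit 780) (nat_lit 76) (nat_lit 0) (XT.nd (nat_lit 390) (nat_lit 0) (nat_lit 0) (XT.nd (nat_lit 156) (nat_lit 0) (nat_lit 0) (XT.nd (nat_lit 78) (nat_lit 0) (nat_lit 0) (XT.lf (nat_lit 0) (nat_lit 80289347550) (nat_lit 152) (nat_lit 283400136859) (nat_lit 0) (nat_lit 44361120396) (nat_lit 2) (nat_lit 5) (nat_lit 4) (nat_lit 4) (nat_lit 2) (nat_lit 4) (nat_lit 241) (nat_lit 206) (nat_lit 153)) (XT.lf (nat_lit 0) (nat_lit 114326367741) (nat_lit 152) (nat_lit 274313650595) (nat_lit 0) (nat_lit 78395295424) (nat_lit 2) (nat_lit 5) (nat_lit 4) (nat_lit 4) (nat_lit 2) (nat_lit 4) (nat_lit 242) (nat_lit 206) (nat_lit 152))) (XT.nd (nat_lit 78) (nat_lit 0) (nat_lit 0) (XT.lf (nat_lit 0) (nat_lit 153464893462) (nat_lit 152) (nat_lit 263871817034) (nat_lit 0) (nat_lit 117531347090) (nat_lit 2) (nat_lit 5)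 (nat_lit 4) (nat_lit 4) (nat_lit 2) (nat_lit 4) (nat_lit 243) (nat_lit 206) (nat_lit 151)) (XT.nd (nat_lit 78) (nat_lit 0) (nat_lit 0) (XT.lf (nat_lit 0) (nat_lit 198470678478) (nat_lit 152) (nat_lit 251870339432) (nat_lit 0) (nat_lit 162534980753) (nat_lit 2) (nat_lit 5) (nat_lit 4) (nat_lit 4) (nat_lit 2) (nat_lit 4) (nat_lit 244) (nat_lit 206) (nat_lit 150)) (XT.lf (nat_lit 0) (nat_lit 250224270755) (nat_lit 152) (nat_lit 238074406270) (nat_lit 0) (nat_lit 214286702289) (nat_lit 2) (nat_lit 5) (nat_lit 4) (nat_lit 4) (nat_lit 2) (nat_lit 4) (nat_lit 245) (nat_lit 206) (nat_lit 149))))) (XT.nd (nat_lit 156) (nat_lit 0) (nat_lit 0) (XT.nd (nat_lit 78) (nat_lit 0) (nat_lit 0) (XT.lf (nat_lit 0) (nat_lit 309738240578) (nat_lit 152) (nat_lit 222214097118) (nat_lit 0) (nat_lit 273799045380) (nat_lit 2) (nat_lit 5) (nat_lit 4) (nat_lit 4) (nat_lit 2) (nat_lit 4) (nat_lit 246) (nat_lit 206)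 (nat_lit 148)) (XT.lf (nat_lit 0) (nat_lit 378176991705) (nat_lit 152) (nat_lit 203979101579) (nat_lit 0) (nat_lit 342236381958) (nat_lit 2) (nat_lit 5) (nat_lit 4) (nat_lit 4) (nat_lit 2) (nat_lit 4) (nat_lit 247) (nat_lit 206) (nat_lit 147))) (XT.nd (nat_lit 78) (nat_lit 0) (nat_lit 0) (XT.lf (nat_lit 0) (nat_lit 456879543178) (nat_lit 152) (nat_lit 183012648001) (nat_lit 0) (nat_lit 420937703388) (nat_lit 2) (nat_lit 5) (nat_lit 4) (nat_lit 4) (nat_lit 2) (nat_lit 4) (nat_lit 248) (nat_lit 206) (nat_lit 146)) (XT.nd (nat_lit 78) (nat_lit 0) (nat_lit 0) (XT.lf (nat_lit 0) (nat_lit 547385727527) (nat_lit 152) (nat_lit 158904523161) (nat_lit 0) (nat_lit 511442818134) (nat_lit 2) (nat_lit 5) (nat_lit 4) (nat_lit 4) (nat_lit 2) (nat_lit 4) (nat_lit 249) (nat_lit 206) (nat_lit 145)) (XT.lf (nat_lit 0) (nat_lit 651466317923) (nat_lit 152) (nat_lit 131183046357) (nat_lit 0) (nat_lit 615522478442)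 (nat_lit 2) (nat_lit 5) (nat_lit 4) (nat_lit 4) (nat_lit 2) (nat_lit 4) (nat_lit 250) (nat_lit 206) (nat_lit 144)))))) (XT.nd (nat_lit 390) (nat_lit 0) (nat_lit 0) (XT.nd (nat_lit 156) (nat_lit 76) (nat_lit 0) (XT.nd (nat_lit 78) (nat_lit 0) (nat_lit 0) (XT.lf (nat_lit 0) (nat_lit 771157673745) (nat_lit 152) (nat_lit 99305840869) (nat_lit 0) (nat_lit 735213025490) (nat_lit 2) (nat_lit 5) (nat_lit 4) (nat_lit 4) (nat_lit 2) (nat_lit 4) (nat_lit 251) (nat_lit 206) (nat_lit 143)) (XT.lf (nat_lit 0) (nat_lit 908801582388) (nat_lit 152) (nat_lit 62649222241) (nat_lit 0) (nat_lit 872856230852) (nat_lit 2) (nat_lit 5) (nat_lit 4) (nat_lit 4) (nat_lit 2) (nat_lit 4) (nat_lit 252) (nat_lit 206) (nat_lit 142))) (XT.nd (nat_lit 78) (nat_lit 76) (nat_lit 0) (XT.lf (nat_lit 0) (nat_lit 1067091076847) (nat_lit 152) (nat_lit 20495995760) (nat_lit 0) (nat_lit 1031145113763) (nat_lit 2) (nat_lit 5) (nat_lit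 4) (nat_lit 4) (nat_lit 2) (nat_lit 4) (nat_lit 253) (nat_lit 206) (nat_lit 141)) (XT.nd (nat_lit 78) (nat_lit 0) (nat_lit 0) (XT.lf (nat_lit 0) (nat_lit 29451877820) (nat_lit 76) (nat_lit 1220379566043) (nat_lit 76) (nat_lit 1184433071177) (nat_lit 1) (nat_lit 4) (nat_lit 2) (nat_lit 5) (nat_lit 2) (nat_lit 4) (nat_lit 254) (nat_lit 206) (nat_lit 140)) (XT.lf (nat_lit 0) (nat_lit 88131607336) (nat_lit 76) (nat_lit 1372447184870) (nat_lit 76) (nat_lit 1336500227586) (nat_lit 1) (nat_lit 4) (nat_lit 2) (nat_lit 5) (nat_lit 2) (nat_lit 4) (nat_lit 255) (nat_lit 206) (nat_lit 139))))) (XT.nd (nat_lit 234) (nat_lit 0) (nat_lit 0) (XT.nd (nat_lit 78) (nat_lit 0) (nat_lit 0) (XT.lf (nat_lit 0) (nat_lit 155611991636) (nat_lit 76) (nat_lit 1547325561957) (nat_lit 76) (nat_lit 1511378202569) (nat_lit 1) (nat_lit 4) (nat_lit 2) (nat_lit 5) (nat_lit 2) (nat_lit 4) (nat_lit 256) (nat_lit 206) (nat_lit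 138)) (XT.nd (nat_lit 78) (nat_lit 0) (nat_lit 0) (XT.lf (nat_lit 0) (nat_lit 233213299107) (nat_lit 76) (nat_lit 1748436230767) (nat_lit 76) (nat_lit 1712488521725) (nat_lit 1) (nat_lit 4) (nat_lit 2) (nat_lit 5) (nat_lit 2) (nat_lit 4) (nat_lit 257) (nat_lit 206) (nat_lit 137)) (XT.lf (nat_lit 0) (nat_lit 322453816202) (nat_lit 76) (nat_lit 1979713965257) (nat_lit 76) (nat_lit 1943765952167) (nat_lit 1) (nat_lit 4) (nat_lit 2) (nat_lit 5) (nat_lit 2) (nat_lit 4) (nat_lit 258) (nat_lit 206) (nat_lit 136)))) (XT.nd (nat_lit 78) (nat_lit 0) (nat_lit 0) (XT.lf (nat_lit 0) (nat_lit 425079553036) (nat_lit 76) (nat_lit 2245683764579) (nat_lit 76) (nat_lit 2209735487099) (nat_lit 1) (nat_lit 4) (nat_lit 2) (nat_lit 5) (nat_lit 2) (nat_lit 4) (nat_lit 259) (nat_lit 206) (nat_lit 135)) (XT.nd (nat_lit 78) (nat_lit 0) (nat_lit 0) (XT.lf (nat_lit 0) (nat_lit 543098404461) (nat_lit 76) (nat_lit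 2551549385676) (nat_lit 76) (nat_lit 2515600878293) (nat_lit 1) (nat_lit 4) (nat_lit 2) (nat_lit 5) (nat_lit 2) (nat_lit 4) (nat_lit 260) (nat_lit 206) (nat_lit 134)) (XT.lf (nat_lit 0) (nat_lit 678819434962) (nat_lit 76) (nat_lit 2903295155918) (nat_lit 76) (nat_lit 2867346448618) (nat_lit 1) (nat_lit 4) (nat_lit 2) (nat_lit 5) (nat_lit 2) (nat_lit 4) (nat_lit 261) (nat_lit 206) (nat_lit 133))))))) (XT.nd (nat_lit 780) (nat_lit 1064) (nat_lit 0) (XT.nd (nat_lit 390) (nat_lit 1064) (nat_lit 0) (XT.nd (nat_lit 156) (nat_lit 0) (nat_lit 76) (XT.nd (nat_lit 78) (nat_lit 0) (nat_lit 76) (XT.lf (nat_lit 0) (nat_lit 157608585) (nat_lit 532) (nat_lit 2738658742) (nat_lit 532) (nat_lit 2738658742) (nat_lit 37) (nat_lit 3) (nat_lit 44) (nat_lit 3) (nat_lit 44) (nat_lit 5) (nat_lit 207) (nat_lit 207) (nat_lit 186)) (XT.lf (nat_lit 0) (nat_lit 1383070710) (nat_lit 456) (nat_lit 8198123836) (nat_lit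 532) (nat_lit 2446116113) (nat_lit 38) (nat_lit 5) (nat_lit 44) (nat_lit 5) (nat_lit 45) (nat_lit 5) (nat_lit 208) (nat_lit 207) (nat_lit 185))) (XT.nd (nat_lit 78) (nat_lit 0) (nat_lit 76) (XT.lf (nat_lit 76) (nat_lit 1797700241) (nat_lit 0) (nat_lit 1021748542) (nat_lit 532) (nat_lit 10063027005) (nat_lit 39) (nat_lit 5) (nat_lit 38) (nat_lit 5) (nat_lit 45) (nat_lit 5) (nat_lit 209) (nat_lit 207) (nat_lit 184)) (XT.nd (nat_lit 78) (nat_lit 0) (nat_lit 76) (XT.lf (nat_lit 0) (nat_lit 4789044762) (nat_lit 456) (nat_lit 385428502) (nat_lit 532) (nat_lit 8666678535) (nat_lit 39) (nat_lit 5) (nat_lit 45) (nat_lit 5) (nat_lit 46) (nat_lit 5) (nat_lit 210) (nat_lit 207) (nat_lit 183)) (XT.lf (nat_lit 0) (nat_lit 7383856863) (nat_lit 456) (nat_lit 2635378907) (nat_lit 76) (nat_lit 4898582612) (nat_lit 40) (nat_lit 5) (nat_lit 46) (nat_lit 5) (nat_lit 41) (nat_lit 5) (nat_lit 211) (nat_lit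 207) (nat_lit 182))))) (XT.nd (nat_lit 156) (nat_lit 608) (nat_lit 0) (XT.nd (nat_lit 78) (nat_lit 228) (nat_lit 0) (XT.lf (nat_lit 0) (nat_lit 10689272872) (nat_lit 532) (nat_lit 5109542275) (nat_lit 76) (nat_lit 331956026) (nat_lit 34) (nat_lit 5) (nat_lit 41) (nat_lit 5) (nat_lit 35) (nat_lit 5) (nat_lit 212) (nat_lit 207) (nat_lit 181)) (XT.lf (nat_lit 0) (nat_lit 9463897945) (nat_lit 228) (nat_lit 5515081747) (nat_lit 304) (nat_lit 2508040911) (nat_lit 31) (nat_lit 5) (nat_lit 34) (nat_lit 5) (nat_lit 35) (nat_lit 5) (nat_lit 213) (nat_lit 207) (nat_lit 180))) (XT.nd (nat_lit 78) (nat_lit 380) (nat_lit 0) (XT.lf (nat_lit 0) (nat_lit 1235326732) (nat_lit 228) (nat_lit 11417875712) (nat_lit 76) (nat_lit 6359132988) (nat_lit 28) (nat_lit 5) (nat_lit 31) (nat_lit 5) (nat_lit 29) (nat_lit 5) (nat_lit 214) (nat_lit 207) (nat_lit 179)) (XT.nd (nat_lit 78) (nat_lit 152) (nat_lit 0) (XT.lf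 (nat_lit 0) (nat_lit 5234673066) (nat_lit 228) (nat_lit 601202693) (nat_lit 304) (nat_lit 14890128244) (nat_lit 25) (nat_lit 5) (nat_lit 28) (nat_lit 5) (nat_lit 29) (nat_lit 5) (nat_lit 215) (nat_lit 207) (nat_lit 178)) (XT.lf (nat_lit 0) (nat_lit 2093925237) (nat_lit 152) (nat_lit 9672564378) (nat_lit 228) (nat_lit 10879297648) (nat_lit 23) (nat_lit 5) (nat_lit 25) (nat_lit 5) (nat_lit 26) (nat_lit 5) (nat_lit 216) (nat_lit 207) (nat_lit 177)))))) (XT.nd (nat_lit 390) (nat_lit 456) (nat_lit 0) (XT.nd (nat_lit 156) (nat_lit 380) (nat_lit 0) (XT.nd (nat_lit 78) (nat_lit 228) (nat_lit 0) (XT.lf (nat_lit 0) (nat_lit 19090970156) (nat_lit 228) (nat_lit 1766152182) (nat_lit 76) (nat_lit 3956302401) (nat_lit 23) (nat_lit 5) (nat_lit 26) (nat_lit 5) (nat_lit 24) (nat_lit 5) (nat_lit 217) (nat_lit 207) (nat_lit 176)) (XT.lf (nat_lit 0) (nat_lit 921430575) (nat_lit 228) (nat_lit 6752450573) (nat_lit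 76) (nat_lit 19574197487) (nat_lit 20) (nat_lit 5) (nat_lit 23) (nat_lit 5) (nat_lit 21) (nat_lit 5) (nat_lit 218) (nat_lit 207) (nat_lit 175))) (XT.nd (nat_lit 78) (nat_lit 228) (nat_lit 0) (XT.lf (nat_lit 0) (nat_lit 8833027196) (nat_lit 228) (nat_lit 13431664604) (nat_lit 76) (nat_lit 7722711170) (nat_lit 18) (nat_lit 5) (nat_lit 21) (nat_lit 5) (nat_lit 19) (nat_lit 5) (nat_lit 219) (nat_lit 207) (nat_lit 174)) (XT.nd (nat_lit 78) (nat_lit 76) (nat_lit 0) (XT.lf (nat_lit 0) (nat_lit 10906071437) (nat_lit 152) (nat_lit 7654949124) (nat_lit 228) (nat_lit 14526372045) (nat_lit 16) (nat_lit 5) (nat_lit 18) (nat_lit 5) (nat_lit 19) (nat_lit 5) (nat_lit 220) (nat_lit 207) (nat_lit 173)) (XT.lf (nat_lit 0) (nat_lit 2937141728) (nat_lit 76) (nat_lit 27460344985) (nat_lit 152) (nat_lit 6203073147) (nat_lit 15) (nat_lit 5) (nat_lit 16) (nat_lit 5) (nat_lit 17) (nat_lit 4) (nat_lit 221) (nat_lit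 207) (nat_lit 172))))) (XT.nd (nat_lit 234) (nat_lit 152) (nat_lit 0) (XT.nd (nat_lit 78) (nat_lit 228) (nat_lit 0) (XT.lf (nat_lit 0) (nat_lit 4034929295) (nat_lit 152) (nat_lit 7794912016) (nat_lit 76) (nat_lit 28737698885) (nat_lit 14) (nat_lit 5) (nat_lit 16) (nat_lit 5) (nat_lit 15) (nat_lit 5) (nat_lit 222) (nat_lit 207) (nat_lit 171)) (XT.nd (nat_lit 78) (nat_lit 76) (nat_lit 0) (XT.lf (nat_lit 0) (nat_lit 16133503807) (nat_lit 228) (nat_lit 22369035765) (nat_lit 76) (nat_lit 6558850248) (nat_lit 12) (nat_lit 5) (nat_lit 15) (nat_lit 5) (nat_lit 13) (nat_lit 4) (nat_lit 223) (nat_lit 207) (nat_lit 170)) (XT.lf (nat_lit 0) (nat_lit 8029969068) (nat_lit 76) (nat_lit 22738467279) (nat_lit 152) (nat_lit 19403228503) (nat_lit 11) (nat_lit 5) (nat_lit 12) (nat_lit 5) (nat_lit 13) (nat_lit 4) (nat_lit 224) (nat_lit 207) (nat_lit 169)))) (XT.nd (nat_lit 78) (nat_lit 152) (nat_lit 0) (XT.lf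 (nat_lit 0) (nat_lit 44295617980) (nat_lit 76) (nat_lit 3925640732) (nat_lit 152) (nat_lit 7777474522) (nat_lit 11) (nat_lit 5) (nat_lit 12) (nat_lit 5) (nat_lit 13) (nat_lit 4) (nat_lit 225) (nat_lit 207) (nat_lit 168)) (XT.nd (nat_lit 78) (nat_lit 0) (nat_lit 0) (XT.lf (nat_lit 0) (nat_lit 6316429311) (nat_lit 152) (nat_lit 38747102211) (nat_lit 76) (nat_lit 17545300398) (nat_lit 9) (nat_lit 5) (nat_lit 11) (nat_lit 5) (nat_lit 10) (nat_lit 4) (nat_lit 226) (nat_lit 207) (nat_lit 167)) (XT.lf (nat_lit 0) (nat_lit 22511577676) (nat_lit 152) (nat_lit 5086553554) (nat_lit 76) (nat_lit 42560384288) (nat_lit 9) (nat_lit 5) (nat_lit 11) (nat_lit 5) (nat_lit 10) (nat_lit 4) (nat_lit 227) (nat_lit 207) (nat_lit 166))))))))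
noncomputable def xc34 : XT := (XT.nd (nat_lit 1638) (nat_lit 76) (nat_lit 0) (XT.nd (nat_lit 780) (nat_lit 152) (nat_lit 0) (XT.nd (nat_lit 390) (nat_lit 76) (nat_lit 0) (XT.nd (nat_lit 156) (nat_lit 228) (nat_lit 0) (XT.nd (nat_lit 78) (nat_lit 0) (nat_lit 0) (XT.lf (nat_lit 0) (nat_lit 35356222899) (nat_lit 76) (nat_lit 6609599286) (nat_lit 152) (nat_lit 36808482583) (nat_lit 8) (nat_lit 5) (nat_lit 9) (nat_lit 5) (nat_lit 10) (nat_lit 4) (nat_lit 228) (nat_lit 207) (nat_lit 165)) (XT.lf (nat_lit 0) (nat_lit 64892731971) (nat_lit 152) (nat_lit 6956246969) (nat_lit 0) (nat_lit 16789155111) (nat_lit 8) (nat_lit 5) (nat_lit 10) (nat_lit 4) (nat_lit 8) (nat_lit 4) (nat_lit 229) (nat_lit 207) (nat_lit 164))) (XT.nd (nat_lit 78) (nat_lit 152) (nat_lit 0) (XT.lf (nat_lit 0) (nat_lit 36593301013) (nat_lit 76) (nat_lit 55711784940) (nat_lit 76) (nat_lit 7592768659) (nat_lit 7) (nat_lit 4) (nat_lit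 8) (nat_lit 5) (nat_lit 8) (nat_lit 4) (nat_lit 230) (nat_lit 207) (nat_lit 163)) (XT.nd (nat_lit 78) (nat_lit 76) (nat_lit 0) (XT.lf (nat_lit 0) (nat_lit 10625764208) (nat_lit 152) (nat_lit 26030852310) (nat_lit 76) (nat_lit 76153417122) (nat_lit 6) (nat_lit 5) (nat_lit 8) (nat_lit 5) (nat_lit 7) (nat_lit 4) (nat_lit 231) (nat_lit 207) (nat_lit 162)) (XT.lf (nat_lit 0) (nat_lit 17473978000) (nat_lit 76) (nat_lit 14073182713) (nat_lit 152) (nat_lit 96062549459) (nat_lit 5) (nat_lit 5) (nat_lit 6) (nat_lit 5) (nat_lit 7) (nat_lit 4) (nat_lit 232) (nat_lit 207) (nat_lit 161))))) (XT.nd (nat_lit 156) (nat_lit 76) (nat_lit 0) (XT.nd (nat_lit 78) (nat_lit 0) (nat_lit 0) (XT.lf (nat_lit 0) (nat_lit 56658059212) (nat_lit 152) (nat_lit 75816419466) (nat_lit 0) (nat_lit 12070774068) (nat_lit 5) (nat_lit 5) (nat_lit 7) (nat_lit 4) (nat_lit 5) (nat_lit 4) (nat_lit 233) (nat_lit 207) (nat_lit 160))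 (XT.lf (nat_lit 0) (nat_lit 85914044546) (nat_lit 152) (nat_lit 36758235861) (nat_lit 0) (nat_lit 41318585755) (nat_lit 5) (nat_lit 5) (nat_lit 7) (nat_lit 4) (nat_lit 5) (nat_lit 4) (nat_lit 234) (nat_lit 207) (nat_lit 159))) (XT.nd (nat_lit 78) (nat_lit 0) (nat_lit 0) (XT.lf (nat_lit 0) (nat_lit 8570175779) (nat_lit 76) (nat_lit 111184993201) (nat_lit 76) (nat_lit 66582426890) (nat_lit 4) (nat_lit 4) (nat_lit 5) (nat_lit 5) (nat_lit 5) (nat_lit 4) (nat_lit 235) (nat_lit 207) (nat_lit 158)) (XT.nd (nat_lit 78) (nat_lit 0) (nat_lit 0) (XT.lf (nat_lit 0) (nat_lit 62908058969) (nat_lit 76) (nat_lit 96826051389) (nat_lit 76) (nat_lit 52217304627) (nat_lit 4) (nat_lit 4) (nat_lit 5) (nat_lit 5) (nat_lit 5) (nat_lit 4) (nat_lit 236) (nat_lit 207) (nat_lit 157)) (XT.lf (nat_lit 0) (nat_lit 125382922643) (nat_lit 76) (nat_lit 80319554463) (nat_lit 76) (nat_lit 35705433395) (nat_lit 4) (nat_lit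 4) (nat_lit 5) (nat_lit 5) (nat_lit 5) (nat_lit 4) (nat_lit 237) (nat_lit 207) (nat_lit 156)))))) (XT.nd (nat_lit 390) (nat_lit 0) (nat_lit 0) (XT.nd (nat_lit 156) (nat_lit 76) (nat_lit 0) (XT.nd (nat_lit 78) (nat_lit 76) (nat_lit 0) (XT.lf (nat_lit 0) (nat_lit 197217101092) (nat_lit 76) (nat_lit 61342549224) (nat_lit 76) (nat_lit 16723754847) (nat_lit 4) (nat_lit 4) (nat_lit 5) (nat_lit 5) (nat_lit 5) (nat_lit 4) (nat_lit 238) (nat_lit 207) (nat_lit 155)) (XT.lf (nat_lit 0) (nat_lit 4844033467) (nat_lit 152) (nat_lit 34547268511) (nat_lit 76) (nat_lit 274839567706) (nat_lit 3) (nat_lit 5) (nat_lit 5) (nat_lit 5) (nat_lit 4) (nat_lit 4) (nat_lit 239) (nat_lit 207) (nat_lit 154))) (XT.nd (nat_lit 78) (nat_lit 0) (nat_lit 0) (XT.lf (nat_lit 0) (nat_lit 15819142964) (nat_lit 76) (nat_lit 13241210296) (nat_lit 152) (nat_lit 329893068525) (nat_lit 2) (nat_lit 5) (nat_lit 3) (nat_lit 5) (nat_lit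 4) (nat_lit 4) (nat_lit 240) (nat_lit 207) (nat_lit 153)) (XT.nd (nat_lit 78) (nat_lit 0) (nat_lit 0) (XT.lf (nat_lit 0) (nat_lit 58341193253) (nat_lit 152) (nat_lit 334910988182) (nat_lit 0) (nat_lit 17017614925) (nat_lit 2) (nat_lit 5) (nat_lit 4) (nat_lit 4) (nat_lit 2) (nat_lit 4) (nat_lit 241) (nat_lit 207) (nat_lit 152)) (XT.lf (nat_lit 0) (nat_lit 92376330887) (nat_lit 152) (nat_lit 325828048728) (nat_lit 0) (nat_lit 51050278503) (nat_lit 2) (nat_lit 5) (nat_lit 4) (nat_lit 4) (nat_lit 2) (nat_lit 4) (nat_lit 242) (nat_lit 207) (nat_lit 151))))) (XT.nd (nat_lit 234) (nat_lit 0) (nat_lit 0) (XT.nd (nat_lit 78) (nat_lit 0) (nat_lit 0) (XT.lf (nat_lit 0) (nat_lit 131513219602) (nat_lit 152) (nat_lit 315389299350) (nat_lit 0) (nat_lit 90185015866) (nat_lit 2) (nat_lit 5) (nat_lit 4) (nat_lit 4) (nat_lit 2) (nat_lit 4) (nat_lit 243) (nat_lit 207) (nat_lit 150)) (XT.nd (nat_lit 78) (nat_lit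 0) (nat_lit 0) (XT.lf (nat_lit 0) (nat_lit 176517581134) (nat_lit 152) (nat_lit 303390503646) (nat_lit 0) (nat_lit 135187506656) (nat_lit 2) (nat_lit 5) (nat_lit 4) (nat_lit 4) (nat_lit 2) (nat_lit 4) (nat_lit 244) (nat_lit 207) (nat_lit 149)) (XT.lf (nat_lit 0) (nat_lit 228269935599) (nat_lit 152) (nat_lit 289596902570) (nat_lit 0) (nat_lit 186938234390) (nat_lit 2) (nat_lit 5) (nat_lit 4) (nat_lit 4) (nat_lit 2) (nat_lit 4) (nat_lit 245) (nat_lit 207) (nat_lit 148)))) (XT.nd (nat_lit 78) (nat_lit 0) (nat_lit 0) (XT.lf (nat_lit 0) (nat_lit 287782829064) (nat_lit 152) (nat_lit 273738621318) (nat_lit 0) (nat_lit 246449713306) (nat_lit 2) (nat_lit 5) (nat_lit 4) (nat_lit 4) (nat_lit 2) (nat_lit 4) (nat_lit 246) (nat_lit 207) (nat_lit 147)) (XT.nd (nat_lit 78) (nat_lit 0) (nat_lit 0) (XT.lf (nat_lit 0) (nat_lit 356220644227) (nat_lit 152) (nat_lit 255505389170) (nat_lit 0) (nat_lit 314886298425)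 (nat_lit 2) (nat_lit 5) (nat_lit 4) (nat_lit 4) (nat_lit 2) (nat_lit 4) (nat_lit 247) (nat_lit 207) (nat_lit 146)) (XT.lf (nat_lit 0) (nat_lit 434922381818) (nat_lit 152) (nat_lit 234540468976) (nat_lit 0) (nat_lit 393586966414) (nat_lit 2) (nat_lit 5) (nat_lit 4) (nat_lit 4) (nat_lit 2) (nat_lit 4) (nat_lit 248) (nat_lit 207) (nat_lit 145))))))) (XT.nd (nat_lit 780) (nat_lit 0) (nat_lit 0) (XT.nd (nat_lit 390) (nat_lit 76) (nat_lit 0) (XT.nd (nat_lit 156) (nat_lit 0) (nat_lit 0) (XT.nd (nat_lit 78) (nat_lit 0) (nat_lit 0) (XT.lf (nat_lit 0) (nat_lit 525427858444) (nat_lit 152) (nat_lit 210433677514) (nat_lit 0) (nat_lit 484091512951) (nat_lit 2) (nat_lit 5) (nat_lit 4) (nat_lit 4) (nat_lit 2) (nat_lit 4) (nat_lit 249) (nat_lit 207) (nat_lit 144)) (XT.lf (nat_lit 0) (nat_lit 629507833429) (nat_lit 152) (nat_lit 182713360169) (nat_lit 0) (nat_lit 588170679163) (nat_lit 2) (nat_lit 5) (nat_lit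 4) (nat_lit 4) (nat_lit 2) (nat_lit 4) (nat_lit 250) (nat_lit 207) (nat_lit 143))) (XT.nd (nat_lit 78) (nat_lit 0) (nat_lit 0) (XT.lf (nat_lit 0) (nat_lit 749198654110) (nat_lit 152) (nat_lit 150837162905) (nat_lit 0) (nat_lit 707860796563) (nat_lit 2) (nat_lit 5) (nat_lit 4) (nat_lit 4) (nat_lit 2) (nat_lit 4) (nat_lit 251) (nat_lit 207) (nat_lit 142)) (XT.nd (nat_lit 78) (nat_lit 0) (nat_lit 0) (XT.lf (nat_lit 0) (nat_lit 886842097414) (nat_lit 152) (nat_lit 114181420994) (nat_lit 0) (nat_lit 845503628318) (nat_lit 2) (nat_lit 5) (nat_lit 4) (nat_lit 4) (nat_lit 2) (nat_lit 4) (nat_lit 252) (nat_lit 207) (nat_lit 141)) (XT.lf (nat_lit 0) (nat_lit 1045131187231) (nat_lit 152) (nat_lit 72028956877) (nat_lit 0) (nat_lit 1003792186354) (nat_lit 2) (nat_lit 5) (nat_lit 4) (nat_lit 4) (nat_lit 2) (nat_lit 4) (nat_lit 253) (nat_lit 207) (nat_lit 140))))) (XT.nd (nat_lit 156) (nat_lit 0) (nat_lit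 0) (XT.nd (nat_lit 78) (nat_lit 76) (nat_lit 0) (XT.lf (nat_lit 0) (nat_lit 1227162884013) (nat_lit 152) (nat_lit 23555048429) (nat_lit 0) (nat_lit 1185823420718) (nat_lit 2) (nat_lit 5) (nat_lit 4) (nat_lit 4) (nat_lit 2) (nat_lit 4) (nat_lit 254) (nat_lit 207) (nat_lit 139)) (XT.lf (nat_lit 0) (nat_lit 33883707168) (nat_lit 76) (nat_lit 1403429874286) (nat_lit 76) (nat_lit 1362090008887) (nat_lit 1) (nat_lit 4) (nat_lit 2) (nat_lit 5) (nat_lit 2) (nat_lit 4) (nat_lit 255) (nat_lit 207) (nat_lit 138))) (XT.nd (nat_lit 78) (nat_lit 0) (nat_lit 0) (XT.lf (nat_lit 0) (nat_lit 101363563806) (nat_lit 76) (nat_lit 1578308500285) (nat_lit 76) (nat_lit 1536968285231) (nat_lit 1) (nat_lit 4) (nat_lit 2) (nat_lit 5) (nat_lit 2) (nat_lit 4) (nat_lit 256) (nat_lit 207) (nat_lit 137)) (XT.nd (nat_lit 78) (nat_lit 0) (nat_lit 0) (XT.lf (nat_lit 0) (nat_lit 178964412441) (nat_lit 76) (nat_lit 1779419385541)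 (nat_lit 76) (nat_lit 1738078866439) (nat_lit 1) (nat_lit 4) (nat_lit 2) (nat_lit 5) (nat_lit 2) (nat_lit 4) (nat_lit 257) (nat_lit 207) (nat_lit 136)) (XT.lf (nat_lit 0) (nat_lit 268204530547) (nat_lit 76) (nat_lit 2010697308244) (nat_lit 76) (nat_lit 1969356524753) (nat_lit 1) (nat_lit 4) (nat_lit 2) (nat_lit 5) (nat_lit 2) (nat_lit 4) (nat_lit 258) (nat_lit 207) (nat_lit 135)))))) (XT.nd (nat_lit 27456) (nat_lit 0) (nat_lit 2052) (XT.nd (nat_lit 156) (nat_lit 0) (nat_lit 0) (XT.nd (nat_lit 78) (nat_lit 0) (nat_lit 0) (XT.lf (nat_lit 0) (nat_lit 370829920436) (nat_lit 76) (nat_lit 2276667271229) (nat_lit 76) (nat_lit 2235326257835) (nat_lit 1) (nat_lit 4) (nat_lit 2) (nat_lit 5) (nat_lit 2) (nat_lit 4) (nat_lit 259) (nat_lit 207) (nat_lit 134)) (XT.lf (nat_lit 0) (nat_lit 488848470169) (nat_lit 76) (nat_lit 2582533034643) (nat_lit 76) (nat_lit 2541191821332) (nat_lit 1) (nat_lit 4)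 (nat_lit 2) (nat_lit 5) (nat_lit 2) (nat_lit 4) (nat_lit 260) (nat_lit 207) (nat_lit 133))) (XT.nd (nat_lit 27144) (nat_lit 0) (nat_lit 2736) (XT.lf (nat_lit 0) (nat_lit 624569238328) (nat_lit 76) (nat_lit 2934278928638) (nat_lit 76) (nat_lit 2892937541487) (nat_lit 1) (nat_lit 4) (nat_lit 2) (nat_lit 5) (nat_lit 2) (nat_lit 4) (nat_lit 261) (nat_lit 207) (nat_lit 132)) (XT.nd (nat_lit 78) (nat_lit 0) (nat_lit 76) (XT.lf (nat_lit 0) (nat_lit 1033040206) (nat_lit 532) (nat_lit 2687456922) (nat_lit 532) (nat_lit 2687456922) (nat_lit 37) (nat_lit 3) (nat_lit 44) (nat_lit 3) (nat_lit 44) (nat_lit 5) (nat_lit 208) (nat_lit 208) (nat_lit 184)) (XT.lf (nat_lit 0) (nat_lit 3076472007) (nat_lit 456) (nat_lit 8439066680) (nat_lit 532) (nat_lit 2189919050) (nat_lit 38) (nat_lit 5) (nat_lit 44) (nat_lit 5) (nat_lit 45) (nat_lit 5) (nat_lit 209) (nat_lit 208) (nat_lit 183))))) (XT.nd (nat_lit 234)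 (nat_lit 760) (nat_lit 0) (XT.nd (nat_lit 78) (nat_lit 0) (nat_lit 76) (XT.lf (nat_lit 76) (nat_lit 2972436068) (nat_lit 0) (nat_lit 1583819588) (nat_lit 532) (nat_lit 10147328802) (nat_lit 39) (nat_lit 5) (nat_lit 38) (nat_lit 5) (nat_lit 45) (nat_lit 5) (nat_lit 210) (nat_lit 208) (nat_lit 182)) (XT.nd (nat_lit 78) (nat_lit 0) (nat_lit 76) (XT.lf (nat_lit 76) (nat_lit 472731561) (nat_lit 0) (nat_lit 6180002333) (nat_lit 532) (nat_lit 9167614921) (nat_lit 40) (nat_lit 5) (nat_lit 39) (nat_lit 5) (nat_lit 46) (nat_lit 5) (nat_lit 211) (nat_lit 208) (nat_lit 181)) (XT.lf (nat_lit 0) (nat_lit 9492591175) (nat_lit 456) (nat_lit 2124239845) (nat_lit 76) (nat_lit 5453916213) (nat_lit 40) (nat_lit 5) (nat_lit 46) (nat_lit 5) (nat_lit 41) (nat_lit 5) (nat_lit 212) (nat_lit 208) (nat_lit 180)))) (XT.nd (nat_lit 78) (nat_lit 456) (nat_lit 0) (XT.lf (nat_lit 0) (nat_lit 13181726462) (nat_lit 532)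 (nat_lit 4969504745) (nat_lit 76) (nat_lit 323985897) (nat_lit 34) (nat_lit 5) (nat_lit 41) (nat_lit 5) (nat_lit 35) (nat_lit 5) (nat_lit 213) (nat_lit 208) (nat_lit 179)) (XT.nd (nat_lit 78) (nat_lit 228) (nat_lit 0) (XT.lf (nat_lit 0) (nat_lit 11713223434) (nat_lit 228) (nat_lit 6305656463) (nat_lit 304) (nat_lit 2024232378) (nat_lit 31) (nat_lit 5) (nat_lit 34) (nat_lit 5) (nat_lit 35) (nat_lit 5) (nat_lit 214) (nat_lit 208) (nat_lit 178)) (XT.lf (nat_lit 0) (nat_lit 2152074921) (nat_lit 228) (nat_lit 12269215210) (nat_lit 76) (nat_lit 7381547830) (nat_lit 28) (nat_lit 5) (nat_lit 31) (nat_lit 5) (nat_lit 29) (nat_lit 5) (nat_lit 215) (nat_lit 208) (nat_lit 177))))))))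
noncomputable def xc35 : XT := (XT.nd (nat_lit 1638) (nat_lit 228) (nat_lit 0) (XT.nd (nat_lit 780) (nat_lit 532) (nat_lit 0) (XT.nd (nat_lit 390) (nat_lit 532) (nat_lit 0) (XT.nd (nat_lit 156) (nat_lit 380) (nat_lit 0) (XT.nd (nat_lit 78) (nat_lit 152) (nat_lit 0) (XT.lf (nat_lit 0) (nat_lit 6808307586) (nat_lit 228) (nat_lit 557954148) (nat_lit 304) (nat_lit 16413780022) (nat_lit 25) (nat_lit 5) (nat_lit 28) (nat_lit 5) (nat_lit 29) (nat_lit 5) (nat_lit 216) (nat_lit 208) (nat_lit 176)) (XT.lf (nat_lit 0) (nat_lit 3176992244) (nat_lit 152) (nat_lit 10945324392) (nat_lit 228) (nat_lit 11870929142) (nat_lit 23) (nat_lit 5) (nat_lit 25) (nat_lit 5) (nat_lit 26) (nat_lit 5) (nat_lit 217) (nat_lit 208) (nat_lit 175))) (XT.nd (nat_lit 78) (nat_lit 380) (nat_lit 0) (XT.lf (nat_lit 0) (nat_lit 22472126533) (nat_lit 228) (nat_lit 1323158580) (nat_lit 76) (nat_lit 4696890480) (nat_lit 23) (nat_lit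 5) (nat_lit 26) (nat_lit 5) (nat_lit 24) (nat_lit 5) (nat_lit 218) (nat_lit 208) (nat_lit 174)) (XT.nd (nat_lit 78) (nat_lit 152) (nat_lit 0) (XT.lf (nat_lit 0) (nat_lit 1538870359) (nat_lit 228) (nat_lit 7090588995) (nat_lit 76) (nat_lit 22665993875) (nat_lit 20) (nat_lit 5) (nat_lit 23) (nat_lit 5) (nat_lit 21) (nat_lit 5) (nat_lit 219) (nat_lit 208) (nat_lit 173)) (XT.lf (nat_lit 0) (nat_lit 10594026932) (nat_lit 228) (nat_lit 14797442650) (nat_lit 76) (nat_lit 9057856540) (nat_lit 18) (nat_lit 5) (nat_lit 21) (nat_lit 5) (nat_lit 19) (nat_lit 5) (nat_lit 220) (nat_lit 208) (nat_lit 172))))) (XT.nd (nat_lit 156) (nat_lit 304) (nat_lit 0) (XT.nd (nat_lit 78) (nat_lit 76) (nat_lit 0) (XT.lf (nat_lit 0) (nat_lit 13136021580) (nat_lit 152) (nat_lit 8602608865) (nat_lit 228) (nat_lit 16279260909) (nat_lit 16) (nat_lit 5) (nat_lit 18) (nat_lit 5) (nat_lit 19) (nat_lit 5) (nat_lit 221) (nat_lit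 208) (nat_lit 171)) (XT.lf (nat_lit 0) (nat_lit 3946904105) (nat_lit 76) (nat_lit 31370225820) (nat_lit 152) (nat_lit 6743726559) (nat_lit 15) (nat_lit 5) (nat_lit 16) (nat_lit 5) (nat_lit 17) (nat_lit 4) (nat_lit 222) (nat_lit 208) (nat_lit 170))) (XT.nd (nat_lit 78) (nat_lit 228) (nat_lit 0) (XT.lf (nat_lit 0) (nat_lit 4962175478) (nat_lit 152) (nat_lit 8451450043) (nat_lit 76) (nat_lit 33212491491) (nat_lit 14) (nat_lit 5) (nat_lit 16) (nat_lit 5) (nat_lit 15) (nat_lit 5) (nat_lit 223) (nat_lit 208) (nat_lit 169)) (XT.nd (nat_lit 78) (nat_lit 76) (nat_lit 0) (XT.lf (nat_lit 0) (nat_lit 18849103106) (nat_lit 228) (nat_lit 25235377310) (nat_lit 76) (nat_lit 7711781831) (nat_lit 12) (nat_lit 5) (nat_lit 15) (nat_lit 5) (nat_lit 13) (nat_lit 4) (nat_lit 224) (nat_lit 208) (nat_lit 168)) (XT.lf (nat_lit 0) (nat_lit 9682085663) (nat_lit 76) (nat_lit 25969402069) (nat_lit 152) (nat_lit 22023903841)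 (nat_lit 11) (nat_lit 5) (nat_lit 12) (nat_lit 5) (nat_lit 13) (nat_lit 4) (nat_lit 225) (nat_lit 208) (nat_lit 167)))))) (XT.nd (nat_lit 390) (nat_lit 304) (nat_lit 0) (XT.nd (nat_lit 156) (nat_lit 76) (nat_lit 0) (XT.nd (nat_lit 78) (nat_lit 152) (nat_lit 0) (XT.lf (nat_lit 0) (nat_lit 51329196535) (nat_lit 76) (nat_lit 4358108318) (nat_lit 152) (nat_lit 8692087928) (nat_lit 11) (nat_lit 5) (nat_lit 12) (nat_lit 5) (nat_lit 13) (nat_lit 4) (nat_lit 226) (nat_lit 208) (nat_lit 166)) (XT.lf (nat_lit 0) (nat_lit 7484562982) (nat_lit 152) (nat_lit 44176751455) (nat_lit 76) (nat_lit 20320768558) (nat_lit 9) (nat_lit 5) (nat_lit 11) (nat_lit 5) (nat_lit 10) (nat_lit 4) (nat_lit 227) (nat_lit 208) (nat_lit 165))) (XT.nd (nat_lit 78) (nat_lit 76) (nat_lit 0) (XT.lf (nat_lit 0) (nat_lit 26080200654) (nat_lit 152) (nat_lit 5517000859) (nat_lit 76) (nat_lit 49069375062) (nat_lit 9) (nat_lit 5)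 (nat_lit 11) (nat_lit 5) (nat_lit 10) (nat_lit 4) (nat_lit 228) (nat_lit 208) (nat_lit 164)) (XT.nd (nat_lit 78) (nat_lit 0) (nat_lit 0) (XT.lf (nat_lit 0) (nat_lit 40964044569) (nat_lit 76) (nat_lit 7470829163) (nat_lit 152) (nat_lit 42141324785) (nat_lit 8) (nat_lit 5) (nat_lit 9) (nat_lit 5) (nat_lit 10) (nat_lit 4) (nat_lit 229) (nat_lit 208) (nat_lit 163)) (XT.lf (nat_lit 0) (nat_lit 74780824178) (nat_lit 152) (nat_lit 7725328668) (nat_lit 0) (nat_lit 19415090450) (nat_lit 8) (nat_lit 5) (nat_lit 10) (nat_lit 4) (nat_lit 8) (nat_lit 4) (nat_lit 230) (nat_lit 208) (nat_lit 162))))) (XT.nd (nat_lit 234) (nat_lit 76) (nat_lit 0) (XT.nd (nat_lit 78) (nat_lit 152) (nat_lit 0) (XT.lf (nat_lit 0) (nat_lit 42333428697) (nat_lit 76) (nat_lit 63957531555) (nat_lit 76) (nat_lit 8580123406) (nat_lit 7) (nat_lit 4) (nat_lit 8) (nat_lit 5) (nat_lit 8) (nat_lit 4) (nat_lit 231) (nat_lit 208) (nat_lit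 161)) (XT.nd (nat_lit 78) (nat_lit 76) (nat_lit 0) (XT.lf (nat_lit 0) (nat_lit 12344827865) (nat_lit 152) (nat_lit 29710317858) (nat_lit 76) (nat_lit 87666183617) (nat_lit 6) (nat_lit 5) (nat_lit 8) (nat_lit 5) (nat_lit 7) (nat_lit 4) (nat_lit 232) (nat_lit 208) (nat_lit 160)) (XT.lf (nat_lit 0) (nat_lit 20301178132) (nat_lit 76) (nat_lit 16091882199) (nat_lit 152) (nat_lit 110348832131) (nat_lit 5) (nat_lit 5) (nat_lit 6) (nat_lit 5) (nat_lit 7) (nat_lit 4) (nat_lit 233) (nat_lit 208) (nat_lit 159)))) (XT.nd (nat_lit 78) (nat_lit 76) (nat_lit 0) (XT.lf (nat_lit 0) (nat_lit 65257676612) (nat_lit 152) (nat_lit 87003527272) (nat_lit 0) (nat_lit 13957617836) (nat_lit 5) (nat_lit 5) (nat_lit 7) (nat_lit 4) (nat_lit 5) (nat_lit 4) (nat_lit 234) (nat_lit 208) (nat_lit 158)) (XT.nd (nat_lit 78) (nat_lit 76) (nat_lit 0) (XT.lf (nat_lit 0) (nat_lit 98888897766) (nat_lit 152) (nat_lit 42110792880)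 (nat_lit 0) (nat_lit 47582658538) (nat_lit 5) (nat_lit 5) (nat_lit 7) (nat_lit 4) (nat_lit 5) (nat_lit 4) (nat_lit 235) (nat_lit 208) (nat_lit 157)) (XT.lf (nat_lit 0) (nat_lit 10003237561) (nat_lit 76) (nat_lit 127795056334) (nat_lit 76) (nat_lit 76483442800) (nat_lit 4) (nat_lit 4) (nat_lit 5) (nat_lit 5) (nat_lit 5) (nat_lit 4) (nat_lit 236) (nat_lit 208) (nat_lit 156))))))) (XT.nd (nat_lit 858) (nat_lit 76) (nat_lit 0) (XT.nd (nat_lit 390) (nat_lit 0) (nat_lit 0) (XT.nd (nat_lit 156) (nat_lit 152) (nat_lit 0) (XT.nd (nat_lit 78) (nat_lit 0) (nat_lit 0) (XT.lf (nat_lit 0) (nat_lit 72472559479) (nat_lit 76) (nat_lit 111291101839) (nat_lit 76) (nat_lit 59974814995) (nat_lit 4) (nat_lit 4) (nat_lit 5) (nat_lit 5) (nat_lit 5) (nat_lit 4) (nat_lit 237) (nat_lit 208) (nat_lit 155)) (XT.lf (nat_lit 0) (nat_lit 144301919009) (nat_lit 76) (nat_lit 92316307408) (nat_lit 76) (nat_lit 40995956818)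 (nat_lit 4) (nat_lit 4) (nat_lit 5) (nat_lit 5) (nat_lit 5) (nat_lit 4) (nat_lit 238) (nat_lit 208) (nat_lit 154))) (XT.nd (nat_lit 78) (nat_lit 152) (nat_lit 0) (XT.lf (nat_lit 0) (nat_lit 226896673186) (nat_lit 76) (nat_lit 70499427065) (nat_lit 76) (nat_lit 19175542781) (nat_lit 4) (nat_lit 4) (nat_lit 5) (nat_lit 5) (nat_lit 5) (nat_lit 4) (nat_lit 239) (nat_lit 208) (nat_lit 153)) (XT.nd (nat_lit 78) (nat_lit 76) (nat_lit 0) (XT.lf (nat_lit 0) (nat_lit 5617538630) (nat_lit 152) (nat_lit 39642476710) (nat_lit 76) (nat_lit 316101674239) (nat_lit 3) (nat_lit 5) (nat_lit 5) (nat_lit 5) (nat_lit 4) (nat_lit 4) (nat_lit 240) (nat_lit 208) (nat_lit 152)) (XT.lf (nat_lit 0) (nat_lit 18271542351) (nat_lit 76) (nat_lit 15190559279) (nat_lit 152) (nat_lit 379330866882) (nat_lit 2) (nat_lit 5) (nat_lit 3) (nat_lit 5) (nat_lit 4) (nat_lit 4) (nat_lit 241) (nat_lit 208) (nat_lit 151))))) (XT.nd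 (nat_lit 234) (nat_lit 0) (nat_lit 0) (XT.nd (nat_lit 78) (nat_lit 0) (nat_lit 0) (XT.lf (nat_lit 0) (nat_lit 67130268942) (nat_lit 152) (nat_lit 385076237575) (nat_lit 0) (nat_lit 19600683292) (nat_lit 2) (nat_lit 5) (nat_lit 4) (nat_lit 4) (nat_lit 2) (nat_lit 4) (nat_lit 242) (nat_lit 208) (nat_lit 150)) (XT.nd (nat_lit 78) (nat_lit 0) (nat_lit 0) (XT.lf (nat_lit 0) (nat_lit 106265734172) (nat_lit 152) (nat_lit 374640170095) (nat_lit 0) (nat_lit 58734277782) (nat_lit 2) (nat_lit 5) (nat_lit 4) (nat_lit 4) (nat_lit 2) (nat_lit 4) (nat_lit 243) (nat_lit 208) (nat_lit 149)) (XT.lf (nat_lit 0) (nat_lit 151268857892) (nat_lit 152) (nat_lit 362643706476) (nat_lit 0) (nat_lit 103735774770) (nat_lit 2) (nat_lit 5) (nat_lit 4) (nat_lit 4) (nat_lit 2) (nat_lit 4) (nat_lit 244) (nat_lit 208) (nat_lit 148)))) (XT.nd (nat_lit 78) (nat_lit 0) (nat_lit 0) (XT.lf (nat_lit 0) (nat_lit 203020135999)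 (nat_lit 152) (nat_lit 348852133300) (nat_lit 0) (nat_lit 155485638328) (nat_lit 2) (nat_lit 5) (nat_lit 4) (nat_lit 4) (nat_lit 2) (nat_lit 4) (nat_lit 245) (nat_lit 208) (nat_lit 147)) (XT.nd (nat_lit 78) (nat_lit 0) (nat_lit 0) (XT.lf (nat_lit 0) (nat_lit 262532093500) (nat_lit 152) (nat_lit 332995615440) (nat_lit 0) (nat_lit 214996365786) (nat_lit 2) (nat_lit 5) (nat_lit 4) (nat_lit 4) (nat_lit 2) (nat_lit 4) (nat_lit 246) (nat_lit 208) (nat_lit 146)) (XT.lf (nat_lit 0) (nat_lit 330969094781) (nat_lit 152) (nat_lit 314763916676) (nat_lit 0) (nat_lit 283432297465) (nat_lit 2) (nat_lit 5) (nat_lit 4) (nat_lit 4) (nat_lit 2) (nat_lit 4) (nat_lit 247) (nat_lit 208) (nat_lit 145)))))) (XT.nd (nat_lit 390) (nat_lit 76) (nat_lit 0) (XT.nd (nat_lit 156) (nat_lit 0) (nat_lit 0) (XT.nd (nat_lit 78) (nat_lit 0) (nat_lit 0) (XT.lf (nat_lit 0) (nat_lit 409670124650) (nat_lit 152) (nat_lit 293800329860)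 (nat_lit 0) (nat_lit 362132397244) (nat_lit 2) (nat_lit 5) (nat_lit 4) (nat_lit 4) (nat_lit 2) (nat_lit 4) (nat_lit 248) (nat_lit 208) (nat_lit 144)) (XT.lf (nat_lit 0) (nat_lit 500174985864) (nat_lit 152) (nat_lit 269694697856) (nat_lit 0) (nat_lit 452636449685) (nat_lit 2) (nat_lit 5) (nat_lit 4) (nat_lit 4) (nat_lit 2) (nat_lit 4) (nat_lit 249) (nat_lit 208) (nat_lit 143))) (XT.nd (nat_lit 78) (nat_lit 0) (nat_lit 0) (XT.lf (nat_lit 0) (nat_lit 604254425709) (nat_lit 152) (nat_lit 241975388736) (nat_lit 0) (nat_lit 556715186249) (nat_lit 2) (nat_lit 5) (nat_lit 4) (nat_lit 4) (nat_lit 2) (nat_lit 4) (nat_lit 250) (nat_lit 208) (nat_lit 142)) (XT.nd (nat_lit 78) (nat_lit 0) (nat_lit 0) (XT.lf (nat_lit 0) (nat_lit 723944781051) (nat_lit 152) (nat_lit 210100068189) (nat_lit 0) (nat_lit 676404930042) (nat_lit 2) (nat_lit 5) (nat_lit 4) (nat_lit 4) (nat_lit 2) (nat_lit 4) (nat_lit 251)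 (nat_lit 208) (nat_lit 141)) (XT.lf (nat_lit 0) (nat_lit 861587819711) (nat_lit 152) (nat_lit 173445088641) (nat_lit 0) (nat_lit 814047436922) (nat_lit 2) (nat_lit 5) (nat_lit 4) (nat_lit 4) (nat_lit 2) (nat_lit 4) (nat_lit 252) (nat_lit 208) (nat_lit 140))))) (XT.nd (nat_lit 234) (nat_lit 76) (nat_lit 0) (XT.nd (nat_lit 78) (nat_lit 0) (nat_lit 0) (XT.lf (nat_lit 0) (nat_lit 1019876557665) (nat_lit 152) (nat_lit 131293287448) (nat_lit 0) (nat_lit 972335712456) (nat_lit 2) (nat_lit 5) (nat_lit 4) (nat_lit 4) (nat_lit 2) (nat_lit 4) (nat_lit 253) (nat_lit 208) (nat_lit 139)) (XT.nd (nat_lit 78) (nat_lit 0) (nat_lit 0) (XT.lf (nat_lit 0) (nat_lit 1201907948479) (nat_lit 152) (nat_lit 82819955456) (nat_lit 0) (nat_lit 1154366701168) (nat_lit 2) (nat_lit 5) (nat_lit 4) (nat_lit 4) (nat_lit 2) (nat_lit 4) (nat_lit 254) (nat_lit 208) (nat_lit 138)) (XT.lf (nat_lit 0) (nat_lit 1411243475889)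 (nat_lit 152) (nat_lit 27076701387) (nat_lit 0) (nat_lit 1363701878922) (nat_lit 2) (nat_lit 5) (nat_lit 4) (nat_lit 4) (nat_lit 2) (nat_lit 4) (nat_lit 255) (nat_lit 208) (nat_lit 137)))) (XT.nd (nat_lit 78) (nat_lit 0) (nat_lit 0) (XT.lf (nat_lit 0) (nat_lit 38976885303) (nat_lit 76) (nat_lit 1613939344720) (nat_lit 76) (nat_lit 1566397443705) (nat_lit 1) (nat_lit 4) (nat_lit 2) (nat_lit 5) (nat_lit 2) (nat_lit 4) (nat_lit 256) (nat_lit 208) (nat_lit 136)) (XT.nd (nat_lit 78) (nat_lit 0) (nat_lit 0) (XT.lf (nat_lit 0) (nat_lit 116577334950) (nat_lit 76) (nat_lit 1815050418189) (nat_lit 76) (nat_lit 1767508252785) (nat_lit 1) (nat_lit 4) (nat_lit 2) (nat_lit 5) (nat_lit 2) (nat_lit 4) (nat_lit 257) (nat_lit 208) (nat_lit 135)) (XT.lf (nat_lit 0) (nat_lit 205817106111) (nat_lit 76) (nat_lit 2046328504556) (nat_lit 76) (nat_lit 1998786109248) (nat_lit 1) (nat_lit 4) (nat_lit 2) (nat_lit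 5) (nat_lit 2) (nat_lit 4) (nat_lit 258) (nat_lit 208) (nat_lit 134))))))))
noncomputable def xc36 : XT := (XT.nd (nat_lit 28782) (nat_lit 0) (nat_lit 76) (XT.nd (nat_lit 27924) (nat_lit 0) (nat_lit 760) (XT.nd (nat_lit 27534) (nat_lit 0) (nat_lit 2280) (XT.nd (nat_lit 156) (nat_lit 0) (nat_lit 0) (XT.nd (nat_lit 78) (nat_lit 0) (nat_lit 0) (XT.lf (nat_lit 0) (nat_lit 308442194306) (nat_lit 76) (nat_lit 2312298609858) (nat_lit 76) (nat_lit 2264756014634) (nat_lit 1) (nat_lit 4) (nat_lit 2) (nat_lit 5) (nat_lit 2) (nat_lit 4) (nat_lit 259) (nat_lit 208) (nat_lit 133)) (XT.lf (nat_lit 0) (nat_lit 426460481698) (nat_lit 76) (nat_lit 2618164497024) (nat_lit 76) (nat_lit 2570621727960) (nat_lit 1) (nat_lit 4) (nat_lit 2) (nat_lit 5) (nat_lit 2) (nat_lit 4) (nat_lit 260) (nat_lit 208) (nat_lit 132))) (XT.nd (nat_lit 27222) (nat_lit 0) (nat_lit 2736) (XT.lf (nat_lit 0) (nat_lit 562181021735)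 (nat_lit 76) (nat_lit 2969910498631) (nat_lit 76) (nat_lit 2922367578402) (nat_lit 1) (nat_lit 4) (nat_lit 2) (nat_lit 5) (nat_lit 2) (nat_lit 4) (nat_lit 261) (nat_lit 208) (nat_lit 131)) (XT.nd (nat_lit 78) (nat_lit 0) (nat_lit 76) (XT.lf (nat_lit 0) (nat_lit 1832072103) (nat_lit 532) (nat_lit 2741236610) (nat_lit 532) (nat_lit 2741236610) (nat_lit 37) (nat_lit 3) (nat_lit 44) (nat_lit 3) (nat_lit 44) (nat_lit 5) (nat_lit 209) (nat_lit 209) (nat_lit 182)) (XT.lf (nat_lit 0) (nat_lit 4661527452) (nat_lit 456) (nat_lit 8957270174) (nat_lit 532) (nat_lit 2047242839) (nat_lit 38) (nat_lit 5) (nat_lit 44) (nat_lit 5) (nat_lit 45) (nat_lit 5) (nat_lit 210) (nat_lit 209) (nat_lit 181))))) (XT.nd (nat_lit 156) (nat_lit 532) (nat_lit 0) (XT.nd (nat_lit 78) (nat_lit 0) (nat_lit 76) (XT.lf (nat_lit 76) (nat_lit 4102672586) (nat_lit 0) (nat_lit 2130510685) (nat_lit 532) (nat_lit 10591808271) (nat_lit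 39) (nat_lit 5) (nat_lit 38) (nat_lit 5) (nat_lit 45) (nat_lit 5) (nat_lit 211) (nat_lit 209) (nat_lit 180)) (XT.lf (nat_lit 76) (nat_lit 1253898171) (nat_lit 0) (nat_lit 7271266604) (nat_lit 532) (nat_lit 9594229965) (nat_lit 40) (nat_lit 5) (nat_lit 39) (nat_lit 5) (nat_lit 46) (nat_lit 5) (nat_lit 212) (nat_lit 209) (nat_lit 179))) (XT.nd (nat_lit 78) (nat_lit 684) (nat_lit 0) (XT.lf (nat_lit 0) (nat_lit 11673497456) (nat_lit 456) (nat_lit 1757472496) (nat_lit 76) (nat_lit 6136310797) (nat_lit 40) (nat_lit 5) (nat_lit 46) (nat_lit 5) (nat_lit 41) (nat_lit 5) (nat_lit 213) (nat_lit 209) (nat_lit 178)) (XT.nd (nat_lit 78) (nat_lit 228) (nat_lit 0) (XT.lf (nat_lit 0) (nat_lit 15831244530) (nat_lit 532) (nat_lit 5029509760) (nat_lit 76) (nat_lit 328906252) (nat_lit 34) (nat_lit 5) (nat_lit 41) (nat_lit 5) (nat_lit 35) (nat_lit 5) (nat_lit 214) (nat_lit 209) (nat_lit 177)) (XT.lf (nat_lit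 0) (nat_lit 14097610198) (nat_lit 228) (nat_lit 7223763876) (nat_lit 304) (nat_lit 1677572589) (nat_lit 31) (nat_lit 5) (nat_lit 34) (nat_lit 5) (nat_lit 35) (nat_lit 5) (nat_lit 215) (nat_lit 209) (nat_lit 176)))))) (XT.nd (nat_lit 390) (nat_lit 684) (nat_lit 0) (XT.nd (nat_lit 156) (nat_lit 380) (nat_lit 0) (XT.nd (nat_lit 78) (nat_lit 228) (nat_lit 0) (XT.lf (nat_lit 0) (nat_lit 3027966824) (nat_lit 228) (nat_lit 13458299300) (nat_lit 76) (nat_lit 8540609791) (nat_lit 28) (nat_lit 5) (nat_lit 31) (nat_lit 5) (nat_lit 29) (nat_lit 5) (nat_lit 216) (nat_lit 209) (nat_lit 175)) (XT.lf (nat_lit 0) (nat_lit 8425722767) (nat_lit 228) (nat_lit 540755814) (nat_lit 304) (nat_lit 18339085241) (nat_lit 25) (nat_lit 5) (nat_lit 28) (nat_lit 5) (nat_lit 29) (nat_lit 5) (nat_lit 217) (nat_lit 209) (nat_lit 174))) (XT.nd (nat_lit 78) (nat_lit 228) (nat_lit 0) (XT.lf (nat_lit 0) (nat_lit 4234999094)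 (nat_lit 152) (nat_lit 12452435231) (nat_lit 228) (nat_lit 13167437586) (nat_lit 23) (nat_lit 5) (nat_lit 25) (nat_lit 5) (nat_lit 26) (nat_lit 5) (nat_lit 218) (nat_lit 209) (nat_lit 173)) (XT.nd (nat_lit 78) (nat_lit 228) (nat_lit 0) (XT.lf (nat_lit 0) (nat_lit 26234258068) (nat_lit 228) (nat_lit 986345843) (nat_lit 76) (nat_lit 5512685087) (nat_lit 23) (nat_lit 5) (nat_lit 26) (nat_lit 5) (nat_lit 24) (nat_lit 5) (nat_lit 219) (nat_lit 209) (nat_lit 172)) (XT.lf (nat_lit 0) (nat_lit 2132064012) (nat_lit 228) (nat_lit 7643985159) (nat_lit 76) (nat_lit 26183599394) (nat_lit 20) (nat_lit 5) (nat_lit 23) (nat_lit 5) (nat_lit 21) (nat_lit 5) (nat_lit 220) (nat_lit 209) (nat_lit 171))))) (XT.nd (nat_lit 234) (nat_lit 304) (nat_lit 0) (XT.nd (nat_lit 78) (nat_lit 228) (nat_lit 0) (XT.lf (nat_lit 0) (nat_lit 12512844135) (nat_lit 228) (nat_lit 16526343249) (nat_lit 76) (nat_lit 10550174866)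 (nat_lit 18) (nat_lit 5) (nat_lit 21) (nat_lit 5) (nat_lit 19) (nat_lit 5) (nat_lit 221) (nat_lit 209) (nat_lit 170)) (XT.nd (nat_lit 78) (nat_lit 76) (nat_lit 0) (XT.lf (nat_lit 0) (nat_lit 15555603968) (nat_lit 152) (nat_lit 9741330911) (nat_lit 228) (nat_lit 18398982224) (nat_lit 16) (nat_lit 5) (nat_lit 18) (nat_lit 5) (nat_lit 19) (nat_lit 5) (nat_lit 222) (nat_lit 209) (nat_lit 169)) (XT.lf (nat_lit 0) (nat_lit 4969329979) (nat_lit 76) (nat_lit 35917596432) (nat_lit 152) (nat_lit 7460535025) (nat_lit 15) (nat_lit 5) (nat_lit 16) (nat_lit 5) (nat_lit 17) (nat_lit 4) (nat_lit 223) (nat_lit 209) (nat_lit 168)))) (XT.nd (nat_lit 78) (nat_lit 228) (nat_lit 0) (XT.lf (nat_lit 0) (nat_lit 5949985194) (nat_lit 152) (nat_lit 9331493618) (nat_lit 76) (nat_lit 38318476952) (nat_lit 14) (nat_lit 5) (nat_lit 16) (nat_lit 5) (nat_lit 15) (nat_lit 5) (nat_lit 224) (nat_lit 209) (nat_lit 167))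 (XT.nd (nat_lit 78) (nat_lit 76) (nat_lit 0) (XT.lf (nat_lit 0) (nat_lit 21899964774) (nat_lit 228) (nat_lit 28650919203) (nat_lit 76) (nat_lit 8996416059) (nat_lit 12) (nat_lit 5) (nat_lit 15) (nat_lit 5) (nat_lit 13) (nat_lit 4) (nat_lit 225) (nat_lit 209) (nat_lit 166)) (XT.lf (nat_lit 0) (nat_lit 11472864476) (nat_lit 76) (nat_lit 29728831055) (nat_lit 152) (nat_lit 25108352224) (nat_lit 11) (nat_lit 5) (nat_lit 12) (nat_lit 5) (nat_lit 13) (nat_lit 4) (nat_lit 226) (nat_lit 209) (nat_lit 165))))))) (XT.nd (nat_lit 780) (nat_lit 228) (nat_lit 0) (XT.nd (nat_lit 390) (nat_lit 228) (nat_lit 0) (XT.nd (nat_lit 156) (nat_lit 76) (nat_lit 0) (XT.nd (nat_lit 78) (nat_lit 152) (nat_lit 0) (XT.lf (nat_lit 0) (nat_lit 59322894243) (nat_lit 76) (nat_lit 4893579936) (nat_lit 152) (nat_lit 9805347036) (nat_lit 11) (nat_lit 5) (nat_lit 12) (nat_lit 5) (nat_lit 13) (nat_lit 4) (nat_lit 227) (nat_lit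 209) (nat_lit 164)) (XT.lf (nat_lit 0) (nat_lit 8774105105) (nat_lit 152) (nat_lit 50514102671) (nat_lit 76) (nat_lit 23477521346) (nat_lit 9) (nat_lit 5) (nat_lit 11) (nat_lit 5) (nat_lit 10) (nat_lit 4) (nat_lit 228) (nat_lit 209) (nat_lit 163))) (XT.nd (nat_lit 78) (nat_lit 76) (nat_lit 0) (XT.lf (nat_lit 0) (nat_lit 30137324383) (nat_lit 152) (nat_lit 6093106203) (nat_lit 76) (nat_lit 56524248717) (nat_lit 9) (nat_lit 5) (nat_lit 11) (nat_lit 5) (nat_lit 10) (nat_lit 4) (nat_lit 229) (nat_lit 209) (nat_lit 162)) (XT.nd (nat_lit 78) (nat_lit 0) (nat_lit 0) (XT.lf (nat_lit 0) (nat_lit 47338812490) (nat_lit 76) (nat_lit 8492996059) (nat_lit 152) (nat_lit 48320043211) (nat_lit 8) (nat_lit 5) (nat_lit 9) (nat_lit 5) (nat_lit 10) (nat_lit 4) (nat_lit 230) (nat_lit 209) (nat_lit 161)) (XT.lf (nat_lit 0) (nat_lit 86114531859) (nat_lit 152) (nat_lit 8676675911) (nat_lit 0) (nat_lit 22408686398)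 (nat_lit 8) (nat_lit 5) (nat_lit 10) (nat_lit 4) (nat_lit 8) (nat_lit 4) (nat_lit 231) (nat_lit 209) (nat_lit 160))))) (XT.nd (nat_lit 156) (nat_lit 76) (nat_lit 0) (XT.nd (nat_lit 78) (nat_lit 76) (nat_lit 0) (XT.lf (nat_lit 0) (nat_lit 48873335276) (nat_lit 76) (nat_lit 73467213366) (nat_lit 76) (nat_lit 9752540366) (nat_lit 7) (nat_lit 4) (nat_lit 8) (nat_lit 5) (nat_lit 8) (nat_lit 4) (nat_lit 232) (nat_lit 209) (nat_lit 159)) (XT.lf (nat_lit 0) (nat_lit 14291220495) (nat_lit 152) (nat_lit 33996610491) (nat_lit 76) (nat_lit 100883978023) (nat_lit 6) (nat_lit 5) (nat_lit 8) (nat_lit 5) (nat_lit 7) (nat_lit 4) (nat_lit 233) (nat_lit 209) (nat_lit 158))) (XT.nd (nat_lit 78) (nat_lit 0) (nat_lit 0) (XT.lf (nat_lit 0) (nat_lit 23502198656) (nat_lit 76) (nat_lit 18435889163) (nat_lit 152) (nat_lit 126808075858) (nat_lit 5) (nat_lit 5) (nat_lit 6) (nat_lit 5) (nat_lit 7) (nat_lit 4) (nat_lit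 234) (nat_lit 209) (nat_lit 157)) (XT.nd (nat_lit 78) (nat_lit 0) (nat_lit 0) (XT.lf (nat_lit 0) (nat_lit 75122629442) (nat_lit 152) (nat_lit 99913901267) (nat_lit 0) (nat_lit 16108899572) (nat_lit 5) (nat_lit 5) (nat_lit 7) (nat_lit 4) (nat_lit 5) (nat_lit 4) (nat_lit 235) (nat_lit 209) (nat_lit 156)) (XT.lf (nat_lit 0) (nat_lit 113788581420) (nat_lit 152) (nat_lit 48305537816) (nat_lit 0) (nat_lit 54770178241) (nat_lit 5) (nat_lit 5) (nat_lit 7) (nat_lit 4) (nat_lit 5) (nat_lit 4) (nat_lit 236) (nat_lit 209) (nat_lit 155)))))) (XT.nd (nat_lit 390) (nat_lit 76) (nat_lit 0) (XT.nd (nat_lit 156) (nat_lit 76) (nat_lit 0) (XT.nd (nat_lit 78) (nat_lit 0) (nat_lit 0) (XT.lf (nat_lit 0) (nat_lit 11615281165) (nat_lit 76) (nat_lit 146913134559) (nat_lit 76) (nat_lit 87890667632) (nat_lit 4) (nat_lit 4) (nat_lit 5) (nat_lit 5) (nat_lit 5) (nat_lit 4) (nat_lit 237) (nat_lit 209) (nat_lit 154))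 (XT.lf (nat_lit 0) (nat_lit 83440450331) (nat_lit 76) (nat_lit 127940262571) (nat_lit 76) (nat_lit 68914261951) (nat_lit 4) (nat_lit 4) (nat_lit 5) (nat_lit 5) (nat_lit 5) (nat_lit 4) (nat_lit 238) (nat_lit 209) (nat_lit 153))) (XT.nd (nat_lit 78) (nat_lit 76) (nat_lit 0) (XT.lf (nat_lit 0) (nat_lit 166031560713) (nat_lit 76) (nat_lit 106125053917) (nat_lit 76) (nat_lit 47095980520) (nat_lit 4) (nat_lit 4) (nat_lit 5) (nat_lit 5) (nat_lit 5) (nat_lit 4) (nat_lit 239) (nat_lit 209) (nat_lit 152)) (XT.nd (nat_lit 78) (nat_lit 76) (nat_lit 0) (XT.lf (nat_lit 0) (nat_lit 261004525340) (nat_lit 76) (nat_lit 81040689296) (nat_lit 76) (nat_lit 22008943919) (nat_lit 4) (nat_lit 4) (nat_lit 5) (nat_lit 5) (nat_lit 5) (nat_lit 4) (nat_lit 240) (nat_lit 209) (nat_lit 151)) (XT.lf (nat_lit 0) (nat_lit 6495632669) (nat_lit 152) (nat_lit 45523152883) (nat_lit 76) (nat_lit 363544276133) (nat_lit 3)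 (nat_lit 5) (nat_lit 5) (nat_lit 5) (nat_lit 4) (nat_lit 4) (nat_lit 241) (nat_lit 209) (nat_lit 150))))) (XT.nd (nat_lit 234) (nat_lit 0) (nat_lit 0) (XT.nd (nat_lit 78) (nat_lit 0) (nat_lit 0) (XT.lf (nat_lit 0) (nat_lit 21072408254) (nat_lit 76) (nat_lit 17441292463) (nat_lit 152) (nat_lit 436195591870) (nat_lit 2) (nat_lit 5) (nat_lit 3) (nat_lit 5) (nat_lit 4) (nat_lit 4) (nat_lit 242) (nat_lit 209) (nat_lit 149)) (XT.nd (nat_lit 78) (nat_lit 0) (nat_lit 0) (XT.lf (nat_lit 0) (nat_lit 77228464633) (nat_lit 152) (nat_lit 442783685435) (nat_lit 0) (nat_lit 22563792310) (nat_lit 2) (nat_lit 5) (nat_lit 4) (nat_lit 4) (nat_lit 2) (nat_lit 4) (nat_lit 243) (nat_lit 209) (nat_lit 148)) (XT.lf (nat_lit 0) (nat_lit 122230511994) (nat_lit 152) (nat_lit 430789249716) (nat_lit 0) (nat_lit 67564425123) (nat_lit 2) (nat_lit 5) (nat_lit 4) (nat_lit 4) (nat_lit 2) (nat_lit 4) (nat_lit 244) (nat_lit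 209) (nat_lit 147)))) (XT.nd (nat_lit 78) (nat_lit 0) (nat_lit 0) (XT.lf (nat_lit 0) (nat_lit 173980854137) (nat_lit 152) (nat_lit 416999439932) (nat_lit 0) (nat_lit 119313537223) (nat_lit 2) (nat_lit 5) (nat_lit 4) (nat_lit 4) (nat_lit 2) (nat_lit 4) (nat_lit 245) (nat_lit 209) (nat_lit 146)) (XT.nd (nat_lit 78) (nat_lit 0) (nat_lit 0) (XT.lf (nat_lit 0) (nat_lit 233491997757) (nat_lit 152) (nat_lit 401144455456) (nat_lit 0) (nat_lit 178823611240) (nat_lit 2) (nat_lit 5) (nat_lit 4) (nat_lit 4) (nat_lit 2) (nat_lit 4) (nat_lit 246) (nat_lit 209) (nat_lit 145)) (XT.lf (nat_lit 0) (nat_lit 301928291315) (nat_lit 152) (nat_lit 382914090070) (nat_lit 0) (nat_lit 247258974709) (nat_lit 2) (nat_lit 5) (nat_lit 4) (nat_lit 4) (nat_lit 2) (nat_lit 4) (nat_lit 247) (nat_lit 209) (nat_lit 144))))))))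
noncomputable def xc37 : XT := (XT.nd (nat_lit 28860) (nat_lit 0) (nat_lit 304) (XT.nd (nat_lit 780) (nat_lit 0) (nat_lit 0) (XT.nd (nat_lit 390) (nat_lit 76) (nat_lit 0) (XT.nd (nat_lit 156) (nat_lit 0) (nat_lit 0) (XT.nd (nat_lit 78) (nat_lit 0) (nat_lit 0) (XT.lf (nat_lit 0) (nat_lit 380628705772) (nat_lit 152) (nat_lit 361951662711) (nat_lit 0) (nat_lit 325958580393) (nat_lit 2) (nat_lit 5) (nat_lit 4) (nat_lit 4) (nat_lit 2) (nat_lit 4) (nat_lit 248) (nat_lit 209) (nat_lit 143)) (XT.lf (nat_lit 0) (nat_lit 471133031846) (nat_lit 152) (nat_lit 337847038933) (nat_lit 0) (nat_lit 416462203186) (nat_lit 2) (nat_lit 5) (nat_lit 4) (nat_lit 4) (nat_lit 2) (nat_lit 4) (nat_lit 249) (nat_lit 209) (nat_lit 142))) (XT.nd (nat_lit 78) (nat_lit 0) (nat_lit 0) (XT.lf (nat_lit 0) (nat_lit 575212006351) (nat_lit 152) (nat_lit 310128606530) (nat_lit 0) (nat_lit 520540566143) (nat_lit 2) (nat_lit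 5) (nat_lit 4) (nat_lit 4) (nat_lit 2) (nat_lit 4) (nat_lit 250) (nat_lit 209) (nat_lit 141)) (XT.nd (nat_lit 78) (nat_lit 0) (nat_lit 0) (XT.lf (nat_lit 0) (nat_lit 694901957050) (nat_lit 152) (nat_lit 278254048346) (nat_lit 0) (nat_lit 640229985060) (nat_lit 2) (nat_lit 5) (nat_lit 4) (nat_lit 4) (nat_lit 2) (nat_lit 4) (nat_lit 251) (nat_lit 209) (nat_lit 140)) (XT.lf (nat_lit 0) (nat_lit 832544643847) (nat_lit 152) (nat_lit 241599731722) (nat_lit 0) (nat_lit 777872209439) (nat_lit 2) (nat_lit 5) (nat_lit 4) (nat_lit 4) (nat_lit 2) (nat_lit 4) (nat_lit 252) (nat_lit 209) (nat_lit 139))))) (XT.nd (nat_lit 156) (nat_lit 76) (nat_lit 0) (XT.nd (nat_lit 78) (nat_lit 0) (nat_lit 0) (XT.lf (nat_lit 0) (nat_lit 990833075832) (nat_lit 152) (nat_lit 199448506985) (nat_lit 0) (nat_lit 936160239321) (nat_lit 2) (nat_lit 5) (nat_lit 4) (nat_lit 4) (nat_lit 2) (nat_lit 4) (nat_lit 253) (nat_lit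 209) (nat_lit 138)) (XT.lf (nat_lit 0) (nat_lit 1172864200588) (nat_lit 152) (nat_lit 150975676259) (nat_lit 0) (nat_lit 1118191014421) (nat_lit 2) (nat_lit 5) (nat_lit 4) (nat_lit 4) (nat_lit 2) (nat_lit 4) (nat_lit 254) (nat_lit 209) (nat_lit 137))) (XT.nd (nat_lit 78) (nat_lit 76) (nat_lit 0) (XT.lf (nat_lit 0) (nat_lit 1382199496641) (nat_lit 152) (nat_lit 95232858073) (nat_lit 0) (nat_lit 1327526006427) (nat_lit 2) (nat_lit 5) (nat_lit 4) (nat_lit 4) (nat_lit 2) (nat_lit 4) (nat_lit 255) (nat_lit 209) (nat_lit 136)) (XT.nd (nat_lit 78) (nat_lit 76) (nat_lit 0) (XT.lf (nat_lit 0) (nat_lit 1622934654568) (nat_lit 152) (nat_lit 31129432072) (nat_lit 0) (nat_lit 1568260899964) (nat_lit 2) (nat_lit 5) (nat_lit 4) (nat_lit 4) (nat_lit 2) (nat_lit 4) (nat_lit 256) (nat_lit 209) (nat_lit 135)) (XT.lf (nat_lit 0) (nat_lit 44831449902) (nat_lit 76) (nat_lit 1856026457612) (nat_lit 76) (nat_lit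 1801352473104) (nat_lit 1) (nat_lit 4) (nat_lit 2) (nat_lit 5) (nat_lit 2) (nat_lit 4) (nat_lit 257) (nat_lit 209) (nat_lit 134)))))) (XT.nd (nat_lit 27612) (nat_lit 0) (nat_lit 2280) (XT.nd (nat_lit 156) (nat_lit 0) (nat_lit 0) (XT.nd (nat_lit 78) (nat_lit 0) (nat_lit 0) (XT.lf (nat_lit 0) (nat_lit 134070919370) (nat_lit 76) (nat_lit 2087304686295) (nat_lit 76) (nat_lit 2032630501871) (nat_lit 1) (nat_lit 4) (nat_lit 2) (nat_lit 5) (nat_lit 2) (nat_lit 4) (nat_lit 258) (nat_lit 209) (nat_lit 133)) (XT.lf (nat_lit 0) (nat_lit 236695745225) (nat_lit 76) (nat_lit 2353274915350) (nat_lit 76) (nat_lit 2298600557086) (nat_lit 1) (nat_lit 4) (nat_lit 2) (nat_lit 5) (nat_lit 2) (nat_lit 4) (nat_lit 259) (nat_lit 209) (nat_lit 132))) (XT.nd (nat_lit 78) (nat_lit 0) (nat_lit 0) (XT.lf (nat_lit 0) (nat_lit 354713804494) (nat_lit 76) (nat_lit 2659140910128) (nat_lit 76) (nat_lit 2604466400699) (nat_lit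 1) (nat_lit 4) (nat_lit 2) (nat_lit 5) (nat_lit 2) (nat_lit 4) (nat_lit 260) (nat_lit 209) (nat_lit 131)) (XT.nd (nat_lit 27300) (nat_lit 0) (nat_lit 2736) (XT.lf (nat_lit 0) (nat_lit 490434146163) (nat_lit 76) (nat_lit 3010887005310) (nat_lit 76) (nat_lit 2956212364433) (nat_lit 1) (nat_lit 4) (nat_lit 2) (nat_lit 5) (nat_lit 2) (nat_lit 4) (nat_lit 261) (nat_lit 209) (nat_lit 130)) (XT.lf (nat_lit 0) (nat_lit 2593896806) (nat_lit 532) (nat_lit 2888271741) (nat_lit 532) (nat_lit 2888271741) (nat_lit 37) (nat_lit 3) (nat_lit 44) (nat_lit 3) (nat_lit 44) (nat_lit 5) (nat_lit 210) (nat_lit 210) (nat_lit 180))))) (XT.nd (nat_lit 234) (nat_lit 532) (nat_lit 0) (XT.nd (nat_lit 78) (nat_lit 0) (nat_lit 0) (XT.lf (nat_lit 0) (nat_lit 6210347983) (nat_lit 456) (nat_lit 9735524966) (nat_lit 532) (nat_lit 1998061539) (nat_lit 38) (nat_lit 5) (nat_lit 44) (nat_lit 5) (nat_lit 45) (nat_lit 5) (nat_lit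 211) (nat_lit 210) (nat_lit 179)) (XT.nd (nat_lit 78) (nat_lit 0) (nat_lit 76) (XT.lf (nat_lit 76) (nat_lit 5235556353) (nat_lit 0) (nat_lit 2683825026) (nat_lit 532) (nat_lit 11365744085) (nat_lit 39) (nat_lit 5) (nat_lit 38) (nat_lit 5) (nat_lit 45) (nat_lit 5) (nat_lit 212) (nat_lit 210) (nat_lit 178)) (XT.lf (nat_lit 76) (nat_lit 1979039135) (nat_lit 0) (nat_lit 8486163719) (nat_lit 532) (nat_lit 10316141628) (nat_lit 40) (nat_lit 5) (nat_lit 39) (nat_lit 5) (nat_lit 46) (nat_lit 5) (nat_lit 213) (nat_lit 210) (nat_lit 177)))) (XT.nd (nat_lit 78) (nat_lit 684) (nat_lit 0) (XT.lf (nat_lit 0) (nat_lit 13996936142) (nat_lit 456) (nat_lit 1502829986) (nat_lit 76) (nat_lit 6954154129) (nat_lit 40) (nat_lit 5) (nat_lit 46) (nat_lit 5) (nat_lit 41) (nat_lit 5) (nat_lit 214) (nat_lit 210) (nat_lit 176)) (XT.nd (nat_lit 78) (nat_lit 228) (nat_lit 0) (XT.lf (nat_lit 0) (nat_lit 18714255670)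 (nat_lit 532) (nat_lit 5265659705) (nat_lit 76) (nat_lit 345215702) (nat_lit 34) (nat_lit 5) (nat_lit 41) (nat_lit 5) (nat_lit 35) (nat_lit 5) (nat_lit 215) (nat_lit 210) (nat_lit 175)) (XT.lf (nat_lit 0) (nat_lit 16686658721) (nat_lit 228) (nat_lit 8286352234) (nat_lit 304) (nat_lit 1437492298) (nat_lit 31) (nat_lit 5) (nat_lit 34) (nat_lit 5) (nat_lit 35) (nat_lit 5) (nat_lit 216) (nat_lit 210) (nat_lit 174))))))) (XT.nd (nat_lit 780) (nat_lit 532) (nat_lit 0) (XT.nd (nat_lit 390) (nat_lit 608) (nat_lit 0) (XT.nd (nat_lit 156) (nat_lit 380) (nat_lit 0) (XT.nd (nat_lit 78) (nat_lit 228) (nat_lit 0) (XT.lf (nat_lit 0) (nat_lit 3900370290) (nat_lit 228) (nat_lit 14984569192) (nat_lit 76) (nat_lit 9860892025) (nat_lit 28) (nat_lit 5) (nat_lit 31) (nat_lit 5) (nat_lit 29) (nat_lit 5) (nat_lit 217) (nat_lit 210) (nat_lit 173)) (XT.lf (nat_lit 0) (nat_lit 10140370629) (nat_lit 228) (nat_lit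 545580752) (nat_lit 304) (nat_lit 20684079004) (nat_lit 25) (nat_lit 5) (nat_lit 28) (nat_lit 5) (nat_lit 29) (nat_lit 5) (nat_lit 218) (nat_lit 210) (nat_lit 172))) (XT.nd (nat_lit 78) (nat_lit 228) (nat_lit 0) (XT.lf (nat_lit 0) (nat_lit 5309914752) (nat_lit 152) (nat_lit 14218457173) (nat_lit 228) (nat_lit 14776480688) (nat_lit 23) (nat_lit 5) (nat_lit 25) (nat_lit 5) (nat_lit 26) (nat_lit 5) (nat_lit 219) (nat_lit 210) (nat_lit 171)) (XT.nd (nat_lit 78) (nat_lit 228) (nat_lit 0) (XT.lf (nat_lit 0) (nat_lit 30465285288) (nat_lit 228) (nat_lit 729544204) (nat_lit 76) (nat_lit 6423717177) (nat_lit 23) (nat_lit 5) (nat_lit 26) (nat_lit 5) (nat_lit 24) (nat_lit 5) (nat_lit 220) (nat_lit 210) (nat_lit 170)) (XT.lf (nat_lit 0) (nat_lit 2725872176) (nat_lit 228) (nat_lit 8404804344) (nat_lit 76) (nat_lit 30200142282) (nat_lit 20) (nat_lit 5) (nat_lit 23) (nat_lit 5) (nat_lit 21) (nat_lit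 5) (nat_lit 221) (nat_lit 210) (nat_lit 169))))) (XT.nd (nat_lit 156) (nat_lit 304) (nat_lit 0) (XT.nd (nat_lit 78) (nat_lit 152) (nat_lit 0) (XT.lf (nat_lit 0) (nat_lit 14639081275) (nat_lit 228) (nat_lit 18634243092) (nat_lit 76) (nat_lit 12233752018) (nat_lit 18) (nat_lit 5) (nat_lit 21) (nat_lit 5) (nat_lit 19) (nat_lit 5) (nat_lit 222) (nat_lit 210) (nat_lit 168)) (XT.lf (nat_lit 0) (nat_lit 18228588534) (nat_lit 152) (nat_lit 11087846780) (nat_lit 228) (nat_lit 20915224400) (nat_lit 16) (nat_lit 5) (nat_lit 18) (nat_lit 5) (nat_lit 19) (nat_lit 5) (nat_lit 223) (nat_lit 210) (nat_lit 167))) (XT.nd (nat_lit 78) (nat_lit 228) (nat_lit 0) (XT.lf (nat_lit 0) (nat_lit 6040166345) (nat_lit 76) (nat_lit 41185641748) (nat_lit 152) (nat_lit 8356741541) (nat_lit 15) (nat_lit 5) (nat_lit 16) (nat_lit 5) (nat_lit 17) (nat_lit 4) (nat_lit 224) (nat_lit 210) (nat_lit 166)) (XT.nd (nat_lit 78)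 (nat_lit 152) (nat_lit 0) (XT.lf (nat_lit 0) (nat_lit 7026591400) (nat_lit 152) (nat_lit 10438080472) (nat_lit 76) (nat_lit 44160094799) (nat_lit 14) (nat_lit 5) (nat_lit 16) (nat_lit 5) (nat_lit 15) (nat_lit 5) (nat_lit 225) (nat_lit 210) (nat_lit 165)) (XT.lf (nat_lit 0) (nat_lit 25353954729) (nat_lit 228) (nat_lit 32668961845) (nat_lit 76) (nat_lit 10442564255) (nat_lit 12) (nat_lit 5) (nat_lit 15) (nat_lit 5) (nat_lit 13) (nat_lit 4) (nat_lit 226) (nat_lit 210) (nat_lit 164)))))) (XT.nd (nat_lit 390) (nat_lit 228) (nat_lit 0) (XT.nd (nat_lit 156) (nat_lit 228) (nat_lit 0) (XT.nd (nat_lit 78) (nat_lit 0) (nat_lit 0) (XT.lf (nat_lit 0) (nat_lit 13449723041) (nat_lit 76) (nat_lit 34085334296) (nat_lit 152) (nat_lit 28708905857) (nat_lit 11) (nat_lit 5) (nat_lit 12) (nat_lit 5) (nat_lit 13) (nat_lit 4) (nat_lit 227) (nat_lit 210) (nat_lit 163)) (XT.lf (nat_lit 0) (nat_lit 68443875245)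 (nat_lit 76) (nat_lit 5538206999) (nat_lit 152) (nat_lit 11132062830) (nat_lit 11) (nat_lit 5) (nat_lit 12) (nat_lit 5) (nat_lit 13) (nat_lit 4) (nat_lit 228) (nat_lit 210) (nat_lit 162))) (XT.nd (nat_lit 78) (nat_lit 76) (nat_lit 0) (XT.lf (nat_lit 0) (nat_lit 10216389244) (nat_lit 152) (nat_lit 57872570433) (nat_lit 76) (nat_lit 27081295110) (nat_lit 9) (nat_lit 5) (nat_lit 11) (nat_lit 5) (nat_lit 10) (nat_lit 4) (nat_lit 229) (nat_lit 210) (nat_lit 161)) (XT.nd (nat_lit 78) (nat_lit 76) (nat_lit 0) (XT.lf (nat_lit 0) (nat_lit 34767634670) (nat_lit 152) (nat_lit 6816943752) (nat_lit 76) (nat_lit 65074316947) (nat_lit 9) (nat_lit 5) (nat_lit 11) (nat_lit 5) (nat_lit 10) (nat_lit 4) (nat_lit 230) (nat_lit 210) (nat_lit 160)) (XT.lf (nat_lit 0) (nat_lit 54613669325) (nat_lit 76) (nat_lit 9692497469) (nat_lit 152) (nat_lit 55460314122) (nat_lit 8) (nat_lit 5) (nat_lit 9) (nat_lit 5) (nat_lit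 10) (nat_lit 4) (nat_lit 231) (nat_lit 210) (nat_lit 159))))) (XT.nd (nat_lit 234) (nat_lit 76) (nat_lit 0) (XT.nd (nat_lit 78) (nat_lit 152) (nat_lit 0) (XT.lf (nat_lit 0) (nat_lit 99119865932) (nat_lit 152) (nat_lit 9821313739) (nat_lit 0) (nat_lit 25831488321) (nat_lit 8) (nat_lit 5) (nat_lit 10) (nat_lit 4) (nat_lit 8) (nat_lit 4) (nat_lit 232) (nat_lit 210) (nat_lit 158)) (XT.nd (nat_lit 78) (nat_lit 76) (nat_lit 0) (XT.lf (nat_lit 0) (nat_lit 56347921408) (nat_lit 76) (nat_lit 84423818682) (nat_lit 76) (nat_lit 11128766184) (nat_lit 7) (nat_lit 4) (nat_lit 8) (nat_lit 5) (nat_lit 8) (nat_lit 4) (nat_lit 233) (nat_lit 210) (nat_lit 157)) (XT.lf (nat_lit 0) (nat_lit 16506486518) (nat_lit 152) (nat_lit 38967364790) (nat_lit 76) (nat_lit 116067891825) (nat_lit 6) (nat_lit 5) (nat_lit 8) (nat_lit 5) (nat_lit 7) (nat_lit 4) (nat_lit 234) (nat_lit 210) (nat_lit 156)))) (XT.nd (nat_lit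 78) (nat_lit 0) (nat_lit 0) (XT.lf (nat_lit 0) (nat_lit 27145368761) (nat_lit 76) (nat_lit 21148512336) (nat_lit 152) (nat_lit 145758904557) (nat_lit 5) (nat_lit 5) (nat_lit 6) (nat_lit 5) (nat_lit 7) (nat_lit 4) (nat_lit 235) (nat_lit 210) (nat_lit 155)) (XT.nd (nat_lit 78) (nat_lit 0) (nat_lit 0) (XT.lf (nat_lit 0) (nat_lit 86448718631) (nat_lit 152) (nat_lit 114795009069) (nat_lit 0) (nat_lit 18568817918) (nat_lit 5) (nat_lit 5) (nat_lit 7) (nat_lit 4) (nat_lit 5) (nat_lit 4) (nat_lit 236) (nat_lit 210) (nat_lit 154)) (XT.lf (nat_lit 0) (nat_lit 130907038001) (nat_lit 152) (nat_lit 55459214238) (nat_lit 0) (nat_lit 63023603595) (nat_lit 5) (nat_lit 5) (nat_lit 7) (nat_lit 4) (nat_lit 5) (nat_lit 4) (nat_lit 237) (nat_lit 210) (nat_lit 153))))))))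
noncomputable def xc38 : XT := (XT.nd (nat_lit 1638) (nat_lit 0) (nat_lit 0) (XT.nd (nat_lit 780) (nat_lit 76) (nat_lit 0) (XT.nd (nat_lit 390) (nat_lit 76) (nat_lit 0) (XT.nd (nat_lit 156) (nat_lit 76) (nat_lit 0) (XT.nd (nat_lit 78) (nat_lit 0) (nat_lit 0) (XT.lf (nat_lit 0) (nat_lit 13441927192) (nat_lit 76) (nat_lit 168911405140) (nat_lit 76) (nat_lit 101024897957) (nat_lit 4) (nat_lit 4) (nat_lit 5) (nat_lit 5) (nat_lit 5) (nat_lit 4) (nat_lit 238) (nat_lit 210) (nat_lit 152)) (XT.lf (nat_lit 0) (nat_lit 96029869057) (nat_lit 76) (nat_lit 147097650128) (nat_lit 76) (nat_lit 79208470966) (nat_lit 4) (nat_lit 4) (nat_lit 5) (nat_lit 5) (nat_lit 5) (nat_lit 4) (nat_lit 239) (nat_lit 210) (nat_lit 151))) (XT.nd (nat_lit 78) (nat_lit 76) (nat_lit 0) (XT.lf (nat_lit 0) (nat_lit 191000078451) (nat_lit 76) (nat_lit 122014549545) (nat_lit 76) (nat_lit 54123046921) (nat_lit 4) (nat_lit 4)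 (nat_lit 5) (nat_lit 5) (nat_lit 5) (nat_lit 4) (nat_lit 240) (nat_lit 210) (nat_lit 150)) (XT.nd (nat_lit 78) (nat_lit 76) (nat_lit 0) (XT.lf (nat_lit 0) (nat_lit 300210668168) (nat_lit 76) (nat_lit 93171347073) (nat_lit 76) (nat_lit 25277824049) (nat_lit 4) (nat_lit 4) (nat_lit 5) (nat_lit 5) (nat_lit 5) (nat_lit 4) (nat_lit 241) (nat_lit 210) (nat_lit 149)) (XT.lf (nat_lit 0) (nat_lit 7496792878) (nat_lit 152) (nat_lit 52301950706) (nat_lit 76) (nat_lit 418096598655) (nat_lit 3) (nat_lit 5) (nat_lit 5) (nat_lit 5) (nat_lit 4) (nat_lit 4) (nat_lit 242) (nat_lit 210) (nat_lit 148))))) (XT.nd (nat_lit 156) (nat_lit 0) (nat_lit 0) (XT.nd (nat_lit 78) (nat_lit 0) (nat_lit 0) (XT.lf (nat_lit 0) (nat_lit 24278739851) (nat_lit 76) (nat_lit 20036427195) (nat_lit 152) (nat_lit 501598537421) (nat_lit 2) (nat_lit 5) (nat_lit 3) (nat_lit 5) (nat_lit 4) (nat_lit 4) (nat_lit 243) (nat_lit 210) (nat_lit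 147)) (XT.lf (nat_lit 0) (nat_lit 88834401889) (nat_lit 152) (nat_lit 509160415734) (nat_lit 0) (nat_lit 25965757395) (nat_lit 2) (nat_lit 5) (nat_lit 4) (nat_lit 4) (nat_lit 2) (nat_lit 4) (nat_lit 244) (nat_lit 210) (nat_lit 146))) (XT.nd (nat_lit 78) (nat_lit 0) (nat_lit 0) (XT.lf (nat_lit 0) (nat_lit 140583930151) (nat_lit 152) (nat_lit 495372139334) (nat_lit 0) (nat_lit 77714216054) (nat_lit 2) (nat_lit 5) (nat_lit 4) (nat_lit 4) (nat_lit 2) (nat_lit 4) (nat_lit 245) (nat_lit 210) (nat_lit 145)) (XT.nd (nat_lit 78) (nat_lit 0) (nat_lit 0) (XT.lf (nat_lit 0) (nat_lit 200094366047) (nat_lit 152) (nat_lit 479518488235) (nat_lit 0) (nat_lit 137223721862) (nat_lit 2) (nat_lit 5) (nat_lit 4) (nat_lit 4) (nat_lit 2) (nat_lit 4) (nat_lit 246) (nat_lit 210) (nat_lit 144)) (XT.lf (nat_lit 0) (nat_lit 268530044194) (nat_lit 152) (nat_lit 461289282308) (nat_lit 0) (nat_lit 205658591235) (nat_lit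 2) (nat_lit 5) (nat_lit 4) (nat_lit 4) (nat_lit 2) (nat_lit 4) (nat_lit 247) (nat_lit 210) (nat_lit 143)))))) (XT.nd (nat_lit 390) (nat_lit 76) (nat_lit 0) (XT.nd (nat_lit 156) (nat_lit 0) (nat_lit 0) (XT.nd (nat_lit 78) (nat_lit 0) (nat_lit 0) (XT.lf (nat_lit 0) (nat_lit 347229923510) (nat_lit 152) (nat_lit 440327863174) (nat_lit 0) (nat_lit 284357767271) (nat_lit 2) (nat_lit 5) (nat_lit 4) (nat_lit 4) (nat_lit 2) (nat_lit 4) (nat_lit 248) (nat_lit 210) (nat_lit 142)) (XT.lf (nat_lit 0) (nat_lit 437733784245) (nat_lit 152) (nat_lit 416224116113) (nat_lit 0) (nat_lit 374861016457) (nat_lit 2) (nat_lit 5) (nat_lit 4) (nat_lit 4) (nat_lit 2) (nat_lit 4) (nat_lit 249) (nat_lit 210) (nat_lit 141))) (XT.nd (nat_lit 78) (nat_lit 0) (nat_lit 0) (XT.lf (nat_lit 0) (nat_lit 541812354107) (nat_lit 152) (nat_lit 388506446073) (nat_lit 0) (nat_lit 478939054538) (nat_lit 2) (nat_lit 5) (nat_lit 4)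 (nat_lit 4) (nat_lit 2) (nat_lit 4) (nat_lit 250) (nat_lit 210) (nat_lit 140)) (XT.nd (nat_lit 78) (nat_lit 0) (nat_lit 0) (XT.lf (nat_lit 0) (nat_lit 661501952943) (nat_lit 152) (nat_lit 356632550814) (nat_lit 0) (nat_lit 598628190955) (nat_lit 2) (nat_lit 5) (nat_lit 4) (nat_lit 4) (nat_lit 2) (nat_lit 4) (nat_lit 251) (nat_lit 210) (nat_lit 139)) (XT.lf (nat_lit 0) (nat_lit 799144333772) (nat_lit 152) (nat_lit 319978810646) (nat_lit 0) (nat_lit 736270169680) (nat_lit 2) (nat_lit 5) (nat_lit 4) (nat_lit 4) (nat_lit 2) (nat_lit 4) (nat_lit 252) (nat_lit 210) (nat_lit 138))))) (XT.nd (nat_lit 234) (nat_lit 76) (nat_lit 0) (XT.nd (nat_lit 78) (nat_lit 0) (nat_lit 0) (XT.lf (nat_lit 0) (nat_lit 957432499698) (nat_lit 152) (nat_lit 277828087174) (nat_lit 0) (nat_lit 894557985951) (nat_lit 2) (nat_lit 5) (nat_lit 4) (nat_lit 4) (nat_lit 2) (nat_lit 4) (nat_lit 253) (nat_lit 210) (nat_lit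 137)) (XT.nd (nat_lit 78) (nat_lit 0) (nat_lit 0) (XT.lf (nat_lit 0) (nat_lit 1139463393097) (nat_lit 152) (nat_lit 229355692331) (nat_lit 0) (nat_lit 1076588575303) (nat_lit 2) (nat_lit 5) (nat_lit 4) (nat_lit 4) (nat_lit 2) (nat_lit 4) (nat_lit 254) (nat_lit 210) (nat_lit 136)) (XT.lf (nat_lit 0) (nat_lit 1348798487971) (nat_lit 152) (nat_lit 173613253174) (nat_lit 0) (nat_lit 1285923405788) (nat_lit 2) (nat_lit 5) (nat_lit 4) (nat_lit 4) (nat_lit 2) (nat_lit 4) (nat_lit 255) (nat_lit 210) (nat_lit 135)))) (XT.nd (nat_lit 78) (nat_lit 76) (nat_lit 0) (XT.lf (nat_lit 0) (nat_lit 1589533470960) (nat_lit 152) (nat_lit 109510156764) (nat_lit 0) (nat_lit 1526658158872) (nat_lit 2) (nat_lit 5) (nat_lit 4) (nat_lit 4) (nat_lit 2) (nat_lit 4) (nat_lit 256) (nat_lit 210) (nat_lit 134)) (XT.nd (nat_lit 78) (nat_lit 76) (nat_lit 0) (XT.lf (nat_lit 0) (nat_lit 1866378374337) (nat_lit 152) (nat_lit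 35792212082) (nat_lit 0) (nat_lit 1803502862334) (nat_lit 2) (nat_lit 5) (nat_lit 4) (nat_lit 4) (nat_lit 2) (nat_lit 4) (nat_lit 257) (nat_lit 210) (nat_lit 133)) (XT.lf (nat_lit 0) (nat_lit 51562240584) (nat_lit 76) (nat_lit 2134427561364) (nat_lit 76) (nat_lit 2071551875520) (nat_lit 1) (nat_lit 4) (nat_lit 2) (nat_lit 5) (nat_lit 2) (nat_lit 4) (nat_lit 258) (nat_lit 210) (nat_lit 132))))))) (XT.nd (nat_lit 28080) (nat_lit 0) (nat_lit 760) (XT.nd (nat_lit 27690) (nat_lit 0) (nat_lit 2280) (XT.nd (nat_lit 156) (nat_lit 0) (nat_lit 0) (XT.nd (nat_lit 78) (nat_lit 0) (nat_lit 0) (XT.lf (nat_lit 0) (nat_lit 154186838316) (nat_lit 76) (nat_lit 2400397898031) (nat_lit 76) (nat_lit 2337522061022) (nat_lit 1) (nat_lit 4) (nat_lit 2) (nat_lit 5) (nat_lit 2) (nat_lit 4) (nat_lit 259) (nat_lit 210) (nat_lit 131)) (XT.lf (nat_lit 0) (nat_lit 272204699218) (nat_lit 76) (nat_lit 2706263986385)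 (nat_lit 76) (nat_lit 2643388017927) (nat_lit 1) (nat_lit 4) (nat_lit 2) (nat_lit 5) (nat_lit 2) (nat_lit 4) (nat_lit 260) (nat_lit 210) (nat_lit 130))) (XT.nd (nat_lit 27378) (nat_lit 0) (nat_lit 2736) (XT.lf (nat_lit 0) (nat_lit 407924868393) (nat_lit 76) (nat_lit 3058010162936) (nat_lit 76) (nat_lit 2995134080176) (nat_lit 1) (nat_lit 4) (nat_lit 2) (nat_lit 5) (nat_lit 2) (nat_lit 4) (nat_lit 261) (nat_lit 210) (nat_lit 129)) (XT.nd (nat_lit 78) (nat_lit 0) (nat_lit 76) (XT.lf (nat_lit 0) (nat_lit 3351233794) (nat_lit 532) (nat_lit 3121776880) (nat_lit 532) (nat_lit 3121776880) (nat_lit 37) (nat_lit 3) (nat_lit 44) (nat_lit 3) (nat_lit 44) (nat_lit 5) (nat_lit 211) (nat_lit 211) (nat_lit 178)) (XT.lf (nat_lit 0) (nat_lit 7784313347) (nat_lit 456) (nat_lit 10768378677) (nat_lit 532) (nat_lit 2028381185) (nat_lit 38) (nat_lit 5) (nat_lit 44) (nat_lit 5) (nat_lit 45) (nat_lit 5) (nat_lit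 212) (nat_lit 211) (nat_lit 177))))) (XT.nd (nat_lit 156) (nat_lit 532) (nat_lit 0) (XT.nd (nat_lit 78) (nat_lit 0) (nat_lit 76) (XT.lf (nat_lit 76) (nat_lit 6412181209) (nat_lit 0) (nat_lit 3263138090) (nat_lit 532) (nat_lit 12454473050) (nat_lit 39) (nat_lit 5) (nat_lit 38) (nat_lit 5) (nat_lit 45) (nat_lit 5) (nat_lit 213) (nat_lit 211) (nat_lit 176)) (XT.lf (nat_lit 76) (nat_lit 2681986679) (nat_lit 0) (nat_lit 9853006707) (nat_lit 532) (nat_lit 11321239370) (nat_lit 40) (nat_lit 5) (nat_lit 39) (nat_lit 5) (nat_lit 46) (nat_lit 5) (nat_lit 214) (nat_lit 211) (nat_lit 175))) (XT.nd (nat_lit 78) (nat_lit 684) (nat_lit 0) (XT.lf (nat_lit 0) (nat_lit 16529303837) (nat_lit 456) (nat_lit 1336372908) (nat_lit 76) (nat_lit 7919694422) (nat_lit 40) (nat_lit 5) (nat_lit 46) (nat_lit 5) (nat_lit 41) (nat_lit 5) (nat_lit 215) (nat_lit 211) (nat_lit 174)) (XT.nd (nat_lit 78) (nat_lit 228) (nat_lit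 0) (XT.lf (nat_lit 0) (nat_lit 21905760342) (nat_lit 532) (nat_lit 5663617152) (nat_lit 76) (nat_lit 372025288) (nat_lit 34) (nat_lit 5) (nat_lit 41) (nat_lit 5) (nat_lit 35) (nat_lit 5) (nat_lit 216) (nat_lit 211) (nat_lit 173)) (XT.lf (nat_lit 0) (nat_lit 19548377373) (nat_lit 228) (nat_lit 9513444030) (nat_lit 304) (nat_lit 1281308069) (nat_lit 31) (nat_lit 5) (nat_lit 34) (nat_lit 5) (nat_lit 35) (nat_lit 5) (nat_lit 217) (nat_lit 211) (nat_lit 172)))))) (XT.nd (nat_lit 390) (nat_lit 684) (nat_lit 0) (XT.nd (nat_lit 156) (nat_lit 380) (nat_lit 0) (XT.nd (nat_lit 78) (nat_lit 228) (nat_lit 0) (XT.lf (nat_lit 0) (nat_lit 4801651498) (nat_lit 228) (nat_lit 16859872716) (nat_lit 76) (nat_lit 11369659678) (nat_lit 28) (nat_lit 5) (nat_lit 31) (nat_lit 5) (nat_lit 29) (nat_lit 5) (nat_lit 218) (nat_lit 211) (nat_lit 171)) (XT.lf (nat_lit 0) (nat_lit 12002287809) (nat_lit 228) (nat_lit 569732847)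 (nat_lit 304) (nat_lit 23479795563) (nat_lit 25) (nat_lit 5) (nat_lit 28) (nat_lit 5) (nat_lit 29) (nat_lit 5) (nat_lit 219) (nat_lit 211) (nat_lit 170))) (XT.nd (nat_lit 78) (nat_lit 228) (nat_lit 0) (XT.lf (nat_lit 0) (nat_lit 6438852471) (nat_lit 152) (nat_lit 16274217551) (nat_lit 228) (nat_lit 16716149362) (nat_lit 23) (nat_lit 5) (nat_lit 25) (nat_lit 5) (nat_lit 26) (nat_lit 5) (nat_lit 220) (nat_lit 211) (nat_lit 169)) (XT.nd (nat_lit 78) (nat_lit 228) (nat_lit 0) (XT.lf (nat_lit 0) (nat_lit 35258812304) (nat_lit 228) (nat_lit 532924027) (nat_lit 76) (nat_lit 7450888612) (nat_lit 23) (nat_lit 5) (nat_lit 26) (nat_lit 5) (nat_lit 24) (nat_lit 5) (nat_lit 221) (nat_lit 211) (nat_lit 168)) (XT.lf (nat_lit 0) (nat_lit 3341935280) (nat_lit 228) (nat_lit 9373820958) (nat_lit 76) (nat_lit 34797462662) (nat_lit 20) (nat_lit 5) (nat_lit 23) (nat_lit 5) (nat_lit 21) (nat_lit 5) (nat_lit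 222) (nat_lit 211) (nat_lit 167))))) (XT.nd (nat_lit 234) (nat_lit 304) (nat_lit 0) (XT.nd (nat_lit 78) (nat_lit 228) (nat_lit 0) (XT.lf (nat_lit 0) (nat_lit 17023458037) (nat_lit 228) (nat_lit 21148811205) (nat_lit 76) (nat_lit 14145223836) (nat_lit 18) (nat_lit 5) (nat_lit 21) (nat_lit 5) (nat_lit 19) (nat_lit 5) (nat_lit 223) (nat_lit 211) (nat_lit 166)) (XT.nd (nat_lit 78) (nat_lit 76) (nat_lit 0) (XT.lf (nat_lit 0) (nat_lit 21219696451) (nat_lit 152) (nat_lit 12664306392) (nat_lit 228) (nat_lit 23868307563) (nat_lit 16) (nat_lit 5) (nat_lit 18) (nat_lit 5) (nat_lit 19) (nat_lit 5) (nat_lit 224) (nat_lit 211) (nat_lit 165)) (XT.lf (nat_lit 0) (nat_lit 7192268324) (nat_lit 76) (nat_lit 47273057652) (nat_lit 152) (nat_lit 9441728207) (nat_lit 15) (nat_lit 5) (nat_lit 16) (nat_lit 5) (nat_lit 17) (nat_lit 4) (nat_lit 225) (nat_lit 211) (nat_lit 164)))) (XT.nd (nat_lit 78) (nat_lit 228)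 (nat_lit 0) (XT.lf (nat_lit 0) (nat_lit 8219792531) (nat_lit 152) (nat_lit 11782138713) (nat_lit 76) (nat_lit 50855070308) (nat_lit 14) (nat_lit 5) (nat_lit 16) (nat_lit 5) (nat_lit 15) (nat_lit 5) (nat_lit 226) (nat_lit 211) (nat_lit 163)) (XT.nd (nat_lit 78) (nat_lit 76) (nat_lit 0) (XT.lf (nat_lit 0) (nat_lit 29284832617) (nat_lit 228) (nat_lit 37357891953) (nat_lit 76) (nat_lit 12082057239) (nat_lit 12) (nat_lit 5) (nat_lit 15) (nat_lit 5) (nat_lit 13) (nat_lit 4) (nat_lit 227) (nat_lit 211) (nat_lit 162)) (XT.lf (nat_lit 0) (nat_lit 15660700510) (nat_lit 76) (nat_lit 39120386677) (nat_lit 152) (nat_lit 32889949334) (nat_lit 11) (nat_lit 5) (nat_lit 12) (nat_lit 5) (nat_lit 13) (nat_lit 4) (nat_lit 228) (nat_lit 211) (nat_lit 161))))))))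
noncomputable def xc39 : XT := (XT.nd (nat_lit 1638) (nat_lit 76) (nat_lit 0) (XT.nd (nat_lit 780) (nat_lit 228) (nat_lit 0) (XT.nd (nat_lit 390) (nat_lit 228) (nat_lit 0) (XT.nd (nat_lit 156) (nat_lit 76) (nat_lit 0) (XT.nd (nat_lit 78) (nat_lit 152) (nat_lit 0) (XT.lf (nat_lit 0) (nat_lit 78878733934) (nat_lit 76) (nat_lit 6301331298) (nat_lit 152) (nat_lit 12692922340) (nat_lit 11) (nat_lit 5) (nat_lit 12) (nat_lit 5) (nat_lit 13) (nat_lit 4) (nat_lit 229) (nat_lit 211) (nat_lit 160)) (XT.lf (nat_lit 0) (nat_lit 11844249048) (nat_lit 152) (nat_lit 66388126970) (nat_lit 76) (nat_lit 31205603222) (nat_lit 9) (nat_lit 5) (nat_lit 11) (nat_lit 5) (nat_lit 10) (nat_lit 4) (nat_lit 230) (nat_lit 211) (nat_lit 159))) (XT.nd (nat_lit 78) (nat_lit 76) (nat_lit 0) (XT.lf (nat_lit 0) (nat_lit 40065737624) (nat_lit 152) (nat_lit 7695720943) (nat_lit 76) (nat_lit 74889476529) (nat_lit 9) (nat_lit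 5) (nat_lit 11) (nat_lit 5) (nat_lit 10) (nat_lit 4) (nat_lit 231) (nat_lit 211) (nat_lit 158)) (XT.nd (nat_lit 78) (nat_lit 0) (nat_lit 0) (XT.lf (nat_lit 0) (nat_lit 62937315158) (nat_lit 76) (nat_lit 11090078707) (nat_lit 152) (nat_lit 63697897672) (nat_lit 8) (nat_lit 5) (nat_lit 9) (nat_lit 5) (nat_lit 10) (nat_lit 4) (nat_lit 232) (nat_lit 211) (nat_lit 157)) (XT.lf (nat_lit 0) (nat_lit 114054503133) (nat_lit 152) (nat_lit 11175899413) (nat_lit 0) (nat_lit 29752713622) (nat_lit 8) (nat_lit 5) (nat_lit 10) (nat_lit 4) (nat_lit 8) (nat_lit 4) (nat_lit 233) (nat_lit 211) (nat_lit 156))))) (XT.nd (nat_lit 156) (nat_lit 76) (nat_lit 0) (XT.nd (nat_lit 78) (nat_lit 76) (nat_lit 0) (XT.lf (nat_lit 0) (nat_lit 64908681143) (nat_lit 76) (nat_lit 97039393988) (nat_lit 76) (nat_lit 12732557302) (nat_lit 7) (nat_lit 4) (nat_lit 8) (nat_lit 5) (nat_lit 8) (nat_lit 4) (nat_lit 234) (nat_lit 211)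 (nat_lit 155)) (XT.lf (nat_lit 0) (nat_lit 19036586489) (nat_lit 152) (nat_lit 44715125633) (nat_lit 76) (nat_lit 133516878698) (nat_lit 6) (nat_lit 5) (nat_lit 8) (nat_lit 5) (nat_lit 7) (nat_lit 4) (nat_lit 235) (nat_lit 211) (nat_lit 154))) (XT.nd (nat_lit 78) (nat_lit 0) (nat_lit 0) (XT.lf (nat_lit 0) (nat_lit 31306278276) (nat_lit 76) (nat_lit 24280894895) (nat_lit 152) (nat_lit 167569520823) (nat_lit 5) (nat_lit 5) (nat_lit 6) (nat_lit 5) (nat_lit 7) (nat_lit 4) (nat_lit 236) (nat_lit 211) (nat_lit 153)) (XT.nd (nat_lit 78) (nat_lit 0) (nat_lit 0) (XT.lf (nat_lit 0) (nat_lit 99459651963) (nat_lit 152) (nat_lit 131934126299) (nat_lit 0) (nat_lit 21387095926) (nat_lit 5) (nat_lit 5) (nat_lit 7) (nat_lit 4) (nat_lit 5) (nat_lit 4) (nat_lit 237) (nat_lit 211) (nat_lit 152)) (XT.lf (nat_lit 0) (nat_lit 150581028951) (nat_lit 152) (nat_lit 63708414521) (nat_lit 0) (nat_lit 72505800934)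 (nat_lit 5) (nat_lit 5) (nat_lit 7) (nat_lit 4) (nat_lit 5) (nat_lit 4) (nat_lit 238) (nat_lit 211) (nat_lit 151)))))) (XT.nd (nat_lit 390) (nat_lit 76) (nat_lit 0) (XT.nd (nat_lit 156) (nat_lit 76) (nat_lit 0) (XT.nd (nat_lit 78) (nat_lit 0) (nat_lit 0) (XT.lf (nat_lit 0) (nat_lit 15521999903) (nat_lit 76) (nat_lit 194218853451) (nat_lit 76) (nat_lit 116141301974) (nat_lit 4) (nat_lit 4) (nat_lit 5) (nat_lit 5) (nat_lit 5) (nat_lit 4) (nat_lit 239) (nat_lit 211) (nat_lit 150)) (XT.lf (nat_lit 0) (nat_lit 110489813443) (nat_lit 76) (nat_lit 169136852031) (nat_lit 76) (nat_lit 91057280152) (nat_lit 4) (nat_lit 4) (nat_lit 5) (nat_lit 5) (nat_lit 5) (nat_lit 4) (nat_lit 240) (nat_lit 211) (nat_lit 149))) (XT.nd (nat_lit 78) (nat_lit 76) (nat_lit 0) (XT.lf (nat_lit 0) (nat_lit 219698319808) (nat_lit 76) (nat_lit 140294605353) (nat_lit 76) (nat_lit 62213276604) (nat_lit 4) (nat_lit 4) (nat_lit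 5) (nat_lit 5) (nat_lit 5) (nat_lit 4) (nat_lit 241) (nat_lit 211) (nat_lit 148)) (XT.nd (nat_lit 78) (nat_lit 76) (nat_lit 0) (XT.lf (nat_lit 0) (nat_lit 345284207166) (nat_lit 76) (nat_lit 107127808592) (nat_lit 76) (nat_lit 29044952130) (nat_lit 4) (nat_lit 4) (nat_lit 5) (nat_lit 5) (nat_lit 5) (nat_lit 4) (nat_lit 242) (nat_lit 211) (nat_lit 147)) (XT.lf (nat_lit 0) (nat_lit 8641588036) (nat_lit 152) (nat_lit 60109681792) (nat_lit 76) (nat_lit 480826726338) (nat_lit 3) (nat_lit 5) (nat_lit 5) (nat_lit 5) (nat_lit 4) (nat_lit 4) (nat_lit 243) (nat_lit 211) (nat_lit 146))))) (XT.nd (nat_lit 234) (nat_lit 0) (nat_lit 0) (XT.nd (nat_lit 78) (nat_lit 0) (nat_lit 0) (XT.lf (nat_lit 0) (nat_lit 27954932953) (nat_lit 76) (nat_lit 23025967542) (nat_lit 152) (nat_lit 576818360962) (nat_lit 2) (nat_lit 5) (nat_lit 3) (nat_lit 5) (nat_lit 4) (nat_lit 4) (nat_lit 244) (nat_lit 211) (nat_lit 145))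 (XT.nd (nat_lit 78) (nat_lit 0) (nat_lit 0) (XT.lf (nat_lit 0) (nat_lit 102175945961) (nat_lit 152) (nat_lit 585503610408) (nat_lit 0) (nat_lit 29873775059) (nat_lit 2) (nat_lit 5) (nat_lit 4) (nat_lit 4) (nat_lit 2) (nat_lit 4) (nat_lit 245) (nat_lit 211) (nat_lit 144)) (XT.lf (nat_lit 0) (nat_lit 161685766447) (nat_lit 152) (nat_lit 569651118768) (nat_lit 0) (nat_lit 89382786771) (nat_lit 2) (nat_lit 5) (nat_lit 4) (nat_lit 4) (nat_lit 2) (nat_lit 4) (nat_lit 246) (nat_lit 211) (nat_lit 143)))) (XT.nd (nat_lit 78) (nat_lit 0) (nat_lit 0) (XT.lf (nat_lit 0) (nat_lit 230120909453) (nat_lit 152) (nat_lit 551422921065) (nat_lit 0) (nat_lit 157817226496) (nat_lit 2) (nat_lit 5) (nat_lit 4) (nat_lit 4) (nat_lit 2) (nat_lit 4) (nat_lit 247) (nat_lit 211) (nat_lit 142)) (XT.nd (nat_lit 78) (nat_lit 0) (nat_lit 0) (XT.lf (nat_lit 0) (nat_lit 308820323430) (nat_lit 152) (nat_lit 530462378649)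 (nat_lit 0) (nat_lit 236516028925) (nat_lit 2) (nat_lit 5) (nat_lit 4) (nat_lit 4) (nat_lit 2) (nat_lit 4) (nat_lit 248) (nat_lit 211) (nat_lit 141)) (XT.lf (nat_lit 0) (nat_lit 399323779522) (nat_lit 152) (nat_lit 506359393951) (nat_lit 0) (nat_lit 327018953235) (nat_lit 2) (nat_lit 5) (nat_lit 4) (nat_lit 4) (nat_lit 2) (nat_lit 4) (nat_lit 249) (nat_lit 211) (nat_lit 140))))))) (XT.nd (nat_lit 858) (nat_lit 0) (nat_lit 0) (XT.nd (nat_lit 390) (nat_lit 76) (nat_lit 0) (XT.nd (nat_lit 156) (nat_lit 0) (nat_lit 0) (XT.nd (nat_lit 78) (nat_lit 0) (nat_lit 0) (XT.lf (nat_lit 0) (nat_lit 503401997521) (nat_lit 152) (nat_lit 478642386835) (nat_lit 0) (nat_lit 431096708816) (nat_lit 2) (nat_lit 5) (nat_lit 4) (nat_lit 4) (nat_lit 2) (nat_lit 4) (nat_lit 250) (nat_lit 211) (nat_lit 139)) (XT.lf (nat_lit 0) (nat_lit 623091290388) (nat_lit 152) (nat_lit 446769068031) (nat_lit 0) (nat_lit 550785599580)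 (nat_lit 2) (nat_lit 5) (nat_lit 4) (nat_lit 4) (nat_lit 2) (nat_lit 4) (nat_lit 251) (nat_lit 211) (nat_lit 138))) (XT.nd (nat_lit 78) (nat_lit 0) (nat_lit 0) (XT.lf (nat_lit 0) (nat_lit 760733405158) (nat_lit 152) (nat_lit 410115829129) (nat_lit 0) (nat_lit 688427364694) (nat_lit 2) (nat_lit 5) (nat_lit 4) (nat_lit 4) (nat_lit 2) (nat_lit 4) (nat_lit 252) (nat_lit 211) (nat_lit 137)) (XT.nd (nat_lit 78) (nat_lit 0) (nat_lit 0) (XT.lf (nat_lit 0) (nat_lit 919021339727) (nat_lit 152) (nat_lit 367965541541) (nat_lit 0) (nat_lit 846714995216) (nat_lit 2) (nat_lit 5) (nat_lit 4) (nat_lit 4) (nat_lit 2) (nat_lit 4) (nat_lit 253) (nat_lit 211) (nat_lit 136)) (XT.lf (nat_lit 0) (nat_lit 1101052031948) (nat_lit 152) (nat_lit 319493525727) (nat_lit 0) (nat_lit 1028745423047) (nat_lit 2) (nat_lit 5) (nat_lit 4) (nat_lit 4) (nat_lit 2) (nat_lit 4) (nat_lit 254) (nat_lit 211) (nat_lit 135))))) (XT.nd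 (nat_lit 234) (nat_lit 76) (nat_lit 0) (XT.nd (nat_lit 78) (nat_lit 0) (nat_lit 0) (XT.lf (nat_lit 0) (nat_lit 1310386951884) (nat_lit 152) (nat_lit 263751416161) (nat_lit 0) (nat_lit 1238080113080) (nat_lit 2) (nat_lit 5) (nat_lit 4) (nat_lit 4) (nat_lit 2) (nat_lit 4) (nat_lit 255) (nat_lit 211) (nat_lit 134)) (XT.nd (nat_lit 78) (nat_lit 0) (nat_lit 0) (XT.lf (nat_lit 0) (nat_lit 1551121782752) (nat_lit 152) (nat_lit 199648606351) (nat_lit 0) (nat_lit 1478814744031) (nat_lit 2) (nat_lit 5) (nat_lit 4) (nat_lit 4) (nat_lit 2) (nat_lit 4) (nat_lit 256) (nat_lit 211) (nat_lit 133)) (XT.lf (nat_lit 0) (nat_lit 1827966553851) (nat_lit 152) (nat_lit 125930910887) (nat_lit 0) (nat_lit 1755659341290) (nat_lit 2) (nat_lit 5) (nat_lit 4) (nat_lit 4) (nat_lit 2) (nat_lit 4) (nat_lit 257) (nat_lit 211) (nat_lit 132)))) (XT.nd (nat_lit 78) (nat_lit 76) (nat_lit 0) (XT.lf (nat_lit 0) (nat_lit 2146337793312)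 (nat_lit 152) (nat_lit 41156027033) (nat_lit 0) (nat_lit 2074030429585) (nat_lit 2) (nat_lit 5) (nat_lit 4) (nat_lit 4) (nat_lit 2) (nat_lit 4) (nat_lit 258) (nat_lit 211) (nat_lit 131)) (XT.nd (nat_lit 78) (nat_lit 0) (nat_lit 0) (XT.lf (nat_lit 0) (nat_lit 59301168882) (nat_lit 76) (nat_lit 2454589529301) (nat_lit 76) (nat_lit 2382282034126) (nat_lit 1) (nat_lit 4) (nat_lit 2) (nat_lit 5) (nat_lit 2) (nat_lit 4) (nat_lit 259) (nat_lit 211) (nat_lit 130)) (XT.lf (nat_lit 0) (nat_lit 177318857290) (nat_lit 76) (nat_lit 2760455699024) (nat_lit 76) (nat_lit 2688148089547) (nat_lit 1) (nat_lit 4) (nat_lit 2) (nat_lit 5) (nat_lit 2) (nat_lit 4) (nat_lit 260) (nat_lit 211) (nat_lit 129)))))) (XT.nd (nat_lit 27768) (nat_lit 0) (nat_lit 1672) (XT.nd (nat_lit 27534) (nat_lit 0) (nat_lit 2812) (XT.nd (nat_lit 27456) (nat_lit 0) (nat_lit 2736) (XT.lf (nat_lit 0) (nat_lit 313038876471) (nat_lit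 76) (nat_lit 3112201946333) (nat_lit 76) (nat_lit 3039894237461) (nat_lit 1) (nat_lit 4) (nat_lit 2) (nat_lit 5) (nat_lit 2) (nat_lit 4) (nat_lit 261) (nat_lit 211) (nat_lit 128)) (XT.lf (nat_lit 0) (nat_lit 4132370634) (nat_lit 532) (nat_lit 3439014587) (nat_lit 532) (nat_lit 3439014587) (nat_lit 37) (nat_lit 3) (nat_lit 44) (nat_lit 3) (nat_lit 44) (nat_lit 5) (nat_lit 212) (nat_lit 212) (nat_lit 176))) (XT.nd (nat_lit 78) (nat_lit 0) (nat_lit 0) (XT.lf (nat_lit 0) (nat_lit 9437716997) (nat_lit 456) (nat_lit 12060402938) (nat_lit 532) (nat_lit 2128941134) (nat_lit 38) (nat_lit 5) (nat_lit 44) (nat_lit 5) (nat_lit 45) (nat_lit 5) (nat_lit 213) (nat_lit 212) (nat_lit 175)) (XT.nd (nat_lit 78) (nat_lit 0) (nat_lit 76) (XT.lf (nat_lit 76) (nat_lit 7669880906) (nat_lit 0) (nat_lit 3886249114) (nat_lit 532) (nat_lit 13856759207) (nat_lit 39) (nat_lit 5) (nat_lit 38) (nat_lit 5) (nat_lit 45)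 (nat_lit 5) (nat_lit 214) (nat_lit 212) (nat_lit 174)) (XT.lf (nat_lit 76) (nat_lit 3391348328) (nat_lit 0) (nat_lit 11401973540) (nat_lit 532) (nat_lit 12609350794) (nat_lit 40) (nat_lit 5) (nat_lit 39) (nat_lit 5) (nat_lit 46) (nat_lit 5) (nat_lit 215) (nat_lit 212) (nat_lit 173))))) (XT.nd (nat_lit 234) (nat_lit 608) (nat_lit 0) (XT.nd (nat_lit 78) (nat_lit 684) (nat_lit 0) (XT.lf (nat_lit 0) (nat_lit 19335979013) (nat_lit 456) (nat_lit 1240510072) (nat_lit 76) (nat_lit 9048984823) (nat_lit 40) (nat_lit 5) (nat_lit 46) (nat_lit 5) (nat_lit 41) (nat_lit 5) (nat_lit 216) (nat_lit 212) (nat_lit 172)) (XT.nd (nat_lit 78) (nat_lit 228) (nat_lit 0) (XT.lf (nat_lit 0) (nat_lit 25482260553) (nat_lit 532) (nat_lit 6216833443) (nat_lit 76) (nat_lit 408946080) (nat_lit 34) (nat_lit 5) (nat_lit 41) (nat_lit 5) (nat_lit 35) (nat_lit 5) (nat_lit 217) (nat_lit 212) (nat_lit 171)) (XT.lf (nat_lit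 0) (nat_lit 22751877717) (nat_lit 228) (nat_lit 10928467411) (nat_lit 304) (nat_lit 1192363958) (nat_lit 31) (nat_lit 5) (nat_lit 34) (nat_lit 5) (nat_lit 35) (nat_lit 5) (nat_lit 218) (nat_lit 212) (nat_lit 170)))) (XT.nd (nat_lit 78) (nat_lit 380) (nat_lit 0) (XT.lf (nat_lit 0) (nat_lit 5761011257) (nat_lit 228) (nat_lit 19107279442) (nat_lit 76) (nat_lit 13097516077) (nat_lit 28) (nat_lit 5) (nat_lit 31) (nat_lit 5) (nat_lit 29) (nat_lit 5) (nat_lit 219) (nat_lit 212) (nat_lit 169)) (XT.nd (nat_lit 78) (nat_lit 152) (nat_lit 0) (XT.lf (nat_lit 0) (nat_lit 14060371310) (nat_lit 228) (nat_lit 611574614) (nat_lit 304) (nat_lit 26769707966) (nat_lit 25) (nat_lit 5) (nat_lit 28) (nat_lit 5) (nat_lit 29) (nat_lit 5) (nat_lit 220) (nat_lit 212) (nat_lit 168)) (XT.lf (nat_lit 0) (nat_lit 7656060686) (nat_lit 152) (nat_lit 18657120922) (nat_lit 228) (nat_lit 19014268606) (nat_lit 23) (nat_lit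 5) (nat_lit 25) (nat_lit 5) (nat_lit 26) (nat_lit 5) (nat_lit 221) (nat_lit 212) (nat_lit 167))))))))
noncomputable def xc40 : XT := (XT.nd (nat_lit 1638) (nat_lit 228) (nat_lit 0) (XT.nd (nat_lit 780) (nat_lit 380) (nat_lit 0) (XT.nd (nat_lit 390) (nat_lit 456) (nat_lit 0) (XT.nd (nat_lit 156) (nat_lit 380) (nat_lit 0) (XT.nd (nat_lit 78) (nat_lit 228) (nat_lit 0) (XT.lf (nat_lit 0) (nat_lit 40716809366) (nat_lit 228) (nat_lit 381443495) (nat_lit 76) (nat_lit 8616623120) (nat_lit 23) (nat_lit 5) (nat_lit 26) (nat_lit 5) (nat_lit 24) (nat_lit 5) (nat_lit 222) (nat_lit 212) (nat_lit 166)) (XT.lf (nat_lit 0) (nat_lit 3999885140) (nat_lit 228) (nat_lit 10559323941) (nat_lit 76) (nat_lit 40067969803) (nat_lit 20) (nat_lit 5) (nat_lit 23) (nat_lit 5) (nat_lit 21) (nat_lit 5) (nat_lit 223) (nat_lit 212) (nat_lit 165))) (XT.nd (nat_lit 78) (nat_lit 228) (nat_lit 0) (XT.lf (nat_lit 0) (nat_lit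 19719520841) (nat_lit 228) (nat_lit 24108982904) (nat_lit 76) (nat_lit 16324783604) (nat_lit 18) (nat_lit 5) (nat_lit 21) (nat_lit 5) (nat_lit 19) (nat_lit 5) (nat_lit 224) (nat_lit 212) (nat_lit 164)) (XT.nd (nat_lit 78) (nat_lit 76) (nat_lit 0) (XT.lf (nat_lit 0) (nat_lit 24596843461) (nat_lit 152) (nat_lit 14498381534) (nat_lit 228) (nat_lit 27309271659) (nat_lit 16) (nat_lit 5) (nat_lit 18) (nat_lit 5) (nat_lit 19) (nat_lit 5) (nat_lit 225) (nat_lit 212) (nat_lit 163)) (XT.lf (nat_lit 0) (nat_lit 8457178159) (nat_lit 76) (nat_lit 54295637958) (nat_lit 152) (nat_lit 10730558656) (nat_lit 15) (nat_lit 5) (nat_lit 16) (nat_lit 5) (nat_lit 17) (nat_lit 4) (nat_lit 226) (nat_lit 212) (nat_lit 162))))) (XT.nd (nat_lit 156) (nat_lit 228) (nat_lit 0) (XT.nd (nat_lit 78) (nat_lit 152) (nat_lit 0) (XT.lf (nat_lit 0) (nat_lit 9558026001) (nat_lit 152) (nat_lit 13381857381) (nat_lit 76) (nat_lit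 58536987784) (nat_lit 14) (nat_lit 5) (nat_lit 16) (nat_lit 5) (nat_lit 15) (nat_lit 5) (nat_lit 227) (nat_lit 212) (nat_lit 161)) (XT.lf (nat_lit 0) (nat_lit 33774181086) (nat_lit 228) (nat_lit 42801716260) (nat_lit 76) (nat_lit 13949646238) (nat_lit 12) (nat_lit 5) (nat_lit 15) (nat_lit 5) (nat_lit 13) (nat_lit 4) (nat_lit 228) (nat_lit 212) (nat_lit 160))) (XT.nd (nat_lit 78) (nat_lit 152) (nat_lit 0) (XT.lf (nat_lit 0) (nat_lit 18156133763) (nat_lit 76) (nat_lit 44929656200) (nat_lit 152) (nat_lit 37728702678) (nat_lit 11) (nat_lit 5) (nat_lit 12) (nat_lit 5) (nat_lit 13) (nat_lit 4) (nat_lit 229) (nat_lit 212) (nat_lit 159)) (XT.nd (nat_lit 78) (nat_lit 152) (nat_lit 0) (XT.lf (nat_lit 0) (nat_lit 90837785916) (nat_lit 76) (nat_lit 7195410576) (nat_lit 152) (nat_lit 14514478903) (nat_lit 11) (nat_lit 5) (nat_lit 12) (nat_lit 5) (nat_lit 13) (nat_lit 4) (nat_lit 230) (nat_lit 212)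 (nat_lit 158)) (XT.lf (nat_lit 0) (nat_lit 13693023583) (nat_lit 152) (nat_lit 76221333518) (nat_lit 76) (nat_lit 35933410697) (nat_lit 9) (nat_lit 5) (nat_lit 11) (nat_lit 5) (nat_lit 10) (nat_lit 4) (nat_lit 231) (nat_lit 212) (nat_lit 157)))))) (XT.nd (nat_lit 390) (nat_lit 152) (nat_lit 0) (XT.nd (nat_lit 156) (nat_lit 152) (nat_lit 0) (XT.nd (nat_lit 78) (nat_lit 76) (nat_lit 0) (XT.lf (nat_lit 0) (nat_lit 46138326249) (nat_lit 152) (nat_lit 8741372565) (nat_lit 76) (nat_lit 86163738870) (nat_lit 9) (nat_lit 5) (nat_lit 11) (nat_lit 5) (nat_lit 10) (nat_lit 4) (nat_lit 232) (nat_lit 212) (nat_lit 156)) (XT.lf (nat_lit 0) (nat_lit 72477417486) (nat_lit 76) (nat_lit 12711024627) (nat_lit 152) (nat_lit 73190984161) (nat_lit 8) (nat_lit 5) (nat_lit 9) (nat_lit 5) (nat_lit 10) (nat_lit 4) (nat_lit 233) (nat_lit 212) (nat_lit 155))) (XT.nd (nat_lit 78) (nat_lit 152) (nat_lit 0) (XT.lf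 (nat_lit 0) (nat_lit 131213081107) (nat_lit 152) (nat_lit 12762597076) (nat_lit 0) (nat_lit 34250782897) (nat_lit 8) (nat_lit 5) (nat_lit 10) (nat_lit 4) (nat_lit 8) (nat_lit 4) (nat_lit 234) (nat_lit 212) (nat_lit 154)) (XT.nd (nat_lit 78) (nat_lit 76) (nat_lit 0) (XT.lf (nat_lit 0) (nat_lit 74727078984) (nat_lit 76) (nat_lit 111559010083) (nat_lit 76) (nat_lit 14592895484) (nat_lit 7) (nat_lit 4) (nat_lit 8) (nat_lit 5) (nat_lit 8) (nat_lit 4) (nat_lit 235) (nat_lit 212) (nat_lit 153)) (XT.lf (nat_lit 0) (nat_lit 21933002246) (nat_lit 152) (nat_lit 51348788524) (nat_lit 76) (nat_lit 153573751220) (nat_lit 6) (nat_lit 5) (nat_lit 8) (nat_lit 5) (nat_lit 7) (nat_lit 4) (nat_lit 236) (nat_lit 212) (nat_lit 152))))) (XT.nd (nat_lit 234) (nat_lit 76) (nat_lit 0) (XT.nd (nat_lit 78) (nat_lit 0) (nat_lit 0) (XT.lf (nat_lit 0) (nat_lit 36069595594) (nat_lit 76) (nat_lit 27892863313) (nat_lit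 152) (nat_lit 192664707421) (nat_lit 5) (nat_lit 5) (nat_lit 6) (nat_lit 5) (nat_lit 7) (nat_lit 4) (nat_lit 237) (nat_lit 212) (nat_lit 151)) (XT.nd (nat_lit 78) (nat_lit 0) (nat_lit 0) (XT.lf (nat_lit 0) (nat_lit 114411586931) (nat_lit 152) (nat_lit 151663652328) (nat_lit 0) (nat_lit 24620079271) (nat_lit 5) (nat_lit 5) (nat_lit 7) (nat_lit 4) (nat_lit 5) (nat_lit 4) (nat_lit 238) (nat_lit 212) (nat_lit 150)) (XT.lf (nat_lit 0) (nat_lit 173196867792) (nat_lit 152) (nat_lit 73211987207) (nat_lit 0) (nat_lit 83403339732) (nat_lit 5) (nat_lit 5) (nat_lit 7) (nat_lit 4) (nat_lit 5) (nat_lit 4) (nat_lit 239) (nat_lit 212) (nat_lit 149)))) (XT.nd (nat_lit 78) (nat_lit 0) (nat_lit 0) (XT.lf (nat_lit 0) (nat_lit 17898529477) (nat_lit 76) (nat_lit 223329554846) (nat_lit 76) (nat_lit 133534269915) (nat_lit 4) (nat_lit 4) (nat_lit 5) (nat_lit 5) (nat_lit 5) (nat_lit 4) (nat_lit 240) (nat_lit 212)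 (nat_lit 148)) (XT.nd (nat_lit 78) (nat_lit 0) (nat_lit 0) (XT.lf (nat_lit 0) (nat_lit 127105224232) (nat_lit 76) (nat_lit 194488139293) (nat_lit 76) (nat_lit 104691326649) (nat_lit 4) (nat_lit 4) (nat_lit 5) (nat_lit 5) (nat_lit 5) (nat_lit 4) (nat_lit 241) (nat_lit 212) (nat_lit 147)) (XT.lf (nat_lit 0) (nat_lit 252689536277) (nat_lit 76) (nat_lit 161322065249) (nat_lit 76) (nat_lit 71523924159) (nat_lit 4) (nat_lit 4) (nat_lit 5) (nat_lit 5) (nat_lit 5) (nat_lit 4) (nat_lit 242) (nat_lit 212) (nat_lit 146))))))) (XT.nd (nat_lit 780) (nat_lit 76) (nat_lit 0) (XT.nd (nat_lit 390) (nat_lit 0) (nat_lit 0) (XT.nd (nat_lit 156) (nat_lit 76) (nat_lit 0) (XT.nd (nat_lit 78) (nat_lit 76) (nat_lit 0) (XT.lf (nat_lit 0) (nat_lit 397108549979) (nat_lit 76) (nat_lit 123182431267) (nat_lit 76) (nat_lit 33383135006) (nat_lit 4) (nat_lit 4) (nat_lit 5) (nat_lit 5) (nat_lit 5) (nat_lit 4) (nat_lit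 243) (nat_lit 212) (nat_lit 145)) (XT.lf (nat_lit 0) (nat_lit 9953157981) (nat_lit 152) (nat_lit 69097732156) (nat_lit 76) (nat_lit 552962559776) (nat_lit 3) (nat_lit 5) (nat_lit 5) (nat_lit 5) (nat_lit 4) (nat_lit 4) (nat_lit 244) (nat_lit 212) (nat_lit 144))) (XT.nd (nat_lit 78) (nat_lit 0) (nat_lit 0) (XT.lf (nat_lit 0) (nat_lit 32174170722) (nat_lit 76) (nat_lit 26467822044) (nat_lit 152) (nat_lit 663326024692) (nat_lit 2) (nat_lit 5) (nat_lit 3) (nat_lit 5) (nat_lit 4) (nat_lit 4) (nat_lit 245) (nat_lit 212) (nat_lit 143)) (XT.nd (nat_lit 78) (nat_lit 0) (nat_lit 0) (XT.lf (nat_lit 0) (nat_lit 117514726354) (nat_lit 152) (nat_lit 673305811564) (nat_lit 0) (nat_lit 34364787673) (nat_lit 2) (nat_lit 5) (nat_lit 4) (nat_lit 4) (nat_lit 2) (nat_lit 4) (nat_lit 246) (nat_lit 212) (nat_lit 142)) (XT.lf (nat_lit 0) (nat_lit 185949404021) (nat_lit 152) (nat_lit 655078490578) (nat_lit 0)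 (nat_lit 102798853791) (nat_lit 2) (nat_lit 5) (nat_lit 4) (nat_lit 4) (nat_lit 2) (nat_lit 4) (nat_lit 247) (nat_lit 212) (nat_lit 141))))) (XT.nd (nat_lit 156) (nat_lit 0) (nat_lit 0) (XT.nd (nat_lit 78) (nat_lit 0) (nat_lit 0) (XT.lf (nat_lit 0) (nat_lit 264648413355) (nat_lit 152) (nat_lit 634118710525) (nat_lit 0) (nat_lit 181497331344) (nat_lit 2) (nat_lit 5) (nat_lit 4) (nat_lit 4) (nat_lit 2) (nat_lit 4) (nat_lit 248) (nat_lit 212) (nat_lit 140)) (XT.lf (nat_lit 0) (nat_lit 355151517584) (nat_lit 152) (nat_lit 610016388751) (nat_lit 0) (nat_lit 271999973154) (nat_lit 2) (nat_lit 5) (nat_lit 4) (nat_lit 4) (nat_lit 2) (nat_lit 4) (nat_lit 249) (nat_lit 212) (nat_lit 139))) (XT.nd (nat_lit 78) (nat_lit 0) (nat_lit 0) (XT.lf (nat_lit 0) (nat_lit 459229429614) (nat_lit 152) (nat_lit 582299958091) (nat_lit 0) (nat_lit 376077483082) (nat_lit 2) (nat_lit 5) (nat_lit 4) (nat_lit 4) (nat_lit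 2) (nat_lit 4) (nat_lit 250) (nat_lit 212) (nat_lit 138)) (XT.nd (nat_lit 78) (nat_lit 0) (nat_lit 0) (XT.lf (nat_lit 0) (nat_lit 578918456422) (nat_lit 152) (nat_lit 550427140553) (nat_lit 0) (nat_lit 495766160234) (nat_lit 2) (nat_lit 5) (nat_lit 4) (nat_lit 4) (nat_lit 2) (nat_lit 4) (nat_lit 251) (nat_lit 212) (nat_lit 137)) (XT.lf (nat_lit 0) (nat_lit 716560339836) (nat_lit 152) (nat_lit 513774337535) (nat_lit 0) (nat_lit 633407739600) (nat_lit 2) (nat_lit 5) (nat_lit 4) (nat_lit 4) (nat_lit 2) (nat_lit 4) (nat_lit 252) (nat_lit 212) (nat_lit 136)))))) (XT.nd (nat_lit 390) (nat_lit 76) (nat_lit 0) (XT.nd (nat_lit 156) (nat_lit 0) (nat_lit 0) (XT.nd (nat_lit 78) (nat_lit 0) (nat_lit 0) (XT.lf (nat_lit 0) (nat_lit 874848073227) (nat_lit 152) (nat_lit 471624428976) (nat_lit 0) (nat_lit 791695208602) (nat_lit 2) (nat_lit 5) (nat_lit 4) (nat_lit 4) (nat_lit 2) (nat_lit 4) (nat_lit 253)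 (nat_lit 212) (nat_lit 135)) (XT.lf (nat_lit 0) (nat_lit 1056878590509) (nat_lit 152) (nat_lit 423152742752) (nat_lit 0) (nat_lit 973725495980) (nat_lit 2) (nat_lit 5) (nat_lit 4) (nat_lit 4) (nat_lit 2) (nat_lit 4) (nat_lit 254) (nat_lit 212) (nat_lit 134))) (XT.nd (nat_lit 78) (nat_lit 0) (nat_lit 0) (XT.lf (nat_lit 0) (nat_lit 1266213358325) (nat_lit 152) (nat_lit 367410919786) (nat_lit 0) (nat_lit 1183060063880) (nat_lit 2) (nat_lit 5) (nat_lit 4) (nat_lit 4) (nat_lit 2) (nat_lit 4) (nat_lit 255) (nat_lit 212) (nat_lit 133)) (XT.nd (nat_lit 78) (nat_lit 0) (nat_lit 0) (XT.lf (nat_lit 0) (nat_lit 1506948056914) (nat_lit 152) (nat_lit 303308359194) (nat_lit 0) (nat_lit 1423794588629) (nat_lit 2) (nat_lit 5) (nat_lit 4) (nat_lit 4) (nat_lit 2) (nat_lit 4) (nat_lit 256) (nat_lit 212) (nat_lit 132)) (XT.lf (nat_lit 0) (nat_lit 1783792712988) (nat_lit 152) (nat_lit 229590880441) (nat_lit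 0) (nat_lit 1700639093538) (nat_lit 2) (nat_lit 5) (nat_lit 4) (nat_lit 4) (nat_lit 2) (nat_lit 4) (nat_lit 257) (nat_lit 212) (nat_lit 131))))) (XT.nd (nat_lit 234) (nat_lit 0) (nat_lit 0) (XT.nd (nat_lit 78) (nat_lit 76) (nat_lit 0) (XT.lf (nat_lit 0) (nat_lit 2102163852428) (nat_lit 152) (nat_lit 144816185032) (nat_lit 0) (nat_lit 2019010101529) (nat_lit 2) (nat_lit 5) (nat_lit 4) (nat_lit 4) (nat_lit 2) (nat_lit 4) (nat_lit 258) (nat_lit 212) (nat_lit 130)) (XT.nd (nat_lit 78) (nat_lit 76) (nat_lit 0) (XT.lf (nat_lit 0) (nat_lit 2468290475786) (nat_lit 152) (nat_lit 47325637619) (nat_lit 0) (nat_lit 2385136610584) (nat_lit 2) (nat_lit 5) (nat_lit 4) (nat_lit 4) (nat_lit 2) (nat_lit 4) (nat_lit 259) (nat_lit 212) (nat_lit 129)) (XT.lf (nat_lit 0) (nat_lit 68199816584) (nat_lit 76) (nat_lit 2822776320686) (nat_lit 76) (nat_lit 2739622356091) (nat_lit 1) (nat_lit 4) (nat_lit 2) (nat_lit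 5) (nat_lit 2) (nat_lit 4) (nat_lit 260) (nat_lit 212) (nat_lit 128)))) (XT.nd (nat_lit 27534) (nat_lit 0) (nat_lit 2736) (XT.lf (nat_lit 0) (nat_lit 203919705336) (nat_lit 76) (nat_lit 3174522629522) (nat_lit 76) (nat_lit 3091368578497) (nat_lit 1) (nat_lit 4) (nat_lit 2) (nat_lit 5) (nat_lit 2) (nat_lit 4) (nat_lit 261) (nat_lit 212) (nat_lit 127)) (XT.nd (nat_lit 78) (nat_lit 0) (nat_lit 76) (XT.lf (nat_lit 0) (nat_lit 4962775772) (nat_lit 532) (nat_lit 3840667284) (nat_lit 532) (nat_lit 3840667284) (nat_lit 37) (nat_lit 3) (nat_lit 44) (nat_lit 3) (nat_lit 44) (nat_lit 5) (nat_lit 213) (nat_lit 213) (nat_lit 174)) (XT.lf (nat_lit 0) (nat_lit 11220676360) (nat_lit 456) (nat_lit 13625053140) (nat_lit 532) (nat_lit 2294257934) (nat_lit 38) (nat_lit 5) (nat_lit 44) (nat_lit 5) (nat_lit 45) (nat_lit 5) (nat_lit 214) (nat_lit 213) (nat_lit 173))))))))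
noncomputable def xc41 : XT := (XT.nd (nat_lit 1638) (nat_lit 456) (nat_lit 0) (XT.nd (nat_lit 780) (nat_lit 912) (nat_lit 0) (XT.nd (nat_lit 390) (nat_lit 836) (nat_lit 0) (XT.nd (nat_lit 156) (nat_lit 532) (nat_lit 0) (XT.nd (nat_lit 78) (nat_lit 0) (nat_lit 76) (XT.lf (nat_lit 76) (nat_lit 9044085171) (nat_lit 0) (nat_lit 4570237755) (nat_lit 532) (nat_lit 15582997248) (nat_lit 39) (nat_lit 5) (nat_lit 38) (nat_lit 5) (nat_lit 45) (nat_lit 5) (nat_lit 215) (nat_lit 213) (nat_lit 172)) (XT.lf (nat_lit 76) (nat_lit 4132234810) (nat_lit 0) (nat_lit 13165967738) (nat_lit 532) (nat_lit 14190678190) (nat_lit 40) (nat_lit 5) (nat_lit 39) (nat_lit 5) (nat_lit 46) (nat_lit 5) (nat_lit 216) (nat_lit 213) (nat_lit 171))) (XT.nd (nat_lit 78) (nat_lit 684) (nat_lit 0) (XT.lf (nat_lit 0) (nat_lit 22483846263) (nat_lit 456) (nat_lit 1202527020) (nat_lit 76) (nat_lit 10361974314) (nat_lit 40) (nat_lit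 5) (nat_lit 46) (nat_lit 5) (nat_lit 41) (nat_lit 5) (nat_lit 217) (nat_lit 213) (nat_lit 170)) (XT.nd (nat_lit 78) (nat_lit 228) (nat_lit 0) (XT.lf (nat_lit 0) (nat_lit 29524362328) (nat_lit 532) (nat_lit 6925293218) (nat_lit 76) (nat_lit 456009730) (nat_lit 34) (nat_lit 5) (nat_lit 41) (nat_lit 5) (nat_lit 35) (nat_lit 5) (nat_lit 218) (nat_lit 213) (nat_lit 169)) (XT.lf (nat_lit 0) (nat_lit 26369758609) (nat_lit 228) (nat_lit 12558668922) (nat_lit 304) (nat_lit 1158636079) (nat_lit 31) (nat_lit 5) (nat_lit 34) (nat_lit 5) (nat_lit 35) (nat_lit 5) (nat_lit 219) (nat_lit 213) (nat_lit 168))))) (XT.nd (nat_lit 156) (nat_lit 380) (nat_lit 0) (XT.nd (nat_lit 78) (nat_lit 228) (nat_lit 0) (XT.lf (nat_lit 0) (nat_lit 6805965996) (nat_lit 228) (nat_lit 21760460825) (nat_lit 76) (nat_lit 15079086738) (nat_lit 28) (nat_lit 5) (nat_lit 31) (nat_lit 5) (nat_lit 29) (nat_lit 5) (nat_lit 220) (nat_lit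 213) (nat_lit 167)) (XT.lf (nat_lit 0) (nat_lit 16364315724) (nat_lit 228) (nat_lit 670329211) (nat_lit 304) (nat_lit 30609695781) (nat_lit 25) (nat_lit 5) (nat_lit 28) (nat_lit 5) (nat_lit 29) (nat_lit 5) (nat_lit 221) (nat_lit 213) (nat_lit 166))) (XT.nd (nat_lit 78) (nat_lit 228) (nat_lit 0) (XT.lf (nat_lit 0) (nat_lit 8994549445) (nat_lit 152) (nat_lit 21411659373) (nat_lit 228) (nat_lit 21708145638) (nat_lit 23) (nat_lit 5) (nat_lit 25) (nat_lit 5) (nat_lit 26) (nat_lit 5) (nat_lit 222) (nat_lit 213) (nat_lit 165)) (XT.nd (nat_lit 78) (nat_lit 228) (nat_lit 0) (XT.lf (nat_lit 0) (nat_lit 46952251539) (nat_lit 228) (nat_lit 263673905) (nat_lit 76) (nat_lit 9945488017) (nat_lit 23) (nat_lit 5) (nat_lit 26) (nat_lit 5) (nat_lit 24) (nat_lit 5) (nat_lit 223) (nat_lit 213) (nat_lit 164)) (XT.lf (nat_lit 0) (nat_lit 4718325051) (nat_lit 228) (nat_lit 11976439802) (nat_lit 76) (nat_lit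 46116643717) (nat_lit 20) (nat_lit 5) (nat_lit 23) (nat_lit 5) (nat_lit 21) (nat_lit 5) (nat_lit 224) (nat_lit 213) (nat_lit 163)))))) (XT.nd (nat_lit 390) (nat_lit 304) (nat_lit 0) (XT.nd (nat_lit 156) (nat_lit 304) (nat_lit 0) (XT.nd (nat_lit 78) (nat_lit 152) (nat_lit 0) (XT.lf (nat_lit 0) (nat_lit 22785232785) (nat_lit 228) (nat_lit 27564914475) (nat_lit 76) (nat_lit 18817188247) (nat_lit 18) (nat_lit 5) (nat_lit 21) (nat_lit 5) (nat_lit 19) (nat_lit 5) (nat_lit 225) (nat_lit 213) (nat_lit 162)) (XT.lf (nat_lit 0) (nat_lit 28433207441) (nat_lit 152) (nat_lit 16623557806) (nat_lit 228) (nat_lit 31300345175) (nat_lit 16) (nat_lit 5) (nat_lit 18) (nat_lit 5) (nat_lit 19) (nat_lit 5) (nat_lit 226) (nat_lit 213) (nat_lit 161))) (XT.nd (nat_lit 78) (nat_lit 228) (nat_lit 0) (XT.lf (nat_lit 0) (nat_lit 9866450222) (nat_lit 76) (nat_lit 62388279801) (nat_lit 152) (nat_lit 12243787987) (nat_lit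 15) (nat_lit 5) (nat_lit 16) (nat_lit 5) (nat_lit 17) (nat_lit 4) (nat_lit 227) (nat_lit 213) (nat_lit 160)) (XT.nd (nat_lit 78) (nat_lit 152) (nat_lit 0) (XT.lf (nat_lit 0) (nat_lit 11071325055) (nat_lit 152) (nat_lit 15262404693) (nat_lit 76) (nat_lit 67358108298) (nat_lit 14) (nat_lit 5) (nat_lit 16) (nat_lit 5) (nat_lit 15) (nat_lit 5) (nat_lit 228) (nat_lit 213) (nat_lit 159)) (XT.lf (nat_lit 0) (nat_lit 38913369554) (nat_lit 228) (nat_lit 49101096962) (nat_lit 76) (nat_lit 16083893107) (nat_lit 12) (nat_lit 5) (nat_lit 15) (nat_lit 5) (nat_lit 13) (nat_lit 4) (nat_lit 229) (nat_lit 213) (nat_lit 158))))) (XT.nd (nat_lit 234) (nat_lit 76) (nat_lit 0) (XT.nd (nat_lit 78) (nat_lit 152) (nat_lit 0) (XT.lf (nat_lit 0) (nat_lit 20990198951) (nat_lit 76) (nat_lit 51624652094) (nat_lit 152) (nat_lit 43316371743) (nat_lit 11) (nat_lit 5) (nat_lit 12) (nat_lit 5) (nat_lit 13) (nat_lit 4)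 (nat_lit 230) (nat_lit 213) (nat_lit 157)) (XT.nd (nat_lit 78) (nat_lit 152) (nat_lit 0) (XT.lf (nat_lit 0) (nat_lit 104559666954) (nat_lit 76) (nat_lit 8236067784) (nat_lit 152) (nat_lit 16629358272) (nat_lit 11) (nat_lit 5) (nat_lit 12) (nat_lit 5) (nat_lit 13) (nat_lit 4) (nat_lit 231) (nat_lit 213) (nat_lit 156)) (XT.lf (nat_lit 0) (nat_lit 15801523191) (nat_lit 152) (nat_lit 87560006138) (nat_lit 76) (nat_lit 41358936094) (nat_lit 9) (nat_lit 5) (nat_lit 11) (nat_lit 5) (nat_lit 10) (nat_lit 4) (nat_lit 232) (nat_lit 213) (nat_lit 155)))) (XT.nd (nat_lit 78) (nat_lit 76) (nat_lit 0) (XT.lf (nat_lit 0) (nat_lit 53106506551) (nat_lit 152) (nat_lit 9970380703) (nat_lit 76) (nat_lit 99119181260) (nat_lit 9) (nat_lit 5) (nat_lit 11) (nat_lit 5) (nat_lit 10) (nat_lit 4) (nat_lit 233) (nat_lit 213) (nat_lit 154)) (XT.nd (nat_lit 78) (nat_lit 0) (nat_lit 0) (XT.lf (nat_lit 0) (nat_lit 83424270225)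 (nat_lit 76) (nat_lit 14585492397) (nat_lit 152) (nat_lit 84123054725) (nat_lit 8) (nat_lit 5) (nat_lit 9) (nat_lit 5) (nat_lit 10) (nat_lit 4) (nat_lit 234) (nat_lit 213) (nat_lit 153)) (XT.lf (nat_lit 0) (nat_lit 150933154807) (nat_lit 152) (nat_lit 14609170192) (nat_lit 0) (nat_lit 39414988031) (nat_lit 8) (nat_lit 5) (nat_lit 10) (nat_lit 4) (nat_lit 8) (nat_lit 4) (nat_lit 235) (nat_lit 213) (nat_lit 152))))))) (XT.nd (nat_lit 780) (nat_lit 76) (nat_lit 0) (XT.nd (nat_lit 390) (nat_lit 152) (nat_lit 0) (XT.nd (nat_lit 156) (nat_lit 76) (nat_lit 0) (XT.nd (nat_lit 78) (nat_lit 76) (nat_lit 0) (XT.lf (nat_lit 0) (nat_lit 85998216953) (nat_lit 76) (nat_lit 128265418871) (nat_lit 76) (nat_lit 16744366357) (nat_lit 7) (nat_lit 4) (nat_lit 8) (nat_lit 5) (nat_lit 8) (nat_lit 4) (nat_lit 236) (nat_lit 213) (nat_lit 151)) (XT.lf (nat_lit 0) (nat_lit 25253899867) (nat_lit 152) (nat_lit 58995450126)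 (nat_lit 76) (nat_lit 176631999701) (nat_lit 6) (nat_lit 5) (nat_lit 8) (nat_lit 5) (nat_lit 7) (nat_lit 4) (nat_lit 237) (nat_lit 213) (nat_lit 150))) (XT.nd (nat_lit 78) (nat_lit 0) (nat_lit 0) (XT.lf (nat_lit 0) (nat_lit 41530980550) (nat_lit 76) (nat_lit 32053983120) (nat_lit 152) (nat_lit 221533985159) (nat_lit 5) (nat_lit 5) (nat_lit 6) (nat_lit 5) (nat_lit 7) (nat_lit 4) (nat_lit 238) (nat_lit 213) (nat_lit 149)) (XT.nd (nat_lit 78) (nat_lit 0) (nat_lit 0) (XT.lf (nat_lit 0) (nat_lit 131598268013) (nat_lit 152) (nat_lit 174367383228) (nat_lit 0) (nat_lit 28331933473) (nat_lit 5) (nat_lit 5) (nat_lit 7) (nat_lit 4) (nat_lit 5) (nat_lit 4) (nat_lit 239) (nat_lit 213) (nat_lit 148)) (XT.lf (nat_lit 0) (nat_lit 199198087564) (nat_lit 152) (nat_lit 84153944463) (nat_lit 0) (nat_lit 95930225310) (nat_lit 5) (nat_lit 5) (nat_lit 7) (nat_lit 4) (nat_lit 5) (nat_lit 4) (nat_lit 240) (nat_lit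 213) (nat_lit 147))))) (XT.nd (nat_lit 156) (nat_lit 76) (nat_lit 0) (XT.nd (nat_lit 78) (nat_lit 0) (nat_lit 0) (XT.lf (nat_lit 0) (nat_lit 20619777397) (nat_lit 76) (nat_lit 256812257166) (nat_lit 76) (nat_lit 153543066467) (nat_lit 4) (nat_lit 4) (nat_lit 5) (nat_lit 5) (nat_lit 5) (nat_lit 4) (nat_lit 241) (nat_lit 213) (nat_lit 146)) (XT.lf (nat_lit 0) (nat_lit 146202719605) (nat_lit 76) (nat_lit 223646811573) (nat_lit 76) (nat_lit 120376465702) (nat_lit 4) (nat_lit 4) (nat_lit 5) (nat_lit 5) (nat_lit 5) (nat_lit 4) (nat_lit 242) (nat_lit 213) (nat_lit 145))) (XT.nd (nat_lit 78) (nat_lit 76) (nat_lit 0) (XT.lf (nat_lit 0) (nat_lit 290620542143) (nat_lit 76) (nat_lit 185507724068) (nat_lit 76) (nat_lit 82236373701) (nat_lit 4) (nat_lit 4) (nat_lit 5) (nat_lit 5) (nat_lit 5) (nat_lit 4) (nat_lit 243) (nat_lit 213) (nat_lit 144)) (XT.nd (nat_lit 78) (nat_lit 76) (nat_lit 0) (XT.lf (nat_lit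 0) (nat_lit 456698811105) (nat_lit 76) (nat_lit 141648795114) (nat_lit 76) (nat_lit 38376571273) (nat_lit 4) (nat_lit 4) (nat_lit 5) (nat_lit 5) (nat_lit 5) (nat_lit 4) (nat_lit 244) (nat_lit 213) (nat_lit 143)) (XT.lf (nat_lit 0) (nat_lit 11457724676) (nat_lit 152) (nat_lit 79440916058) (nat_lit 76) (nat_lit 635915884754) (nat_lit 3) (nat_lit 5) (nat_lit 5) (nat_lit 5) (nat_lit 4) (nat_lit 4) (nat_lit 245) (nat_lit 213) (nat_lit 142)))))) (XT.nd (nat_lit 390) (nat_lit 0) (nat_lit 0) (XT.nd (nat_lit 156) (nat_lit 0) (nat_lit 0) (XT.nd (nat_lit 78) (nat_lit 0) (nat_lit 0) (XT.lf (nat_lit 0) (nat_lit 37019954422) (nat_lit 76) (nat_lit 30428890904) (nat_lit 152) (nat_lit 762813517875) (nat_lit 2) (nat_lit 5) (nat_lit 3) (nat_lit 5) (nat_lit 4) (nat_lit 4) (nat_lit 246) (nat_lit 213) (nat_lit 141)) (XT.lf (nat_lit 0) (nat_lit 135151302792) (nat_lit 152) (nat_lit 774284034599) (nat_lit 0)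 (nat_lit 39527026698) (nat_lit 2) (nat_lit 5) (nat_lit 4) (nat_lit 4) (nat_lit 2) (nat_lit 4) (nat_lit 247) (nat_lit 213) (nat_lit 140))) (XT.nd (nat_lit 78) (nat_lit 0) (nat_lit 0) (XT.lf (nat_lit 0) (nat_lit 213849960263) (nat_lit 152) (nat_lit 753324917470) (nat_lit 0) (nat_lit 118225221750) (nat_lit 2) (nat_lit 5) (nat_lit 4) (nat_lit 4) (nat_lit 2) (nat_lit 4) (nat_lit 248) (nat_lit 213) (nat_lit 139)) (XT.nd (nat_lit 78) (nat_lit 0) (nat_lit 0) (XT.lf (nat_lit 0) (nat_lit 304352758523) (nat_lit 152) (nat_lit 729223172151) (nat_lit 0) (nat_lit 208727617907) (nat_lit 2) (nat_lit 5) (nat_lit 4) (nat_lit 4) (nat_lit 2) (nat_lit 4) (nat_lit 249) (nat_lit 213) (nat_lit 138)) (XT.lf (nat_lit 0) (nat_lit 408430404494) (nat_lit 152) (nat_lit 701507242757) (nat_lit 0) (nat_lit 312804914224) (nat_lit 2) (nat_lit 5) (nat_lit 4) (nat_lit 4) (nat_lit 2) (nat_lit 4) (nat_lit 250) (nat_lit 213)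 (nat_lit 137))))) (XT.nd (nat_lit 234) (nat_lit 0) (nat_lit 0) (XT.nd (nat_lit 78) (nat_lit 0) (nat_lit 0) (XT.lf (nat_lit 0) (nat_lit 528119199946) (nat_lit 152) (nat_lit 669634861103) (nat_lit 0) (nat_lit 432493405628) (nat_lit 2) (nat_lit 5) (nat_lit 4) (nat_lit 4) (nat_lit 2) (nat_lit 4) (nat_lit 251) (nat_lit 213) (nat_lit 136)) (XT.nd (nat_lit 78) (nat_lit 0) (nat_lit 0) (XT.lf (nat_lit 0) (nat_lit 665760882181) (nat_lit 152) (nat_lit 632982437113) (nat_lit 0) (nat_lit 570134823473) (nat_lit 2) (nat_lit 5) (nat_lit 4) (nat_lit 4) (nat_lit 2) (nat_lit 4) (nat_lit 252) (nat_lit 213) (nat_lit 135)) (XT.lf (nat_lit 0) (nat_lit 824048440633) (nat_lit 152) (nat_lit 590832858145) (nat_lit 0) (nat_lit 728422152022) (nat_lit 2) (nat_lit 5) (nat_lit 4) (nat_lit 4) (nat_lit 2) (nat_lit 4) (nat_lit 253) (nat_lit 213) (nat_lit 134)))) (XT.nd (nat_lit 78) (nat_lit 0) (nat_lit 0) (XT.lf (nat_lit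 0) (nat_lit 1006078805795) (nat_lit 152) (nat_lit 542361458522) (nat_lit 0) (nat_lit 910452317267) (nat_lit 2) (nat_lit 5) (nat_lit 4) (nat_lit 4) (nat_lit 2) (nat_lit 4) (nat_lit 254) (nat_lit 213) (nat_lit 133)) (XT.nd (nat_lit 78) (nat_lit 0) (nat_lit 0) (XT.lf (nat_lit 0) (nat_lit 1215413441332) (nat_lit 152) (nat_lit 486619884774) (nat_lit 0) (nat_lit 1119786778964) (nat_lit 2) (nat_lit 5) (nat_lit 4) (nat_lit 4) (nat_lit 2) (nat_lit 4) (nat_lit 255) (nat_lit 213) (nat_lit 132)) (XT.lf (nat_lit 0) (nat_lit 1456148024897) (nat_lit 152) (nat_lit 422517540892) (nat_lit 0) (nat_lit 1360521211363) (nat_lit 2) (nat_lit 5) (nat_lit 4) (nat_lit 4) (nat_lit 2) (nat_lit 4) (nat_lit 256) (nat_lit 213) (nat_lit 131))))))))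
noncomputable def xc42 : XT := (XT.nd (nat_lit 29250) (nat_lit 0) (nat_lit 0) (XT.nd (nat_lit 28392) (nat_lit 0) (nat_lit 760) (XT.nd (nat_lit 28002) (nat_lit 0) (nat_lit 2432) (XT.nd (nat_lit 156) (nat_lit 0) (nat_lit 0) (XT.nd (nat_lit 78) (nat_lit 0) (nat_lit 0) (XT.lf (nat_lit 0) (nat_lit 1732992580950) (nat_lit 152) (nat_lit 348800250584) (nat_lit 0) (nat_lit 1637365635968) (nat_lit 2) (nat_lit 5) (nat_lit 4) (nat_lit 4) (nat_lit 2) (nat_lit 4) (nat_lit 257) (nat_lit 213) (nat_lit 130)) (XT.lf (nat_lit 0) (nat_lit 2051363633414) (nat_lit 152) (nat_lit 264025719039) (nat_lit 0) (nat_lit 1955736574129) (nat_lit 2) (nat_lit 5) (nat_lit 4) (nat_lit 4) (nat_lit 2) (nat_lit 4) (nat_lit 258) (nat_lit 213) (nat_lit 129))) (XT.nd (nat_lit 78) (nat_lit 0) (nat_lit 0) (XT.lf (nat_lit 0) (nat_lit 2417490181142) (nat_lit 152) (nat_lit 166535314118) (nat_lit 0) (nat_lit 2321863022463) (nat_lit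 2) (nat_lit 5) (nat_lit 4) (nat_lit 4) (nat_lit 2) (nat_lit 4) (nat_lit 259) (nat_lit 213) (nat_lit 128)) (XT.nd (nat_lit 27690) (nat_lit 0) (nat_lit 2660) (XT.lf (nat_lit 0) (nat_lit 2838535569632) (nat_lit 152) (nat_lit 54421614855) (nat_lit 0) (nat_lit 2742908324524) (nat_lit 2) (nat_lit 5) (nat_lit 4) (nat_lit 4) (nat_lit 2) (nat_lit 4) (nat_lit 260) (nat_lit 213) (nat_lit 127)) (XT.lf (nat_lit 0) (nat_lit 5866397841) (nat_lit 532) (nat_lit 4330416156) (nat_lit 532) (nat_lit 4330416156) (nat_lit 37) (nat_lit 3) (nat_lit 44) (nat_lit 3) (nat_lit 44) (nat_lit 5) (nat_lit 214) (nat_lit 214) (nat_lit 172))))) (XT.nd (nat_lit 156) (nat_lit 304) (nat_lit 0) (XT.nd (nat_lit 78) (nat_lit 0) (nat_lit 0) (XT.lf (nat_lit 0) (nat_lit 13181510754) (nat_lit 456) (nat_lit 15484001857) (nat_lit 532) (nat_lit 2521932073) (nat_lit 38) (nat_lit 5) (nat_lit 44) (nat_lit 5) (nat_lit 45) (nat_lit 5) (nat_lit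 215) (nat_lit 214) (nat_lit 171)) (XT.lf (nat_lit 76) (nat_lit 10569864018) (nat_lit 0) (nat_lit 5332182700) (nat_lit 532) (nat_lit 17654075688) (nat_lit 39) (nat_lit 5) (nat_lit 38) (nat_lit 5) (nat_lit 45) (nat_lit 5) (nat_lit 216) (nat_lit 214) (nat_lit 170))) (XT.nd (nat_lit 78) (nat_lit 380) (nat_lit 0) (XT.lf (nat_lit 76) (nat_lit 4927634669) (nat_lit 0) (nat_lit 15181466428) (nat_lit 532) (nat_lit 16084818503) (nat_lit 40) (nat_lit 5) (nat_lit 39) (nat_lit 5) (nat_lit 46) (nat_lit 5) (nat_lit 217) (nat_lit 214) (nat_lit 169)) (XT.nd (nat_lit 78) (nat_lit 456) (nat_lit 0) (XT.lf (nat_lit 0) (nat_lit 26043546377) (nat_lit 456) (nat_lit 1213484854) (nat_lit 76) (nat_lit 11882729265) (nat_lit 40) (nat_lit 5) (nat_lit 46) (nat_lit 5) (nat_lit 41) (nat_lit 5) (nat_lit 218) (nat_lit 214) (nat_lit 168)) (XT.lf (nat_lit 0) (nat_lit 34119188845) (nat_lit 532) (nat_lit 7794661687) (nat_lit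 76) (nat_lit 513614772) (nat_lit 34) (nat_lit 5) (nat_lit 41) (nat_lit 5) (nat_lit 35) (nat_lit 5) (nat_lit 219) (nat_lit 214) (nat_lit 167)))))) (XT.nd (nat_lit 390) (nat_lit 836) (nat_lit 0) (XT.nd (nat_lit 156) (nat_lit 380) (nat_lit 0) (XT.nd (nat_lit 78) (nat_lit 228) (nat_lit 0) (XT.lf (nat_lit 0) (nat_lit 30480306888) (nat_lit 228) (nat_lit 14435612096) (nat_lit 304) (nat_lit 1171688599) (nat_lit 31) (nat_lit 5) (nat_lit 34) (nat_lit 5) (nat_lit 35) (nat_lit 5) (nat_lit 220) (nat_lit 214) (nat_lit 166)) (XT.lf (nat_lit 0) (nat_lit 7963573977) (nat_lit 228) (nat_lit 24863538996) (nat_lit 76) (nat_lit 17353761280) (nat_lit 28) (nat_lit 5) (nat_lit 31) (nat_lit 5) (nat_lit 29) (nat_lit 5) (nat_lit 221) (nat_lit 214) (nat_lit 165))) (XT.nd (nat_lit 78) (nat_lit 152) (nat_lit 0) (XT.lf (nat_lit 0) (nat_lit 18966326953) (nat_lit 228) (nat_lit 745939768) (nat_lit 304) (nat_lit 35068470845)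 (nat_lit 25) (nat_lit 5) (nat_lit 28) (nat_lit 5) (nat_lit 29) (nat_lit 5) (nat_lit 222) (nat_lit 214) (nat_lit 164)) (XT.nd (nat_lit 78) (nat_lit 0) (nat_lit 0) (XT.lf (nat_lit 0) (nat_lit 10487459390) (nat_lit 152) (nat_lit 24590115510) (nat_lit 228) (nat_lit 24844697722) (nat_lit 23) (nat_lit 5) (nat_lit 25) (nat_lit 5) (nat_lit 26) (nat_lit 5) (nat_lit 223) (nat_lit 214) (nat_lit 163)) (XT.lf (nat_lit 0) (nat_lit 54091815749) (nat_lit 228) (nat_lit 170910348) (nat_lit 76) (nat_lit 11464813246) (nat_lit 23) (nat_lit 5) (nat_lit 26) (nat_lit 5) (nat_lit 24) (nat_lit 5) (nat_lit 224) (nat_lit 214) (nat_lit 162))))) (XT.nd (nat_lit 234) (nat_lit 304) (nat_lit 0) (XT.nd (nat_lit 78) (nat_lit 304) (nat_lit 0) (XT.lf (nat_lit 0) (nat_lit 5515644424) (nat_lit 228) (nat_lit 13646794067) (nat_lit 76) (nat_lit 53063235506) (nat_lit 20) (nat_lit 5) (nat_lit 23) (nat_lit 5) (nat_lit 21) (nat_lit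 5) (nat_lit 225) (nat_lit 214) (nat_lit 161)) (XT.nd (nat_lit 78) (nat_lit 152) (nat_lit 0) (XT.lf (nat_lit 0) (nat_lit 26284517754) (nat_lit 228) (nat_lit 31578354206) (nat_lit 76) (nat_lit 21672800210) (nat_lit 18) (nat_lit 5) (nat_lit 21) (nat_lit 5) (nat_lit 19) (nat_lit 5) (nat_lit 226) (nat_lit 214) (nat_lit 160)) (XT.lf (nat_lit 0) (nat_lit 32809218774) (nat_lit 152) (nat_lit 19079601150) (nat_lit 228) (nat_lit 35915761994) (nat_lit 16) (nat_lit 5) (nat_lit 18) (nat_lit 5) (nat_lit 19) (nat_lit 5) (nat_lit 227) (nat_lit 214) (nat_lit 159)))) (XT.nd (nat_lit 78) (nat_lit 228) (nat_lit 0) (XT.lf (nat_lit 0) (nat_lit 11452803645) (nat_lit 76) (nat_lit 71707426232) (nat_lit 152) (nat_lit 14007498365) (nat_lit 15) (nat_lit 5) (nat_lit 16) (nat_lit 5) (nat_lit 17) (nat_lit 4) (nat_lit 228) (nat_lit 214) (nat_lit 158)) (XT.nd (nat_lit 78) (nat_lit 152) (nat_lit 0) (XT.lf (nat_lit 0) (nat_lit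 12792209185) (nat_lit 152) (nat_lit 17455938330) (nat_lit 76) (nat_lit 77492503067) (nat_lit 14) (nat_lit 5) (nat_lit 16) (nat_lit 5) (nat_lit 15) (nat_lit 5) (nat_lit 229) (nat_lit 214) (nat_lit 157)) (XT.lf (nat_lit 0) (nat_lit 44805619830) (nat_lit 228) (nat_lit 56374861327) (nat_lit 76) (nat_lit 18528083828) (nat_lit 12) (nat_lit 5) (nat_lit 15) (nat_lit 5) (nat_lit 13) (nat_lit 4) (nat_lit 230) (nat_lit 214) (nat_lit 156))))))) (XT.nd (nat_lit 780) (nat_lit 228) (nat_lit 0) (XT.nd (nat_lit 390) (nat_lit 228) (nat_lit 0) (XT.nd (nat_lit 156) (nat_lit 228) (nat_lit 0) (XT.nd (nat_lit 78) (nat_lit 0) (nat_lit 0) (XT.lf (nat_lit 0) (nat_lit 24222392403) (nat_lit 76) (nat_lit 59334737405) (nat_lit 152) (nat_lit 49759660141) (nat_lit 11) (nat_lit 5) (nat_lit 12) (nat_lit 5) (nat_lit 13) (nat_lit 4) (nat_lit 231) (nat_lit 214) (nat_lit 155)) (XT.lf (nat_lit 0) (nat_lit 120316367962) (nat_lit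 76) (nat_lit 9442249687) (nat_lit 152) (nat_lit 19076659958) (nat_lit 11) (nat_lit 5) (nat_lit 12) (nat_lit 5) (nat_lit 13) (nat_lit 4) (nat_lit 232) (nat_lit 214) (nat_lit 154))) (XT.nd (nat_lit 78) (nat_lit 76) (nat_lit 0) (XT.lf (nat_lit 0) (nat_lit 18212996335) (nat_lit 152) (nat_lit 100622530758) (nat_lit 76) (nat_lit 47589630038) (nat_lit 9) (nat_lit 5) (nat_lit 11) (nat_lit 5) (nat_lit 10) (nat_lit 4) (nat_lit 233) (nat_lit 214) (nat_lit 153)) (XT.nd (nat_lit 78) (nat_lit 76) (nat_lit 0) (XT.lf (nat_lit 0) (nat_lit 61108347460) (nat_lit 152) (nat_lit 11403784504) (nat_lit 76) (nat_lit 114010409345) (nat_lit 9) (nat_lit 5) (nat_lit 11) (nat_lit 5) (nat_lit 10) (nat_lit 4) (nat_lit 234) (nat_lit 214) (nat_lit 152)) (XT.lf (nat_lit 0) (nat_lit 95994803096) (nat_lit 76) (nat_lit 16748979074) (nat_lit 152) (nat_lit 96706293984) (nat_lit 8) (nat_lit 5) (nat_lit 9) (nat_lit 5) (nat_lit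 10) (nat_lit 4) (nat_lit 235) (nat_lit 214) (nat_lit 151))))) (XT.nd (nat_lit 156) (nat_lit 152) (nat_lit 0) (XT.nd (nat_lit 78) (nat_lit 76) (nat_lit 0) (XT.lf (nat_lit 0) (nat_lit 173601945823) (nat_lit 152) (nat_lit 16749266745) (nat_lit 0) (nat_lit 45347340357) (nat_lit 8) (nat_lit 5) (nat_lit 10) (nat_lit 4) (nat_lit 8) (nat_lit 4) (nat_lit 236) (nat_lit 214) (nat_lit 150)) (XT.lf (nat_lit 0) (nat_lit 98944887962) (nat_lit 76) (nat_lit 147484481059) (nat_lit 76) (nat_lit 19227693559) (nat_lit 7) (nat_lit 4) (nat_lit 8) (nat_lit 5) (nat_lit 8) (nat_lit 4) (nat_lit 237) (nat_lit 214) (nat_lit 149))) (XT.nd (nat_lit 78) (nat_lit 76) (nat_lit 0) (XT.lf (nat_lit 0) (nat_lit 29065385441) (nat_lit 152) (nat_lit 67802683201) (nat_lit 76) (nat_lit 203143575307) (nat_lit 6) (nat_lit 5) (nat_lit 8) (nat_lit 5) (nat_lit 7) (nat_lit 4) (nat_lit 238) (nat_lit 214) (nat_lit 148)) (XT.nd (nat_lit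 78) (nat_lit 0) (nat_lit 0) (XT.lf (nat_lit 0) (nat_lit 47799149837) (nat_lit 76) (nat_lit 36844833184) (nat_lit 152) (nat_lit 254741074711) (nat_lit 5) (nat_lit 5) (nat_lit 6) (nat_lit 5) (nat_lit 7) (nat_lit 4) (nat_lit 239) (nat_lit 214) (nat_lit 147)) (XT.lf (nat_lit 0) (nat_lit 151356868739) (nat_lit 152) (nat_lit 200487846516) (nat_lit 0) (nat_lit 32595970988) (nat_lit 5) (nat_lit 5) (nat_lit 7) (nat_lit 4) (nat_lit 5) (nat_lit 4) (nat_lit 240) (nat_lit 214) (nat_lit 146)))))) (XT.nd (nat_lit 390) (nat_lit 152) (nat_lit 0) (XT.nd (nat_lit 156) (nat_lit 0) (nat_lit 0) (XT.nd (nat_lit 78) (nat_lit 76) (nat_lit 0) (XT.lf (nat_lit 0) (nat_lit 229094201154) (nat_lit 152) (nat_lit 96746910744) (nat_lit 0) (nat_lit 110332148232) (nat_lit 5) (nat_lit 5) (nat_lit 7) (nat_lit 4) (nat_lit 5) (nat_lit 4) (nat_lit 241) (nat_lit 214) (nat_lit 145)) (XT.lf (nat_lit 0) (nat_lit 23740319430) (nat_lit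 76) (nat_lit 295321444773) (nat_lit 76) (nat_lit 176558387355) (nat_lit 4) (nat_lit 4) (nat_lit 5) (nat_lit 5) (nat_lit 5) (nat_lit 4) (nat_lit 242) (nat_lit 214) (nat_lit 144))) (XT.nd (nat_lit 78) (nat_lit 0) (nat_lit 0) (XT.lf (nat_lit 0) (nat_lit 168157106175) (nat_lit 76) (nat_lit 257182832466) (nat_lit 76) (nat_lit 138418901574) (nat_lit 4) (nat_lit 4) (nat_lit 5) (nat_lit 5) (nat_lit 5) (nat_lit 4) (nat_lit 243) (nat_lit 214) (nat_lit 143)) (XT.nd (nat_lit 78) (nat_lit 0) (nat_lit 0) (XT.lf (nat_lit 0) (nat_lit 334234474447) (nat_lit 76) (nat_lit 213324316728) (nat_lit 76) (nat_lit 94559626292) (nat_lit 4) (nat_lit 4) (nat_lit 5) (nat_lit 5) (nat_lit 5) (nat_lit 4) (nat_lit 244) (nat_lit 214) (nat_lit 142)) (XT.lf (nat_lit 0) (nat_lit 525221764060) (nat_lit 76) (nat_lit 162887796164) (nat_lit 76) (nat_lit 44122445255) (nat_lit 4) (nat_lit 4) (nat_lit 5) (nat_lit 5) (nat_lit 5)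 (nat_lit 4) (nat_lit 245) (nat_lit 214) (nat_lit 141))))) (XT.nd (nat_lit 234) (nat_lit 0) (nat_lit 0) (XT.nd (nat_lit 78) (nat_lit 76) (nat_lit 0) (XT.lf (nat_lit 0) (nat_lit 13185149349) (nat_lit 152) (nat_lit 91340814585) (nat_lit 76) (nat_lit 731310028156) (nat_lit 3) (nat_lit 5) (nat_lit 5) (nat_lit 5) (nat_lit 4) (nat_lit 4) (nat_lit 246) (nat_lit 214) (nat_lit 140)) (XT.nd (nat_lit 78) (nat_lit 0) (nat_lit 0) (XT.lf (nat_lit 0) (nat_lit 42587811926) (nat_lit 76) (nat_lit 34986340271) (nat_lit 152) (nat_lit 877226917563) (nat_lit 2) (nat_lit 5) (nat_lit 3) (nat_lit 5) (nat_lit 4) (nat_lit 4) (nat_lit 247) (nat_lit 214) (nat_lit 139)) (XT.lf (nat_lit 0) (nat_lit 155431081375) (nat_lit 152) (nat_lit 890413294836) (nat_lit 0) (nat_lit 45461767564) (nat_lit 2) (nat_lit 5) (nat_lit 4) (nat_lit 4) (nat_lit 2) (nat_lit 4) (nat_lit 248) (nat_lit 214) (nat_lit 138)))) (XT.nd (nat_lit 78)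 (nat_lit 0) (nat_lit 0) (XT.lf (nat_lit 0) (nat_lit 245933613576) (nat_lit 152) (nat_lit 866312050783) (nat_lit 0) (nat_lit 135963950109) (nat_lit 2) (nat_lit 5) (nat_lit 4) (nat_lit 4) (nat_lit 2) (nat_lit 4) (nat_lit 249) (nat_lit 214) (nat_lit 137)) (XT.nd (nat_lit 78) (nat_lit 0) (nat_lit 0) (XT.lf (nat_lit 0) (nat_lit 350011028191) (nat_lit 152) (nat_lit 838596557273) (nat_lit 0) (nat_lit 240041060677) (nat_lit 2) (nat_lit 5) (nat_lit 4) (nat_lit 4) (nat_lit 2) (nat_lit 4) (nat_lit 250) (nat_lit 214) (nat_lit 136)) (XT.lf (nat_lit 0) (nat_lit 469699622464) (nat_lit 152) (nat_lit 806724554648) (nat_lit 0) (nat_lit 359729390561) (nat_lit 2) (nat_lit 5) (nat_lit 4) (nat_lit 4) (nat_lit 2) (nat_lit 4) (nat_lit 251) (nat_lit 214) (nat_lit 135))))))))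
noncomputable def xc43 : XT := (XT.nd (nat_lit 29328) (nat_lit 0) (nat_lit 0) (XT.nd (nat_lit 28470) (nat_lit 0) (nat_lit 1368) (XT.nd (nat_lit 390) (nat_lit 0) (nat_lit 0) (XT.nd (nat_lit 156) (nat_lit 0) (nat_lit 0) (XT.nd (nat_lit 78) (nat_lit 0) (nat_lit 0) (XT.lf (nat_lit 0) (nat_lit 607341129760) (nat_lit 152) (nat_lit 770072460248) (nat_lit 0) (nat_lit 497370667953) (nat_lit 2) (nat_lit 5) (nat_lit 4) (nat_lit 4) (nat_lit 2) (nat_lit 4) (nat_lit 252) (nat_lit 214) (nat_lit 134)) (XT.lf (nat_lit 0) (nat_lit 765628536093) (nat_lit 152) (nat_lit 727923167880) (nat_lit 0) (nat_lit 655657874369) (nat_lit 2) (nat_lit 5) (nat_lit 4) (nat_lit 4) (nat_lit 2) (nat_lit 4) (nat_lit 253) (nat_lit 214) (nat_lit 133))) (XT.nd (nat_lit 78) (nat_lit 0) (nat_lit 0) (XT.lf (nat_lit 0) (nat_lit 947658768976) (nat_lit 152) (nat_lit 679452017475) (nat_lit 0) (nat_lit 837687933412) (nat_lit 2) (nat_lit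 5) (nat_lit 4) (nat_lit 4) (nat_lit 2) (nat_lit 4) (nat_lit 254) (nat_lit 214) (nat_lit 132)) (XT.nd (nat_lit 78) (nat_lit 0) (nat_lit 0) (XT.lf (nat_lit 0) (nat_lit 1156993289488) (nat_lit 152) (nat_lit 623710660438) (nat_lit 0) (nat_lit 1047022302759) (nat_lit 2) (nat_lit 5) (nat_lit 4) (nat_lit 4) (nat_lit 2) (nat_lit 4) (nat_lit 255) (nat_lit 214) (nat_lit 131)) (XT.lf (nat_lit 0) (nat_lit 1397727773031) (nat_lit 152) (nat_lit 559608505001) (nat_lit 0) (nat_lit 1287756654854) (nat_lit 2) (nat_lit 5) (nat_lit 4) (nat_lit 4) (nat_lit 2) (nat_lit 4) (nat_lit 256) (nat_lit 214) (nat_lit 130))))) (XT.nd (nat_lit 156) (nat_lit 0) (nat_lit 0) (XT.nd (nat_lit 78) (nat_lit 0) (nat_lit 0) (XT.lf (nat_lit 0) (nat_lit 1674572242109) (nat_lit 152) (nat_lit 485891378558) (nat_lit 0) (nat_lit 1564601009629) (nat_lit 2) (nat_lit 5) (nat_lit 4) (nat_lit 4) (nat_lit 2) (nat_lit 4) (nat_lit 257) (nat_lit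 214) (nat_lit 129)) (XT.lf (nat_lit 0) (nat_lit 1992943218942) (nat_lit 152) (nat_lit 401116989504) (nat_lit 0) (nat_lit 1882971887068) (nat_lit 2) (nat_lit 5) (nat_lit 4) (nat_lit 4) (nat_lit 2) (nat_lit 4) (nat_lit 258) (nat_lit 214) (nat_lit 128))) (XT.nd (nat_lit 78) (nat_lit 0) (nat_lit 0) (XT.lf (nat_lit 0) (nat_lit 2359069700904) (nat_lit 152) (nat_lit 303626708488) (nat_lit 0) (nat_lit 2249098282601) (nat_lit 2) (nat_lit 5) (nat_lit 4) (nat_lit 4) (nat_lit 2) (nat_lit 4) (nat_lit 259) (nat_lit 214) (nat_lit 127)) (XT.nd (nat_lit 27768) (nat_lit 0) (nat_lit 2660) (XT.lf (nat_lit 0) (nat_lit 2780115032207) (nat_lit 152) (nat_lit 191513116969) (nat_lit 0) (nat_lit 2670143538748) (nat_lit 2) (nat_lit 5) (nat_lit 4) (nat_lit 4) (nat_lit 2) (nat_lit 4) (nat_lit 260) (nat_lit 214) (nat_lit 126)) (XT.lf (nat_lit 0) (nat_lit 6866739902) (nat_lit 532) (nat_lit 4914684650) (nat_lit 532)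 (nat_lit 4914684650) (nat_lit 37) (nat_lit 3) (nat_lit 44) (nat_lit 3) (nat_lit 44) (nat_lit 5) (nat_lit 215) (nat_lit 215) (nat_lit 170)))))) (XT.nd (nat_lit 390) (nat_lit 1064) (nat_lit 0) (XT.nd (nat_lit 156) (nat_lit 304) (nat_lit 0) (XT.nd (nat_lit 78) (nat_lit 0) (nat_lit 0) (XT.lf (nat_lit 0) (nat_lit 15368743371) (nat_lit 456) (nat_lit 17666859788) (nat_lit 532) (nat_lit 2812157950) (nat_lit 38) (nat_lit 5) (nat_lit 44) (nat_lit 5) (nat_lit 45) (nat_lit 5) (nat_lit 216) (nat_lit 215) (nat_lit 169)) (XT.lf (nat_lit 76) (nat_lit 12283257475) (nat_lit 0) (nat_lit 6189786499) (nat_lit 532) (nat_lit 20100772186) (nat_lit 39) (nat_lit 5) (nat_lit 38) (nat_lit 5) (nat_lit 45) (nat_lit 5) (nat_lit 217) (nat_lit 215) (nat_lit 168))) (XT.nd (nat_lit 78) (nat_lit 380) (nat_lit 0) (XT.lf (nat_lit 76) (nat_lit 5799531958) (nat_lit 0) (nat_lit 17489388493) (nat_lit 532) (nat_lit 18320254764)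 (nat_lit 40) (nat_lit 5) (nat_lit 39) (nat_lit 5) (nat_lit 46) (nat_lit 5) (nat_lit 218) (nat_lit 215) (nat_lit 167)) (XT.nd (nat_lit 78) (nat_lit 456) (nat_lit 0) (XT.lf (nat_lit 0) (nat_lit 30091570337) (nat_lit 456) (nat_lit 1267400799) (nat_lit 76) (nat_lit 13639776691) (nat_lit 40) (nat_lit 5) (nat_lit 46) (nat_lit 5) (nat_lit 41) (nat_lit 5) (nat_lit 219) (nat_lit 215) (nat_lit 166)) (XT.lf (nat_lit 0) (nat_lit 39362717204) (nat_lit 532) (nat_lit 8835750911) (nat_lit 76) (nat_lit 582493345) (nat_lit 34) (nat_lit 5) (nat_lit 41) (nat_lit 5) (nat_lit 35) (nat_lit 5) (nat_lit 220) (nat_lit 215) (nat_lit 165))))) (XT.nd (nat_lit 234) (nat_lit 380) (nat_lit 0) (XT.nd (nat_lit 78) (nat_lit 456) (nat_lit 0) (XT.lf (nat_lit 0) (nat_lit 35169619075) (nat_lit 228) (nat_lit 16595768908) (nat_lit 304) (nat_lit 1225897170) (nat_lit 31) (nat_lit 5) (nat_lit 34) (nat_lit 5) (nat_lit 35) (nat_lit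 5) (nat_lit 221) (nat_lit 215) (nat_lit 164)) (XT.nd (nat_lit 78) (nat_lit 228) (nat_lit 0) (XT.lf (nat_lit 0) (nat_lit 9261484804) (nat_lit 228) (nat_lit 28471337557) (nat_lit 76) (nat_lit 19966512829) (nat_lit 28) (nat_lit 5) (nat_lit 31) (nat_lit 5) (nat_lit 29) (nat_lit 5) (nat_lit 222) (nat_lit 215) (nat_lit 163)) (XT.lf (nat_lit 0) (nat_lit 21922704253) (nat_lit 228) (nat_lit 838973398) (nat_lit 304) (nat_lit 40228416856) (nat_lit 25) (nat_lit 5) (nat_lit 28) (nat_lit 5) (nat_lit 29) (nat_lit 5) (nat_lit 223) (nat_lit 215) (nat_lit 162)))) (XT.nd (nat_lit 78) (nat_lit 228) (nat_lit 0) (XT.lf (nat_lit 0) (nat_lit 12169256958) (nat_lit 152) (nat_lit 28253458720) (nat_lit 228) (nat_lit 28480914849) (nat_lit 23) (nat_lit 5) (nat_lit 25) (nat_lit 5) (nat_lit 26) (nat_lit 5) (nat_lit 224) (nat_lit 215) (nat_lit 161)) (XT.nd (nat_lit 78) (nat_lit 228) (nat_lit 0) (XT.lf (nat_lit 0) (nat_lit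 62278727225) (nat_lit 228) (nat_lit 96498022) (nat_lit 76) (nat_lit 13205330716) (nat_lit 23) (nat_lit 5) (nat_lit 26) (nat_lit 5) (nat_lit 24) (nat_lit 5) (nat_lit 225) (nat_lit 215) (nat_lit 160)) (XT.lf (nat_lit 0) (nat_lit 6410719342) (nat_lit 228) (nat_lit 15598454610) (nat_lit 76) (nat_lit 61044721007) (nat_lit 20) (nat_lit 5) (nat_lit 23) (nat_lit 5) (nat_lit 21) (nat_lit 5) (nat_lit 226) (nat_lit 215) (nat_lit 159))))))) (XT.nd (nat_lit 858) (nat_lit 456) (nat_lit 0) (XT.nd (nat_lit 390) (nat_lit 304) (nat_lit 0) (XT.nd (nat_lit 156) (nat_lit 304) (nat_lit 0) (XT.nd (nat_lit 78) (nat_lit 152) (nat_lit 0) (XT.lf (nat_lit 0) (nat_lit 30288821165) (nat_lit 228) (nat_lit 36223389045) (nat_lit 76) (nat_lit 24948698484) (nat_lit 18) (nat_lit 5) (nat_lit 21) (nat_lit 5) (nat_lit 19) (nat_lit 5) (nat_lit 227) (nat_lit 215) (nat_lit 158)) (XT.lf (nat_lit 0) (nat_lit 37814556385) (nat_lit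 152) (nat_lit 21913193249) (nat_lit 228) (nat_lit 41242910823) (nat_lit 16) (nat_lit 5) (nat_lit 18) (nat_lit 5) (nat_lit 19) (nat_lit 5) (nat_lit 228) (nat_lit 215) (nat_lit 157))) (XT.nd (nat_lit 78) (nat_lit 228) (nat_lit 0) (XT.lf (nat_lit 0) (nat_lit 13251167209) (nat_lit 76) (nat_lit 82433978322) (nat_lit 152) (nat_lit 16053532141) (nat_lit 15) (nat_lit 5) (nat_lit 16) (nat_lit 5) (nat_lit 17) (nat_lit 4) (nat_lit 229) (nat_lit 215) (nat_lit 156)) (XT.nd (nat_lit 78) (nat_lit 152) (nat_lit 0) (XT.lf (nat_lit 0) (nat_lit 14756549350) (nat_lit 152) (nat_lit 20001870049) (nat_lit 76) (nat_lit 89139575898) (nat_lit 14) (nat_lit 5) (nat_lit 16) (nat_lit 5) (nat_lit 15) (nat_lit 5) (nat_lit 230) (nat_lit 215) (nat_lit 155)) (XT.lf (nat_lit 0) (nat_lit 51568235843) (nat_lit 228) (nat_lit 64761978859) (nat_lit 76) (nat_lit 21331195651) (nat_lit 12) (nat_lit 5) (nat_lit 15) (nat_lit 5) (nat_lit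 13) (nat_lit 4) (nat_lit 231) (nat_lit 215) (nat_lit 154))))) (XT.nd (nat_lit 234) (nat_lit 76) (nat_lit 0) (XT.nd (nat_lit 78) (nat_lit 152) (nat_lit 0) (XT.lf (nat_lit 0) (nat_lit 27919012973) (nat_lit 76) (nat_lit 68209532134) (nat_lit 152) (nat_lit 57182650854) (nat_lit 11) (nat_lit 5) (nat_lit 12) (nat_lit 5) (nat_lit 13) (nat_lit 4) (nat_lit 232) (nat_lit 215) (nat_lit 153)) (XT.nd (nat_lit 78) (nat_lit 152) (nat_lit 0) (XT.lf (nat_lit 0) (nat_lit 138418833338) (nat_lit 76) (nat_lit 10836486374) (nat_lit 152) (nat_lit 21902543031) (nat_lit 11) (nat_lit 5) (nat_lit 12) (nat_lit 5) (nat_lit 13) (nat_lit 4) (nat_lit 233) (nat_lit 215) (nat_lit 152)) (XT.lf (nat_lit 0) (nat_lit 20976132677) (nat_lit 152) (nat_lit 115661864019) (nat_lit 76) (nat_lit 54748379670) (nat_lit 9) (nat_lit 5) (nat_lit 11) (nat_lit 5) (nat_lit 10) (nat_lit 4) (nat_lit 234) (nat_lit 215) (nat_lit 151)))) (XT.nd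 (nat_lit 78) (nat_lit 76) (nat_lit 0) (XT.lf (nat_lit 0) (nat_lit 70301718616) (nat_lit 152) (nat_lit 13067355351) (nat_lit 76) (nat_lit 131129627378) (nat_lit 9) (nat_lit 5) (nat_lit 11) (nat_lit 5) (nat_lit 10) (nat_lit 4) (nat_lit 235) (nat_lit 215) (nat_lit 150)) (XT.nd (nat_lit 78) (nat_lit 0) (nat_lit 0) (XT.lf (nat_lit 0) (nat_lit 110437042342) (nat_lit 76) (nat_lit 19242923528) (nat_lit 152) (nat_lit 111185607497) (nat_lit 8) (nat_lit 5) (nat_lit 9) (nat_lit 5) (nat_lit 10) (nat_lit 4) (nat_lit 236) (nat_lit 215) (nat_lit 149)) (XT.lf (nat_lit 0) (nat_lit 199664028090) (nat_lit 152) (nat_lit 19222882484) (nat_lit 0) (nat_lit 52164643014) (nat_lit 8) (nat_lit 5) (nat_lit 10) (nat_lit 4) (nat_lit 8) (nat_lit 4) (nat_lit 237) (nat_lit 215) (nat_lit 148)))))) (XT.nd (nat_lit 390) (nat_lit 228) (nat_lit 0) (XT.nd (nat_lit 156) (nat_lit 76) (nat_lit 0) (XT.nd (nat_lit 78) (nat_lit 76)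 (nat_lit 0) (XT.lf (nat_lit 0) (nat_lit 113822113380) (nat_lit 76) (nat_lit 169591462751) (nat_lit 76) (nat_lit 22090427744) (nat_lit 7) (nat_lit 4) (nat_lit 8) (nat_lit 5) (nat_lit 8) (nat_lit 4) (nat_lit 238) (nat_lit 215) (nat_lit 147)) (XT.lf (nat_lit 0) (nat_lit 33442887467) (nat_lit 152) (nat_lit 77941263796) (nat_lit 76) (nat_lit 233627796405) (nat_lit 6) (nat_lit 5) (nat_lit 8) (nat_lit 5) (nat_lit 7) (nat_lit 4) (nat_lit 239) (nat_lit 215) (nat_lit 146))) (XT.nd (nat_lit 78) (nat_lit 0) (nat_lit 0) (XT.lf (nat_lit 0) (nat_lit 54998150634) (nat_lit 76) (nat_lit 42358516647) (nat_lit 152) (nat_lit 292934838395) (nat_lit 5) (nat_lit 5) (nat_lit 6) (nat_lit 5) (nat_lit 7) (nat_lit 4) (nat_lit 240) (nat_lit 215) (nat_lit 145)) (XT.nd (nat_lit 78) (nat_lit 0) (nat_lit 0) (XT.lf (nat_lit 0) (nat_lit 174074660315) (nat_lit 152) (nat_lit 230534827503) (nat_lit 0) (nat_lit 37496139789)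 (nat_lit 5) (nat_lit 5) (nat_lit 7) (nat_lit 4) (nat_lit 5) (nat_lit 4) (nat_lit 241) (nat_lit 215) (nat_lit 144)) (XT.lf (nat_lit 0) (nat_lit 263470732427) (nat_lit 152) (nat_lit 111236168234) (nat_lit 0) (nat_lit 126891338425) (nat_lit 5) (nat_lit 5) (nat_lit 7) (nat_lit 4) (nat_lit 5) (nat_lit 4) (nat_lit 242) (nat_lit 215) (nat_lit 143))))) (XT.nd (nat_lit 234) (nat_lit 152) (nat_lit 0) (XT.nd (nat_lit 78) (nat_lit 0) (nat_lit 0) (XT.lf (nat_lit 0) (nat_lit 27322218327) (nat_lit 76) (nat_lit 339610095539) (nat_lit 76) (nat_lit 203029941994) (nat_lit 4) (nat_lit 4) (nat_lit 5) (nat_lit 5) (nat_lit 5) (nat_lit 4) (nat_lit 243) (nat_lit 215) (nat_lit 142)) (XT.nd (nat_lit 78) (nat_lit 0) (nat_lit 0) (XT.lf (nat_lit 0) (nat_lit 193398803390) (nat_lit 76) (nat_lit 295751939119) (nat_lit 76) (nat_lit 159171125101) (nat_lit 4) (nat_lit 4) (nat_lit 5) (nat_lit 5) (nat_lit 5) (nat_lit 4) (nat_lit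 244) (nat_lit 215) (nat_lit 141)) (XT.lf (nat_lit 0) (nat_lit 384385411952) (nat_lit 76) (nat_lit 245315731005) (nat_lit 76) (nat_lit 108734342664) (nat_lit 4) (nat_lit 4) (nat_lit 5) (nat_lit 5) (nat_lit 5) (nat_lit 4) (nat_lit 245) (nat_lit 215) (nat_lit 140)))) (XT.nd (nat_lit 78) (nat_lit 152) (nat_lit 0) (XT.lf (nat_lit 0) (nat_lit 604018738529) (nat_lit 76) (nat_lit 187314675821) (nat_lit 76) (nat_lit 50732788068) (nat_lit 4) (nat_lit 4) (nat_lit 5) (nat_lit 5) (nat_lit 5) (nat_lit 4) (nat_lit 246) (nat_lit 215) (nat_lit 139)) (XT.nd (nat_lit 78) (nat_lit 76) (nat_lit 0) (XT.lf (nat_lit 0) (nat_lit 15169550086) (nat_lit 152) (nat_lit 105029657846) (nat_lit 76) (nat_lit 841011644432) (nat_lit 3) (nat_lit 5) (nat_lit 5) (nat_lit 5) (nat_lit 4) (nat_lit 4) (nat_lit 247) (nat_lit 215) (nat_lit 138)) (XT.lf (nat_lit 0) (nat_lit 48987223292) (nat_lit 76) (nat_lit 40229085815) (nat_lit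 152) (nat_lit 1008804431195) (nat_lit 2) (nat_lit 5) (nat_lit 3) (nat_lit 5) (nat_lit 4) (nat_lit 4) (nat_lit 248) (nat_lit 215) (nat_lit 137))))))))
noncomputable def xc44 : XT := (XT.nd (nat_lit 29406) (nat_lit 0) (nat_lit 152) (XT.nd (nat_lit 780) (nat_lit 0) (nat_lit 0) (XT.nd (nat_lit 390) (nat_lit 0) (nat_lit 0) (XT.nd (nat_lit 156) (nat_lit 0) (nat_lit 0) (XT.nd (nat_lit 78) (nat_lit 0) (nat_lit 0) (XT.lf (nat_lit 0) (nat_lit 178751099471) (nat_lit 152) (nat_lit 1023965198360) (nat_lit 0) (nat_lit 52285332782) (nat_lit 2) (nat_lit 5) (nat_lit 4) (nat_lit 4) (nat_lit 2) (nat_lit 4) (nat_lit 249) (nat_lit 215) (nat_lit 136)) (XT.lf (nat_lit 0) (nat_lit 282828312908) (nat_lit 152) (nat_lit 996250083878) (nat_lit 0) (nat_lit 156362281829) (nat_lit 2) (nat_lit 5) (nat_lit 4) (nat_lit 4) (nat_lit 2) (nat_lit 4) (nat_lit 250) (nat_lit 215) (nat_lit 135))) (XT.nd (nat_lit 78) (nat_lit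 0) (nat_lit 0) (XT.lf (nat_lit 0) (nat_lit 402516732242) (nat_lit 152) (nat_lit 964378410844) (nat_lit 0) (nat_lit 276050471260) (nat_lit 2) (nat_lit 5) (nat_lit 4) (nat_lit 4) (nat_lit 2) (nat_lit 4) (nat_lit 251) (nat_lit 215) (nat_lit 134)) (XT.nd (nat_lit 78) (nat_lit 0) (nat_lit 0) (XT.lf (nat_lit 0) (nat_lit 540158087418) (nat_lit 152) (nat_lit 927726603045) (nat_lit 0) (nat_lit 413691626520) (nat_lit 2) (nat_lit 5) (nat_lit 4) (nat_lit 4) (nat_lit 2) (nat_lit 4) (nat_lit 252) (nat_lit 215) (nat_lit 133)) (XT.lf (nat_lit 0) (nat_lit 698445361472) (nat_lit 152) (nat_lit 885577559895) (nat_lit 0) (nat_lit 571978726733) (nat_lit 2) (nat_lit 5) (nat_lit 4) (nat_lit 4) (nat_lit 2) (nat_lit 4) (nat_lit 253) (nat_lit 215) (nat_lit 132))))) (XT.nd (nat_lit 156) (nat_lit 0) (nat_lit 0) (XT.nd (nat_lit 78) (nat_lit 0) (nat_lit 0) (XT.lf (nat_lit 0) (nat_lit 880475479330) (nat_lit 152) (nat_lit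 837106626201) (nat_lit 0) (nat_lit 754008693426) (nat_lit 2) (nat_lit 5) (nat_lit 4) (nat_lit 4) (nat_lit 2) (nat_lit 4) (nat_lit 254) (nat_lit 215) (nat_lit 131)) (XT.lf (nat_lit 0) (nat_lit 1089809899821) (nat_lit 152) (nat_lit 781365457608) (nat_lit 0) (nat_lit 963342982469) (nat_lit 2) (nat_lit 5) (nat_lit 4) (nat_lit 4) (nat_lit 2) (nat_lit 4) (nat_lit 255) (nat_lit 215) (nat_lit 130))) (XT.nd (nat_lit 78) (nat_lit 0) (nat_lit 0) (XT.lf (nat_lit 0) (nat_lit 1330544296389) (nat_lit 152) (nat_lit 717263466036) (nat_lit 0) (nat_lit 1204077264734) (nat_lit 2) (nat_lit 5) (nat_lit 4) (nat_lit 4) (nat_lit 2) (nat_lit 4) (nat_lit 256) (nat_lit 215) (nat_lit 129)) (XT.nd (nat_lit 78) (nat_lit 0) (nat_lit 0) (XT.lf (nat_lit 0) (nat_lit 1607388689836) (nat_lit 152) (nat_lit 643546482083) (nat_lit 0) (nat_lit 1480921558787) (nat_lit 2) (nat_lit 5) (nat_lit 4) (nat_lit 4) (nat_lit 2) (nat_lit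 4) (nat_lit 257) (nat_lit 215) (nat_lit 128)) (XT.lf (nat_lit 0) (nat_lit 1925759600904) (nat_lit 152) (nat_lit 558772216935) (nat_lit 0) (nat_lit 1799292383425) (nat_lit 2) (nat_lit 5) (nat_lit 4) (nat_lit 4) (nat_lit 2) (nat_lit 4) (nat_lit 258) (nat_lit 215) (nat_lit 127)))))) (XT.nd (nat_lit 28158) (nat_lit 0) (nat_lit 1748) (XT.nd (nat_lit 27924) (nat_lit 0) (nat_lit 2660) (XT.nd (nat_lit 78) (nat_lit 0) (nat_lit 0) (XT.lf (nat_lit 0) (nat_lit 2291886025678) (nat_lit 152) (nat_lit 461282043663) (nat_lit 0) (nat_lit 2165418733044) (nat_lit 2) (nat_lit 5) (nat_lit 4) (nat_lit 4) (nat_lit 2) (nat_lit 4) (nat_lit 259) (nat_lit 215) (nat_lit 126)) (XT.lf (nat_lit 0) (nat_lit 2712931307252) (nat_lit 152) (nat_lit 349168545833) (nat_lit 0) (nat_lit 2586463949265) (nat_lit 2) (nat_lit 5) (nat_lit 4) (nat_lit 4) (nat_lit 2) (nat_lit 4) (nat_lit 260) (nat_lit 215) (nat_lit 125))) (XT.nd (nat_lit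 78) (nat_lit 0) (nat_lit 76) (XT.lf (nat_lit 0) (nat_lit 7987777265) (nat_lit 532) (nat_lit 5602515757) (nat_lit 532) (nat_lit 5602515757) (nat_lit 37) (nat_lit 3) (nat_lit 44) (nat_lit 3) (nat_lit 44) (nat_lit 5) (nat_lit 216) (nat_lit 216) (nat_lit 168)) (XT.nd (nat_lit 78) (nat_lit 0) (nat_lit 0) (XT.lf (nat_lit 0) (nat_lit 17832849586) (nat_lit 456) (nat_lit 20211223466) (nat_lit 532) (nat_lit 3167392657) (nat_lit 38) (nat_lit 5) (nat_lit 44) (nat_lit 5) (nat_lit 45) (nat_lit 5) (nat_lit 217) (nat_lit 216) (nat_lit 167)) (XT.lf (nat_lit 76) (nat_lit 14222467346) (nat_lit 0) (nat_lit 7161941728) (nat_lit 532) (nat_lit 22963589447) (nat_lit 39) (nat_lit 5) (nat_lit 38) (nat_lit 5) (nat_lit 45) (nat_lit 5) (nat_lit 218) (nat_lit 216) (nat_lit 166))))) (XT.nd (nat_lit 234) (nat_lit 684) (nat_lit 0) (XT.nd (nat_lit 78) (nat_lit 380) (nat_lit 0) (XT.lf (nat_lit 76) (nat_lit 6769841403)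 (nat_lit 0) (nat_lit 20136011967) (nat_lit 532) (nat_lit 20934238903) (nat_lit 40) (nat_lit 5) (nat_lit 39) (nat_lit 5) (nat_lit 46) (nat_lit 5) (nat_lit 219) (nat_lit 216) (nat_lit 165)) (XT.nd (nat_lit 78) (nat_lit 456) (nat_lit 0) (XT.lf (nat_lit 0) (nat_lit 34712294170) (nat_lit 456) (nat_lit 1360643787) (nat_lit 76) (nat_lit 15666565907) (nat_lit 40) (nat_lit 5) (nat_lit 46) (nat_lit 5) (nat_lit 41) (nat_lit 5) (nat_lit 220) (nat_lit 216) (nat_lit 164)) (XT.lf (nat_lit 0) (nat_lit 45362134261) (nat_lit 532) (nat_lit 10064243961) (nat_lit 76) (nat_lit 663694461) (nat_lit 34) (nat_lit 5) (nat_lit 41) (nat_lit 5) (nat_lit 35) (nat_lit 5) (nat_lit 221) (nat_lit 216) (nat_lit 163)))) (XT.nd (nat_lit 78) (nat_lit 456) (nat_lit 0) (XT.lf (nat_lit 0) (nat_lit 40533731995) (nat_lit 228) (nat_lit 19081213638) (nat_lit 304) (nat_lit 1317876476) (nat_lit 31) (nat_lit 5) (nat_lit 34) (nat_lit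 5) (nat_lit 35) (nat_lit 5) (nat_lit 222) (nat_lit 216) (nat_lit 162)) (XT.nd (nat_lit 78) (nat_lit 228) (nat_lit 0) (XT.lf (nat_lit 0) (nat_lit 10728873673) (nat_lit 228) (nat_lit 32649991091) (nat_lit 76) (nat_lit 22968814788) (nat_lit 28) (nat_lit 5) (nat_lit 31) (nat_lit 5) (nat_lit 29) (nat_lit 5) (nat_lit 223) (nat_lit 216) (nat_lit 161)) (XT.lf (nat_lit 0) (nat_lit 25295365662) (nat_lit 228) (nat_lit 950560554) (nat_lit 304) (nat_lit 46186819562) (nat_lit 25) (nat_lit 5) (nat_lit 28) (nat_lit 5) (nat_lit 29) (nat_lit 5) (nat_lit 224) (nat_lit 216) (nat_lit 160))))))) (XT.nd (nat_lit 780) (nat_lit 532) (nat_lit 0) (XT.nd (nat_lit 390) (nat_lit 380) (nat_lit 0) (XT.nd (nat_lit 156) (nat_lit 532) (nat_lit 0) (XT.nd (nat_lit 78) (nat_lit 0) (nat_lit 0) (XT.lf (nat_lit 0) (nat_lit 14076822183) (nat_lit 152) (nat_lit 32472442279) (nat_lit 228) (nat_lit 32684630502) (nat_lit 23) (nat_lit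 5) (nat_lit 25) (nat_lit 5) (nat_lit 26) (nat_lit 5) (nat_lit 225) (nat_lit 216) (nat_lit 159)) (XT.lf (nat_lit 0) (nat_lit 71675839987) (nat_lit 228) (nat_lit 35321399) (nat_lit 76) (nat_lit 15201854696) (nat_lit 23) (nat_lit 5) (nat_lit 26) (nat_lit 5) (nat_lit 24) (nat_lit 5) (nat_lit 226) (nat_lit 216) (nat_lit 158))) (XT.nd (nat_lit 78) (nat_lit 304) (nat_lit 0) (XT.lf (nat_lit 0) (nat_lit 7423539534) (nat_lit 228) (nat_lit 17866118025) (nat_lit 76) (nat_lit 70218064451) (nat_lit 20) (nat_lit 5) (nat_lit 23) (nat_lit 5) (nat_lit 21) (nat_lit 5) (nat_lit 227) (nat_lit 216) (nat_lit 157)) (XT.nd (nat_lit 78) (nat_lit 152) (nat_lit 0) (XT.lf (nat_lit 0) (nat_lit 34878742258) (nat_lit 228) (nat_lit 41587545196) (nat_lit 76) (nat_lit 28709890397) (nat_lit 18) (nat_lit 5) (nat_lit 21) (nat_lit 5) (nat_lit 19) (nat_lit 5) (nat_lit 228) (nat_lit 216) (nat_lit 156)) (XT.lf (nat_lit 0) (nat_lit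 43550221730) (nat_lit 152) (nat_lit 25178737020) (nat_lit 228) (nat_lit 47383815901) (nat_lit 16) (nat_lit 5) (nat_lit 18) (nat_lit 5) (nat_lit 19) (nat_lit 5) (nat_lit 229) (nat_lit 216) (nat_lit 155))))) (XT.nd (nat_lit 156) (nat_lit 228) (nat_lit 0) (XT.nd (nat_lit 78) (nat_lit 76) (nat_lit 0) (XT.lf (nat_lit 0) (nat_lit 15299668768) (nat_lit 76) (nat_lit 94776722069) (nat_lit 152) (nat_lit 18419905267) (nat_lit 15) (nat_lit 5) (nat_lit 16) (nat_lit 5) (nat_lit 17) (nat_lit 4) (nat_lit 230) (nat_lit 216) (nat_lit 154)) (XT.lf (nat_lit 0) (nat_lit 17004442933) (nat_lit 152) (nat_lit 22947361120) (nat_lit 76) (nat_lit 102528052828) (nat_lit 14) (nat_lit 5) (nat_lit 16) (nat_lit 5) (nat_lit 15) (nat_lit 5) (nat_lit 231) (nat_lit 216) (nat_lit 153))) (XT.nd (nat_lit 78) (nat_lit 76) (nat_lit 0) (XT.lf (nat_lit 0) (nat_lit 59335057638) (nat_lit 228) (nat_lit 74424017339) (nat_lit 76) (nat_lit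 24548946263) (nat_lit 12) (nat_lit 5) (nat_lit 15) (nat_lit 5) (nat_lit 13) (nat_lit 4) (nat_lit 232) (nat_lit 216) (nat_lit 152)) (XT.nd (nat_lit 78) (nat_lit 0) (nat_lit 0) (XT.lf (nat_lit 0) (nat_lit 32154699859) (nat_lit 76) (nat_lit 78421743896) (nat_lit 152) (nat_lit 65729078117) (nat_lit 11) (nat_lit 5) (nat_lit 12) (nat_lit 5) (nat_lit 13) (nat_lit 4) (nat_lit 233) (nat_lit 216) (nat_lit 151)) (XT.lf (nat_lit 0) (nat_lit 159223253939) (nat_lit 76) (nat_lit 12445247975) (nat_lit 152) (nat_lit 25160993734) (nat_lit 11) (nat_lit 5) (nat_lit 12) (nat_lit 5) (nat_lit 13) (nat_lit 4) (nat_lit 234) (nat_lit 216) (nat_lit 150)))))) (XT.nd (nat_lit 390) (nat_lit 228) (nat_lit 0) (XT.nd (nat_lit 156) (nat_lit 152) (nat_lit 0) (XT.nd (nat_lit 78) (nat_lit 0) (nat_lit 0) (XT.lf (nat_lit 0) (nat_lit 24146134350) (nat_lit 152) (nat_lit 132970276815) (nat_lit 76) (nat_lit 62975990214) (nat_lit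 9) (nat_lit 5) (nat_lit 11) (nat_lit 5) (nat_lit 10) (nat_lit 4) (nat_lit 235) (nat_lit 216) (nat_lit 149)) (XT.lf (nat_lit 0) (nat_lit 80867482297) (nat_lit 152) (nat_lit 14991922300) (nat_lit 76) (nat_lit 150812422435) (nat_lit 9) (nat_lit 5) (nat_lit 11) (nat_lit 5) (nat_lit 10) (nat_lit 4) (nat_lit 236) (nat_lit 216) (nat_lit 148))) (XT.nd (nat_lit 78) (nat_lit 76) (nat_lit 0) (XT.lf (nat_lit 0) (nat_lit 127035127072) (nat_lit 76) (nat_lit 22115447194) (nat_lit 152) (nat_lit 127843312073) (nat_lit 8) (nat_lit 5) (nat_lit 9) (nat_lit 5) (nat_lit 10) (nat_lit 4) (nat_lit 237) (nat_lit 216) (nat_lit 147)) (XT.nd (nat_lit 78) (nat_lit 76) (nat_lit 0) (XT.lf (nat_lit 0) (nat_lit 229630108972) (nat_lit 152) (nat_lit 22076995936) (nat_lit 0) (nat_lit 60000834062) (nat_lit 8) (nat_lit 5) (nat_lit 10) (nat_lit 4) (nat_lit 8) (nat_lit 4) (nat_lit 238) (nat_lit 216) (nat_lit 146)) (XT.lf (nat_lit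 0) (nat_lit 130922267608) (nat_lit 76) (nat_lit 195018317916) (nat_lit 76) (nat_lit 25387795422) (nat_lit 7) (nat_lit 4) (nat_lit 8) (nat_lit 5) (nat_lit 8) (nat_lit 4) (nat_lit 239) (nat_lit 216) (nat_lit 145))))) (XT.nd (nat_lit 234) (nat_lit 76) (nat_lit 0) (XT.nd (nat_lit 78) (nat_lit 76) (nat_lit 0) (XT.lf (nat_lit 0) (nat_lit 38472699952) (nat_lit 152) (nat_lit 89608391448) (nat_lit 76) (nat_lit 268681557399) (nat_lit 6) (nat_lit 5) (nat_lit 8) (nat_lit 5) (nat_lit 7) (nat_lit 4) (nat_lit 240) (nat_lit 216) (nat_lit 144)) (XT.nd (nat_lit 78) (nat_lit 0) (nat_lit 0) (XT.lf (nat_lit 0) (nat_lit 63269898425) (nat_lit 76) (nat_lit 48702432886) (nat_lit 152) (nat_lit 336861909129) (nat_lit 5) (nat_lit 5) (nat_lit 6) (nat_lit 5) (nat_lit 7) (nat_lit 4) (nat_lit 241) (nat_lit 216) (nat_lit 143)) (XT.lf (nat_lit 0) (nat_lit 200196642928) (nat_lit 152) (nat_lit 265095243697) (nat_lit 0)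 (nat_lit 43128706808) (nat_lit 5) (nat_lit 5) (nat_lit 7) (nat_lit 4) (nat_lit 5) (nat_lit 4) (nat_lit 242) (nat_lit 216) (nat_lit 142)))) (XT.nd (nat_lit 78) (nat_lit 76) (nat_lit 0) (XT.lf (nat_lit 0) (nat_lit 303000719305) (nat_lit 152) (nat_lit 127904369181) (nat_lit 0) (nat_lit 145932122712) (nat_lit 5) (nat_lit 5) (nat_lit 7) (nat_lit 4) (nat_lit 5) (nat_lit 4) (nat_lit 243) (nat_lit 216) (nat_lit 141)) (XT.nd (nat_lit 78) (nat_lit 0) (nat_lit 0) (XT.lf (nat_lit 0) (nat_lit 31436317414) (nat_lit 76) (nat_lit 390544376637) (nat_lit 76) (nat_lit 233475205720) (nat_lit 4) (nat_lit 4) (nat_lit 5) (nat_lit 5) (nat_lit 5) (nat_lit 4) (nat_lit 244) (nat_lit 216) (nat_lit 140)) (XT.lf (nat_lit 0) (nat_lit 222422333758) (nat_lit 76) (nat_lit 340108440220) (nat_lit 76) (nat_lit 183038769891) (nat_lit 4) (nat_lit 4) (nat_lit 5) (nat_lit 5) (nat_lit 5) (nat_lit 4) (nat_lit 245) (nat_lit 216)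 (nat_lit 139))))))))
noncomputable def xc45 : XT := (XT.nd (nat_lit 29484) (nat_lit 0) (nat_lit 228) (XT.nd (nat_lit 780) (nat_lit 0) (nat_lit 0) (XT.nd (nat_lit 390) (nat_lit 0) (nat_lit 0) (XT.nd (nat_lit 156) (nat_lit 152) (nat_lit 0) (XT.nd (nat_lit 78) (nat_lit 0) (nat_lit 0) (XT.lf (nat_lit 0) (nat_lit 442055145362) (nat_lit 76) (nat_lit 282107621293) (nat_lit 76) (nat_lit 125037516693) (nat_lit 4) (nat_lit 4) (nat_lit 5) (nat_lit 5) (nat_lit 5) (nat_lit 4) (nat_lit 246) (nat_lit 216) (nat_lit 138)) (XT.lf (nat_lit 0) (nat_lit 694631915931) (nat_lit 76) (nat_lit 215407121227) (nat_lit 76) (nat_lit 58336638999) (nat_lit 4) (nat_lit 4) (nat_lit 5) (nat_lit 5) (nat_lit 5) (nat_lit 4) (nat_lit 247) (nat_lit 216) (nat_lit 137))) (XT.nd (nat_lit 78) (nat_lit 76) (nat_lit 0) (XT.lf (nat_lit 0) (nat_lit 17449994571) (nat_lit 152) (nat_lit 120774821889) (nat_lit 76) (nat_lit 967167256543)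 (nat_lit 3) (nat_lit 5) (nat_lit 5) (nat_lit 5) (nat_lit 4) (nat_lit 4) (nat_lit 248) (nat_lit 216) (nat_lit 136)) (XT.nd (nat_lit 78) (nat_lit 0) (nat_lit 0) (XT.lf (nat_lit 0) (nat_lit 56343805522) (nat_lit 76) (nat_lit 46259512584) (nat_lit 152) (nat_lit 1160120162791) (nat_lit 2) (nat_lit 5) (nat_lit 3) (nat_lit 5) (nat_lit 4) (nat_lit 4) (nat_lit 249) (nat_lit 216) (nat_lit 135)) (XT.lf (nat_lit 0) (nat_lit 205567814214) (nat_lit 152) (nat_lit 1177552348094) (nat_lit 0) (nat_lit 60131384181) (nat_lit 2) (nat_lit 5) (nat_lit 4) (nat_lit 4) (nat_lit 2) (nat_lit 4) (nat_lit 250) (nat_lit 216) (nat_lit 134))))) (XT.nd (nat_lit 156) (nat_lit 0) (nat_lit 0) (XT.nd (nat_lit 78) (nat_lit 0) (nat_lit 0) (XT.lf (nat_lit 0) (nat_lit 325256081428) (nat_lit 152) (nat_lit 1145680961660) (nat_lit 0) (nat_lit 179819451479) (nat_lit 2) (nat_lit 5) (nat_lit 4) (nat_lit 4) (nat_lit 2) (nat_lit 4) (nat_lit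 251) (nat_lit 216) (nat_lit 133)) (XT.lf (nat_lit 0) (nat_lit 462897304326) (nat_lit 152) (nat_lit 1109029403079) (nat_lit 0) (nat_lit 317460500536) (nat_lit 2) (nat_lit 5) (nat_lit 4) (nat_lit 4) (nat_lit 2) (nat_lit 4) (nat_lit 252) (nat_lit 216) (nat_lit 132))) (XT.nd (nat_lit 78) (nat_lit 0) (nat_lit 0) (XT.lf (nat_lit 0) (nat_lit 621184463355) (nat_lit 152) (nat_lit 1066880576640) (nat_lit 0) (nat_lit 475747508399) (nat_lit 2) (nat_lit 5) (nat_lit 4) (nat_lit 4) (nat_lit 2) (nat_lit 4) (nat_lit 253) (nat_lit 216) (nat_lit 131)) (XT.nd (nat_lit 78) (nat_lit 0) (nat_lit 0) (XT.lf (nat_lit 0) (nat_lit 803214481192) (nat_lit 152) (nat_lit 1018409831390) (nat_lit 0) (nat_lit 657777394788) (nat_lit 2) (nat_lit 5) (nat_lit 4) (nat_lit 4) (nat_lit 2) (nat_lit 4) (nat_lit 254) (nat_lit 216) (nat_lit 130)) (XT.lf (nat_lit 0) (nat_lit 1012548814707) (nat_lit 152) (nat_lit 962668826662) (nat_lit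 0) (nat_lit 867111614001) (nat_lit 2) (nat_lit 5) (nat_lit 4) (nat_lit 4) (nat_lit 2) (nat_lit 4) (nat_lit 255) (nat_lit 216) (nat_lit 129)))))) (XT.nd (nat_lit 28236) (nat_lit 0) (nat_lit 2432) (XT.nd (nat_lit 156) (nat_lit 0) (nat_lit 0) (XT.nd (nat_lit 78) (nat_lit 0) (nat_lit 0) (XT.lf (nat_lit 0) (nat_lit 1253283135644) (nat_lit 152) (nat_lit 898566977581) (nat_lit 0) (nat_lit 1107845835544) (nat_lit 2) (nat_lit 5) (nat_lit 4) (nat_lit 4) (nat_lit 2) (nat_lit 4) (nat_lit 256) (nat_lit 216) (nat_lit 128)) (XT.lf (nat_lit 0) (nat_lit 1530127463326) (nat_lit 152) (nat_lit 824850117534) (nat_lit 0) (nat_lit 1384690076796) (nat_lit 2) (nat_lit 5) (nat_lit 4) (nat_lit 4) (nat_lit 2) (nat_lit 4) (nat_lit 257) (nat_lit 216) (nat_lit 127))) (XT.nd (nat_lit 78) (nat_lit 0) (nat_lit 0) (XT.lf (nat_lit 0) (nat_lit 1848498317206) (nat_lit 152) (nat_lit 740075960129) (nat_lit 0) (nat_lit 1703060855520)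 (nat_lit 2) (nat_lit 5) (nat_lit 4) (nat_lit 4) (nat_lit 2) (nat_lit 4) (nat_lit 258) (nat_lit 216) (nat_lit 126)) (XT.nd (nat_lit 78) (nat_lit 0) (nat_lit 0) (XT.lf (nat_lit 0) (nat_lit 2214624692251) (nat_lit 152) (nat_lit 642585880547) (nat_lit 0) (nat_lit 2069187165213) (nat_lit 2) (nat_lit 5) (nat_lit 4) (nat_lit 4) (nat_lit 2) (nat_lit 4) (nat_lit 259) (nat_lit 216) (nat_lit 125)) (XT.lf (nat_lit 0) (nat_lit 2635669930584) (nat_lit 152) (nat_lit 530472464188) (nat_lit 0) (nat_lit 2490232346717) (nat_lit 2) (nat_lit 5) (nat_lit 4) (nat_lit 4) (nat_lit 2) (nat_lit 4) (nat_lit 260) (nat_lit 216) (nat_lit 124))))) (XT.nd (nat_lit 234) (nat_lit 228) (nat_lit 0) (XT.nd (nat_lit 78) (nat_lit 0) (nat_lit 76) (XT.lf (nat_lit 0) (nat_lit 9254772874) (nat_lit 532) (nat_lit 6405561104) (nat_lit 532) (nat_lit 6405561104) (nat_lit 37) (nat_lit 3) (nat_lit 44) (nat_lit 3) (nat_lit 44) (nat_lit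 5) (nat_lit 217) (nat_lit 217) (nat_lit 166)) (XT.nd (nat_lit 78) (nat_lit 0) (nat_lit 0) (XT.lf (nat_lit 0) (nat_lit 20627848638) (nat_lit 456) (nat_lit 23163008845) (nat_lit 532) (nat_lit 3592150716) (nat_lit 38) (nat_lit 5) (nat_lit 44) (nat_lit 5) (nat_lit 45) (nat_lit 5) (nat_lit 218) (nat_lit 217) (nat_lit 165)) (XT.lf (nat_lit 76) (nat_lit 16428972609) (nat_lit 0) (nat_lit 8269266828) (nat_lit 532) (nat_lit 26292968267) (nat_lit 39) (nat_lit 5) (nat_lit 38) (nat_lit 5) (nat_lit 45) (nat_lit 5) (nat_lit 219) (nat_lit 217) (nat_lit 164)))) (XT.nd (nat_lit 78) (nat_lit 380) (nat_lit 0) (XT.lf (nat_lit 76) (nat_lit 7861219051) (nat_lit 0) (nat_lit 23173967788) (nat_lit 532) (nat_lit 23973010598) (nat_lit 40) (nat_lit 5) (nat_lit 39) (nat_lit 5) (nat_lit 46) (nat_lit 5) (nat_lit 220) (nat_lit 217) (nat_lit 163)) (XT.nd (nat_lit 78) (nat_lit 456) (nat_lit 0) (XT.lf (nat_lit 0) (nat_lit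 40000036807) (nat_lit 456) (nat_lit 1491494887) (nat_lit 76) (nat_lit 18002050008) (nat_lit 40) (nat_lit 5) (nat_lit 46) (nat_lit 5) (nat_lit 41) (nat_lit 5) (nat_lit 221) (nat_lit 217) (nat_lit 162)) (XT.lf (nat_lit 0) (nat_lit 52238295214) (nat_lit 532) (nat_lit 11500633230) (nat_lit 76) (nat_lit 758581041) (nat_lit 34) (nat_lit 5) (nat_lit 41) (nat_lit 5) (nat_lit 35) (nat_lit 5) (nat_lit 222) (nat_lit 217) (nat_lit 161))))))) (XT.nd (nat_lit 780) (nat_lit 684) (nat_lit 0) (XT.nd (nat_lit 390) (nat_lit 532) (nat_lit 0) (XT.nd (nat_lit 156) (nat_lit 532) (nat_lit 0) (XT.nd (nat_lit 78) (nat_lit 228) (nat_lit 0) (XT.lf (nat_lit 0) (nat_lit 46680839098) (nat_lit 228) (nat_lit 21940431143) (nat_lit 304) (nat_lit 1446064360) (nat_lit 31) (nat_lit 5) (nat_lit 34) (nat_lit 5) (nat_lit 35) (nat_lit 5) (nat_lit 223) (nat_lit 217) (nat_lit 160)) (XT.lf (nat_lit 0) (nat_lit 12397309562) (nat_lit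 228) (nat_lit 37477888924) (nat_lit 76) (nat_lit 26419675785) (nat_lit 28) (nat_lit 5) (nat_lit 31) (nat_lit 5) (nat_lit 29) (nat_lit 5) (nat_lit 224) (nat_lit 217) (nat_lit 159))) (XT.nd (nat_lit 78) (nat_lit 304) (nat_lit 0) (XT.lf (nat_lit 0) (nat_lit 29153379978) (nat_lit 228) (nat_lit 1082362895) (nat_lit 304) (nat_lit 53057481572) (nat_lit 25) (nat_lit 5) (nat_lit 28) (nat_lit 5) (nat_lit 29) (nat_lit 5) (nat_lit 225) (nat_lit 217) (nat_lit 158)) (XT.nd (nat_lit 78) (nat_lit 152) (nat_lit 0) (XT.lf (nat_lit 0) (nat_lit 16250482887) (nat_lit 152) (nat_lit 37328915238) (nat_lit 228) (nat_lit 37535588537) (nat_lit 23) (nat_lit 5) (nat_lit 25) (nat_lit 5) (nat_lit 26) (nat_lit 5) (nat_lit 226) (nat_lit 217) (nat_lit 157)) (XT.lf (nat_lit 0) (nat_lit 17456928) (nat_lit 152) (nat_lit 82451996423) (nat_lit 228) (nat_lit 17476985697) (nat_lit 21) (nat_lit 5) (nat_lit 23) (nat_lit 5) (nat_lit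 24) (nat_lit 5) (nat_lit 227) (nat_lit 217) (nat_lit 156))))) (XT.nd (nat_lit 156) (nat_lit 304) (nat_lit 0) (XT.nd (nat_lit 78) (nat_lit 152) (nat_lit 0) (XT.lf (nat_lit 0) (nat_lit 8575794313) (nat_lit 228) (nat_lit 20491514158) (nat_lit 76) (nat_lit 80763352790) (nat_lit 20) (nat_lit 5) (nat_lit 23) (nat_lit 5) (nat_lit 21) (nat_lit 5) (nat_lit 228) (nat_lit 217) (nat_lit 155)) (XT.lf (nat_lit 0) (nat_lit 40145788318) (nat_lit 228) (nat_lit 47773236745) (nat_lit 76) (nat_lit 33030655347) (nat_lit 18) (nat_lit 5) (nat_lit 21) (nat_lit 5) (nat_lit 19) (nat_lit 5) (nat_lit 229) (nat_lit 217) (nat_lit 154))) (XT.nd (nat_lit 78) (nat_lit 152) (nat_lit 0) (XT.lf (nat_lit 0) (nat_lit 50130756416) (nat_lit 152) (nat_lit 28939339470) (nat_lit 228) (nat_lit 54456959897) (nat_lit 16) (nat_lit 5) (nat_lit 18) (nat_lit 5) (nat_lit 19) (nat_lit 5) (nat_lit 230) (nat_lit 217) (nat_lit 153)) (XT.nd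 (nat_lit 78) (nat_lit 76) (nat_lit 0) (XT.lf (nat_lit 0) (nat_lit 17640612639) (nat_lit 76) (nat_lit 108976328299) (nat_lit 152) (nat_lit 21151392610) (nat_lit 15) (nat_lit 5) (nat_lit 16) (nat_lit 5) (nat_lit 17) (nat_lit 4) (nat_lit 231) (nat_lit 217) (nat_lit 152)) (XT.lf (nat_lit 0) (nat_lit 19581129170) (nat_lit 152) (nat_lit 26348036603) (nat_lit 76) (nat_lit 117920523924) (nat_lit 14) (nat_lit 5) (nat_lit 16) (nat_lit 5) (nat_lit 15) (nat_lit 5) (nat_lit 232) (nat_lit 217) (nat_lit 151)))))) (XT.nd (nat_lit 390) (nat_lit 304) (nat_lit 0) (XT.nd (nat_lit 156) (nat_lit 152) (nat_lit 0) (XT.nd (nat_lit 78) (nat_lit 76) (nat_lit 0) (XT.lf (nat_lit 0) (nat_lit 68259200154) (nat_lit 228) (nat_lit 85548105120) (nat_lit 76) (nat_lit 28244952675) (nat_lit 12) (nat_lit 5) (nat_lit 15) (nat_lit 5) (nat_lit 13) (nat_lit 4) (nat_lit 233) (nat_lit 217) (nat_lit 150)) (XT.lf (nat_lit 0) (nat_lit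 37014074925) (nat_lit 76) (nat_lit 90170473867) (nat_lit 152) (nat_lit 75565021789) (nat_lit 11) (nat_lit 5) (nat_lit 12) (nat_lit 5) (nat_lit 13) (nat_lit 4) (nat_lit 234) (nat_lit 217) (nat_lit 149))) (XT.nd (nat_lit 78) (nat_lit 152) (nat_lit 0) (XT.lf (nat_lit 0) (nat_lit 183138194280) (nat_lit 76) (nat_lit 14299398986) (nat_lit 152) (nat_lit 28914779276) (nat_lit 11) (nat_lit 5) (nat_lit 12) (nat_lit 5) (nat_lit 13) (nat_lit 4) (nat_lit 235) (nat_lit 217) (nat_lit 148)) (XT.nd (nat_lit 78) (nat_lit 0) (nat_lit 0) (XT.lf (nat_lit 0) (nat_lit 27785885710) (nat_lit 152) (nat_lit 152884917160) (nat_lit 76) (nat_lit 72433998268) (nat_lit 9) (nat_lit 5) (nat_lit 11) (nat_lit 5) (nat_lit 10) (nat_lit 4) (nat_lit 236) (nat_lit 217) (nat_lit 147)) (XT.lf (nat_lit 0) (nat_lit 93013110039) (nat_lit 152) (nat_lit 17213840056) (nat_lit 76) (nat_lit 173444381037) (nat_lit 9) (nat_lit 5) (nat_lit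 11) (nat_lit 5) (nat_lit 10) (nat_lit 4) (nat_lit 237) (nat_lit 217) (nat_lit 146))))) (XT.nd (nat_lit 234) (nat_lit 152) (nat_lit 0) (XT.nd (nat_lit 78) (nat_lit 76) (nat_lit 0) (XT.lf (nat_lit 0) (nat_lit 146114992260) (nat_lit 76) (nat_lit 25422242638) (nat_lit 152) (nat_lit 147004582761) (nat_lit 8) (nat_lit 5) (nat_lit 9) (nat_lit 5) (nat_lit 10) (nat_lit 4) (nat_lit 238) (nat_lit 217) (nat_lit 145)) (XT.nd (nat_lit 78) (nat_lit 76) (nat_lit 0) (XT.lf (nat_lit 0) (nat_lit 264087084046) (nat_lit 152) (nat_lit 25366376010) (nat_lit 0) (nat_lit 69009650737) (nat_lit 8) (nat_lit 5) (nat_lit 10) (nat_lit 4) (nat_lit 8) (nat_lit 4) (nat_lit 239) (nat_lit 217) (nat_lit 144)) (XT.lf (nat_lit 0) (nat_lit 150580900543) (nat_lit 76) (nat_lit 224262094529) (nat_lit 76) (nat_lit 29183717867) (nat_lit 7) (nat_lit 4) (nat_lit 8) (nat_lit 5) (nat_lit 8) (nat_lit 4) (nat_lit 240) (nat_lit 217) (nat_lit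 143)))) (XT.nd (nat_lit 78) (nat_lit 76) (nat_lit 0) (XT.lf (nat_lit 0) (nat_lit 44253721667) (nat_lit 152) (nat_lit 103031455899) (nat_lit 76) (nat_lit 308991043585) (nat_lit 6) (nat_lit 5) (nat_lit 8) (nat_lit 5) (nat_lit 7) (nat_lit 4) (nat_lit 241) (nat_lit 217) (nat_lit 142)) (XT.nd (nat_lit 78) (nat_lit 0) (nat_lit 0) (XT.lf (nat_lit 0) (nat_lit 72777037402) (nat_lit 76) (nat_lit 56000341290) (nat_lit 152) (nat_lit 387381248408) (nat_lit 5) (nat_lit 5) (nat_lit 6) (nat_lit 5) (nat_lit 7) (nat_lit 4) (nat_lit 242) (nat_lit 217) (nat_lit 141)) (XT.lf (nat_lit 0) (nat_lit 230234293292) (nat_lit 152) (nat_lit 304844552610) (nat_lit 0) (nat_lit 49604172414) (nat_lit 5) (nat_lit 5) (nat_lit 7) (nat_lit 4) (nat_lit 5) (nat_lit 4) (nat_lit 243) (nat_lit 217) (nat_lit 140))))))))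
noncomputable def xc46 : XT := (XT.nd (nat_lit 29562) (nat_lit 0) (nat_lit 304) (XT.nd (nat_lit 780) (nat_lit 0) (nat_lit 0) (XT.nd (nat_lit 390) (nat_lit 152) (nat_lit 0) (XT.nd (nat_lit 156) (nat_lit 0) (nat_lit 0) (XT.nd (nat_lit 78) (nat_lit 76) (nat_lit 0) (XT.lf (nat_lit 0) (nat_lit 348457917570) (nat_lit 152) (nat_lit 147077000522) (nat_lit 0) (nat_lit 167827297280) (nat_lit 5) (nat_lit 5) (nat_lit 7) (nat_lit 4) (nat_lit 5) (nat_lit 4) (nat_lit 244) (nat_lit 217) (nat_lit 139)) (XT.lf (nat_lit 0) (nat_lit 36163686643) (nat_lit 76) (nat_lit 449120563770) (nat_lit 76) (nat_lit 268489509208) (nat_lit 4) (nat_lit 4) (nat_lit 5) (nat_lit 5) (nat_lit 5) (nat_lit 4) (nat_lit 245) (nat_lit 217) (nat_lit 138))) (XT.nd (nat_lit 78) (nat_lit 0) (nat_lit 0) (XT.lf (nat_lit 0) (nat_lit 255796050445) (nat_lit 76) (nat_lit 391119950285) (nat_lit 76) (nat_lit 210488518096) (nat_lit 4) (nat_lit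 4) (nat_lit 5) (nat_lit 5) (nat_lit 5) (nat_lit 4) (nat_lit 246) (nat_lit 217) (nat_lit 137)) (XT.nd (nat_lit 78) (nat_lit 0) (nat_lit 0) (XT.lf (nat_lit 0) (nat_lit 508372431621) (nat_lit 76) (nat_lit 324419628863) (nat_lit 76) (nat_lit 143787868302) (nat_lit 4) (nat_lit 4) (nat_lit 5) (nat_lit 5) (nat_lit 5) (nat_lit 4) (nat_lit 247) (nat_lit 217) (nat_lit 136)) (XT.lf (nat_lit 0) (nat_lit 798834541977) (nat_lit 76) (nat_lit 247714593216) (nat_lit 76) (nat_lit 67082547115) (nat_lit 4) (nat_lit 4) (nat_lit 5) (nat_lit 5) (nat_lit 5) (nat_lit 4) (nat_lit 248) (nat_lit 217) (nat_lit 135))))) (XT.nd (nat_lit 156) (nat_lit 0) (nat_lit 0) (XT.nd (nat_lit 78) (nat_lit 76) (nat_lit 0) (XT.lf (nat_lit 0) (nat_lit 20071283529) (nat_lit 152) (nat_lit 138884024656) (nat_lit 76) (nat_lit 1112245267857) (nat_lit 3) (nat_lit 5) (nat_lit 5) (nat_lit 5) (nat_lit 4) (nat_lit 4) (nat_lit 249) (nat_lit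 217) (nat_lit 134)) (XT.lf (nat_lit 0) (nat_lit 64801802615) (nat_lit 76) (nat_lit 53195463212) (nat_lit 152) (nat_lit 1334134457090) (nat_lit 2) (nat_lit 5) (nat_lit 3) (nat_lit 5) (nat_lit 4) (nat_lit 4) (nat_lit 250) (nat_lit 217) (nat_lit 133))) (XT.nd (nat_lit 78) (nat_lit 0) (nat_lit 0) (XT.lf (nat_lit 0) (nat_lit 236406048594) (nat_lit 152) (nat_lit 1354179430917) (nat_lit 0) (nat_lit 69153550395) (nat_lit 2) (nat_lit 5) (nat_lit 4) (nat_lit 4) (nat_lit 2) (nat_lit 4) (nat_lit 251) (nat_lit 217) (nat_lit 132)) (XT.nd (nat_lit 78) (nat_lit 0) (nat_lit 0) (XT.lf (nat_lit 0) (nat_lit 374047156466) (nat_lit 152) (nat_lit 1317528089047) (nat_lit 0) (nat_lit 206794507102) (nat_lit 2) (nat_lit 5) (nat_lit 4) (nat_lit 4) (nat_lit 2) (nat_lit 4) (nat_lit 252) (nat_lit 217) (nat_lit 131)) (XT.lf (nat_lit 0) (nat_lit 532334215474) (nat_lit 152) (nat_lit 1275379451052) (nat_lit 0) (nat_lit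 365081434661) (nat_lit 2) (nat_lit 5) (nat_lit 4) (nat_lit 4) (nat_lit 2) (nat_lit 4) (nat_lit 253) (nat_lit 217) (nat_lit 130)))))) (XT.nd (nat_lit 390) (nat_lit 0) (nat_lit 0) (XT.nd (nat_lit 156) (nat_lit 0) (nat_lit 0) (XT.nd (nat_lit 78) (nat_lit 0) (nat_lit 0) (XT.lf (nat_lit 0) (nat_lit 714364146335) (nat_lit 152) (nat_lit 1226908869667) (nat_lit 0) (nat_lit 547111251220) (nat_lit 2) (nat_lit 5) (nat_lit 4) (nat_lit 4) (nat_lit 2) (nat_lit 4) (nat_lit 254) (nat_lit 217) (nat_lit 129)) (XT.lf (nat_lit 0) (nat_lit 923698404220) (nat_lit 152) (nat_lit 1171168007430) (nat_lit 0) (nat_lit 756445409712) (nat_lit 2) (nat_lit 5) (nat_lit 4) (nat_lit 4) (nat_lit 2) (nat_lit 4) (nat_lit 255) (nat_lit 217) (nat_lit 128))) (XT.nd (nat_lit 78) (nat_lit 0) (nat_lit 0) (XT.lf (nat_lit 0) (nat_lit 1164432659392) (nat_lit 152) (nat_lit 1107066282255) (nat_lit 0) (nat_lit 997179578453) (nat_lit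 2) (nat_lit 5) (nat_lit 4) (nat_lit 4) (nat_lit 2) (nat_lit 4) (nat_lit 256) (nat_lit 217) (nat_lit 127)) (XT.nd (nat_lit 78) (nat_lit 0) (nat_lit 0) (XT.lf (nat_lit 0) (nat_lit 1441276929885) (nat_lit 152) (nat_lit 1033349529951) (nat_lit 0) (nat_lit 1274023773791) (nat_lit 2) (nat_lit 5) (nat_lit 4) (nat_lit 4) (nat_lit 2) (nat_lit 4) (nat_lit 257) (nat_lit 217) (nat_lit 126)) (XT.lf (nat_lit 0) (nat_lit 1759647734037) (nat_lit 152) (nat_lit 948575466236) (nat_lit 0) (nat_lit 1592394512590) (nat_lit 2) (nat_lit 5) (nat_lit 4) (nat_lit 4) (nat_lit 2) (nat_lit 4) (nat_lit 258) (nat_lit 217) (nat_lit 125))))) (XT.nd (nat_lit 28158) (nat_lit 0) (nat_lit 2736) (XT.nd (nat_lit 78) (nat_lit 0) (nat_lit 0) (XT.lf (nat_lit 0) (nat_lit 2125774065841) (nat_lit 152) (nat_lit 851085468124) (nat_lit 0) (nat_lit 1958520787565) (nat_lit 2) (nat_lit 5) (nat_lit 4) (nat_lit 4) (nat_lit 2) (nat_lit 4)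 (nat_lit 259) (nat_lit 217) (nat_lit 124)) (XT.nd (nat_lit 28002) (nat_lit 0) (nat_lit 2660) (XT.lf (nat_lit 0) (nat_lit 2546819266571) (nat_lit 152) (nat_lit 738972122608) (nat_lit 0) (nat_lit 2379565938879) (nat_lit 2) (nat_lit 5) (nat_lit 4) (nat_lit 4) (nat_lit 2) (nat_lit 4) (nat_lit 260) (nat_lit 217) (nat_lit 123)) (XT.lf (nat_lit 0) (nat_lit 10695033432) (nat_lit 532) (nat_lit 7338166903) (nat_lit 532) (nat_lit 7338166903) (nat_lit 37) (nat_lit 3) (nat_lit 44) (nat_lit 3) (nat_lit 44) (nat_lit 5) (nat_lit 218) (nat_lit 218) (nat_lit 164)))) (XT.nd (nat_lit 78) (nat_lit 0) (nat_lit 0) (XT.lf (nat_lit 0) (nat_lit 23812817325) (nat_lit 456) (nat_lit 26577045699) (nat_lit 532) (nat_lit 4092900855) (nat_lit 38) (nat_lit 5) (nat_lit 44) (nat_lit 5) (nat_lit 45) (nat_lit 5) (nat_lit 219) (nat_lit 218) (nat_lit 163)) (XT.nd (nat_lit 78) (nat_lit 0) (nat_lit 76) (XT.lf (nat_lit 76) (nat_lit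 18948619189) (nat_lit 0) (nat_lit 9534635182) (nat_lit 532) (nat_lit 30149836306) (nat_lit 39) (nat_lit 5) (nat_lit 38) (nat_lit 5) (nat_lit 45) (nat_lit 5) (nat_lit 220) (nat_lit 218) (nat_lit 162)) (XT.lf (nat_lit 76) (nat_lit 9097794300) (nat_lit 0) (nat_lit 26663336322) (nat_lit 532) (nat_lit 27492316335) (nat_lit 40) (nat_lit 5) (nat_lit 39) (nat_lit 5) (nat_lit 46) (nat_lit 5) (nat_lit 221) (nat_lit 218) (nat_lit 161))))))) (XT.nd (nat_lit 780) (nat_lit 760) (nat_lit 0) (XT.nd (nat_lit 390) (nat_lit 684) (nat_lit 0) (XT.nd (nat_lit 156) (nat_lit 684) (nat_lit 0) (XT.nd (nat_lit 78) (nat_lit 456) (nat_lit 0) (XT.lf (nat_lit 0) (nat_lit 46061213226) (nat_lit 456) (nat_lit 1659835023) (nat_lit 76) (nat_lit 20691392833) (nat_lit 40) (nat_lit 5) (nat_lit 46) (nat_lit 5) (nat_lit 41) (nat_lit 5) (nat_lit 222) (nat_lit 218) (nat_lit 160)) (XT.lf (nat_lit 0) (nat_lit 60128361473) (nat_lit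 532) (nat_lit 13170342714) (nat_lit 76) (nat_lit 868838829) (nat_lit 34) (nat_lit 5) (nat_lit 41) (nat_lit 5) (nat_lit 35) (nat_lit 5) (nat_lit 223) (nat_lit 218) (nat_lit 159))) (XT.nd (nat_lit 78) (nat_lit 456) (nat_lit 0) (XT.lf (nat_lit 0) (nat_lit 53733662357) (nat_lit 228) (nat_lit 25229254195) (nat_lit 304) (nat_lit 1610426878) (nat_lit 31) (nat_lit 5) (nat_lit 34) (nat_lit 5) (nat_lit 35) (nat_lit 5) (nat_lit 224) (nat_lit 218) (nat_lit 158)) (XT.nd (nat_lit 78) (nat_lit 228) (nat_lit 0) (XT.lf (nat_lit 0) (nat_lit 14301597746) (nat_lit 228) (nat_lit 43046944035) (nat_lit 76) (nat_lit 30386815264) (nat_lit 28) (nat_lit 5) (nat_lit 31) (nat_lit 5) (nat_lit 29) (nat_lit 5) (nat_lit 225) (nat_lit 218) (nat_lit 157)) (XT.lf (nat_lit 0) (nat_lit 33574560486) (nat_lit 228) (nat_lit 1236564784) (nat_lit 304) (nat_lit 60972730708) (nat_lit 25) (nat_lit 5) (nat_lit 28) (nat_lit 5) (nat_lit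 29) (nat_lit 5) (nat_lit 226) (nat_lit 218) (nat_lit 156))))) (XT.nd (nat_lit 156) (nat_lit 380) (nat_lit 0) (XT.nd (nat_lit 78) (nat_lit 152) (nat_lit 0) (XT.lf (nat_lit 0) (nat_lit 18735040104) (nat_lit 152) (nat_lit 42917369058) (nat_lit 228) (nat_lit 43126806560) (nat_lit 23) (nat_lit 5) (nat_lit 25) (nat_lit 5) (nat_lit 26) (nat_lit 5) (nat_lit 227) (nat_lit 218) (nat_lit 155)) (XT.lf (nat_lit 0) (nat_lit 65607032) (nat_lit 152) (nat_lit 94806979414) (nat_lit 228) (nat_lit 20063087483) (nat_lit 21) (nat_lit 5) (nat_lit 23) (nat_lit 5) (nat_lit 24) (nat_lit 5) (nat_lit 228) (nat_lit 218) (nat_lit 154))) (XT.nd (nat_lit 78) (nat_lit 304) (nat_lit 0) (XT.lf (nat_lit 0) (nat_lit 9891444254) (nat_lit 228) (nat_lit 23524015142) (nat_lit 76) (nat_lit 92887366991) (nat_lit 20) (nat_lit 5) (nat_lit 23) (nat_lit 5) (nat_lit 21) (nat_lit 5) (nat_lit 229) (nat_lit 218) (nat_lit 153)) (XT.nd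 (nat_lit 78) (nat_lit 152) (nat_lit 0) (XT.lf (nat_lit 0) (nat_lit 46194299077) (nat_lit 228) (nat_lit 54899569908) (nat_lit 76) (nat_lit 37996052433) (nat_lit 18) (nat_lit 5) (nat_lit 21) (nat_lit 5) (nat_lit 19) (nat_lit 5) (nat_lit 230) (nat_lit 218) (nat_lit 152)) (XT.lf (nat_lit 0) (nat_lit 57686665853) (nat_lit 152) (nat_lit 33267984736) (nat_lit 228) (nat_lit 62599471072) (nat_lit 16) (nat_lit 5) (nat_lit 18) (nat_lit 5) (nat_lit 19) (nat_lit 5) (nat_lit 231) (nat_lit 218) (nat_lit 151)))))) (XT.nd (nat_lit 390) (nat_lit 380) (nat_lit 0) (XT.nd (nat_lit 156) (nat_lit 228) (nat_lit 0) (XT.nd (nat_lit 78) (nat_lit 76) (nat_lit 0) (XT.lf (nat_lit 0) (nat_lit 20321482271) (nat_lit 76) (nat_lit 125309997143) (nat_lit 152) (nat_lit 24300284151) (nat_lit 15) (nat_lit 5) (nat_lit 16) (nat_lit 5) (nat_lit 17) (nat_lit 4) (nat_lit 232) (nat_lit 218) (nat_lit 150)) (XT.lf (nat_lit 0) (nat_lit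 22537973251) (nat_lit 152) (nat_lit 30268916055) (nat_lit 76) (nat_lit 135618631377) (nat_lit 14) (nat_lit 5) (nat_lit 16) (nat_lit 5) (nat_lit 15) (nat_lit 5) (nat_lit 233) (nat_lit 218) (nat_lit 149))) (XT.nd (nat_lit 78) (nat_lit 76) (nat_lit 0) (XT.lf (nat_lit 0) (nat_lit 78516139814) (nat_lit 228) (nat_lit 98350442008) (nat_lit 76) (nat_lit 32492027881) (nat_lit 12) (nat_lit 5) (nat_lit 15) (nat_lit 5) (nat_lit 13) (nat_lit 4) (nat_lit 234) (nat_lit 218) (nat_lit 148)) (XT.nd (nat_lit 78) (nat_lit 0) (nat_lit 0) (XT.lf (nat_lit 0) (nat_lit 42593535946) (nat_lit 76) (nat_lit 103685056960) (nat_lit 152) (nat_lit 86882067651) (nat_lit 11) (nat_lit 5) (nat_lit 12) (nat_lit 5) (nat_lit 13) (nat_lit 4) (nat_lit 235) (nat_lit 218) (nat_lit 147)) (XT.lf (nat_lit 0) (nat_lit 210632705841) (nat_lit 76) (nat_lit 16434754063) (nat_lit 152) (nat_lit 33236598422) (nat_lit 11) (nat_lit 5) (nat_lit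 12) (nat_lit 5) (nat_lit 13) (nat_lit 4) (nat_lit 236) (nat_lit 218) (nat_lit 146))))) (XT.nd (nat_lit 234) (nat_lit 152) (nat_lit 0) (XT.nd (nat_lit 78) (nat_lit 76) (nat_lit 0) (XT.lf (nat_lit 0) (nat_lit 31967251521) (nat_lit 152) (nat_lit 175794289004) (nat_lit 76) (nat_lit 83307876475) (nat_lit 9) (nat_lit 5) (nat_lit 11) (nat_lit 5) (nat_lit 10) (nat_lit 4) (nat_lit 237) (nat_lit 218) (nat_lit 145)) (XT.nd (nat_lit 78) (nat_lit 76) (nat_lit 0) (XT.lf (nat_lit 0) (nat_lit 106976800853) (nat_lit 152) (nat_lit 19775598038) (nat_lit 76) (nat_lit 199468671642) (nat_lit 9) (nat_lit 5) (nat_lit 11) (nat_lit 5) (nat_lit 10) (nat_lit 4) (nat_lit 238) (nat_lit 218) (nat_lit 144)) (XT.lf (nat_lit 0) (nat_lit 168050839305) (nat_lit 76) (nat_lit 29227623165) (nat_lit 152) (nat_lit 169043757038) (nat_lit 8) (nat_lit 5) (nat_lit 9) (nat_lit 5) (nat_lit 10) (nat_lit 4) (nat_lit 239) (nat_lit 218)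 (nat_lit 143)))) (XT.nd (nat_lit 78) (nat_lit 152) (nat_lit 0) (XT.lf (nat_lit 0) (nat_lit 303709567241) (nat_lit 152) (nat_lit 29154569223) (nat_lit 0) (nat_lit 79367670420) (nat_lit 8) (nat_lit 5) (nat_lit 10) (nat_lit 4) (nat_lit 8) (nat_lit 4) (nat_lit 240) (nat_lit 218) (nat_lit 142)) (XT.nd (nat_lit 78) (nat_lit 76) (nat_lit 0) (XT.lf (nat_lit 0) (nat_lit 173183379892) (nat_lit 76) (nat_lit 257894625286) (nat_lit 76) (nat_lit 33552015155) (nat_lit 7) (nat_lit 4) (nat_lit 8) (nat_lit 5) (nat_lit 8) (nat_lit 4) (nat_lit 241) (nat_lit 218) (nat_lit 141)) (XT.lf (nat_lit 0) (nat_lit 50899429613) (nat_lit 152) (nat_lit 118472416805) (nat_lit 76) (nat_lit 355345184113) (nat_lit 6) (nat_lit 5) (nat_lit 8) (nat_lit 5) (nat_lit 7) (nat_lit 4) (nat_lit 242) (nat_lit 218) (nat_lit 140))))))))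
noncomputable def xc47 : XT := (XT.nd (nat_lit 29640) (nat_lit 0) (nat_lit 304) (XT.nd (nat_lit 780) (nat_lit 0) (nat_lit 0) (XT.nd (nat_lit 390) (nat_lit 152) (nat_lit 0) (XT.nd (nat_lit 156) (nat_lit 76) (nat_lit 0) (XT.nd (nat_lit 78) (nat_lit 0) (nat_lit 0) (XT.lf (nat_lit 0) (nat_lit 83706185989) (nat_lit 76) (nat_lit 64394754277) (nat_lit 152) (nat_lit 445480914241) (nat_lit 5) (nat_lit 5) (nat_lit 6) (nat_lit 5) (nat_lit 7) (nat_lit 4) (nat_lit 243) (nat_lit 218) (nat_lit 139)) (XT.lf (nat_lit 0) (nat_lit 264775602825) (nat_lit 152) (nat_lit 350559910253) (nat_lit 0) (nat_lit 57049455808) (nat_lit 5) (nat_lit 5) (nat_lit 7) (nat_lit 4) (nat_lit 5) (nat_lit 4) (nat_lit 244) (nat_lit 218) (nat_lit 138))) (XT.nd (nat_lit 78) (nat_lit 76) (nat_lit 0) (XT.lf (nat_lit 0) (nat_lit 400731966544) (nat_lit 152) (nat_lit 169128702558) (nat_lit 0) (nat_lit 193005441899) (nat_lit 5) (nat_lit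 5) (nat_lit 7) (nat_lit 4) (nat_lit 5) (nat_lit 4) (nat_lit 245) (nat_lit 218) (nat_lit 137)) (XT.nd (nat_lit 78) (nat_lit 0) (nat_lit 0) (XT.lf (nat_lit 0) (nat_lit 41597254095) (nat_lit 76) (nat_lit 516484512711) (nat_lit 76) (nat_lit 308757659695) (nat_lit 4) (nat_lit 4) (nat_lit 5) (nat_lit 5) (nat_lit 5) (nat_lit 4) (nat_lit 246) (nat_lit 218) (nat_lit 136)) (XT.lf (nat_lit 0) (nat_lit 294173296668) (nat_lit 76) (nat_lit 449784346633) (nat_lit 76) (nat_lit 242057208076) (nat_lit 4) (nat_lit 4) (nat_lit 5) (nat_lit 5) (nat_lit 5) (nat_lit 4) (nat_lit 247) (nat_lit 218) (nat_lit 135))))) (XT.nd (nat_lit 156) (nat_lit 152) (nat_lit 0) (XT.nd (nat_lit 78) (nat_lit 0) (nat_lit 0) (XT.lf (nat_lit 0) (nat_lit 584635112587) (nat_lit 76) (nat_lit 373079446067) (nat_lit 76) (nat_lit 165352059214) (nat_lit 4) (nat_lit 4) (nat_lit 5) (nat_lit 5) (nat_lit 5) (nat_lit 4) (nat_lit 248) (nat_lit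 218) (nat_lit 134)) (XT.lf (nat_lit 0) (nat_lit 918665650425) (nat_lit 76) (nat_lit 284869062959) (nat_lit 76) (nat_lit 77141460196) (nat_lit 4) (nat_lit 4) (nat_lit 5) (nat_lit 5) (nat_lit 5) (nat_lit 4) (nat_lit 249) (nat_lit 218) (nat_lit 133))) (XT.nd (nat_lit 78) (nat_lit 76) (nat_lit 0) (XT.lf (nat_lit 0) (nat_lit 23084841670) (nat_lit 152) (nat_lit 159711319836) (nat_lit 76) (nat_lit 1279084268117) (nat_lit 3) (nat_lit 5) (nat_lit 5) (nat_lit 5) (nat_lit 4) (nat_lit 4) (nat_lit 250) (nat_lit 218) (nat_lit 132)) (XT.nd (nat_lit 78) (nat_lit 0) (nat_lit 0) (XT.lf (nat_lit 0) (nat_lit 74526932186) (nat_lit 76) (nat_lit 61172532214) (nat_lit 152) (nat_lit 1534251805147) (nat_lit 2) (nat_lit 5) (nat_lit 3) (nat_lit 5) (nat_lit 4) (nat_lit 4) (nat_lit 251) (nat_lit 218) (nat_lit 131)) (XT.lf (nat_lit 0) (nat_lit 271869271382) (nat_lit 152) (nat_lit 1557301983065) (nat_lit 0) (nat_lit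 79528441999) (nat_lit 2) (nat_lit 5) (nat_lit 4) (nat_lit 4) (nat_lit 2) (nat_lit 4) (nat_lit 252) (nat_lit 218) (nat_lit 130)))))) (XT.nd (nat_lit 390) (nat_lit 0) (nat_lit 0) (XT.nd (nat_lit 156) (nat_lit 0) (nat_lit 0) (XT.nd (nat_lit 78) (nat_lit 0) (nat_lit 0) (XT.lf (nat_lit 0) (nat_lit 430156243414) (nat_lit 152) (nat_lit 1515153508935) (nat_lit 0) (nat_lit 237815299729) (nat_lit 2) (nat_lit 5) (nat_lit 4) (nat_lit 4) (nat_lit 2) (nat_lit 4) (nat_lit 253) (nat_lit 218) (nat_lit 129)) (XT.lf (nat_lit 0) (nat_lit 612186098645) (nat_lit 152) (nat_lit 1466683070042) (nat_lit 0) (nat_lit 419845055566) (nat_lit 2) (nat_lit 5) (nat_lit 4) (nat_lit 4) (nat_lit 2) (nat_lit 4) (nat_lit 254) (nat_lit 218) (nat_lit 128))) (XT.nd (nat_lit 78) (nat_lit 0) (nat_lit 0) (XT.lf (nat_lit 0) (nat_lit 821520290764) (nat_lit 152) (nat_lit 1410942331710) (nat_lit 0) (nat_lit 629179161256) (nat_lit 2)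 (nat_lit 5) (nat_lit 4) (nat_lit 4) (nat_lit 2) (nat_lit 4) (nat_lit 255) (nat_lit 218) (nat_lit 127)) (XT.nd (nat_lit 78) (nat_lit 0) (nat_lit 0) (XT.lf (nat_lit 0) (nat_lit 1062254488748) (nat_lit 152) (nat_lit 1346840714278) (nat_lit 0) (nat_lit 869913284083) (nat_lit 2) (nat_lit 5) (nat_lit 4) (nat_lit 4) (nat_lit 2) (nat_lit 4) (nat_lit 256) (nat_lit 218) (nat_lit 126)) (XT.lf (nat_lit 0) (nat_lit 1339098709513) (nat_lit 152) (nat_lit 1273124055665) (nat_lit 0) (nat_lit 1146757439495) (nat_lit 2) (nat_lit 5) (nat_lit 4) (nat_lit 4) (nat_lit 2) (nat_lit 4) (nat_lit 257) (nat_lit 218) (nat_lit 125))))) (XT.nd (nat_lit 28236) (nat_lit 0) (nat_lit 2660) (XT.nd (nat_lit 78) (nat_lit 0) (nat_lit 0) (XT.lf (nat_lit 0) (nat_lit 1657469470422) (nat_lit 152) (nat_lit 1188350073420) (nat_lit 0) (nat_lit 1465128143576) (nat_lit 2) (nat_lit 5) (nat_lit 4) (nat_lit 4) (nat_lit 2) (nat_lit 4) (nat_lit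 258) (nat_lit 218) (nat_lit 124)) (XT.nd (nat_lit 78) (nat_lit 0) (nat_lit 0) (XT.lf (nat_lit 0) (nat_lit 2023595764624) (nat_lit 152) (nat_lit 1090860146151) (nat_lit 0) (nat_lit 1831254388362) (nat_lit 2) (nat_lit 5) (nat_lit 4) (nat_lit 4) (nat_lit 2) (nat_lit 4) (nat_lit 259) (nat_lit 218) (nat_lit 123)) (XT.lf (nat_lit 0) (nat_lit 2444640932657) (nat_lit 152) (nat_lit 978746862238) (nat_lit 0) (nat_lit 2252299513424) (nat_lit 2) (nat_lit 5) (nat_lit 4) (nat_lit 4) (nat_lit 2) (nat_lit 4) (nat_lit 260) (nat_lit 218) (nat_lit 122)))) (XT.nd (nat_lit 78) (nat_lit 0) (nat_lit 76) (XT.lf (nat_lit 0) (nat_lit 12338641662) (nat_lit 532) (nat_lit 8417547237) (nat_lit 532) (nat_lit 8417547237) (nat_lit 37) (nat_lit 3) (nat_lit 44) (nat_lit 3) (nat_lit 44) (nat_lit 5) (nat_lit 219) (nat_lit 219) (nat_lit 162)) (XT.nd (nat_lit 78) (nat_lit 0) (nat_lit 0) (XT.lf (nat_lit 0) (nat_lit 27453391259)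 (nat_lit 456) (nat_lit 30517920533) (nat_lit 532) (nat_lit 4678047728) (nat_lit 38) (nat_lit 5) (nat_lit 44) (nat_lit 5) (nat_lit 45) (nat_lit 5) (nat_lit 220) (nat_lit 219) (nat_lit 161)) (XT.lf (nat_lit 76) (nat_lit 21832727333) (nat_lit 0) (nat_lit 10983717665) (nat_lit 532) (nat_lit 34606468879) (nat_lit 39) (nat_lit 5) (nat_lit 38) (nat_lit 5) (nat_lit 45) (nat_lit 5) (nat_lit 221) (nat_lit 219) (nat_lit 160))))))) (XT.nd (nat_lit 858) (nat_lit 760) (nat_lit 0) (XT.nd (nat_lit 390) (nat_lit 912) (nat_lit 0) (XT.nd (nat_lit 156) (nat_lit 836) (nat_lit 0) (XT.nd (nat_lit 78) (nat_lit 0) (nat_lit 76) (XT.lf (nat_lit 76) (nat_lit 10505860338) (nat_lit 0) (nat_lit 30672873342) (nat_lit 532) (nat_lit 31558208510) (nat_lit 40) (nat_lit 5) (nat_lit 39) (nat_lit 5) (nat_lit 46) (nat_lit 5) (nat_lit 222) (nat_lit 219) (nat_lit 159)) (XT.lf (nat_lit 0) (nat_lit 53016649197) (nat_lit 456) (nat_lit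 1866931942) (nat_lit 76) (nat_lit 23786810887) (nat_lit 40) (nat_lit 5) (nat_lit 46) (nat_lit 5) (nat_lit 41) (nat_lit 5) (nat_lit 223) (nat_lit 219) (nat_lit 158))) (XT.nd (nat_lit 78) (nat_lit 456) (nat_lit 0) (XT.lf (nat_lit 0) (nat_lit 69188690912) (nat_lit 532) (nat_lit 15104014725) (nat_lit 76) (nat_lit 996495944) (nat_lit 34) (nat_lit 5) (nat_lit 41) (nat_lit 5) (nat_lit 35) (nat_lit 5) (nat_lit 224) (nat_lit 219) (nat_lit 157)) (XT.nd (nat_lit 78) (nat_lit 228) (nat_lit 0) (XT.lf (nat_lit 0) (nat_lit 61832046225) (nat_lit 228) (nat_lit 29011947338) (nat_lit 304) (nat_lit 1812257725) (nat_lit 31) (nat_lit 5) (nat_lit 34) (nat_lit 5) (nat_lit 35) (nat_lit 5) (nat_lit 225) (nat_lit 219) (nat_lit 156)) (XT.lf (nat_lit 0) (nat_lit 16480630790) (nat_lit 228) (nat_lit 49464191139) (nat_lit 76) (nat_lit 34948004369) (nat_lit 28) (nat_lit 5) (nat_lit 31) (nat_lit 5) (nat_lit 29) (nat_lit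 5) (nat_lit 226) (nat_lit 219) (nat_lit 155))))) (XT.nd (nat_lit 234) (nat_lit 380) (nat_lit 0) (XT.nd (nat_lit 78) (nat_lit 304) (nat_lit 0) (XT.lf (nat_lit 0) (nat_lit 38647170654) (nat_lit 228) (nat_lit 1415885005) (nat_lit 304) (nat_lit 70085844020) (nat_lit 25) (nat_lit 5) (nat_lit 28) (nat_lit 5) (nat_lit 29) (nat_lit 5) (nat_lit 227) (nat_lit 219) (nat_lit 154)) (XT.nd (nat_lit 78) (nat_lit 152) (nat_lit 0) (XT.lf (nat_lit 0) (nat_lit 21580823366) (nat_lit 152) (nat_lit 49346744953) (nat_lit 228) (nat_lit 49566247010) (nat_lit 23) (nat_lit 5) (nat_lit 25) (nat_lit 5) (nat_lit 26) (nat_lit 5) (nat_lit 228) (nat_lit 219) (nat_lit 153)) (XT.lf (nat_lit 0) (nat_lit 109876491) (nat_lit 152) (nat_lit 109018335233) (nat_lit 228) (nat_lit 23045748286) (nat_lit 21) (nat_lit 5) (nat_lit 23) (nat_lit 5) (nat_lit 24) (nat_lit 5) (nat_lit 229) (nat_lit 219) (nat_lit 152)))) (XT.nd (nat_lit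 78) (nat_lit 304) (nat_lit 0) (XT.lf (nat_lit 0) (nat_lit 11397301378) (nat_lit 228) (nat_lit 27021444528) (nat_lit 76) (nat_lit 106827663936) (nat_lit 20) (nat_lit 5) (nat_lit 23) (nat_lit 5) (nat_lit 21) (nat_lit 5) (nat_lit 230) (nat_lit 219) (nat_lit 151)) (XT.nd (nat_lit 78) (nat_lit 152) (nat_lit 0) (XT.lf (nat_lit 0) (nat_lit 53143589505) (nat_lit 228) (nat_lit 63104522523) (nat_lit 76) (nat_lit 43703625730) (nat_lit 18) (nat_lit 5) (nat_lit 21) (nat_lit 5) (nat_lit 19) (nat_lit 5) (nat_lit 231) (nat_lit 219) (nat_lit 150)) (XT.lf (nat_lit 0) (nat_lit 66367110702) (nat_lit 152) (nat_lit 38248915411) (nat_lit 228) (nat_lit 71969707189) (nat_lit 16) (nat_lit 5) (nat_lit 18) (nat_lit 5) (nat_lit 19) (nat_lit 5) (nat_lit 232) (nat_lit 219) (nat_lit 149)))))) (XT.nd (nat_lit 390) (nat_lit 380) (nat_lit 0) (XT.nd (nat_lit 156) (nat_lit 228) (nat_lit 0) (XT.nd (nat_lit 78) (nat_lit 76)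 (nat_lit 0) (XT.lf (nat_lit 0) (nat_lit 23396001577) (nat_lit 76) (nat_lit 144096832896) (nat_lit 152) (nat_lit 27927317435) (nat_lit 15) (nat_lit 5) (nat_lit 16) (nat_lit 5) (nat_lit 17) (nat_lit 4) (nat_lit 233) (nat_lit 219) (nat_lit 148)) (XT.lf (nat_lit 0) (nat_lit 25933546142) (nat_lit 152) (nat_lit 34785566478) (nat_lit 76) (nat_lit 155969009345) (nat_lit 14) (nat_lit 5) (nat_lit 16) (nat_lit 5) (nat_lit 15) (nat_lit 5) (nat_lit 234) (nat_lit 219) (nat_lit 147))) (XT.nd (nat_lit 78) (nat_lit 76) (nat_lit 0) (XT.lf (nat_lit 0) (nat_lit 90307216466) (nat_lit 228) (nat_lit 113080415582) (nat_lit 76) (nat_lit 37373644770) (nat_lit 12) (nat_lit 5) (nat_lit 15) (nat_lit 5) (nat_lit 13) (nat_lit 4) (nat_lit 235) (nat_lit 219) (nat_lit 146)) (XT.nd (nat_lit 78) (nat_lit 0) (nat_lit 0) (XT.lf (nat_lit 0) (nat_lit 49003246703) (nat_lit 76) (nat_lit 119229507008) (nat_lit 152) (nat_lit 99900988455)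 (nat_lit 11) (nat_lit 5) (nat_lit 12) (nat_lit 5) (nat_lit 13) (nat_lit 4) (nat_lit 236) (nat_lit 219) (nat_lit 145)) (XT.lf (nat_lit 0) (nat_lit 242245594643) (nat_lit 76) (nat_lit 18892742392) (nat_lit 152) (nat_lit 38210445278) (nat_lit 11) (nat_lit 5) (nat_lit 12) (nat_lit 5) (nat_lit 13) (nat_lit 4) (nat_lit 237) (nat_lit 219) (nat_lit 144))))) (XT.nd (nat_lit 234) (nat_lit 152) (nat_lit 0) (XT.nd (nat_lit 78) (nat_lit 76) (nat_lit 0) (XT.lf (nat_lit 0) (nat_lit 36772534299) (nat_lit 152) (nat_lit 202145764507) (nat_lit 76) (nat_lit 95810695728) (nat_lit 9) (nat_lit 5) (nat_lit 11) (nat_lit 5) (nat_lit 10) (nat_lit 4) (nat_lit 238) (nat_lit 219) (nat_lit 143)) (XT.nd (nat_lit 78) (nat_lit 76) (nat_lit 0) (XT.lf (nat_lit 0) (nat_lit 123032186242) (nat_lit 152) (nat_lit 22726574398) (nat_lit 76) (nat_lit 229394744372) (nat_lit 9) (nat_lit 5) (nat_lit 11) (nat_lit 5) (nat_lit 10) (nat_lit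 4) (nat_lit 239) (nat_lit 219) (nat_lit 142)) (XT.lf (nat_lit 0) (nat_lit 193272528117) (nat_lit 76) (nat_lit 33605750861) (nat_lit 152) (nat_lit 194391615008) (nat_lit 8) (nat_lit 5) (nat_lit 9) (nat_lit 5) (nat_lit 10) (nat_lit 4) (nat_lit 240) (nat_lit 219) (nat_lit 141)))) (XT.nd (nat_lit 78) (nat_lit 152) (nat_lit 0) (XT.lf (nat_lit 0) (nat_lit 349273125645) (nat_lit 152) (nat_lit 33515079228) (nat_lit 0) (nat_lit 91277790415) (nat_lit 8) (nat_lit 5) (nat_lit 10) (nat_lit 4) (nat_lit 8) (nat_lit 4) (nat_lit 241) (nat_lit 219) (nat_lit 140)) (XT.nd (nat_lit 78) (nat_lit 76) (nat_lit 0) (XT.lf (nat_lit 0) (nat_lit 199172489347) (nat_lit 76) (nat_lit 296573689838) (nat_lit 76) (nat_lit 38577815242) (nat_lit 7) (nat_lit 4) (nat_lit 8) (nat_lit 5) (nat_lit 8) (nat_lit 4) (nat_lit 242) (nat_lit 219) (nat_lit 139)) (XT.lf (nat_lit 0) (nat_lit 58540128323) (nat_lit 152) (nat_lit 136232876695)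 (nat_lit 76) (nat_lit 408651108414) (nat_lit 6) (nat_lit 5) (nat_lit 8) (nat_lit 5) (nat_lit 7) (nat_lit 4) (nat_lit 243) (nat_lit 219) (nat_lit 138))))))))
noncomputable def xc48 : XT := (XT.nd (nat_lit 29718) (nat_lit 0) (nat_lit 304) (XT.nd (nat_lit 780) (nat_lit 0) (nat_lit 0) (XT.nd (nat_lit 390) (nat_lit 152) (nat_lit 0) (XT.nd (nat_lit 156) (nat_lit 76) (nat_lit 0) (XT.nd (nat_lit 78) (nat_lit 0) (nat_lit 0) (XT.lf (nat_lit 0) (nat_lit 96271635987) (nat_lit 76) (nat_lit 74049704124) (nat_lit 152) (nat_lit 512297364096) (nat_lit 5) (nat_lit 5) (nat_lit 6) (nat_lit 5) (nat_lit 7) (nat_lit 4) (nat_lit 244) (nat_lit 219) (nat_lit 137)) (XT.lf (nat_lit 0) (nat_lit 304496605282) (nat_lit 152) (nat_lit 403135333275) (nat_lit 0) (nat_lit 65610395941) (nat_lit 5) (nat_lit 5) (nat_lit 7) (nat_lit 4) (nat_lit 5) (nat_lit 4) (nat_lit 245) (nat_lit 219) (nat_lit 136))) (XT.nd (nat_lit 78) (nat_lit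 76) (nat_lit 0) (XT.lf (nat_lit 0) (nat_lit 460845815467) (nat_lit 152) (nat_lit 194490561406) (nat_lit 0) (nat_lit 221959320586) (nat_lit 5) (nat_lit 5) (nat_lit 7) (nat_lit 4) (nat_lit 5) (nat_lit 4) (nat_lit 246) (nat_lit 219) (nat_lit 135)) (XT.nd (nat_lit 78) (nat_lit 0) (nat_lit 0) (XT.lf (nat_lit 0) (nat_lit 47843658432) (nat_lit 76) (nat_lit 593954062492) (nat_lit 76) (nat_lit 355067319315) (nat_lit 4) (nat_lit 4) (nat_lit 5) (nat_lit 5) (nat_lit 5) (nat_lit 4) (nat_lit 247) (nat_lit 219) (nat_lit 134)) (XT.lf (nat_lit 0) (nat_lit 338305218319) (nat_lit 76) (nat_lit 517249279388) (nat_lit 76) (nat_lit 278362320301) (nat_lit 4) (nat_lit 4) (nat_lit 5) (nat_lit 5) (nat_lit 5) (nat_lit 4) (nat_lit 248) (nat_lit 219) (nat_lit 133))))) (XT.nd (nat_lit 156) (nat_lit 152) (nat_lit 0) (XT.nd (nat_lit 78) (nat_lit 0) (nat_lit 0) (XT.lf (nat_lit 0) (nat_lit 672335533519) (nat_lit 76) (nat_lit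 429038998420) (nat_lit 76) (nat_lit 190151851586) (nat_lit 4) (nat_lit 4) (nat_lit 5) (nat_lit 5) (nat_lit 5) (nat_lit 4) (nat_lit 249) (nat_lit 219) (nat_lit 132)) (XT.lf (nat_lit 0) (nat_lit 1056469979766) (nat_lit 76) (nat_lit 327597366267) (nat_lit 76) (nat_lit 88710056174) (nat_lit 4) (nat_lit 4) (nat_lit 5) (nat_lit 5) (nat_lit 5) (nat_lit 4) (nat_lit 250) (nat_lit 219) (nat_lit 131))) (XT.nd (nat_lit 78) (nat_lit 76) (nat_lit 0) (XT.lf (nat_lit 0) (nat_lit 26549734734) (nat_lit 152) (nat_lit 183664003808) (nat_lit 76) (nat_lit 1470948579473) (nat_lit 3) (nat_lit 5) (nat_lit 5) (nat_lit 5) (nat_lit 4) (nat_lit 4) (nat_lit 251) (nat_lit 219) (nat_lit 130)) (XT.nd (nat_lit 78) (nat_lit 0) (nat_lit 0) (XT.lf (nat_lit 0) (nat_lit 85709646252) (nat_lit 76) (nat_lit 70346710361) (nat_lit 152) (nat_lit 1764387443211) (nat_lit 2) (nat_lit 5) (nat_lit 3) (nat_lit 5) (nat_lit 4) (nat_lit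 4) (nat_lit 252) (nat_lit 219) (nat_lit 129)) (XT.lf (nat_lit 0) (nat_lit 312651412939) (nat_lit 152) (nat_lit 1790893981857) (nat_lit 0) (nat_lit 91459114004) (nat_lit 2) (nat_lit 5) (nat_lit 4) (nat_lit 4) (nat_lit 2) (nat_lit 4) (nat_lit 253) (nat_lit 219) (nat_lit 128)))))) (XT.nd (nat_lit 390) (nat_lit 0) (nat_lit 0) (XT.nd (nat_lit 156) (nat_lit 0) (nat_lit 0) (XT.nd (nat_lit 78) (nat_lit 0) (nat_lit 0) (XT.lf (nat_lit 0) (nat_lit 494681202404) (nat_lit 152) (nat_lit 1742423666869) (nat_lit 0) (nat_lit 273488817040) (nat_lit 2) (nat_lit 5) (nat_lit 4) (nat_lit 4) (nat_lit 2) (nat_lit 4) (nat_lit 254) (nat_lit 219) (nat_lit 127)) (XT.lf (nat_lit 0) (nat_lit 704015337336) (nat_lit 152) (nat_lit 1686683036281) (nat_lit 0) (nat_lit 482822876816) (nat_lit 2) (nat_lit 5) (nat_lit 4) (nat_lit 4) (nat_lit 2) (nat_lit 4) (nat_lit 255) (nat_lit 219) (nat_lit 126))) (XT.nd (nat_lit 78) (nat_lit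 0) (nat_lit 0) (XT.lf (nat_lit 0) (nat_lit 944749485591) (nat_lit 152) (nat_lit 1622581512539) (nat_lit 0) (nat_lit 723556959718) (nat_lit 2) (nat_lit 5) (nat_lit 4) (nat_lit 4) (nat_lit 2) (nat_lit 4) (nat_lit 256) (nat_lit 219) (nat_lit 125)) (XT.nd (nat_lit 78) (nat_lit 0) (nat_lit 0) (XT.lf (nat_lit 0) (nat_lit 1221593663114) (nat_lit 152) (nat_lit 1548864935396) (nat_lit 0) (nat_lit 1000401080412) (nat_lit 2) (nat_lit 5) (nat_lit 4) (nat_lit 4) (nat_lit 2) (nat_lit 4) (nat_lit 257) (nat_lit 219) (nat_lit 124)) (XT.lf (nat_lit 0) (nat_lit 1539964386422) (nat_lit 152) (nat_lit 1464091023994) (nat_lit 0) (nat_lit 1318771754304) (nat_lit 2) (nat_lit 5) (nat_lit 4) (nat_lit 4) (nat_lit 2) (nat_lit 4) (nat_lit 258) (nat_lit 219) (nat_lit 123))))) (XT.nd (nat_lit 28314) (nat_lit 0) (nat_lit 2736) (XT.nd (nat_lit 78) (nat_lit 0) (nat_lit 0) (XT.lf (nat_lit 0) (nat_lit 1906090647926) (nat_lit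 152) (nat_lit 1366601158327) (nat_lit 0) (nat_lit 1684897972838) (nat_lit 2) (nat_lit 5) (nat_lit 4) (nat_lit 4) (nat_lit 2) (nat_lit 4) (nat_lit 259) (nat_lit 219) (nat_lit 122)) (XT.nd (nat_lit 28158) (nat_lit 0) (nat_lit 2660) (XT.lf (nat_lit 0) (nat_lit 2327135787527) (nat_lit 152) (nat_lit 1254487927982) (nat_lit 0) (nat_lit 2105943075073) (nat_lit 2) (nat_lit 5) (nat_lit 4) (nat_lit 4) (nat_lit 2) (nat_lit 4) (nat_lit 260) (nat_lit 219) (nat_lit 121)) (XT.lf (nat_lit 0) (nat_lit 14219194596) (nat_lit 532) (nat_lit 9664039662) (nat_lit 532) (nat_lit 9664039662) (nat_lit 37) (nat_lit 3) (nat_lit 44) (nat_lit 3) (nat_lit 44) (nat_lit 5) (nat_lit 220) (nat_lit 220) (nat_lit 160)))) (XT.nd (nat_lit 78) (nat_lit 0) (nat_lit 0) (XT.lf (nat_lit 0) (nat_lit 31623310220) (nat_lit 456) (nat_lit 35061066442) (nat_lit 532) (nat_lit 5357986830) (nat_lit 38) (nat_lit 5) (nat_lit 44) (nat_lit 5)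 (nat_lit 45) (nat_lit 5) (nat_lit 221) (nat_lit 220) (nat_lit 159)) (XT.nd (nat_lit 78) (nat_lit 0) (nat_lit 76) (XT.lf (nat_lit 76) (nat_lit 25139254782) (nat_lit 0) (nat_lit 12645556756) (nat_lit 532) (nat_lit 39747652539) (nat_lit 39) (nat_lit 5) (nat_lit 38) (nat_lit 5) (nat_lit 45) (nat_lit 5) (nat_lit 222) (nat_lit 220) (nat_lit 158)) (XT.lf (nat_lit 76) (nat_lit 12114553675) (nat_lit 0) (nat_lit 35281393434) (nat_lit 532) (nat_lit 36248117271) (nat_lit 40) (nat_lit 5) (nat_lit 39) (nat_lit 5) (nat_lit 46) (nat_lit 5) (nat_lit 223) (nat_lit 220) (nat_lit 157))))))) (XT.nd (nat_lit 780) (nat_lit 760) (nat_lit 0) (XT.nd (nat_lit 390) (nat_lit 684) (nat_lit 0) (XT.nd (nat_lit 156) (nat_lit 684) (nat_lit 0) (XT.nd (nat_lit 78) (nat_lit 456) (nat_lit 0) (XT.lf (nat_lit 0) (nat_lit 61004121236) (nat_lit 456) (nat_lit 2115305696) (nat_lit 76) (nat_lit 27348563430) (nat_lit 40) (nat_lit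 5) (nat_lit 46) (nat_lit 5) (nat_lit 41) (nat_lit 5) (nat_lit 224) (nat_lit 220) (nat_lit 156)) (XT.lf (nat_lit 0) (nat_lit 79598053315) (nat_lit 532) (nat_lit 17337950094) (nat_lit 76) (nat_lit 1143952408) (nat_lit 34) (nat_lit 5) (nat_lit 41) (nat_lit 5) (nat_lit 35) (nat_lit 5) (nat_lit 225) (nat_lit 220) (nat_lit 155))) (XT.nd (nat_lit 78) (nat_lit 456) (nat_lit 0) (XT.lf (nat_lit 0) (nat_lit 71135839558) (nat_lit 228) (nat_lit 33362457785) (nat_lit 304) (nat_lit 2054052389) (nat_lit 31) (nat_lit 5) (nat_lit 34) (nat_lit 5) (nat_lit 35) (nat_lit 5) (nat_lit 226) (nat_lit 220) (nat_lit 154)) (XT.nd (nat_lit 78) (nat_lit 228) (nat_lit 0) (XT.lf (nat_lit 0) (nat_lit 18978278061) (nat_lit 228) (nat_lit 56853729450) (nat_lit 76) (nat_lit 40192599591) (nat_lit 28) (nat_lit 5) (nat_lit 31) (nat_lit 5) (nat_lit 29) (nat_lit 5) (nat_lit 227) (nat_lit 220) (nat_lit 153)) (XT.lf (nat_lit 0)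 (nat_lit 44471789613) (nat_lit 228) (nat_lit 1623606511) (nat_lit 304) (nat_lit 80573921912) (nat_lit 25) (nat_lit 5) (nat_lit 28) (nat_lit 5) (nat_lit 29) (nat_lit 5) (nat_lit 228) (nat_lit 220) (nat_lit 152))))) (XT.nd (nat_lit 156) (nat_lit 380) (nat_lit 0) (XT.nd (nat_lit 78) (nat_lit 152) (nat_lit 0) (XT.lf (nat_lit 0) (nat_lit 24844810574) (nat_lit 152) (nat_lit 56742534040) (nat_lit 228) (nat_lit 56978816927) (nat_lit 23) (nat_lit 5) (nat_lit 25) (nat_lit 5) (nat_lit 26) (nat_lit 5) (nat_lit 229) (nat_lit 220) (nat_lit 151)) (XT.lf (nat_lit 0) (nat_lit 152390784) (nat_lit 152) (nat_lit 125363757658) (nat_lit 228) (nat_lit 26482344124) (nat_lit 21) (nat_lit 5) (nat_lit 23) (nat_lit 5) (nat_lit 24) (nat_lit 5) (nat_lit 230) (nat_lit 220) (nat_lit 150))) (XT.nd (nat_lit 78) (nat_lit 304) (nat_lit 0) (XT.lf (nat_lit 0) (nat_lit 13123637973) (nat_lit 228) (nat_lit 31051090028) (nat_lit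 76) (nat_lit 122857251634) (nat_lit 20) (nat_lit 5) (nat_lit 23) (nat_lit 5) (nat_lit 21) (nat_lit 5) (nat_lit 231) (nat_lit 220) (nat_lit 149)) (XT.nd (nat_lit 78) (nat_lit 152) (nat_lit 0) (XT.lf (nat_lit 0) (nat_lit 61130360873) (nat_lit 228) (nat_lit 72547529542) (nat_lit 76) (nat_lit 50265343829) (nat_lit 18) (nat_lit 5) (nat_lit 21) (nat_lit 5) (nat_lit 19) (nat_lit 5) (nat_lit 232) (nat_lit 220) (nat_lit 148)) (XT.lf (nat_lit 0) (nat_lit 76342929649) (nat_lit 152) (nat_lit 43979245512) (nat_lit 228) (nat_lit 82750278925) (nat_lit 16) (nat_lit 5) (nat_lit 18) (nat_lit 5) (nat_lit 19) (nat_lit 5) (nat_lit 233) (nat_lit 220) (nat_lit 147)))))) (XT.nd (nat_lit 390) (nat_lit 380) (nat_lit 0) (XT.nd (nat_lit 156) (nat_lit 228) (nat_lit 0) (XT.nd (nat_lit 78) (nat_lit 76) (nat_lit 0) (XT.lf (nat_lit 0) (nat_lit 26925286097) (nat_lit 76) (nat_lit 165704050594) (nat_lit 152) (nat_lit 32102797403)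 (nat_lit 15) (nat_lit 5) (nat_lit 16) (nat_lit 5) (nat_lit 17) (nat_lit 4) (nat_lit 234) (nat_lit 220) (nat_lit 146)) (XT.lf (nat_lit 0) (nat_lit 29834827139) (nat_lit 152) (nat_lit 39985490686) (nat_lit 76) (nat_lit 179370094783) (nat_lit 14) (nat_lit 5) (nat_lit 16) (nat_lit 5) (nat_lit 15) (nat_lit 5) (nat_lit 235) (nat_lit 220) (nat_lit 145))) (XT.nd (nat_lit 78) (nat_lit 76) (nat_lit 0) (XT.lf (nat_lit 0) (nat_lit 103863624593) (nat_lit 228) (nat_lit 130025394573) (nat_lit 76) (nat_lit 42985599014) (nat_lit 12) (nat_lit 5) (nat_lit 15) (nat_lit 5) (nat_lit 13) (nat_lit 4) (nat_lit 236) (nat_lit 220) (nat_lit 144)) (XT.nd (nat_lit 78) (nat_lit 0) (nat_lit 0) (XT.lf (nat_lit 0) (nat_lit 56369371035) (nat_lit 76) (nat_lit 137107650642) (nat_lit 152) (nat_lit 114876012456) (nat_lit 11) (nat_lit 5) (nat_lit 12) (nat_lit 5) (nat_lit 13) (nat_lit 4) (nat_lit 237) (nat_lit 220) (nat_lit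 143)) (XT.lf (nat_lit 0) (nat_lit 278596031516) (nat_lit 76) (nat_lit 21721190780) (nat_lit 152) (nat_lit 43933208359) (nat_lit 11) (nat_lit 5) (nat_lit 12) (nat_lit 5) (nat_lit 13) (nat_lit 4) (nat_lit 238) (nat_lit 220) (nat_lit 142))))) (XT.nd (nat_lit 234) (nat_lit 152) (nat_lit 0) (XT.nd (nat_lit 78) (nat_lit 76) (nat_lit 0) (XT.lf (nat_lit 0) (nat_lit 42296123367) (nat_lit 152) (nat_lit 232454269751) (nat_lit 76) (nat_lit 110187319204) (nat_lit 9) (nat_lit 5) (nat_lit 11) (nat_lit 5) (nat_lit 10) (nat_lit 4) (nat_lit 239) (nat_lit 220) (nat_lit 141)) (XT.nd (nat_lit 78) (nat_lit 76) (nat_lit 0) (XT.lf (nat_lit 0) (nat_lit 141493717589) (nat_lit 152) (nat_lit 26123943660) (nat_lit 76) (nat_lit 263808320478) (nat_lit 9) (nat_lit 5) (nat_lit 11) (nat_lit 5) (nat_lit 10) (nat_lit 4) (nat_lit 240) (nat_lit 220) (nat_lit 140)) (XT.lf (nat_lit 0) (nat_lit 222274040919) (nat_lit 76) (nat_lit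 38642064696) (nat_lit 152) (nat_lit 223543774586) (nat_lit 8) (nat_lit 5) (nat_lit 9) (nat_lit 5) (nat_lit 10) (nat_lit 4) (nat_lit 241) (nat_lit 220) (nat_lit 139)))) (XT.nd (nat_lit 78) (nat_lit 152) (nat_lit 0) (XT.lf (nat_lit 0) (nat_lit 401669480744) (nat_lit 152) (nat_lit 38532756705) (nat_lit 0) (nat_lit 104973216581) (nat_lit 8) (nat_lit 5) (nat_lit 10) (nat_lit 4) (nat_lit 8) (nat_lit 4) (nat_lit 242) (nat_lit 220) (nat_lit 138)) (XT.nd (nat_lit 78) (nat_lit 76) (nat_lit 0) (XT.lf (nat_lit 0) (nat_lit 229057135884) (nat_lit 76) (nat_lit 341055864870) (nat_lit 76) (nat_lit 44359192869) (nat_lit 7) (nat_lit 4) (nat_lit 8) (nat_lit 5) (nat_lit 8) (nat_lit 4) (nat_lit 243) (nat_lit 220) (nat_lit 137)) (XT.lf (nat_lit 0) (nat_lit 67325521310) (nat_lit 152) (nat_lit 156659942315) (nat_lit 76) (nat_lit 469951910165) (nat_lit 6) (nat_lit 5) (nat_lit 8) (nat_lit 5) (nat_lit 7) (nat_lit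 4) (nat_lit 244) (nat_lit 220) (nat_lit 136))))))))
noncomputable def xc49 : XT := (XT.nd (nat_lit 29874) (nat_lit 0) (nat_lit 228) (XT.nd (nat_lit 780) (nat_lit 0) (nat_lit 0) (XT.nd (nat_lit 390) (nat_lit 152) (nat_lit 0) (XT.nd (nat_lit 156) (nat_lit 76) (nat_lit 0) (XT.nd (nat_lit 78) (nat_lit 0) (nat_lit 0) (XT.lf (nat_lit 0) (nat_lit 110719581461) (nat_lit 76) (nat_lit 85153936080) (nat_lit 152) (nat_lit 589137668309) (nat_lit 5) (nat_lit 5) (nat_lit 6) (nat_lit 5) (nat_lit 7) (nat_lit 4) (nat_lit 245) (nat_lit 220) (nat_lit 135)) (XT.lf (nat_lit 0) (nat_lit 350174621241) (nat_lit 152) (nat_lit 463599158018) (nat_lit 0) (nat_lit 75454618291) (nat_lit 5) (nat_lit 5) (nat_lit 7) (nat_lit 4) (nat_lit 5) (nat_lit 4) (nat_lit 246) (nat_lit 220) (nat_lit 134))) (XT.nd (nat_lit 78) (nat_lit 76) (nat_lit 0) (XT.lf (nat_lit 0) (nat_lit 529975753149) (nat_lit 152) (nat_lit 223658514967) (nat_lit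 0) (nat_lit 255255534290) (nat_lit 5) (nat_lit 5) (nat_lit 7) (nat_lit 4) (nat_lit 5) (nat_lit 4) (nat_lit 247) (nat_lit 220) (nat_lit 133)) (XT.nd (nat_lit 78) (nat_lit 0) (nat_lit 0) (XT.lf (nat_lit 0) (nat_lit 55025361241) (nat_lit 76) (nat_lit 683044807309) (nat_lit 76) (nat_lit 408324400702) (nat_lit 4) (nat_lit 4) (nat_lit 5) (nat_lit 5) (nat_lit 5) (nat_lit 4) (nat_lit 248) (nat_lit 220) (nat_lit 132)) (XT.lf (nat_lit 0) (nat_lit 389055482844) (nat_lit 76) (nat_lit 594834615160) (nat_lit 76) (nat_lit 320114045294) (nat_lit 4) (nat_lit 4) (nat_lit 5) (nat_lit 5) (nat_lit 5) (nat_lit 4) (nat_lit 249) (nat_lit 220) (nat_lit 131))))) (XT.nd (nat_lit 156) (nat_lit 152) (nat_lit 0) (XT.nd (nat_lit 78) (nat_lit 0) (nat_lit 0) (XT.lf (nat_lit 0) (nat_lit 773189760745) (nat_lit 76) (nat_lit 493393060239) (nat_lit 76) (nat_lit 218672348409) (nat_lit 4) (nat_lit 4) (nat_lit 5) (nat_lit 5)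 (nat_lit 5) (nat_lit 4) (nat_lit 250) (nat_lit 220) (nat_lit 130)) (XT.lf (nat_lit 0) (nat_lit 1214943865598) (nat_lit 76) (nat_lit 376735416472) (nat_lit 76) (nat_lit 102014581196) (nat_lit 4) (nat_lit 4) (nat_lit 5) (nat_lit 5) (nat_lit 5) (nat_lit 4) (nat_lit 251) (nat_lit 220) (nat_lit 129))) (XT.nd (nat_lit 78) (nat_lit 76) (nat_lit 0) (XT.lf (nat_lit 0) (nat_lit 30533833367) (nat_lit 152) (nat_lit 211210569216) (nat_lit 76) (nat_lit 1691592130016) (nat_lit 3) (nat_lit 5) (nat_lit 5) (nat_lit 5) (nat_lit 4) (nat_lit 4) (nat_lit 252) (nat_lit 220) (nat_lit 128)) (XT.nd (nat_lit 78) (nat_lit 0) (nat_lit 0) (XT.lf (nat_lit 0) (nat_lit 98568871442) (nat_lit 76) (nat_lit 80897430196) (nat_lit 152) (nat_lit 2029043947059) (nat_lit 2) (nat_lit 5) (nat_lit 3) (nat_lit 5) (nat_lit 4) (nat_lit 4) (nat_lit 253) (nat_lit 220) (nat_lit 127)) (XT.lf (nat_lit 0) (nat_lit 359550448774) (nat_lit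 152) (nat_lit 2059525584869) (nat_lit 0) (nat_lit 105179044020) (nat_lit 2) (nat_lit 5) (nat_lit 4) (nat_lit 4) (nat_lit 2) (nat_lit 4) (nat_lit 254) (nat_lit 220) (nat_lit 126)))))) (XT.nd (nat_lit 28626) (nat_lit 0) (nat_lit 2432) (XT.nd (nat_lit 156) (nat_lit 0) (nat_lit 0) (XT.nd (nat_lit 78) (nat_lit 0) (nat_lit 0) (XT.lf (nat_lit 0) (nat_lit 568884533977) (nat_lit 152) (nat_lit 2003785047971) (nat_lit 0) (nat_lit 314513063870) (nat_lit 2) (nat_lit 5) (nat_lit 4) (nat_lit 4) (nat_lit 2) (nat_lit 4) (nat_lit 255) (nat_lit 220) (nat_lit 125)) (XT.lf (nat_lit 0) (nat_lit 809618638990) (nat_lit 152) (nat_lit 1939683605699) (nat_lit 0) (nat_lit 555247112055) (nat_lit 2) (nat_lit 5) (nat_lit 4) (nat_lit 4) (nat_lit 2) (nat_lit 4) (nat_lit 256) (nat_lit 220) (nat_lit 124))) (XT.nd (nat_lit 78) (nat_lit 0) (nat_lit 0) (XT.lf (nat_lit 0) (nat_lit 1086462778911) (nat_lit 152) (nat_lit 1865967099399)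 (nat_lit 0) (nat_lit 832091202560) (nat_lit 2) (nat_lit 5) (nat_lit 4) (nat_lit 4) (nat_lit 2) (nat_lit 4) (nat_lit 257) (nat_lit 220) (nat_lit 123)) (XT.nd (nat_lit 78) (nat_lit 0) (nat_lit 0) (XT.lf (nat_lit 0) (nat_lit 1404833469522) (nat_lit 152) (nat_lit 1781193249600) (nat_lit 0) (nat_lit 1150461850199) (nat_lit 2) (nat_lit 5) (nat_lit 4) (nat_lit 4) (nat_lit 2) (nat_lit 4) (nat_lit 258) (nat_lit 220) (nat_lit 122)) (XT.lf (nat_lit 0) (nat_lit 1770959702594) (nat_lit 152) (nat_lit 1683703437501) (nat_lit 0) (nat_lit 1516588045906) (nat_lit 2) (nat_lit 5) (nat_lit 4) (nat_lit 4) (nat_lit 2) (nat_lit 4) (nat_lit 259) (nat_lit 220) (nat_lit 121))))) (XT.nd (nat_lit 234) (nat_lit 228) (nat_lit 0) (XT.nd (nat_lit 78) (nat_lit 0) (nat_lit 76) (XT.lf (nat_lit 0) (nat_lit 16374574114) (nat_lit 532) (nat_lit 11101441709) (nat_lit 532) (nat_lit 11101441709) (nat_lit 37) (nat_lit 3) (nat_lit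 44) (nat_lit 3) (nat_lit 44) (nat_lit 5) (nat_lit 221) (nat_lit 221) (nat_lit 158)) (XT.nd (nat_lit 78) (nat_lit 0) (nat_lit 0) (XT.lf (nat_lit 0) (nat_lit 36406058377) (nat_lit 456) (nat_lit 40294107564) (nat_lit 532) (nat_lit 6145225075) (nat_lit 38) (nat_lit 5) (nat_lit 44) (nat_lit 5) (nat_lit 45) (nat_lit 5) (nat_lit 222) (nat_lit 221) (nat_lit 157)) (XT.lf (nat_lit 76) (nat_lit 28934051013) (nat_lit 0) (nat_lit 14553189090) (nat_lit 532) (nat_lit 45672154543) (nat_lit 39) (nat_lit 5) (nat_lit 38) (nat_lit 5) (nat_lit 45) (nat_lit 5) (nat_lit 223) (nat_lit 221) (nat_lit 156)))) (XT.nd (nat_lit 78) (nat_lit 380) (nat_lit 0) (XT.lf (nat_lit 76) (nat_lit 13956549040) (nat_lit 0) (nat_lit 40579340891) (nat_lit 532) (nat_lit 41652198745) (nat_lit 40) (nat_lit 5) (nat_lit 39) (nat_lit 5) (nat_lit 46) (nat_lit 5) (nat_lit 224) (nat_lit 221) (nat_lit 155)) (XT.nd (nat_lit 78) (nat_lit 456)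 (nat_lit 0) (XT.lf (nat_lit 0) (nat_lit 70181185288) (nat_lit 456) (nat_lit 2408657476) (nat_lit 76) (nat_lit 31446107613) (nat_lit 40) (nat_lit 5) (nat_lit 46) (nat_lit 5) (nat_lit 41) (nat_lit 5) (nat_lit 225) (nat_lit 221) (nat_lit 154)) (XT.lf (nat_lit 0) (nat_lit 91561246202) (nat_lit 532) (nat_lit 19914697928) (nat_lit 76) (nat_lit 1314019426) (nat_lit 34) (nat_lit 5) (nat_lit 41) (nat_lit 5) (nat_lit 35) (nat_lit 5) (nat_lit 226) (nat_lit 221) (nat_lit 153))))))) (XT.nd (nat_lit 780) (nat_lit 684) (nat_lit 0) (XT.nd (nat_lit 390) (nat_lit 532) (nat_lit 0) (XT.nd (nat_lit 156) (nat_lit 532) (nat_lit 0) (XT.nd (nat_lit 78) (nat_lit 228) (nat_lit 0) (XT.lf (nat_lit 0) (nat_lit 81828133374) (nat_lit 228) (nat_lit 38365857339) (nat_lit 304) (nat_lit 2339442670) (nat_lit 31) (nat_lit 5) (nat_lit 34) (nat_lit 5) (nat_lit 35) (nat_lit 5) (nat_lit 227) (nat_lit 221) (nat_lit 152)) (XT.lf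 (nat_lit 0) (nat_lit 21844341247) (nat_lit 228) (nat_lit 65359036232) (nat_lit 76) (nat_lit 46223300166) (nat_lit 28) (nat_lit 5) (nat_lit 31) (nat_lit 5) (nat_lit 29) (nat_lit 5) (nat_lit 228) (nat_lit 221) (nat_lit 151))) (XT.nd (nat_lit 78) (nat_lit 304) (nat_lit 0) (XT.lf (nat_lit 0) (nat_lit 51163384792) (nat_lit 228) (nat_lit 1863622918) (nat_lit 304) (nat_lit 92641258811) (nat_lit 25) (nat_lit 5) (nat_lit 28) (nat_lit 5) (nat_lit 29) (nat_lit 5) (nat_lit 229) (nat_lit 221) (nat_lit 150)) (XT.nd (nat_lit 78) (nat_lit 152) (nat_lit 0) (XT.lf (nat_lit 0) (nat_lit 28591844978) (nat_lit 152) (nat_lit 65249208923) (nat_lit 228) (nat_lit 65508726700) (nat_lit 23) (nat_lit 5) (nat_lit 25) (nat_lit 5) (nat_lit 26) (nat_lit 5) (nat_lit 230) (nat_lit 221) (nat_lit 149)) (XT.lf (nat_lit 0) (nat_lit 194933954) (nat_lit 152) (nat_lit 144162780393) (nat_lit 228) (nat_lit 30439371429) (nat_lit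 21) (nat_lit 5) (nat_lit 23) (nat_lit 5) (nat_lit 24) (nat_lit 5) (nat_lit 231) (nat_lit 221) (nat_lit 148))))) (XT.nd (nat_lit 156) (nat_lit 304) (nat_lit 0) (XT.nd (nat_lit 78) (nat_lit 152) (nat_lit 0) (XT.lf (nat_lit 0) (nat_lit 15104842564) (nat_lit 228) (nat_lit 35690930335) (nat_lit 76) (nat_lit 141289951369) (nat_lit 20) (nat_lit 5) (nat_lit 23) (nat_lit 5) (nat_lit 21) (nat_lit 5) (nat_lit 232) (nat_lit 221) (nat_lit 147)) (XT.lf (nat_lit 0) (nat_lit 70311433297) (nat_lit 228) (nat_lit 83412516169) (nat_lit 76) (nat_lit 57809814016) (nat_lit 18) (nat_lit 5) (nat_lit 21) (nat_lit 5) (nat_lit 19) (nat_lit 5) (nat_lit 233) (nat_lit 221) (nat_lit 146))) (XT.nd (nat_lit 78) (nat_lit 152) (nat_lit 0) (XT.lf (nat_lit 0) (nat_lit 87810060848) (nat_lit 152) (nat_lit 50570833882) (nat_lit 228) (nat_lit 95151566062) (nat_lit 16) (nat_lit 5) (nat_lit 18) (nat_lit 5) (nat_lit 19) (nat_lit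 5) (nat_lit 234) (nat_lit 221) (nat_lit 145)) (XT.nd (nat_lit 78) (nat_lit 76) (nat_lit 0) (XT.lf (nat_lit 0) (nat_lit 30979114387) (nat_lit 76) (nat_lit 190554132863) (nat_lit 152) (nat_lit 36907920116) (nat_lit 15) (nat_lit 5) (nat_lit 16) (nat_lit 5) (nat_lit 17) (nat_lit 4) (nat_lit 235) (nat_lit 221) (nat_lit 144)) (XT.lf (nat_lit 0) (nat_lit 34318557128) (nat_lit 152) (nat_lit 45969771178) (nat_lit 76) (nat_lit 206279944755) (nat_lit 14) (nat_lit 5) (nat_lit 16) (nat_lit 5) (nat_lit 15) (nat_lit 5) (nat_lit 236) (nat_lit 221) (nat_lit 143)))))) (XT.nd (nat_lit 390) (nat_lit 304) (nat_lit 0) (XT.nd (nat_lit 156) (nat_lit 152) (nat_lit 0) (XT.nd (nat_lit 78) (nat_lit 76) (nat_lit 0) (XT.lf (nat_lit 0) (nat_lit 119450975961) (nat_lit 228) (nat_lit 149516286294) (nat_lit 76) (nat_lit 49437905806) (nat_lit 12) (nat_lit 5) (nat_lit 15) (nat_lit 5) (nat_lit 13) (nat_lit 4) (nat_lit 237)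 (nat_lit 221) (nat_lit 142)) (XT.lf (nat_lit 0) (nat_lit 64836600756) (nat_lit 76) (nat_lit 157669047828) (nat_lit 152) (nat_lit 132099758923) (nat_lit 11) (nat_lit 5) (nat_lit 12) (nat_lit 5) (nat_lit 13) (nat_lit 4) (nat_lit 238) (nat_lit 221) (nat_lit 141))) (XT.nd (nat_lit 78) (nat_lit 152) (nat_lit 0) (XT.lf (nat_lit 0) (nat_lit 320395718039) (nat_lit 76) (nat_lit 24975238605) (nat_lit 152) (nat_lit 50516532743) (nat_lit 11) (nat_lit 5) (nat_lit 12) (nat_lit 5) (nat_lit 13) (nat_lit 4) (nat_lit 239) (nat_lit 221) (nat_lit 140)) (XT.nd (nat_lit 78) (nat_lit 0) (nat_lit 0) (XT.lf (nat_lit 0) (nat_lit 48646370926) (nat_lit 152) (nat_lit 267312308564) (nat_lit 76) (nat_lit 126719212258) (nat_lit 9) (nat_lit 5) (nat_lit 11) (nat_lit 5) (nat_lit 10) (nat_lit 4) (nat_lit 240) (nat_lit 221) (nat_lit 139)) (XT.lf (nat_lit 0) (nat_lit 162722843970) (nat_lit 152) (nat_lit 30033751166) (nat_lit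 76) (nat_lit 303382868700) (nat_lit 9) (nat_lit 5) (nat_lit 11) (nat_lit 5) (nat_lit 10) (nat_lit 4) (nat_lit 241) (nat_lit 221) (nat_lit 138))))) (XT.nd (nat_lit 234) (nat_lit 152) (nat_lit 0) (XT.nd (nat_lit 78) (nat_lit 76) (nat_lit 0) (XT.lf (nat_lit 0) (nat_lit 255623187575) (nat_lit 76) (nat_lit 44434934859) (nat_lit 152) (nat_lit 257070363327) (nat_lit 8) (nat_lit 5) (nat_lit 9) (nat_lit 5) (nat_lit 10) (nat_lit 4) (nat_lit 242) (nat_lit 221) (nat_lit 137)) (XT.nd (nat_lit 78) (nat_lit 76) (nat_lit 0) (XT.lf (nat_lit 0) (nat_lit 461923975636) (nat_lit 152) (nat_lit 44305423022) (nat_lit 0) (nat_lit 120722040356) (nat_lit 8) (nat_lit 5) (nat_lit 10) (nat_lit 4) (nat_lit 8) (nat_lit 4) (nat_lit 243) (nat_lit 221) (nat_lit 136)) (XT.lf (nat_lit 0) (nat_lit 263422340017) (nat_lit 76) (nat_lit 392211311940) (nat_lit 76) (nat_lit 51009068277) (nat_lit 7) (nat_lit 4) (nat_lit 8) (nat_lit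 5) (nat_lit 8) (nat_lit 4) (nat_lit 244) (nat_lit 221) (nat_lit 135)))) (XT.nd (nat_lit 78) (nat_lit 76) (nat_lit 0) (XT.lf (nat_lit 0) (nat_lit 77427656681) (nat_lit 152) (nat_lit 180152985925) (nat_lit 76) (nat_lit 540447067570) (nat_lit 6) (nat_lit 5) (nat_lit 8) (nat_lit 5) (nat_lit 7) (nat_lit 4) (nat_lit 245) (nat_lit 221) (nat_lit 134)) (XT.nd (nat_lit 78) (nat_lit 0) (nat_lit 0) (XT.lf (nat_lit 0) (nat_lit 127332962972) (nat_lit 76) (nat_lit 97924588940) (nat_lit 152) (nat_lit 677505066834) (nat_lit 5) (nat_lit 5) (nat_lit 6) (nat_lit 5) (nat_lit 7) (nat_lit 4) (nat_lit 246) (nat_lit 221) (nat_lit 133)) (XT.lf (nat_lit 0) (nat_lit 402703479960) (nat_lit 152) (nat_lit 533134135503) (nat_lit 0) (nat_lit 86774824614) (nat_lit 5) (nat_lit 5) (nat_lit 7) (nat_lit 4) (nat_lit 5) (nat_lit 4) (nat_lit 247) (nat_lit 221) (nat_lit 132))))))))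
noncomputable def xc50 : XT := (XT.nd (nat_lit 29952) (nat_lit 0) (nat_lit 152) (XT.nd (nat_lit 780) (nat_lit 0) (nat_lit 0) (XT.nd (nat_lit 390) (nat_lit 152) (nat_lit 0) (XT.nd (nat_lit 156) (nat_lit 0) (nat_lit 0) (XT.nd (nat_lit 78) (nat_lit 76) (nat_lit 0) (XT.lf (nat_lit 0) (nat_lit 609474433976) (nat_lit 152) (nat_lit 257203034631) (nat_lit 0) (nat_lit 293545615372) (nat_lit 5) (nat_lit 5) (nat_lit 7) (nat_lit 4) (nat_lit 5) (nat_lit 4) (nat_lit 248) (nat_lit 221) (nat_lit 131)) (XT.lf (nat_lit 0) (nat_lit 63283062625) (nat_lit 76) (nat_lit 785499740461) (nat_lit 76) (nat_lit 469570779893) (nat_lit 4) (nat_lit 4) (nat_lit 5) (nat_lit 5) (nat_lit 5) (nat_lit 4) (nat_lit 249) (nat_lit 221) (nat_lit 130))) (XT.nd (nat_lit 78) (nat_lit 0) (nat_lit 0) (XT.lf (nat_lit 0) (nat_lit 447417194138) (nat_lit 76) (nat_lit 684058252700) (nat_lit 76) (nat_lit 368129168684) (nat_lit 4) (nat_lit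 4) (nat_lit 5) (nat_lit 5) (nat_lit 5) (nat_lit 4) (nat_lit 250) (nat_lit 221) (nat_lit 129)) (XT.nd (nat_lit 78) (nat_lit 0) (nat_lit 0) (XT.lf (nat_lit 0) (nat_lit 889171171698) (nat_lit 76) (nat_lit 567400667332) (nat_lit 76) (nat_lit 251471475972) (nat_lit 4) (nat_lit 4) (nat_lit 5) (nat_lit 5) (nat_lit 5) (nat_lit 4) (nat_lit 251) (nat_lit 221) (nat_lit 128)) (XT.lf (nat_lit 0) (nat_lit 1397188007909) (nat_lit 76) (nat_lit 433244553341) (nat_lit 76) (nat_lit 117315268636) (nat_lit 4) (nat_lit 4) (nat_lit 5) (nat_lit 5) (nat_lit 5) (nat_lit 4) (nat_lit 252) (nat_lit 221) (nat_lit 127))))) (XT.nd (nat_lit 156) (nat_lit 0) (nat_lit 0) (XT.nd (nat_lit 78) (nat_lit 76) (nat_lit 0) (XT.lf (nat_lit 0) (nat_lit 35115147256) (nat_lit 152) (nat_lit 242889859579) (nat_lit 76) (nat_lit 1945331904997) (nat_lit 3) (nat_lit 5) (nat_lit 5) (nat_lit 5) (nat_lit 4) (nat_lit 4) (nat_lit 253) (nat_lit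 221) (nat_lit 126)) (XT.lf (nat_lit 0) (nat_lit 113356302916) (nat_lit 76) (nat_lit 93031071781) (nat_lit 152) (nat_lit 2333399319735) (nat_lit 2) (nat_lit 5) (nat_lit 3) (nat_lit 5) (nat_lit 4) (nat_lit 4) (nat_lit 254) (nat_lit 221) (nat_lit 125))) (XT.nd (nat_lit 78) (nat_lit 0) (nat_lit 0) (XT.lf (nat_lit 0) (nat_lit 413484017144) (nat_lit 152) (nat_lit 2368452536575) (nat_lit 0) (nat_lit 120956704339) (nat_lit 2) (nat_lit 5) (nat_lit 4) (nat_lit 4) (nat_lit 2) (nat_lit 4) (nat_lit 255) (nat_lit 221) (nat_lit 124)) (XT.nd (nat_lit 78) (nat_lit 0) (nat_lit 0) (XT.lf (nat_lit 0) (nat_lit 654218084555) (nat_lit 152) (nat_lit 2304351165146) (nat_lit 0) (nat_lit 361690722335) (nat_lit 2) (nat_lit 5) (nat_lit 4) (nat_lit 4) (nat_lit 2) (nat_lit 4) (nat_lit 256) (nat_lit 221) (nat_lit 123)) (XT.lf (nat_lit 0) (nat_lit 931062191779) (nat_lit 152) (nat_lit 2230634720449) (nat_lit 0) (nat_lit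 638534786588) (nat_lit 2) (nat_lit 5) (nat_lit 4) (nat_lit 4) (nat_lit 2) (nat_lit 4) (nat_lit 257) (nat_lit 221) (nat_lit 122)))))) (XT.nd (nat_lit 28704) (nat_lit 0) (nat_lit 1748) (XT.nd (nat_lit 28470) (nat_lit 0) (nat_lit 2660) (XT.nd (nat_lit 78) (nat_lit 0) (nat_lit 0) (XT.lf (nat_lit 0) (nat_lit 1249432853957) (nat_lit 152) (nat_lit 2145860924217) (nat_lit 0) (nat_lit 956905411400) (nat_lit 2) (nat_lit 5) (nat_lit 4) (nat_lit 4) (nat_lit 2) (nat_lit 4) (nat_lit 258) (nat_lit 221) (nat_lit 121)) (XT.lf (nat_lit 0) (nat_lit 1615559062306) (nat_lit 152) (nat_lit 2048371158699) (nat_lit 0) (nat_lit 1323031587257) (nat_lit 2) (nat_lit 5) (nat_lit 4) (nat_lit 4) (nat_lit 2) (nat_lit 4) (nat_lit 259) (nat_lit 221) (nat_lit 120))) (XT.nd (nat_lit 78) (nat_lit 0) (nat_lit 76) (XT.lf (nat_lit 0) (nat_lit 18847773712) (nat_lit 532) (nat_lit 12757430062) (nat_lit 532) (nat_lit 12757430062)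 (nat_lit 37) (nat_lit 3) (nat_lit 44) (nat_lit 3) (nat_lit 44) (nat_lit 5) (nat_lit 222) (nat_lit 222) (nat_lit 156)) (XT.nd (nat_lit 78) (nat_lit 0) (nat_lit 0) (XT.lf (nat_lit 0) (nat_lit 41896647000) (nat_lit 456) (nat_lit 46318474100) (nat_lit 532) (nat_lit 7054562879) (nat_lit 38) (nat_lit 5) (nat_lit 44) (nat_lit 5) (nat_lit 45) (nat_lit 5) (nat_lit 223) (nat_lit 222) (nat_lit 155)) (XT.lf (nat_lit 76) (nat_lit 33292236558) (nat_lit 0) (nat_lit 16744332914) (nat_lit 532) (nat_lit 52494512034) (nat_lit 39) (nat_lit 5) (nat_lit 38) (nat_lit 5) (nat_lit 45) (nat_lit 5) (nat_lit 224) (nat_lit 222) (nat_lit 154))))) (XT.nd (nat_lit 234) (nat_lit 684) (nat_lit 0) (XT.nd (nat_lit 78) (nat_lit 380) (nat_lit 0) (XT.lf (nat_lit 76) (nat_lit 16068793071) (nat_lit 0) (nat_lit 46670581112) (nat_lit 532) (nat_lit 47874972891) (nat_lit 40) (nat_lit 5) (nat_lit 39) (nat_lit 5) (nat_lit 46) (nat_lit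 5) (nat_lit 225) (nat_lit 222) (nat_lit 153)) (XT.nd (nat_lit 78) (nat_lit 456) (nat_lit 0) (XT.lf (nat_lit 0) (nat_lit 80728359956) (nat_lit 456) (nat_lit 2751850938) (nat_lit 76) (nat_lit 36159439382) (nat_lit 40) (nat_lit 5) (nat_lit 46) (nat_lit 5) (nat_lit 41) (nat_lit 5) (nat_lit 226) (nat_lit 222) (nat_lit 152)) (XT.lf (nat_lit 0) (nat_lit 105313191083) (nat_lit 532) (nat_lit 22883796999) (nat_lit 76) (nat_lit 1509968583) (nat_lit 34) (nat_lit 5) (nat_lit 41) (nat_lit 5) (nat_lit 35) (nat_lit 5) (nat_lit 227) (nat_lit 222) (nat_lit 151)))) (XT.nd (nat_lit 78) (nat_lit 456) (nat_lit 0) (XT.lf (nat_lit 0) (nat_lit 94118926448) (nat_lit 228) (nat_lit 44120003151) (nat_lit 304) (nat_lit 2673181318) (nat_lit 31) (nat_lit 5) (nat_lit 34) (nat_lit 5) (nat_lit 35) (nat_lit 5) (nat_lit 228) (nat_lit 222) (nat_lit 150)) (XT.nd (nat_lit 78) (nat_lit 228) (nat_lit 0) (XT.lf (nat_lit 0) (nat_lit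 25135602246) (nat_lit 228) (nat_lit 75145687406) (nat_lit 76) (nat_lit 53158164292) (nat_lit 28) (nat_lit 5) (nat_lit 31) (nat_lit 5) (nat_lit 29) (nat_lit 5) (nat_lit 229) (nat_lit 222) (nat_lit 149)) (XT.lf (nat_lit 0) (nat_lit 58853640517) (nat_lit 228) (nat_lit 2140501274) (nat_lit 304) (nat_lit 106523268890) (nat_lit 25) (nat_lit 5) (nat_lit 28) (nat_lit 5) (nat_lit 29) (nat_lit 5) (nat_lit 230) (nat_lit 222) (nat_lit 148))))))) (XT.nd (nat_lit 780) (nat_lit 532) (nat_lit 0) (XT.nd (nat_lit 390) (nat_lit 380) (nat_lit 0) (XT.nd (nat_lit 156) (nat_lit 380) (nat_lit 0) (XT.nd (nat_lit 78) (nat_lit 152) (nat_lit 0) (XT.lf (nat_lit 0) (nat_lit 32895981134) (nat_lit 152) (nat_lit 75033032438) (nat_lit 228) (nat_lit 75322247223) (nat_lit 23) (nat_lit 5) (nat_lit 25) (nat_lit 5) (nat_lit 26) (nat_lit 5) (nat_lit 231) (nat_lit 222) (nat_lit 147)) (XT.lf (nat_lit 0) (nat_lit 239058396) (nat_lit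 152) (nat_lit 165783007724) (nat_lit 228) (nat_lit 34993689761) (nat_lit 21) (nat_lit 5) (nat_lit 23) (nat_lit 5) (nat_lit 24) (nat_lit 5) (nat_lit 232) (nat_lit 222) (nat_lit 146))) (XT.nd (nat_lit 78) (nat_lit 304) (nat_lit 0) (XT.lf (nat_lit 0) (nat_lit 17380140892) (nat_lit 228) (nat_lit 41031092987) (nat_lit 76) (nat_lit 162486553330) (nat_lit 20) (nat_lit 5) (nat_lit 23) (nat_lit 5) (nat_lit 21) (nat_lit 5) (nat_lit 233) (nat_lit 222) (nat_lit 145)) (XT.nd (nat_lit 78) (nat_lit 152) (nat_lit 0) (XT.lf (nat_lit 0) (nat_lit 80866857776) (nat_lit 228) (nat_lit 95911431171) (nat_lit 76) (nat_lit 66484816259) (nat_lit 18) (nat_lit 5) (nat_lit 21) (nat_lit 5) (nat_lit 19) (nat_lit 5) (nat_lit 234) (nat_lit 222) (nat_lit 144)) (XT.lf (nat_lit 0) (nat_lit 100993435194) (nat_lit 152) (nat_lit 58152452569) (nat_lit 228) (nat_lit 109415790800) (nat_lit 16) (nat_lit 5) (nat_lit 18) (nat_lit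 5) (nat_lit 19) (nat_lit 5) (nat_lit 235) (nat_lit 222) (nat_lit 143))))) (XT.nd (nat_lit 156) (nat_lit 228) (nat_lit 0) (XT.nd (nat_lit 78) (nat_lit 76) (nat_lit 0) (XT.lf (nat_lit 0) (nat_lit 35637350448) (nat_lit 76) (nat_lit 219133074857) (nat_lit 152) (nat_lit 42436322199) (nat_lit 15) (nat_lit 5) (nat_lit 16) (nat_lit 5) (nat_lit 17) (nat_lit 4) (nat_lit 236) (nat_lit 222) (nat_lit 142)) (XT.lf (nat_lit 0) (nat_lit 39472772393) (nat_lit 152) (nat_lit 52854996317) (nat_lit 76) (nat_lit 237225214921) (nat_lit 14) (nat_lit 5) (nat_lit 16) (nat_lit 5) (nat_lit 15) (nat_lit 5) (nat_lit 237) (nat_lit 222) (nat_lit 141))) (XT.nd (nat_lit 78) (nat_lit 76) (nat_lit 0) (XT.lf (nat_lit 0) (nat_lit 137374526083) (nat_lit 228) (nat_lit 171933961779) (nat_lit 76) (nat_lit 56856969326) (nat_lit 12) (nat_lit 5) (nat_lit 15) (nat_lit 5) (nat_lit 13) (nat_lit 4) (nat_lit 238) (nat_lit 222) (nat_lit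 140)) (XT.nd (nat_lit 78) (nat_lit 0) (nat_lit 0) (XT.lf (nat_lit 0) (nat_lit 74571031562) (nat_lit 76) (nat_lit 181315813010) (nat_lit 152) (nat_lit 151908934179) (nat_lit 11) (nat_lit 5) (nat_lit 12) (nat_lit 5) (nat_lit 13) (nat_lit 4) (nat_lit 239) (nat_lit 222) (nat_lit 139)) (XT.lf (nat_lit 0) (nat_lit 368462850260) (nat_lit 76) (nat_lit 28718400924) (nat_lit 152) (nat_lit 58088979104) (nat_lit 11) (nat_lit 5) (nat_lit 12) (nat_lit 5) (nat_lit 13) (nat_lit 4) (nat_lit 240) (nat_lit 222) (nat_lit 138)))))) (XT.nd (nat_lit 390) (nat_lit 228) (nat_lit 0) (XT.nd (nat_lit 156) (nat_lit 152) (nat_lit 0) (XT.nd (nat_lit 78) (nat_lit 0) (nat_lit 0) (XT.lf (nat_lit 0) (nat_lit 55947734166) (nat_lit 152) (nat_lit 307401516550) (nat_lit 76) (nat_lit 145729963793) (nat_lit 9) (nat_lit 5) (nat_lit 11) (nat_lit 5) (nat_lit 10) (nat_lit 4) (nat_lit 241) (nat_lit 222) (nat_lit 137)) (XT.lf (nat_lit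 0) (nat_lit 187135103263) (nat_lit 152) (nat_lit 34532171843) (nat_lit 76) (nat_lit 348892794393) (nat_lit 9) (nat_lit 5) (nat_lit 11) (nat_lit 5) (nat_lit 10) (nat_lit 4) (nat_lit 242) (nat_lit 222) (nat_lit 136))) (XT.nd (nat_lit 78) (nat_lit 76) (nat_lit 0) (XT.lf (nat_lit 0) (nat_lit 293972745497) (nat_lit 76) (nat_lit 51097574301) (nat_lit 152) (nat_lit 295627154161) (nat_lit 8) (nat_lit 5) (nat_lit 9) (nat_lit 5) (nat_lit 10) (nat_lit 4) (nat_lit 243) (nat_lit 222) (nat_lit 135)) (XT.nd (nat_lit 78) (nat_lit 76) (nat_lit 0) (XT.lf (nat_lit 0) (nat_lit 531215651589) (nat_lit 152) (nat_lit 50945756559) (nat_lit 0) (nat_lit 138832494832) (nat_lit 8) (nat_lit 5) (nat_lit 10) (nat_lit 4) (nat_lit 8) (nat_lit 4) (nat_lit 244) (nat_lit 222) (nat_lit 134)) (XT.lf (nat_lit 0) (nat_lit 302940707088) (nat_lit 76) (nat_lit 451040791219) (nat_lit 76) (nat_lit 58657401280) (nat_lit 7) (nat_lit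 4) (nat_lit 8) (nat_lit 5) (nat_lit 8) (nat_lit 4) (nat_lit 245) (nat_lit 222) (nat_lit 133))))) (XT.nd (nat_lit 234) (nat_lit 76) (nat_lit 0) (XT.nd (nat_lit 78) (nat_lit 76) (nat_lit 0) (XT.lf (nat_lit 0) (nat_lit 89044305883) (nat_lit 152) (nat_lit 207171436469) (nat_lit 76) (nat_lit 621515920432) (nat_lit 6) (nat_lit 5) (nat_lit 8) (nat_lit 5) (nat_lit 7) (nat_lit 4) (nat_lit 246) (nat_lit 222) (nat_lit 132)) (XT.nd (nat_lit 78) (nat_lit 0) (nat_lit 0) (XT.lf (nat_lit 0) (nat_lit 146437024084) (nat_lit 76) (nat_lit 112611434141) (nat_lit 152) (nat_lit 779128368091) (nat_lit 5) (nat_lit 5) (nat_lit 6) (nat_lit 5) (nat_lit 7) (nat_lit 4) (nat_lit 247) (nat_lit 222) (nat_lit 131)) (XT.lf (nat_lit 0) (nat_lit 463111017479) (nat_lit 152) (nat_lit 613100553585) (nat_lit 0) (nat_lit 99792570862) (nat_lit 5) (nat_lit 5) (nat_lit 7) (nat_lit 4) (nat_lit 5) (nat_lit 4) (nat_lit 248) (nat_lit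 222) (nat_lit 130)))) (XT.nd (nat_lit 78) (nat_lit 76) (nat_lit 0) (XT.lf (nat_lit 0) (nat_lit 700897351704) (nat_lit 152) (nat_lit 295780270483) (nat_lit 0) (nat_lit 337578781639) (nat_lit 5) (nat_lit 5) (nat_lit 7) (nat_lit 4) (nat_lit 5) (nat_lit 4) (nat_lit 249) (nat_lit 222) (nat_lit 129)) (XT.nd (nat_lit 78) (nat_lit 0) (nat_lit 0) (XT.lf (nat_lit 0) (nat_lit 72778468860) (nat_lit 76) (nat_lit 903323349588) (nat_lit 76) (nat_lit 540004672178) (nat_lit 4) (nat_lit 4) (nat_lit 5) (nat_lit 5) (nat_lit 5) (nat_lit 4) (nat_lit 250) (nat_lit 222) (nat_lit 128)) (XT.lf (nat_lit 0) (nat_lit 514532335730) (nat_lit 76) (nat_lit 786665815002) (nat_lit 76) (nat_lit 423347044248) (nat_lit 4) (nat_lit 4) (nat_lit 5) (nat_lit 5) (nat_lit 5) (nat_lit 4) (nat_lit 251) (nat_lit 222) (nat_lit 127))))))))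
noncomputable def xc51 : XT := (XT.nd (nat_lit 30030) (nat_lit 0) (nat_lit 0) (XT.nd (nat_lit 29172) (nat_lit 0) (nat_lit 1216) (XT.nd (nat_lit 390) (nat_lit 0) (nat_lit 0) (XT.nd (nat_lit 156) (nat_lit 152) (nat_lit 0) (XT.nd (nat_lit 78) (nat_lit 0) (nat_lit 0) (XT.lf (nat_lit 0) (nat_lit 1022549075688) (nat_lit 76) (nat_lit 652509745169) (nat_lit 76) (nat_lit 289190893247) (nat_lit 4) (nat_lit 4) (nat_lit 5) (nat_lit 5) (nat_lit 5) (nat_lit 4) (nat_lit 252) (nat_lit 222) (nat_lit 126)) (XT.lf (nat_lit 0) (nat_lit 1606768146691) (nat_lit 76) (nat_lit 498230347417) (nat_lit 76) (nat_lit 134911424914) (nat_lit 4) (nat_lit 4) (nat_lit 5) (nat_lit 5) (nat_lit 5) (nat_lit 4) (nat_lit 253) (nat_lit 222) (nat_lit 125))) (XT.nd (nat_lit 78) (nat_lit 76) (nat_lit 0) (XT.lf (nat_lit 0) (nat_lit 40383356118) (nat_lit 152) (nat_lit 279321603152) (nat_lit 76) (nat_lit 2237132413226) (nat_lit 3)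 (nat_lit 5) (nat_lit 5) (nat_lit 5) (nat_lit 4) (nat_lit 4) (nat_lit 254) (nat_lit 222) (nat_lit 124)) (XT.nd (nat_lit 78) (nat_lit 0) (nat_lit 0) (XT.lf (nat_lit 0) (nat_lit 130361336827) (nat_lit 76) (nat_lit 106984996862) (nat_lit 152) (nat_lit 2683408295667) (nat_lit 2) (nat_lit 5) (nat_lit 3) (nat_lit 5) (nat_lit 4) (nat_lit 4) (nat_lit 255) (nat_lit 222) (nat_lit 123)) (XT.lf (nat_lit 0) (nat_lit 475507376656) (nat_lit 152) (nat_lit 2723718990956) (nat_lit 0) (nat_lit 139100817716) (nat_lit 2) (nat_lit 5) (nat_lit 4) (nat_lit 4) (nat_lit 2) (nat_lit 4) (nat_lit 256) (nat_lit 222) (nat_lit 122))))) (XT.nd (nat_lit 156) (nat_lit 0) (nat_lit 0) (XT.nd (nat_lit 78) (nat_lit 0) (nat_lit 0) (XT.lf (nat_lit 0) (nat_lit 752351455448) (nat_lit 152) (nat_lit 2650002599826) (nat_lit 0) (nat_lit 415944859141) (nat_lit 2) (nat_lit 5) (nat_lit 4) (nat_lit 4) (nat_lit 2) (nat_lit 4) (nat_lit 257)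 (nat_lit 222) (nat_lit 121)) (XT.lf (nat_lit 0) (nat_lit 1070722092902) (nat_lit 152) (nat_lit 2565228850175) (nat_lit 0) (nat_lit 734315464104) (nat_lit 2) (nat_lit 5) (nat_lit 4) (nat_lit 4) (nat_lit 2) (nat_lit 4) (nat_lit 258) (nat_lit 222) (nat_lit 120))) (XT.nd (nat_lit 28470) (nat_lit 0) (nat_lit 2660) (XT.lf (nat_lit 0) (nat_lit 1436848279752) (nat_lit 152) (nat_lit 2467739125162) (nat_lit 0) (nat_lit 1100441622699) (nat_lit 2) (nat_lit 5) (nat_lit 4) (nat_lit 4) (nat_lit 2) (nat_lit 4) (nat_lit 259) (nat_lit 222) (nat_lit 119)) (XT.nd (nat_lit 78) (nat_lit 0) (nat_lit 76) (XT.lf (nat_lit 0) (nat_lit 21687804405) (nat_lit 532) (nat_lit 14664066951) (nat_lit 532) (nat_lit 14664066951) (nat_lit 37) (nat_lit 3) (nat_lit 44) (nat_lit 3) (nat_lit 44) (nat_lit 5) (nat_lit 223) (nat_lit 223) (nat_lit 154)) (XT.lf (nat_lit 0) (nat_lit 48203586293) (nat_lit 456) (nat_lit 53251311682) (nat_lit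 532) (nat_lit 8103336379) (nat_lit 38) (nat_lit 5) (nat_lit 44) (nat_lit 5) (nat_lit 45) (nat_lit 5) (nat_lit 224) (nat_lit 223) (nat_lit 153)))))) (XT.nd (nat_lit 390) (nat_lit 988) (nat_lit 0) (XT.nd (nat_lit 156) (nat_lit 532) (nat_lit 0) (XT.nd (nat_lit 78) (nat_lit 0) (nat_lit 76) (XT.lf (nat_lit 76) (nat_lit 38299741526) (nat_lit 0) (nat_lit 19262157112) (nat_lit 532) (nat_lit 60347164686) (nat_lit 39) (nat_lit 5) (nat_lit 38) (nat_lit 5) (nat_lit 45) (nat_lit 5) (nat_lit 225) (nat_lit 223) (nat_lit 152)) (XT.lf (nat_lit 76) (nat_lit 18493298553) (nat_lit 0) (nat_lit 53674449251) (nat_lit 532) (nat_lit 55037273142) (nat_lit 40) (nat_lit 5) (nat_lit 39) (nat_lit 5) (nat_lit 46) (nat_lit 5) (nat_lit 226) (nat_lit 223) (nat_lit 151))) (XT.nd (nat_lit 78) (nat_lit 684) (nat_lit 0) (XT.lf (nat_lit 0) (nat_lit 92852734460) (nat_lit 456) (nat_lit 3150938477) (nat_lit 76) (nat_lit 41580644989)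 (nat_lit 40) (nat_lit 5) (nat_lit 46) (nat_lit 5) (nat_lit 41) (nat_lit 5) (nat_lit 227) (nat_lit 223) (nat_lit 150)) (XT.nd (nat_lit 78) (nat_lit 228) (nat_lit 0) (XT.lf (nat_lit 0) (nat_lit 121123597307) (nat_lit 532) (nat_lit 26302676100) (nat_lit 76) (nat_lit 1735591465) (nat_lit 34) (nat_lit 5) (nat_lit 41) (nat_lit 5) (nat_lit 35) (nat_lit 5) (nat_lit 228) (nat_lit 223) (nat_lit 149)) (XT.lf (nat_lit 0) (nat_lit 108249297036) (nat_lit 228) (nat_lit 50737449530) (nat_lit 304) (nat_lit 3061169668) (nat_lit 31) (nat_lit 5) (nat_lit 34) (nat_lit 5) (nat_lit 35) (nat_lit 5) (nat_lit 229) (nat_lit 223) (nat_lit 148))))) (XT.nd (nat_lit 234) (nat_lit 380) (nat_lit 0) (XT.nd (nat_lit 78) (nat_lit 380) (nat_lit 0) (XT.lf (nat_lit 0) (nat_lit 28916989700) (nat_lit 228) (nat_lit 86404531624) (nat_lit 76) (nat_lit 61132924173) (nat_lit 28) (nat_lit 5) (nat_lit 31) (nat_lit 5) (nat_lit 29) (nat_lit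 5) (nat_lit 230) (nat_lit 223) (nat_lit 147)) (XT.nd (nat_lit 78) (nat_lit 152) (nat_lit 0) (XT.lf (nat_lit 0) (nat_lit 67693594350) (nat_lit 228) (nat_lit 2459561280) (nat_lit 304) (nat_lit 122491038056) (nat_lit 25) (nat_lit 5) (nat_lit 28) (nat_lit 5) (nat_lit 29) (nat_lit 5) (nat_lit 231) (nat_lit 223) (nat_lit 146)) (XT.lf (nat_lit 0) (nat_lit 37841992225) (nat_lit 152) (nat_lit 86285297078) (nat_lit 228) (nat_lit 86610914377) (nat_lit 23) (nat_lit 5) (nat_lit 25) (nat_lit 5) (nat_lit 26) (nat_lit 5) (nat_lit 232) (nat_lit 223) (nat_lit 145)))) (XT.nd (nat_lit 78) (nat_lit 228) (nat_lit 0) (XT.lf (nat_lit 0) (nat_lit 286171862) (nat_lit 152) (nat_lit 190647290847) (nat_lit 228) (nat_lit 40233981500) (nat_lit 21) (nat_lit 5) (nat_lit 23) (nat_lit 5) (nat_lit 24) (nat_lit 5) (nat_lit 233) (nat_lit 223) (nat_lit 144)) (XT.nd (nat_lit 78) (nat_lit 152) (nat_lit 0) (XT.lf (nat_lit 0)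 (nat_lit 19994399791) (nat_lit 228) (nat_lit 47175566463) (nat_lit 76) (nat_lit 186861887373) (nat_lit 20) (nat_lit 5) (nat_lit 23) (nat_lit 5) (nat_lit 21) (nat_lit 5) (nat_lit 234) (nat_lit 223) (nat_lit 143)) (XT.lf (nat_lit 0) (nat_lit 93003472064) (nat_lit 228) (nat_lit 110288344393) (nat_lit 76) (nat_lit 76460207993) (nat_lit 18) (nat_lit 5) (nat_lit 21) (nat_lit 5) (nat_lit 19) (nat_lit 5) (nat_lit 235) (nat_lit 223) (nat_lit 142))))))) (XT.nd (nat_lit 858) (nat_lit 380) (nat_lit 0) (XT.nd (nat_lit 390) (nat_lit 304) (nat_lit 0) (XT.nd (nat_lit 156) (nat_lit 304) (nat_lit 0) (XT.nd (nat_lit 78) (nat_lit 76) (nat_lit 0) (XT.lf (nat_lit 0) (nat_lit 116151422283) (nat_lit 152) (nat_lit 66872291044) (nat_lit 228) (nat_lit 125821724507) (nat_lit 16) (nat_lit 5) (nat_lit 18) (nat_lit 5) (nat_lit 19) (nat_lit 5) (nat_lit 236) (nat_lit 223) (nat_lit 141)) (XT.lf (nat_lit 0) (nat_lit 40991549540)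 (nat_lit 76) (nat_lit 251999876966) (nat_lit 152) (nat_lit 48795883244) (nat_lit 15) (nat_lit 5) (nat_lit 16) (nat_lit 5) (nat_lit 17) (nat_lit 4) (nat_lit 237) (nat_lit 223) (nat_lit 140))) (XT.nd (nat_lit 78) (nat_lit 228) (nat_lit 0) (XT.lf (nat_lit 0) (nat_lit 45398551538) (nat_lit 152) (nat_lit 60775502447) (nat_lit 76) (nat_lit 272811476141) (nat_lit 14) (nat_lit 5) (nat_lit 16) (nat_lit 5) (nat_lit 15) (nat_lit 5) (nat_lit 238) (nat_lit 223) (nat_lit 139)) (XT.nd (nat_lit 78) (nat_lit 76) (nat_lit 0) (XT.lf (nat_lit 0) (nat_lit 157985169061) (nat_lit 228) (nat_lit 197716670444) (nat_lit 76) (nat_lit 65388068712) (nat_lit 12) (nat_lit 5) (nat_lit 15) (nat_lit 5) (nat_lit 13) (nat_lit 4) (nat_lit 239) (nat_lit 223) (nat_lit 138)) (XT.lf (nat_lit 0) (nat_lit 85763446744) (nat_lit 76) (nat_lit 208510468899) (nat_lit 152) (nat_lit 174690897306) (nat_lit 11) (nat_lit 5) (nat_lit 12)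 (nat_lit 5) (nat_lit 13) (nat_lit 4) (nat_lit 240) (nat_lit 223) (nat_lit 137))))) (XT.nd (nat_lit 234) (nat_lit 152) (nat_lit 0) (XT.nd (nat_lit 78) (nat_lit 152) (nat_lit 0) (XT.lf (nat_lit 0) (nat_lit 423738156450) (nat_lit 76) (nat_lit 33023799270) (nat_lit 152) (nat_lit 66798519882) (nat_lit 11) (nat_lit 5) (nat_lit 12) (nat_lit 5) (nat_lit 13) (nat_lit 4) (nat_lit 241) (nat_lit 223) (nat_lit 136)) (XT.nd (nat_lit 78) (nat_lit 0) (nat_lit 0) (XT.lf (nat_lit 0) (nat_lit 64343227071) (nat_lit 152) (nat_lit 353505968382) (nat_lit 76) (nat_lit 167591628264) (nat_lit 9) (nat_lit 5) (nat_lit 11) (nat_lit 5) (nat_lit 10) (nat_lit 4) (nat_lit 242) (nat_lit 223) (nat_lit 135)) (XT.lf (nat_lit 0) (nat_lit 215208266822) (nat_lit 152) (nat_lit 39706975314) (nat_lit 76) (nat_lit 401228600424) (nat_lit 9) (nat_lit 5) (nat_lit 11) (nat_lit 5) (nat_lit 10) (nat_lit 4) (nat_lit 243) (nat_lit 223)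 (nat_lit 134)))) (XT.nd (nat_lit 78) (nat_lit 76) (nat_lit 0) (XT.lf (nat_lit 0) (nat_lit 338073254514) (nat_lit 76) (nat_lit 58760243877) (nat_lit 152) (nat_lit 339968381414) (nat_lit 8) (nat_lit 5) (nat_lit 9) (nat_lit 5) (nat_lit 10) (nat_lit 4) (nat_lit 244) (nat_lit 223) (nat_lit 133)) (XT.nd (nat_lit 78) (nat_lit 76) (nat_lit 0) (XT.lf (nat_lit 0) (nat_lit 610900327952) (nat_lit 152) (nat_lit 58583476440) (nat_lit 0) (nat_lit 159658993573) (nat_lit 8) (nat_lit 5) (nat_lit 10) (nat_lit 4) (nat_lit 8) (nat_lit 4) (nat_lit 245) (nat_lit 223) (nat_lit 132)) (XT.lf (nat_lit 0) (nat_lit 348385606020) (nat_lit 76) (nat_lit 518695233144) (nat_lit 76) (nat_lit 67453722445) (nat_lit 7) (nat_lit 4) (nat_lit 8) (nat_lit 5) (nat_lit 8) (nat_lit 4) (nat_lit 246) (nat_lit 223) (nat_lit 131)))))) (XT.nd (nat_lit 390) (nat_lit 152) (nat_lit 0) (XT.nd (nat_lit 156) (nat_lit 76) (nat_lit 0) (XT.nd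 (nat_lit 78) (nat_lit 76) (nat_lit 0) (XT.lf (nat_lit 0) (nat_lit 102402842653) (nat_lit 152) (nat_lit 238243751301) (nat_lit 76) (nat_lit 714744664055) (nat_lit 6) (nat_lit 5) (nat_lit 8) (nat_lit 5) (nat_lit 7) (nat_lit 4) (nat_lit 247) (nat_lit 223) (nat_lit 130)) (XT.lf (nat_lit 0) (nat_lit 168405690488) (nat_lit 76) (nat_lit 129501755584) (nat_lit 152) (nat_lit 895995764123) (nat_lit 5) (nat_lit 5) (nat_lit 6) (nat_lit 5) (nat_lit 7) (nat_lit 4) (nat_lit 248) (nat_lit 223) (nat_lit 129))) (XT.nd (nat_lit 78) (nat_lit 76) (nat_lit 0) (XT.lf (nat_lit 0) (nat_lit 532579194128) (nat_lit 152) (nat_lit 705062837194) (nat_lit 0) (nat_lit 114762607761) (nat_lit 5) (nat_lit 5) (nat_lit 7) (nat_lit 4) (nat_lit 5) (nat_lit 4) (nat_lit 249) (nat_lit 223) (nat_lit 128)) (XT.nd (nat_lit 78) (nat_lit 76) (nat_lit 0) (XT.lf (nat_lit 0) (nat_lit 806033279700) (nat_lit 152) (nat_lit 340144876770)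 (nat_lit 0) (nat_lit 388216599990) (nat_lit 5) (nat_lit 5) (nat_lit 7) (nat_lit 4) (nat_lit 5) (nat_lit 4) (nat_lit 250) (nat_lit 223) (nat_lit 127)) (XT.lf (nat_lit 0) (nat_lit 83697467424) (nat_lit 76) (nat_lit 1038820829763) (nat_lit 76) (nat_lit 621004068884) (nat_lit 4) (nat_lit 4) (nat_lit 5) (nat_lit 5) (nat_lit 5) (nat_lit 4) (nat_lit 251) (nat_lit 223) (nat_lit 126))))) (XT.nd (nat_lit 234) (nat_lit 152) (nat_lit 0) (XT.nd (nat_lit 78) (nat_lit 0) (nat_lit 0) (XT.lf (nat_lit 0) (nat_lit 591714123685) (nat_lit 76) (nat_lit 904664798328) (nat_lit 76) (nat_lit 486847966868) (nat_lit 4) (nat_lit 4) (nat_lit 5) (nat_lit 5) (nat_lit 5) (nat_lit 4) (nat_lit 252) (nat_lit 223) (nat_lit 125)) (XT.nd (nat_lit 78) (nat_lit 0) (nat_lit 0) (XT.lf (nat_lit 0) (nat_lit 1175933121908) (nat_lit 76) (nat_lit 750385433967) (nat_lit 76) (nat_lit 332568541132) (nat_lit 4) (nat_lit 4) (nat_lit 5)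 (nat_lit 5) (nat_lit 5) (nat_lit 4) (nat_lit 253) (nat_lit 223) (nat_lit 124)) (XT.lf (nat_lit 0) (nat_lit 1847784833796) (nat_lit 76) (nat_lit 572964227376) (nat_lit 76) (nat_lit 155147281171) (nat_lit 4) (nat_lit 4) (nat_lit 5) (nat_lit 5) (nat_lit 5) (nat_lit 4) (nat_lit 254) (nat_lit 223) (nat_lit 123)))) (XT.nd (nat_lit 78) (nat_lit 76) (nat_lit 0) (XT.lf (nat_lit 0) (nat_lit 46441567871) (nat_lit 152) (nat_lit 321218531440) (nat_lit 76) (nat_lit 2572702821509) (nat_lit 3) (nat_lit 5) (nat_lit 5) (nat_lit 5) (nat_lit 4) (nat_lit 4) (nat_lit 255) (nat_lit 223) (nat_lit 122)) (XT.nd (nat_lit 78) (nat_lit 0) (nat_lit 0) (XT.lf (nat_lit 0) (nat_lit 149916738466) (nat_lit 76) (nat_lit 123032190107) (nat_lit 152) (nat_lit 3085918842831) (nat_lit 2) (nat_lit 5) (nat_lit 3) (nat_lit 5) (nat_lit 4) (nat_lit 4) (nat_lit 256) (nat_lit 223) (nat_lit 121)) (XT.lf (nat_lit 0) (nat_lit 546834055511)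 (nat_lit 152) (nat_lit 3132275761259) (nat_lit 0) (nat_lit 159966399900) (nat_lit 2) (nat_lit 5) (nat_lit 4) (nat_lit 4) (nat_lit 2) (nat_lit 4) (nat_lit 257) (nat_lit 223) (nat_lit 120))))))))
noncomputable def xc52 : XT := (XT.nd (nat_lit 30108) (nat_lit 0) (nat_lit 0) (XT.nd (nat_lit 29250) (nat_lit 0) (nat_lit 684) (XT.nd (nat_lit 28860) (nat_lit 0) (nat_lit 1976) (XT.nd (nat_lit 28626) (nat_lit 0) (nat_lit 2660) (XT.nd (nat_lit 78) (nat_lit 0) (nat_lit 0) (XT.lf (nat_lit 0) (nat_lit 865204671466) (nat_lit 152) (nat_lit 3047502052113) (nat_lit 0) (nat_lit 478336987602) (nat_lit 2) (nat_lit 5) (nat_lit 4) (nat_lit 4) (nat_lit 2) (nat_lit 4) (nat_lit 258) (nat_lit 223) (nat_lit 119)) (XT.lf (nat_lit 0) (nat_lit 1231330839621) (nat_lit 152) (nat_lit 2950012362321) (nat_lit 0) (nat_lit 844463131188) (nat_lit 2) (nat_lit 5) (nat_lit 4) (nat_lit 4) (nat_lit 2) (nat_lit 4) (nat_lit 259)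 (nat_lit 223) (nat_lit 118))) (XT.nd (nat_lit 78) (nat_lit 0) (nat_lit 76) (XT.lf (nat_lit 0) (nat_lit 24950702579) (nat_lit 532) (nat_lit 16858400910) (nat_lit 532) (nat_lit 16858400910) (nat_lit 37) (nat_lit 3) (nat_lit 44) (nat_lit 3) (nat_lit 44) (nat_lit 5) (nat_lit 224) (nat_lit 224) (nat_lit 152)) (XT.nd (nat_lit 78) (nat_lit 0) (nat_lit 0) (XT.lf (nat_lit 0) (nat_lit 55451093797) (nat_lit 456) (nat_lit 61227716537) (nat_lit 532) (nat_lit 9311720820) (nat_lit 38) (nat_lit 5) (nat_lit 44) (nat_lit 5) (nat_lit 45) (nat_lit 5) (nat_lit 225) (nat_lit 224) (nat_lit 151)) (XT.lf (nat_lit 76) (nat_lit 44055038849) (nat_lit 0) (nat_lit 22156149308) (nat_lit 532) (nat_lit 69382964038) (nat_lit 39) (nat_lit 5) (nat_lit 38) (nat_lit 5) (nat_lit 45) (nat_lit 5) (nat_lit 226) (nat_lit 224) (nat_lit 150))))) (XT.nd (nat_lit 156) (nat_lit 836) (nat_lit 0) (XT.nd (nat_lit 78) (nat_lit 0) (nat_lit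 76) (XT.lf (nat_lit 76) (nat_lit 21278020384) (nat_lit 0) (nat_lit 61728097526) (nat_lit 532) (nat_lit 63278538456) (nat_lit 40) (nat_lit 5) (nat_lit 39) (nat_lit 5) (nat_lit 46) (nat_lit 5) (nat_lit 227) (nat_lit 224) (nat_lit 149)) (XT.lf (nat_lit 0) (nat_lit 106792077907) (nat_lit 456) (nat_lit 3613227565) (nat_lit 76) (nat_lit 47815692361) (nat_lit 40) (nat_lit 5) (nat_lit 46) (nat_lit 5) (nat_lit 41) (nat_lit 5) (nat_lit 228) (nat_lit 224) (nat_lit 148))) (XT.nd (nat_lit 78) (nat_lit 456) (nat_lit 0) (XT.lf (nat_lit 0) (nat_lit 139302290069) (nat_lit 532) (nat_lit 30237725569) (nat_lit 76) (nat_lit 1995270521) (nat_lit 34) (nat_lit 5) (nat_lit 41) (nat_lit 5) (nat_lit 35) (nat_lit 5) (nat_lit 229) (nat_lit 224) (nat_lit 147)) (XT.nd (nat_lit 78) (nat_lit 228) (nat_lit 0) (XT.lf (nat_lit 0) (nat_lit 124496167297) (nat_lit 228) (nat_lit 58347647985) (nat_lit 304) (nat_lit 3510523683)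 (nat_lit 31) (nat_lit 5) (nat_lit 34) (nat_lit 5) (nat_lit 35) (nat_lit 5) (nat_lit 230) (nat_lit 224) (nat_lit 146)) (XT.lf (nat_lit 0) (nat_lit 33262891363) (nat_lit 228) (nat_lit 99355374775) (nat_lit 76) (nat_lit 70303645587) (nat_lit 28) (nat_lit 5) (nat_lit 31) (nat_lit 5) (nat_lit 29) (nat_lit 5) (nat_lit 231) (nat_lit 224) (nat_lit 145)))))) (XT.nd (nat_lit 390) (nat_lit 532) (nat_lit 0) (XT.nd (nat_lit 156) (nat_lit 380) (nat_lit 0) (XT.nd (nat_lit 78) (nat_lit 152) (nat_lit 0) (XT.lf (nat_lit 0) (nat_lit 77856637476) (nat_lit 228) (nat_lit 2826971703) (nat_lit 304) (nat_lit 140856587022) (nat_lit 25) (nat_lit 5) (nat_lit 28) (nat_lit 5) (nat_lit 29) (nat_lit 5) (nat_lit 232) (nat_lit 224) (nat_lit 144)) (XT.lf (nat_lit 0) (nat_lit 43527072851) (nat_lit 152) (nat_lit 99226057442) (nat_lit 228) (nat_lit 99595239678) (nat_lit 23) (nat_lit 5) (nat_lit 25) (nat_lit 5) (nat_lit 26)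 (nat_lit 5) (nat_lit 233) (nat_lit 224) (nat_lit 143))) (XT.nd (nat_lit 78) (nat_lit 228) (nat_lit 0) (XT.lf (nat_lit 0) (nat_lit 337607816) (nat_lit 152) (nat_lit 219241988984) (nat_lit 228) (nat_lit 46262453601) (nat_lit 21) (nat_lit 5) (nat_lit 23) (nat_lit 5) (nat_lit 24) (nat_lit 5) (nat_lit 234) (nat_lit 224) (nat_lit 142)) (XT.nd (nat_lit 78) (nat_lit 152) (nat_lit 0) (XT.lf (nat_lit 0) (nat_lit 22999032549) (nat_lit 228) (nat_lit 54244195972) (nat_lit 76) (nat_lit 214892948205) (nat_lit 20) (nat_lit 5) (nat_lit 23) (nat_lit 5) (nat_lit 21) (nat_lit 5) (nat_lit 235) (nat_lit 224) (nat_lit 141)) (XT.lf (nat_lit 0) (nat_lit 106958972549) (nat_lit 228) (nat_lit 126824184745) (nat_lit 76) (nat_lit 87931257561) (nat_lit 18) (nat_lit 5) (nat_lit 21) (nat_lit 5) (nat_lit 19) (nat_lit 5) (nat_lit 236) (nat_lit 224) (nat_lit 140))))) (XT.nd (nat_lit 234) (nat_lit 228) (nat_lit 0) (XT.nd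 (nat_lit 78) (nat_lit 152) (nat_lit 0) (XT.lf (nat_lit 0) (nat_lit 133580919602) (nat_lit 152) (nat_lit 76900844031) (nat_lit 228) (nat_lit 144690117465) (nat_lit 16) (nat_lit 5) (nat_lit 18) (nat_lit 5) (nat_lit 19) (nat_lit 5) (nat_lit 237) (nat_lit 224) (nat_lit 139)) (XT.nd (nat_lit 78) (nat_lit 76) (nat_lit 0) (XT.lf (nat_lit 0) (nat_lit 47146782179) (nat_lit 76) (nat_lit 289797469763) (nat_lit 152) (nat_lit 56110814098) (nat_lit 15) (nat_lit 5) (nat_lit 16) (nat_lit 5) (nat_lit 17) (nat_lit 4) (nat_lit 238) (nat_lit 224) (nat_lit 138)) (XT.lf (nat_lit 0) (nat_lit 52212011612) (nat_lit 152) (nat_lit 69885972754) (nat_lit 76) (nat_lit 313735072029) (nat_lit 14) (nat_lit 5) (nat_lit 16) (nat_lit 5) (nat_lit 15) (nat_lit 5) (nat_lit 239) (nat_lit 224) (nat_lit 137)))) (XT.nd (nat_lit 78) (nat_lit 76) (nat_lit 0) (XT.lf (nat_lit 0) (nat_lit 181686319896) (nat_lit 228) (nat_lit 227368586434)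 (nat_lit 76) (nat_lit 75198210201) (nat_lit 12) (nat_lit 5) (nat_lit 15) (nat_lit 5) (nat_lit 13) (nat_lit 4) (nat_lit 240) (nat_lit 224) (nat_lit 136)) (XT.nd (nat_lit 78) (nat_lit 0) (nat_lit 0) (XT.lf (nat_lit 0) (nat_lit 98633075626) (nat_lit 76) (nat_lit 239784985500) (nat_lit 152) (nat_lit 200891222261) (nat_lit 11) (nat_lit 5) (nat_lit 12) (nat_lit 5) (nat_lit 13) (nat_lit 4) (nat_lit 241) (nat_lit 224) (nat_lit 135)) (XT.lf (nat_lit 0) (nat_lit 487303325022) (nat_lit 76) (nat_lit 37975583305) (nat_lit 152) (nat_lit 76815419916) (nat_lit 11) (nat_lit 5) (nat_lit 12) (nat_lit 5) (nat_lit 13) (nat_lit 4) (nat_lit 242) (nat_lit 224) (nat_lit 134))))))) (XT.nd (nat_lit 780) (nat_lit 152) (nat_lit 0) (XT.nd (nat_lit 390) (nat_lit 228) (nat_lit 0) (XT.nd (nat_lit 156) (nat_lit 152) (nat_lit 0) (XT.nd (nat_lit 78) (nat_lit 0) (nat_lit 0) (XT.lf (nat_lit 0) (nat_lit 73997231193) (nat_lit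 152) (nat_lit 406527496417) (nat_lit 76) (nat_lit 192732013262) (nat_lit 9) (nat_lit 5) (nat_lit 11) (nat_lit 5) (nat_lit 10) (nat_lit 4) (nat_lit 243) (nat_lit 224) (nat_lit 133)) (XT.lf (nat_lit 0) (nat_lit 247491698202) (nat_lit 152) (nat_lit 45659224027) (nat_lit 76) (nat_lit 461414317234) (nat_lit 9) (nat_lit 5) (nat_lit 11) (nat_lit 5) (nat_lit 10) (nat_lit 4) (nat_lit 244) (nat_lit 224) (nat_lit 132))) (XT.nd (nat_lit 78) (nat_lit 76) (nat_lit 0) (XT.lf (nat_lit 0) (nat_lit 388787718829) (nat_lit 76) (nat_lit 67572793450) (nat_lit 152) (nat_lit 390961486739) (nat_lit 8) (nat_lit 5) (nat_lit 9) (nat_lit 5) (nat_lit 10) (nat_lit 4) (nat_lit 245) (nat_lit 224) (nat_lit 131)) (XT.nd (nat_lit 78) (nat_lit 76) (nat_lit 0) (XT.lf (nat_lit 0) (nat_lit 702537137921) (nat_lit 152) (nat_lit 67367864746) (nat_lit 0) (nat_lit 183609070976) (nat_lit 8) (nat_lit 5) (nat_lit 10) (nat_lit 4) (nat_lit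 8) (nat_lit 4) (nat_lit 246) (nat_lit 224) (nat_lit 130)) (XT.lf (nat_lit 0) (nat_lit 400646314876) (nat_lit 76) (nat_lit 596498250245) (nat_lit 76) (nat_lit 77570049978) (nat_lit 7) (nat_lit 4) (nat_lit 8) (nat_lit 5) (nat_lit 8) (nat_lit 4) (nat_lit 247) (nat_lit 224) (nat_lit 129))))) (XT.nd (nat_lit 156) (nat_lit 76) (nat_lit 0) (XT.nd (nat_lit 78) (nat_lit 76) (nat_lit 0) (XT.lf (nat_lit 0) (nat_lit 117764698833) (nat_lit 152) (nat_lit 273977742625) (nat_lit 76) (nat_lit 821957388661) (nat_lit 6) (nat_lit 5) (nat_lit 8) (nat_lit 5) (nat_lit 7) (nat_lit 4) (nat_lit 248) (nat_lit 224) (nat_lit 128)) (XT.lf (nat_lit 0) (nat_lit 193668897779) (nat_lit 76) (nat_lit 148925965100) (nat_lit 152) (nat_lit 1030393722933) (nat_lit 5) (nat_lit 5) (nat_lit 6) (nat_lit 5) (nat_lit 7) (nat_lit 4) (nat_lit 249) (nat_lit 224) (nat_lit 127))) (XT.nd (nat_lit 78) (nat_lit 76) (nat_lit 0) (XT.lf (nat_lit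 0) (nat_lit 612467225631) (nat_lit 152) (nat_lit 810820146004) (nat_lit 0) (nat_lit 131977869452) (nat_lit 5) (nat_lit 5) (nat_lit 7) (nat_lit 4) (nat_lit 5) (nat_lit 4) (nat_lit 250) (nat_lit 224) (nat_lit 126)) (XT.nd (nat_lit 78) (nat_lit 76) (nat_lit 0) (XT.lf (nat_lit 0) (nat_lit 926939273728) (nat_lit 152) (nat_lit 391164767616) (nat_lit 0) (nat_lit 446449846967) (nat_lit 5) (nat_lit 5) (nat_lit 7) (nat_lit 4) (nat_lit 5) (nat_lit 4) (nat_lit 251) (nat_lit 224) (nat_lit 125)) (XT.lf (nat_lit 0) (nat_lit 96253772404) (nat_lit 76) (nat_lit 1194643181249) (nat_lit 76) (nat_lit 714153693114) (nat_lit 4) (nat_lit 4) (nat_lit 5) (nat_lit 5) (nat_lit 5) (nat_lit 4) (nat_lit 252) (nat_lit 224) (nat_lit 124)))))) (XT.nd (nat_lit 390) (nat_lit 0) (nat_lit 0) (XT.nd (nat_lit 156) (nat_lit 152) (nat_lit 0) (XT.nd (nat_lit 78) (nat_lit 0) (nat_lit 0) (XT.lf (nat_lit 0) (nat_lit 680472707339)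 (nat_lit 76) (nat_lit 1040363845923) (nat_lit 76) (nat_lit 559874304418) (nat_lit 4) (nat_lit 4) (nat_lit 5) (nat_lit 5) (nat_lit 5) (nat_lit 4) (nat_lit 253) (nat_lit 224) (nat_lit 123)) (XT.lf (nat_lit 0) (nat_lit 1352324364195) (nat_lit 76) (nat_lit 862942664579) (nat_lit 76) (nat_lit 382453076666) (nat_lit 4) (nat_lit 4) (nat_lit 5) (nat_lit 5) (nat_lit 5) (nat_lit 4) (nat_lit 254) (nat_lit 224) (nat_lit 122))) (XT.nd (nat_lit 78) (nat_lit 152) (nat_lit 0) (XT.lf (nat_lit 0) (nat_lit 2124953666692) (nat_lit 76) (nat_lit 658908353237) (nat_lit 76) (nat_lit 178418724968) (nat_lit 4) (nat_lit 4) (nat_lit 5) (nat_lit 5) (nat_lit 5) (nat_lit 4) (nat_lit 255) (nat_lit 224) (nat_lit 121)) (XT.nd (nat_lit 78) (nat_lit 76) (nat_lit 0) (XT.lf (nat_lit 0) (nat_lit 53408338655) (nat_lit 152) (nat_lit 369400318956) (nat_lit 76) (nat_lit 2958608657815) (nat_lit 3) (nat_lit 5) (nat_lit 5) (nat_lit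 5) (nat_lit 4) (nat_lit 4) (nat_lit 256) (nat_lit 224) (nat_lit 120)) (XT.lf (nat_lit 0) (nat_lit 172405157452) (nat_lit 76) (nat_lit 141486597992) (nat_lit 152) (nat_lit 3548806142083) (nat_lit 2) (nat_lit 5) (nat_lit 3) (nat_lit 5) (nat_lit 4) (nat_lit 4) (nat_lit 257) (nat_lit 224) (nat_lit 119))))) (XT.nd (nat_lit 28782) (nat_lit 0) (nat_lit 2736) (XT.nd (nat_lit 78) (nat_lit 0) (nat_lit 0) (XT.lf (nat_lit 0) (nat_lit 628859596621) (nat_lit 152) (nat_lit 3602116310067) (nat_lit 0) (nat_lit 183961707354) (nat_lit 2) (nat_lit 5) (nat_lit 4) (nat_lit 4) (nat_lit 2) (nat_lit 4) (nat_lit 258) (nat_lit 224) (nat_lit 118)) (XT.nd (nat_lit 28626) (nat_lit 0) (nat_lit 2660) (XT.lf (nat_lit 0) (nat_lit 994985748519) (nat_lit 152) (nat_lit 3504626650903) (nat_lit 0) (nat_lit 550087837889) (nat_lit 2) (nat_lit 5) (nat_lit 4) (nat_lit 4) (nat_lit 2) (nat_lit 4) (nat_lit 259) (nat_lit 224) (nat_lit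 117)) (XT.lf (nat_lit 0) (nat_lit 28700663363) (nat_lit 532) (nat_lit 19383171569) (nat_lit 532) (nat_lit 19383171569) (nat_lit 37) (nat_lit 3) (nat_lit 44) (nat_lit 3) (nat_lit 44) (nat_lit 5) (nat_lit 225) (nat_lit 225) (nat_lit 150)))) (XT.nd (nat_lit 78) (nat_lit 0) (nat_lit 0) (XT.lf (nat_lit 0) (nat_lit 63781589293) (nat_lit 456) (nat_lit 70403335721) (nat_lit 532) (nat_lit 10703098212) (nat_lit 38) (nat_lit 5) (nat_lit 44) (nat_lit 5) (nat_lit 45) (nat_lit 5) (nat_lit 226) (nat_lit 225) (nat_lit 149)) (XT.nd (nat_lit 78) (nat_lit 0) (nat_lit 76) (XT.lf (nat_lit 76) (nat_lit 50671110249) (nat_lit 0) (nat_lit 25483101858) (nat_lit 532) (nat_lit 79778102140) (nat_lit 39) (nat_lit 5) (nat_lit 38) (nat_lit 5) (nat_lit 45) (nat_lit 5) (nat_lit 227) (nat_lit 225) (nat_lit 148)) (XT.lf (nat_lit 76) (nat_lit 24477834632) (nat_lit 0) (nat_lit 70989188062) (nat_lit 532) (nat_lit 72759486969)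 (nat_lit 40) (nat_lit 5) (nat_lit 39) (nat_lit 5) (nat_lit 46) (nat_lit 5) (nat_lit 228) (nat_lit 225) (nat_lit 147))))))))
noncomputable def xc53 : XT := (XT.nd (nat_lit 1638) (nat_lit 304) (nat_lit 0) (XT.nd (nat_lit 780) (nat_lit 760) (nat_lit 0) (XT.nd (nat_lit 390) (nat_lit 684) (nat_lit 0) (XT.nd (nat_lit 156) (nat_lit 684) (nat_lit 0) (XT.nd (nat_lit 78) (nat_lit 456) (nat_lit 0) (XT.lf (nat_lit 0) (nat_lit 122819534794) (nat_lit 456) (nat_lit 4147384340) (nat_lit 76) (nat_lit 54986496593) (nat_lit 40) (nat_lit 5) (nat_lit 46) (nat_lit 5) (nat_lit 41) (nat_lit 5) (nat_lit 229) (nat_lit 225) (nat_lit 146)) (XT.lf (nat_lit 0) (nat_lit 160205310832) (nat_lit 532) (nat_lit 34765556846) (nat_lit 76) (nat_lit 2294062298) (nat_lit 34) (nat_lit 5) (nat_lit 41) (nat_lit 5) (nat_lit 35) (nat_lit 5) (nat_lit 230) (nat_lit 225) (nat_lit 145))) (XT.nd (nat_lit 78) (nat_lit 456) (nat_lit 0)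 (XT.lf (nat_lit 0) (nat_lit 143177757387) (nat_lit 228) (nat_lit 67099478377) (nat_lit 304) (nat_lit 4029675819) (nat_lit 31) (nat_lit 5) (nat_lit 34) (nat_lit 5) (nat_lit 35) (nat_lit 5) (nat_lit 231) (nat_lit 225) (nat_lit 144)) (XT.nd (nat_lit 78) (nat_lit 228) (nat_lit 0) (XT.lf (nat_lit 0) (nat_lit 38258641292) (nat_lit 228) (nat_lit 114251243115) (nat_lit 76) (nat_lit 80849784326) (nat_lit 28) (nat_lit 5) (nat_lit 31) (nat_lit 5) (nat_lit 29) (nat_lit 5) (nat_lit 232) (nat_lit 225) (nat_lit 143)) (XT.lf (nat_lit 0) (nat_lit 89541941395) (nat_lit 228) (nat_lit 3249865270) (nat_lit 304) (nat_lit 161978945214) (nat_lit 25) (nat_lit 5) (nat_lit 28) (nat_lit 5) (nat_lit 29) (nat_lit 5) (nat_lit 233) (nat_lit 225) (nat_lit 142))))) (XT.nd (nat_lit 156) (nat_lit 380) (nat_lit 0) (XT.nd (nat_lit 78) (nat_lit 152) (nat_lit 0) (XT.lf (nat_lit 0) (nat_lit 50062774075) (nat_lit 152) (nat_lit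 114108427913) (nat_lit 228) (nat_lit 114528996817) (nat_lit 23) (nat_lit 5) (nat_lit 25) (nat_lit 5) (nat_lit 26) (nat_lit 5) (nat_lit 234) (nat_lit 225) (nat_lit 141)) (XT.lf (nat_lit 0) (nat_lit 394683904) (nat_lit 152) (nat_lit 252126475997) (nat_lit 228) (nat_lit 53196812096) (nat_lit 21) (nat_lit 5) (nat_lit 23) (nat_lit 5) (nat_lit 24) (nat_lit 5) (nat_lit 235) (nat_lit 225) (nat_lit 140))) (XT.nd (nat_lit 78) (nat_lit 304) (nat_lit 0) (XT.lf (nat_lit 0) (nat_lit 26453025647) (nat_lit 228) (nat_lit 62374998933) (nat_lit 76) (nat_lit 247128234653) (nat_lit 20) (nat_lit 5) (nat_lit 23) (nat_lit 5) (nat_lit 21) (nat_lit 5) (nat_lit 236) (nat_lit 225) (nat_lit 139)) (XT.nd (nat_lit 78) (nat_lit 152) (nat_lit 0) (XT.lf (nat_lit 0) (nat_lit 123006583782) (nat_lit 228) (nat_lit 145842208443) (nat_lit 76) (nat_lit 101122472373) (nat_lit 18) (nat_lit 5) (nat_lit 21) (nat_lit 5) (nat_lit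 19) (nat_lit 5) (nat_lit 237) (nat_lit 225) (nat_lit 138)) (XT.lf (nat_lit 0) (nat_lit 153623187204) (nat_lit 152) (nat_lit 88434238560) (nat_lit 228) (nat_lit 166389955903) (nat_lit 16) (nat_lit 5) (nat_lit 18) (nat_lit 5) (nat_lit 19) (nat_lit 5) (nat_lit 238) (nat_lit 225) (nat_lit 137)))))) (XT.nd (nat_lit 390) (nat_lit 380) (nat_lit 0) (XT.nd (nat_lit 156) (nat_lit 228) (nat_lit 0) (XT.nd (nat_lit 78) (nat_lit 76) (nat_lit 0) (XT.lf (nat_lit 0) (nat_lit 54223714596) (nat_lit 76) (nat_lit 333265283990) (nat_lit 152) (nat_lit 64524070138) (nat_lit 15) (nat_lit 5) (nat_lit 16) (nat_lit 5) (nat_lit 17) (nat_lit 4) (nat_lit 239) (nat_lit 225) (nat_lit 136)) (XT.lf (nat_lit 0) (nat_lit 60046593953) (nat_lit 152) (nat_lit 80364441400) (nat_lit 76) (nat_lit 360796750199) (nat_lit 14) (nat_lit 5) (nat_lit 16) (nat_lit 5) (nat_lit 15) (nat_lit 5) (nat_lit 240) (nat_lit 225) (nat_lit 135)))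 (XT.nd (nat_lit 78) (nat_lit 76) (nat_lit 0) (XT.lf (nat_lit 0) (nat_lit 208941820225) (nat_lit 228) (nat_lit 261469651657) (nat_lit 76) (nat_lit 86479401981) (nat_lit 12) (nat_lit 5) (nat_lit 15) (nat_lit 5) (nat_lit 13) (nat_lit 4) (nat_lit 241) (nat_lit 225) (nat_lit 134)) (XT.nd (nat_lit 78) (nat_lit 0) (nat_lit 0) (XT.lf (nat_lit 0) (nat_lit 113431902278) (nat_lit 76) (nat_lit 275751180408) (nat_lit 152) (nat_lit 231022403036) (nat_lit 11) (nat_lit 5) (nat_lit 12) (nat_lit 5) (nat_lit 13) (nat_lit 4) (nat_lit 242) (nat_lit 225) (nat_lit 133)) (XT.lf (nat_lit 0) (nat_lit 560402184912) (nat_lit 76) (nat_lit 43670570438) (nat_lit 152) (nat_lit 88335556761) (nat_lit 11) (nat_lit 5) (nat_lit 12) (nat_lit 5) (nat_lit 13) (nat_lit 4) (nat_lit 243) (nat_lit 225) (nat_lit 132))))) (XT.nd (nat_lit 234) (nat_lit 152) (nat_lit 0) (XT.nd (nat_lit 78) (nat_lit 76) (nat_lit 0) (XT.lf (nat_lit 0)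 (nat_lit 85098721399) (nat_lit 152) (nat_lit 467503318633) (nat_lit 76) (nat_lit 221643055900) (nat_lit 9) (nat_lit 5) (nat_lit 11) (nat_lit 5) (nat_lit 10) (nat_lit 4) (nat_lit 244) (nat_lit 225) (nat_lit 131)) (XT.nd (nat_lit 78) (nat_lit 76) (nat_lit 0) (XT.lf (nat_lit 0) (nat_lit 284617109913) (nat_lit 152) (nat_lit 52505236111) (nat_lit 76) (nat_lit 530627543645) (nat_lit 9) (nat_lit 5) (nat_lit 11) (nat_lit 5) (nat_lit 10) (nat_lit 4) (nat_lit 245) (nat_lit 225) (nat_lit 130)) (XT.lf (nat_lit 0) (nat_lit 447108505113) (nat_lit 76) (nat_lit 77707588076) (nat_lit 152) (nat_lit 449604082613) (nat_lit 8) (nat_lit 5) (nat_lit 9) (nat_lit 5) (nat_lit 10) (nat_lit 4) (nat_lit 246) (nat_lit 225) (nat_lit 129)))) (XT.nd (nat_lit 78) (nat_lit 152) (nat_lit 0) (XT.lf (nat_lit 0) (nat_lit 807919040008) (nat_lit 152) (nat_lit 77470675339) (nat_lit 0) (nat_lit 211151360445) (nat_lit 8) (nat_lit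 5) (nat_lit 10) (nat_lit 4) (nat_lit 8) (nat_lit 4) (nat_lit 247) (nat_lit 225) (nat_lit 128)) (XT.nd (nat_lit 78) (nat_lit 76) (nat_lit 0) (XT.lf (nat_lit 0) (nat_lit 460745430692) (nat_lit 76) (nat_lit 685972029090) (nat_lit 76) (nat_lit 89204248716) (nat_lit 7) (nat_lit 4) (nat_lit 8) (nat_lit 5) (nat_lit 8) (nat_lit 4) (nat_lit 248) (nat_lit 225) (nat_lit 127)) (XT.lf (nat_lit 0) (nat_lit 135430484780) (nat_lit 152) (nat_lit 315072459693) (nat_lit 76) (nat_lit 945251772005) (nat_lit 6) (nat_lit 5) (nat_lit 8) (nat_lit 5) (nat_lit 7) (nat_lit 4) (nat_lit 249) (nat_lit 225) (nat_lit 126))))))) (XT.nd (nat_lit 29484) (nat_lit 0) (nat_lit 1368) (XT.nd (nat_lit 390) (nat_lit 152) (nat_lit 0) (XT.nd (nat_lit 156) (nat_lit 76) (nat_lit 0) (XT.nd (nat_lit 78) (nat_lit 0) (nat_lit 0) (XT.lf (nat_lit 0) (nat_lit 222721012195) (nat_lit 76) (nat_lit 171264063025) (nat_lit 152) (nat_lit 1184951718379)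 (nat_lit 5) (nat_lit 5) (nat_lit 6) (nat_lit 5) (nat_lit 7) (nat_lit 4) (nat_lit 250) (nat_lit 225) (nat_lit 125)) (XT.lf (nat_lit 0) (nat_lit 704338180843) (nat_lit 152) (nat_lit 932441567322) (nat_lit 0) (nat_lit 151775208112) (nat_lit 5) (nat_lit 5) (nat_lit 7) (nat_lit 4) (nat_lit 5) (nat_lit 4) (nat_lit 251) (nat_lit 225) (nat_lit 124))) (XT.nd (nat_lit 78) (nat_lit 76) (nat_lit 0) (XT.lf (nat_lit 0) (nat_lit 1065980922497) (nat_lit 152) (nat_lit 449838090948) (nat_lit 0) (nat_lit 513417896397) (nat_lit 5) (nat_lit 5) (nat_lit 7) (nat_lit 4) (nat_lit 5) (nat_lit 4) (nat_lit 252) (nat_lit 225) (nat_lit 123)) (XT.nd (nat_lit 78) (nat_lit 0) (nat_lit 0) (XT.lf (nat_lit 0) (nat_lit 110693112266) (nat_lit 76) (nat_lit 1373839073955) (nat_lit 76) (nat_lit 821276001446) (nat_lit 4) (nat_lit 4) (nat_lit 5) (nat_lit 5) (nat_lit 5) (nat_lit 4) (nat_lit 253) (nat_lit 225) (nat_lit 122)) (XT.lf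 (nat_lit 0) (nat_lit 782544721267) (nat_lit 76) (nat_lit 1196417914566) (nat_lit 76) (nat_lit 643854801702) (nat_lit 4) (nat_lit 4) (nat_lit 5) (nat_lit 5) (nat_lit 5) (nat_lit 4) (nat_lit 254) (nat_lit 225) (nat_lit 121))))) (XT.nd (nat_lit 156) (nat_lit 152) (nat_lit 0) (XT.nd (nat_lit 78) (nat_lit 0) (nat_lit 0) (XT.lf (nat_lit 0) (nat_lit 1555173982152) (nat_lit 76) (nat_lit 992383622314) (nat_lit 76) (nat_lit 439820474359) (nat_lit 4) (nat_lit 4) (nat_lit 5) (nat_lit 5) (nat_lit 5) (nat_lit 4) (nat_lit 255) (nat_lit 225) (nat_lit 120)) (XT.lf (nat_lit 0) (nat_lit 2443697554372) (nat_lit 76) (nat_lit 757744221916) (nat_lit 76) (nat_lit 205181043447) (nat_lit 4) (nat_lit 4) (nat_lit 5) (nat_lit 5) (nat_lit 5) (nat_lit 4) (nat_lit 256) (nat_lit 225) (nat_lit 119))) (XT.nd (nat_lit 78) (nat_lit 76) (nat_lit 0) (XT.lf (nat_lit 0) (nat_lit 61419994446) (nat_lit 152) (nat_lit 424809616553)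 (nat_lit 76) (nat_lit 3402400268835) (nat_lit 3) (nat_lit 5) (nat_lit 5) (nat_lit 5) (nat_lit 4) (nat_lit 4) (nat_lit 257) (nat_lit 225) (nat_lit 118)) (XT.nd (nat_lit 28782) (nat_lit 0) (nat_lit 2660) (XT.lf (nat_lit 0) (nat_lit 198266617811) (nat_lit 76) (nat_lit 162709269634) (nat_lit 152) (nat_lit 4081126664778) (nat_lit 2) (nat_lit 5) (nat_lit 3) (nat_lit 5) (nat_lit 4) (nat_lit 4) (nat_lit 258) (nat_lit 225) (nat_lit 117)) (XT.lf (nat_lit 0) (nat_lit 33011324605) (nat_lit 532) (nat_lit 22287630686) (nat_lit 532) (nat_lit 22287630686) (nat_lit 37) (nat_lit 3) (nat_lit 44) (nat_lit 3) (nat_lit 44) (nat_lit 5) (nat_lit 226) (nat_lit 226) (nat_lit 148)))))) (XT.nd (nat_lit 390) (nat_lit 1064) (nat_lit 0) (XT.nd (nat_lit 156) (nat_lit 304) (nat_lit 0) (XT.nd (nat_lit 78) (nat_lit 0) (nat_lit 0) (XT.lf (nat_lit 0) (nat_lit 73358530088) (nat_lit 456) (nat_lit 80957379901) (nat_lit 532)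 (nat_lit 12304494338) (nat_lit 38) (nat_lit 5) (nat_lit 44) (nat_lit 5) (nat_lit 45) (nat_lit 5) (nat_lit 227) (nat_lit 226) (nat_lit 147)) (XT.lf (nat_lit 76) (nat_lit 58277686482) (nat_lit 0) (nat_lit 29308236440) (nat_lit 532) (nat_lit 91735511976) (nat_lit 39) (nat_lit 5) (nat_lit 38) (nat_lit 5) (nat_lit 45) (nat_lit 5) (nat_lit 228) (nat_lit 226) (nat_lit 146))) (XT.nd (nat_lit 78) (nat_lit 380) (nat_lit 0) (XT.lf (nat_lit 76) (nat_lit 28155643051) (nat_lit 0) (nat_lit 81638984727) (nat_lit 532) (nat_lit 83665219273) (nat_lit 40) (nat_lit 5) (nat_lit 39) (nat_lit 5) (nat_lit 46) (nat_lit 5) (nat_lit 229) (nat_lit 226) (nat_lit 145)) (XT.nd (nat_lit 78) (nat_lit 456) (nat_lit 0) (XT.lf (nat_lit 0) (nat_lit 141249002028) (nat_lit 456) (nat_lit 4763573382) (nat_lit 76) (nat_lit 63233299344) (nat_lit 40) (nat_lit 5) (nat_lit 46) (nat_lit 5) (nat_lit 41) (nat_lit 5) (nat_lit 230) (nat_lit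 226) (nat_lit 144)) (XT.lf (nat_lit 0) (nat_lit 184241912562) (nat_lit 532) (nat_lit 39974471614) (nat_lit 76) (nat_lit 2637794478) (nat_lit 34) (nat_lit 5) (nat_lit 41) (nat_lit 5) (nat_lit 35) (nat_lit 5) (nat_lit 231) (nat_lit 226) (nat_lit 143))))) (XT.nd (nat_lit 234) (nat_lit 380) (nat_lit 0) (XT.nd (nat_lit 78) (nat_lit 456) (nat_lit 0) (XT.lf (nat_lit 0) (nat_lit 164659838760) (nat_lit 228) (nat_lit 77164160584) (nat_lit 304) (nat_lit 4628511754) (nat_lit 31) (nat_lit 5) (nat_lit 34) (nat_lit 5) (nat_lit 35) (nat_lit 5) (nat_lit 232) (nat_lit 226) (nat_lit 142)) (XT.nd (nat_lit 78) (nat_lit 228) (nat_lit 0) (XT.lf (nat_lit 0) (nat_lit 44002213459) (nat_lit 228) (nat_lit 131383305479) (nat_lit 76) (nat_lit 92977699536) (nat_lit 28) (nat_lit 5) (nat_lit 31) (nat_lit 5) (nat_lit 29) (nat_lit 5) (nat_lit 233) (nat_lit 226) (nat_lit 141)) (XT.lf (nat_lit 0) (nat_lit 102978380656) (nat_lit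 228) (nat_lit 3736473841) (nat_lit 304) (nat_lit 186271151939) (nat_lit 25) (nat_lit 5) (nat_lit 28) (nat_lit 5) (nat_lit 29) (nat_lit 5) (nat_lit 234) (nat_lit 226) (nat_lit 140)))) (XT.nd (nat_lit 78) (nat_lit 228) (nat_lit 0) (XT.lf (nat_lit 0) (nat_lit 57577211204) (nat_lit 152) (nat_lit 131223529041) (nat_lit 228) (nat_lit 131704165762) (nat_lit 23) (nat_lit 5) (nat_lit 25) (nat_lit 5) (nat_lit 26) (nat_lit 5) (nat_lit 235) (nat_lit 226) (nat_lit 139)) (XT.nd (nat_lit 78) (nat_lit 76) (nat_lit 0) (XT.lf (nat_lit 0) (nat_lit 458752209) (nat_lit 152) (nat_lit 289944077768) (nat_lit 228) (nat_lit 61172545975) (nat_lit 21) (nat_lit 5) (nat_lit 23) (nat_lit 5) (nat_lit 24) (nat_lit 5) (nat_lit 236) (nat_lit 226) (nat_lit 138)) (XT.lf (nat_lit 0) (nat_lit 30424108579) (nat_lit 228) (nat_lit 71726843151) (nat_lit 76) (nat_lit 284198486272) (nat_lit 20) (nat_lit 5) (nat_lit 23) (nat_lit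 5) (nat_lit 21) (nat_lit 5) (nat_lit 237) (nat_lit 226) (nat_lit 137))))))))
noncomputable def xc54 : XT := (XT.nd (nat_lit 30420) (nat_lit 0) (nat_lit 456) (XT.nd (nat_lit 780) (nat_lit 380) (nat_lit 0) (XT.nd (nat_lit 390) (nat_lit 304) (nat_lit 0) (XT.nd (nat_lit 156) (nat_lit 304) (nat_lit 0) (XT.nd (nat_lit 78) (nat_lit 152) (nat_lit 0) (XT.lf (nat_lit 0) (nat_lit 141460418495) (nat_lit 228) (nat_lit 167714302271) (nat_lit 76) (nat_lit 116291997239) (nat_lit 18) (nat_lit 5) (nat_lit 21) (nat_lit 5) (nat_lit 19) (nat_lit 5) (nat_lit 238) (nat_lit 226) (nat_lit 136)) (XT.lf (nat_lit 0) (nat_lit 176670544046) (nat_lit 152) (nat_lit 101698064647) (nat_lit 228) (nat_lit 191345667299) (nat_lit 16) (nat_lit 5) (nat_lit 18) (nat_lit 5) (nat_lit 19) (nat_lit 5) (nat_lit 239) (nat_lit 226) (nat_lit 135))) (XT.nd (nat_lit 78) (nat_lit 228) (nat_lit 0) (XT.lf (nat_lit 0) (nat_lit 62360988301)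 (nat_lit 76) (nat_lit 383253710814) (nat_lit 152) (nat_lit 74200135423) (nat_lit 15) (nat_lit 5) (nat_lit 16) (nat_lit 5) (nat_lit 17) (nat_lit 4) (nat_lit 240) (nat_lit 226) (nat_lit 134)) (XT.nd (nat_lit 78) (nat_lit 152) (nat_lit 0) (XT.lf (nat_lit 0) (nat_lit 69055685579) (nat_lit 152) (nat_lit 92415759960) (nat_lit 76) (nat_lit 414917334461) (nat_lit 14) (nat_lit 5) (nat_lit 16) (nat_lit 5) (nat_lit 15) (nat_lit 5) (nat_lit 241) (nat_lit 226) (nat_lit 133)) (XT.lf (nat_lit 0) (nat_lit 240285023198) (nat_lit 228) (nat_lit 300686906406) (nat_lit 76) (nat_lit 99452416438) (nat_lit 12) (nat_lit 5) (nat_lit 15) (nat_lit 5) (nat_lit 13) (nat_lit 4) (nat_lit 242) (nat_lit 226) (nat_lit 132))))) (XT.nd (nat_lit 156) (nat_lit 228) (nat_lit 0) (XT.nd (nat_lit 78) (nat_lit 0) (nat_lit 0) (XT.lf (nat_lit 0) (nat_lit 130449610348) (nat_lit 76) (nat_lit 317112683240) (nat_lit 152) (nat_lit 265673871194)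 (nat_lit 11) (nat_lit 5) (nat_lit 12) (nat_lit 5) (nat_lit 13) (nat_lit 4) (nat_lit 243) (nat_lit 226) (nat_lit 131)) (XT.lf (nat_lit 0) (nat_lit 644465054152) (nat_lit 76) (nat_lit 50220134935) (nat_lit 152) (nat_lit 101584244799) (nat_lit 11) (nat_lit 5) (nat_lit 12) (nat_lit 5) (nat_lit 13) (nat_lit 4) (nat_lit 244) (nat_lit 226) (nat_lit 130))) (XT.nd (nat_lit 78) (nat_lit 76) (nat_lit 0) (XT.lf (nat_lit 0) (nat_lit 97864970462) (nat_lit 152) (nat_lit 537626319454) (nat_lit 76) (nat_lit 254890452394) (nat_lit 9) (nat_lit 5) (nat_lit 11) (nat_lit 5) (nat_lit 10) (nat_lit 4) (nat_lit 245) (nat_lit 226) (nat_lit 129)) (XT.nd (nat_lit 78) (nat_lit 76) (nat_lit 0) (XT.lf (nat_lit 0) (nat_lit 327310929316) (nat_lit 152) (nat_lit 60378850247) (nat_lit 76) (nat_lit 610222490938) (nat_lit 9) (nat_lit 5) (nat_lit 11) (nat_lit 5) (nat_lit 10) (nat_lit 4) (nat_lit 246) (nat_lit 226) (nat_lit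 128)) (XT.lf (nat_lit 0) (nat_lit 514176768373) (nat_lit 76) (nat_lit 89362876085) (nat_lit 152) (nat_lit 517043464657) (nat_lit 8) (nat_lit 5) (nat_lit 9) (nat_lit 5) (nat_lit 10) (nat_lit 4) (nat_lit 247) (nat_lit 226) (nat_lit 127)))))) (XT.nd (nat_lit 390) (nat_lit 152) (nat_lit 0) (XT.nd (nat_lit 156) (nat_lit 152) (nat_lit 0) (XT.nd (nat_lit 78) (nat_lit 76) (nat_lit 0) (XT.lf (nat_lit 0) (nat_lit 929107902738) (nat_lit 152) (nat_lit 89089485246) (nat_lit 0) (nat_lit 242824766835) (nat_lit 8) (nat_lit 5) (nat_lit 10) (nat_lit 4) (nat_lit 8) (nat_lit 4) (nat_lit 248) (nat_lit 226) (nat_lit 126)) (XT.lf (nat_lit 0) (nat_lit 529858885058) (nat_lit 76) (nat_lit 788867108545) (nat_lit 76) (nat_lit 102583896414) (nat_lit 7) (nat_lit 4) (nat_lit 8) (nat_lit 5) (nat_lit 8) (nat_lit 4) (nat_lit 249) (nat_lit 226) (nat_lit 125))) (XT.nd (nat_lit 78) (nat_lit 76) (nat_lit 0) (XT.lf (nat_lit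 0) (nat_lit 155745874980) (nat_lit 152) (nat_lit 362331858457) (nat_lit 76) (nat_lit 1087040123851) (nat_lit 6) (nat_lit 5) (nat_lit 8) (nat_lit 5) (nat_lit 7) (nat_lit 4) (nat_lit 250) (nat_lit 226) (nat_lit 124)) (XT.nd (nat_lit 78) (nat_lit 0) (nat_lit 0) (XT.lf (nat_lit 0) (nat_lit 256130509770) (nat_lit 76) (nat_lit 196953069953) (nat_lit 152) (nat_lit 1362693672360) (nat_lit 5) (nat_lit 5) (nat_lit 6) (nat_lit 5) (nat_lit 7) (nat_lit 4) (nat_lit 251) (nat_lit 226) (nat_lit 123)) (XT.lf (nat_lit 0) (nat_lit 809989566848) (nat_lit 152) (nat_lit 1072306592150) (nat_lit 0) (nat_lit 174541987055) (nat_lit 5) (nat_lit 5) (nat_lit 7) (nat_lit 4) (nat_lit 5) (nat_lit 4) (nat_lit 252) (nat_lit 226) (nat_lit 122))))) (XT.nd (nat_lit 234) (nat_lit 76) (nat_lit 0) (XT.nd (nat_lit 78) (nat_lit 76) (nat_lit 0) (XT.lf (nat_lit 0) (nat_lit 1225878633810) (nat_lit 152) (nat_lit 517312752181) (nat_lit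 0) (nat_lit 590431013662) (nat_lit 5) (nat_lit 5) (nat_lit 7) (nat_lit 4) (nat_lit 5) (nat_lit 4) (nat_lit 253) (nat_lit 226) (nat_lit 121)) (XT.nd (nat_lit 78) (nat_lit 0) (nat_lit 0) (XT.lf (nat_lit 0) (nat_lit 127298042433) (nat_lit 76) (nat_lit 1579914493095) (nat_lit 76) (nat_lit 944466837856) (nat_lit 4) (nat_lit 4) (nat_lit 5) (nat_lit 5) (nat_lit 5) (nat_lit 4) (nat_lit 254) (nat_lit 226) (nat_lit 120)) (XT.lf (nat_lit 0) (nat_lit 899927267133) (nat_lit 76) (nat_lit 1375880217444) (nat_lit 76) (nat_lit 740432531691) (nat_lit 4) (nat_lit 4) (nat_lit 5) (nat_lit 5) (nat_lit 5) (nat_lit 4) (nat_lit 255) (nat_lit 226) (nat_lit 119)))) (XT.nd (nat_lit 78) (nat_lit 76) (nat_lit 0) (XT.lf (nat_lit 0) (nat_lit 1788450807889) (nat_lit 76) (nat_lit 1141240831481) (nat_lit 76) (nat_lit 505793119194) (nat_lit 4) (nat_lit 4) (nat_lit 5) (nat_lit 5) (nat_lit 5) (nat_lit 4) (nat_lit 256) (nat_lit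 226) (nat_lit 118)) (XT.nd (nat_lit 78) (nat_lit 76) (nat_lit 0) (XT.lf (nat_lit 0) (nat_lit 2810252820931) (nat_lit 76) (nat_lit 871405564612) (nat_lit 76) (nat_lit 235957829251) (nat_lit 4) (nat_lit 4) (nat_lit 5) (nat_lit 5) (nat_lit 5) (nat_lit 4) (nat_lit 257) (nat_lit 226) (nat_lit 117)) (XT.lf (nat_lit 0) (nat_lit 70633299846) (nat_lit 152) (nat_lit 488530491743) (nat_lit 76) (nat_lit 3912760545340) (nat_lit 3) (nat_lit 5) (nat_lit 5) (nat_lit 5) (nat_lit 4) (nat_lit 4) (nat_lit 258) (nat_lit 226) (nat_lit 116))))))) (XT.nd (nat_lit 780) (nat_lit 1064) (nat_lit 0) (XT.nd (nat_lit 390) (nat_lit 1064) (nat_lit 0) (XT.nd (nat_lit 156) (nat_lit 0) (nat_lit 76) (XT.nd (nat_lit 78) (nat_lit 0) (nat_lit 76) (XT.lf (nat_lit 0) (nat_lit 37967228768) (nat_lit 532) (nat_lit 25628494293) (nat_lit 532) (nat_lit 25628494293) (nat_lit 37) (nat_lit 3) (nat_lit 44) (nat_lit 3) (nat_lit 44) (nat_lit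 5) (nat_lit 227) (nat_lit 227) (nat_lit 146)) (XT.lf (nat_lit 0) (nat_lit 84369646010) (nat_lit 456) (nat_lit 93096105087) (nat_lit 532) (nat_lit 14147092039) (nat_lit 38) (nat_lit 5) (nat_lit 44) (nat_lit 5) (nat_lit 45) (nat_lit 5) (nat_lit 228) (nat_lit 227) (nat_lit 145))) (XT.nd (nat_lit 78) (nat_lit 0) (nat_lit 76) (XT.lf (nat_lit 76) (nat_lit 67023808033) (nat_lit 0) (nat_lit 33706490283) (nat_lit 532) (nat_lit 105488802489) (nat_lit 39) (nat_lit 5) (nat_lit 38) (nat_lit 5) (nat_lit 45) (nat_lit 5) (nat_lit 229) (nat_lit 227) (nat_lit 144)) (XT.nd (nat_lit 78) (nat_lit 0) (nat_lit 76) (XT.lf (nat_lit 76) (nat_lit 32383627108) (nat_lit 0) (nat_lit 93885904992) (nat_lit 532) (nat_lit 96208808787) (nat_lit 40) (nat_lit 5) (nat_lit 39) (nat_lit 5) (nat_lit 46) (nat_lit 5) (nat_lit 230) (nat_lit 227) (nat_lit 143)) (XT.lf (nat_lit 0) (nat_lit 162441295253) (nat_lit 456) (nat_lit 5473634071)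 (nat_lit 76) (nat_lit 72717408244) (nat_lit 40) (nat_lit 5) (nat_lit 46) (nat_lit 5) (nat_lit 41) (nat_lit 5) (nat_lit 231) (nat_lit 227) (nat_lit 142))))) (XT.nd (nat_lit 156) (nat_lit 608) (nat_lit 0) (XT.nd (nat_lit 78) (nat_lit 228) (nat_lit 0) (XT.lf (nat_lit 0) (nat_lit 211882588940) (nat_lit 532) (nat_lit 45966166924) (nat_lit 76) (nat_lit 3033178458) (nat_lit 34) (nat_lit 5) (nat_lit 41) (nat_lit 5) (nat_lit 35) (nat_lit 5) (nat_lit 232) (nat_lit 227) (nat_lit 141)) (XT.lf (nat_lit 0) (nat_lit 189362911183) (nat_lit 228) (nat_lit 88738603537) (nat_lit 304) (nat_lit 5318542440) (nat_lit 31) (nat_lit 5) (nat_lit 34) (nat_lit 5) (nat_lit 35) (nat_lit 5) (nat_lit 233) (nat_lit 227) (nat_lit 140))) (XT.nd (nat_lit 78) (nat_lit 380) (nat_lit 0) (XT.lf (nat_lit 0) (nat_lit 50606156800) (nat_lit 228) (nat_lit 151086548670) (nat_lit 76) (nat_lit 106924692888) (nat_lit 28) (nat_lit 5) (nat_lit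 31) (nat_lit 5) (nat_lit 29) (nat_lit 5) (nat_lit 234) (nat_lit 227) (nat_lit 139)) (XT.nd (nat_lit 78) (nat_lit 152) (nat_lit 0) (XT.lf (nat_lit 0) (nat_lit 118429030421) (nat_lit 228) (nat_lit 4296286149) (nat_lit 304) (nat_lit 214208319962) (nat_lit 25) (nat_lit 5) (nat_lit 28) (nat_lit 5) (nat_lit 29) (nat_lit 5) (nat_lit 235) (nat_lit 227) (nat_lit 138)) (XT.lf (nat_lit 0) (nat_lit 66217589496) (nat_lit 152) (nat_lit 150906178957) (nat_lit 228) (nat_lit 151456629509) (nat_lit 23) (nat_lit 5) (nat_lit 25) (nat_lit 5) (nat_lit 26) (nat_lit 5) (nat_lit 236) (nat_lit 227) (nat_lit 137)))))) (XT.nd (nat_lit 390) (nat_lit 456) (nat_lit 0) (XT.nd (nat_lit 156) (nat_lit 380) (nat_lit 0) (XT.nd (nat_lit 78) (nat_lit 76) (nat_lit 0) (XT.lf (nat_lit 0) (nat_lit 531244224) (nat_lit 152) (nat_lit 333434653796) (nat_lit 228) (nat_lit 70345563647) (nat_lit 21) (nat_lit 5) (nat_lit 23) (nat_lit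 5) (nat_lit 24) (nat_lit 5) (nat_lit 237) (nat_lit 227) (nat_lit 136)) (XT.lf (nat_lit 0) (nat_lit 34990090904) (nat_lit 228) (nat_lit 82482538341) (nat_lit 76) (nat_lit 326829027773) (nat_lit 20) (nat_lit 5) (nat_lit 23) (nat_lit 5) (nat_lit 21) (nat_lit 5) (nat_lit 238) (nat_lit 227) (nat_lit 135))) (XT.nd (nat_lit 78) (nat_lit 228) (nat_lit 0) (XT.lf (nat_lit 0) (nat_lit 162681634121) (nat_lit 228) (nat_lit 192868243499) (nat_lit 76) (nat_lit 133736669422) (nat_lit 18) (nat_lit 5) (nat_lit 21) (nat_lit 5) (nat_lit 19) (nat_lit 5) (nat_lit 239) (nat_lit 227) (nat_lit 134)) (XT.nd (nat_lit 78) (nat_lit 76) (nat_lit 0) (XT.lf (nat_lit 0) (nat_lit 203174058553) (nat_lit 152) (nat_lit 116951784024) (nat_lit 228) (nat_lit 220045413809) (nat_lit 16) (nat_lit 5) (nat_lit 18) (nat_lit 5) (nat_lit 19) (nat_lit 5) (nat_lit 240) (nat_lit 227) (nat_lit 133)) (XT.lf (nat_lit 0) (nat_lit 71717946765)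 (nat_lit 76) (nat_lit 440740734714) (nat_lit 152) (nat_lit 85328231173) (nat_lit 15) (nat_lit 5) (nat_lit 16) (nat_lit 5) (nat_lit 17) (nat_lit 4) (nat_lit 241) (nat_lit 227) (nat_lit 132))))) (XT.nd (nat_lit 234) (nat_lit 152) (nat_lit 0) (XT.nd (nat_lit 78) (nat_lit 228) (nat_lit 0) (XT.lf (nat_lit 0) (nat_lit 79415628233) (nat_lit 152) (nat_lit 106275592650) (nat_lit 76) (nat_lit 477155745014) (nat_lit 14) (nat_lit 5) (nat_lit 16) (nat_lit 5) (nat_lit 15) (nat_lit 5) (nat_lit 242) (nat_lit 227) (nat_lit 131)) (XT.nd (nat_lit 78) (nat_lit 76) (nat_lit 0) (XT.lf (nat_lit 0) (nat_lit 276329235988) (nat_lit 228) (nat_lit 345787528000) (nat_lit 76) (nat_lit 114371113807) (nat_lit 12) (nat_lit 5) (nat_lit 15) (nat_lit 5) (nat_lit 13) (nat_lit 4) (nat_lit 243) (nat_lit 227) (nat_lit 130)) (XT.lf (nat_lit 0) (nat_lit 150019261902) (nat_lit 76) (nat_lit 364678697841) (nat_lit 152) (nat_lit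 305523521024) (nat_lit 11) (nat_lit 5) (nat_lit 12) (nat_lit 5) (nat_lit 13) (nat_lit 4) (nat_lit 244) (nat_lit 227) (nat_lit 129)))) (XT.nd (nat_lit 78) (nat_lit 152) (nat_lit 0) (XT.lf (nat_lit 0) (nat_lit 741136734016) (nat_lit 76) (nat_lit 57752383101) (nat_lit 152) (nat_lit 116820637302) (nat_lit 11) (nat_lit 5) (nat_lit 12) (nat_lit 5) (nat_lit 13) (nat_lit 4) (nat_lit 245) (nat_lit 227) (nat_lit 128)) (XT.nd (nat_lit 78) (nat_lit 0) (nat_lit 0) (XT.lf (nat_lit 0) (nat_lit 112545805523) (nat_lit 152) (nat_lit 618268379302) (nat_lit 76) (nat_lit 293124729599) (nat_lit 9) (nat_lit 5) (nat_lit 11) (nat_lit 5) (nat_lit 10) (nat_lit 4) (nat_lit 246) (nat_lit 227) (nat_lit 127)) (XT.lf (nat_lit 0) (nat_lit 376408516097) (nat_lit 152) (nat_lit 69434035984) (nat_lit 76) (nat_lit 701756481401) (nat_lit 9) (nat_lit 5) (nat_lit 11) (nat_lit 5) (nat_lit 10) (nat_lit 4) (nat_lit 247) (nat_lit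 227) (nat_lit 126))))))))
noncomputable def xc55 : XT := (XT.nd (nat_lit 30498) (nat_lit 0) (nat_lit 0) (XT.nd (nat_lit 780) (nat_lit 0) (nat_lit 0) (XT.nd (nat_lit 390) (nat_lit 76) (nat_lit 0) (XT.nd (nat_lit 156) (nat_lit 228) (nat_lit 0) (XT.nd (nat_lit 78) (nat_lit 0) (nat_lit 0) (XT.lf (nat_lit 0) (nat_lit 591304786459) (nat_lit 76) (nat_lit 102766664623) (nat_lit 152) (nat_lit 594599054035) (nat_lit 8) (nat_lit 5) (nat_lit 9) (nat_lit 5) (nat_lit 10) (nat_lit 4) (nat_lit 248) (nat_lit 227) (nat_lit 125)) (XT.lf (nat_lit 0) (nat_lit 1068474849381) (nat_lit 152) (nat_lit 102451553481) (nat_lit 0) (nat_lit 279249012917) (nat_lit 8) (nat_lit 5) (nat_lit 10) (nat_lit 4) (nat_lit 8) (nat_lit 4) (nat_lit 249) (nat_lit 227) (nat_lit 124))) (XT.nd (nat_lit 78) (nat_lit 152) (nat_lit 0) (XT.lf (nat_lit 0) (nat_lit 609338957712) (nat_lit 76) (nat_lit 907196626692) (nat_lit 76) (nat_lit 117970732589)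 (nat_lit 7) (nat_lit 4) (nat_lit 8) (nat_lit 5) (nat_lit 8) (nat_lit 4) (nat_lit 250) (nat_lit 227) (nat_lit 123)) (XT.nd (nat_lit 78) (nat_lit 76) (nat_lit 0) (XT.lf (nat_lit 0) (nat_lit 179108374361) (nat_lit 152) (nat_lit 416680525551) (nat_lit 76) (nat_lit 1250096585563) (nat_lit 6) (nat_lit 5) (nat_lit 8) (nat_lit 5) (nat_lit 7) (nat_lit 4) (nat_lit 251) (nat_lit 227) (nat_lit 122)) (XT.lf (nat_lit 0) (nat_lit 294551103812) (nat_lit 76) (nat_lit 226495574850) (nat_lit 152) (nat_lit 1567097115444) (nat_lit 5) (nat_lit 5) (nat_lit 6) (nat_lit 5) (nat_lit 7) (nat_lit 4) (nat_lit 252) (nat_lit 227) (nat_lit 121))))) (XT.nd (nat_lit 156) (nat_lit 76) (nat_lit 0) (XT.nd (nat_lit 78) (nat_lit 0) (nat_lit 0) (XT.lf (nat_lit 0) (nat_lit 931488500082) (nat_lit 152) (nat_lit 1233151665835) (nat_lit 0) (nat_lit 200723661466) (nat_lit 5) (nat_lit 5) (nat_lit 7) (nat_lit 4) (nat_lit 5) (nat_lit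 4) (nat_lit 253) (nat_lit 227) (nat_lit 120)) (XT.lf (nat_lit 0) (nat_lit 1409760862105) (nat_lit 152) (nat_lit 594908869236) (nat_lit 0) (nat_lit 678995992975) (nat_lit 5) (nat_lit 5) (nat_lit 7) (nat_lit 4) (nat_lit 5) (nat_lit 4) (nat_lit 254) (nat_lit 227) (nat_lit 119))) (XT.nd (nat_lit 78) (nat_lit 0) (nat_lit 0) (XT.lf (nat_lit 0) (nat_lit 146393477213) (nat_lit 76) (nat_lit 1816901332880) (nat_lit 76) (nat_lit 1086136437215) (nat_lit 4) (nat_lit 4) (nat_lit 5) (nat_lit 5) (nat_lit 5) (nat_lit 4) (nat_lit 255) (nat_lit 227) (nat_lit 118)) (XT.nd (nat_lit 78) (nat_lit 0) (nat_lit 0) (XT.lf (nat_lit 0) (nat_lit 1034916990607) (nat_lit 76) (nat_lit 1582261959470) (nat_lit 76) (nat_lit 851497040732) (nat_lit 4) (nat_lit 4) (nat_lit 5) (nat_lit 5) (nat_lit 5) (nat_lit 4) (nat_lit 256) (nat_lit 227) (nat_lit 117)) (XT.lf (nat_lit 0) (nat_lit 2056718979858) (nat_lit 76) (nat_lit 1312426703516)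 (nat_lit 76) (nat_lit 581661764714) (nat_lit 4) (nat_lit 4) (nat_lit 5) (nat_lit 5) (nat_lit 5) (nat_lit 4) (nat_lit 257) (nat_lit 227) (nat_lit 116)))))) (XT.nd (nat_lit 29250) (nat_lit 0) (nat_lit 1444) (XT.nd (nat_lit 29016) (nat_lit 0) (nat_lit 2584) (XT.nd (nat_lit 28938) (nat_lit 0) (nat_lit 2508) (XT.lf (nat_lit 0) (nat_lit 3231791223015) (nat_lit 76) (nat_lit 1002116179576) (nat_lit 76) (nat_lit 271351223327) (nat_lit 4) (nat_lit 4) (nat_lit 5) (nat_lit 5) (nat_lit 5) (nat_lit 4) (nat_lit 258) (nat_lit 227) (nat_lit 115)) (XT.lf (nat_lit 0) (nat_lit 43665493024) (nat_lit 532) (nat_lit 29471043676) (nat_lit 532) (nat_lit 29471043676) (nat_lit 37) (nat_lit 3) (nat_lit 44) (nat_lit 3) (nat_lit 44) (nat_lit 5) (nat_lit 228) (nat_lit 228) (nat_lit 144))) (XT.nd (nat_lit 78) (nat_lit 0) (nat_lit 0) (XT.lf (nat_lit 0) (nat_lit 97030640291) (nat_lit 456) (nat_lit 107056829509) (nat_lit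 532) (nat_lit 16266829606) (nat_lit 38) (nat_lit 5) (nat_lit 44) (nat_lit 5) (nat_lit 45) (nat_lit 5) (nat_lit 229) (nat_lit 228) (nat_lit 143)) (XT.nd (nat_lit 78) (nat_lit 0) (nat_lit 76) (XT.lf (nat_lit 76) (nat_lit 77080758126) (nat_lit 0) (nat_lit 38763990008) (nat_lit 532) (nat_lit 121306802421) (nat_lit 39) (nat_lit 5) (nat_lit 38) (nat_lit 5) (nat_lit 45) (nat_lit 5) (nat_lit 230) (nat_lit 228) (nat_lit 142)) (XT.lf (nat_lit 76) (nat_lit 37244677866) (nat_lit 0) (nat_lit 107969601747) (nat_lit 532) (nat_lit 110635447022) (nat_lit 40) (nat_lit 5) (nat_lit 39) (nat_lit 5) (nat_lit 46) (nat_lit 5) (nat_lit 231) (nat_lit 228) (nat_lit 141))))) (XT.nd (nat_lit 234) (nat_lit 608) (nat_lit 0) (XT.nd (nat_lit 78) (nat_lit 684) (nat_lit 0) (XT.lf (nat_lit 0) (nat_lit 186811227100) (nat_lit 456) (nat_lit 6291295198) (nat_lit 76) (nat_lit 83624349536) (nat_lit 40) (nat_lit 5) (nat_lit 46)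 (nat_lit 5) (nat_lit 41) (nat_lit 5) (nat_lit 232) (nat_lit 228) (nat_lit 140)) (XT.nd (nat_lit 78) (nat_lit 228) (nat_lit 0) (XT.lf (nat_lit 0) (nat_lit 243668296369) (nat_lit 532) (nat_lit 52857707893) (nat_lit 76) (nat_lit 3487939582) (nat_lit 34) (nat_lit 5) (nat_lit 41) (nat_lit 5) (nat_lit 35) (nat_lit 5) (nat_lit 233) (nat_lit 228) (nat_lit 139)) (XT.lf (nat_lit 0) (nat_lit 217770445485) (nat_lit 228) (nat_lit 102049257104) (nat_lit 304) (nat_lit 6113113161) (nat_lit 31) (nat_lit 5) (nat_lit 34) (nat_lit 5) (nat_lit 35) (nat_lit 5) (nat_lit 234) (nat_lit 228) (nat_lit 138)))) (XT.nd (nat_lit 78) (nat_lit 380) (nat_lit 0) (XT.lf (nat_lit 0) (nat_lit 58199810999) (nat_lit 228) (nat_lit 173746315372) (nat_lit 76) (nat_lit 122963652716) (nat_lit 28) (nat_lit 5) (nat_lit 31) (nat_lit 5) (nat_lit 29) (nat_lit 5) (nat_lit 235) (nat_lit 228) (nat_lit 137)) (XT.nd (nat_lit 78) (nat_lit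 152) (nat_lit 0) (XT.lf (nat_lit 0) (nat_lit 136196328399) (nat_lit 228) (nat_lit 4940230949) (nat_lit 304) (nat_lit 246336917848) (nat_lit 25) (nat_lit 5) (nat_lit 28) (nat_lit 5) (nat_lit 29) (nat_lit 5) (nat_lit 236) (nat_lit 228) (nat_lit 136)) (XT.lf (nat_lit 0) (nat_lit 76153098704) (nat_lit 152) (nat_lit 173541440818) (nat_lit 228) (nat_lit 174172733677) (nat_lit 23) (nat_lit 5) (nat_lit 25) (nat_lit 5) (nat_lit 26) (nat_lit 5) (nat_lit 237) (nat_lit 228) (nat_lit 135))))))) (XT.nd (nat_lit 858) (nat_lit 380) (nat_lit 0) (XT.nd (nat_lit 390) (nat_lit 456) (nat_lit 0) (XT.nd (nat_lit 156) (nat_lit 380) (nat_lit 0) (XT.nd (nat_lit 78) (nat_lit 76) (nat_lit 0) (XT.lf (nat_lit 0) (nat_lit 613712849) (nat_lit 152) (nat_lit 383449068776) (nat_lit 228) (nat_lit 80895232430) (nat_lit 21) (nat_lit 5) (nat_lit 23) (nat_lit 5) (nat_lit 24) (nat_lit 5) (nat_lit 238) (nat_lit 228) (nat_lit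 134)) (XT.lf (nat_lit 0) (nat_lit 40240393604) (nat_lit 228) (nat_lit 94852400164) (nat_lit 76) (nat_lit 375853963082) (nat_lit 20) (nat_lit 5) (nat_lit 23) (nat_lit 5) (nat_lit 21) (nat_lit 5) (nat_lit 239) (nat_lit 228) (nat_lit 133))) (XT.nd (nat_lit 78) (nat_lit 228) (nat_lit 0) (XT.lf (nat_lit 0) (nat_lit 187085507104) (nat_lit 228) (nat_lit 221796057254) (nat_lit 76) (nat_lit 153797829644) (nat_lit 18) (nat_lit 5) (nat_lit 21) (nat_lit 5) (nat_lit 19) (nat_lit 5) (nat_lit 240) (nat_lit 228) (nat_lit 132)) (XT.nd (nat_lit 78) (nat_lit 76) (nat_lit 0) (XT.lf (nat_lit 0) (nat_lit 233652385031) (nat_lit 152) (nat_lit 134493802804) (nat_lit 228) (nat_lit 253050635269) (nat_lit 16) (nat_lit 5) (nat_lit 18) (nat_lit 5) (nat_lit 19) (nat_lit 5) (nat_lit 241) (nat_lit 228) (nat_lit 131)) (XT.lf (nat_lit 0) (nat_lit 82477763709) (nat_lit 76) (nat_lit 506851064036) (nat_lit 152) (nat_lit 98126010602)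 (nat_lit 15) (nat_lit 5) (nat_lit 16) (nat_lit 5) (nat_lit 17) (nat_lit 4) (nat_lit 242) (nat_lit 228) (nat_lit 130))))) (XT.nd (nat_lit 234) (nat_lit 152) (nat_lit 0) (XT.nd (nat_lit 78) (nat_lit 228) (nat_lit 0) (XT.lf (nat_lit 0) (nat_lit 91329174598) (nat_lit 152) (nat_lit 122215017518) (nat_lit 76) (nat_lit 548729719533) (nat_lit 14) (nat_lit 5) (nat_lit 16) (nat_lit 5) (nat_lit 15) (nat_lit 5) (nat_lit 243) (nat_lit 228) (nat_lit 129)) (XT.nd (nat_lit 78) (nat_lit 76) (nat_lit 0) (XT.lf (nat_lit 0) (nat_lit 317779724836) (nat_lit 228) (nat_lit 397653831592) (nat_lit 76) (nat_lit 131527412185) (nat_lit 12) (nat_lit 5) (nat_lit 15) (nat_lit 5) (nat_lit 13) (nat_lit 4) (nat_lit 244) (nat_lit 228) (nat_lit 128)) (XT.lf (nat_lit 0) (nat_lit 172523822267) (nat_lit 76) (nat_lit 419379831148) (nat_lit 152) (nat_lit 351350967250) (nat_lit 11) (nat_lit 5) (nat_lit 12) (nat_lit 5) (nat_lit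 13) (nat_lit 4) (nat_lit 245) (nat_lit 228) (nat_lit 127)))) (XT.nd (nat_lit 78) (nat_lit 152) (nat_lit 0) (XT.lf (nat_lit 0) (nat_lit 852308697231) (nat_lit 76) (nat_lit 66414656767) (nat_lit 152) (nat_lit 134342792091) (nat_lit 11) (nat_lit 5) (nat_lit 12) (nat_lit 5) (nat_lit 13) (nat_lit 4) (nat_lit 246) (nat_lit 228) (nat_lit 126)) (XT.nd (nat_lit 78) (nat_lit 0) (nat_lit 0) (XT.lf (nat_lit 0) (nat_lit 129428500164) (nat_lit 152) (nat_lit 711007208545) (nat_lit 76) (nat_lit 337093975405) (nat_lit 9) (nat_lit 5) (nat_lit 11) (nat_lit 5) (nat_lit 10) (nat_lit 4) (nat_lit 247) (nat_lit 228) (nat_lit 125)) (XT.lf (nat_lit 0) (nat_lit 432870509870) (nat_lit 152) (nat_lit 79847899944) (nat_lit 76) (nat_lit 807020420017) (nat_lit 9) (nat_lit 5) (nat_lit 11) (nat_lit 5) (nat_lit 10) (nat_lit 4) (nat_lit 248) (nat_lit 228) (nat_lit 124)))))) (XT.nd (nat_lit 390) (nat_lit 76) (nat_lit 0) (XT.nd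 (nat_lit 156) (nat_lit 228) (nat_lit 0) (XT.nd (nat_lit 78) (nat_lit 0) (nat_lit 0) (XT.lf (nat_lit 0) (nat_lit 680001640784) (nat_lit 76) (nat_lit 118181178211) (nat_lit 152) (nat_lit 683788208684) (nat_lit 8) (nat_lit 5) (nat_lit 9) (nat_lit 5) (nat_lit 10) (nat_lit 4) (nat_lit 249) (nat_lit 228) (nat_lit 123)) (XT.lf (nat_lit 0) (nat_lit 1228746652389) (nat_lit 152) (nat_lit 117818262268) (nat_lit 0) (nat_lit 321136766410) (nat_lit 8) (nat_lit 5) (nat_lit 10) (nat_lit 4) (nat_lit 8) (nat_lit 4) (nat_lit 250) (nat_lit 228) (nat_lit 122))) (XT.nd (nat_lit 78) (nat_lit 152) (nat_lit 0) (XT.lf (nat_lit 0) (nat_lit 700740738908) (nat_lit 76) (nat_lit 1043275706227) (nat_lit 76) (nat_lit 135665776665) (nat_lit 7) (nat_lit 4) (nat_lit 8) (nat_lit 5) (nat_lit 8) (nat_lit 4) (nat_lit 251) (nat_lit 228) (nat_lit 121)) (XT.nd (nat_lit 78) (nat_lit 76) (nat_lit 0) (XT.lf (nat_lit 0) (nat_lit 205975097914)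 (nat_lit 152) (nat_lit 479181763798) (nat_lit 76) (nat_lit 1437611408471) (nat_lit 6) (nat_lit 5) (nat_lit 8) (nat_lit 5) (nat_lit 7) (nat_lit 4) (nat_lit 252) (nat_lit 228) (nat_lit 120)) (XT.lf (nat_lit 0) (nat_lit 338734538819) (nat_lit 76) (nat_lit 260469566582) (nat_lit 152) (nat_lit 1802161223200) (nat_lit 5) (nat_lit 5) (nat_lit 6) (nat_lit 5) (nat_lit 7) (nat_lit 4) (nat_lit 253) (nat_lit 228) (nat_lit 119))))) (XT.nd (nat_lit 234) (nat_lit 0) (nat_lit 0) (XT.nd (nat_lit 78) (nat_lit 76) (nat_lit 0) (XT.lf (nat_lit 0) (nat_lit 1071212151811) (nat_lit 152) (nat_lit 1418123723734) (nat_lit 0) (nat_lit 230832495262) (nat_lit 5) (nat_lit 5) (nat_lit 7) (nat_lit 4) (nat_lit 5) (nat_lit 4) (nat_lit 254) (nat_lit 228) (nat_lit 118)) (XT.nd (nat_lit 78) (nat_lit 76) (nat_lit 0) (XT.lf (nat_lit 0) (nat_lit 1621225319001) (nat_lit 152) (nat_lit 684144597904) (nat_lit 0) (nat_lit 780845639379)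 (nat_lit 5) (nat_lit 5) (nat_lit 7) (nat_lit 4) (nat_lit 5) (nat_lit 4) (nat_lit 255) (nat_lit 228) (nat_lit 117)) (XT.lf (nat_lit 0) (nat_lit 168353049580) (nat_lit 76) (nat_lit 2089436280125) (nat_lit 76) (nat_lit 1249056580439) (nat_lit 4) (nat_lit 4) (nat_lit 5) (nat_lit 5) (nat_lit 5) (nat_lit 4) (nat_lit 256) (nat_lit 228) (nat_lit 116)))) (XT.nd (nat_lit 78) (nat_lit 0) (nat_lit 0) (XT.lf (nat_lit 0) (nat_lit 1190155018142) (nat_lit 76) (nat_lit 1819601033662) (nat_lit 76) (nat_lit 979221316530) (nat_lit 4) (nat_lit 4) (nat_lit 5) (nat_lit 5) (nat_lit 5) (nat_lit 4) (nat_lit 257) (nat_lit 228) (nat_lit 115)) (XT.nd (nat_lit 29016) (nat_lit 0) (nat_lit 2508) (XT.lf (nat_lit 0) (nat_lit 2365227243310) (nat_lit 76) (nat_lit 1509290517975) (nat_lit 76) (nat_lit 668910785672) (nat_lit 4) (nat_lit 4) (nat_lit 5) (nat_lit 5) (nat_lit 5) (nat_lit 4) (nat_lit 258) (nat_lit 228) (nat_lit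 114)) (XT.lf (nat_lit 0) (nat_lit 50217721470) (nat_lit 532) (nat_lit 33890396060) (nat_lit 532) (nat_lit 33890396060) (nat_lit 37) (nat_lit 3) (nat_lit 44) (nat_lit 3) (nat_lit 44) (nat_lit 5) (nat_lit 229) (nat_lit 229) (nat_lit 142))))))))
noncomputable def xc56 : XT := (XT.nd (nat_lit 1638) (nat_lit 304) (nat_lit 0) (XT.nd (nat_lit 780) (nat_lit 988) (nat_lit 0) (XT.nd (nat_lit 390) (nat_lit 988) (nat_lit 0) (XT.nd (nat_lit 156) (nat_lit 304) (nat_lit 0) (XT.nd (nat_lit 78) (nat_lit 0) (nat_lit 0) (XT.lf (nat_lit 0) (nat_lit 111589430950) (nat_lit 456) (nat_lit 123112562752) (nat_lit 532) (nat_lit 18705095077) (nat_lit 38) (nat_lit 5) (nat_lit 44) (nat_lit 5) (nat_lit 45) (nat_lit 5) (nat_lit 230) (nat_lit 229) (nat_lit 141)) (XT.lf (nat_lit 76) (nat_lit 88645426769) (nat_lit 0) (nat_lit 44579742523) (nat_lit 532) (nat_lit 139498799767) (nat_lit 39) (nat_lit 5) (nat_lit 38) (nat_lit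 5) (nat_lit 45) (nat_lit 5) (nat_lit 231) (nat_lit 229) (nat_lit 140))) (XT.nd (nat_lit 78) (nat_lit 380) (nat_lit 0) (XT.lf (nat_lit 76) (nat_lit 42834031108) (nat_lit 0) (nat_lit 124165655246) (nat_lit 532) (nat_lit 127227222991) (nat_lit 40) (nat_lit 5) (nat_lit 39) (nat_lit 5) (nat_lit 46) (nat_lit 5) (nat_lit 232) (nat_lit 229) (nat_lit 139)) (XT.nd (nat_lit 78) (nat_lit 456) (nat_lit 0) (XT.lf (nat_lit 0) (nat_lit 214835737297) (nat_lit 456) (nat_lit 7232430700) (nat_lit 76) (nat_lit 96167495391) (nat_lit 40) (nat_lit 5) (nat_lit 46) (nat_lit 5) (nat_lit 41) (nat_lit 5) (nat_lit 233) (nat_lit 229) (nat_lit 138)) (XT.lf (nat_lit 0) (nat_lit 280221050532) (nat_lit 532) (nat_lit 60783805235) (nat_lit 76) (nat_lit 4010967460) (nat_lit 34) (nat_lit 5) (nat_lit 41) (nat_lit 5) (nat_lit 35) (nat_lit 5) (nat_lit 234) (nat_lit 229) (nat_lit 137))))) (XT.nd (nat_lit 156) (nat_lit 532) (nat_lit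 0) (XT.nd (nat_lit 78) (nat_lit 228) (nat_lit 0) (XT.lf (nat_lit 0) (nat_lit 250438354558) (nat_lit 228) (nat_lit 117356542106) (nat_lit 304) (nat_lit 7027652427) (nat_lit 31) (nat_lit 5) (nat_lit 34) (nat_lit 5) (nat_lit 35) (nat_lit 5) (nat_lit 235) (nat_lit 229) (nat_lit 136)) (XT.lf (nat_lit 0) (nat_lit 66931847434) (nat_lit 228) (nat_lit 199805831222) (nat_lit 76) (nat_lit 141408394116) (nat_lit 28) (nat_lit 5) (nat_lit 31) (nat_lit 5) (nat_lit 29) (nat_lit 5) (nat_lit 236) (nat_lit 229) (nat_lit 135))) (XT.nd (nat_lit 78) (nat_lit 304) (nat_lit 0) (XT.lf (nat_lit 0) (nat_lit 156628003303) (nat_lit 228) (nat_lit 5680888939) (nat_lit 304) (nat_lit 283285451662) (nat_lit 25) (nat_lit 5) (nat_lit 28) (nat_lit 5) (nat_lit 29) (nat_lit 5) (nat_lit 237) (nat_lit 229) (nat_lit 134)) (XT.nd (nat_lit 78) (nat_lit 152) (nat_lit 0) (XT.lf (nat_lit 0) (nat_lit 87578234234) (nat_lit 152) (nat_lit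 199572154118) (nat_lit 228) (nat_lit 200296836350) (nat_lit 23) (nat_lit 5) (nat_lit 25) (nat_lit 5) (nat_lit 26) (nat_lit 5) (nat_lit 238) (nat_lit 229) (nat_lit 133)) (XT.lf (nat_lit 0) (nat_lit 707873362) (nat_lit 152) (nat_lit 440965836964) (nat_lit 228) (nat_lit 93027879665) (nat_lit 21) (nat_lit 5) (nat_lit 23) (nat_lit 5) (nat_lit 24) (nat_lit 5) (nat_lit 239) (nat_lit 229) (nat_lit 132)))))) (XT.nd (nat_lit 390) (nat_lit 456) (nat_lit 0) (XT.nd (nat_lit 156) (nat_lit 304) (nat_lit 0) (XT.nd (nat_lit 78) (nat_lit 152) (nat_lit 0) (XT.lf (nat_lit 0) (nat_lit 46277805435) (nat_lit 228) (nat_lit 109078355516) (nat_lit 76) (nat_lit 432232496971) (nat_lit 20) (nat_lit 5) (nat_lit 23) (nat_lit 5) (nat_lit 21) (nat_lit 5) (nat_lit 240) (nat_lit 229) (nat_lit 131)) (XT.lf (nat_lit 0) (nat_lit 215149564069) (nat_lit 228) (nat_lit 255063633880) (nat_lit 76) (nat_lit 176868003001) (nat_lit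 18) (nat_lit 5) (nat_lit 21) (nat_lit 5) (nat_lit 19) (nat_lit 5) (nat_lit 241) (nat_lit 229) (nat_lit 130))) (XT.nd (nat_lit 78) (nat_lit 152) (nat_lit 0) (XT.lf (nat_lit 0) (nat_lit 268701919681) (nat_lit 152) (nat_lit 154667307006) (nat_lit 228) (nat_lit 291007027828) (nat_lit 16) (nat_lit 5) (nat_lit 18) (nat_lit 5) (nat_lit 19) (nat_lit 5) (nat_lit 242) (nat_lit 229) (nat_lit 129)) (XT.nd (nat_lit 78) (nat_lit 76) (nat_lit 0) (XT.lf (nat_lit 0) (nat_lit 94851035018) (nat_lit 76) (nat_lit 582878133179) (nat_lit 152) (nat_lit 112843811817) (nat_lit 15) (nat_lit 5) (nat_lit 16) (nat_lit 5) (nat_lit 17) (nat_lit 4) (nat_lit 243) (nat_lit 229) (nat_lit 128)) (XT.lf (nat_lit 0) (nat_lit 105029459771) (nat_lit 152) (nat_lit 140545822864) (nat_lit 76) (nat_lit 631039640802) (nat_lit 14) (nat_lit 5) (nat_lit 16) (nat_lit 5) (nat_lit 15) (nat_lit 5) (nat_lit 244) (nat_lit 229) (nat_lit 127)))))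 (XT.nd (nat_lit 234) (nat_lit 228) (nat_lit 0) (XT.nd (nat_lit 78) (nat_lit 76) (nat_lit 0) (XT.lf (nat_lit 0) (nat_lit 365447517927) (nat_lit 228) (nat_lit 457300525909) (nat_lit 76) (nat_lit 151257001371) (nat_lit 12) (nat_lit 5) (nat_lit 15) (nat_lit 5) (nat_lit 13) (nat_lit 4) (nat_lit 245) (nat_lit 229) (nat_lit 126)) (XT.nd (nat_lit 78) (nat_lit 0) (nat_lit 0) (XT.lf (nat_lit 0) (nat_lit 198403659183) (nat_lit 76) (nat_lit 482286298169) (nat_lit 152) (nat_lit 404052794245) (nat_lit 11) (nat_lit 5) (nat_lit 12) (nat_lit 5) (nat_lit 13) (nat_lit 4) (nat_lit 246) (nat_lit 229) (nat_lit 125)) (XT.lf (nat_lit 0) (nat_lit 980156100577) (nat_lit 76) (nat_lit 76376413846) (nat_lit 152) (nat_lit 154493499520) (nat_lit 11) (nat_lit 5) (nat_lit 12) (nat_lit 5) (nat_lit 13) (nat_lit 4) (nat_lit 247) (nat_lit 229) (nat_lit 124)))) (XT.nd (nat_lit 78) (nat_lit 76) (nat_lit 0) (XT.lf (nat_lit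 0) (nat_lit 148843398109) (nat_lit 152) (nat_lit 817657210316) (nat_lit 76) (nat_lit 387658477286) (nat_lit 9) (nat_lit 5) (nat_lit 11) (nat_lit 5) (nat_lit 10) (nat_lit 4) (nat_lit 248) (nat_lit 229) (nat_lit 123)) (XT.nd (nat_lit 78) (nat_lit 76) (nat_lit 0) (XT.lf (nat_lit 0) (nat_lit 497801628021) (nat_lit 152) (nat_lit 91824146231) (nat_lit 76) (nat_lit 928073835689) (nat_lit 9) (nat_lit 5) (nat_lit 11) (nat_lit 5) (nat_lit 10) (nat_lit 4) (nat_lit 249) (nat_lit 229) (nat_lit 122)) (XT.lf (nat_lit 0) (nat_lit 782002746149) (nat_lit 76) (nat_lit 135907987376) (nat_lit 152) (nat_lit 786355908073) (nat_lit 8) (nat_lit 5) (nat_lit 9) (nat_lit 5) (nat_lit 10) (nat_lit 4) (nat_lit 250) (nat_lit 229) (nat_lit 121))))))) (XT.nd (nat_lit 29874) (nat_lit 0) (nat_lit 912) (XT.nd (nat_lit 390) (nat_lit 76) (nat_lit 0) (XT.nd (nat_lit 156) (nat_lit 152) (nat_lit 0) (XT.nd (nat_lit 78) (nat_lit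 76) (nat_lit 0) (XT.lf (nat_lit 0) (nat_lit 1413059085484) (nat_lit 152) (nat_lit 135490227139) (nat_lit 0) (nat_lit 369307585005) (nat_lit 8) (nat_lit 5) (nat_lit 10) (nat_lit 4) (nat_lit 8) (nat_lit 4) (nat_lit 251) (nat_lit 229) (nat_lit 120)) (XT.lf (nat_lit 0) (nat_lit 805852558659) (nat_lit 76) (nat_lit 1199766748763) (nat_lit 76) (nat_lit 156015215329) (nat_lit 7) (nat_lit 4) (nat_lit 8) (nat_lit 5) (nat_lit 8) (nat_lit 4) (nat_lit 252) (nat_lit 229) (nat_lit 119))) (XT.nd (nat_lit 78) (nat_lit 76) (nat_lit 0) (XT.lf (nat_lit 0) (nat_lit 236871716022) (nat_lit 152) (nat_lit 551058392764) (nat_lit 76) (nat_lit 1653253373105) (nat_lit 6) (nat_lit 5) (nat_lit 8) (nat_lit 5) (nat_lit 7) (nat_lit 4) (nat_lit 253) (nat_lit 229) (nat_lit 118)) (XT.nd (nat_lit 78) (nat_lit 0) (nat_lit 0) (XT.lf (nat_lit 0) (nat_lit 389545301444) (nat_lit 76) (nat_lit 299539741081) (nat_lit 152) (nat_lit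 2072485059185) (nat_lit 5) (nat_lit 5) (nat_lit 6) (nat_lit 5) (nat_lit 7) (nat_lit 4) (nat_lit 254) (nat_lit 229) (nat_lit 117)) (XT.lf (nat_lit 0) (nat_lit 1231894259434) (nat_lit 152) (nat_lit 1630841759061) (nat_lit 0) (nat_lit 265457584732) (nat_lit 5) (nat_lit 5) (nat_lit 7) (nat_lit 4) (nat_lit 5) (nat_lit 4) (nat_lit 255) (nat_lit 229) (nat_lit 116))))) (XT.nd (nat_lit 29250) (nat_lit 0) (nat_lit 2508) (XT.nd (nat_lit 78) (nat_lit 76) (nat_lit 0) (XT.lf (nat_lit 0) (nat_lit 1864409364548) (nat_lit 152) (nat_lit 786765832604) (nat_lit 0) (nat_lit 897972672399) (nat_lit 5) (nat_lit 5) (nat_lit 7) (nat_lit 4) (nat_lit 5) (nat_lit 4) (nat_lit 256) (nat_lit 229) (nat_lit 115)) (XT.lf (nat_lit 0) (nat_lit 193606423490) (nat_lit 76) (nat_lit 2402851531075) (nat_lit 76) (nat_lit 1436414823756) (nat_lit 4) (nat_lit 4) (nat_lit 5) (nat_lit 5) (nat_lit 5) (nat_lit 4) (nat_lit 257) (nat_lit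 229) (nat_lit 114))) (XT.nd (nat_lit 78) (nat_lit 0) (nat_lit 76) (XT.lf (nat_lit 0) (nat_lit 57752197832) (nat_lit 532) (nat_lit 38972969331) (nat_lit 532) (nat_lit 38972969331) (nat_lit 37) (nat_lit 3) (nat_lit 44) (nat_lit 3) (nat_lit 44) (nat_lit 5) (nat_lit 230) (nat_lit 230) (nat_lit 140)) (XT.nd (nat_lit 78) (nat_lit 0) (nat_lit 0) (XT.lf (nat_lit 0) (nat_lit 128331017325) (nat_lit 456) (nat_lit 141577336628) (nat_lit 532) (nat_lit 21509529304) (nat_lit 38) (nat_lit 5) (nat_lit 44) (nat_lit 5) (nat_lit 45) (nat_lit 5) (nat_lit 231) (nat_lit 230) (nat_lit 139)) (XT.lf (nat_lit 76) (nat_lit 101944172674) (nat_lit 0) (nat_lit 51267576501) (nat_lit 532) (nat_lit 160420577752) (nat_lit 39) (nat_lit 5) (nat_lit 38) (nat_lit 5) (nat_lit 45) (nat_lit 5) (nat_lit 232) (nat_lit 230) (nat_lit 138)))))) (XT.nd (nat_lit 390) (nat_lit 912) (nat_lit 0) (XT.nd (nat_lit 156) (nat_lit 836) (nat_lit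 0) (XT.nd (nat_lit 78) (nat_lit 0) (nat_lit 76) (XT.lf (nat_lit 76) (nat_lit 49261140736) (nat_lit 0) (nat_lit 142790967229) (nat_lit 532) (nat_lit 146308628872) (nat_lit 40) (nat_lit 5) (nat_lit 39) (nat_lit 5) (nat_lit 46) (nat_lit 5) (nat_lit 233) (nat_lit 230) (nat_lit 137)) (XT.lf (nat_lit 0) (nat_lit 247063234853) (nat_lit 456) (nat_lit 8315360502) (nat_lit 76) (nat_lit 110592236657) (nat_lit 40) (nat_lit 5) (nat_lit 46) (nat_lit 5) (nat_lit 41) (nat_lit 5) (nat_lit 234) (nat_lit 230) (nat_lit 136))) (XT.nd (nat_lit 78) (nat_lit 456) (nat_lit 0) (XT.lf (nat_lit 0) (nat_lit 322256105811) (nat_lit 532) (nat_lit 69899441167) (nat_lit 76) (nat_lit 4612489284) (nat_lit 34) (nat_lit 5) (nat_lit 41) (nat_lit 5) (nat_lit 35) (nat_lit 5) (nat_lit 235) (nat_lit 230) (nat_lit 135)) (XT.nd (nat_lit 78) (nat_lit 228) (nat_lit 0) (XT.lf (nat_lit 0) (nat_lit 288005878819) (nat_lit 228) (nat_lit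 134959945113) (nat_lit 304) (nat_lit 8079964594) (nat_lit 31) (nat_lit 5) (nat_lit 34) (nat_lit 5) (nat_lit 35) (nat_lit 5) (nat_lit 236) (nat_lit 230) (nat_lit 134)) (XT.lf (nat_lit 0) (nat_lit 76973185823) (nat_lit 228) (nat_lit 229774867376) (nat_lit 76) (nat_lit 162619799542) (nat_lit 28) (nat_lit 5) (nat_lit 31) (nat_lit 5) (nat_lit 29) (nat_lit 5) (nat_lit 237) (nat_lit 230) (nat_lit 133))))) (XT.nd (nat_lit 234) (nat_lit 380) (nat_lit 0) (XT.nd (nat_lit 78) (nat_lit 304) (nat_lit 0) (XT.lf (nat_lit 0) (nat_lit 180123886706) (nat_lit 228) (nat_lit 6532737477) (nat_lit 304) (nat_lit 325776754204) (nat_lit 25) (nat_lit 5) (nat_lit 28) (nat_lit 5) (nat_lit 29) (nat_lit 5) (nat_lit 238) (nat_lit 230) (nat_lit 132)) (XT.nd (nat_lit 78) (nat_lit 152) (nat_lit 0) (XT.lf (nat_lit 0) (nat_lit 100716610749) (nat_lit 152) (nat_lit 229507597030) (nat_lit 228) (nat_lit 230339995164) (nat_lit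 23) (nat_lit 5) (nat_lit 25) (nat_lit 5) (nat_lit 26) (nat_lit 5) (nat_lit 239) (nat_lit 230) (nat_lit 131)) (XT.lf (nat_lit 0) (nat_lit 815644979) (nat_lit 152) (nat_lit 507110264774) (nat_lit 228) (nat_lit 106980823332) (nat_lit 21) (nat_lit 5) (nat_lit 23) (nat_lit 5) (nat_lit 24) (nat_lit 5) (nat_lit 240) (nat_lit 230) (nat_lit 130)))) (XT.nd (nat_lit 78) (nat_lit 304) (nat_lit 0) (XT.lf (nat_lit 0) (nat_lit 53220499154) (nat_lit 228) (nat_lit 125438668638) (nat_lit 76) (nat_lit 497067703786) (nat_lit 20) (nat_lit 5) (nat_lit 23) (nat_lit 5) (nat_lit 21) (nat_lit 5) (nat_lit 241) (nat_lit 230) (nat_lit 129)) (XT.nd (nat_lit 78) (nat_lit 152) (nat_lit 0) (XT.lf (nat_lit 0) (nat_lit 247422929417) (nat_lit 228) (nat_lit 293321793736) (nat_lit 76) (nat_lit 203398580699) (nat_lit 18) (nat_lit 5) (nat_lit 21) (nat_lit 5) (nat_lit 19) (nat_lit 5) (nat_lit 242) (nat_lit 230) (nat_lit 128))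 (XT.lf (nat_lit 0) (nat_lit 309008475607) (nat_lit 152) (nat_lit 177866974915) (nat_lit 228) (nat_lit 334657172565) (nat_lit 16) (nat_lit 5) (nat_lit 18) (nat_lit 5) (nat_lit 19) (nat_lit 5) (nat_lit 243) (nat_lit 230) (nat_lit 127))))))))
noncomputable def xc57 : XT := (XT.nd (nat_lit 30810) (nat_lit 0) (nat_lit 0) (XT.nd (nat_lit 780) (nat_lit 152) (nat_lit 0) (XT.nd (nat_lit 390) (nat_lit 304) (nat_lit 0) (XT.nd (nat_lit 156) (nat_lit 228) (nat_lit 0) (XT.nd (nat_lit 78) (nat_lit 76) (nat_lit 0) (XT.lf (nat_lit 0) (nat_lit 109079905206) (nat_lit 76) (nat_lit 670309406682) (nat_lit 152) (nat_lit 129769551547) (nat_lit 15) (nat_lit 5) (nat_lit 16) (nat_lit 5) (nat_lit 17) (nat_lit 4) (nat_lit 244) (nat_lit 230) (nat_lit 126)) (XT.lf (nat_lit 0) (nat_lit 120784566058) (nat_lit 152) (nat_lit 161626601941) (nat_lit 76) (nat_lit 725695937273) (nat_lit 14) (nat_lit 5) (nat_lit 16) (nat_lit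 5) (nat_lit 15) (nat_lit 5) (nat_lit 245) (nat_lit 230) (nat_lit 125))) (XT.nd (nat_lit 78) (nat_lit 76) (nat_lit 0) (XT.lf (nat_lit 0) (nat_lit 420265276517) (nat_lit 228) (nat_lit 525894560998) (nat_lit 76) (nat_lit 173945912528) (nat_lit 12) (nat_lit 5) (nat_lit 15) (nat_lit 5) (nat_lit 13) (nat_lit 4) (nat_lit 246) (nat_lit 230) (nat_lit 124)) (XT.nd (nat_lit 78) (nat_lit 0) (nat_lit 0) (XT.lf (nat_lit 0) (nat_lit 228165163506) (nat_lit 76) (nat_lit 554628859037) (nat_lit 152) (nat_lit 464660094786) (nat_lit 11) (nat_lit 5) (nat_lit 12) (nat_lit 5) (nat_lit 13) (nat_lit 4) (nat_lit 247) (nat_lit 230) (nat_lit 123)) (XT.lf (nat_lit 0) (nat_lit 1127180346486) (nat_lit 76) (nat_lit 87832542134) (nat_lit 152) (nat_lit 177666986539) (nat_lit 11) (nat_lit 5) (nat_lit 12) (nat_lit 5) (nat_lit 13) (nat_lit 4) (nat_lit 248) (nat_lit 230) (nat_lit 122))))) (XT.nd (nat_lit 156) (nat_lit 152)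 (nat_lit 0) (XT.nd (nat_lit 78) (nat_lit 0) (nat_lit 0) (XT.lf (nat_lit 0) (nat_lit 171170378843) (nat_lit 152) (nat_lit 940304975599) (nat_lit 76) (nat_lit 445807555549) (nat_lit 9) (nat_lit 5) (nat_lit 11) (nat_lit 5) (nat_lit 10) (nat_lit 4) (nat_lit 249) (nat_lit 230) (nat_lit 121)) (XT.lf (nat_lit 0) (nat_lit 572472281804) (nat_lit 152) (nat_lit 105597058370) (nat_lit 76) (nat_lit 1067285177712) (nat_lit 9) (nat_lit 5) (nat_lit 11) (nat_lit 5) (nat_lit 10) (nat_lit 4) (nat_lit 250) (nat_lit 230) (nat_lit 120))) (XT.nd (nat_lit 78) (nat_lit 76) (nat_lit 0) (XT.lf (nat_lit 0) (nat_lit 899303807787) (nat_lit 76) (nat_lit 156293907550) (nat_lit 152) (nat_lit 904308892081) (nat_lit 8) (nat_lit 5) (nat_lit 9) (nat_lit 5) (nat_lit 10) (nat_lit 4) (nat_lit 251) (nat_lit 230) (nat_lit 119)) (XT.nd (nat_lit 78) (nat_lit 76) (nat_lit 0) (XT.lf (nat_lit 0) (nat_lit 1625018277408) (nat_lit 152)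 (nat_lit 155813175600) (nat_lit 0) (nat_lit 424703952347) (nat_lit 8) (nat_lit 5) (nat_lit 10) (nat_lit 4) (nat_lit 8) (nat_lit 4) (nat_lit 252) (nat_lit 230) (nat_lit 118)) (XT.lf (nat_lit 0) (nat_lit 926730978498) (nat_lit 76) (nat_lit 1379731524103) (nat_lit 76) (nat_lit 179417174123) (nat_lit 7) (nat_lit 4) (nat_lit 8) (nat_lit 5) (nat_lit 8) (nat_lit 4) (nat_lit 253) (nat_lit 230) (nat_lit 117)))))) (XT.nd (nat_lit 29562) (nat_lit 0) (nat_lit 1976) (XT.nd (nat_lit 156) (nat_lit 0) (nat_lit 0) (XT.nd (nat_lit 78) (nat_lit 76) (nat_lit 0) (XT.lf (nat_lit 0) (nat_lit 272402740661) (nat_lit 152) (nat_lit 633716671071) (nat_lit 76) (nat_lit 1901241570651) (nat_lit 6) (nat_lit 5) (nat_lit 8) (nat_lit 5) (nat_lit 7) (nat_lit 4) (nat_lit 254) (nat_lit 230) (nat_lit 116)) (XT.lf (nat_lit 0) (nat_lit 447977536588) (nat_lit 76) (nat_lit 344470505276) (nat_lit 152) (nat_lit 2383357555308) (nat_lit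 5) (nat_lit 5) (nat_lit 6) (nat_lit 5) (nat_lit 7) (nat_lit 4) (nat_lit 255) (nat_lit 230) (nat_lit 115))) (XT.nd (nat_lit 78) (nat_lit 0) (nat_lit 0) (XT.lf (nat_lit 0) (nat_lit 1416678613738) (nat_lit 152) (nat_lit 1875467627281) (nat_lit 0) (nat_lit 305276385149) (nat_lit 5) (nat_lit 5) (nat_lit 7) (nat_lit 4) (nat_lit 5) (nat_lit 4) (nat_lit 256) (nat_lit 230) (nat_lit 114)) (XT.nd (nat_lit 29250) (nat_lit 0) (nat_lit 2432) (XT.lf (nat_lit 0) (nat_lit 2144070956524) (nat_lit 152) (nat_lit 904780363460) (nat_lit 0) (nat_lit 1032668714744) (nat_lit 5) (nat_lit 5) (nat_lit 7) (nat_lit 4) (nat_lit 5) (nat_lit 4) (nat_lit 257) (nat_lit 230) (nat_lit 113)) (XT.lf (nat_lit 0) (nat_lit 66416402284) (nat_lit 532) (nat_lit 44818169069) (nat_lit 532) (nat_lit 44818169069) (nat_lit 37) (nat_lit 3) (nat_lit 44) (nat_lit 3) (nat_lit 44) (nat_lit 5) (nat_lit 231) (nat_lit 231) (nat_lit 138)))))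 (XT.nd (nat_lit 234) (nat_lit 532) (nat_lit 0) (XT.nd (nat_lit 78) (nat_lit 0) (nat_lit 0) (XT.lf (nat_lit 0) (nat_lit 147583068209) (nat_lit 456) (nat_lit 162812341254) (nat_lit 532) (nat_lit 24734953002) (nat_lit 38) (nat_lit 5) (nat_lit 44) (nat_lit 5) (nat_lit 45) (nat_lit 5) (nat_lit 232) (nat_lit 231) (nat_lit 137)) (XT.nd (nat_lit 78) (nat_lit 0) (nat_lit 76) (XT.lf (nat_lit 76) (nat_lit 117237259362) (nat_lit 0) (nat_lit 58958372788) (nat_lit 532) (nat_lit 184481364242) (nat_lit 39) (nat_lit 5) (nat_lit 38) (nat_lit 5) (nat_lit 45) (nat_lit 5) (nat_lit 233) (nat_lit 231) (nat_lit 136)) (XT.lf (nat_lit 76) (nat_lit 56651827886) (nat_lit 0) (nat_lit 164209962933) (nat_lit 532) (nat_lit 168252898577) (nat_lit 40) (nat_lit 5) (nat_lit 39) (nat_lit 5) (nat_lit 46) (nat_lit 5) (nat_lit 234) (nat_lit 231) (nat_lit 135)))) (XT.nd (nat_lit 78) (nat_lit 684) (nat_lit 0) (XT.lf (nat_lit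 0) (nat_lit 284124335931) (nat_lit 456) (nat_lit 9561201587) (nat_lit 76) (nat_lit 127180782520) (nat_lit 40) (nat_lit 5) (nat_lit 46) (nat_lit 5) (nat_lit 41) (nat_lit 5) (nat_lit 235) (nat_lit 231) (nat_lit 134)) (XT.nd (nat_lit 78) (nat_lit 228) (nat_lit 0) (XT.lf (nat_lit 0) (nat_lit 370595956616) (nat_lit 532) (nat_lit 80382894316) (nat_lit 76) (nat_lit 5304269447) (nat_lit 34) (nat_lit 5) (nat_lit 41) (nat_lit 5) (nat_lit 35) (nat_lit 5) (nat_lit 236) (nat_lit 231) (nat_lit 133)) (XT.lf (nat_lit 0) (nat_lit 331208099830) (nat_lit 228) (nat_lit 155203877666) (nat_lit 304) (nat_lit 9290571233) (nat_lit 31) (nat_lit 5) (nat_lit 34) (nat_lit 5) (nat_lit 35) (nat_lit 5) (nat_lit 237) (nat_lit 231) (nat_lit 132))))))) (XT.nd (nat_lit 780) (nat_lit 532) (nat_lit 0) (XT.nd (nat_lit 390) (nat_lit 608) (nat_lit 0) (XT.nd (nat_lit 156) (nat_lit 380) (nat_lit 0) (XT.nd (nat_lit 78) (nat_lit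 228) (nat_lit 0) (XT.lf (nat_lit 0) (nat_lit 88520344244) (nat_lit 228) (nat_lit 264239707291) (nat_lit 76) (nat_lit 187012880104) (nat_lit 28) (nat_lit 5) (nat_lit 31) (nat_lit 5) (nat_lit 29) (nat_lit 5) (nat_lit 238) (nat_lit 231) (nat_lit 131)) (XT.lf (nat_lit 0) (nat_lit 207143742231) (nat_lit 228) (nat_lit 7512432746) (nat_lit 304) (nat_lit 374642121619) (nat_lit 25) (nat_lit 5) (nat_lit 28) (nat_lit 5) (nat_lit 29) (nat_lit 5) (nat_lit 239) (nat_lit 231) (nat_lit 130))) (XT.nd (nat_lit 78) (nat_lit 228) (nat_lit 0) (XT.lf (nat_lit 0) (nat_lit 115825343480) (nat_lit 152) (nat_lit 263933449094) (nat_lit 228) (nat_lit 264889961064) (nat_lit 23) (nat_lit 5) (nat_lit 25) (nat_lit 5) (nat_lit 26) (nat_lit 5) (nat_lit 240) (nat_lit 231) (nat_lit 129)) (XT.nd (nat_lit 78) (nat_lit 76) (nat_lit 0) (XT.lf (nat_lit 0) (nat_lit 939194457) (nat_lit 152) (nat_lit 583176465939) (nat_lit 228)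 (nat_lit 123027010512) (nat_lit 21) (nat_lit 5) (nat_lit 23) (nat_lit 5) (nat_lit 24) (nat_lit 5) (nat_lit 241) (nat_lit 231) (nat_lit 128)) (XT.lf (nat_lit 0) (nat_lit 61204347489) (nat_lit 228) (nat_lit 144253379932) (nat_lit 76) (nat_lit 571628110598) (nat_lit 20) (nat_lit 5) (nat_lit 23) (nat_lit 5) (nat_lit 21) (nat_lit 5) (nat_lit 242) (nat_lit 231) (nat_lit 127))))) (XT.nd (nat_lit 156) (nat_lit 304) (nat_lit 0) (XT.nd (nat_lit 78) (nat_lit 152) (nat_lit 0) (XT.lf (nat_lit 0) (nat_lit 284537072600) (nat_lit 228) (nat_lit 337319015366) (nat_lit 76) (nat_lit 233908653057) (nat_lit 18) (nat_lit 5) (nat_lit 21) (nat_lit 5) (nat_lit 19) (nat_lit 5) (nat_lit 243) (nat_lit 231) (nat_lit 126)) (XT.lf (nat_lit 0) (nat_lit 355360705718) (nat_lit 152) (nat_lit 204546697415) (nat_lit 228) (nat_lit 384855060784) (nat_lit 16) (nat_lit 5) (nat_lit 18) (nat_lit 5) (nat_lit 19) (nat_lit 5) (nat_lit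 244) (nat_lit 231) (nat_lit 125))) (XT.nd (nat_lit 78) (nat_lit 228) (nat_lit 0) (XT.lf (nat_lit 0) (nat_lit 125442809652) (nat_lit 76) (nat_lit 770855480086) (nat_lit 152) (nat_lit 149234355136) (nat_lit 15) (nat_lit 5) (nat_lit 16) (nat_lit 5) (nat_lit 17) (nat_lit 4) (nat_lit 245) (nat_lit 231) (nat_lit 124)) (XT.nd (nat_lit 78) (nat_lit 152) (nat_lit 0) (XT.lf (nat_lit 0) (nat_lit 138902770681) (nat_lit 152) (nat_lit 185869764745) (nat_lit 76) (nat_lit 834550592780) (nat_lit 14) (nat_lit 5) (nat_lit 16) (nat_lit 5) (nat_lit 15) (nat_lit 5) (nat_lit 246) (nat_lit 231) (nat_lit 123)) (XT.lf (nat_lit 0) (nat_lit 483305545046) (nat_lit 228) (nat_lit 604777955887) (nat_lit 76) (nat_lit 200038072339) (nat_lit 12) (nat_lit 5) (nat_lit 15) (nat_lit 5) (nat_lit 13) (nat_lit 4) (nat_lit 247) (nat_lit 231) (nat_lit 122)))))) (XT.nd (nat_lit 390) (nat_lit 228) (nat_lit 0) (XT.nd (nat_lit 156)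 (nat_lit 228) (nat_lit 0) (XT.nd (nat_lit 78) (nat_lit 0) (nat_lit 0) (XT.lf (nat_lit 0) (nat_lit 262390660486) (nat_lit 76) (nat_lit 637822897641) (nat_lit 152) (nat_lit 534358641257) (nat_lit 11) (nat_lit 5) (nat_lit 12) (nat_lit 5) (nat_lit 13) (nat_lit 4) (nat_lit 248) (nat_lit 231) (nat_lit 121)) (XT.lf (nat_lit 0) (nat_lit 1296258026680) (nat_lit 76) (nat_lit 101007171062) (nat_lit 152) (nat_lit 204316627783) (nat_lit 11) (nat_lit 5) (nat_lit 12) (nat_lit 5) (nat_lit 13) (nat_lit 4) (nat_lit 249) (nat_lit 231) (nat_lit 120))) (XT.nd (nat_lit 78) (nat_lit 76) (nat_lit 0) (XT.lf (nat_lit 0) (nat_lit 196846291826) (nat_lit 152) (nat_lit 1081350104725) (nat_lit 76) (nat_lit 512678920767) (nat_lit 9) (nat_lit 5) (nat_lit 11) (nat_lit 5) (nat_lit 10) (nat_lit 4) (nat_lit 250) (nat_lit 231) (nat_lit 119)) (XT.nd (nat_lit 78) (nat_lit 76) (nat_lit 0) (XT.lf (nat_lit 0) (nat_lit 658343433776)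 (nat_lit 152) (nat_lit 121436080418) (nat_lit 76) (nat_lit 1227378156009) (nat_lit 9) (nat_lit 5) (nat_lit 11) (nat_lit 5) (nat_lit 10) (nat_lit 4) (nat_lit 251) (nat_lit 231) (nat_lit 118)) (XT.lf (nat_lit 0) (nat_lit 1034199870233) (nat_lit 76) (nat_lit 179737783526) (nat_lit 152) (nat_lit 1039954921770) (nat_lit 8) (nat_lit 5) (nat_lit 9) (nat_lit 5) (nat_lit 10) (nat_lit 4) (nat_lit 252) (nat_lit 231) (nat_lit 117))))) (XT.nd (nat_lit 234) (nat_lit 76) (nat_lit 0) (XT.nd (nat_lit 78) (nat_lit 152) (nat_lit 0) (XT.lf (nat_lit 0) (nat_lit 1868771267867) (nat_lit 152) (nat_lit 179184709135) (nat_lit 0) (nat_lit 488409718803) (nat_lit 8) (nat_lit 5) (nat_lit 10) (nat_lit 4) (nat_lit 8) (nat_lit 4) (nat_lit 253) (nat_lit 231) (nat_lit 116)) (XT.nd (nat_lit 78) (nat_lit 76) (nat_lit 0) (XT.lf (nat_lit 0) (nat_lit 1065741030597) (nat_lit 76) (nat_lit 1586691073532) (nat_lit 76) (nat_lit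 206329505625) (nat_lit 7) (nat_lit 4) (nat_lit 8) (nat_lit 5) (nat_lit 8) (nat_lit 4) (nat_lit 254) (nat_lit 231) (nat_lit 115)) (XT.lf (nat_lit 0) (nat_lit 313263353830) (nat_lit 152) (nat_lit 728773808323) (nat_lit 76) (nat_lit 2186427951110) (nat_lit 6) (nat_lit 5) (nat_lit 8) (nat_lit 5) (nat_lit 7) (nat_lit 4) (nat_lit 255) (nat_lit 231) (nat_lit 114)))) (XT.nd (nat_lit 78) (nat_lit 0) (nat_lit 0) (XT.lf (nat_lit 0) (nat_lit 515174499724) (nat_lit 76) (nat_lit 396140932133) (nat_lit 152) (nat_lit 2740860989923) (nat_lit 5) (nat_lit 5) (nat_lit 6) (nat_lit 5) (nat_lit 7) (nat_lit 4) (nat_lit 256) (nat_lit 231) (nat_lit 113)) (XT.nd (nat_lit 29328) (nat_lit 0) (nat_lit 2432) (XT.lf (nat_lit 0) (nat_lit 1629180568663) (nat_lit 152) (nat_lit 2156787472213) (nat_lit 0) (nat_lit 351067965952) (nat_lit 5) (nat_lit 5) (nat_lit 7) (nat_lit 4) (nat_lit 5) (nat_lit 4) (nat_lit 257) (nat_lit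 231) (nat_lit 112)) (XT.lf (nat_lit 0) (nat_lit 76379902155) (nat_lit 532) (nat_lit 51540330602) (nat_lit 532) (nat_lit 51540330602) (nat_lit 37) (nat_lit 3) (nat_lit 44) (nat_lit 3) (nat_lit 44) (nat_lit 5) (nat_lit 232) (nat_lit 232) (nat_lit 136))))))))
noncomputable def xc58 : XT := (XT.nd (nat_lit 1638) (nat_lit 228) (nat_lit 0) (XT.nd (nat_lit 780) (nat_lit 988) (nat_lit 0) (XT.nd (nat_lit 390) (nat_lit 988) (nat_lit 0) (XT.nd (nat_lit 156) (nat_lit 304) (nat_lit 0) (XT.nd (nat_lit 78) (nat_lit 0) (nat_lit 0) (XT.lf (nat_lit 0) (nat_lit 169722341888) (nat_lit 456) (nat_lit 187232985736) (nat_lit 532) (nat_lit 28444435501) (nat_lit 38) (nat_lit 5) (nat_lit 44) (nat_lit 5) (nat_lit 45) (nat_lit 5) (nat_lit 233) (nat_lit 232) (nat_lit 135)) (XT.lf (nat_lit 76) (nat_lit 134823952830) (nat_lit 0) (nat_lit 67802627618) (nat_lit 532) (nat_lit 212151829616) (nat_lit 39) (nat_lit 5) (nat_lit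 38) (nat_lit 5) (nat_lit 45) (nat_lit 5) (nat_lit 234) (nat_lit 232) (nat_lit 134))) (XT.nd (nat_lit 78) (nat_lit 380) (nat_lit 0) (XT.lf (nat_lit 76) (nat_lit 65150748412) (nat_lit 0) (nat_lit 188841722493) (nat_lit 532) (nat_lit 193489302456) (nat_lit 40) (nat_lit 5) (nat_lit 39) (nat_lit 5) (nat_lit 46) (nat_lit 5) (nat_lit 235) (nat_lit 232) (nat_lit 133)) (XT.nd (nat_lit 78) (nat_lit 456) (nat_lit 0) (XT.lf (nat_lit 0) (nat_lit 326744208135) (nat_lit 456) (nat_lit 10994275595) (nat_lit 76) (nat_lit 146257680892) (nat_lit 40) (nat_lit 5) (nat_lit 46) (nat_lit 5) (nat_lit 41) (nat_lit 5) (nat_lit 236) (nat_lit 232) (nat_lit 132)) (XT.lf (nat_lit 0) (nat_lit 426186435125) (nat_lit 532) (nat_lit 92439222205) (nat_lit 76) (nat_lit 6099839369) (nat_lit 34) (nat_lit 5) (nat_lit 41) (nat_lit 5) (nat_lit 35) (nat_lit 5) (nat_lit 237) (nat_lit 232) (nat_lit 131))))) (XT.nd (nat_lit 156) (nat_lit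 532) (nat_lit 0) (XT.nd (nat_lit 78) (nat_lit 228) (nat_lit 0) (XT.lf (nat_lit 0) (nat_lit 380890327424) (nat_lit 228) (nat_lit 178484414543) (nat_lit 304) (nat_lit 10683107353) (nat_lit 31) (nat_lit 5) (nat_lit 34) (nat_lit 5) (nat_lit 35) (nat_lit 5) (nat_lit 238) (nat_lit 232) (nat_lit 130)) (XT.lf (nat_lit 0) (nat_lit 101799288544) (nat_lit 228) (nat_lit 303874612199) (nat_lit 76) (nat_lit 215064895773) (nat_lit 28) (nat_lit 5) (nat_lit 31) (nat_lit 5) (nat_lit 29) (nat_lit 5) (nat_lit 239) (nat_lit 232) (nat_lit 129))) (XT.nd (nat_lit 78) (nat_lit 304) (nat_lit 0) (XT.lf (nat_lit 0) (nat_lit 238216265774) (nat_lit 228) (nat_lit 8639134821) (nat_lit 304) (nat_lit 430837573537) (nat_lit 25) (nat_lit 5) (nat_lit 28) (nat_lit 5) (nat_lit 29) (nat_lit 5) (nat_lit 240) (nat_lit 232) (nat_lit 128)) (XT.nd (nat_lit 78) (nat_lit 152) (nat_lit 0) (XT.lf (nat_lit 0) (nat_lit 133200083466) (nat_lit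 152) (nat_lit 303523249074) (nat_lit 228) (nat_lit 304622673844) (nat_lit 23) (nat_lit 5) (nat_lit 25) (nat_lit 5) (nat_lit 26) (nat_lit 5) (nat_lit 241) (nat_lit 232) (nat_lit 127)) (XT.lf (nat_lit 0) (nat_lit 1080983064) (nat_lit 152) (nat_lit 670652679836) (nat_lit 228) (nat_lit 141480354097) (nat_lit 21) (nat_lit 5) (nat_lit 23) (nat_lit 5) (nat_lit 24) (nat_lit 5) (nat_lit 242) (nat_lit 232) (nat_lit 126)))))) (XT.nd (nat_lit 390) (nat_lit 456) (nat_lit 0) (XT.nd (nat_lit 156) (nat_lit 304) (nat_lit 0) (XT.nd (nat_lit 78) (nat_lit 152) (nat_lit 0) (XT.lf (nat_lit 0) (nat_lit 70385584460) (nat_lit 228) (nat_lit 165890563479) (nat_lit 76) (nat_lit 657372517164) (nat_lit 20) (nat_lit 5) (nat_lit 23) (nat_lit 5) (nat_lit 21) (nat_lit 5) (nat_lit 243) (nat_lit 232) (nat_lit 125)) (XT.lf (nat_lit 0) (nat_lit 327218165643) (nat_lit 228) (nat_lit 387916075664) (nat_lit 76) (nat_lit 268995166708)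 (nat_lit 18) (nat_lit 5) (nat_lit 21) (nat_lit 5) (nat_lit 19) (nat_lit 5) (nat_lit 244) (nat_lit 232) (nat_lit 124))) (XT.nd (nat_lit 78) (nat_lit 152) (nat_lit 0) (XT.lf (nat_lit 0) (nat_lit 408665536544) (nat_lit 152) (nat_lit 235228457236) (nat_lit 228) (nat_lit 442582799928) (nat_lit 16) (nat_lit 5) (nat_lit 18) (nat_lit 5) (nat_lit 19) (nat_lit 5) (nat_lit 245) (nat_lit 232) (nat_lit 123)) (XT.nd (nat_lit 78) (nat_lit 76) (nat_lit 0) (XT.lf (nat_lit 0) (nat_lit 144259925743) (nat_lit 76) (nat_lit 886483546825) (nat_lit 152) (nat_lit 171619032684) (nat_lit 15) (nat_lit 5) (nat_lit 16) (nat_lit 5) (nat_lit 17) (nat_lit 4) (nat_lit 246) (nat_lit 232) (nat_lit 122)) (XT.lf (nat_lit 0) (nat_lit 159738579261) (nat_lit 152) (nat_lit 213749603757) (nat_lit 76) (nat_lit 959733382012) (nat_lit 14) (nat_lit 5) (nat_lit 16) (nat_lit 5) (nat_lit 15) (nat_lit 5) (nat_lit 247) (nat_lit 232) (nat_lit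 121))))) (XT.nd (nat_lit 234) (nat_lit 228) (nat_lit 0) (XT.nd (nat_lit 78) (nat_lit 76) (nat_lit 0) (XT.lf (nat_lit 0) (nat_lit 555801737522) (nat_lit 228) (nat_lit 695494052476) (nat_lit 76) (nat_lit 230043989565) (nat_lit 12) (nat_lit 5) (nat_lit 15) (nat_lit 5) (nat_lit 13) (nat_lit 4) (nat_lit 248) (nat_lit 232) (nat_lit 120)) (XT.nd (nat_lit 78) (nat_lit 0) (nat_lit 0) (XT.lf (nat_lit 0) (nat_lit 301749805837) (nat_lit 76) (nat_lit 733496112816) (nat_lit 152) (nat_lit 614512083762) (nat_lit 11) (nat_lit 5) (nat_lit 12) (nat_lit 5) (nat_lit 13) (nat_lit 4) (nat_lit 249) (nat_lit 232) (nat_lit 119)) (XT.lf (nat_lit 0) (nat_lit 1490697205707) (nat_lit 76) (nat_lit 116158055876) (nat_lit 152) (nat_lit 234963814399) (nat_lit 11) (nat_lit 5) (nat_lit 12) (nat_lit 5) (nat_lit 13) (nat_lit 4) (nat_lit 250) (nat_lit 232) (nat_lit 118)))) (XT.nd (nat_lit 78) (nat_lit 76) (nat_lit 0) (XT.lf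 (nat_lit 0) (nat_lit 226373504906) (nat_lit 152) (nat_lit 1243552153732) (nat_lit 76) (nat_lit 589580934222) (nat_lit 9) (nat_lit 5) (nat_lit 11) (nat_lit 5) (nat_lit 10) (nat_lit 4) (nat_lit 251) (nat_lit 232) (nat_lit 117)) (XT.nd (nat_lit 78) (nat_lit 76) (nat_lit 0) (XT.lf (nat_lit 0) (nat_lit 757095183022) (nat_lit 152) (nat_lit 139651086653) (nat_lit 76) (nat_lit 1411485031879) (nat_lit 9) (nat_lit 5) (nat_lit 11) (nat_lit 5) (nat_lit 10) (nat_lit 4) (nat_lit 252) (nat_lit 232) (nat_lit 116)) (XT.lf (nat_lit 0) (nat_lit 1189330222244) (nat_lit 76) (nat_lit 206698292146) (nat_lit 152) (nat_lit 1195947930075) (nat_lit 8) (nat_lit 5) (nat_lit 9) (nat_lit 5) (nat_lit 10) (nat_lit 4) (nat_lit 253) (nat_lit 232) (nat_lit 115))))))) (XT.nd (nat_lit 30108) (nat_lit 0) (nat_lit 532) (XT.nd (nat_lit 29718) (nat_lit 0) (nat_lit 2204) (XT.nd (nat_lit 156) (nat_lit 152) (nat_lit 0) (XT.nd (nat_lit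 78) (nat_lit 76) (nat_lit 0) (XT.lf (nat_lit 0) (nat_lit 2149087146212) (nat_lit 152) (nat_lit 206062080681) (nat_lit 0) (nat_lit 561671307892) (nat_lit 8) (nat_lit 5) (nat_lit 10) (nat_lit 4) (nat_lit 8) (nat_lit 4) (nat_lit 254) (nat_lit 232) (nat_lit 114)) (XT.lf (nat_lit 0) (nat_lit 1225602491670) (nat_lit 76) (nat_lit 1824694599071) (nat_lit 76) (nat_lit 237278746504) (nat_lit 7) (nat_lit 4) (nat_lit 8) (nat_lit 5) (nat_lit 8) (nat_lit 4) (nat_lit 255) (nat_lit 232) (nat_lit 113))) (XT.nd (nat_lit 78) (nat_lit 76) (nat_lit 0) (XT.lf (nat_lit 0) (nat_lit 360253009698) (nat_lit 152) (nat_lit 838089604783) (nat_lit 76) (nat_lit 2514392253312) (nat_lit 6) (nat_lit 5) (nat_lit 8) (nat_lit 5) (nat_lit 7) (nat_lit 4) (nat_lit 256) (nat_lit 232) (nat_lit 112)) (XT.nd (nat_lit 29406) (nat_lit 0) (nat_lit 2432) (XT.lf (nat_lit 0) (nat_lit 592450926212) (nat_lit 76) (nat_lit 455561959336) (nat_lit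 152) (nat_lit 3151989988180) (nat_lit 5) (nat_lit 5) (nat_lit 6) (nat_lit 5) (nat_lit 7) (nat_lit 4) (nat_lit 257) (nat_lit 232) (nat_lit 111)) (XT.lf (nat_lit 0) (nat_lit 87837673511) (nat_lit 532) (nat_lit 59270953858) (nat_lit 532) (nat_lit 59270953858) (nat_lit 37) (nat_lit 3) (nat_lit 44) (nat_lit 3) (nat_lit 44) (nat_lit 5) (nat_lit 233) (nat_lit 233) (nat_lit 134))))) (XT.nd (nat_lit 156) (nat_lit 304) (nat_lit 0) (XT.nd (nat_lit 78) (nat_lit 0) (nat_lit 0) (XT.lf (nat_lit 0) (nat_lit 195182064399) (nat_lit 456) (nat_lit 215317021153) (nat_lit 532) (nat_lit 32710525816) (nat_lit 38) (nat_lit 5) (nat_lit 44) (nat_lit 5) (nat_lit 45) (nat_lit 5) (nat_lit 234) (nat_lit 233) (nat_lit 133)) (XT.lf (nat_lit 76) (nat_lit 155048380964) (nat_lit 0) (nat_lit 77973399009) (nat_lit 532) (nat_lit 243973288927) (nat_lit 39) (nat_lit 5) (nat_lit 38) (nat_lit 5) (nat_lit 45) (nat_lit 5) (nat_lit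 235) (nat_lit 233) (nat_lit 132))) (XT.nd (nat_lit 78) (nat_lit 380) (nat_lit 0) (XT.lf (nat_lit 76) (nat_lit 74924227475) (nat_lit 0) (nat_lit 217168181335) (nat_lit 532) (nat_lit 222511540238) (nat_lit 40) (nat_lit 5) (nat_lit 39) (nat_lit 5) (nat_lit 46) (nat_lit 5) (nat_lit 236) (nat_lit 233) (nat_lit 131)) (XT.nd (nat_lit 78) (nat_lit 456) (nat_lit 0) (XT.lf (nat_lit 0) (nat_lit 375756763223) (nat_lit 456) (nat_lit 12642580465) (nat_lit 76) (nat_lit 168196167426) (nat_lit 40) (nat_lit 5) (nat_lit 46) (nat_lit 5) (nat_lit 41) (nat_lit 5) (nat_lit 237) (nat_lit 233) (nat_lit 130)) (XT.lf (nat_lit 0) (nat_lit 490115220821) (nat_lit 532) (nat_lit 106304269045) (nat_lit 76) (nat_lit 7014761970) (nat_lit 34) (nat_lit 5) (nat_lit 41) (nat_lit 5) (nat_lit 35) (nat_lit 5) (nat_lit 238) (nat_lit 233) (nat_lit 129)))))) (XT.nd (nat_lit 390) (nat_lit 684) (nat_lit 0) (XT.nd (nat_lit 156) (nat_lit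 532) (nat_lit 0) (XT.nd (nat_lit 78) (nat_lit 228) (nat_lit 0) (XT.lf (nat_lit 0) (nat_lit 438024642223) (nat_lit 228) (nat_lit 205257042869) (nat_lit 304) (nat_lit 12284779834) (nat_lit 31) (nat_lit 5) (nat_lit 34) (nat_lit 5) (nat_lit 35) (nat_lit 5) (nat_lit 239) (nat_lit 233) (nat_lit 128)) (XT.lf (nat_lit 0) (nat_lit 117069856808) (nat_lit 228) (nat_lit 349455009182) (nat_lit 76) (nat_lit 247324693392) (nat_lit 28) (nat_lit 5) (nat_lit 31) (nat_lit 5) (nat_lit 29) (nat_lit 5) (nat_lit 240) (nat_lit 233) (nat_lit 127))) (XT.nd (nat_lit 78) (nat_lit 304) (nat_lit 0) (XT.lf (nat_lit 0) (nat_lit 273949433207) (nat_lit 228) (nat_lit 9934881915) (nat_lit 304) (nat_lit 495462554501) (nat_lit 25) (nat_lit 5) (nat_lit 28) (nat_lit 5) (nat_lit 29) (nat_lit 5) (nat_lit 241) (nat_lit 233) (nat_lit 126)) (XT.nd (nat_lit 78) (nat_lit 152) (nat_lit 0) (XT.lf (nat_lit 0) (nat_lit 153180805600) (nat_lit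 152) (nat_lit 349051572062) (nat_lit 228) (nat_lit 350315484085) (nat_lit 23) (nat_lit 5) (nat_lit 25) (nat_lit 5) (nat_lit 26) (nat_lit 5) (nat_lit 242) (nat_lit 233) (nat_lit 125)) (XT.lf (nat_lit 0) (nat_lit 1243818189) (nat_lit 152) (nat_lit 771250388244) (nat_lit 228) (nat_lit 162701871868) (nat_lit 21) (nat_lit 5) (nat_lit 23) (nat_lit 5) (nat_lit 24) (nat_lit 5) (nat_lit 243) (nat_lit 233) (nat_lit 124))))) (XT.nd (nat_lit 234) (nat_lit 304) (nat_lit 0) (XT.nd (nat_lit 78) (nat_lit 304) (nat_lit 0) (XT.lf (nat_lit 0) (nat_lit 80943864359) (nat_lit 228) (nat_lit 190773525361) (nat_lit 76) (nat_lit 755978538388) (nat_lit 20) (nat_lit 5) (nat_lit 23) (nat_lit 5) (nat_lit 21) (nat_lit 5) (nat_lit 244) (nat_lit 233) (nat_lit 123)) (XT.nd (nat_lit 78) (nat_lit 152) (nat_lit 0) (XT.lf (nat_lit 0) (nat_lit 376301292872) (nat_lit 228) (nat_lit 446102888142) (nat_lit 76) (nat_lit 309344604809)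 (nat_lit 18) (nat_lit 5) (nat_lit 21) (nat_lit 5) (nat_lit 19) (nat_lit 5) (nat_lit 245) (nat_lit 233) (nat_lit 122)) (XT.lf (nat_lit 0) (nat_lit 469965915206) (nat_lit 152) (nat_lit 270512540723) (nat_lit 228) (nat_lit 508969826743) (nat_lit 16) (nat_lit 5) (nat_lit 18) (nat_lit 5) (nat_lit 19) (nat_lit 5) (nat_lit 246) (nat_lit 233) (nat_lit 121)))) (XT.nd (nat_lit 78) (nat_lit 228) (nat_lit 0) (XT.lf (nat_lit 0) (nat_lit 165899439855) (nat_lit 76) (nat_lit 1019455885826) (nat_lit 152) (nat_lit 197361527872) (nat_lit 15) (nat_lit 5) (nat_lit 16) (nat_lit 5) (nat_lit 17) (nat_lit 4) (nat_lit 247) (nat_lit 233) (nat_lit 120)) (XT.nd (nat_lit 78) (nat_lit 152) (nat_lit 0) (XT.lf (nat_lit 0) (nat_lit 183699663299) (nat_lit 152) (nat_lit 245811571201) (nat_lit 76) (nat_lit 1103693540780) (nat_lit 14) (nat_lit 5) (nat_lit 16) (nat_lit 5) (nat_lit 15) (nat_lit 5) (nat_lit 248) (nat_lit 233)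 (nat_lit 119)) (XT.lf (nat_lit 0) (nat_lit 639172270906) (nat_lit 228) (nat_lit 799817709085) (nat_lit 76) (nat_lit 264550744050) (nat_lit 12) (nat_lit 5) (nat_lit 15) (nat_lit 5) (nat_lit 13) (nat_lit 4) (nat_lit 249) (nat_lit 233) (nat_lit 118))))))))
noncomputable def xc59 : XT := (XT.nd (nat_lit 31122) (nat_lit 0) (nat_lit 76) (XT.nd (nat_lit 30264) (nat_lit 0) (nat_lit 684) (XT.nd (nat_lit 390) (nat_lit 76) (nat_lit 0) (XT.nd (nat_lit 156) (nat_lit 228) (nat_lit 0) (XT.nd (nat_lit 78) (nat_lit 0) (nat_lit 0) (XT.lf (nat_lit 0) (nat_lit 347012689778) (nat_lit 76) (nat_lit 843520363786) (nat_lit 152) (nat_lit 706688628890) (nat_lit 11) (nat_lit 5) (nat_lit 12) (nat_lit 5) (nat_lit 13) (nat_lit 4) (nat_lit 250) (nat_lit 233) (nat_lit 117)) (XT.lf (nat_lit 0) (nat_lit 1714302145750) (nat_lit 76) (nat_lit 133581619952) (nat_lit 152) (nat_lit 270208154006) (nat_lit 11) (nat_lit 5) (nat_lit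 12) (nat_lit 5) (nat_lit 13) (nat_lit 4) (nat_lit 251) (nat_lit 233) (nat_lit 116))) (XT.nd (nat_lit 78) (nat_lit 76) (nat_lit 0) (XT.lf (nat_lit 0) (nat_lit 260329734276) (nat_lit 152) (nat_lit 1430084623898) (nat_lit 76) (nat_lit 678018206937) (nat_lit 9) (nat_lit 5) (nat_lit 11) (nat_lit 5) (nat_lit 10) (nat_lit 4) (nat_lit 252) (nat_lit 233) (nat_lit 115)) (XT.nd (nat_lit 78) (nat_lit 76) (nat_lit 0) (XT.lf (nat_lit 0) (nat_lit 870659637548) (nat_lit 152) (nat_lit 160598442787) (nat_lit 76) (nat_lit 1623207901949) (nat_lit 9) (nat_lit 5) (nat_lit 11) (nat_lit 5) (nat_lit 10) (nat_lit 4) (nat_lit 253) (nat_lit 233) (nat_lit 114)) (XT.lf (nat_lit 0) (nat_lit 1367730036471) (nat_lit 76) (nat_lit 237702915810) (nat_lit 152) (nat_lit 1375339945702) (nat_lit 8) (nat_lit 5) (nat_lit 9) (nat_lit 5) (nat_lit 10) (nat_lit 4) (nat_lit 254) (nat_lit 233) (nat_lit 113))))) (XT.nd (nat_lit 29640)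 (nat_lit 0) (nat_lit 2280) (XT.nd (nat_lit 78) (nat_lit 76) (nat_lit 0) (XT.lf (nat_lit 0) (nat_lit 2471450360424) (nat_lit 152) (nat_lit 236971139608) (nat_lit 0) (nat_lit 645922103334) (nat_lit 8) (nat_lit 5) (nat_lit 10) (nat_lit 4) (nat_lit 8) (nat_lit 4) (nat_lit 255) (nat_lit 233) (nat_lit 112)) (XT.lf (nat_lit 0) (nat_lit 1409443097166) (nat_lit 76) (nat_lit 2098398686482) (nat_lit 76) (nat_lit 272870418620) (nat_lit 7) (nat_lit 4) (nat_lit 8) (nat_lit 5) (nat_lit 8) (nat_lit 4) (nat_lit 256) (nat_lit 233) (nat_lit 111))) (XT.nd (nat_lit 78) (nat_lit 0) (nat_lit 76) (XT.lf (nat_lit 0) (nat_lit 101013918891) (nat_lit 532) (nat_lit 68161274566) (nat_lit 532) (nat_lit 68161274566) (nat_lit 37) (nat_lit 3) (nat_lit 44) (nat_lit 3) (nat_lit 44) (nat_lit 5) (nat_lit 234) (nat_lit 234) (nat_lit 132)) (XT.nd (nat_lit 78) (nat_lit 0) (nat_lit 0) (XT.lf (nat_lit 0) (nat_lit 224460410904)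 (nat_lit 456) (nat_lit 247613884388) (nat_lit 532) (nat_lit 37616669898) (nat_lit 38) (nat_lit 5) (nat_lit 44) (nat_lit 5) (nat_lit 45) (nat_lit 5) (nat_lit 235) (nat_lit 234) (nat_lit 131)) (XT.lf (nat_lit 76) (nat_lit 178306269647) (nat_lit 0) (nat_lit 89669694115) (nat_lit 532) (nat_lit 280568287838) (nat_lit 39) (nat_lit 5) (nat_lit 38) (nat_lit 5) (nat_lit 45) (nat_lit 5) (nat_lit 236) (nat_lit 234) (nat_lit 130)))))) (XT.nd (nat_lit 390) (nat_lit 912) (nat_lit 0) (XT.nd (nat_lit 156) (nat_lit 836) (nat_lit 0) (XT.nd (nat_lit 78) (nat_lit 0) (nat_lit 76) (XT.lf (nat_lit 76) (nat_lit 86163517021) (nat_lit 0) (nat_lit 249743560119) (nat_lit 532) (nat_lit 255887395972) (nat_lit 40) (nat_lit 5) (nat_lit 39) (nat_lit 5) (nat_lit 46) (nat_lit 5) (nat_lit 237) (nat_lit 234) (nat_lit 129)) (XT.lf (nat_lit 0) (nat_lit 432120976283) (nat_lit 456) (nat_lit 14538335045) (nat_lit 76) (nat_lit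 193425467322) (nat_lit 40) (nat_lit 5) (nat_lit 46) (nat_lit 5) (nat_lit 41) (nat_lit 5) (nat_lit 238) (nat_lit 234) (nat_lit 128))) (XT.nd (nat_lit 78) (nat_lit 456) (nat_lit 0) (XT.lf (nat_lit 0) (nat_lit 563633124306) (nat_lit 532) (nat_lit 122249276895) (nat_lit 76) (nat_lit 8066935960) (nat_lit 34) (nat_lit 5) (nat_lit 41) (nat_lit 5) (nat_lit 35) (nat_lit 5) (nat_lit 239) (nat_lit 234) (nat_lit 127)) (XT.nd (nat_lit 78) (nat_lit 228) (nat_lit 0) (XT.lf (nat_lit 0) (nat_lit 503728917525) (nat_lit 228) (nat_lit 236045573700) (nat_lit 304) (nat_lit 14126896716) (nat_lit 31) (nat_lit 5) (nat_lit 34) (nat_lit 5) (nat_lit 35) (nat_lit 5) (nat_lit 240) (nat_lit 234) (nat_lit 126)) (XT.lf (nat_lit 0) (nat_lit 134630845712) (nat_lit 228) (nat_lit 401872659541) (nat_lit 76) (nat_lit 284423445229) (nat_lit 28) (nat_lit 5) (nat_lit 31) (nat_lit 5) (nat_lit 29) (nat_lit 5) (nat_lit 241) (nat_lit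 234) (nat_lit 125))))) (XT.nd (nat_lit 234) (nat_lit 380) (nat_lit 0) (XT.nd (nat_lit 78) (nat_lit 304) (nat_lit 0) (XT.lf (nat_lit 0) (nat_lit 315042398333) (nat_lit 228) (nat_lit 11425021100) (nat_lit 304) (nat_lit 569781442352) (nat_lit 25) (nat_lit 5) (nat_lit 28) (nat_lit 5) (nat_lit 29) (nat_lit 5) (nat_lit 242) (nat_lit 234) (nat_lit 124)) (XT.nd (nat_lit 78) (nat_lit 152) (nat_lit 0) (XT.lf (nat_lit 0) (nat_lit 176158463010) (nat_lit 152) (nat_lit 401409183581) (nat_lit 228) (nat_lit 402862359942) (nat_lit 23) (nat_lit 5) (nat_lit 25) (nat_lit 5) (nat_lit 26) (nat_lit 5) (nat_lit 243) (nat_lit 234) (nat_lit 123)) (XT.lf (nat_lit 0) (nat_lit 1430910892) (nat_lit 152) (nat_lit 886937800115) (nat_lit 228) (nat_lit 187106747851) (nat_lit 21) (nat_lit 5) (nat_lit 23) (nat_lit 5) (nat_lit 24) (nat_lit 5) (nat_lit 244) (nat_lit 234) (nat_lit 122)))) (XT.nd (nat_lit 78) (nat_lit 304)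 (nat_lit 0) (XT.lf (nat_lit 0) (nat_lit 93085778402) (nat_lit 228) (nat_lit 219389083359) (nat_lit 76) (nat_lit 869375427766) (nat_lit 20) (nat_lit 5) (nat_lit 23) (nat_lit 5) (nat_lit 21) (nat_lit 5) (nat_lit 245) (nat_lit 234) (nat_lit 121)) (XT.nd (nat_lit 78) (nat_lit 152) (nat_lit 0) (XT.lf (nat_lit 0) (nat_lit 432746791063) (nat_lit 228) (nat_lit 513017868530) (nat_lit 76) (nat_lit 355746418854) (nat_lit 18) (nat_lit 5) (nat_lit 21) (nat_lit 5) (nat_lit 19) (nat_lit 5) (nat_lit 246) (nat_lit 234) (nat_lit 120)) (XT.lf (nat_lit 0) (nat_lit 540461216990) (nat_lit 152) (nat_lit 311089281871) (nat_lit 228) (nat_lit 585315003457) (nat_lit 16) (nat_lit 5) (nat_lit 18) (nat_lit 5) (nat_lit 19) (nat_lit 5) (nat_lit 247) (nat_lit 234) (nat_lit 119))))))) (XT.nd (nat_lit 30420) (nat_lit 0) (nat_lit 760) (XT.nd (nat_lit 390) (nat_lit 228) (nat_lit 0) (XT.nd (nat_lit 156) (nat_lit 228) (nat_lit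 0) (XT.nd (nat_lit 78) (nat_lit 76) (nat_lit 0) (XT.lf (nat_lit 0) (nat_lit 190784752998) (nat_lit 76) (nat_lit 1172374122747) (nat_lit 152) (nat_lit 226965485057) (nat_lit 15) (nat_lit 5) (nat_lit 16) (nat_lit 5) (nat_lit 17) (nat_lit 4) (nat_lit 248) (nat_lit 234) (nat_lit 118)) (XT.lf (nat_lit 0) (nat_lit 211254837480) (nat_lit 152) (nat_lit 282682949136) (nat_lit 76) (nat_lit 1269247686428) (nat_lit 14) (nat_lit 5) (nat_lit 16) (nat_lit 5) (nat_lit 15) (nat_lit 5) (nat_lit 249) (nat_lit 234) (nat_lit 117))) (XT.nd (nat_lit 78) (nat_lit 76) (nat_lit 0) (XT.lf (nat_lit 0) (nat_lit 735048317784) (nat_lit 228) (nat_lit 919790024229) (nat_lit 76) (nat_lit 304233473653) (nat_lit 12) (nat_lit 5) (nat_lit 15) (nat_lit 5) (nat_lit 13) (nat_lit 4) (nat_lit 250) (nat_lit 234) (nat_lit 116)) (XT.nd (nat_lit 78) (nat_lit 0) (nat_lit 0) (XT.lf (nat_lit 0) (nat_lit 399064905582) (nat_lit 76) (nat_lit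 970048292870) (nat_lit 152) (nat_lit 812691721004) (nat_lit 11) (nat_lit 5) (nat_lit 12) (nat_lit 5) (nat_lit 13) (nat_lit 4) (nat_lit 251) (nat_lit 234) (nat_lit 115)) (XT.lf (nat_lit 0) (nat_lit 1971447739210) (nat_lit 76) (nat_lit 153618753828) (nat_lit 152) (nat_lit 310739201264) (nat_lit 11) (nat_lit 5) (nat_lit 12) (nat_lit 5) (nat_lit 13) (nat_lit 4) (nat_lit 252) (nat_lit 234) (nat_lit 114))))) (XT.nd (nat_lit 234) (nat_lit 0) (nat_lit 0) (XT.nd (nat_lit 78) (nat_lit 76) (nat_lit 0) (XT.lf (nat_lit 0) (nat_lit 299379348394) (nat_lit 152) (nat_lit 1644597050644) (nat_lit 76) (nat_lit 779721038228) (nat_lit 9) (nat_lit 5) (nat_lit 11) (nat_lit 5) (nat_lit 10) (nat_lit 4) (nat_lit 253) (nat_lit 234) (nat_lit 113)) (XT.nd (nat_lit 78) (nat_lit 76) (nat_lit 0) (XT.lf (nat_lit 0) (nat_lit 1001258717073) (nat_lit 152) (nat_lit 184687977172) (nat_lit 76) (nat_lit 1866689174416) (nat_lit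 9) (nat_lit 5) (nat_lit 11) (nat_lit 5) (nat_lit 10) (nat_lit 4) (nat_lit 254) (nat_lit 234) (nat_lit 112)) (XT.lf (nat_lit 0) (nat_lit 1572889754335) (nat_lit 76) (nat_lit 273358262325) (nat_lit 152) (nat_lit 1581640806077) (nat_lit 8) (nat_lit 5) (nat_lit 9) (nat_lit 5) (nat_lit 10) (nat_lit 4) (nat_lit 255) (nat_lit 234) (nat_lit 111)))) (XT.nd (nat_lit 29640) (nat_lit 0) (nat_lit 2204) (XT.lf (nat_lit 0) (nat_lit 2842168022071) (nat_lit 152) (nat_lit 272516619113) (nat_lit 0) (nat_lit 742810493888) (nat_lit 8) (nat_lit 5) (nat_lit 10) (nat_lit 4) (nat_lit 8) (nat_lit 4) (nat_lit 256) (nat_lit 234) (nat_lit 110)) (XT.nd (nat_lit 78) (nat_lit 0) (nat_lit 76) (XT.lf (nat_lit 0) (nat_lit 116166456142) (nat_lit 532) (nat_lit 78385221993) (nat_lit 532) (nat_lit 78385221993) (nat_lit 37) (nat_lit 3) (nat_lit 44) (nat_lit 3) (nat_lit 44) (nat_lit 5) (nat_lit 235) (nat_lit 235) (nat_lit 130))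 (XT.lf (nat_lit 0) (nat_lit 258130256543) (nat_lit 456) (nat_lit 284755445354) (nat_lit 532) (nat_lit 43258841619) (nat_lit 38) (nat_lit 5) (nat_lit 44) (nat_lit 5) (nat_lit 45) (nat_lit 5) (nat_lit 236) (nat_lit 235) (nat_lit 129)))))) (XT.nd (nat_lit 390) (nat_lit 988) (nat_lit 0) (XT.nd (nat_lit 156) (nat_lit 532) (nat_lit 0) (XT.nd (nat_lit 78) (nat_lit 0) (nat_lit 76) (XT.lf (nat_lit 76) (nat_lit 205052687628) (nat_lit 0) (nat_lit 103120363926) (nat_lit 532) (nat_lit 322652779083) (nat_lit 39) (nat_lit 5) (nat_lit 38) (nat_lit 5) (nat_lit 45) (nat_lit 5) (nat_lit 237) (nat_lit 235) (nat_lit 128)) (XT.lf (nat_lit 76) (nat_lit 99088540171) (nat_lit 0) (nat_lit 287205208755) (nat_lit 532) (nat_lit 294269843514) (nat_lit 40) (nat_lit 5) (nat_lit 39) (nat_lit 5) (nat_lit 46) (nat_lit 5) (nat_lit 238) (nat_lit 235) (nat_lit 127))) (XT.nd (nat_lit 78) (nat_lit 684) (nat_lit 0) (XT.lf (nat_lit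 0) (nat_lit 496939650950) (nat_lit 456) (nat_lit 16718607048) (nat_lit 76) (nat_lit 222439192738) (nat_lit 40) (nat_lit 5) (nat_lit 46) (nat_lit 5) (nat_lit 41) (nat_lit 5) (nat_lit 239) (nat_lit 235) (nat_lit 126)) (XT.nd (nat_lit 78) (nat_lit 228) (nat_lit 0) (XT.lf (nat_lit 0) (nat_lit 648178562034) (nat_lit 532) (nat_lit 140586190164) (nat_lit 76) (nat_lit 9276945877) (nat_lit 34) (nat_lit 5) (nat_lit 41) (nat_lit 5) (nat_lit 35) (nat_lit 5) (nat_lit 240) (nat_lit 235) (nat_lit 125)) (XT.lf (nat_lit 0) (nat_lit 579288692937) (nat_lit 228) (nat_lit 271452390398) (nat_lit 304) (nat_lit 16245477468) (nat_lit 31) (nat_lit 5) (nat_lit 34) (nat_lit 5) (nat_lit 35) (nat_lit 5) (nat_lit 241) (nat_lit 235) (nat_lit 124))))) (XT.nd (nat_lit 234) (nat_lit 380) (nat_lit 0) (XT.nd (nat_lit 78) (nat_lit 380) (nat_lit 0) (XT.lf (nat_lit 0) (nat_lit 154825858493) (nat_lit 228) (nat_lit 462153104016)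 (nat_lit 76) (nat_lit 327086998179) (nat_lit 28) (nat_lit 5) (nat_lit 31) (nat_lit 5) (nat_lit 29) (nat_lit 5) (nat_lit 242) (nat_lit 235) (nat_lit 123)) (XT.nd (nat_lit 78) (nat_lit 152) (nat_lit 0) (XT.lf (nat_lit 0) (nat_lit 362299174072) (nat_lit 228) (nat_lit 13138703866) (nat_lit 304) (nat_lit 655248284169) (nat_lit 25) (nat_lit 5) (nat_lit 28) (nat_lit 5) (nat_lit 29) (nat_lit 5) (nat_lit 243) (nat_lit 235) (nat_lit 122)) (XT.lf (nat_lit 0) (nat_lit 202582638186) (nat_lit 152) (nat_lit 461620467137) (nat_lit 228) (nat_lit 463291376121) (nat_lit 23) (nat_lit 5) (nat_lit 25) (nat_lit 5) (nat_lit 26) (nat_lit 5) (nat_lit 244) (nat_lit 235) (nat_lit 121)))) (XT.nd (nat_lit 78) (nat_lit 228) (nat_lit 0) (XT.lf (nat_lit 0) (nat_lit 1645940701) (nat_lit 152) (nat_lit 1019978359460) (nat_lit 228) (nat_lit 215172453944) (nat_lit 21) (nat_lit 5) (nat_lit 23) (nat_lit 5) (nat_lit 24) (nat_lit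 5) (nat_lit 245) (nat_lit 235) (nat_lit 120)) (XT.nd (nat_lit 78) (nat_lit 152) (nat_lit 0) (XT.lf (nat_lit 0) (nat_lit 107048898008) (nat_lit 228) (nat_lit 252297089866) (nat_lit 76) (nat_lit 999781824063) (nat_lit 20) (nat_lit 5) (nat_lit 23) (nat_lit 5) (nat_lit 21) (nat_lit 5) (nat_lit 246) (nat_lit 235) (nat_lit 119)) (XT.lf (nat_lit 0) (nat_lit 497659039786) (nat_lit 228) (nat_lit 589970206403) (nat_lit 76) (nat_lit 409108474932) (nat_lit 18) (nat_lit 5) (nat_lit 21) (nat_lit 5) (nat_lit 19) (nat_lit 5) (nat_lit 247) (nat_lit 235) (nat_lit 118))))))))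
noncomputable def xc60 : XT := (XT.nd (nat_lit 31278) (nat_lit 0) (nat_lit 76) (XT.nd (nat_lit 30420) (nat_lit 0) (nat_lit 912) (XT.nd (nat_lit 390) (nat_lit 228) (nat_lit 0) (XT.nd (nat_lit 156) (nat_lit 304) (nat_lit 0) (XT.nd (nat_lit 78) (nat_lit 76) (nat_lit 0) (XT.lf (nat_lit 0) (nat_lit 621530712962) (nat_lit 152) (nat_lit 357752568322) (nat_lit 228) (nat_lit 673112029177) (nat_lit 16) (nat_lit 5) (nat_lit 18) (nat_lit 5) (nat_lit 19) (nat_lit 5) (nat_lit 248) (nat_lit 235) (nat_lit 117)) (XT.lf (nat_lit 0) (nat_lit 219402766261) (nat_lit 76) (nat_lit 1348230130797) (nat_lit 152) (nat_lit 261010102147) (nat_lit 15) (nat_lit 5) (nat_lit 16) (nat_lit 5) (nat_lit 17) (nat_lit 4) (nat_lit 249) (nat_lit 235) (nat_lit 116))) (XT.nd (nat_lit 78) (nat_lit 228) (nat_lit 0) (XT.lf (nat_lit 0) (nat_lit 242943232998) (nat_lit 152) (nat_lit 325085120999) (nat_lit 76) (nat_lit 1459634925993)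 (nat_lit 14) (nat_lit 5) (nat_lit 16) (nat_lit 5) (nat_lit 15) (nat_lit 5) (nat_lit 250) (nat_lit 235) (nat_lit 115)) (XT.nd (nat_lit 78) (nat_lit 76) (nat_lit 0) (XT.lf (nat_lit 0) (nat_lit 845305721401) (nat_lit 228) (nat_lit 1057758269853) (nat_lit 76) (nat_lit 349868583923) (nat_lit 12) (nat_lit 5) (nat_lit 15) (nat_lit 5) (nat_lit 13) (nat_lit 4) (nat_lit 251) (nat_lit 235) (nat_lit 114)) (XT.lf (nat_lit 0) (nat_lit 458924877590) (nat_lit 76) (nat_lit 1115555441917) (nat_lit 152) (nat_lit 934595326247) (nat_lit 11) (nat_lit 5) (nat_lit 12) (nat_lit 5) (nat_lit 13) (nat_lit 4) (nat_lit 252) (nat_lit 235) (nat_lit 113))))) (XT.nd (nat_lit 156) (nat_lit 76) (nat_lit 0) (XT.nd (nat_lit 78) (nat_lit 152) (nat_lit 0) (XT.lf (nat_lit 0) (nat_lit 2267165105457) (nat_lit 76) (nat_lit 176661484395) (nat_lit 152) (nat_lit 357349948490) (nat_lit 11) (nat_lit 5) (nat_lit 12) (nat_lit 5) (nat_lit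 13) (nat_lit 4) (nat_lit 253) (nat_lit 235) (nat_lit 112)) (XT.lf (nat_lit 0) (nat_lit 344286367081) (nat_lit 152) (nat_lit 1891286406472) (nat_lit 76) (nat_lit 896679269767) (nat_lit 9) (nat_lit 5) (nat_lit 11) (nat_lit 5) (nat_lit 10) (nat_lit 4) (nat_lit 254) (nat_lit 235) (nat_lit 111))) (XT.nd (nat_lit 78) (nat_lit 76) (nat_lit 0) (XT.lf (nat_lit 0) (nat_lit 1151447625876) (nat_lit 152) (nat_lit 212390998297) (nat_lit 76) (nat_lit 2146692616495) (nat_lit 9) (nat_lit 5) (nat_lit 11) (nat_lit 5) (nat_lit 10) (nat_lit 4) (nat_lit 255) (nat_lit 235) (nat_lit 110)) (XT.nd (nat_lit 29718) (nat_lit 0) (nat_lit 2204) (XT.lf (nat_lit 0) (nat_lit 1808823378085) (nat_lit 76) (nat_lit 314361932974) (nat_lit 152) (nat_lit 1818886827570) (nat_lit 8) (nat_lit 5) (nat_lit 9) (nat_lit 5) (nat_lit 10) (nat_lit 4) (nat_lit 256) (nat_lit 235) (nat_lit 109)) (XT.lf (nat_lit 0) (nat_lit 133591764387)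 (nat_lit 532) (nat_lit 90142820976) (nat_lit 532) (nat_lit 90142820976) (nat_lit 37) (nat_lit 3) (nat_lit 44) (nat_lit 3) (nat_lit 44) (nat_lit 5) (nat_lit 236) (nat_lit 236) (nat_lit 128)))))) (XT.nd (nat_lit 390) (nat_lit 1064) (nat_lit 0) (XT.nd (nat_lit 156) (nat_lit 304) (nat_lit 0) (XT.nd (nat_lit 78) (nat_lit 0) (nat_lit 0) (XT.lf (nat_lit 0) (nat_lit 296850387844) (nat_lit 456) (nat_lit 327468367683) (nat_lit 532) (nat_lit 49747419268) (nat_lit 38) (nat_lit 5) (nat_lit 44) (nat_lit 5) (nat_lit 45) (nat_lit 5) (nat_lit 237) (nat_lit 236) (nat_lit 127)) (XT.lf (nat_lit 76) (nat_lit 235810951856) (nat_lit 0) (nat_lit 118588581610) (nat_lit 532) (nat_lit 371050127378) (nat_lit 39) (nat_lit 5) (nat_lit 38) (nat_lit 5) (nat_lit 45) (nat_lit 5) (nat_lit 238) (nat_lit 236) (nat_lit 126))) (XT.nd (nat_lit 78) (nat_lit 380) (nat_lit 0) (XT.lf (nat_lit 76) (nat_lit 113952195938) (nat_lit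 0) (nat_lit 330286076736) (nat_lit 532) (nat_lit 338409819584) (nat_lit 40) (nat_lit 5) (nat_lit 39) (nat_lit 5) (nat_lit 46) (nat_lit 5) (nat_lit 239) (nat_lit 236) (nat_lit 125)) (XT.nd (nat_lit 78) (nat_lit 456) (nat_lit 0) (XT.lf (nat_lit 0) (nat_lit 571480998006) (nat_lit 456) (nat_lit 19226036476) (nat_lit 76) (nat_lit 255805000056) (nat_lit 40) (nat_lit 5) (nat_lit 46) (nat_lit 5) (nat_lit 41) (nat_lit 5) (nat_lit 240) (nat_lit 236) (nat_lit 124)) (XT.lf (nat_lit 0) (nat_lit 745405701032) (nat_lit 532) (nat_lit 161673757051) (nat_lit 76) (nat_lit 10668464714) (nat_lit 34) (nat_lit 5) (nat_lit 41) (nat_lit 5) (nat_lit 35) (nat_lit 5) (nat_lit 241) (nat_lit 236) (nat_lit 123))))) (XT.nd (nat_lit 234) (nat_lit 380) (nat_lit 0) (XT.nd (nat_lit 78) (nat_lit 456) (nat_lit 0) (XT.lf (nat_lit 0) (nat_lit 666182327904) (nat_lit 228) (nat_lit 312170234321) (nat_lit 304) (nat_lit 18681955983)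 (nat_lit 31) (nat_lit 5) (nat_lit 34) (nat_lit 5) (nat_lit 35) (nat_lit 5) (nat_lit 242) (nat_lit 236) (nat_lit 122)) (XT.nd (nat_lit 78) (nat_lit 228) (nat_lit 0) (XT.lf (nat_lit 0) (nat_lit 178050029080) (nat_lit 228) (nat_lit 531475725984) (nat_lit 76) (nat_lit 376150075252) (nat_lit 28) (nat_lit 5) (nat_lit 31) (nat_lit 5) (nat_lit 29) (nat_lit 5) (nat_lit 243) (nat_lit 236) (nat_lit 121)) (XT.lf (nat_lit 0) (nat_lit 416644364730) (nat_lit 228) (nat_lit 15109456214) (nat_lit 304) (nat_lit 753535243591) (nat_lit 25) (nat_lit 5) (nat_lit 28) (nat_lit 5) (nat_lit 29) (nat_lit 5) (nat_lit 244) (nat_lit 236) (nat_lit 120)))) (XT.nd (nat_lit 78) (nat_lit 228) (nat_lit 0) (XT.lf (nat_lit 0) (nat_lit 232970340699) (nat_lit 152) (nat_lit 530863466144) (nat_lit 228) (nat_lit 532784827105) (nat_lit 23) (nat_lit 5) (nat_lit 25) (nat_lit 5) (nat_lit 26) (nat_lit 5) (nat_lit 245) (nat_lit 236)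 (nat_lit 119)) (XT.nd (nat_lit 78) (nat_lit 76) (nat_lit 0) (XT.lf (nat_lit 0) (nat_lit 1893129103) (nat_lit 152) (nat_lit 1172975029694) (nat_lit 228) (nat_lit 247448090592) (nat_lit 21) (nat_lit 5) (nat_lit 23) (nat_lit 5) (nat_lit 24) (nat_lit 5) (nat_lit 246) (nat_lit 236) (nat_lit 118)) (XT.lf (nat_lit 0) (nat_lit 123106423898) (nat_lit 228) (nat_lit 290141384161) (nat_lit 76) (nat_lit 1149749159777) (nat_lit 20) (nat_lit 5) (nat_lit 23) (nat_lit 5) (nat_lit 21) (nat_lit 5) (nat_lit 247) (nat_lit 236) (nat_lit 117))))))) (XT.nd (nat_lit 30498) (nat_lit 0) (nat_lit 836) (XT.nd (nat_lit 390) (nat_lit 228) (nat_lit 0) (XT.nd (nat_lit 156) (nat_lit 304) (nat_lit 0) (XT.nd (nat_lit 78) (nat_lit 152) (nat_lit 0) (XT.lf (nat_lit 0) (nat_lit 572308069716) (nat_lit 228) (nat_lit 678465478455) (nat_lit 76) (nat_lit 470474816682) (nat_lit 18) (nat_lit 5) (nat_lit 21) (nat_lit 5) (nat_lit 19)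 (nat_lit 5) (nat_lit 248) (nat_lit 236) (nat_lit 116)) (XT.lf (nat_lit 0) (nat_lit 714760556900) (nat_lit 152) (nat_lit 411415373547) (nat_lit 228) (nat_lit 774078663573) (nat_lit 16) (nat_lit 5) (nat_lit 18) (nat_lit 5) (nat_lit 19) (nat_lit 5) (nat_lit 249) (nat_lit 236) (nat_lit 115))) (XT.nd (nat_lit 78) (nat_lit 228) (nat_lit 0) (XT.lf (nat_lit 0) (nat_lit 252313408280) (nat_lit 76) (nat_lit 1550464566968) (nat_lit 152) (nat_lit 300161461955) (nat_lit 15) (nat_lit 5) (nat_lit 16) (nat_lit 5) (nat_lit 17) (nat_lit 4) (nat_lit 250) (nat_lit 236) (nat_lit 114)) (XT.nd (nat_lit 78) (nat_lit 152) (nat_lit 0) (XT.lf (nat_lit 0) (nat_lit 279384846413) (nat_lit 152) (nat_lit 373847684607) (nat_lit 76) (nat_lit 1678580230376) (nat_lit 14) (nat_lit 5) (nat_lit 16) (nat_lit 5) (nat_lit 15) (nat_lit 5) (nat_lit 251) (nat_lit 236) (nat_lit 113)) (XT.lf (nat_lit 0) (nat_lit 972101697531) (nat_lit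 228) (nat_lit 1216421815237) (nat_lit 76) (nat_lit 402348938975) (nat_lit 12) (nat_lit 5) (nat_lit 15) (nat_lit 5) (nat_lit 13) (nat_lit 4) (nat_lit 252) (nat_lit 236) (nat_lit 112))))) (XT.nd (nat_lit 156) (nat_lit 152) (nat_lit 0) (XT.nd (nat_lit 78) (nat_lit 0) (nat_lit 0) (XT.lf (nat_lit 0) (nat_lit 527763787808) (nat_lit 76) (nat_lit 1282888686459) (nat_lit 152) (nat_lit 1074784509564) (nat_lit 11) (nat_lit 5) (nat_lit 12) (nat_lit 5) (nat_lit 13) (nat_lit 4) (nat_lit 253) (nat_lit 236) (nat_lit 111)) (XT.lf (nat_lit 0) (nat_lit 2607240026563) (nat_lit 76) (nat_lit 203160644667) (nat_lit 152) (nat_lit 410952340225) (nat_lit 11) (nat_lit 5) (nat_lit 12) (nat_lit 5) (nat_lit 13) (nat_lit 4) (nat_lit 254) (nat_lit 236) (nat_lit 110))) (XT.nd (nat_lit 78) (nat_lit 0) (nat_lit 0) (XT.lf (nat_lit 0) (nat_lit 395929410180) (nat_lit 152) (nat_lit 2174979214877) (nat_lit 76) (nat_lit 1031181217550)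 (nat_lit 9) (nat_lit 5) (nat_lit 11) (nat_lit 5) (nat_lit 10) (nat_lit 4) (nat_lit 255) (nat_lit 236) (nat_lit 109)) (XT.nd (nat_lit 29796) (nat_lit 0) (nat_lit 2128) (XT.lf (nat_lit 0) (nat_lit 1324164846311) (nat_lit 152) (nat_lit 244249515376) (nat_lit 76) (nat_lit 2468696558812) (nat_lit 9) (nat_lit 5) (nat_lit 11) (nat_lit 5) (nat_lit 10) (nat_lit 4) (nat_lit 256) (nat_lit 236) (nat_lit 108)) (XT.lf (nat_lit 0) (nat_lit 153630786000) (nat_lit 532) (nat_lit 103664104753) (nat_lit 532) (nat_lit 103664104753) (nat_lit 37) (nat_lit 3) (nat_lit 44) (nat_lit 3) (nat_lit 44) (nat_lit 5) (nat_lit 237) (nat_lit 237) (nat_lit 126)))))) (XT.nd (nat_lit 390) (nat_lit 1064) (nat_lit 0) (XT.nd (nat_lit 156) (nat_lit 304) (nat_lit 0) (XT.nd (nat_lit 78) (nat_lit 0) (nat_lit 0) (XT.lf (nat_lit 0) (nat_lit 341378394278) (nat_lit 456) (nat_lit 376588324557) (nat_lit 532) (nat_lit 57209344187) (nat_lit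 38) (nat_lit 5) (nat_lit 44) (nat_lit 5) (nat_lit 45) (nat_lit 5) (nat_lit 238) (nat_lit 237) (nat_lit 125)) (XT.lf (nat_lit 76) (nat_lit 271182867666) (nat_lit 0) (nat_lit 136376992175) (nat_lit 532) (nat_lit 426707216565) (nat_lit 39) (nat_lit 5) (nat_lit 38) (nat_lit 5) (nat_lit 45) (nat_lit 5) (nat_lit 239) (nat_lit 237) (nat_lit 124))) (XT.nd (nat_lit 78) (nat_lit 380) (nat_lit 0) (XT.lf (nat_lit 76) (nat_lit 131045308688) (nat_lit 0) (nat_lit 379829053780) (nat_lit 532) (nat_lit 389170914105) (nat_lit 40) (nat_lit 5) (nat_lit 39) (nat_lit 5) (nat_lit 46) (nat_lit 5) (nat_lit 240) (nat_lit 237) (nat_lit 123)) (XT.nd (nat_lit 78) (nat_lit 456) (nat_lit 0) (XT.lf (nat_lit 0) (nat_lit 657203449721) (nat_lit 456) (nat_lit 22109668504) (nat_lit 76) (nat_lit 294175695929) (nat_lit 40) (nat_lit 5) (nat_lit 46) (nat_lit 5) (nat_lit 41) (nat_lit 5) (nat_lit 241) (nat_lit 237) (nat_lit 122))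 (XT.lf (nat_lit 0) (nat_lit 857216824387) (nat_lit 532) (nat_lit 185924547158) (nat_lit 76) (nat_lit 12268716996) (nat_lit 34) (nat_lit 5) (nat_lit 41) (nat_lit 5) (nat_lit 35) (nat_lit 5) (nat_lit 242) (nat_lit 237) (nat_lit 121))))) (XT.nd (nat_lit 234) (nat_lit 380) (nat_lit 0) (XT.nd (nat_lit 78) (nat_lit 456) (nat_lit 0) (XT.lf (nat_lit 0) (nat_lit 766109927394) (nat_lit 228) (nat_lit 358995758402) (nat_lit 304) (nat_lit 21483989944) (nat_lit 31) (nat_lit 5) (nat_lit 34) (nat_lit 5) (nat_lit 35) (nat_lit 5) (nat_lit 243) (nat_lit 237) (nat_lit 120)) (XT.nd (nat_lit 78) (nat_lit 228) (nat_lit 0) (XT.lf (nat_lit 0) (nat_lit 204757754095) (nat_lit 228) (nat_lit 611196825045) (nat_lit 76) (nat_lit 432572607217) (nat_lit 28) (nat_lit 5) (nat_lit 31) (nat_lit 5) (nat_lit 29) (nat_lit 5) (nat_lit 244) (nat_lit 237) (nat_lit 119)) (XT.lf (nat_lit 0) (nat_lit 479141257283) (nat_lit 228) (nat_lit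 17375834396) (nat_lit 304) (nat_lit 866565315988) (nat_lit 25) (nat_lit 5) (nat_lit 28) (nat_lit 5) (nat_lit 29) (nat_lit 5) (nat_lit 245) (nat_lit 237) (nat_lit 118)))) (XT.nd (nat_lit 78) (nat_lit 228) (nat_lit 0) (XT.lf (nat_lit 0) (nat_lit 267916123778) (nat_lit 152) (nat_lit 610492932332) (nat_lit 228) (nat_lit 612702358025) (nat_lit 23) (nat_lit 5) (nat_lit 25) (nat_lit 5) (nat_lit 26) (nat_lit 5) (nat_lit 246) (nat_lit 237) (nat_lit 117)) (XT.nd (nat_lit 78) (nat_lit 76) (nat_lit 0) (XT.lf (nat_lit 0) (nat_lit 2177323267) (nat_lit 152) (nat_lit 1348921220870) (nat_lit 228) (nat_lit 284565129176) (nat_lit 21) (nat_lit 5) (nat_lit 23) (nat_lit 5) (nat_lit 24) (nat_lit 5) (nat_lit 247) (nat_lit 237) (nat_lit 116)) (XT.lf (nat_lit 0) (nat_lit 141572532048) (nat_lit 228) (nat_lit 333662388243) (nat_lit 76) (nat_lit 1322211580702) (nat_lit 20) (nat_lit 5) (nat_lit 23) (nat_lit 5) (nat_lit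 21) (nat_lit 5) (nat_lit 248) (nat_lit 237) (nat_lit 115))))))))
noncomputable def xc61 : XT := (XT.nd (nat_lit 31512) (nat_lit 0) (nat_lit 0) (XT.nd (nat_lit 30654) (nat_lit 0) (nat_lit 380) (XT.nd (nat_lit 390) (nat_lit 76) (nat_lit 0) (XT.nd (nat_lit 156) (nat_lit 304) (nat_lit 0) (XT.nd (nat_lit 78) (nat_lit 152) (nat_lit 0) (XT.lf (nat_lit 0) (nat_lit 658154411713) (nat_lit 228) (nat_lit 780235104451) (nat_lit 76) (nat_lit 541046092500) (nat_lit 18) (nat_lit 5) (nat_lit 21) (nat_lit 5) (nat_lit 19) (nat_lit 5) (nat_lit 249) (nat_lit 237) (nat_lit 114)) (XT.lf (nat_lit 0) (nat_lit 821974819636) (nat_lit 152) (nat_lit 473127619070) (nat_lit 228) (nat_lit 890190334580) (nat_lit 16) (nat_lit 5) (nat_lit 18) (nat_lit 5) (nat_lit 19) (nat_lit 5) (nat_lit 250) (nat_lit 237) (nat_lit 113))) (XT.nd (nat_lit 78) (nat_lit 228) (nat_lit 0) (XT.lf (nat_lit 0) (nat_lit 290160591227) (nat_lit 76)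 (nat_lit 1783034188914) (nat_lit 152) (nat_lit 345185563657) (nat_lit 15) (nat_lit 5) (nat_lit 16) (nat_lit 5) (nat_lit 17) (nat_lit 4) (nat_lit 251) (nat_lit 237) (nat_lit 112)) (XT.nd (nat_lit 78) (nat_lit 152) (nat_lit 0) (XT.lf (nat_lit 0) (nat_lit 321292670513) (nat_lit 152) (nat_lit 429924682634) (nat_lit 76) (nat_lit 1930367314447) (nat_lit 14) (nat_lit 5) (nat_lit 16) (nat_lit 5) (nat_lit 15) (nat_lit 5) (nat_lit 252) (nat_lit 237) (nat_lit 111)) (XT.lf (nat_lit 0) (nat_lit 1117917041325) (nat_lit 228) (nat_lit 1398884940005) (nat_lit 76) (nat_lit 462701330835) (nat_lit 12) (nat_lit 5) (nat_lit 15) (nat_lit 5) (nat_lit 13) (nat_lit 4) (nat_lit 253) (nat_lit 237) (nat_lit 110))))) (XT.nd (nat_lit 30030) (nat_lit 0) (nat_lit 1976) (XT.nd (nat_lit 78) (nat_lit 0) (nat_lit 0) (XT.lf (nat_lit 0) (nat_lit 606928491012) (nat_lit 76) (nat_lit 1475321935178) (nat_lit 152) (nat_lit 1236002098573)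 (nat_lit 11) (nat_lit 5) (nat_lit 12) (nat_lit 5) (nat_lit 13) (nat_lit 4) (nat_lit 254) (nat_lit 237) (nat_lit 109)) (XT.lf (nat_lit 0) (nat_lit 2998326147966) (nat_lit 76) (nat_lit 233634694193) (nat_lit 152) (nat_lit 472595115237) (nat_lit 11) (nat_lit 5) (nat_lit 12) (nat_lit 5) (nat_lit 13) (nat_lit 4) (nat_lit 255) (nat_lit 237) (nat_lit 108))) (XT.nd (nat_lit 78) (nat_lit 0) (nat_lit 76) (XT.lf (nat_lit 0) (nat_lit 176675598196) (nat_lit 532) (nat_lit 119213615082) (nat_lit 532) (nat_lit 119213615082) (nat_lit 37) (nat_lit 3) (nat_lit 44) (nat_lit 3) (nat_lit 44) (nat_lit 5) (nat_lit 238) (nat_lit 238) (nat_lit 124)) (XT.nd (nat_lit 78) (nat_lit 0) (nat_lit 0) (XT.lf (nat_lit 0) (nat_lit 392585492366) (nat_lit 456) (nat_lit 433076347698) (nat_lit 532) (nat_lit 65790603681) (nat_lit 38) (nat_lit 5) (nat_lit 44) (nat_lit 5) (nat_lit 45) (nat_lit 5) (nat_lit 239) (nat_lit 238) (nat_lit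 123)) (XT.lf (nat_lit 76) (nat_lit 311860504267) (nat_lit 0) (nat_lit 156833634252) (nat_lit 532) (nat_lit 490712973970) (nat_lit 39) (nat_lit 5) (nat_lit 38) (nat_lit 5) (nat_lit 45) (nat_lit 5) (nat_lit 240) (nat_lit 238) (nat_lit 122)))))) (XT.nd (nat_lit 390) (nat_lit 912) (nat_lit 0) (XT.nd (nat_lit 156) (nat_lit 836) (nat_lit 0) (XT.nd (nat_lit 78) (nat_lit 0) (nat_lit 76) (XT.lf (nat_lit 76) (nat_lit 150702319251) (nat_lit 0) (nat_lit 436803461400) (nat_lit 532) (nat_lit 447546265083) (nat_lit 40) (nat_lit 5) (nat_lit 39) (nat_lit 5) (nat_lit 46) (nat_lit 5) (nat_lit 241) (nat_lit 238) (nat_lit 121)) (XT.lf (nat_lit 0) (nat_lit 755784195545) (nat_lit 456) (nat_lit 25425912018) (nat_lit 76) (nat_lit 338302009385) (nat_lit 40) (nat_lit 5) (nat_lit 46) (nat_lit 5) (nat_lit 41) (nat_lit 5) (nat_lit 242) (nat_lit 238) (nat_lit 120))) (XT.nd (nat_lit 78) (nat_lit 456) (nat_lit 0) (XT.lf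 (nat_lit 0) (nat_lit 985799550842) (nat_lit 532) (nat_lit 213813022464) (nat_lit 76) (nat_lit 14109011370) (nat_lit 34) (nat_lit 5) (nat_lit 41) (nat_lit 5) (nat_lit 35) (nat_lit 5) (nat_lit 243) (nat_lit 238) (nat_lit 119)) (XT.nd (nat_lit 78) (nat_lit 228) (nat_lit 0) (XT.lf (nat_lit 0) (nat_lit 881026605769) (nat_lit 228) (nat_lit 412845113794) (nat_lit 304) (nat_lit 24706392265) (nat_lit 31) (nat_lit 5) (nat_lit 34) (nat_lit 5) (nat_lit 35) (nat_lit 5) (nat_lit 244) (nat_lit 238) (nat_lit 118)) (XT.lf (nat_lit 0) (nat_lit 235471584054) (nat_lit 228) (nat_lit 702876152328) (nat_lit 76) (nat_lit 497458513935) (nat_lit 28) (nat_lit 5) (nat_lit 31) (nat_lit 5) (nat_lit 29) (nat_lit 5) (nat_lit 245) (nat_lit 238) (nat_lit 117))))) (XT.nd (nat_lit 234) (nat_lit 380) (nat_lit 0) (XT.nd (nat_lit 78) (nat_lit 304) (nat_lit 0) (XT.lf (nat_lit 0) (nat_lit 551012625719) (nat_lit 228) (nat_lit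 19982179120) (nat_lit 304) (nat_lit 996549951464) (nat_lit 25) (nat_lit 5) (nat_lit 28) (nat_lit 5) (nat_lit 29) (nat_lit 5) (nat_lit 246) (nat_lit 238) (nat_lit 116)) (XT.nd (nat_lit 78) (nat_lit 152) (nat_lit 0) (XT.lf (nat_lit 0) (nat_lit 308103717751) (nat_lit 152) (nat_lit 702066831551) (nat_lit 228) (nat_lit 704607565684) (nat_lit 23) (nat_lit 5) (nat_lit 25) (nat_lit 5) (nat_lit 26) (nat_lit 5) (nat_lit 247) (nat_lit 238) (nat_lit 115)) (XT.lf (nat_lit 0) (nat_lit 2504091738) (nat_lit 152) (nat_lit 1551259356154) (nat_lit 228) (nat_lit 327249766223) (nat_lit 21) (nat_lit 5) (nat_lit 23) (nat_lit 5) (nat_lit 24) (nat_lit 5) (nat_lit 248) (nat_lit 238) (nat_lit 114)))) (XT.nd (nat_lit 78) (nat_lit 304) (nat_lit 0) (XT.lf (nat_lit 0) (nat_lit 162808521168) (nat_lit 228) (nat_lit 383711592572) (nat_lit 76) (nat_lit 1520543353316) (nat_lit 20) (nat_lit 5) (nat_lit 23) (nat_lit 5) (nat_lit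 21) (nat_lit 5) (nat_lit 249) (nat_lit 238) (nat_lit 113)) (XT.nd (nat_lit 78) (nat_lit 152) (nat_lit 0) (XT.lf (nat_lit 0) (nat_lit 756877672933) (nat_lit 228) (nat_lit 897270222087) (nat_lit 76) (nat_lit 622203046689) (nat_lit 18) (nat_lit 5) (nat_lit 21) (nat_lit 5) (nat_lit 19) (nat_lit 5) (nat_lit 250) (nat_lit 238) (nat_lit 112)) (XT.lf (nat_lit 0) (nat_lit 945271178083) (nat_lit 152) (nat_lit 544096716178) (nat_lit 228) (nat_lit 1023718787580) (nat_lit 16) (nat_lit 5) (nat_lit 18) (nat_lit 5) (nat_lit 19) (nat_lit 5) (nat_lit 251) (nat_lit 238) (nat_lit 111))))))) (XT.nd (nat_lit 30732) (nat_lit 0) (nat_lit 76) (XT.nd (nat_lit 30342) (nat_lit 0) (nat_lit 1748) (XT.nd (nat_lit 156) (nat_lit 228) (nat_lit 0) (XT.nd (nat_lit 78) (nat_lit 76) (nat_lit 0) (XT.lf (nat_lit 0) (nat_lit 333684809745) (nat_lit 76) (nat_lit 2050489269538) (nat_lit 152) (nat_lit 396963309290) (nat_lit 15)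 (nat_lit 5) (nat_lit 16) (nat_lit 5) (nat_lit 17) (nat_lit 4) (nat_lit 252) (nat_lit 238) (nat_lit 110)) (XT.lf (nat_lit 0) (nat_lit 369486644541) (nat_lit 152) (nat_lit 494413268082) (nat_lit 76) (nat_lit 2219922449054) (nat_lit 14) (nat_lit 5) (nat_lit 16) (nat_lit 5) (nat_lit 15) (nat_lit 5) (nat_lit 253) (nat_lit 238) (nat_lit 109))) (XT.nd (nat_lit 78) (nat_lit 76) (nat_lit 0) (XT.lf (nat_lit 0) (nat_lit 1285604664945) (nat_lit 228) (nat_lit 1608717569460) (nat_lit 76) (nat_lit 532106569033) (nat_lit 12) (nat_lit 5) (nat_lit 15) (nat_lit 5) (nat_lit 13) (nat_lit 4) (nat_lit 254) (nat_lit 238) (nat_lit 108)) (XT.nd (nat_lit 30030) (nat_lit 0) (nat_lit 1976) (XT.lf (nat_lit 0) (nat_lit 697967866767) (nat_lit 76) (nat_lit 1696620184434) (nat_lit 152) (nat_lit 1421402347253) (nat_lit 11) (nat_lit 5) (nat_lit 12) (nat_lit 5) (nat_lit 13) (nat_lit 4) (nat_lit 255) (nat_lit 238) (nat_lit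 107)) (XT.lf (nat_lit 0) (nat_lit 203177084840) (nat_lit 532) (nat_lit 137095577660) (nat_lit 532) (nat_lit 137095577660) (nat_lit 37) (nat_lit 3) (nat_lit 44) (nat_lit 3) (nat_lit 44) (nat_lit 5) (nat_lit 239) (nat_lit 239) (nat_lit 122))))) (XT.nd (nat_lit 156) (nat_lit 304) (nat_lit 0) (XT.nd (nat_lit 78) (nat_lit 0) (nat_lit 0) (XT.lf (nat_lit 0) (nat_lit 451473572513) (nat_lit 456) (nat_lit 498037629311) (nat_lit 532) (nat_lit 75659086760) (nat_lit 38) (nat_lit 5) (nat_lit 44) (nat_lit 5) (nat_lit 45) (nat_lit 5) (nat_lit 240) (nat_lit 239) (nat_lit 121)) (XT.lf (nat_lit 76) (nat_lit 358639736014) (nat_lit 0) (nat_lit 180358749900) (nat_lit 532) (nat_lit 564319674258) (nat_lit 39) (nat_lit 5) (nat_lit 38) (nat_lit 5) (nat_lit 45) (nat_lit 5) (nat_lit 241) (nat_lit 239) (nat_lit 120))) (XT.nd (nat_lit 78) (nat_lit 380) (nat_lit 0) (XT.lf (nat_lit 76) (nat_lit 173307829149) (nat_lit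 0) (nat_lit 502324018079) (nat_lit 532) (nat_lit 514677988484) (nat_lit 40) (nat_lit 5) (nat_lit 39) (nat_lit 5) (nat_lit 46) (nat_lit 5) (nat_lit 242) (nat_lit 239) (nat_lit 119)) (XT.nd (nat_lit 78) (nat_lit 456) (nat_lit 0) (XT.lf (nat_lit 0) (nat_lit 869151997554) (nat_lit 456) (nat_lit 29239642478) (nat_lit 76) (nat_lit 389047279841) (nat_lit 40) (nat_lit 5) (nat_lit 46) (nat_lit 5) (nat_lit 41) (nat_lit 5) (nat_lit 243) (nat_lit 239) (nat_lit 118)) (XT.lf (nat_lit 0) (nat_lit 1133669636812) (nat_lit 532) (nat_lit 245884819488) (nat_lit 76) (nat_lit 16225353112) (nat_lit 34) (nat_lit 5) (nat_lit 41) (nat_lit 5) (nat_lit 35) (nat_lit 5) (nat_lit 244) (nat_lit 239) (nat_lit 117)))))) (XT.nd (nat_lit 390) (nat_lit 684) (nat_lit 0) (XT.nd (nat_lit 156) (nat_lit 532) (nat_lit 0) (XT.nd (nat_lit 78) (nat_lit 228) (nat_lit 0) (XT.lf (nat_lit 0) (nat_lit 1013180739747) (nat_lit 228) (nat_lit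 474771874536) (nat_lit 304) (nat_lit 28412202771) (nat_lit 31) (nat_lit 5) (nat_lit 34) (nat_lit 5) (nat_lit 35) (nat_lit 5) (nat_lit 245) (nat_lit 239) (nat_lit 116)) (XT.lf (nat_lit 0) (nat_lit 270792447821) (nat_lit 228) (nat_lit 808307426614) (nat_lit 76) (nat_lit 572077302848) (nat_lit 28) (nat_lit 5) (nat_lit 31) (nat_lit 5) (nat_lit 29) (nat_lit 5) (nat_lit 246) (nat_lit 239) (nat_lit 115))) (XT.nd (nat_lit 78) (nat_lit 304) (nat_lit 0) (XT.lf (nat_lit 0) (nat_lit 633664655564) (nat_lit 228) (nat_lit 22979482974) (nat_lit 304) (nat_lit 1146032321747) (nat_lit 25) (nat_lit 5) (nat_lit 28) (nat_lit 5) (nat_lit 29) (nat_lit 5) (nat_lit 247) (nat_lit 239) (nat_lit 114)) (XT.nd (nat_lit 78) (nat_lit 152) (nat_lit 0) (XT.lf (nat_lit 0) (nat_lit 354319408045) (nat_lit 152) (nat_lit 807376825562) (nat_lit 228) (nat_lit 810298590105) (nat_lit 23) (nat_lit 5) (nat_lit 25) (nat_lit 5) (nat_lit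 26) (nat_lit 5) (nat_lit 248) (nat_lit 239) (nat_lit 113)) (XT.lf (nat_lit 0) (nat_lit 2879834028) (nat_lit 152) (nat_lit 1783948223398) (nat_lit 228) (nat_lit 376337131097) (nat_lit 21) (nat_lit 5) (nat_lit 23) (nat_lit 5) (nat_lit 24) (nat_lit 5) (nat_lit 249) (nat_lit 239) (nat_lit 112))))) (XT.nd (nat_lit 234) (nat_lit 304) (nat_lit 0) (XT.nd (nat_lit 78) (nat_lit 304) (nat_lit 0) (XT.lf (nat_lit 0) (nat_lit 187229881999) (nat_lit 228) (nat_lit 441268215082) (nat_lit 76) (nat_lit 1748624883162) (nat_lit 20) (nat_lit 5) (nat_lit 23) (nat_lit 5) (nat_lit 21) (nat_lit 5) (nat_lit 250) (nat_lit 239) (nat_lit 111)) (XT.nd (nat_lit 78) (nat_lit 152) (nat_lit 0) (XT.lf (nat_lit 0) (nat_lit 870409399081) (nat_lit 228) (nat_lit 1031860643467) (nat_lit 76) (nat_lit 715533534176) (nat_lit 18) (nat_lit 5) (nat_lit 21) (nat_lit 5) (nat_lit 19) (nat_lit 5) (nat_lit 251) (nat_lit 239) (nat_lit 110))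 (XT.lf (nat_lit 0) (nat_lit 1087061957254) (nat_lit 152) (nat_lit 625711189008) (nat_lit 228) (nat_lit 1177276532230) (nat_lit 16) (nat_lit 5) (nat_lit 18) (nat_lit 5) (nat_lit 19) (nat_lit 5) (nat_lit 252) (nat_lit 239) (nat_lit 109)))) (XT.nd (nat_lit 78) (nat_lit 228) (nat_lit 0) (XT.lf (nat_lit 0) (nat_lit 383737629380) (nat_lit 76) (nat_lit 2358062623892) (nat_lit 152) (nat_lit 456507738450) (nat_lit 15) (nat_lit 5) (nat_lit 16) (nat_lit 5) (nat_lit 17) (nat_lit 4) (nat_lit 253) (nat_lit 239) (nat_lit 108)) (XT.nd (nat_lit 78) (nat_lit 152) (nat_lit 0) (XT.lf (nat_lit 0) (nat_lit 424909696761) (nat_lit 152) (nat_lit 568575169865) (nat_lit 76) (nat_lit 2552910844722) (nat_lit 14) (nat_lit 5) (nat_lit 16) (nat_lit 5) (nat_lit 15) (nat_lit 5) (nat_lit 254) (nat_lit 239) (nat_lit 107)) (XT.lf (nat_lit 0) (nat_lit 1478445415667) (nat_lit 228) (nat_lit 1850025120535) (nat_lit 76) (nat_lit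 611922583555) (nat_lit 12) (nat_lit 5) (nat_lit 15) (nat_lit 5) (nat_lit 13) (nat_lit 4) (nat_lit 255) (nat_lit 239) (nat_lit 106))))))))
noncomputable def xc62 : XT := (XT.nd (nat_lit 31824) (nat_lit 0) (nat_lit 76) (XT.nd (nat_lit 780) (nat_lit 608) (nat_lit 0) (XT.nd (nat_lit 390) (nat_lit 1064) (nat_lit 0) (XT.nd (nat_lit 156) (nat_lit 0) (nat_lit 76) (XT.nd (nat_lit 78) (nat_lit 0) (nat_lit 76) (XT.lf (nat_lit 0) (nat_lit 233653758656) (nat_lit 532) (nat_lit 157659854055) (nat_lit 532) (nat_lit 157659854055) (nat_lit 37) (nat_lit 3) (nat_lit 44) (nat_lit 3) (nat_lit 44) (nat_lit 5) (nat_lit 240) (nat_lit 240) (nat_lit 120)) (XT.lf (nat_lit 0) (nat_lit 519194802184) (nat_lit 456) (nat_lit 572743144753) (nat_lit 532) (nat_lit 87007868508) (nat_lit 38) (nat_lit 5) (nat_lit 44) (nat_lit 5) (nat_lit 45) (nat_lit 5) (nat_lit 241) (nat_lit 240) (nat_lit 119))) (XT.nd (nat_lit 78) (nat_lit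 0) (nat_lit 76) (XT.lf (nat_lit 76) (nat_lit 412435814455) (nat_lit 0) (nat_lit 207412615702) (nat_lit 532) (nat_lit 648967439531) (nat_lit 39) (nat_lit 5) (nat_lit 38) (nat_lit 5) (nat_lit 45) (nat_lit 5) (nat_lit 242) (nat_lit 240) (nat_lit 118)) (XT.nd (nat_lit 78) (nat_lit 0) (nat_lit 76) (XT.lf (nat_lit 76) (nat_lit 199304126026) (nat_lit 0) (nat_lit 577672649123) (nat_lit 532) (nat_lit 591879523157) (nat_lit 40) (nat_lit 5) (nat_lit 39) (nat_lit 5) (nat_lit 46) (nat_lit 5) (nat_lit 243) (nat_lit 240) (nat_lit 117)) (XT.lf (nat_lit 0) (nat_lit 999524927756) (nat_lit 456) (nat_lit 33625470633) (nat_lit 76) (nat_lit 447404348413) (nat_lit 40) (nat_lit 5) (nat_lit 46) (nat_lit 5) (nat_lit 41) (nat_lit 5) (nat_lit 244) (nat_lit 240) (nat_lit 116))))) (XT.nd (nat_lit 156) (nat_lit 608) (nat_lit 0) (XT.nd (nat_lit 78) (nat_lit 228) (nat_lit 0) (XT.lf (nat_lit 0) (nat_lit 1303720198284)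 (nat_lit 532) (nat_lit 282767424191) (nat_lit 76) (nat_lit 18659148546) (nat_lit 34) (nat_lit 5) (nat_lit 41) (nat_lit 5) (nat_lit 35) (nat_lit 5) (nat_lit 245) (nat_lit 240) (nat_lit 115)) (XT.lf (nat_lit 0) (nat_lit 1165157958922) (nat_lit 228) (nat_lit 545987650931) (nat_lit 304) (nat_lit 32673921025) (nat_lit 31) (nat_lit 5) (nat_lit 34) (nat_lit 5) (nat_lit 35) (nat_lit 5) (nat_lit 246) (nat_lit 240) (nat_lit 114))) (XT.nd (nat_lit 78) (nat_lit 380) (nat_lit 0) (XT.lf (nat_lit 0) (nat_lit 311411410389) (nat_lit 228) (nat_lit 929553428272) (nat_lit 76) (nat_lit 657888907215) (nat_lit 28) (nat_lit 5) (nat_lit 31) (nat_lit 5) (nat_lit 29) (nat_lit 5) (nat_lit 247) (nat_lit 240) (nat_lit 113)) (XT.nd (nat_lit 78) (nat_lit 152) (nat_lit 0) (XT.lf (nat_lit 0) (nat_lit 728714456725) (nat_lit 228) (nat_lit 26426388019) (nat_lit 304) (nat_lit 1317937077429) (nat_lit 25) (nat_lit 5) (nat_lit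 28) (nat_lit 5) (nat_lit 29) (nat_lit 5) (nat_lit 248) (nat_lit 240) (nat_lit 112)) (XT.lf (nat_lit 0) (nat_lit 407467419541) (nat_lit 152) (nat_lit 928483326165) (nat_lit 228) (nat_lit 931843295119) (nat_lit 23) (nat_lit 5) (nat_lit 25) (nat_lit 5) (nat_lit 26) (nat_lit 5) (nat_lit 249) (nat_lit 240) (nat_lit 111)))))) (XT.nd (nat_lit 30576) (nat_lit 0) (nat_lit 1444) (XT.nd (nat_lit 156) (nat_lit 380) (nat_lit 0) (XT.nd (nat_lit 78) (nat_lit 76) (nat_lit 0) (XT.lf (nat_lit 0) (nat_lit 3311906319) (nat_lit 152) (nat_lit 2051540429551) (nat_lit 228) (nat_lit 432787625103) (nat_lit 21) (nat_lit 5) (nat_lit 23) (nat_lit 5) (nat_lit 24) (nat_lit 5) (nat_lit 250) (nat_lit 240) (nat_lit 110)) (XT.lf (nat_lit 0) (nat_lit 215314426798) (nat_lit 228) (nat_lit 507458359348) (nat_lit 76) (nat_lit 2010918635938) (nat_lit 20) (nat_lit 5) (nat_lit 23) (nat_lit 5) (nat_lit 21) (nat_lit 5) (nat_lit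 251) (nat_lit 240) (nat_lit 109))) (XT.nd (nat_lit 78) (nat_lit 228) (nat_lit 0) (XT.lf (nat_lit 0) (nat_lit 1000970865812) (nat_lit 228) (nat_lit 1186639655349) (nat_lit 76) (nat_lit 822863587353) (nat_lit 18) (nat_lit 5) (nat_lit 21) (nat_lit 5) (nat_lit 19) (nat_lit 5) (nat_lit 252) (nat_lit 240) (nat_lit 108)) (XT.nd (nat_lit 78) (nat_lit 76) (nat_lit 0) (XT.lf (nat_lit 0) (nat_lit 1250121328316) (nat_lit 152) (nat_lit 719567841200) (nat_lit 228) (nat_lit 1353867956498) (nat_lit 16) (nat_lit 5) (nat_lit 18) (nat_lit 5) (nat_lit 19) (nat_lit 5) (nat_lit 253) (nat_lit 240) (nat_lit 107)) (XT.lf (nat_lit 0) (nat_lit 441298348020) (nat_lit 76) (nat_lit 2711771990196) (nat_lit 152) (nat_lit 524983848379) (nat_lit 15) (nat_lit 5) (nat_lit 16) (nat_lit 5) (nat_lit 17) (nat_lit 4) (nat_lit 254) (nat_lit 240) (nat_lit 106))))) (XT.nd (nat_lit 234) (nat_lit 228) (nat_lit 0) (XT.nd (nat_lit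 78) (nat_lit 0) (nat_lit 76) (XT.lf (nat_lit 0) (nat_lit 268701906453) (nat_lit 532) (nat_lit 181308786604) (nat_lit 532) (nat_lit 181308786604) (nat_lit 37) (nat_lit 3) (nat_lit 44) (nat_lit 3) (nat_lit 44) (nat_lit 5) (nat_lit 241) (nat_lit 241) (nat_lit 118)) (XT.nd (nat_lit 78) (nat_lit 0) (nat_lit 0) (XT.lf (nat_lit 0) (nat_lit 597074169047) (nat_lit 456) (nat_lit 658654518958) (nat_lit 532) (nat_lit 100058987336) (nat_lit 38) (nat_lit 5) (nat_lit 44) (nat_lit 5) (nat_lit 45) (nat_lit 5) (nat_lit 242) (nat_lit 241) (nat_lit 117)) (XT.lf (nat_lit 76) (nat_lit 474301275878) (nat_lit 0) (nat_lit 238524548372) (nat_lit 532) (nat_lit 746312414919) (nat_lit 39) (nat_lit 5) (nat_lit 38) (nat_lit 5) (nat_lit 45) (nat_lit 5) (nat_lit 243) (nat_lit 241) (nat_lit 116)))) (XT.nd (nat_lit 78) (nat_lit 380) (nat_lit 0) (XT.lf (nat_lit 76) (nat_lit 229199837560) (nat_lit 0) (nat_lit 664323567914)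 (nat_lit 532) (nat_lit 680661327925) (nat_lit 40) (nat_lit 5) (nat_lit 39) (nat_lit 5) (nat_lit 46) (nat_lit 5) (nat_lit 244) (nat_lit 241) (nat_lit 115)) (XT.nd (nat_lit 78) (nat_lit 456) (nat_lit 0) (XT.lf (nat_lit 0) (nat_lit 1149453765649) (nat_lit 456) (nat_lit 38669201839) (nat_lit 76) (nat_lit 514514982978) (nat_lit 40) (nat_lit 5) (nat_lit 46) (nat_lit 5) (nat_lit 41) (nat_lit 5) (nat_lit 245) (nat_lit 241) (nat_lit 114)) (XT.lf (nat_lit 0) (nat_lit 1499278315702) (nat_lit 532) (nat_lit 325182448429) (nat_lit 76) (nat_lit 21458015131) (nat_lit 34) (nat_lit 5) (nat_lit 41) (nat_lit 5) (nat_lit 35) (nat_lit 5) (nat_lit 246) (nat_lit 241) (nat_lit 113))))))) (XT.nd (nat_lit 31122) (nat_lit 0) (nat_lit 152) (XT.nd (nat_lit 390) (nat_lit 380) (nat_lit 0) (XT.nd (nat_lit 156) (nat_lit 532) (nat_lit 0) (XT.nd (nat_lit 78) (nat_lit 228) (nat_lit 0) (XT.lf (nat_lit 0) (nat_lit 1339931734585)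 (nat_lit 228) (nat_lit 627885794953) (nat_lit 304) (nat_lit 37574924369) (nat_lit 31) (nat_lit 5) (nat_lit 34) (nat_lit 5) (nat_lit 35) (nat_lit 5) (nat_lit 247) (nat_lit 241) (nat_lit 112)) (XT.lf (nat_lit 0) (nat_lit 358123194079) (nat_lit 228) (nat_lit 1068986357572) (nat_lit 76) (nat_lit 756572250057) (nat_lit 28) (nat_lit 5) (nat_lit 31) (nat_lit 5) (nat_lit 29) (nat_lit 5) (nat_lit 248) (nat_lit 241) (nat_lit 111))) (XT.nd (nat_lit 78) (nat_lit 304) (nat_lit 0) (XT.lf (nat_lit 0) (nat_lit 838021702985) (nat_lit 228) (nat_lit 30390333064) (nat_lit 304) (nat_lit 1515627569040) (nat_lit 25) (nat_lit 5) (nat_lit 28) (nat_lit 5) (nat_lit 29) (nat_lit 5) (nat_lit 249) (nat_lit 241) (nat_lit 110)) (XT.nd (nat_lit 78) (nat_lit 152) (nat_lit 0) (XT.lf (nat_lit 0) (nat_lit 468587608305) (nat_lit 152) (nat_lit 1067755807524) (nat_lit 228) (nat_lit 1071619726247) (nat_lit 23) (nat_lit 5) (nat_lit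 25) (nat_lit 5) (nat_lit 26) (nat_lit 5) (nat_lit 250) (nat_lit 241) (nat_lit 109)) (XT.lf (nat_lit 0) (nat_lit 3808765755) (nat_lit 152) (nat_lit 2359271473298) (nat_lit 228) (nat_lit 497705711659) (nat_lit 21) (nat_lit 5) (nat_lit 23) (nat_lit 5) (nat_lit 24) (nat_lit 5) (nat_lit 251) (nat_lit 241) (nat_lit 108))))) (XT.nd (nat_lit 30498) (nat_lit 0) (nat_lit 1596) (XT.nd (nat_lit 156) (nat_lit 304) (nat_lit 0) (XT.lf (nat_lit 0) (nat_lit 247611638077) (nat_lit 228) (nat_lit 583577046712) (nat_lit 76) (nat_lit 2312556446680) (nat_lit 20) (nat_lit 5) (nat_lit 23) (nat_lit 5) (nat_lit 21) (nat_lit 5) (nat_lit 252) (nat_lit 241) (nat_lit 107)) (XT.lf (nat_lit 0) (nat_lit 1437639586145) (nat_lit 152) (nat_lit 827502997600) (nat_lit 228) (nat_lit 1556948107956) (nat_lit 16) (nat_lit 5) (nat_lit 18) (nat_lit 5) (nat_lit 19) (nat_lit 5) (nat_lit 254) (nat_lit 241) (nat_lit 105))) (XT.nd (nat_lit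 78) (nat_lit 0) (nat_lit 76) (XT.lf (nat_lit 0) (nat_lit 309007255937) (nat_lit 532) (nat_lit 208505070144) (nat_lit 532) (nat_lit 208505070144) (nat_lit 37) (nat_lit 3) (nat_lit 44) (nat_lit 3) (nat_lit 44) (nat_lit 5) (nat_lit 242) (nat_lit 242) (nat_lit 116)) (XT.nd (nat_lit 78) (nat_lit 0) (nat_lit 0) (XT.lf (nat_lit 0) (nat_lit 686635405206) (nat_lit 456) (nat_lit 757452623072) (nat_lit 532) (nat_lit 115067788973) (nat_lit 38) (nat_lit 5) (nat_lit 44) (nat_lit 5) (nat_lit 45) (nat_lit 5) (nat_lit 243) (nat_lit 242) (nat_lit 115)) (XT.lf (nat_lit 76) (nat_lit 545446534749) (nat_lit 0) (nat_lit 274303261111) (nat_lit 532) (nat_lit 858259170888) (nat_lit 39) (nat_lit 5) (nat_lit 38) (nat_lit 5) (nat_lit 45) (nat_lit 5) (nat_lit 244) (nat_lit 242) (nat_lit 114)))))) (XT.nd (nat_lit 390) (nat_lit 760) (nat_lit 0) (XT.nd (nat_lit 156) (nat_lit 836) (nat_lit 0) (XT.nd (nat_lit 78) (nat_lit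 0) (nat_lit 76) (XT.lf (nat_lit 76) (nat_lit 263579883236) (nat_lit 0) (nat_lit 763972119300) (nat_lit 532) (nat_lit 782760433575) (nat_lit 40) (nat_lit 5) (nat_lit 39) (nat_lit 5) (nat_lit 46) (nat_lit 5) (nat_lit 245) (nat_lit 242) (nat_lit 113)) (XT.lf (nat_lit 0) (nat_lit 1321871905149) (nat_lit 456) (nat_lit 44469514524) (nat_lit 76) (nat_lit 591692217044) (nat_lit 40) (nat_lit 5) (nat_lit 46) (nat_lit 5) (nat_lit 41) (nat_lit 5) (nat_lit 246) (nat_lit 242) (nat_lit 112))) (XT.nd (nat_lit 78) (nat_lit 456) (nat_lit 0) (XT.lf (nat_lit 0) (nat_lit 1724170129352) (nat_lit 532) (nat_lit 373959748101) (nat_lit 76) (nat_lit 24676713094) (nat_lit 34) (nat_lit 5) (nat_lit 41) (nat_lit 5) (nat_lit 35) (nat_lit 5) (nat_lit 247) (nat_lit 242) (nat_lit 111)) (XT.nd (nat_lit 78) (nat_lit 228) (nat_lit 0) (XT.lf (nat_lit 0) (nat_lit 1540921556644) (nat_lit 228) (nat_lit 722068661460) (nat_lit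 304) (nat_lit 43211098895) (nat_lit 31) (nat_lit 5) (nat_lit 34) (nat_lit 5) (nat_lit 35) (nat_lit 5) (nat_lit 248) (nat_lit 242) (nat_lit 110)) (XT.lf (nat_lit 0) (nat_lit 411841727733) (nat_lit 228) (nat_lit 1229334246980) (nat_lit 76) (nat_lit 870058092677) (nat_lit 28) (nat_lit 5) (nat_lit 31) (nat_lit 5) (nat_lit 29) (nat_lit 5) (nat_lit 249) (nat_lit 242) (nat_lit 109))))) (XT.nd (nat_lit 312) (nat_lit 228) (nat_lit 0) (XT.nd (nat_lit 78) (nat_lit 304) (nat_lit 0) (XT.lf (nat_lit 0) (nat_lit 963725017224) (nat_lit 228) (nat_lit 34948873074) (nat_lit 304) (nat_lit 1742971651464) (nat_lit 25) (nat_lit 5) (nat_lit 28) (nat_lit 5) (nat_lit 29) (nat_lit 5) (nat_lit 250) (nat_lit 242) (nat_lit 108)) (XT.nd (nat_lit 78) (nat_lit 152) (nat_lit 0) (XT.lf (nat_lit 0) (nat_lit 538875806891) (nat_lit 152) (nat_lit 1227919165371) (nat_lit 228) (nat_lit 1232362637442) (nat_lit 23) (nat_lit 5)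 (nat_lit 25) (nat_lit 5) (nat_lit 26) (nat_lit 5) (nat_lit 251) (nat_lit 242) (nat_lit 107)) (XT.lf (nat_lit 0) (nat_lit 4380136185) (nat_lit 152) (nat_lit 2713162178651) (nat_lit 228) (nat_lit 572361525149) (nat_lit 21) (nat_lit 5) (nat_lit 23) (nat_lit 5) (nat_lit 24) (nat_lit 5) (nat_lit 252) (nat_lit 242) (nat_lit 106)))) (XT.nd (nat_lit 30420) (nat_lit 0) (nat_lit 1444) (XT.lf (nat_lit 0) (nat_lit 1323784052002) (nat_lit 228) (nat_lit 1569330822209) (nat_lit 76) (nat_lit 1088237127497) (nat_lit 18) (nat_lit 5) (nat_lit 21) (nat_lit 5) (nat_lit 19) (nat_lit 5) (nat_lit 254) (nat_lit 242) (nat_lit 104)) (XT.nd (nat_lit 78) (nat_lit 0) (nat_lit 76) (XT.lf (nat_lit 0) (nat_lit 355358392354) (nat_lit 532) (nat_lit 239780804617) (nat_lit 532) (nat_lit 239780804617) (nat_lit 37) (nat_lit 3) (nat_lit 44) (nat_lit 3) (nat_lit 44) (nat_lit 5) (nat_lit 243) (nat_lit 243) (nat_lit 114)) (XT.lf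 (nat_lit 0) (nat_lit 789630799770) (nat_lit 456) (nat_lit 871070460783) (nat_lit 532) (nat_lit 132327922186) (nat_lit 38) (nat_lit 5) (nat_lit 44) (nat_lit 5) (nat_lit 45) (nat_lit 5) (nat_lit 244) (nat_lit 243) (nat_lit 113))))))))
noncomputable def xc63 : XT := (XT.nd (nat_lit 62790) (nat_lit 0) (nat_lit 760) (XT.nd (nat_lit 31278) (nat_lit 0) (nat_lit 152) (XT.nd (nat_lit 390) (nat_lit 760) (nat_lit 0) (XT.nd (nat_lit 156) (nat_lit 532) (nat_lit 0) (XT.nd (nat_lit 78) (nat_lit 0) (nat_lit 76) (XT.lf (nat_lit 76) (nat_lit 627263565993) (nat_lit 0) (nat_lit 315448773328) (nat_lit 532) (nat_lit 986997966166) (nat_lit 39) (nat_lit 5) (nat_lit 38) (nat_lit 5) (nat_lit 45) (nat_lit 5) (nat_lit 245) (nat_lit 243) (nat_lit 112)) (XT.lf (nat_lit 76) (nat_lit 303116918683) (nat_lit 0) (nat_lit 878567949444) (nat_lit 532) (nat_lit 900174427883) (nat_lit 40) (nat_lit 5) (nat_lit 39) (nat_lit 5)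 (nat_lit 46) (nat_lit 5) (nat_lit 246) (nat_lit 243) (nat_lit 111))) (XT.nd (nat_lit 78) (nat_lit 684) (nat_lit 0) (XT.lf (nat_lit 0) (nat_lit 1520152747370) (nat_lit 456) (nat_lit 51139890594) (nat_lit 76) (nat_lit 680446039482) (nat_lit 40) (nat_lit 5) (nat_lit 46) (nat_lit 5) (nat_lit 41) (nat_lit 5) (nat_lit 247) (nat_lit 243) (nat_lit 110)) (XT.nd (nat_lit 78) (nat_lit 228) (nat_lit 0) (XT.lf (nat_lit 0) (nat_lit 1982795698883) (nat_lit 532) (nat_lit 430053659206) (nat_lit 76) (nat_lit 28378216801) (nat_lit 34) (nat_lit 5) (nat_lit 41) (nat_lit 5) (nat_lit 35) (nat_lit 5) (nat_lit 248) (nat_lit 243) (nat_lit 109)) (XT.lf (nat_lit 0) (nat_lit 1772059836925) (nat_lit 228) (nat_lit 830378958611) (nat_lit 304) (nat_lit 49692715239) (nat_lit 31) (nat_lit 5) (nat_lit 34) (nat_lit 5) (nat_lit 35) (nat_lit 5) (nat_lit 249) (nat_lit 243) (nat_lit 108))))) (XT.nd (nat_lit 156) (nat_lit 304)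 (nat_lit 0) (XT.nd (nat_lit 78) (nat_lit 228) (nat_lit 0) (XT.lf (nat_lit 0) (nat_lit 473618028134) (nat_lit 228) (nat_lit 1413734335461) (nat_lit 76) (nat_lit 1000566810443) (nat_lit 28) (nat_lit 5) (nat_lit 31) (nat_lit 5) (nat_lit 29) (nat_lit 5) (nat_lit 250) (nat_lit 243) (nat_lit 107)) (XT.lf (nat_lit 0) (nat_lit 1108283814263) (nat_lit 228) (nat_lit 40191196512) (nat_lit 304) (nat_lit 2004417359158) (nat_lit 25) (nat_lit 5) (nat_lit 28) (nat_lit 5) (nat_lit 29) (nat_lit 5) (nat_lit 251) (nat_lit 243) (nat_lit 106))) (XT.nd (nat_lit 78) (nat_lit 152) (nat_lit 0) (XT.lf (nat_lit 0) (nat_lit 619707221283) (nat_lit 152) (nat_lit 1412107030133) (nat_lit 228) (nat_lit 1417216996958) (nat_lit 23) (nat_lit 5) (nat_lit 25) (nat_lit 5) (nat_lit 26) (nat_lit 5) (nat_lit 252) (nat_lit 243) (nat_lit 105)) (XT.nd (nat_lit 30576) (nat_lit 0) (nat_lit 1216) (XT.lf (nat_lit 0) (nat_lit 5037198629)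 (nat_lit 152) (nat_lit 3120136493622) (nat_lit 228) (nat_lit 658215721212) (nat_lit 21) (nat_lit 5) (nat_lit 23) (nat_lit 5) (nat_lit 24) (nat_lit 5) (nat_lit 253) (nat_lit 243) (nat_lit 104)) (XT.lf (nat_lit 0) (nat_lit 408662187522) (nat_lit 532) (nat_lit 275747905613) (nat_lit 532) (nat_lit 275747905613) (nat_lit 37) (nat_lit 3) (nat_lit 44) (nat_lit 3) (nat_lit 44) (nat_lit 5) (nat_lit 244) (nat_lit 244) (nat_lit 112)))))) (XT.nd (nat_lit 390) (nat_lit 836) (nat_lit 0) (XT.nd (nat_lit 156) (nat_lit 304) (nat_lit 0) (XT.nd (nat_lit 78) (nat_lit 0) (nat_lit 0) (XT.lf (nat_lit 0) (nat_lit 908075483087) (nat_lit 456) (nat_lit 1001730987745) (nat_lit 532) (nat_lit 152177083948) (nat_lit 38) (nat_lit 5) (nat_lit 44) (nat_lit 5) (nat_lit 45) (nat_lit 5) (nat_lit 245) (nat_lit 244) (nat_lit 111)) (XT.lf (nat_lit 76) (nat_lit 721353139479) (nat_lit 0) (nat_lit 362766106756) (nat_lit 532) (nat_lit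 1135047600331) (nat_lit 39) (nat_lit 5) (nat_lit 38) (nat_lit 5) (nat_lit 45) (nat_lit 5) (nat_lit 246) (nat_lit 244) (nat_lit 110))) (XT.nd (nat_lit 78) (nat_lit 380) (nat_lit 0) (XT.lf (nat_lit 76) (nat_lit 348584496532) (nat_lit 0) (nat_lit 1010353151123) (nat_lit 532) (nat_lit 1035200538584) (nat_lit 40) (nat_lit 5) (nat_lit 39) (nat_lit 5) (nat_lit 46) (nat_lit 5) (nat_lit 247) (nat_lit 244) (nat_lit 109)) (XT.nd (nat_lit 78) (nat_lit 456) (nat_lit 0) (XT.lf (nat_lit 0) (nat_lit 1748175702159) (nat_lit 456) (nat_lit 58810835538) (nat_lit 76) (nat_lit 782512937754) (nat_lit 40) (nat_lit 5) (nat_lit 46) (nat_lit 5) (nat_lit 41) (nat_lit 5) (nat_lit 248) (nat_lit 244) (nat_lit 108)) (XT.lf (nat_lit 0) (nat_lit 2280215091619) (nat_lit 532) (nat_lit 494561669441) (nat_lit 76) (nat_lit 32634946859) (nat_lit 34) (nat_lit 5) (nat_lit 41) (nat_lit 5) (nat_lit 35) (nat_lit 5) (nat_lit 249)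 (nat_lit 244) (nat_lit 107))))) (XT.nd (nat_lit 30888) (nat_lit 0) (nat_lit 1064) (XT.nd (nat_lit 78) (nat_lit 608) (nat_lit 0) (XT.lf (nat_lit 0) (nat_lit 2037868847838) (nat_lit 228) (nat_lit 954935800839) (nat_lit 304) (nat_lit 57146585859) (nat_lit 31) (nat_lit 5) (nat_lit 34) (nat_lit 5) (nat_lit 35) (nat_lit 5) (nat_lit 250) (nat_lit 244) (nat_lit 106)) (XT.nd (nat_lit 156) (nat_lit 380) (nat_lit 0) (XT.lf (nat_lit 0) (nat_lit 544660763539) (nat_lit 228) (nat_lit 1625794449058) (nat_lit 76) (nat_lit 1150651834932) (nat_lit 28) (nat_lit 5) (nat_lit 31) (nat_lit 5) (nat_lit 29) (nat_lit 5) (nat_lit 251) (nat_lit 244) (nat_lit 105)) (XT.lf (nat_lit 0) (nat_lit 712663337260) (nat_lit 152) (nat_lit 1623923077059) (nat_lit 228) (nat_lit 1629799519205) (nat_lit 23) (nat_lit 5) (nat_lit 25) (nat_lit 5) (nat_lit 26) (nat_lit 5) (nat_lit 253) (nat_lit 244) (nat_lit 103)))) (XT.nd (nat_lit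 78) (nat_lit 0) (nat_lit 76) (XT.lf (nat_lit 0) (nat_lit 469961543110) (nat_lit 532) (nat_lit 317110076561) (nat_lit 532) (nat_lit 317110076561) (nat_lit 37) (nat_lit 3) (nat_lit 44) (nat_lit 3) (nat_lit 44) (nat_lit 5) (nat_lit 245) (nat_lit 245) (nat_lit 110)) (XT.nd (nat_lit 78) (nat_lit 0) (nat_lit 0) (XT.lf (nat_lit 0) (nat_lit 1044286853453) (nat_lit 456) (nat_lit 1151990604031) (nat_lit 532) (nat_lit 175003626452) (nat_lit 38) (nat_lit 5) (nat_lit 44) (nat_lit 5) (nat_lit 45) (nat_lit 5) (nat_lit 246) (nat_lit 245) (nat_lit 109)) (XT.lf (nat_lit 76) (nat_lit 829556139579) (nat_lit 0) (nat_lit 417181035948) (nat_lit 532) (nat_lit 1305304694438) (nat_lit 39) (nat_lit 5) (nat_lit 38) (nat_lit 5) (nat_lit 45) (nat_lit 5) (nat_lit 247) (nat_lit 245) (nat_lit 108))))))) (XT.nd (nat_lit 62478) (nat_lit 0) (nat_lit 228) (XT.nd (nat_lit 31200) (nat_lit 0) (nat_lit 0) (XT.nd (nat_lit 156)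 (nat_lit 608) (nat_lit 0) (XT.nd (nat_lit 78) (nat_lit 0) (nat_lit 76) (XT.lf (nat_lit 76) (nat_lit 400872201293) (nat_lit 0) (nat_lit 1161906130794) (nat_lit 532) (nat_lit 1190480578932) (nat_lit 40) (nat_lit 5) (nat_lit 39) (nat_lit 5) (nat_lit 46) (nat_lit 5) (nat_lit 248) (nat_lit 245) (nat_lit 107)) (XT.lf (nat_lit 0) (nat_lit 2010402089758) (nat_lit 456) (nat_lit 67632431648) (nat_lit 76) (nat_lit 899889872632) (nat_lit 40) (nat_lit 5) (nat_lit 46) (nat_lit 5) (nat_lit 41) (nat_lit 5) (nat_lit 249) (nat_lit 245) (nat_lit 106))) (XT.nd (nat_lit 78) (nat_lit 228) (nat_lit 0) (XT.lf (nat_lit 0) (nat_lit 2622247384024) (nat_lit 532) (nat_lit 568745890634) (nat_lit 76) (nat_lit 37530187026) (nat_lit 34) (nat_lit 5) (nat_lit 41) (nat_lit 5) (nat_lit 35) (nat_lit 5) (nat_lit 250) (nat_lit 245) (nat_lit 105)) (XT.nd (nat_lit 30888) (nat_lit 0) (nat_lit 456) (XT.lf (nat_lit 0) (nat_lit 2343549201763)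 (nat_lit 228) (nat_lit 1098176169782) (nat_lit 304) (nat_lit 65718546014) (nat_lit 31) (nat_lit 5) (nat_lit 34) (nat_lit 5) (nat_lit 35) (nat_lit 5) (nat_lit 251) (nat_lit 245) (nat_lit 104)) (XT.lf (nat_lit 0) (nat_lit 540455795340) (nat_lit 532) (nat_lit 364676576783) (nat_lit 532) (nat_lit 364676576783) (nat_lit 37) (nat_lit 3) (nat_lit 44) (nat_lit 3) (nat_lit 44) (nat_lit 5) (nat_lit 246) (nat_lit 246) (nat_lit 108))))) (XT.nd (nat_lit 234) (nat_lit 532) (nat_lit 0) (XT.nd (nat_lit 78) (nat_lit 0) (nat_lit 0) (XT.lf (nat_lit 0) (nat_lit 1200929917692) (nat_lit 456) (nat_lit 1324789170533) (nat_lit 532) (nat_lit 201254155231) (nat_lit 38) (nat_lit 5) (nat_lit 44) (nat_lit 5) (nat_lit 45) (nat_lit 5) (nat_lit 247) (nat_lit 246) (nat_lit 107)) (XT.nd (nat_lit 78) (nat_lit 0) (nat_lit 76) (XT.lf (nat_lit 76) (nat_lit 953989582578) (nat_lit 0) (nat_lit 479758201306) (nat_lit 532) (nat_lit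 1501100363864) (nat_lit 39) (nat_lit 5) (nat_lit 38) (nat_lit 5) (nat_lit 45) (nat_lit 5) (nat_lit 248) (nat_lit 246) (nat_lit 106)) (XT.lf (nat_lit 76) (nat_lit 461003054384) (nat_lit 0) (nat_lit 1336192055709) (nat_lit 532) (nat_lit 1369052635194) (nat_lit 40) (nat_lit 5) (nat_lit 39) (nat_lit 5) (nat_lit 46) (nat_lit 5) (nat_lit 249) (nat_lit 246) (nat_lit 105)))) (XT.nd (nat_lit 78) (nat_lit 684) (nat_lit 0) (XT.lf (nat_lit 0) (nat_lit 2311962427626) (nat_lit 456) (nat_lit 77777274299) (nat_lit 76) (nat_lit 1034873349152) (nat_lit 40) (nat_lit 5) (nat_lit 46) (nat_lit 5) (nat_lit 41) (nat_lit 5) (nat_lit 250) (nat_lit 246) (nat_lit 104)) (XT.nd (nat_lit 78) (nat_lit 228) (nat_lit 0) (XT.lf (nat_lit 0) (nat_lit 3015584513299) (nat_lit 532) (nat_lit 654057752134) (nat_lit 76) (nat_lit 43159713672) (nat_lit 34) (nat_lit 5) (nat_lit 41) (nat_lit 5) (nat_lit 35) (nat_lit 5) (nat_lit 251)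 (nat_lit 246) (nat_lit 103)) (XT.lf (nat_lit 0) (nat_lit 2695081602253) (nat_lit 228) (nat_lit 1262902594355) (nat_lit 304) (nat_lit 75576306952) (nat_lit 31) (nat_lit 5) (nat_lit 34) (nat_lit 5) (nat_lit 35) (nat_lit 5) (nat_lit 252) (nat_lit 246) (nat_lit 102)))))) (XT.nd (nat_lit 31356) (nat_lit 0) (nat_lit 228) (XT.nd (nat_lit 156) (nat_lit 228) (nat_lit 0) (XT.nd (nat_lit 78) (nat_lit 0) (nat_lit 76) (XT.lf (nat_lit 0) (nat_lit 621524180342) (nat_lit 532) (nat_lit 419378054785) (nat_lit 532) (nat_lit 419378054785) (nat_lit 37) (nat_lit 3) (nat_lit 44) (nat_lit 3) (nat_lit 44) (nat_lit 5) (nat_lit 247) (nat_lit 247) (nat_lit 106)) (XT.lf (nat_lit 0) (nat_lit 1381069432735) (nat_lit 456) (nat_lit 1523507527888) (nat_lit 532) (nat_lit 231442267031) (nat_lit 38) (nat_lit 5) (nat_lit 44) (nat_lit 5) (nat_lit 45) (nat_lit 5) (nat_lit 248) (nat_lit 247) (nat_lit 105))) (XT.nd (nat_lit 78)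 (nat_lit 304) (nat_lit 0) (XT.lf (nat_lit 76) (nat_lit 1097088036647) (nat_lit 0) (nat_lit 551721939037) (nat_lit 532) (nat_lit 1726265392176) (nat_lit 39) (nat_lit 5) (nat_lit 38) (nat_lit 5) (nat_lit 45) (nat_lit 5) (nat_lit 249) (nat_lit 247) (nat_lit 104)) (XT.nd (nat_lit 156) (nat_lit 380) (nat_lit 0) (XT.lf (nat_lit 76) (nat_lit 530153529855) (nat_lit 0) (nat_lit 1536620868070) (nat_lit 532) (nat_lit 1574410507352) (nat_lit 40) (nat_lit 5) (nat_lit 39) (nat_lit 5) (nat_lit 46) (nat_lit 5) (nat_lit 250) (nat_lit 247) (nat_lit 103)) (XT.lf (nat_lit 0) (nat_lit 3467922206681) (nat_lit 532) (nat_lit 752166398246) (nat_lit 76) (nat_lit 49633669658) (nat_lit 34) (nat_lit 5) (nat_lit 41) (nat_lit 5) (nat_lit 35) (nat_lit 5) (nat_lit 252) (nat_lit 247) (nat_lit 101))))) (XT.nd (nat_lit 234) (nat_lit 0) (nat_lit 76) (XT.nd (nat_lit 78) (nat_lit 0) (nat_lit 76) (XT.lf (nat_lit 0) (nat_lit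 714752819264) (nat_lit 532) (nat_lit 482284756564) (nat_lit 532) (nat_lit 482284756564) (nat_lit 37) (nat_lit 3) (nat_lit 44) (nat_lit 3) (nat_lit 44) (nat_lit 5) (nat_lit 248) (nat_lit 248) (nat_lit 104)) (XT.nd (nat_lit 78) (nat_lit 0) (nat_lit 0) (XT.lf (nat_lit 0) (nat_lit 1588229868355) (nat_lit 456) (nat_lit 1752033643291) (nat_lit 532) (nat_lit 266158598401) (nat_lit 38) (nat_lit 5) (nat_lit 44) (nat_lit 5) (nat_lit 45) (nat_lit 5) (nat_lit 249) (nat_lit 248) (nat_lit 103)) (XT.lf (nat_lit 76) (nat_lit 1261651254758) (nat_lit 0) (nat_lit 634480235590) (nat_lit 532) (nat_lit 1985205181140) (nat_lit 39) (nat_lit 5) (nat_lit 38) (nat_lit 5) (nat_lit 45) (nat_lit 5) (nat_lit 250) (nat_lit 248) (nat_lit 102)))) (XT.nd (nat_lit 31200) (nat_lit 76) (nat_lit 0) (XT.lf (nat_lit 76) (nat_lit 609676572425) (nat_lit 0) (nat_lit 1767114001308) (nat_lit 532) (nat_lit 1810572065972) (nat_lit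 40) (nat_lit 5) (nat_lit 39) (nat_lit 5) (nat_lit 46) (nat_lit 5) (nat_lit 251) (nat_lit 248) (nat_lit 101)) (XT.nd (nat_lit 78) (nat_lit 0) (nat_lit 0) (XT.lf (nat_lit 0) (nat_lit 1826464364268) (nat_lit 456) (nat_lit 2014838679364) (nat_lit 532) (nat_lit 306082381595) (nat_lit 38) (nat_lit 5) (nat_lit 44) (nat_lit 5) (nat_lit 45) (nat_lit 5) (nat_lit 250) (nat_lit 249) (nat_lit 101)) (XT.lf (nat_lit 76) (nat_lit 1450898952510) (nat_lit 0) (nat_lit 729652275237) (nat_lit 532) (nat_lit 2282985943292) (nat_lit 39) (nat_lit 5) (nat_lit 38) (nat_lit 5) (nat_lit 45) (nat_lit 5) (nat_lit 251) (nat_lit 249) (nat_lit 100))))))))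

set_option maxRecDepth 10000000 in
noncomputable def Tp : PT := (PT.nd (nat_lit 3167190) (PT.nd (nat_lit 3041922) pc0 pc1) (PT.nd (nat_lit 93210) pc2 pc3))

set_option maxRecDepth 10000000 in
noncomputable def Tx : XT := (XT.nd (nat_lit 5275296) (nat_lit 0) (nat_lit 76) XT.nil (XT.nd (nat_lit 2532582) (nat_lit 0) (nat_lit 0) (XT.nd (nat_lit 1156662) (nat_lit 0) (nat_lit 0) (XT.nd (nat_lit 810498) (nat_lit 0) (nat_lit 0) (XT.nd (nat_lit 561990) (nat_lit 0) (nat_lit 0) (XT.nd (nat_lit 404898) (nat_lit 0) (nat_lit 0) (XT.nd (nat_lit 280332) (nat_lit 0) (nat_lit 0) (XT.nd (nat_lit 187200) (nat_lit 0) (nat_lit 0) xc0 xc1) (XT.nd (nat_lit 62556) (nat_lit 0) (nat_lit 0) xc2 xc3)) (XT.nd (nat_lit 93366) (nat_lit 0) (nat_lit 0) (XT.nd (nat_lit 32370) (nat_lit 0) (nat_lit 0) xc4 xc5) (XT.nd (nat_lit 31902) (nat_lit 0) (nat_lit 0) xc6 xc7))) (XT.nd (nat_lit 125502) (nat_lit 0) (nat_lit 0) (XT.nd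 (nat_lit 63024) (nat_lit 0) (nat_lit 0) (XT.nd (nat_lit 31590) (nat_lit 0) (nat_lit 0) xc8 xc9) (XT.nd (nat_lit 31278) (nat_lit 0) (nat_lit 0) xc10 xc11)) (XT.nd (nat_lit 61776) (nat_lit 0) (nat_lit 0) (XT.nd (nat_lit 30966) (nat_lit 0) (nat_lit 0) xc12 xc13) (XT.nd (nat_lit 30654) (nat_lit 0) (nat_lit 0) xc14 xc15)))) (XT.nd (nat_lit 186810) (nat_lit 0) (nat_lit 0) (XT.nd (nat_lit 94068) (nat_lit 0) (nat_lit 0) (XT.nd (nat_lit 33618) (nat_lit 0) (nat_lit 0) (XT.nd (nat_lit 30342) (nat_lit 0) (nat_lit 0) xc16 xc17) (XT.nd (nat_lit 30264) (nat_lit 0) (nat_lit 0) xc18 xc19)) (XT.nd (nat_lit 33228) (nat_lit 0) (nat_lit 0) (XT.nd (nat_lit 29952) (nat_lit 0) (nat_lit 0) xc20 xc21) (XT.nd (nat_lit 29796) (nat_lit 0) (nat_lit 0) xc22 xc23))) (XT.nd (nat_lit 92742) (nat_lit 0) (nat_lit 0) (XT.nd (nat_lit 32994) (nat_lit 0) (nat_lit 0) (XT.nd (nat_lit 3276) (nat_lit 0) (nat_lit 0) xc24 xc25) (XT.nd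 (nat_lit 29796) (nat_lit 0) (nat_lit 0) xc26 xc27)) (XT.nd (nat_lit 33228) (nat_lit 0) (nat_lit 0) (XT.nd (nat_lit 3276) (nat_lit 76) (nat_lit 0) xc28 xc29) (XT.nd (nat_lit 30030) (nat_lit 0) (nat_lit 0) xc30 xc31))))) (XT.nd (nat_lit 436956) (nat_lit 0) (nat_lit 76) (XT.nd (nat_lit 216294) (nat_lit 0) (nat_lit 0) (XT.nd (nat_lit 94068) (nat_lit 0) (nat_lit 0) (XT.nd (nat_lit 60372) (nat_lit 0) (nat_lit 0) (XT.nd (nat_lit 30108) (nat_lit 0) (nat_lit 0) xc32 xc33) (XT.nd (nat_lit 30342) (nat_lit 0) (nat_lit 0) xc34 xc35)) (XT.nd (nat_lit 60918) (nat_lit 0) (nat_lit 0) (XT.nd (nat_lit 30420) (nat_lit 0) (nat_lit 0) xc36 xc37) (XT.nd (nat_lit 30576) (nat_lit 0) (nat_lit 0) xc38 xc39))) (XT.nd (nat_lit 95940) (nat_lit 0) (nat_lit 76) (XT.nd (nat_lit 34008) (nat_lit 0) (nat_lit 76) (XT.nd (nat_lit 30732) (nat_lit 0) (nat_lit 76) xc40 xc41) (XT.nd (nat_lit 30888) (nat_lit 0) (nat_lit 0) xc42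 xc43)) (XT.nd (nat_lit 62166) (nat_lit 0) (nat_lit 0) (XT.nd (nat_lit 31044) (nat_lit 0) (nat_lit 0) xc44 xc45) (XT.nd (nat_lit 31200) (nat_lit 0) (nat_lit 0) xc46 xc47)))) (XT.nd (nat_lit 311688) (nat_lit 0) (nat_lit 152) (XT.nd (nat_lit 126204) (nat_lit 0) (nat_lit 0) (XT.nd (nat_lit 62868) (nat_lit 0) (nat_lit 0) (XT.nd (nat_lit 31356) (nat_lit 0) (nat_lit 0) xc48 xc49) (XT.nd (nat_lit 31590) (nat_lit 0) (nat_lit 0) xc50 xc51)) (XT.nd (nat_lit 92274) (nat_lit 0) (nat_lit 76) (XT.nd (nat_lit 60294) (nat_lit 0) (nat_lit 0) xc52 xc53) (XT.nd (nat_lit 32058) (nat_lit 0) (nat_lit 76) xc54 xc55))) (XT.nd (nat_lit 189072) (nat_lit 0) (nat_lit 304) (XT.nd (nat_lit 94068) (nat_lit 0) (nat_lit 76) (XT.nd (nat_lit 32370) (nat_lit 0) (nat_lit 76) xc56 xc57) (XT.nd (nat_lit 32604) (nat_lit 0) (nat_lit 152) xc58 xc59)) (XT.nd (nat_lit 155766) (nat_lit 0) (nat_lit 532) (XT.nd (nat_lit 62634) (nat_lit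 0) (nat_lit 228) xc60 xc61) (XT.nd (nat_lit 94224) (nat_lit 0) (nat_lit 456) xc62 xc63)))))) XT.nil))

set_option maxRecDepth 10000000 in
noncomputable def Te : XT := XT.nil

set_option maxRecDepth 10000000 in
noncomputable def Tz : ZL := (ZL.cons (nat_lit 76) (nat_lit 6) (nat_lit 189470515116366615174) (ZL.cons (nat_lit 152) (nat_lit 6) (nat_lit 179239051219310121276) (ZL.cons (nat_lit 228) (nat_lit 3) (nat_lit 88784708305885914068) (ZL.cons (nat_lit 304) (nat_lit 6) (nat_lit 167472867737695153290) (ZL.cons (nat_lit 380) (nat_lit 6) (nat_lit 158983327320513351348) (ZL.cons (nat_lit 456) (nat_lit 3) (nat_lit 78765735570022635179) (ZL.cons (nat_lit 532) (nat_lit 6) (nat_lit 149220355840754279116) (ZL.cons (nat_lit 608) (nat_lit 6) (nat_lit 142376913062227355818) (ZL.cons (nat_lit 684) (nat_lit 3) (nat_lit 70557214713518860088) (ZL.cons (nat_lit 760) (nat_lit 6) (nat_lit 136867249358797669366)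 (ZL.cons (nat_lit 836) (nat_lit 6) (nat_lit 134506953866921394030) (ZL.cons (nat_lit 912) (nat_lit 6) (nat_lit 129268652464663894298) (ZL.cons (nat_lit 988) (nat_lit 3) (nat_lit 64085420303988627302) (ZL.cons (nat_lit 1064) (nat_lit 6) (nat_lit 125297036714568878594) (ZL.cons (nat_lit 1140) (nat_lit 6) (nat_lit 123244605852067769606) (ZL.cons (nat_lit 1216) (nat_lit 6) (nat_lit 120866302723336155254) (ZL.cons (nat_lit 1292) (nat_lit 6) (nat_lit 122514401091091009652) (ZL.cons (nat_lit 1368) (nat_lit 6) (nat_lit 119631866745272970840) (ZL.cons (nat_lit 1444) (nat_lit 3) (nat_lit 59338623869729250773) (ZL.cons (nat_lit 1520) (nat_lit 6) (nat_lit 116088455254600033884) (ZL.cons (nat_lit 1596) (nat_lit 6) (nat_lit 117261939261590351380) (ZL.cons (nat_lit 1672) (nat_lit 6) (nat_lit 115477216772458952262) (ZL.cons (nat_lit 1748) (nat_lit 3) (nat_lit 56477113078714884825) (ZL.cons (nat_lit 1824)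 (nat_lit 6) (nat_lit 113581903649540869704) (ZL.cons (nat_lit 1900) (nat_lit 3) (nat_lit 56375900083111969940) (ZL.cons (nat_lit 1976) (nat_lit 6) (nat_lit 111402293558185074764) (ZL.cons (nat_lit 2052) (nat_lit 1) (nat_lit 18446744073709551617) ZL.nil)))))))))))))))))))))))))))

noncomputable def vl : XL := ⟨(nat_lit 0), (nat_lit 76), (nat_lit 103192714), (nat_lit 152), (nat_lit 267447399), (nat_lit 152), (nat_lit 267447399), (nat_lit 1), (nat_lit 4), (nat_lit 2), (nat_lit 5), (nat_lit 2), (nat_lit 4), (nat_lit 0), (nat_lit 0), (nat_lit 0)⟩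

noncomputable def cp0 : Nat := (nat_lit 1431295554262700115889087099051264413336483585613828691765402510825573044252098267846557026951586490319261451602014296323258875412978178246466979779018440856236454928485575085646306879299074232871020042404929075578194224370145947555486226408507514171784215894218432715950892083335677917877111389674509536474295790310387833652850284574032833559625712030292719949448755446594477547579111866719586166074879200294436821003274608149867911910232930256507405935958777020349039588548805288324106309407135340415580630052743832583580473000004972065503676678117902018440046053519199230110302333877538106891524590811730081825742829095538892881264640)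

noncomputable def cp1 : Nat := (nat_lit 926084519631108483839503107500821104997434286465714828072521414795537990240077749918458477327500471329375437714229613595899471108352061652935777465472595778643618576235038259516954564308469699199095612730006512415696830169228429376622421132667003382795466658055744256565296319713517684383784972098830167967430282336919928895280358485894512415283059917866239970986989756155925310969850609999878754140377730389757741026885945878185594332540725648860316094426008488447940034383507350158591562923478849111559692096184786536802689386280517276611105645567523460792379089489493581496289772309928980583981632319058703867677900358725217587706717498684480764487344480962752934855765733402844217079426184466859751296929778597083139032581507722940950535938060543219219043597692647047551530119020425071876829323909715245400162139318351561164123887268624522653740188932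0177234840494592586701210915297554682979492711642003081728889932822239093921504381979221691020321149140910441200160526098112027550641165530939178676387595711674391726886764262709434620357262086803623743142979992254022293926254516605782175662897745159597610084506749941822389144333847898378804025104143887494198273602256565532341282900791543382470138277913476948107401413264562028815851573317677429850554183864153532192602821052247751205354700844207597179286733281122131339683161136226039663019193484068243266280354671573329295632238028183951879689196047171584)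

noncomputable def rc0 : Nat := (nat_lit 926084519631108483839503107500821104997434286465714828072521414795537990240077749918458477327500471329375437714229613595899471108352061652935777465472595778643618576235038259516954564308469699199095612730006512415696830169228429376622421132667003382795466658055744256565296319713517684383784972098830167967430282336919928895280358485894512415283059917866239970986989756155925310969850609999878754140377730389757741026885945878185594332540725648860316094426008488447940034383507350158591562923478849111559692096184786536802689386280517276611105645567523460792379089489493581496289772309928980583981632319058703867677900358725217587706717498684480764487344480962752934855765733402844217079426184466859751296929778597083139032581507722940950535938060543219219043597692647047551530119020425071876829323909715245400162139318351561164123887268624522653740188932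0177234840494592586701210915297554682979492711642003081728889932822239093921504381979221691020321149140910441200160526098112027550641165530939178676387595711674391726886764262709434620357262086803623743142979992254022293926254516605782175662897745159597610084506749941822389144333847898378804025104143887494198273602256565532341282900791543382470138277913476948107401413264562028815851573317677429850554183864153532192602821052247751205354700844207597179286733281122131339683161136226039663019193484068243266280354671573329295632238028183951879689196047171584)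

end Vale.Agent.Lib.P154.PChain.BR.S1
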