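import Vale.Agent.Lib.P154.PChain.BR.R1_0

set_option linter.all false

namespace Vale.Agent.Lib.P154.PChain.BR.S2

open Vale.Agent.Lib.P154.Chain

noncomputable def pc0 : PT := (PT.nd (nat_lit 3911856) (PT.nd (nat_lit 3761940) (PT.nd (nat_lit 3686982) (PT.nd (nat_lit 3649542) (PT.nd (nat_lit 3649464) (PT.nd (nat_lit 3612024) PT.nil (PT.lf (nat_lit 76) (nat_lit 3) (nat_lit 1) (nat_lit 1) (nat_lit 132) (nat_lit 96) (nat_lit 132))) (PT.lf (nat_lit 152) (nat_lit 6) (nat_lit 2) (nat_lit 3) (nat_lit 131) (nat_lit 97) (nat_lit 132))) (PT.nd (nat_lit 37362) (PT.lf (nat_lit 152) (nat_lit 6) (nat_lit 2) (nat_lit 1) (nat_lit 132) (nat_lit 97) (nat_lit 131)) (PT.lf (nat_lit 228) (nat_lit 6) (nat_lit 3) (nat_lit 3) (nat_lit 130) (nat_lit 98) (nat_lit 132)))) (PT.nd (nat_lit 37440) (PT.nd (nat_lit 78) (PT.lf (nat_lit 304) (nat_lit 3) (nat_lit 4) (nat_lit 1) (nat_lit 131) (nat_lit 98) (nat_lit 131))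 (PT.lf (nat_lit 228) (nat_lit 6) (nat_lit 3) (nat_lit 1) (nat_lit 132) (nat_lit 98) (nat_lit 130))) (PT.nd (nat_lit 78) (PT.lf (nat_lit 380) (nat_lit 6) (nat_lit 5) (nat_lit 3) (nat_lit 130) (nat_lit 99) (nat_lit 131)) (PT.nd (nat_lit 37362) (PT.lf (nat_lit 380) (nat_lit 6) (nat_lit 5) (nat_lit 1) (nat_lit 131) (nat_lit 99) (nat_lit 130)) (PT.lf (nat_lit 456) (nat_lit 6) (nat_lit 6) (nat_lit 3) (nat_lit 129) (nat_lit 100) (nat_lit 131)))))) (PT.nd (nat_lit 74958) (PT.nd (nat_lit 37440) (PT.nd (nat_lit 78) (PT.lf (nat_lit 532) (nat_lit 3) (nat_lit 7) (nat_lit 1) (nat_lit 130) (nat_lit 100) (nat_lit 130)) (PT.lf (nat_lit 456) (nat_lit 6) (nat_lit 6) (nat_lit 1) (nat_lit 131) (nat_lit 100) (nat_lit 129))) (PT.nd (nat_lit 78) (PT.lf (nat_lit 608) (nat_lit 6) (nat_lit 8) (nat_lit 3) (nat_lit 129) (nat_lit 101) (nat_lit 130)) (PT.nd (nat_lit 37362) (PT.lf (nat_lit 608) (nat_lit 6) (nat_lit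 8) (nat_lit 1) (nat_lit 130) (nat_lit 101) (nat_lit 129)) (PT.lf (nat_lit 684) (nat_lit 6) (nat_lit 9) (nat_lit 3) (nat_lit 128) (nat_lit 102) (nat_lit 130))))) (PT.nd (nat_lit 37440) (PT.nd (nat_lit 78) (PT.lf (nat_lit 760) (nat_lit 3) (nat_lit 10) (nat_lit 1) (nat_lit 129) (nat_lit 102) (nat_lit 129)) (PT.lf (nat_lit 684) (nat_lit 6) (nat_lit 9) (nat_lit 1) (nat_lit 130) (nat_lit 102) (nat_lit 128))) (PT.nd (nat_lit 78) (PT.lf (nat_lit 836) (nat_lit 6) (nat_lit 11) (nat_lit 3) (nat_lit 128) (nat_lit 103) (nat_lit 129)) (PT.nd (nat_lit 37362) (PT.lf (nat_lit 836) (nat_lit 6) (nat_lit 11) (nat_lit 1) (nat_lit 129) (nat_lit 103) (nat_lit 128)) (PT.lf (nat_lit 912) (nat_lit 6) (nat_lit 12) (nat_lit 3) (nat_lit 127) (nat_lit 104) (nat_lit 129))))))) (PT.nd (nat_lit 112398) (PT.nd (nat_lit 37596) (PT.nd (nat_lit 37362) (PT.nd (nat_lit 78) (PT.lf (nat_lit 988) (nat_lit 3) (nat_lit 13) (nat_lit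 1) (nat_lit 128) (nat_lit 104) (nat_lit 128)) (PT.lf (nat_lit 912) (nat_lit 6) (nat_lit 12) (nat_lit 1) (nat_lit 129) (nat_lit 104) (nat_lit 127))) (PT.nd (nat_lit 78) (PT.lf (nat_lit 1064) (nat_lit 6) (nat_lit 14) (nat_lit 3) (nat_lit 126) (nat_lit 105) (nat_lit 129)) (PT.nd (nat_lit 78) (PT.lf (nat_lit 1140) (nat_lit 6) (nat_lit 15) (nat_lit 3) (nat_lit 127) (nat_lit 105) (nat_lit 128)) (PT.lf (nat_lit 1140) (nat_lit 6) (nat_lit 15) (nat_lit 1) (nat_lit 128) (nat_lit 105) (nat_lit 127))))) (PT.nd (nat_lit 37362) (PT.nd (nat_lit 37284) (PT.lf (nat_lit 1064) (nat_lit 6) (nat_lit 14) (nat_lit 1) (nat_lit 129) (nat_lit 105) (nat_lit 126)) (PT.lf (nat_lit 1216) (nat_lit 6) (nat_lit 16) (nat_lit 3) (nat_lit 126) (nat_lit 106) (nat_lit 128))) (PT.nd (nat_lit 78) (PT.lf (nat_lit 1292) (nat_lit 3) (nat_lit 17) (nat_lit 1) (nat_lit 127) (nat_lit 106) (nat_lit 127)) (PT.nd (nat_lit 37284) (PT.lf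 (nat_lit 1216) (nat_lit 6) (nat_lit 16) (nat_lit 1) (nat_lit 128) (nat_lit 106) (nat_lit 126)) (PT.lf (nat_lit 1368) (nat_lit 6) (nat_lit 18) (nat_lit 3) (nat_lit 125) (nat_lit 107) (nat_lit 128)))))) (PT.nd (nat_lit 37518) (PT.nd (nat_lit 156) (PT.nd (nat_lit 78) (PT.lf (nat_lit 1444) (nat_lit 6) (nat_lit 19) (nat_lit 3) (nat_lit 126) (nat_lit 107) (nat_lit 127)) (PT.lf (nat_lit 1444) (nat_lit 6) (nat_lit 19) (nat_lit 1) (nat_lit 127) (nat_lit 107) (nat_lit 126))) (PT.nd (nat_lit 37206) (PT.lf (nat_lit 1368) (nat_lit 6) (nat_lit 18) (nat_lit 1) (nat_lit 128) (nat_lit 107) (nat_lit 125)) (PT.nd (nat_lit 78) (PT.lf (nat_lit 1520) (nat_lit 6) (nat_lit 20) (nat_lit 3) (nat_lit 124) (nat_lit 108) (nat_lit 128)) (PT.lf (nat_lit 1596) (nat_lit 6) (nat_lit 21) (nat_lit 3) (nat_lit 125) (nat_lit 108) (nat_lit 127))))) (PT.nd (nat_lit 156) (PT.nd (nat_lit 78) (PT.lf (nat_lit 1672) (nat_lit 3)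 (nat_lit 22) (nat_lit 1) (nat_lit 126) (nat_lit 108) (nat_lit 126)) (PT.lf (nat_lit 1596) (nat_lit 6) (nat_lit 21) (nat_lit 1) (nat_lit 127) (nat_lit 108) (nat_lit 125))) (PT.nd (nat_lit 37206) (PT.lf (nat_lit 1520) (nat_lit 6) (nat_lit 20) (nat_lit 1) (nat_lit 128) (nat_lit 108) (nat_lit 124)) (PT.nd (nat_lit 78) (PT.lf (nat_lit 1748) (nat_lit 6) (nat_lit 23) (nat_lit 3) (nat_lit 124) (nat_lit 109) (nat_lit 127)) (PT.lf (nat_lit 1824) (nat_lit 6) (nat_lit 24) (nat_lit 3) (nat_lit 125) (nat_lit 109) (nat_lit 126))))))))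
noncomputable def pc1 : PT := (PT.nd (nat_lit 149838) (PT.nd (nat_lit 74958) (PT.nd (nat_lit 37518) (PT.nd (nat_lit 37284) (PT.nd (nat_lit 78) (PT.lf (nat_lit 1824) (nat_lit 6) (nat_lit 24) (nat_lit 1) (nat_lit 126) (nat_lit 109) (nat_lit 125)) (PT.lf (nat_lit 1748) (nat_lit 6) (nat_lit 23) (nat_lit 1) (nat_lit 127) (nat_lit 109) (nat_lit 124))) (PT.nd (nat_lit 78) (PT.lf (nat_lit 1900) (nat_lit 6) (nat_lit 25) (nat_lit 3) (nat_lit 123) (nat_lit 110) (nat_lit 127)) (PT.nd (nat_lit 78) (PT.lf (nat_lit 1976) (nat_lit 6) (nat_lit 26) (nat_lit 3) (nat_lit 124) (nat_lit 110) (nat_lit 126)) (PT.lf (nat_lit 2052) (nat_lit 3) (nat_lit 27) (nat_lit 1) (nat_lit 125) (nat_lit 110) (nat_lit 125))))) (PT.nd (nat_lit 37206) (PT.nd (nat_lit 78) (PT.lf (nat_lit 1976) (nat_lit 6) (nat_lit 26) (nat_lit 1) (nat_lit 126) (nat_lit 110) (nat_lit 124)) (PT.lf (nat_lit 1900) (nat_lit 6) (nat_lit 25) (nat_lit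 1) (nat_lit 127) (nat_lit 110) (nat_lit 123))) (PT.nd (nat_lit 78) (PT.lf (nat_lit 2128) (nat_lit 6) (nat_lit 28) (nat_lit 3) (nat_lit 122) (nat_lit 111) (nat_lit 127)) (PT.nd (nat_lit 78) (PT.lf (nat_lit 2204) (nat_lit 6) (nat_lit 29) (nat_lit 3) (nat_lit 123) (nat_lit 111) (nat_lit 126)) (PT.lf (nat_lit 2280) (nat_lit 6) (nat_lit 30) (nat_lit 3) (nat_lit 124) (nat_lit 111) (nat_lit 125)))))) (PT.nd (nat_lit 37440) (PT.nd (nat_lit 156) (PT.nd (nat_lit 78) (PT.lf (nat_lit 2280) (nat_lit 6) (nat_lit 30) (nat_lit 1) (nat_lit 125) (nat_lit 111) (nat_lit 124)) (PT.lf (nat_lit 2204) (nat_lit 6) (nat_lit 29) (nat_lit 1) (nat_lit 126) (nat_lit 111) (nat_lit 123))) (PT.nd (nat_lit 37128) (PT.lf (nat_lit 2128) (nat_lit 6) (nat_lit 28) (nat_lit 1) (nat_lit 127) (nat_lit 111) (nat_lit 122)) (PT.nd (nat_lit 78) (PT.lf (nat_lit 2356) (nat_lit 6) (nat_lit 31) (nat_lit 3) (nat_lit 122) (nat_lit 112)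 (nat_lit 126)) (PT.lf (nat_lit 2432) (nat_lit 6) (nat_lit 32) (nat_lit 3) (nat_lit 123) (nat_lit 112) (nat_lit 125))))) (PT.nd (nat_lit 156) (PT.nd (nat_lit 78) (PT.lf (nat_lit 2508) (nat_lit 3) (nat_lit 33) (nat_lit 1) (nat_lit 124) (nat_lit 112) (nat_lit 124)) (PT.lf (nat_lit 2432) (nat_lit 6) (nat_lit 32) (nat_lit 1) (nat_lit 125) (nat_lit 112) (nat_lit 123))) (PT.nd (nat_lit 37128) (PT.lf (nat_lit 2356) (nat_lit 6) (nat_lit 31) (nat_lit 1) (nat_lit 126) (nat_lit 112) (nat_lit 122)) (PT.nd (nat_lit 78) (PT.lf (nat_lit 2584) (nat_lit 6) (nat_lit 34) (nat_lit 3) (nat_lit 121) (nat_lit 113) (nat_lit 126)) (PT.lf (nat_lit 2660) (nat_lit 6) (nat_lit 35) (nat_lit 3) (nat_lit 122) (nat_lit 113) (nat_lit 125))))))) (PT.nd (nat_lit 37752) (PT.nd (nat_lit 37362) (PT.nd (nat_lit 156) (PT.nd (nat_lit 78) (PT.lf (nat_lit 2736) (nat_lit 6) (nat_lit 36) (nat_lit 3) (nat_lit 123) (nat_lit 113) (nat_lit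 124)) (PT.lf (nat_lit 2736) (nat_lit 6) (nat_lit 36) (nat_lit 1) (nat_lit 124) (nat_lit 113) (nat_lit 123))) (PT.nd (nat_lit 78) (PT.lf (nat_lit 2660) (nat_lit 6) (nat_lit 35) (nat_lit 1) (nat_lit 125) (nat_lit 113) (nat_lit 122)) (PT.nd (nat_lit 37050) (PT.lf (nat_lit 2584) (nat_lit 6) (nat_lit 34) (nat_lit 1) (nat_lit 126) (nat_lit 113) (nat_lit 121)) (PT.lf (nat_lit 3040) (nat_lit 6) (nat_lit 40) (nat_lit 3) (nat_lit 120) (nat_lit 114) (nat_lit 126))))) (PT.nd (nat_lit 156) (PT.nd (nat_lit 78) (PT.lf (nat_lit 3116) (nat_lit 6) (nat_lit 41) (nat_lit 3) (nat_lit 121) (nat_lit 114) (nat_lit 125)) (PT.lf (nat_lit 3192) (nat_lit 6) (nat_lit 42) (nat_lit 3) (nat_lit 122) (nat_lit 114) (nat_lit 124))) (PT.nd (nat_lit 78) (PT.lf (nat_lit 3268) (nat_lit 3) (nat_lit 43) (nat_lit 1) (nat_lit 123) (nat_lit 114) (nat_lit 123)) (PT.nd (nat_lit 78) (PT.lf (nat_lit 3192) (nat_lit 6) (nat_lit 42)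 (nat_lit 1) (nat_lit 124) (nat_lit 114) (nat_lit 122)) (PT.lf (nat_lit 3116) (nat_lit 6) (nat_lit 41) (nat_lit 1) (nat_lit 125) (nat_lit 114) (nat_lit 121)))))) (PT.nd (nat_lit 37284) (PT.nd (nat_lit 37050) (PT.nd (nat_lit 36972) (PT.lf (nat_lit 3040) (nat_lit 6) (nat_lit 40) (nat_lit 1) (nat_lit 126) (nat_lit 114) (nat_lit 120)) (PT.lf (nat_lit 2964) (nat_lit 6) (nat_lit 39) (nat_lit 3) (nat_lit 119) (nat_lit 115) (nat_lit 126))) (PT.nd (nat_lit 78) (PT.lf (nat_lit 3496) (nat_lit 6) (nat_lit 46) (nat_lit 3) (nat_lit 120) (nat_lit 115) (nat_lit 125)) (PT.nd (nat_lit 78) (PT.lf (nat_lit 3572) (nat_lit 6) (nat_lit 47) (nat_lit 3) (nat_lit 121) (nat_lit 115) (nat_lit 124)) (PT.lf (nat_lit 3648) (nat_lit 6) (nat_lit 48) (nat_lit 3) (nat_lit 122) (nat_lit 115) (nat_lit 123))))) (PT.nd (nat_lit 156) (PT.nd (nat_lit 78) (PT.lf (nat_lit 3648) (nat_lit 6) (nat_lit 48) (nat_lit 1) (nat_lit 123)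 (nat_lit 115) (nat_lit 122)) (PT.lf (nat_lit 3572) (nat_lit 6) (nat_lit 47) (nat_lit 1) (nat_lit 124) (nat_lit 115) (nat_lit 121))) (PT.nd (nat_lit 78) (PT.lf (nat_lit 3496) (nat_lit 6) (nat_lit 46) (nat_lit 1) (nat_lit 125) (nat_lit 115) (nat_lit 120)) (PT.nd (nat_lit 36894) (PT.lf (nat_lit 2964) (nat_lit 6) (nat_lit 39) (nat_lit 1) (nat_lit 126) (nat_lit 115) (nat_lit 119)) (PT.lf (nat_lit 2888) (nat_lit 6) (nat_lit 38) (nat_lit 3) (nat_lit 118) (nat_lit 116) (nat_lit 126))))))))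
noncomputable def pc2 : PT := (PT.nd (nat_lit 74880) (PT.nd (nat_lit 37440) (PT.nd (nat_lit 312) (PT.nd (nat_lit 156) (PT.nd (nat_lit 78) (PT.lf (nat_lit 3420) (nat_lit 6) (nat_lit 45) (nat_lit 3) (nat_lit 119) (nat_lit 116) (nat_lit 125)) (PT.lf (nat_lit 3876) (nat_lit 6) (nat_lit 51) (nat_lit 3) (nat_lit 120) (nat_lit 116) (nat_lit 124))) (PT.nd (nat_lit 78) (PT.lf (nat_lit 3952) (nat_lit 6) (nat_lit 52) (nat_lit 3) (nat_lit 121) (nat_lit 116) (nat_lit 123)) (PT.lf (nat_lit 4028) (nat_lit 3) (nat_lit 53) (nat_lit 1) (nat_lit 122) (nat_lit 116) (nat_lit 122)))) (PT.nd (nat_lit 156) (PT.nd (nat_lit 78) (PT.lf (nat_lit 3952) (nat_lit 6) (nat_lit 52) (nat_lit 1) (nat_lit 123) (nat_lit 116) (nat_lit 121)) (PT.lf (nat_lit 3876) (nat_lit 6) (nat_lit 51) (nat_lit 1) (nat_lit 124) (nat_lit 116) (nat_lit 120))) (PT.nd (nat_lit 78) (PT.lf (nat_lit 3420) (nat_lit 6) (nat_lit 45) (nat_lit 1) (nat_lit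 125) (nat_lit 116) (nat_lit 119)) (PT.nd (nat_lit 36816) (PT.lf (nat_lit 2888) (nat_lit 6) (nat_lit 38) (nat_lit 1) (nat_lit 126) (nat_lit 116) (nat_lit 118)) (PT.lf (nat_lit 2812) (nat_lit 3) (nat_lit 37) (nat_lit 3) (nat_lit 117) (nat_lit 117) (nat_lit 126)))))) (PT.nd (nat_lit 390) (PT.nd (nat_lit 156) (PT.nd (nat_lit 78) (PT.lf (nat_lit 3344) (nat_lit 6) (nat_lit 44) (nat_lit 3) (nat_lit 118) (nat_lit 117) (nat_lit 125)) (PT.lf (nat_lit 3800) (nat_lit 6) (nat_lit 50) (nat_lit 3) (nat_lit 119) (nat_lit 117) (nat_lit 124))) (PT.nd (nat_lit 78) (PT.lf (nat_lit 4180) (nat_lit 6) (nat_lit 55) (nat_lit 3) (nat_lit 120) (nat_lit 117) (nat_lit 123)) (PT.nd (nat_lit 78) (PT.lf (nat_lit 4256) (nat_lit 6) (nat_lit 56) (nat_lit 3) (nat_lit 121) (nat_lit 117) (nat_lit 122)) (PT.lf (nat_lit 4256) (nat_lit 6) (nat_lit 56) (nat_lit 1) (nat_lit 122) (nat_lit 117) (nat_lit 121))))) (PT.nd (nat_lit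 156) (PT.nd (nat_lit 78) (PT.lf (nat_lit 4180) (nat_lit 6) (nat_lit 55) (nat_lit 1) (nat_lit 123) (nat_lit 117) (nat_lit 120)) (PT.lf (nat_lit 3800) (nat_lit 6) (nat_lit 50) (nat_lit 1) (nat_lit 124) (nat_lit 117) (nat_lit 119))) (PT.nd (nat_lit 78) (PT.lf (nat_lit 3344) (nat_lit 6) (nat_lit 44) (nat_lit 1) (nat_lit 125) (nat_lit 117) (nat_lit 118)) (PT.nd (nat_lit 36738) (PT.lf (nat_lit 2812) (nat_lit 3) (nat_lit 37) (nat_lit 0) (nat_lit 126) (nat_lit 117) (nat_lit 117)) (PT.lf (nat_lit 2888) (nat_lit 6) (nat_lit 38) (nat_lit 5) (nat_lit 116) (nat_lit 118) (nat_lit 126))))))) (PT.nd (nat_lit 37362) (PT.nd (nat_lit 390) (PT.nd (nat_lit 156) (PT.nd (nat_lit 78) (PT.lf (nat_lit 3344) (nat_lit 6) (nat_lit 44) (nat_lit 5) (nat_lit 117) (nat_lit 118) (nat_lit 125)) (PT.lf (nat_lit 3724) (nat_lit 3) (nat_lit 49) (nat_lit 3) (nat_lit 118) (nat_lit 118) (nat_lit 124))) (PT.nd (nat_lit 78) (PT.lf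 (nat_lit 4104) (nat_lit 6) (nat_lit 54) (nat_lit 3) (nat_lit 119) (nat_lit 118) (nat_lit 123)) (PT.nd (nat_lit 78) (PT.lf (nat_lit 4408) (nat_lit 6) (nat_lit 58) (nat_lit 3) (nat_lit 120) (nat_lit 118) (nat_lit 122)) (PT.lf (nat_lit 4484) (nat_lit 3) (nat_lit 59) (nat_lit 1) (nat_lit 121) (nat_lit 118) (nat_lit 121))))) (PT.nd (nat_lit 156) (PT.nd (nat_lit 78) (PT.lf (nat_lit 4408) (nat_lit 6) (nat_lit 58) (nat_lit 1) (nat_lit 122) (nat_lit 118) (nat_lit 120)) (PT.lf (nat_lit 4104) (nat_lit 6) (nat_lit 54) (nat_lit 1) (nat_lit 123) (nat_lit 118) (nat_lit 119))) (PT.nd (nat_lit 78) (PT.lf (nat_lit 3724) (nat_lit 3) (nat_lit 49) (nat_lit 0) (nat_lit 124) (nat_lit 118) (nat_lit 118)) (PT.nd (nat_lit 78) (PT.lf (nat_lit 3344) (nat_lit 6) (nat_lit 44) (nat_lit 0) (nat_lit 125) (nat_lit 118) (nat_lit 117)) (PT.lf (nat_lit 2888) (nat_lit 6) (nat_lit 38) (nat_lit 0) (nat_lit 126) (nat_lit 118)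 (nat_lit 116)))))) (PT.nd (nat_lit 390) (PT.nd (nat_lit 156) (PT.nd (nat_lit 78) (PT.lf (nat_lit 2964) (nat_lit 6) (nat_lit 39) (nat_lit 5) (nat_lit 115) (nat_lit 119) (nat_lit 126)) (PT.lf (nat_lit 3420) (nat_lit 6) (nat_lit 45) (nat_lit 5) (nat_lit 116) (nat_lit 119) (nat_lit 125))) (PT.nd (nat_lit 78) (PT.lf (nat_lit 3800) (nat_lit 6) (nat_lit 50) (nat_lit 5) (nat_lit 117) (nat_lit 119) (nat_lit 124)) (PT.nd (nat_lit 78) (PT.lf (nat_lit 4104) (nat_lit 6) (nat_lit 54) (nat_lit 5) (nat_lit 118) (nat_lit 119) (nat_lit 123)) (PT.lf (nat_lit 4332) (nat_lit 3) (nat_lit 57) (nat_lit 3) (nat_lit 119) (nat_lit 119) (nat_lit 122))))) (PT.nd (nat_lit 156) (PT.nd (nat_lit 78) (PT.lf (nat_lit 4560) (nat_lit 6) (nat_lit 60) (nat_lit 3) (nat_lit 120) (nat_lit 119) (nat_lit 121)) (PT.lf (nat_lit 4560) (nat_lit 6) (nat_lit 60) (nat_lit 1) (nat_lit 121) (nat_lit 119) (nat_lit 120))) (PT.nd (nat_lit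 78) (PT.lf (nat_lit 4332) (nat_lit 3) (nat_lit 57) (nat_lit 0) (nat_lit 122) (nat_lit 119) (nat_lit 119)) (PT.nd (nat_lit 78) (PT.lf (nat_lit 4104) (nat_lit 6) (nat_lit 54) (nat_lit 0) (nat_lit 123) (nat_lit 119) (nat_lit 118)) (PT.lf (nat_lit 3800) (nat_lit 6) (nat_lit 50) (nat_lit 0) (nat_lit 124) (nat_lit 119) (nat_lit 117))))))))
noncomputable def pc3 : PT := (PT.nd (nat_lit 74490) (PT.nd (nat_lit 37284) (PT.nd (nat_lit 36894) (PT.nd (nat_lit 36660) (PT.nd (nat_lit 78) (PT.lf (nat_lit 3420) (nat_lit 6) (nat_lit 45) (nat_lit 0) (nat_lit 125) (nat_lit 119) (nat_lit 116)) (PT.lf (nat_lit 2964) (nat_lit 6) (nat_lit 39) (nat_lit 0) (nat_lit 126) (nat_lit 119) (nat_lit 115))) (PT.nd (nat_lit 78) (PT.lf (nat_lit 3040) (nat_lit 6) (nat_lit 40) (nat_lit 5) (nat_lit 114) (nat_lit 120) (nat_lit 126)) (PT.nd (nat_lit 78) (PT.lf (nat_lit 3496) (nat_lit 6) (nat_lit 46) (nat_lit 5) (nat_lit 115)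 (nat_lit 120) (nat_lit 125)) (PT.lf (nat_lit 3876) (nat_lit 6) (nat_lit 51) (nat_lit 5) (nat_lit 116) (nat_lit 120) (nat_lit 124))))) (PT.nd (nat_lit 156) (PT.nd (nat_lit 78) (PT.lf (nat_lit 4180) (nat_lit 6) (nat_lit 55) (nat_lit 5) (nat_lit 117) (nat_lit 120) (nat_lit 123)) (PT.lf (nat_lit 4408) (nat_lit 6) (nat_lit 58) (nat_lit 5) (nat_lit 118) (nat_lit 120) (nat_lit 122))) (PT.nd (nat_lit 78) (PT.lf (nat_lit 4560) (nat_lit 6) (nat_lit 60) (nat_lit 5) (nat_lit 119) (nat_lit 120) (nat_lit 121)) (PT.nd (nat_lit 78) (PT.lf (nat_lit 4636) (nat_lit 1) (nat_lit 61) (nat_lit 0) (nat_lit 120) (nat_lit 120) (nat_lit 120)) (PT.lf (nat_lit 4560) (nat_lit 6) (nat_lit 60) (nat_lit 0) (nat_lit 121) (nat_lit 120) (nat_lit 119)))))) (PT.nd (nat_lit 36816) (PT.nd (nat_lit 156) (PT.nd (nat_lit 78) (PT.lf (nat_lit 4408) (nat_lit 6) (nat_lit 58) (nat_lit 0) (nat_lit 122) (nat_lit 120) (nat_lit 118))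 (PT.lf (nat_lit 4180) (nat_lit 6) (nat_lit 55) (nat_lit 0) (nat_lit 123) (nat_lit 120) (nat_lit 117))) (PT.nd (nat_lit 78) (PT.lf (nat_lit 3876) (nat_lit 6) (nat_lit 51) (nat_lit 0) (nat_lit 124) (nat_lit 120) (nat_lit 116)) (PT.nd (nat_lit 78) (PT.lf (nat_lit 3496) (nat_lit 6) (nat_lit 46) (nat_lit 0) (nat_lit 125) (nat_lit 120) (nat_lit 115)) (PT.lf (nat_lit 3040) (nat_lit 6) (nat_lit 40) (nat_lit 0) (nat_lit 126) (nat_lit 120) (nat_lit 114))))) (PT.nd (nat_lit 156) (PT.nd (nat_lit 78) (PT.lf (nat_lit 2584) (nat_lit 6) (nat_lit 34) (nat_lit 5) (nat_lit 113) (nat_lit 121) (nat_lit 126)) (PT.lf (nat_lit 3116) (nat_lit 6) (nat_lit 41) (nat_lit 5) (nat_lit 114) (nat_lit 121) (nat_lit 125))) (PT.nd (nat_lit 78) (PT.lf (nat_lit 3572) (nat_lit 6) (nat_lit 47) (nat_lit 5) (nat_lit 115) (nat_lit 121) (nat_lit 124)) (PT.nd (nat_lit 78) (PT.lf (nat_lit 3952) (nat_lit 6) (nat_lit 52) (nat_lit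 5) (nat_lit 116) (nat_lit 121) (nat_lit 123)) (PT.lf (nat_lit 4256) (nat_lit 6) (nat_lit 56) (nat_lit 5) (nat_lit 117) (nat_lit 121) (nat_lit 122))))))) (PT.nd (nat_lit 37050) (PT.nd (nat_lit 390) (PT.nd (nat_lit 156) (PT.nd (nat_lit 78) (PT.lf (nat_lit 4484) (nat_lit 3) (nat_lit 59) (nat_lit 4) (nat_lit 118) (nat_lit 121) (nat_lit 121)) (PT.lf (nat_lit 4560) (nat_lit 6) (nat_lit 60) (nat_lit 4) (nat_lit 119) (nat_lit 121) (nat_lit 120))) (PT.nd (nat_lit 78) (PT.lf (nat_lit 4560) (nat_lit 6) (nat_lit 60) (nat_lit 2) (nat_lit 120) (nat_lit 121) (nat_lit 119)) (PT.nd (nat_lit 78) (PT.lf (nat_lit 4484) (nat_lit 3) (nat_lit 59) (nat_lit 0) (nat_lit 121) (nat_lit 121) (nat_lit 118)) (PT.lf (nat_lit 4256) (nat_lit 6) (nat_lit 56) (nat_lit 0) (nat_lit 122) (nat_lit 121) (nat_lit 117))))) (PT.nd (nat_lit 156) (PT.nd (nat_lit 78) (PT.lf (nat_lit 3952) (nat_lit 6) (nat_lit 52) (nat_lit 0) (nat_lit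 123) (nat_lit 121) (nat_lit 116)) (PT.lf (nat_lit 3572) (nat_lit 6) (nat_lit 47) (nat_lit 0) (nat_lit 124) (nat_lit 121) (nat_lit 115))) (PT.nd (nat_lit 78) (PT.lf (nat_lit 3116) (nat_lit 6) (nat_lit 41) (nat_lit 0) (nat_lit 125) (nat_lit 121) (nat_lit 114)) (PT.nd (nat_lit 36348) (PT.lf (nat_lit 2584) (nat_lit 6) (nat_lit 34) (nat_lit 0) (nat_lit 126) (nat_lit 121) (nat_lit 113)) (PT.lf (nat_lit 2128) (nat_lit 6) (nat_lit 28) (nat_lit 5) (nat_lit 111) (nat_lit 122) (nat_lit 127)))))) (PT.nd (nat_lit 390) (PT.nd (nat_lit 156) (PT.nd (nat_lit 78) (PT.lf (nat_lit 2356) (nat_lit 6) (nat_lit 31) (nat_lit 5) (nat_lit 112) (nat_lit 122) (nat_lit 126)) (PT.lf (nat_lit 2660) (nat_lit 6) (nat_lit 35) (nat_lit 5) (nat_lit 113) (nat_lit 122) (nat_lit 125))) (PT.nd (nat_lit 78) (PT.lf (nat_lit 3192) (nat_lit 6) (nat_lit 42) (nat_lit 5) (nat_lit 114) (nat_lit 122) (nat_lit 124)) (PT.nd (nat_lit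 78) (PT.lf (nat_lit 3648) (nat_lit 6) (nat_lit 48) (nat_lit 5) (nat_lit 115) (nat_lit 122) (nat_lit 123)) (PT.lf (nat_lit 4028) (nat_lit 3) (nat_lit 53) (nat_lit 4) (nat_lit 116) (nat_lit 122) (nat_lit 122))))) (PT.nd (nat_lit 156) (PT.nd (nat_lit 78) (PT.lf (nat_lit 4256) (nat_lit 6) (nat_lit 56) (nat_lit 4) (nat_lit 117) (nat_lit 122) (nat_lit 121)) (PT.lf (nat_lit 4408) (nat_lit 6) (nat_lit 58) (nat_lit 4) (nat_lit 118) (nat_lit 122) (nat_lit 120))) (PT.nd (nat_lit 78) (PT.lf (nat_lit 4332) (nat_lit 3) (nat_lit 57) (nat_lit 2) (nat_lit 119) (nat_lit 122) (nat_lit 119)) (PT.nd (nat_lit 78) (PT.lf (nat_lit 4408) (nat_lit 6) (nat_lit 58) (nat_lit 2) (nat_lit 120) (nat_lit 122) (nat_lit 118)) (PT.lf (nat_lit 4256) (nat_lit 6) (nat_lit 56) (nat_lit 2) (nat_lit 121) (nat_lit 122) (nat_lit 117))))))))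
noncomputable def pc4 : PT := (PT.nd (nat_lit 37596) (PT.nd (nat_lit 36816) (PT.nd (nat_lit 312) (PT.nd (nat_lit 156) (PT.nd (nat_lit 78) (PT.lf (nat_lit 4028) (nat_lit 3) (nat_lit 53) (nat_lit 0) (nat_lit 122) (nat_lit 122) (nat_lit 116)) (PT.lf (nat_lit 3648) (nat_lit 6) (nat_lit 48) (nat_lit 0) (nat_lit 123) (nat_lit 122) (nat_lit 115))) (PT.nd (nat_lit 78) (PT.lf (nat_lit 3192) (nat_lit 6) (nat_lit 42) (nat_lit 0) (nat_lit 124) (nat_lit 122) (nat_lit 114)) (PT.lf (nat_lit 2660) (nat_lit 6) (nat_lit 35) (nat_lit 0) (nat_lit 125) (nat_lit 122) (nat_lit 113)))) (PT.nd (nat_lit 36270) (PT.nd (nat_lit 78) (PT.lf (nat_lit 2356) (nat_lit 6) (nat_lit 31) (nat_lit 0) (nat_lit 126) (nat_lit 122) (nat_lit 112)) (PT.lf (nat_lit 2128) (nat_lit 6) (nat_lit 28) (nat_lit 0) (nat_lit 127) (nat_lit 122) (nat_lit 111))) (PT.nd (nat_lit 78) (PT.lf (nat_lit 1900) (nat_lit 6) (nat_lit 25) (nat_lit 5)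 (nat_lit 110) (nat_lit 123) (nat_lit 127)) (PT.nd (nat_lit 78) (PT.lf (nat_lit 2204) (nat_lit 6) (nat_lit 29) (nat_lit 5) (nat_lit 111) (nat_lit 123) (nat_lit 126)) (PT.lf (nat_lit 2432) (nat_lit 6) (nat_lit 32) (nat_lit 5) (nat_lit 112) (nat_lit 123) (nat_lit 125)))))) (PT.nd (nat_lit 390) (PT.nd (nat_lit 156) (PT.nd (nat_lit 78) (PT.lf (nat_lit 2736) (nat_lit 6) (nat_lit 36) (nat_lit 5) (nat_lit 113) (nat_lit 123) (nat_lit 124)) (PT.lf (nat_lit 3268) (nat_lit 3) (nat_lit 43) (nat_lit 4) (nat_lit 114) (nat_lit 123) (nat_lit 123))) (PT.nd (nat_lit 78) (PT.lf (nat_lit 3648) (nat_lit 6) (nat_lit 48) (nat_lit 4) (nat_lit 115) (nat_lit 123) (nat_lit 122)) (PT.nd (nat_lit 78) (PT.lf (nat_lit 3952) (nat_lit 6) (nat_lit 52) (nat_lit 4) (nat_lit 116) (nat_lit 123) (nat_lit 121)) (PT.lf (nat_lit 4180) (nat_lit 6) (nat_lit 55) (nat_lit 4) (nat_lit 117) (nat_lit 123) (nat_lit 120))))) (PT.nd (nat_lit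 156) (PT.nd (nat_lit 78) (PT.lf (nat_lit 4104) (nat_lit 6) (nat_lit 54) (nat_lit 4) (nat_lit 118) (nat_lit 123) (nat_lit 119)) (PT.lf (nat_lit 4104) (nat_lit 6) (nat_lit 54) (nat_lit 2) (nat_lit 119) (nat_lit 123) (nat_lit 118))) (PT.nd (nat_lit 78) (PT.lf (nat_lit 4180) (nat_lit 6) (nat_lit 55) (nat_lit 2) (nat_lit 120) (nat_lit 123) (nat_lit 117)) (PT.nd (nat_lit 78) (PT.lf (nat_lit 3952) (nat_lit 6) (nat_lit 52) (nat_lit 2) (nat_lit 121) (nat_lit 123) (nat_lit 116)) (PT.lf (nat_lit 3648) (nat_lit 6) (nat_lit 48) (nat_lit 2) (nat_lit 122) (nat_lit 123) (nat_lit 115))))))) (PT.nd (nat_lit 36738) (PT.nd (nat_lit 36348) (PT.nd (nat_lit 156) (PT.nd (nat_lit 78) (PT.lf (nat_lit 3268) (nat_lit 3) (nat_lit 43) (nat_lit 0) (nat_lit 123) (nat_lit 123) (nat_lit 114)) (PT.lf (nat_lit 2736) (nat_lit 6) (nat_lit 36) (nat_lit 0) (nat_lit 124) (nat_lit 123) (nat_lit 113))) (PT.nd (nat_lit 78) (PT.lf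 (nat_lit 2432) (nat_lit 6) (nat_lit 32) (nat_lit 0) (nat_lit 125) (nat_lit 123) (nat_lit 112)) (PT.nd (nat_lit 78) (PT.lf (nat_lit 2204) (nat_lit 6) (nat_lit 29) (nat_lit 0) (nat_lit 126) (nat_lit 123) (nat_lit 111)) (PT.lf (nat_lit 1900) (nat_lit 6) (nat_lit 25) (nat_lit 0) (nat_lit 127) (nat_lit 123) (nat_lit 110))))) (PT.nd (nat_lit 156) (PT.nd (nat_lit 78) (PT.lf (nat_lit 1520) (nat_lit 6) (nat_lit 20) (nat_lit 5) (nat_lit 108) (nat_lit 124) (nat_lit 128)) (PT.lf (nat_lit 1748) (nat_lit 6) (nat_lit 23) (nat_lit 5) (nat_lit 109) (nat_lit 124) (nat_lit 127))) (PT.nd (nat_lit 78) (PT.lf (nat_lit 1976) (nat_lit 6) (nat_lit 26) (nat_lit 5) (nat_lit 110) (nat_lit 124) (nat_lit 126)) (PT.nd (nat_lit 78) (PT.lf (nat_lit 2280) (nat_lit 6) (nat_lit 30) (nat_lit 5) (nat_lit 111) (nat_lit 124) (nat_lit 125)) (PT.lf (nat_lit 2508) (nat_lit 3) (nat_lit 33) (nat_lit 4) (nat_lit 112) (nat_lit 124)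 (nat_lit 124)))))) (PT.nd (nat_lit 390) (PT.nd (nat_lit 156) (PT.nd (nat_lit 78) (PT.lf (nat_lit 2736) (nat_lit 6) (nat_lit 36) (nat_lit 4) (nat_lit 113) (nat_lit 124) (nat_lit 123)) (PT.lf (nat_lit 3192) (nat_lit 6) (nat_lit 42) (nat_lit 4) (nat_lit 114) (nat_lit 124) (nat_lit 122))) (PT.nd (nat_lit 78) (PT.lf (nat_lit 3572) (nat_lit 6) (nat_lit 47) (nat_lit 4) (nat_lit 115) (nat_lit 124) (nat_lit 121)) (PT.nd (nat_lit 78) (PT.lf (nat_lit 3876) (nat_lit 6) (nat_lit 51) (nat_lit 4) (nat_lit 116) (nat_lit 124) (nat_lit 120)) (PT.lf (nat_lit 3800) (nat_lit 6) (nat_lit 50) (nat_lit 4) (nat_lit 117) (nat_lit 124) (nat_lit 119))))) (PT.nd (nat_lit 156) (PT.nd (nat_lit 78) (PT.lf (nat_lit 3724) (nat_lit 3) (nat_lit 49) (nat_lit 2) (nat_lit 118) (nat_lit 124) (nat_lit 118)) (PT.lf (nat_lit 3800) (nat_lit 6) (nat_lit 50) (nat_lit 2) (nat_lit 119) (nat_lit 124) (nat_lit 117))) (PT.nd (nat_lit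 78) (PT.lf (nat_lit 3876) (nat_lit 6) (nat_lit 51) (nat_lit 2) (nat_lit 120) (nat_lit 124) (nat_lit 116)) (PT.nd (nat_lit 78) (PT.lf (nat_lit 3572) (nat_lit 6) (nat_lit 47) (nat_lit 2) (nat_lit 121) (nat_lit 124) (nat_lit 115)) (PT.lf (nat_lit 3192) (nat_lit 6) (nat_lit 42) (nat_lit 2) (nat_lit 122) (nat_lit 124) (nat_lit 114))))))))
noncomputable def pc5 : PT := (PT.nd (nat_lit 37362) (PT.nd (nat_lit 36582) (PT.nd (nat_lit 390) (PT.nd (nat_lit 156) (PT.nd (nat_lit 78) (PT.lf (nat_lit 2736) (nat_lit 6) (nat_lit 36) (nat_lit 2) (nat_lit 123) (nat_lit 124) (nat_lit 113)) (PT.lf (nat_lit 2508) (nat_lit 3) (nat_lit 33) (nat_lit 0) (nat_lit 124) (nat_lit 124) (nat_lit 112))) (PT.nd (nat_lit 78) (PT.lf (nat_lit 2280) (nat_lit 6) (nat_lit 30) (nat_lit 0) (nat_lit 125) (nat_lit 124) (nat_lit 111)) (PT.nd (nat_lit 78) (PT.lf (nat_lit 1976) (nat_lit 6) (nat_lit 26) (nat_lit 0) (nat_lit 126) (nat_lit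 124) (nat_lit 110)) (PT.lf (nat_lit 1748) (nat_lit 6) (nat_lit 23) (nat_lit 0) (nat_lit 127) (nat_lit 124) (nat_lit 109))))) (PT.nd (nat_lit 35958) (PT.nd (nat_lit 35880) (PT.lf (nat_lit 1520) (nat_lit 6) (nat_lit 20) (nat_lit 0) (nat_lit 128) (nat_lit 124) (nat_lit 108)) (PT.lf (nat_lit 1368) (nat_lit 6) (nat_lit 18) (nat_lit 5) (nat_lit 107) (nat_lit 125) (nat_lit 128))) (PT.nd (nat_lit 78) (PT.lf (nat_lit 1596) (nat_lit 6) (nat_lit 21) (nat_lit 5) (nat_lit 108) (nat_lit 125) (nat_lit 127)) (PT.nd (nat_lit 78) (PT.lf (nat_lit 1824) (nat_lit 6) (nat_lit 24) (nat_lit 5) (nat_lit 109) (nat_lit 125) (nat_lit 126)) (PT.lf (nat_lit 2052) (nat_lit 3) (nat_lit 27) (nat_lit 4) (nat_lit 110) (nat_lit 125) (nat_lit 125)))))) (PT.nd (nat_lit 390) (PT.nd (nat_lit 156) (PT.nd (nat_lit 78) (PT.lf (nat_lit 2280) (nat_lit 6) (nat_lit 30) (nat_lit 4) (nat_lit 111) (nat_lit 125) (nat_lit 124)) (PT.lf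 (nat_lit 2432) (nat_lit 6) (nat_lit 32) (nat_lit 4) (nat_lit 112) (nat_lit 125) (nat_lit 123))) (PT.nd (nat_lit 78) (PT.lf (nat_lit 2660) (nat_lit 6) (nat_lit 35) (nat_lit 4) (nat_lit 113) (nat_lit 125) (nat_lit 122)) (PT.nd (nat_lit 78) (PT.lf (nat_lit 3116) (nat_lit 6) (nat_lit 41) (nat_lit 4) (nat_lit 114) (nat_lit 125) (nat_lit 121)) (PT.lf (nat_lit 3496) (nat_lit 6) (nat_lit 46) (nat_lit 4) (nat_lit 115) (nat_lit 125) (nat_lit 120))))) (PT.nd (nat_lit 156) (PT.nd (nat_lit 78) (PT.lf (nat_lit 3420) (nat_lit 6) (nat_lit 45) (nat_lit 4) (nat_lit 116) (nat_lit 125) (nat_lit 119)) (PT.lf (nat_lit 3344) (nat_lit 6) (nat_lit 44) (nat_lit 4) (nat_lit 117) (nat_lit 125) (nat_lit 118))) (PT.nd (nat_lit 78) (PT.lf (nat_lit 3344) (nat_lit 6) (nat_lit 44) (nat_lit 2) (nat_lit 118) (nat_lit 125) (nat_lit 117)) (PT.nd (nat_lit 78) (PT.lf (nat_lit 3420) (nat_lit 6) (nat_lit 45) (nat_lit 2) (nat_lit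 119) (nat_lit 125) (nat_lit 116)) (PT.lf (nat_lit 3496) (nat_lit 6) (nat_lit 46) (nat_lit 2) (nat_lit 120) (nat_lit 125) (nat_lit 115))))))) (PT.nd (nat_lit 36426) (PT.nd (nat_lit 390) (PT.nd (nat_lit 156) (PT.nd (nat_lit 78) (PT.lf (nat_lit 3116) (nat_lit 6) (nat_lit 41) (nat_lit 2) (nat_lit 121) (nat_lit 125) (nat_lit 114)) (PT.lf (nat_lit 2660) (nat_lit 6) (nat_lit 35) (nat_lit 2) (nat_lit 122) (nat_lit 125) (nat_lit 113))) (PT.nd (nat_lit 78) (PT.lf (nat_lit 2432) (nat_lit 6) (nat_lit 32) (nat_lit 2) (nat_lit 123) (nat_lit 125) (nat_lit 112)) (PT.nd (nat_lit 78) (PT.lf (nat_lit 2280) (nat_lit 6) (nat_lit 30) (nat_lit 2) (nat_lit 124) (nat_lit 125) (nat_lit 111)) (PT.lf (nat_lit 2052) (nat_lit 3) (nat_lit 27) (nat_lit 0) (nat_lit 125) (nat_lit 125) (nat_lit 110))))) (PT.nd (nat_lit 156) (PT.nd (nat_lit 78) (PT.lf (nat_lit 1824) (nat_lit 6) (nat_lit 24) (nat_lit 0) (nat_lit 126) (nat_lit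 125) (nat_lit 109)) (PT.lf (nat_lit 1596) (nat_lit 6) (nat_lit 21) (nat_lit 0) (nat_lit 127) (nat_lit 125) (nat_lit 108))) (PT.nd (nat_lit 35724) (PT.lf (nat_lit 1368) (nat_lit 6) (nat_lit 18) (nat_lit 0) (nat_lit 128) (nat_lit 125) (nat_lit 107)) (PT.nd (nat_lit 78) (PT.lf (nat_lit 1064) (nat_lit 6) (nat_lit 14) (nat_lit 5) (nat_lit 105) (nat_lit 126) (nat_lit 129)) (PT.lf (nat_lit 1216) (nat_lit 6) (nat_lit 16) (nat_lit 5) (nat_lit 106) (nat_lit 126) (nat_lit 128)))))) (PT.nd (nat_lit 390) (PT.nd (nat_lit 156) (PT.nd (nat_lit 78) (PT.lf (nat_lit 1444) (nat_lit 6) (nat_lit 19) (nat_lit 5) (nat_lit 107) (nat_lit 126) (nat_lit 127)) (PT.lf (nat_lit 1672) (nat_lit 3) (nat_lit 22) (nat_lit 4) (nat_lit 108) (nat_lit 126) (nat_lit 126))) (PT.nd (nat_lit 78) (PT.lf (nat_lit 1824) (nat_lit 6) (nat_lit 24) (nat_lit 4) (nat_lit 109) (nat_lit 126) (nat_lit 125)) (PT.nd (nat_lit 78) (PT.lf (nat_lit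 1976) (nat_lit 6) (nat_lit 26) (nat_lit 4) (nat_lit 110) (nat_lit 126) (nat_lit 124)) (PT.lf (nat_lit 2204) (nat_lit 6) (nat_lit 29) (nat_lit 4) (nat_lit 111) (nat_lit 126) (nat_lit 123))))) (PT.nd (nat_lit 156) (PT.nd (nat_lit 78) (PT.lf (nat_lit 2356) (nat_lit 6) (nat_lit 31) (nat_lit 4) (nat_lit 112) (nat_lit 126) (nat_lit 122)) (PT.lf (nat_lit 2584) (nat_lit 6) (nat_lit 34) (nat_lit 4) (nat_lit 113) (nat_lit 126) (nat_lit 121))) (PT.nd (nat_lit 78) (PT.lf (nat_lit 3040) (nat_lit 6) (nat_lit 40) (nat_lit 4) (nat_lit 114) (nat_lit 126) (nat_lit 120)) (PT.nd (nat_lit 78) (PT.lf (nat_lit 2964) (nat_lit 6) (nat_lit 39) (nat_lit 4) (nat_lit 115) (nat_lit 126) (nat_lit 119)) (PT.lf (nat_lit 2888) (nat_lit 6) (nat_lit 38) (nat_lit 4) (nat_lit 116) (nat_lit 126) (nat_lit 118))))))))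
noncomputable def pc6 : PT := (PT.nd (nat_lit 36972) (PT.nd (nat_lit 702) (PT.nd (nat_lit 312) (PT.nd (nat_lit 156) (PT.nd (nat_lit 78) (PT.lf (nat_lit 2812) (nat_lit 3) (nat_lit 37) (nat_lit 2) (nat_lit 117) (nat_lit 126) (nat_lit 117)) (PT.lf (nat_lit 2888) (nat_lit 6) (nat_lit 38) (nat_lit 2) (nat_lit 118) (nat_lit 126) (nat_lit 116))) (PT.nd (nat_lit 78) (PT.lf (nat_lit 2964) (nat_lit 6) (nat_lit 39) (nat_lit 2) (nat_lit 119) (nat_lit 126) (nat_lit 115)) (PT.lf (nat_lit 3040) (nat_lit 6) (nat_lit 40) (nat_lit 2) (nat_lit 120) (nat_lit 126) (nat_lit 114)))) (PT.nd (nat_lit 156) (PT.nd (nat_lit 78) (PT.lf (nat_lit 2584) (nat_lit 6) (nat_lit 34) (nat_lit 2) (nat_lit 121) (nat_lit 126) (nat_lit 113)) (PT.lf (nat_lit 2356) (nat_lit 6) (nat_lit 31) (nat_lit 2) (nat_lit 122) (nat_lit 126) (nat_lit 112))) (PT.nd (nat_lit 78) (PT.lf (nat_lit 2204) (nat_lit 6) (nat_lit 29) (nat_lit 2) (nat_lit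 123) (nat_lit 126) (nat_lit 111)) (PT.nd (nat_lit 78) (PT.lf (nat_lit 1976) (nat_lit 6) (nat_lit 26) (nat_lit 2) (nat_lit 124) (nat_lit 126) (nat_lit 110)) (PT.lf (nat_lit 1824) (nat_lit 6) (nat_lit 24) (nat_lit 2) (nat_lit 125) (nat_lit 126) (nat_lit 109)))))) (PT.nd (nat_lit 35880) (PT.nd (nat_lit 156) (PT.nd (nat_lit 78) (PT.lf (nat_lit 1672) (nat_lit 3) (nat_lit 22) (nat_lit 0) (nat_lit 126) (nat_lit 126) (nat_lit 108)) (PT.lf (nat_lit 1444) (nat_lit 6) (nat_lit 19) (nat_lit 0) (nat_lit 127) (nat_lit 126) (nat_lit 107))) (PT.nd (nat_lit 78) (PT.lf (nat_lit 1216) (nat_lit 6) (nat_lit 16) (nat_lit 0) (nat_lit 128) (nat_lit 126) (nat_lit 106)) (PT.nd (nat_lit 35568) (PT.lf (nat_lit 1064) (nat_lit 6) (nat_lit 14) (nat_lit 0) (nat_lit 129) (nat_lit 126) (nat_lit 105)) (PT.lf (nat_lit 912) (nat_lit 6) (nat_lit 12) (nat_lit 5) (nat_lit 104) (nat_lit 127) (nat_lit 129))))) (PT.nd (nat_lit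 156) (PT.nd (nat_lit 78) (PT.lf (nat_lit 1140) (nat_lit 6) (nat_lit 15) (nat_lit 5) (nat_lit 105) (nat_lit 127) (nat_lit 128)) (PT.lf (nat_lit 1292) (nat_lit 3) (nat_lit 17) (nat_lit 4) (nat_lit 106) (nat_lit 127) (nat_lit 127))) (PT.nd (nat_lit 78) (PT.lf (nat_lit 1444) (nat_lit 6) (nat_lit 19) (nat_lit 4) (nat_lit 107) (nat_lit 127) (nat_lit 126)) (PT.nd (nat_lit 78) (PT.lf (nat_lit 1596) (nat_lit 6) (nat_lit 21) (nat_lit 4) (nat_lit 108) (nat_lit 127) (nat_lit 125)) (PT.lf (nat_lit 1748) (nat_lit 6) (nat_lit 23) (nat_lit 4) (nat_lit 109) (nat_lit 127) (nat_lit 124))))))) (PT.nd (nat_lit 36894) (PT.nd (nat_lit 1170) (PT.nd (nat_lit 936) (PT.nd (nat_lit 78) (PT.lf (nat_lit 1900) (nat_lit 6) (nat_lit 25) (nat_lit 4) (nat_lit 110) (nat_lit 127) (nat_lit 123)) (PT.lf (nat_lit 2128) (nat_lit 6) (nat_lit 28) (nat_lit 4) (nat_lit 111) (nat_lit 127) (nat_lit 122))) (PT.nd (nat_lit 78) (PT.lf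 (nat_lit 2128) (nat_lit 6) (nat_lit 28) (nat_lit 2) (nat_lit 122) (nat_lit 127) (nat_lit 111)) (PT.nd (nat_lit 78) (PT.lf (nat_lit 1900) (nat_lit 6) (nat_lit 25) (nat_lit 2) (nat_lit 123) (nat_lit 127) (nat_lit 110)) (PT.lf (nat_lit 1748) (nat_lit 6) (nat_lit 23) (nat_lit 2) (nat_lit 124) (nat_lit 127) (nat_lit 109))))) (PT.nd (nat_lit 156) (PT.nd (nat_lit 78) (PT.lf (nat_lit 1596) (nat_lit 6) (nat_lit 21) (nat_lit 2) (nat_lit 125) (nat_lit 127) (nat_lit 108)) (PT.lf (nat_lit 1444) (nat_lit 6) (nat_lit 19) (nat_lit 2) (nat_lit 126) (nat_lit 127) (nat_lit 107))) (PT.nd (nat_lit 78) (PT.lf (nat_lit 1292) (nat_lit 3) (nat_lit 17) (nat_lit 0) (nat_lit 127) (nat_lit 127) (nat_lit 106)) (PT.nd (nat_lit 78) (PT.lf (nat_lit 1140) (nat_lit 6) (nat_lit 15) (nat_lit 0) (nat_lit 128) (nat_lit 127) (nat_lit 105)) (PT.lf (nat_lit 912) (nat_lit 6) (nat_lit 12) (nat_lit 0) (nat_lit 129) (nat_lit 127)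 (nat_lit 104)))))) (PT.nd (nat_lit 390) (PT.nd (nat_lit 156) (PT.nd (nat_lit 78) (PT.lf (nat_lit 684) (nat_lit 6) (nat_lit 9) (nat_lit 5) (nat_lit 102) (nat_lit 128) (nat_lit 130)) (PT.lf (nat_lit 836) (nat_lit 6) (nat_lit 11) (nat_lit 5) (nat_lit 103) (nat_lit 128) (nat_lit 129))) (PT.nd (nat_lit 78) (PT.lf (nat_lit 988) (nat_lit 3) (nat_lit 13) (nat_lit 4) (nat_lit 104) (nat_lit 128) (nat_lit 128)) (PT.nd (nat_lit 78) (PT.lf (nat_lit 1140) (nat_lit 6) (nat_lit 15) (nat_lit 4) (nat_lit 105) (nat_lit 128) (nat_lit 127)) (PT.lf (nat_lit 1216) (nat_lit 6) (nat_lit 16) (nat_lit 4) (nat_lit 106) (nat_lit 128) (nat_lit 126))))) (PT.nd (nat_lit 1326) (PT.nd (nat_lit 78) (PT.lf (nat_lit 1368) (nat_lit 6) (nat_lit 18) (nat_lit 4) (nat_lit 107) (nat_lit 128) (nat_lit 125)) (PT.lf (nat_lit 1520) (nat_lit 6) (nat_lit 20) (nat_lit 4) (nat_lit 108) (nat_lit 128) (nat_lit 124))) (PT.nd (nat_lit 78)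 (PT.lf (nat_lit 1520) (nat_lit 6) (nat_lit 20) (nat_lit 2) (nat_lit 124) (nat_lit 128) (nat_lit 108)) (PT.nd (nat_lit 78) (PT.lf (nat_lit 1368) (nat_lit 6) (nat_lit 18) (nat_lit 2) (nat_lit 125) (nat_lit 128) (nat_lit 107)) (PT.lf (nat_lit 1216) (nat_lit 6) (nat_lit 16) (nat_lit 2) (nat_lit 126) (nat_lit 128) (nat_lit 106))))))))
noncomputable def pc7 : PT := (PT.nd (nat_lit 73086) (PT.nd (nat_lit 37440) (PT.nd (nat_lit 35490) (PT.nd (nat_lit 156) (PT.nd (nat_lit 78) (PT.lf (nat_lit 1140) (nat_lit 6) (nat_lit 15) (nat_lit 2) (nat_lit 127) (nat_lit 128) (nat_lit 105)) (PT.lf (nat_lit 988) (nat_lit 3) (nat_lit 13) (nat_lit 0) (nat_lit 128) (nat_lit 128) (nat_lit 104))) (PT.nd (nat_lit 78) (PT.lf (nat_lit 836) (nat_lit 6) (nat_lit 11) (nat_lit 0) (nat_lit 129) (nat_lit 128) (nat_lit 103)) (PT.nd (nat_lit 35178) (PT.lf (nat_lit 684) (nat_lit 6) (nat_lit 9) (nat_lit 0) (nat_lit 130) (nat_lit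 128) (nat_lit 102)) (PT.lf (nat_lit 456) (nat_lit 6) (nat_lit 6) (nat_lit 5) (nat_lit 100) (nat_lit 129) (nat_lit 131))))) (PT.nd (nat_lit 156) (PT.nd (nat_lit 78) (PT.lf (nat_lit 608) (nat_lit 6) (nat_lit 8) (nat_lit 5) (nat_lit 101) (nat_lit 129) (nat_lit 130)) (PT.lf (nat_lit 760) (nat_lit 3) (nat_lit 10) (nat_lit 4) (nat_lit 102) (nat_lit 129) (nat_lit 129))) (PT.nd (nat_lit 78) (PT.lf (nat_lit 836) (nat_lit 6) (nat_lit 11) (nat_lit 4) (nat_lit 103) (nat_lit 129) (nat_lit 128)) (PT.nd (nat_lit 78) (PT.lf (nat_lit 912) (nat_lit 6) (nat_lit 12) (nat_lit 4) (nat_lit 104) (nat_lit 129) (nat_lit 127)) (PT.lf (nat_lit 1064) (nat_lit 6) (nat_lit 14) (nat_lit 4) (nat_lit 105) (nat_lit 129) (nat_lit 126)))))) (PT.nd (nat_lit 390) (PT.nd (nat_lit 156) (PT.nd (nat_lit 78) (PT.lf (nat_lit 1064) (nat_lit 6) (nat_lit 14) (nat_lit 2) (nat_lit 126) (nat_lit 129) (nat_lit 105)) (PT.lf (nat_lit 912)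 (nat_lit 6) (nat_lit 12) (nat_lit 2) (nat_lit 127) (nat_lit 129) (nat_lit 104))) (PT.nd (nat_lit 78) (PT.lf (nat_lit 836) (nat_lit 6) (nat_lit 11) (nat_lit 2) (nat_lit 128) (nat_lit 129) (nat_lit 103)) (PT.nd (nat_lit 78) (PT.lf (nat_lit 760) (nat_lit 3) (nat_lit 10) (nat_lit 0) (nat_lit 129) (nat_lit 129) (nat_lit 102)) (PT.lf (nat_lit 608) (nat_lit 6) (nat_lit 8) (nat_lit 0) (nat_lit 130) (nat_lit 129) (nat_lit 101))))) (PT.nd (nat_lit 35022) (PT.nd (nat_lit 34944) (PT.lf (nat_lit 456) (nat_lit 6) (nat_lit 6) (nat_lit 0) (nat_lit 131) (nat_lit 129) (nat_lit 100)) (PT.lf (nat_lit 228) (nat_lit 6) (nat_lit 3) (nat_lit 5) (nat_lit 98) (nat_lit 130) (nat_lit 132))) (PT.nd (nat_lit 78) (PT.lf (nat_lit 380) (nat_lit 6) (nat_lit 5) (nat_lit 5) (nat_lit 99) (nat_lit 130) (nat_lit 131)) (PT.nd (nat_lit 78) (PT.lf (nat_lit 532) (nat_lit 3) (nat_lit 7) (nat_lit 4) (nat_lit 100) (nat_lit 130)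 (nat_lit 130)) (PT.lf (nat_lit 608) (nat_lit 6) (nat_lit 8) (nat_lit 4) (nat_lit 101) (nat_lit 130) (nat_lit 129))))))) (PT.nd (nat_lit 39624) (PT.nd (nat_lit 2340) (PT.nd (nat_lit 2106) (PT.nd (nat_lit 2028) (PT.lf (nat_lit 684) (nat_lit 6) (nat_lit 9) (nat_lit 4) (nat_lit 102) (nat_lit 130) (nat_lit 128)) (PT.lf (nat_lit 684) (nat_lit 6) (nat_lit 9) (nat_lit 2) (nat_lit 128) (nat_lit 130) (nat_lit 102))) (PT.nd (nat_lit 78) (PT.lf (nat_lit 608) (nat_lit 6) (nat_lit 8) (nat_lit 2) (nat_lit 129) (nat_lit 130) (nat_lit 101)) (PT.nd (nat_lit 78) (PT.lf (nat_lit 532) (nat_lit 3) (nat_lit 7) (nat_lit 0) (nat_lit 130) (nat_lit 130) (nat_lit 100)) (PT.lf (nat_lit 380) (nat_lit 6) (nat_lit 5) (nat_lit 0) (nat_lit 131) (nat_lit 130) (nat_lit 99))))) (PT.nd (nat_lit 34866) (PT.nd (nat_lit 34788) (PT.lf (nat_lit 228) (nat_lit 6) (nat_lit 3) (nat_lit 0) (nat_lit 132) (nat_lit 130) (nat_lit 98))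 (PT.lf (nat_lit 152) (nat_lit 6) (nat_lit 2) (nat_lit 5) (nat_lit 97) (nat_lit 131) (nat_lit 132))) (PT.nd (nat_lit 78) (PT.lf (nat_lit 304) (nat_lit 3) (nat_lit 4) (nat_lit 4) (nat_lit 98) (nat_lit 131) (nat_lit 131)) (PT.nd (nat_lit 78) (PT.lf (nat_lit 380) (nat_lit 6) (nat_lit 5) (nat_lit 4) (nat_lit 99) (nat_lit 131) (nat_lit 130)) (PT.lf (nat_lit 456) (nat_lit 6) (nat_lit 6) (nat_lit 4) (nat_lit 100) (nat_lit 131) (nat_lit 129)))))) (PT.nd (nat_lit 35022) (PT.nd (nat_lit 156) (PT.nd (nat_lit 78) (PT.lf (nat_lit 456) (nat_lit 6) (nat_lit 6) (nat_lit 2) (nat_lit 129) (nat_lit 131) (nat_lit 100)) (PT.lf (nat_lit 380) (nat_lit 6) (nat_lit 5) (nat_lit 2) (nat_lit 130) (nat_lit 131) (nat_lit 99))) (PT.nd (nat_lit 78) (PT.lf (nat_lit 304) (nat_lit 3) (nat_lit 4) (nat_lit 0) (nat_lit 131) (nat_lit 131) (nat_lit 98)) (PT.nd (nat_lit 34710) (PT.lf (nat_lit 152) (nat_lit 6) (nat_lit 2) (nat_lit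 0) (nat_lit 132) (nat_lit 131) (nat_lit 97)) (PT.lf (nat_lit 76) (nat_lit 3) (nat_lit 1) (nat_lit 4) (nat_lit 96) (nat_lit 132) (nat_lit 132))))) (PT.nd (nat_lit 2574) (PT.nd (nat_lit 78) (PT.lf (nat_lit 152) (nat_lit 6) (nat_lit 2) (nat_lit 4) (nat_lit 97) (nat_lit 132) (nat_lit 131)) (PT.lf (nat_lit 228) (nat_lit 6) (nat_lit 3) (nat_lit 4) (nat_lit 98) (nat_lit 132) (nat_lit 130))) (PT.nd (nat_lit 78) (PT.lf (nat_lit 228) (nat_lit 6) (nat_lit 3) (nat_lit 2) (nat_lit 130) (nat_lit 132) (nat_lit 98)) (PT.nd (nat_lit 78) (PT.lf (nat_lit 152) (nat_lit 6) (nat_lit 2) (nat_lit 2) (nat_lit 131) (nat_lit 132) (nat_lit 97)) (PT.lf (nat_lit 76) (nat_lit 3) (nat_lit 1) (nat_lit 0) (nat_lit 132) (nat_lit 132) (nat_lit 96))))))))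
noncomputable def xc0 : XT := (XT.nd (nat_lit 186888) (nat_lit 0) (nat_lit 0) (XT.nd (nat_lit 112398) (nat_lit 0) (nat_lit 0) (XT.nd (nat_lit 74880) (nat_lit 0) (nat_lit 0) (XT.nd (nat_lit 37518) (nat_lit 0) (nat_lit 0) (XT.nd (nat_lit 37362) (nat_lit 0) (nat_lit 0) (XT.lf (nat_lit 0) (nat_lit 305971829462) (nat_lit 76) (nat_lit 801893815706) (nat_lit 76) (nat_lit 801893815706) (nat_lit 1) (nat_lit 4) (nat_lit 2) (nat_lit 5) (nat_lit 2) (nat_lit 4) (nat_lit 344) (nat_lit 188) (nat_lit 188)) (XT.nd (nat_lit 78) (nat_lit 0) (nat_lit 0) (XT.lf (nat_lit 0) (nat_lit 261685103774) (nat_lit 76) (nat_lit 687826545392) (nat_lit 76) (nat_lit 687826545392) (nat_lit 1) (nat_lit 4) (nat_lit 2) (nat_lit 5) (nat_lit 2) (nat_lit 4) (nat_lit 342) (nat_lit 189) (nat_lit 189)) (XT.lf (nat_lit 0) (nat_lit 565962392279) (nat_lit 76) (nat_lit 1485339936794) (nat_lit 76) (nat_lit 1485317208489) (nat_lit 1)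 (nat_lit 4) (nat_lit 2) (nat_lit 5) (nat_lit 2) (nat_lit 4) (nat_lit 343) (nat_lit 189) (nat_lit 188)))) (XT.nd (nat_lit 37206) (nat_lit 0) (nat_lit 0) (XT.lf (nat_lit 0) (nat_lit 611926721087) (nat_lit 76) (nat_lit 1603818349747) (nat_lit 76) (nat_lit 1603774576716) (nat_lit 1) (nat_lit 4) (nat_lit 2) (nat_lit 5) (nat_lit 2) (nat_lit 4) (nat_lit 344) (nat_lit 189) (nat_lit 187)) (XT.nd (nat_lit 78) (nat_lit 0) (nat_lit 0) (XT.lf (nat_lit 0) (nat_lit 223665460734) (nat_lit 76) (nat_lit 590058794220) (nat_lit 76) (nat_lit 590058794220) (nat_lit 1) (nat_lit 4) (nat_lit 2) (nat_lit 5) (nat_lit 2) (nat_lit 4) (nat_lit 340) (nat_lit 190) (nat_lit 190)) (XT.lf (nat_lit 0) (nat_lit 483897768763) (nat_lit 76) (nat_lit 1274132362162) (nat_lit 76) (nat_lit 1274107815593) (nat_lit 1) (nat_lit 4) (nat_lit 2) (nat_lit 5) (nat_lit 2) (nat_lit 4) (nat_lit 341) (nat_lit 190) (nat_lit 189))))) (XT.nd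 (nat_lit 37206) (nat_lit 0) (nat_lit 0) (XT.nd (nat_lit 78) (nat_lit 0) (nat_lit 0) (XT.lf (nat_lit 0) (nat_lit 523351914684) (nat_lit 76) (nat_lit 1375686266586) (nat_lit 76) (nat_lit 1375638991712) (nat_lit 1) (nat_lit 4) (nat_lit 2) (nat_lit 5) (nat_lit 2) (nat_lit 4) (nat_lit 342) (nat_lit 190) (nat_lit 188)) (XT.nd (nat_lit 78) (nat_lit 0) (nat_lit 0) (XT.lf (nat_lit 0) (nat_lit 565927161578) (nat_lit 76) (nat_lit 1485381102625) (nat_lit 76) (nat_lit 1485312783026) (nat_lit 1) (nat_lit 4) (nat_lit 2) (nat_lit 5) (nat_lit 2) (nat_lit 4) (nat_lit 343) (nat_lit 190) (nat_lit 187)) (XT.lf (nat_lit 0) (nat_lit 611875807204) (nat_lit 76) (nat_lit 1603866913754) (nat_lit 76) (nat_lit 1603779108297) (nat_lit 1) (nat_lit 4) (nat_lit 2) (nat_lit 5) (nat_lit 2) (nat_lit 4) (nat_lit 344) (nat_lit 190) (nat_lit 186)))) (XT.nd (nat_lit 156) (nat_lit 0) (nat_lit 0) (XT.nd (nat_lit 78) (nat_lit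 0) (nat_lit 0) (XT.lf (nat_lit 0) (nat_lit 191014757828) (nat_lit 76) (nat_lit 506267377384) (nat_lit 76) (nat_lit 506267377384) (nat_lit 1) (nat_lit 4) (nat_lit 2) (nat_lit 5) (nat_lit 2) (nat_lit 4) (nat_lit 338) (nat_lit 191) (nat_lit 191)) (XT.lf (nat_lit 0) (nat_lit 413434680372) (nat_lit 76) (nat_lit 1093111331129) (nat_lit 76) (nat_lit 1093084820835) (nat_lit 1) (nat_lit 4) (nat_lit 2) (nat_lit 5) (nat_lit 2) (nat_lit 4) (nat_lit 339) (nat_lit 191) (nat_lit 190))) (XT.nd (nat_lit 78) (nat_lit 0) (nat_lit 0) (XT.lf (nat_lit 0) (nat_lit 447311165176) (nat_lit 76) (nat_lit 1180153418306) (nat_lit 76) (nat_lit 1180102361443) (nat_lit 1) (nat_lit 4) (nat_lit 2) (nat_lit 5) (nat_lit 2) (nat_lit 4) (nat_lit 340) (nat_lit 191) (nat_lit 189)) (XT.lf (nat_lit 0) (nat_lit 483859719606) (nat_lit 76) (nat_lit 1274176821260) (nat_lit 76) (nat_lit 1274103036093) (nat_lit 1) (nat_lit 4) (nat_lit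 2) (nat_lit 5) (nat_lit 2) (nat_lit 4) (nat_lit 341) (nat_lit 191) (nat_lit 188)))))) (XT.nd (nat_lit 37284) (nat_lit 0) (nat_lit 0) (XT.nd (nat_lit 37050) (nat_lit 0) (nat_lit 0) (XT.nd (nat_lit 78) (nat_lit 0) (nat_lit 0) (XT.lf (nat_lit 0) (nat_lit 523296927690) (nat_lit 76) (nat_lit 1375738715714) (nat_lit 76) (nat_lit 1375643885820) (nat_lit 1) (nat_lit 4) (nat_lit 2) (nat_lit 5) (nat_lit 2) (nat_lit 4) (nat_lit 342) (nat_lit 191) (nat_lit 187)) (XT.nd (nat_lit 78) (nat_lit 0) (nat_lit 0) (XT.lf (nat_lit 0) (nat_lit 565856491401) (nat_lit 76) (nat_lit 1485440949929) (nat_lit 76) (nat_lit 1485326634178) (nat_lit 1) (nat_lit 4) (nat_lit 2) (nat_lit 5) (nat_lit 2) (nat_lit 4) (nat_lit 343) (nat_lit 191) (nat_lit 186)) (XT.lf (nat_lit 0) (nat_lit 611790615562) (nat_lit 76) (nat_lit 1603933611221) (nat_lit 76) (nat_lit 1603801253009) (nat_lit 1) (nat_lit 4) (nat_lit 2) (nat_lit 5) (nat_lit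 2) (nat_lit 4) (nat_lit 344) (nat_lit 191) (nat_lit 185)))) (XT.nd (nat_lit 78) (nat_lit 0) (nat_lit 0) (XT.lf (nat_lit 0) (nat_lit 162962656763) (nat_lit 76) (nat_lit 434460708270) (nat_lit 76) (nat_lit 434460708270) (nat_lit 1) (nat_lit 4) (nat_lit 2) (nat_lit 5) (nat_lit 2) (nat_lit 4) (nat_lit 336) (nat_lit 192) (nat_lit 192)) (XT.nd (nat_lit 78) (nat_lit 0) (nat_lit 0) (XT.lf (nat_lit 0) (nat_lit 352909566349) (nat_lit 76) (nat_lit 937974829521) (nat_lit 76) (nat_lit 937946198403) (nat_lit 1) (nat_lit 4) (nat_lit 2) (nat_lit 5) (nat_lit 2) (nat_lit 4) (nat_lit 337) (nat_lit 192) (nat_lit 191)) (XT.lf (nat_lit 0) (nat_lit 382008178860) (nat_lit 76) (nat_lit 1012573451024) (nat_lit 76) (nat_lit 1012518309612) (nat_lit 1) (nat_lit 4) (nat_lit 2) (nat_lit 5) (nat_lit 2) (nat_lit 4) (nat_lit 338) (nat_lit 192) (nat_lit 190))))) (XT.nd (nat_lit 234) (nat_lit 0) (nat_lit 0) (XT.nd (nat_lit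 78) (nat_lit 0) (nat_lit 0) (XT.lf (nat_lit 0) (nat_lit 413393587283) (nat_lit 76) (nat_lit 1093159346955) (nat_lit 76) (nat_lit 1093079658974) (nat_lit 1) (nat_lit 4) (nat_lit 2) (nat_lit 5) (nat_lit 2) (nat_lit 4) (nat_lit 339) (nat_lit 192) (nat_lit 189)) (XT.nd (nat_lit 78) (nat_lit 0) (nat_lit 0) (XT.lf (nat_lit 0) (nat_lit 447251779222) (nat_lit 76) (nat_lit 1180210063364) (nat_lit 76) (nat_lit 1180107647079) (nat_lit 1) (nat_lit 4) (nat_lit 2) (nat_lit 5) (nat_lit 2) (nat_lit 4) (nat_lit 340) (nat_lit 192) (nat_lit 188)) (XT.lf (nat_lit 0) (nat_lit 483783395815) (nat_lit 76) (nat_lit 1274241456349) (nat_lit 76) (nat_lit 1274117995337) (nat_lit 1) (nat_lit 4) (nat_lit 2) (nat_lit 5) (nat_lit 2) (nat_lit 4) (nat_lit 341) (nat_lit 192) (nat_lit 187)))) (XT.nd (nat_lit 156) (nat_lit 0) (nat_lit 0) (XT.nd (nat_lit 78) (nat_lit 0) (nat_lit 0) (XT.lf (nat_lit 0) (nat_lit 523204920717)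 (nat_lit 76) (nat_lit 1375810748978) (nat_lit 76) (nat_lit 1375667802108) (nat_lit 1) (nat_lit 4) (nat_lit 2) (nat_lit 5) (nat_lit 2) (nat_lit 4) (nat_lit 342) (nat_lit 192) (nat_lit 186)) (XT.lf (nat_lit 0) (nat_lit 565749962963) (nat_lit 76) (nat_lit 1485519833357) (nat_lit 76) (nat_lit 1485358844026) (nat_lit 1) (nat_lit 4) (nat_lit 2) (nat_lit 5) (nat_lit 2) (nat_lit 4) (nat_lit 343) (nat_lit 192) (nat_lit 185))) (XT.nd (nat_lit 36738) (nat_lit 0) (nat_lit 0) (XT.lf (nat_lit 0) (nat_lit 611670641323) (nat_lit 76) (nat_lit 1604018837392) (nat_lit 76) (nat_lit 1603841142080) (nat_lit 1) (nat_lit 4) (nat_lit 2) (nat_lit 5) (nat_lit 2) (nat_lit 4) (nat_lit 344) (nat_lit 192) (nat_lit 184)) (XT.lf (nat_lit 0) (nat_lit 138848364699) (nat_lit 76) (nat_lit 372931505857) (nat_lit 76) (nat_lit 372931505857) (nat_lit 1) (nat_lit 4) (nat_lit 2) (nat_lit 5) (nat_lit 2) (nat_lit 4) (nat_lit 334)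 (nat_lit 193) (nat_lit 193))))))) (XT.nd (nat_lit 37518) (nat_lit 0) (nat_lit 0) (XT.nd (nat_lit 468) (nat_lit 0) (nat_lit 0) (XT.nd (nat_lit 234) (nat_lit 0) (nat_lit 0) (XT.nd (nat_lit 78) (nat_lit 0) (nat_lit 0) (XT.lf (nat_lit 0) (nat_lit 300895513710) (nat_lit 76) (nat_lit 805034928281) (nat_lit 76) (nat_lit 805004006674) (nat_lit 1) (nat_lit 4) (nat_lit 2) (nat_lit 5) (nat_lit 2) (nat_lit 4) (nat_lit 335) (nat_lit 193) (nat_lit 192)) (XT.nd (nat_lit 78) (nat_lit 0) (nat_lit 0) (XT.lf (nat_lit 0) (nat_lit 325902269786) (nat_lit 76) (nat_lit 868963208496) (nat_lit 76) (nat_lit 868903655771) (nat_lit 1) (nat_lit 4) (nat_lit 2) (nat_lit 5) (nat_lit 2) (nat_lit 4) (nat_lit 336) (nat_lit 193) (nat_lit 191)) (XT.lf (nat_lit 0) (nat_lit 352865185812) (nat_lit 76) (nat_lit 938026686613) (nat_lit 76) (nat_lit 937940623594) (nat_lit 1) (nat_lit 4) (nat_lit 2) (nat_lit 5) (nat_lit 2) (nat_lit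 4) (nat_lit 337) (nat_lit 193) (nat_lit 190)))) (XT.nd (nat_lit 78) (nat_lit 0) (nat_lit 0) (XT.lf (nat_lit 0) (nat_lit 381944042030) (nat_lit 76) (nat_lit 1012634627687) (nat_lit 76) (nat_lit 1012524018099) (nat_lit 1) (nat_lit 4) (nat_lit 2) (nat_lit 5) (nat_lit 2) (nat_lit 4) (nat_lit 338) (nat_lit 193) (nat_lit 189)) (XT.nd (nat_lit 78) (nat_lit 0) (nat_lit 0) (XT.lf (nat_lit 0) (nat_lit 413311157589) (nat_lit 76) (nat_lit 1093229152851) (nat_lit 76) (nat_lit 1093095814958) (nat_lit 1) (nat_lit 4) (nat_lit 2) (nat_lit 5) (nat_lit 2) (nat_lit 4) (nat_lit 339) (nat_lit 193) (nat_lit 188)) (XT.lf (nat_lit 0) (nat_lit 447152411691) (nat_lit 76) (nat_lit 1180287859290) (nat_lit 76) (nat_lit 1180133476671) (nat_lit 1) (nat_lit 4) (nat_lit 2) (nat_lit 5) (nat_lit 2) (nat_lit 4) (nat_lit 340) (nat_lit 193) (nat_lit 187))))) (XT.nd (nat_lit 234) (nat_lit 0) (nat_lit 0) (XT.nd (nat_lit 78)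 (nat_lit 0) (nat_lit 0) (XT.lf (nat_lit 0) (nat_lit 483668345102) (nat_lit 76) (nat_lit 1274326650450) (nat_lit 76) (nat_lit 1274152781973) (nat_lit 1) (nat_lit 4) (nat_lit 2) (nat_lit 5) (nat_lit 2) (nat_lit 4) (nat_lit 341) (nat_lit 193) (nat_lit 186)) (XT.nd (nat_lit 78) (nat_lit 0) (nat_lit 0) (XT.lf (nat_lit 0) (nat_lit 523075348539) (nat_lit 76) (nat_lit 1375902793243) (nat_lit 76) (nat_lit 1375710882305) (nat_lit 1) (nat_lit 4) (nat_lit 2) (nat_lit 5) (nat_lit 2) (nat_lit 4) (nat_lit 342) (nat_lit 193) (nat_lit 185)) (XT.lf (nat_lit 0) (nat_lit 565606944984) (nat_lit 76) (nat_lit 1485618220365) (nat_lit 76) (nat_lit 1485409603445) (nat_lit 1) (nat_lit 4) (nat_lit 2) (nat_lit 5) (nat_lit 2) (nat_lit 4) (nat_lit 343) (nat_lit 193) (nat_lit 184)))) (XT.nd (nat_lit 36660) (nat_lit 0) (nat_lit 0) (XT.nd (nat_lit 36582) (nat_lit 0) (nat_lit 0) (XT.lf (nat_lit 0) (nat_lit 611515173527)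 (nat_lit 76) (nat_lit 1604123097311) (nat_lit 76) (nat_lit 1603899011889) (nat_lit 1) (nat_lit 4) (nat_lit 2) (nat_lit 5) (nat_lit 2) (nat_lit 4) (nat_lit 344) (nat_lit 193) (nat_lit 183)) (XT.lf (nat_lit 0) (nat_lit 118104978212) (nat_lit 76) (nat_lit 320216250027) (nat_lit 76) (nat_lit 320216250027) (nat_lit 1) (nat_lit 4) (nat_lit 2) (nat_lit 5) (nat_lit 2) (nat_lit 4) (nat_lit 332) (nat_lit 194) (nat_lit 194))) (XT.nd (nat_lit 78) (nat_lit 0) (nat_lit 0) (XT.lf (nat_lit 0) (nat_lit 256168442575) (nat_lit 76) (nat_lit 691130205739) (nat_lit 76) (nat_lit 691096810403) (nat_lit 1) (nat_lit 4) (nat_lit 2) (nat_lit 5) (nat_lit 2) (nat_lit 4) (nat_lit 333) (nat_lit 194) (nat_lit 193)) (XT.lf (nat_lit 0) (nat_lit 277671842159) (nat_lit 76) (nat_lit 745908147026) (nat_lit 76) (nat_lit 745843830083) (nat_lit 1) (nat_lit 4) (nat_lit 2) (nat_lit 5) (nat_lit 2) (nat_lit 4) (nat_lit 334) (nat_lit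 194) (nat_lit 192)))))) (XT.nd (nat_lit 546) (nat_lit 0) (nat_lit 0) (XT.nd (nat_lit 234) (nat_lit 0) (nat_lit 0) (XT.nd (nat_lit 78) (nat_lit 0) (nat_lit 0) (XT.lf (nat_lit 0) (nat_lit 300847582730) (nat_lit 76) (nat_lit 805090933941) (nat_lit 76) (nat_lit 804997985879) (nat_lit 1) (nat_lit 4) (nat_lit 2) (nat_lit 5) (nat_lit 2) (nat_lit 4) (nat_lit 335) (nat_lit 194) (nat_lit 191)) (XT.nd (nat_lit 78) (nat_lit 0) (nat_lit 0) (XT.lf (nat_lit 0) (nat_lit 325833002010) (nat_lit 76) (nat_lit 869029279292) (nat_lit 76) (nat_lit 868909820937) (nat_lit 1) (nat_lit 4) (nat_lit 2) (nat_lit 5) (nat_lit 2) (nat_lit 4) (nat_lit 336) (nat_lit 194) (nat_lit 190)) (XT.lf (nat_lit 0) (nat_lit 352776161742) (nat_lit 76) (nat_lit 938102076980) (nat_lit 76) (nat_lit 937958072056) (nat_lit 1) (nat_lit 4) (nat_lit 2) (nat_lit 5) (nat_lit 2) (nat_lit 4) (nat_lit 337) (nat_lit 194) (nat_lit 189)))) (XT.nd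 (nat_lit 156) (nat_lit 0) (nat_lit 0) (XT.nd (nat_lit 78) (nat_lit 0) (nat_lit 0) (XT.lf (nat_lit 0) (nat_lit 381836725097) (nat_lit 76) (nat_lit 1012718647287) (nat_lit 76) (nat_lit 1012551914058) (nat_lit 1) (nat_lit 4) (nat_lit 2) (nat_lit 5) (nat_lit 2) (nat_lit 4) (nat_lit 338) (nat_lit 194) (nat_lit 188)) (XT.lf (nat_lit 0) (nat_lit 413186902818) (nat_lit 76) (nat_lit 1093321162480) (nat_lit 76) (nat_lit 1093133384525) (nat_lit 1) (nat_lit 4) (nat_lit 2) (nat_lit 5) (nat_lit 2) (nat_lit 4) (nat_lit 339) (nat_lit 194) (nat_lit 187))) (XT.nd (nat_lit 78) (nat_lit 0) (nat_lit 0) (XT.lf (nat_lit 0) (nat_lit 447012473738) (nat_lit 76) (nat_lit 1180387267096) (nat_lit 76) (nat_lit 1180180003283) (nat_lit 1) (nat_lit 4) (nat_lit 2) (nat_lit 5) (nat_lit 2) (nat_lit 4) (nat_lit 340) (nat_lit 194) (nat_lit 186)) (XT.lf (nat_lit 0) (nat_lit 483513885684) (nat_lit 76) (nat_lit 1274432908419)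 (nat_lit 76) (nat_lit 1274207602145) (nat_lit 1) (nat_lit 4) (nat_lit 2) (nat_lit 5) (nat_lit 2) (nat_lit 4) (nat_lit 341) (nat_lit 194) (nat_lit 185))))) (XT.nd (nat_lit 36582) (nat_lit 0) (nat_lit 0) (XT.nd (nat_lit 78) (nat_lit 0) (nat_lit 0) (XT.lf (nat_lit 0) (nat_lit 522907443320) (nat_lit 76) (nat_lit 1376015393955) (nat_lit 76) (nat_lit 1375773381699) (nat_lit 1) (nat_lit 4) (nat_lit 2) (nat_lit 5) (nat_lit 2) (nat_lit 4) (nat_lit 342) (nat_lit 194) (nat_lit 184)) (XT.nd (nat_lit 78) (nat_lit 0) (nat_lit 0) (XT.lf (nat_lit 0) (nat_lit 565426589949) (nat_lit 76) (nat_lit 1485736693988) (nat_lit 76) (nat_lit 1485479213230) (nat_lit 1) (nat_lit 4) (nat_lit 2) (nat_lit 5) (nat_lit 2) (nat_lit 4) (nat_lit 343) (nat_lit 194) (nat_lit 183)) (XT.lf (nat_lit 0) (nat_lit 611323290885) (nat_lit 76) (nat_lit 1604247008814) (nat_lit 76) (nat_lit 1603975205369) (nat_lit 1) (nat_lit 4) (nat_lit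 2) (nat_lit 5) (nat_lit 2) (nat_lit 4) (nat_lit 344) (nat_lit 194) (nat_lit 182)))) (XT.nd (nat_lit 156) (nat_lit 0) (nat_lit 0) (XT.nd (nat_lit 78) (nat_lit 0) (nat_lit 0) (XT.lf (nat_lit 0) (nat_lit 100246058514) (nat_lit 76) (nat_lit 275060422201) (nat_lit 76) (nat_lit 275060422201) (nat_lit 1) (nat_lit 4) (nat_lit 2) (nat_lit 5) (nat_lit 2) (nat_lit 4) (nat_lit 330) (nat_lit 195) (nat_lit 195)) (XT.lf (nat_lit 0) (nat_lit 217678111198) (nat_lit 76) (nat_lit 593550666089) (nat_lit 76) (nat_lit 593514599126) (nat_lit 1) (nat_lit 4) (nat_lit 2) (nat_lit 5) (nat_lit 2) (nat_lit 4) (nat_lit 331) (nat_lit 195) (nat_lit 194))) (XT.nd (nat_lit 78) (nat_lit 0) (nat_lit 0) (XT.lf (nat_lit 0) (nat_lit 236183078206) (nat_lit 76) (nat_lit 640481246191) (nat_lit 76) (nat_lit 640411783893) (nat_lit 1) (nat_lit 4) (nat_lit 2) (nat_lit 5) (nat_lit 2) (nat_lit 4) (nat_lit 332) (nat_lit 195) (nat_lit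 193)) (XT.lf (nat_lit 0) (nat_lit 256116677117) (nat_lit 76) (nat_lit 691190691851) (nat_lit 76) (nat_lit 691090307945) (nat_lit 1) (nat_lit 4) (nat_lit 2) (nat_lit 5) (nat_lit 2) (nat_lit 4) (nat_lit 333) (nat_lit 195) (nat_lit 192))))))))
noncomputable def xc1 : XT := (XT.nd (nat_lit 38220) (nat_lit 0) (nat_lit 0) (XT.nd (nat_lit 37206) (nat_lit 0) (nat_lit 0) (XT.nd (nat_lit 468) (nat_lit 0) (nat_lit 0) (XT.nd (nat_lit 234) (nat_lit 0) (nat_lit 0) (XT.nd (nat_lit 78) (nat_lit 0) (nat_lit 0) (XT.lf (nat_lit 0) (nat_lit 277597032960) (nat_lit 76) (nat_lit 745979503486) (nat_lit 76) (nat_lit 745850488462) (nat_lit 1) (nat_lit 4) (nat_lit 2) (nat_lit 5) (nat_lit 2) (nat_lit 4) (nat_lit 334) (nat_lit 195) (nat_lit 191)) (XT.nd (nat_lit 78) (nat_lit 0) (nat_lit 0) (XT.lf (nat_lit 0) (nat_lit 300751436735) (nat_lit 76) (nat_lit 805172355537) (nat_lit 76) (nat_lit 805016830219) (nat_lit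 1) (nat_lit 4) (nat_lit 2) (nat_lit 5) (nat_lit 2) (nat_lit 4) (nat_lit 335) (nat_lit 195) (nat_lit 190)) (XT.lf (nat_lit 0) (nat_lit 325717099722) (nat_lit 76) (nat_lit 869120020460) (nat_lit 76) (nat_lit 868939948573) (nat_lit 1) (nat_lit 4) (nat_lit 2) (nat_lit 5) (nat_lit 2) (nat_lit 4) (nat_lit 336) (nat_lit 195) (nat_lit 189)))) (XT.nd (nat_lit 78) (nat_lit 0) (nat_lit 0) (XT.lf (nat_lit 0) (nat_lit 352641966591) (nat_lit 76) (nat_lit 938201447380) (nat_lit 76) (nat_lit 937998647189) (nat_lit 1) (nat_lit 4) (nat_lit 2) (nat_lit 5) (nat_lit 2) (nat_lit 4) (nat_lit 337) (nat_lit 195) (nat_lit 188)) (XT.nd (nat_lit 78) (nat_lit 0) (nat_lit 0) (XT.lf (nat_lit 0) (nat_lit 381685592108) (nat_lit 76) (nat_lit 1012826007717) (nat_lit 76) (nat_lit 1012602162799) (nat_lit 1) (nat_lit 4) (nat_lit 2) (nat_lit 5) (nat_lit 2) (nat_lit 4) (nat_lit 338) (nat_lit 195) (nat_lit 187)) (XT.lf (nat_lit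 0) (nat_lit 413020086647) (nat_lit 76) (nat_lit 1093435921087) (nat_lit 76) (nat_lit 1093192590311) (nat_lit 1) (nat_lit 4) (nat_lit 2) (nat_lit 5) (nat_lit 2) (nat_lit 4) (nat_lit 339) (nat_lit 195) (nat_lit 186))))) (XT.nd (nat_lit 234) (nat_lit 0) (nat_lit 0) (XT.nd (nat_lit 78) (nat_lit 0) (nat_lit 0) (XT.lf (nat_lit 0) (nat_lit 446831136102) (nat_lit 76) (nat_lit 1180508875865) (nat_lit 76) (nat_lit 1180247502628) (nat_lit 1) (nat_lit 4) (nat_lit 2) (nat_lit 5) (nat_lit 2) (nat_lit 4) (nat_lit 340) (nat_lit 195) (nat_lit 185)) (XT.nd (nat_lit 78) (nat_lit 0) (nat_lit 0) (XT.lf (nat_lit 0) (nat_lit 483319102247) (nat_lit 76) (nat_lit 1274560859932) (nat_lit 76) (nat_lit 1274282780713) (nat_lit 1) (nat_lit 4) (nat_lit 2) (nat_lit 5) (nat_lit 2) (nat_lit 4) (nat_lit 341) (nat_lit 195) (nat_lit 184)) (XT.lf (nat_lit 0) (nat_lit 522700210066) (nat_lit 76) (nat_lit 1376149218378) (nat_lit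 76) (nat_lit 1375855670658) (nat_lit 1) (nat_lit 4) (nat_lit 2) (nat_lit 5) (nat_lit 2) (nat_lit 4) (nat_lit 342) (nat_lit 195) (nat_lit 183)))) (XT.nd (nat_lit 36348) (nat_lit 0) (nat_lit 0) (XT.nd (nat_lit 78) (nat_lit 0) (nat_lit 0) (XT.lf (nat_lit 0) (nat_lit 565207829088) (nat_lit 76) (nat_lit 1485875956291) (nat_lit 76) (nat_lit 1485568085884) (nat_lit 1) (nat_lit 4) (nat_lit 2) (nat_lit 5) (nat_lit 2) (nat_lit 4) (nat_lit 343) (nat_lit 195) (nat_lit 182)) (XT.lf (nat_lit 0) (nat_lit 611093856314) (nat_lit 76) (nat_lit 1604391306192) (nat_lit 76) (nat_lit 1604070174037) (nat_lit 1) (nat_lit 4) (nat_lit 2) (nat_lit 5) (nat_lit 2) (nat_lit 4) (nat_lit 344) (nat_lit 195) (nat_lit 181))) (XT.nd (nat_lit 78) (nat_lit 0) (nat_lit 0) (XT.lf (nat_lit 0) (nat_lit 84854119434) (nat_lit 76) (nat_lit 236388706056) (nat_lit 76) (nat_lit 236388706056) (nat_lit 1) (nat_lit 4) (nat_lit 2) (nat_lit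 5) (nat_lit 2) (nat_lit 4) (nat_lit 328) (nat_lit 196) (nat_lit 196)) (XT.lf (nat_lit 0) (nat_lit 184523252769) (nat_lit 76) (nat_lit 509973371546) (nat_lit 76) (nat_lit 509934419227) (nat_lit 1) (nat_lit 4) (nat_lit 2) (nat_lit 5) (nat_lit 2) (nat_lit 4) (nat_lit 329) (nat_lit 196) (nat_lit 195)))))) (XT.nd (nat_lit 468) (nat_lit 0) (nat_lit 0) (XT.nd (nat_lit 234) (nat_lit 0) (nat_lit 0) (XT.nd (nat_lit 78) (nat_lit 0) (nat_lit 0) (XT.lf (nat_lit 0) (nat_lit 200463088552) (nat_lit 76) (nat_lit 550173490230) (nat_lit 76) (nat_lit 550098470948) (nat_lit 1) (nat_lit 4) (nat_lit 2) (nat_lit 5) (nat_lit 2) (nat_lit 4) (nat_lit 330) (nat_lit 196) (nat_lit 194)) (XT.nd (nat_lit 78) (nat_lit 0) (nat_lit 0) (XT.lf (nat_lit 0) (nat_lit 217622204503) (nat_lit 76) (nat_lit 593615991090) (nat_lit 76) (nat_lit 593507576472) (nat_lit 1) (nat_lit 4) (nat_lit 2) (nat_lit 5) (nat_lit 2) (nat_lit 4)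 (nat_lit 331) (nat_lit 196) (nat_lit 193)) (XT.lf (nat_lit 0) (nat_lit 236102284272) (nat_lit 76) (nat_lit 640558311168) (nat_lit 76) (nat_lit 640418974942) (nat_lit 1) (nat_lit 4) (nat_lit 2) (nat_lit 5) (nat_lit 2) (nat_lit 4) (nat_lit 332) (nat_lit 196) (nat_lit 192)))) (XT.nd (nat_lit 78) (nat_lit 0) (nat_lit 0) (XT.lf (nat_lit 0) (nat_lit 256012839442) (nat_lit 76) (nat_lit 691278627175) (nat_lit 76) (nat_lit 691110659831) (nat_lit 1) (nat_lit 4) (nat_lit 2) (nat_lit 5) (nat_lit 2) (nat_lit 4) (nat_lit 333) (nat_lit 196) (nat_lit 191)) (XT.nd (nat_lit 78) (nat_lit 0) (nat_lit 0) (XT.lf (nat_lit 0) (nat_lit 277471858489) (nat_lit 76) (nat_lit 746077503947) (nat_lit 76) (nat_lit 745883026309) (nat_lit 1) (nat_lit 4) (nat_lit 2) (nat_lit 5) (nat_lit 2) (nat_lit 4) (nat_lit 334) (nat_lit 196) (nat_lit 190)) (XT.lf (nat_lit 0) (nat_lit 300606505971) (nat_lit 76) (nat_lit 805279675569)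 (nat_lit 76) (nat_lit 805060651362) (nat_lit 1) (nat_lit 4) (nat_lit 2) (nat_lit 5) (nat_lit 2) (nat_lit 4) (nat_lit 335) (nat_lit 196) (nat_lit 189))))) (XT.nd (nat_lit 234) (nat_lit 0) (nat_lit 0) (XT.nd (nat_lit 78) (nat_lit 0) (nat_lit 0) (XT.lf (nat_lit 0) (nat_lit 325553876094) (nat_lit 76) (nat_lit 869235969725) (nat_lit 76) (nat_lit 868994217213) (nat_lit 1) (nat_lit 4) (nat_lit 2) (nat_lit 5) (nat_lit 2) (nat_lit 4) (nat_lit 336) (nat_lit 196) (nat_lit 188)) (XT.nd (nat_lit 78) (nat_lit 0) (nat_lit 0) (XT.lf (nat_lit 0) (nat_lit 352461805125) (nat_lit 76) (nat_lit 938325386675) (nat_lit 76) (nat_lit 938062589437) (nat_lit 1) (nat_lit 4) (nat_lit 2) (nat_lit 5) (nat_lit 2) (nat_lit 4) (nat_lit 337) (nat_lit 196) (nat_lit 187)) (XT.lf (nat_lit 0) (nat_lit 381489747460) (nat_lit 76) (nat_lit 1012957345188) (nat_lit 76) (nat_lit 1012675062092) (nat_lit 1) (nat_lit 4) (nat_lit 2)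 (nat_lit 5) (nat_lit 2) (nat_lit 4) (nat_lit 338) (nat_lit 196) (nat_lit 186)))) (XT.nd (nat_lit 156) (nat_lit 0) (nat_lit 0) (XT.nd (nat_lit 78) (nat_lit 0) (nat_lit 0) (XT.lf (nat_lit 0) (nat_lit 412809720534) (nat_lit 76) (nat_lit 1093574108720) (nat_lit 76) (nat_lit 1093273783164) (nat_lit 1) (nat_lit 4) (nat_lit 2) (nat_lit 5) (nat_lit 2) (nat_lit 4) (nat_lit 339) (nat_lit 196) (nat_lit 185)) (XT.lf (nat_lit 0) (nat_lit 446607324188) (nat_lit 76) (nat_lit 1180653406242) (nat_lit 76) (nat_lit 1180336374704) (nat_lit 1) (nat_lit 4) (nat_lit 2) (nat_lit 5) (nat_lit 2) (nat_lit 4) (nat_lit 340) (nat_lit 196) (nat_lit 184))) (XT.nd (nat_lit 78) (nat_lit 0) (nat_lit 0) (XT.lf (nat_lit 0) (nat_lit 483082840517) (nat_lit 76) (nat_lit 1274711263220) (nat_lit 76) (nat_lit 1274378763179) (nat_lit 1) (nat_lit 4) (nat_lit 2) (nat_lit 5) (nat_lit 2) (nat_lit 4) (nat_lit 341) (nat_lit 196) (nat_lit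 183)) (XT.lf (nat_lit 0) (nat_lit 522452420729) (nat_lit 76) (nat_lit 1376305059546) (nat_lit 76) (nat_lit 1375958236819) (nat_lit 1) (nat_lit 4) (nat_lit 2) (nat_lit 5) (nat_lit 2) (nat_lit 4) (nat_lit 342) (nat_lit 196) (nat_lit 182))))))) (XT.nd (nat_lit 37050) (nat_lit 0) (nat_lit 0) (XT.nd (nat_lit 36504) (nat_lit 0) (nat_lit 0) (XT.nd (nat_lit 36270) (nat_lit 0) (nat_lit 0) (XT.nd (nat_lit 78) (nat_lit 0) (nat_lit 0) (XT.lf (nat_lit 0) (nat_lit 564949366040) (nat_lit 76) (nat_lit 1486036832534) (nat_lit 76) (nat_lit 1485676748059) (nat_lit 1) (nat_lit 4) (nat_lit 2) (nat_lit 5) (nat_lit 2) (nat_lit 4) (nat_lit 343) (nat_lit 196) (nat_lit 181)) (XT.nd (nat_lit 36114) (nat_lit 0) (nat_lit 0) (XT.lf (nat_lit 0) (nat_lit 610825510201) (nat_lit 76) (nat_lit 1604556844540) (nat_lit 76) (nat_lit 1604184480670) (nat_lit 1) (nat_lit 4) (nat_lit 2) (nat_lit 5) (nat_lit 2) (nat_lit 4) (nat_lit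 344) (nat_lit 196) (nat_lit 180)) (XT.lf (nat_lit 0) (nat_lit 71570755092) (nat_lit 76) (nat_lit 203279440811) (nat_lit 76) (nat_lit 203279440811) (nat_lit 1) (nat_lit 4) (nat_lit 2) (nat_lit 5) (nat_lit 2) (nat_lit 4) (nat_lit 326) (nat_lit 197) (nat_lit 197)))) (XT.nd (nat_lit 78) (nat_lit 0) (nat_lit 0) (XT.lf (nat_lit 0) (nat_lit 155930254174) (nat_lit 76) (nat_lit 438407259935) (nat_lit 76) (nat_lit 438365191429) (nat_lit 1) (nat_lit 4) (nat_lit 2) (nat_lit 5) (nat_lit 2) (nat_lit 4) (nat_lit 327) (nat_lit 197) (nat_lit 196)) (XT.nd (nat_lit 78) (nat_lit 0) (nat_lit 0) (XT.lf (nat_lit 0) (nat_lit 169676888114) (nat_lit 76) (nat_lit 472834269606) (nat_lit 76) (nat_lit 472753248781) (nat_lit 1) (nat_lit 4) (nat_lit 2) (nat_lit 5) (nat_lit 2) (nat_lit 4) (nat_lit 328) (nat_lit 197) (nat_lit 195)) (XT.lf (nat_lit 0) (nat_lit 184462873539) (nat_lit 76) (nat_lit 510043922547) (nat_lit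 76) (nat_lit 509926834760) (nat_lit 1) (nat_lit 4) (nat_lit 2) (nat_lit 5) (nat_lit 2) (nat_lit 4) (nat_lit 329) (nat_lit 197) (nat_lit 194))))) (XT.nd (nat_lit 234) (nat_lit 0) (nat_lit 0) (XT.nd (nat_lit 78) (nat_lit 0) (nat_lit 0) (XT.lf (nat_lit 0) (nat_lit 200375831103) (nat_lit 76) (nat_lit 550256720405) (nat_lit 76) (nat_lit 550106237281) (nat_lit 1) (nat_lit 4) (nat_lit 2) (nat_lit 5) (nat_lit 2) (nat_lit 4) (nat_lit 330) (nat_lit 197) (nat_lit 193)) (XT.nd (nat_lit 78) (nat_lit 0) (nat_lit 0) (XT.lf (nat_lit 0) (nat_lit 217510059815) (nat_lit 76) (nat_lit 593710961240) (nat_lit 76) (nat_lit 593529556509) (nat_lit 1) (nat_lit 4) (nat_lit 2) (nat_lit 5) (nat_lit 2) (nat_lit 4) (nat_lit 331) (nat_lit 197) (nat_lit 192)) (XT.lf (nat_lit 0) (nat_lit 235967095843) (nat_lit 76) (nat_lit 640664151666) (nat_lit 76) (nat_lit 640454115817) (nat_lit 1) (nat_lit 4) (nat_lit 2) (nat_lit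 5) (nat_lit 2) (nat_lit 4) (nat_lit 332) (nat_lit 197) (nat_lit 191)))) (XT.nd (nat_lit 156) (nat_lit 0) (nat_lit 0) (XT.nd (nat_lit 78) (nat_lit 0) (nat_lit 0) (XT.lf (nat_lit 0) (nat_lit 255856314217) (nat_lit 76) (nat_lit 691394532810) (nat_lit 76) (nat_lit 691157986666) (nat_lit 1) (nat_lit 4) (nat_lit 2) (nat_lit 5) (nat_lit 2) (nat_lit 4) (nat_lit 333) (nat_lit 197) (nat_lit 190)) (XT.lf (nat_lit 0) (nat_lit 277295576971) (nat_lit 76) (nat_lit 746202729153) (nat_lit 76) (nat_lit 745941636441) (nat_lit 1) (nat_lit 4) (nat_lit 2) (nat_lit 5) (nat_lit 2) (nat_lit 4) (nat_lit 334) (nat_lit 197) (nat_lit 189))) (XT.nd (nat_lit 78) (nat_lit 0) (nat_lit 0) (XT.lf (nat_lit 0) (nat_lit 300411931588) (nat_lit 76) (nat_lit 805413530007) (nat_lit 76) (nat_lit 805129708991) (nat_lit 1) (nat_lit 4) (nat_lit 2) (nat_lit 5) (nat_lit 2) (nat_lit 4) (nat_lit 335) (nat_lit 197) (nat_lit 188)) (XT.lf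 (nat_lit 0) (nat_lit 325342363874) (nat_lit 76) (nat_lit 869377814193) (nat_lit 76) (nat_lit 869072948450) (nat_lit 1) (nat_lit 4) (nat_lit 2) (nat_lit 5) (nat_lit 2) (nat_lit 4) (nat_lit 336) (nat_lit 197) (nat_lit 187)))))) (XT.nd (nat_lit 546) (nat_lit 0) (nat_lit 0) (XT.nd (nat_lit 234) (nat_lit 0) (nat_lit 0) (XT.nd (nat_lit 78) (nat_lit 0) (nat_lit 0) (XT.lf (nat_lit 0) (nat_lit 352234609724) (nat_lit 76) (nat_lit 938474629319) (nat_lit 76) (nat_lit 938150277719) (nat_lit 1) (nat_lit 4) (nat_lit 2) (nat_lit 5) (nat_lit 2) (nat_lit 4) (nat_lit 337) (nat_lit 197) (nat_lit 186)) (XT.nd (nat_lit 78) (nat_lit 0) (nat_lit 0) (XT.lf (nat_lit 0) (nat_lit 381248030593) (nat_lit 76) (nat_lit 1013113437995) (nat_lit 76) (nat_lit 1012771043934) (nat_lit 1) (nat_lit 4) (nat_lit 2) (nat_lit 5) (nat_lit 2) (nat_lit 4) (nat_lit 338) (nat_lit 197) (nat_lit 185)) (XT.lf (nat_lit 0) (nat_lit 412554557866)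 (nat_lit 76) (nat_lit 1093736544271) (nat_lit 76) (nat_lit 1093377444227) (nat_lit 1) (nat_lit 4) (nat_lit 2) (nat_lit 5) (nat_lit 2) (nat_lit 4) (nat_lit 339) (nat_lit 197) (nat_lit 184)))) (XT.nd (nat_lit 156) (nat_lit 0) (nat_lit 0) (XT.nd (nat_lit 78) (nat_lit 0) (nat_lit 0) (XT.lf (nat_lit 0) (nat_lit 446339711704) (nat_lit 76) (nat_lit 1180821714704) (nat_lit 76) (nat_lit 1180447146158) (nat_lit 1) (nat_lit 4) (nat_lit 2) (nat_lit 5) (nat_lit 2) (nat_lit 4) (nat_lit 340) (nat_lit 197) (nat_lit 183)) (XT.lf (nat_lit 0) (nat_lit 482803700426) (nat_lit 76) (nat_lit 1274885009562) (nat_lit 76) (nat_lit 1274496118329) (nat_lit 1) (nat_lit 4) (nat_lit 2) (nat_lit 5) (nat_lit 2) (nat_lit 4) (nat_lit 341) (nat_lit 197) (nat_lit 182))) (XT.nd (nat_lit 78) (nat_lit 0) (nat_lit 0) (XT.lf (nat_lit 0) (nat_lit 522162606927) (nat_lit 76) (nat_lit 1376483840963) (nat_lit 76) (nat_lit 1376081687982)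 (nat_lit 1) (nat_lit 4) (nat_lit 2) (nat_lit 5) (nat_lit 2) (nat_lit 4) (nat_lit 342) (nat_lit 197) (nat_lit 181)) (XT.lf (nat_lit 0) (nat_lit 564649669174) (nat_lit 76) (nat_lit 1486220276056) (nat_lit 76) (nat_lit 1485805843680) (nat_lit 1) (nat_lit 4) (nat_lit 2) (nat_lit 5) (nat_lit 2) (nat_lit 4) (nat_lit 343) (nat_lit 197) (nat_lit 180))))) (XT.nd (nat_lit 36114) (nat_lit 0) (nat_lit 0) (XT.nd (nat_lit 35958) (nat_lit 0) (nat_lit 0) (XT.lf (nat_lit 0) (nat_lit 610516662348) (nat_lit 76) (nat_lit 1604744604827) (nat_lit 76) (nat_lit 1604318802640) (nat_lit 1) (nat_lit 4) (nat_lit 2) (nat_lit 5) (nat_lit 2) (nat_lit 4) (nat_lit 344) (nat_lit 197) (nat_lit 179)) (XT.nd (nat_lit 78) (nat_lit 0) (nat_lit 0) (XT.lf (nat_lit 0) (nat_lit 60088173132) (nat_lit 76) (nat_lit 174942720519) (nat_lit 76) (nat_lit 174942720519) (nat_lit 1) (nat_lit 4) (nat_lit 2) (nat_lit 5) (nat_lit 2) (nat_lit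 4) (nat_lit 324) (nat_lit 198) (nat_lit 198)) (XT.lf (nat_lit 0) (nat_lit 131234870995) (nat_lit 76) (nat_lit 377145837527) (nat_lit 76) (nat_lit 377100403541) (nat_lit 1) (nat_lit 4) (nat_lit 2) (nat_lit 5) (nat_lit 2) (nat_lit 4) (nat_lit 325) (nat_lit 198) (nat_lit 197)))) (XT.nd (nat_lit 156) (nat_lit 0) (nat_lit 0) (XT.nd (nat_lit 78) (nat_lit 0) (nat_lit 0) (XT.lf (nat_lit 0) (nat_lit 143107651370) (nat_lit 76) (nat_lit 406620287716) (nat_lit 76) (nat_lit 406532785225) (nat_lit 1) (nat_lit 4) (nat_lit 2) (nat_lit 5) (nat_lit 2) (nat_lit 4) (nat_lit 326) (nat_lit 198) (nat_lit 196)) (XT.lf (nat_lit 0) (nat_lit 155865044605) (nat_lit 76) (nat_lit 438483455016) (nat_lit 76) (nat_lit 438357000205) (nat_lit 1) (nat_lit 4) (nat_lit 2) (nat_lit 5) (nat_lit 2) (nat_lit 4) (nat_lit 327) (nat_lit 198) (nat_lit 195))) (XT.nd (nat_lit 78) (nat_lit 0) (nat_lit 0) (XT.lf (nat_lit 0) (nat_lit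 169582650069) (nat_lit 76) (nat_lit 472924158195) (nat_lit 76) (nat_lit 472761636421) (nat_lit 1) (nat_lit 4) (nat_lit 2) (nat_lit 5) (nat_lit 2) (nat_lit 4) (nat_lit 328) (nat_lit 198) (nat_lit 194)) (XT.lf (nat_lit 0) (nat_lit 184341757276) (nat_lit 76) (nat_lit 510146490310) (nat_lit 76) (nat_lit 509950573200) (nat_lit 1) (nat_lit 4) (nat_lit 2) (nat_lit 5) (nat_lit 2) (nat_lit 4) (nat_lit 329) (nat_lit 198) (nat_lit 193))))))))
noncomputable def xc2 : XT := (XT.nd (nat_lit 37752) (nat_lit 0) (nat_lit 0) (XT.nd (nat_lit 1014) (nat_lit 0) (nat_lit 0) (XT.nd (nat_lit 468) (nat_lit 0) (nat_lit 0) (XT.nd (nat_lit 234) (nat_lit 0) (nat_lit 0) (XT.nd (nat_lit 78) (nat_lit 0) (nat_lit 0) (XT.lf (nat_lit 0) (nat_lit 200229827600) (nat_lit 76) (nat_lit 550371028143) (nat_lit 76) (nat_lit 550144189426) (nat_lit 1) (nat_lit 4) (nat_lit 2) (nat_lit 5) (nat_lit 2) (nat_lit 4) (nat_lit 330) (nat_lit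 198) (nat_lit 192)) (XT.nd (nat_lit 78) (nat_lit 0) (nat_lit 0) (XT.lf (nat_lit 0) (nat_lit 217341012571) (nat_lit 76) (nat_lit 593836139326) (nat_lit 76) (nat_lit 593580669491) (nat_lit 1) (nat_lit 4) (nat_lit 2) (nat_lit 5) (nat_lit 2) (nat_lit 4) (nat_lit 331) (nat_lit 198) (nat_lit 191)) (XT.lf (nat_lit 0) (nat_lit 235776711803) (nat_lit 76) (nat_lit 640799394888) (nat_lit 76) (nat_lit 640517414759) (nat_lit 1) (nat_lit 4) (nat_lit 2) (nat_lit 5) (nat_lit 2) (nat_lit 4) (nat_lit 332) (nat_lit 198) (nat_lit 190)))) (XT.nd (nat_lit 78) (nat_lit 0) (nat_lit 0) (XT.lf (nat_lit 0) (nat_lit 255646173884) (nat_lit 76) (nat_lit 691539095603) (nat_lit 76) (nat_lit 691232568905) (nat_lit 1) (nat_lit 4) (nat_lit 2) (nat_lit 5) (nat_lit 2) (nat_lit 4) (nat_lit 333) (nat_lit 198) (nat_lit 189)) (XT.nd (nat_lit 78) (nat_lit 0) (nat_lit 0) (XT.lf (nat_lit 0) (nat_lit 277067143774) (nat_lit 76)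 (nat_lit 746355921179) (nat_lit 76) (nat_lit 746026666177) (nat_lit 1) (nat_lit 4) (nat_lit 2) (nat_lit 5) (nat_lit 2) (nat_lit 4) (nat_lit 334) (nat_lit 198) (nat_lit 188)) (XT.lf (nat_lit 0) (nat_lit 300166560555) (nat_lit 76) (nat_lit 805574712064) (nat_lit 76) (nat_lit 805224412335) (nat_lit 1) (nat_lit 4) (nat_lit 2) (nat_lit 5) (nat_lit 2) (nat_lit 4) (nat_lit 335) (nat_lit 198) (nat_lit 187))))) (XT.nd (nat_lit 234) (nat_lit 0) (nat_lit 0) (XT.nd (nat_lit 78) (nat_lit 0) (nat_lit 0) (XT.lf (nat_lit 0) (nat_lit 325081309658) (nat_lit 76) (nat_lit 869546394425) (nat_lit 76) (nat_lit 869176608839) (nat_lit 1) (nat_lit 4) (nat_lit 2) (nat_lit 5) (nat_lit 2) (nat_lit 4) (nat_lit 336) (nat_lit 198) (nat_lit 186)) (XT.nd (nat_lit 78) (nat_lit 0) (nat_lit 0) (XT.lf (nat_lit 0) (nat_lit 351959034042) (nat_lit 76) (nat_lit 938650059715) (nat_lit 76) (nat_lit 938262231667) (nat_lit 1) (nat_lit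 4) (nat_lit 2) (nat_lit 5) (nat_lit 2) (nat_lit 4) (nat_lit 337) (nat_lit 198) (nat_lit 185)) (XT.lf (nat_lit 0) (nat_lit 380959009111) (nat_lit 76) (nat_lit 1013295211134) (nat_lit 76) (nat_lit 1012890677104) (nat_lit 1) (nat_lit 4) (nat_lit 2) (nat_lit 5) (nat_lit 2) (nat_lit 4) (nat_lit 338) (nat_lit 198) (nat_lit 184)))) (XT.nd (nat_lit 156) (nat_lit 0) (nat_lit 0) (XT.nd (nat_lit 78) (nat_lit 0) (nat_lit 0) (XT.lf (nat_lit 0) (nat_lit 412253086568) (nat_lit 76) (nat_lit 1093924190320) (nat_lit 76) (nat_lit 1093504187789) (nat_lit 1) (nat_lit 4) (nat_lit 2) (nat_lit 5) (nat_lit 2) (nat_lit 4) (nat_lit 339) (nat_lit 198) (nat_lit 183)) (XT.lf (nat_lit 0) (nat_lit 446026712798) (nat_lit 76) (nat_lit 1181014798633) (nat_lit 76) (nat_lit 1180580473414) (nat_lit 1) (nat_lit 4) (nat_lit 2) (nat_lit 5) (nat_lit 2) (nat_lit 4) (nat_lit 340) (nat_lit 198) (nat_lit 182))) (XT.nd (nat_lit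 78) (nat_lit 0) (nat_lit 0) (XT.lf (nat_lit 0) (nat_lit 482480027810) (nat_lit 76) (nat_lit 1275083128565) (nat_lit 76) (nat_lit 1274635541599) (nat_lit 1) (nat_lit 4) (nat_lit 2) (nat_lit 5) (nat_lit 2) (nat_lit 4) (nat_lit 341) (nat_lit 198) (nat_lit 181)) (XT.lf (nat_lit 0) (nat_lit 521829051246) (nat_lit 76) (nat_lit 1376686622072) (nat_lit 76) (nat_lit 1376226755710) (nat_lit 1) (nat_lit 4) (nat_lit 2) (nat_lit 5) (nat_lit 2) (nat_lit 4) (nat_lit 342) (nat_lit 198) (nat_lit 180)))))) (XT.nd (nat_lit 36192) (nat_lit 0) (nat_lit 0) (XT.nd (nat_lit 35958) (nat_lit 0) (nat_lit 0) (XT.nd (nat_lit 78) (nat_lit 0) (nat_lit 0) (XT.lf (nat_lit 0) (nat_lit 564306962506) (nat_lit 76) (nat_lit 1486427373930) (nat_lit 76) (nat_lit 1485956137757) (nat_lit 1) (nat_lit 4) (nat_lit 2) (nat_lit 5) (nat_lit 2) (nat_lit 4) (nat_lit 343) (nat_lit 198) (nat_lit 179)) (XT.nd (nat_lit 35802) (nat_lit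 0) (nat_lit 0) (XT.lf (nat_lit 0) (nat_lit 610165482545) (nat_lit 76) (nat_lit 1604955699705) (nat_lit 76) (nat_lit 1604473935930) (nat_lit 1) (nat_lit 4) (nat_lit 2) (nat_lit 5) (nat_lit 2) (nat_lit 4) (nat_lit 344) (nat_lit 198) (nat_lit 178)) (XT.lf (nat_lit 0) (nat_lit 50141932773) (nat_lit 76) (nat_lit 150701619337) (nat_lit 76) (nat_lit 150701619337) (nat_lit 1) (nat_lit 4) (nat_lit 2) (nat_lit 5) (nat_lit 2) (nat_lit 4) (nat_lit 322) (nat_lit 199) (nat_lit 199)))) (XT.nd (nat_lit 78) (nat_lit 0) (nat_lit 0) (XT.lf (nat_lit 0) (nat_lit 109866545181) (nat_lit 76) (nat_lit 324726623868) (nat_lit 76) (nat_lit 324677555164) (nat_lit 1) (nat_lit 4) (nat_lit 2) (nat_lit 5) (nat_lit 2) (nat_lit 4) (nat_lit 323) (nat_lit 199) (nat_lit 198)) (XT.nd (nat_lit 78) (nat_lit 0) (nat_lit 0) (XT.lf (nat_lit 0) (nat_lit 120139778745) (nat_lit 76) (nat_lit 349951759620) (nat_lit 76) (nat_lit 349857256929)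 (nat_lit 1) (nat_lit 4) (nat_lit 2) (nat_lit 5) (nat_lit 2) (nat_lit 4) (nat_lit 324) (nat_lit 199) (nat_lit 197)) (XT.lf (nat_lit 0) (nat_lit 131164444661) (nat_lit 76) (nat_lit 377228128214) (nat_lit 76) (nat_lit 377091557019) (nat_lit 1) (nat_lit 4) (nat_lit 2) (nat_lit 5) (nat_lit 2) (nat_lit 4) (nat_lit 325) (nat_lit 199) (nat_lit 196))))) (XT.nd (nat_lit 234) (nat_lit 0) (nat_lit 0) (XT.nd (nat_lit 78) (nat_lit 0) (nat_lit 0) (XT.lf (nat_lit 0) (nat_lit 143005874281) (nat_lit 76) (nat_lit 406717367392) (nat_lit 76) (nat_lit 406541843876) (nat_lit 1) (nat_lit 4) (nat_lit 2) (nat_lit 5) (nat_lit 2) (nat_lit 4) (nat_lit 326) (nat_lit 199) (nat_lit 195)) (XT.nd (nat_lit 78) (nat_lit 0) (nat_lit 0) (XT.lf (nat_lit 0) (nat_lit 155734239041) (nat_lit 76) (nat_lit 438594228199) (nat_lit 76) (nat_lit 438382637720) (nat_lit 1) (nat_lit 4) (nat_lit 2) (nat_lit 5) (nat_lit 2) (nat_lit 4)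 (nat_lit 327) (nat_lit 199) (nat_lit 194)) (XT.lf (nat_lit 0) (nat_lit 169424966286) (nat_lit 76) (nat_lit 473047610552) (nat_lit 76) (nat_lit 472802624737) (nat_lit 1) (nat_lit 4) (nat_lit 2) (nat_lit 5) (nat_lit 2) (nat_lit 4) (nat_lit 328) (nat_lit 199) (nat_lit 193)))) (XT.nd (nat_lit 156) (nat_lit 0) (nat_lit 0) (XT.nd (nat_lit 78) (nat_lit 0) (nat_lit 0) (XT.lf (nat_lit 0) (nat_lit 184159186253) (nat_lit 76) (nat_lit 510281682642) (nat_lit 76) (nat_lit 510005775220) (nat_lit 1) (nat_lit 4) (nat_lit 2) (nat_lit 5) (nat_lit 2) (nat_lit 4) (nat_lit 329) (nat_lit 199) (nat_lit 192)) (XT.lf (nat_lit 0) (nat_lit 200024212837) (nat_lit 76) (nat_lit 550517090823) (nat_lit 76) (nat_lit 550212552283) (nat_lit 1) (nat_lit 4) (nat_lit 2) (nat_lit 5) (nat_lit 2) (nat_lit 4) (nat_lit 330) (nat_lit 199) (nat_lit 191))) (XT.nd (nat_lit 78) (nat_lit 0) (nat_lit 0) (XT.lf (nat_lit 0) (nat_lit 217114061012)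 (nat_lit 76) (nat_lit 593992267142) (nat_lit 76) (nat_lit 593661218309) (nat_lit 1) (nat_lit 4) (nat_lit 2) (nat_lit 5) (nat_lit 2) (nat_lit 4) (nat_lit 331) (nat_lit 199) (nat_lit 190)) (XT.lf (nat_lit 0) (nat_lit 235530003951) (nat_lit 76) (nat_lit 640964842276) (nat_lit 76) (nat_lit 640609246873) (nat_lit 1) (nat_lit 4) (nat_lit 2) (nat_lit 5) (nat_lit 2) (nat_lit 4) (nat_lit 332) (nat_lit 199) (nat_lit 189))))))) (XT.nd (nat_lit 36582) (nat_lit 0) (nat_lit 0) (XT.nd (nat_lit 468) (nat_lit 0) (nat_lit 0) (XT.nd (nat_lit 234) (nat_lit 0) (nat_lit 0) (XT.nd (nat_lit 78) (nat_lit 0) (nat_lit 0) (XT.lf (nat_lit 0) (nat_lit 255381173167) (nat_lit 76) (nat_lit 691713172223) (nat_lit 76) (nat_lit 691334848516) (nat_lit 1) (nat_lit 4) (nat_lit 2) (nat_lit 5) (nat_lit 2) (nat_lit 4) (nat_lit 333) (nat_lit 199) (nat_lit 188)) (XT.nd (nat_lit 78) (nat_lit 0) (nat_lit 0) (XT.lf (nat_lit 0) (nat_lit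 276785205221) (nat_lit 76) (nat_lit 746537987829) (nat_lit 76) (nat_lit 746138619396) (nat_lit 1) (nat_lit 4) (nat_lit 2) (nat_lit 5) (nat_lit 2) (nat_lit 4) (nat_lit 334) (nat_lit 199) (nat_lit 187)) (XT.lf (nat_lit 0) (nat_lit 299868938819) (nat_lit 76) (nat_lit 805764176890) (nat_lit 76) (nat_lit 805345322599) (nat_lit 1) (nat_lit 4) (nat_lit 2) (nat_lit 5) (nat_lit 2) (nat_lit 4) (nat_lit 335) (nat_lit 199) (nat_lit 186)))) (XT.nd (nat_lit 78) (nat_lit 0) (nat_lit 0) (XT.lf (nat_lit 0) (nat_lit 324769166457) (nat_lit 76) (nat_lit 869742709415) (nat_lit 76) (nat_lit 869305812663) (nat_lit 1) (nat_lit 4) (nat_lit 2) (nat_lit 5) (nat_lit 2) (nat_lit 4) (nat_lit 336) (nat_lit 199) (nat_lit 185)) (XT.nd (nat_lit 78) (nat_lit 0) (nat_lit 0) (XT.lf (nat_lit 0) (nat_lit 351633445040) (nat_lit 76) (nat_lit 938852717448) (nat_lit 76) (nat_lit 938399114713) (nat_lit 1) (nat_lit 4) (nat_lit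 2) (nat_lit 5) (nat_lit 2) (nat_lit 4) (nat_lit 337) (nat_lit 199) (nat_lit 184)) (XT.lf (nat_lit 0) (nat_lit 380620970293) (nat_lit 76) (nat_lit 1013503741777) (nat_lit 76) (nat_lit 1013034670541) (nat_lit 1) (nat_lit 4) (nat_lit 2) (nat_lit 5) (nat_lit 2) (nat_lit 4) (nat_lit 338) (nat_lit 199) (nat_lit 183))))) (XT.nd (nat_lit 234) (nat_lit 0) (nat_lit 0) (XT.nd (nat_lit 78) (nat_lit 0) (nat_lit 0) (XT.lf (nat_lit 0) (nat_lit 411903520142) (nat_lit 76) (nat_lit 1094138158844) (nat_lit 76) (nat_lit 1093654764921) (nat_lit 1) (nat_lit 4) (nat_lit 2) (nat_lit 5) (nat_lit 2) (nat_lit 4) (nat_lit 339) (nat_lit 199) (nat_lit 182)) (XT.nd (nat_lit 78) (nat_lit 0) (nat_lit 0) (XT.lf (nat_lit 0) (nat_lit 445666472662) (nat_lit 76) (nat_lit 1181233802231) (nat_lit 76) (nat_lit 1180737146561) (nat_lit 1) (nat_lit 4) (nat_lit 2) (nat_lit 5) (nat_lit 2) (nat_lit 4) (nat_lit 340) (nat_lit 199)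 (nat_lit 181)) (XT.lf (nat_lit 0) (nat_lit 482109904608) (nat_lit 76) (nat_lit 1275306794269) (nat_lit 76) (nat_lit 1274797859203) (nat_lit 1) (nat_lit 4) (nat_lit 2) (nat_lit 5) (nat_lit 2) (nat_lit 4) (nat_lit 341) (nat_lit 199) (nat_lit 180)))) (XT.nd (nat_lit 156) (nat_lit 0) (nat_lit 0) (XT.nd (nat_lit 78) (nat_lit 0) (nat_lit 0) (XT.lf (nat_lit 0) (nat_lit 521449777059) (nat_lit 76) (nat_lit 1376914604541) (nat_lit 76) (nat_lit 1376394299664) (nat_lit 1) (nat_lit 4) (nat_lit 2) (nat_lit 5) (nat_lit 2) (nat_lit 4) (nat_lit 342) (nat_lit 199) (nat_lit 179)) (XT.lf (nat_lit 0) (nat_lit 563919215183) (nat_lit 76) (nat_lit 1486659353403) (nat_lit 76) (nat_lit 1486128520923) (nat_lit 1) (nat_lit 4) (nat_lit 2) (nat_lit 5) (nat_lit 2) (nat_lit 4) (nat_lit 343) (nat_lit 199) (nat_lit 178))) (XT.nd (nat_lit 35646) (nat_lit 0) (nat_lit 0) (XT.lf (nat_lit 0) (nat_lit 609769889726) (nat_lit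 76) (nat_lit 1605191380109) (nat_lit 76) (nat_lit 1604650799848) (nat_lit 1) (nat_lit 4) (nat_lit 2) (nat_lit 5) (nat_lit 2) (nat_lit 4) (nat_lit 344) (nat_lit 199) (nat_lit 177)) (XT.lf (nat_lit 0) (nat_lit 41504715541) (nat_lit 76) (nat_lit 129976096942) (nat_lit 76) (nat_lit 129976096942) (nat_lit 1) (nat_lit 4) (nat_lit 2) (nat_lit 5) (nat_lit 2) (nat_lit 4) (nat_lit 320) (nat_lit 200) (nat_lit 200)))))) (XT.nd (nat_lit 546) (nat_lit 0) (nat_lit 0) (XT.nd (nat_lit 234) (nat_lit 0) (nat_lit 0) (XT.nd (nat_lit 78) (nat_lit 0) (nat_lit 0) (XT.lf (nat_lit 0) (nat_lit 91334953591) (nat_lit 76) (nat_lit 279896385584) (nat_lit 76) (nat_lit 279843391383) (nat_lit 1) (nat_lit 4) (nat_lit 2) (nat_lit 5) (nat_lit 2) (nat_lit 4) (nat_lit 321) (nat_lit 200) (nat_lit 199)) (XT.nd (nat_lit 78) (nat_lit 0) (nat_lit 0) (XT.lf (nat_lit 0) (nat_lit 100244372624) (nat_lit 76) (nat_lit 301474862741)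 (nat_lit 76) (nat_lit 301372799835) (nat_lit 1) (nat_lit 4) (nat_lit 2) (nat_lit 5) (nat_lit 2) (nat_lit 4) (nat_lit 322) (nat_lit 200) (nat_lit 198)) (XT.lf (nat_lit 0) (nat_lit 109790484740) (nat_lit 76) (nat_lit 324815497811) (nat_lit 76) (nat_lit 324668000919) (nat_lit 1) (nat_lit 4) (nat_lit 2) (nat_lit 5) (nat_lit 2) (nat_lit 4) (nat_lit 323) (nat_lit 200) (nat_lit 197)))) (XT.nd (nat_lit 156) (nat_lit 0) (nat_lit 0) (XT.nd (nat_lit 78) (nat_lit 0) (nat_lit 0) (XT.lf (nat_lit 0) (nat_lit 120029859490) (nat_lit 76) (nat_lit 350056605669) (nat_lit 76) (nat_lit 349867040273) (nat_lit 1) (nat_lit 4) (nat_lit 2) (nat_lit 5) (nat_lit 2) (nat_lit 4) (nat_lit 324) (nat_lit 200) (nat_lit 196)) (XT.lf (nat_lit 0) (nat_lit 131023174651) (nat_lit 76) (nat_lit 377347763252) (nat_lit 76) (nat_lit 377119245536) (nat_lit 1) (nat_lit 4) (nat_lit 2) (nat_lit 5) (nat_lit 2) (nat_lit 4) (nat_lit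 325) (nat_lit 200) (nat_lit 195))) (XT.nd (nat_lit 78) (nat_lit 0) (nat_lit 0) (XT.lf (nat_lit 0) (nat_lit 142835575795) (nat_lit 76) (nat_lit 406850695937) (nat_lit 76) (nat_lit 406586111258) (nat_lit 1) (nat_lit 4) (nat_lit 2) (nat_lit 5) (nat_lit 2) (nat_lit 4) (nat_lit 326) (nat_lit 200) (nat_lit 194)) (XT.lf (nat_lit 0) (nat_lit 155537062336) (nat_lit 76) (nat_lit 438740235918) (nat_lit 76) (nat_lit 438442255903) (nat_lit 1) (nat_lit 4) (nat_lit 2) (nat_lit 5) (nat_lit 2) (nat_lit 4) (nat_lit 327) (nat_lit 200) (nat_lit 193))))) (XT.nd (nat_lit 234) (nat_lit 0) (nat_lit 0) (XT.nd (nat_lit 78) (nat_lit 0) (nat_lit 0) (XT.lf (nat_lit 0) (nat_lit 169202902342) (nat_lit 76) (nat_lit 473205358246) (nat_lit 76) (nat_lit 472876456624) (nat_lit 1) (nat_lit 4) (nat_lit 2) (nat_lit 5) (nat_lit 2) (nat_lit 4) (nat_lit 328) (nat_lit 200) (nat_lit 192)) (XT.nd (nat_lit 78) (nat_lit 0) (nat_lit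 0) (XT.lf (nat_lit 0) (nat_lit 183914078568) (nat_lit 76) (nat_lit 510450300684) (nat_lit 76) (nat_lit 510092767944) (nat_lit 1) (nat_lit 4) (nat_lit 2) (nat_lit 5) (nat_lit 2) (nat_lit 4) (nat_lit 329) (nat_lit 200) (nat_lit 191)) (XT.lf (nat_lit 0) (nat_lit 199757768356) (nat_lit 76) (nat_lit 550695774002) (nat_lit 76) (nat_lit 550311730967) (nat_lit 1) (nat_lit 4) (nat_lit 2) (nat_lit 5) (nat_lit 2) (nat_lit 4) (nat_lit 330) (nat_lit 200) (nat_lit 190)))) (XT.nd (nat_lit 156) (nat_lit 0) (nat_lit 0) (XT.nd (nat_lit 78) (nat_lit 0) (nat_lit 0) (XT.lf (nat_lit 0) (nat_lit 216827860238) (nat_lit 76) (nat_lit 594180269893) (nat_lit 76) (nat_lit 593771680289) (nat_lit 1) (nat_lit 4) (nat_lit 2) (nat_lit 5) (nat_lit 2) (nat_lit 4) (nat_lit 331) (nat_lit 200) (nat_lit 189)) (XT.lf (nat_lit 0) (nat_lit 235225510313) (nat_lit 76) (nat_lit 641161474258) (nat_lit 76) (nat_lit 640730156351)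 (nat_lit 1) (nat_lit 4) (nat_lit 2) (nat_lit 5) (nat_lit 2) (nat_lit 4) (nat_lit 332) (nat_lit 200) (nat_lit 188))) (XT.nd (nat_lit 78) (nat_lit 0) (nat_lit 0) (XT.lf (nat_lit 0) (nat_lit 255059741692) (nat_lit 76) (nat_lit 691917794236) (nat_lit 76) (nat_lit 691465431602) (nat_lit 1) (nat_lit 4) (nat_lit 2) (nat_lit 5) (nat_lit 2) (nat_lit 4) (nat_lit 333) (nat_lit 200) (nat_lit 187)) (XT.lf (nat_lit 0) (nat_lit 276448090563) (nat_lit 76) (nat_lit 746750008018) (nat_lit 76) (nat_lit 746278159526) (nat_lit 1) (nat_lit 4) (nat_lit 2) (nat_lit 5) (nat_lit 2) (nat_lit 4) (nat_lit 334) (nat_lit 200) (nat_lit 186))))))))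
noncomputable def xc3 : XT := (XT.nd (nat_lit 37440) (nat_lit 0) (nat_lit 0) (XT.nd (nat_lit 36426) (nat_lit 0) (nat_lit 0) (XT.nd (nat_lit 468) (nat_lit 0) (nat_lit 0) (XT.nd (nat_lit 234) (nat_lit 0) (nat_lit 0) (XT.nd (nat_lit 78) (nat_lit 0) (nat_lit 0) (XT.lf (nat_lit 0) (nat_lit 299517302696) (nat_lit 76) (nat_lit 805983047242) (nat_lit 76) (nat_lit 805493156289) (nat_lit 1) (nat_lit 4) (nat_lit 2) (nat_lit 5) (nat_lit 2) (nat_lit 4) (nat_lit 335) (nat_lit 200) (nat_lit 185)) (XT.nd (nat_lit 78) (nat_lit 0) (nat_lit 0) (XT.lf (nat_lit 0) (nat_lit 324404084533) (nat_lit 76) (nat_lit 869967922510) (nat_lit 76) (nat_lit 869461325575) (nat_lit 1) (nat_lit 4) (nat_lit 2) (nat_lit 5) (nat_lit 2) (nat_lit 4) (nat_lit 336) (nat_lit 200) (nat_lit 184)) (XT.lf (nat_lit 0) (nat_lit 351255913300) (nat_lit 76) (nat_lit 939083803454) (nat_lit 76) (nat_lit 938561738016) (nat_lit 1) (nat_lit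 4) (nat_lit 2) (nat_lit 5) (nat_lit 2) (nat_lit 4) (nat_lit 337) (nat_lit 200) (nat_lit 183)))) (XT.nd (nat_lit 78) (nat_lit 0) (nat_lit 0) (XT.lf (nat_lit 0) (nat_lit 380231910946) (nat_lit 76) (nat_lit 1013740265664) (nat_lit 76) (nat_lit 1013203877539) (nat_lit 1) (nat_lit 4) (nat_lit 2) (nat_lit 5) (nat_lit 2) (nat_lit 4) (nat_lit 338) (nat_lit 200) (nat_lit 182)) (XT.nd (nat_lit 78) (nat_lit 0) (nat_lit 0) (XT.lf (nat_lit 0) (nat_lit 411503787085) (nat_lit 76) (nat_lit 1094379717805) (nat_lit 76) (nat_lit 1093830067933) (nat_lit 1) (nat_lit 4) (nat_lit 2) (nat_lit 5) (nat_lit 2) (nat_lit 4) (nat_lit 339) (nat_lit 200) (nat_lit 181)) (XT.lf (nat_lit 0) (nat_lit 445256856540) (nat_lit 76) (nat_lit 1181480023298) (nat_lit 76) (nat_lit 1180918094030) (nat_lit 1) (nat_lit 4) (nat_lit 2) (nat_lit 5) (nat_lit 2) (nat_lit 4) (nat_lit 340) (nat_lit 200) (nat_lit 180))))) (XT.nd (nat_lit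 234) (nat_lit 0) (nat_lit 0) (XT.nd (nat_lit 78) (nat_lit 0) (nat_lit 0) (XT.lf (nat_lit 0) (nat_lit 481691137500) (nat_lit 76) (nat_lit 1275557332100) (nat_lit 76) (nat_lit 1274984033022) (nat_lit 1) (nat_lit 4) (nat_lit 2) (nat_lit 5) (nat_lit 2) (nat_lit 4) (nat_lit 341) (nat_lit 200) (nat_lit 179)) (XT.nd (nat_lit 78) (nat_lit 0) (nat_lit 0) (XT.lf (nat_lit 0) (nat_lit 521022536815) (nat_lit 76) (nat_lit 1377169139376) (nat_lit 76) (nat_lit 1376585312695) (nat_lit 1) (nat_lit 4) (nat_lit 2) (nat_lit 5) (nat_lit 2) (nat_lit 4) (nat_lit 342) (nat_lit 200) (nat_lit 178)) (XT.lf (nat_lit 0) (nat_lit 563484129443) (nat_lit 76) (nat_lit 1486917589168) (nat_lit 76) (nat_lit 1486324014707) (nat_lit 1) (nat_lit 4) (nat_lit 2) (nat_lit 5) (nat_lit 2) (nat_lit 4) (nat_lit 343) (nat_lit 200) (nat_lit 177)))) (XT.nd (nat_lit 35568) (nat_lit 0) (nat_lit 0) (XT.nd (nat_lit 35490) (nat_lit 0) (nat_lit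 0) (XT.lf (nat_lit 0) (nat_lit 609327539638) (nat_lit 76) (nat_lit 1605453042661) (nat_lit 76) (nat_lit 1604850442477) (nat_lit 1) (nat_lit 4) (nat_lit 2) (nat_lit 5) (nat_lit 2) (nat_lit 4) (nat_lit 344) (nat_lit 200) (nat_lit 176)) (XT.lf (nat_lit 0) (nat_lit 33980981112) (nat_lit 76) (nat_lit 112269201895) (nat_lit 76) (nat_lit 112269201895) (nat_lit 1) (nat_lit 4) (nat_lit 2) (nat_lit 5) (nat_lit 2) (nat_lit 4) (nat_lit 318) (nat_lit 201) (nat_lit 201))) (XT.nd (nat_lit 78) (nat_lit 0) (nat_lit 0) (XT.lf (nat_lit 0) (nat_lit 75218468667) (nat_lit 76) (nat_lit 241581333577) (nat_lit 76) (nat_lit 241524099840) (nat_lit 1) (nat_lit 4) (nat_lit 2) (nat_lit 5) (nat_lit 2) (nat_lit 4) (nat_lit 319) (nat_lit 201) (nat_lit 200)) (XT.lf (nat_lit 0) (nat_lit 82966778727) (nat_lit 76) (nat_lit 260029547877) (nat_lit 76) (nat_lit 259919319939) (nat_lit 1) (nat_lit 4) (nat_lit 2) (nat_lit 5)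 (nat_lit 2) (nat_lit 4) (nat_lit 320) (nat_lit 201) (nat_lit 199)))))) (XT.nd (nat_lit 468) (nat_lit 0) (nat_lit 0) (XT.nd (nat_lit 234) (nat_lit 0) (nat_lit 0) (XT.nd (nat_lit 78) (nat_lit 0) (nat_lit 0) (XT.lf (nat_lit 0) (nat_lit 91252808315) (nat_lit 76) (nat_lit 279992369442) (nat_lit 76) (nat_lit 279833072800) (nat_lit 1) (nat_lit 4) (nat_lit 2) (nat_lit 5) (nat_lit 2) (nat_lit 4) (nat_lit 321) (nat_lit 201) (nat_lit 198)) (XT.nd (nat_lit 78) (nat_lit 0) (nat_lit 0) (XT.lf (nat_lit 0) (nat_lit 100125659828) (nat_lit 76) (nat_lit 301588096474) (nat_lit 76) (nat_lit 301383365846) (nat_lit 1) (nat_lit 4) (nat_lit 2) (nat_lit 5) (nat_lit 2) (nat_lit 4) (nat_lit 322) (nat_lit 201) (nat_lit 197)) (XT.lf (nat_lit 0) (nat_lit 109637913129) (nat_lit 76) (nat_lit 324944703652) (nat_lit 76) (nat_lit 324697904518) (nat_lit 1) (nat_lit 4) (nat_lit 2) (nat_lit 5) (nat_lit 2) (nat_lit 4) (nat_lit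 323) (nat_lit 201) (nat_lit 196)))) (XT.nd (nat_lit 78) (nat_lit 0) (nat_lit 0) (XT.lf (nat_lit 0) (nat_lit 119845937125) (nat_lit 76) (nat_lit 350200600498) (nat_lit 76) (nat_lit 349914849045) (nat_lit 1) (nat_lit 4) (nat_lit 2) (nat_lit 5) (nat_lit 2) (nat_lit 4) (nat_lit 324) (nat_lit 201) (nat_lit 195)) (XT.nd (nat_lit 78) (nat_lit 0) (nat_lit 0) (XT.lf (nat_lit 0) (nat_lit 130810223810) (nat_lit 76) (nat_lit 377505451589) (nat_lit 76) (nat_lit 377183633172) (nat_lit 1) (nat_lit 4) (nat_lit 2) (nat_lit 5) (nat_lit 2) (nat_lit 4) (nat_lit 325) (nat_lit 201) (nat_lit 194)) (XT.lf (nat_lit 0) (nat_lit 142595746736) (nat_lit 76) (nat_lit 407021063447) (nat_lit 76) (nat_lit 406665849695) (nat_lit 1) (nat_lit 4) (nat_lit 2) (nat_lit 5) (nat_lit 2) (nat_lit 4) (nat_lit 326) (nat_lit 201) (nat_lit 193))))) (XT.nd (nat_lit 234) (nat_lit 0) (nat_lit 0) (XT.nd (nat_lit 78) (nat_lit 0) (nat_lit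 0) (XT.lf (nat_lit 0) (nat_lit 155272346037) (nat_lit 76) (nat_lit 438922343403) (nat_lit 76) (nat_lit 438536208044) (nat_lit 1) (nat_lit 4) (nat_lit 2) (nat_lit 5) (nat_lit 2) (nat_lit 4) (nat_lit 327) (nat_lit 201) (nat_lit 192)) (XT.nd (nat_lit 78) (nat_lit 0) (nat_lit 0) (XT.lf (nat_lit 0) (nat_lit 168915142303) (nat_lit 76) (nat_lit 473398336079) (nat_lit 76) (nat_lit 472983569602) (nat_lit 1) (nat_lit 4) (nat_lit 2) (nat_lit 5) (nat_lit 2) (nat_lit 4) (nat_lit 328) (nat_lit 201) (nat_lit 191)) (XT.lf (nat_lit 0) (nat_lit 183604981733) (nat_lit 76) (nat_lit 510653343654) (nat_lit 76) (nat_lit 510212066882) (nat_lit 1) (nat_lit 4) (nat_lit 2) (nat_lit 5) (nat_lit 2) (nat_lit 4) (nat_lit 329) (nat_lit 201) (nat_lit 190)))) (XT.nd (nat_lit 156) (nat_lit 0) (nat_lit 0) (XT.nd (nat_lit 78) (nat_lit 0) (nat_lit 0) (XT.lf (nat_lit 0) (nat_lit 199428915228) (nat_lit 76) (nat_lit 550908136543)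 (nat_lit 76) (nat_lit 550442313202) (nat_lit 1) (nat_lit 4) (nat_lit 2) (nat_lit 5) (nat_lit 2) (nat_lit 4) (nat_lit 330) (nat_lit 201) (nat_lit 189)) (XT.lf (nat_lit 0) (nat_lit 216480714245) (nat_lit 76) (nat_lit 594401261666) (nat_lit 76) (nat_lit 593912710021) (nat_lit 1) (nat_lit 4) (nat_lit 2) (nat_lit 5) (nat_lit 2) (nat_lit 4) (nat_lit 331) (nat_lit 201) (nat_lit 188))) (XT.nd (nat_lit 78) (nat_lit 0) (nat_lit 0) (XT.lf (nat_lit 0) (nat_lit 234861426483) (nat_lit 76) (nat_lit 641390456062) (nat_lit 76) (nat_lit 640880859691) (nat_lit 1) (nat_lit 4) (nat_lit 2) (nat_lit 5) (nat_lit 2) (nat_lit 4) (nat_lit 332) (nat_lit 201) (nat_lit 187)) (XT.lf (nat_lit 0) (nat_lit 254679974680) (nat_lit 76) (nat_lit 692154174216) (nat_lit 76) (nat_lit 691625091987) (nat_lit 1) (nat_lit 4) (nat_lit 2) (nat_lit 5) (nat_lit 2) (nat_lit 4) (nat_lit 333) (nat_lit 201) (nat_lit 186))))))) (XT.nd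 (nat_lit 36270) (nat_lit 0) (nat_lit 0) (XT.nd (nat_lit 468) (nat_lit 0) (nat_lit 0) (XT.nd (nat_lit 234) (nat_lit 0) (nat_lit 0) (XT.nd (nat_lit 78) (nat_lit 0) (nat_lit 0) (XT.lf (nat_lit 0) (nat_lit 276053802086) (nat_lit 76) (nat_lit 746993238161) (nat_lit 76) (nat_lit 746446113471) (nat_lit 1) (nat_lit 4) (nat_lit 2) (nat_lit 5) (nat_lit 2) (nat_lit 4) (nat_lit 334) (nat_lit 201) (nat_lit 185)) (XT.nd (nat_lit 78) (nat_lit 0) (nat_lit 0) (XT.lf (nat_lit 0) (nat_lit 299109568417) (nat_lit 76) (nat_lit 806232620128) (nat_lit 76) (nat_lit 805668789456) (nat_lit 1) (nat_lit 4) (nat_lit 2) (nat_lit 5) (nat_lit 2) (nat_lit 4) (nat_lit 335) (nat_lit 201) (nat_lit 184)) (XT.lf (nat_lit 0) (nat_lit 323983900439) (nat_lit 76) (nat_lit 870223368307) (nat_lit 76) (nat_lit 869644069133) (nat_lit 1) (nat_lit 4) (nat_lit 2) (nat_lit 5) (nat_lit 2) (nat_lit 4) (nat_lit 336) (nat_lit 201) (nat_lit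 183)))) (XT.nd (nat_lit 78) (nat_lit 0) (nat_lit 0) (XT.lf (nat_lit 0) (nat_lit 350824201599) (nat_lit 76) (nat_lit 939344687131) (nat_lit 76) (nat_lit 938751065269) (nat_lit 1) (nat_lit 4) (nat_lit 2) (nat_lit 5) (nat_lit 2) (nat_lit 4) (nat_lit 337) (nat_lit 201) (nat_lit 182)) (XT.nd (nat_lit 78) (nat_lit 0) (nat_lit 0) (XT.lf (nat_lit 0) (nat_lit 379789525534) (nat_lit 76) (nat_lit 1014006184415) (nat_lit 76) (nat_lit 1013399300806) (nat_lit 1) (nat_lit 4) (nat_lit 2) (nat_lit 5) (nat_lit 2) (nat_lit 4) (nat_lit 338) (nat_lit 201) (nat_lit 181)) (XT.lf (nat_lit 0) (nat_lit 411051518608) (nat_lit 76) (nat_lit 1094650298662) (nat_lit 76) (nat_lit 1094031135658) (nat_lit 1) (nat_lit 4) (nat_lit 2) (nat_lit 5) (nat_lit 2) (nat_lit 4) (nat_lit 339) (nat_lit 201) (nat_lit 180))))) (XT.nd (nat_lit 234) (nat_lit 0) (nat_lit 0) (XT.nd (nat_lit 78) (nat_lit 0) (nat_lit 0) (XT.lf (nat_lit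 0) (nat_lit 444795437076) (nat_lit 76) (nat_lit 1181754920920) (nat_lit 76) (nat_lit 1181124388104) (nat_lit 1) (nat_lit 4) (nat_lit 2) (nat_lit 5) (nat_lit 2) (nat_lit 4) (nat_lit 340) (nat_lit 201) (nat_lit 179)) (XT.nd (nat_lit 78) (nat_lit 0) (nat_lit 0) (XT.lf (nat_lit 0) (nat_lit 481221244901) (nat_lit 76) (nat_lit 1275836226727) (nat_lit 76) (nat_lit 1275195166309) (nat_lit 1) (nat_lit 4) (nat_lit 2) (nat_lit 5) (nat_lit 2) (nat_lit 4) (nat_lit 341) (nat_lit 201) (nat_lit 178)) (XT.lf (nat_lit 0) (nat_lit 520544798720) (nat_lit 76) (nat_lit 1377451734932) (nat_lit 76) (nat_lit 1376800926734) (nat_lit 1) (nat_lit 4) (nat_lit 2) (nat_lit 5) (nat_lit 2) (nat_lit 4) (nat_lit 342) (nat_lit 201) (nat_lit 177)))) (XT.nd (nat_lit 35412) (nat_lit 0) (nat_lit 0) (XT.nd (nat_lit 78) (nat_lit 0) (nat_lit 0) (XT.lf (nat_lit 0) (nat_lit 562999127000) (nat_lit 76) (nat_lit 1487203611512) (nat_lit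 76) (nat_lit 1486543777591) (nat_lit 1) (nat_lit 4) (nat_lit 2) (nat_lit 5) (nat_lit 2) (nat_lit 4) (nat_lit 343) (nat_lit 201) (nat_lit 176)) (XT.lf (nat_lit 0) (nat_lit 608835810947) (nat_lit 76) (nat_lit 1605742237955) (nat_lit 76) (nat_lit 1605074046884) (nat_lit 1) (nat_lit 4) (nat_lit 2) (nat_lit 5) (nat_lit 2) (nat_lit 4) (nat_lit 344) (nat_lit 201) (nat_lit 175))) (XT.nd (nat_lit 78) (nat_lit 0) (nat_lit 0) (XT.lf (nat_lit 0) (nat_lit 27402381693) (nat_lit 76) (nat_lit 97155245245) (nat_lit 76) (nat_lit 97155245245) (nat_lit 1) (nat_lit 4) (nat_lit 2) (nat_lit 5) (nat_lit 2) (nat_lit 4) (nat_lit 316) (nat_lit 202) (nat_lit 202)) (XT.lf (nat_lit 0) (nat_lit 61154257880) (nat_lit 76) (nat_lit 208861575813) (nat_lit 76) (nat_lit 208799763377) (nat_lit 1) (nat_lit 4) (nat_lit 2) (nat_lit 5) (nat_lit 2) (nat_lit 4) (nat_lit 317) (nat_lit 202) (nat_lit 201)))))) (XT.nd (nat_lit 546)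 (nat_lit 0) (nat_lit 0) (XT.nd (nat_lit 234) (nat_lit 0) (nat_lit 0) (XT.nd (nat_lit 78) (nat_lit 0) (nat_lit 0) (XT.lf (nat_lit 0) (nat_lit 67915897682) (nat_lit 76) (nat_lit 224621946101) (nat_lit 76) (nat_lit 224502899928) (nat_lit 1) (nat_lit 4) (nat_lit 2) (nat_lit 5) (nat_lit 2) (nat_lit 4) (nat_lit 318) (nat_lit 202) (nat_lit 200)) (XT.nd (nat_lit 78) (nat_lit 0) (nat_lit 0) (XT.lf (nat_lit 0) (nat_lit 75129751769) (nat_lit 76) (nat_lit 241684996143) (nat_lit 76) (nat_lit 241512955769) (nat_lit 1) (nat_lit 4) (nat_lit 2) (nat_lit 5) (nat_lit 2) (nat_lit 4) (nat_lit 319) (nat_lit 202) (nat_lit 199)) (XT.lf (nat_lit 0) (nat_lit 82838568907) (nat_lit 76) (nat_lit 260151840309) (nat_lit 76) (nat_lit 259930731231) (nat_lit 1) (nat_lit 4) (nat_lit 2) (nat_lit 5) (nat_lit 2) (nat_lit 4) (nat_lit 320) (nat_lit 202) (nat_lit 198)))) (XT.nd (nat_lit 156) (nat_lit 0) (nat_lit 0) (XT.nd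 (nat_lit 78) (nat_lit 0) (nat_lit 0) (XT.lf (nat_lit 0) (nat_lit 91088030975) (nat_lit 76) (nat_lit 280131911750) (nat_lit 76) (nat_lit 279865368686) (nat_lit 1) (nat_lit 4) (nat_lit 2) (nat_lit 5) (nat_lit 2) (nat_lit 4) (nat_lit 321) (nat_lit 202) (nat_lit 197)) (XT.lf (nat_lit 0) (nat_lit 99927023674) (nat_lit 76) (nat_lit 301743610889) (nat_lit 76) (nat_lit 301434999320) (nat_lit 1) (nat_lit 4) (nat_lit 2) (nat_lit 5) (nat_lit 2) (nat_lit 4) (nat_lit 322) (nat_lit 202) (nat_lit 196))) (XT.nd (nat_lit 78) (nat_lit 0) (nat_lit 0) (XT.lf (nat_lit 0) (nat_lit 109407926221) (nat_lit 76) (nat_lit 325115007055) (nat_lit 76) (nat_lit 324767443165) (nat_lit 1) (nat_lit 4) (nat_lit 2) (nat_lit 5) (nat_lit 2) (nat_lit 4) (nat_lit 323) (nat_lit 202) (nat_lit 195)) (XT.lf (nat_lit 0) (nat_lit 119586921741) (nat_lit 76) (nat_lit 350384597409) (nat_lit 76) (nat_lit 350000966557) (nat_lit 1) (nat_lit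 4) (nat_lit 2) (nat_lit 5) (nat_lit 2) (nat_lit 4) (nat_lit 324) (nat_lit 202) (nat_lit 194))))) (XT.nd (nat_lit 234) (nat_lit 0) (nat_lit 0) (XT.nd (nat_lit 78) (nat_lit 0) (nat_lit 0) (XT.lf (nat_lit 0) (nat_lit 130524330207) (nat_lit 76) (nat_lit 377702127673) (nat_lit 76) (nat_lit 377285101485) (nat_lit 1) (nat_lit 4) (nat_lit 2) (nat_lit 5) (nat_lit 2) (nat_lit 4) (nat_lit 325) (nat_lit 202) (nat_lit 193)) (XT.nd (nat_lit 78) (nat_lit 0) (nat_lit 0) (XT.lf (nat_lit 0) (nat_lit 142284965893) (nat_lit 76) (nat_lit 407229479507) (nat_lit 76) (nat_lit 406781531711) (nat_lit 1) (nat_lit 4) (nat_lit 2) (nat_lit 5) (nat_lit 2) (nat_lit 4) (nat_lit 326) (nat_lit 202) (nat_lit 192)) (XT.lf (nat_lit 0) (nat_lit 154938521454) (nat_lit 76) (nat_lit 439141629811) (nat_lit 76) (nat_lit 438665050898) (nat_lit 1) (nat_lit 4) (nat_lit 2) (nat_lit 5) (nat_lit 2) (nat_lit 4) (nat_lit 327) (nat_lit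 202) (nat_lit 191)))) (XT.nd (nat_lit 156) (nat_lit 0) (nat_lit 0) (XT.nd (nat_lit 78) (nat_lit 0) (nat_lit 0) (XT.lf (nat_lit 0) (nat_lit 168559980923) (nat_lit 76) (nat_lit 473627687624) (nat_lit 76) (nat_lit 473124598416) (nat_lit 1) (nat_lit 4) (nat_lit 2) (nat_lit 5) (nat_lit 2) (nat_lit 4) (nat_lit 328) (nat_lit 202) (nat_lit 190)) (XT.lf (nat_lit 0) (nat_lit 183230064060) (nat_lit 76) (nat_lit 510892014770) (nat_lit 76) (nat_lit 510364378993) (nat_lit 1) (nat_lit 4) (nat_lit 2) (nat_lit 5) (nat_lit 2) (nat_lit 4) (nat_lit 329) (nat_lit 202) (nat_lit 189))) (XT.nd (nat_lit 78) (nat_lit 0) (nat_lit 0) (XT.lf (nat_lit 0) (nat_lit 199035704691) (nat_lit 76) (nat_lit 551155436891) (nat_lit 76) (nat_lit 550605072810) (nat_lit 1) (nat_lit 4) (nat_lit 2) (nat_lit 5) (nat_lit 2) (nat_lit 4) (nat_lit 330) (nat_lit 202) (nat_lit 188)) (XT.lf (nat_lit 0) (nat_lit 216070565872) (nat_lit 76)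 (nat_lit 594656552045) (nat_lit 76) (nat_lit 594085143237) (nat_lit 1) (nat_lit 4) (nat_lit 2) (nat_lit 5) (nat_lit 2) (nat_lit 4) (nat_lit 331) (nat_lit 202) (nat_lit 187))))))))
noncomputable def xc4 : XT := (XT.nd (nat_lit 37128) (nat_lit 0) (nat_lit 0) (XT.nd (nat_lit 36114) (nat_lit 0) (nat_lit 0) (XT.nd (nat_lit 468) (nat_lit 0) (nat_lit 0) (XT.nd (nat_lit 234) (nat_lit 0) (nat_lit 0) (XT.nd (nat_lit 78) (nat_lit 0) (nat_lit 0) (XT.lf (nat_lit 0) (nat_lit 234435594927) (nat_lit 76) (nat_lit 641653144617) (nat_lit 76) (nat_lit 641062249952) (nat_lit 1) (nat_lit 4) (nat_lit 2) (nat_lit 5) (nat_lit 2) (nat_lit 4) (nat_lit 332) (nat_lit 202) (nat_lit 186)) (XT.nd (nat_lit 78) (nat_lit 0) (nat_lit 0) (XT.lf (nat_lit 0) (nat_lit 254239621659) (nat_lit 76) (nat_lit 692423712933) (nat_lit 76) (nat_lit 691814775807) (nat_lit 1) (nat_lit 4) (nat_lit 2) (nat_lit 5) (nat_lit 2) (nat_lit 4)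 (nat_lit 333) (nat_lit 202) (nat_lit 185)) (XT.lf (nat_lit 0) (nat_lit 275600003264) (nat_lit 76) (nat_lit 747269119622) (nat_lit 76) (nat_lit 746643476514) (nat_lit 1) (nat_lit 4) (nat_lit 2) (nat_lit 5) (nat_lit 2) (nat_lit 4) (nat_lit 334) (nat_lit 202) (nat_lit 184)))) (XT.nd (nat_lit 78) (nat_lit 0) (nat_lit 0) (XT.lf (nat_lit 0) (nat_lit 298643319780) (nat_lit 76) (nat_lit 806514374500) (nat_lit 76) (nat_lit 805873262889) (nat_lit 1) (nat_lit 4) (nat_lit 2) (nat_lit 5) (nat_lit 2) (nat_lit 4) (nat_lit 335) (nat_lit 202) (nat_lit 183)) (XT.nd (nat_lit 78) (nat_lit 0) (nat_lit 0) (XT.lf (nat_lit 0) (nat_lit 323506124194) (nat_lit 76) (nat_lit 870510560559) (nat_lit 76) (nat_lit 869855126261) (nat_lit 1) (nat_lit 4) (nat_lit 2) (nat_lit 5) (nat_lit 2) (nat_lit 4) (nat_lit 336) (nat_lit 202) (nat_lit 182)) (XT.lf (nat_lit 0) (nat_lit 350335751643) (nat_lit 76) (nat_lit 939636914457)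 (nat_lit 76) (nat_lit 938968218412) (nat_lit 1) (nat_lit 4) (nat_lit 2) (nat_lit 5) (nat_lit 2) (nat_lit 4) (nat_lit 337) (nat_lit 202) (nat_lit 181))))) (XT.nd (nat_lit 234) (nat_lit 0) (nat_lit 0) (XT.nd (nat_lit 78) (nat_lit 0) (nat_lit 0) (XT.lf (nat_lit 0) (nat_lit 379291192513) (nat_lit 76) (nat_lit 1014303073847) (nat_lit 76) (nat_lit 1013622098406) (nat_lit 1) (nat_lit 4) (nat_lit 2) (nat_lit 5) (nat_lit 2) (nat_lit 4) (nat_lit 338) (nat_lit 202) (nat_lit 180)) (XT.nd (nat_lit 78) (nat_lit 0) (nat_lit 0) (XT.lf (nat_lit 0) (nat_lit 410544034601) (nat_lit 76) (nat_lit 1094951504859) (nat_lit 76) (nat_lit 1094259159607) (nat_lit 1) (nat_lit 4) (nat_lit 2) (nat_lit 5) (nat_lit 2) (nat_lit 4) (nat_lit 339) (nat_lit 202) (nat_lit 179)) (XT.lf (nat_lit 0) (nat_lit 444279479934) (nat_lit 76) (nat_lit 1182060124121) (nat_lit 76) (nat_lit 1181357251266) (nat_lit 1) (nat_lit 4) (nat_lit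 2) (nat_lit 5) (nat_lit 2) (nat_lit 4) (nat_lit 340) (nat_lit 202) (nat_lit 178)))) (XT.nd (nat_lit 156) (nat_lit 0) (nat_lit 0) (XT.nd (nat_lit 78) (nat_lit 0) (nat_lit 0) (XT.lf (nat_lit 0) (nat_lit 480697442262) (nat_lit 76) (nat_lit 1276145130857) (nat_lit 76) (nat_lit 1275432510223) (nat_lit 1) (nat_lit 4) (nat_lit 2) (nat_lit 5) (nat_lit 2) (nat_lit 4) (nat_lit 341) (nat_lit 202) (nat_lit 177)) (XT.lf (nat_lit 0) (nat_lit 520013731733) (nat_lit 76) (nat_lit 1377764065850) (nat_lit 76) (nat_lit 1377042419493) (nat_lit 1) (nat_lit 4) (nat_lit 2) (nat_lit 5) (nat_lit 2) (nat_lit 4) (nat_lit 342) (nat_lit 202) (nat_lit 176))) (XT.nd (nat_lit 78) (nat_lit 0) (nat_lit 0) (XT.lf (nat_lit 0) (nat_lit 562461333766) (nat_lit 76) (nat_lit 1487519115380) (nat_lit 76) (nat_lit 1486789111873) (nat_lit 1) (nat_lit 4) (nat_lit 2) (nat_lit 5) (nat_lit 2) (nat_lit 4) (nat_lit 343) (nat_lit 202)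 (nat_lit 175)) (XT.lf (nat_lit 0) (nat_lit 608291789705) (nat_lit 76) (nat_lit 1606060679741) (nat_lit 76) (nat_lit 1605322938131) (nat_lit 1) (nat_lit 4) (nat_lit 2) (nat_lit 5) (nat_lit 2) (nat_lit 4) (nat_lit 344) (nat_lit 202) (nat_lit 174)))))) (XT.nd (nat_lit 468) (nat_lit 0) (nat_lit 0) (XT.nd (nat_lit 234) (nat_lit 0) (nat_lit 0) (XT.nd (nat_lit 78) (nat_lit 0) (nat_lit 0) (XT.lf (nat_lit 0) (nat_lit 21623826423) (nat_lit 76) (nat_lit 84269663493) (nat_lit 76) (nat_lit 84269663493) (nat_lit 1) (nat_lit 4) (nat_lit 2) (nat_lit 5) (nat_lit 2) (nat_lit 4) (nat_lit 314) (nat_lit 203) (nat_lit 203)) (XT.nd (nat_lit 78) (nat_lit 0) (nat_lit 0) (XT.lf (nat_lit 0) (nat_lit 48829787570) (nat_lit 76) (nat_lit 180949218914) (nat_lit 76) (nat_lit 180882461483) (nat_lit 1) (nat_lit 4) (nat_lit 2) (nat_lit 5) (nat_lit 2) (nat_lit 4) (nat_lit 315) (nat_lit 203) (nat_lit 202)) (XT.lf (nat_lit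 0) (nat_lit 54755013680) (nat_lit 76) (nat_lit 194400716188) (nat_lit 76) (nat_lit 194272146321) (nat_lit 1) (nat_lit 4) (nat_lit 2) (nat_lit 5) (nat_lit 2) (nat_lit 4) (nat_lit 316) (nat_lit 203) (nat_lit 201)))) (XT.nd (nat_lit 78) (nat_lit 0) (nat_lit 0) (XT.lf (nat_lit 0) (nat_lit 61058443630) (nat_lit 76) (nat_lit 208973531385) (nat_lit 76) (nat_lit 208787727781) (nat_lit 1) (nat_lit 4) (nat_lit 2) (nat_lit 5) (nat_lit 2) (nat_lit 4) (nat_lit 317) (nat_lit 203) (nat_lit 200)) (XT.nd (nat_lit 78) (nat_lit 0) (nat_lit 0) (XT.lf (nat_lit 0) (nat_lit 67777431076) (nat_lit 76) (nat_lit 224754021928) (nat_lit 76) (nat_lit 224515224123) (nat_lit 1) (nat_lit 4) (nat_lit 2) (nat_lit 5) (nat_lit 2) (nat_lit 4) (nat_lit 318) (nat_lit 203) (nat_lit 199)) (XT.lf (nat_lit 0) (nat_lit 74951792242) (nat_lit 76) (nat_lit 241835701836) (nat_lit 76) (nat_lit 241547835326) (nat_lit 1) (nat_lit 4)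 (nat_lit 2) (nat_lit 5) (nat_lit 2) (nat_lit 4) (nat_lit 319) (nat_lit 203) (nat_lit 198))))) (XT.nd (nat_lit 234) (nat_lit 0) (nat_lit 0) (XT.nd (nat_lit 78) (nat_lit 0) (nat_lit 0) (XT.lf (nat_lit 0) (nat_lit 82624041861) (nat_lit 76) (nat_lit 260319795878) (nat_lit 76) (nat_lit 259986495382) (nat_lit 1) (nat_lit 4) (nat_lit 2) (nat_lit 5) (nat_lit 2) (nat_lit 4) (nat_lit 320) (nat_lit 203) (nat_lit 197)) (XT.nd (nat_lit 78) (nat_lit 0) (nat_lit 0) (XT.lf (nat_lit 0) (nat_lit 90839645114) (nat_lit 76) (nat_lit 280315839426) (nat_lit 76) (nat_lit 279940470425) (nat_lit 1) (nat_lit 4) (nat_lit 2) (nat_lit 5) (nat_lit 2) (nat_lit 4) (nat_lit 321) (nat_lit 203) (nat_lit 196)) (XT.lf (nat_lit 0) (nat_lit 99647287059) (nat_lit 76) (nat_lit 301942327553) (nat_lit 76) (nat_lit 301528006232) (nat_lit 1) (nat_lit 4) (nat_lit 2) (nat_lit 5) (nat_lit 2) (nat_lit 4) (nat_lit 322) (nat_lit 203)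 (nat_lit 195)))) (XT.nd (nat_lit 156) (nat_lit 0) (nat_lit 0) (XT.nd (nat_lit 78) (nat_lit 0) (nat_lit 0) (XT.lf (nat_lit 0) (nat_lit 109099161130) (nat_lit 76) (nat_lit 325327417226) (nat_lit 76) (nat_lit 324877028943) (nat_lit 1) (nat_lit 4) (nat_lit 2) (nat_lit 5) (nat_lit 2) (nat_lit 4) (nat_lit 323) (nat_lit 203) (nat_lit 194)) (XT.lf (nat_lit 0) (nat_lit 119251278431) (nat_lit 76) (nat_lit 350609686754) (nat_lit 76) (nat_lit 350125903135) (nat_lit 1) (nat_lit 4) (nat_lit 2) (nat_lit 5) (nat_lit 2) (nat_lit 4) (nat_lit 324) (nat_lit 203) (nat_lit 193))) (XT.nd (nat_lit 78) (nat_lit 0) (nat_lit 0) (XT.lf (nat_lit 0) (nat_lit 130163799658) (nat_lit 76) (nat_lit 377938956993) (nat_lit 76) (nat_lit 377424251767) (nat_lit 1) (nat_lit 4) (nat_lit 2) (nat_lit 5) (nat_lit 2) (nat_lit 4) (nat_lit 325) (nat_lit 203) (nat_lit 192)) (XT.lf (nat_lit 0) (nat_lit 141901391604) (nat_lit 76) (nat_lit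 407477179175) (nat_lit 76) (nat_lit 406933842831) (nat_lit 1) (nat_lit 4) (nat_lit 2) (nat_lit 5) (nat_lit 2) (nat_lit 4) (nat_lit 326) (nat_lit 203) (nat_lit 191))))))) (XT.nd (nat_lit 1014) (nat_lit 0) (nat_lit 0) (XT.nd (nat_lit 468) (nat_lit 0) (nat_lit 0) (XT.nd (nat_lit 234) (nat_lit 0) (nat_lit 0) (XT.nd (nat_lit 78) (nat_lit 0) (nat_lit 0) (XT.lf (nat_lit 0) (nat_lit 154533610368) (nat_lit 76) (nat_lit 439399394616) (nat_lit 76) (nat_lit 438829547977) (nat_lit 1) (nat_lit 4) (nat_lit 2) (nat_lit 5) (nat_lit 2) (nat_lit 4) (nat_lit 327) (nat_lit 203) (nat_lit 190)) (XT.nd (nat_lit 78) (nat_lit 0) (nat_lit 0) (XT.lf (nat_lit 0) (nat_lit 168135313544) (nat_lit 76) (nat_lit 473894772000) (nat_lit 76) (nat_lit 473300378792) (nat_lit 1) (nat_lit 4) (nat_lit 2) (nat_lit 5) (nat_lit 2) (nat_lit 4) (nat_lit 328) (nat_lit 203) (nat_lit 189)) (XT.lf (nat_lit 0) (nat_lit 182787103817) (nat_lit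 76) (nat_lit 511167728379) (nat_lit 76) (nat_lit 510550606866) (nat_lit 1) (nat_lit 4) (nat_lit 2) (nat_lit 5) (nat_lit 2) (nat_lit 4) (nat_lit 329) (nat_lit 203) (nat_lit 188)))) (XT.nd (nat_lit 78) (nat_lit 0) (nat_lit 0) (XT.lf (nat_lit 0) (nat_lit 198575806611) (nat_lit 76) (nat_lit 551439140530) (nat_lit 76) (nat_lit 550800974291) (nat_lit 1) (nat_lit 4) (nat_lit 2) (nat_lit 5) (nat_lit 2) (nat_lit 4) (nat_lit 330) (nat_lit 203) (nat_lit 187)) (XT.nd (nat_lit 78) (nat_lit 0) (nat_lit 0) (XT.lf (nat_lit 0) (nat_lit 215594984609) (nat_lit 76) (nat_lit 594947653859) (nat_lit 76) (nat_lit 594290001763) (nat_lit 1) (nat_lit 4) (nat_lit 2) (nat_lit 5) (nat_lit 2) (nat_lit 4) (nat_lit 331) (nat_lit 203) (nat_lit 186)) (XT.lf (nat_lit 0) (nat_lit 233945492199) (nat_lit 76) (nat_lit 641951096594) (nat_lit 76) (nat_lit 641275402037) (nat_lit 1) (nat_lit 4) (nat_lit 2) (nat_lit 5) (nat_lit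 2) (nat_lit 4) (nat_lit 332) (nat_lit 203) (nat_lit 185))))) (XT.nd (nat_lit 234) (nat_lit 0) (nat_lit 0) (XT.nd (nat_lit 78) (nat_lit 0) (nat_lit 0) (XT.lf (nat_lit 0) (nat_lit 253736073130) (nat_lit 76) (nat_lit 692728007655) (nat_lit 76) (nat_lit 692035607115) (nat_lit 1) (nat_lit 4) (nat_lit 2) (nat_lit 5) (nat_lit 2) (nat_lit 4) (nat_lit 333) (nat_lit 203) (nat_lit 184)) (XT.nd (nat_lit 78) (nat_lit 0) (nat_lit 0) (XT.lf (nat_lit 0) (nat_lit 275084004919) (nat_lit 76) (nat_lit 747579287254) (nat_lit 76) (nat_lit 746871418212) (nat_lit 1) (nat_lit 4) (nat_lit 2) (nat_lit 5) (nat_lit 2) (nat_lit 4) (nat_lit 334) (nat_lit 203) (nat_lit 183)) (XT.lf (nat_lit 0) (nat_lit 298115793828) (nat_lit 76) (nat_lit 806829980012) (nat_lit 76) (nat_lit 806107788283) (nat_lit 1) (nat_lit 4) (nat_lit 2) (nat_lit 5) (nat_lit 2) (nat_lit 4) (nat_lit 335) (nat_lit 203) (nat_lit 182)))) (XT.nd (nat_lit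 156) (nat_lit 0) (nat_lit 0) (XT.nd (nat_lit 78) (nat_lit 0) (nat_lit 0) (XT.lf (nat_lit 0) (nat_lit 322967924531) (nat_lit 76) (nat_lit 870831201145) (nat_lit 76) (nat_lit 870095747669) (nat_lit 1) (nat_lit 4) (nat_lit 2) (nat_lit 5) (nat_lit 2) (nat_lit 4) (nat_lit 336) (nat_lit 203) (nat_lit 181)) (XT.lf (nat_lit 0) (nat_lit 349787668915) (nat_lit 76) (nat_lit 939962217149) (nat_lit 76) (nat_lit 939214484277) (nat_lit 1) (nat_lit 4) (nat_lit 2) (nat_lit 5) (nat_lit 2) (nat_lit 4) (nat_lit 337) (nat_lit 203) (nat_lit 180))) (XT.nd (nat_lit 78) (nat_lit 0) (nat_lit 0) (XT.lf (nat_lit 0) (nat_lit 378733958799) (nat_lit 76) (nat_lit 1014632693304) (nat_lit 76) (nat_lit 1013873590621) (nat_lit 1) (nat_lit 4) (nat_lit 2) (nat_lit 5) (nat_lit 2) (nat_lit 4) (nat_lit 338) (nat_lit 203) (nat_lit 179)) (XT.lf (nat_lit 0) (nat_lit 409978327751) (nat_lit 76) (nat_lit 1095285121320) (nat_lit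 76) (nat_lit 1094515491035) (nat_lit 1) (nat_lit 4) (nat_lit 2) (nat_lit 5) (nat_lit 2) (nat_lit 4) (nat_lit 339) (nat_lit 203) (nat_lit 178)))))) (XT.nd (nat_lit 35490) (nat_lit 0) (nat_lit 0) (XT.nd (nat_lit 234) (nat_lit 0) (nat_lit 0) (XT.nd (nat_lit 78) (nat_lit 0) (nat_lit 0) (XT.lf (nat_lit 0) (nat_lit 443705927589) (nat_lit 76) (nat_lit 1182397441512) (nat_lit 76) (nat_lit 1181618063446) (nat_lit 1) (nat_lit 4) (nat_lit 2) (nat_lit 5) (nat_lit 2) (nat_lit 4) (nat_lit 340) (nat_lit 203) (nat_lit 177)) (XT.nd (nat_lit 78) (nat_lit 0) (nat_lit 0) (XT.lf (nat_lit 0) (nat_lit 480116625569) (nat_lit 76) (nat_lit 1276485875035) (nat_lit 76) (nat_lit 1275697471248) (nat_lit 1) (nat_lit 4) (nat_lit 2) (nat_lit 5) (nat_lit 2) (nat_lit 4) (nat_lit 341) (nat_lit 203) (nat_lit 176)) (XT.lf (nat_lit 0) (nat_lit 519426188792) (nat_lit 76) (nat_lit 1378107982979) (nat_lit 76) (nat_lit 1377311222041)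 (nat_lit 1) (nat_lit 4) (nat_lit 2) (nat_lit 5) (nat_lit 2) (nat_lit 4) (nat_lit 342) (nat_lit 203) (nat_lit 175)))) (XT.nd (nat_lit 35100) (nat_lit 0) (nat_lit 0) (XT.nd (nat_lit 78) (nat_lit 0) (nat_lit 0) (XT.lf (nat_lit 0) (nat_lit 561867562817) (nat_lit 76) (nat_lit 1487865970426) (nat_lit 76) (nat_lit 1487061471386) (nat_lit 1) (nat_lit 4) (nat_lit 2) (nat_lit 5) (nat_lit 2) (nat_lit 4) (nat_lit 343) (nat_lit 203) (nat_lit 174)) (XT.lf (nat_lit 0) (nat_lit 607692252083) (nat_lit 76) (nat_lit 1606410255081) (nat_lit 76) (nat_lit 1605598591131) (nat_lit 1) (nat_lit 4) (nat_lit 2) (nat_lit 5) (nat_lit 2) (nat_lit 4) (nat_lit 344) (nat_lit 203) (nat_lit 173))) (XT.nd (nat_lit 78) (nat_lit 0) (nat_lit 0) (XT.lf (nat_lit 0) (nat_lit 16520102731) (nat_lit 76) (nat_lit 73300330046) (nat_lit 76) (nat_lit 73300330046) (nat_lit 1) (nat_lit 4) (nat_lit 2) (nat_lit 5) (nat_lit 2) (nat_lit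 4) (nat_lit 312) (nat_lit 204) (nat_lit 204)) (XT.lf (nat_lit 0) (nat_lit 37975530195) (nat_lit 76) (nat_lit 157169598329) (nat_lit 76) (nat_lit 157097500304) (nat_lit 1) (nat_lit 4) (nat_lit 2) (nat_lit 5) (nat_lit 2) (nat_lit 4) (nat_lit 313) (nat_lit 204) (nat_lit 203))))) (XT.nd (nat_lit 234) (nat_lit 0) (nat_lit 0) (XT.nd (nat_lit 78) (nat_lit 0) (nat_lit 0) (XT.lf (nat_lit 0) (nat_lit 43193923163) (nat_lit 76) (nat_lit 168636770738) (nat_lit 76) (nat_lit 168497915282) (nat_lit 1) (nat_lit 4) (nat_lit 2) (nat_lit 5) (nat_lit 2) (nat_lit 4) (nat_lit 314) (nat_lit 204) (nat_lit 202)) (XT.nd (nat_lit 78) (nat_lit 0) (nat_lit 0) (XT.lf (nat_lit 0) (nat_lit 48726308180) (nat_lit 76) (nat_lit 181070130931) (nat_lit 76) (nat_lit 180869463039) (nat_lit 1) (nat_lit 4) (nat_lit 2) (nat_lit 5) (nat_lit 2) (nat_lit 4) (nat_lit 315) (nat_lit 204) (nat_lit 201)) (XT.lf (nat_lit 0) (nat_lit 54605469747)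 (nat_lit 76) (nat_lit 194543358081) (nat_lit 76) (nat_lit 194285456451) (nat_lit 1) (nat_lit 4) (nat_lit 2) (nat_lit 5) (nat_lit 2) (nat_lit 4) (nat_lit 316) (nat_lit 204) (nat_lit 200)))) (XT.nd (nat_lit 156) (nat_lit 0) (nat_lit 0) (XT.nd (nat_lit 78) (nat_lit 0) (nat_lit 0) (XT.lf (nat_lit 0) (nat_lit 60866247341) (nat_lit 76) (nat_lit 209136293533) (nat_lit 76) (nat_lit 208825397703) (nat_lit 1) (nat_lit 4) (nat_lit 2) (nat_lit 5) (nat_lit 2) (nat_lit 4) (nat_lit 317) (nat_lit 204) (nat_lit 199)) (XT.lf (nat_lit 0) (nat_lit 67545741866) (nat_lit 76) (nat_lit 224935413942) (nat_lit 76) (nat_lit 224575449407) (nat_lit 1) (nat_lit 4) (nat_lit 2) (nat_lit 5) (nat_lit 2) (nat_lit 4) (nat_lit 318) (nat_lit 204) (nat_lit 198))) (XT.nd (nat_lit 78) (nat_lit 0) (nat_lit 0) (XT.lf (nat_lit 0) (nat_lit 74683535513) (nat_lit 76) (nat_lit 242034343726) (nat_lit 76) (nat_lit 241628945205) (nat_lit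 1) (nat_lit 4) (nat_lit 2) (nat_lit 5) (nat_lit 2) (nat_lit 4) (nat_lit 319) (nat_lit 204) (nat_lit 197)) (XT.lf (nat_lit 0) (nat_lit 82321926316) (nat_lit 76) (nat_lit 260534409875) (nat_lit 76) (nat_lit 260086942848) (nat_lit 1) (nat_lit 4) (nat_lit 2) (nat_lit 5) (nat_lit 2) (nat_lit 4) (nat_lit 320) (nat_lit 204) (nat_lit 196))))))))
noncomputable def xc5 : XT := (XT.nd (nat_lit 36816) (nat_lit 0) (nat_lit 0) (XT.nd (nat_lit 1014) (nat_lit 0) (nat_lit 0) (XT.nd (nat_lit 468) (nat_lit 0) (nat_lit 0) (XT.nd (nat_lit 234) (nat_lit 0) (nat_lit 0) (XT.nd (nat_lit 78) (nat_lit 0) (nat_lit 0) (XT.lf (nat_lit 0) (nat_lit 90506178816) (nat_lit 76) (nat_lit 280545242411) (nat_lit 76) (nat_lit 280058823065) (nat_lit 1) (nat_lit 4) (nat_lit 2) (nat_lit 5) (nat_lit 2) (nat_lit 4) (nat_lit 321) (nat_lit 204) (nat_lit 195)) (XT.nd (nat_lit 78) (nat_lit 0) (nat_lit 0) (XT.lf (nat_lit 0) (nat_lit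 99284792285) (nat_lit 76) (nat_lit 302185424046) (nat_lit 76) (nat_lit 301662937737) (nat_lit 1) (nat_lit 4) (nat_lit 2) (nat_lit 5) (nat_lit 2) (nat_lit 4) (nat_lit 322) (nat_lit 204) (nat_lit 194)) (XT.lf (nat_lit 0) (nat_lit 108709788136) (nat_lit 76) (nat_lit 325583192892) (nat_lit 76) (nat_lit 325027311247) (nat_lit 1) (nat_lit 4) (nat_lit 2) (nat_lit 5) (nat_lit 2) (nat_lit 4) (nat_lit 323) (nat_lit 204) (nat_lit 193)))) (XT.nd (nat_lit 78) (nat_lit 0) (nat_lit 0) (XT.lf (nat_lit 0) (nat_lit 118837018198) (nat_lit 76) (nat_lit 350877202396) (nat_lit 76) (nat_lit 350290399144) (nat_lit 1) (nat_lit 4) (nat_lit 2) (nat_lit 5) (nat_lit 2) (nat_lit 4) (nat_lit 324) (nat_lit 204) (nat_lit 192)) (XT.nd (nat_lit 78) (nat_lit 0) (nat_lit 0) (XT.lf (nat_lit 0) (nat_lit 129726495685) (nat_lit 76) (nat_lit 378217342983) (nat_lit 76) (nat_lit 377601908613) (nat_lit 1) (nat_lit 4) (nat_lit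 2) (nat_lit 5) (nat_lit 2) (nat_lit 4) (nat_lit 325) (nat_lit 204) (nat_lit 191)) (XT.lf (nat_lit 0) (nat_lit 141442750834) (nat_lit 76) (nat_lit 407765630301) (nat_lit 76) (nat_lit 407123685637) (nat_lit 1) (nat_lit 4) (nat_lit 2) (nat_lit 5) (nat_lit 2) (nat_lit 4) (nat_lit 326) (nat_lit 204) (nat_lit 190))))) (XT.nd (nat_lit 234) (nat_lit 0) (nat_lit 0) (XT.nd (nat_lit 78) (nat_lit 0) (nat_lit 0) (XT.lf (nat_lit 0) (nat_lit 154055213306) (nat_lit 76) (nat_lit 439697165313) (nat_lit 76) (nat_lit 439030674080) (nat_lit 1) (nat_lit 4) (nat_lit 2) (nat_lit 5) (nat_lit 2) (nat_lit 4) (nat_lit 327) (nat_lit 204) (nat_lit 189)) (XT.nd (nat_lit 78) (nat_lit 0) (nat_lit 0) (XT.lf (nat_lit 0) (nat_lit 167638623618) (nat_lit 76) (nat_lit 474201171930) (nat_lit 76) (nat_lit 473511952392) (nat_lit 1) (nat_lit 4) (nat_lit 2) (nat_lit 5) (nat_lit 2) (nat_lit 4) (nat_lit 328) (nat_lit 204) (nat_lit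 188)) (XT.lf (nat_lit 0) (nat_lit 182273476054) (nat_lit 76) (nat_lit 511482118338) (nat_lit 76) (nat_lit 510771854075) (nat_lit 1) (nat_lit 4) (nat_lit 2) (nat_lit 5) (nat_lit 2) (nat_lit 4) (nat_lit 329) (nat_lit 204) (nat_lit 187)))) (XT.nd (nat_lit 156) (nat_lit 0) (nat_lit 0) (XT.nd (nat_lit 78) (nat_lit 0) (nat_lit 0) (XT.lf (nat_lit 0) (nat_lit 198046495665) (nat_lit 76) (nat_lit 551760928666) (nat_lit 76) (nat_lit 551031178544) (nat_lit 1) (nat_lit 4) (nat_lit 2) (nat_lit 5) (nat_lit 2) (nat_lit 4) (nat_lit 330) (nat_lit 204) (nat_lit 186)) (XT.lf (nat_lit 0) (nat_lit 215051152198) (nat_lit 76) (nat_lit 595276292158) (nat_lit 76) (nat_lit 594528499576) (nat_lit 1) (nat_lit 4) (nat_lit 2) (nat_lit 5) (nat_lit 2) (nat_lit 4) (nat_lit 331) (nat_lit 204) (nat_lit 185))) (XT.nd (nat_lit 78) (nat_lit 0) (nat_lit 0) (XT.lf (nat_lit 0) (nat_lit 233388213987) (nat_lit 76) (nat_lit 642286077637)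 (nat_lit 76) (nat_lit 641521579072) (nat_lit 1) (nat_lit 4) (nat_lit 2) (nat_lit 5) (nat_lit 2) (nat_lit 4) (nat_lit 332) (nat_lit 204) (nat_lit 184)) (XT.lf (nat_lit 0) (nat_lit 253166345102) (nat_lit 76) (nat_lit 693068861608) (nat_lit 76) (nat_lit 692288894541) (nat_lit 1) (nat_lit 4) (nat_lit 2) (nat_lit 5) (nat_lit 2) (nat_lit 4) (nat_lit 333) (nat_lit 204) (nat_lit 183)))))) (XT.nd (nat_lit 468) (nat_lit 0) (nat_lit 0) (XT.nd (nat_lit 234) (nat_lit 0) (nat_lit 0) (XT.nd (nat_lit 78) (nat_lit 0) (nat_lit 0) (XT.lf (nat_lit 0) (nat_lit 274502749284) (nat_lit 76) (nat_lit 747925579087) (nat_lit 76) (nat_lit 747131289333) (nat_lit 1) (nat_lit 4) (nat_lit 2) (nat_lit 5) (nat_lit 2) (nat_lit 4) (nat_lit 334) (nat_lit 204) (nat_lit 182)) (XT.nd (nat_lit 78) (nat_lit 0) (nat_lit 0) (XT.lf (nat_lit 0) (nat_lit 297523864482) (nat_lit 76) (nat_lit 807181306919) (nat_lit 76) (nat_lit 806373755418)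 (nat_lit 1) (nat_lit 4) (nat_lit 2) (nat_lit 5) (nat_lit 2) (nat_lit 4) (nat_lit 335) (nat_lit 204) (nat_lit 181)) (XT.lf (nat_lit 0) (nat_lit 322366112120) (nat_lit 76) (nat_lit 871187190159) (nat_lit 76) (nat_lit 870367359261) (nat_lit 1) (nat_lit 4) (nat_lit 2) (nat_lit 5) (nat_lit 2) (nat_lit 4) (nat_lit 336) (nat_lit 204) (nat_lit 180)))) (XT.nd (nat_lit 78) (nat_lit 0) (nat_lit 0) (XT.lf (nat_lit 0) (nat_lit 349176705518) (nat_lit 76) (nat_lit 940322522927) (nat_lit 76) (nat_lit 939491322219) (nat_lit 1) (nat_lit 4) (nat_lit 2) (nat_lit 5) (nat_lit 2) (nat_lit 4) (nat_lit 337) (nat_lit 204) (nat_lit 179)) (XT.nd (nat_lit 78) (nat_lit 0) (nat_lit 0) (XT.lf (nat_lit 0) (nat_lit 378114522266) (nat_lit 76) (nat_lit 1014996996086) (nat_lit 76) (nat_lit 1014155267776) (nat_lit 1) (nat_lit 4) (nat_lit 2) (nat_lit 5) (nat_lit 2) (nat_lit 4) (nat_lit 338) (nat_lit 204) (nat_lit 178)) (XT.lf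 (nat_lit 0) (nat_lit 409351045723) (nat_lit 76) (nat_lit 1095653125032) (nat_lit 76) (nat_lit 1094801648942) (nat_lit 1) (nat_lit 4) (nat_lit 2) (nat_lit 5) (nat_lit 2) (nat_lit 4) (nat_lit 339) (nat_lit 204) (nat_lit 177))))) (XT.nd (nat_lit 234) (nat_lit 0) (nat_lit 0) (XT.nd (nat_lit 78) (nat_lit 0) (nat_lit 0) (XT.lf (nat_lit 0) (nat_lit 443071381212) (nat_lit 76) (nat_lit 1182768872011) (nat_lit 76) (nat_lit 1181908370198) (nat_lit 1) (nat_lit 4) (nat_lit 2) (nat_lit 5) (nat_lit 2) (nat_lit 4) (nat_lit 340) (nat_lit 204) (nat_lit 176)) (XT.nd (nat_lit 78) (nat_lit 0) (nat_lit 0) (XT.lf (nat_lit 0) (nat_lit 479475352944) (nat_lit 76) (nat_lit 1276860478486) (nat_lit 76) (nat_lit 1275991619522) (nat_lit 1) (nat_lit 4) (nat_lit 2) (nat_lit 5) (nat_lit 2) (nat_lit 4) (nat_lit 341) (nat_lit 204) (nat_lit 175)) (XT.lf (nat_lit 0) (nat_lit 518778688160) (nat_lit 76) (nat_lit 1378485524347)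 (nat_lit 76) (nat_lit 1377608927281) (nat_lit 1) (nat_lit 4) (nat_lit 2) (nat_lit 5) (nat_lit 2) (nat_lit 4) (nat_lit 342) (nat_lit 204) (nat_lit 174)))) (XT.nd (nat_lit 34944) (nat_lit 0) (nat_lit 0) (XT.nd (nat_lit 78) (nat_lit 0) (nat_lit 0) (XT.lf (nat_lit 0) (nat_lit 561214295511) (nat_lit 76) (nat_lit 1488246232088) (nat_lit 76) (nat_lit 1487362470113) (nat_lit 1) (nat_lit 4) (nat_lit 2) (nat_lit 5) (nat_lit 2) (nat_lit 4) (nat_lit 343) (nat_lit 204) (nat_lit 173)) (XT.lf (nat_lit 0) (nat_lit 607033645264) (nat_lit 76) (nat_lit 1606793035533) (nat_lit 76) (nat_lit 1605902639383) (nat_lit 1) (nat_lit 4) (nat_lit 2) (nat_lit 5) (nat_lit 2) (nat_lit 4) (nat_lit 344) (nat_lit 204) (nat_lit 172))) (XT.nd (nat_lit 78) (nat_lit 0) (nat_lit 0) (XT.lf (nat_lit 0) (nat_lit 11982974833) (nat_lit 76) (nat_lit 63980108741) (nat_lit 76) (nat_lit 63980108741) (nat_lit 1) (nat_lit 4) (nat_lit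 2) (nat_lit 5) (nat_lit 2) (nat_lit 4) (nat_lit 310) (nat_lit 205) (nat_lit 205)) (XT.lf (nat_lit 0) (nat_lit 28358702599) (nat_lit 76) (nat_lit 136945191147) (nat_lit 76) (nat_lit 136867325279) (nat_lit 1) (nat_lit 4) (nat_lit 2) (nat_lit 5) (nat_lit 2) (nat_lit 4) (nat_lit 311) (nat_lit 205) (nat_lit 204))))))) (XT.nd (nat_lit 1014) (nat_lit 0) (nat_lit 0) (XT.nd (nat_lit 468) (nat_lit 0) (nat_lit 0) (XT.nd (nat_lit 234) (nat_lit 0) (nat_lit 0) (XT.nd (nat_lit 78) (nat_lit 0) (nat_lit 0) (XT.lf (nat_lit 0) (nat_lit 32982177405) (nat_lit 76) (nat_lit 146705899344) (nat_lit 76) (nat_lit 146555935451) (nat_lit 1) (nat_lit 4) (nat_lit 2) (nat_lit 5) (nat_lit 2) (nat_lit 4) (nat_lit 312) (nat_lit 205) (nat_lit 203)) (XT.nd (nat_lit 78) (nat_lit 0) (nat_lit 0) (XT.lf (nat_lit 0) (nat_lit 37863772453) (nat_lit 76) (nat_lit 157300183309) (nat_lit 76) (nat_lit 157083461985) (nat_lit 1) (nat_lit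 4) (nat_lit 2) (nat_lit 5) (nat_lit 2) (nat_lit 4) (nat_lit 313) (nat_lit 205) (nat_lit 202)) (XT.lf (nat_lit 0) (nat_lit 43032415715) (nat_lit 76) (nat_lit 168790823982) (nat_lit 76) (nat_lit 168512290223) (nat_lit 1) (nat_lit 4) (nat_lit 2) (nat_lit 5) (nat_lit 2) (nat_lit 4) (nat_lit 314) (nat_lit 205) (nat_lit 201)))) (XT.nd (nat_lit 78) (nat_lit 0) (nat_lit 0) (XT.lf (nat_lit 0) (nat_lit 48518736188) (nat_lit 76) (nat_lit 181245914051) (nat_lit 76) (nat_lit 180910146554) (nat_lit 1) (nat_lit 4) (nat_lit 2) (nat_lit 5) (nat_lit 2) (nat_lit 4) (nat_lit 315) (nat_lit 205) (nat_lit 200)) (XT.nd (nat_lit 78) (nat_lit 0) (nat_lit 0) (XT.lf (nat_lit 0) (nat_lit 54355245400) (nat_lit 76) (nat_lit 194739261456) (nat_lit 76) (nat_lit 194350499758) (nat_lit 1) (nat_lit 4) (nat_lit 2) (nat_lit 5) (nat_lit 2) (nat_lit 4) (nat_lit 316) (nat_lit 205) (nat_lit 199)) (XT.lf (nat_lit 0) (nat_lit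 60576530073) (nat_lit 76) (nat_lit 209350826774) (nat_lit 76) (nat_lit 208912996371) (nat_lit 1) (nat_lit 4) (nat_lit 2) (nat_lit 5) (nat_lit 2) (nat_lit 4) (nat_lit 317) (nat_lit 205) (nat_lit 198))))) (XT.nd (nat_lit 234) (nat_lit 0) (nat_lit 0) (XT.nd (nat_lit 78) (nat_lit 0) (nat_lit 0) (XT.lf (nat_lit 0) (nat_lit 67219457078) (nat_lit 76) (nat_lit 225167197059) (nat_lit 76) (nat_lit 224683932670) (nat_lit 1) (nat_lit 4) (nat_lit 2) (nat_lit 5) (nat_lit 2) (nat_lit 4) (nat_lit 318) (nat_lit 205) (nat_lit 197)) (XT.nd (nat_lit 78) (nat_lit 0) (nat_lit 0) (XT.lf (nat_lit 0) (nat_lit 74323391910) (nat_lit 76) (nat_lit 242282098949) (nat_lit 76) (nat_lit 241756766056) (nat_lit 1) (nat_lit 4) (nat_lit 2) (nat_lit 5) (nat_lit 2) (nat_lit 4) (nat_lit 319) (nat_lit 205) (nat_lit 196)) (XT.lf (nat_lit 0) (nat_lit 81930431960) (nat_lit 76) (nat_lit 260796954087) (nat_lit 76) (nat_lit 260232668873)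 (nat_lit 1) (nat_lit 4) (nat_lit 2) (nat_lit 5) (nat_lit 2) (nat_lit 4) (nat_lit 320) (nat_lit 205) (nat_lit 195)))) (XT.nd (nat_lit 156) (nat_lit 0) (nat_lit 0) (XT.nd (nat_lit 78) (nat_lit 0) (nat_lit 0) (XT.lf (nat_lit 0) (nat_lit 90085655983) (nat_lit 76) (nat_lit 280821480130) (nat_lit 76) (nat_lit 280221127954) (nat_lit 1) (nat_lit 4) (nat_lit 2) (nat_lit 5) (nat_lit 2) (nat_lit 4) (nat_lit 321) (nat_lit 205) (nat_lit 194)) (XT.lf (nat_lit 0) (nat_lit 98837391233) (nat_lit 76) (nat_lit 302474340938) (nat_lit 76) (nat_lit 301840593426) (nat_lit 1) (nat_lit 4) (nat_lit 2) (nat_lit 5) (nat_lit 2) (nat_lit 4) (nat_lit 322) (nat_lit 205) (nat_lit 193))) (XT.nd (nat_lit 78) (nat_lit 0) (nat_lit 0) (XT.lf (nat_lit 0) (nat_lit 108237499846) (nat_lit 76) (nat_lit 325883849761) (nat_lit 76) (nat_lit 325219180641) (nat_lit 1) (nat_lit 4) (nat_lit 2) (nat_lit 5) (nat_lit 2) (nat_lit 4) (nat_lit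 323) (nat_lit 205) (nat_lit 192)) (XT.lf (nat_lit 0) (nat_lit 118341686167) (nat_lit 76) (nat_lit 351188729612) (nat_lit 76) (nat_lit 350495429374) (nat_lit 1) (nat_lit 4) (nat_lit 2) (nat_lit 5) (nat_lit 2) (nat_lit 4) (nat_lit 324) (nat_lit 205) (nat_lit 191)))))) (XT.nd (nat_lit 546) (nat_lit 0) (nat_lit 0) (XT.nd (nat_lit 234) (nat_lit 0) (nat_lit 0) (XT.nd (nat_lit 78) (nat_lit 0) (nat_lit 0) (XT.lf (nat_lit 0) (nat_lit 129209826857) (nat_lit 76) (nat_lit 378538935336) (nat_lit 76) (nat_lit 377819124804) (nat_lit 1) (nat_lit 4) (nat_lit 2) (nat_lit 5) (nat_lit 2) (nat_lit 4) (nat_lit 325) (nat_lit 205) (nat_lit 190)) (XT.nd (nat_lit 78) (nat_lit 0) (nat_lit 0) (XT.lf (nat_lit 0) (nat_lit 140906325713) (nat_lit 76) (nat_lit 408096542225) (nat_lit 76) (nat_lit 407352185125) (nat_lit 1) (nat_lit 4) (nat_lit 2) (nat_lit 5) (nat_lit 2) (nat_lit 4) (nat_lit 326) (nat_lit 205) (nat_lit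 189)) (XT.lf (nat_lit 0) (nat_lit 153500495321) (nat_lit 76) (nat_lit 440036706470) (nat_lit 76) (nat_lit 439269621065) (nat_lit 1) (nat_lit 4) (nat_lit 2) (nat_lit 5) (nat_lit 2) (nat_lit 4) (nat_lit 327) (nat_lit 205) (nat_lit 188)))) (XT.nd (nat_lit 156) (nat_lit 0) (nat_lit 0) (XT.nd (nat_lit 78) (nat_lit 0) (nat_lit 0) (XT.lf (nat_lit 0) (nat_lit 167066967796) (nat_lit 76) (nat_lit 474548703117) (nat_lit 76) (nat_lit 473760572985) (nat_lit 1) (nat_lit 4) (nat_lit 2) (nat_lit 5) (nat_lit 2) (nat_lit 4) (nat_lit 328) (nat_lit 205) (nat_lit 187)) (XT.lf (nat_lit 0) (nat_lit 181686137049) (nat_lit 76) (nat_lit 511837047701) (nat_lit 76) (nat_lit 511029431712) (nat_lit 1) (nat_lit 4) (nat_lit 2) (nat_lit 5) (nat_lit 2) (nat_lit 4) (nat_lit 329) (nat_lit 205) (nat_lit 186))) (XT.nd (nat_lit 78) (nat_lit 0) (nat_lit 0) (XT.lf (nat_lit 0) (nat_lit 197444635196) (nat_lit 76) (nat_lit 552122708192)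 (nat_lit 76) (nat_lit 551297049742) (nat_lit 1) (nat_lit 4) (nat_lit 2) (nat_lit 5) (nat_lit 2) (nat_lit 4) (nat_lit 330) (nat_lit 205) (nat_lit 185)) (XT.lf (nat_lit 0) (nat_lit 214435845927) (nat_lit 76) (nat_lit 595644414428) (nat_lit 76) (nat_lit 594802049995) (nat_lit 1) (nat_lit 4) (nat_lit 2) (nat_lit 5) (nat_lit 2) (nat_lit 4) (nat_lit 331) (nat_lit 205) (nat_lit 184))))) (XT.nd (nat_lit 234) (nat_lit 0) (nat_lit 0) (XT.nd (nat_lit 78) (nat_lit 0) (nat_lit 0) (XT.lf (nat_lit 0) (nat_lit 232760457901) (nat_lit 76) (nat_lit 642660072817) (nat_lit 76) (nat_lit 641802239882) (nat_lit 1) (nat_lit 4) (nat_lit 2) (nat_lit 5) (nat_lit 2) (nat_lit 4) (nat_lit 332) (nat_lit 205) (nat_lit 183)) (XT.nd (nat_lit 78) (nat_lit 0) (nat_lit 0) (XT.lf (nat_lit 0) (nat_lit 252527061409) (nat_lit 76) (nat_lit 693448294668) (nat_lit 76) (nat_lit 692576139046) (nat_lit 1) (nat_lit 4) (nat_lit 2)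 (nat_lit 5) (nat_lit 2) (nat_lit 4) (nat_lit 333) (nat_lit 205) (nat_lit 182)) (XT.lf (nat_lit 0) (nat_lit 273852791880) (nat_lit 76) (nat_lit 748310047222) (nat_lit 76) (nat_lit 747424629853) (nat_lit 1) (nat_lit 4) (nat_lit 2) (nat_lit 5) (nat_lit 2) (nat_lit 4) (nat_lit 334) (nat_lit 205) (nat_lit 181)))) (XT.nd (nat_lit 156) (nat_lit 0) (nat_lit 0) (XT.nd (nat_lit 78) (nat_lit 0) (nat_lit 0) (XT.lf (nat_lit 0) (nat_lit 296864024013) (nat_lit 76) (nat_lit 807570437160) (nat_lit 76) (nat_lit 806672740395) (nat_lit 1) (nat_lit 4) (nat_lit 2) (nat_lit 5) (nat_lit 2) (nat_lit 4) (nat_lit 335) (nat_lit 205) (nat_lit 180)) (XT.lf (nat_lit 0) (nat_lit 321697120665) (nat_lit 76) (nat_lit 871580637163) (nat_lit 76) (nat_lit 870671570588) (nat_lit 1) (nat_lit 4) (nat_lit 2) (nat_lit 5) (nat_lit 2) (nat_lit 4) (nat_lit 336) (nat_lit 205) (nat_lit 179))) (XT.nd (nat_lit 78) (nat_lit 0) (nat_lit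 0) (XT.lf (nat_lit 0) (nat_lit 348499240927) (nat_lit 76) (nat_lit 940719966936) (nat_lit 76) (nat_lit 939800372758) (nat_lit 1) (nat_lit 4) (nat_lit 2) (nat_lit 5) (nat_lit 2) (nat_lit 4) (nat_lit 337) (nat_lit 205) (nat_lit 178)) (XT.lf (nat_lit 0) (nat_lit 377429212179) (nat_lit 76) (nat_lit 1015398141025) (nat_lit 76) (nat_lit 1014468799067) (nat_lit 1) (nat_lit 4) (nat_lit 2) (nat_lit 5) (nat_lit 2) (nat_lit 4) (nat_lit 338) (nat_lit 205) (nat_lit 177))))))))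
noncomputable def xc6 : XT := (XT.nd (nat_lit 36660) (nat_lit 0) (nat_lit 0) (XT.nd (nat_lit 35646) (nat_lit 0) (nat_lit 0) (XT.nd (nat_lit 35100) (nat_lit 0) (nat_lit 0) (XT.nd (nat_lit 234) (nat_lit 0) (nat_lit 0) (XT.nd (nat_lit 78) (nat_lit 0) (nat_lit 0) (XT.lf (nat_lit 0) (nat_lit 408658471288) (nat_lit 76) (nat_lit 1096057696758) (nat_lit 76) (nat_lit 1095119329078) (nat_lit 1) (nat_lit 4) (nat_lit 2) (nat_lit 5) (nat_lit 2) (nat_lit 4) (nat_lit 339) (nat_lit 205) (nat_lit 176)) (XT.nd (nat_lit 78) (nat_lit 0) (nat_lit 0) (XT.lf (nat_lit 0) (nat_lit 442372080529) (nat_lit 76) (nat_lit 1183176616688) (nat_lit 76) (nat_lit 1182229891857) (nat_lit 1) (nat_lit 4) (nat_lit 2) (nat_lit 5) (nat_lit 2) (nat_lit 4) (nat_lit 340) (nat_lit 205) (nat_lit 175)) (XT.lf (nat_lit 0) (nat_lit 478769824254) (nat_lit 76) (nat_lit 1277271161080) (nat_lit 76) (nat_lit 1276316698147) (nat_lit 1) (nat_lit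 4) (nat_lit 2) (nat_lit 5) (nat_lit 2) (nat_lit 4) (nat_lit 341) (nat_lit 205) (nat_lit 174)))) (XT.nd (nat_lit 78) (nat_lit 0) (nat_lit 0) (XT.lf (nat_lit 0) (nat_lit 518067392796) (nat_lit 76) (nat_lit 1378898927235) (nat_lit 76) (nat_lit 1377937299393) (nat_lit 1) (nat_lit 4) (nat_lit 2) (nat_lit 5) (nat_lit 2) (nat_lit 4) (nat_lit 342) (nat_lit 205) (nat_lit 173)) (XT.nd (nat_lit 78) (nat_lit 0) (nat_lit 0) (XT.lf (nat_lit 0) (nat_lit 560497660635) (nat_lit 76) (nat_lit 1488662153767) (nat_lit 76) (nat_lit 1487693891749) (nat_lit 1) (nat_lit 4) (nat_lit 2) (nat_lit 5) (nat_lit 2) (nat_lit 4) (nat_lit 343) (nat_lit 205) (nat_lit 172)) (XT.lf (nat_lit 0) (nat_lit 606312066395) (nat_lit 76) (nat_lit 1607211289426) (nat_lit 76) (nat_lit 1606236884653) (nat_lit 1) (nat_lit 4) (nat_lit 2) (nat_lit 5) (nat_lit 2) (nat_lit 4) (nat_lit 344) (nat_lit 205) (nat_lit 171))))) (XT.nd (nat_lit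 234) (nat_lit 0) (nat_lit 0) (XT.nd (nat_lit 78) (nat_lit 0) (nat_lit 0) (XT.lf (nat_lit 0) (nat_lit 7918690910) (nat_lit 76) (nat_lit 56080472424) (nat_lit 76) (nat_lit 56080472424) (nat_lit 1) (nat_lit 4) (nat_lit 2) (nat_lit 5) (nat_lit 2) (nat_lit 4) (nat_lit 308) (nat_lit 206) (nat_lit 206)) (XT.nd (nat_lit 78) (nat_lit 0) (nat_lit 0) (XT.lf (nat_lit 0) (nat_lit 19777887480) (nat_lit 76) (nat_lit 119781829202) (nat_lit 76) (nat_lit 119697734065) (nat_lit 1) (nat_lit 4) (nat_lit 2) (nat_lit 5) (nat_lit 2) (nat_lit 4) (nat_lit 309) (nat_lit 206) (nat_lit 205)) (XT.lf (nat_lit 0) (nat_lit 23903279364) (nat_lit 76) (nat_lit 128073875876) (nat_lit 76) (nat_lit 127911914871) (nat_lit 1) (nat_lit 4) (nat_lit 2) (nat_lit 5) (nat_lit 2) (nat_lit 4) (nat_lit 310) (nat_lit 206) (nat_lit 204)))) (XT.nd (nat_lit 156) (nat_lit 0) (nat_lit 0) (XT.nd (nat_lit 78) (nat_lit 0) (nat_lit 0) (XT.lf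 (nat_lit 0) (nat_lit 28238004238) (nat_lit 76) (nat_lit 137086222924) (nat_lit 76) (nat_lit 136852163894) (nat_lit 1) (nat_lit 4) (nat_lit 2) (nat_lit 5) (nat_lit 2) (nat_lit 4) (nat_lit 311) (nat_lit 206) (nat_lit 203)) (XT.lf (nat_lit 0) (nat_lit 32807749360) (nat_lit 76) (nat_lit 146872276848) (nat_lit 76) (nat_lit 146571460387) (nat_lit 1) (nat_lit 4) (nat_lit 2) (nat_lit 5) (nat_lit 2) (nat_lit 4) (nat_lit 312) (nat_lit 206) (nat_lit 202))) (XT.nd (nat_lit 78) (nat_lit 0) (nat_lit 0) (XT.lf (nat_lit 0) (nat_lit 37639594702) (nat_lit 76) (nat_lit 157490029078) (nat_lit 76) (nat_lit 157127400181) (nat_lit 1) (nat_lit 4) (nat_lit 2) (nat_lit 5) (nat_lit 2) (nat_lit 4) (nat_lit 313) (nat_lit 206) (nat_lit 201)) (XT.lf (nat_lit 0) (nat_lit 42762173421) (nat_lit 76) (nat_lit 169002399627) (nat_lit 76) (nat_lit 168582536994) (nat_lit 1) (nat_lit 4) (nat_lit 2) (nat_lit 5) (nat_lit 2)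 (nat_lit 4) (nat_lit 314) (nat_lit 206) (nat_lit 200)))))) (XT.nd (nat_lit 468) (nat_lit 0) (nat_lit 0) (XT.nd (nat_lit 234) (nat_lit 0) (nat_lit 0) (XT.nd (nat_lit 78) (nat_lit 0) (nat_lit 0) (XT.lf (nat_lit 0) (nat_lit 48205841538) (nat_lit 76) (nat_lit 181477609951) (nat_lit 76) (nat_lit 181004753116) (nat_lit 1) (nat_lit 4) (nat_lit 2) (nat_lit 5) (nat_lit 2) (nat_lit 4) (nat_lit 315) (nat_lit 206) (nat_lit 199)) (XT.nd (nat_lit 78) (nat_lit 0) (nat_lit 0) (XT.lf (nat_lit 0) (nat_lit 54002857829) (nat_lit 76) (nat_lit 194989587222) (nat_lit 76) (nat_lit 194467661682) (nat_lit 1) (nat_lit 4) (nat_lit 2) (nat_lit 5) (nat_lit 2) (nat_lit 4) (nat_lit 316) (nat_lit 206) (nat_lit 198)) (XT.lf (nat_lit 0) (nat_lit 60187574982) (nat_lit 76) (nat_lit 209618402416) (nat_lit 76) (nat_lit 209051042890) (nat_lit 1) (nat_lit 4) (nat_lit 2) (nat_lit 5) (nat_lit 2) (nat_lit 4) (nat_lit 317) (nat_lit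 206) (nat_lit 197)))) (XT.nd (nat_lit 78) (nat_lit 0) (nat_lit 0) (XT.lf (nat_lit 0) (nat_lit 66796643173) (nat_lit 76) (nat_lit 225450744808) (nat_lit 76) (nat_lit 224841316777) (nat_lit 1) (nat_lit 4) (nat_lit 2) (nat_lit 5) (nat_lit 2) (nat_lit 4) (nat_lit 318) (nat_lit 206) (nat_lit 196)) (XT.nd (nat_lit 78) (nat_lit 0) (nat_lit 0) (XT.lf (nat_lit 0) (nat_lit 73869227251) (nat_lit 76) (nat_lit 242580435686) (nat_lit 76) (nat_lit 241932055336) (nat_lit 1) (nat_lit 4) (nat_lit 2) (nat_lit 5) (nat_lit 2) (nat_lit 4) (nat_lit 319) (nat_lit 206) (nat_lit 195)) (XT.lf (nat_lit 0) (nat_lit 81447238824) (nat_lit 76) (nat_lit 261108984331) (nat_lit 76) (nat_lit 260424537018) (nat_lit 1) (nat_lit 4) (nat_lit 2) (nat_lit 5) (nat_lit 2) (nat_lit 4) (nat_lit 320) (nat_lit 206) (nat_lit 194))))) (XT.nd (nat_lit 234) (nat_lit 0) (nat_lit 0) (XT.nd (nat_lit 78) (nat_lit 0) (nat_lit 0) (XT.lf (nat_lit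 0) (nat_lit 89575584629) (nat_lit 76) (nat_lit 281146189548) (nat_lit 76) (nat_lit 280428346899) (nat_lit 1) (nat_lit 4) (nat_lit 2) (nat_lit 5) (nat_lit 2) (nat_lit 4) (nat_lit 321) (nat_lit 206) (nat_lit 193)) (XT.nd (nat_lit 78) (nat_lit 0) (nat_lit 0) (XT.lf (nat_lit 0) (nat_lit 98302432640) (nat_lit 76) (nat_lit 302810790332) (nat_lit 76) (nat_lit 302062026076) (nat_lit 1) (nat_lit 4) (nat_lit 2) (nat_lit 5) (nat_lit 2) (nat_lit 4) (nat_lit 322) (nat_lit 206) (nat_lit 192)) (XT.lf (nat_lit 0) (nat_lit 107679497512) (nat_lit 76) (nat_lit 326231169502) (nat_lit 76) (nat_lit 325453774128) (nat_lit 1) (nat_lit 4) (nat_lit 2) (nat_lit 5) (nat_lit 2) (nat_lit 4) (nat_lit 323) (nat_lit 206) (nat_lit 191)))) (XT.nd (nat_lit 156) (nat_lit 0) (nat_lit 0) (XT.nd (nat_lit 78) (nat_lit 0) (nat_lit 0) (XT.lf (nat_lit 0) (nat_lit 117762347037) (nat_lit 76) (nat_lit 351546114490) (nat_lit 76)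 (nat_lit 350742208821) (nat_lit 1) (nat_lit 4) (nat_lit 2) (nat_lit 5) (nat_lit 2) (nat_lit 4) (nat_lit 324) (nat_lit 206) (nat_lit 190)) (XT.lf (nat_lit 0) (nat_lit 128610731434) (nat_lit 76) (nat_lit 378905639785) (nat_lit 76) (nat_lit 378077187548) (nat_lit 1) (nat_lit 4) (nat_lit 2) (nat_lit 5) (nat_lit 2) (nat_lit 4) (nat_lit 325) (nat_lit 206) (nat_lit 189))) (XT.nd (nat_lit 78) (nat_lit 0) (nat_lit 0) (XT.lf (nat_lit 0) (nat_lit 140288937426) (nat_lit 76) (nat_lit 408471875907) (nat_lit 76) (nat_lit 407620695365) (nat_lit 1) (nat_lit 4) (nat_lit 2) (nat_lit 5) (nat_lit 2) (nat_lit 4) (nat_lit 326) (nat_lit 206) (nat_lit 188)) (XT.lf (nat_lit 0) (nat_lit 152866169196) (nat_lit 76) (nat_lit 440420030182) (nat_lit 76) (nat_lit 439547804914) (nat_lit 1) (nat_lit 4) (nat_lit 2) (nat_lit 5) (nat_lit 2) (nat_lit 4) (nat_lit 327) (nat_lit 206) (nat_lit 187))))))) (XT.nd (nat_lit 1014)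 (nat_lit 0) (nat_lit 0) (XT.nd (nat_lit 468) (nat_lit 0) (nat_lit 0) (XT.nd (nat_lit 234) (nat_lit 0) (nat_lit 0) (XT.nd (nat_lit 78) (nat_lit 0) (nat_lit 0) (XT.lf (nat_lit 0) (nat_lit 166416958489) (nat_lit 76) (nat_lit 474939425005) (nat_lit 76) (nat_lit 474047713879) (nat_lit 1) (nat_lit 4) (nat_lit 2) (nat_lit 5) (nat_lit 2) (nat_lit 4) (nat_lit 328) (nat_lit 206) (nat_lit 186)) (XT.nd (nat_lit 78) (nat_lit 0) (nat_lit 0) (XT.lf (nat_lit 0) (nat_lit 181021606277) (nat_lit 76) (nat_lit 512234619752) (nat_lit 76) (nat_lit 511324866165) (nat_lit 1) (nat_lit 4) (nat_lit 2) (nat_lit 5) (nat_lit 2) (nat_lit 4) (nat_lit 329) (nat_lit 206) (nat_lit 185)) (XT.lf (nat_lit 0) (nat_lit 196766658623) (nat_lit 76) (nat_lit 552526622986) (nat_lit 76) (nat_lit 551600163417) (nat_lit 1) (nat_lit 4) (nat_lit 2) (nat_lit 5) (nat_lit 2) (nat_lit 4) (nat_lit 330) (nat_lit 206) (nat_lit 184)))) (XT.nd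 (nat_lit 78) (nat_lit 0) (nat_lit 0) (XT.lf (nat_lit 0) (nat_lit 213745419538) (nat_lit 76) (nat_lit 596054202133) (nat_lit 76) (nat_lit 595112274061) (nat_lit 1) (nat_lit 4) (nat_lit 2) (nat_lit 5) (nat_lit 2) (nat_lit 4) (nat_lit 331) (nat_lit 206) (nat_lit 183)) (XT.nd (nat_lit 78) (nat_lit 0) (nat_lit 0) (XT.lf (nat_lit 0) (nat_lit 232058503904) (nat_lit 76) (nat_lit 643075298402) (nat_lit 76) (nat_lit 642119047644) (nat_lit 1) (nat_lit 4) (nat_lit 2) (nat_lit 5) (nat_lit 2) (nat_lit 4) (nat_lit 332) (nat_lit 206) (nat_lit 182)) (XT.lf (nat_lit 0) (nat_lit 251814433702) (nat_lit 76) (nat_lit 693868555327) (nat_lit 76) (nat_lit 692899042822) (nat_lit 1) (nat_lit 4) (nat_lit 2) (nat_lit 5) (nat_lit 2) (nat_lit 4) (nat_lit 333) (nat_lit 206) (nat_lit 181))))) (XT.nd (nat_lit 234) (nat_lit 0) (nat_lit 0) (XT.nd (nat_lit 78) (nat_lit 0) (nat_lit 0) (XT.lf (nat_lit 0) (nat_lit 273130281108)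 (nat_lit 76) (nat_lit 748734969987) (nat_lit 76) (nat_lit 747753178086) (nat_lit 1) (nat_lit 4) (nat_lit 2) (nat_lit 5) (nat_lit 2) (nat_lit 4) (nat_lit 334) (nat_lit 206) (nat_lit 180)) (XT.nd (nat_lit 78) (nat_lit 0) (nat_lit 0) (XT.lf (nat_lit 0) (nat_lit 296132362254) (nat_lit 76) (nat_lit 807999676690) (nat_lit 76) (nat_lit 807006514978) (nat_lit 1) (nat_lit 4) (nat_lit 2) (nat_lit 5) (nat_lit 2) (nat_lit 4) (nat_lit 335) (nat_lit 206) (nat_lit 179)) (XT.lf (nat_lit 0) (nat_lit 320956985771) (nat_lit 76) (nat_lit 872013873698) (nat_lit 76) (nat_lit 871010184383) (nat_lit 1) (nat_lit 4) (nat_lit 2) (nat_lit 5) (nat_lit 2) (nat_lit 4) (nat_lit 336) (nat_lit 206) (nat_lit 178)))) (XT.nd (nat_lit 156) (nat_lit 0) (nat_lit 0) (XT.nd (nat_lit 78) (nat_lit 0) (nat_lit 0) (XT.lf (nat_lit 0) (nat_lit 347751260538) (nat_lit 76) (nat_lit 941156904401) (nat_lit 76) (nat_lit 940143467306) (nat_lit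 1) (nat_lit 4) (nat_lit 2) (nat_lit 5) (nat_lit 2) (nat_lit 4) (nat_lit 337) (nat_lit 206) (nat_lit 177)) (XT.lf (nat_lit 0) (nat_lit 376673967442) (nat_lit 76) (nat_lit 1015838505277) (nat_lit 76) (nat_lit 1014816042459) (nat_lit 1) (nat_lit 4) (nat_lit 2) (nat_lit 5) (nat_lit 2) (nat_lit 4) (nat_lit 338) (nat_lit 206) (nat_lit 176))) (XT.nd (nat_lit 78) (nat_lit 0) (nat_lit 0) (XT.lf (nat_lit 0) (nat_lit 407896500302) (nat_lit 76) (nat_lit 1096501233960) (nat_lit 76) (nat_lit 1095470413993) (nat_lit 1) (nat_lit 4) (nat_lit 2) (nat_lit 5) (nat_lit 2) (nat_lit 4) (nat_lit 339) (nat_lit 206) (nat_lit 175)) (XT.lf (nat_lit 0) (nat_lit 441603881536) (nat_lit 76) (nat_lit 1183623091807) (nat_lit 76) (nat_lit 1182584533737) (nat_lit 1) (nat_lit 4) (nat_lit 2) (nat_lit 5) (nat_lit 2) (nat_lit 4) (nat_lit 340) (nat_lit 206) (nat_lit 174)))))) (XT.nd (nat_lit 35022) (nat_lit 0) (nat_lit 0)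 (XT.nd (nat_lit 234) (nat_lit 0) (nat_lit 0) (XT.nd (nat_lit 78) (nat_lit 0) (nat_lit 0) (XT.lf (nat_lit 0) (nat_lit 477995858587) (nat_lit 76) (nat_lit 1277720356494) (nat_lit 76) (nat_lit 1276674633514) (nat_lit 1) (nat_lit 4) (nat_lit 2) (nat_lit 5) (nat_lit 2) (nat_lit 4) (nat_lit 341) (nat_lit 206) (nat_lit 173)) (XT.nd (nat_lit 78) (nat_lit 0) (nat_lit 0) (XT.lf (nat_lit 0) (nat_lit 517288087616) (nat_lit 76) (nat_lit 1379350641439) (nat_lit 76) (nat_lit 1378298284285) (nat_lit 1) (nat_lit 4) (nat_lit 2) (nat_lit 5) (nat_lit 2) (nat_lit 4) (nat_lit 342) (nat_lit 206) (nat_lit 172)) (XT.lf (nat_lit 0) (nat_lit 559713411462) (nat_lit 76) (nat_lit 1489116200185) (nat_lit 76) (nat_lit 1488057700275) (nat_lit 1) (nat_lit 4) (nat_lit 2) (nat_lit 5) (nat_lit 2) (nat_lit 4) (nat_lit 343) (nat_lit 206) (nat_lit 171)))) (XT.nd (nat_lit 34632) (nat_lit 0) (nat_lit 0) (XT.nd (nat_lit 34554)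 (nat_lit 0) (nat_lit 0) (XT.lf (nat_lit 0) (nat_lit 605523239451) (nat_lit 76) (nat_lit 1607667495301) (nat_lit 76) (nat_lit 1606603307655) (nat_lit 1) (nat_lit 4) (nat_lit 2) (nat_lit 5) (nat_lit 2) (nat_lit 4) (nat_lit 344) (nat_lit 206) (nat_lit 170)) (XT.lf (nat_lit 0) (nat_lit 4245840237) (nat_lit 76) (nat_lit 49406034860) (nat_lit 76) (nat_lit 49406034860) (nat_lit 1) (nat_lit 4) (nat_lit 2) (nat_lit 5) (nat_lit 2) (nat_lit 4) (nat_lit 306) (nat_lit 207) (nat_lit 207))) (XT.nd (nat_lit 78) (nat_lit 0) (nat_lit 0) (XT.lf (nat_lit 0) (nat_lit 12058411238) (nat_lit 76) (nat_lit 105256884766) (nat_lit 76) (nat_lit 105166062018) (nat_lit 1) (nat_lit 4) (nat_lit 2) (nat_lit 5) (nat_lit 2) (nat_lit 4) (nat_lit 307) (nat_lit 207) (nat_lit 206)) (XT.lf (nat_lit 0) (nat_lit 15769697893) (nat_lit 76) (nat_lit 112283695912) (nat_lit 76) (nat_lit 112108778027) (nat_lit 1) (nat_lit 4) (nat_lit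 2) (nat_lit 5) (nat_lit 2) (nat_lit 4) (nat_lit 308) (nat_lit 207) (nat_lit 205))))) (XT.nd (nat_lit 234) (nat_lit 0) (nat_lit 0) (XT.nd (nat_lit 78) (nat_lit 0) (nat_lit 0) (XT.lf (nat_lit 0) (nat_lit 19647533251) (nat_lit 76) (nat_lit 119934143521) (nat_lit 76) (nat_lit 119681359769) (nat_lit 1) (nat_lit 4) (nat_lit 2) (nat_lit 5) (nat_lit 2) (nat_lit 4) (nat_lit 309) (nat_lit 207) (nat_lit 204)) (XT.nd (nat_lit 78) (nat_lit 0) (nat_lit 0) (XT.lf (nat_lit 0) (nat_lit 23714897077) (nat_lit 76) (nat_lit 128253563580) (nat_lit 76) (nat_lit 127928681803) (nat_lit 1) (nat_lit 4) (nat_lit 2) (nat_lit 5) (nat_lit 2) (nat_lit 4) (nat_lit 310) (nat_lit 207) (nat_lit 203)) (XT.lf (nat_lit 0) (nat_lit 27995892267) (nat_lit 76) (nat_lit 137291256355) (nat_lit 76) (nat_lit 136899617147) (nat_lit 1) (nat_lit 4) (nat_lit 2) (nat_lit 5) (nat_lit 2) (nat_lit 4) (nat_lit 311) (nat_lit 207) (nat_lit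 202)))) (XT.nd (nat_lit 156) (nat_lit 0) (nat_lit 0) (XT.nd (nat_lit 78) (nat_lit 0) (nat_lit 0) (XT.lf (nat_lit 0) (nat_lit 32515887682) (nat_lit 76) (nat_lit 147100778545) (nat_lit 76) (nat_lit 146647326900) (nat_lit 1) (nat_lit 4) (nat_lit 2) (nat_lit 5) (nat_lit 2) (nat_lit 4) (nat_lit 312) (nat_lit 207) (nat_lit 201)) (XT.lf (nat_lit 0) (nat_lit 37301668480) (nat_lit 76) (nat_lit 157740260650) (nat_lit 76) (nat_lit 157229575269) (nat_lit 1) (nat_lit 4) (nat_lit 2) (nat_lit 5) (nat_lit 2) (nat_lit 4) (nat_lit 313) (nat_lit 207) (nat_lit 200))) (XT.nd (nat_lit 78) (nat_lit 0) (nat_lit 0) (XT.lf (nat_lit 0) (nat_lit 42381594844) (nat_lit 76) (nat_lit 169272751455) (nat_lit 76) (nat_lit 168709071872) (nat_lit 1) (nat_lit 4) (nat_lit 2) (nat_lit 5) (nat_lit 2) (nat_lit 4) (nat_lit 314) (nat_lit 207) (nat_lit 199)) (XT.lf (nat_lit 0) (nat_lit 47785770040) (nat_lit 76) (nat_lit 181766591644)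 (nat_lit 76) (nat_lit 181153843357) (nat_lit 1) (nat_lit 4) (nat_lit 2) (nat_lit 5) (nat_lit 2) (nat_lit 4) (nat_lit 315) (nat_lit 207) (nat_lit 198))))))))
noncomputable def xc7 : XT := (XT.nd (nat_lit 2106) (nat_lit 0) (nat_lit 0) (XT.nd (nat_lit 1014) (nat_lit 0) (nat_lit 0) (XT.nd (nat_lit 468) (nat_lit 0) (nat_lit 0) (XT.nd (nat_lit 234) (nat_lit 0) (nat_lit 0) (XT.nd (nat_lit 78) (nat_lit 0) (nat_lit 0) (XT.lf (nat_lit 0) (nat_lit 53546218812) (nat_lit 76) (nat_lit 195295818790) (nat_lit 76) (nat_lit 194637636517) (nat_lit 1) (nat_lit 4) (nat_lit 2) (nat_lit 5) (nat_lit 2) (nat_lit 4) (nat_lit 316) (nat_lit 207) (nat_lit 197)) (XT.nd (nat_lit 78) (nat_lit 0) (nat_lit 0) (XT.lf (nat_lit 0) (nat_lit 59697077150) (nat_lit 76) (nat_lit 209940606091) (nat_lit 76) (nat_lit 209240355313) (nat_lit 1) (nat_lit 4) (nat_lit 2) (nat_lit 5) (nat_lit 2) (nat_lit 4) (nat_lit 317) (nat_lit 207)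 (nat_lit 196)) (XT.lf (nat_lit 0) (nat_lit 66274794587) (nat_lit 76) (nat_lit 225787737471) (nat_lit 76) (nat_lit 225048534373) (nat_lit 1) (nat_lit 4) (nat_lit 2) (nat_lit 5) (nat_lit 2) (nat_lit 4) (nat_lit 318) (nat_lit 207) (nat_lit 195)))) (XT.nd (nat_lit 78) (nat_lit 0) (nat_lit 0) (XT.lf (nat_lit 0) (nat_lit 73318350189) (nat_lit 76) (nat_lit 242931121858) (nat_lit 76) (nat_lit 242155851797) (nat_lit 1) (nat_lit 4) (nat_lit 2) (nat_lit 5) (nat_lit 2) (nat_lit 4) (nat_lit 319) (nat_lit 207) (nat_lit 194)) (XT.nd (nat_lit 78) (nat_lit 0) (nat_lit 0) (XT.lf (nat_lit 0) (nat_lit 80869483543) (nat_lit 76) (nat_lit 261472349676) (nat_lit 76) (nat_lit 260663684279) (nat_lit 1) (nat_lit 4) (nat_lit 2) (nat_lit 5) (nat_lit 2) (nat_lit 4) (nat_lit 320) (nat_lit 207) (nat_lit 193)) (XT.lf (nat_lit 0) (nat_lit 88972942108) (nat_lit 76) (nat_lit 281521294869) (nat_lit 76) (nat_lit 280681707865)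 (nat_lit 1) (nat_lit 4) (nat_lit 2) (nat_lit 5) (nat_lit 2) (nat_lit 4) (nat_lit 321) (nat_lit 207) (nat_lit 192))))) (XT.nd (nat_lit 234) (nat_lit 0) (nat_lit 0) (XT.nd (nat_lit 78) (nat_lit 0) (nat_lit 0) (XT.lf (nat_lit 0) (nat_lit 97676746379) (nat_lit 76) (nat_lit 303196766000) (nat_lit 76) (nat_lit 302328547878) (nat_lit 1) (nat_lit 4) (nat_lit 2) (nat_lit 5) (nat_lit 2) (nat_lit 4) (nat_lit 322) (nat_lit 207) (nat_lit 191)) (XT.nd (nat_lit 78) (nat_lit 0) (nat_lit 0) (XT.lf (nat_lit 0) (nat_lit 107032474454) (nat_lit 76) (nat_lit 326627210307) (nat_lit 76) (nat_lit 325732481891) (nat_lit 1) (nat_lit 4) (nat_lit 2) (nat_lit 5) (nat_lit 2) (nat_lit 4) (nat_lit 323) (nat_lit 207) (nat_lit 190)) (XT.lf (nat_lit 0) (nat_lit 117095567686) (nat_lit 76) (nat_lit 351951474866) (nat_lit 76) (nat_lit 351032199881) (nat_lit 1) (nat_lit 4) (nat_lit 2) (nat_lit 5) (nat_lit 2) (nat_lit 4) (nat_lit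 324) (nat_lit 207) (nat_lit 189)))) (XT.nd (nat_lit 156) (nat_lit 0) (nat_lit 0) (XT.nd (nat_lit 78) (nat_lit 0) (nat_lit 0) (XT.lf (nat_lit 0) (nat_lit 127925659220) (nat_lit 76) (nat_lit 379319629394) (nat_lit 76) (nat_lit 378377626104) (nat_lit 1) (nat_lit 4) (nat_lit 2) (nat_lit 5) (nat_lit 2) (nat_lit 4) (nat_lit 325) (nat_lit 207) (nat_lit 188)) (XT.lf (nat_lit 0) (nat_lit 139586927375) (nat_lit 76) (nat_lit 408893855546) (nat_lit 76) (nat_lit 407930807530) (nat_lit 1) (nat_lit 4) (nat_lit 2) (nat_lit 5) (nat_lit 2) (nat_lit 4) (nat_lit 326) (nat_lit 207) (nat_lit 187))) (XT.nd (nat_lit 78) (nat_lit 0) (nat_lit 0) (XT.lf (nat_lit 0) (nat_lit 152148475963) (nat_lit 76) (nat_lit 440849407997) (nat_lit 76) (nat_lit 439866874123) (nat_lit 1) (nat_lit 4) (nat_lit 2) (nat_lit 5) (nat_lit 2) (nat_lit 4) (nat_lit 327) (nat_lit 207) (nat_lit 186)) (XT.lf (nat_lit 0) (nat_lit 165684743790)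 (nat_lit 76) (nat_lit 475375652982) (nat_lit 76) (nat_lit 474375076648) (nat_lit 1) (nat_lit 4) (nat_lit 2) (nat_lit 5) (nat_lit 2) (nat_lit 4) (nat_lit 328) (nat_lit 207) (nat_lit 185)))))) (XT.nd (nat_lit 546) (nat_lit 0) (nat_lit 0) (XT.nd (nat_lit 234) (nat_lit 0) (nat_lit 0) (XT.nd (nat_lit 78) (nat_lit 0) (nat_lit 0) (XT.lf (nat_lit 0) (nat_lit 180275945777) (nat_lit 76) (nat_lit 512677190473) (nat_lit 76) (nat_lit 511659908157) (nat_lit 1) (nat_lit 4) (nat_lit 2) (nat_lit 5) (nat_lit 2) (nat_lit 4) (nat_lit 329) (nat_lit 207) (nat_lit 184)) (XT.nd (nat_lit 78) (nat_lit 0) (nat_lit 0) (XT.lf (nat_lit 0) (nat_lit 196008548307) (nat_lit 76) (nat_lit 552975066618) (nat_lit 76) (nat_lit 551942315799) (nat_lit 1) (nat_lit 4) (nat_lit 2) (nat_lit 5) (nat_lit 2) (nat_lit 4) (nat_lit 330) (nat_lit 207) (nat_lit 183)) (XT.lf (nat_lit 0) (nat_lit 212975781615) (nat_lit 76) (nat_lit 596508083645)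 (nat_lit 76) (nat_lit 595461010139) (nat_lit 1) (nat_lit 4) (nat_lit 2) (nat_lit 5) (nat_lit 2) (nat_lit 4) (nat_lit 331) (nat_lit 207) (nat_lit 182)))) (XT.nd (nat_lit 156) (nat_lit 0) (nat_lit 0) (XT.nd (nat_lit 78) (nat_lit 0) (nat_lit 0) (XT.lf (nat_lit 0) (nat_lit 231278192271) (nat_lit 76) (nat_lit 643534214989) (nat_lit 76) (nat_lit 642473879735) (nat_lit 1) (nat_lit 4) (nat_lit 2) (nat_lit 5) (nat_lit 2) (nat_lit 4) (nat_lit 332) (nat_lit 207) (nat_lit 181)) (XT.lf (nat_lit 0) (nat_lit 251024239003) (nat_lit 76) (nat_lit 694332134020) (nat_lit 76) (nat_lit 693259519371) (nat_lit 1) (nat_lit 4) (nat_lit 2) (nat_lit 5) (nat_lit 2) (nat_lit 4) (nat_lit 333) (nat_lit 207) (nat_lit 180))) (XT.nd (nat_lit 78) (nat_lit 0) (nat_lit 0) (XT.lf (nat_lit 0) (nat_lit 272330935422) (nat_lit 76) (nat_lit 749202865444) (nat_lit 76) (nat_lit 748118880984) (nat_lit 1) (nat_lit 4) (nat_lit 2)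 (nat_lit 5) (nat_lit 2) (nat_lit 4) (nat_lit 334) (nat_lit 207) (nat_lit 179)) (XT.lf (nat_lit 0) (nat_lit 295324543434) (nat_lit 76) (nat_lit 808471569151) (nat_lit 76) (nat_lit 807377057089) (nat_lit 1) (nat_lit 4) (nat_lit 2) (nat_lit 5) (nat_lit 2) (nat_lit 4) (nat_lit 335) (nat_lit 207) (nat_lit 178))))) (XT.nd (nat_lit 234) (nat_lit 0) (nat_lit 0) (XT.nd (nat_lit 78) (nat_lit 0) (nat_lit 0) (XT.lf (nat_lit 0) (nat_lit 320141321454) (nat_lit 76) (nat_lit 872489467089) (nat_lit 76) (nat_lit 871385207246) (nat_lit 1) (nat_lit 4) (nat_lit 2) (nat_lit 5) (nat_lit 2) (nat_lit 4) (nat_lit 336) (nat_lit 207) (nat_lit 177)) (XT.nd (nat_lit 78) (nat_lit 0) (nat_lit 0) (XT.lf (nat_lit 0) (nat_lit 346928331873) (nat_lit 76) (nat_lit 941635924579) (nat_lit 76) (nat_lit 940522639014) (nat_lit 1) (nat_lit 4) (nat_lit 2) (nat_lit 5) (nat_lit 2) (nat_lit 4) (nat_lit 337) (nat_lit 207) (nat_lit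 176)) (XT.lf (nat_lit 0) (nat_lit 375844312529) (nat_lit 76) (nat_lit 1016320698406) (nat_lit 76) (nat_lit 1015199055690) (nat_lit 1) (nat_lit 4) (nat_lit 2) (nat_lit 5) (nat_lit 2) (nat_lit 4) (nat_lit 338) (nat_lit 207) (nat_lit 175)))) (XT.nd (nat_lit 156) (nat_lit 0) (nat_lit 0) (XT.nd (nat_lit 78) (nat_lit 0) (nat_lit 0) (XT.lf (nat_lit 0) (nat_lit 407060617382) (nat_lit 76) (nat_lit 1096986365007) (nat_lit 76) (nat_lit 1095856984189) (nat_lit 1) (nat_lit 4) (nat_lit 2) (nat_lit 5) (nat_lit 2) (nat_lit 4) (nat_lit 339) (nat_lit 207) (nat_lit 174)) (XT.lf (nat_lit 0) (nat_lit 440762231942) (nat_lit 76) (nat_lit 1184110943148) (nat_lit 76) (nat_lit 1182974397421) (nat_lit 1) (nat_lit 4) (nat_lit 2) (nat_lit 5) (nat_lit 2) (nat_lit 4) (nat_lit 340) (nat_lit 207) (nat_lit 173))) (XT.nd (nat_lit 78) (nat_lit 0) (nat_lit 0) (XT.lf (nat_lit 0) (nat_lit 477148869481) (nat_lit 76) (nat_lit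 1278210726625) (nat_lit 76) (nat_lit 1277067546722) (nat_lit 1) (nat_lit 4) (nat_lit 2) (nat_lit 5) (nat_lit 2) (nat_lit 4) (nat_lit 341) (nat_lit 207) (nat_lit 172)) (XT.lf (nat_lit 0) (nat_lit 516436154517) (nat_lit 76) (nat_lit 1379843343784) (nat_lit 76) (nat_lit 1378694021127) (nat_lit 1) (nat_lit 4) (nat_lit 2) (nat_lit 5) (nat_lit 2) (nat_lit 4) (nat_lit 342) (nat_lit 207) (nat_lit 171))))))) (XT.nd (nat_lit 35334) (nat_lit 0) (nat_lit 0) (XT.nd (nat_lit 34788) (nat_lit 0) (nat_lit 0) (XT.nd (nat_lit 34554) (nat_lit 0) (nat_lit 0) (XT.nd (nat_lit 78) (nat_lit 0) (nat_lit 0) (XT.lf (nat_lit 0) (nat_lit 558856900591) (nat_lit 76) (nat_lit 1489611061987) (nat_lit 76) (nat_lit 1488456051593) (nat_lit 1) (nat_lit 4) (nat_lit 2) (nat_lit 5) (nat_lit 2) (nat_lit 4) (nat_lit 343) (nat_lit 207) (nat_lit 170)) (XT.nd (nat_lit 34398) (nat_lit 0) (nat_lit 0) (XT.lf (nat_lit 0) (nat_lit 604662489903)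 (nat_lit 76) (nat_lit 1608164356600) (nat_lit 76) (nat_lit 1607004079784) (nat_lit 1) (nat_lit 4) (nat_lit 2) (nat_lit 5) (nat_lit 2) (nat_lit 4) (nat_lit 344) (nat_lit 207) (nat_lit 169)) (XT.lf (nat_lit 0) (nat_lit 893509904) (nat_lit 76) (nat_lit 43789865936) (nat_lit 76) (nat_lit 43789865936) (nat_lit 1) (nat_lit 4) (nat_lit 2) (nat_lit 5) (nat_lit 2) (nat_lit 4) (nat_lit 304) (nat_lit 208) (nat_lit 208)))) (XT.nd (nat_lit 78) (nat_lit 0) (nat_lit 0) (XT.lf (nat_lit 0) (nat_lit 5048369423) (nat_lit 76) (nat_lit 93009147848) (nat_lit 76) (nat_lit 92911059280) (nat_lit 1) (nat_lit 4) (nat_lit 2) (nat_lit 5) (nat_lit 2) (nat_lit 4) (nat_lit 305) (nat_lit 208) (nat_lit 207)) (XT.nd (nat_lit 78) (nat_lit 0) (nat_lit 0) (XT.lf (nat_lit 0) (nat_lit 8418581834) (nat_lit 76) (nat_lit 98944640870) (nat_lit 76) (nat_lit 98755729554) (nat_lit 1) (nat_lit 4) (nat_lit 2) (nat_lit 5) (nat_lit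 2) (nat_lit 4) (nat_lit 306) (nat_lit 208) (nat_lit 206)) (XT.lf (nat_lit 0) (nat_lit 11917628669) (nat_lit 76) (nat_lit 105421384231) (nat_lit 76) (nat_lit 105148377778) (nat_lit 1) (nat_lit 4) (nat_lit 2) (nat_lit 5) (nat_lit 2) (nat_lit 4) (nat_lit 307) (nat_lit 208) (nat_lit 205))))) (XT.nd (nat_lit 234) (nat_lit 0) (nat_lit 0) (XT.nd (nat_lit 78) (nat_lit 0) (nat_lit 0) (XT.lf (nat_lit 0) (nat_lit 15566245022) (nat_lit 76) (nat_lit 112477758633) (nat_lit 76) (nat_lit 112126886313) (nat_lit 1) (nat_lit 4) (nat_lit 2) (nat_lit 5) (nat_lit 2) (nat_lit 4) (nat_lit 308) (nat_lit 208) (nat_lit 204)) (XT.nd (nat_lit 78) (nat_lit 0) (nat_lit 0) (XT.lf (nat_lit 0) (nat_lit 19386052322) (nat_lit 76) (nat_lit 120155579627) (nat_lit 76) (nat_lit 119732609282) (nat_lit 1) (nat_lit 4) (nat_lit 2) (nat_lit 5) (nat_lit 2) (nat_lit 4) (nat_lit 309) (nat_lit 208) (nat_lit 203)) (XT.lf (nat_lit 0)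 (nat_lit 23399686464) (nat_lit 76) (nat_lit 128500345413) (nat_lit 76) (nat_lit 128010617636) (nat_lit 1) (nat_lit 4) (nat_lit 2) (nat_lit 5) (nat_lit 2) (nat_lit 4) (nat_lit 310) (nat_lit 208) (nat_lit 202)))) (XT.nd (nat_lit 156) (nat_lit 0) (nat_lit 0) (XT.nd (nat_lit 78) (nat_lit 0) (nat_lit 0) (XT.lf (nat_lit 0) (nat_lit 27630931948) (nat_lit 76) (nat_lit 137561506453) (nat_lit 76) (nat_lit 137009966241) (nat_lit 1) (nat_lit 4) (nat_lit 2) (nat_lit 5) (nat_lit 2) (nat_lit 4) (nat_lit 311) (nat_lit 208) (nat_lit 201)) (XT.lf (nat_lit 0) (nat_lit 32104862820) (nat_lit 76) (nat_lit 147392758518) (nat_lit 76) (nat_lit 146783984569) (nat_lit 1) (nat_lit 4) (nat_lit 2) (nat_lit 5) (nat_lit 2) (nat_lit 4) (nat_lit 312) (nat_lit 208) (nat_lit 200))) (XT.nd (nat_lit 78) (nat_lit 0) (nat_lit 0) (XT.lf (nat_lit 0) (nat_lit 36847991263) (nat_lit 76) (nat_lit 158052360879) (nat_lit 76) (nat_lit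 157390592728) (nat_lit 1) (nat_lit 4) (nat_lit 2) (nat_lit 5) (nat_lit 2) (nat_lit 4) (nat_lit 313) (nat_lit 208) (nat_lit 199)) (XT.lf (nat_lit 0) (nat_lit 41888424705) (nat_lit 76) (nat_lit 169603481549) (nat_lit 76) (nat_lit 168892644694) (nat_lit 1) (nat_lit 4) (nat_lit 2) (nat_lit 5) (nat_lit 2) (nat_lit 4) (nat_lit 314) (nat_lit 208) (nat_lit 198)))))) (XT.nd (nat_lit 546) (nat_lit 0) (nat_lit 0) (XT.nd (nat_lit 234) (nat_lit 0) (nat_lit 0) (XT.nd (nat_lit 78) (nat_lit 0) (nat_lit 0) (XT.lf (nat_lit 0) (nat_lit 47256032382) (nat_lit 76) (nat_lit 182114571614) (nat_lit 76) (nat_lit 181358300773) (nat_lit 1) (nat_lit 4) (nat_lit 2) (nat_lit 5) (nat_lit 2) (nat_lit 4) (nat_lit 315) (nat_lit 208) (nat_lit 197)) (XT.nd (nat_lit 78) (nat_lit 0) (nat_lit 0) (XT.lf (nat_lit 0) (nat_lit 52982622338) (nat_lit 76) (nat_lit 195659770867) (nat_lit 76) (nat_lit 194861431521) (nat_lit 1) (nat_lit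 4) (nat_lit 2) (nat_lit 5) (nat_lit 2) (nat_lit 4) (nat_lit 316) (nat_lit 208) (nat_lit 196)) (XT.lf (nat_lit 0) (nat_lit 59102129923) (nat_lit 76) (nat_lit 210319347156) (nat_lit 76) (nat_lit 209482055491) (nat_lit 1) (nat_lit 4) (nat_lit 2) (nat_lit 5) (nat_lit 2) (nat_lit 4) (nat_lit 317) (nat_lit 208) (nat_lit 195)))) (XT.nd (nat_lit 156) (nat_lit 0) (nat_lit 0) (XT.nd (nat_lit 78) (nat_lit 0) (nat_lit 0) (XT.lf (nat_lit 0) (nat_lit 65650818883) (nat_lit 76) (nat_lit 226180172044) (nat_lit 76) (nat_lit 225306813416) (nat_lit 1) (nat_lit 4) (nat_lit 2) (nat_lit 5) (nat_lit 2) (nat_lit 4) (nat_lit 318) (nat_lit 208) (nat_lit 194)) (XT.lf (nat_lit 0) (nat_lit 72667496266) (nat_lit 76) (nat_lit 243336235604) (nat_lit 76) (nat_lit 242429481639) (nat_lit 1) (nat_lit 4) (nat_lit 2) (nat_lit 5) (nat_lit 2) (nat_lit 4) (nat_lit 319) (nat_lit 208) (nat_lit 193))) (XT.nd (nat_lit 78) (nat_lit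 0) (nat_lit 0) (XT.lf (nat_lit 0) (nat_lit 80193742382) (nat_lit 76) (nat_lit 261889203398) (nat_lit 76) (nat_lit 260951527826) (nat_lit 1) (nat_lit 4) (nat_lit 2) (nat_lit 5) (nat_lit 2) (nat_lit 4) (nat_lit 320) (nat_lit 208) (nat_lit 192)) (XT.lf (nat_lit 0) (nat_lit 88274157207) (nat_lit 76) (nat_lit 281949018938) (nat_lit 76) (nat_lit 280982712249) (nat_lit 1) (nat_lit 4) (nat_lit 2) (nat_lit 5) (nat_lit 2) (nat_lit 4) (nat_lit 321) (nat_lit 208) (nat_lit 191))))) (XT.nd (nat_lit 234) (nat_lit 0) (nat_lit 0) (XT.nd (nat_lit 78) (nat_lit 0) (nat_lit 0) (XT.lf (nat_lit 0) (nat_lit 96956624681) (nat_lit 76) (nat_lit 303634555207) (nat_lit 76) (nat_lit 302641738223) (nat_lit 1) (nat_lit 4) (nat_lit 2) (nat_lit 5) (nat_lit 2) (nat_lit 4) (nat_lit 322) (nat_lit 208) (nat_lit 190)) (XT.nd (nat_lit 78) (nat_lit 0) (nat_lit 0) (XT.lf (nat_lit 0) (nat_lit 106292596463) (nat_lit 76) (nat_lit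 327074319085) (nat_lit 76) (nat_lit 326056955532) (nat_lit 1) (nat_lit 4) (nat_lit 2) (nat_lit 5) (nat_lit 2) (nat_lit 4) (nat_lit 323) (nat_lit 208) (nat_lit 189)) (XT.lf (nat_lit 0) (nat_lit 116337396831) (nat_lit 76) (nat_lit 352407212876) (nat_lit 76) (nat_lit 351367121019) (nat_lit 1) (nat_lit 4) (nat_lit 2) (nat_lit 5) (nat_lit 2) (nat_lit 4) (nat_lit 324) (nat_lit 208) (nat_lit 188)))) (XT.nd (nat_lit 156) (nat_lit 0) (nat_lit 0) (XT.nd (nat_lit 78) (nat_lit 0) (nat_lit 0) (XT.lf (nat_lit 0) (nat_lit 127150550527) (nat_lit 76) (nat_lit 379783357434) (nat_lit 76) (nat_lit 378722220850) (nat_lit 1) (nat_lit 4) (nat_lit 2) (nat_lit 5) (nat_lit 2) (nat_lit 4) (nat_lit 325) (nat_lit 208) (nat_lit 187)) (XT.lf (nat_lit 0) (nat_lit 138796135500) (nat_lit 76) (nat_lit 409364981762) (nat_lit 76) (nat_lit 408284359321) (nat_lit 1) (nat_lit 4) (nat_lit 2) (nat_lit 5) (nat_lit 2) (nat_lit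 4) (nat_lit 326) (nat_lit 208) (nat_lit 186))) (XT.nd (nat_lit 78) (nat_lit 0) (nat_lit 0) (XT.lf (nat_lit 0) (nat_lit 151343162622) (nat_lit 76) (nat_lit 441327384376) (nat_lit 76) (nat_lit 440228719474) (nat_lit 1) (nat_lit 4) (nat_lit 2) (nat_lit 5) (nat_lit 2) (nat_lit 4) (nat_lit 327) (nat_lit 208) (nat_lit 185)) (XT.lf (nat_lit 0) (nat_lit 164865984649) (nat_lit 76) (nat_lit 475859972105) (nat_lit 76) (nat_lit 474744601221) (nat_lit 1) (nat_lit 4) (nat_lit 2) (nat_lit 5) (nat_lit 2) (nat_lit 4) (nat_lit 328) (nat_lit 208) (nat_lit 184))))))))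
noncomputable def xc8 : XT := (XT.nd (nat_lit 36192) (nat_lit 0) (nat_lit 0) (XT.nd (nat_lit 1014) (nat_lit 0) (nat_lit 0) (XT.nd (nat_lit 468) (nat_lit 0) (nat_lit 0) (XT.nd (nat_lit 234) (nat_lit 0) (nat_lit 0) (XT.nd (nat_lit 78) (nat_lit 0) (nat_lit 0) (XT.lf (nat_lit 0) (nat_lit 179444736820) (nat_lit 76) (nat_lit 513167382507) (nat_lit 76) (nat_lit 512036543120) (nat_lit 1) (nat_lit 4) (nat_lit 2) (nat_lit 5) (nat_lit 2) (nat_lit 4) (nat_lit 329) (nat_lit 208) (nat_lit 183)) (XT.nd (nat_lit 78) (nat_lit 0) (nat_lit 0) (XT.lf (nat_lit 0) (nat_lit 195165811742) (nat_lit 76) (nat_lit 553470696531) (nat_lit 76) (nat_lit 552325534458) (nat_lit 1) (nat_lit 4) (nat_lit 2) (nat_lit 5) (nat_lit 2) (nat_lit 4) (nat_lit 330) (nat_lit 208) (nat_lit 182)) (XT.lf (nat_lit 0) (nat_lit 212122371340) (nat_lit 76) (nat_lit 597008748633) (nat_lit 76) (nat_lit 595850324812) (nat_lit 1) (nat_lit 4)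 (nat_lit 2) (nat_lit 5) (nat_lit 2) (nat_lit 4) (nat_lit 331) (nat_lit 208) (nat_lit 181)))) (XT.nd (nat_lit 78) (nat_lit 0) (nat_lit 0) (XT.lf (nat_lit 0) (nat_lit 230414898931) (nat_lit 76) (nat_lit 644039542082) (nat_lit 76) (nat_lit 642868838865) (nat_lit 1) (nat_lit 4) (nat_lit 2) (nat_lit 5) (nat_lit 2) (nat_lit 4) (nat_lit 332) (nat_lit 208) (nat_lit 180)) (XT.nd (nat_lit 78) (nat_lit 0) (nat_lit 0) (XT.lf (nat_lit 0) (nat_lit 250151794677) (nat_lit 76) (nat_lit 694841777878) (nat_lit 76) (nat_lit 693659704850) (nat_lit 1) (nat_lit 4) (nat_lit 2) (nat_lit 5) (nat_lit 2) (nat_lit 4) (nat_lit 333) (nat_lit 208) (nat_lit 179)) (XT.lf (nat_lit 0) (nat_lit 271450017961) (nat_lit 76) (nat_lit 749716506307) (nat_lit 76) (nat_lit 748523905676) (nat_lit 1) (nat_lit 4) (nat_lit 2) (nat_lit 5) (nat_lit 2) (nat_lit 4) (nat_lit 334) (nat_lit 208) (nat_lit 178))))) (XT.nd (nat_lit 234) (nat_lit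 0) (nat_lit 0) (XT.nd (nat_lit 78) (nat_lit 0) (nat_lit 0) (XT.lf (nat_lit 0) (nat_lit 294435780476) (nat_lit 76) (nat_lit 808988910944) (nat_lit 76) (nat_lit 807786562533) (nat_lit 1) (nat_lit 4) (nat_lit 2) (nat_lit 5) (nat_lit 2) (nat_lit 4) (nat_lit 335) (nat_lit 208) (nat_lit 177)) (XT.nd (nat_lit 78) (nat_lit 0) (nat_lit 0) (XT.lf (nat_lit 0) (nat_lit 319245294149) (nat_lit 76) (nat_lit 873010235669) (nat_lit 76) (nat_lit 871798861536) (nat_lit 1) (nat_lit 4) (nat_lit 2) (nat_lit 5) (nat_lit 2) (nat_lit 4) (nat_lit 336) (nat_lit 208) (nat_lit 176)) (XT.lf (nat_lit 0) (nat_lit 346025578320) (nat_lit 76) (nat_lit 942159866109) (nat_lit 76) (nat_lit 940940134826) (nat_lit 1) (nat_lit 4) (nat_lit 2) (nat_lit 5) (nat_lit 2) (nat_lit 4) (nat_lit 337) (nat_lit 208) (nat_lit 175)))) (XT.nd (nat_lit 156) (nat_lit 0) (nat_lit 0) (XT.nd (nat_lit 78) (nat_lit 0) (nat_lit 0) (XT.lf (nat_lit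 0) (nat_lit 374935330968) (nat_lit 76) (nat_lit 1016847577854) (nat_lit 76) (nat_lit 1015620108468) (nat_lit 1) (nat_lit 4) (nat_lit 2) (nat_lit 5) (nat_lit 2) (nat_lit 4) (nat_lit 338) (nat_lit 208) (nat_lit 174)) (XT.lf (nat_lit 0) (nat_lit 406145869147) (nat_lit 76) (nat_lit 1097515964749) (nat_lit 76) (nat_lit 1096281330454) (nat_lit 1) (nat_lit 4) (nat_lit 2) (nat_lit 5) (nat_lit 2) (nat_lit 4) (nat_lit 339) (nat_lit 208) (nat_lit 173))) (XT.nd (nat_lit 78) (nat_lit 0) (nat_lit 0) (XT.lf (nat_lit 0) (nat_lit 439842144195) (nat_lit 76) (nat_lit 1184643061681) (nat_lit 76) (nat_lit 1183401793210) (nat_lit 1) (nat_lit 4) (nat_lit 2) (nat_lit 5) (nat_lit 2) (nat_lit 4) (nat_lit 340) (nat_lit 208) (nat_lit 172)) (XT.lf (nat_lit 0) (nat_lit 476223837740) (nat_lit 76) (nat_lit 1278745177371) (nat_lit 76) (nat_lit 1277497766146) (nat_lit 1) (nat_lit 4) (nat_lit 2) (nat_lit 5) (nat_lit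 2) (nat_lit 4) (nat_lit 341) (nat_lit 208) (nat_lit 171)))))) (XT.nd (nat_lit 34632) (nat_lit 0) (nat_lit 0) (XT.nd (nat_lit 34398) (nat_lit 0) (nat_lit 0) (XT.nd (nat_lit 78) (nat_lit 0) (nat_lit 0) (XT.lf (nat_lit 0) (nat_lit 515506545005) (nat_lit 76) (nat_lit 1380379953987) (nat_lit 76) (nat_lit 1379126855026) (nat_lit 1) (nat_lit 4) (nat_lit 2) (nat_lit 5) (nat_lit 2) (nat_lit 4) (nat_lit 342) (nat_lit 208) (nat_lit 170)) (XT.nd (nat_lit 78) (nat_lit 0) (nat_lit 0) (XT.lf (nat_lit 0) (nat_lit 557923052402) (nat_lit 76) (nat_lit 1490149671688) (nat_lit 76) (nat_lit 1488891306304) (nat_lit 1) (nat_lit 4) (nat_lit 2) (nat_lit 5) (nat_lit 2) (nat_lit 4) (nat_lit 343) (nat_lit 208) (nat_lit 169)) (XT.lf (nat_lit 0) (nat_lit 603724717012) (nat_lit 76) (nat_lit 1608704817687) (nat_lit 76) (nat_lit 1607441575987) (nat_lit 1) (nat_lit 4) (nat_lit 2) (nat_lit 5) (nat_lit 2) (nat_lit 4) (nat_lit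 344) (nat_lit 208) (nat_lit 168)))) (XT.nd (nat_lit 78) (nat_lit 76) (nat_lit 0) (XT.lf (nat_lit 0) (nat_lit 36942093830) (nat_lit 152) (nat_lit 2090234105) (nat_lit 0) (nat_lit 36942093830) (nat_lit 2) (nat_lit 5) (nat_lit 4) (nat_lit 4) (nat_lit 2) (nat_lit 4) (nat_lit 302) (nat_lit 209) (nat_lit 209)) (XT.nd (nat_lit 78) (nat_lit 76) (nat_lit 0) (XT.lf (nat_lit 0) (nat_lit 81378665073) (nat_lit 152) (nat_lit 1315520546) (nat_lit 0) (nat_lit 81272729420) (nat_lit 2) (nat_lit 5) (nat_lit 4) (nat_lit 4) (nat_lit 2) (nat_lit 4) (nat_lit 303) (nat_lit 209) (nat_lit 208)) (XT.lf (nat_lit 0) (nat_lit 1708073276) (nat_lit 76) (nat_lit 87722908714) (nat_lit 76) (nat_lit 87518884493) (nat_lit 1) (nat_lit 4) (nat_lit 2) (nat_lit 5) (nat_lit 2) (nat_lit 4) (nat_lit 304) (nat_lit 209) (nat_lit 207))))) (XT.nd (nat_lit 234) (nat_lit 0) (nat_lit 0) (XT.nd (nat_lit 78) (nat_lit 0) (nat_lit 0) (XT.lf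 (nat_lit 0) (nat_lit 4896324250) (nat_lit 76) (nat_lit 93186807270) (nat_lit 76) (nat_lit 92891960302) (nat_lit 1) (nat_lit 4) (nat_lit 2) (nat_lit 5) (nat_lit 2) (nat_lit 4) (nat_lit 305) (nat_lit 209) (nat_lit 206)) (XT.nd (nat_lit 78) (nat_lit 0) (nat_lit 0) (XT.lf (nat_lit 0) (nat_lit 8198852734) (nat_lit 76) (nat_lit 99154228608) (nat_lit 76) (nat_lit 98775286503) (nat_lit 1) (nat_lit 4) (nat_lit 2) (nat_lit 5) (nat_lit 2) (nat_lit 4) (nat_lit 306) (nat_lit 209) (nat_lit 205)) (XT.lf (nat_lit 0) (nat_lit 11635229266) (nat_lit 76) (nat_lit 105660535225) (nat_lit 76) (nat_lit 105203727252) (nat_lit 1) (nat_lit 4) (nat_lit 2) (nat_lit 5) (nat_lit 2) (nat_lit 4) (nat_lit 307) (nat_lit 209) (nat_lit 204)))) (XT.nd (nat_lit 156) (nat_lit 0) (nat_lit 0) (XT.nd (nat_lit 78) (nat_lit 0) (nat_lit 0) (XT.lf (nat_lit 0) (nat_lit 15225817561) (nat_lit 76) (nat_lit 112744283011) (nat_lit 76)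 (nat_lit 112215377013) (nat_lit 1) (nat_lit 4) (nat_lit 2) (nat_lit 5) (nat_lit 2) (nat_lit 4) (nat_lit 308) (nat_lit 209) (nat_lit 203)) (XT.lf (nat_lit 0) (nat_lit 18991895177) (nat_lit 76) (nat_lit 120447449733) (nat_lit 76) (nat_lit 119851786303) (nat_lit 1) (nat_lit 4) (nat_lit 2) (nat_lit 5) (nat_lit 2) (nat_lit 4) (nat_lit 309) (nat_lit 209) (nat_lit 202))) (XT.nd (nat_lit 78) (nat_lit 0) (nat_lit 0) (XT.lf (nat_lit 0) (nat_lit 22955779613) (nat_lit 76) (nat_lit 128815683784) (nat_lit 76) (nat_lit 128158207919) (nat_lit 1) (nat_lit 4) (nat_lit 2) (nat_lit 5) (nat_lit 2) (nat_lit 4) (nat_lit 310) (nat_lit 209) (nat_lit 201)) (XT.lf (nat_lit 0) (nat_lit 27140960553) (nat_lit 76) (nat_lit 137898574700) (nat_lit 76) (nat_lit 137183865098) (nat_lit 1) (nat_lit 4) (nat_lit 2) (nat_lit 5) (nat_lit 2) (nat_lit 4) (nat_lit 311) (nat_lit 209) (nat_lit 200))))))) (XT.nd (nat_lit 1014) (nat_lit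 0) (nat_lit 0) (XT.nd (nat_lit 468) (nat_lit 0) (nat_lit 0) (XT.nd (nat_lit 234) (nat_lit 0) (nat_lit 0) (XT.nd (nat_lit 78) (nat_lit 0) (nat_lit 0) (XT.lf (nat_lit 0) (nat_lit 31572239069) (nat_lit 76) (nat_lit 147749947020) (nat_lit 76) (nat_lit 146982243216) (nat_lit 1) (nat_lit 4) (nat_lit 2) (nat_lit 5) (nat_lit 2) (nat_lit 4) (nat_lit 312) (nat_lit 209) (nat_lit 199)) (XT.nd (nat_lit 78) (nat_lit 0) (nat_lit 0) (XT.lf (nat_lit 0) (nat_lit 36275874591) (nat_lit 76) (nat_lit 158428179246) (nat_lit 76) (nat_lit 157611406738) (nat_lit 1) (nat_lit 4) (nat_lit 2) (nat_lit 5) (nat_lit 2) (nat_lit 4) (nat_lit 313) (nat_lit 209) (nat_lit 198)) (XT.lf (nat_lit 0) (nat_lit 41279740514) (nat_lit 76) (nat_lit 169996549792) (nat_lit 76) (nat_lit 169134343298) (nat_lit 1) (nat_lit 4) (nat_lit 2) (nat_lit 5) (nat_lit 2) (nat_lit 4) (nat_lit 314) (nat_lit 209) (nat_lit 197)))) (XT.nd (nat_lit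 78) (nat_lit 0) (nat_lit 0) (XT.lf (nat_lit 0) (nat_lit 46613489376) (nat_lit 76) (nat_lit 182523611964) (nat_lit 76) (nat_lit 181619336965) (nat_lit 1) (nat_lit 4) (nat_lit 2) (nat_lit 5) (nat_lit 2) (nat_lit 4) (nat_lit 315) (nat_lit 209) (nat_lit 196)) (XT.nd (nat_lit 78) (nat_lit 0) (nat_lit 0) (XT.lf (nat_lit 0) (nat_lit 52308728579) (nat_lit 76) (nat_lit 196083600206) (nat_lit 76) (nat_lit 195140372887) (nat_lit 1) (nat_lit 4) (nat_lit 2) (nat_lit 5) (nat_lit 2) (nat_lit 4) (nat_lit 316) (nat_lit 209) (nat_lit 195)) (XT.lf (nat_lit 0) (nat_lit 58399207687) (nat_lit 76) (nat_lit 210756870002) (nat_lit 76) (nat_lit 209777575721) (nat_lit 1) (nat_lit 4) (nat_lit 2) (nat_lit 5) (nat_lit 2) (nat_lit 4) (nat_lit 317) (nat_lit 209) (nat_lit 194))))) (XT.nd (nat_lit 234) (nat_lit 0) (nat_lit 0) (XT.nd (nat_lit 78) (nat_lit 0) (nat_lit 0) (XT.lf (nat_lit 0) (nat_lit 64921018429) (nat_lit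 76) (nat_lit 226630374064) (nat_lit 76) (nat_lit 225617684446) (nat_lit 1) (nat_lit 4) (nat_lit 2) (nat_lit 5) (nat_lit 2) (nat_lit 4) (nat_lit 318) (nat_lit 209) (nat_lit 193)) (XT.nd (nat_lit 78) (nat_lit 0) (nat_lit 0) (XT.lf (nat_lit 0) (nat_lit 71912808572) (nat_lit 76) (nat_lit 243798177599) (nat_lit 76) (nat_lit 242754566374) (nat_lit 1) (nat_lit 4) (nat_lit 2) (nat_lit 5) (nat_lit 2) (nat_lit 4) (nat_lit 319) (nat_lit 209) (nat_lit 192)) (XT.lf (nat_lit 0) (nat_lit 79416010947) (nat_lit 76) (nat_lit 262362015741) (nat_lit 76) (nat_lit 261289773398) (nat_lit 1) (nat_lit 4) (nat_lit 2) (nat_lit 5) (nat_lit 2) (nat_lit 4) (nat_lit 320) (nat_lit 209) (nat_lit 191)))) (XT.nd (nat_lit 156) (nat_lit 0) (nat_lit 0) (XT.nd (nat_lit 78) (nat_lit 0) (nat_lit 0) (XT.lf (nat_lit 0) (nat_lit 87475088976) (nat_lit 76) (nat_lit 282431896418) (nat_lit 76) (nat_lit 281333143781) (nat_lit 1) (nat_lit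 4) (nat_lit 2) (nat_lit 5) (nat_lit 2) (nat_lit 4) (nat_lit 321) (nat_lit 209) (nat_lit 190)) (XT.lf (nat_lit 0) (nat_lit 96137800157) (nat_lit 76) (nat_lit 304126752258) (nat_lit 76) (nat_lit 303003453052) (nat_lit 1) (nat_lit 4) (nat_lit 2) (nat_lit 5) (nat_lit 2) (nat_lit 4) (nat_lit 322) (nat_lit 209) (nat_lit 189))) (XT.nd (nat_lit 78) (nat_lit 0) (nat_lit 0) (XT.lf (nat_lit 0) (nat_lit 105455479075) (nat_lit 76) (nat_lit 327575145368) (nat_lit 76) (nat_lit 326429117858) (nat_lit 1) (nat_lit 4) (nat_lit 2) (nat_lit 5) (nat_lit 2) (nat_lit 4) (nat_lit 323) (nat_lit 209) (nat_lit 188)) (XT.lf (nat_lit 0) (nat_lit 115483341606) (nat_lit 76) (nat_lit 352916029190) (nat_lit 76) (nat_lit 351748956953) (nat_lit 1) (nat_lit 4) (nat_lit 2) (nat_lit 5) (nat_lit 2) (nat_lit 4) (nat_lit 324) (nat_lit 209) (nat_lit 187)))))) (XT.nd (nat_lit 546) (nat_lit 0) (nat_lit 0) (XT.nd (nat_lit 234)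 (nat_lit 0) (nat_lit 0) (XT.nd (nat_lit 78) (nat_lit 0) (nat_lit 0) (XT.lf (nat_lit 0) (nat_lit 126280812120) (nat_lit 76) (nat_lit 380299571923) (nat_lit 76) (nat_lit 379113013829) (nat_lit 1) (nat_lit 4) (nat_lit 2) (nat_lit 5) (nat_lit 2) (nat_lit 4) (nat_lit 325) (nat_lit 209) (nat_lit 186)) (XT.nd (nat_lit 78) (nat_lit 0) (nat_lit 0) (XT.lf (nat_lit 0) (nat_lit 137911875627) (nat_lit 76) (nat_lit 409888046415) (nat_lit 76) (nat_lit 408683445859) (nat_lit 1) (nat_lit 4) (nat_lit 2) (nat_lit 5) (nat_lit 2) (nat_lit 4) (nat_lit 326) (nat_lit 209) (nat_lit 185)) (XT.lf (nat_lit 0) (nat_lit 150445456949) (nat_lit 76) (nat_lit 441856791772) (nat_lit 76) (nat_lit 440635485234) (nat_lit 1) (nat_lit 4) (nat_lit 2) (nat_lit 5) (nat_lit 2) (nat_lit 4) (nat_lit 327) (nat_lit 209) (nat_lit 184)))) (XT.nd (nat_lit 156) (nat_lit 0) (nat_lit 0) (XT.nd (nat_lit 78) (nat_lit 0) (nat_lit 0) (XT.lf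 (nat_lit 0) (nat_lit 163955829159) (nat_lit 76) (nat_lit 476395252412) (nat_lit 76) (nat_lit 475158477372) (nat_lit 1) (nat_lit 4) (nat_lit 2) (nat_lit 5) (nat_lit 2) (nat_lit 4) (nat_lit 328) (nat_lit 209) (nat_lit 183)) (XT.lf (nat_lit 0) (nat_lit 178523053723) (nat_lit 76) (nat_lit 513708100694) (nat_lit 76) (nat_lit 512457002967) (nat_lit 1) (nat_lit 4) (nat_lit 2) (nat_lit 5) (nat_lit 2) (nat_lit 4) (nat_lit 329) (nat_lit 209) (nat_lit 182))) (XT.nd (nat_lit 78) (nat_lit 0) (nat_lit 0) (XT.lf (nat_lit 0) (nat_lit 194233454935) (nat_lit 76) (nat_lit 554016449793) (nat_lit 76) (nat_lit 552752090318) (nat_lit 1) (nat_lit 4) (nat_lit 2) (nat_lit 5) (nat_lit 2) (nat_lit 4) (nat_lit 330) (nat_lit 209) (nat_lit 181)) (XT.lf (nat_lit 0) (nat_lit 211180131468) (nat_lit 76) (nat_lit 597559164000) (nat_lit 76) (nat_lit 596282525130) (nat_lit 1) (nat_lit 4) (nat_lit 2) (nat_lit 5) (nat_lit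 2) (nat_lit 4) (nat_lit 331) (nat_lit 209) (nat_lit 180))))) (XT.nd (nat_lit 234) (nat_lit 0) (nat_lit 0) (XT.nd (nat_lit 78) (nat_lit 0) (nat_lit 0) (XT.lf (nat_lit 0) (nat_lit 229463508072) (nat_lit 76) (nat_lit 644594274214) (nat_lit 76) (nat_lit 643306265533) (nat_lit 1) (nat_lit 4) (nat_lit 2) (nat_lit 5) (nat_lit 2) (nat_lit 4) (nat_lit 332) (nat_lit 209) (nat_lit 179)) (XT.nd (nat_lit 78) (nat_lit 0) (nat_lit 0) (XT.lf (nat_lit 0) (nat_lit 249191930683) (nat_lit 76) (nat_lit 695400507014) (nat_lit 76) (nat_lit 694101970731) (nat_lit 1) (nat_lit 4) (nat_lit 2) (nat_lit 5) (nat_lit 2) (nat_lit 4) (nat_lit 333) (nat_lit 209) (nat_lit 178)) (XT.lf (nat_lit 0) (nat_lit 270482308471) (nat_lit 76) (nat_lit 750278936372) (nat_lit 76) (nat_lit 748970652309) (nat_lit 1) (nat_lit 4) (nat_lit 2) (nat_lit 5) (nat_lit 2) (nat_lit 4) (nat_lit 334) (nat_lit 209) (nat_lit 177)))) (XT.nd (nat_lit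 156) (nat_lit 0) (nat_lit 0) (XT.nd (nat_lit 78) (nat_lit 0) (nat_lit 0) (XT.lf (nat_lit 0) (nat_lit 293460806638) (nat_lit 76) (nat_lit 809554767796) (nat_lit 76) (nat_lit 808237458011) (nat_lit 1) (nat_lit 4) (nat_lit 2) (nat_lit 5) (nat_lit 2) (nat_lit 4) (nat_lit 335) (nat_lit 209) (nat_lit 176)) (XT.lf (nat_lit 0) (nat_lit 318263594063) (nat_lit 76) (nat_lit 873579265472) (nat_lit 76) (nat_lit 872253598536) (nat_lit 1) (nat_lit 4) (nat_lit 2) (nat_lit 5) (nat_lit 2) (nat_lit 4) (nat_lit 336) (nat_lit 209) (nat_lit 175))) (XT.nd (nat_lit 78) (nat_lit 0) (nat_lit 0) (XT.lf (nat_lit 0) (nat_lit 345037650226) (nat_lit 76) (nat_lit 942731833830) (nat_lit 76) (nat_lit 941398428792) (nat_lit 1) (nat_lit 4) (nat_lit 2) (nat_lit 5) (nat_lit 2) (nat_lit 4) (nat_lit 337) (nat_lit 209) (nat_lit 174)) (XT.lf (nat_lit 0) (nat_lit 373941636201) (nat_lit 76) (nat_lit 1017422265869) (nat_lit 76)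 (nat_lit 1016081695921) (nat_lit 1) (nat_lit 4) (nat_lit 2) (nat_lit 5) (nat_lit 2) (nat_lit 4) (nat_lit 338) (nat_lit 209) (nat_lit 173))))))))
noncomputable def xc9 : XT := (XT.nd (nat_lit 36036) (nat_lit 0) (nat_lit 0) (XT.nd (nat_lit 35022) (nat_lit 0) (nat_lit 0) (XT.nd (nat_lit 34476) (nat_lit 0) (nat_lit 0) (XT.nd (nat_lit 234) (nat_lit 0) (nat_lit 0) (XT.nd (nat_lit 78) (nat_lit 0) (nat_lit 0) (XT.lf (nat_lit 0) (nat_lit 405146834868) (nat_lit 76) (nat_lit 1098093171555) (nat_lit 76) (nat_lit 1096745967431) (nat_lit 1) (nat_lit 4) (nat_lit 2) (nat_lit 5) (nat_lit 2) (nat_lit 4) (nat_lit 339) (nat_lit 209) (nat_lit 172)) (XT.nd (nat_lit 78) (nat_lit 0) (nat_lit 0) (XT.lf (nat_lit 0) (nat_lit 438838165922) (nat_lit 76) (nat_lit 1185222600700) (nat_lit 76) (nat_lit 1183869253822) (nat_lit 1) (nat_lit 4) (nat_lit 2) (nat_lit 5) (nat_lit 2) (nat_lit 4) (nat_lit 340) (nat_lit 209)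 (nat_lit 171)) (XT.lf (nat_lit 0) (nat_lit 475215281696) (nat_lit 76) (nat_lit 1279326875848) (nat_lit 76) (nat_lit 1277967841233) (nat_lit 1) (nat_lit 4) (nat_lit 2) (nat_lit 5) (nat_lit 2) (nat_lit 4) (nat_lit 341) (nat_lit 209) (nat_lit 170)))) (XT.nd (nat_lit 78) (nat_lit 0) (nat_lit 0) (XT.lf (nat_lit 0) (nat_lit 514493750283) (nat_lit 76) (nat_lit 1380963651961) (nat_lit 76) (nat_lit 1379599350924) (nat_lit 1) (nat_lit 4) (nat_lit 2) (nat_lit 5) (nat_lit 2) (nat_lit 4) (nat_lit 342) (nat_lit 209) (nat_lit 169)) (XT.nd (nat_lit 78) (nat_lit 0) (nat_lit 0) (XT.lf (nat_lit 0) (nat_lit 556906332979) (nat_lit 76) (nat_lit 1490735221048) (nat_lit 76) (nat_lit 1489366043694) (nat_lit 1) (nat_lit 4) (nat_lit 2) (nat_lit 5) (nat_lit 2) (nat_lit 4) (nat_lit 343) (nat_lit 209) (nat_lit 168)) (XT.lf (nat_lit 0) (nat_lit 602704363607) (nat_lit 76) (nat_lit 1609292081294) (nat_lit 76) (nat_lit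 1607918388832) (nat_lit 1) (nat_lit 4) (nat_lit 2) (nat_lit 5) (nat_lit 2) (nat_lit 4) (nat_lit 344) (nat_lit 209) (nat_lit 167))))) (XT.nd (nat_lit 234) (nat_lit 76) (nat_lit 0) (XT.nd (nat_lit 78) (nat_lit 0) (nat_lit 0) (XT.lf (nat_lit 0) (nat_lit 30215753493) (nat_lit 152) (nat_lit 4835429565) (nat_lit 0) (nat_lit 30215753493) (nat_lit 2) (nat_lit 5) (nat_lit 4) (nat_lit 4) (nat_lit 2) (nat_lit 4) (nat_lit 300) (nat_lit 210) (nat_lit 210)) (XT.nd (nat_lit 78) (nat_lit 0) (nat_lit 0) (XT.lf (nat_lit 0) (nat_lit 66976469337) (nat_lit 152) (nat_lit 6989191929) (nat_lit 0) (nat_lit 66862058831) (nat_lit 2) (nat_lit 5) (nat_lit 4) (nat_lit 4) (nat_lit 2) (nat_lit 4) (nat_lit 301) (nat_lit 210) (nat_lit 209)) (XT.lf (nat_lit 0) (nat_lit 73955606953) (nat_lit 152) (nat_lit 4261465302) (nat_lit 0) (nat_lit 73735260794) (nat_lit 2) (nat_lit 5) (nat_lit 4) (nat_lit 4) (nat_lit 2) (nat_lit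 4) (nat_lit 302) (nat_lit 210) (nat_lit 208)))) (XT.nd (nat_lit 156) (nat_lit 0) (nat_lit 0) (XT.nd (nat_lit 78) (nat_lit 76) (nat_lit 0) (XT.lf (nat_lit 0) (nat_lit 81410277687) (nat_lit 152) (nat_lit 1471514944) (nat_lit 0) (nat_lit 81091842961) (nat_lit 2) (nat_lit 5) (nat_lit 4) (nat_lit 4) (nat_lit 2) (nat_lit 4) (nat_lit 303) (nat_lit 210) (nat_lit 207)) (XT.lf (nat_lit 0) (nat_lit 1470765847) (nat_lit 76) (nat_lit 87949263472) (nat_lit 76) (nat_lit 87540005998) (nat_lit 1) (nat_lit 4) (nat_lit 2) (nat_lit 5) (nat_lit 2) (nat_lit 4) (nat_lit 304) (nat_lit 210) (nat_lit 206))) (XT.nd (nat_lit 78) (nat_lit 0) (nat_lit 0) (XT.lf (nat_lit 0) (nat_lit 4591332894) (nat_lit 76) (nat_lit 93445090344) (nat_lit 76) (nat_lit 92951737733) (nat_lit 1) (nat_lit 4) (nat_lit 2) (nat_lit 5) (nat_lit 2) (nat_lit 4) (nat_lit 305) (nat_lit 210) (nat_lit 205)) (XT.lf (nat_lit 0) (nat_lit 7831191075)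 (nat_lit 76) (nat_lit 99442074937) (nat_lit 76) (nat_lit 98870856459) (nat_lit 1) (nat_lit 4) (nat_lit 2) (nat_lit 5) (nat_lit 2) (nat_lit 4) (nat_lit 306) (nat_lit 210) (nat_lit 204)))))) (XT.nd (nat_lit 468) (nat_lit 0) (nat_lit 0) (XT.nd (nat_lit 234) (nat_lit 0) (nat_lit 0) (XT.nd (nat_lit 78) (nat_lit 0) (nat_lit 0) (XT.lf (nat_lit 0) (nat_lit 11209539550) (nat_lit 76) (nat_lit 105975754939) (nat_lit 76) (nat_lit 105332438435) (nat_lit 1) (nat_lit 4) (nat_lit 2) (nat_lit 5) (nat_lit 2) (nat_lit 4) (nat_lit 307) (nat_lit 210) (nat_lit 203)) (XT.nd (nat_lit 78) (nat_lit 0) (nat_lit 0) (XT.lf (nat_lit 0) (nat_lit 14746398161) (nat_lit 76) (nat_lit 113084848452) (nat_lit 76) (nat_lit 112374774518) (nat_lit 1) (nat_lit 4) (nat_lit 2) (nat_lit 5) (nat_lit 2) (nat_lit 4) (nat_lit 308) (nat_lit 210) (nat_lit 202)) (XT.lf (nat_lit 0) (nat_lit 18462726070) (nat_lit 76) (nat_lit 120811483439)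 (nat_lit 76) (nat_lit 120039597068) (nat_lit 1) (nat_lit 4) (nat_lit 2) (nat_lit 5) (nat_lit 2) (nat_lit 4) (nat_lit 309) (nat_lit 210) (nat_lit 201)))) (XT.nd (nat_lit 78) (nat_lit 0) (nat_lit 0) (XT.lf (nat_lit 0) (nat_lit 22380545963) (nat_lit 76) (nat_lit 129201447366) (nat_lit 76) (nat_lit 128372327258) (nat_lit 1) (nat_lit 4) (nat_lit 2) (nat_lit 5) (nat_lit 2) (nat_lit 4) (nat_lit 310) (nat_lit 210) (nat_lit 200)) (XT.nd (nat_lit 78) (nat_lit 0) (nat_lit 0) (XT.lf (nat_lit 0) (nat_lit 26523074548) (nat_lit 76) (nat_lit 138304458537) (nat_lit 76) (nat_lit 137422344228) (nat_lit 1) (nat_lit 4) (nat_lit 2) (nat_lit 5) (nat_lit 2) (nat_lit 4) (nat_lit 311) (nat_lit 210) (nat_lit 199)) (XT.lf (nat_lit 0) (nat_lit 30914860143) (nat_lit 76) (nat_lit 148174460722) (nat_lit 76) (nat_lit 147243277709) (nat_lit 1) (nat_lit 4) (nat_lit 2) (nat_lit 5) (nat_lit 2) (nat_lit 4) (nat_lit 312)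 (nat_lit 210) (nat_lit 198))))) (XT.nd (nat_lit 234) (nat_lit 0) (nat_lit 0) (XT.nd (nat_lit 78) (nat_lit 0) (nat_lit 0) (XT.lf (nat_lit 0) (nat_lit 35581928145) (nat_lit 76) (nat_lit 158869942824) (nat_lit 76) (nat_lit 157893325825) (nat_lit 1) (nat_lit 4) (nat_lit 2) (nat_lit 5) (nat_lit 2) (nat_lit 4) (nat_lit 313) (nat_lit 210) (nat_lit 197)) (XT.nd (nat_lit 78) (nat_lit 0) (nat_lit 0) (XT.lf (nat_lit 0) (nat_lit 40551935253) (nat_lit 76) (nat_lit 170454285477) (nat_lit 76) (nat_lit 169435599973) (nat_lit 1) (nat_lit 4) (nat_lit 2) (nat_lit 5) (nat_lit 2) (nat_lit 4) (nat_lit 314) (nat_lit 210) (nat_lit 196)) (XT.lf (nat_lit 0) (nat_lit 45854333361) (nat_lit 76) (nat_lit 182996136638) (nat_lit 76) (nat_lit 181938498814) (nat_lit 1) (nat_lit 4) (nat_lit 2) (nat_lit 5) (nat_lit 2) (nat_lit 4) (nat_lit 315) (nat_lit 210) (nat_lit 195)))) (XT.nd (nat_lit 156) (nat_lit 0) (nat_lit 0)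 (XT.nd (nat_lit 78) (nat_lit 0) (nat_lit 0) (XT.lf (nat_lit 0) (nat_lit 51520544088) (nat_lit 76) (nat_lit 196569818387) (nat_lit 76) (nat_lit 195476113600) (nat_lit 1) (nat_lit 4) (nat_lit 2) (nat_lit 5) (nat_lit 2) (nat_lit 4) (nat_lit 316) (nat_lit 210) (nat_lit 194)) (XT.lf (nat_lit 0) (nat_lit 57584144977) (nat_lit 76) (nat_lit 211255767357) (nat_lit 76) (nat_lit 210128667234) (nat_lit 1) (nat_lit 4) (nat_lit 2) (nat_lit 5) (nat_lit 2) (nat_lit 4) (nat_lit 317) (nat_lit 210) (nat_lit 193))) (XT.nd (nat_lit 78) (nat_lit 0) (nat_lit 0) (XT.lf (nat_lit 0) (nat_lit 64081068480) (nat_lit 76) (nat_lit 227141011394) (nat_lit 76) (nat_lit 225982989664) (nat_lit 1) (nat_lit 4) (nat_lit 2) (nat_lit 5) (nat_lit 2) (nat_lit 4) (nat_lit 318) (nat_lit 210) (nat_lit 192)) (XT.lf (nat_lit 0) (nat_lit 71049814883) (nat_lit 76) (nat_lit 244319685277) (nat_lit 76) (nat_lit 243133032429) (nat_lit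 1) (nat_lit 4) (nat_lit 2) (nat_lit 5) (nat_lit 2) (nat_lit 4) (nat_lit 319) (nat_lit 210) (nat_lit 191))))))) (XT.nd (nat_lit 1014) (nat_lit 0) (nat_lit 0) (XT.nd (nat_lit 468) (nat_lit 0) (nat_lit 0) (XT.nd (nat_lit 234) (nat_lit 0) (nat_lit 0) (XT.nd (nat_lit 78) (nat_lit 0) (nat_lit 0) (XT.lf (nat_lit 0) (nat_lit 78531680461) (nat_lit 76) (nat_lit 262893588555) (nat_lit 76) (nat_lit 261680425413) (nat_lit 1) (nat_lit 4) (nat_lit 2) (nat_lit 5) (nat_lit 2) (nat_lit 4) (nat_lit 320) (nat_lit 210) (nat_lit 190)) (XT.nd (nat_lit 78) (nat_lit 0) (nat_lit 0) (XT.lf (nat_lit 0) (nat_lit 86571002197) (nat_lit 76) (nat_lit 282972788804) (nat_lit 76) (nat_lit 281735079093) (nat_lit 1) (nat_lit 4) (nat_lit 2) (nat_lit 5) (nat_lit 2) (nat_lit 4) (nat_lit 321) (nat_lit 210) (nat_lit 189)) (XT.lf (nat_lit 0) (nat_lit 95215420514) (nat_lit 76) (nat_lit 304676273876) (nat_lit 76) (nat_lit 303415835860)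 (nat_lit 1) (nat_lit 4) (nat_lit 2) (nat_lit 5) (nat_lit 2) (nat_lit 4) (nat_lit 322) (nat_lit 210) (nat_lit 188)))) (XT.nd (nat_lit 78) (nat_lit 0) (nat_lit 0) (XT.lf (nat_lit 0) (nat_lit 104516161595) (nat_lit 76) (nat_lit 328132657016) (nat_lit 76) (nat_lit 326851174275) (nat_lit 1) (nat_lit 4) (nat_lit 2) (nat_lit 5) (nat_lit 2) (nat_lit 4) (nat_lit 323) (nat_lit 210) (nat_lit 187)) (XT.nd (nat_lit 78) (nat_lit 0) (nat_lit 0) (XT.lf (nat_lit 0) (nat_lit 114528340943) (nat_lit 76) (nat_lit 353480939014) (nat_lit 76) (nat_lit 352179970415) (nat_lit 1) (nat_lit 4) (nat_lit 2) (nat_lit 5) (nat_lit 2) (nat_lit 4) (nat_lit 324) (nat_lit 210) (nat_lit 186)) (XT.lf (nat_lit 0) (nat_lit 125311289992) (nat_lit 76) (nat_lit 380871331911) (nat_lit 76) (nat_lit 379552320850) (nat_lit 1) (nat_lit 4) (nat_lit 2) (nat_lit 5) (nat_lit 2) (nat_lit 4) (nat_lit 325) (nat_lit 210) (nat_lit 185)))))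 (XT.nd (nat_lit 234) (nat_lit 0) (nat_lit 0) (XT.nd (nat_lit 78) (nat_lit 0) (nat_lit 0) (XT.lf (nat_lit 0) (nat_lit 136928907698) (nat_lit 76) (nat_lit 410466149146) (nat_lit 76) (nat_lit 409130432103) (nat_lit 1) (nat_lit 4) (nat_lit 2) (nat_lit 5) (nat_lit 2) (nat_lit 4) (nat_lit 326) (nat_lit 210) (nat_lit 184)) (XT.nd (nat_lit 78) (nat_lit 0) (nat_lit 0) (XT.lf (nat_lit 0) (nat_lit 149450039204) (nat_lit 76) (nat_lit 442440767414) (nat_lit 76) (nat_lit 441089581869) (nat_lit 1) (nat_lit 4) (nat_lit 2) (nat_lit 5) (nat_lit 2) (nat_lit 4) (nat_lit 327) (nat_lit 210) (nat_lit 183)) (XT.lf (nat_lit 0) (nat_lit 162948883807) (nat_lit 76) (nat_lit 476984665934) (nat_lit 76) (nat_lit 475619157702) (nat_lit 1) (nat_lit 4) (nat_lit 2) (nat_lit 5) (nat_lit 2) (nat_lit 4) (nat_lit 328) (nat_lit 210) (nat_lit 182)))) (XT.nd (nat_lit 156) (nat_lit 0) (nat_lit 0) (XT.nd (nat_lit 78) (nat_lit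 0) (nat_lit 0) (XT.lf (nat_lit 0) (nat_lit 177505434661) (nat_lit 76) (nat_lit 514302549290) (nat_lit 76) (nat_lit 512923779310) (nat_lit 1) (nat_lit 4) (nat_lit 2) (nat_lit 5) (nat_lit 2) (nat_lit 4) (nat_lit 329) (nat_lit 210) (nat_lit 181)) (XT.lf (nat_lit 0) (nat_lit 193205952808) (nat_lit 76) (nat_lit 554615560495) (nat_lit 76) (nat_lit 553224511120) (nat_lit 1) (nat_lit 4) (nat_lit 2) (nat_lit 5) (nat_lit 2) (nat_lit 4) (nat_lit 330) (nat_lit 210) (nat_lit 180))) (XT.nd (nat_lit 78) (nat_lit 0) (nat_lit 0) (XT.lf (nat_lit 0) (nat_lit 210143478354) (nat_lit 76) (nat_lit 598162591466) (nat_lit 76) (nat_lit 596760172281) (nat_lit 1) (nat_lit 4) (nat_lit 2) (nat_lit 5) (nat_lit 2) (nat_lit 4) (nat_lit 331) (nat_lit 210) (nat_lit 179)) (XT.lf (nat_lit 0) (nat_lit 228418381823) (nat_lit 76) (nat_lit 645201698685) (nat_lit 76) (nat_lit 643788751896) (nat_lit 1) (nat_lit 4) (nat_lit 2)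 (nat_lit 5) (nat_lit 2) (nat_lit 4) (nat_lit 332) (nat_lit 210) (nat_lit 178)))))) (XT.nd (nat_lit 546) (nat_lit 0) (nat_lit 0) (XT.nd (nat_lit 234) (nat_lit 0) (nat_lit 0) (XT.nd (nat_lit 78) (nat_lit 0) (nat_lit 0) (XT.lf (nat_lit 0) (nat_lit 248138958938) (nat_lit 76) (nat_lit 696011632415) (nat_lit 76) (nat_lit 694588937846) (nat_lit 1) (nat_lit 4) (nat_lit 2) (nat_lit 5) (nat_lit 2) (nat_lit 4) (nat_lit 333) (nat_lit 210) (nat_lit 177)) (XT.nd (nat_lit 78) (nat_lit 0) (nat_lit 0) (XT.lf (nat_lit 0) (nat_lit 269422072378) (nat_lit 76) (nat_lit 750893488560) (nat_lit 76) (nat_lit 749461768269) (nat_lit 1) (nat_lit 4) (nat_lit 2) (nat_lit 5) (nat_lit 2) (nat_lit 4) (nat_lit 334) (nat_lit 210) (nat_lit 176)) (XT.lf (nat_lit 0) (nat_lit 292393844297) (nat_lit 76) (nat_lit 810172492935) (nat_lit 76) (nat_lit 808732415494) (nat_lit 1) (nat_lit 4) (nat_lit 2) (nat_lit 5) (nat_lit 2) (nat_lit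 4) (nat_lit 335) (nat_lit 210) (nat_lit 175)))) (XT.nd (nat_lit 156) (nat_lit 0) (nat_lit 0) (XT.nd (nat_lit 78) (nat_lit 0) (nat_lit 0) (XT.lf (nat_lit 0) (nat_lit 317190403714) (nat_lit 76) (nat_lit 874199928528) (nat_lit 76) (nat_lit 872752112985) (nat_lit 1) (nat_lit 4) (nat_lit 2) (nat_lit 5) (nat_lit 2) (nat_lit 4) (nat_lit 336) (nat_lit 210) (nat_lit 174)) (XT.lf (nat_lit 0) (nat_lit 343958693204) (nat_lit 76) (nat_lit 943355217181) (nat_lit 76) (nat_lit 941900236727) (nat_lit 1) (nat_lit 4) (nat_lit 2) (nat_lit 5) (nat_lit 2) (nat_lit 4) (nat_lit 337) (nat_lit 210) (nat_lit 173))) (XT.nd (nat_lit 78) (nat_lit 0) (nat_lit 0) (XT.lf (nat_lit 0) (nat_lit 372857339666) (nat_lit 76) (nat_lit 1018048168010) (nat_lit 76) (nat_lit 1016586553381) (nat_lit 1) (nat_lit 4) (nat_lit 2) (nat_lit 5) (nat_lit 2) (nat_lit 4) (nat_lit 338) (nat_lit 210) (nat_lit 172)) (XT.lf (nat_lit 0) (nat_lit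 404057594340) (nat_lit 76) (nat_lit 1098721405909) (nat_lit 76) (nat_lit 1097253648526) (nat_lit 1) (nat_lit 4) (nat_lit 2) (nat_lit 5) (nat_lit 2) (nat_lit 4) (nat_lit 339) (nat_lit 210) (nat_lit 171))))) (XT.nd (nat_lit 234) (nat_lit 0) (nat_lit 0) (XT.nd (nat_lit 78) (nat_lit 0) (nat_lit 0) (XT.lf (nat_lit 0) (nat_lit 437744347622) (nat_lit 76) (nat_lit 1185852994512) (nat_lit 76) (nat_lit 1184379549392) (nat_lit 1) (nat_lit 4) (nat_lit 2) (nat_lit 5) (nat_lit 2) (nat_lit 4) (nat_lit 340) (nat_lit 210) (nat_lit 170)) (XT.nd (nat_lit 78) (nat_lit 0) (nat_lit 0) (XT.lf (nat_lit 0) (nat_lit 474117224719) (nat_lit 76) (nat_lit 1279959269157) (nat_lit 76) (nat_lit 1278480557614) (nat_lit 1) (nat_lit 4) (nat_lit 2) (nat_lit 5) (nat_lit 2) (nat_lit 4) (nat_lit 341) (nat_lit 210) (nat_lit 169)) (XT.lf (nat_lit 0) (nat_lit 513391768605) (nat_lit 76) (nat_lit 1381597896657) (nat_lit 76) (nat_lit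 1380114308798) (nat_lit 1) (nat_lit 4) (nat_lit 2) (nat_lit 5) (nat_lit 2) (nat_lit 4) (nat_lit 342) (nat_lit 210) (nat_lit 168)))) (XT.nd (nat_lit 34008) (nat_lit 0) (nat_lit 76) (XT.nd (nat_lit 78) (nat_lit 0) (nat_lit 0) (XT.lf (nat_lit 0) (nat_lit 555800717318) (nat_lit 76) (nat_lit 1491371179990) (nat_lit 76) (nat_lit 1489883077022) (nat_lit 1) (nat_lit 4) (nat_lit 2) (nat_lit 5) (nat_lit 2) (nat_lit 4) (nat_lit 343) (nat_lit 210) (nat_lit 167)) (XT.lf (nat_lit 0) (nat_lit 601595383147) (nat_lit 76) (nat_lit 1609929627502) (nat_lit 76) (nat_lit 1608437343878) (nat_lit 1) (nat_lit 4) (nat_lit 2) (nat_lit 5) (nat_lit 2) (nat_lit 4) (nat_lit 344) (nat_lit 210) (nat_lit 166))) (XT.nd (nat_lit 78) (nat_lit 0) (nat_lit 0) (XT.lf (nat_lit 0) (nat_lit 24332509791) (nat_lit 152) (nat_lit 7432463460) (nat_lit 0) (nat_lit 24332509791) (nat_lit 2) (nat_lit 5) (nat_lit 4) (nat_lit 4) (nat_lit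 2) (nat_lit 4) (nat_lit 298) (nat_lit 211) (nat_lit 211)) (XT.lf (nat_lit 0) (nat_lit 54405498285) (nat_lit 152) (nat_lit 12322358267) (nat_lit 0) (nat_lit 54281934939) (nat_lit 2) (nat_lit 5) (nat_lit 4) (nat_lit 4) (nat_lit 2) (nat_lit 4) (nat_lit 299) (nat_lit 211) (nat_lit 210))))))))
noncomputable def xc10 : XT := (XT.nd (nat_lit 2028) (nat_lit 0) (nat_lit 0) (XT.nd (nat_lit 1014) (nat_lit 0) (nat_lit 0) (XT.nd (nat_lit 468) (nat_lit 0) (nat_lit 0) (XT.nd (nat_lit 234) (nat_lit 76) (nat_lit 0) (XT.nd (nat_lit 78) (nat_lit 0) (nat_lit 0) (XT.lf (nat_lit 0) (nat_lit 60508639822) (nat_lit 152) (nat_lit 9758335989) (nat_lit 0) (nat_lit 60270665971) (nat_lit 2) (nat_lit 5) (nat_lit 4) (nat_lit 4) (nat_lit 2) (nat_lit 4) (nat_lit 300) (nat_lit 211) (nat_lit 209)) (XT.nd (nat_lit 78) (nat_lit 0) (nat_lit 0) (XT.lf (nat_lit 0) (nat_lit 67010610960) (nat_lit 152) (nat_lit 7157665880) (nat_lit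 0) (nat_lit 66666701456) (nat_lit 2) (nat_lit 5) (nat_lit 4) (nat_lit 4) (nat_lit 2) (nat_lit 4) (nat_lit 301) (nat_lit 211) (nat_lit 208)) (XT.lf (nat_lit 0) (nat_lit 73949941897) (nat_lit 152) (nat_lit 4504936560) (nat_lit 0) (nat_lit 73507943826) (nat_lit 2) (nat_lit 5) (nat_lit 4) (nat_lit 4) (nat_lit 2) (nat_lit 4) (nat_lit 302) (nat_lit 211) (nat_lit 207)))) (XT.nd (nat_lit 78) (nat_lit 76) (nat_lit 0) (XT.lf (nat_lit 0) (nat_lit 81367754596) (nat_lit 152) (nat_lit 1784428153) (nat_lit 0) (nat_lit 80834933776) (nat_lit 2) (nat_lit 5) (nat_lit 4) (nat_lit 4) (nat_lit 2) (nat_lit 4) (nat_lit 303) (nat_lit 211) (nat_lit 206)) (XT.nd (nat_lit 78) (nat_lit 0) (nat_lit 0) (XT.lf (nat_lit 0) (nat_lit 1073691257) (nat_lit 76) (nat_lit 88260137507) (nat_lit 76) (nat_lit 87643221551) (nat_lit 1) (nat_lit 4) (nat_lit 2) (nat_lit 5) (nat_lit 2) (nat_lit 4) (nat_lit 304) (nat_lit 211) (nat_lit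 205)) (XT.lf (nat_lit 0) (nat_lit 4131588001) (nat_lit 76) (nat_lit 93785527635) (nat_lit 76) (nat_lit 93090745811) (nat_lit 1) (nat_lit 4) (nat_lit 2) (nat_lit 5) (nat_lit 2) (nat_lit 4) (nat_lit 305) (nat_lit 211) (nat_lit 204))))) (XT.nd (nat_lit 234) (nat_lit 0) (nat_lit 0) (XT.nd (nat_lit 78) (nat_lit 0) (nat_lit 0) (XT.lf (nat_lit 0) (nat_lit 7313418124) (nat_lit 76) (nat_lit 99809885613) (nat_lit 76) (nat_lit 99043005764) (nat_lit 1) (nat_lit 4) (nat_lit 2) (nat_lit 5) (nat_lit 2) (nat_lit 4) (nat_lit 306) (nat_lit 211) (nat_lit 203)) (XT.nd (nat_lit 78) (nat_lit 0) (nat_lit 0) (XT.lf (nat_lit 0) (nat_lit 10638036915) (nat_lit 76) (nat_lit 106368911342) (nat_lit 76) (nat_lit 105535274062) (nat_lit 1) (nat_lit 4) (nat_lit 2) (nat_lit 5) (nat_lit 2) (nat_lit 4) (nat_lit 307) (nat_lit 211) (nat_lit 202)) (XT.lf (nat_lit 0) (nat_lit 14125145819) (nat_lit 76) (nat_lit 113501473121)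 (nat_lit 76) (nat_lit 112606023404) (nat_lit 1) (nat_lit 4) (nat_lit 2) (nat_lit 5) (nat_lit 2) (nat_lit 4) (nat_lit 308) (nat_lit 211) (nat_lit 201)))) (XT.nd (nat_lit 156) (nat_lit 0) (nat_lit 0) (XT.nd (nat_lit 78) (nat_lit 0) (nat_lit 0) (XT.lf (nat_lit 0) (nat_lit 17795409185) (nat_lit 76) (nat_lit 121249837983) (nat_lit 76) (nat_lit 120297154529) (nat_lit 1) (nat_lit 4) (nat_lit 2) (nat_lit 5) (nat_lit 2) (nat_lit 4) (nat_lit 309) (nat_lit 211) (nat_lit 200)) (XT.lf (nat_lit 0) (nat_lit 21670576722) (nat_lit 76) (nat_lit 129659922164) (nat_lit 76) (nat_lit 128654244510) (nat_lit 1) (nat_lit 4) (nat_lit 2) (nat_lit 5) (nat_lit 2) (nat_lit 4) (nat_lit 310) (nat_lit 211) (nat_lit 199))) (XT.nd (nat_lit 78) (nat_lit 0) (nat_lit 0) (XT.lf (nat_lit 0) (nat_lit 25773612386) (nat_lit 76) (nat_lit 138781563201) (nat_lit 76) (nat_lit 137726816842) (nat_lit 1) (nat_lit 4) (nat_lit 2) (nat_lit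 5) (nat_lit 2) (nat_lit 4) (nat_lit 311) (nat_lit 211) (nat_lit 198)) (XT.lf (nat_lit 0) (nat_lit 30128830462) (nat_lit 76) (nat_lit 148668815263) (nat_lit 76) (nat_lit 147568634918) (nat_lit 1) (nat_lit 4) (nat_lit 2) (nat_lit 5) (nat_lit 2) (nat_lit 4) (nat_lit 312) (nat_lit 211) (nat_lit 197)))))) (XT.nd (nat_lit 468) (nat_lit 0) (nat_lit 0) (XT.nd (nat_lit 234) (nat_lit 0) (nat_lit 0) (XT.nd (nat_lit 78) (nat_lit 0) (nat_lit 0) (XT.lf (nat_lit 0) (nat_lit 34762039649) (nat_lit 76) (nat_lit 159380269472) (nat_lit 76) (nat_lit 158238020622) (nat_lit 1) (nat_lit 4) (nat_lit 2) (nat_lit 5) (nat_lit 2) (nat_lit 4) (nat_lit 313) (nat_lit 211) (nat_lit 196)) (XT.nd (nat_lit 78) (nat_lit 0) (nat_lit 0) (XT.lf (nat_lit 0) (nat_lit 39700696003) (nat_lit 76) (nat_lit 170979401113) (nat_lit 76) (nat_lit 169798199943) (nat_lit 1) (nat_lit 4) (nat_lit 2) (nat_lit 5) (nat_lit 2) (nat_lit 4) (nat_lit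 314) (nat_lit 211) (nat_lit 195)) (XT.lf (nat_lit 0) (nat_lit 44974065635) (nat_lit 76) (nat_lit 183534945781) (nat_lit 76) (nat_lit 182317677648) (nat_lit 1) (nat_lit 4) (nat_lit 2) (nat_lit 5) (nat_lit 2) (nat_lit 4) (nat_lit 315) (nat_lit 211) (nat_lit 194)))) (XT.nd (nat_lit 78) (nat_lit 0) (nat_lit 0) (XT.lf (nat_lit 0) (nat_lit 50613398143) (nat_lit 76) (nat_lit 197121306704) (nat_lit 76) (nat_lit 195870643235) (nat_lit 1) (nat_lit 4) (nat_lit 2) (nat_lit 5) (nat_lit 2) (nat_lit 4) (nat_lit 316) (nat_lit 211) (nat_lit 193)) (XT.nd (nat_lit 78) (nat_lit 0) (nat_lit 0) (XT.lf (nat_lit 0) (nat_lit 56652111793) (nat_lit 76) (nat_lit 211818995649) (nat_lit 76) (nat_lit 210537410574) (nat_lit 1) (nat_lit 4) (nat_lit 2) (nat_lit 5) (nat_lit 2) (nat_lit 4) (nat_lit 317) (nat_lit 211) (nat_lit 192)) (XT.lf (nat_lit 0) (nat_lit 63125991555) (nat_lit 76) (nat_lit 227715110034) (nat_lit 76)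 (nat_lit 226404893840) (nat_lit 1) (nat_lit 4) (nat_lit 2) (nat_lit 5) (nat_lit 2) (nat_lit 4) (nat_lit 318) (nat_lit 211) (nat_lit 191))))) (XT.nd (nat_lit 234) (nat_lit 0) (nat_lit 0) (XT.nd (nat_lit 78) (nat_lit 0) (nat_lit 0) (XT.lf (nat_lit 0) (nat_lit 70073401162) (nat_lit 76) (nat_lit 244903849054) (nat_lit 76) (nat_lit 243567122566) (nat_lit 1) (nat_lit 4) (nat_lit 2) (nat_lit 5) (nat_lit 2) (nat_lit 4) (nat_lit 319) (nat_lit 211) (nat_lit 190)) (XT.nd (nat_lit 78) (nat_lit 0) (nat_lit 0) (XT.lf (nat_lit 0) (nat_lit 77535510447) (nat_lit 76) (nat_lit 263487071903) (nat_lit 76) (nat_lit 262125798847) (nat_lit 1) (nat_lit 4) (nat_lit 2) (nat_lit 5) (nat_lit 2) (nat_lit 4) (nat_lit 320) (nat_lit 211) (nat_lit 189)) (XT.lf (nat_lit 0) (nat_lit 85556539318) (nat_lit 76) (nat_lit 283574901384) (nat_lit 76) (nat_lit 282190900023) (nat_lit 1) (nat_lit 4) (nat_lit 2) (nat_lit 5) (nat_lit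 2) (nat_lit 4) (nat_lit 321) (nat_lit 211) (nat_lit 188)))) (XT.nd (nat_lit 156) (nat_lit 0) (nat_lit 0) (XT.nd (nat_lit 78) (nat_lit 0) (nat_lit 0) (XT.lf (nat_lit 0) (nat_lit 94184019798) (nat_lit 76) (nat_lit 305286376487) (nat_lit 76) (nat_lit 303881330399) (nat_lit 1) (nat_lit 4) (nat_lit 2) (nat_lit 5) (nat_lit 2) (nat_lit 4) (nat_lit 322) (nat_lit 211) (nat_lit 187)) (XT.lf (nat_lit 0) (nat_lit 103469077697) (nat_lit 76) (nat_lit 328750157803) (nat_lit 76) (nat_lit 327325625858) (nat_lit 1) (nat_lit 4) (nat_lit 2) (nat_lit 5) (nat_lit 2) (nat_lit 4) (nat_lit 323) (nat_lit 211) (nat_lit 186))) (XT.nd (nat_lit 78) (nat_lit 0) (nat_lit 0) (XT.lf (nat_lit 0) (nat_lit 113466735580) (nat_lit 76) (nat_lit 354105289964) (nat_lit 76) (nat_lit 352662715558) (nat_lit 1) (nat_lit 4) (nat_lit 2) (nat_lit 5) (nat_lit 2) (nat_lit 4) (nat_lit 324) (nat_lit 211) (nat_lit 185)) (XT.lf (nat_lit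 0) (nat_lit 124236238828) (nat_lit 76) (nat_lit 381502025604) (nat_lit 76) (nat_lit 380042745215) (nat_lit 1) (nat_lit 4) (nat_lit 2) (nat_lit 5) (nat_lit 2) (nat_lit 4) (nat_lit 325) (nat_lit 211) (nat_lit 184))))))) (XT.nd (nat_lit 1014) (nat_lit 0) (nat_lit 0) (XT.nd (nat_lit 468) (nat_lit 0) (nat_lit 0) (XT.nd (nat_lit 234) (nat_lit 0) (nat_lit 0) (XT.nd (nat_lit 78) (nat_lit 0) (nat_lit 0) (XT.lf (nat_lit 0) (nat_lit 135841406719) (nat_lit 76) (nat_lit 411102715749) (nat_lit 76) (nat_lit 409627966859) (nat_lit 1) (nat_lit 4) (nat_lit 2) (nat_lit 5) (nat_lit 2) (nat_lit 4) (nat_lit 326) (nat_lit 211) (nat_lit 183)) (XT.nd (nat_lit 78) (nat_lit 0) (nat_lit 0) (XT.lf (nat_lit 0) (nat_lit 148351010617) (nat_lit 76) (nat_lit 443082771898) (nat_lit 76) (nat_lit 441593700320) (nat_lit 1) (nat_lit 4) (nat_lit 2) (nat_lit 5) (nat_lit 2) (nat_lit 4) (nat_lit 327) (nat_lit 211) (nat_lit 182))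 (XT.lf (nat_lit 0) (nat_lit 161839181510) (nat_lit 76) (nat_lit 477631705492) (nat_lit 76) (nat_lit 476129372167) (nat_lit 1) (nat_lit 4) (nat_lit 2) (nat_lit 5) (nat_lit 2) (nat_lit 4) (nat_lit 328) (nat_lit 211) (nat_lit 181)))) (XT.nd (nat_lit 78) (nat_lit 0) (nat_lit 0) (XT.lf (nat_lit 0) (nat_lit 176385849298) (nat_lit 76) (nat_lit 514954250954) (nat_lit 76) (nat_lit 513439638233) (nat_lit 1) (nat_lit 4) (nat_lit 2) (nat_lit 5) (nat_lit 2) (nat_lit 4) (nat_lit 329) (nat_lit 211) (nat_lit 180)) (XT.nd (nat_lit 78) (nat_lit 0) (nat_lit 0) (XT.lf (nat_lit 0) (nat_lit 192077216458) (nat_lit 76) (nat_lit 555271578923) (nat_lit 76) (nat_lit 553745596392) (nat_lit 1) (nat_lit 4) (nat_lit 2) (nat_lit 5) (nat_lit 2) (nat_lit 4) (nat_lit 330) (nat_lit 211) (nat_lit 179)) (XT.lf (nat_lit 0) (nat_lit 209006268870) (nat_lit 76) (nat_lit 598822606900) (nat_lit 76) (nat_lit 597286096765) (nat_lit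 1) (nat_lit 4) (nat_lit 2) (nat_lit 5) (nat_lit 2) (nat_lit 4) (nat_lit 331) (nat_lit 211) (nat_lit 178))))) (XT.nd (nat_lit 234) (nat_lit 0) (nat_lit 0) (XT.nd (nat_lit 78) (nat_lit 0) (nat_lit 0) (XT.lf (nat_lit 0) (nat_lit 227273326842) (nat_lit 76) (nat_lit 645865415048) (nat_lit 76) (nat_lit 644319157133) (nat_lit 1) (nat_lit 4) (nat_lit 2) (nat_lit 5) (nat_lit 2) (nat_lit 4) (nat_lit 332) (nat_lit 211) (nat_lit 177)) (XT.nd (nat_lit 78) (nat_lit 0) (nat_lit 0) (XT.lf (nat_lit 0) (nat_lit 246986639609) (nat_lit 76) (nat_lit 696678775565) (nat_lit 76) (nat_lit 695123491928) (nat_lit 1) (nat_lit 4) (nat_lit 2) (nat_lit 5) (nat_lit 2) (nat_lit 4) (nat_lit 333) (nat_lit 211) (nat_lit 176)) (XT.lf (nat_lit 0) (nat_lit 268263026801) (nat_lit 76) (nat_lit 751563804661) (nat_lit 76) (nat_lit 750000163874) (nat_lit 1) (nat_lit 4) (nat_lit 2) (nat_lit 5) (nat_lit 2) (nat_lit 4) (nat_lit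 334) (nat_lit 211) (nat_lit 175)))) (XT.nd (nat_lit 156) (nat_lit 0) (nat_lit 0) (XT.nd (nat_lit 78) (nat_lit 0) (nat_lit 0) (XT.lf (nat_lit 0) (nat_lit 291228570713) (nat_lit 76) (nat_lit 810845746954) (nat_lit 76) (nat_lit 809274368064) (nat_lit 1) (nat_lit 4) (nat_lit 2) (nat_lit 5) (nat_lit 2) (nat_lit 4) (nat_lit 335) (nat_lit 211) (nat_lit 174)) (XT.lf (nat_lit 0) (nat_lit 316019363457) (nat_lit 76) (nat_lit 874875902841) (nat_lit 76) (nat_lit 873297359042) (nat_lit 1) (nat_lit 4) (nat_lit 2) (nat_lit 5) (nat_lit 2) (nat_lit 4) (nat_lit 336) (nat_lit 211) (nat_lit 173))) (XT.nd (nat_lit 78) (nat_lit 0) (nat_lit 0) (XT.lf (nat_lit 0) (nat_lit 342782313433) (nat_lit 76) (nat_lit 944033710284) (nat_lit 76) (nat_lit 942448532309) (nat_lit 1) (nat_lit 4) (nat_lit 2) (nat_lit 5) (nat_lit 2) (nat_lit 4) (nat_lit 337) (nat_lit 211) (nat_lit 172)) (XT.lf (nat_lit 0) (nat_lit 371676015903)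 (nat_lit 76) (nat_lit 1018728993326) (nat_lit 76) (nat_lit 1017137672597) (nat_lit 1) (nat_lit 4) (nat_lit 2) (nat_lit 5) (nat_lit 2) (nat_lit 4) (nat_lit 338) (nat_lit 211) (nat_lit 171)))))) (XT.nd (nat_lit 34242) (nat_lit 0) (nat_lit 76) (XT.nd (nat_lit 234) (nat_lit 0) (nat_lit 0) (XT.nd (nat_lit 78) (nat_lit 0) (nat_lit 0) (XT.lf (nat_lit 0) (nat_lit 402871692805) (nat_lit 76) (nat_lit 1099404390683) (nat_lit 76) (nat_lit 1097807382218) (nat_lit 1) (nat_lit 4) (nat_lit 2) (nat_lit 5) (nat_lit 2) (nat_lit 4) (nat_lit 339) (nat_lit 211) (nat_lit 170)) (XT.nd (nat_lit 78) (nat_lit 0) (nat_lit 0) (XT.lf (nat_lit 0) (nat_lit 436554207410) (nat_lit 76) (nat_lit 1186537978783) (nat_lit 76) (nat_lit 1184935703895) (nat_lit 1) (nat_lit 4) (nat_lit 2) (nat_lit 5) (nat_lit 2) (nat_lit 4) (nat_lit 340) (nat_lit 211) (nat_lit 169)) (XT.lf (nat_lit 0) (nat_lit 472923159806) (nat_lit 76) (nat_lit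 1280646104814) (nat_lit 76) (nat_lit 1279038953609) (nat_lit 1) (nat_lit 4) (nat_lit 2) (nat_lit 5) (nat_lit 2) (nat_lit 4) (nat_lit 341) (nat_lit 211) (nat_lit 168)))) (XT.nd (nat_lit 156) (nat_lit 0) (nat_lit 0) (XT.nd (nat_lit 78) (nat_lit 0) (nat_lit 0) (XT.lf (nat_lit 0) (nat_lit 512194069709) (nat_lit 76) (nat_lit 1382286446561) (nat_lit 76) (nat_lit 1380674780248) (nat_lit 1) (nat_lit 4) (nat_lit 2) (nat_lit 5) (nat_lit 2) (nat_lit 4) (nat_lit 342) (nat_lit 211) (nat_lit 167)) (XT.lf (nat_lit 0) (nat_lit 554599653624) (nat_lit 76) (nat_lit 1492061317159) (nat_lit 76) (nat_lit 1490445470190) (nat_lit 1) (nat_lit 4) (nat_lit 2) (nat_lit 5) (nat_lit 2) (nat_lit 4) (nat_lit 343) (nat_lit 211) (nat_lit 166))) (XT.nd (nat_lit 33774) (nat_lit 0) (nat_lit 76) (XT.lf (nat_lit 0) (nat_lit 600391203899) (nat_lit 76) (nat_lit 1610621234361) (nat_lit 76) (nat_lit 1609001516415) (nat_lit 1)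 (nat_lit 4) (nat_lit 2) (nat_lit 5) (nat_lit 2) (nat_lit 4) (nat_lit 344) (nat_lit 211) (nat_lit 165)) (XT.lf (nat_lit 0) (nat_lit 19162766283) (nat_lit 152) (nat_lit 9921950394) (nat_lit 0) (nat_lit 19162766283) (nat_lit 2) (nat_lit 5) (nat_lit 4) (nat_lit 4) (nat_lit 2) (nat_lit 4) (nat_lit 296) (nat_lit 212) (nat_lit 212))))) (XT.nd (nat_lit 234) (nat_lit 0) (nat_lit 0) (XT.nd (nat_lit 78) (nat_lit 0) (nat_lit 0) (XT.lf (nat_lit 0) (nat_lit 43386634479) (nat_lit 152) (nat_lit 17401109021) (nat_lit 0) (nat_lit 43253186065) (nat_lit 2) (nat_lit 5) (nat_lit 4) (nat_lit 4) (nat_lit 2) (nat_lit 4) (nat_lit 297) (nat_lit 212) (nat_lit 211)) (XT.nd (nat_lit 78) (nat_lit 0) (nat_lit 0) (XT.lf (nat_lit 0) (nat_lit 48748323046) (nat_lit 152) (nat_lit 14959401928) (nat_lit 0) (nat_lit 48491311287) (nat_lit 2) (nat_lit 5) (nat_lit 4) (nat_lit 4) (nat_lit 2) (nat_lit 4) (nat_lit 298) (nat_lit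 212) (nat_lit 210)) (XT.lf (nat_lit 0) (nat_lit 54442371238) (nat_lit 152) (nat_lit 12504310134) (nat_lit 0) (nat_lit 54070948973) (nat_lit 2) (nat_lit 5) (nat_lit 4) (nat_lit 4) (nat_lit 2) (nat_lit 4) (nat_lit 299) (nat_lit 212) (nat_lit 209)))) (XT.nd (nat_lit 156) (nat_lit 0) (nat_lit 0) (XT.nd (nat_lit 78) (nat_lit 0) (nat_lit 0) (XT.lf (nat_lit 0) (nat_lit 60502521562) (nat_lit 152) (nat_lit 10021284948) (nat_lit 0) (nat_lit 60025163645) (nat_lit 2) (nat_lit 5) (nat_lit 4) (nat_lit 4) (nat_lit 2) (nat_lit 4) (nat_lit 300) (nat_lit 212) (nat_lit 208)) (XT.lf (nat_lit 0) (nat_lit 66964686022) (nat_lit 152) (nat_lit 7495612145) (nat_lit 0) (nat_lit 66389239536) (nat_lit 2) (nat_lit 5) (nat_lit 4) (nat_lit 4) (nat_lit 2) (nat_lit 4) (nat_lit 301) (nat_lit 212) (nat_lit 207))) (XT.nd (nat_lit 78) (nat_lit 0) (nat_lit 0) (XT.lf (nat_lit 0) (nat_lit 73867158923) (nat_lit 152) (nat_lit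 4912324777) (nat_lit 0) (nat_lit 73200889691) (nat_lit 2) (nat_lit 5) (nat_lit 4) (nat_lit 4) (nat_lit 2) (nat_lit 4) (nat_lit 302) (nat_lit 212) (nat_lit 206)) (XT.lf (nat_lit 0) (nat_lit 81250843811) (nat_lit 152) (nat_lit 2256114473) (nat_lit 0) (nat_lit 80500479441) (nat_lit 2) (nat_lit 5) (nat_lit 4) (nat_lit 4) (nat_lit 2) (nat_lit 4) (nat_lit 303) (nat_lit 212) (nat_lit 205))))))))
noncomputable def xc11 : XT := (XT.nd (nat_lit 2106) (nat_lit 0) (nat_lit 0) (XT.nd (nat_lit 1014) (nat_lit 0) (nat_lit 0) (XT.nd (nat_lit 468) (nat_lit 0) (nat_lit 0) (XT.nd (nat_lit 234) (nat_lit 0) (nat_lit 0) (XT.nd (nat_lit 78) (nat_lit 0) (nat_lit 0) (XT.lf (nat_lit 0) (nat_lit 514496469) (nat_lit 76) (nat_lit 88657373037) (nat_lit 76) (nat_lit 87829142800) (nat_lit 1) (nat_lit 4) (nat_lit 2) (nat_lit 5) (nat_lit 2) (nat_lit 4) (nat_lit 304) (nat_lit 212) (nat_lit 204)) (XT.nd (nat_lit 78) (nat_lit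 0) (nat_lit 0) (XT.lf (nat_lit 0) (nat_lit 3514365155) (nat_lit 76) (nat_lit 94210136550) (nat_lit 76) (nat_lit 93309808287) (nat_lit 1) (nat_lit 4) (nat_lit 2) (nat_lit 5) (nat_lit 2) (nat_lit 4) (nat_lit 305) (nat_lit 212) (nat_lit 203)) (XT.lf (nat_lit 0) (nat_lit 6642465594) (nat_lit 76) (nat_lit 100259840255) (nat_lit 76) (nat_lit 99292754562) (nat_lit 1) (nat_lit 4) (nat_lit 2) (nat_lit 5) (nat_lit 2) (nat_lit 4) (nat_lit 306) (nat_lit 212) (nat_lit 202)))) (XT.nd (nat_lit 78) (nat_lit 0) (nat_lit 0) (XT.lf (nat_lit 0) (nat_lit 9917334678) (nat_lit 76) (nat_lit 106842334249) (nat_lit 76) (nat_lit 105813436120) (nat_lit 1) (nat_lit 4) (nat_lit 2) (nat_lit 5) (nat_lit 2) (nat_lit 4) (nat_lit 307) (nat_lit 212) (nat_lit 201)) (XT.nd (nat_lit 78) (nat_lit 0) (nat_lit 0) (XT.lf (nat_lit 0) (nat_lit 13358379039) (nat_lit 76) (nat_lit 113996625903) (nat_lit 76) (nat_lit 112910494037)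 (nat_lit 1) (nat_lit 4) (nat_lit 2) (nat_lit 5) (nat_lit 2) (nat_lit 4) (nat_lit 308) (nat_lit 212) (nat_lit 200)) (XT.lf (nat_lit 0) (nat_lit 16985990050) (nat_lit 76) (nat_lit 121765111021) (nat_lit 76) (nat_lit 120625984953) (nat_lit 1) (nat_lit 4) (nat_lit 2) (nat_lit 5) (nat_lit 2) (nat_lit 4) (nat_lit 309) (nat_lit 212) (nat_lit 199))))) (XT.nd (nat_lit 234) (nat_lit 0) (nat_lit 0) (XT.nd (nat_lit 78) (nat_lit 0) (nat_lit 0) (XT.lf (nat_lit 0) (nat_lit 20821664666) (nat_lit 76) (nat_lit 130193825068) (nat_lit 76) (nat_lit 129005630296) (nat_lit 1) (nat_lit 4) (nat_lit 2) (nat_lit 5) (nat_lit 2) (nat_lit 4) (nat_lit 310) (nat_lit 212) (nat_lit 198)) (XT.nd (nat_lit 78) (nat_lit 0) (nat_lit 0) (XT.lf (nat_lit 0) (nat_lit 24888132810) (nat_lit 76) (nat_lit 139332715981) (nat_lit 76) (nat_lit 138099087222) (nat_lit 1) (nat_lit 4) (nat_lit 2) (nat_lit 5) (nat_lit 2) (nat_lit 4) (nat_lit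 311) (nat_lit 212) (nat_lit 197)) (XT.lf (nat_lit 0) (nat_lit 29209492071) (nat_lit 76) (nat_lit 149235940149) (nat_lit 76) (nat_lit 147960242886) (nat_lit 1) (nat_lit 4) (nat_lit 2) (nat_lit 5) (nat_lit 2) (nat_lit 4) (nat_lit 312) (nat_lit 212) (nat_lit 196)))) (XT.nd (nat_lit 156) (nat_lit 0) (nat_lit 0) (XT.nd (nat_lit 78) (nat_lit 0) (nat_lit 0) (XT.lf (nat_lit 0) (nat_lit 33811350505) (nat_lit 76) (nat_lit 159962183346) (nat_lit 76) (nat_lit 158647533763) (nat_lit 1) (nat_lit 4) (nat_lit 2) (nat_lit 5) (nat_lit 2) (nat_lit 4) (nat_lit 313) (nat_lit 212) (nat_lit 195)) (XT.lf (nat_lit 0) (nat_lit 38720978383) (nat_lit 76) (nat_lit 171575008495) (nat_lit 76) (nat_lit 170224291949) (nat_lit 1) (nat_lit 4) (nat_lit 2) (nat_lit 5) (nat_lit 2) (nat_lit 4) (nat_lit 314) (nat_lit 212) (nat_lit 194))) (XT.nd (nat_lit 78) (nat_lit 0) (nat_lit 0) (XT.lf (nat_lit 0) (nat_lit 43967469796)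 (nat_lit 76) (nat_lit 184143232337) (nat_lit 76) (nat_lit 182759120455) (nat_lit 1) (nat_lit 4) (nat_lit 2) (nat_lit 5) (nat_lit 2) (nat_lit 4) (nat_lit 315) (nat_lit 212) (nat_lit 193)) (XT.lf (nat_lit 0) (nat_lit 49581915064) (nat_lit 76) (nat_lit 197741333235) (nat_lit 76) (nat_lit 196326299746) (nat_lit 1) (nat_lit 4) (nat_lit 2) (nat_lit 5) (nat_lit 2) (nat_lit 4) (nat_lit 316) (nat_lit 212) (nat_lit 192)))))) (XT.nd (nat_lit 546) (nat_lit 0) (nat_lit 0) (XT.nd (nat_lit 234) (nat_lit 0) (nat_lit 0) (XT.nd (nat_lit 78) (nat_lit 0) (nat_lit 0) (XT.lf (nat_lit 0) (nat_lit 55597584974) (nat_lit 76) (nat_lit 212449892528) (nat_lit 76) (nat_lit 211006227921) (nat_lit 1) (nat_lit 4) (nat_lit 2) (nat_lit 5) (nat_lit 2) (nat_lit 4) (nat_lit 317) (nat_lit 212) (nat_lit 191)) (XT.nd (nat_lit 78) (nat_lit 0) (nat_lit 0) (XT.lf (nat_lit 0) (nat_lit 62050127940) (nat_lit 76) (nat_lit 228356072050)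 (nat_lit 76) (nat_lit 226885897148) (nat_lit 1) (nat_lit 4) (nat_lit 2) (nat_lit 5) (nat_lit 2) (nat_lit 4) (nat_lit 318) (nat_lit 212) (nat_lit 190)) (XT.lf (nat_lit 0) (nat_lit 68977781253) (nat_lit 76) (nat_lit 245554130641) (nat_lit 76) (nat_lit 244059409171) (nat_lit 1) (nat_lit 4) (nat_lit 2) (nat_lit 5) (nat_lit 2) (nat_lit 4) (nat_lit 319) (nat_lit 212) (nat_lit 189)))) (XT.nd (nat_lit 156) (nat_lit 0) (nat_lit 0) (XT.nd (nat_lit 78) (nat_lit 0) (nat_lit 0) (XT.lf (nat_lit 0) (nat_lit 76421597675) (nat_lit 76) (nat_lit 264145982723) (nat_lit 76) (nat_lit 262628532948) (nat_lit 1) (nat_lit 4) (nat_lit 2) (nat_lit 5) (nat_lit 2) (nat_lit 4) (nat_lit 320) (nat_lit 212) (nat_lit 188)) (XT.lf (nat_lit 0) (nat_lit 84425688709) (nat_lit 76) (nat_lit 284241802234) (nat_lit 76) (nat_lit 282703307733) (nat_lit 1) (nat_lit 4) (nat_lit 2) (nat_lit 5) (nat_lit 2) (nat_lit 4) (nat_lit 321)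 (nat_lit 212) (nat_lit 187))) (XT.nd (nat_lit 78) (nat_lit 0) (nat_lit 0) (XT.lf (nat_lit 0) (nat_lit 93037486006) (nat_lit 76) (nat_lit 305960675512) (nat_lit 76) (nat_lit 304402695153) (nat_lit 1) (nat_lit 4) (nat_lit 2) (nat_lit 5) (nat_lit 2) (nat_lit 4) (nat_lit 322) (nat_lit 212) (nat_lit 186)) (XT.lf (nat_lit 0) (nat_lit 102308022440) (nat_lit 76) (nat_lit 329431306992) (nat_lit 76) (nat_lit 327855284172) (nat_lit 1) (nat_lit 4) (nat_lit 2) (nat_lit 5) (nat_lit 2) (nat_lit 4) (nat_lit 323) (nat_lit 212) (nat_lit 185))))) (XT.nd (nat_lit 234) (nat_lit 0) (nat_lit 0) (XT.nd (nat_lit 78) (nat_lit 0) (nat_lit 0) (XT.lf (nat_lit 0) (nat_lit 112292234522) (nat_lit 76) (nat_lit 354792781896) (nat_lit 76) (nat_lit 353200053094) (nat_lit 1) (nat_lit 4) (nat_lit 2) (nat_lit 5) (nat_lit 2) (nat_lit 4) (nat_lit 324) (nat_lit 212) (nat_lit 184)) (XT.nd (nat_lit 78) (nat_lit 0) (nat_lit 0)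 (XT.lf (nat_lit 0) (nat_lit 123049287954) (nat_lit 76) (nat_lit 382195390447) (nat_lit 76) (nat_lit 380587193143) (nat_lit 1) (nat_lit 4) (nat_lit 2) (nat_lit 5) (nat_lit 2) (nat_lit 4) (nat_lit 325) (nat_lit 212) (nat_lit 183)) (XT.lf (nat_lit 0) (nat_lit 134642928237) (nat_lit 76) (nat_lit 411801518472) (nat_lit 76) (nat_lit 410178998481) (nat_lit 1) (nat_lit 4) (nat_lit 2) (nat_lit 5) (nat_lit 2) (nat_lit 4) (nat_lit 326) (nat_lit 212) (nat_lit 182)))) (XT.nd (nat_lit 156) (nat_lit 0) (nat_lit 0) (XT.nd (nat_lit 78) (nat_lit 0) (nat_lit 0) (XT.lf (nat_lit 0) (nat_lit 147141858425) (nat_lit 76) (nat_lit 443786609695) (nat_lit 76) (nat_lit 442150827956) (nat_lit 1) (nat_lit 4) (nat_lit 2) (nat_lit 5) (nat_lit 2) (nat_lit 4) (nat_lit 327) (nat_lit 212) (nat_lit 181)) (XT.lf (nat_lit 0) (nat_lit 160620146253) (nat_lit 76) (nat_lit 478340205395) (nat_lit 76) (nat_lit 476692144261) (nat_lit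 1) (nat_lit 4) (nat_lit 2) (nat_lit 5) (nat_lit 2) (nat_lit 4) (nat_lit 328) (nat_lit 212) (nat_lit 180))) (XT.nd (nat_lit 78) (nat_lit 0) (nat_lit 0) (XT.lf (nat_lit 0) (nat_lit 175157663055) (nat_lit 76) (nat_lit 515667067622) (nat_lit 76) (nat_lit 514007636677) (nat_lit 1) (nat_lit 4) (nat_lit 2) (nat_lit 5) (nat_lit 2) (nat_lit 4) (nat_lit 329) (nat_lit 212) (nat_lit 179)) (XT.lf (nat_lit 0) (nat_lit 190840557080) (nat_lit 76) (nat_lit 555988392596) (nat_lit 76) (nat_lit 554318434048) (nat_lit 1) (nat_lit 4) (nat_lit 2) (nat_lit 5) (nat_lit 2) (nat_lit 4) (nat_lit 330) (nat_lit 212) (nat_lit 178))))))) (XT.nd (nat_lit 34632) (nat_lit 0) (nat_lit 0) (XT.nd (nat_lit 468) (nat_lit 0) (nat_lit 0) (XT.nd (nat_lit 234) (nat_lit 0) (nat_lit 0) (XT.nd (nat_lit 78) (nat_lit 0) (nat_lit 0) (XT.lf (nat_lit 0) (nat_lit 207761763995) (nat_lit 76) (nat_lit 599543121501) (nat_lit 76) (nat_lit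 597863415174) (nat_lit 1) (nat_lit 4) (nat_lit 2) (nat_lit 5) (nat_lit 2) (nat_lit 4) (nat_lit 331) (nat_lit 212) (nat_lit 177)) (XT.nd (nat_lit 78) (nat_lit 0) (nat_lit 0) (XT.lf (nat_lit 0) (nat_lit 226021557620) (nat_lit 76) (nat_lit 646589356437) (nat_lit 76) (nat_lit 644900624387) (nat_lit 1) (nat_lit 4) (nat_lit 2) (nat_lit 5) (nat_lit 2) (nat_lit 4) (nat_lit 332) (nat_lit 212) (nat_lit 176)) (XT.lf (nat_lit 0) (nat_lit 245728144138) (nat_lit 76) (nat_lit 697405889905) (nat_lit 76) (nat_lit 695708800704) (nat_lit 1) (nat_lit 4) (nat_lit 2) (nat_lit 5) (nat_lit 2) (nat_lit 4) (nat_lit 333) (nat_lit 212) (nat_lit 175)))) (XT.nd (nat_lit 78) (nat_lit 0) (nat_lit 0) (XT.lf (nat_lit 0) (nat_lit 266998303323) (nat_lit 76) (nat_lit 752293856918) (nat_lit 76) (nat_lit 750589029616) (nat_lit 1) (nat_lit 4) (nat_lit 2) (nat_lit 5) (nat_lit 2) (nat_lit 4) (nat_lit 334) (nat_lit 212) (nat_lit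 174)) (XT.nd (nat_lit 78) (nat_lit 0) (nat_lit 0) (XT.lf (nat_lit 0) (nat_lit 289958080561) (nat_lit 76) (nat_lit 811578519505) (nat_lit 76) (nat_lit 809866527293) (nat_lit 1) (nat_lit 4) (nat_lit 2) (nat_lit 5) (nat_lit 2) (nat_lit 4) (nat_lit 335) (nat_lit 212) (nat_lit 173)) (XT.lf (nat_lit 0) (nat_lit 314743533792) (nat_lit 76) (nat_lit 875611194183) (nat_lit 76) (nat_lit 873892567795) (nat_lit 1) (nat_lit 4) (nat_lit 2) (nat_lit 5) (nat_lit 2) (nat_lit 4) (nat_lit 336) (nat_lit 212) (nat_lit 172))))) (XT.nd (nat_lit 234) (nat_lit 0) (nat_lit 0) (XT.nd (nat_lit 78) (nat_lit 0) (nat_lit 0) (XT.lf (nat_lit 0) (nat_lit 341501539776) (nat_lit 76) (nat_lit 944771333839) (nat_lit 76) (nat_lit 943046564697) (nat_lit 1) (nat_lit 4) (nat_lit 2) (nat_lit 5) (nat_lit 2) (nat_lit 4) (nat_lit 337) (nat_lit 212) (nat_lit 171)) (XT.nd (nat_lit 78) (nat_lit 0) (nat_lit 0) (XT.lf (nat_lit 0) (nat_lit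 370390664474) (nat_lit 76) (nat_lit 1019468776339) (nat_lit 76) (nat_lit 1017738319460) (nat_lit 1) (nat_lit 4) (nat_lit 2) (nat_lit 5) (nat_lit 2) (nat_lit 4) (nat_lit 338) (nat_lit 212) (nat_lit 170)) (XT.lf (nat_lit 0) (nat_lit 401582102698) (nat_lit 76) (nat_lit 1100146173193) (nat_lit 76) (nat_lit 1098410449892) (nat_lit 1) (nat_lit 4) (nat_lit 2) (nat_lit 5) (nat_lit 2) (nat_lit 4) (nat_lit 339) (nat_lit 212) (nat_lit 169)))) (XT.nd (nat_lit 156) (nat_lit 0) (nat_lit 0) (XT.nd (nat_lit 78) (nat_lit 0) (nat_lit 0) (XT.lf (nat_lit 0) (nat_lit 435260692603) (nat_lit 76) (nat_lit 1187281612679) (nat_lit 76) (nat_lit 1185541013061) (nat_lit 1) (nat_lit 4) (nat_lit 2) (nat_lit 5) (nat_lit 2) (nat_lit 4) (nat_lit 340) (nat_lit 212) (nat_lit 168)) (XT.lf (nat_lit 0) (nat_lit 471626011016) (nat_lit 76) (nat_lit 1281391452957) (nat_lit 76) (nat_lit 1279646338230) (nat_lit 1) (nat_lit 4)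 (nat_lit 2) (nat_lit 5) (nat_lit 2) (nat_lit 4) (nat_lit 341) (nat_lit 212) (nat_lit 167))) (XT.nd (nat_lit 78) (nat_lit 0) (nat_lit 0) (XT.lf (nat_lit 0) (nat_lit 510893556121) (nat_lit 76) (nat_lit 1383033381969) (nat_lit 76) (nat_lit 1381284086587) (nat_lit 1) (nat_lit 4) (nat_lit 2) (nat_lit 5) (nat_lit 2) (nat_lit 4) (nat_lit 342) (nat_lit 212) (nat_lit 166)) (XT.lf (nat_lit 0) (nat_lit 553296024481) (nat_lit 76) (nat_lit 1492809722258) (nat_lit 76) (nat_lit 1491056555898) (nat_lit 1) (nat_lit 4) (nat_lit 2) (nat_lit 5) (nat_lit 2) (nat_lit 4) (nat_lit 343) (nat_lit 212) (nat_lit 165)))))) (XT.nd (nat_lit 546) (nat_lit 76) (nat_lit 0) (XT.nd (nat_lit 234) (nat_lit 0) (nat_lit 0) (XT.nd (nat_lit 78) (nat_lit 0) (nat_lit 0) (XT.lf (nat_lit 0) (nat_lit 14594669367) (nat_lit 152) (nat_lit 12340269060) (nat_lit 0) (nat_lit 14594669367) (nat_lit 2) (nat_lit 5) (nat_lit 4) (nat_lit 4)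 (nat_lit 2) (nat_lit 4) (nat_lit 294) (nat_lit 213) (nat_lit 213)) (XT.nd (nat_lit 78) (nat_lit 0) (nat_lit 0) (XT.lf (nat_lit 0) (nat_lit 33679149883) (nat_lit 152) (nat_lit 22302253034) (nat_lit 0) (nat_lit 33535025597) (nat_lit 2) (nat_lit 5) (nat_lit 4) (nat_lit 4) (nat_lit 2) (nat_lit 4) (nat_lit 295) (nat_lit 213) (nat_lit 212)) (XT.lf (nat_lit 0) (nat_lit 38415500307) (nat_lit 152) (nat_lit 19945933797) (nat_lit 0) (nat_lit 38137927607) (nat_lit 2) (nat_lit 5) (nat_lit 4) (nat_lit 4) (nat_lit 2) (nat_lit 4) (nat_lit 296) (nat_lit 213) (nat_lit 211)))) (XT.nd (nat_lit 156) (nat_lit 0) (nat_lit 0) (XT.nd (nat_lit 78) (nat_lit 0) (nat_lit 0) (XT.lf (nat_lit 0) (nat_lit 43426457268) (nat_lit 152) (nat_lit 17597617037) (nat_lit 0) (nat_lit 43025321222) (nat_lit 2) (nat_lit 5) (nat_lit 4) (nat_lit 4) (nat_lit 2) (nat_lit 4) (nat_lit 297) (nat_lit 213) (nat_lit 210)) (XT.lf (nat_lit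 0) (nat_lit 48741715325) (nat_lit 152) (nat_lit 15243386803) (nat_lit 0) (nat_lit 48226168774) (nat_lit 2) (nat_lit 5) (nat_lit 4) (nat_lit 4) (nat_lit 2) (nat_lit 4) (nat_lit 298) (nat_lit 213) (nat_lit 209))) (XT.nd (nat_lit 78) (nat_lit 0) (nat_lit 0) (XT.lf (nat_lit 0) (nat_lit 54392772304) (nat_lit 152) (nat_lit 12869292101) (nat_lit 0) (nat_lit 53771290100) (nat_lit 2) (nat_lit 5) (nat_lit 4) (nat_lit 4) (nat_lit 2) (nat_lit 4) (nat_lit 299) (nat_lit 213) (nat_lit 208)) (XT.lf (nat_lit 0) (nat_lit 60413115950) (nat_lit 152) (nat_lit 10461264222) (nat_lit 0) (nat_lit 59693545179) (nat_lit 2) (nat_lit 5) (nat_lit 4) (nat_lit 4) (nat_lit 2) (nat_lit 4) (nat_lit 300) (nat_lit 213) (nat_lit 207))))) (XT.nd (nat_lit 234) (nat_lit 76) (nat_lit 0) (XT.nd (nat_lit 78) (nat_lit 0) (nat_lit 0) (XT.lf (nat_lit 0) (nat_lit 66838422374) (nat_lit 152) (nat_lit 8005033370) (nat_lit 0) (nat_lit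 66028028855) (nat_lit 2) (nat_lit 5) (nat_lit 4) (nat_lit 4) (nat_lit 2) (nat_lit 4) (nat_lit 301) (nat_lit 213) (nat_lit 206)) (XT.nd (nat_lit 78) (nat_lit 0) (nat_lit 0) (XT.lf (nat_lit 0) (nat_lit 73706767465) (nat_lit 152) (nat_lit 5486044105) (nat_lit 0) (nat_lit 72812278809) (nat_lit 2) (nat_lit 5) (nat_lit 4) (nat_lit 4) (nat_lit 2) (nat_lit 4) (nat_lit 302) (nat_lit 213) (nat_lit 205)) (XT.lf (nat_lit 0) (nat_lit 81058852528) (nat_lit 152) (nat_lit 2889369081) (nat_lit 0) (nat_lit 80086498004) (nat_lit 2) (nat_lit 5) (nat_lit 4) (nat_lit 4) (nat_lit 2) (nat_lit 4) (nat_lit 303) (nat_lit 213) (nat_lit 204)))) (XT.nd (nat_lit 156) (nat_lit 0) (nat_lit 0) (XT.nd (nat_lit 78) (nat_lit 76) (nat_lit 0) (XT.lf (nat_lit 0) (nat_lit 88938245474) (nat_lit 152) (nat_lit 199620595) (nat_lit 0) (nat_lit 87893792925) (nat_lit 2) (nat_lit 5) (nat_lit 4) (nat_lit 4) (nat_lit 2) (nat_lit 4)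 (nat_lit 304) (nat_lit 213) (nat_lit 203)) (XT.lf (nat_lit 0) (nat_lit 2736006740) (nat_lit 76) (nat_lit 94721433290) (nat_lit 76) (nat_lit 93610223310) (nat_lit 1) (nat_lit 4) (nat_lit 2) (nat_lit 5) (nat_lit 2) (nat_lit 4) (nat_lit 305) (nat_lit 213) (nat_lit 202))) (XT.nd (nat_lit 78) (nat_lit 0) (nat_lit 0) (XT.lf (nat_lit 0) (nat_lit 5814357472) (nat_lit 76) (nat_lit 100794605261) (nat_lit 76) (nat_lit 99621582845) (nat_lit 1) (nat_lit 4) (nat_lit 2) (nat_lit 5) (nat_lit 2) (nat_lit 4) (nat_lit 306) (nat_lit 213) (nat_lit 201)) (XT.lf (nat_lit 0) (nat_lit 9043162013) (nat_lit 76) (nat_lit 107398829130) (nat_lit 76) (nat_lit 106168572977) (nat_lit 1) (nat_lit 4) (nat_lit 2) (nat_lit 5) (nat_lit 2) (nat_lit 4) (nat_lit 307) (nat_lit 213) (nat_lit 200))))))))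
noncomputable def xc12 : XT := (XT.nd (nat_lit 2028) (nat_lit 0) (nat_lit 0) (XT.nd (nat_lit 1014) (nat_lit 0) (nat_lit 0) (XT.nd (nat_lit 468) (nat_lit 0) (nat_lit 0) (XT.nd (nat_lit 234) (nat_lit 0) (nat_lit 0) (XT.nd (nat_lit 78) (nat_lit 0) (nat_lit 0) (XT.lf (nat_lit 0) (nat_lit 12441554019) (nat_lit 76) (nat_lit 114573241039) (nat_lit 76) (nat_lit 113289990685) (nat_lit 1) (nat_lit 4) (nat_lit 2) (nat_lit 5) (nat_lit 2) (nat_lit 4) (nat_lit 308) (nat_lit 213) (nat_lit 199)) (XT.nd (nat_lit 78) (nat_lit 0) (nat_lit 0) (XT.lf (nat_lit 0) (nat_lit 16029672109) (nat_lit 76) (nat_lit 122360356022) (nat_lit 76) (nat_lit 121028036963) (nat_lit 1) (nat_lit 4) (nat_lit 2) (nat_lit 5) (nat_lit 2) (nat_lit 4) (nat_lit 309) (nat_lit 213) (nat_lit 198)) (XT.lf (nat_lit 0) (nat_lit 19828779205) (nat_lit 76) (nat_lit 130806319945) (nat_lit 76) (nat_lit 129428566901) (nat_lit 1) (nat_lit 4) (nat_lit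 2) (nat_lit 5) (nat_lit 2) (nat_lit 4) (nat_lit 310) (nat_lit 213) (nat_lit 197)))) (XT.nd (nat_lit 78) (nat_lit 0) (nat_lit 0) (XT.lf (nat_lit 0) (nat_lit 23861388534) (nat_lit 76) (nat_lit 139961182965) (nat_lit 76) (nat_lit 138541361415) (nat_lit 1) (nat_lit 4) (nat_lit 2) (nat_lit 5) (nat_lit 2) (nat_lit 4) (nat_lit 311) (nat_lit 213) (nat_lit 196)) (XT.nd (nat_lit 78) (nat_lit 0) (nat_lit 0) (XT.lf (nat_lit 0) (nat_lit 28151397041) (nat_lit 76) (nat_lit 149879196122) (nat_lit 76) (nat_lit 148420422252) (nat_lit 1) (nat_lit 4) (nat_lit 2) (nat_lit 5) (nat_lit 2) (nat_lit 4) (nat_lit 312) (nat_lit 213) (nat_lit 195)) (XT.lf (nat_lit 0) (nat_lit 32724226998) (nat_lit 76) (nat_lit 160619132827) (nat_lit 76) (nat_lit 159124291994) (nat_lit 1) (nat_lit 4) (nat_lit 2) (nat_lit 5) (nat_lit 2) (nat_lit 4) (nat_lit 313) (nat_lit 213) (nat_lit 194))))) (XT.nd (nat_lit 234) (nat_lit 0) (nat_lit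 0) (XT.nd (nat_lit 78) (nat_lit 0) (nat_lit 0) (XT.lf (nat_lit 0) (nat_lit 37606976658) (nat_lit 76) (nat_lit 172244637149) (nat_lit 76) (nat_lit 170716400981) (nat_lit 1) (nat_lit 4) (nat_lit 2) (nat_lit 5) (nat_lit 2) (nat_lit 4) (nat_lit 314) (nat_lit 213) (nat_lit 193)) (XT.nd (nat_lit 78) (nat_lit 0) (nat_lit 0) (XT.lf (nat_lit 0) (nat_lit 42828580831) (nat_lit 76) (nat_lit 184824600966) (nat_lit 76) (nat_lit 183265443191) (nat_lit 1) (nat_lit 4) (nat_lit 2) (nat_lit 5) (nat_lit 2) (nat_lit 4) (nat_lit 315) (nat_lit 213) (nat_lit 192)) (XT.lf (nat_lit 0) (nat_lit 48419982359) (nat_lit 76) (nat_lit 198433572212) (nat_lit 76) (nat_lit 196845783319) (nat_lit 1) (nat_lit 4) (nat_lit 2) (nat_lit 5) (nat_lit 2) (nat_lit 4) (nat_lit 316) (nat_lit 213) (nat_lit 191)))) (XT.nd (nat_lit 156) (nat_lit 0) (nat_lit 0) (XT.nd (nat_lit 78) (nat_lit 0) (nat_lit 0) (XT.lf (nat_lit 0) (nat_lit 54414315472)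 (nat_lit 76) (nat_lit 213152196642) (nat_lit 76) (nat_lit 211537897455) (nat_lit 1) (nat_lit 4) (nat_lit 2) (nat_lit 5) (nat_lit 2) (nat_lit 4) (nat_lit 317) (nat_lit 213) (nat_lit 190)) (XT.lf (nat_lit 0) (nat_lit 60847102145) (nat_lit 76) (nat_lit 229067695735) (nat_lit 76) (nat_lit 227428849978) (nat_lit 1) (nat_lit 4) (nat_lit 2) (nat_lit 5) (nat_lit 2) (nat_lit 4) (nat_lit 318) (nat_lit 213) (nat_lit 189))) (XT.nd (nat_lit 78) (nat_lit 0) (nat_lit 0) (XT.lf (nat_lit 0) (nat_lit 67756462595) (nat_lit 76) (nat_lit 246274383558) (nat_lit 76) (nat_lit 244612809497) (nat_lit 1) (nat_lit 4) (nat_lit 2) (nat_lit 5) (nat_lit 2) (nat_lit 4) (nat_lit 319) (nat_lit 213) (nat_lit 188)) (XT.lf (nat_lit 0) (nat_lit 75183341179) (nat_lit 76) (nat_lit 264874225670) (nat_lit 76) (nat_lit 263191606883) (nat_lit 1) (nat_lit 4) (nat_lit 2) (nat_lit 5) (nat_lit 2) (nat_lit 4) (nat_lit 320) (nat_lit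 213) (nat_lit 187)))))) (XT.nd (nat_lit 468) (nat_lit 0) (nat_lit 0) (XT.nd (nat_lit 234) (nat_lit 0) (nat_lit 0) (XT.nd (nat_lit 78) (nat_lit 0) (nat_lit 0) (XT.lf (nat_lit 0) (nat_lit 83171749031) (nat_lit 76) (nat_lit 284977443358) (nat_lit 76) (nat_lit 283275338713) (nat_lit 1) (nat_lit 4) (nat_lit 2) (nat_lit 5) (nat_lit 2) (nat_lit 4) (nat_lit 321) (nat_lit 213) (nat_lit 186)) (XT.nd (nat_lit 78) (nat_lit 0) (nat_lit 0) (XT.lf (nat_lit 0) (nat_lit 91769024863) (nat_lit 76) (nat_lit 306703166799) (nat_lit 76) (nat_lit 304983019693) (nat_lit 1) (nat_lit 4) (nat_lit 2) (nat_lit 5) (nat_lit 2) (nat_lit 4) (nat_lit 322) (nat_lit 213) (nat_lit 185)) (XT.lf (nat_lit 0) (nat_lit 101026115496) (nat_lit 76) (nat_lit 330180141022) (nat_lit 76) (nat_lit 328443287933) (nat_lit 1) (nat_lit 4) (nat_lit 2) (nat_lit 5) (nat_lit 2) (nat_lit 4) (nat_lit 323) (nat_lit 213) (nat_lit 184)))) (XT.nd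 (nat_lit 78) (nat_lit 0) (nat_lit 0) (XT.lf (nat_lit 0) (nat_lit 110997877762) (nat_lit 76) (nat_lit 355547488837) (nat_lit 76) (nat_lit 353795167246) (nat_lit 1) (nat_lit 4) (nat_lit 2) (nat_lit 5) (nat_lit 2) (nat_lit 4) (nat_lit 324) (nat_lit 213) (nat_lit 183)) (XT.nd (nat_lit 78) (nat_lit 0) (nat_lit 0) (XT.lf (nat_lit 0) (nat_lit 121743403587) (nat_lit 76) (nat_lit 382955535268) (nat_lit 76) (nat_lit 381188890990) (nat_lit 1) (nat_lit 4) (nat_lit 2) (nat_lit 5) (nat_lit 2) (nat_lit 4) (nat_lit 325) (nat_lit 213) (nat_lit 182)) (XT.lf (nat_lit 0) (nat_lit 133326370159) (nat_lit 76) (nat_lit 412566698368) (nat_lit 76) (nat_lit 410786792343) (nat_lit 1) (nat_lit 4) (nat_lit 2) (nat_lit 5) (nat_lit 2) (nat_lit 4) (nat_lit 326) (nat_lit 213) (nat_lit 181))))) (XT.nd (nat_lit 234) (nat_lit 0) (nat_lit 0) (XT.nd (nat_lit 78) (nat_lit 0) (nat_lit 0) (XT.lf (nat_lit 0) (nat_lit 145815417282)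 (nat_lit 76) (nat_lit 444556451696) (nat_lit 76) (nat_lit 442764266275) (nat_lit 1) (nat_lit 4) (nat_lit 2) (nat_lit 5) (nat_lit 2) (nat_lit 4) (nat_lit 327) (nat_lit 213) (nat_lit 180)) (XT.nd (nat_lit 78) (nat_lit 0) (nat_lit 0) (XT.lf (nat_lit 0) (nat_lit 159284554124) (nat_lit 76) (nat_lit 479114364161) (nat_lit 76) (nat_lit 477310808929) (nat_lit 1) (nat_lit 4) (nat_lit 2) (nat_lit 5) (nat_lit 2) (nat_lit 4) (nat_lit 328) (nat_lit 213) (nat_lit 179)) (XT.lf (nat_lit 0) (nat_lit 173813597790) (nat_lit 76) (nat_lit 516445223392) (nat_lit 76) (nat_lit 514631140558) (nat_lit 1) (nat_lit 4) (nat_lit 2) (nat_lit 5) (nat_lit 2) (nat_lit 4) (nat_lit 329) (nat_lit 213) (nat_lit 178)))) (XT.nd (nat_lit 156) (nat_lit 0) (nat_lit 0) (XT.nd (nat_lit 78) (nat_lit 0) (nat_lit 0) (XT.lf (nat_lit 0) (nat_lit 189488646319) (nat_lit 76) (nat_lit 556770249296) (nat_lit 76) (nat_lit 554946418681) (nat_lit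 1) (nat_lit 4) (nat_lit 2) (nat_lit 5) (nat_lit 2) (nat_lit 4) (nat_lit 330) (nat_lit 213) (nat_lit 177)) (XT.lf (nat_lit 0) (nat_lit 206402588887) (nat_lit 76) (nat_lit 600328404988) (nat_lit 76) (nat_lit 598495548652) (nat_lit 1) (nat_lit 4) (nat_lit 2) (nat_lit 5) (nat_lit 2) (nat_lit 4) (nat_lit 331) (nat_lit 213) (nat_lit 176))) (XT.nd (nat_lit 78) (nat_lit 0) (nat_lit 0) (XT.lf (nat_lit 0) (nat_lit 224655656263) (nat_lit 76) (nat_lit 647377812875) (nat_lit 76) (nat_lit 645536599388) (nat_lit 1) (nat_lit 4) (nat_lit 2) (nat_lit 5) (nat_lit 2) (nat_lit 4) (nat_lit 332) (nat_lit 213) (nat_lit 175)) (XT.lf (nat_lit 0) (nat_lit 244356014774) (nat_lit 76) (nat_lit 698197284260) (nat_lit 76) (nat_lit 696348332671) (nat_lit 1) (nat_lit 4) (nat_lit 2) (nat_lit 5) (nat_lit 2) (nat_lit 4) (nat_lit 333) (nat_lit 213) (nat_lit 174))))))) (XT.nd (nat_lit 34476) (nat_lit 0) (nat_lit 0) (XT.nd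 (nat_lit 468) (nat_lit 0) (nat_lit 0) (XT.nd (nat_lit 234) (nat_lit 0) (nat_lit 0) (XT.nd (nat_lit 78) (nat_lit 0) (nat_lit 0) (XT.lf (nat_lit 0) (nat_lit 265620407285) (nat_lit 76) (nat_lit 753087971568) (nat_lit 76) (nat_lit 751231855069) (nat_lit 1) (nat_lit 4) (nat_lit 2) (nat_lit 5) (nat_lit 2) (nat_lit 4) (nat_lit 334) (nat_lit 213) (nat_lit 173)) (XT.nd (nat_lit 78) (nat_lit 0) (nat_lit 0) (XT.lf (nat_lit 0) (nat_lit 288574845011) (nat_lit 76) (nat_lit 812375152945) (nat_lit 76) (nat_lit 810512402271) (nat_lit 1) (nat_lit 4) (nat_lit 2) (nat_lit 5) (nat_lit 2) (nat_lit 4) (nat_lit 335) (nat_lit 213) (nat_lit 172)) (XT.lf (nat_lit 0) (nat_lit 313355354249) (nat_lit 76) (nat_lit 876410159836) (nat_lit 76) (nat_lit 874541266407) (nat_lit 1) (nat_lit 4) (nat_lit 2) (nat_lit 5) (nat_lit 2) (nat_lit 4) (nat_lit 336) (nat_lit 213) (nat_lit 171)))) (XT.nd (nat_lit 78) (nat_lit 0) (nat_lit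 0) (XT.lf (nat_lit 0) (nat_lit 340108782461) (nat_lit 76) (nat_lit 945572458950) (nat_lit 76) (nat_lit 943697877785) (nat_lit 1) (nat_lit 4) (nat_lit 2) (nat_lit 5) (nat_lit 2) (nat_lit 4) (nat_lit 337) (nat_lit 213) (nat_lit 170)) (XT.nd (nat_lit 78) (nat_lit 0) (nat_lit 0) (XT.lf (nat_lit 0) (nat_lit 368993668481) (nat_lit 76) (nat_lit 1020271900947) (nat_lit 76) (nat_lit 1018392053359) (nat_lit 1) (nat_lit 4) (nat_lit 2) (nat_lit 5) (nat_lit 2) (nat_lit 4) (nat_lit 338) (nat_lit 213) (nat_lit 169)) (XT.lf (nat_lit 0) (nat_lit 400181182005) (nat_lit 76) (nat_lit 1100951149187) (nat_lit 76) (nat_lit 1099066425283) (nat_lit 1) (nat_lit 4) (nat_lit 2) (nat_lit 5) (nat_lit 2) (nat_lit 4) (nat_lit 339) (nat_lit 213) (nat_lit 168))))) (XT.nd (nat_lit 234) (nat_lit 0) (nat_lit 0) (XT.nd (nat_lit 78) (nat_lit 0) (nat_lit 0) (XT.lf (nat_lit 0) (nat_lit 433856137927) (nat_lit 76) (nat_lit 1188088302920)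 (nat_lit 76) (nat_lit 1186199063907) (nat_lit 1) (nat_lit 4) (nat_lit 2) (nat_lit 5) (nat_lit 2) (nat_lit 4) (nat_lit 340) (nat_lit 213) (nat_lit 167)) (XT.nd (nat_lit 78) (nat_lit 0) (nat_lit 0) (XT.lf (nat_lit 0) (nat_lit 470218091541) (nat_lit 76) (nat_lit 1282199730463) (nat_lit 76) (nat_lit 1280306310794) (nat_lit 1) (nat_lit 4) (nat_lit 2) (nat_lit 5) (nat_lit 2) (nat_lit 4) (nat_lit 341) (nat_lit 213) (nat_lit 166)) (XT.lf (nat_lit 0) (nat_lit 509482521092) (nat_lit 76) (nat_lit 1383843129166) (nat_lit 76) (nat_lit 1381945838519) (nat_lit 1) (nat_lit 4) (nat_lit 2) (nat_lit 5) (nat_lit 2) (nat_lit 4) (nat_lit 342) (nat_lit 213) (nat_lit 165)))) (XT.nd (nat_lit 33618) (nat_lit 0) (nat_lit 76) (XT.nd (nat_lit 33540) (nat_lit 0) (nat_lit 76) (XT.lf (nat_lit 0) (nat_lit 551882104679) (nat_lit 76) (nat_lit 1493620830278) (nat_lit 76) (nat_lit 1491719955394) (nat_lit 1) (nat_lit 4)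 (nat_lit 2) (nat_lit 5) (nat_lit 2) (nat_lit 4) (nat_lit 343) (nat_lit 213) (nat_lit 164)) (XT.lf (nat_lit 0) (nat_lit 10531517420) (nat_lit 152) (nat_lit 14720291198) (nat_lit 0) (nat_lit 10531517420) (nat_lit 2) (nat_lit 5) (nat_lit 4) (nat_lit 4) (nat_lit 2) (nat_lit 4) (nat_lit 292) (nat_lit 214) (nat_lit 214))) (XT.nd (nat_lit 78) (nat_lit 0) (nat_lit 0) (XT.lf (nat_lit 0) (nat_lit 25075114801) (nat_lit 152) (nat_lit 27094882600) (nat_lit 0) (nat_lit 24919460572) (nat_lit 2) (nat_lit 5) (nat_lit 4) (nat_lit 4) (nat_lit 2) (nat_lit 4) (nat_lit 293) (nat_lit 214) (nat_lit 213)) (XT.lf (nat_lit 0) (nat_lit 29286503893) (nat_lit 152) (nat_lit 24790733770) (nat_lit 0) (nat_lit 28986725377) (nat_lit 2) (nat_lit 5) (nat_lit 4) (nat_lit 4) (nat_lit 2) (nat_lit 4) (nat_lit 294) (nat_lit 214) (nat_lit 212)))))) (XT.nd (nat_lit 546) (nat_lit 76) (nat_lit 0) (XT.nd (nat_lit 234) (nat_lit 0)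 (nat_lit 0) (XT.nd (nat_lit 78) (nat_lit 0) (nat_lit 0) (XT.lf (nat_lit 0) (nat_lit 33722158496) (nat_lit 152) (nat_lit 22514481691) (nat_lit 0) (nat_lit 33288931566) (nat_lit 2) (nat_lit 5) (nat_lit 4) (nat_lit 4) (nat_lit 2) (nat_lit 4) (nat_lit 295) (nat_lit 214) (nat_lit 211)) (XT.nd (nat_lit 78) (nat_lit 0) (nat_lit 0) (XT.lf (nat_lit 0) (nat_lit 38408363969) (nat_lit 152) (nat_lit 20252637462) (nat_lit 0) (nat_lit 37851573694) (nat_lit 2) (nat_lit 5) (nat_lit 4) (nat_lit 4) (nat_lit 2) (nat_lit 4) (nat_lit 296) (nat_lit 214) (nat_lit 210)) (XT.lf (nat_lit 0) (nat_lit 43372890420) (nat_lit 152) (nat_lit 17991797561) (nat_lit 0) (nat_lit 42701689640) (nat_lit 2) (nat_lit 5) (nat_lit 4) (nat_lit 4) (nat_lit 2) (nat_lit 4) (nat_lit 297) (nat_lit 214) (nat_lit 209)))) (XT.nd (nat_lit 156) (nat_lit 0) (nat_lit 0) (XT.nd (nat_lit 78) (nat_lit 0) (nat_lit 0) (XT.lf (nat_lit 0) (nat_lit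 48645157264) (nat_lit 152) (nat_lit 15718564419) (nat_lit 0) (nat_lit 47868020831) (nat_lit 2) (nat_lit 5) (nat_lit 4) (nat_lit 4) (nat_lit 2) (nat_lit 4) (nat_lit 298) (nat_lit 214) (nat_lit 208)) (XT.lf (nat_lit 0) (nat_lit 54256407565) (nat_lit 152) (nat_lit 13419467024) (nat_lit 0) (nat_lit 53381182564) (nat_lit 2) (nat_lit 5) (nat_lit 4) (nat_lit 4) (nat_lit 2) (nat_lit 4) (nat_lit 299) (nat_lit 214) (nat_lit 207))) (XT.nd (nat_lit 78) (nat_lit 0) (nat_lit 0) (XT.lf (nat_lit 0) (nat_lit 60239893175) (nat_lit 152) (nat_lit 11080881096) (nat_lit 0) (nat_lit 59273845427) (nat_lit 2) (nat_lit 5) (nat_lit 4) (nat_lit 4) (nat_lit 2) (nat_lit 4) (nat_lit 300) (nat_lit 214) (nat_lit 206)) (XT.lf (nat_lit 0) (nat_lit 66631071788) (nat_lit 152) (nat_lit 8688948347) (nat_lit 0) (nat_lit 65580928903) (nat_lit 2) (nat_lit 5) (nat_lit 4) (nat_lit 4) (nat_lit 2) (nat_lit 4) (nat_lit 301) (nat_lit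 214) (nat_lit 205))))) (XT.nd (nat_lit 234) (nat_lit 76) (nat_lit 0) (XT.nd (nat_lit 78) (nat_lit 0) (nat_lit 0) (XT.lf (nat_lit 0) (nat_lit 73467817054) (nat_lit 152) (nat_lit 6229494362) (nat_lit 0) (nat_lit 72339808302) (nat_lit 2) (nat_lit 5) (nat_lit 4) (nat_lit 4) (nat_lit 2) (nat_lit 4) (nat_lit 302) (nat_lit 214) (nat_lit 204)) (XT.nd (nat_lit 78) (nat_lit 0) (nat_lit 0) (XT.lf (nat_lit 0) (nat_lit 80790643020) (nat_lit 152) (nat_lit 3687944598) (nat_lit 0) (nat_lit 79590536242) (nat_lit 2) (nat_lit 5) (nat_lit 4) (nat_lit 4) (nat_lit 2) (nat_lit 4) (nat_lit 303) (nat_lit 214) (nat_lit 203)) (XT.lf (nat_lit 0) (nat_lit 88642944210) (nat_lit 152) (nat_lit 1049238019) (nat_lit 0) (nat_lit 87376080000) (nat_lit 2) (nat_lit 5) (nat_lit 4) (nat_lit 4) (nat_lit 2) (nat_lit 4) (nat_lit 304) (nat_lit 214) (nat_lit 202)))) (XT.nd (nat_lit 156) (nat_lit 0) (nat_lit 0) (XT.nd (nat_lit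 78) (nat_lit 0) (nat_lit 0) (XT.lf (nat_lit 0) (nat_lit 1791900261) (nat_lit 76) (nat_lit 95322447761) (nat_lit 76) (nat_lit 93993771116) (nat_lit 1) (nat_lit 4) (nat_lit 2) (nat_lit 5) (nat_lit 2) (nat_lit 4) (nat_lit 305) (nat_lit 214) (nat_lit 201)) (XT.lf (nat_lit 0) (nat_lit 4824186450) (nat_lit 76) (nat_lit 101417349607) (nat_lit 76) (nat_lit 100031439225) (nat_lit 1) (nat_lit 4) (nat_lit 2) (nat_lit 5) (nat_lit 2) (nat_lit 4) (nat_lit 306) (nat_lit 214) (nat_lit 200))) (XT.nd (nat_lit 78) (nat_lit 0) (nat_lit 0) (XT.lf (nat_lit 0) (nat_lit 8010338636) (nat_lit 76) (nat_lit 108041693732) (nat_lit 76) (nat_lit 106602789148) (nat_lit 1) (nat_lit 4) (nat_lit 2) (nat_lit 5) (nat_lit 2) (nat_lit 4) (nat_lit 307) (nat_lit 214) (nat_lit 199)) (XT.lf (nat_lit 0) (nat_lit 11369237720) (nat_lit 76) (nat_lit 115234735507) (nat_lit 76) (nat_lit 113746762219) (nat_lit 1) (nat_lit 4) (nat_lit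 2) (nat_lit 5) (nat_lit 2) (nat_lit 4) (nat_lit 308) (nat_lit 214) (nat_lit 198))))))))
noncomputable def xc13 : XT := (XT.nd (nat_lit 2028) (nat_lit 0) (nat_lit 0) (XT.nd (nat_lit 1014) (nat_lit 0) (nat_lit 0) (XT.nd (nat_lit 468) (nat_lit 0) (nat_lit 0) (XT.nd (nat_lit 234) (nat_lit 0) (nat_lit 0) (XT.nd (nat_lit 78) (nat_lit 0) (nat_lit 0) (XT.lf (nat_lit 0) (nat_lit 14920788290) (nat_lit 76) (nat_lit 123039100366) (nat_lit 76) (nat_lit 121505693092) (nat_lit 1) (nat_lit 4) (nat_lit 2) (nat_lit 5) (nat_lit 2) (nat_lit 4) (nat_lit 309) (nat_lit 214) (nat_lit 197)) (XT.nd (nat_lit 78) (nat_lit 0) (nat_lit 0) (XT.lf (nat_lit 0) (nat_lit 18686036572) (nat_lit 76) (nat_lit 131501036396) (nat_lit 76) (nat_lit 129925560617) (nat_lit 1) (nat_lit 4) (nat_lit 2) (nat_lit 5) (nat_lit 2) (nat_lit 4) (nat_lit 310) (nat_lit 214) (nat_lit 196)) (XT.lf (nat_lit 0) (nat_lit 22687295147) (nat_lit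 76) (nat_lit 140670688404) (nat_lit 76) (nat_lit 139056260305) (nat_lit 1) (nat_lit 4) (nat_lit 2) (nat_lit 5) (nat_lit 2) (nat_lit 4) (nat_lit 311) (nat_lit 214) (nat_lit 195)))) (XT.nd (nat_lit 78) (nat_lit 0) (nat_lit 0) (XT.lf (nat_lit 0) (nat_lit 26948275178) (nat_lit 76) (nat_lit 150602395068) (nat_lit 76) (nat_lit 148951900006) (nat_lit 1) (nat_lit 4) (nat_lit 2) (nat_lit 5) (nat_lit 2) (nat_lit 4) (nat_lit 312) (nat_lit 214) (nat_lit 194)) (XT.nd (nat_lit 78) (nat_lit 0) (nat_lit 0) (XT.lf (nat_lit 0) (nat_lit 31494226917) (nat_lit 76) (nat_lit 161355010946) (nat_lit 76) (nat_lit 159671120549) (nat_lit 1) (nat_lit 4) (nat_lit 2) (nat_lit 5) (nat_lit 2) (nat_lit 4) (nat_lit 313) (nat_lit 214) (nat_lit 193)) (XT.lf (nat_lit 0) (nat_lit 36352089336) (nat_lit 76) (nat_lit 172992255244) (nat_lit 76) (nat_lit 171277443239) (nat_lit 1) (nat_lit 4) (nat_lit 2) (nat_lit 5) (nat_lit 2)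 (nat_lit 4) (nat_lit 314) (nat_lit 214) (nat_lit 192))))) (XT.nd (nat_lit 234) (nat_lit 0) (nat_lit 0) (XT.nd (nat_lit 78) (nat_lit 0) (nat_lit 0) (XT.lf (nat_lit 0) (nat_lit 41550649770) (nat_lit 76) (nat_lit 185583089409) (nat_lit 76) (nat_lit 183839646286) (nat_lit 1) (nat_lit 4) (nat_lit 2) (nat_lit 5) (nat_lit 2) (nat_lit 4) (nat_lit 315) (nat_lit 214) (nat_lit 191)) (XT.nd (nat_lit 78) (nat_lit 0) (nat_lit 0) (XT.lf (nat_lit 0) (nat_lit 47120714501) (nat_lit 76) (nat_lit 199202125792) (nat_lit 76) (nat_lit 197432172375) (nat_lit 1) (nat_lit 4) (nat_lit 2) (nat_lit 5) (nat_lit 2) (nat_lit 4) (nat_lit 316) (nat_lit 214) (nat_lit 190)) (XT.lf (nat_lit 0) (nat_lit 53095291321) (nat_lit 76) (nat_lit 213930069793) (nat_lit 76) (nat_lit 212135569807) (nat_lit 1) (nat_lit 4) (nat_lit 2) (nat_lit 5) (nat_lit 2) (nat_lit 4) (nat_lit 317) (nat_lit 214) (nat_lit 189)))) (XT.nd (nat_lit 156)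 (nat_lit 0) (nat_lit 0) (XT.nd (nat_lit 78) (nat_lit 0) (nat_lit 0) (XT.lf (nat_lit 0) (nat_lit 59509785130) (nat_lit 76) (nat_lit 229854198118) (nat_lit 76) (nat_lit 228036969828) (nat_lit 1) (nat_lit 4) (nat_lit 2) (nat_lit 5) (nat_lit 2) (nat_lit 4) (nat_lit 318) (nat_lit 214) (nat_lit 188)) (XT.lf (nat_lit 0) (nat_lit 66402207743) (nat_lit 76) (nat_lit 247068875972) (nat_lit 76) (nat_lit 245230602955) (nat_lit 1) (nat_lit 4) (nat_lit 2) (nat_lit 5) (nat_lit 2) (nat_lit 4) (nat_lit 319) (nat_lit 214) (nat_lit 187))) (XT.nd (nat_lit 78) (nat_lit 0) (nat_lit 0) (XT.lf (nat_lit 0) (nat_lit 73813403145) (nat_lit 76) (nat_lit 265676116260) (nat_lit 76) (nat_lit 263818357386) (nat_lit 1) (nat_lit 4) (nat_lit 2) (nat_lit 5) (nat_lit 2) (nat_lit 4) (nat_lit 320) (nat_lit 214) (nat_lit 186)) (XT.lf (nat_lit 0) (nat_lit 81787289531) (nat_lit 76) (nat_lit 285786184110) (nat_lit 76) (nat_lit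 283910382775) (nat_lit 1) (nat_lit 4) (nat_lit 2) (nat_lit 5) (nat_lit 2) (nat_lit 4) (nat_lit 321) (nat_lit 214) (nat_lit 185)))))) (XT.nd (nat_lit 468) (nat_lit 0) (nat_lit 0) (XT.nd (nat_lit 234) (nat_lit 0) (nat_lit 0) (XT.nd (nat_lit 78) (nat_lit 0) (nat_lit 0) (XT.lf (nat_lit 0) (nat_lit 90371119563) (nat_lit 76) (nat_lit 307518250295) (nat_lit 76) (nat_lit 305625742977) (nat_lit 1) (nat_lit 4) (nat_lit 2) (nat_lit 5) (nat_lit 2) (nat_lit 4) (nat_lit 322) (nat_lit 214) (nat_lit 184)) (XT.nd (nat_lit 78) (nat_lit 0) (nat_lit 0) (XT.lf (nat_lit 0) (nat_lit 99615760379) (nat_lit 76) (nat_lit 331001097428) (nat_lit 76) (nat_lit 329093121609) (nat_lit 1) (nat_lit 4) (nat_lit 2) (nat_lit 5) (nat_lit 2) (nat_lit 4) (nat_lit 323) (nat_lit 214) (nat_lit 183)) (XT.lf (nat_lit 0) (nat_lit 109575995038) (nat_lit 76) (nat_lit 356373883124) (nat_lit 76) (nat_lit 354451584617) (nat_lit 1) (nat_lit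 4) (nat_lit 2) (nat_lit 5) (nat_lit 2) (nat_lit 4) (nat_lit 324) (nat_lit 214) (nat_lit 182)))) (XT.nd (nat_lit 78) (nat_lit 0) (nat_lit 0) (XT.lf (nat_lit 0) (nat_lit 120310847152) (nat_lit 76) (nat_lit 383786964629) (nat_lit 76) (nat_lit 381851404375) (nat_lit 1) (nat_lit 4) (nat_lit 2) (nat_lit 5) (nat_lit 2) (nat_lit 4) (nat_lit 325) (nat_lit 214) (nat_lit 181)) (XT.nd (nat_lit 78) (nat_lit 0) (nat_lit 0) (XT.lf (nat_lit 0) (nat_lit 131883930660) (nat_lit 76) (nat_lit 413402789835) (nat_lit 76) (nat_lit 411454950185) (nat_lit 1) (nat_lit 4) (nat_lit 2) (nat_lit 5) (nat_lit 2) (nat_lit 4) (nat_lit 326) (nat_lit 214) (nat_lit 180)) (XT.lf (nat_lit 0) (nat_lit 144363826797) (nat_lit 76) (nat_lit 445396859928) (nat_lit 76) (nat_lit 443437650467) (nat_lit 1) (nat_lit 4) (nat_lit 2) (nat_lit 5) (nat_lit 2) (nat_lit 4) (nat_lit 327) (nat_lit 214) (nat_lit 179))))) (XT.nd (nat_lit 234)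 (nat_lit 0) (nat_lit 0) (XT.nd (nat_lit 78) (nat_lit 0) (nat_lit 0) (XT.lf (nat_lit 0) (nat_lit 157824490502) (nat_lit 76) (nat_lit 479958769397) (nat_lit 76) (nat_lit 477989032333) (nat_lit 1) (nat_lit 4) (nat_lit 2) (nat_lit 5) (nat_lit 2) (nat_lit 4) (nat_lit 328) (nat_lit 214) (nat_lit 178)) (XT.nd (nat_lit 78) (nat_lit 0) (nat_lit 0) (XT.lf (nat_lit 0) (nat_lit 172345688673) (nat_lit 76) (nat_lit 517293329558) (nat_lit 76) (nat_lit 515313844714) (nat_lit 1) (nat_lit 4) (nat_lit 2) (nat_lit 5) (nat_lit 2) (nat_lit 4) (nat_lit 329) (nat_lit 214) (nat_lit 177)) (XT.lf (nat_lit 0) (nat_lit 188013472854) (nat_lit 76) (nat_lit 557621782248) (nat_lit 76) (nat_lit 555633271682) (nat_lit 1) (nat_lit 4) (nat_lit 2) (nat_lit 5) (nat_lit 2) (nat_lit 4) (nat_lit 330) (nat_lit 214) (nat_lit 176)))) (XT.nd (nat_lit 156) (nat_lit 0) (nat_lit 0) (XT.nd (nat_lit 78) (nat_lit 0) (nat_lit 0) (XT.lf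 (nat_lit 0) (nat_lit 204920689173) (nat_lit 76) (nat_lit 601183110892) (nat_lit 76) (nat_lit 599186243176) (nat_lit 1) (nat_lit 4) (nat_lit 2) (nat_lit 5) (nat_lit 2) (nat_lit 4) (nat_lit 331) (nat_lit 214) (nat_lit 175)) (XT.lf (nat_lit 0) (nat_lit 223167528543) (nat_lit 76) (nat_lit 648235456696) (nat_lit 76) (nat_lit 646230850877) (nat_lit 1) (nat_lit 4) (nat_lit 2) (nat_lit 5) (nat_lit 2) (nat_lit 4) (nat_lit 332) (nat_lit 214) (nat_lit 174))) (XT.nd (nat_lit 78) (nat_lit 0) (nat_lit 0) (XT.lf (nat_lit 0) (nat_lit 242862120380) (nat_lit 76) (nat_lit 699057648375) (nat_lit 76) (nat_lit 697045877647) (nat_lit 1) (nat_lit 4) (nat_lit 2) (nat_lit 5) (nat_lit 2) (nat_lit 4) (nat_lit 333) (nat_lit 214) (nat_lit 173)) (XT.lf (nat_lit 0) (nat_lit 264121173378) (nat_lit 76) (nat_lit 753950854474) (nat_lit 76) (nat_lit 751932449570) (nat_lit 1) (nat_lit 4) (nat_lit 2) (nat_lit 5) (nat_lit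 2) (nat_lit 4) (nat_lit 334) (nat_lit 214) (nat_lit 172))))))) (XT.nd (nat_lit 34320) (nat_lit 0) (nat_lit 0) (XT.nd (nat_lit 468) (nat_lit 0) (nat_lit 0) (XT.nd (nat_lit 234) (nat_lit 0) (nat_lit 0) (XT.nd (nat_lit 78) (nat_lit 0) (nat_lit 0) (XT.lf (nat_lit 0) (nat_lit 287070667111) (nat_lit 76) (nat_lit 813240368064) (nat_lit 76) (nat_lit 811215820406) (nat_lit 1) (nat_lit 4) (nat_lit 2) (nat_lit 5) (nat_lit 2) (nat_lit 4) (nat_lit 335) (nat_lit 214) (nat_lit 171)) (XT.nd (nat_lit 78) (nat_lit 0) (nat_lit 0) (XT.lf (nat_lit 0) (nat_lit 311846598577) (nat_lit 76) (nat_lit 877277534413) (nat_lit 76) (nat_lit 875247299018) (nat_lit 1) (nat_lit 4) (nat_lit 2) (nat_lit 5) (nat_lit 2) (nat_lit 4) (nat_lit 336) (nat_lit 214) (nat_lit 170)) (XT.lf (nat_lit 0) (nat_lit 338595788112) (nat_lit 76) (nat_lit 946441833024) (nat_lit 76) (nat_lit 944406331207) (nat_lit 1) (nat_lit 4) (nat_lit 2)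 (nat_lit 5) (nat_lit 2) (nat_lit 4) (nat_lit 337) (nat_lit 214) (nat_lit 169)))) (XT.nd (nat_lit 78) (nat_lit 0) (nat_lit 0) (XT.lf (nat_lit 0) (nat_lit 367476749431) (nat_lit 76) (nat_lit 1021143126407) (nat_lit 76) (nat_lit 1019102748273) (nat_lit 1) (nat_lit 4) (nat_lit 2) (nat_lit 5) (nat_lit 2) (nat_lit 4) (nat_lit 338) (nat_lit 214) (nat_lit 168)) (XT.nd (nat_lit 78) (nat_lit 0) (nat_lit 0) (XT.lf (nat_lit 0) (nat_lit 398660628973) (nat_lit 76) (nat_lit 1101824088894) (nat_lit 76) (nat_lit 1099779195652) (nat_lit 1) (nat_lit 4) (nat_lit 2) (nat_lit 5) (nat_lit 2) (nat_lit 4) (nat_lit 339) (nat_lit 214) (nat_lit 167)) (XT.lf (nat_lit 0) (nat_lit 432332220096) (nat_lit 76) (nat_lit 1188962829892) (nat_lit 76) (nat_lit 1186913755994) (nat_lit 1) (nat_lit 4) (nat_lit 2) (nat_lit 5) (nat_lit 2) (nat_lit 4) (nat_lit 340) (nat_lit 214) (nat_lit 166))))) (XT.nd (nat_lit 33540) (nat_lit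 0) (nat_lit 76) (XT.nd (nat_lit 78) (nat_lit 0) (nat_lit 0) (XT.lf (nat_lit 0) (nat_lit 468691058156) (nat_lit 76) (nat_lit 1283075727126) (nat_lit 76) (nat_lit 1281022782250) (nat_lit 1) (nat_lit 4) (nat_lit 2) (nat_lit 5) (nat_lit 2) (nat_lit 4) (nat_lit 341) (nat_lit 214) (nat_lit 165)) (XT.nd (nat_lit 78) (nat_lit 0) (nat_lit 0) (XT.lf (nat_lit 0) (nat_lit 507952602934) (nat_lit 76) (nat_lit 1384720486652) (nat_lit 76) (nat_lit 1382663957538) (nat_lit 1) (nat_lit 4) (nat_lit 2) (nat_lit 5) (nat_lit 2) (nat_lit 4) (nat_lit 342) (nat_lit 214) (nat_lit 164)) (XT.lf (nat_lit 0) (nat_lit 550349515436) (nat_lit 76) (nat_lit 1494499447788) (nat_lit 76) (nat_lit 1492439599934) (nat_lit 1) (nat_lit 4) (nat_lit 2) (nat_lit 5) (nat_lit 2) (nat_lit 4) (nat_lit 343) (nat_lit 214) (nat_lit 163)))) (XT.nd (nat_lit 156) (nat_lit 0) (nat_lit 0) (XT.nd (nat_lit 78) (nat_lit 0) (nat_lit 0) (XT.lf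 (nat_lit 0) (nat_lit 6889534787) (nat_lit 152) (nat_lit 17092016528) (nat_lit 0) (nat_lit 6889534787) (nat_lit 2) (nat_lit 5) (nat_lit 4) (nat_lit 4) (nat_lit 2) (nat_lit 4) (nat_lit 290) (nat_lit 215) (nat_lit 215)) (XT.lf (nat_lit 0) (nat_lit 17394595288) (nat_lit 152) (nat_lit 31841733603) (nat_lit 0) (nat_lit 17226488720) (nat_lit 2) (nat_lit 5) (nat_lit 4) (nat_lit 4) (nat_lit 2) (nat_lit 4) (nat_lit 291) (nat_lit 215) (nat_lit 214))) (XT.nd (nat_lit 78) (nat_lit 0) (nat_lit 0) (XT.lf (nat_lit 0) (nat_lit 21167973211) (nat_lit 152) (nat_lit 29559593698) (nat_lit 0) (nat_lit 20844212414) (nat_lit 2) (nat_lit 5) (nat_lit 4) (nat_lit 4) (nat_lit 2) (nat_lit 4) (nat_lit 292) (nat_lit 215) (nat_lit 213)) (XT.lf (nat_lit 0) (nat_lit 25121564102) (nat_lit 152) (nat_lit 27324089550) (nat_lit 0) (nat_lit 24653679019) (nat_lit 2) (nat_lit 5) (nat_lit 4) (nat_lit 4) (nat_lit 2) (nat_lit 4)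 (nat_lit 293) (nat_lit 215) (nat_lit 212)))))) (XT.nd (nat_lit 546) (nat_lit 76) (nat_lit 0) (XT.nd (nat_lit 234) (nat_lit 0) (nat_lit 0) (XT.nd (nat_lit 78) (nat_lit 0) (nat_lit 0) (XT.lf (nat_lit 0) (nat_lit 29278796648) (nat_lit 152) (nat_lit 25121973729) (nat_lit 0) (nat_lit 28677463151) (nat_lit 2) (nat_lit 5) (nat_lit 4) (nat_lit 4) (nat_lit 2) (nat_lit 4) (nat_lit 294) (nat_lit 215) (nat_lit 211)) (XT.nd (nat_lit 78) (nat_lit 0) (nat_lit 0) (XT.lf (nat_lit 0) (nat_lit 33664306300) (nat_lit 152) (nat_lit 22940196657) (nat_lit 0) (nat_lit 32939409457) (nat_lit 2) (nat_lit 5) (nat_lit 4) (nat_lit 4) (nat_lit 2) (nat_lit 4) (nat_lit 295) (nat_lit 215) (nat_lit 210)) (XT.lf (nat_lit 0) (nat_lit 38304081263) (nat_lit 152) (nat_lit 20765829287) (nat_lit 0) (nat_lit 37464773915) (nat_lit 2) (nat_lit 5) (nat_lit 4) (nat_lit 4) (nat_lit 2) (nat_lit 4) (nat_lit 296) (nat_lit 215) (nat_lit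 209)))) (XT.nd (nat_lit 156) (nat_lit 0) (nat_lit 0) (XT.nd (nat_lit 78) (nat_lit 0) (nat_lit 0) (XT.lf (nat_lit 0) (nat_lit 43225616501) (nat_lit 152) (nat_lit 18585986478) (nat_lit 0) (nat_lit 42280373501) (nat_lit 2) (nat_lit 5) (nat_lit 4) (nat_lit 4) (nat_lit 2) (nat_lit 4) (nat_lit 297) (nat_lit 215) (nat_lit 208)) (XT.lf (nat_lit 0) (nat_lit 48458076667) (nat_lit 152) (nat_lit 16387750643) (nat_lit 0) (nat_lit 47414745099) (nat_lit 2) (nat_lit 5) (nat_lit 4) (nat_lit 4) (nat_lit 2) (nat_lit 4) (nat_lit 298) (nat_lit 215) (nat_lit 207))) (XT.nd (nat_lit 78) (nat_lit 0) (nat_lit 0) (XT.lf (nat_lit 0) (nat_lit 54032468932) (nat_lit 152) (nat_lit 14158095199) (nat_lit 0) (nat_lit 52898314616) (nat_lit 2) (nat_lit 5) (nat_lit 4) (nat_lit 4) (nat_lit 2) (nat_lit 4) (nat_lit 299) (nat_lit 215) (nat_lit 206)) (XT.lf (nat_lit 0) (nat_lit 59981826732) (nat_lit 152) (nat_lit 11883807374)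 (nat_lit 0) (nat_lit 58763577279) (nat_lit 2) (nat_lit 5) (nat_lit 4) (nat_lit 4) (nat_lit 2) (nat_lit 4) (nat_lit 300) (nat_lit 215) (nat_lit 205))))) (XT.nd (nat_lit 234) (nat_lit 76) (nat_lit 0) (XT.nd (nat_lit 78) (nat_lit 0) (nat_lit 0) (XT.lf (nat_lit 0) (nat_lit 66341405520) (nat_lit 152) (nat_lit 9551409905) (nat_lit 0) (nat_lit 65045290199) (nat_lit 2) (nat_lit 5) (nat_lit 4) (nat_lit 4) (nat_lit 2) (nat_lit 4) (nat_lit 301) (nat_lit 215) (nat_lit 204)) (XT.nd (nat_lit 78) (nat_lit 0) (nat_lit 0) (XT.lf (nat_lit 0) (nat_lit 73148891689) (nat_lit 152) (nat_lit 7147081180) (nat_lit 0) (nat_lit 71780678343) (nat_lit 2) (nat_lit 5) (nat_lit 4) (nat_lit 4) (nat_lit 2) (nat_lit 4) (nat_lit 302) (nat_lit 215) (nat_lit 203)) (XT.lf (nat_lit 0) (nat_lit 80444625898) (nat_lit 152) (nat_lit 4656573323) (nat_lit 0) (nat_lit 79009655121) (nat_lit 2) (nat_lit 5) (nat_lit 4) (nat_lit 4) (nat_lit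 2) (nat_lit 4) (nat_lit 303) (nat_lit 215) (nat_lit 202)))) (XT.nd (nat_lit 156) (nat_lit 0) (nat_lit 0) (XT.nd (nat_lit 78) (nat_lit 76) (nat_lit 0) (XT.lf (nat_lit 0) (nat_lit 88271842128) (nat_lit 152) (nat_lit 2065127769) (nat_lit 0) (nat_lit 86775058915) (nat_lit 2) (nat_lit 5) (nat_lit 4) (nat_lit 4) (nat_lit 2) (nat_lit 4) (nat_lit 304) (nat_lit 215) (nat_lit 201)) (XT.lf (nat_lit 0) (nat_lit 676451014) (nat_lit 76) (nat_lit 96016741531) (nat_lit 76) (nat_lit 94462724581) (nat_lit 1) (nat_lit 4) (nat_lit 2) (nat_lit 5) (nat_lit 2) (nat_lit 4) (nat_lit 305) (nat_lit 215) (nat_lit 200))) (XT.nd (nat_lit 78) (nat_lit 0) (nat_lit 0) (XT.lf (nat_lit 0) (nat_lit 3666084848) (nat_lit 76) (nat_lit 102131763632) (nat_lit 76) (nat_lit 100524752481) (nat_lit 1) (nat_lit 4) (nat_lit 2) (nat_lit 5) (nat_lit 2) (nat_lit 4) (nat_lit 306) (nat_lit 215) (nat_lit 199)) (XT.lf (nat_lit 0) (nat_lit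 6812744112) (nat_lit 76) (nat_lit 108774737622) (nat_lit 76) (nat_lit 107118657767) (nat_lit 1) (nat_lit 4) (nat_lit 2) (nat_lit 5) (nat_lit 2) (nat_lit 4) (nat_lit 307) (nat_lit 215) (nat_lit 198))))))))
noncomputable def xc14 : XT := (XT.nd (nat_lit 2028) (nat_lit 0) (nat_lit 0) (XT.nd (nat_lit 1014) (nat_lit 0) (nat_lit 0) (XT.nd (nat_lit 468) (nat_lit 0) (nat_lit 0) (XT.nd (nat_lit 234) (nat_lit 0) (nat_lit 0) (XT.nd (nat_lit 78) (nat_lit 0) (nat_lit 0) (XT.lf (nat_lit 0) (nat_lit 10135075677) (nat_lit 76) (nat_lit 115985029273) (nat_lit 76) (nat_lit 114283515432) (nat_lit 1) (nat_lit 4) (nat_lit 2) (nat_lit 5) (nat_lit 2) (nat_lit 4) (nat_lit 308) (nat_lit 215) (nat_lit 197)) (XT.nd (nat_lit 78) (nat_lit 0) (nat_lit 0) (XT.lf (nat_lit 0) (nat_lit 13652767433) (nat_lit 76) (nat_lit 123805366239) (nat_lit 76) (nat_lit 122061783892) (nat_lit 1) (nat_lit 4) (nat_lit 2) (nat_lit 5)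 (nat_lit 2) (nat_lit 4) (nat_lit 309) (nat_lit 215) (nat_lit 196)) (XT.lf (nat_lit 0) (nat_lit 17386664960) (nat_lit 76) (nat_lit 132282091258) (nat_lit 76) (nat_lit 130499556591) (nat_lit 1) (nat_lit 4) (nat_lit 2) (nat_lit 5) (nat_lit 2) (nat_lit 4) (nat_lit 310) (nat_lit 215) (nat_lit 195)))) (XT.nd (nat_lit 78) (nat_lit 0) (nat_lit 0) (XT.lf (nat_lit 0) (nat_lit 21358895059) (nat_lit 76) (nat_lit 141465436773) (nat_lit 76) (nat_lit 139646835143) (nat_lit 1) (nat_lit 4) (nat_lit 2) (nat_lit 5) (nat_lit 2) (nat_lit 4) (nat_lit 311) (nat_lit 215) (nat_lit 194)) (XT.nd (nat_lit 78) (nat_lit 0) (nat_lit 0) (XT.lf (nat_lit 0) (nat_lit 25592996871) (nat_lit 76) (nat_lit 151409822611) (nat_lit 76) (nat_lit 149557825645) (nat_lit 1) (nat_lit 4) (nat_lit 2) (nat_lit 5) (nat_lit 2) (nat_lit 4) (nat_lit 312) (nat_lit 215) (nat_lit 193)) (XT.lf (nat_lit 0) (nat_lit 30114061370) (nat_lit 76)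 (nat_lit 162174178465) (nat_lit 76) (nat_lit 160291259892) (nat_lit 1) (nat_lit 4) (nat_lit 2) (nat_lit 5) (nat_lit 2) (nat_lit 4) (nat_lit 313) (nat_lit 215) (nat_lit 192))))) (XT.nd (nat_lit 234) (nat_lit 0) (nat_lit 0) (XT.nd (nat_lit 78) (nat_lit 0) (nat_lit 0) (XT.lf (nat_lit 0) (nat_lit 34948880050) (nat_lit 76) (nat_lit 173822293110) (nat_lit 76) (nat_lit 171910743420) (nat_lit 1) (nat_lit 4) (nat_lit 2) (nat_lit 5) (nat_lit 2) (nat_lit 4) (nat_lit 314) (nat_lit 215) (nat_lit 191)) (XT.nd (nat_lit 78) (nat_lit 0) (nat_lit 0) (XT.lf (nat_lit 0) (nat_lit 40126103687) (nat_lit 76) (nat_lit 186423192412) (nat_lit 76) (nat_lit 184485132427) (nat_lit 1) (nat_lit 4) (nat_lit 2) (nat_lit 5) (nat_lit 2) (nat_lit 4) (nat_lit 315) (nat_lit 215) (nat_lit 190)) (XT.lf (nat_lit 0) (nat_lit 45676412125) (nat_lit 76) (nat_lit 200051548366) (nat_lit 76) (nat_lit 198088941812) (nat_lit 1) (nat_lit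 4) (nat_lit 2) (nat_lit 5) (nat_lit 2) (nat_lit 4) (nat_lit 316) (nat_lit 215) (nat_lit 189)))) (XT.nd (nat_lit 156) (nat_lit 0) (nat_lit 0) (XT.nd (nat_lit 78) (nat_lit 0) (nat_lit 0) (XT.lf (nat_lit 0) (nat_lit 51632696081) (nat_lit 76) (nat_lit 214788121600) (nat_lit 76) (nat_lit 212802786742) (nat_lit 1) (nat_lit 4) (nat_lit 2) (nat_lit 5) (nat_lit 2) (nat_lit 4) (nat_lit 317) (nat_lit 215) (nat_lit 188)) (XT.lf (nat_lit 0) (nat_lit 58030252053) (nat_lit 76) (nat_lit 230720239955) (nat_lit 76) (nat_lit 228713860371) (nat_lit 1) (nat_lit 4) (nat_lit 2) (nat_lit 5) (nat_lit 2) (nat_lit 4) (nat_lit 318) (nat_lit 215) (nat_lit 187))) (XT.nd (nat_lit 78) (nat_lit 0) (nat_lit 0) (XT.lf (nat_lit 0) (nat_lit 64906991483) (nat_lit 76) (nat_lit 247942315985) (nat_lit 76) (nat_lit 245916450543) (nat_lit 1) (nat_lit 4) (nat_lit 2) (nat_lit 5) (nat_lit 2) (nat_lit 4) (nat_lit 319) (nat_lit 215)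 (nat_lit 186)) (XT.lf (nat_lit 0) (nat_lit 72303665420) (nat_lit 76) (nat_lit 266556406436) (nat_lit 76) (nat_lit 264512498533) (nat_lit 1) (nat_lit 4) (nat_lit 2) (nat_lit 5) (nat_lit 2) (nat_lit 4) (nat_lit 320) (nat_lit 215) (nat_lit 185)))))) (XT.nd (nat_lit 468) (nat_lit 0) (nat_lit 0) (XT.nd (nat_lit 234) (nat_lit 0) (nat_lit 0) (XT.nd (nat_lit 78) (nat_lit 0) (nat_lit 0) (XT.lf (nat_lit 0) (nat_lit 80264106005) (nat_lit 76) (nat_lit 286672817029) (nat_lit 76) (nat_lit 284612203144) (nat_lit 1) (nat_lit 4) (nat_lit 2) (nat_lit 5) (nat_lit 2) (nat_lit 4) (nat_lit 321) (nat_lit 215) (nat_lit 184)) (XT.nd (nat_lit 78) (nat_lit 0) (nat_lit 0) (XT.lf (nat_lit 0) (nat_lit 88835486221) (nat_lit 76) (nat_lit 308410756125) (nat_lit 76) (nat_lit 306334673737) (nat_lit 1) (nat_lit 4) (nat_lit 2) (nat_lit 5) (nat_lit 2) (nat_lit 4) (nat_lit 322) (nat_lit 215) (nat_lit 183)) (XT.lf (nat_lit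 0) (nat_lit 98068599430) (nat_lit 76) (nat_lit 331899041139) (nat_lit 76) (nat_lit 329808636064) (nat_lit 1) (nat_lit 4) (nat_lit 2) (nat_lit 5) (nat_lit 2) (nat_lit 4) (nat_lit 323) (nat_lit 215) (nat_lit 182)))) (XT.nd (nat_lit 78) (nat_lit 0) (nat_lit 0) (XT.lf (nat_lit 0) (nat_lit 108018160379) (nat_lit 76) (nat_lit 357276861908) (nat_lit 76) (nat_lit 355173195086) (nat_lit 1) (nat_lit 4) (nat_lit 2) (nat_lit 5) (nat_lit 2) (nat_lit 4) (nat_lit 324) (nat_lit 215) (nat_lit 181)) (XT.nd (nat_lit 78) (nat_lit 0) (nat_lit 0) (XT.lf (nat_lit 0) (nat_lit 118743129428) (nat_lit 76) (nat_lit 384694605519) (nat_lit 76) (nat_lit 382578659302) (nat_lit 1) (nat_lit 4) (nat_lit 2) (nat_lit 5) (nat_lit 2) (nat_lit 4) (nat_lit 325) (nat_lit 215) (nat_lit 180)) (XT.lf (nat_lit 0) (nat_lit 130307061949) (nat_lit 76) (nat_lit 414314747490) (nat_lit 76) (nat_lit 412187431461) (nat_lit 1) (nat_lit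 4) (nat_lit 2) (nat_lit 5) (nat_lit 2) (nat_lit 4) (nat_lit 326) (nat_lit 215) (nat_lit 179))))) (XT.nd (nat_lit 234) (nat_lit 0) (nat_lit 0) (XT.nd (nat_lit 78) (nat_lit 0) (nat_lit 0) (XT.lf (nat_lit 0) (nat_lit 142778484950) (nat_lit 76) (nat_lit 446312814587) (nat_lit 76) (nat_lit 444174970956) (nat_lit 1) (nat_lit 4) (nat_lit 2) (nat_lit 5) (nat_lit 2) (nat_lit 4) (nat_lit 327) (nat_lit 215) (nat_lit 178)) (XT.nd (nat_lit 78) (nat_lit 0) (nat_lit 0) (XT.lf (nat_lit 0) (nat_lit 156231303160) (nat_lit 76) (nat_lit 480878424986) (nat_lit 76) (nat_lit 478730833575) (nat_lit 1) (nat_lit 4) (nat_lit 2) (nat_lit 5) (nat_lit 2) (nat_lit 4) (nat_lit 328) (nat_lit 215) (nat_lit 177)) (XT.lf (nat_lit 0) (nat_lit 170745236983) (nat_lit 76) (nat_lit 518216411934) (nat_lit 76) (nat_lit 516059794800) (nat_lit 1) (nat_lit 4) (nat_lit 2) (nat_lit 5) (nat_lit 2) (nat_lit 4) (nat_lit 329) (nat_lit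 215) (nat_lit 176)))) (XT.nd (nat_lit 156) (nat_lit 0) (nat_lit 0) (XT.nd (nat_lit 78) (nat_lit 0) (nat_lit 0) (XT.lf (nat_lit 0) (nat_lit 186406294916) (nat_lit 76) (nat_lit 558548037575) (nat_lit 76) (nat_lit 556383063291) (nat_lit 1) (nat_lit 4) (nat_lit 2) (nat_lit 5) (nat_lit 2) (nat_lit 4) (nat_lit 330) (nat_lit 215) (nat_lit 175)) (XT.lf (nat_lit 0) (nat_lit 203307283228) (nat_lit 76) (nat_lit 602112304137) (nat_lit 76) (nat_lit 599939591750) (nat_lit 1) (nat_lit 4) (nat_lit 2) (nat_lit 5) (nat_lit 2) (nat_lit 4) (nat_lit 331) (nat_lit 215) (nat_lit 174))) (XT.nd (nat_lit 78) (nat_lit 0) (nat_lit 0) (XT.lf (nat_lit 0) (nat_lit 221548355923) (nat_lit 76) (nat_lit 649167370234) (nat_lit 76) (nat_lit 646987492939) (nat_lit 1) (nat_lit 4) (nat_lit 2) (nat_lit 5) (nat_lit 2) (nat_lit 4) (nat_lit 332) (nat_lit 215) (nat_lit 173)) (XT.lf (nat_lit 0) (nat_lit 241237608248) (nat_lit 76)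 (nat_lit 699992080704) (nat_lit 76) (nat_lit 697805569233) (nat_lit 1) (nat_lit 4) (nat_lit 2) (nat_lit 5) (nat_lit 2) (nat_lit 4) (nat_lit 333) (nat_lit 215) (nat_lit 172))))))) (XT.nd (nat_lit 34164) (nat_lit 0) (nat_lit 76) (XT.nd (nat_lit 468) (nat_lit 0) (nat_lit 0) (XT.nd (nat_lit 234) (nat_lit 0) (nat_lit 0) (XT.nd (nat_lit 78) (nat_lit 0) (nat_lit 0) (XT.lf (nat_lit 0) (nat_lit 262491717253) (nat_lit 76) (nat_lit 754887619017) (nat_lit 76) (nat_lit 752694964790) (nat_lit 1) (nat_lit 4) (nat_lit 2) (nat_lit 5) (nat_lit 2) (nat_lit 4) (nat_lit 334) (nat_lit 215) (nat_lit 171)) (XT.nd (nat_lit 78) (nat_lit 0) (nat_lit 0) (XT.lf (nat_lit 0) (nat_lit 285436633214) (nat_lit 76) (nat_lit 814179292064) (nat_lit 76) (nat_lit 811980950102) (nat_lit 1) (nat_lit 4) (nat_lit 2) (nat_lit 5) (nat_lit 2) (nat_lit 4) (nat_lit 335) (nat_lit 215) (nat_lit 170)) (XT.lf (nat_lit 0) (nat_lit 310208326003)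 (nat_lit 76) (nat_lit 878218457910) (nat_lit 76) (nat_lit 876014849526) (nat_lit 1) (nat_lit 4) (nat_lit 2) (nat_lit 5) (nat_lit 2) (nat_lit 4) (nat_lit 336) (nat_lit 215) (nat_lit 169)))) (XT.nd (nat_lit 78) (nat_lit 0) (nat_lit 0) (XT.lf (nat_lit 0) (nat_lit 336953590837) (nat_lit 76) (nat_lit 947384607907) (nat_lit 76) (nat_lit 945176123206) (nat_lit 1) (nat_lit 4) (nat_lit 2) (nat_lit 5) (nat_lit 2) (nat_lit 4) (nat_lit 337) (nat_lit 215) (nat_lit 168)) (XT.nd (nat_lit 78) (nat_lit 0) (nat_lit 0) (XT.lf (nat_lit 0) (nat_lit 365830918174) (nat_lit 76) (nat_lit 1022087615537) (nat_lit 76) (nat_lit 1019874615727) (nat_lit 1) (nat_lit 4) (nat_lit 2) (nat_lit 5) (nat_lit 2) (nat_lit 4) (nat_lit 338) (nat_lit 215) (nat_lit 167)) (XT.lf (nat_lit 0) (nat_lit 397011432916) (nat_lit 76) (nat_lit 1102770165290) (nat_lit 76) (nat_lit 1100552984824) (nat_lit 1) (nat_lit 4) (nat_lit 2) (nat_lit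 5) (nat_lit 2) (nat_lit 4) (nat_lit 339) (nat_lit 215) (nat_lit 166))))) (XT.nd (nat_lit 234) (nat_lit 0) (nat_lit 0) (XT.nd (nat_lit 78) (nat_lit 0) (nat_lit 0) (XT.lf (nat_lit 0) (nat_lit 430679908485) (nat_lit 76) (nat_lit 1189910375978) (nat_lit 76) (nat_lit 1187689324535) (nat_lit 1) (nat_lit 4) (nat_lit 2) (nat_lit 5) (nat_lit 2) (nat_lit 4) (nat_lit 340) (nat_lit 215) (nat_lit 165)) (XT.nd (nat_lit 78) (nat_lit 0) (nat_lit 0) (XT.lf (nat_lit 0) (nat_lit 467035861772) (nat_lit 76) (nat_lit 1284024634036) (nat_lit 76) (nat_lit 1281799998354) (nat_lit 1) (nat_lit 4) (nat_lit 2) (nat_lit 5) (nat_lit 2) (nat_lit 4) (nat_lit 341) (nat_lit 215) (nat_lit 164)) (XT.lf (nat_lit 0) (nat_lit 506294735465) (nat_lit 76) (nat_lit 1385670653585) (nat_lit 76) (nat_lit 1383442699163) (nat_lit 1) (nat_lit 4) (nat_lit 2) (nat_lit 5) (nat_lit 2) (nat_lit 4) (nat_lit 342) (nat_lit 215) (nat_lit 163))))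 (XT.nd (nat_lit 33306) (nat_lit 0) (nat_lit 76) (XT.nd (nat_lit 33228) (nat_lit 0) (nat_lit 76) (XT.lf (nat_lit 0) (nat_lit 548689174739) (nat_lit 76) (nat_lit 1495450781407) (nat_lit 76) (nat_lit 1493219754079) (nat_lit 1) (nat_lit 4) (nat_lit 2) (nat_lit 5) (nat_lit 2) (nat_lit 4) (nat_lit 343) (nat_lit 215) (nat_lit 162)) (XT.lf (nat_lit 0) (nat_lit 3595958178) (nat_lit 152) (nat_lit 19483127880) (nat_lit 0) (nat_lit 3595958178) (nat_lit 2) (nat_lit 5) (nat_lit 4) (nat_lit 4) (nat_lit 2) (nat_lit 4) (nat_lit 288) (nat_lit 216) (nat_lit 216))) (XT.nd (nat_lit 78) (nat_lit 0) (nat_lit 0) (XT.lf (nat_lit 0) (nat_lit 10481525824) (nat_lit 152) (nat_lit 36600372355) (nat_lit 0) (nat_lit 10299970731) (nat_lit 2) (nat_lit 5) (nat_lit 4) (nat_lit 4) (nat_lit 2) (nat_lit 4) (nat_lit 289) (nat_lit 216) (nat_lit 215)) (XT.lf (nat_lit 0) (nat_lit 13892403015) (nat_lit 152) (nat_lit 34312565262)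 (nat_lit 0) (nat_lit 13542741354) (nat_lit 2) (nat_lit 5) (nat_lit 4) (nat_lit 4) (nat_lit 2) (nat_lit 4) (nat_lit 290) (nat_lit 216) (nat_lit 214)))))) (XT.nd (nat_lit 546) (nat_lit 0) (nat_lit 0) (XT.nd (nat_lit 234) (nat_lit 0) (nat_lit 0) (XT.nd (nat_lit 78) (nat_lit 0) (nat_lit 0) (XT.lf (nat_lit 0) (nat_lit 17444760533) (nat_lit 152) (nat_lit 32089277109) (nat_lit 0) (nat_lit 16939444643) (nat_lit 2) (nat_lit 5) (nat_lit 4) (nat_lit 4) (nat_lit 2) (nat_lit 4) (nat_lit 291) (nat_lit 216) (nat_lit 213)) (XT.nd (nat_lit 78) (nat_lit 0) (nat_lit 0) (XT.lf (nat_lit 0) (nat_lit 21159649386) (nat_lit 152) (nat_lit 29917332853) (nat_lit 0) (nat_lit 20510209210) (nat_lit 2) (nat_lit 5) (nat_lit 4) (nat_lit 4) (nat_lit 2) (nat_lit 4) (nat_lit 292) (nat_lit 216) (nat_lit 212)) (XT.lf (nat_lit 0) (nat_lit 25059083731) (nat_lit 152) (nat_lit 27783861714) (nat_lit 0) (nat_lit 24276195141) (nat_lit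 2) (nat_lit 5) (nat_lit 4) (nat_lit 4) (nat_lit 2) (nat_lit 4) (nat_lit 293) (nat_lit 216) (nat_lit 211)))) (XT.nd (nat_lit 156) (nat_lit 0) (nat_lit 0) (XT.nd (nat_lit 78) (nat_lit 0) (nat_lit 0) (XT.lf (nat_lit 0) (nat_lit 29166171326) (nat_lit 152) (nat_lit 25676220900) (nat_lit 0) (nat_lit 28259719390) (nat_lit 2) (nat_lit 5) (nat_lit 4) (nat_lit 4) (nat_lit 2) (nat_lit 4) (nat_lit 294) (nat_lit 216) (nat_lit 210)) (XT.lf (nat_lit 0) (nat_lit 33505250468) (nat_lit 152) (nat_lit 23581920687) (nat_lit 0) (nat_lit 32484388027) (nat_lit 2) (nat_lit 5) (nat_lit 4) (nat_lit 4) (nat_lit 2) (nat_lit 4) (nat_lit 295) (nat_lit 216) (nat_lit 209))) (XT.nd (nat_lit 78) (nat_lit 0) (nat_lit 0) (XT.lf (nat_lit 0) (nat_lit 38102034219) (nat_lit 152) (nat_lit 21488550409) (nat_lit 0) (nat_lit 36975236125) (nat_lit 2) (nat_lit 5) (nat_lit 4) (nat_lit 4) (nat_lit 2) (nat_lit 4) (nat_lit 296) (nat_lit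 216) (nat_lit 208)) (XT.lf (nat_lit 0) (nat_lit 42983762778) (nat_lit 152) (nat_lit 19383704907) (nat_lit 0) (nat_lit 41758876117) (nat_lit 2) (nat_lit 5) (nat_lit 4) (nat_lit 4) (nat_lit 2) (nat_lit 4) (nat_lit 297) (nat_lit 216) (nat_lit 207))))) (XT.nd (nat_lit 234) (nat_lit 0) (nat_lit 0) (XT.nd (nat_lit 78) (nat_lit 0) (nat_lit 0) (XT.lf (nat_lit 0) (nat_lit 48179364908) (nat_lit 152) (nat_lit 17254911023) (nat_lit 0) (nat_lit 46863655499) (nat_lit 2) (nat_lit 5) (nat_lit 4) (nat_lit 4) (nat_lit 2) (nat_lit 4) (nat_lit 298) (nat_lit 216) (nat_lit 206)) (XT.nd (nat_lit 78) (nat_lit 0) (nat_lit 0) (XT.lf (nat_lit 0) (nat_lit 53719629362) (nat_lit 152) (nat_lit 15089553682) (nat_lit 0) (nat_lit 52319824816) (nat_lit 2) (nat_lit 5) (nat_lit 4) (nat_lit 4) (nat_lit 2) (nat_lit 4) (nat_lit 299) (nat_lit 216) (nat_lit 205)) (XT.lf (nat_lit 0) (nat_lit 59637387337) (nat_lit 152) (nat_lit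 12874801137) (nat_lit 0) (nat_lit 58159716924) (nat_lit 2) (nat_lit 5) (nat_lit 4) (nat_lit 4) (nat_lit 2) (nat_lit 4) (nat_lit 300) (nat_lit 216) (nat_lit 204)))) (XT.nd (nat_lit 156) (nat_lit 0) (nat_lit 0) (XT.nd (nat_lit 78) (nat_lit 0) (nat_lit 0) (XT.lf (nat_lit 0) (nat_lit 65967707028) (nat_lit 152) (nat_lit 10597528928) (nat_lit 0) (nat_lit 64417938589) (nat_lit 2) (nat_lit 5) (nat_lit 4) (nat_lit 4) (nat_lit 2) (nat_lit 4) (nat_lit 301) (nat_lit 216) (nat_lit 203)) (XT.lf (nat_lit 0) (nat_lit 72748101441) (nat_lit 152) (nat_lit 8244242110) (nat_lit 0) (nat_lit 71131575571) (nat_lit 2) (nat_lit 5) (nat_lit 4) (nat_lit 4) (nat_lit 2) (nat_lit 4) (nat_lit 302) (nat_lit 216) (nat_lit 202))) (XT.nd (nat_lit 78) (nat_lit 0) (nat_lit 0) (XT.lf (nat_lit 0) (nat_lit 80018750691) (nat_lit 152) (nat_lit 5800995278) (nat_lit 0) (nat_lit 78340412384) (nat_lit 2) (nat_lit 5) (nat_lit 4)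 (nat_lit 4) (nat_lit 2) (nat_lit 4) (nat_lit 303) (nat_lit 216) (nat_lit 201)) (XT.lf (nat_lit 0) (nat_lit 87822740106) (nat_lit 152) (nat_lit 3253309933) (nat_lit 0) (nat_lit 86087168063) (nat_lit 2) (nat_lit 5) (nat_lit 4) (nat_lit 4) (nat_lit 2) (nat_lit 4) (nat_lit 304) (nat_lit 216) (nat_lit 200))))))))
noncomputable def xc15 : XT := (XT.nd (nat_lit 2106) (nat_lit 0) (nat_lit 0) (XT.nd (nat_lit 1014) (nat_lit 0) (nat_lit 0) (XT.nd (nat_lit 468) (nat_lit 0) (nat_lit 0) (XT.nd (nat_lit 234) (nat_lit 0) (nat_lit 0) (XT.nd (nat_lit 78) (nat_lit 76) (nat_lit 0) (XT.lf (nat_lit 0) (nat_lit 96206315550) (nat_lit 152) (nat_lit 586088680) (nat_lit 0) (nat_lit 94417749306) (nat_lit 2) (nat_lit 5) (nat_lit 4) (nat_lit 4) (nat_lit 2) (nat_lit 4) (nat_lit 305) (nat_lit 216) (nat_lit 199)) (XT.nd (nat_lit 78) (nat_lit 0) (nat_lit 0) (XT.lf (nat_lit 0) (nat_lit 2333189841) (nat_lit 76) (nat_lit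 102942080900) (nat_lit 76) (nat_lit 101104445951) (nat_lit 1) (nat_lit 4) (nat_lit 2) (nat_lit 5) (nat_lit 2) (nat_lit 4) (nat_lit 306) (nat_lit 216) (nat_lit 198)) (XT.lf (nat_lit 0) (nat_lit 5443281586) (nat_lit 76) (nat_lit 109602304766) (nat_lit 76) (nat_lit 107719235831) (nat_lit 1) (nat_lit 4) (nat_lit 2) (nat_lit 5) (nat_lit 2) (nat_lit 4) (nat_lit 307) (nat_lit 216) (nat_lit 197)))) (XT.nd (nat_lit 78) (nat_lit 0) (nat_lit 0) (XT.lf (nat_lit 0) (nat_lit 8731754336) (nat_lit 76) (nat_lit 116828568524) (nat_lit 76) (nat_lit 114903431084) (nat_lit 1) (nat_lit 4) (nat_lit 2) (nat_lit 5) (nat_lit 2) (nat_lit 4) (nat_lit 308) (nat_lit 216) (nat_lit 196)) (XT.nd (nat_lit 78) (nat_lit 0) (nat_lit 0) (XT.lf (nat_lit 0) (nat_lit 12218095337) (nat_lit 76) (nat_lit 124663694478) (nat_lit 76) (nat_lit 122699604718) (nat_lit 1) (nat_lit 4) (nat_lit 2) (nat_lit 5) (nat_lit 2) (nat_lit 4) (nat_lit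 309) (nat_lit 216) (nat_lit 195)) (XT.lf (nat_lit 0) (nat_lit 15922964388) (nat_lit 76) (nat_lit 133154113004) (nat_lit 76) (nat_lit 131153956281) (nat_lit 1) (nat_lit 4) (nat_lit 2) (nat_lit 5) (nat_lit 2) (nat_lit 4) (nat_lit 310) (nat_lit 216) (nat_lit 194))))) (XT.nd (nat_lit 234) (nat_lit 0) (nat_lit 0) (XT.nd (nat_lit 78) (nat_lit 0) (nat_lit 0) (XT.lf (nat_lit 0) (nat_lit 19868316269) (nat_lit 76) (nat_lit 142350137693) (nat_lit 76) (nat_lit 140316585634) (nat_lit 1) (nat_lit 4) (nat_lit 2) (nat_lit 5) (nat_lit 2) (nat_lit 4) (nat_lit 311) (nat_lit 216) (nat_lit 193)) (XT.nd (nat_lit 78) (nat_lit 0) (nat_lit 0) (XT.lf (nat_lit 0) (nat_lit 24077530842) (nat_lit 76) (nat_lit 152306263506) (nat_lit 76) (nat_lit 150241789840) (nat_lit 1) (nat_lit 4) (nat_lit 2) (nat_lit 5) (nat_lit 2) (nat_lit 4) (nat_lit 312) (nat_lit 216) (nat_lit 192)) (XT.lf (nat_lit 0) (nat_lit 28575551601)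 (nat_lit 76) (nat_lit 163081489708) (nat_lit 76) (nat_lit 160988384924) (nat_lit 1) (nat_lit 4) (nat_lit 2) (nat_lit 5) (nat_lit 2) (nat_lit 4) (nat_lit 313) (nat_lit 216) (nat_lit 191)))) (XT.nd (nat_lit 156) (nat_lit 0) (nat_lit 0) (XT.nd (nat_lit 78) (nat_lit 0) (nat_lit 0) (XT.lf (nat_lit 0) (nat_lit 33389033484) (nat_lit 76) (nat_lit 174739669490) (nat_lit 76) (nat_lit 172620054412) (nat_lit 1) (nat_lit 4) (nat_lit 2) (nat_lit 5) (nat_lit 2) (nat_lit 4) (nat_lit 314) (nat_lit 216) (nat_lit 190)) (XT.lf (nat_lit 0) (nat_lit 38546500827) (nat_lit 76) (nat_lit 187349888363) (nat_lit 76) (nat_lit 185205726717) (nat_lit 1) (nat_lit 4) (nat_lit 2) (nat_lit 5) (nat_lit 2) (nat_lit 4) (nat_lit 315) (nat_lit 216) (nat_lit 189))) (XT.nd (nat_lit 78) (nat_lit 0) (nat_lit 0) (XT.lf (nat_lit 0) (nat_lit 44078516402) (nat_lit 76) (nat_lit 200986873550) (nat_lit 76) (nat_lit 198819983598) (nat_lit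 1) (nat_lit 4) (nat_lit 2) (nat_lit 5) (nat_lit 2) (nat_lit 4) (nat_lit 316) (nat_lit 216) (nat_lit 188)) (XT.lf (nat_lit 0) (nat_lit 50017862521) (nat_lit 76) (nat_lit 215731436814) (nat_lit 76) (nat_lit 213543502136) (nat_lit 1) (nat_lit 4) (nat_lit 2) (nat_lit 5) (nat_lit 2) (nat_lit 4) (nat_lit 317) (nat_lit 216) (nat_lit 187)))))) (XT.nd (nat_lit 546) (nat_lit 0) (nat_lit 0) (XT.nd (nat_lit 234) (nat_lit 0) (nat_lit 0) (XT.nd (nat_lit 78) (nat_lit 0) (nat_lit 0) (XT.lf (nat_lit 0) (nat_lit 56399735310) (nat_lit 76) (nat_lit 231670953345) (nat_lit 76) (nat_lit 229463532809) (nat_lit 1) (nat_lit 4) (nat_lit 2) (nat_lit 5) (nat_lit 2) (nat_lit 4) (nat_lit 318) (nat_lit 216) (nat_lit 186)) (XT.nd (nat_lit 78) (nat_lit 0) (nat_lit 0) (XT.lf (nat_lit 0) (nat_lit 63261953275) (nat_lit 76) (nat_lit 248899879537) (nat_lit 76) (nat_lit 246674416541) (nat_lit 1) (nat_lit 4) (nat_lit 2) (nat_lit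 5) (nat_lit 2) (nat_lit 4) (nat_lit 319) (nat_lit 216) (nat_lit 185)) (XT.lf (nat_lit 0) (nat_lit 70645181411) (nat_lit 76) (nat_lit 267520312732) (nat_lit 76) (nat_lit 265278143754) (nat_lit 1) (nat_lit 4) (nat_lit 2) (nat_lit 5) (nat_lit 2) (nat_lit 4) (nat_lit 320) (nat_lit 216) (nat_lit 184)))) (XT.nd (nat_lit 156) (nat_lit 0) (nat_lit 0) (XT.nd (nat_lit 78) (nat_lit 0) (nat_lit 0) (XT.lf (nat_lit 0) (nat_lit 78593172181) (nat_lit 76) (nat_lit 287642596236) (nat_lit 76) (nat_lit 285384958756) (nat_lit 1) (nat_lit 4) (nat_lit 2) (nat_lit 5) (nat_lit 2) (nat_lit 4) (nat_lit 321) (nat_lit 216) (nat_lit 183)) (XT.lf (nat_lit 0) (nat_lit 87153024789) (nat_lit 76) (nat_lit 309385973212) (nat_lit 76) (nat_lit 307114013044) (nat_lit 1) (nat_lit 4) (nat_lit 2) (nat_lit 5) (nat_lit 2) (nat_lit 4) (nat_lit 322) (nat_lit 216) (nat_lit 182))) (XT.nd (nat_lit 78) (nat_lit 0) (nat_lit 0) (XT.lf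 (nat_lit 0) (nat_lit 96375464288) (nat_lit 76) (nat_lit 332879293300) (nat_lit 76) (nat_lit 330594071385) (nat_lit 1) (nat_lit 4) (nat_lit 2) (nat_lit 5) (nat_lit 2) (nat_lit 4) (nat_lit 323) (nat_lit 216) (nat_lit 181)) (XT.lf (nat_lit 0) (nat_lit 106315142171) (nat_lit 76) (nat_lit 358261776175) (nat_lit 76) (nat_lit 355964274865) (nat_lit 1) (nat_lit 4) (nat_lit 2) (nat_lit 5) (nat_lit 2) (nat_lit 4) (nat_lit 324) (nat_lit 216) (nat_lit 180))))) (XT.nd (nat_lit 234) (nat_lit 0) (nat_lit 0) (XT.nd (nat_lit 78) (nat_lit 0) (nat_lit 0) (XT.lf (nat_lit 0) (nat_lit 117030960234) (nat_lit 76) (nat_lit 385683836551) (nat_lit 76) (nat_lit 383374965430) (nat_lit 1) (nat_lit 4) (nat_lit 2) (nat_lit 5) (nat_lit 2) (nat_lit 4) (nat_lit 325) (nat_lit 216) (nat_lit 179)) (XT.nd (nat_lit 78) (nat_lit 0) (nat_lit 0) (XT.lf (nat_lit 0) (nat_lit 128586419619) (nat_lit 76) (nat_lit 415307975526) (nat_lit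 76) (nat_lit 412988576802) (nat_lit 1) (nat_lit 4) (nat_lit 2) (nat_lit 5) (nat_lit 2) (nat_lit 4) (nat_lit 326) (nat_lit 216) (nat_lit 178)) (XT.lf (nat_lit 0) (nat_lit 141049997125) (nat_lit 76) (nat_lit 447309743553) (nat_lit 76) (nat_lit 444980597049) (nat_lit 1) (nat_lit 4) (nat_lit 2) (nat_lit 5) (nat_lit 2) (nat_lit 4) (nat_lit 327) (nat_lit 216) (nat_lit 177)))) (XT.nd (nat_lit 156) (nat_lit 0) (nat_lit 0) (XT.nd (nat_lit 78) (nat_lit 0) (nat_lit 0) (XT.lf (nat_lit 0) (nat_lit 154495550987) (nat_lit 76) (nat_lit 481878780739) (nat_lit 76) (nat_lit 479540608512) (nat_lit 1) (nat_lit 4) (nat_lit 2) (nat_lit 5) (nat_lit 2) (nat_lit 4) (nat_lit 328) (nat_lit 216) (nat_lit 176)) (XT.lf (nat_lit 0) (nat_lit 169002758562) (nat_lit 76) (nat_lit 519219940638) (nat_lit 76) (nat_lit 516873411261) (nat_lit 1) (nat_lit 4) (nat_lit 2) (nat_lit 5) (nat_lit 2) (nat_lit 4) (nat_lit 329) (nat_lit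 216) (nat_lit 175))) (XT.nd (nat_lit 78) (nat_lit 0) (nat_lit 0) (XT.lf (nat_lit 0) (nat_lit 184657588487) (nat_lit 76) (nat_lit 559554504197) (nat_lit 76) (nat_lit 557200236717) (nat_lit 1) (nat_lit 4) (nat_lit 2) (nat_lit 5) (nat_lit 2) (nat_lit 4) (nat_lit 330) (nat_lit 216) (nat_lit 174)) (XT.lf (nat_lit 0) (nat_lit 201552810125) (nat_lit 76) (nat_lit 603121491052) (nat_lit 76) (nat_lit 600760058663) (nat_lit 1) (nat_lit 4) (nat_lit 2) (nat_lit 5) (nat_lit 2) (nat_lit 4) (nat_lit 331) (nat_lit 216) (nat_lit 173))))))) (XT.nd (nat_lit 34008) (nat_lit 0) (nat_lit 76) (XT.nd (nat_lit 468) (nat_lit 0) (nat_lit 0) (XT.nd (nat_lit 234) (nat_lit 0) (nat_lit 0) (XT.nd (nat_lit 78) (nat_lit 0) (nat_lit 0) (XT.lf (nat_lit 0) (nat_lit 219788543308) (nat_lit 76) (nat_lit 650179075940) (nat_lit 76) (nat_lit 647811009376) (nat_lit 1) (nat_lit 4) (nat_lit 2) (nat_lit 5) (nat_lit 2) (nat_lit 4)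 (nat_lit 332) (nat_lit 216) (nat_lit 172)) (XT.nd (nat_lit 78) (nat_lit 0) (nat_lit 0) (XT.lf (nat_lit 0) (nat_lit 239472851640) (nat_lit 76) (nat_lit 701006118624) (nat_lit 76) (nat_lit 698631909305) (nat_lit 1) (nat_lit 4) (nat_lit 2) (nat_lit 5) (nat_lit 2) (nat_lit 4) (nat_lit 333) (nat_lit 216) (nat_lit 171)) (XT.lf (nat_lit 0) (nat_lit 260722382873) (nat_lit 76) (nat_lit 755903816393) (nat_lit 76) (nat_lit 753523919338) (nat_lit 1) (nat_lit 4) (nat_lit 2) (nat_lit 5) (nat_lit 2) (nat_lit 4) (nat_lit 334) (nat_lit 216) (nat_lit 170)))) (XT.nd (nat_lit 78) (nat_lit 0) (nat_lit 0) (XT.lf (nat_lit 0) (nat_lit 283663060157) (nat_lit 76) (nat_lit 815197488938) (nat_lit 76) (nat_lit 812812325461) (nat_lit 1) (nat_lit 4) (nat_lit 2) (nat_lit 5) (nat_lit 2) (nat_lit 4) (nat_lit 335) (nat_lit 216) (nat_lit 169)) (XT.nd (nat_lit 78) (nat_lit 0) (nat_lit 0) (XT.lf (nat_lit 0) (nat_lit 308430828245)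 (nat_lit 76) (nat_lit 879238506171) (nat_lit 76) (nat_lit 876848466376) (nat_lit 1) (nat_lit 4) (nat_lit 2) (nat_lit 5) (nat_lit 2) (nat_lit 4) (nat_lit 336) (nat_lit 216) (nat_lit 168)) (XT.lf (nat_lit 0) (nat_lit 335172459096) (nat_lit 76) (nat_lit 948406370414) (nat_lit 76) (nat_lit 946011815511) (nat_lit 1) (nat_lit 4) (nat_lit 2) (nat_lit 5) (nat_lit 2) (nat_lit 4) (nat_lit 337) (nat_lit 216) (nat_lit 167))))) (XT.nd (nat_lit 234) (nat_lit 0) (nat_lit 0) (XT.nd (nat_lit 78) (nat_lit 0) (nat_lit 0) (XT.lf (nat_lit 0) (nat_lit 364046421634) (nat_lit 76) (nat_lit 1023110965310) (nat_lit 76) (nat_lit 1020712229751) (nat_lit 1) (nat_lit 4) (nat_lit 2) (nat_lit 5) (nat_lit 2) (nat_lit 4) (nat_lit 338) (nat_lit 216) (nat_lit 166)) (XT.nd (nat_lit 78) (nat_lit 0) (nat_lit 0) (XT.lf (nat_lit 0) (nat_lit 395223820822) (nat_lit 76) (nat_lit 1103794984752) (nat_lit 76) (nat_lit 1101392378216)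 (nat_lit 1) (nat_lit 4) (nat_lit 2) (nat_lit 5) (nat_lit 2) (nat_lit 4) (nat_lit 339) (nat_lit 216) (nat_lit 165)) (XT.lf (nat_lit 0) (nat_lit 428889411619) (nat_lit 76) (nat_lit 1190936556265) (nat_lit 76) (nat_lit 1188530365490) (nat_lit 1) (nat_lit 4) (nat_lit 2) (nat_lit 5) (nat_lit 2) (nat_lit 4) (nat_lit 340) (nat_lit 216) (nat_lit 164)))) (XT.nd (nat_lit 156) (nat_lit 0) (nat_lit 0) (XT.nd (nat_lit 78) (nat_lit 0) (nat_lit 0) (XT.lf (nat_lit 0) (nat_lit 465242693820) (nat_lit 76) (nat_lit 1285052074345) (nat_lit 76) (nat_lit 1282642564831) (nat_lit 1) (nat_lit 4) (nat_lit 2) (nat_lit 5) (nat_lit 2) (nat_lit 4) (nat_lit 341) (nat_lit 216) (nat_lit 163)) (XT.lf (nat_lit 0) (nat_lit 504499094285) (nat_lit 76) (nat_lit 1386699260582) (nat_lit 76) (nat_lit 1384286678160) (nat_lit 1) (nat_lit 4) (nat_lit 2) (nat_lit 5) (nat_lit 2) (nat_lit 4) (nat_lit 342) (nat_lit 216) (nat_lit 162)))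 (XT.nd (nat_lit 33072) (nat_lit 0) (nat_lit 76) (XT.lf (nat_lit 0) (nat_lit 546891243534) (nat_lit 76) (nat_lit 1496480468671) (nat_lit 76) (nat_lit 1494065040965) (nat_lit 1) (nat_lit 4) (nat_lit 2) (nat_lit 5) (nat_lit 2) (nat_lit 4) (nat_lit 343) (nat_lit 216) (nat_lit 161)) (XT.lf (nat_lit 0) (nat_lit 587390497) (nat_lit 152) (nat_lit 21919478753) (nat_lit 0) (nat_lit 587390497) (nat_lit 2) (nat_lit 5) (nat_lit 4) (nat_lit 4) (nat_lit 2) (nat_lit 4) (nat_lit 286) (nat_lit 217) (nat_lit 217)))))) (XT.nd (nat_lit 546) (nat_lit 0) (nat_lit 0) (XT.nd (nat_lit 234) (nat_lit 0) (nat_lit 0) (XT.nd (nat_lit 78) (nat_lit 0) (nat_lit 0) (XT.lf (nat_lit 0) (nat_lit 4200160128) (nat_lit 152) (nat_lit 41424235531) (nat_lit 0) (nat_lit 4004080627) (nat_lit 2) (nat_lit 5) (nat_lit 4) (nat_lit 4) (nat_lit 2) (nat_lit 4) (nat_lit 287) (nat_lit 217) (nat_lit 216)) (XT.nd (nat_lit 78) (nat_lit 0)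 (nat_lit 0) (XT.lf (nat_lit 0) (nat_lit 7314316472) (nat_lit 152) (nat_lit 39105070542) (nat_lit 0) (nat_lit 6936681879) (nat_lit 2) (nat_lit 5) (nat_lit 4) (nat_lit 4) (nat_lit 2) (nat_lit 4) (nat_lit 288) (nat_lit 217) (nat_lit 215)) (XT.lf (nat_lit 0) (nat_lit 10535704289) (nat_lit 152) (nat_lit 36867719341) (nat_lit 0) (nat_lit 9989963128) (nat_lit 2) (nat_lit 5) (nat_lit 4) (nat_lit 4) (nat_lit 2) (nat_lit 4) (nat_lit 289) (nat_lit 217) (nat_lit 214)))) (XT.nd (nat_lit 156) (nat_lit 0) (nat_lit 0) (XT.nd (nat_lit 78) (nat_lit 0) (nat_lit 0) (XT.lf (nat_lit 0) (nat_lit 13883413284) (nat_lit 152) (nat_lit 34698923550) (nat_lit 0) (nat_lit 13182017893) (nat_lit 2) (nat_lit 5) (nat_lit 4) (nat_lit 4) (nat_lit 2) (nat_lit 4) (nat_lit 290) (nat_lit 217) (nat_lit 213)) (XT.lf (nat_lit 0) (nat_lit 17377281732) (nat_lit 152) (nat_lit 32585831045) (nat_lit 0) (nat_lit 16531762055) (nat_lit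 2) (nat_lit 5) (nat_lit 4) (nat_lit 4) (nat_lit 2) (nat_lit 4) (nat_lit 291) (nat_lit 217) (nat_lit 212))) (XT.nd (nat_lit 78) (nat_lit 0) (nat_lit 0) (XT.lf (nat_lit 0) (nat_lit 21038014038) (nat_lit 152) (nat_lit 30515919798) (nat_lit 0) (nat_lit 20059045948) (nat_lit 2) (nat_lit 5) (nat_lit 4) (nat_lit 4) (nat_lit 2) (nat_lit 4) (nat_lit 292) (nat_lit 217) (nat_lit 211)) (XT.lf (nat_lit 0) (nat_lit 24887303432) (nat_lit 152) (nat_lit 28476923666) (nat_lit 0) (nat_lit 23784771996) (nat_lit 2) (nat_lit 5) (nat_lit 4) (nat_lit 4) (nat_lit 2) (nat_lit 4) (nat_lit 293) (nat_lit 217) (nat_lit 210))))) (XT.nd (nat_lit 234) (nat_lit 0) (nat_lit 0) (XT.nd (nat_lit 78) (nat_lit 0) (nat_lit 0) (XT.lf (nat_lit 0) (nat_lit 28947960517) (nat_lit 152) (nat_lit 26456759711) (nat_lit 0) (nat_lit 27731018576) (nat_lit 2) (nat_lit 5) (nat_lit 4) (nat_lit 4) (nat_lit 2) (nat_lit 4) (nat_lit 294) (nat_lit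 217) (nat_lit 209)) (XT.nd (nat_lit 78) (nat_lit 0) (nat_lit 0) (XT.lf (nat_lit 0) (nat_lit 33244048447) (nat_lit 152) (nat_lit 24443456591) (nat_lit 0) (nat_lit 31921170852) (nat_lit 2) (nat_lit 5) (nat_lit 4) (nat_lit 4) (nat_lit 2) (nat_lit 4) (nat_lit 295) (nat_lit 217) (nat_lit 208)) (XT.lf (nat_lit 0) (nat_lit 37801025519) (nat_lit 152) (nat_lit 22425083619) (nat_lit 0) (nat_lit 36380059357) (nat_lit 2) (nat_lit 5) (nat_lit 4) (nat_lit 4) (nat_lit 2) (nat_lit 4) (nat_lit 296) (nat_lit 217) (nat_lit 207)))) (XT.nd (nat_lit 156) (nat_lit 0) (nat_lit 0) (XT.nd (nat_lit 78) (nat_lit 0) (nat_lit 0) (XT.lf (nat_lit 0) (nat_lit 42645896043) (nat_lit 152) (nat_lit 20389680068) (nat_lit 0) (nat_lit 41134107133) (nat_lit 2) (nat_lit 5) (nat_lit 4) (nat_lit 4) (nat_lit 2) (nat_lit 4) (nat_lit 297) (nat_lit 217) (nat_lit 206)) (XT.lf (nat_lit 0) (nat_lit 47807370362) (nat_lit 152) (nat_lit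 18325184287) (nat_lit 0) (nat_lit 46211486315) (nat_lit 2) (nat_lit 5) (nat_lit 4) (nat_lit 4) (nat_lit 2) (nat_lit 4) (nat_lit 298) (nat_lit 217) (nat_lit 205))) (XT.nd (nat_lit 78) (nat_lit 0) (nat_lit 0) (XT.lf (nat_lit 0) (nat_lit 53316034992) (nat_lit 152) (nat_lit 16219362227) (nat_lit 0) (nat_lit 51642285077) (nat_lit 2) (nat_lit 5) (nat_lit 4) (nat_lit 4) (nat_lit 2) (nat_lit 4) (nat_lit 299) (nat_lit 217) (nat_lit 204)) (XT.lf (nat_lit 0) (nat_lit 59204533869) (nat_lit 152) (nat_lit 14059734941) (nat_lit 0) (nat_lit 57458685930) (nat_lit 2) (nat_lit 5) (nat_lit 4) (nat_lit 4) (nat_lit 2) (nat_lit 4) (nat_lit 300) (nat_lit 217) (nat_lit 203))))))))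
noncomputable def xc16 : XT := (XT.nd (nat_lit 2028) (nat_lit 0) (nat_lit 0) (XT.nd (nat_lit 1014) (nat_lit 0) (nat_lit 0) (XT.nd (nat_lit 468) (nat_lit 0) (nat_lit 0) (XT.nd (nat_lit 234) (nat_lit 76) (nat_lit 0) (XT.nd (nat_lit 78) (nat_lit 0) (nat_lit 0) (XT.lf (nat_lit 0) (nat_lit 65507761804) (nat_lit 152) (nat_lit 11833504640) (nat_lit 0) (nat_lit 63695156433) (nat_lit 2) (nat_lit 5) (nat_lit 4) (nat_lit 4) (nat_lit 2) (nat_lit 4) (nat_lit 301) (nat_lit 217) (nat_lit 202)) (XT.nd (nat_lit 78) (nat_lit 0) (nat_lit 0) (XT.lf (nat_lit 0) (nat_lit 72263071257) (nat_lit 152) (nat_lit 9527478846) (nat_lit 0) (nat_lit 70388653450) (nat_lit 2) (nat_lit 5) (nat_lit 4) (nat_lit 4) (nat_lit 2) (nat_lit 4) (nat_lit 302) (nat_lit 217) (nat_lit 201)) (XT.lf (nat_lit 0) (nat_lit 79510493692) (nat_lit 152) (nat_lit 7127992223) (nat_lit 0) (nat_lit 77578842148) (nat_lit 2) (nat_lit 5) (nat_lit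 4) (nat_lit 4) (nat_lit 2) (nat_lit 4) (nat_lit 303) (nat_lit 217) (nat_lit 200)))) (XT.nd (nat_lit 78) (nat_lit 76) (nat_lit 0) (XT.lf (nat_lit 0) (nat_lit 87292976797) (nat_lit 152) (nat_lit 4620825589) (nat_lit 0) (nat_lit 85308331052) (nat_lit 2) (nat_lit 5) (nat_lit 4) (nat_lit 4) (nat_lit 2) (nat_lit 4) (nat_lit 304) (nat_lit 217) (nat_lit 199)) (XT.nd (nat_lit 78) (nat_lit 76) (nat_lit 0) (XT.lf (nat_lit 0) (nat_lit 95656638991) (nat_lit 152) (nat_lit 1991121661) (nat_lit 0) (nat_lit 93622924542) (nat_lit 2) (nat_lit 5) (nat_lit 4) (nat_lit 4) (nat_lit 2) (nat_lit 4) (nat_lit 305) (nat_lit 217) (nat_lit 198)) (XT.lf (nat_lit 0) (nat_lit 817602793) (nat_lit 76) (nat_lit 103853103291) (nat_lit 76) (nat_lit 101773954856) (nat_lit 1) (nat_lit 4) (nat_lit 2) (nat_lit 5) (nat_lit 2) (nat_lit 4) (nat_lit 306) (nat_lit 217) (nat_lit 197))))) (XT.nd (nat_lit 234) (nat_lit 0) (nat_lit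 0) (XT.nd (nat_lit 78) (nat_lit 0) (nat_lit 0) (XT.lf (nat_lit 0) (nat_lit 3893835723) (nat_lit 76) (nat_lit 110529299264) (nat_lit 76) (nat_lit 108408082323) (nat_lit 1) (nat_lit 4) (nat_lit 2) (nat_lit 5) (nat_lit 2) (nat_lit 4) (nat_lit 307) (nat_lit 217) (nat_lit 196)) (XT.nd (nat_lit 78) (nat_lit 0) (nat_lit 0) (XT.lf (nat_lit 0) (nat_lit 7150957719) (nat_lit 76) (nat_lit 117770352010) (nat_lit 76) (nat_lit 115610182750) (nat_lit 1) (nat_lit 4) (nat_lit 2) (nat_lit 5) (nat_lit 2) (nat_lit 4) (nat_lit 308) (nat_lit 217) (nat_lit 195)) (XT.lf (nat_lit 0) (nat_lit 10608270244) (nat_lit 76) (nat_lit 125619171471) (nat_lit 76) (nat_lit 123422935248) (nat_lit 1) (nat_lit 4) (nat_lit 2) (nat_lit 5) (nat_lit 2) (nat_lit 4) (nat_lit 309) (nat_lit 217) (nat_lit 194)))) (XT.nd (nat_lit 156) (nat_lit 0) (nat_lit 0) (XT.nd (nat_lit 78) (nat_lit 0) (nat_lit 0) (XT.lf (nat_lit 0) (nat_lit 14286261077)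 (nat_lit 76) (nat_lit 134122269171) (nat_lit 76) (nat_lit 131892637612) (nat_lit 1) (nat_lit 4) (nat_lit 2) (nat_lit 5) (nat_lit 2) (nat_lit 4) (nat_lit 310) (nat_lit 217) (nat_lit 193)) (XT.lf (nat_lit 0) (nat_lit 18206725718) (nat_lit 76) (nat_lit 143330033836) (nat_lit 76) (nat_lit 141069480669) (nat_lit 1) (nat_lit 4) (nat_lit 2) (nat_lit 5) (nat_lit 2) (nat_lit 4) (nat_lit 311) (nat_lit 217) (nat_lit 192))) (XT.nd (nat_lit 78) (nat_lit 0) (nat_lit 0) (XT.lf (nat_lit 0) (nat_lit 22392896550) (nat_lit 76) (nat_lit 153297029997) (nat_lit 76) (nat_lit 151007845712) (nat_lit 1) (nat_lit 4) (nat_lit 2) (nat_lit 5) (nat_lit 2) (nat_lit 4) (nat_lit 312) (nat_lit 217) (nat_lit 191)) (XT.lf (nat_lit 0) (nat_lit 26869580513) (nat_lit 76) (nat_lit 164082321335) (nat_lit 76) (nat_lit 161766626757) (nat_lit 1) (nat_lit 4) (nat_lit 2) (nat_lit 5) (nat_lit 2) (nat_lit 4) (nat_lit 313) (nat_lit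 217) (nat_lit 190)))))) (XT.nd (nat_lit 468) (nat_lit 0) (nat_lit 0) (XT.nd (nat_lit 234) (nat_lit 0) (nat_lit 0) (XT.nd (nat_lit 78) (nat_lit 0) (nat_lit 0) (XT.lf (nat_lit 0) (nat_lit 31663306102) (nat_lit 76) (nat_lit 175749820689) (nat_lit 76) (nat_lit 173409579541) (nat_lit 1) (nat_lit 4) (nat_lit 2) (nat_lit 5) (nat_lit 2) (nat_lit 4) (nat_lit 314) (nat_lit 217) (nat_lit 189)) (XT.nd (nat_lit 78) (nat_lit 0) (nat_lit 0) (XT.lf (nat_lit 0) (nat_lit 36802480582) (nat_lit 76) (nat_lit 188368668794) (nat_lit 76) (nat_lit 186005699342) (nat_lit 1) (nat_lit 4) (nat_lit 2) (nat_lit 5) (nat_lit 2) (nat_lit 4) (nat_lit 315) (nat_lit 217) (nat_lit 188)) (XT.lf (nat_lit 0) (nat_lit 42317558319) (nat_lit 76) (nat_lit 202013644011) (nat_lit 76) (nat_lit 199629629833) (nat_lit 1) (nat_lit 4) (nat_lit 2) (nat_lit 5) (nat_lit 2) (nat_lit 4) (nat_lit 316) (nat_lit 217) (nat_lit 187)))) (XT.nd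 (nat_lit 78) (nat_lit 0) (nat_lit 0) (XT.lf (nat_lit 0) (nat_lit 48241221256) (nat_lit 76) (nat_lit 216765605451) (nat_lit 76) (nat_lit 214362105415) (nat_lit 1) (nat_lit 4) (nat_lit 2) (nat_lit 5) (nat_lit 2) (nat_lit 4) (nat_lit 317) (nat_lit 217) (nat_lit 186)) (XT.nd (nat_lit 78) (nat_lit 0) (nat_lit 0) (XT.lf (nat_lit 0) (nat_lit 54608572580) (nat_lit 76) (nat_lit 232711972145) (nat_lit 76) (nat_lit 230290429648) (nat_lit 1) (nat_lit 4) (nat_lit 2) (nat_lit 5) (nat_lit 2) (nat_lit 4) (nat_lit 318) (nat_lit 217) (nat_lit 185)) (XT.lf (nat_lit 0) (nat_lit 61457344744) (nat_lit 76) (nat_lit 249947241081) (nat_lit 76) (nat_lit 247508992602) (nat_lit 1) (nat_lit 4) (nat_lit 2) (nat_lit 5) (nat_lit 2) (nat_lit 4) (nat_lit 319) (nat_lit 217) (nat_lit 184))))) (XT.nd (nat_lit 234) (nat_lit 0) (nat_lit 0) (XT.nd (nat_lit 78) (nat_lit 0) (nat_lit 0) (XT.lf (nat_lit 0) (nat_lit 68828123064)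 (nat_lit 76) (nat_lit 268573547186) (nat_lit 76) (nat_lit 266119830205) (nat_lit 1) (nat_lit 4) (nat_lit 2) (nat_lit 5) (nat_lit 2) (nat_lit 4) (nat_lit 320) (nat_lit 217) (nat_lit 183)) (XT.nd (nat_lit 78) (nat_lit 0) (nat_lit 0) (XT.lf (nat_lit 0) (nat_lit 76764586227) (nat_lit 76) (nat_lit 288701268571) (nat_lit 76) (nat_lit 286233228903) (nat_lit 1) (nat_lit 4) (nat_lit 2) (nat_lit 5) (nat_lit 2) (nat_lit 4) (nat_lit 321) (nat_lit 217) (nat_lit 182)) (XT.lf (nat_lit 0) (nat_lit 85313765124) (nat_lit 76) (nat_lit 310449680621) (nat_lit 76) (nat_lit 307968379205) (nat_lit 1) (nat_lit 4) (nat_lit 2) (nat_lit 5) (nat_lit 2) (nat_lit 4) (nat_lit 322) (nat_lit 217) (nat_lit 181)))) (XT.nd (nat_lit 156) (nat_lit 0) (nat_lit 0) (XT.nd (nat_lit 78) (nat_lit 0) (nat_lit 0) (XT.lf (nat_lit 0) (nat_lit 94526321558) (nat_lit 76) (nat_lit 333947662815) (nat_lit 76) (nat_lit 331454082003) (nat_lit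 1) (nat_lit 4) (nat_lit 2) (nat_lit 5) (nat_lit 2) (nat_lit 4) (nat_lit 323) (nat_lit 217) (nat_lit 180)) (XT.lf (nat_lit 0) (nat_lit 104456848455) (nat_lit 76) (nat_lit 359334462454) (nat_lit 76) (nat_lit 356829511832) (nat_lit 1) (nat_lit 4) (nat_lit 2) (nat_lit 5) (nat_lit 2) (nat_lit 4) (nat_lit 324) (nat_lit 217) (nat_lit 179))) (XT.nd (nat_lit 78) (nat_lit 0) (nat_lit 0) (XT.lf (nat_lit 0) (nat_lit 115164193382) (nat_lit 76) (nat_lit 386760519835) (nat_lit 76) (nat_lit 384245041610) (nat_lit 1) (nat_lit 4) (nat_lit 2) (nat_lit 5) (nat_lit 2) (nat_lit 4) (nat_lit 325) (nat_lit 217) (nat_lit 178)) (XT.lf (nat_lit 0) (nat_lit 126711807272) (nat_lit 76) (nat_lit 416388359739) (nat_lit 76) (nat_lit 413863133734) (nat_lit 1) (nat_lit 4) (nat_lit 2) (nat_lit 5) (nat_lit 2) (nat_lit 4) (nat_lit 326) (nat_lit 217) (nat_lit 177))))))) (XT.nd (nat_lit 1014) (nat_lit 0) (nat_lit 0) (XT.nd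 (nat_lit 468) (nat_lit 0) (nat_lit 0) (XT.nd (nat_lit 234) (nat_lit 0) (nat_lit 0) (XT.nd (nat_lit 78) (nat_lit 0) (nat_lit 0) (XT.lf (nat_lit 0) (nat_lit 139168120430) (nat_lit 76) (nat_lit 448393554553) (nat_lit 76) (nat_lit 445859302826) (nat_lit 1) (nat_lit 4) (nat_lit 2) (nat_lit 5) (nat_lit 2) (nat_lit 4) (nat_lit 327) (nat_lit 217) (nat_lit 176)) (XT.nd (nat_lit 78) (nat_lit 0) (nat_lit 0) (XT.lf (nat_lit 0) (nat_lit 152606948043) (nat_lit 76) (nat_lit 482965764690) (nat_lit 76) (nat_lit 480423155812) (nat_lit 1) (nat_lit 4) (nat_lit 2) (nat_lit 5) (nat_lit 2) (nat_lit 4) (nat_lit 328) (nat_lit 217) (nat_lit 175)) (XT.lf (nat_lit 0) (nat_lit 167107927611) (nat_lit 76) (nat_lit 520309862507) (nat_lit 76) (nat_lit 517759515527) (nat_lit 1) (nat_lit 4) (nat_lit 2) (nat_lit 5) (nat_lit 2) (nat_lit 4) (nat_lit 329) (nat_lit 217) (nat_lit 174)))) (XT.nd (nat_lit 78) (nat_lit 0) (nat_lit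 0) (XT.lf (nat_lit 0) (nat_lit 182756990862) (nat_lit 76) (nat_lit 560647146360) (nat_lit 76) (nat_lit 558089634470) (nat_lit 1) (nat_lit 4) (nat_lit 2) (nat_lit 5) (nat_lit 2) (nat_lit 4) (nat_lit 330) (nat_lit 217) (nat_lit 173)) (XT.nd (nat_lit 78) (nat_lit 0) (nat_lit 0) (XT.lf (nat_lit 0) (nat_lit 199646872988) (nat_lit 76) (nat_lit 604216652006) (nat_lit 76) (nat_lit 601652505941) (nat_lit 1) (nat_lit 4) (nat_lit 2) (nat_lit 5) (nat_lit 2) (nat_lit 4) (nat_lit 331) (nat_lit 217) (nat_lit 172)) (XT.lf (nat_lit 0) (nat_lit 217877662178) (nat_lit 76) (nat_lit 651276569107) (nat_lit 76) (nat_lit 648706280288) (nat_lit 1) (nat_lit 4) (nat_lit 2) (nat_lit 5) (nat_lit 2) (nat_lit 4) (nat_lit 332) (nat_lit 217) (nat_lit 171))))) (XT.nd (nat_lit 234) (nat_lit 0) (nat_lit 0) (XT.nd (nat_lit 78) (nat_lit 0) (nat_lit 0) (XT.lf (nat_lit 0) (nat_lit 237557392738) (nat_lit 76) (nat_lit 702105771248)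 (nat_lit 76) (nat_lit 699529794692) (nat_lit 1) (nat_lit 4) (nat_lit 2) (nat_lit 5) (nat_lit 2) (nat_lit 4) (nat_lit 333) (nat_lit 217) (nat_lit 170)) (XT.nd (nat_lit 78) (nat_lit 0) (nat_lit 0) (XT.lf (nat_lit 0) (nat_lit 258802685294) (nat_lit 76) (nat_lit 757005468515) (nat_lit 76) (nat_lit 754424225536) (nat_lit 1) (nat_lit 4) (nat_lit 2) (nat_lit 5) (nat_lit 2) (nat_lit 4) (nat_lit 334) (nat_lit 217) (nat_lit 169)) (XT.lf (nat_lit 0) (nat_lit 281739437877) (nat_lit 76) (nat_lit 816300992446) (nat_lit 76) (nat_lit 813714873151) (nat_lit 1) (nat_lit 4) (nat_lit 2) (nat_lit 5) (nat_lit 2) (nat_lit 4) (nat_lit 335) (nat_lit 217) (nat_lit 168)))) (XT.nd (nat_lit 156) (nat_lit 0) (nat_lit 0) (XT.nd (nat_lit 78) (nat_lit 0) (nat_lit 0) (XT.lf (nat_lit 0) (nat_lit 306503571982) (nat_lit 76) (nat_lit 880343723925) (nat_lit 76) (nat_lit 877753089521) (nat_lit 1) (nat_lit 4) (nat_lit 2) (nat_lit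 5) (nat_lit 2) (nat_lit 4) (nat_lit 336) (nat_lit 217) (nat_lit 167)) (XT.lf (nat_lit 0) (nat_lit 333241838035) (nat_lit 76) (nat_lit 949513175434) (nat_lit 76) (nat_lit 946918360375) (nat_lit 1) (nat_lit 4) (nat_lit 2) (nat_lit 5) (nat_lit 2) (nat_lit 4) (nat_lit 337) (nat_lit 217) (nat_lit 166))) (XT.nd (nat_lit 78) (nat_lit 0) (nat_lit 0) (XT.lf (nat_lit 0) (nat_lit 362112685018) (nat_lit 76) (nat_lit 1024219240020) (nat_lit 76) (nat_lit 1021620553983) (nat_lit 1) (nat_lit 4) (nat_lit 2) (nat_lit 5) (nat_lit 2) (nat_lit 4) (nat_lit 338) (nat_lit 217) (nat_lit 165)) (XT.lf (nat_lit 0) (nat_lit 393287199434) (nat_lit 76) (nat_lit 1104904620287) (nat_lit 76) (nat_lit 1102302350011) (nat_lit 1) (nat_lit 4) (nat_lit 2) (nat_lit 5) (nat_lit 2) (nat_lit 4) (nat_lit 339) (nat_lit 217) (nat_lit 164)))))) (XT.nd (nat_lit 33384) (nat_lit 0) (nat_lit 76) (XT.nd (nat_lit 234) (nat_lit 0) (nat_lit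 0) (XT.nd (nat_lit 78) (nat_lit 0) (nat_lit 0) (XT.lf (nat_lit 0) (nat_lit 426950119145) (nat_lit 76) (nat_lit 1192047451822) (nat_lit 76) (nat_lit 1189441862807) (nat_lit 1) (nat_lit 4) (nat_lit 2) (nat_lit 5) (nat_lit 2) (nat_lit 4) (nat_lit 340) (nat_lit 217) (nat_lit 163)) (XT.nd (nat_lit 78) (nat_lit 0) (nat_lit 0) (XT.lf (nat_lit 0) (nat_lit 463300928119) (nat_lit 76) (nat_lit 1286164136589) (nat_lit 76) (nat_lit 1283555474667) (nat_lit 1) (nat_lit 4) (nat_lit 2) (nat_lit 5) (nat_lit 2) (nat_lit 4) (nat_lit 341) (nat_lit 217) (nat_lit 162)) (XT.lf (nat_lit 0) (nat_lit 502555038558) (nat_lit 76) (nat_lit 1387812403092) (nat_lit 76) (nat_lit 1385200895886) (nat_lit 1) (nat_lit 4) (nat_lit 2) (nat_lit 5) (nat_lit 2) (nat_lit 4) (nat_lit 342) (nat_lit 217) (nat_lit 161)))) (XT.nd (nat_lit 32994) (nat_lit 0) (nat_lit 76) (XT.nd (nat_lit 32916) (nat_lit 0) (nat_lit 228) (XT.lf (nat_lit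 0) (nat_lit 544945067414) (nat_lit 76) (nat_lit 1497594611427) (nat_lit 76) (nat_lit 1494980469699) (nat_lit 1) (nat_lit 4) (nat_lit 2) (nat_lit 5) (nat_lit 2) (nat_lit 4) (nat_lit 343) (nat_lit 217) (nat_lit 160)) (XT.lf (nat_lit 0) (nat_lit 15752928564) (nat_lit 76) (nat_lit 2136132529) (nat_lit 76) (nat_lit 2136132529) (nat_lit 4) (nat_lit 4) (nat_lit 5) (nat_lit 5) (nat_lit 5) (nat_lit 4) (nat_lit 284) (nat_lit 218) (nat_lit 218))) (XT.nd (nat_lit 78) (nat_lit 152) (nat_lit 0) (XT.lf (nat_lit 0) (nat_lit 39739775786) (nat_lit 76) (nat_lit 1745843373) (nat_lit 76) (nat_lit 1517136243) (nat_lit 4) (nat_lit 4) (nat_lit 5) (nat_lit 5) (nat_lit 5) (nat_lit 4) (nat_lit 285) (nat_lit 218) (nat_lit 217)) (XT.lf (nat_lit 0) (nat_lit 1306973121) (nat_lit 152) (nat_lit 43988877471) (nat_lit 0) (nat_lit 899127760) (nat_lit 2) (nat_lit 5) (nat_lit 4) (nat_lit 4) (nat_lit 2) (nat_lit 4) (nat_lit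 286) (nat_lit 218) (nat_lit 216))))) (XT.nd (nat_lit 234) (nat_lit 0) (nat_lit 0) (XT.nd (nat_lit 78) (nat_lit 0) (nat_lit 0) (XT.lf (nat_lit 0) (nat_lit 4258672870) (nat_lit 152) (nat_lit 41712970276) (nat_lit 0) (nat_lit 3669272416) (nat_lit 2) (nat_lit 5) (nat_lit 4) (nat_lit 4) (nat_lit 2) (nat_lit 4) (nat_lit 287) (nat_lit 218) (nat_lit 215)) (XT.nd (nat_lit 78) (nat_lit 0) (nat_lit 0) (XT.lf (nat_lit 0) (nat_lit 7304607563) (nat_lit 152) (nat_lit 39522337493) (nat_lit 0) (nat_lit 6547100541) (nat_lit 2) (nat_lit 5) (nat_lit 4) (nat_lit 4) (nat_lit 2) (nat_lit 4) (nat_lit 288) (nat_lit 218) (nat_lit 214)) (XT.lf (nat_lit 0) (nat_lit 10462827184) (nat_lit 152) (nat_lit 37403997593) (nat_lit 0) (nat_lit 9549665933) (nat_lit 2) (nat_lit 5) (nat_lit 4) (nat_lit 4) (nat_lit 2) (nat_lit 4) (nat_lit 289) (nat_lit 218) (nat_lit 213)))) (XT.nd (nat_lit 156) (nat_lit 0) (nat_lit 0) (XT.nd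 (nat_lit 78) (nat_lit 0) (nat_lit 0) (XT.lf (nat_lit 0) (nat_lit 13752047108) (nat_lit 152) (nat_lit 35345397450) (nat_lit 0) (nat_lit 12694761570) (nat_lit 2) (nat_lit 5) (nat_lit 4) (nat_lit 4) (nat_lit 2) (nat_lit 4) (nat_lit 290) (nat_lit 218) (nat_lit 212)) (XT.lf (nat_lit 0) (nat_lit 17191759009) (nat_lit 152) (nat_lit 33334337954) (nat_lit 0) (nat_lit 16001025058) (nat_lit 2) (nat_lit 5) (nat_lit 4) (nat_lit 4) (nat_lit 2) (nat_lit 4) (nat_lit 291) (nat_lit 218) (nat_lit 211))) (XT.nd (nat_lit 78) (nat_lit 0) (nat_lit 0) (XT.lf (nat_lit 0) (nat_lit 20802346365) (nat_lit 152) (nat_lit 31358901714) (nat_lit 0) (nat_lit 19488049069) (nat_lit 2) (nat_lit 5) (nat_lit 4) (nat_lit 4) (nat_lit 2) (nat_lit 4) (nat_lit 292) (nat_lit 218) (nat_lit 210)) (XT.lf (nat_lit 0) (nat_lit 24605205250) (nat_lit 152) (nat_lit 29407382442) (nat_lit 0) (nat_lit 23176497447) (nat_lit 2) (nat_lit 5)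 (nat_lit 4) (nat_lit 4) (nat_lit 2) (nat_lit 4) (nat_lit 293) (nat_lit 218) (nat_lit 209))))))))
noncomputable def xc17 : XT := (XT.nd (nat_lit 2028) (nat_lit 0) (nat_lit 0) (XT.nd (nat_lit 1014) (nat_lit 76) (nat_lit 0) (XT.nd (nat_lit 468) (nat_lit 0) (nat_lit 0) (XT.nd (nat_lit 234) (nat_lit 0) (nat_lit 0) (XT.nd (nat_lit 78) (nat_lit 0) (nat_lit 0) (XT.lf (nat_lit 0) (nat_lit 28622871122) (nat_lit 152) (nat_lit 27468215579) (nat_lit 0) (nat_lit 27088227667) (nat_lit 2) (nat_lit 5) (nat_lit 4) (nat_lit 4) (nat_lit 2) (nat_lit 4) (nat_lit 294) (nat_lit 218) (nat_lit 208)) (XT.nd (nat_lit 78) (nat_lit 0) (nat_lit 0) (XT.lf (nat_lit 0) (nat_lit 32879152372) (nat_lit 152) (nat_lit 25529909765) (nat_lit 0) (nat_lit 31246420350) (nat_lit 2) (nat_lit 5) (nat_lit 4) (nat_lit 4) (nat_lit 2) (nat_lit 4) (nat_lit 295) (nat_lit 218) (nat_lit 207)) (XT.lf (nat_lit 0) (nat_lit 37399271409) (nat_lit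 152) (nat_lit 23580978745) (nat_lit 0) (nat_lit 35675716639) (nat_lit 2) (nat_lit 5) (nat_lit 4) (nat_lit 4) (nat_lit 2) (nat_lit 4) (nat_lit 296) (nat_lit 218) (nat_lit 206)))) (XT.nd (nat_lit 78) (nat_lit 0) (nat_lit 0) (XT.lf (nat_lit 0) (nat_lit 42210014122) (nat_lit 152) (nat_lit 21609873297) (nat_lit 0) (nat_lit 40402364215) (nat_lit 2) (nat_lit 5) (nat_lit 4) (nat_lit 4) (nat_lit 2) (nat_lit 4) (nat_lit 297) (nat_lit 218) (nat_lit 205)) (XT.nd (nat_lit 78) (nat_lit 0) (nat_lit 0) (XT.lf (nat_lit 0) (nat_lit 47339888617) (nat_lit 152) (nat_lit 19604912796) (nat_lit 0) (nat_lit 45454372842) (nat_lit 2) (nat_lit 5) (nat_lit 4) (nat_lit 4) (nat_lit 2) (nat_lit 4) (nat_lit 298) (nat_lit 218) (nat_lit 204)) (XT.lf (nat_lit 0) (nat_lit 52819294149) (nat_lit 152) (nat_lit 17554215995) (nat_lit 0) (nat_lit 50861680349) (nat_lit 2) (nat_lit 5) (nat_lit 4) (nat_lit 4) (nat_lit 2) (nat_lit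 4) (nat_lit 299) (nat_lit 218) (nat_lit 203))))) (XT.nd (nat_lit 234) (nat_lit 0) (nat_lit 0) (XT.nd (nat_lit 78) (nat_lit 0) (nat_lit 0) (XT.lf (nat_lit 0) (nat_lit 58680701270) (nat_lit 152) (nat_lit 15445630617) (nat_lit 0) (nat_lit 56656330039) (nat_lit 2) (nat_lit 5) (nat_lit 4) (nat_lit 4) (nat_lit 2) (nat_lit 4) (nat_lit 300) (nat_lit 218) (nat_lit 202)) (XT.nd (nat_lit 78) (nat_lit 0) (nat_lit 0) (XT.lf (nat_lit 0) (nat_lit 64958844245) (nat_lit 152) (nat_lit 13266661340) (nat_lit 0) (nat_lit 62872660578) (nat_lit 2) (nat_lit 5) (nat_lit 4) (nat_lit 4) (nat_lit 2) (nat_lit 4) (nat_lit 301) (nat_lit 218) (nat_lit 201)) (XT.lf (nat_lit 0) (nat_lit 71690926884) (nat_lit 152) (nat_lit 11004395755) (nat_lit 0) (nat_lit 69547509479) (nat_lit 2) (nat_lit 5) (nat_lit 4) (nat_lit 4) (nat_lit 2) (nat_lit 4) (nat_lit 302) (nat_lit 218) (nat_lit 200)))) (XT.nd (nat_lit 156) (nat_lit 0)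 (nat_lit 0) (XT.nd (nat_lit 78) (nat_lit 0) (nat_lit 0) (XT.lf (nat_lit 0) (nat_lit 78916843009) (nat_lit 152) (nat_lit 8645427843) (nat_lit 0) (nat_lit 76720431403) (nat_lit 2) (nat_lit 5) (nat_lit 4) (nat_lit 4) (nat_lit 2) (nat_lit 4) (nat_lit 303) (nat_lit 218) (nat_lit 199)) (XT.lf (nat_lit 0) (nat_lit 86679412864) (nat_lit 152) (nat_lit 6175778535) (nat_lit 0) (nat_lit 84433932554) (nat_lit 2) (nat_lit 5) (nat_lit 4) (nat_lit 4) (nat_lit 2) (nat_lit 4) (nat_lit 304) (nat_lit 218) (nat_lit 198))) (XT.nd (nat_lit 78) (nat_lit 0) (nat_lit 0) (XT.lf (nat_lit 0) (nat_lit 95024636864) (nat_lit 152) (nat_lit 3580812871) (nat_lit 0) (nat_lit 92733722569) (nat_lit 2) (nat_lit 5) (nat_lit 4) (nat_lit 4) (nat_lit 2) (nat_lit 4) (nat_lit 305) (nat_lit 218) (nat_lit 197)) (XT.lf (nat_lit 0) (nat_lit 104001968188) (nat_lit 152) (nat_lit 845153279) (nat_lit 0) (nat_lit 101668985387) (nat_lit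 2) (nat_lit 5) (nat_lit 4) (nat_lit 4) (nat_lit 2) (nat_lit 4) (nat_lit 306) (nat_lit 218) (nat_lit 196)))))) (XT.nd (nat_lit 468) (nat_lit 0) (nat_lit 0) (XT.nd (nat_lit 234) (nat_lit 0) (nat_lit 0) (XT.nd (nat_lit 78) (nat_lit 0) (nat_lit 0) (XT.lf (nat_lit 0) (nat_lit 2155224622) (nat_lit 76) (nat_lit 111561214417) (nat_lit 76) (nat_lit 109189279296) (nat_lit 1) (nat_lit 4) (nat_lit 2) (nat_lit 5) (nat_lit 2) (nat_lit 4) (nat_lit 307) (nat_lit 218) (nat_lit 195)) (XT.nd (nat_lit 78) (nat_lit 0) (nat_lit 0) (XT.lf (nat_lit 0) (nat_lit 5383318142) (nat_lit 76) (nat_lit 118815960670) (nat_lit 76) (nat_lit 116407958587) (nat_lit 1) (nat_lit 4) (nat_lit 2) (nat_lit 5) (nat_lit 2) (nat_lit 4) (nat_lit 308) (nat_lit 218) (nat_lit 194)) (XT.lf (nat_lit 0) (nat_lit 8813752449) (nat_lit 76) (nat_lit 126677459306) (nat_lit 76) (nat_lit 124236061886) (nat_lit 1) (nat_lit 4) (nat_lit 2) (nat_lit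 5) (nat_lit 2) (nat_lit 4) (nat_lit 309) (nat_lit 218) (nat_lit 193)))) (XT.nd (nat_lit 78) (nat_lit 0) (nat_lit 0) (XT.lf (nat_lit 0) (nat_lit 12466856042) (nat_lit 76) (nat_lit 135192296981) (nat_lit 76) (nat_lit 132719977954) (nat_lit 1) (nat_lit 4) (nat_lit 2) (nat_lit 5) (nat_lit 2) (nat_lit 4) (nat_lit 310) (nat_lit 218) (nat_lit 192)) (XT.nd (nat_lit 78) (nat_lit 0) (nat_lit 0) (XT.lf (nat_lit 0) (nat_lit 16364276942) (nat_lit 76) (nat_lit 144410931993) (nat_lit 76) (nat_lit 141909981848) (nat_lit 1) (nat_lit 4) (nat_lit 2) (nat_lit 5) (nat_lit 2) (nat_lit 4) (nat_lit 311) (nat_lit 218) (nat_lit 191)) (XT.lf (nat_lit 0) (nat_lit 20529110978) (nat_lit 76) (nat_lit 154387993291) (nat_lit 76) (nat_lit 151860532852) (nat_lit 1) (nat_lit 4) (nat_lit 2) (nat_lit 5) (nat_lit 2) (nat_lit 4) (nat_lit 312) (nat_lit 218) (nat_lit 190))))) (XT.nd (nat_lit 234) (nat_lit 0) (nat_lit 0) (XT.nd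 (nat_lit 78) (nat_lit 0) (nat_lit 0) (XT.lf (nat_lit 0) (nat_lit 24986038648) (nat_lit 76) (nat_lit 165182604200) (nat_lit 76) (nat_lit 162630597193) (nat_lit 1) (nat_lit 4) (nat_lit 2) (nat_lit 5) (nat_lit 2) (nat_lit 4) (nat_lit 313) (nat_lit 218) (nat_lit 189)) (XT.nd (nat_lit 78) (nat_lit 0) (nat_lit 0) (XT.lf (nat_lit 0) (nat_lit 29761471374) (nat_lit 76) (nat_lit 176858732787) (nat_lit 76) (nat_lit 174283997474) (nat_lit 1) (nat_lit 4) (nat_lit 2) (nat_lit 5) (nat_lit 2) (nat_lit 4) (nat_lit 314) (nat_lit 218) (nat_lit 188)) (XT.lf (nat_lit 0) (nat_lit 34883708016) (nat_lit 76) (nat_lit 189485570922) (nat_lit 76) (nat_lit 186889790883) (nat_lit 1) (nat_lit 4) (nat_lit 2) (nat_lit 5) (nat_lit 2) (nat_lit 4) (nat_lit 315) (nat_lit 218) (nat_lit 187)))) (XT.nd (nat_lit 156) (nat_lit 0) (nat_lit 0) (XT.nd (nat_lit 78) (nat_lit 0) (nat_lit 0) (XT.lf (nat_lit 0) (nat_lit 40383102571)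 (nat_lit 76) (nat_lit 203137944315) (nat_lit 76) (nat_lit 200522678418) (nat_lit 1) (nat_lit 4) (nat_lit 2) (nat_lit 5) (nat_lit 2) (nat_lit 4) (nat_lit 316) (nat_lit 218) (nat_lit 186)) (XT.lf (nat_lit 0) (nat_lit 46292244043) (nat_lit 76) (nat_lit 217896755918) (nat_lit 76) (nat_lit 215263447560) (nat_lit 1) (nat_lit 4) (nat_lit 2) (nat_lit 5) (nat_lit 2) (nat_lit 4) (nat_lit 317) (nat_lit 218) (nat_lit 185))) (XT.nd (nat_lit 78) (nat_lit 0) (nat_lit 0) (XT.lf (nat_lit 0) (nat_lit 52646149566) (nat_lit 76) (nat_lit 233849465355) (nat_lit 76) (nat_lit 231199451016) (nat_lit 1) (nat_lit 4) (nat_lit 2) (nat_lit 5) (nat_lit 2) (nat_lit 4) (nat_lit 318) (nat_lit 218) (nat_lit 184)) (XT.lf (nat_lit 0) (nat_lit 59482471914) (nat_lit 76) (nat_lit 251090607202) (nat_lit 76) (nat_lit 248425124360) (nat_lit 1) (nat_lit 4) (nat_lit 2) (nat_lit 5) (nat_lit 2) (nat_lit 4) (nat_lit 319) (nat_lit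 218) (nat_lit 183))))))) (XT.nd (nat_lit 1014) (nat_lit 0) (nat_lit 0) (XT.nd (nat_lit 468) (nat_lit 0) (nat_lit 0) (XT.nd (nat_lit 234) (nat_lit 0) (nat_lit 0) (XT.nd (nat_lit 78) (nat_lit 0) (nat_lit 0) (XT.lf (nat_lit 0) (nat_lit 66841722626) (nat_lit 76) (nat_lit 269722351188) (nat_lit 76) (nat_lit 267042545659) (nat_lit 1) (nat_lit 4) (nat_lit 2) (nat_lit 5) (nat_lit 2) (nat_lit 4) (nat_lit 320) (nat_lit 218) (nat_lit 182)) (XT.nd (nat_lit 78) (nat_lit 0) (nat_lit 0) (XT.lf (nat_lit 0) (nat_lit 74767512078) (nat_lit 76) (nat_lit 289855107646) (nat_lit 76) (nat_lit 287162040370) (nat_lit 1) (nat_lit 4) (nat_lit 2) (nat_lit 5) (nat_lit 2) (nat_lit 4) (nat_lit 321) (nat_lit 218) (nat_lit 181)) (XT.lf (nat_lit 0) (nat_lit 83306807911) (nat_lit 76) (nat_lit 311608181802) (nat_lit 76) (nat_lit 308902835130) (nat_lit 1) (nat_lit 4) (nat_lit 2) (nat_lit 5) (nat_lit 2) (nat_lit 4) (nat_lit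 322) (nat_lit 218) (nat_lit 180)))) (XT.nd (nat_lit 78) (nat_lit 0) (nat_lit 0) (XT.lf (nat_lit 0) (nat_lit 92510213359) (nat_lit 76) (nat_lit 335110480761) (nat_lit 76) (nat_lit 332393764278) (nat_lit 1) (nat_lit 4) (nat_lit 2) (nat_lit 5) (nat_lit 2) (nat_lit 4) (nat_lit 323) (nat_lit 218) (nat_lit 179)) (XT.nd (nat_lit 78) (nat_lit 0) (nat_lit 0) (XT.lf (nat_lit 0) (nat_lit 102432267120) (nat_lit 76) (nat_lit 360501277405) (nat_lit 76) (nat_lit 357774033320) (nat_lit 1) (nat_lit 4) (nat_lit 2) (nat_lit 5) (nat_lit 2) (nat_lit 4) (nat_lit 324) (nat_lit 218) (nat_lit 178)) (XT.lf (nat_lit 0) (nat_lit 113131766551) (nat_lit 76) (nat_lit 387931035715) (nat_lit 76) (nat_lit 385194043849) (nat_lit 1) (nat_lit 4) (nat_lit 2) (nat_lit 5) (nat_lit 2) (nat_lit 4) (nat_lit 325) (nat_lit 218) (nat_lit 177))))) (XT.nd (nat_lit 234) (nat_lit 0) (nat_lit 0) (XT.nd (nat_lit 78) (nat_lit 0) (nat_lit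 0) (XT.lf (nat_lit 0) (nat_lit 124672116093) (nat_lit 76) (nat_lit 417562302407) (nat_lit 76) (nat_lit 414816284819) (nat_lit 1) (nat_lit 4) (nat_lit 2) (nat_lit 5) (nat_lit 2) (nat_lit 4) (nat_lit 326) (nat_lit 218) (nat_lit 176)) (XT.nd (nat_lit 78) (nat_lit 0) (nat_lit 0) (XT.lf (nat_lit 0) (nat_lit 137121703003) (nat_lit 76) (nat_lit 449570670171) (nat_lit 76) (nat_lit 446816295433) (nat_lit 1) (nat_lit 4) (nat_lit 2) (nat_lit 5) (nat_lit 2) (nat_lit 4) (nat_lit 327) (nat_lit 218) (nat_lit 175)) (XT.lf (nat_lit 0) (nat_lit 150554302609) (nat_lit 76) (nat_lit 484145818226) (nat_lit 76) (nat_lit 481383705385) (nat_lit 1) (nat_lit 4) (nat_lit 2) (nat_lit 5) (nat_lit 2) (nat_lit 4) (nat_lit 328) (nat_lit 218) (nat_lit 174)))) (XT.nd (nat_lit 156) (nat_lit 0) (nat_lit 0) (XT.nd (nat_lit 78) (nat_lit 0) (nat_lit 0) (XT.lf (nat_lit 0) (nat_lit 165049515503) (nat_lit 76) (nat_lit 521492636336)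 (nat_lit 76) (nat_lit 518723358586) (nat_lit 1) (nat_lit 4) (nat_lit 2) (nat_lit 5) (nat_lit 2) (nat_lit 4) (nat_lit 329) (nat_lit 218) (nat_lit 173)) (XT.lf (nat_lit 0) (nat_lit 180693239242) (nat_lit 76) (nat_lit 561832438980) (nat_lit 76) (nat_lit 559056527055) (nat_lit 1) (nat_lit 4) (nat_lit 2) (nat_lit 5) (nat_lit 2) (nat_lit 4) (nat_lit 330) (nat_lit 218) (nat_lit 172))) (XT.nd (nat_lit 78) (nat_lit 0) (nat_lit 0) (XT.lf (nat_lit 0) (nat_lit 197578177374) (nat_lit 76) (nat_lit 605404276839) (nat_lit 76) (nat_lit 602622222159) (nat_lit 1) (nat_lit 4) (nat_lit 2) (nat_lit 5) (nat_lit 2) (nat_lit 4) (nat_lit 331) (nat_lit 218) (nat_lit 171)) (XT.lf (nat_lit 0) (nat_lit 215804388792) (nat_lit 76) (nat_lit 652466353399) (nat_lit 76) (nat_lit 649678610982) (nat_lit 1) (nat_lit 4) (nat_lit 2) (nat_lit 5) (nat_lit 2) (nat_lit 4) (nat_lit 332) (nat_lit 218) (nat_lit 170)))))) (XT.nd (nat_lit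 546) (nat_lit 0) (nat_lit 0) (XT.nd (nat_lit 234) (nat_lit 0) (nat_lit 0) (XT.nd (nat_lit 78) (nat_lit 0) (nat_lit 0) (XT.lf (nat_lit 0) (nat_lit 235479880675) (nat_lit 76) (nat_lit 703297555037) (nat_lit 76) (nat_lit 700504546198) (nat_lit 1) (nat_lit 4) (nat_lit 2) (nat_lit 5) (nat_lit 2) (nat_lit 4) (nat_lit 333) (nat_lit 218) (nat_lit 169)) (XT.nd (nat_lit 78) (nat_lit 0) (nat_lit 0) (XT.lf (nat_lit 0) (nat_lit 256721248531) (nat_lit 76) (nat_lit 758199103689) (nat_lit 76) (nat_lit 755401218534) (nat_lit 1) (nat_lit 4) (nat_lit 2) (nat_lit 5) (nat_lit 2) (nat_lit 4) (nat_lit 334) (nat_lit 218) (nat_lit 168)) (XT.lf (nat_lit 0) (nat_lit 279654367131) (nat_lit 76) (nat_lit 817496341867) (nat_lit 76) (nat_lit 814693941603) (nat_lit 1) (nat_lit 4) (nat_lit 2) (nat_lit 5) (nat_lit 2) (nat_lit 4) (nat_lit 335) (nat_lit 218) (nat_lit 167)))) (XT.nd (nat_lit 156) (nat_lit 0) (nat_lit 0)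 (XT.nd (nat_lit 78) (nat_lit 0) (nat_lit 0) (XT.lf (nat_lit 0) (nat_lit 304415136437) (nat_lit 76) (nat_lit 881540660612) (nat_lit 76) (nat_lit 878734079692) (nat_lit 1) (nat_lit 4) (nat_lit 2) (nat_lit 5) (nat_lit 2) (nat_lit 4) (nat_lit 336) (nat_lit 218) (nat_lit 166)) (XT.lf (nat_lit 0) (nat_lit 331150286935) (nat_lit 76) (nat_lit 950711581811) (nat_lit 76) (nat_lit 947901129913) (nat_lit 1) (nat_lit 4) (nat_lit 2) (nat_lit 5) (nat_lit 2) (nat_lit 4) (nat_lit 337) (nat_lit 218) (nat_lit 165))) (XT.nd (nat_lit 78) (nat_lit 0) (nat_lit 0) (XT.lf (nat_lit 0) (nat_lit 360018249147) (nat_lit 76) (nat_lit 1025419007221) (nat_lit 76) (nat_lit 1022604971085) (nat_lit 1) (nat_lit 4) (nat_lit 2) (nat_lit 5) (nat_lit 2) (nat_lit 4) (nat_lit 338) (nat_lit 218) (nat_lit 164)) (XT.lf (nat_lit 0) (nat_lit 391190092477) (nat_lit 76) (nat_lit 1106105647510) (nat_lit 76) (nat_lit 1103288292635) (nat_lit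 1) (nat_lit 4) (nat_lit 2) (nat_lit 5) (nat_lit 2) (nat_lit 4) (nat_lit 339) (nat_lit 218) (nat_lit 163))))) (XT.nd (nat_lit 234) (nat_lit 0) (nat_lit 0) (XT.nd (nat_lit 78) (nat_lit 0) (nat_lit 0) (XT.lf (nat_lit 0) (nat_lit 424850538960) (nat_lit 76) (nat_lit 1193249645733) (nat_lit 76) (nat_lit 1190429217950) (nat_lit 1) (nat_lit 4) (nat_lit 2) (nat_lit 5) (nat_lit 2) (nat_lit 4) (nat_lit 340) (nat_lit 218) (nat_lit 162)) (XT.nd (nat_lit 78) (nat_lit 0) (nat_lit 0) (XT.lf (nat_lit 0) (nat_lit 461199057909) (nat_lit 76) (nat_lit 1287367410766) (nat_lit 76) (nat_lit 1284544137700) (nat_lit 1) (nat_lit 4) (nat_lit 2) (nat_lit 5) (nat_lit 2) (nat_lit 4) (nat_lit 341) (nat_lit 218) (nat_lit 161)) (XT.lf (nat_lit 0) (nat_lit 500451047954) (nat_lit 76) (nat_lit 1389016677516) (nat_lit 76) (nat_lit 1386190769927) (nat_lit 1) (nat_lit 4) (nat_lit 2) (nat_lit 5) (nat_lit 2) (nat_lit 4) (nat_lit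 342) (nat_lit 218) (nat_lit 160)))) (XT.nd (nat_lit 32838) (nat_lit 0) (nat_lit 228) (XT.nd (nat_lit 32760) (nat_lit 0) (nat_lit 228) (XT.lf (nat_lit 0) (nat_lit 542839113481) (nat_lit 76) (nat_lit 1498799812005) (nat_lit 76) (nat_lit 1495971465044) (nat_lit 1) (nat_lit 4) (nat_lit 2) (nat_lit 5) (nat_lit 2) (nat_lit 4) (nat_lit 343) (nat_lit 218) (nat_lit 159)) (XT.lf (nat_lit 0) (nat_lit 8070721323) (nat_lit 76) (nat_lit 4668523449) (nat_lit 76) (nat_lit 4668523449) (nat_lit 4) (nat_lit 4) (nat_lit 5) (nat_lit 5) (nat_lit 5) (nat_lit 4) (nat_lit 282) (nat_lit 219) (nat_lit 219))) (XT.nd (nat_lit 78) (nat_lit 0) (nat_lit 0) (XT.lf (nat_lit 0) (nat_lit 23603284152) (nat_lit 76) (nat_lit 6986351528) (nat_lit 76) (nat_lit 6739347828) (nat_lit 4) (nat_lit 4) (nat_lit 5) (nat_lit 5) (nat_lit 5) (nat_lit 4) (nat_lit 283) (nat_lit 219) (nat_lit 218)) (XT.lf (nat_lit 0) (nat_lit 31361212823)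 (nat_lit 76) (nat_lit 4585628232) (nat_lit 76) (nat_lit 4109917403) (nat_lit 4) (nat_lit 4) (nat_lit 5) (nat_lit 5) (nat_lit 5) (nat_lit 4) (nat_lit 284) (nat_lit 219) (nat_lit 217))))))))
noncomputable def xc18 : XT := (XT.nd (nat_lit 2028) (nat_lit 0) (nat_lit 0) (XT.nd (nat_lit 1014) (nat_lit 76) (nat_lit 0) (XT.nd (nat_lit 468) (nat_lit 0) (nat_lit 0) (XT.nd (nat_lit 234) (nat_lit 0) (nat_lit 0) (XT.nd (nat_lit 78) (nat_lit 152) (nat_lit 0) (XT.lf (nat_lit 0) (nat_lit 39461201567) (nat_lit 76) (nat_lit 2120650502) (nat_lit 76) (nat_lit 1433173812) (nat_lit 4) (nat_lit 4) (nat_lit 5) (nat_lit 5) (nat_lit 5) (nat_lit 4) (nat_lit 285) (nat_lit 219) (nat_lit 216)) (XT.nd (nat_lit 78) (nat_lit 0) (nat_lit 0) (XT.lf (nat_lit 0) (nat_lit 1296487499) (nat_lit 152) (nat_lit 44439525777) (nat_lit 0) (nat_lit 478379915) (nat_lit 2) (nat_lit 5) (nat_lit 4) (nat_lit 4) (nat_lit 2) (nat_lit 4)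 (nat_lit 286) (nat_lit 219) (nat_lit 215)) (XT.lf (nat_lit 0) (nat_lit 4179965596) (nat_lit 152) (nat_lit 42292150788) (nat_lit 0) (nat_lit 3193751445) (nat_lit 2) (nat_lit 5) (nat_lit 4) (nat_lit 4) (nat_lit 2) (nat_lit 4) (nat_lit 287) (nat_lit 219) (nat_lit 214)))) (XT.nd (nat_lit 78) (nat_lit 0) (nat_lit 0) (XT.lf (nat_lit 0) (nat_lit 7162732093) (nat_lit 152) (nat_lit 40220529305) (nat_lit 0) (nat_lit 6020863712) (nat_lit 2) (nat_lit 5) (nat_lit 4) (nat_lit 4) (nat_lit 2) (nat_lit 4) (nat_lit 288) (nat_lit 219) (nat_lit 213)) (XT.nd (nat_lit 78) (nat_lit 0) (nat_lit 0) (XT.lf (nat_lit 0) (nat_lit 10262462644) (nat_lit 152) (nat_lit 38212385054) (nat_lit 0) (nat_lit 8976469977) (nat_lit 2) (nat_lit 5) (nat_lit 4) (nat_lit 4) (nat_lit 2) (nat_lit 4) (nat_lit 289) (nat_lit 219) (nat_lit 212)) (XT.lf (nat_lit 0) (nat_lit 13497526021) (nat_lit 152) (nat_lit 36255817920) (nat_lit 0)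 (nat_lit 12078084941) (nat_lit 2) (nat_lit 5) (nat_lit 4) (nat_lit 4) (nat_lit 2) (nat_lit 4) (nat_lit 290) (nat_lit 219) (nat_lit 211))))) (XT.nd (nat_lit 234) (nat_lit 0) (nat_lit 0) (XT.nd (nat_lit 78) (nat_lit 0) (nat_lit 0) (XT.lf (nat_lit 0) (nat_lit 16887092972) (nat_lit 152) (nat_lit 34339233432) (nat_lit 0) (nat_lit 15344088546) (nat_lit 2) (nat_lit 5) (nat_lit 4) (nat_lit 4) (nat_lit 2) (nat_lit 4) (nat_lit 291) (nat_lit 219) (nat_lit 210)) (XT.nd (nat_lit 78) (nat_lit 0) (nat_lit 0) (XT.lf (nat_lit 0) (nat_lit 20451249818) (nat_lit 152) (nat_lit 32451274051) (nat_lit 0) (nat_lit 18793834887) (nat_lit 2) (nat_lit 5) (nat_lit 4) (nat_lit 4) (nat_lit 2) (nat_lit 4) (nat_lit 292) (nat_lit 219) (nat_lit 209)) (XT.lf (nat_lit 0) (nat_lit 24211117489) (nat_lit 152) (nat_lit 30580751870) (nat_lit 0) (nat_lit 22447766905) (nat_lit 2) (nat_lit 5) (nat_lit 4) (nat_lit 4) (nat_lit 2)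 (nat_lit 4) (nat_lit 293) (nat_lit 219) (nat_lit 208)))) (XT.nd (nat_lit 156) (nat_lit 0) (nat_lit 0) (XT.nd (nat_lit 78) (nat_lit 0) (nat_lit 0) (XT.lf (nat_lit 0) (nat_lit 28188976683) (nat_lit 152) (nat_lit 28716582314) (nat_lit 0) (nat_lit 26327537531) (nat_lit 2) (nat_lit 5) (nat_lit 4) (nat_lit 4) (nat_lit 2) (nat_lit 4) (nat_lit 294) (nat_lit 219) (nat_lit 207)) (XT.lf (nat_lit 0) (nat_lit 32408399898) (nat_lit 152) (nat_lit 26847718452) (nat_lit 0) (nat_lit 30456137998) (nat_lit 2) (nat_lit 5) (nat_lit 4) (nat_lit 4) (nat_lit 2) (nat_lit 4) (nat_lit 295) (nat_lit 219) (nat_lit 206))) (XT.nd (nat_lit 78) (nat_lit 0) (nat_lit 0) (XT.lf (nat_lit 0) (nat_lit 36894391124) (nat_lit 152) (nat_lit 24963085534) (nat_lit 0) (nat_lit 34858034087) (nat_lit 2) (nat_lit 5) (nat_lit 4) (nat_lit 4) (nat_lit 2) (nat_lit 4) (nat_lit 296) (nat_lit 219) (nat_lit 205)) (XT.lf (nat_lit 0) (nat_lit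 41673534012) (nat_lit 152) (nat_lit 23051515366) (nat_lit 0) (nat_lit 39559311108) (nat_lit 2) (nat_lit 5) (nat_lit 4) (nat_lit 4) (nat_lit 2) (nat_lit 4) (nat_lit 297) (nat_lit 219) (nat_lit 204)))))) (XT.nd (nat_lit 468) (nat_lit 76) (nat_lit 0) (XT.nd (nat_lit 234) (nat_lit 0) (nat_lit 0) (XT.nd (nat_lit 78) (nat_lit 0) (nat_lit 0) (XT.lf (nat_lit 0) (nat_lit 46774149410) (nat_lit 152) (nat_lit 21101680125) (nat_lit 0) (nat_lit 44587828480) (nat_lit 2) (nat_lit 5) (nat_lit 4) (nat_lit 4) (nat_lit 2) (nat_lit 4) (nat_lit 298) (nat_lit 219) (nat_lit 203)) (XT.nd (nat_lit 78) (nat_lit 0) (nat_lit 0) (XT.lf (nat_lit 0) (nat_lit 52226463186) (nat_lit 152) (nat_lit 19102025231) (nat_lit 0) (nat_lit 49973384825) (nat_lit 2) (nat_lit 5) (nat_lit 4) (nat_lit 4) (nat_lit 2) (nat_lit 4) (nat_lit 299) (nat_lit 219) (nat_lit 202)) (XT.lf (nat_lit 0) (nat_lit 58062785347) (nat_lit 152) (nat_lit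 17040700878) (nat_lit 0) (nat_lit 55747894551) (nat_lit 2) (nat_lit 5) (nat_lit 4) (nat_lit 4) (nat_lit 2) (nat_lit 4) (nat_lit 300) (nat_lit 219) (nat_lit 201)))) (XT.nd (nat_lit 78) (nat_lit 0) (nat_lit 0) (XT.lf (nat_lit 0) (nat_lit 64317701508) (nat_lit 152) (nat_lit 14905491810) (nat_lit 0) (nat_lit 61945576974) (nat_lit 2) (nat_lit 5) (nat_lit 4) (nat_lit 4) (nat_lit 2) (nat_lit 4) (nat_lit 301) (nat_lit 219) (nat_lit 200)) (XT.nd (nat_lit 78) (nat_lit 0) (nat_lit 0) (XT.lf (nat_lit 0) (nat_lit 71028277836) (nat_lit 152) (nat_lit 12683744936) (nat_lit 0) (nat_lit 68603159101) (nat_lit 2) (nat_lit 5) (nat_lit 4) (nat_lit 4) (nat_lit 2) (nat_lit 4) (nat_lit 302) (nat_lit 219) (nat_lit 199)) (XT.lf (nat_lit 0) (nat_lit 78234280712) (nat_lit 152) (nat_lit 10362294350) (nat_lit 0) (nat_lit 75760093272) (nat_lit 2) (nat_lit 5) (nat_lit 4) (nat_lit 4) (nat_lit 2) (nat_lit 4) (nat_lit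 303) (nat_lit 219) (nat_lit 198))))) (XT.nd (nat_lit 234) (nat_lit 76) (nat_lit 0) (XT.nd (nat_lit 78) (nat_lit 0) (nat_lit 0) (XT.lf (nat_lit 0) (nat_lit 85978412373) (nat_lit 152) (nat_lit 7927383306) (nat_lit 0) (nat_lit 83458790948) (nat_lit 2) (nat_lit 5) (nat_lit 4) (nat_lit 4) (nat_lit 2) (nat_lit 4) (nat_lit 304) (nat_lit 219) (nat_lit 197)) (XT.nd (nat_lit 78) (nat_lit 0) (nat_lit 0) (XT.lf (nat_lit 0) (nat_lit 94306563971) (nat_lit 152) (nat_lit 5364582702) (nat_lit 0) (nat_lit 91744874040) (nat_lit 2) (nat_lit 5) (nat_lit 4) (nat_lit 4) (nat_lit 2) (nat_lit 4) (nat_lit 305) (nat_lit 219) (nat_lit 196)) (XT.lf (nat_lit 0) (nat_lit 103268087515) (nat_lit 152) (nat_lit 2658705572) (nat_lit 0) (nat_lit 100667445264) (nat_lit 2) (nat_lit 5) (nat_lit 4) (nat_lit 4) (nat_lit 2) (nat_lit 4) (nat_lit 306) (nat_lit 219) (nat_lit 195)))) (XT.nd (nat_lit 156) (nat_lit 0) (nat_lit 0)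 (XT.nd (nat_lit 78) (nat_lit 0) (nat_lit 0) (XT.lf (nat_lit 0) (nat_lit 217145403) (nat_lit 76) (nat_lit 112704165278) (nat_lit 76) (nat_lit 110067456065) (nat_lit 1) (nat_lit 4) (nat_lit 2) (nat_lit 5) (nat_lit 2) (nat_lit 4) (nat_lit 307) (nat_lit 219) (nat_lit 194)) (XT.lf (nat_lit 0) (nat_lit 3418360704) (nat_lit 76) (nat_lit 119971590705) (nat_lit 76) (nat_lit 117301486156) (nat_lit 1) (nat_lit 4) (nat_lit 2) (nat_lit 5) (nat_lit 2) (nat_lit 4) (nat_lit 308) (nat_lit 219) (nat_lit 193))) (XT.nd (nat_lit 78) (nat_lit 0) (nat_lit 0) (XT.lf (nat_lit 0) (nat_lit 6823907771) (nat_lit 76) (nat_lit 127844829316) (nat_lit 76) (nat_lit 125143803159) (nat_lit 1) (nat_lit 4) (nat_lit 2) (nat_lit 5) (nat_lit 2) (nat_lit 4) (nat_lit 309) (nat_lit 219) (nat_lit 192)) (XT.lf (nat_lit 0) (nat_lit 10453967624) (nat_lit 76) (nat_lit 136370537338) (nat_lit 76) (nat_lit 133640880064) (nat_lit 1) (nat_lit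 4) (nat_lit 2) (nat_lit 5) (nat_lit 2) (nat_lit 4) (nat_lit 310) (nat_lit 219) (nat_lit 191))))))) (XT.nd (nat_lit 1014) (nat_lit 0) (nat_lit 0) (XT.nd (nat_lit 468) (nat_lit 0) (nat_lit 0) (XT.nd (nat_lit 234) (nat_lit 0) (nat_lit 0) (XT.nd (nat_lit 78) (nat_lit 0) (nat_lit 0) (XT.lf (nat_lit 0) (nat_lit 14330051728) (nat_lit 76) (nat_lit 145599237487) (nat_lit 76) (nat_lit 142843069919) (nat_lit 1) (nat_lit 4) (nat_lit 2) (nat_lit 5) (nat_lit 2) (nat_lit 4) (nat_lit 311) (nat_lit 219) (nat_lit 190)) (XT.nd (nat_lit 78) (nat_lit 0) (nat_lit 0) (XT.lf (nat_lit 0) (nat_lit 18475129471) (nat_lit 76) (nat_lit 155585618356) (nat_lit 76) (nat_lit 152804904219) (nat_lit 1) (nat_lit 4) (nat_lit 2) (nat_lit 5) (nat_lit 2) (nat_lit 4) (nat_lit 312) (nat_lit 219) (nat_lit 189)) (XT.lf (nat_lit 0) (nat_lit 22913764277) (nat_lit 76) (nat_lit 166388858499) (nat_lit 76) (nat_lit 163585416057) (nat_lit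 1) (nat_lit 4) (nat_lit 2) (nat_lit 5) (nat_lit 2) (nat_lit 4) (nat_lit 313) (nat_lit 219) (nat_lit 188)))) (XT.nd (nat_lit 78) (nat_lit 0) (nat_lit 0) (XT.lf (nat_lit 0) (nat_lit 27672259165) (nat_lit 76) (nat_lit 178072977115) (nat_lit 76) (nat_lit 175248489947) (nat_lit 1) (nat_lit 4) (nat_lit 2) (nat_lit 5) (nat_lit 2) (nat_lit 4) (nat_lit 314) (nat_lit 219) (nat_lit 187)) (XT.nd (nat_lit 78) (nat_lit 0) (nat_lit 0) (XT.lf (nat_lit 0) (nat_lit 32778812626) (nat_lit 76) (nat_lit 190707213426) (nat_lit 76) (nat_lit 187863240401) (nat_lit 1) (nat_lit 4) (nat_lit 2) (nat_lit 5) (nat_lit 2) (nat_lit 4) (nat_lit 315) (nat_lit 219) (nat_lit 186)) (XT.lf (nat_lit 0) (nat_lit 38263685716) (nat_lit 76) (nat_lit 204366436982) (nat_lit 76) (nat_lit 201504421495) (nat_lit 1) (nat_lit 4) (nat_lit 2) (nat_lit 5) (nat_lit 2) (nat_lit 4) (nat_lit 316) (nat_lit 219) (nat_lit 185))))) (XT.nd (nat_lit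 234) (nat_lit 0) (nat_lit 0) (XT.nd (nat_lit 78) (nat_lit 0) (nat_lit 0) (XT.lf (nat_lit 0) (nat_lit 44159381386) (nat_lit 76) (nat_lit 219131591328) (nat_lit 76) (nat_lit 216252869859) (nat_lit 1) (nat_lit 4) (nat_lit 2) (nat_lit 5) (nat_lit 2) (nat_lit 4) (nat_lit 317) (nat_lit 219) (nat_lit 184)) (XT.nd (nat_lit 78) (nat_lit 0) (nat_lit 0) (XT.lf (nat_lit 0) (nat_lit 50500837093) (nat_lit 76) (nat_lit 235090173677) (nat_lit 76) (nat_lit 232195983706) (nat_lit 1) (nat_lit 4) (nat_lit 2) (nat_lit 5) (nat_lit 2) (nat_lit 4) (nat_lit 318) (nat_lit 219) (nat_lit 183)) (XT.lf (nat_lit 0) (nat_lit 57325631834) (nat_lit 76) (nat_lit 252336753404) (nat_lit 76) (nat_lit 249428240745) (nat_lit 1) (nat_lit 4) (nat_lit 2) (nat_lit 5) (nat_lit 2) (nat_lit 4) (nat_lit 319) (nat_lit 219) (nat_lit 182)))) (XT.nd (nat_lit 156) (nat_lit 0) (nat_lit 0) (XT.nd (nat_lit 78) (nat_lit 0) (nat_lit 0) (XT.lf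 (nat_lit 0) (nat_lit 64674208836) (nat_lit 76) (nat_lit 270973532464) (nat_lit 76) (nat_lit 268051758058) (nat_lit 1) (nat_lit 4) (nat_lit 2) (nat_lit 5) (nat_lit 2) (nat_lit 4) (nat_lit 320) (nat_lit 219) (nat_lit 181)) (XT.lf (nat_lit 0) (nat_lit 72590115223) (nat_lit 76) (nat_lit 291110951028) (nat_lit 76) (nat_lit 288176897227) (nat_lit 1) (nat_lit 4) (nat_lit 2) (nat_lit 5) (nat_lit 2) (nat_lit 4) (nat_lit 321) (nat_lit 219) (nat_lit 180))) (XT.nd (nat_lit 78) (nat_lit 0) (nat_lit 0) (XT.lf (nat_lit 0) (nat_lit 81120260069) (nat_lit 76) (nat_lit 312868341949) (nat_lit 76) (nat_lit 309922918336) (nat_lit 1) (nat_lit 4) (nat_lit 2) (nat_lit 5) (nat_lit 2) (nat_lit 4) (nat_lit 322) (nat_lit 219) (nat_lit 179)) (XT.lf (nat_lit 0) (nat_lit 90315192381) (nat_lit 76) (nat_lit 336374637911) (nat_lit 76) (nat_lit 333418686697) (nat_lit 1) (nat_lit 4) (nat_lit 2) (nat_lit 5) (nat_lit 2)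 (nat_lit 4) (nat_lit 323) (nat_lit 219) (nat_lit 178)))))) (XT.nd (nat_lit 546) (nat_lit 0) (nat_lit 0) (XT.nd (nat_lit 234) (nat_lit 0) (nat_lit 0) (XT.nd (nat_lit 78) (nat_lit 0) (nat_lit 0) (XT.lf (nat_lit 0) (nat_lit 100229400647) (nat_lit 76) (nat_lit 361769135486) (nat_lit 76) (nat_lit 358803436491) (nat_lit 1) (nat_lit 4) (nat_lit 2) (nat_lit 5) (nat_lit 2) (nat_lit 4) (nat_lit 324) (nat_lit 219) (nat_lit 177)) (XT.nd (nat_lit 78) (nat_lit 0) (nat_lit 0) (XT.lf (nat_lit 0) (nat_lit 110921635730) (nat_lit 76) (nat_lit 389202320583) (nat_lit 76) (nat_lit 386227595865) (nat_lit 1) (nat_lit 4) (nat_lit 2) (nat_lit 5) (nat_lit 2) (nat_lit 4) (nat_lit 325) (nat_lit 219) (nat_lit 176)) (XT.lf (nat_lit 0) (nat_lit 122455259024) (nat_lit 76) (nat_lit 418836760225) (nat_lit 76) (nat_lit 415853678357) (nat_lit 1) (nat_lit 4) (nat_lit 2) (nat_lit 5) (nat_lit 2) (nat_lit 4) (nat_lit 326)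 (nat_lit 219) (nat_lit 175)))) (XT.nd (nat_lit 156) (nat_lit 0) (nat_lit 0) (XT.nd (nat_lit 78) (nat_lit 0) (nat_lit 0) (XT.lf (nat_lit 0) (nat_lit 134898617926) (nat_lit 76) (nat_lit 450848065908) (nat_lit 76) (nat_lit 447857245938) (nat_lit 1) (nat_lit 4) (nat_lit 2) (nat_lit 5) (nat_lit 2) (nat_lit 4) (nat_lit 327) (nat_lit 219) (nat_lit 174)) (XT.lf (nat_lit 0) (nat_lit 148325450859) (nat_lit 76) (nat_lit 485425934256) (nat_lit 76) (nat_lit 482427949376) (nat_lit 1) (nat_lit 4) (nat_lit 2) (nat_lit 5) (nat_lit 2) (nat_lit 4) (nat_lit 328) (nat_lit 219) (nat_lit 173))) (XT.nd (nat_lit 78) (nat_lit 0) (nat_lit 0) (XT.lf (nat_lit 0) (nat_lit 162815324240) (nat_lit 76) (nat_lit 522775271157) (nat_lit 76) (nat_lit 519770652102) (nat_lit 1) (nat_lit 4) (nat_lit 2) (nat_lit 5) (nat_lit 2) (nat_lit 4) (nat_lit 329) (nat_lit 219) (nat_lit 172)) (XT.lf (nat_lit 0) (nat_lit 178454103986) (nat_lit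 76) (nat_lit 563117406014) (nat_lit 76) (nat_lit 560106644204) (nat_lit 1) (nat_lit 4) (nat_lit 2) (nat_lit 5) (nat_lit 2) (nat_lit 4) (nat_lit 330) (nat_lit 219) (nat_lit 171))))) (XT.nd (nat_lit 234) (nat_lit 0) (nat_lit 0) (XT.nd (nat_lit 78) (nat_lit 0) (nat_lit 0) (XT.lf (nat_lit 0) (nat_lit 195334464346) (nat_lit 76) (nat_lit 606691403331) (nat_lit 76) (nat_lit 603674953785) (nat_lit 1) (nat_lit 4) (nat_lit 2) (nat_lit 5) (nat_lit 2) (nat_lit 4) (nat_lit 331) (nat_lit 219) (nat_lit 170)) (XT.nd (nat_lit 78) (nat_lit 0) (nat_lit 0) (XT.lf (nat_lit 0) (nat_lit 213556437087) (nat_lit 76) (nat_lit 653755479387) (nat_lit 76) (nat_lit 650733763419) (nat_lit 1) (nat_lit 4) (nat_lit 2) (nat_lit 5) (nat_lit 2) (nat_lit 4) (nat_lit 332) (nat_lit 219) (nat_lit 169)) (XT.lf (nat_lit 0) (nat_lit 233228004269) (nat_lit 76) (nat_lit 704588532412) (nat_lit 76) (nat_lit 701561940126) (nat_lit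 1) (nat_lit 4) (nat_lit 2) (nat_lit 5) (nat_lit 2) (nat_lit 4) (nat_lit 333) (nat_lit 219) (nat_lit 168)))) (XT.nd (nat_lit 156) (nat_lit 0) (nat_lit 0) (XT.nd (nat_lit 78) (nat_lit 0) (nat_lit 0) (XT.lf (nat_lit 0) (nat_lit 254465738142) (nat_lit 76) (nat_lit 759491795311) (nat_lit 76) (nat_lit 756460687917) (nat_lit 1) (nat_lit 4) (nat_lit 2) (nat_lit 5) (nat_lit 2) (nat_lit 4) (nat_lit 334) (nat_lit 219) (nat_lit 167)) (XT.lf (nat_lit 0) (nat_lit 277395491943) (nat_lit 76) (nat_lit 818790620755) (nat_lit 76) (nat_lit 815755332705) (nat_lit 1) (nat_lit 4) (nat_lit 2) (nat_lit 5) (nat_lit 2) (nat_lit 4) (nat_lit 335) (nat_lit 219) (nat_lit 166))) (XT.nd (nat_lit 78) (nat_lit 0) (nat_lit 0) (XT.lf (nat_lit 0) (nat_lit 302153145696) (nat_lit 76) (nat_lit 882836409189) (nat_lit 76) (nat_lit 879797250162) (nat_lit 1) (nat_lit 4) (nat_lit 2) (nat_lit 5) (nat_lit 2) (nat_lit 4) (nat_lit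 336) (nat_lit 219) (nat_lit 165)) (XT.lf (nat_lit 0) (nat_lit 328885411421) (nat_lit 76) (nat_lit 952008691213) (nat_lit 76) (nat_lit 948965947947) (nat_lit 1) (nat_lit 4) (nat_lit 2) (nat_lit 5) (nat_lit 2) (nat_lit 4) (nat_lit 337) (nat_lit 219) (nat_lit 164))))))))
noncomputable def xc19 : XT := (XT.nd (nat_lit 34554) (nat_lit 0) (nat_lit 0) (XT.nd (nat_lit 33540) (nat_lit 0) (nat_lit 76) (XT.nd (nat_lit 32994) (nat_lit 0) (nat_lit 76) (XT.nd (nat_lit 234) (nat_lit 0) (nat_lit 0) (XT.nd (nat_lit 78) (nat_lit 0) (nat_lit 0) (XT.lf (nat_lit 0) (nat_lit 357750702547) (nat_lit 76) (nat_lit 1026717376645) (nat_lit 76) (nat_lit 1023671314640) (nat_lit 1) (nat_lit 4) (nat_lit 2) (nat_lit 5) (nat_lit 2) (nat_lit 4) (nat_lit 338) (nat_lit 219) (nat_lit 163)) (XT.nd (nat_lit 78) (nat_lit 0) (nat_lit 0) (XT.lf (nat_lit 0) (nat_lit 388920072649) (nat_lit 76) (nat_lit 1107405183622) (nat_lit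 76) (nat_lit 1104356048710) (nat_lit 1) (nat_lit 4) (nat_lit 2) (nat_lit 5) (nat_lit 2) (nat_lit 4) (nat_lit 339) (nat_lit 219) (nat_lit 162)) (XT.lf (nat_lit 0) (nat_lit 422578229107) (nat_lit 76) (nat_lit 1194550262110) (nat_lit 76) (nat_lit 1191498281914) (nat_lit 1) (nat_lit 4) (nat_lit 2) (nat_lit 5) (nat_lit 2) (nat_lit 4) (nat_lit 340) (nat_lit 219) (nat_lit 161)))) (XT.nd (nat_lit 78) (nat_lit 0) (nat_lit 0) (XT.lf (nat_lit 0) (nat_lit 458924627662) (nat_lit 76) (nat_lit 1288669027390) (nat_lit 76) (nat_lit 1285614412672) (nat_lit 1) (nat_lit 4) (nat_lit 2) (nat_lit 5) (nat_lit 2) (nat_lit 4) (nat_lit 341) (nat_lit 219) (nat_lit 160)) (XT.nd (nat_lit 78) (nat_lit 0) (nat_lit 0) (XT.lf (nat_lit 0) (nat_lit 498174654380) (nat_lit 76) (nat_lit 1390319220294) (nat_lit 76) (nat_lit 1387262166203) (nat_lit 1) (nat_lit 4) (nat_lit 2) (nat_lit 5) (nat_lit 2) (nat_lit 4) (nat_lit 342)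 (nat_lit 219) (nat_lit 159)) (XT.lf (nat_lit 0) (nat_lit 540560902011) (nat_lit 76) (nat_lit 1500103212333) (nat_lit 76) (nat_lit 1497043899564) (nat_lit 1) (nat_lit 4) (nat_lit 2) (nat_lit 5) (nat_lit 2) (nat_lit 4) (nat_lit 343) (nat_lit 219) (nat_lit 158))))) (XT.nd (nat_lit 234) (nat_lit 152) (nat_lit 0) (XT.nd (nat_lit 78) (nat_lit 0) (nat_lit 0) (XT.lf (nat_lit 0) (nat_lit 1049676760) (nat_lit 76) (nat_lit 7066611221) (nat_lit 76) (nat_lit 7066611221) (nat_lit 4) (nat_lit 4) (nat_lit 5) (nat_lit 5) (nat_lit 5) (nat_lit 4) (nat_lit 280) (nat_lit 220) (nat_lit 220)) (XT.nd (nat_lit 78) (nat_lit 0) (nat_lit 0) (XT.lf (nat_lit 0) (nat_lit 8931469984) (nat_lit 76) (nat_lit 11918408386) (nat_lit 76) (nat_lit 11651644391) (nat_lit 4) (nat_lit 4) (nat_lit 5) (nat_lit 5) (nat_lit 5) (nat_lit 4) (nat_lit 281) (nat_lit 220) (nat_lit 219)) (XT.lf (nat_lit 0) (nat_lit 15985226796) (nat_lit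 76) (nat_lit 9675479126) (nat_lit 76) (nat_lit 9161711430) (nat_lit 4) (nat_lit 4) (nat_lit 5) (nat_lit 5) (nat_lit 5) (nat_lit 4) (nat_lit 282) (nat_lit 220) (nat_lit 218)))) (XT.nd (nat_lit 156) (nat_lit 152) (nat_lit 0) (XT.nd (nat_lit 78) (nat_lit 0) (nat_lit 0) (XT.lf (nat_lit 0) (nat_lit 23302423996) (nat_lit 76) (nat_lit 7391143228) (nat_lit 76) (nat_lit 6648668403) (nat_lit 4) (nat_lit 4) (nat_lit 5) (nat_lit 5) (nat_lit 5) (nat_lit 4) (nat_lit 283) (nat_lit 220) (nat_lit 217)) (XT.lf (nat_lit 0) (nat_lit 30926422753) (nat_lit 76) (nat_lit 5051863889) (nat_lit 76) (nat_lit 4097623203) (nat_lit 4) (nat_lit 4) (nat_lit 5) (nat_lit 5) (nat_lit 5) (nat_lit 4) (nat_lit 284) (nat_lit 220) (nat_lit 216))) (XT.nd (nat_lit 78) (nat_lit 152) (nat_lit 0) (XT.lf (nat_lit 0) (nat_lit 38902402319) (nat_lit 76) (nat_lit 2643778711) (nat_lit 76) (nat_lit 1493458525) (nat_lit 4) (nat_lit 4)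 (nat_lit 5) (nat_lit 5) (nat_lit 5) (nat_lit 4) (nat_lit 285) (nat_lit 220) (nat_lit 215)) (XT.lf (nat_lit 0) (nat_lit 1050846580) (nat_lit 76) (nat_lit 94692775) (nat_lit 152) (nat_lit 45101157523) (nat_lit 2) (nat_lit 5) (nat_lit 3) (nat_lit 5) (nat_lit 4) (nat_lit 4) (nat_lit 286) (nat_lit 220) (nat_lit 214)))))) (XT.nd (nat_lit 468) (nat_lit 0) (nat_lit 0) (XT.nd (nat_lit 234) (nat_lit 0) (nat_lit 0) (XT.nd (nat_lit 78) (nat_lit 0) (nat_lit 0) (XT.lf (nat_lit 0) (nat_lit 3963571893) (nat_lit 152) (nat_lit 43165209246) (nat_lit 0) (nat_lit 2574699812) (nat_lit 2) (nat_lit 5) (nat_lit 4) (nat_lit 4) (nat_lit 2) (nat_lit 4) (nat_lit 287) (nat_lit 220) (nat_lit 213)) (XT.nd (nat_lit 78) (nat_lit 0) (nat_lit 0) (XT.lf (nat_lit 0) (nat_lit 6887849319) (nat_lit 152) (nat_lit 41203783413) (nat_lit 0) (nat_lit 5354852952) (nat_lit 2) (nat_lit 5) (nat_lit 4) (nat_lit 4) (nat_lit 2) (nat_lit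 4) (nat_lit 288) (nat_lit 220) (nat_lit 212)) (XT.lf (nat_lit 0) (nat_lit 9933423323) (nat_lit 152) (nat_lit 39297672170) (nat_lit 0) (nat_lit 8266978543) (nat_lit 2) (nat_lit 5) (nat_lit 4) (nat_lit 4) (nat_lit 2) (nat_lit 4) (nat_lit 289) (nat_lit 220) (nat_lit 211)))) (XT.nd (nat_lit 78) (nat_lit 0) (nat_lit 0) (XT.lf (nat_lit 0) (nat_lit 13118341750) (nat_lit 152) (nat_lit 37435580044) (nat_lit 0) (nat_lit 11328333624) (nat_lit 2) (nat_lit 5) (nat_lit 4) (nat_lit 4) (nat_lit 2) (nat_lit 4) (nat_lit 290) (nat_lit 220) (nat_lit 210)) (XT.nd (nat_lit 78) (nat_lit 0) (nat_lit 0) (XT.lf (nat_lit 0) (nat_lit 16461478191) (nat_lit 152) (nat_lit 35606472414) (nat_lit 0) (nat_lit 14557059560) (nat_lit 2) (nat_lit 5) (nat_lit 4) (nat_lit 4) (nat_lit 2) (nat_lit 4) (nat_lit 291) (nat_lit 220) (nat_lit 209)) (XT.lf (nat_lit 0) (nat_lit 19982643825) (nat_lit 152) (nat_lit 33799510125) (nat_lit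 0) (nat_lit 17972289540) (nat_lit 2) (nat_lit 5) (nat_lit 4) (nat_lit 4) (nat_lit 2) (nat_lit 4) (nat_lit 292) (nat_lit 220) (nat_lit 208))))) (XT.nd (nat_lit 234) (nat_lit 0) (nat_lit 0) (XT.nd (nat_lit 78) (nat_lit 0) (nat_lit 0) (XT.lf (nat_lit 0) (nat_lit 23702704817) (nat_lit 152) (nat_lit 32003985252) (nat_lit 0) (nat_lit 21594261965) (nat_lit 2) (nat_lit 5) (nat_lit 4) (nat_lit 4) (nat_lit 2) (nat_lit 4) (nat_lit 293) (nat_lit 220) (nat_lit 207)) (XT.nd (nat_lit 78) (nat_lit 0) (nat_lit 0) (XT.lf (nat_lit 0) (nat_lit 27643705975) (nat_lit 152) (nat_lit 30209257647) (nat_lit 0) (nat_lit 25444440376) (nat_lit 2) (nat_lit 5) (nat_lit 4) (nat_lit 4) (nat_lit 2) (nat_lit 4) (nat_lit 294) (nat_lit 220) (nat_lit 206)) (XT.lf (nat_lit 0) (nat_lit 31829001380) (nat_lit 152) (nat_lit 28404691887) (nat_lit 0) (nat_lit 29545640643) (nat_lit 2) (nat_lit 5) (nat_lit 4) (nat_lit 4) (nat_lit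 2) (nat_lit 4) (nat_lit 295) (nat_lit 220) (nat_lit 205)))) (XT.nd (nat_lit 156) (nat_lit 0) (nat_lit 0) (XT.nd (nat_lit 78) (nat_lit 0) (nat_lit 0) (XT.lf (nat_lit 0) (nat_lit 36283392781) (nat_lit 152) (nat_lit 26579594250) (nat_lit 0) (nat_lit 33922166177) (nat_lit 2) (nat_lit 5) (nat_lit 4) (nat_lit 4) (nat_lit 2) (nat_lit 4) (nat_lit 296) (nat_lit 220) (nat_lit 204)) (XT.lf (nat_lit 0) (nat_lit 41033276572) (nat_lit 152) (nat_lit 24723149342) (nat_lit 0) (nat_lit 38599951943) (nat_lit 2) (nat_lit 5) (nat_lit 4) (nat_lit 4) (nat_lit 2) (nat_lit 4) (nat_lit 297) (nat_lit 220) (nat_lit 203))) (XT.nd (nat_lit 78) (nat_lit 0) (nat_lit 0) (XT.lf (nat_lit 0) (nat_lit 46106800213) (nat_lit 152) (nat_lit 22824356008) (nat_lit 0) (nat_lit 43606718153) (nat_lit 2) (nat_lit 5) (nat_lit 4) (nat_lit 4) (nat_lit 2) (nat_lit 4) (nat_lit 298) (nat_lit 220) (nat_lit 202)) (XT.lf (nat_lit 0) (nat_lit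 51534029029) (nat_lit 152) (nat_lit 20871962139) (nat_lit 0) (nat_lit 48972134533) (nat_lit 2) (nat_lit 5) (nat_lit 4) (nat_lit 4) (nat_lit 2) (nat_lit 4) (nat_lit 299) (nat_lit 220) (nat_lit 201))))))) (XT.nd (nat_lit 1014) (nat_lit 0) (nat_lit 0) (XT.nd (nat_lit 468) (nat_lit 76) (nat_lit 0) (XT.nd (nat_lit 234) (nat_lit 0) (nat_lit 0) (XT.nd (nat_lit 78) (nat_lit 0) (nat_lit 0) (XT.lf (nat_lit 0) (nat_lit 57347124376) (nat_lit 152) (nat_lit 18854397994) (nat_lit 0) (nat_lit 54727996142) (nat_lit 2) (nat_lit 5) (nat_lit 4) (nat_lit 4) (nat_lit 2) (nat_lit 4) (nat_lit 300) (nat_lit 220) (nat_lit 200)) (XT.nd (nat_lit 78) (nat_lit 0) (nat_lit 0) (XT.lf (nat_lit 0) (nat_lit 63580534227) (nat_lit 152) (nat_lit 16759707637) (nat_lit 0) (nat_lit 60908411792) (nat_lit 2) (nat_lit 5) (nat_lit 4) (nat_lit 4) (nat_lit 2) (nat_lit 4) (nat_lit 301) (nat_lit 220) (nat_lit 199)) (XT.lf (nat_lit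 0) (nat_lit 70271197305) (nat_lit 152) (nat_lit 14575478089) (nat_lit 0) (nat_lit 67550006166) (nat_lit 2) (nat_lit 5) (nat_lit 4) (nat_lit 4) (nat_lit 2) (nat_lit 4) (nat_lit 302) (nat_lit 220) (nat_lit 198)))) (XT.nd (nat_lit 78) (nat_lit 0) (nat_lit 0) (XT.lf (nat_lit 0) (nat_lit 77458761986) (nat_lit 152) (nat_lit 12288765767) (nat_lit 0) (nat_lit 74692136861) (nat_lit 2) (nat_lit 5) (nat_lit 4) (nat_lit 4) (nat_lit 2) (nat_lit 4) (nat_lit 303) (nat_lit 220) (nat_lit 197)) (XT.nd (nat_lit 78) (nat_lit 0) (nat_lit 0) (XT.lf (nat_lit 0) (nat_lit 85185821246) (nat_lit 152) (nat_lit 9886019782) (nat_lit 0) (nat_lit 82377127615) (nat_lit 2) (nat_lit 5) (nat_lit 4) (nat_lit 4) (nat_lit 2) (nat_lit 4) (nat_lit 304) (nat_lit 220) (nat_lit 196)) (XT.lf (nat_lit 0) (nat_lit 93498165064) (nat_lit 152) (nat_lit 7353001641) (nat_lit 0) (nat_lit 90650519114) (nat_lit 2) (nat_lit 5) (nat_lit 4)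 (nat_lit 4) (nat_lit 2) (nat_lit 4) (nat_lit 305) (nat_lit 220) (nat_lit 195))))) (XT.nd (nat_lit 234) (nat_lit 0) (nat_lit 0) (XT.nd (nat_lit 78) (nat_lit 76) (nat_lit 0) (XT.lf (nat_lit 0) (nat_lit 102445051775) (nat_lit 152) (nat_lit 4674700865) (nat_lit 0) (nat_lit 99561338862) (nat_lit 2) (nat_lit 5) (nat_lit 4) (nat_lit 4) (nat_lit 2) (nat_lit 4) (nat_lit 306) (nat_lit 220) (nat_lit 194)) (XT.nd (nat_lit 78) (nat_lit 76) (nat_lit 0) (XT.lf (nat_lit 0) (nat_lit 112079499966) (nat_lit 152) (nat_lit 1835246043) (nat_lit 0) (nat_lit 109162391717) (nat_lit 2) (nat_lit 5) (nat_lit 4) (nat_lit 4) (nat_lit 2) (nat_lit 4) (nat_lit 307) (nat_lit 220) (nat_lit 193)) (XT.lf (nat_lit 0) (nat_lit 1244441213) (nat_lit 76) (nat_lit 121244090291) (nat_lit 76) (nat_lit 118296060435) (nat_lit 1) (nat_lit 4) (nat_lit 2) (nat_lit 5) (nat_lit 2) (nat_lit 4) (nat_lit 308) (nat_lit 220) (nat_lit 192))))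 (XT.nd (nat_lit 156) (nat_lit 0) (nat_lit 0) (XT.nd (nat_lit 78) (nat_lit 0) (nat_lit 0) (XT.lf (nat_lit 0) (nat_lit 4626944540) (nat_lit 76) (nat_lit 129128199250) (nat_lit 76) (nat_lit 126151538276) (nat_lit 1) (nat_lit 4) (nat_lit 2) (nat_lit 5) (nat_lit 2) (nat_lit 4) (nat_lit 309) (nat_lit 220) (nat_lit 191)) (XT.lf (nat_lit 0) (nat_lit 8235667597) (nat_lit 76) (nat_lit 137663972409) (nat_lit 76) (nat_lit 134660801141) (nat_lit 1) (nat_lit 4) (nat_lit 2) (nat_lit 5) (nat_lit 2) (nat_lit 4) (nat_lit 310) (nat_lit 220) (nat_lit 190))) (XT.nd (nat_lit 78) (nat_lit 0) (nat_lit 0) (XT.lf (nat_lit 0) (nat_lit 12091995408) (nat_lit 76) (nat_lit 146901992130) (nat_lit 76) (nat_lit 143874274292) (nat_lit 1) (nat_lit 4) (nat_lit 2) (nat_lit 5) (nat_lit 2) (nat_lit 4) (nat_lit 311) (nat_lit 220) (nat_lit 189)) (XT.lf (nat_lit 0) (nat_lit 16218780287) (nat_lit 76) (nat_lit 156897002231) (nat_lit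 76) (nat_lit 153846556089) (nat_lit 1) (nat_lit 4) (nat_lit 2) (nat_lit 5) (nat_lit 2) (nat_lit 4) (nat_lit 312) (nat_lit 220) (nat_lit 188)))))) (XT.nd (nat_lit 546) (nat_lit 0) (nat_lit 0) (XT.nd (nat_lit 234) (nat_lit 0) (nat_lit 0) (XT.nd (nat_lit 78) (nat_lit 0) (nat_lit 0) (XT.lf (nat_lit 0) (nat_lit 20640477255) (nat_lit 76) (nat_lit 167708232403) (nat_lit 76) (nat_lit 164636741535) (nat_lit 1) (nat_lit 4) (nat_lit 2) (nat_lit 5) (nat_lit 2) (nat_lit 4) (nat_lit 313) (nat_lit 220) (nat_lit 187)) (XT.nd (nat_lit 78) (nat_lit 0) (nat_lit 0) (XT.lf (nat_lit 0) (nat_lit 25383288961) (nat_lit 76) (nat_lit 179399749196) (nat_lit 76) (nat_lit 176308772470) (nat_lit 1) (nat_lit 4) (nat_lit 2) (nat_lit 5) (nat_lit 2) (nat_lit 4) (nat_lit 314) (nat_lit 220) (nat_lit 186)) (XT.lf (nat_lit 0) (nat_lit 30475320957) (nat_lit 76) (nat_lit 192040835670) (nat_lit 76) (nat_lit 188931816484) (nat_lit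 1) (nat_lit 4) (nat_lit 2) (nat_lit 5) (nat_lit 2) (nat_lit 4) (nat_lit 315) (nat_lit 220) (nat_lit 185)))) (XT.nd (nat_lit 156) (nat_lit 0) (nat_lit 0) (XT.nd (nat_lit 78) (nat_lit 0) (nat_lit 0) (XT.lf (nat_lit 0) (nat_lit 35946748245) (nat_lit 76) (nat_lit 205706401969) (nat_lit 76) (nat_lit 202580676800) (nat_lit 1) (nat_lit 4) (nat_lit 2) (nat_lit 5) (nat_lit 2) (nat_lit 4) (nat_lit 316) (nat_lit 220) (nat_lit 184)) (XT.lf (nat_lit 0) (nat_lit 41829994100) (nat_lit 76) (nat_lit 220477429226) (nat_lit 76) (nat_lit 217336235555) (nat_lit 1) (nat_lit 4) (nat_lit 2) (nat_lit 5) (nat_lit 2) (nat_lit 4) (nat_lit 317) (nat_lit 220) (nat_lit 183))) (XT.nd (nat_lit 78) (nat_lit 0) (nat_lit 0) (XT.lf (nat_lit 0) (nat_lit 48159922200) (nat_lit 76) (nat_lit 236441449455) (nat_lit 76) (nat_lit 233285933097) (nat_lit 1) (nat_lit 4) (nat_lit 2) (nat_lit 5) (nat_lit 2) (nat_lit 4) (nat_lit 318)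 (nat_lit 220) (nat_lit 182)) (XT.lf (nat_lit 0) (nat_lit 54974043230) (nat_lit 76) (nat_lit 253693064256) (nat_lit 76) (nat_lit 250524286151) (nat_lit 1) (nat_lit 4) (nat_lit 2) (nat_lit 5) (nat_lit 2) (nat_lit 4) (nat_lit 319) (nat_lit 220) (nat_lit 181))))) (XT.nd (nat_lit 234) (nat_lit 0) (nat_lit 0) (XT.nd (nat_lit 78) (nat_lit 0) (nat_lit 0) (XT.lf (nat_lit 0) (nat_lit 62312737167) (nat_lit 76) (nat_lit 272334505422) (nat_lit 76) (nat_lit 269153447921) (nat_lit 1) (nat_lit 4) (nat_lit 2) (nat_lit 5) (nat_lit 2) (nat_lit 4) (nat_lit 320) (nat_lit 220) (nat_lit 180)) (XT.nd (nat_lit 78) (nat_lit 0) (nat_lit 0) (XT.lf (nat_lit 0) (nat_lit 70219492567) (nat_lit 76) (nat_lit 292476240751) (nat_lit 76) (nat_lit 289283813439) (nat_lit 1) (nat_lit 4) (nat_lit 2) (nat_lit 5) (nat_lit 2) (nat_lit 4) (nat_lit 321) (nat_lit 220) (nat_lit 179)) (XT.lf (nat_lit 0) (nat_lit 78741164278) (nat_lit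 76) (nat_lit 314237628676) (nat_lit 76) (nat_lit 311034673761) (nat_lit 1) (nat_lit 4) (nat_lit 2) (nat_lit 5) (nat_lit 2) (nat_lit 4) (nat_lit 322) (nat_lit 220) (nat_lit 178)))) (XT.nd (nat_lit 156) (nat_lit 0) (nat_lit 0) (XT.nd (nat_lit 78) (nat_lit 0) (nat_lit 0) (XT.lf (nat_lit 0) (nat_lit 87928251094) (nat_lit 76) (nat_lit 337747625569) (nat_lit 76) (nat_lit 334534922874) (nat_lit 1) (nat_lit 4) (nat_lit 2) (nat_lit 5) (nat_lit 2) (nat_lit 4) (nat_lit 323) (nat_lit 220) (nat_lit 177)) (XT.lf (nat_lit 0) (nat_lit 97835195012) (nat_lit 76) (nat_lit 363145549930) (nat_lit 76) (nat_lit 359923821512) (nat_lit 1) (nat_lit 4) (nat_lit 2) (nat_lit 5) (nat_lit 2) (nat_lit 4) (nat_lit 324) (nat_lit 220) (nat_lit 176))) (XT.nd (nat_lit 78) (nat_lit 0) (nat_lit 0) (XT.lf (nat_lit 0) (nat_lit 108520703847) (nat_lit 76) (nat_lit 390581907978) (nat_lit 76) (nat_lit 387351822410) (nat_lit 1)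 (nat_lit 4) (nat_lit 2) (nat_lit 5) (nat_lit 2) (nat_lit 4) (nat_lit 325) (nat_lit 220) (nat_lit 175)) (XT.lf (nat_lit 0) (nat_lit 120048099134) (nat_lit 76) (nat_lit 420219285538) (nat_lit 76) (nat_lit 416981461868) (nat_lit 1) (nat_lit 4) (nat_lit 2) (nat_lit 5) (nat_lit 2) (nat_lit 4) (nat_lit 326) (nat_lit 220) (nat_lit 174))))))))
noncomputable def xc20 : XT := (XT.nd (nat_lit 34398) (nat_lit 0) (nat_lit 0) (XT.nd (nat_lit 1014) (nat_lit 0) (nat_lit 0) (XT.nd (nat_lit 468) (nat_lit 0) (nat_lit 0) (XT.nd (nat_lit 234) (nat_lit 0) (nat_lit 0) (XT.nd (nat_lit 78) (nat_lit 0) (nat_lit 0) (XT.lf (nat_lit 0) (nat_lit 132485691362) (nat_lit 76) (nat_lit 452233311514) (nat_lit 76) (nat_lit 448988322935) (nat_lit 1) (nat_lit 4) (nat_lit 2) (nat_lit 5) (nat_lit 2) (nat_lit 4) (nat_lit 327) (nat_lit 220) (nat_lit 173)) (XT.nd (nat_lit 78) (nat_lit 0) (nat_lit 0) (XT.lf (nat_lit 0) (nat_lit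 145907184782) (nat_lit 76) (nat_lit 486813698653) (nat_lit 76) (nat_lit 483562075898) (nat_lit 1) (nat_lit 4) (nat_lit 2) (nat_lit 5) (nat_lit 2) (nat_lit 4) (nat_lit 328) (nat_lit 220) (nat_lit 172)) (XT.lf (nat_lit 0) (nat_lit 160392114170) (nat_lit 76) (nat_lit 524165367768) (nat_lit 76) (nat_lit 520907602258) (nat_lit 1) (nat_lit 4) (nat_lit 2) (nat_lit 5) (nat_lit 2) (nat_lit 4) (nat_lit 329) (nat_lit 220) (nat_lit 171)))) (XT.nd (nat_lit 78) (nat_lit 0) (nat_lit 0) (XT.lf (nat_lit 0) (nat_lit 176026316144) (nat_lit 76) (nat_lit 564509662082) (nat_lit 76) (nat_lit 561246208836) (nat_lit 1) (nat_lit 4) (nat_lit 2) (nat_lit 5) (nat_lit 2) (nat_lit 4) (nat_lit 330) (nat_lit 220) (nat_lit 170)) (XT.nd (nat_lit 78) (nat_lit 0) (nat_lit 0) (XT.lf (nat_lit 0) (nat_lit 192902437828) (nat_lit 76) (nat_lit 608085658896) (nat_lit 76) (nat_lit 604816939228) (nat_lit 1) (nat_lit 4) (nat_lit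 2) (nat_lit 5) (nat_lit 2) (nat_lit 4) (nat_lit 331) (nat_lit 220) (nat_lit 169)) (XT.lf (nat_lit 0) (nat_lit 211120485868) (nat_lit 76) (nat_lit 655151586339) (nat_lit 76) (nat_lit 651877990354) (nat_lit 1) (nat_lit 4) (nat_lit 2) (nat_lit 5) (nat_lit 2) (nat_lit 4) (nat_lit 332) (nat_lit 220) (nat_lit 168))))) (XT.nd (nat_lit 234) (nat_lit 0) (nat_lit 0) (XT.nd (nat_lit 78) (nat_lit 0) (nat_lit 0) (XT.lf (nat_lit 0) (nat_lit 230788419067) (nat_lit 76) (nat_lit 705986353610) (nat_lit 76) (nat_lit 702708242516) (nat_lit 1) (nat_lit 4) (nat_lit 2) (nat_lit 5) (nat_lit 2) (nat_lit 4) (nat_lit 333) (nat_lit 220) (nat_lit 167)) (XT.nd (nat_lit 78) (nat_lit 0) (nat_lit 0) (XT.lf (nat_lit 0) (nat_lit 252022788141) (nat_lit 76) (nat_lit 760891203775) (nat_lit 76) (nat_lit 757608912025) (nat_lit 1) (nat_lit 4) (nat_lit 2) (nat_lit 5) (nat_lit 2) (nat_lit 4) (nat_lit 334) (nat_lit 220) (nat_lit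 166)) (XT.lf (nat_lit 0) (nat_lit 274949426388) (nat_lit 76) (nat_lit 820191498908) (nat_lit 76) (nat_lit 816905336181) (nat_lit 1) (nat_lit 4) (nat_lit 2) (nat_lit 5) (nat_lit 2) (nat_lit 4) (nat_lit 335) (nat_lit 220) (nat_lit 165)))) (XT.nd (nat_lit 156) (nat_lit 0) (nat_lit 0) (XT.nd (nat_lit 78) (nat_lit 0) (nat_lit 0) (XT.lf (nat_lit 0) (nat_lit 299704195368) (nat_lit 76) (nat_lit 884238648167) (nat_lit 76) (nat_lit 880948901201) (nat_lit 1) (nat_lit 4) (nat_lit 2) (nat_lit 5) (nat_lit 2) (nat_lit 4) (nat_lit 336) (nat_lit 220) (nat_lit 164)) (XT.lf (nat_lit 0) (nat_lit 326433790008) (nat_lit 76) (nat_lit 953412190213) (nat_lit 76) (nat_lit 950119124508) (nat_lit 1) (nat_lit 4) (nat_lit 2) (nat_lit 5) (nat_lit 2) (nat_lit 4) (nat_lit 337) (nat_lit 220) (nat_lit 163))) (XT.nd (nat_lit 78) (nat_lit 0) (nat_lit 0) (XT.lf (nat_lit 0) (nat_lit 355296607906) (nat_lit 76) (nat_lit 1028122042333)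 (nat_lit 76) (nat_lit 1024825903721) (nat_lit 1) (nat_lit 4) (nat_lit 2) (nat_lit 5) (nat_lit 2) (nat_lit 4) (nat_lit 338) (nat_lit 220) (nat_lit 162)) (XT.lf (nat_lit 0) (nat_lit 386463687983) (nat_lit 76) (nat_lit 1108810929576) (nat_lit 76) (nat_lit 1105511945680) (nat_lit 1) (nat_lit 4) (nat_lit 2) (nat_lit 5) (nat_lit 2) (nat_lit 4) (nat_lit 339) (nat_lit 220) (nat_lit 161)))))) (XT.nd (nat_lit 32838) (nat_lit 0) (nat_lit 76) (XT.nd (nat_lit 234) (nat_lit 0) (nat_lit 0) (XT.nd (nat_lit 78) (nat_lit 0) (nat_lit 0) (XT.lf (nat_lit 0) (nat_lit 420119724047) (nat_lit 76) (nat_lit 1195957008311) (nat_lit 76) (nat_lit 1192655389892) (nat_lit 1) (nat_lit 4) (nat_lit 2) (nat_lit 5) (nat_lit 2) (nat_lit 4) (nat_lit 340) (nat_lit 220) (nat_lit 160)) (XT.nd (nat_lit 78) (nat_lit 0) (nat_lit 0) (XT.lf (nat_lit 0) (nat_lit 456464159274) (nat_lit 76) (nat_lit 1290076699745) (nat_lit 76) (nat_lit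 1286772641954) (nat_lit 1) (nat_lit 4) (nat_lit 2) (nat_lit 5) (nat_lit 2) (nat_lit 4) (nat_lit 341) (nat_lit 220) (nat_lit 159)) (XT.lf (nat_lit 0) (nat_lit 495712368096) (nat_lit 76) (nat_lit 1391727750198) (nat_lit 76) (nat_lit 1388421433729) (nat_lit 1) (nat_lit 4) (nat_lit 2) (nat_lit 5) (nat_lit 2) (nat_lit 4) (nat_lit 342) (nat_lit 220) (nat_lit 158)))) (XT.nd (nat_lit 32448) (nat_lit 0) (nat_lit 304) (XT.lf (nat_lit 0) (nat_lit 538096932490) (nat_lit 76) (nat_lit 1501512536266) (nat_lit 76) (nat_lit 1498204128428) (nat_lit 1) (nat_lit 4) (nat_lit 2) (nat_lit 5) (nat_lit 2) (nat_lit 4) (nat_lit 343) (nat_lit 220) (nat_lit 157)) (XT.nd (nat_lit 78) (nat_lit 0) (nat_lit 0) (XT.lf (nat_lit 0) (nat_lit 4059218322) (nat_lit 152) (nat_lit 5167214233) (nat_lit 0) (nat_lit 4059218322) (nat_lit 5) (nat_lit 5) (nat_lit 7) (nat_lit 4) (nat_lit 5) (nat_lit 4) (nat_lit 278) (nat_lit 221)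 (nat_lit 221)) (XT.lf (nat_lit 0) (nat_lit 12179008335) (nat_lit 152) (nat_lit 4323919284) (nat_lit 0) (nat_lit 11890903220) (nat_lit 5) (nat_lit 5) (nat_lit 7) (nat_lit 4) (nat_lit 5) (nat_lit 4) (nat_lit 279) (nat_lit 221) (nat_lit 220))))) (XT.nd (nat_lit 234) (nat_lit 152) (nat_lit 0) (XT.nd (nat_lit 78) (nat_lit 0) (nat_lit 0) (XT.lf (nat_lit 0) (nat_lit 1930640401) (nat_lit 76) (nat_lit 14498729248) (nat_lit 76) (nat_lit 13943860137) (nat_lit 4) (nat_lit 4) (nat_lit 5) (nat_lit 5) (nat_lit 5) (nat_lit 4) (nat_lit 280) (nat_lit 221) (nat_lit 219)) (XT.nd (nat_lit 78) (nat_lit 0) (nat_lit 0) (XT.lf (nat_lit 0) (nat_lit 8606541015) (nat_lit 76) (nat_lit 12355583423) (nat_lit 76) (nat_lit 11553710611) (nat_lit 4) (nat_lit 4) (nat_lit 5) (nat_lit 5) (nat_lit 5) (nat_lit 4) (nat_lit 281) (nat_lit 221) (nat_lit 218)) (XT.lf (nat_lit 0) (nat_lit 15515653521) (nat_lit 76) (nat_lit 10179013635)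 (nat_lit 76) (nat_lit 9148433694) (nat_lit 4) (nat_lit 4) (nat_lit 5) (nat_lit 5) (nat_lit 5) (nat_lit 4) (nat_lit 282) (nat_lit 221) (nat_lit 217)))) (XT.nd (nat_lit 156) (nat_lit 152) (nat_lit 0) (XT.nd (nat_lit 78) (nat_lit 0) (nat_lit 0) (XT.lf (nat_lit 0) (nat_lit 22698920808) (nat_lit 76) (nat_lit 7956121694) (nat_lit 76) (nat_lit 6713775893) (nat_lit 4) (nat_lit 4) (nat_lit 5) (nat_lit 5) (nat_lit 5) (nat_lit 4) (nat_lit 283) (nat_lit 221) (nat_lit 216)) (XT.lf (nat_lit 0) (nat_lit 30198910386) (nat_lit 76) (nat_lit 5673734907) (nat_lit 76) (nat_lit 4235309606) (nat_lit 4) (nat_lit 4) (nat_lit 5) (nat_lit 5) (nat_lit 5) (nat_lit 4) (nat_lit 284) (nat_lit 221) (nat_lit 215))) (XT.nd (nat_lit 78) (nat_lit 152) (nat_lit 0) (XT.lf (nat_lit 0) (nat_lit 38060066639) (nat_lit 76) (nat_lit 3318328019) (nat_lit 76) (nat_lit 1698347624) (nat_lit 4) (nat_lit 4) (nat_lit 5) (nat_lit 5) (nat_lit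 5) (nat_lit 4) (nat_lit 285) (nat_lit 221) (nat_lit 214)) (XT.lf (nat_lit 0) (nat_lit 15014856) (nat_lit 76) (nat_lit 851861018) (nat_lit 152) (nat_lit 45424113631) (nat_lit 2) (nat_lit 5) (nat_lit 3) (nat_lit 5) (nat_lit 4) (nat_lit 4) (nat_lit 286) (nat_lit 221) (nat_lit 213))))))) (XT.nd (nat_lit 1014) (nat_lit 76) (nat_lit 0) (XT.nd (nat_lit 468) (nat_lit 0) (nat_lit 0) (XT.nd (nat_lit 234) (nat_lit 0) (nat_lit 0) (XT.nd (nat_lit 78) (nat_lit 0) (nat_lit 0) (XT.lf (nat_lit 0) (nat_lit 3608209427) (nat_lit 152) (nat_lit 44337319332) (nat_lit 0) (nat_lit 1808449064) (nat_lit 2) (nat_lit 5) (nat_lit 4) (nat_lit 4) (nat_lit 2) (nat_lit 4) (nat_lit 287) (nat_lit 221) (nat_lit 212)) (XT.nd (nat_lit 78) (nat_lit 0) (nat_lit 0) (XT.lf (nat_lit 0) (nat_lit 6478330307) (nat_lit 152) (nat_lit 42477926506) (nat_lit 0) (nat_lit 4545121531) (nat_lit 2) (nat_lit 5) (nat_lit 4) (nat_lit 4) (nat_lit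 2) (nat_lit 4) (nat_lit 288) (nat_lit 221) (nat_lit 211)) (XT.lf (nat_lit 0) (nat_lit 9473759360) (nat_lit 152) (nat_lit 40666290271) (nat_lit 0) (nat_lit 7416987238) (nat_lit 2) (nat_lit 5) (nat_lit 4) (nat_lit 4) (nat_lit 2) (nat_lit 4) (nat_lit 289) (nat_lit 221) (nat_lit 210)))) (XT.nd (nat_lit 78) (nat_lit 0) (nat_lit 0) (XT.lf (nat_lit 0) (nat_lit 12612247277) (nat_lit 152) (nat_lit 38891675004) (nat_lit 0) (nat_lit 10441064650) (nat_lit 2) (nat_lit 5) (nat_lit 4) (nat_lit 4) (nat_lit 2) (nat_lit 4) (nat_lit 290) (nat_lit 221) (nat_lit 209)) (XT.nd (nat_lit 78) (nat_lit 0) (nat_lit 0) (XT.lf (nat_lit 0) (nat_lit 15912392505) (nat_lit 152) (nat_lit 37143564466) (nat_lit 0) (nat_lit 13635274225) (nat_lit 2) (nat_lit 5) (nat_lit 4) (nat_lit 4) (nat_lit 2) (nat_lit 4) (nat_lit 291) (nat_lit 221) (nat_lit 208)) (XT.lf (nat_lit 0) (nat_lit 19393751460) (nat_lit 152) (nat_lit 35411599484)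 (nat_lit 0) (nat_lit 17018544612) (nat_lit 2) (nat_lit 5) (nat_lit 4) (nat_lit 4) (nat_lit 2) (nat_lit 4) (nat_lit 292) (nat_lit 221) (nat_lit 207))))) (XT.nd (nat_lit 234) (nat_lit 0) (nat_lit 0) (XT.nd (nat_lit 78) (nat_lit 0) (nat_lit 0) (XT.lf (nat_lit 0) (nat_lit 23076954417) (nat_lit 152) (nat_lit 33685516562) (nat_lit 0) (nat_lit 20610924822) (nat_lit 2) (nat_lit 5) (nat_lit 4) (nat_lit 4) (nat_lit 2) (nat_lit 4) (nat_lit 293) (nat_lit 221) (nat_lit 206)) (XT.nd (nat_lit 78) (nat_lit 0) (nat_lit 0) (XT.lf (nat_lit 0) (nat_lit 26983827765) (nat_lit 152) (nat_lit 31955087060) (nat_lit 0) (nat_lit 24433703032) (nat_lit 2) (nat_lit 5) (nat_lit 4) (nat_lit 4) (nat_lit 2) (nat_lit 4) (nat_lit 294) (nat_lit 221) (nat_lit 205)) (XT.lf (nat_lit 0) (nat_lit 31137523344) (nat_lit 152) (nat_lit 30210056581) (nat_lit 0) (nat_lit 28509532744) (nat_lit 2) (nat_lit 5) (nat_lit 4) (nat_lit 4)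 (nat_lit 2) (nat_lit 4) (nat_lit 295) (nat_lit 221) (nat_lit 204)))) (XT.nd (nat_lit 156) (nat_lit 0) (nat_lit 0) (XT.nd (nat_lit 78) (nat_lit 0) (nat_lit 0) (XT.lf (nat_lit 0) (nat_lit 35562655648) (nat_lit 152) (nat_lit 28440084203) (nat_lit 0) (nat_lit 32862567023) (nat_lit 2) (nat_lit 5) (nat_lit 4) (nat_lit 4) (nat_lit 2) (nat_lit 4) (nat_lit 296) (nat_lit 221) (nat_lit 203)) (XT.lf (nat_lit 0) (nat_lit 40285447683) (nat_lit 152) (nat_lit 26634681202) (nat_lit 0) (nat_lit 37518601627) (nat_lit 2) (nat_lit 5) (nat_lit 4) (nat_lit 4) (nat_lit 2) (nat_lit 4) (nat_lit 297) (nat_lit 221) (nat_lit 202))) (XT.nd (nat_lit 78) (nat_lit 0) (nat_lit 0) (XT.lf (nat_lit 0) (nat_lit 45333886364) (nat_lit 152) (nat_lit 24783148893) (nat_lit 0) (nat_lit 42505227872) (nat_lit 2) (nat_lit 5) (nat_lit 4) (nat_lit 4) (nat_lit 2) (nat_lit 4) (nat_lit 298) (nat_lit 221) (nat_lit 201)) (XT.lf (nat_lit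 0) (nat_lit 50737888366) (nat_lit 152) (nat_lit 22874515232) (nat_lit 0) (nat_lit 47851996136) (nat_lit 2) (nat_lit 5) (nat_lit 4) (nat_lit 4) (nat_lit 2) (nat_lit 4) (nat_lit 299) (nat_lit 221) (nat_lit 200)))))) (XT.nd (nat_lit 546) (nat_lit 76) (nat_lit 0) (XT.nd (nat_lit 234) (nat_lit 0) (nat_lit 0) (XT.nd (nat_lit 78) (nat_lit 0) (nat_lit 0) (XT.lf (nat_lit 0) (nat_lit 56529477403) (nat_lit 152) (nat_lit 20897469799) (nat_lit 0) (nat_lit 53590590972) (nat_lit 2) (nat_lit 5) (nat_lit 4) (nat_lit 4) (nat_lit 2) (nat_lit 4) (nat_lit 300) (nat_lit 221) (nat_lit 199)) (XT.nd (nat_lit 78) (nat_lit 0) (nat_lit 0) (XT.lf (nat_lit 0) (nat_lit 62742974003) (nat_lit 152) (nat_lit 18840296768) (nat_lit 0) (nat_lit 59755018868) (nat_lit 2) (nat_lit 5) (nat_lit 4) (nat_lit 4) (nat_lit 2) (nat_lit 4) (nat_lit 301) (nat_lit 221) (nat_lit 198)) (XT.lf (nat_lit 0) (nat_lit 69415198888) (nat_lit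 152) (nat_lit 16690805484) (nat_lit 0) (nat_lit 66381809767) (nat_lit 2) (nat_lit 5) (nat_lit 4) (nat_lit 4) (nat_lit 2) (nat_lit 4) (nat_lit 302) (nat_lit 221) (nat_lit 197)))) (XT.nd (nat_lit 156) (nat_lit 0) (nat_lit 0) (XT.nd (nat_lit 78) (nat_lit 0) (nat_lit 0) (XT.lf (nat_lit 0) (nat_lit 76585691167) (nat_lit 152) (nat_lit 14436258221) (nat_lit 0) (nat_lit 73510233541) (nat_lit 2) (nat_lit 5) (nat_lit 4) (nat_lit 4) (nat_lit 2) (nat_lit 4) (nat_lit 303) (nat_lit 221) (nat_lit 196)) (XT.lf (nat_lit 0) (nat_lit 84296942646) (nat_lit 152) (nat_lit 12063294699) (nat_lit 0) (nat_lit 81182532700) (nat_lit 2) (nat_lit 5) (nat_lit 4) (nat_lit 4) (nat_lit 2) (nat_lit 4) (nat_lit 304) (nat_lit 221) (nat_lit 195))) (XT.nd (nat_lit 78) (nat_lit 0) (nat_lit 0) (XT.lf (nat_lit 0) (nat_lit 92594649632) (nat_lit 152) (nat_lit 9557852912) (nat_lit 0) (nat_lit 89444172723) (nat_lit 2) (nat_lit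 5) (nat_lit 4) (nat_lit 4) (nat_lit 2) (nat_lit 4) (nat_lit 305) (nat_lit 221) (nat_lit 194)) (XT.lf (nat_lit 0) (nat_lit 101527983719) (nat_lit 152) (nat_lit 6905085797) (nat_lit 0) (nat_lit 98344111474) (nat_lit 2) (nat_lit 5) (nat_lit 4) (nat_lit 4) (nat_lit 2) (nat_lit 4) (nat_lit 306) (nat_lit 221) (nat_lit 193))))) (XT.nd (nat_lit 234) (nat_lit 0) (nat_lit 0) (XT.nd (nat_lit 78) (nat_lit 76) (nat_lit 0) (XT.lf (nat_lit 0) (nat_lit 111149883185) (nat_lit 152) (nat_lit 4089273254) (nat_lit 0) (nat_lit 107935089333) (nat_lit 2) (nat_lit 5) (nat_lit 4) (nat_lit 4) (nat_lit 2) (nat_lit 4) (nat_lit 307) (nat_lit 221) (nat_lit 192)) (XT.nd (nat_lit 78) (nat_lit 76) (nat_lit 0) (XT.lf (nat_lit 0) (nat_lit 121517366693) (nat_lit 152) (nat_lit 1093728985) (nat_lit 0) (nat_lit 118273941724) (nat_lit 2) (nat_lit 5) (nat_lit 4) (nat_lit 4) (nat_lit 2) (nat_lit 4) (nat_lit 308) (nat_lit 221)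 (nat_lit 191)) (XT.lf (nat_lit 0) (nat_lit 2209843714) (nat_lit 76) (nat_lit 130535174263) (nat_lit 76) (nat_lit 127265238999) (nat_lit 1) (nat_lit 4) (nat_lit 2) (nat_lit 5) (nat_lit 2) (nat_lit 4) (nat_lit 309) (nat_lit 221) (nat_lit 190)))) (XT.nd (nat_lit 156) (nat_lit 0) (nat_lit 0) (XT.nd (nat_lit 78) (nat_lit 0) (nat_lit 0) (XT.lf (nat_lit 0) (nat_lit 5798810477) (nat_lit 76) (nat_lit 139080266994) (nat_lit 76) (nat_lit 135785785161) (nat_lit 1) (nat_lit 4) (nat_lit 2) (nat_lit 5) (nat_lit 2) (nat_lit 4) (nat_lit 310) (nat_lit 221) (nat_lit 189)) (XT.lf (nat_lit 0) (nat_lit 9636845424) (nat_lit 76) (nat_lit 148326915947) (nat_lit 76) (nat_lit 145009705809) (nat_lit 1) (nat_lit 4) (nat_lit 2) (nat_lit 5) (nat_lit 2) (nat_lit 4) (nat_lit 311) (nat_lit 221) (nat_lit 188))) (XT.nd (nat_lit 78) (nat_lit 0) (nat_lit 0) (XT.lf (nat_lit 0) (nat_lit 13746692466) (nat_lit 76) (nat_lit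 158329916078) (nat_lit 76) (nat_lit 154991661214) (nat_lit 1) (nat_lit 4) (nat_lit 2) (nat_lit 5) (nat_lit 2) (nat_lit 4) (nat_lit 312) (nat_lit 221) (nat_lit 187)) (XT.lf (nat_lit 0) (nat_lit 18152706252) (nat_lit 76) (nat_lit 169148544427) (nat_lit 76) (nat_lit 165790803705) (nat_lit 1) (nat_lit 4) (nat_lit 2) (nat_lit 5) (nat_lit 2) (nat_lit 4) (nat_lit 313) (nat_lit 221) (nat_lit 186))))))))
noncomputable def xc21 : XT := (XT.nd (nat_lit 2028) (nat_lit 0) (nat_lit 0) (XT.nd (nat_lit 1014) (nat_lit 0) (nat_lit 0) (XT.nd (nat_lit 468) (nat_lit 0) (nat_lit 0) (XT.nd (nat_lit 234) (nat_lit 0) (nat_lit 0) (XT.nd (nat_lit 78) (nat_lit 0) (nat_lit 0) (XT.lf (nat_lit 0) (nat_lit 22880996493) (nat_lit 76) (nat_lit 180846911382) (nat_lit 76) (nat_lit 177471128199) (nat_lit 1) (nat_lit 4) (nat_lit 2) (nat_lit 5) (nat_lit 2) (nat_lit 4) (nat_lit 314) (nat_lit 221) (nat_lit 185)) (XT.nd (nat_lit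 78) (nat_lit 0) (nat_lit 0) (XT.lf (nat_lit 0) (nat_lit 27959582687) (nat_lit 76) (nat_lit 193494340600) (nat_lit 76) (nat_lit 190101851435) (nat_lit 1) (nat_lit 4) (nat_lit 2) (nat_lit 5) (nat_lit 2) (nat_lit 4) (nat_lit 315) (nat_lit 221) (nat_lit 184)) (XT.lf (nat_lit 0) (nat_lit 33418560160) (nat_lit 76) (nat_lit 207165779809) (nat_lit 76) (nat_lit 203757822143) (nat_lit 1) (nat_lit 4) (nat_lit 2) (nat_lit 5) (nat_lit 2) (nat_lit 4) (nat_lit 316) (nat_lit 221) (nat_lit 183)))) (XT.nd (nat_lit 78) (nat_lit 0) (nat_lit 0) (XT.lf (nat_lit 0) (nat_lit 39290278408) (nat_lit 76) (nat_lit 221942244947) (nat_lit 76) (nat_lit 218519964593) (nat_lit 1) (nat_lit 4) (nat_lit 2) (nat_lit 5) (nat_lit 2) (nat_lit 4) (nat_lit 317) (nat_lit 221) (nat_lit 182)) (XT.nd (nat_lit 78) (nat_lit 0) (nat_lit 0) (XT.lf (nat_lit 0) (nat_lit 45609532797) (nat_lit 76) (nat_lit 237911300250) (nat_lit 76) (nat_lit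 234475758148) (nat_lit 1) (nat_lit 4) (nat_lit 2) (nat_lit 5) (nat_lit 2) (nat_lit 4) (nat_lit 318) (nat_lit 221) (nat_lit 181)) (XT.lf (nat_lit 0) (nat_lit 52413770762) (nat_lit 76) (nat_lit 255167577157) (nat_lit 76) (nat_lit 251719755660) (nat_lit 1) (nat_lit 4) (nat_lit 2) (nat_lit 5) (nat_lit 2) (nat_lit 4) (nat_lit 319) (nat_lit 221) (nat_lit 180))))) (XT.nd (nat_lit 234) (nat_lit 0) (nat_lit 0) (XT.nd (nat_lit 78) (nat_lit 0) (nat_lit 0) (XT.lf (nat_lit 0) (nat_lit 59743313713) (nat_lit 76) (nat_lit 273813335087) (nat_lit 76) (nat_lit 270354143779) (nat_lit 1) (nat_lit 4) (nat_lit 2) (nat_lit 5) (nat_lit 2) (nat_lit 4) (nat_lit 320) (nat_lit 221) (nat_lit 179)) (XT.nd (nat_lit 78) (nat_lit 0) (nat_lit 0) (XT.lf (nat_lit 0) (nat_lit 67641595978) (nat_lit 76) (nat_lit 293959067421) (nat_lit 76) (nat_lit 290489348510) (nat_lit 1) (nat_lit 4) (nat_lit 2) (nat_lit 5) (nat_lit 2) (nat_lit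 4) (nat_lit 321) (nat_lit 221) (nat_lit 178)) (XT.lf (nat_lit 0) (nat_lit 76155422193) (nat_lit 76) (nat_lit 315724156275) (nat_lit 76) (nat_lit 312244689585) (nat_lit 1) (nat_lit 4) (nat_lit 2) (nat_lit 5) (nat_lit 2) (nat_lit 4) (nat_lit 322) (nat_lit 221) (nat_lit 177)))) (XT.nd (nat_lit 156) (nat_lit 0) (nat_lit 0) (XT.nd (nat_lit 78) (nat_lit 0) (nat_lit 0) (XT.lf (nat_lit 0) (nat_lit 85335244661) (nat_lit 76) (nat_lit 339237579955) (nat_lit 76) (nat_lit 335749087542) (nat_lit 1) (nat_lit 4) (nat_lit 2) (nat_lit 5) (nat_lit 2) (nat_lit 4) (nat_lit 323) (nat_lit 221) (nat_lit 176)) (XT.lf (nat_lit 0) (nat_lit 95235462331) (nat_lit 76) (nat_lit 364638677267) (nat_lit 76) (nat_lit 361141827704) (nat_lit 1) (nat_lit 4) (nat_lit 2) (nat_lit 5) (nat_lit 2) (nat_lit 4) (nat_lit 324) (nat_lit 221) (nat_lit 175))) (XT.nd (nat_lit 78) (nat_lit 0) (nat_lit 0) (XT.lf (nat_lit 0) (nat_lit 105914743158)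 (nat_lit 76) (nat_lit 392077973232) (nat_lit 76) (nat_lit 388573385567) (nat_lit 1) (nat_lit 4) (nat_lit 2) (nat_lit 5) (nat_lit 2) (nat_lit 4) (nat_lit 325) (nat_lit 221) (nat_lit 174)) (XT.lf (nat_lit 0) (nat_lit 117436371771) (nat_lit 76) (nat_lit 421718071086) (nat_lit 76) (nat_lit 418206318511) (nat_lit 1) (nat_lit 4) (nat_lit 2) (nat_lit 5) (nat_lit 2) (nat_lit 4) (nat_lit 326) (nat_lit 221) (nat_lit 173)))))) (XT.nd (nat_lit 468) (nat_lit 0) (nat_lit 0) (XT.nd (nat_lit 234) (nat_lit 0) (nat_lit 0) (XT.nd (nat_lit 78) (nat_lit 0) (nat_lit 0) (XT.lf (nat_lit 0) (nat_lit 129868624487) (nat_lit 76) (nat_lit 453734615853) (nat_lit 76) (nat_lit 450216229103) (nat_lit 1) (nat_lit 4) (nat_lit 2) (nat_lit 5) (nat_lit 2) (nat_lit 4) (nat_lit 327) (nat_lit 221) (nat_lit 172)) (XT.nd (nat_lit 78) (nat_lit 0) (nat_lit 0) (XT.lf (nat_lit 0) (nat_lit 143285173914) (nat_lit 76) (nat_lit 488317335206)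 (nat_lit 76) (nat_lit 484792805701) (nat_lit 1) (nat_lit 4) (nat_lit 2) (nat_lit 5) (nat_lit 2) (nat_lit 4) (nat_lit 328) (nat_lit 221) (nat_lit 171)) (XT.lf (nat_lit 0) (nat_lit 157765525530) (nat_lit 76) (nat_lit 525671163778) (nat_lit 76) (nat_lit 522140946536) (nat_lit 1) (nat_lit 4) (nat_lit 2) (nat_lit 5) (nat_lit 2) (nat_lit 4) (nat_lit 329) (nat_lit 221) (nat_lit 170)))) (XT.nd (nat_lit 78) (nat_lit 0) (nat_lit 0) (XT.lf (nat_lit 0) (nat_lit 173395488827) (nat_lit 76) (nat_lit 566017457590) (nat_lit 76) (nat_lit 562481973926) (nat_lit 1) (nat_lit 4) (nat_lit 2) (nat_lit 5) (nat_lit 2) (nat_lit 4) (nat_lit 330) (nat_lit 221) (nat_lit 169)) (XT.nd (nat_lit 78) (nat_lit 0) (nat_lit 0) (XT.lf (nat_lit 0) (nat_lit 190267685810) (nat_lit 76) (nat_lit 609595305790) (nat_lit 76) (nat_lit 606054945809) (nat_lit 1) (nat_lit 4) (nat_lit 2) (nat_lit 5) (nat_lit 2) (nat_lit 4) (nat_lit 331)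 (nat_lit 221) (nat_lit 168)) (XT.lf (nat_lit 0) (nat_lit 208482099867) (nat_lit 76) (nat_lit 656662947479) (nat_lit 76) (nat_lit 653118072390) (nat_lit 1) (nat_lit 4) (nat_lit 2) (nat_lit 5) (nat_lit 2) (nat_lit 4) (nat_lit 332) (nat_lit 221) (nat_lit 167))))) (XT.nd (nat_lit 234) (nat_lit 0) (nat_lit 0) (XT.nd (nat_lit 78) (nat_lit 0) (nat_lit 0) (XT.lf (nat_lit 0) (nat_lit 228146668267) (nat_lit 76) (nat_lit 707499302016) (nat_lit 76) (nat_lit 703950246271) (nat_lit 1) (nat_lit 4) (nat_lit 2) (nat_lit 5) (nat_lit 2) (nat_lit 4) (nat_lit 333) (nat_lit 221) (nat_lit 166)) (XT.nd (nat_lit 78) (nat_lit 0) (nat_lit 0) (XT.lf (nat_lit 0) (nat_lit 249377921787) (nat_lit 76) (nat_lit 762405621871) (nat_lit 76) (nat_lit 758852695148) (nat_lit 1) (nat_lit 4) (nat_lit 2) (nat_lit 5) (nat_lit 2) (nat_lit 4) (nat_lit 334) (nat_lit 221) (nat_lit 165)) (XT.lf (nat_lit 0) (nat_lit 272301675262) (nat_lit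 76) (nat_lit 821707277829) (nat_lit 76) (nat_lit 818150766867) (nat_lit 1) (nat_lit 4) (nat_lit 2) (nat_lit 5) (nat_lit 2) (nat_lit 4) (nat_lit 335) (nat_lit 221) (nat_lit 164)))) (XT.nd (nat_lit 156) (nat_lit 0) (nat_lit 0) (XT.nd (nat_lit 78) (nat_lit 0) (nat_lit 0) (XT.lf (nat_lit 0) (nat_lit 297053773156) (nat_lit 76) (nat_lit 885755687110) (nat_lit 76) (nat_lit 882195857409) (nat_lit 1) (nat_lit 4) (nat_lit 2) (nat_lit 5) (nat_lit 2) (nat_lit 4) (nat_lit 336) (nat_lit 221) (nat_lit 163)) (XT.lf (nat_lit 0) (nat_lit 323780894568) (nat_lit 76) (nat_lit 954930395843) (nat_lit 76) (nat_lit 951367493236) (nat_lit 1) (nat_lit 4) (nat_lit 2) (nat_lit 5) (nat_lit 2) (nat_lit 4) (nat_lit 337) (nat_lit 221) (nat_lit 162))) (XT.nd (nat_lit 78) (nat_lit 0) (nat_lit 0) (XT.lf (nat_lit 0) (nat_lit 352641422441) (nat_lit 76) (nat_lit 1029641328229) (nat_lit 76) (nat_lit 1026075580338) (nat_lit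 1) (nat_lit 4) (nat_lit 2) (nat_lit 5) (nat_lit 2) (nat_lit 4) (nat_lit 338) (nat_lit 221) (nat_lit 161)) (XT.lf (nat_lit 0) (nat_lit 383806382124) (nat_lit 76) (nat_lit 1110331215719) (nat_lit 76) (nat_lit 1106762833305) (nat_lit 1) (nat_lit 4) (nat_lit 2) (nat_lit 5) (nat_lit 2) (nat_lit 4) (nat_lit 339) (nat_lit 221) (nat_lit 160))))))) (XT.nd (nat_lit 33228) (nat_lit 0) (nat_lit 76) (XT.nd (nat_lit 32682) (nat_lit 0) (nat_lit 228) (XT.nd (nat_lit 234) (nat_lit 0) (nat_lit 0) (XT.nd (nat_lit 78) (nat_lit 0) (nat_lit 0) (XT.lf (nat_lit 0) (nat_lit 417460454860) (nat_lit 76) (nat_lit 1197478220608) (nat_lit 76) (nat_lit 1193907398821) (nat_lit 1) (nat_lit 4) (nat_lit 2) (nat_lit 5) (nat_lit 2) (nat_lit 4) (nat_lit 340) (nat_lit 221) (nat_lit 159)) (XT.nd (nat_lit 78) (nat_lit 0) (nat_lit 0) (XT.lf (nat_lit 0) (nat_lit 453803072191) (nat_lit 76) (nat_lit 1291598769592) (nat_lit 76)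 (nat_lit 1288025689127) (nat_lit 1) (nat_lit 4) (nat_lit 2) (nat_lit 5) (nat_lit 2) (nat_lit 4) (nat_lit 341) (nat_lit 221) (nat_lit 158)) (XT.lf (nat_lit 0) (nat_lit 493049597776) (nat_lit 76) (nat_lit 1393250614073) (nat_lit 76) (nat_lit 1389675442240) (nat_lit 1) (nat_lit 4) (nat_lit 2) (nat_lit 5) (nat_lit 2) (nat_lit 4) (nat_lit 342) (nat_lit 221) (nat_lit 157)))) (XT.nd (nat_lit 32292) (nat_lit 0) (nat_lit 304) (XT.lf (nat_lit 0) (nat_lit 535432603617) (nat_lit 76) (nat_lit 1503036135352) (nat_lit 76) (nat_lit 1499459027066) (nat_lit 1) (nat_lit 4) (nat_lit 2) (nat_lit 5) (nat_lit 2) (nat_lit 4) (nat_lit 343) (nat_lit 221) (nat_lit 156)) (XT.nd (nat_lit 78) (nat_lit 0) (nat_lit 0) (XT.lf (nat_lit 0) (nat_lit 372374541) (nat_lit 152) (nat_lit 10933948132) (nat_lit 0) (nat_lit 372374541) (nat_lit 5) (nat_lit 5) (nat_lit 7) (nat_lit 4) (nat_lit 5) (nat_lit 4) (nat_lit 276) (nat_lit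 222) (nat_lit 222)) (XT.lf (nat_lit 0) (nat_lit 4488313509) (nat_lit 152) (nat_lit 16233083428) (nat_lit 0) (nat_lit 4177159984) (nat_lit 5) (nat_lit 5) (nat_lit 7) (nat_lit 4) (nat_lit 5) (nat_lit 4) (nat_lit 277) (nat_lit 222) (nat_lit 221))))) (XT.nd (nat_lit 234) (nat_lit 0) (nat_lit 0) (XT.nd (nat_lit 78) (nat_lit 76) (nat_lit 0) (XT.lf (nat_lit 0) (nat_lit 8335355985) (nat_lit 152) (nat_lit 10507523744) (nat_lit 0) (nat_lit 7736097345) (nat_lit 5) (nat_lit 5) (nat_lit 7) (nat_lit 4) (nat_lit 5) (nat_lit 4) (nat_lit 278) (nat_lit 222) (nat_lit 220)) (XT.nd (nat_lit 78) (nat_lit 76) (nat_lit 0) (XT.lf (nat_lit 0) (nat_lit 12308673801) (nat_lit 152) (nat_lit 4657287966) (nat_lit 0) (nat_lit 11442651165) (nat_lit 5) (nat_lit 5) (nat_lit 7) (nat_lit 4) (nat_lit 5) (nat_lit 4) (nat_lit 279) (nat_lit 222) (nat_lit 219)) (XT.lf (nat_lit 0) (nat_lit 1423501264) (nat_lit 76) (nat_lit 15042546518)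 (nat_lit 76) (nat_lit 13929520183) (nat_lit 4) (nat_lit 4) (nat_lit 5) (nat_lit 5) (nat_lit 5) (nat_lit 4) (nat_lit 280) (nat_lit 222) (nat_lit 218)))) (XT.nd (nat_lit 156) (nat_lit 0) (nat_lit 0) (XT.nd (nat_lit 78) (nat_lit 0) (nat_lit 0) (XT.lf (nat_lit 0) (nat_lit 7954757572) (nat_lit 76) (nat_lit 12965760166) (nat_lit 76) (nat_lit 11624026701) (nat_lit 4) (nat_lit 4) (nat_lit 5) (nat_lit 5) (nat_lit 5) (nat_lit 4) (nat_lit 281) (nat_lit 222) (nat_lit 217)) (XT.lf (nat_lit 0) (nat_lit 14729940164) (nat_lit 76) (nat_lit 10850634335) (nat_lit 76) (nat_lit 9297135009) (nat_lit 4) (nat_lit 4) (nat_lit 5) (nat_lit 5) (nat_lit 5) (nat_lit 4) (nat_lit 282) (nat_lit 222) (nat_lit 216))) (XT.nd (nat_lit 78) (nat_lit 0) (nat_lit 0) (XT.lf (nat_lit 0) (nat_lit 21789198273) (nat_lit 76) (nat_lit 8684634946) (nat_lit 76) (nat_lit 6935056120) (nat_lit 4) (nat_lit 4) (nat_lit 5) (nat_lit 5) (nat_lit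 5) (nat_lit 4) (nat_lit 283) (nat_lit 222) (nat_lit 215)) (XT.lf (nat_lit 0) (nat_lit 29174364538) (nat_lit 76) (nat_lit 6454926449) (nat_lit 76) (nat_lit 4523792529) (nat_lit 4) (nat_lit 4) (nat_lit 5) (nat_lit 5) (nat_lit 5) (nat_lit 4) (nat_lit 284) (nat_lit 222) (nat_lit 214)))))) (XT.nd (nat_lit 546) (nat_lit 0) (nat_lit 0) (XT.nd (nat_lit 234) (nat_lit 0) (nat_lit 0) (XT.nd (nat_lit 78) (nat_lit 152) (nat_lit 0) (XT.lf (nat_lit 0) (nat_lit 36929202908) (nat_lit 76) (nat_lit 4148295755) (nat_lit 76) (nat_lit 2049055268) (nat_lit 4) (nat_lit 4) (nat_lit 5) (nat_lit 5) (nat_lit 5) (nat_lit 4) (nat_lit 285) (nat_lit 222) (nat_lit 213)) (XT.nd (nat_lit 78) (nat_lit 76) (nat_lit 0) (XT.lf (nat_lit 0) (nat_lit 478617619) (nat_lit 152) (nat_lit 1259370068) (nat_lit 76) (nat_lit 44607964107) (nat_lit 3) (nat_lit 5) (nat_lit 5) (nat_lit 5) (nat_lit 4) (nat_lit 4) (nat_lit 286) (nat_lit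 222) (nat_lit 212)) (XT.lf (nat_lit 0) (nat_lit 3111772346) (nat_lit 152) (nat_lit 45815426881) (nat_lit 0) (nat_lit 890458455) (nat_lit 2) (nat_lit 5) (nat_lit 4) (nat_lit 4) (nat_lit 2) (nat_lit 4) (nat_lit 287) (nat_lit 222) (nat_lit 211)))) (XT.nd (nat_lit 156) (nat_lit 0) (nat_lit 0) (XT.nd (nat_lit 78) (nat_lit 0) (nat_lit 0) (XT.lf (nat_lit 0) (nat_lit 5931748276) (nat_lit 152) (nat_lit 44050509064) (nat_lit 0) (nat_lit 3586871038) (nat_lit 2) (nat_lit 5) (nat_lit 4) (nat_lit 4) (nat_lit 2) (nat_lit 4) (nat_lit 288) (nat_lit 222) (nat_lit 210)) (XT.lf (nat_lit 0) (nat_lit 8880746819) (nat_lit 152) (nat_lit 42326349687) (nat_lit 0) (nat_lit 6421459077) (nat_lit 2) (nat_lit 5) (nat_lit 4) (nat_lit 4) (nat_lit 2) (nat_lit 4) (nat_lit 289) (nat_lit 222) (nat_lit 209))) (XT.nd (nat_lit 78) (nat_lit 0) (nat_lit 0) (XT.lf (nat_lit 0) (nat_lit 11976243524) (nat_lit 152) (nat_lit 40632731512)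 (nat_lit 0) (nat_lit 9411020128) (nat_lit 2) (nat_lit 5) (nat_lit 4) (nat_lit 4) (nat_lit 2) (nat_lit 4) (nat_lit 290) (nat_lit 222) (nat_lit 208)) (XT.lf (nat_lit 0) (nat_lit 15236582073) (nat_lit 152) (nat_lit 38959618281) (nat_lit 0) (nat_lit 12573270110) (nat_lit 2) (nat_lit 5) (nat_lit 4) (nat_lit 4) (nat_lit 2) (nat_lit 4) (nat_lit 291) (nat_lit 222) (nat_lit 207))))) (XT.nd (nat_lit 234) (nat_lit 0) (nat_lit 0) (XT.nd (nat_lit 78) (nat_lit 0) (nat_lit 0) (XT.lf (nat_lit 0) (nat_lit 18681082992) (nat_lit 152) (nat_lit 37297095251) (nat_lit 0) (nat_lit 15926948281) (nat_lit 2) (nat_lit 5) (nat_lit 4) (nat_lit 4) (nat_lit 2) (nat_lit 4) (nat_lit 292) (nat_lit 222) (nat_lit 206)) (XT.nd (nat_lit 78) (nat_lit 0) (nat_lit 0) (XT.lf (nat_lit 0) (nat_lit 22330158139) (nat_lit 152) (nat_lit 35635310431) (nat_lit 0) (nat_lit 19491928291) (nat_lit 2) (nat_lit 5) (nat_lit 4) (nat_lit 4)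 (nat_lit 2) (nat_lit 4) (nat_lit 293) (nat_lit 222) (nat_lit 205)) (XT.lf (nat_lit 0) (nat_lit 26205431661) (nat_lit 152) (nat_lit 33964416209) (nat_lit 0) (nat_lit 23289335946) (nat_lit 2) (nat_lit 5) (nat_lit 4) (nat_lit 4) (nat_lit 2) (nat_lit 4) (nat_lit 294) (nat_lit 222) (nat_lit 204)))) (XT.nd (nat_lit 156) (nat_lit 0) (nat_lit 0) (XT.nd (nat_lit 78) (nat_lit 0) (nat_lit 0) (XT.lf (nat_lit 0) (nat_lit 30329868144) (nat_lit 152) (nat_lit 32274510989) (nat_lit 0) (nat_lit 27341674403) (nat_lit 2) (nat_lit 5) (nat_lit 4) (nat_lit 4) (nat_lit 2) (nat_lit 4) (nat_lit 295) (nat_lit 222) (nat_lit 203)) (XT.lf (nat_lit 0) (nat_lit 34727908691) (nat_lit 152) (nat_lit 30555580519) (nat_lit 0) (nat_lit 31672957519) (nat_lit 2) (nat_lit 5) (nat_lit 4) (nat_lit 4) (nat_lit 2) (nat_lit 4) (nat_lit 296) (nat_lit 222) (nat_lit 202))) (XT.nd (nat_lit 78) (nat_lit 0) (nat_lit 0) (XT.lf (nat_lit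 0) (nat_lit 39425615766) (nat_lit 152) (nat_lit 28797438543) (nat_lit 0) (nat_lit 36308852158) (nat_lit 2) (nat_lit 5) (nat_lit 4) (nat_lit 4) (nat_lit 2) (nat_lit 4) (nat_lit 297) (nat_lit 222) (nat_lit 201)) (XT.lf (nat_lit 0) (nat_lit 44450827633) (nat_lit 152) (nat_lit 26989666442) (nat_lit 0) (nat_lit 41276830288) (nat_lit 2) (nat_lit 5) (nat_lit 4) (nat_lit 4) (nat_lit 2) (nat_lit 4) (nat_lit 298) (nat_lit 222) (nat_lit 200))))))))
noncomputable def xc22 : XT := (XT.nd (nat_lit 2028) (nat_lit 0) (nat_lit 0) (XT.nd (nat_lit 1014) (nat_lit 0) (nat_lit 0) (XT.nd (nat_lit 468) (nat_lit 76) (nat_lit 0) (XT.nd (nat_lit 234) (nat_lit 0) (nat_lit 0) (XT.nd (nat_lit 78) (nat_lit 0) (nat_lit 0) (XT.lf (nat_lit 0) (nat_lit 49833323325) (nat_lit 152) (nat_lit 25121551493) (nat_lit 0) (nat_lit 46606331779) (nat_lit 2) (nat_lit 5) (nat_lit 4) (nat_lit 4) (nat_lit 2) (nat_lit 4) (nat_lit 299)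 (nat_lit 222) (nat_lit 199)) (XT.nd (nat_lit 78) (nat_lit 0) (nat_lit 0) (XT.lf (nat_lit 0) (nat_lit 55604999112) (nat_lit 152) (nat_lit 23182023385) (nat_lit 0) (nat_lit 52328938861) (nat_lit 2) (nat_lit 5) (nat_lit 4) (nat_lit 4) (nat_lit 2) (nat_lit 4) (nat_lit 300) (nat_lit 222) (nat_lit 198)) (XT.lf (nat_lit 0) (nat_lit 61800057518) (nat_lit 152) (nat_lit 21159588618) (nat_lit 0) (nat_lit 58478563282) (nat_lit 2) (nat_lit 5) (nat_lit 4) (nat_lit 4) (nat_lit 2) (nat_lit 4) (nat_lit 301) (nat_lit 222) (nat_lit 197)))) (XT.nd (nat_lit 78) (nat_lit 0) (nat_lit 0) (XT.lf (nat_lit 0) (nat_lit 68455210001) (nat_lit 152) (nat_lit 19042262394) (nat_lit 0) (nat_lit 65091647259) (nat_lit 2) (nat_lit 5) (nat_lit 4) (nat_lit 4) (nat_lit 2) (nat_lit 4) (nat_lit 302) (nat_lit 222) (nat_lit 196)) (XT.nd (nat_lit 78) (nat_lit 0) (nat_lit 0) (XT.lf (nat_lit 0) (nat_lit 75609894500) (nat_lit 152)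 (nat_lit 16817497593) (nat_lit 0) (nat_lit 72207379439) (nat_lit 2) (nat_lit 5) (nat_lit 4) (nat_lit 4) (nat_lit 2) (nat_lit 4) (nat_lit 303) (nat_lit 222) (nat_lit 195)) (XT.lf (nat_lit 0) (nat_lit 83306509147) (nat_lit 152) (nat_lit 14472110426) (nat_lit 0) (nat_lit 79867927122) (nat_lit 2) (nat_lit 5) (nat_lit 4) (nat_lit 4) (nat_lit 2) (nat_lit 4) (nat_lit 304) (nat_lit 222) (nat_lit 194))))) (XT.nd (nat_lit 234) (nat_lit 76) (nat_lit 0) (XT.nd (nat_lit 78) (nat_lit 0) (nat_lit 0) (XT.lf (nat_lit 0) (nat_lit 91590663508) (nat_lit 152) (nat_lit 11992202300) (nat_lit 0) (nat_lit 88118686148) (nat_lit 2) (nat_lit 5) (nat_lit 4) (nat_lit 4) (nat_lit 2) (nat_lit 4) (nat_lit 305) (nat_lit 222) (nat_lit 193)) (XT.nd (nat_lit 78) (nat_lit 0) (nat_lit 0) (XT.lf (nat_lit 0) (nat_lit 100511448871) (nat_lit 152) (nat_lit 9363077464) (nat_lit 0) (nat_lit 97008549903) (nat_lit 2) (nat_lit 5)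 (nat_lit 4) (nat_lit 4) (nat_lit 2) (nat_lit 4) (nat_lit 306) (nat_lit 222) (nat_lit 192)) (XT.lf (nat_lit 0) (nat_lit 110121729147) (nat_lit 152) (nat_lit 6569155920) (nat_lit 0) (nat_lit 106590199062) (nat_lit 2) (nat_lit 5) (nat_lit 4) (nat_lit 4) (nat_lit 2) (nat_lit 4) (nat_lit 307) (nat_lit 222) (nat_lit 191)))) (XT.nd (nat_lit 156) (nat_lit 76) (nat_lit 0) (XT.nd (nat_lit 78) (nat_lit 0) (nat_lit 0) (XT.lf (nat_lit 0) (nat_lit 120478454146) (nat_lit 152) (nat_lit 3593881095) (nat_lit 0) (nat_lit 116920413766) (nat_lit 2) (nat_lit 5) (nat_lit 4) (nat_lit 4) (nat_lit 2) (nat_lit 4) (nat_lit 308) (nat_lit 222) (nat_lit 190)) (XT.lf (nat_lit 0) (nat_lit 131642997053) (nat_lit 152) (nat_lit 419621730) (nat_lit 0) (nat_lit 128060410104) (nat_lit 2) (nat_lit 5) (nat_lit 4) (nat_lit 4) (nat_lit 2) (nat_lit 4) (nat_lit 309) (nat_lit 222) (nat_lit 189))) (XT.nd (nat_lit 78) (nat_lit 0)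 (nat_lit 0) (XT.lf (nat_lit 0) (nat_lit 3128955631) (nat_lit 76) (nat_lit 140627813949) (nat_lit 76) (nat_lit 137022498696) (nat_lit 1) (nat_lit 4) (nat_lit 2) (nat_lit 5) (nat_lit 2) (nat_lit 4) (nat_lit 310) (nat_lit 222) (nat_lit 188)) (XT.lf (nat_lit 0) (nat_lit 6950052741) (nat_lit 76) (nat_lit 149882452932) (nat_lit 76) (nat_lit 146256092952) (nat_lit 1) (nat_lit 4) (nat_lit 2) (nat_lit 5) (nat_lit 2) (nat_lit 4) (nat_lit 311) (nat_lit 222) (nat_lit 187)))))) (XT.nd (nat_lit 468) (nat_lit 0) (nat_lit 0) (XT.nd (nat_lit 234) (nat_lit 0) (nat_lit 0) (XT.nd (nat_lit 78) (nat_lit 0) (nat_lit 0) (XT.lf (nat_lit 0) (nat_lit 11044216601) (nat_lit 76) (nat_lit 159892851239) (nat_lit 76) (nat_lit 156247005402) (nat_lit 1) (nat_lit 4) (nat_lit 2) (nat_lit 5) (nat_lit 2) (nat_lit 4) (nat_lit 312) (nat_lit 222) (nat_lit 186)) (XT.nd (nat_lit 78) (nat_lit 0) (nat_lit 0) (XT.lf (nat_lit 0)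 (nat_lit 15435708921) (nat_lit 76) (nat_lit 170718329751) (nat_lit 76) (nat_lit 167054441453) (nat_lit 1) (nat_lit 4) (nat_lit 2) (nat_lit 5) (nat_lit 2) (nat_lit 4) (nat_lit 313) (nat_lit 222) (nat_lit 185)) (XT.lf (nat_lit 0) (nat_lit 20150553361) (nat_lit 76) (nat_lit 182423039449) (nat_lit 76) (nat_lit 178742445169) (nat_lit 1) (nat_lit 4) (nat_lit 2) (nat_lit 5) (nat_lit 2) (nat_lit 4) (nat_lit 314) (nat_lit 222) (nat_lit 184)))) (XT.nd (nat_lit 78) (nat_lit 0) (nat_lit 0) (XT.lf (nat_lit 0) (nat_lit 25216689740) (nat_lit 76) (nat_lit 195076341578) (nat_lit 76) (nat_lit 191380278796) (nat_lit 1) (nat_lit 4) (nat_lit 2) (nat_lit 5) (nat_lit 2) (nat_lit 4) (nat_lit 315) (nat_lit 222) (nat_lit 183)) (XT.nd (nat_lit 78) (nat_lit 0) (nat_lit 0) (XT.lf (nat_lit 0) (nat_lit 30664139605) (nat_lit 76) (nat_lit 208753218668) (nat_lit 76) (nat_lit 205042833199) (nat_lit 1) (nat_lit 4) (nat_lit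 2) (nat_lit 5) (nat_lit 2) (nat_lit 4) (nat_lit 316) (nat_lit 222) (nat_lit 182)) (XT.lf (nat_lit 0) (nat_lit 36525184142) (nat_lit 76) (nat_lit 223534718879) (nat_lit 76) (nat_lit 219811071663) (nat_lit 1) (nat_lit 4) (nat_lit 2) (nat_lit 5) (nat_lit 2) (nat_lit 4) (nat_lit 317) (nat_lit 222) (nat_lit 181))))) (XT.nd (nat_lit 234) (nat_lit 0) (nat_lit 0) (XT.nd (nat_lit 78) (nat_lit 0) (nat_lit 0) (XT.lf (nat_lit 0) (nat_lit 42834555466) (nat_lit 76) (nat_lit 239508436288) (nat_lit 76) (nat_lit 235772509676) (nat_lit 1) (nat_lit 4) (nat_lit 2) (nat_lit 5) (nat_lit 2) (nat_lit 4) (nat_lit 318) (nat_lit 222) (nat_lit 180)) (XT.nd (nat_lit 78) (nat_lit 0) (nat_lit 0) (XT.lf (nat_lit 0) (nat_lit 49629642445) (nat_lit 76) (nat_lit 256769029960) (nat_lit 76) (nat_lit 253021733537) (nat_lit 1) (nat_lit 4) (nat_lit 2) (nat_lit 5) (nat_lit 2) (nat_lit 4) (nat_lit 319) (nat_lit 222) (nat_lit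 179)) (XT.lf (nat_lit 0) (nat_lit 56950712260) (nat_lit 76) (nat_lit 275418784895) (nat_lit 76) (nat_lit 271660960869) (nat_lit 1) (nat_lit 4) (nat_lit 2) (nat_lit 5) (nat_lit 2) (nat_lit 4) (nat_lit 320) (nat_lit 222) (nat_lit 178)))) (XT.nd (nat_lit 156) (nat_lit 0) (nat_lit 0) (XT.nd (nat_lit 78) (nat_lit 0) (nat_lit 0) (XT.lf (nat_lit 0) (nat_lit 64841149030) (nat_lit 76) (nat_lit 295568218158) (nat_lit 76) (nat_lit 291800646352) (nat_lit 1) (nat_lit 4) (nat_lit 2) (nat_lit 5) (nat_lit 2) (nat_lit 4) (nat_lit 321) (nat_lit 222) (nat_lit 177)) (XT.lf (nat_lit 0) (nat_lit 73347710897) (nat_lit 76) (nat_lit 317336733800) (nat_lit 76) (nat_lit 313560136271) (nat_lit 1) (nat_lit 4) (nat_lit 2) (nat_lit 5) (nat_lit 2) (nat_lit 4) (nat_lit 322) (nat_lit 222) (nat_lit 176))) (XT.nd (nat_lit 78) (nat_lit 0) (nat_lit 0) (XT.lf (nat_lit 0) (nat_lit 82520807117) (nat_lit 76) (nat_lit 340853330430)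 (nat_lit 76) (nat_lit 337068375751) (nat_lit 1) (nat_lit 4) (nat_lit 2) (nat_lit 5) (nat_lit 2) (nat_lit 4) (nat_lit 323) (nat_lit 222) (nat_lit 175)) (XT.lf (nat_lit 0) (nat_lit 92414796779) (nat_lit 76) (nat_lit 366257365660) (nat_lit 76) (nat_lit 362464672879) (nat_lit 1) (nat_lit 4) (nat_lit 2) (nat_lit 5) (nat_lit 2) (nat_lit 4) (nat_lit 324) (nat_lit 222) (nat_lit 174))))))) (XT.nd (nat_lit 1014) (nat_lit 0) (nat_lit 0) (XT.nd (nat_lit 468) (nat_lit 0) (nat_lit 0) (XT.nd (nat_lit 234) (nat_lit 0) (nat_lit 0) (XT.nd (nat_lit 78) (nat_lit 0) (nat_lit 0) (XT.lf (nat_lit 0) (nat_lit 103088310933) (nat_lit 76) (nat_lit 393699381919) (nat_lit 76) (nat_lit 389899524229) (nat_lit 1) (nat_lit 4) (nat_lit 2) (nat_lit 5) (nat_lit 2) (nat_lit 4) (nat_lit 325) (nat_lit 222) (nat_lit 173)) (XT.nd (nat_lit 78) (nat_lit 0) (nat_lit 0) (XT.lf (nat_lit 0) (nat_lit 114604600033) (nat_lit 76) (nat_lit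 423341998564) (nat_lit 76) (nat_lit 419535506698) (nat_lit 1) (nat_lit 4) (nat_lit 2) (nat_lit 5) (nat_lit 2) (nat_lit 4) (nat_lit 326) (nat_lit 222) (nat_lit 172)) (XT.lf (nat_lit 0) (nat_lit 127031908755) (nat_lit 76) (nat_lit 455360875545) (nat_lit 76) (nat_lit 451548240924) (nat_lit 1) (nat_lit 4) (nat_lit 2) (nat_lit 5) (nat_lit 2) (nat_lit 4) (nat_lit 327) (nat_lit 222) (nat_lit 171)))) (XT.nd (nat_lit 78) (nat_lit 0) (nat_lit 0) (XT.lf (nat_lit 0) (nat_lit 140443880411) (nat_lit 76) (nat_lit 489945754354) (nat_lit 76) (nat_lit 486127431997) (nat_lit 1) (nat_lit 4) (nat_lit 2) (nat_lit 5) (nat_lit 2) (nat_lit 4) (nat_lit 328) (nat_lit 222) (nat_lit 170)) (XT.nd (nat_lit 78) (nat_lit 0) (nat_lit 0) (XT.lf (nat_lit 0) (nat_lit 154919993350) (nat_lit 76) (nat_lit 527301582423) (nat_lit 76) (nat_lit 523477993644) (nat_lit 1) (nat_lit 4) (nat_lit 2) (nat_lit 5) (nat_lit 2) (nat_lit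 4) (nat_lit 329) (nat_lit 222) (nat_lit 169)) (XT.lf (nat_lit 0) (nat_lit 170546031946) (nat_lit 76) (nat_lit 567649727621) (nat_lit 76) (nat_lit 563821262525) (nat_lit 1) (nat_lit 4) (nat_lit 2) (nat_lit 5) (nat_lit 2) (nat_lit 4) (nat_lit 330) (nat_lit 222) (nat_lit 168))))) (XT.nd (nat_lit 234) (nat_lit 0) (nat_lit 0) (XT.nd (nat_lit 78) (nat_lit 0) (nat_lit 0) (XT.lf (nat_lit 0) (nat_lit 187414594946) (nat_lit 76) (nat_lit 611229290068) (nat_lit 76) (nat_lit 607396309864) (nat_lit 1) (nat_lit 4) (nat_lit 2) (nat_lit 5) (nat_lit 2) (nat_lit 4) (nat_lit 331) (nat_lit 222) (nat_lit 167)) (XT.nd (nat_lit 78) (nat_lit 0) (nat_lit 0) (XT.lf (nat_lit 0) (nat_lit 205625644205) (nat_lit 76) (nat_lit 658298519023) (nat_lit 76) (nat_lit 654461358162) (nat_lit 1) (nat_lit 4) (nat_lit 2) (nat_lit 5) (nat_lit 2) (nat_lit 4) (nat_lit 332) (nat_lit 222) (nat_lit 166)) (XT.lf (nat_lit 0) (nat_lit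 225287097051) (nat_lit 76) (nat_lit 709136343250) (nat_lit 76) (nat_lit 705295311412) (nat_lit 1) (nat_lit 4) (nat_lit 2) (nat_lit 5) (nat_lit 2) (nat_lit 4) (nat_lit 333) (nat_lit 222) (nat_lit 165)))) (XT.nd (nat_lit 156) (nat_lit 0) (nat_lit 0) (XT.nd (nat_lit 78) (nat_lit 0) (nat_lit 0) (XT.lf (nat_lit 0) (nat_lit 246515465798) (nat_lit 76) (nat_lit 764044023929) (nat_lit 76) (nat_lit 760199407852) (nat_lit 1) (nat_lit 4) (nat_lit 2) (nat_lit 5) (nat_lit 2) (nat_lit 4) (nat_lit 334) (nat_lit 222) (nat_lit 164)) (XT.lf (nat_lit 0) (nat_lit 269436548187) (nat_lit 76) (nat_lit 823346939909) (nat_lit 76) (nat_lit 819499005093) (nat_lit 1) (nat_lit 4) (nat_lit 2) (nat_lit 5) (nat_lit 2) (nat_lit 4) (nat_lit 335) (nat_lit 222) (nat_lit 163))) (XT.nd (nat_lit 78) (nat_lit 0) (nat_lit 0) (XT.lf (nat_lit 0) (nat_lit 294186172853) (nat_lit 76) (nat_lit 887396515878) (nat_lit 76) (nat_lit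 883545508155) (nat_lit 1) (nat_lit 4) (nat_lit 2) (nat_lit 5) (nat_lit 2) (nat_lit 4) (nat_lit 336) (nat_lit 222) (nat_lit 162)) (XT.lf (nat_lit 0) (nat_lit 320911004240) (nat_lit 76) (nat_lit 956572304878) (nat_lit 76) (nat_lit 952718451871) (nat_lit 1) (nat_lit 4) (nat_lit 2) (nat_lit 5) (nat_lit 2) (nat_lit 4) (nat_lit 337) (nat_lit 222) (nat_lit 161)))))) (XT.nd (nat_lit 32604) (nat_lit 0) (nat_lit 228) (XT.nd (nat_lit 234) (nat_lit 0) (nat_lit 0) (XT.nd (nat_lit 78) (nat_lit 0) (nat_lit 0) (XT.lf (nat_lit 0) (nat_lit 349769411719) (nat_lit 76) (nat_lit 1031284237510) (nat_lit 76) (nat_lit 1027427749981) (nat_lit 1) (nat_lit 4) (nat_lit 2) (nat_lit 5) (nat_lit 2) (nat_lit 4) (nat_lit 338) (nat_lit 222) (nat_lit 160)) (XT.nd (nat_lit 78) (nat_lit 0) (nat_lit 0) (XT.lf (nat_lit 0) (nat_lit 380932408075) (nat_lit 76) (nat_lit 1111975051153) (nat_lit 76) (nat_lit 1108116124252) (nat_lit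 1) (nat_lit 4) (nat_lit 2) (nat_lit 5) (nat_lit 2) (nat_lit 4) (nat_lit 339) (nat_lit 222) (nat_lit 159)) (XT.lf (nat_lit 0) (nat_lit 414584662915) (nat_lit 76) (nat_lit 1199122913593) (nat_lit 76) (nat_lit 1195261728012) (nat_lit 1) (nat_lit 4) (nat_lit 2) (nat_lit 5) (nat_lit 2) (nat_lit 4) (nat_lit 340) (nat_lit 222) (nat_lit 158)))) (XT.nd (nat_lit 156) (nat_lit 0) (nat_lit 0) (XT.nd (nat_lit 78) (nat_lit 0) (nat_lit 0) (XT.lf (nat_lit 0) (nat_lit 450925597009) (nat_lit 76) (nat_lit 1293244256605) (nat_lit 76) (nat_lit 1289380979656) (nat_lit 1) (nat_lit 4) (nat_lit 2) (nat_lit 5) (nat_lit 2) (nat_lit 4) (nat_lit 341) (nat_lit 222) (nat_lit 157)) (XT.lf (nat_lit 0) (nat_lit 490170564041) (nat_lit 76) (nat_lit 1394896836297) (nat_lit 76) (nat_lit 1391031622896) (nat_lit 1) (nat_lit 4) (nat_lit 2) (nat_lit 5) (nat_lit 2) (nat_lit 4) (nat_lit 342) (nat_lit 222) (nat_lit 156))) (XT.nd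 (nat_lit 32136) (nat_lit 0) (nat_lit 456) (XT.lf (nat_lit 0) (nat_lit 532552126778) (nat_lit 76) (nat_lit 1504683038327) (nat_lit 76) (nat_lit 1500816031913) (nat_lit 1) (nat_lit 4) (nat_lit 2) (nat_lit 5) (nat_lit 2) (nat_lit 4) (nat_lit 343) (nat_lit 222) (nat_lit 155)) (XT.lf (nat_lit 0) (nat_lit 4379910219) (nat_lit 76) (nat_lit 2960230719) (nat_lit 76) (nat_lit 2960230719) (nat_lit 7) (nat_lit 4) (nat_lit 8) (nat_lit 5) (nat_lit 8) (nat_lit 4) (nat_lit 274) (nat_lit 223) (nat_lit 223))))) (XT.nd (nat_lit 234) (nat_lit 76) (nat_lit 0) (XT.nd (nat_lit 78) (nat_lit 152) (nat_lit 0) (XT.lf (nat_lit 0) (nat_lit 16565125509) (nat_lit 76) (nat_lit 2861355653) (nat_lit 76) (nat_lit 2498426182) (nat_lit 7) (nat_lit 4) (nat_lit 8) (nat_lit 5) (nat_lit 8) (nat_lit 4) (nat_lit 275) (nat_lit 223) (nat_lit 222)) (XT.nd (nat_lit 78) (nat_lit 0) (nat_lit 0) (XT.lf (nat_lit 0) (nat_lit 979021970)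 (nat_lit 152) (nat_lit 22054839163) (nat_lit 0) (nat_lit 331822639) (nat_lit 5) (nat_lit 5) (nat_lit 7) (nat_lit 4) (nat_lit 5) (nat_lit 4) (nat_lit 276) (nat_lit 223) (nat_lit 221)) (XT.lf (nat_lit 0) (nat_lit 4628352212) (nat_lit 152) (nat_lit 16593121606) (nat_lit 0) (nat_lit 3693047765) (nat_lit 5) (nat_lit 5) (nat_lit 7) (nat_lit 4) (nat_lit 5) (nat_lit 4) (nat_lit 277) (nat_lit 223) (nat_lit 220)))) (XT.nd (nat_lit 156) (nat_lit 76) (nat_lit 0) (XT.nd (nat_lit 78) (nat_lit 0) (nat_lit 0) (XT.lf (nat_lit 0) (nat_lit 8388140814) (nat_lit 152) (nat_lit 11027835326) (nat_lit 0) (nat_lit 7186072372) (nat_lit 5) (nat_lit 5) (nat_lit 7) (nat_lit 4) (nat_lit 5) (nat_lit 4) (nat_lit 278) (nat_lit 223) (nat_lit 219)) (XT.lf (nat_lit 0) (nat_lit 12280668006) (nat_lit 152) (nat_lit 5326000850) (nat_lit 0) (nat_lit 10831595863) (nat_lit 5) (nat_lit 5) (nat_lit 7) (nat_lit 4) (nat_lit 5) (nat_lit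 4) (nat_lit 279) (nat_lit 223) (nat_lit 218))) (XT.nd (nat_lit 78) (nat_lit 0) (nat_lit 0) (XT.lf (nat_lit 0) (nat_lit 574930840) (nat_lit 76) (nat_lit 15767896874) (nat_lit 76) (nat_lit 14090117602) (nat_lit 4) (nat_lit 4) (nat_lit 5) (nat_lit 5) (nat_lit 5) (nat_lit 4) (nat_lit 280) (nat_lit 223) (nat_lit 217)) (XT.lf (nat_lit 0) (nat_lit 6972257234) (nat_lit 76) (nat_lit 13752554478) (nat_lit 76) (nat_lit 11863009346) (nat_lit 4) (nat_lit 4) (nat_lit 5) (nat_lit 5) (nat_lit 5) (nat_lit 4) (nat_lit 281) (nat_lit 223) (nat_lit 216))))))))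
noncomputable def xc23 : XT := (XT.nd (nat_lit 2106) (nat_lit 76) (nat_lit 0) (XT.nd (nat_lit 1014) (nat_lit 0) (nat_lit 0) (XT.nd (nat_lit 468) (nat_lit 0) (nat_lit 0) (XT.nd (nat_lit 234) (nat_lit 152) (nat_lit 0) (XT.nd (nat_lit 78) (nat_lit 0) (nat_lit 0) (XT.lf (nat_lit 0) (nat_lit 13623430648) (nat_lit 76) (nat_lit 11694321200) (nat_lit 76) (nat_lit 9608696567) (nat_lit 4) (nat_lit 4) (nat_lit 5) (nat_lit 5) (nat_lit 5) (nat_lit 4) (nat_lit 282) (nat_lit 223) (nat_lit 215)) (XT.nd (nat_lit 78) (nat_lit 0) (nat_lit 0) (XT.lf (nat_lit 0) (nat_lit 20567865443) (nat_lit 76) (nat_lit 9581000101) (nat_lit 76) (nat_lit 7313820375) (nat_lit 4) (nat_lit 4) (nat_lit 5) (nat_lit 5) (nat_lit 5) (nat_lit 4) (nat_lit 283) (nat_lit 223) (nat_lit 214)) (XT.lf (nat_lit 0) (nat_lit 27846713825) (nat_lit 76) (nat_lit 7400067797) (nat_lit 76) (nat_lit 4964781503) (nat_lit 4) (nat_lit 4) (nat_lit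 5) (nat_lit 5) (nat_lit 5) (nat_lit 4) (nat_lit 284) (nat_lit 223) (nat_lit 213)))) (XT.nd (nat_lit 78) (nat_lit 152) (nat_lit 0) (XT.lf (nat_lit 0) (nat_lit 35503109711) (nat_lit 76) (nat_lit 5138600245) (nat_lit 76) (nat_lit 2547659722) (nat_lit 4) (nat_lit 4) (nat_lit 5) (nat_lit 5) (nat_lit 5) (nat_lit 4) (nat_lit 285) (nat_lit 223) (nat_lit 212)) (XT.nd (nat_lit 78) (nat_lit 152) (nat_lit 0) (XT.lf (nat_lit 0) (nat_lit 43582424335) (nat_lit 76) (nat_lit 2783196156) (nat_lit 76) (nat_lit 48131347) (nat_lit 4) (nat_lit 4) (nat_lit 5) (nat_lit 5) (nat_lit 5) (nat_lit 4) (nat_lit 286) (nat_lit 223) (nat_lit 211)) (XT.lf (nat_lit 0) (nat_lit 2281556490) (nat_lit 76) (nat_lit 194438563) (nat_lit 152) (nat_lit 47418528739) (nat_lit 2) (nat_lit 5) (nat_lit 3) (nat_lit 5) (nat_lit 4) (nat_lit 4) (nat_lit 287) (nat_lit 223) (nat_lit 210))))) (XT.nd (nat_lit 234) (nat_lit 0) (nat_lit 0) (XT.nd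 (nat_lit 78) (nat_lit 0) (nat_lit 0) (XT.lf (nat_lit 0) (nat_lit 5244864222) (nat_lit 152) (nat_lit 45930850092) (nat_lit 0) (nat_lit 2474422955) (nat_lit 2) (nat_lit 5) (nat_lit 4) (nat_lit 4) (nat_lit 2) (nat_lit 4) (nat_lit 288) (nat_lit 223) (nat_lit 209)) (XT.nd (nat_lit 78) (nat_lit 0) (nat_lit 0) (XT.lf (nat_lit 0) (nat_lit 8150871553) (nat_lit 152) (nat_lit 44287687808) (nat_lit 0) (nat_lit 5274494632) (nat_lit 2) (nat_lit 5) (nat_lit 4) (nat_lit 4) (nat_lit 2) (nat_lit 4) (nat_lit 289) (nat_lit 223) (nat_lit 208)) (XT.lf (nat_lit 0) (nat_lit 11206561579) (nat_lit 152) (nat_lit 42669066939) (nat_lit 0) (nat_lit 8232096091) (nat_lit 2) (nat_lit 5) (nat_lit 4) (nat_lit 4) (nat_lit 2) (nat_lit 4) (nat_lit 290) (nat_lit 223) (nat_lit 207)))) (XT.nd (nat_lit 156) (nat_lit 0) (nat_lit 0) (XT.nd (nat_lit 78) (nat_lit 0) (nat_lit 0) (XT.lf (nat_lit 0) (nat_lit 14430042092) (nat_lit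 152) (nat_lit 41065395660) (nat_lit 0) (nat_lit 11364753857) (nat_lit 2) (nat_lit 5) (nat_lit 4) (nat_lit 4) (nat_lit 2) (nat_lit 4) (nat_lit 291) (nat_lit 223) (nat_lit 206)) (XT.lf (nat_lit 0) (nat_lit 17840415201) (nat_lit 152) (nat_lit 39467170732) (nat_lit 0) (nat_lit 14691031828) (nat_lit 2) (nat_lit 5) (nat_lit 4) (nat_lit 4) (nat_lit 2) (nat_lit 4) (nat_lit 292) (nat_lit 223) (nat_lit 205))) (XT.nd (nat_lit 78) (nat_lit 0) (nat_lit 0) (XT.lf (nat_lit 0) (nat_lit 21457890522) (nat_lit 152) (nat_lit 37864921193) (nat_lit 0) (nat_lit 18230641282) (nat_lit 2) (nat_lit 5) (nat_lit 4) (nat_lit 4) (nat_lit 2) (nat_lit 4) (nat_lit 293) (nat_lit 223) (nat_lit 204)) (XT.lf (nat_lit 0) (nat_lit 25303904948) (nat_lit 152) (nat_lit 36249152230) (nat_lit 0) (nat_lit 22004557682) (nat_lit 2) (nat_lit 5) (nat_lit 4) (nat_lit 4) (nat_lit 2) (nat_lit 4) (nat_lit 294) (nat_lit 223) (nat_lit 203))))))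 (XT.nd (nat_lit 546) (nat_lit 0) (nat_lit 0) (XT.nd (nat_lit 234) (nat_lit 0) (nat_lit 0) (XT.nd (nat_lit 78) (nat_lit 0) (nat_lit 0) (XT.lf (nat_lit 0) (nat_lit 29401249674) (nat_lit 152) (nat_lit 34610288918) (nat_lit 0) (nat_lit 26035144977) (nat_lit 2) (nat_lit 5) (nat_lit 4) (nat_lit 4) (nat_lit 2) (nat_lit 4) (nat_lit 295) (nat_lit 223) (nat_lit 202)) (XT.nd (nat_lit 78) (nat_lit 0) (nat_lit 0) (XT.lf (nat_lit 0) (nat_lit 33774205262) (nat_lit 152) (nat_lit 32938619472) (nat_lit 0) (nat_lit 30346288129) (nat_lit 2) (nat_lit 5) (nat_lit 4) (nat_lit 4) (nat_lit 2) (nat_lit 4) (nat_lit 296) (nat_lit 223) (nat_lit 201)) (XT.lf (nat_lit 0) (nat_lit 38448685522) (nat_lit 152) (nat_lit 31224237704) (nat_lit 0) (nat_lit 34963534652) (nat_lit 2) (nat_lit 5) (nat_lit 4) (nat_lit 4) (nat_lit 2) (nat_lit 4) (nat_lit 297) (nat_lit 223) (nat_lit 200)))) (XT.nd (nat_lit 156) (nat_lit 0) (nat_lit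 0) (XT.nd (nat_lit 78) (nat_lit 0) (nat_lit 0) (XT.lf (nat_lit 0) (nat_lit 43452391079) (nat_lit 152) (nat_lit 29456984315) (nat_lit 0) (nat_lit 39914246008) (nat_lit 2) (nat_lit 5) (nat_lit 4) (nat_lit 4) (nat_lit 2) (nat_lit 4) (nat_lit 298) (nat_lit 223) (nat_lit 199)) (XT.lf (nat_lit 0) (nat_lit 48814973521) (nat_lit 152) (nat_lit 27626386692) (nat_lit 0) (nat_lit 45227759746) (nat_lit 2) (nat_lit 5) (nat_lit 4) (nat_lit 4) (nat_lit 2) (nat_lit 4) (nat_lit 299) (nat_lit 223) (nat_lit 198))) (XT.nd (nat_lit 78) (nat_lit 0) (nat_lit 0) (XT.lf (nat_lit 0) (nat_lit 54568211114) (nat_lit 152) (nat_lit 25721596848) (nat_lit 0) (nat_lit 50935563353) (nat_lit 2) (nat_lit 5) (nat_lit 4) (nat_lit 4) (nat_lit 2) (nat_lit 4) (nat_lit 300) (nat_lit 223) (nat_lit 197)) (XT.lf (nat_lit 0) (nat_lit 60746197118) (nat_lit 152) (nat_lit 23731327140) (nat_lit 0) (nat_lit 57071480852) (nat_lit 2) (nat_lit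 5) (nat_lit 4) (nat_lit 4) (nat_lit 2) (nat_lit 4) (nat_lit 301) (nat_lit 223) (nat_lit 196))))) (XT.nd (nat_lit 234) (nat_lit 0) (nat_lit 0) (XT.nd (nat_lit 78) (nat_lit 0) (nat_lit 0) (XT.lf (nat_lit 0) (nat_lit 67385541821) (nat_lit 152) (nat_lit 21643783379) (nat_lit 0) (nat_lit 63671873235) (nat_lit 2) (nat_lit 5) (nat_lit 4) (nat_lit 4) (nat_lit 2) (nat_lit 4) (nat_lit 302) (nat_lit 223) (nat_lit 195)) (XT.nd (nat_lit 78) (nat_lit 0) (nat_lit 0) (XT.lf (nat_lit 0) (nat_lit 74525589487) (nat_lit 152) (nat_lit 19446594932) (nat_lit 0) (nat_lit 70775853938) (nat_lit 2) (nat_lit 5) (nat_lit 4) (nat_lit 4) (nat_lit 2) (nat_lit 4) (nat_lit 303) (nat_lit 223) (nat_lit 194)) (XT.lf (nat_lit 0) (nat_lit 82208651510) (nat_lit 152) (nat_lit 17126741426) (nat_lit 0) (nat_lit 78425520626) (nat_lit 2) (nat_lit 5) (nat_lit 4) (nat_lit 4) (nat_lit 2) (nat_lit 4) (nat_lit 304) (nat_lit 223) (nat_lit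 193)))) (XT.nd (nat_lit 156) (nat_lit 0) (nat_lit 0) (XT.nd (nat_lit 78) (nat_lit 0) (nat_lit 0) (XT.lf (nat_lit 0) (nat_lit 90480257147) (nat_lit 152) (nat_lit 14670475579) (nat_lit 0) (nat_lit 86666204655) (nat_lit 2) (nat_lit 5) (nat_lit 4) (nat_lit 4) (nat_lit 2) (nat_lit 4) (nat_lit 305) (nat_lit 223) (nat_lit 192)) (XT.lf (nat_lit 0) (nat_lit 99389423319) (nat_lit 152) (nat_lit 12063241743) (nat_lit 0) (nat_lit 95546739709) (nat_lit 2) (nat_lit 5) (nat_lit 4) (nat_lit 4) (nat_lit 2) (nat_lit 4) (nat_lit 306) (nat_lit 223) (nat_lit 191))) (XT.nd (nat_lit 78) (nat_lit 0) (nat_lit 0) (XT.lf (nat_lit 0) (nat_lit 108988945086) (nat_lit 152) (nat_lit 9289589642) (nat_lit 0) (nat_lit 105119751182) (nat_lit 2) (nat_lit 5) (nat_lit 4) (nat_lit 4) (nat_lit 2) (nat_lit 4) (nat_lit 307) (nat_lit 223) (nat_lit 190)) (XT.lf (nat_lit 0) (nat_lit 119335708503) (nat_lit 152) (nat_lit 6333082820)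 (nat_lit 0) (nat_lit 115441968029) (nat_lit 2) (nat_lit 5) (nat_lit 4) (nat_lit 4) (nat_lit 2) (nat_lit 4) (nat_lit 308) (nat_lit 223) (nat_lit 189))))))) (XT.nd (nat_lit 1014) (nat_lit 0) (nat_lit 0) (XT.nd (nat_lit 468) (nat_lit 0) (nat_lit 0) (XT.nd (nat_lit 234) (nat_lit 0) (nat_lit 0) (XT.nd (nat_lit 78) (nat_lit 76) (nat_lit 0) (XT.lf (nat_lit 0) (nat_lit 130491027722) (nat_lit 152) (nat_lit 3176201236) (nat_lit 0) (nat_lit 126574558944) (nat_lit 2) (nat_lit 5) (nat_lit 4) (nat_lit 4) (nat_lit 2) (nat_lit 4) (nat_lit 309) (nat_lit 223) (nat_lit 188)) (XT.nd (nat_lit 78) (nat_lit 0) (nat_lit 0) (XT.lf (nat_lit 0) (nat_lit 210281696) (nat_lit 76) (nat_lit 142315783923) (nat_lit 76) (nat_lit 138378270419) (nat_lit 1) (nat_lit 4) (nat_lit 2) (nat_lit 5) (nat_lit 2) (nat_lit 4) (nat_lit 310) (nat_lit 223) (nat_lit 187)) (XT.lf (nat_lit 0) (nat_lit 4015695624) (nat_lit 76) (nat_lit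 151577821082) (nat_lit 76) (nat_lit 147620821720) (nat_lit 1) (nat_lit 4) (nat_lit 2) (nat_lit 5) (nat_lit 2) (nat_lit 4) (nat_lit 311) (nat_lit 223) (nat_lit 186)))) (XT.nd (nat_lit 78) (nat_lit 0) (nat_lit 0) (XT.lf (nat_lit 0) (nat_lit 8095338018) (nat_lit 76) (nat_lit 161595069552) (nat_lit 76) (nat_lit 157620027730) (nat_lit 1) (nat_lit 4) (nat_lit 2) (nat_lit 5) (nat_lit 2) (nat_lit 4) (nat_lit 312) (nat_lit 223) (nat_lit 185)) (XT.nd (nat_lit 78) (nat_lit 0) (nat_lit 0) (XT.lf (nat_lit 0) (nat_lit 12473384538) (nat_lit 76) (nat_lit 172426890807) (nat_lit 76) (nat_lit 168435143002) (nat_lit 1) (nat_lit 4) (nat_lit 2) (nat_lit 5) (nat_lit 2) (nat_lit 4) (nat_lit 313) (nat_lit 223) (nat_lit 184)) (XT.lf (nat_lit 0) (nat_lit 17175779162) (nat_lit 76) (nat_lit 184137473416) (nat_lit 76) (nat_lit 180130257109) (nat_lit 1) (nat_lit 4) (nat_lit 2) (nat_lit 5) (nat_lit 2) (nat_lit 4)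 (nat_lit 314) (nat_lit 223) (nat_lit 183))))) (XT.nd (nat_lit 234) (nat_lit 0) (nat_lit 0) (XT.nd (nat_lit 78) (nat_lit 0) (nat_lit 0) (XT.lf (nat_lit 0) (nat_lit 22230387933) (nat_lit 76) (nat_lit 196796213425) (nat_lit 76) (nat_lit 192774674431) (nat_lit 1) (nat_lit 4) (nat_lit 2) (nat_lit 5) (nat_lit 2) (nat_lit 4) (nat_lit 315) (nat_lit 223) (nat_lit 182)) (XT.nd (nat_lit 78) (nat_lit 0) (nat_lit 0) (XT.lf (nat_lit 0) (nat_lit 27667164088) (nat_lit 76) (nat_lit 210478125589) (nat_lit 76) (nat_lit 206443324848) (nat_lit 1) (nat_lit 4) (nat_lit 2) (nat_lit 5) (nat_lit 2) (nat_lit 4) (nat_lit 316) (nat_lit 223) (nat_lit 181)) (XT.lf (nat_lit 0) (nat_lit 33518325560) (nat_lit 76) (nat_lit 225264287907) (nat_lit 76) (nat_lit 221217207770) (nat_lit 1) (nat_lit 4) (nat_lit 2) (nat_lit 5) (nat_lit 2) (nat_lit 4) (nat_lit 317) (nat_lit 223) (nat_lit 180)))) (XT.nd (nat_lit 156) (nat_lit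 0) (nat_lit 0) (XT.nd (nat_lit 78) (nat_lit 0) (nat_lit 0) (XT.lf (nat_lit 0) (nat_lit 39818545898) (nat_lit 76) (nat_lit 241242322080) (nat_lit 76) (nat_lit 237183872132) (nat_lit 1) (nat_lit 4) (nat_lit 2) (nat_lit 5) (nat_lit 2) (nat_lit 4) (nat_lit 318) (nat_lit 223) (nat_lit 179)) (XT.lf (nat_lit 0) (nat_lit 46605159741) (nat_lit 76) (nat_lit 258506912756) (nat_lit 76) (nat_lit 254437935206) (nat_lit 1) (nat_lit 4) (nat_lit 2) (nat_lit 5) (nat_lit 2) (nat_lit 4) (nat_lit 319) (nat_lit 223) (nat_lit 178))) (XT.nd (nat_lit 78) (nat_lit 0) (nat_lit 0) (XT.lf (nat_lit 0) (nat_lit 53918384061) (nat_lit 76) (nat_lit 277160368621) (nat_lit 76) (nat_lit 273081643290) (nat_lit 1) (nat_lit 4) (nat_lit 2) (nat_lit 5) (nat_lit 2) (nat_lit 4) (nat_lit 320) (nat_lit 223) (nat_lit 177)) (XT.lf (nat_lit 0) (nat_lit 61801556482) (nat_lit 76) (nat_lit 297313228671) (nat_lit 76) (nat_lit 293225477618)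 (nat_lit 1) (nat_lit 4) (nat_lit 2) (nat_lit 5) (nat_lit 2) (nat_lit 4) (nat_lit 321) (nat_lit 223) (nat_lit 176)))))) (XT.nd (nat_lit 546) (nat_lit 0) (nat_lit 0) (XT.nd (nat_lit 234) (nat_lit 0) (nat_lit 0) (XT.nd (nat_lit 78) (nat_lit 0) (nat_lit 0) (XT.lf (nat_lit 0) (nat_lit 70301392101) (nat_lit 76) (nat_lit 319084917264) (nat_lit 76) (nat_lit 314988809060) (nat_lit 1) (nat_lit 4) (nat_lit 2) (nat_lit 5) (nat_lit 2) (nat_lit 4) (nat_lit 322) (nat_lit 223) (nat_lit 175)) (XT.nd (nat_lit 78) (nat_lit 0) (nat_lit 0) (XT.lf (nat_lit 0) (nat_lit 79468260313) (nat_lit 76) (nat_lit 342604451812) (nat_lit 76) (nat_lit 338500605506) (nat_lit 1) (nat_lit 4) (nat_lit 2) (nat_lit 5) (nat_lit 2) (nat_lit 4) (nat_lit 323) (nat_lit 223) (nat_lit 174)) (XT.lf (nat_lit 0) (nat_lit 89356483302) (nat_lit 76) (nat_lit 368011207335) (nat_lit 76) (nat_lit 363900196120) (nat_lit 1) (nat_lit 4) (nat_lit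 2) (nat_lit 5) (nat_lit 2) (nat_lit 4) (nat_lit 324) (nat_lit 223) (nat_lit 173)))) (XT.nd (nat_lit 156) (nat_lit 0) (nat_lit 0) (XT.nd (nat_lit 78) (nat_lit 0) (nat_lit 0) (XT.lf (nat_lit 0) (nat_lit 100024657943) (nat_lit 76) (nat_lit 395455742385) (nat_lit 76) (nat_lit 391338096995) (nat_lit 1) (nat_lit 4) (nat_lit 2) (nat_lit 5) (nat_lit 2) (nat_lit 4) (nat_lit 325) (nat_lit 223) (nat_lit 172)) (XT.lf (nat_lit 0) (nat_lit 111536003050) (nat_lit 76) (nat_lit 425100691244) (nat_lit 76) (nat_lit 420976903098) (nat_lit 1) (nat_lit 4) (nat_lit 2) (nat_lit 5) (nat_lit 2) (nat_lit 4) (nat_lit 326) (nat_lit 223) (nat_lit 171))) (XT.nd (nat_lit 78) (nat_lit 0) (nat_lit 0) (XT.lf (nat_lit 0) (nat_lit 123958734001) (nat_lit 76) (nat_lit 457121727682) (nat_lit 76) (nat_lit 452992251800) (nat_lit 1) (nat_lit 4) (nat_lit 2) (nat_lit 5) (nat_lit 2) (nat_lit 4) (nat_lit 327) (nat_lit 223) (nat_lit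 170)) (XT.lf (nat_lit 0) (nat_lit 137366466979) (nat_lit 76) (nat_lit 491708605989) (nat_lit 76) (nat_lit 487573863685) (nat_lit 1) (nat_lit 4) (nat_lit 2) (nat_lit 5) (nat_lit 2) (nat_lit 4) (nat_lit 328) (nat_lit 223) (nat_lit 169))))) (XT.nd (nat_lit 234) (nat_lit 0) (nat_lit 0) (XT.nd (nat_lit 78) (nat_lit 0) (nat_lit 0) (XT.lf (nat_lit 0) (nat_lit 151838655217) (nat_lit 76) (nat_lit 529066285444) (nat_lit 76) (nat_lit 524926666823) (nat_lit 1) (nat_lit 4) (nat_lit 2) (nat_lit 5) (nat_lit 2) (nat_lit 4) (nat_lit 329) (nat_lit 223) (nat_lit 168)) (XT.nd (nat_lit 78) (nat_lit 0) (nat_lit 0) (XT.lf (nat_lit 0) (nat_lit 167461059831) (nat_lit 76) (nat_lit 569416144889) (nat_lit 76) (nat_lit 565272011159) (nat_lit 1) (nat_lit 4) (nat_lit 2) (nat_lit 5) (nat_lit 2) (nat_lit 4) (nat_lit 330) (nat_lit 223) (nat_lit 167)) (XT.lf (nat_lit 0) (nat_lit 184326258032) (nat_lit 76) (nat_lit 612997294601)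 (nat_lit 76) (nat_lit 608848980216) (nat_lit 1) (nat_lit 4) (nat_lit 2) (nat_lit 5) (nat_lit 2) (nat_lit 4) (nat_lit 331) (nat_lit 223) (nat_lit 166)))) (XT.nd (nat_lit 156) (nat_lit 0) (nat_lit 0) (XT.nd (nat_lit 78) (nat_lit 0) (nat_lit 0) (XT.lf (nat_lit 0) (nat_lit 202534191736) (nat_lit 76) (nat_lit 660067993246) (nat_lit 76) (nat_lit 655915807883) (nat_lit 1) (nat_lit 4) (nat_lit 2) (nat_lit 5) (nat_lit 2) (nat_lit 4) (nat_lit 332) (nat_lit 223) (nat_lit 165)) (XT.lf (nat_lit 0) (nat_lit 222192759810) (nat_lit 76) (nat_lit 710907178297) (nat_lit 76) (nat_lit 706751408695) (nat_lit 1) (nat_lit 4) (nat_lit 2) (nat_lit 5) (nat_lit 2) (nat_lit 4) (nat_lit 333) (nat_lit 223) (nat_lit 164))) (XT.nd (nat_lit 78) (nat_lit 0) (nat_lit 0) (XT.lf (nat_lit 0) (nat_lit 243418457472) (nat_lit 76) (nat_lit 765816118999) (nat_lit 76) (nat_lit 761657030658) (nat_lit 1) (nat_lit 4) (nat_lit 2)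 (nat_lit 5) (nat_lit 2) (nat_lit 4) (nat_lit 334) (nat_lit 223) (nat_lit 163)) (XT.lf (nat_lit 0) (nat_lit 266337066633) (nat_lit 76) (nat_lit 825120201666) (nat_lit 76) (nat_lit 820958040419) (nat_lit 1) (nat_lit 4) (nat_lit 2) (nat_lit 5) (nat_lit 2) (nat_lit 4) (nat_lit 335) (nat_lit 223) (nat_lit 162))))))))
noncomputable def xc24 : XT := (XT.nd (nat_lit 33930) (nat_lit 0) (nat_lit 0) (XT.nd (nat_lit 32916) (nat_lit 0) (nat_lit 76) (XT.nd (nat_lit 468) (nat_lit 0) (nat_lit 0) (XT.nd (nat_lit 234) (nat_lit 0) (nat_lit 0) (XT.nd (nat_lit 78) (nat_lit 0) (nat_lit 0) (XT.lf (nat_lit 0) (nat_lit 291084401274) (nat_lit 76) (nat_lit 889170857901) (nat_lit 76) (nat_lit 885005851369) (nat_lit 1) (nat_lit 4) (nat_lit 2) (nat_lit 5) (nat_lit 2) (nat_lit 4) (nat_lit 336) (nat_lit 223) (nat_lit 161)) (XT.nd (nat_lit 78) (nat_lit 0) (nat_lit 0) (XT.lf (nat_lit 0) (nat_lit 317807112267) (nat_lit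 76) (nat_lit 958347647147) (nat_lit 76) (nat_lit 954180006093) (nat_lit 1) (nat_lit 4) (nat_lit 2) (nat_lit 5) (nat_lit 2) (nat_lit 4) (nat_lit 337) (nat_lit 223) (nat_lit 160)) (XT.lf (nat_lit 0) (nat_lit 346663556418) (nat_lit 76) (nat_lit 1033060505934) (nat_lit 76) (nat_lit 1028890425507) (nat_lit 1) (nat_lit 4) (nat_lit 2) (nat_lit 5) (nat_lit 2) (nat_lit 4) (nat_lit 338) (nat_lit 223) (nat_lit 159)))) (XT.nd (nat_lit 78) (nat_lit 0) (nat_lit 0) (XT.lf (nat_lit 0) (nat_lit 377824734878) (nat_lit 76) (nat_lit 1113752177127) (nat_lit 76) (nat_lit 1109579838022) (nat_lit 1) (nat_lit 4) (nat_lit 2) (nat_lit 5) (nat_lit 2) (nat_lit 4) (nat_lit 339) (nat_lit 223) (nat_lit 158)) (XT.nd (nat_lit 78) (nat_lit 0) (nat_lit 0) (XT.lf (nat_lit 0) (nat_lit 411475306481) (nat_lit 76) (nat_lit 1200900833594) (nat_lit 76) (nat_lit 1196726403121) (nat_lit 1) (nat_lit 4) (nat_lit 2) (nat_lit 5) (nat_lit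 2) (nat_lit 4) (nat_lit 340) (nat_lit 223) (nat_lit 157)) (XT.lf (nat_lit 0) (nat_lit 447814682022) (nat_lit 76) (nat_lit 1295022911818) (nat_lit 76) (nat_lit 1290846544892) (nat_lit 1) (nat_lit 4) (nat_lit 2) (nat_lit 5) (nat_lit 2) (nat_lit 4) (nat_lit 341) (nat_lit 223) (nat_lit 156))))) (XT.nd (nat_lit 32136) (nat_lit 0) (nat_lit 304) (XT.nd (nat_lit 78) (nat_lit 0) (nat_lit 0) (XT.lf (nat_lit 0) (nat_lit 487058205949) (nat_lit 76) (nat_lit 1396676172261) (nat_lit 76) (nat_lit 1392498012323) (nat_lit 1) (nat_lit 4) (nat_lit 2) (nat_lit 5) (nat_lit 2) (nat_lit 4) (nat_lit 342) (nat_lit 223) (nat_lit 155)) (XT.nd (nat_lit 31980) (nat_lit 0) (nat_lit 532) (XT.lf (nat_lit 0) (nat_lit 529438432478) (nat_lit 76) (nat_lit 1506463004615) (nat_lit 76) (nat_lit 1502283184481) (nat_lit 1) (nat_lit 4) (nat_lit 2) (nat_lit 5) (nat_lit 2) (nat_lit 4) (nat_lit 343) (nat_lit 223) (nat_lit 154))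 (XT.lf (nat_lit 0) (nat_lit 3140202806) (nat_lit 152) (nat_lit 2852828057) (nat_lit 0) (nat_lit 3140202806) (nat_lit 8) (nat_lit 5) (nat_lit 10) (nat_lit 4) (nat_lit 8) (nat_lit 4) (nat_lit 272) (nat_lit 224) (nat_lit 224)))) (XT.nd (nat_lit 156) (nat_lit 152) (nat_lit 0) (XT.nd (nat_lit 78) (nat_lit 0) (nat_lit 0) (XT.lf (nat_lit 0) (nat_lit 1186286666) (nat_lit 76) (nat_lit 9298067521) (nat_lit 76) (nat_lit 8906103692) (nat_lit 7) (nat_lit 4) (nat_lit 8) (nat_lit 5) (nat_lit 8) (nat_lit 4) (nat_lit 273) (nat_lit 224) (nat_lit 223)) (XT.lf (nat_lit 0) (nat_lit 8579959187) (nat_lit 76) (nat_lit 6391938656) (nat_lit 76) (nat_lit 5637045356) (nat_lit 7) (nat_lit 4) (nat_lit 8) (nat_lit 5) (nat_lit 8) (nat_lit 4) (nat_lit 274) (nat_lit 224) (nat_lit 222))) (XT.nd (nat_lit 78) (nat_lit 152) (nat_lit 0) (XT.lf (nat_lit 0) (nat_lit 16218726061) (nat_lit 76) (nat_lit 3406456380) (nat_lit 76)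 (nat_lit 2315517273) (nat_lit 7) (nat_lit 4) (nat_lit 8) (nat_lit 5) (nat_lit 8) (nat_lit 4) (nat_lit 275) (nat_lit 224) (nat_lit 221)) (XT.lf (nat_lit 0) (nat_lit 766656122) (nat_lit 76) (nat_lit 276011547) (nat_lit 152) (nat_lit 22347402209) (nat_lit 5) (nat_lit 5) (nat_lit 6) (nat_lit 5) (nat_lit 7) (nat_lit 4) (nat_lit 276) (nat_lit 224) (nat_lit 220)))))) (XT.nd (nat_lit 468) (nat_lit 152) (nat_lit 0) (XT.nd (nat_lit 234) (nat_lit 76) (nat_lit 0) (XT.nd (nat_lit 78) (nat_lit 0) (nat_lit 0) (XT.lf (nat_lit 0) (nat_lit 4598105953) (nat_lit 152) (nat_lit 17315331519) (nat_lit 0) (nat_lit 3033108039) (nat_lit 5) (nat_lit 5) (nat_lit 7) (nat_lit 4) (nat_lit 5) (nat_lit 4) (nat_lit 277) (nat_lit 224) (nat_lit 219)) (XT.nd (nat_lit 78) (nat_lit 0) (nat_lit 0) (XT.lf (nat_lit 0) (nat_lit 8277103930) (nat_lit 152) (nat_lit 11898446541) (nat_lit 0) (nat_lit 6465102317) (nat_lit 5) (nat_lit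 5) (nat_lit 7) (nat_lit 4) (nat_lit 5) (nat_lit 4) (nat_lit 278) (nat_lit 224) (nat_lit 218)) (XT.lf (nat_lit 0) (nat_lit 12094824988) (nat_lit 152) (nat_lit 6334020676) (nat_lit 0) (nat_lit 10054116245) (nat_lit 5) (nat_lit 5) (nat_lit 7) (nat_lit 4) (nat_lit 5) (nat_lit 4) (nat_lit 279) (nat_lit 224) (nat_lit 217)))) (XT.nd (nat_lit 78) (nat_lit 76) (nat_lit 0) (XT.lf (nat_lit 0) (nat_lit 16073892658) (nat_lit 152) (nat_lit 589079551) (nat_lit 0) (nat_lit 13821418054) (nat_lit 5) (nat_lit 5) (nat_lit 7) (nat_lit 4) (nat_lit 5) (nat_lit 4) (nat_lit 280) (nat_lit 224) (nat_lit 216)) (XT.nd (nat_lit 78) (nat_lit 0) (nat_lit 0) (XT.lf (nat_lit 0) (nat_lit 5653217778) (nat_lit 76) (nat_lit 14720628845) (nat_lit 76) (nat_lit 12272074741) (nat_lit 4) (nat_lit 4) (nat_lit 5) (nat_lit 5) (nat_lit 5) (nat_lit 4) (nat_lit 281) (nat_lit 224) (nat_lit 215)) (XT.lf (nat_lit 0) (nat_lit 12189567879)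 (nat_lit 76) (nat_lit 12715073856) (nat_lit 76) (nat_lit 10084964658) (nat_lit 4) (nat_lit 4) (nat_lit 5) (nat_lit 5) (nat_lit 5) (nat_lit 4) (nat_lit 282) (nat_lit 224) (nat_lit 214))))) (XT.nd (nat_lit 234) (nat_lit 152) (nat_lit 0) (XT.nd (nat_lit 78) (nat_lit 0) (nat_lit 0) (XT.lf (nat_lit 0) (nat_lit 19027684791) (nat_lit 76) (nat_lit 10650528951) (nat_lit 76) (nat_lit 7852313186) (nat_lit 4) (nat_lit 4) (nat_lit 5) (nat_lit 5) (nat_lit 5) (nat_lit 4) (nat_lit 283) (nat_lit 224) (nat_lit 213)) (XT.nd (nat_lit 78) (nat_lit 0) (nat_lit 0) (XT.lf (nat_lit 0) (nat_lit 26208090688) (nat_lit 76) (nat_lit 8514759789) (nat_lit 76) (nat_lit 5560889795) (nat_lit 4) (nat_lit 4) (nat_lit 5) (nat_lit 5) (nat_lit 5) (nat_lit 4) (nat_lit 284) (nat_lit 224) (nat_lit 212)) (XT.lf (nat_lit 0) (nat_lit 33773336126) (nat_lit 76) (nat_lit 6295109962) (nat_lit 76) (nat_lit 3197115681) (nat_lit 4) (nat_lit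 4) (nat_lit 5) (nat_lit 5) (nat_lit 5) (nat_lit 4) (nat_lit 285) (nat_lit 224) (nat_lit 211)))) (XT.nd (nat_lit 156) (nat_lit 0) (nat_lit 0) (XT.nd (nat_lit 78) (nat_lit 152) (nat_lit 0) (XT.lf (nat_lit 0) (nat_lit 41768252186) (nat_lit 76) (nat_lit 3978425988) (nat_lit 76) (nat_lit 746983294) (nat_lit 4) (nat_lit 4) (nat_lit 5) (nat_lit 5) (nat_lit 5) (nat_lit 4) (nat_lit 286) (nat_lit 224) (nat_lit 210)) (XT.lf (nat_lit 0) (nat_lit 220700759) (nat_lit 76) (nat_lit 1498389047) (nat_lit 152) (nat_lit 48264183465) (nat_lit 2) (nat_lit 5) (nat_lit 3) (nat_lit 5) (nat_lit 4) (nat_lit 4) (nat_lit 287) (nat_lit 224) (nat_lit 209))) (XT.nd (nat_lit 78) (nat_lit 0) (nat_lit 0) (XT.lf (nat_lit 0) (nat_lit 4413607721) (nat_lit 152) (nat_lit 48130092354) (nat_lit 0) (nat_lit 1201184994) (nat_lit 2) (nat_lit 5) (nat_lit 4) (nat_lit 4) (nat_lit 2) (nat_lit 4) (nat_lit 288) (nat_lit 224) (nat_lit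 208)) (XT.lf (nat_lit 0) (nat_lit 7279808373) (nat_lit 152) (nat_lit 46561927376) (nat_lit 0) (nat_lit 3969297079) (nat_lit 2) (nat_lit 5) (nat_lit 4) (nat_lit 4) (nat_lit 2) (nat_lit 4) (nat_lit 289) (nat_lit 224) (nat_lit 207))))))) (XT.nd (nat_lit 1014) (nat_lit 76) (nat_lit 0) (XT.nd (nat_lit 468) (nat_lit 0) (nat_lit 0) (XT.nd (nat_lit 234) (nat_lit 0) (nat_lit 0) (XT.nd (nat_lit 78) (nat_lit 0) (nat_lit 0) (XT.lf (nat_lit 0) (nat_lit 10298640364) (nat_lit 152) (nat_lit 45012748459) (nat_lit 0) (nat_lit 6897306321) (nat_lit 2) (nat_lit 5) (nat_lit 4) (nat_lit 4) (nat_lit 2) (nat_lit 4) (nat_lit 290) (nat_lit 224) (nat_lit 206)) (XT.nd (nat_lit 78) (nat_lit 0) (nat_lit 0) (XT.lf (nat_lit 0) (nat_lit 13487993067) (nat_lit 152) (nat_lit 43473375282) (nat_lit 0) (nat_lit 10002563887) (nat_lit 2) (nat_lit 5) (nat_lit 4) (nat_lit 4) (nat_lit 2) (nat_lit 4) (nat_lit 291) (nat_lit 224)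 (nat_lit 205)) (XT.lf (nat_lit 0) (nat_lit 16866766350) (nat_lit 152) (nat_lit 41934685635) (nat_lit 0) (nat_lit 13303471304) (nat_lit 2) (nat_lit 5) (nat_lit 4) (nat_lit 4) (nat_lit 2) (nat_lit 4) (nat_lit 292) (nat_lit 224) (nat_lit 204)))) (XT.nd (nat_lit 78) (nat_lit 0) (nat_lit 0) (XT.lf (nat_lit 0) (nat_lit 20454982575) (nat_lit 152) (nat_lit 40387561355) (nat_lit 0) (nat_lit 16819589503) (nat_lit 2) (nat_lit 5) (nat_lit 4) (nat_lit 4) (nat_lit 2) (nat_lit 4) (nat_lit 293) (nat_lit 224) (nat_lit 203)) (XT.nd (nat_lit 78) (nat_lit 0) (nat_lit 0) (XT.lf (nat_lit 0) (nat_lit 24273905244) (nat_lit 152) (nat_lit 38822834300) (nat_lit 0) (nat_lit 20571754741) (nat_lit 2) (nat_lit 5) (nat_lit 4) (nat_lit 4) (nat_lit 2) (nat_lit 4) (nat_lit 294) (nat_lit 224) (nat_lit 202)) (XT.lf (nat_lit 0) (nat_lit 28346165010) (nat_lit 152) (nat_lit 37231232012) (nat_lit 0) (nat_lit 24582202071) (nat_lit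 2) (nat_lit 5) (nat_lit 4) (nat_lit 4) (nat_lit 2) (nat_lit 4) (nat_lit 295) (nat_lit 224) (nat_lit 201))))) (XT.nd (nat_lit 234) (nat_lit 0) (nat_lit 0) (XT.nd (nat_lit 78) (nat_lit 0) (nat_lit 0) (XT.lf (nat_lit 0) (nat_lit 32695893783) (nat_lit 152) (nat_lit 35603322775) (nat_lit 0) (nat_lit 28874697107) (nat_lit 2) (nat_lit 5) (nat_lit 4) (nat_lit 4) (nat_lit 2) (nat_lit 4) (nat_lit 296) (nat_lit 224) (nat_lit 200)) (XT.nd (nat_lit 78) (nat_lit 0) (nat_lit 0) (XT.lf (nat_lit 0) (nat_lit 37348867734) (nat_lit 152) (nat_lit 33929459719) (nat_lit 0) (nat_lit 33474676857) (nat_lit 2) (nat_lit 5) (nat_lit 4) (nat_lit 4) (nat_lit 2) (nat_lit 4) (nat_lit 297) (nat_lit 224) (nat_lit 199)) (XT.lf (nat_lit 0) (nat_lit 42332660041) (nat_lit 152) (nat_lit 32199723655) (nat_lit 0) (nat_lit 38409400459) (nat_lit 2) (nat_lit 5) (nat_lit 4) (nat_lit 4) (nat_lit 2) (nat_lit 4) (nat_lit 298) (nat_lit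 224) (nat_lit 198)))) (XT.nd (nat_lit 156) (nat_lit 0) (nat_lit 0) (XT.nd (nat_lit 78) (nat_lit 0) (nat_lit 0) (XT.lf (nat_lit 0) (nat_lit 47676804289) (nat_lit 152) (nat_lit 30403864296) (nat_lit 0) (nat_lit 43708110721) (nat_lit 2) (nat_lit 5) (nat_lit 4) (nat_lit 4) (nat_lit 2) (nat_lit 4) (nat_lit 299) (nat_lit 224) (nat_lit 197)) (XT.lf (nat_lit 0) (nat_lit 53412969480) (nat_lit 152) (nat_lit 28531239512) (nat_lit 0) (nat_lit 49402207407) (nat_lit 2) (nat_lit 5) (nat_lit 4) (nat_lit 4) (nat_lit 2) (nat_lit 4) (nat_lit 300) (nat_lit 224) (nat_lit 196))) (XT.nd (nat_lit 78) (nat_lit 0) (nat_lit 0) (XT.lf (nat_lit 0) (nat_lit 59575147704) (nat_lit 152) (nat_lit 26570752267) (nat_lit 0) (nat_lit 55525433311) (nat_lit 2) (nat_lit 5) (nat_lit 4) (nat_lit 4) (nat_lit 2) (nat_lit 4) (nat_lit 301) (nat_lit 224) (nat_lit 195)) (XT.lf (nat_lit 0) (nat_lit 66199855574) (nat_lit 152) (nat_lit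 24510784859) (nat_lit 0) (nat_lit 62114074218) (nat_lit 2) (nat_lit 5) (nat_lit 4) (nat_lit 4) (nat_lit 2) (nat_lit 4) (nat_lit 302) (nat_lit 224) (nat_lit 194)))))) (XT.nd (nat_lit 546) (nat_lit 76) (nat_lit 0) (XT.nd (nat_lit 234) (nat_lit 0) (nat_lit 0) (XT.nd (nat_lit 78) (nat_lit 0) (nat_lit 0) (XT.lf (nat_lit 0) (nat_lit 73326350617) (nat_lit 152) (nat_lit 22339130074) (nat_lit 0) (nat_lit 69207173925) (nat_lit 2) (nat_lit 5) (nat_lit 4) (nat_lit 4) (nat_lit 2) (nat_lit 4) (nat_lit 303) (nat_lit 224) (nat_lit 193)) (XT.nd (nat_lit 78) (nat_lit 0) (nat_lit 0) (XT.lf (nat_lit 0) (nat_lit 80996863915) (nat_lit 152) (nat_lit 20042918846) (nat_lit 0) (nat_lit 76846765616) (nat_lit 2) (nat_lit 5) (nat_lit 4) (nat_lit 4) (nat_lit 2) (nat_lit 4) (nat_lit 304) (nat_lit 224) (nat_lit 192)) (XT.lf (nat_lit 0) (nat_lit 89256850361) (nat_lit 152) (nat_lit 17608543999) (nat_lit 0) (nat_lit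 85078120945) (nat_lit 2) (nat_lit 5) (nat_lit 4) (nat_lit 4) (nat_lit 2) (nat_lit 4) (nat_lit 305) (nat_lit 224) (nat_lit 191)))) (XT.nd (nat_lit 156) (nat_lit 0) (nat_lit 0) (XT.nd (nat_lit 78) (nat_lit 0) (nat_lit 0) (XT.lf (nat_lit 0) (nat_lit 98155258024) (nat_lit 152) (nat_lit 15021579606) (nat_lit 0) (nat_lit 93950018314) (nat_lit 2) (nat_lit 5) (nat_lit 4) (nat_lit 4) (nat_lit 2) (nat_lit 4) (nat_lit 306) (nat_lit 224) (nat_lit 190)) (XT.lf (nat_lit 0) (nat_lit 107744818209) (nat_lit 152) (nat_lit 12266695508) (nat_lit 0) (nat_lit 103515031929) (nat_lit 2) (nat_lit 5) (nat_lit 4) (nat_lit 4) (nat_lit 2) (nat_lit 4) (nat_lit 307) (nat_lit 224) (nat_lit 189))) (XT.nd (nat_lit 78) (nat_lit 0) (nat_lit 0) (XT.lf (nat_lit 0) (nat_lit 118082357937) (nat_lit 152) (nat_lit 9327566467) (nat_lit 0) (nat_lit 113829843353) (nat_lit 2) (nat_lit 5) (nat_lit 4) (nat_lit 4) (nat_lit 2) (nat_lit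 4) (nat_lit 308) (nat_lit 224) (nat_lit 188)) (XT.lf (nat_lit 0) (nat_lit 129229136705) (nat_lit 152) (nat_lit 6186775422) (nat_lit 0) (nat_lit 124955577395) (nat_lit 2) (nat_lit 5) (nat_lit 4) (nat_lit 4) (nat_lit 2) (nat_lit 4) (nat_lit 309) (nat_lit 224) (nat_lit 187))))) (XT.nd (nat_lit 234) (nat_lit 0) (nat_lit 0) (XT.nd (nat_lit 78) (nat_lit 76) (nat_lit 0) (XT.lf (nat_lit 0) (nat_lit 141251209498) (nat_lit 152) (nat_lit 2825710276) (nat_lit 0) (nat_lit 136958164329) (nat_lit 2) (nat_lit 5) (nat_lit 4) (nat_lit 4) (nat_lit 2) (nat_lit 4) (nat_lit 310) (nat_lit 224) (nat_lit 186)) (XT.nd (nat_lit 78) (nat_lit 0) (nat_lit 0) (XT.lf (nat_lit 0) (nat_lit 816385290) (nat_lit 76) (nat_lit 153423067023) (nat_lit 76) (nat_lit 149111979393) (nat_lit 1) (nat_lit 4) (nat_lit 2) (nat_lit 5) (nat_lit 2) (nat_lit 4) (nat_lit 311) (nat_lit 224) (nat_lit 185)) (XT.lf (nat_lit 0) (nat_lit 4882581883)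 (nat_lit 76) (nat_lit 163446658237) (nat_lit 76) (nat_lit 159118864625) (nat_lit 1) (nat_lit 4) (nat_lit 2) (nat_lit 5) (nat_lit 2) (nat_lit 4) (nat_lit 312) (nat_lit 224) (nat_lit 184)))) (XT.nd (nat_lit 156) (nat_lit 0) (nat_lit 0) (XT.nd (nat_lit 78) (nat_lit 0) (nat_lit 0) (XT.lf (nat_lit 0) (nat_lit 9248178587) (nat_lit 76) (nat_lit 174284352402) (nat_lit 76) (nat_lit 169941090289) (nat_lit 1) (nat_lit 4) (nat_lit 2) (nat_lit 5) (nat_lit 2) (nat_lit 4) (nat_lit 313) (nat_lit 224) (nat_lit 183)) (XT.lf (nat_lit 0) (nat_lit 13939045604) (nat_lit 76) (nat_lit 186000372892) (nat_lit 76) (nat_lit 181642788091) (nat_lit 1) (nat_lit 4) (nat_lit 2) (nat_lit 5) (nat_lit 2) (nat_lit 4) (nat_lit 314) (nat_lit 224) (nat_lit 182))) (XT.nd (nat_lit 78) (nat_lit 0) (nat_lit 0) (XT.lf (nat_lit 0) (nat_lit 18982980664) (nat_lit 76) (nat_lit 198664147975) (nat_lit 76) (nat_lit 194293301427) (nat_lit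 1) (nat_lit 4) (nat_lit 2) (nat_lit 5) (nat_lit 2) (nat_lit 4) (nat_lit 315) (nat_lit 224) (nat_lit 181)) (XT.lf (nat_lit 0) (nat_lit 24409873754) (nat_lit 76) (nat_lit 212350722245) (nat_lit 76) (nat_lit 207967596301) (nat_lit 1) (nat_lit 4) (nat_lit 2) (nat_lit 5) (nat_lit 2) (nat_lit 4) (nat_lit 316) (nat_lit 224) (nat_lit 180))))))))
noncomputable def xc25 : XT := (XT.nd (nat_lit 2028) (nat_lit 0) (nat_lit 0) (XT.nd (nat_lit 1014) (nat_lit 0) (nat_lit 0) (XT.nd (nat_lit 468) (nat_lit 0) (nat_lit 0) (XT.nd (nat_lit 234) (nat_lit 0) (nat_lit 0) (XT.nd (nat_lit 78) (nat_lit 0) (nat_lit 0) (XT.lf (nat_lit 0) (nat_lit 30251884240) (nat_lit 76) (nat_lit 227141201327) (nat_lit 76) (nat_lit 222746705573) (nat_lit 1) (nat_lit 4) (nat_lit 2) (nat_lit 5) (nat_lit 2) (nat_lit 4) (nat_lit 317) (nat_lit 224) (nat_lit 179)) (XT.nd (nat_lit 78) (nat_lit 0) (nat_lit 0) (XT.lf (nat_lit 0) (nat_lit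 36543631442) (nat_lit 76) (nat_lit 243123232505) (nat_lit 76) (nat_lit 238718209148) (nat_lit 1) (nat_lit 4) (nat_lit 2) (nat_lit 5) (nat_lit 2) (nat_lit 4) (nat_lit 318) (nat_lit 224) (nat_lit 178)) (XT.lf (nat_lit 0) (nat_lit 43322399790) (nat_lit 76) (nat_lit 260391524111) (nat_lit 76) (nat_lit 255976752973) (nat_lit 1) (nat_lit 4) (nat_lit 2) (nat_lit 5) (nat_lit 2) (nat_lit 4) (nat_lit 319) (nat_lit 224) (nat_lit 177)))) (XT.nd (nat_lit 78) (nat_lit 0) (nat_lit 0) (XT.lf (nat_lit 0) (nat_lit 50628359761) (nat_lit 76) (nat_lit 279048406762) (nat_lit 76) (nat_lit 274624609902) (nat_lit 1) (nat_lit 4) (nat_lit 2) (nat_lit 5) (nat_lit 2) (nat_lit 4) (nat_lit 320) (nat_lit 224) (nat_lit 176)) (XT.nd (nat_lit 78) (nat_lit 0) (nat_lit 0) (XT.lf (nat_lit 0) (nat_lit 58504805934) (nat_lit 76) (nat_lit 299204439764) (nat_lit 76) (nat_lit 294772285753) (nat_lit 1) (nat_lit 4) (nat_lit 2)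 (nat_lit 5) (nat_lit 2) (nat_lit 4) (nat_lit 321) (nat_lit 224) (nat_lit 175)) (XT.lf (nat_lit 0) (nat_lit 66998413545) (nat_lit 76) (nat_lit 320979066274) (nat_lit 76) (nat_lit 316539174161) (nat_lit 1) (nat_lit 4) (nat_lit 2) (nat_lit 5) (nat_lit 2) (nat_lit 4) (nat_lit 322) (nat_lit 224) (nat_lit 174))))) (XT.nd (nat_lit 234) (nat_lit 0) (nat_lit 0) (XT.nd (nat_lit 78) (nat_lit 0) (nat_lit 0) (XT.lf (nat_lit 0) (nat_lit 76159515085) (nat_lit 76) (nat_lit 344501321116) (nat_lit 76) (nat_lit 340054264094) (nat_lit 1) (nat_lit 4) (nat_lit 2) (nat_lit 5) (nat_lit 2) (nat_lit 4) (nat_lit 323) (nat_lit 224) (nat_lit 173)) (XT.nd (nat_lit 78) (nat_lit 0) (nat_lit 0) (XT.lf (nat_lit 0) (nat_lit 86042398560) (nat_lit 76) (nat_lit 369910595430) (nat_lit 76) (nat_lit 365456904233) (nat_lit 1) (nat_lit 4) (nat_lit 2) (nat_lit 5) (nat_lit 2) (nat_lit 4) (nat_lit 324) (nat_lit 224) (nat_lit 172))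 (XT.lf (nat_lit 0) (nat_lit 96705629209) (nat_lit 76) (nat_lit 397357462693) (nat_lit 76) (nat_lit 392897628741) (nat_lit 1) (nat_lit 4) (nat_lit 2) (nat_lit 5) (nat_lit 2) (nat_lit 4) (nat_lit 325) (nat_lit 224) (nat_lit 171)))) (XT.nd (nat_lit 156) (nat_lit 0) (nat_lit 0) (XT.nd (nat_lit 78) (nat_lit 0) (nat_lit 0) (XT.lf (nat_lit 0) (nat_lit 108212396544) (nat_lit 76) (nat_lit 427004571009) (nat_lit 76) (nat_lit 422539049321) (nat_lit 1) (nat_lit 4) (nat_lit 2) (nat_lit 5) (nat_lit 2) (nat_lit 4) (nat_lit 326) (nat_lit 224) (nat_lit 170)) (XT.lf (nat_lit 0) (nat_lit 120630888818) (nat_lit 76) (nat_lit 459027606944) (nat_lit 76) (nat_lit 454556818833) (nat_lit 1) (nat_lit 4) (nat_lit 2) (nat_lit 5) (nat_lit 2) (nat_lit 4) (nat_lit 327) (nat_lit 224) (nat_lit 169))) (XT.nd (nat_lit 78) (nat_lit 0) (nat_lit 0) (XT.lf (nat_lit 0) (nat_lit 134034697095) (nat_lit 76) (nat_lit 493616336637)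 (nat_lit 76) (nat_lit 489140672210) (nat_lit 1) (nat_lit 4) (nat_lit 2) (nat_lit 5) (nat_lit 2) (nat_lit 4) (nat_lit 328) (nat_lit 224) (nat_lit 168)) (XT.lf (nat_lit 0) (nat_lit 148503251350) (nat_lit 76) (nat_lit 530975730339) (nat_lit 76) (nat_lit 526495550803) (nat_lit 1) (nat_lit 4) (nat_lit 2) (nat_lit 5) (nat_lit 2) (nat_lit 4) (nat_lit 329) (nat_lit 224) (nat_lit 167)))))) (XT.nd (nat_lit 468) (nat_lit 0) (nat_lit 0) (XT.nd (nat_lit 234) (nat_lit 0) (nat_lit 0) (XT.nd (nat_lit 78) (nat_lit 0) (nat_lit 0) (XT.lf (nat_lit 0) (nat_lit 164122291165) (nat_lit 76) (nat_lit 571327177049) (nat_lit 76) (nat_lit 566842816858) (nat_lit 1) (nat_lit 4) (nat_lit 2) (nat_lit 5) (nat_lit 2) (nat_lit 4) (nat_lit 330) (nat_lit 224) (nat_lit 166)) (XT.nd (nat_lit 78) (nat_lit 0) (nat_lit 0) (XT.lf (nat_lit 0) (nat_lit 180984373812) (nat_lit 76) (nat_lit 614909796452) (nat_lit 76) (nat_lit 610421565282)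 (nat_lit 1) (nat_lit 4) (nat_lit 2) (nat_lit 5) (nat_lit 2) (nat_lit 4) (nat_lit 331) (nat_lit 224) (nat_lit 165)) (XT.lf (nat_lit 0) (nat_lit 199189422744) (nat_lit 76) (nat_lit 661981855921) (nat_lit 76) (nat_lit 657490040513) (nat_lit 1) (nat_lit 4) (nat_lit 2) (nat_lit 5) (nat_lit 2) (nat_lit 4) (nat_lit 332) (nat_lit 224) (nat_lit 164)))) (XT.nd (nat_lit 78) (nat_lit 0) (nat_lit 0) (XT.lf (nat_lit 0) (nat_lit 218845319732) (nat_lit 76) (nat_lit 712822300994) (nat_lit 76) (nat_lit 708327166847) (nat_lit 1) (nat_lit 4) (nat_lit 2) (nat_lit 5) (nat_lit 2) (nat_lit 4) (nat_lit 333) (nat_lit 224) (nat_lit 163)) (XT.nd (nat_lit 78) (nat_lit 0) (nat_lit 0) (XT.lf (nat_lit 0) (nat_lit 240068544166) (nat_lit 76) (nat_lit 767732408384) (nat_lit 76) (nat_lit 763234201329) (nat_lit 1) (nat_lit 4) (nat_lit 2) (nat_lit 5) (nat_lit 2) (nat_lit 4) (nat_lit 334) (nat_lit 224) (nat_lit 162)) (XT.lf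 (nat_lit 0) (nat_lit 262984863302) (nat_lit 76) (nat_lit 827037571318) (nat_lit 76) (nat_lit 822536518979) (nat_lit 1) (nat_lit 4) (nat_lit 2) (nat_lit 5) (nat_lit 2) (nat_lit 4) (nat_lit 335) (nat_lit 224) (nat_lit 161))))) (XT.nd (nat_lit 234) (nat_lit 0) (nat_lit 0) (XT.nd (nat_lit 78) (nat_lit 0) (nat_lit 0) (XT.lf (nat_lit 0) (nat_lit 287730077549) (nat_lit 76) (nat_lit 891089227799) (nat_lit 76) (nat_lit 886585540938) (nat_lit 1) (nat_lit 4) (nat_lit 2) (nat_lit 5) (nat_lit 2) (nat_lit 4) (nat_lit 336) (nat_lit 224) (nat_lit 160)) (XT.nd (nat_lit 78) (nat_lit 0) (nat_lit 0) (XT.lf (nat_lit 0) (nat_lit 314450825214) (nat_lit 76) (nat_lit 960266943199) (nat_lit 76) (nat_lit 955760816966) (nat_lit 1) (nat_lit 4) (nat_lit 2) (nat_lit 5) (nat_lit 2) (nat_lit 4) (nat_lit 337) (nat_lit 224) (nat_lit 159)) (XT.lf (nat_lit 0) (nat_lit 343305451469) (nat_lit 76) (nat_lit 1034980659536)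 (nat_lit 76) (nat_lit 1030472274624) (nat_lit 1) (nat_lit 4) (nat_lit 2) (nat_lit 5) (nat_lit 2) (nat_lit 4) (nat_lit 338) (nat_lit 224) (nat_lit 158)))) (XT.nd (nat_lit 156) (nat_lit 0) (nat_lit 0) (XT.nd (nat_lit 78) (nat_lit 0) (nat_lit 0) (XT.lf (nat_lit 0) (nat_lit 374464946692) (nat_lit 76) (nat_lit 1115673124757) (nat_lit 76) (nat_lit 1111162648477) (nat_lit 1) (nat_lit 4) (nat_lit 2) (nat_lit 5) (nat_lit 2) (nat_lit 4) (nat_lit 339) (nat_lit 224) (nat_lit 157)) (XT.lf (nat_lit 0) (nat_lit 408113959742) (nat_lit 76) (nat_lit 1202822516435) (nat_lit 76) (nat_lit 1198310103702) (nat_lit 1) (nat_lit 4) (nat_lit 2) (nat_lit 5) (nat_lit 2) (nat_lit 4) (nat_lit 340) (nat_lit 224) (nat_lit 156))) (XT.nd (nat_lit 78) (nat_lit 0) (nat_lit 0) (XT.lf (nat_lit 0) (nat_lit 444451892179) (nat_lit 76) (nat_lit 1296945275409) (nat_lit 76) (nat_lit 1292431069665) (nat_lit 1) (nat_lit 4) (nat_lit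 2) (nat_lit 5) (nat_lit 2) (nat_lit 4) (nat_lit 341) (nat_lit 224) (nat_lit 155)) (XT.lf (nat_lit 0) (nat_lit 483694079898) (nat_lit 76) (nat_lit 1398599166178) (nat_lit 76) (nat_lit 1394083300237) (nat_lit 1) (nat_lit 4) (nat_lit 2) (nat_lit 5) (nat_lit 2) (nat_lit 4) (nat_lit 342) (nat_lit 224) (nat_lit 154))))))) (XT.nd (nat_lit 32760) (nat_lit 0) (nat_lit 76) (XT.nd (nat_lit 32214) (nat_lit 0) (nat_lit 228) (XT.nd (nat_lit 31980) (nat_lit 0) (nat_lit 456) (XT.nd (nat_lit 31824) (nat_lit 0) (nat_lit 532) (XT.lf (nat_lit 0) (nat_lit 526073069198) (nat_lit 76) (nat_lit 1508386582166) (nat_lit 76) (nat_lit 1503869179007) (nat_lit 1) (nat_lit 4) (nat_lit 2) (nat_lit 5) (nat_lit 2) (nat_lit 4) (nat_lit 343) (nat_lit 224) (nat_lit 153)) (XT.nd (nat_lit 78) (nat_lit 152) (nat_lit 0) (XT.lf (nat_lit 0) (nat_lit 6944825123) (nat_lit 76) (nat_lit 599679688) (nat_lit 76) (nat_lit 599679688)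 (nat_lit 10) (nat_lit 4) (nat_lit 11) (nat_lit 5) (nat_lit 11) (nat_lit 4) (nat_lit 270) (nat_lit 225) (nat_lit 225)) (XT.lf (nat_lit 0) (nat_lit 2637872280) (nat_lit 152) (nat_lit 12387534357) (nat_lit 0) (nat_lit 2214551345) (nat_lit 8) (nat_lit 5) (nat_lit 10) (nat_lit 4) (nat_lit 8) (nat_lit 4) (nat_lit 271) (nat_lit 225) (nat_lit 224)))) (XT.nd (nat_lit 78) (nat_lit 76) (nat_lit 0) (XT.lf (nat_lit 0) (nat_lit 6600022578) (nat_lit 152) (nat_lit 5890189087) (nat_lit 0) (nat_lit 5784737814) (nat_lit 8) (nat_lit 5) (nat_lit 10) (nat_lit 4) (nat_lit 8) (nat_lit 4) (nat_lit 272) (nat_lit 225) (nat_lit 223)) (XT.nd (nat_lit 78) (nat_lit 0) (nat_lit 0) (XT.lf (nat_lit 0) (nat_lit 812175263) (nat_lit 76) (nat_lit 9886776305) (nat_lit 76) (nat_lit 8708562070) (nat_lit 7) (nat_lit 4) (nat_lit 8) (nat_lit 5) (nat_lit 8) (nat_lit 4) (nat_lit 273) (nat_lit 225) (nat_lit 222)) (XT.lf (nat_lit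 0) (nat_lit 8039309588) (nat_lit 76) (nat_lit 7054270949) (nat_lit 76) (nat_lit 5540010907) (nat_lit 7) (nat_lit 4) (nat_lit 8) (nat_lit 5) (nat_lit 8) (nat_lit 4) (nat_lit 274) (nat_lit 225) (nat_lit 221))))) (XT.nd (nat_lit 234) (nat_lit 76) (nat_lit 0) (XT.nd (nat_lit 78) (nat_lit 152) (nat_lit 0) (XT.lf (nat_lit 0) (nat_lit 15523874429) (nat_lit 76) (nat_lit 4136958588) (nat_lit 76) (nat_lit 2311545021) (nat_lit 7) (nat_lit 4) (nat_lit 8) (nat_lit 5) (nat_lit 8) (nat_lit 4) (nat_lit 275) (nat_lit 225) (nat_lit 220)) (XT.nd (nat_lit 78) (nat_lit 76) (nat_lit 0) (XT.lf (nat_lit 0) (nat_lit 946144921) (nat_lit 152) (nat_lit 145537244) (nat_lit 76) (nat_lit 22338208564) (nat_lit 6) (nat_lit 5) (nat_lit 8) (nat_lit 5) (nat_lit 7) (nat_lit 4) (nat_lit 276) (nat_lit 225) (nat_lit 219)) (XT.lf (nat_lit 0) (nat_lit 4397395494) (nat_lit 152) (nat_lit 18403992932) (nat_lit 0) (nat_lit 2193430051)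 (nat_lit 5) (nat_lit 5) (nat_lit 7) (nat_lit 4) (nat_lit 5) (nat_lit 4) (nat_lit 277) (nat_lit 225) (nat_lit 218)))) (XT.nd (nat_lit 156) (nat_lit 76) (nat_lit 0) (XT.nd (nat_lit 78) (nat_lit 0) (nat_lit 0) (XT.lf (nat_lit 0) (nat_lit 8001587337) (nat_lit 152) (nat_lit 13124516565) (nat_lit 0) (nat_lit 5568914765) (nat_lit 5) (nat_lit 5) (nat_lit 7) (nat_lit 4) (nat_lit 5) (nat_lit 4) (nat_lit 278) (nat_lit 225) (nat_lit 217)) (XT.lf (nat_lit 0) (nat_lit 11750043456) (nat_lit 152) (nat_lit 7687320898) (nat_lit 0) (nat_lit 9105605024) (nat_lit 5) (nat_lit 5) (nat_lit 7) (nat_lit 4) (nat_lit 5) (nat_lit 4) (nat_lit 279) (nat_lit 225) (nat_lit 216))) (XT.nd (nat_lit 78) (nat_lit 76) (nat_lit 0) (XT.lf (nat_lit 0) (nat_lit 15664976924) (nat_lit 152) (nat_lit 2060185510) (nat_lit 0) (nat_lit 12824458991) (nat_lit 5) (nat_lit 5) (nat_lit 7) (nat_lit 4) (nat_lit 5) (nat_lit 4) (nat_lit 280)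 (nat_lit 225) (nat_lit 215)) (XT.lf (nat_lit 0) (nat_lit 3989822673) (nat_lit 76) (nat_lit 15875720003) (nat_lit 76) (nat_lit 12853646976) (nat_lit 4) (nat_lit 4) (nat_lit 5) (nat_lit 5) (nat_lit 5) (nat_lit 4) (nat_lit 281) (nat_lit 225) (nat_lit 214)))))) (XT.nd (nat_lit 546) (nat_lit 0) (nat_lit 0) (XT.nd (nat_lit 234) (nat_lit 152) (nat_lit 0) (XT.nd (nat_lit 78) (nat_lit 0) (nat_lit 0) (XT.lf (nat_lit 0) (nat_lit 10419854891) (nat_lit 76) (nat_lit 13918941207) (nat_lit 76) (nat_lit 10728761613) (nat_lit 4) (nat_lit 4) (nat_lit 5) (nat_lit 5) (nat_lit 5) (nat_lit 4) (nat_lit 282) (nat_lit 225) (nat_lit 213)) (XT.nd (nat_lit 78) (nat_lit 0) (nat_lit 0) (XT.lf (nat_lit 0) (nat_lit 17159529319) (nat_lit 76) (nat_lit 11899559445) (nat_lit 76) (nat_lit 8553725621) (nat_lit 4) (nat_lit 4) (nat_lit 5) (nat_lit 5) (nat_lit 5) (nat_lit 4) (nat_lit 283) (nat_lit 225) (nat_lit 212)) (XT.lf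 (nat_lit 0) (nat_lit 24248784768) (nat_lit 76) (nat_lit 9805608008) (nat_lit 76) (nat_lit 6315649898) (nat_lit 4) (nat_lit 4) (nat_lit 5) (nat_lit 5) (nat_lit 5) (nat_lit 4) (nat_lit 284) (nat_lit 225) (nat_lit 211)))) (XT.nd (nat_lit 156) (nat_lit 152) (nat_lit 0) (XT.nd (nat_lit 78) (nat_lit 0) (nat_lit 0) (XT.lf (nat_lit 0) (nat_lit 31729631642) (nat_lit 76) (nat_lit 7624678296) (nat_lit 76) (nat_lit 4001271773) (nat_lit 4) (nat_lit 4) (nat_lit 5) (nat_lit 5) (nat_lit 5) (nat_lit 4) (nat_lit 285) (nat_lit 225) (nat_lit 210)) (XT.lf (nat_lit 0) (nat_lit 39646400884) (nat_lit 76) (nat_lit 5343846280) (nat_lit 76) (nat_lit 1596876412) (nat_lit 4) (nat_lit 4) (nat_lit 5) (nat_lit 5) (nat_lit 5) (nat_lit 4) (nat_lit 286) (nat_lit 225) (nat_lit 209))) (XT.nd (nat_lit 78) (nat_lit 76) (nat_lit 0) (XT.lf (nat_lit 0) (nat_lit 866173301) (nat_lit 152) (nat_lit 2059739906) (nat_lit 76) (nat_lit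 47156150669) (nat_lit 3) (nat_lit 5) (nat_lit 5) (nat_lit 5) (nat_lit 4) (nat_lit 4) (nat_lit 287) (nat_lit 225) (nat_lit 208)) (XT.lf (nat_lit 0) (nat_lit 3186092220) (nat_lit 76) (nat_lit 253046360) (nat_lit 152) (nat_lit 50414307806) (nat_lit 2) (nat_lit 5) (nat_lit 3) (nat_lit 5) (nat_lit 4) (nat_lit 4) (nat_lit 288) (nat_lit 225) (nat_lit 207))))) (XT.nd (nat_lit 234) (nat_lit 0) (nat_lit 0) (XT.nd (nat_lit 78) (nat_lit 0) (nat_lit 0) (XT.lf (nat_lit 0) (nat_lit 6262395426) (nat_lit 152) (nat_lit 49162545369) (nat_lit 0) (nat_lit 2498131912) (nat_lit 2) (nat_lit 5) (nat_lit 4) (nat_lit 4) (nat_lit 2) (nat_lit 4) (nat_lit 289) (nat_lit 225) (nat_lit 206)) (XT.nd (nat_lit 78) (nat_lit 0) (nat_lit 0) (XT.lf (nat_lit 0) (nat_lit 9247099605) (nat_lit 152) (nat_lit 47677664554) (nat_lit 0) (nat_lit 5398740955) (nat_lit 2) (nat_lit 5) (nat_lit 4) (nat_lit 4) (nat_lit 2) (nat_lit 4) (nat_lit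 290) (nat_lit 225) (nat_lit 205)) (XT.lf (nat_lit 0) (nat_lit 12404852483) (nat_lit 152) (nat_lit 46197826658) (nat_lit 0) (nat_lit 8478627965) (nat_lit 2) (nat_lit 5) (nat_lit 4) (nat_lit 4) (nat_lit 2) (nat_lit 4) (nat_lit 291) (nat_lit 225) (nat_lit 204)))) (XT.nd (nat_lit 156) (nat_lit 0) (nat_lit 0) (XT.nd (nat_lit 78) (nat_lit 0) (nat_lit 0) (XT.lf (nat_lit 0) (nat_lit 15754366670) (nat_lit 152) (nat_lit 44714262270) (nat_lit 0) (nat_lit 11756044127) (nat_lit 2) (nat_lit 5) (nat_lit 4) (nat_lit 4) (nat_lit 2) (nat_lit 4) (nat_lit 292) (nat_lit 225) (nat_lit 203)) (XT.lf (nat_lit 0) (nat_lit 19315491138) (nat_lit 152) (nat_lit 43218179897) (nat_lit 0) (nat_lit 15250411164) (nat_lit 2) (nat_lit 5) (nat_lit 4) (nat_lit 4) (nat_lit 2) (nat_lit 4) (nat_lit 293) (nat_lit 225) (nat_lit 202))) (XT.nd (nat_lit 78) (nat_lit 0) (nat_lit 0) (XT.lf (nat_lit 0) (nat_lit 23109328847) (nat_lit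 152) (nat_lit 41700713867) (nat_lit 0) (nat_lit 18982436437) (nat_lit 2) (nat_lit 5) (nat_lit 4) (nat_lit 4) (nat_lit 2) (nat_lit 4) (nat_lit 294) (nat_lit 225) (nat_lit 201)) (XT.lf (nat_lit 0) (nat_lit 27158361799) (nat_lit 152) (nat_lit 40152871788) (nat_lit 0) (nat_lit 22974235651) (nat_lit 2) (nat_lit 5) (nat_lit 4) (nat_lit 4) (nat_lit 2) (nat_lit 4) (nat_lit 295) (nat_lit 225) (nat_lit 200))))))))
noncomputable def xc26 : XT := (XT.nd (nat_lit 2028) (nat_lit 0) (nat_lit 0) (XT.nd (nat_lit 1014) (nat_lit 76) (nat_lit 0) (XT.nd (nat_lit 468) (nat_lit 0) (nat_lit 0) (XT.nd (nat_lit 234) (nat_lit 0) (nat_lit 0) (XT.nd (nat_lit 78) (nat_lit 0) (nat_lit 0) (XT.lf (nat_lit 0) (nat_lit 31486584262) (nat_lit 152) (nat_lit 38565481262) (nat_lit 0) (nat_lit 27249463914) (nat_lit 2) (nat_lit 5) (nat_lit 4) (nat_lit 4) (nat_lit 2) (nat_lit 4) (nat_lit 296) (nat_lit 225) (nat_lit 199)) (XT.nd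 (nat_lit 78) (nat_lit 0) (nat_lit 0) (XT.lf (nat_lit 0) (nat_lit 36119644963) (nat_lit 152) (nat_lit 36929135531) (nat_lit 0) (nat_lit 31833455910) (nat_lit 2) (nat_lit 5) (nat_lit 4) (nat_lit 4) (nat_lit 2) (nat_lit 4) (nat_lit 297) (nat_lit 225) (nat_lit 198)) (XT.lf (nat_lit 0) (nat_lit 41084999076) (nat_lit 152) (nat_lit 35234137732) (nat_lit 0) (nat_lit 36753376037) (nat_lit 2) (nat_lit 5) (nat_lit 4) (nat_lit 4) (nat_lit 2) (nat_lit 4) (nat_lit 298) (nat_lit 225) (nat_lit 197)))) (XT.nd (nat_lit 78) (nat_lit 0) (nat_lit 0) (XT.lf (nat_lit 0) (nat_lit 46412070921) (nat_lit 152) (nat_lit 33470443432) (nat_lit 0) (nat_lit 42038379377) (nat_lit 2) (nat_lit 5) (nat_lit 4) (nat_lit 4) (nat_lit 2) (nat_lit 4) (nat_lit 299) (nat_lit 225) (nat_lit 196)) (XT.nd (nat_lit 78) (nat_lit 0) (nat_lit 0) (XT.lf (nat_lit 0) (nat_lit 52132428333) (nat_lit 152) (nat_lit 31627601110) (nat_lit 0) (nat_lit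 47719784469) (nat_lit 2) (nat_lit 5) (nat_lit 4) (nat_lit 4) (nat_lit 2) (nat_lit 4) (nat_lit 300) (nat_lit 225) (nat_lit 195)) (XT.lf (nat_lit 0) (nat_lit 58279969724) (nat_lit 152) (nat_lit 29694690220) (nat_lit 0) (nat_lit 53831258897) (nat_lit 2) (nat_lit 5) (nat_lit 4) (nat_lit 4) (nat_lit 2) (nat_lit 4) (nat_lit 301) (nat_lit 225) (nat_lit 194))))) (XT.nd (nat_lit 234) (nat_lit 0) (nat_lit 0) (XT.nd (nat_lit 78) (nat_lit 0) (nat_lit 0) (XT.lf (nat_lit 0) (nat_lit 64891124971) (nat_lit 152) (nat_lit 27660256473) (nat_lit 0) (nat_lit 60409018808) (nat_lit 2) (nat_lit 5) (nat_lit 4) (nat_lit 4) (nat_lit 2) (nat_lit 4) (nat_lit 302) (nat_lit 225) (nat_lit 193)) (XT.nd (nat_lit 78) (nat_lit 0) (nat_lit 0) (XT.lf (nat_lit 0) (nat_lit 72005071288) (nat_lit 152) (nat_lit 25512243967) (nat_lit 0) (nat_lit 67492043518) (nat_lit 2) (nat_lit 5) (nat_lit 4) (nat_lit 4) (nat_lit 2) (nat_lit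 4) (nat_lit 303) (nat_lit 225) (nat_lit 192)) (XT.lf (nat_lit 0) (nat_lit 79663965396) (nat_lit 152) (nat_lit 23237923739) (nat_lit 0) (nat_lit 75122306509) (nat_lit 2) (nat_lit 5) (nat_lit 4) (nat_lit 4) (nat_lit 2) (nat_lit 4) (nat_lit 304) (nat_lit 225) (nat_lit 191)))) (XT.nd (nat_lit 156) (nat_lit 0) (nat_lit 0) (XT.nd (nat_lit 78) (nat_lit 0) (nat_lit 0) (XT.lf (nat_lit 0) (nat_lit 87913193334) (nat_lit 152) (nat_lit 20823818335) (nat_lit 0) (nat_lit 83345024152) (nat_lit 2) (nat_lit 5) (nat_lit 4) (nat_lit 4) (nat_lit 2) (nat_lit 4) (nat_lit 305) (nat_lit 225) (nat_lit 190)) (XT.lf (nat_lit 0) (nat_lit 96801639414) (nat_lit 152) (nat_lit 18255621945) (nat_lit 0) (nat_lit 92208923663) (nat_lit 2) (nat_lit 5) (nat_lit 4) (nat_lit 4) (nat_lit 2) (nat_lit 4) (nat_lit 306) (nat_lit 225) (nat_lit 189))) (XT.nd (nat_lit 78) (nat_lit 0) (nat_lit 0) (XT.lf (nat_lit 0) (nat_lit 106381975911)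 (nat_lit 152) (nat_lit 15518115628) (nat_lit 0) (nat_lit 101766531855) (nat_lit 2) (nat_lit 5) (nat_lit 4) (nat_lit 4) (nat_lit 2) (nat_lit 4) (nat_lit 307) (nat_lit 225) (nat_lit 188)) (XT.lf (nat_lit 0) (nat_lit 116710975188) (nat_lit 152) (nat_lit 12595077125) (nat_lit 0) (nat_lit 112074486406) (nat_lit 2) (nat_lit 5) (nat_lit 4) (nat_lit 4) (nat_lit 2) (nat_lit 4) (nat_lit 308) (nat_lit 225) (nat_lit 187)))))) (XT.nd (nat_lit 468) (nat_lit 0) (nat_lit 0) (XT.nd (nat_lit 234) (nat_lit 76) (nat_lit 0) (XT.nd (nat_lit 78) (nat_lit 0) (nat_lit 0) (XT.lf (nat_lit 0) (nat_lit 127849846130) (nat_lit 152) (nat_lit 9469184725) (nat_lit 0) (nat_lit 123193871491) (nat_lit 2) (nat_lit 5) (nat_lit 4) (nat_lit 4) (nat_lit 2) (nat_lit 4) (nat_lit 309) (nat_lit 225) (nat_lit 186)) (XT.nd (nat_lit 78) (nat_lit 0) (nat_lit 0) (XT.lf (nat_lit 0) (nat_lit 139864596862) (nat_lit 152) (nat_lit 6121914623)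 (nat_lit 0) (nat_lit 135190579762) (nat_lit 2) (nat_lit 5) (nat_lit 4) (nat_lit 4) (nat_lit 2) (nat_lit 4) (nat_lit 310) (nat_lit 225) (nat_lit 185)) (XT.lf (nat_lit 0) (nat_lit 152826425906) (nat_lit 152) (nat_lit 2533431142) (nat_lit 0) (nat_lit 148135702823) (nat_lit 2) (nat_lit 5) (nat_lit 4) (nat_lit 4) (nat_lit 2) (nat_lit 4) (nat_lit 311) (nat_lit 225) (nat_lit 184)))) (XT.nd (nat_lit 78) (nat_lit 0) (nat_lit 0) (XT.lf (nat_lit 0) (nat_lit 1386909640) (nat_lit 76) (nat_lit 165458589670) (nat_lit 76) (nat_lit 160752398085) (nat_lit 1) (nat_lit 4) (nat_lit 2) (nat_lit 5) (nat_lit 2) (nat_lit 4) (nat_lit 312) (nat_lit 225) (nat_lit 183)) (XT.nd (nat_lit 78) (nat_lit 0) (nat_lit 0) (XT.lf (nat_lit 0) (nat_lit 5740978737) (nat_lit 76) (nat_lit 176301721716) (nat_lit 76) (nat_lit 171581207444) (nat_lit 1) (nat_lit 4) (nat_lit 2) (nat_lit 5) (nat_lit 2) (nat_lit 4) (nat_lit 313) (nat_lit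 225) (nat_lit 182)) (XT.lf (nat_lit 0) (nat_lit 10421172043) (nat_lit 76) (nat_lit 188022777280) (nat_lit 76) (nat_lit 183289001260) (nat_lit 1) (nat_lit 4) (nat_lit 2) (nat_lit 5) (nat_lit 2) (nat_lit 4) (nat_lit 314) (nat_lit 225) (nat_lit 181))))) (XT.nd (nat_lit 234) (nat_lit 0) (nat_lit 0) (XT.nd (nat_lit 78) (nat_lit 0) (nat_lit 0) (XT.lf (nat_lit 0) (nat_lit 15455224038) (nat_lit 76) (nat_lit 200691214469) (nat_lit 76) (nat_lit 195945159054) (nat_lit 1) (nat_lit 4) (nat_lit 2) (nat_lit 5) (nat_lit 2) (nat_lit 4) (nat_lit 315) (nat_lit 225) (nat_lit 180)) (XT.nd (nat_lit 78) (nat_lit 0) (nat_lit 0) (XT.lf (nat_lit 0) (nat_lit 20872966142) (nat_lit 76) (nat_lit 214382105503) (nat_lit 76) (nat_lit 209624680278) (nat_lit 1) (nat_lit 4) (nat_lit 2) (nat_lit 5) (nat_lit 2) (nat_lit 4) (nat_lit 316) (nat_lit 225) (nat_lit 179)) (XT.lf (nat_lit 0) (nat_lit 26706503492) (nat_lit 76) (nat_lit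 229176581590) (nat_lit 76) (nat_lit 224408628761) (nat_lit 1) (nat_lit 4) (nat_lit 2) (nat_lit 5) (nat_lit 2) (nat_lit 4) (nat_lit 317) (nat_lit 225) (nat_lit 178)))) (XT.nd (nat_lit 156) (nat_lit 0) (nat_lit 0) (XT.nd (nat_lit 78) (nat_lit 0) (nat_lit 0) (XT.lf (nat_lit 0) (nat_lit 32990405199) (nat_lit 76) (nat_lit 245162313697) (nat_lit 76) (nat_lit 240384613089) (nat_lit 1) (nat_lit 4) (nat_lit 2) (nat_lit 5) (nat_lit 2) (nat_lit 4) (nat_lit 318) (nat_lit 225) (nat_lit 177)) (XT.lf (nat_lit 0) (nat_lit 39761909198) (nat_lit 76) (nat_lit 262434032090) (nat_lit 76) (nat_lit 257647305759) (nat_lit 1) (nat_lit 4) (nat_lit 2) (nat_lit 5) (nat_lit 2) (nat_lit 4) (nat_lit 319) (nat_lit 225) (nat_lit 176))) (XT.nd (nat_lit 78) (nat_lit 0) (nat_lit 0) (XT.lf (nat_lit 0) (nat_lit 47061142921) (nat_lit 76) (nat_lit 281094087693) (nat_lit 76) (nat_lit 276299004211) (nat_lit 1) (nat_lit 4) (nat_lit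 2) (nat_lit 5) (nat_lit 2) (nat_lit 4) (nat_lit 320) (nat_lit 225) (nat_lit 175)) (XT.lf (nat_lit 0) (nat_lit 54931361087) (nat_lit 76) (nat_lit 301253058612) (nat_lit 76) (nat_lit 296450237028) (nat_lit 1) (nat_lit 4) (nat_lit 2) (nat_lit 5) (nat_lit 2) (nat_lit 4) (nat_lit 321) (nat_lit 225) (nat_lit 174))))))) (XT.nd (nat_lit 1014) (nat_lit 0) (nat_lit 0) (XT.nd (nat_lit 468) (nat_lit 0) (nat_lit 0) (XT.nd (nat_lit 234) (nat_lit 0) (nat_lit 0) (XT.nd (nat_lit 78) (nat_lit 0) (nat_lit 0) (XT.lf (nat_lit 0) (nat_lit 63419202025) (nat_lit 76) (nat_lit 323030405415) (nat_lit 76) (nat_lit 318220418922) (nat_lit 1) (nat_lit 4) (nat_lit 2) (nat_lit 5) (nat_lit 2) (nat_lit 4) (nat_lit 322) (nat_lit 225) (nat_lit 173)) (XT.nd (nat_lit 78) (nat_lit 0) (nat_lit 0) (XT.lf (nat_lit 0) (nat_lit 72574964051) (nat_lit 76) (nat_lit 346555179048) (nat_lit 76) (nat_lit 341738558380) (nat_lit 1) (nat_lit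 4) (nat_lit 2) (nat_lit 5) (nat_lit 2) (nat_lit 4) (nat_lit 323) (nat_lit 225) (nat_lit 172)) (XT.lf (nat_lit 0) (nat_lit 82452903534) (nat_lit 76) (nat_lit 371966785576) (nat_lit 76) (nat_lit 367144022153) (nat_lit 1) (nat_lit 4) (nat_lit 2) (nat_lit 5) (nat_lit 2) (nat_lit 4) (nat_lit 324) (nat_lit 225) (nat_lit 171)))) (XT.nd (nat_lit 78) (nat_lit 0) (nat_lit 0) (XT.lf (nat_lit 0) (nat_lit 93111556411) (nat_lit 76) (nat_lit 399415812297) (nat_lit 76) (nat_lit 394587361137) (nat_lit 1) (nat_lit 4) (nat_lit 2) (nat_lit 5) (nat_lit 2) (nat_lit 4) (nat_lit 325) (nat_lit 225) (nat_lit 170)) (XT.nd (nat_lit 78) (nat_lit 0) (nat_lit 0) (XT.lf (nat_lit 0) (nat_lit 104614085069) (nat_lit 76) (nat_lit 429064920109) (nat_lit 76) (nat_lit 424231202528) (nat_lit 1) (nat_lit 4) (nat_lit 2) (nat_lit 5) (nat_lit 2) (nat_lit 4) (nat_lit 326) (nat_lit 225) (nat_lit 169)) (XT.lf (nat_lit 0) (nat_lit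 117028652641) (nat_lit 76) (nat_lit 461089807431) (nat_lit 76) (nat_lit 456251213532) (nat_lit 1) (nat_lit 4) (nat_lit 2) (nat_lit 5) (nat_lit 2) (nat_lit 4) (nat_lit 327) (nat_lit 225) (nat_lit 168))))) (XT.nd (nat_lit 234) (nat_lit 0) (nat_lit 0) (XT.nd (nat_lit 78) (nat_lit 0) (nat_lit 0) (XT.lf (nat_lit 0) (nat_lit 130428826936) (nat_lit 76) (nat_lit 495680251371) (nat_lit 76) (nat_lit 490837142364) (nat_lit 1) (nat_lit 4) (nat_lit 2) (nat_lit 5) (nat_lit 2) (nat_lit 4) (nat_lit 328) (nat_lit 225) (nat_lit 167)) (XT.nd (nat_lit 78) (nat_lit 0) (nat_lit 0) (XT.lf (nat_lit 0) (nat_lit 144894016393) (nat_lit 76) (nat_lit 533041232338) (nat_lit 76) (nat_lit 528193942675) (nat_lit 1) (nat_lit 4) (nat_lit 2) (nat_lit 5) (nat_lit 2) (nat_lit 4) (nat_lit 329) (nat_lit 225) (nat_lit 166)) (XT.lf (nat_lit 0) (nat_lit 160509940653) (nat_lit 76) (nat_lit 573394148739) (nat_lit 76) (nat_lit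 568542988098) (nat_lit 1) (nat_lit 4) (nat_lit 2) (nat_lit 5) (nat_lit 2) (nat_lit 4) (nat_lit 330) (nat_lit 225) (nat_lit 165)))) (XT.nd (nat_lit 156) (nat_lit 0) (nat_lit 0) (XT.nd (nat_lit 78) (nat_lit 0) (nat_lit 0) (XT.lf (nat_lit 0) (nat_lit 177369138527) (nat_lit 76) (nat_lit 616978128965) (nat_lit 76) (nat_lit 612123384086) (nat_lit 1) (nat_lit 4) (nat_lit 2) (nat_lit 5) (nat_lit 2) (nat_lit 4) (nat_lit 331) (nat_lit 225) (nat_lit 164)) (XT.lf (nat_lit 0) (nat_lit 195571516373) (nat_lit 76) (nat_lit 664051448457) (nat_lit 76) (nat_lit 659193384838) (nat_lit 1) (nat_lit 4) (nat_lit 2) (nat_lit 5) (nat_lit 2) (nat_lit 4) (nat_lit 332) (nat_lit 225) (nat_lit 163))) (XT.nd (nat_lit 78) (nat_lit 0) (nat_lit 0) (XT.lf (nat_lit 0) (nat_lit 215224940134) (nat_lit 76) (nat_lit 714893060218) (nat_lit 76) (nat_lit 710031923692) (nat_lit 1) (nat_lit 4) (nat_lit 2) (nat_lit 5) (nat_lit 2)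 (nat_lit 4) (nat_lit 333) (nat_lit 225) (nat_lit 162)) (XT.lf (nat_lit 0) (nat_lit 236445874543) (nat_lit 76) (nat_lit 769804247873) (nat_lit 76) (nat_lit 764940266064) (nat_lit 1) (nat_lit 4) (nat_lit 2) (nat_lit 5) (nat_lit 2) (nat_lit 4) (nat_lit 334) (nat_lit 225) (nat_lit 161)))))) (XT.nd (nat_lit 546) (nat_lit 0) (nat_lit 0) (XT.nd (nat_lit 234) (nat_lit 0) (nat_lit 0) (XT.nd (nat_lit 78) (nat_lit 0) (nat_lit 0) (XT.lf (nat_lit 0) (nat_lit 259360073285) (nat_lit 76) (nat_lit 829110411054) (nat_lit 76) (nat_lit 824243794722) (nat_lit 1) (nat_lit 4) (nat_lit 2) (nat_lit 5) (nat_lit 2) (nat_lit 4) (nat_lit 335) (nat_lit 225) (nat_lit 160)) (XT.nd (nat_lit 78) (nat_lit 0) (nat_lit 0) (XT.lf (nat_lit 0) (nat_lit 284103324204) (nat_lit 76) (nat_lit 893162993689) (nat_lit 76) (nat_lit 888293937984) (nat_lit 1) (nat_lit 4) (nat_lit 2) (nat_lit 5) (nat_lit 2) (nat_lit 4) (nat_lit 336)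 (nat_lit 225) (nat_lit 159)) (XT.lf (nat_lit 0) (nat_lit 310822253974) (nat_lit 76) (nat_lit 962341566639) (nat_lit 76) (nat_lit 957470252257) (nat_lit 1) (nat_lit 4) (nat_lit 2) (nat_lit 5) (nat_lit 2) (nat_lit 4) (nat_lit 337) (nat_lit 225) (nat_lit 158)))) (XT.nd (nat_lit 156) (nat_lit 0) (nat_lit 0) (XT.nd (nat_lit 78) (nat_lit 0) (nat_lit 0) (XT.lf (nat_lit 0) (nat_lit 339675196991) (nat_lit 76) (nat_lit 1037056077004) (nat_lit 76) (nat_lit 1032182671252) (nat_lit 1) (nat_lit 4) (nat_lit 2) (nat_lit 5) (nat_lit 2) (nat_lit 4) (nat_lit 338) (nat_lit 225) (nat_lit 157)) (XT.lf (nat_lit 0) (nat_lit 370833133661) (nat_lit 76) (nat_lit 1117749277436) (nat_lit 76) (nat_lit 1112873935232) (nat_lit 1) (nat_lit 4) (nat_lit 2) (nat_lit 5) (nat_lit 2) (nat_lit 4) (nat_lit 339) (nat_lit 225) (nat_lit 156))) (XT.nd (nat_lit 78) (nat_lit 0) (nat_lit 0) (XT.lf (nat_lit 0) (nat_lit 404480703607)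 (nat_lit 76) (nat_lit 1204899349865) (nat_lit 76) (nat_lit 1200022214650) (nat_lit 1) (nat_lit 4) (nat_lit 2) (nat_lit 5) (nat_lit 2) (nat_lit 4) (nat_lit 340) (nat_lit 225) (nat_lit 155)) (XT.lf (nat_lit 0) (nat_lit 440817299836) (nat_lit 76) (nat_lit 1299022739164) (nat_lit 76) (nat_lit 1294143943753) (nat_lit 1) (nat_lit 4) (nat_lit 2) (nat_lit 5) (nat_lit 2) (nat_lit 4) (nat_lit 341) (nat_lit 225) (nat_lit 154))))) (XT.nd (nat_lit 31824) (nat_lit 0) (nat_lit 532) (XT.nd (nat_lit 78) (nat_lit 0) (nat_lit 0) (XT.lf (nat_lit 0) (nat_lit 480058250326) (nat_lit 76) (nat_lit 1400677213567) (nat_lit 76) (nat_lit 1395796880937) (nat_lit 1) (nat_lit 4) (nat_lit 2) (nat_lit 5) (nat_lit 2) (nat_lit 4) (nat_lit 342) (nat_lit 225) (nat_lit 153)) (XT.nd (nat_lit 31668) (nat_lit 0) (nat_lit 760) (XT.lf (nat_lit 0) (nat_lit 522436094042) (nat_lit 76) (nat_lit 1510465169957) (nat_lit 76) (nat_lit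 1505583413977) (nat_lit 1) (nat_lit 4) (nat_lit 2) (nat_lit 5) (nat_lit 2) (nat_lit 4) (nat_lit 343) (nat_lit 225) (nat_lit 152)) (XT.lf (nat_lit 0) (nat_lit 3319559815) (nat_lit 152) (nat_lit 658211443) (nat_lit 0) (nat_lit 3319559815) (nat_lit 11) (nat_lit 5) (nat_lit 13) (nat_lit 4) (nat_lit 11) (nat_lit 4) (nat_lit 268) (nat_lit 226) (nat_lit 226)))) (XT.nd (nat_lit 156) (nat_lit 152) (nat_lit 0) (XT.nd (nat_lit 78) (nat_lit 0) (nat_lit 0) (XT.lf (nat_lit 0) (nat_lit 6050048976) (nat_lit 76) (nat_lit 4924834886) (nat_lit 76) (nat_lit 4431073347) (nat_lit 10) (nat_lit 4) (nat_lit 11) (nat_lit 5) (nat_lit 11) (nat_lit 4) (nat_lit 269) (nat_lit 226) (nat_lit 225)) (XT.lf (nat_lit 0) (nat_lit 13712747954) (nat_lit 76) (nat_lit 1767494131) (nat_lit 76) (nat_lit 816545982) (nat_lit 10) (nat_lit 4) (nat_lit 11) (nat_lit 5) (nat_lit 11) (nat_lit 4) (nat_lit 270) (nat_lit 226) (nat_lit 224)))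 (XT.nd (nat_lit 78) (nat_lit 0) (nat_lit 0) (XT.lf (nat_lit 0) (nat_lit 2879354631) (nat_lit 152) (nat_lit 12771362939) (nat_lit 0) (nat_lit 1606883257) (nat_lit 8) (nat_lit 5) (nat_lit 10) (nat_lit 4) (nat_lit 8) (nat_lit 4) (nat_lit 271) (nat_lit 226) (nat_lit 223)) (XT.lf (nat_lit 0) (nat_lit 6745482734) (nat_lit 152) (nat_lit 6444881533) (nat_lit 0) (nat_lit 5110081889) (nat_lit 8) (nat_lit 5) (nat_lit 10) (nat_lit 4) (nat_lit 8) (nat_lit 4) (nat_lit 272) (nat_lit 226) (nat_lit 222))))))))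
noncomputable def xc27 : XT := (XT.nd (nat_lit 2106) (nat_lit 76) (nat_lit 0) (XT.nd (nat_lit 1014) (nat_lit 152) (nat_lit 0) (XT.nd (nat_lit 468) (nat_lit 76) (nat_lit 0) (XT.nd (nat_lit 234) (nat_lit 152) (nat_lit 0) (XT.nd (nat_lit 78) (nat_lit 0) (nat_lit 0) (XT.lf (nat_lit 0) (nat_lit 61735500) (nat_lit 76) (nat_lit 10675718690) (nat_lit 76) (nat_lit 8704272038) (nat_lit 7) (nat_lit 4) (nat_lit 8) (nat_lit 5) (nat_lit 8) (nat_lit 4) (nat_lit 273) (nat_lit 226) (nat_lit 221)) (XT.nd (nat_lit 78) (nat_lit 0) (nat_lit 0) (XT.lf (nat_lit 0) (nat_lit 7134667792) (nat_lit 76) (nat_lit 7911383249) (nat_lit 76) (nat_lit 5628783073) (nat_lit 7) (nat_lit 4) (nat_lit 8) (nat_lit 5) (nat_lit 8) (nat_lit 4) (nat_lit 274) (nat_lit 226) (nat_lit 220)) (XT.lf (nat_lit 0) (nat_lit 14476452973) (nat_lit 76) (nat_lit 5057191180) (nat_lit 76) (nat_lit 2486485888) (nat_lit 7) (nat_lit 4) (nat_lit 8)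 (nat_lit 5) (nat_lit 8) (nat_lit 4) (nat_lit 275) (nat_lit 226) (nat_lit 219)))) (XT.nd (nat_lit 78) (nat_lit 76) (nat_lit 0) (XT.lf (nat_lit 0) (nat_lit 704160682) (nat_lit 152) (nat_lit 1372815069) (nat_lit 76) (nat_lit 21407184236) (nat_lit 6) (nat_lit 5) (nat_lit 8) (nat_lit 5) (nat_lit 7) (nat_lit 4) (nat_lit 276) (nat_lit 226) (nat_lit 218)) (XT.nd (nat_lit 78) (nat_lit 0) (nat_lit 0) (XT.lf (nat_lit 0) (nat_lit 4025031439) (nat_lit 152) (nat_lit 19865557171) (nat_lit 0) (nat_lit 1169037932) (nat_lit 5) (nat_lit 5) (nat_lit 7) (nat_lit 4) (nat_lit 5) (nat_lit 4) (nat_lit 277) (nat_lit 226) (nat_lit 217)) (XT.lf (nat_lit 0) (nat_lit 7559958345) (nat_lit 152) (nat_lit 14713311001) (nat_lit 0) (nat_lit 4492198977) (nat_lit 5) (nat_lit 5) (nat_lit 7) (nat_lit 4) (nat_lit 5) (nat_lit 4) (nat_lit 278) (nat_lit 226) (nat_lit 216))))) (XT.nd (nat_lit 234) (nat_lit 0) (nat_lit 0) (XT.nd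 (nat_lit 78) (nat_lit 76) (nat_lit 0) (XT.lf (nat_lit 0) (nat_lit 11244280261) (nat_lit 152) (nat_lit 9393921070) (nat_lit 0) (nat_lit 7980441393) (nat_lit 5) (nat_lit 5) (nat_lit 7) (nat_lit 4) (nat_lit 5) (nat_lit 4) (nat_lit 279) (nat_lit 226) (nat_lit 215)) (XT.nd (nat_lit 78) (nat_lit 76) (nat_lit 0) (XT.lf (nat_lit 0) (nat_lit 15099830208) (nat_lit 152) (nat_lit 3875865069) (nat_lit 0) (nat_lit 11654436246) (nat_lit 5) (nat_lit 5) (nat_lit 7) (nat_lit 4) (nat_lit 5) (nat_lit 4) (nat_lit 280) (nat_lit 226) (nat_lit 214)) (XT.lf (nat_lit 0) (nat_lit 1972214763) (nat_lit 76) (nat_lit 17224672936) (nat_lit 76) (nat_lit 13611172407) (nat_lit 4) (nat_lit 4) (nat_lit 5) (nat_lit 5) (nat_lit 5) (nat_lit 4) (nat_lit 281) (nat_lit 226) (nat_lit 213)))) (XT.nd (nat_lit 156) (nat_lit 0) (nat_lit 0) (XT.nd (nat_lit 78) (nat_lit 0) (nat_lit 0) (XT.lf (nat_lit 0) (nat_lit 8303804497) (nat_lit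 76) (nat_lit 15313057283) (nat_lit 76) (nat_lit 11543902525) (nat_lit 4) (nat_lit 4) (nat_lit 5) (nat_lit 5) (nat_lit 5) (nat_lit 4) (nat_lit 282) (nat_lit 226) (nat_lit 212)) (XT.lf (nat_lit 0) (nat_lit 14952328476) (nat_lit 76) (nat_lit 13335493245) (nat_lit 76) (nat_lit 9422214200) (nat_lit 4) (nat_lit 4) (nat_lit 5) (nat_lit 5) (nat_lit 5) (nat_lit 4) (nat_lit 283) (nat_lit 226) (nat_lit 211))) (XT.nd (nat_lit 78) (nat_lit 0) (nat_lit 0) (XT.lf (nat_lit 0) (nat_lit 21957185362) (nat_lit 76) (nat_lit 11280261923) (nat_lit 76) (nat_lit 7233534465) (nat_lit 4) (nat_lit 4) (nat_lit 5) (nat_lit 5) (nat_lit 5) (nat_lit 4) (nat_lit 284) (nat_lit 226) (nat_lit 210)) (XT.lf (nat_lit 0) (nat_lit 29359885418) (nat_lit 76) (nat_lit 9135184170) (nat_lit 76) (nat_lit 4964893366) (nat_lit 4) (nat_lit 4) (nat_lit 5) (nat_lit 5) (nat_lit 5) (nat_lit 4) (nat_lit 285) (nat_lit 226) (nat_lit 209))))))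 (XT.nd (nat_lit 546) (nat_lit 0) (nat_lit 0) (XT.nd (nat_lit 234) (nat_lit 0) (nat_lit 0) (XT.nd (nat_lit 78) (nat_lit 152) (nat_lit 0) (XT.lf (nat_lit 0) (nat_lit 37204296496) (nat_lit 76) (nat_lit 6887548413) (nat_lit 76) (nat_lit 2602847103) (nat_lit 4) (nat_lit 4) (nat_lit 5) (nat_lit 5) (nat_lit 5) (nat_lit 4) (nat_lit 286) (nat_lit 226) (nat_lit 208)) (XT.nd (nat_lit 78) (nat_lit 152) (nat_lit 0) (XT.lf (nat_lit 0) (nat_lit 45536903995) (nat_lit 76) (nat_lit 4524035329) (nat_lit 76) (nat_lit 133398366) (nat_lit 4) (nat_lit 4) (nat_lit 5) (nat_lit 5) (nat_lit 5) (nat_lit 4) (nat_lit 287) (nat_lit 226) (nat_lit 207)) (XT.lf (nat_lit 0) (nat_lit 387726298) (nat_lit 76) (nat_lit 1956721696) (nat_lit 152) (nat_lit 51629715285) (nat_lit 2) (nat_lit 5) (nat_lit 3) (nat_lit 5) (nat_lit 4) (nat_lit 4) (nat_lit 288) (nat_lit 226) (nat_lit 206)))) (XT.nd (nat_lit 156) (nat_lit 0) (nat_lit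 0) (XT.nd (nat_lit 78) (nat_lit 0) (nat_lit 0) (XT.lf (nat_lit 0) (nat_lit 5092603596) (nat_lit 152) (nat_lit 52104952854) (nat_lit 0) (nat_lit 852281116) (nat_lit 2) (nat_lit 5) (nat_lit 4) (nat_lit 4) (nat_lit 2) (nat_lit 4) (nat_lit 289) (nat_lit 226) (nat_lit 205)) (XT.lf (nat_lit 0) (nat_lit 8045707950) (nat_lit 152) (nat_lit 50679607320) (nat_lit 0) (nat_lit 3727519603) (nat_lit 2) (nat_lit 5) (nat_lit 4) (nat_lit 4) (nat_lit 2) (nat_lit 4) (nat_lit 290) (nat_lit 226) (nat_lit 204))) (XT.nd (nat_lit 78) (nat_lit 0) (nat_lit 0) (XT.lf (nat_lit 0) (nat_lit 11174201731) (nat_lit 152) (nat_lit 49254894683) (nat_lit 0) (nat_lit 6783915359) (nat_lit 2) (nat_lit 5) (nat_lit 4) (nat_lit 4) (nat_lit 2) (nat_lit 4) (nat_lit 291) (nat_lit 226) (nat_lit 203)) (XT.lf (nat_lit 0) (nat_lit 14496624162) (nat_lit 152) (nat_lit 47822372202) (nat_lit 0) (nat_lit 10039580358) (nat_lit 2) (nat_lit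 5) (nat_lit 4) (nat_lit 4) (nat_lit 2) (nat_lit 4) (nat_lit 292) (nat_lit 226) (nat_lit 202))))) (XT.nd (nat_lit 234) (nat_lit 0) (nat_lit 0) (XT.nd (nat_lit 78) (nat_lit 0) (nat_lit 0) (XT.lf (nat_lit 0) (nat_lit 18032663670) (nat_lit 152) (nat_lit 46373550855) (nat_lit 0) (nat_lit 13513807431) (nat_lit 2) (nat_lit 5) (nat_lit 4) (nat_lit 4) (nat_lit 2) (nat_lit 4) (nat_lit 293) (nat_lit 226) (nat_lit 201)) (XT.nd (nat_lit 78) (nat_lit 0) (nat_lit 0) (XT.lf (nat_lit 0) (nat_lit 21803274564) (nat_lit 152) (nat_lit 44899845033) (nat_lit 0) (nat_lit 17227184588) (nat_lit 2) (nat_lit 5) (nat_lit 4) (nat_lit 4) (nat_lit 2) (nat_lit 4) (nat_lit 294) (nat_lit 226) (nat_lit 200)) (XT.lf (nat_lit 0) (nat_lit 25830801206) (nat_lit 152) (nat_lit 43392521665) (nat_lit 0) (nat_lit 21201717029) (nat_lit 2) (nat_lit 5) (nat_lit 4) (nat_lit 4) (nat_lit 2) (nat_lit 4) (nat_lit 295) (nat_lit 226) (nat_lit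 199)))) (XT.nd (nat_lit 156) (nat_lit 0) (nat_lit 0) (XT.nd (nat_lit 78) (nat_lit 0) (nat_lit 0) (XT.lf (nat_lit 0) (nat_lit 30139110420) (nat_lit 152) (nat_lit 41842648465) (nat_lit 0) (nat_lit 25460957538) (nat_lit 2) (nat_lit 5) (nat_lit 4) (nat_lit 4) (nat_lit 2) (nat_lit 4) (nat_lit 296) (nat_lit 226) (nat_lit 198)) (XT.lf (nat_lit 0) (nat_lit 34753732926) (nat_lit 152) (nat_lit 40241040999) (nat_lit 0) (nat_lit 30030146059) (nat_lit 2) (nat_lit 5) (nat_lit 4) (nat_lit 4) (nat_lit 2) (nat_lit 4) (nat_lit 297) (nat_lit 226) (nat_lit 197))) (XT.nd (nat_lit 78) (nat_lit 0) (nat_lit 0) (XT.lf (nat_lit 0) (nat_lit 39702014637) (nat_lit 152) (nat_lit 38578208258) (nat_lit 0) (nat_lit 34936359264) (nat_lit 2) (nat_lit 5) (nat_lit 4) (nat_lit 4) (nat_lit 2) (nat_lit 4) (nat_lit 298) (nat_lit 226) (nat_lit 196)) (XT.lf (nat_lit 0) (nat_lit 45013278703) (nat_lit 152) (nat_lit 36844296421)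 (nat_lit 0) (nat_lit 40208671010) (nat_lit 2) (nat_lit 5) (nat_lit 4) (nat_lit 4) (nat_lit 2) (nat_lit 4) (nat_lit 299) (nat_lit 226) (nat_lit 195))))))) (XT.nd (nat_lit 1014) (nat_lit 76) (nat_lit 0) (XT.nd (nat_lit 468) (nat_lit 0) (nat_lit 0) (XT.nd (nat_lit 234) (nat_lit 0) (nat_lit 0) (XT.nd (nat_lit 78) (nat_lit 0) (nat_lit 0) (XT.lf (nat_lit 0) (nat_lit 50718999281) (nat_lit 152) (nat_lit 35029030454) (nat_lit 0) (nat_lit 45878324626) (nat_lit 2) (nat_lit 5) (nat_lit 4) (nat_lit 4) (nat_lit 2) (nat_lit 4) (nat_lit 300) (nat_lit 226) (nat_lit 194)) (XT.nd (nat_lit 78) (nat_lit 0) (nat_lit 0) (XT.lf (nat_lit 0) (nat_lit 56852988049) (nat_lit 152) (nat_lit 33121653224) (nat_lit 0) (nat_lit 51978918058) (nat_lit 2) (nat_lit 5) (nat_lit 4) (nat_lit 4) (nat_lit 2) (nat_lit 4) (nat_lit 301) (nat_lit 226) (nat_lit 193)) (XT.lf (nat_lit 0) (nat_lit 63451594571) (nat_lit 152) (nat_lit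 31110861757) (nat_lit 0) (nat_lit 58546602972) (nat_lit 2) (nat_lit 5) (nat_lit 4) (nat_lit 4) (nat_lit 2) (nat_lit 4) (nat_lit 302) (nat_lit 226) (nat_lit 192)))) (XT.nd (nat_lit 78) (nat_lit 0) (nat_lit 0) (XT.lf (nat_lit 0) (nat_lit 70553921699) (nat_lit 152) (nat_lit 28984740250) (nat_lit 0) (nat_lit 65620298982) (nat_lit 2) (nat_lit 5) (nat_lit 4) (nat_lit 4) (nat_lit 2) (nat_lit 4) (nat_lit 303) (nat_lit 226) (nat_lit 191)) (XT.nd (nat_lit 78) (nat_lit 0) (nat_lit 0) (XT.lf (nat_lit 0) (nat_lit 78202057297) (nat_lit 152) (nat_lit 26730689465) (nat_lit 0) (nat_lit 73241924286) (nat_lit 2) (nat_lit 5) (nat_lit 4) (nat_lit 4) (nat_lit 2) (nat_lit 4) (nat_lit 304) (nat_lit 226) (nat_lit 190)) (XT.lf (nat_lit 0) (nat_lit 86441323652) (nat_lit 152) (nat_lit 24335352064) (nat_lit 0) (nat_lit 81456644072) (nat_lit 2) (nat_lit 5) (nat_lit 4) (nat_lit 4) (nat_lit 2) (nat_lit 4) (nat_lit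 305) (nat_lit 226) (nat_lit 189))))) (XT.nd (nat_lit 234) (nat_lit 0) (nat_lit 0) (XT.nd (nat_lit 78) (nat_lit 0) (nat_lit 0) (XT.lf (nat_lit 0) (nat_lit 95320546045) (nat_lit 152) (nat_lit 21784533455) (nat_lit 0) (nat_lit 90313138161) (nat_lit 2) (nat_lit 5) (nat_lit 4) (nat_lit 4) (nat_lit 2) (nat_lit 4) (nat_lit 306) (nat_lit 226) (nat_lit 188)) (XT.nd (nat_lit 78) (nat_lit 0) (nat_lit 0) (XT.lf (nat_lit 0) (nat_lit 104892342090) (nat_lit 152) (nat_lit 19063117677) (nat_lit 0) (nat_lit 99863889479) (nat_lit 2) (nat_lit 5) (nat_lit 4) (nat_lit 4) (nat_lit 2) (nat_lit 4) (nat_lit 307) (nat_lit 226) (nat_lit 187)) (XT.lf (nat_lit 0) (nat_lit 115213433542) (nat_lit 152) (nat_lit 16154977819) (nat_lit 0) (nat_lit 110165495073) (nat_lit 2) (nat_lit 5) (nat_lit 4) (nat_lit 4) (nat_lit 2) (nat_lit 4) (nat_lit 308) (nat_lit 226) (nat_lit 186)))) (XT.nd (nat_lit 156) (nat_lit 0) (nat_lit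 0) (XT.nd (nat_lit 78) (nat_lit 0) (nat_lit 0) (XT.lf (nat_lit 0) (nat_lit 126344982423) (nat_lit 152) (nat_lit 13042880462) (nat_lit 0) (nat_lit 121279001494) (nat_lit 2) (nat_lit 5) (nat_lit 4) (nat_lit 4) (nat_lit 2) (nat_lit 4) (nat_lit 309) (nat_lit 226) (nat_lit 185)) (XT.lf (nat_lit 0) (nat_lit 138352953469) (nat_lit 152) (nat_lit 9708383547) (nat_lit 0) (nat_lit 133270266558) (nat_lit 2) (nat_lit 5) (nat_lit 4) (nat_lit 4) (nat_lit 2) (nat_lit 4) (nat_lit 310) (nat_lit 226) (nat_lit 184))) (XT.nd (nat_lit 78) (nat_lit 0) (nat_lit 0) (XT.lf (nat_lit 0) (nat_lit 151308505026) (nat_lit 152) (nat_lit 6131727092) (nat_lit 0) (nat_lit 146210349613) (nat_lit 2) (nat_lit 5) (nat_lit 4) (nat_lit 4) (nat_lit 2) (nat_lit 4) (nat_lit 311) (nat_lit 226) (nat_lit 183)) (XT.lf (nat_lit 0) (nat_lit 165288410733) (nat_lit 152) (nat_lit 2291716096) (nat_lit 0) (nat_lit 160175932632) (nat_lit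 2) (nat_lit 5) (nat_lit 4) (nat_lit 4) (nat_lit 2) (nat_lit 4) (nat_lit 312) (nat_lit 226) (nat_lit 182)))))) (XT.nd (nat_lit 546) (nat_lit 0) (nat_lit 0) (XT.nd (nat_lit 234) (nat_lit 0) (nat_lit 0) (XT.nd (nat_lit 78) (nat_lit 0) (nat_lit 0) (XT.lf (nat_lit 0) (nat_lit 1931001581) (nat_lit 76) (nat_lit 178490953529) (nat_lit 76) (nat_lit 173365213681) (nat_lit 1) (nat_lit 4) (nat_lit 2) (nat_lit 5) (nat_lit 2) (nat_lit 4) (nat_lit 313) (nat_lit 226) (nat_lit 181)) (XT.nd (nat_lit 78) (nat_lit 0) (nat_lit 0) (XT.lf (nat_lit 0) (nat_lit 6601311822) (nat_lit 76) (nat_lit 190216671199) (nat_lit 76) (nat_lit 185078651955) (nat_lit 1) (nat_lit 4) (nat_lit 2) (nat_lit 5) (nat_lit 2) (nat_lit 4) (nat_lit 314) (nat_lit 226) (nat_lit 180)) (XT.lf (nat_lit 0) (nat_lit 11626212831) (nat_lit 76) (nat_lit 202889425152) (nat_lit 76) (nat_lit 197740036098) (nat_lit 1) (nat_lit 4) (nat_lit 2) (nat_lit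 5) (nat_lit 2) (nat_lit 4) (nat_lit 315) (nat_lit 226) (nat_lit 179)))) (XT.nd (nat_lit 156) (nat_lit 0) (nat_lit 0) (XT.nd (nat_lit 78) (nat_lit 0) (nat_lit 0) (XT.lf (nat_lit 0) (nat_lit 17035481799) (nat_lit 76) (nat_lit 216584313191) (nat_lit 76) (nat_lit 211424396534) (nat_lit 1) (nat_lit 4) (nat_lit 2) (nat_lit 5) (nat_lit 2) (nat_lit 4) (nat_lit 316) (nat_lit 226) (nat_lit 178)) (XT.lf (nat_lit 0) (nat_lit 22861173653) (nat_lit 76) (nat_lit 231382490208) (nat_lit 76) (nat_lit 226212825770) (nat_lit 1) (nat_lit 4) (nat_lit 2) (nat_lit 5) (nat_lit 2) (nat_lit 4) (nat_lit 317) (nat_lit 226) (nat_lit 177))) (XT.nd (nat_lit 78) (nat_lit 0) (nat_lit 0) (XT.lf (nat_lit 0) (nat_lit 29137811012) (nat_lit 76) (nat_lit 247371649102) (nat_lit 76) (nat_lit 242192958942) (nat_lit 1) (nat_lit 4) (nat_lit 2) (nat_lit 5) (nat_lit 2) (nat_lit 4) (nat_lit 318) (nat_lit 226) (nat_lit 176)) (XT.lf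 (nat_lit 0) (nat_lit 35902588763) (nat_lit 76) (nat_lit 264646540446) (nat_lit 76) (nat_lit 259459493136) (nat_lit 1) (nat_lit 4) (nat_lit 2) (nat_lit 5) (nat_lit 2) (nat_lit 4) (nat_lit 319) (nat_lit 226) (nat_lit 175))))) (XT.nd (nat_lit 234) (nat_lit 0) (nat_lit 0) (XT.nd (nat_lit 78) (nat_lit 0) (nat_lit 0) (XT.lf (nat_lit 0) (nat_lit 43195594479) (nat_lit 76) (nat_lit 283309533966) (nat_lit 76) (nat_lit 278114748554) (nat_lit 1) (nat_lit 4) (nat_lit 2) (nat_lit 5) (nat_lit 2) (nat_lit 4) (nat_lit 320) (nat_lit 226) (nat_lit 174)) (XT.nd (nat_lit 78) (nat_lit 0) (nat_lit 0) (XT.lf (nat_lit 0) (nat_lit 51060045971) (nat_lit 76) (nat_lit 303471225179) (nat_lit 76) (nat_lit 298269274857) (nat_lit 1) (nat_lit 4) (nat_lit 2) (nat_lit 5) (nat_lit 2) (nat_lit 4) (nat_lit 321) (nat_lit 226) (nat_lit 173)) (XT.lf (nat_lit 0) (nat_lit 59542547396) (nat_lit 76) (nat_lit 325251090773) (nat_lit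 76) (nat_lit 320042506276) (nat_lit 1) (nat_lit 4) (nat_lit 2) (nat_lit 5) (nat_lit 2) (nat_lit 4) (nat_lit 322) (nat_lit 226) (nat_lit 172)))) (XT.nd (nat_lit 156) (nat_lit 0) (nat_lit 0) (XT.nd (nat_lit 78) (nat_lit 0) (nat_lit 0) (XT.lf (nat_lit 0) (nat_lit 68693365429) (nat_lit 76) (nat_lit 348778196620) (nat_lit 76) (nat_lit 343563469368) (nat_lit 1) (nat_lit 4) (nat_lit 2) (nat_lit 5) (nat_lit 2) (nat_lit 4) (nat_lit 323) (nat_lit 226) (nat_lit 171)) (XT.lf (nat_lit 0) (nat_lit 78566727141) (nat_lit 76) (nat_lit 374191962605) (nat_lit 76) (nat_lit 368971547616) (nat_lit 1) (nat_lit 4) (nat_lit 2) (nat_lit 5) (nat_lit 2) (nat_lit 4) (nat_lit 324) (nat_lit 226) (nat_lit 170))) (XT.nd (nat_lit 78) (nat_lit 0) (nat_lit 0) (XT.lf (nat_lit 0) (nat_lit 89221141340) (nat_lit 76) (nat_lit 401642988823) (nat_lit 76) (nat_lit 396417307412) (nat_lit 1) (nat_lit 4) (nat_lit 2) (nat_lit 5)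 (nat_lit 2) (nat_lit 4) (nat_lit 325) (nat_lit 226) (nat_lit 169)) (XT.lf (nat_lit 0) (nat_lit 100719745297) (nat_lit 76) (nat_lit 431293948022) (nat_lit 76) (nat_lit 426063390294) (nat_lit 1) (nat_lit 4) (nat_lit 2) (nat_lit 5) (nat_lit 2) (nat_lit 4) (nat_lit 326) (nat_lit 226) (nat_lit 168))))))))
noncomputable def xc28 : XT := (XT.nd (nat_lit 33462) (nat_lit 0) (nat_lit 76) (XT.nd (nat_lit 1014) (nat_lit 0) (nat_lit 0) (XT.nd (nat_lit 468) (nat_lit 0) (nat_lit 0) (XT.nd (nat_lit 234) (nat_lit 0) (nat_lit 0) (XT.nd (nat_lit 78) (nat_lit 0) (nat_lit 0) (XT.lf (nat_lit 0) (nat_lit 113130678887) (nat_lit 76) (nat_lit 463320549590) (nat_lit 76) (nat_lit 458085476754) (nat_lit 1) (nat_lit 4) (nat_lit 2) (nat_lit 5) (nat_lit 2) (nat_lit 4) (nat_lit 327) (nat_lit 226) (nat_lit 167)) (XT.nd (nat_lit 78) (nat_lit 0) (nat_lit 0) (XT.lf (nat_lit 0) (nat_lit 126527488383) (nat_lit 76) (nat_lit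 497912580795) (nat_lit 76) (nat_lit 492673327303) (nat_lit 1) (nat_lit 4) (nat_lit 2) (nat_lit 5) (nat_lit 2) (nat_lit 4) (nat_lit 328) (nat_lit 226) (nat_lit 166)) (XT.lf (nat_lit 0) (nat_lit 140989562285) (nat_lit 76) (nat_lit 535275031453) (nat_lit 76) (nat_lit 530031906983) (nat_lit 1) (nat_lit 4) (nat_lit 2) (nat_lit 5) (nat_lit 2) (nat_lit 4) (nat_lit 329) (nat_lit 226) (nat_lit 165)))) (XT.nd (nat_lit 78) (nat_lit 0) (nat_lit 0) (XT.lf (nat_lit 0) (nat_lit 156602601773) (nat_lit 76) (nat_lit 575629308677) (nat_lit 76) (nat_lit 570382599969) (nat_lit 1) (nat_lit 4) (nat_lit 2) (nat_lit 5) (nat_lit 2) (nat_lit 4) (nat_lit 330) (nat_lit 226) (nat_lit 164)) (XT.nd (nat_lit 78) (nat_lit 0) (nat_lit 0) (XT.lf (nat_lit 0) (nat_lit 173459128562) (nat_lit 76) (nat_lit 619214548927) (nat_lit 76) (nat_lit 613964521479) (nat_lit 1) (nat_lit 4) (nat_lit 2) (nat_lit 5) (nat_lit 2) (nat_lit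 4) (nat_lit 331) (nat_lit 226) (nat_lit 163)) (XT.lf (nat_lit 0) (nat_lit 191659033181) (nat_lit 76) (nat_lit 666289035106) (nat_lit 76) (nat_lit 661035934751) (nat_lit 1) (nat_lit 4) (nat_lit 2) (nat_lit 5) (nat_lit 2) (nat_lit 4) (nat_lit 332) (nat_lit 226) (nat_lit 162))))) (XT.nd (nat_lit 234) (nat_lit 0) (nat_lit 0) (XT.nd (nat_lit 78) (nat_lit 0) (nat_lit 0) (XT.lf (nat_lit 0) (nat_lit 211310166916) (nat_lit 76) (nat_lit 717131727133) (nat_lit 76) (nat_lit 711875781494) (nat_lit 1) (nat_lit 4) (nat_lit 2) (nat_lit 5) (nat_lit 2) (nat_lit 4) (nat_lit 333) (nat_lit 226) (nat_lit 161)) (XT.nd (nat_lit 78) (nat_lit 0) (nat_lit 0) (XT.lf (nat_lit 0) (nat_lit 232528980930) (nat_lit 76) (nat_lit 772043915034) (nat_lit 76) (nat_lit 766785334874) (nat_lit 1) (nat_lit 4) (nat_lit 2) (nat_lit 5) (nat_lit 2) (nat_lit 4) (nat_lit 334) (nat_lit 226) (nat_lit 160)) (XT.lf (nat_lit 0) (nat_lit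 255441216345) (nat_lit 76) (nat_lit 831351004369) (nat_lit 76) (nat_lit 826089984836) (nat_lit 1) (nat_lit 4) (nat_lit 2) (nat_lit 5) (nat_lit 2) (nat_lit 4) (nat_lit 335) (nat_lit 226) (nat_lit 159)))) (XT.nd (nat_lit 156) (nat_lit 0) (nat_lit 0) (XT.nd (nat_lit 78) (nat_lit 0) (nat_lit 0) (XT.lf (nat_lit 0) (nat_lit 280182649368) (nat_lit 76) (nat_lit 895404444554) (nat_lit 76) (nat_lit 890141166343) (nat_lit 1) (nat_lit 4) (nat_lit 2) (nat_lit 5) (nat_lit 2) (nat_lit 4) (nat_lit 336) (nat_lit 226) (nat_lit 158)) (XT.lf (nat_lit 0) (nat_lit 306899895900) (nat_lit 76) (nat_lit 964583811533) (nat_lit 76) (nat_lit 959318441952) (nat_lit 1) (nat_lit 4) (nat_lit 2) (nat_lit 5) (nat_lit 2) (nat_lit 4) (nat_lit 337) (nat_lit 226) (nat_lit 157))) (XT.nd (nat_lit 78) (nat_lit 0) (nat_lit 0) (XT.lf (nat_lit 0) (nat_lit 335751280366) (nat_lit 76) (nat_lit 1039299057108) (nat_lit 76) (nat_lit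 1034031751075) (nat_lit 1) (nat_lit 4) (nat_lit 2) (nat_lit 5) (nat_lit 2) (nat_lit 4) (nat_lit 338) (nat_lit 226) (nat_lit 156)) (XT.lf (nat_lit 0) (nat_lit 366907773931) (nat_lit 76) (nat_lit 1119992938292) (nat_lit 76) (nat_lit 1114723839247) (nat_lit 1) (nat_lit 4) (nat_lit 2) (nat_lit 5) (nat_lit 2) (nat_lit 4) (nat_lit 339) (nat_lit 226) (nat_lit 155)))))) (XT.nd (nat_lit 31902) (nat_lit 0) (nat_lit 456) (XT.nd (nat_lit 234) (nat_lit 0) (nat_lit 0) (XT.nd (nat_lit 78) (nat_lit 0) (nat_lit 0) (XT.lf (nat_lit 0) (nat_lit 400554007668) (nat_lit 76) (nat_lit 1207143641045) (nat_lit 76) (nat_lit 1201872881805) (nat_lit 1) (nat_lit 4) (nat_lit 2) (nat_lit 5) (nat_lit 2) (nat_lit 4) (nat_lit 340) (nat_lit 226) (nat_lit 154)) (XT.nd (nat_lit 78) (nat_lit 0) (nat_lit 0) (XT.lf (nat_lit 0) (nat_lit 436889366668) (nat_lit 76) (nat_lit 1301267613979) (nat_lit 76) (nat_lit 1295995317520) (nat_lit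 1) (nat_lit 4) (nat_lit 2) (nat_lit 5) (nat_lit 2) (nat_lit 4) (nat_lit 341) (nat_lit 226) (nat_lit 153)) (XT.lf (nat_lit 0) (nat_lit 476129171575) (nat_lit 76) (nat_lit 1402922628783) (nat_lit 76) (nat_lit 1397648908974) (nat_lit 1) (nat_lit 4) (nat_lit 2) (nat_lit 5) (nat_lit 2) (nat_lit 4) (nat_lit 342) (nat_lit 226) (nat_lit 152)))) (XT.nd (nat_lit 31512) (nat_lit 0) (nat_lit 760) (XT.lf (nat_lit 0) (nat_lit 518505954567) (nat_lit 76) (nat_lit 1512711085546) (nat_lit 76) (nat_lit 1507436047819) (nat_lit 1) (nat_lit 4) (nat_lit 2) (nat_lit 5) (nat_lit 2) (nat_lit 4) (nat_lit 343) (nat_lit 226) (nat_lit 151)) (XT.nd (nat_lit 78) (nat_lit 152) (nat_lit 0) (XT.lf (nat_lit 0) (nat_lit 5801468282) (nat_lit 152) (nat_lit 389765602) (nat_lit 152) (nat_lit 389765602) (nat_lit 13) (nat_lit 4) (nat_lit 15) (nat_lit 5) (nat_lit 15) (nat_lit 4) (nat_lit 266) (nat_lit 227) (nat_lit 227)) (XT.lf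 (nat_lit 0) (nat_lit 3088100233) (nat_lit 152) (nat_lit 8206550663) (nat_lit 0) (nat_lit 2554837771) (nat_lit 11) (nat_lit 5) (nat_lit 13) (nat_lit 4) (nat_lit 11) (nat_lit 4) (nat_lit 267) (nat_lit 227) (nat_lit 226))))) (XT.nd (nat_lit 234) (nat_lit 228) (nat_lit 0) (XT.nd (nat_lit 78) (nat_lit 76) (nat_lit 0) (XT.lf (nat_lit 0) (nat_lit 7066245554) (nat_lit 152) (nat_lit 1497920044) (nat_lit 0) (nat_lit 6039221553) (nat_lit 11) (nat_lit 5) (nat_lit 13) (nat_lit 4) (nat_lit 11) (nat_lit 4) (nat_lit 268) (nat_lit 227) (nat_lit 225)) (XT.nd (nat_lit 78) (nat_lit 0) (nat_lit 0) (XT.lf (nat_lit 0) (nat_lit 5682092206) (nat_lit 76) (nat_lit 5612793636) (nat_lit 76) (nat_lit 4128583026) (nat_lit 10) (nat_lit 4) (nat_lit 11) (nat_lit 5) (nat_lit 11) (nat_lit 4) (nat_lit 269) (nat_lit 227) (nat_lit 224)) (XT.lf (nat_lit 0) (nat_lit 13180992764) (nat_lit 76) (nat_lit 2524316969) (nat_lit 76)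 (nat_lit 616785423) (nat_lit 10) (nat_lit 4) (nat_lit 11) (nat_lit 5) (nat_lit 11) (nat_lit 4) (nat_lit 270) (nat_lit 227) (nat_lit 223)))) (XT.nd (nat_lit 156) (nat_lit 76) (nat_lit 0) (XT.nd (nat_lit 78) (nat_lit 0) (nat_lit 0) (XT.lf (nat_lit 0) (nat_lit 2940429405) (nat_lit 152) (nat_lit 13541294644) (nat_lit 0) (nat_lit 811267021) (nat_lit 8) (nat_lit 5) (nat_lit 10) (nat_lit 4) (nat_lit 8) (nat_lit 4) (nat_lit 271) (nat_lit 227) (nat_lit 222)) (XT.lf (nat_lit 0) (nat_lit 6717648068) (nat_lit 152) (nat_lit 7373020519) (nat_lit 0) (nat_lit 4252439877) (nat_lit 8) (nat_lit 5) (nat_lit 10) (nat_lit 4) (nat_lit 8) (nat_lit 4) (nat_lit 272) (nat_lit 227) (nat_lit 221))) (XT.nd (nat_lit 78) (nat_lit 76) (nat_lit 0) (XT.lf (nat_lit 0) (nat_lit 10625811229) (nat_lit 152) (nat_lit 1015979967) (nat_lit 0) (nat_lit 7849449514) (nat_lit 8) (nat_lit 5) (nat_lit 10) (nat_lit 4) (nat_lit 8) (nat_lit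 4) (nat_lit 273) (nat_lit 227) (nat_lit 220)) (XT.lf (nat_lit 0) (nat_lit 5860672958) (nat_lit 76) (nat_lit 8968354741) (nat_lit 76) (nat_lit 5903887910) (nat_lit 7) (nat_lit 4) (nat_lit 8) (nat_lit 5) (nat_lit 8) (nat_lit 4) (nat_lit 274) (nat_lit 227) (nat_lit 219))))))) (XT.nd (nat_lit 1014) (nat_lit 152) (nat_lit 0) (XT.nd (nat_lit 468) (nat_lit 76) (nat_lit 0) (XT.nd (nat_lit 234) (nat_lit 0) (nat_lit 0) (XT.nd (nat_lit 78) (nat_lit 152) (nat_lit 0) (XT.lf (nat_lit 0) (nat_lit 13070254750) (nat_lit 76) (nat_lit 6172607386) (nat_lit 76) (nat_lit 2841376559) (nat_lit 7) (nat_lit 4) (nat_lit 8) (nat_lit 5) (nat_lit 8) (nat_lit 4) (nat_lit 275) (nat_lit 227) (nat_lit 218)) (XT.nd (nat_lit 78) (nat_lit 76) (nat_lit 0) (XT.lf (nat_lit 0) (nat_lit 296842871) (nat_lit 152) (nat_lit 2960801352) (nat_lit 76) (nat_lit 20297030068) (nat_lit 6) (nat_lit 5) (nat_lit 8) (nat_lit 5) (nat_lit 7)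 (nat_lit 4) (nat_lit 276) (nat_lit 227) (nat_lit 217)) (XT.lf (nat_lit 0) (nat_lit 3431406884) (nat_lit 76) (nat_lit 48568375) (nat_lit 152) (nat_lit 21661285053) (nat_lit 5) (nat_lit 5) (nat_lit 6) (nat_lit 5) (nat_lit 7) (nat_lit 4) (nat_lit 277) (nat_lit 227) (nat_lit 216)))) (XT.nd (nat_lit 78) (nat_lit 0) (nat_lit 0) (XT.lf (nat_lit 0) (nat_lit 6949599891) (nat_lit 152) (nat_lit 16674244924) (nat_lit 0) (nat_lit 3228574413) (nat_lit 5) (nat_lit 5) (nat_lit 7) (nat_lit 4) (nat_lit 5) (nat_lit 4) (nat_lit 278) (nat_lit 227) (nat_lit 215)) (XT.nd (nat_lit 78) (nat_lit 0) (nat_lit 0) (XT.lf (nat_lit 0) (nat_lit 10574538287) (nat_lit 152) (nat_lit 11463934380) (nat_lit 0) (nat_lit 6671957716) (nat_lit 5) (nat_lit 5) (nat_lit 7) (nat_lit 4) (nat_lit 5) (nat_lit 4) (nat_lit 279) (nat_lit 227) (nat_lit 214)) (XT.lf (nat_lit 0) (nat_lit 14375103492) (nat_lit 152) (nat_lit 6046877811) (nat_lit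 0) (nat_lit 10304416353) (nat_lit 5) (nat_lit 5) (nat_lit 7) (nat_lit 4) (nat_lit 5) (nat_lit 4) (nat_lit 280) (nat_lit 227) (nat_lit 213))))) (XT.nd (nat_lit 234) (nat_lit 0) (nat_lit 0) (XT.nd (nat_lit 78) (nat_lit 76) (nat_lit 0) (XT.lf (nat_lit 0) (nat_lit 18373817374) (nat_lit 152) (nat_lit 390974140) (nat_lit 0) (nat_lit 14147476006) (nat_lit 5) (nat_lit 5) (nat_lit 7) (nat_lit 4) (nat_lit 5) (nat_lit 4) (nat_lit 281) (nat_lit 227) (nat_lit 212)) (XT.nd (nat_lit 78) (nat_lit 0) (nat_lit 0) (XT.lf (nat_lit 0) (nat_lit 5828877138) (nat_lit 76) (nat_lit 16905683512) (nat_lit 76) (nat_lit 12535217857) (nat_lit 4) (nat_lit 4) (nat_lit 5) (nat_lit 5) (nat_lit 5) (nat_lit 4) (nat_lit 282) (nat_lit 227) (nat_lit 211)) (XT.lf (nat_lit 0) (nat_lit 12393002555) (nat_lit 76) (nat_lit 14966839589) (nat_lit 76) (nat_lit 10462925521) (nat_lit 4) (nat_lit 4) (nat_lit 5) (nat_lit 5) (nat_lit 5)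 (nat_lit 4) (nat_lit 283) (nat_lit 227) (nat_lit 210)))) (XT.nd (nat_lit 156) (nat_lit 0) (nat_lit 0) (XT.nd (nat_lit 78) (nat_lit 0) (nat_lit 0) (XT.lf (nat_lit 0) (nat_lit 19319712623) (nat_lit 76) (nat_lit 12947460226) (nat_lit 76) (nat_lit 8319982812) (nat_lit 4) (nat_lit 4) (nat_lit 5) (nat_lit 5) (nat_lit 5) (nat_lit 4) (nat_lit 284) (nat_lit 227) (nat_lit 209)) (XT.lf (nat_lit 0) (nat_lit 26650054514) (nat_lit 76) (nat_lit 10835578731) (nat_lit 76) (nat_lit 6093690811) (nat_lit 4) (nat_lit 4) (nat_lit 5) (nat_lit 5) (nat_lit 5) (nat_lit 4) (nat_lit 285) (nat_lit 227) (nat_lit 208))) (XT.nd (nat_lit 78) (nat_lit 0) (nat_lit 0) (XT.lf (nat_lit 0) (nat_lit 34427467291) (nat_lit 76) (nat_lit 8618680249) (nat_lit 76) (nat_lit 3770856677) (nat_lit 4) (nat_lit 4) (nat_lit 5) (nat_lit 5) (nat_lit 5) (nat_lit 4) (nat_lit 286) (nat_lit 227) (nat_lit 207)) (XT.lf (nat_lit 0) (nat_lit 42698039327)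 (nat_lit 76) (nat_lit 6283627606) (nat_lit 76) (nat_lit 1337715466) (nat_lit 4) (nat_lit 4) (nat_lit 5) (nat_lit 5) (nat_lit 5) (nat_lit 4) (nat_lit 287) (nat_lit 227) (nat_lit 206)))))) (XT.nd (nat_lit 546) (nat_lit 0) (nat_lit 0) (XT.nd (nat_lit 234) (nat_lit 0) (nat_lit 0) (XT.nd (nat_lit 78) (nat_lit 76) (nat_lit 0) (XT.lf (nat_lit 0) (nat_lit 1159114519) (nat_lit 152) (nat_lit 2625776687) (nat_lit 76) (nat_lit 50319974653) (nat_lit 3) (nat_lit 5) (nat_lit 5) (nat_lit 5) (nat_lit 4) (nat_lit 4) (nat_lit 288) (nat_lit 227) (nat_lit 205)) (XT.nd (nat_lit 78) (nat_lit 0) (nat_lit 0) (XT.lf (nat_lit 0) (nat_lit 2758751800) (nat_lit 76) (nat_lit 1029508692) (nat_lit 152) (nat_lit 54401837338) (nat_lit 2) (nat_lit 5) (nat_lit 3) (nat_lit 5) (nat_lit 4) (nat_lit 4) (nat_lit 289) (nat_lit 227) (nat_lit 204)) (XT.lf (nat_lit 0) (nat_lit 6687346041) (nat_lit 152) (nat_lit 54036366047) (nat_lit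 0) (nat_lit 1873738734) (nat_lit 2) (nat_lit 5) (nat_lit 4) (nat_lit 4) (nat_lit 2) (nat_lit 4) (nat_lit 290) (nat_lit 227) (nat_lit 203)))) (XT.nd (nat_lit 156) (nat_lit 0) (nat_lit 0) (XT.nd (nat_lit 78) (nat_lit 0) (nat_lit 0) (XT.lf (nat_lit 0) (nat_lit 9788748066) (nat_lit 152) (nat_lit 52662695318) (nat_lit 0) (nat_lit 4908383328) (nat_lit 2) (nat_lit 5) (nat_lit 4) (nat_lit 4) (nat_lit 2) (nat_lit 4) (nat_lit 291) (nat_lit 227) (nat_lit 202)) (XT.lf (nat_lit 0) (nat_lit 13086085536) (nat_lit 152) (nat_lit 51277433862) (nat_lit 0) (nat_lit 8143908362) (nat_lit 2) (nat_lit 5) (nat_lit 4) (nat_lit 4) (nat_lit 2) (nat_lit 4) (nat_lit 292) (nat_lit 227) (nat_lit 201))) (XT.nd (nat_lit 78) (nat_lit 0) (nat_lit 0) (XT.lf (nat_lit 0) (nat_lit 16598898230) (nat_lit 152) (nat_lit 49872372722) (nat_lit 0) (nat_lit 11599487318) (nat_lit 2) (nat_lit 5) (nat_lit 4) (nat_lit 4) (nat_lit 2)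 (nat_lit 4) (nat_lit 293) (nat_lit 227) (nat_lit 200)) (XT.lf (nat_lit 0) (nat_lit 20348002815) (nat_lit 152) (nat_lit 48439185612) (nat_lit 0) (nat_lit 15295597702) (nat_lit 2) (nat_lit 5) (nat_lit 4) (nat_lit 4) (nat_lit 2) (nat_lit 4) (nat_lit 294) (nat_lit 227) (nat_lit 199))))) (XT.nd (nat_lit 234) (nat_lit 0) (nat_lit 0) (XT.nd (nat_lit 78) (nat_lit 0) (nat_lit 0) (XT.lf (nat_lit 0) (nat_lit 24355616207) (nat_lit 152) (nat_lit 46969379570) (nat_lit 0) (nat_lit 19254142390) (nat_lit 2) (nat_lit 5) (nat_lit 4) (nat_lit 4) (nat_lit 2) (nat_lit 4) (nat_lit 295) (nat_lit 227) (nat_lit 198)) (XT.nd (nat_lit 78) (nat_lit 0) (nat_lit 0) (XT.lf (nat_lit 0) (nat_lit 28645487226) (nat_lit 152) (nat_lit 45454244634) (nat_lit 0) (nat_lit 23498579423) (nat_lit 2) (nat_lit 5) (nat_lit 4) (nat_lit 4) (nat_lit 2) (nat_lit 4) (nat_lit 296) (nat_lit 227) (nat_lit 197)) (XT.lf (nat_lit 0) (nat_lit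 33243037331) (nat_lit 152) (nat_lit 43884802227) (nat_lit 0) (nat_lit 28054061022) (nat_lit 2) (nat_lit 5) (nat_lit 4) (nat_lit 4) (nat_lit 2) (nat_lit 4) (nat_lit 297) (nat_lit 227) (nat_lit 196)))) (XT.nd (nat_lit 156) (nat_lit 0) (nat_lit 0) (XT.nd (nat_lit 78) (nat_lit 0) (nat_lit 0) (XT.lf (nat_lit 0) (nat_lit 38175511262) (nat_lit 152) (nat_lit 42251751949) (nat_lit 0) (nat_lit 32947582634) (nat_lit 2) (nat_lit 5) (nat_lit 4) (nat_lit 4) (nat_lit 2) (nat_lit 4) (nat_lit 298) (nat_lit 227) (nat_lit 195)) (XT.lf (nat_lit 0) (nat_lit 43472138494) (nat_lit 152) (nat_lit 40545416466) (nat_lit 0) (nat_lit 38208142904) (nat_lit 2) (nat_lit 5) (nat_lit 4) (nat_lit 4) (nat_lit 2) (nat_lit 4) (nat_lit 299) (nat_lit 227) (nat_lit 194))) (XT.nd (nat_lit 78) (nat_lit 0) (nat_lit 0) (XT.lf (nat_lit 0) (nat_lit 49164306449) (nat_lit 152) (nat_lit 38755684160) (nat_lit 0) (nat_lit 43866915523)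 (nat_lit 2) (nat_lit 5) (nat_lit 4) (nat_lit 4) (nat_lit 2) (nat_lit 4) (nat_lit 300) (nat_lit 227) (nat_lit 193)) (XT.lf (nat_lit 0) (nat_lit 55285746492) (nat_lit 152) (nat_lit 36871949210) (nat_lit 0) (nat_lit 49957433958) (nat_lit 2) (nat_lit 5) (nat_lit 4) (nat_lit 4) (nat_lit 2) (nat_lit 4) (nat_lit 301) (nat_lit 227) (nat_lit 192))))))))
noncomputable def xc29 : XT := (XT.nd (nat_lit 2028) (nat_lit 0) (nat_lit 0) (XT.nd (nat_lit 1014) (nat_lit 0) (nat_lit 0) (XT.nd (nat_lit 468) (nat_lit 76) (nat_lit 0) (XT.nd (nat_lit 234) (nat_lit 0) (nat_lit 0) (XT.nd (nat_lit 78) (nat_lit 0) (nat_lit 0) (XT.lf (nat_lit 0) (nat_lit 61872733824) (nat_lit 152) (nat_lit 34883048741) (nat_lit 0) (nat_lit 56515790172) (nat_lit 2) (nat_lit 5) (nat_lit 4) (nat_lit 4) (nat_lit 2) (nat_lit 4) (nat_lit 302) (nat_lit 227) (nat_lit 191)) (XT.nd (nat_lit 78) (nat_lit 0) (nat_lit 0) (XT.lf (nat_lit 0) (nat_lit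 68964302442) (nat_lit 152) (nat_lit 32777196678) (nat_lit 0) (nat_lit 63580848496) (nat_lit 2) (nat_lit 5) (nat_lit 4) (nat_lit 4) (nat_lit 2) (nat_lit 4) (nat_lit 303) (nat_lit 227) (nat_lit 190)) (XT.lf (nat_lit 0) (nat_lit 76602476458) (nat_lit 152) (nat_lit 30541913896) (nat_lit 0) (nat_lit 71194475943) (nat_lit 2) (nat_lit 5) (nat_lit 4) (nat_lit 4) (nat_lit 2) (nat_lit 4) (nat_lit 304) (nat_lit 227) (nat_lit 189)))) (XT.nd (nat_lit 78) (nat_lit 0) (nat_lit 0) (XT.lf (nat_lit 0) (nat_lit 84832519125) (nat_lit 152) (nat_lit 28163954276) (nat_lit 0) (nat_lit 79401790306) (nat_lit 2) (nat_lit 5) (nat_lit 4) (nat_lit 4) (nat_lit 2) (nat_lit 4) (nat_lit 305) (nat_lit 227) (nat_lit 188)) (XT.nd (nat_lit 78) (nat_lit 0) (nat_lit 0) (XT.lf (nat_lit 0) (nat_lit 93703201067) (nat_lit 152) (nat_lit 25629226205) (nat_lit 0) (nat_lit 88251427521) (nat_lit 2) (nat_lit 5) (nat_lit 4) (nat_lit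 4) (nat_lit 2) (nat_lit 4) (nat_lit 306) (nat_lit 227) (nat_lit 187)) (XT.lf (nat_lit 0) (nat_lit 103267089286) (nat_lit 152) (nat_lit 22922709073) (nat_lit 0) (nat_lit 97795829883) (nat_lit 2) (nat_lit 5) (nat_lit 4) (nat_lit 4) (nat_lit 2) (nat_lit 4) (nat_lit 307) (nat_lit 227) (nat_lit 186))))) (XT.nd (nat_lit 234) (nat_lit 76) (nat_lit 0) (XT.nd (nat_lit 78) (nat_lit 0) (nat_lit 0) (XT.lf (nat_lit 0) (nat_lit 113580858677) (nat_lit 152) (nat_lit 20028364258) (nat_lit 0) (nat_lit 108091556813) (nat_lit 2) (nat_lit 5) (nat_lit 4) (nat_lit 4) (nat_lit 2) (nat_lit 4) (nat_lit 308) (nat_lit 227) (nat_lit 185)) (XT.nd (nat_lit 78) (nat_lit 0) (nat_lit 0) (XT.lf (nat_lit 0) (nat_lit 124705627873) (nat_lit 152) (nat_lit 16929040089) (nat_lit 0) (nat_lit 119199620027) (nat_lit 2) (nat_lit 5) (nat_lit 4) (nat_lit 4) (nat_lit 2) (nat_lit 4) (nat_lit 309) (nat_lit 227) (nat_lit 184)) (XT.lf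 (nat_lit 0) (nat_lit 136707321432) (nat_lit 152) (nat_lit 13606370199) (nat_lit 0) (nat_lit 131185845084) (nat_lit 2) (nat_lit 5) (nat_lit 4) (nat_lit 4) (nat_lit 2) (nat_lit 4) (nat_lit 310) (nat_lit 227) (nat_lit 183)))) (XT.nd (nat_lit 156) (nat_lit 76) (nat_lit 0) (XT.nd (nat_lit 78) (nat_lit 0) (nat_lit 0) (XT.lf (nat_lit 0) (nat_lit 149657060502) (nat_lit 152) (nat_lit 10040664694) (nat_lit 0) (nat_lit 144121261466) (nat_lit 2) (nat_lit 5) (nat_lit 4) (nat_lit 4) (nat_lit 2) (nat_lit 4) (nat_lit 311) (nat_lit 227) (nat_lit 182)) (XT.lf (nat_lit 0) (nat_lit 163631584275) (nat_lit 152) (nat_lit 6210793466) (nat_lit 0) (nat_lit 158082523492) (nat_lit 2) (nat_lit 5) (nat_lit 4) (nat_lit 4) (nat_lit 2) (nat_lit 4) (nat_lit 312) (nat_lit 227) (nat_lit 181))) (XT.nd (nat_lit 78) (nat_lit 76) (nat_lit 0) (XT.lf (nat_lit 0) (nat_lit 178713704746) (nat_lit 152) (nat_lit 2094060982) (nat_lit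 0) (nat_lit 173152364567) (nat_lit 2) (nat_lit 5) (nat_lit 4) (nat_lit 4) (nat_lit 2) (nat_lit 4) (nat_lit 313) (nat_lit 227) (nat_lit 180)) (XT.lf (nat_lit 0) (nat_lit 2456828731) (nat_lit 76) (nat_lit 192595055502) (nat_lit 76) (nat_lit 187022345512) (nat_lit 1) (nat_lit 4) (nat_lit 2) (nat_lit 5) (nat_lit 2) (nat_lit 4) (nat_lit 314) (nat_lit 227) (nat_lit 179)))))) (XT.nd (nat_lit 468) (nat_lit 0) (nat_lit 0) (XT.nd (nat_lit 234) (nat_lit 0) (nat_lit 0) (XT.nd (nat_lit 78) (nat_lit 0) (nat_lit 0) (XT.lf (nat_lit 0) (nat_lit 7473256605) (nat_lit 76) (nat_lit 205271806460) (nat_lit 76) (nat_lit 199688568867) (nat_lit 1) (nat_lit 4) (nat_lit 2) (nat_lit 5) (nat_lit 2) (nat_lit 4) (nat_lit 315) (nat_lit 227) (nat_lit 178)) (XT.nd (nat_lit 78) (nat_lit 0) (nat_lit 0) (XT.lf (nat_lit 0) (nat_lit 12874680077) (nat_lit 76) (nat_lit 218970395429) (nat_lit 76) (nat_lit 213377410056) (nat_lit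 1) (nat_lit 4) (nat_lit 2) (nat_lit 5) (nat_lit 2) (nat_lit 4) (nat_lit 316) (nat_lit 227) (nat_lit 177)) (XT.lf (nat_lit 0) (nat_lit 18693107583) (nat_lit 76) (nat_lit 233771999232) (nat_lit 76) (nat_lit 228169988137) (nat_lit 1) (nat_lit 4) (nat_lit 2) (nat_lit 5) (nat_lit 2) (nat_lit 4) (nat_lit 317) (nat_lit 227) (nat_lit 176)))) (XT.nd (nat_lit 78) (nat_lit 0) (nat_lit 0) (XT.lf (nat_lit 0) (nat_lit 24963018694) (nat_lit 76) (nat_lit 249764331077) (nat_lit 76) (nat_lit 244153962832) (nat_lit 1) (nat_lit 4) (nat_lit 2) (nat_lit 5) (nat_lit 2) (nat_lit 4) (nat_lit 318) (nat_lit 227) (nat_lit 175)) (XT.nd (nat_lit 78) (nat_lit 0) (nat_lit 0) (XT.lf (nat_lit 0) (nat_lit 31721568438) (nat_lit 76) (nat_lit 267042160339) (nat_lit 76) (nat_lit 261424053991) (nat_lit 1) (nat_lit 4) (nat_lit 2) (nat_lit 5) (nat_lit 2) (nat_lit 4) (nat_lit 319) (nat_lit 227) (nat_lit 174)) (XT.lf (nat_lit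 0) (nat_lit 39008807480) (nat_lit 76) (nat_lit 285707874153) (nat_lit 76) (nat_lit 280082602895) (nat_lit 1) (nat_lit 4) (nat_lit 2) (nat_lit 5) (nat_lit 2) (nat_lit 4) (nat_lit 320) (nat_lit 227) (nat_lit 173))))) (XT.nd (nat_lit 234) (nat_lit 0) (nat_lit 0) (XT.nd (nat_lit 78) (nat_lit 0) (nat_lit 0) (XT.lf (nat_lit 0) (nat_lit 46867919459) (nat_lit 76) (nat_lit 305872084156) (nat_lit 76) (nat_lit 300240178724) (nat_lit 1) (nat_lit 4) (nat_lit 2) (nat_lit 5) (nat_lit 2) (nat_lit 4) (nat_lit 321) (nat_lit 227) (nat_lit 172)) (XT.nd (nat_lit 78) (nat_lit 0) (nat_lit 0) (XT.lf (nat_lit 0) (nat_lit 55345476891) (nat_lit 76) (nat_lit 327654281964) (nat_lit 76) (nat_lit 322016233777) (nat_lit 1) (nat_lit 4) (nat_lit 2) (nat_lit 5) (nat_lit 2) (nat_lit 4) (nat_lit 322) (nat_lit 227) (nat_lit 171)) (XT.lf (nat_lit 0) (nat_lit 64491717153) (nat_lit 76) (nat_lit 351183547268) (nat_lit 76) (nat_lit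 345539811344) (nat_lit 1) (nat_lit 4) (nat_lit 2) (nat_lit 5) (nat_lit 2) (nat_lit 4) (nat_lit 323) (nat_lit 227) (nat_lit 170)))) (XT.nd (nat_lit 156) (nat_lit 0) (nat_lit 0) (XT.nd (nat_lit 78) (nat_lit 0) (nat_lit 0) (XT.lf (nat_lit 0) (nat_lit 74360840187) (nat_lit 76) (nat_lit 376599312750) (nat_lit 76) (nat_lit 370950310404) (nat_lit 1) (nat_lit 4) (nat_lit 2) (nat_lit 5) (nat_lit 2) (nat_lit 4) (nat_lit 324) (nat_lit 227) (nat_lit 169)) (XT.lf (nat_lit 0) (nat_lit 85011329686) (nat_lit 76) (nat_lit 404052190354) (nat_lit 76) (nat_lit 398398311691) (nat_lit 1) (nat_lit 4) (nat_lit 2) (nat_lit 5) (nat_lit 2) (nat_lit 4) (nat_lit 325) (nat_lit 227) (nat_lit 168))) (XT.nd (nat_lit 78) (nat_lit 0) (nat_lit 0) (XT.lf (nat_lit 0) (nat_lit 96506299660) (nat_lit 76) (nat_lit 433704863800) (nat_lit 76) (nat_lit 428046470029) (nat_lit 1) (nat_lit 4) (nat_lit 2) (nat_lit 5) (nat_lit 2) (nat_lit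 4) (nat_lit 326) (nat_lit 227) (nat_lit 167)) (XT.lf (nat_lit 0) (nat_lit 108913868451) (nat_lit 76) (nat_lit 465733052633) (nat_lit 76) (nat_lit 460070478206) (nat_lit 1) (nat_lit 4) (nat_lit 2) (nat_lit 5) (nat_lit 2) (nat_lit 4) (nat_lit 327) (nat_lit 227) (nat_lit 166))))))) (XT.nd (nat_lit 1014) (nat_lit 0) (nat_lit 0) (XT.nd (nat_lit 468) (nat_lit 0) (nat_lit 0) (XT.nd (nat_lit 234) (nat_lit 0) (nat_lit 0) (XT.nd (nat_lit 78) (nat_lit 0) (nat_lit 0) (XT.lf (nat_lit 0) (nat_lit 122307562393) (nat_lit 76) (nat_lit 500326553529) (nat_lit 76) (nat_lit 494660108124) (nat_lit 1) (nat_lit 4) (nat_lit 2) (nat_lit 5) (nat_lit 2) (nat_lit 4) (nat_lit 328) (nat_lit 227) (nat_lit 165)) (XT.nd (nat_lit 78) (nat_lit 0) (nat_lit 0) (XT.lf (nat_lit 0) (nat_lit 136766751523) (nat_lit 76) (nat_lit 537690365011) (nat_lit 76) (nat_lit 532020335368) (nat_lit 1) (nat_lit 4) (nat_lit 2) (nat_lit 5)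 (nat_lit 2) (nat_lit 4) (nat_lit 329) (nat_lit 227) (nat_lit 164)) (XT.lf (nat_lit 0) (nat_lit 152377119925) (nat_lit 76) (nat_lit 578045902258) (nat_lit 76) (nat_lit 572372553875) (nat_lit 1) (nat_lit 4) (nat_lit 2) (nat_lit 5) (nat_lit 2) (nat_lit 4) (nat_lit 330) (nat_lit 227) (nat_lit 163)))) (XT.nd (nat_lit 78) (nat_lit 0) (nat_lit 0) (XT.lf (nat_lit 0) (nat_lit 169231173486) (nat_lit 76) (nat_lit 621632309195) (nat_lit 76) (nat_lit 615955887905) (nat_lit 1) (nat_lit 4) (nat_lit 2) (nat_lit 5) (nat_lit 2) (nat_lit 4) (nat_lit 331) (nat_lit 227) (nat_lit 162)) (XT.nd (nat_lit 78) (nat_lit 0) (nat_lit 0) (XT.lf (nat_lit 0) (nat_lit 187428788079) (nat_lit 76) (nat_lit 668707875640) (nat_lit 76) (nat_lit 663028609066) (nat_lit 1) (nat_lit 4) (nat_lit 2) (nat_lit 5) (nat_lit 2) (nat_lit 4) (nat_lit 332) (nat_lit 227) (nat_lit 161)) (XT.lf (nat_lit 0) (nat_lit 207077801420) (nat_lit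 76) (nat_lit 719551567913) (nat_lit 76) (nat_lit 713869666817) (nat_lit 1) (nat_lit 4) (nat_lit 2) (nat_lit 5) (nat_lit 2) (nat_lit 4) (nat_lit 333) (nat_lit 227) (nat_lit 160))))) (XT.nd (nat_lit 234) (nat_lit 0) (nat_lit 0) (XT.nd (nat_lit 78) (nat_lit 0) (nat_lit 0) (XT.lf (nat_lit 0) (nat_lit 228294652107) (nat_lit 76) (nat_lit 774464681969) (nat_lit 76) (nat_lit 768780341501) (nat_lit 1) (nat_lit 4) (nat_lit 2) (nat_lit 5) (nat_lit 2) (nat_lit 4) (nat_lit 334) (nat_lit 227) (nat_lit 159)) (XT.nd (nat_lit 78) (nat_lit 0) (nat_lit 0) (XT.lf (nat_lit 0) (nat_lit 251205069626) (nat_lit 76) (nat_lit 833772628854) (nat_lit 76) (nat_lit 828086029707) (nat_lit 1) (nat_lit 4) (nat_lit 2) (nat_lit 5) (nat_lit 2) (nat_lit 4) (nat_lit 335) (nat_lit 227) (nat_lit 158)) (XT.lf (nat_lit 0) (nat_lit 275944819412) (nat_lit 76) (nat_lit 897826863067) (nat_lit 76) (nat_lit 892138172552) (nat_lit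 1) (nat_lit 4) (nat_lit 2) (nat_lit 5) (nat_lit 2) (nat_lit 4) (nat_lit 336) (nat_lit 227) (nat_lit 157)))) (XT.nd (nat_lit 156) (nat_lit 0) (nat_lit 0) (XT.nd (nat_lit 78) (nat_lit 0) (nat_lit 0) (XT.lf (nat_lit 0) (nat_lit 302660507392) (nat_lit 76) (nat_lit 967006965256) (nat_lit 76) (nat_lit 961316338288) (nat_lit 1) (nat_lit 4) (nat_lit 2) (nat_lit 5) (nat_lit 2) (nat_lit 4) (nat_lit 337) (nat_lit 227) (nat_lit 156)) (XT.lf (nat_lit 0) (nat_lit 331510448752) (nat_lit 76) (nat_lit 1041722891583) (nat_lit 76) (nat_lit 1036030471603) (nat_lit 1) (nat_lit 4) (nat_lit 2) (nat_lit 5) (nat_lit 2) (nat_lit 4) (nat_lit 338) (nat_lit 227) (nat_lit 155))) (XT.nd (nat_lit 78) (nat_lit 0) (nat_lit 0) (XT.lf (nat_lit 0) (nat_lit 362665606109) (nat_lit 76) (nat_lit 1122417403091) (nat_lit 76) (nat_lit 1116723322915) (nat_lit 1) (nat_lit 4) (nat_lit 2) (nat_lit 5) (nat_lit 2) (nat_lit 4) (nat_lit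 339) (nat_lit 227) (nat_lit 154)) (XT.lf (nat_lit 0) (nat_lit 396310602618) (nat_lit 76) (nat_lit 1209568689479) (nat_lit 76) (nat_lit 1203873072085) (nat_lit 1) (nat_lit 4) (nat_lit 2) (nat_lit 5) (nat_lit 2) (nat_lit 4) (nat_lit 340) (nat_lit 227) (nat_lit 153)))))) (XT.nd (nat_lit 31824) (nat_lit 0) (nat_lit 456) (XT.nd (nat_lit 31512) (nat_lit 0) (nat_lit 760) (XT.nd (nat_lit 78) (nat_lit 0) (nat_lit 0) (XT.lf (nat_lit 0) (nat_lit 432644816034) (nat_lit 76) (nat_lit 1303693202815) (nat_lit 76) (nat_lit 1297996162070) (nat_lit 1) (nat_lit 4) (nat_lit 2) (nat_lit 5) (nat_lit 2) (nat_lit 4) (nat_lit 341) (nat_lit 227) (nat_lit 152)) (XT.nd (nat_lit 78) (nat_lit 0) (nat_lit 0) (XT.lf (nat_lit 0) (nat_lit 471883560217) (nat_lit 76) (nat_lit 1405348717991) (nat_lit 76) (nat_lit 1399650359329) (nat_lit 1) (nat_lit 4) (nat_lit 2) (nat_lit 5) (nat_lit 2) (nat_lit 4) (nat_lit 342) (nat_lit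 227) (nat_lit 151)) (XT.lf (nat_lit 0) (nat_lit 514259361056) (nat_lit 76) (nat_lit 1515137638062) (nat_lit 76) (nat_lit 1509438059106) (nat_lit 1) (nat_lit 4) (nat_lit 2) (nat_lit 5) (nat_lit 2) (nat_lit 4) (nat_lit 343) (nat_lit 227) (nat_lit 150)))) (XT.nd (nat_lit 156) (nat_lit 152) (nat_lit 0) (XT.nd (nat_lit 78) (nat_lit 152) (nat_lit 0) (XT.lf (nat_lit 0) (nat_lit 2254769371) (nat_lit 152) (nat_lit 1456371050) (nat_lit 0) (nat_lit 2254769371) (nat_lit 15) (nat_lit 5) (nat_lit 17) (nat_lit 4) (nat_lit 15) (nat_lit 4) (nat_lit 264) (nat_lit 228) (nat_lit 228)) (XT.lf (nat_lit 0) (nat_lit 4076227749) (nat_lit 152) (nat_lit 4533784914) (nat_lit 152) (nat_lit 3911787579) (nat_lit 13) (nat_lit 4) (nat_lit 15) (nat_lit 5) (nat_lit 15) (nat_lit 4) (nat_lit 265) (nat_lit 228) (nat_lit 227))) (XT.nd (nat_lit 78) (nat_lit 152) (nat_lit 0) (XT.lf (nat_lit 0) (nat_lit 11429761706) (nat_lit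 152) (nat_lit 1469426618) (nat_lit 152) (nat_lit 271505823) (nat_lit 13) (nat_lit 4) (nat_lit 15) (nat_lit 5) (nat_lit 15) (nat_lit 4) (nat_lit 266) (nat_lit 228) (nat_lit 226)) (XT.lf (nat_lit 0) (nat_lit 3443259690) (nat_lit 152) (nat_lit 8584064752) (nat_lit 0) (nat_lit 1840312230) (nat_lit 11) (nat_lit 5) (nat_lit 13) (nat_lit 4) (nat_lit 11) (nat_lit 4) (nat_lit 267) (nat_lit 228) (nat_lit 225))))) (XT.nd (nat_lit 234) (nat_lit 228) (nat_lit 0) (XT.nd (nat_lit 78) (nat_lit 76) (nat_lit 0) (XT.lf (nat_lit 0) (nat_lit 7323130438) (nat_lit 152) (nat_lit 2043487057) (nat_lit 0) (nat_lit 5262996368) (nat_lit 11) (nat_lit 5) (nat_lit 13) (nat_lit 4) (nat_lit 11) (nat_lit 4) (nat_lit 268) (nat_lit 228) (nat_lit 224)) (XT.nd (nat_lit 78) (nat_lit 0) (nat_lit 0) (XT.lf (nat_lit 0) (nat_lit 4943998181) (nat_lit 76) (nat_lit 6499026390) (nat_lit 76) (nat_lit 4015571386) (nat_lit 10) (nat_lit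 4) (nat_lit 11) (nat_lit 5) (nat_lit 11) (nat_lit 4) (nat_lit 269) (nat_lit 228) (nat_lit 223)) (XT.lf (nat_lit 0) (nat_lit 12291233536) (nat_lit 76) (nat_lit 3474312768) (nat_lit 76) (nat_lit 598893934) (nat_lit 10) (nat_lit 4) (nat_lit 11) (nat_lit 5) (nat_lit 11) (nat_lit 4) (nat_lit 270) (nat_lit 228) (nat_lit 222)))) (XT.nd (nat_lit 156) (nat_lit 76) (nat_lit 0) (XT.nd (nat_lit 78) (nat_lit 0) (nat_lit 0) (XT.lf (nat_lit 0) (nat_lit 2639606575) (nat_lit 76) (nat_lit 186333271) (nat_lit 152) (nat_lit 14520040078) (nat_lit 8) (nat_lit 5) (nat_lit 9) (nat_lit 5) (nat_lit 10) (nat_lit 4) (nat_lit 271) (nat_lit 228) (nat_lit 221)) (XT.lf (nat_lit 0) (nat_lit 6516353634) (nat_lit 152) (nat_lit 8680106127) (nat_lit 0) (nat_lit 3206729456) (nat_lit 8) (nat_lit 5) (nat_lit 10) (nat_lit 4) (nat_lit 8) (nat_lit 4) (nat_lit 272) (nat_lit 228) (nat_lit 220))) (XT.nd (nat_lit 78) (nat_lit 76)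 (nat_lit 0) (XT.lf (nat_lit 0) (nat_lit 10348291281) (nat_lit 152) (nat_lit 2458702819) (nat_lit 0) (nat_lit 6750561988) (nat_lit 8) (nat_lit 5) (nat_lit 10) (nat_lit 4) (nat_lit 8) (nat_lit 4) (nat_lit 273) (nat_lit 228) (nat_lit 219)) (XT.lf (nat_lit 0) (nat_lit 4209775489) (nat_lit 76) (nat_lit 10231448958) (nat_lit 76) (nat_lit 6366955669) (nat_lit 7) (nat_lit 4) (nat_lit 8) (nat_lit 5) (nat_lit 8) (nat_lit 4) (nat_lit 274) (nat_lit 228) (nat_lit 218))))))))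
noncomputable def xc30 : XT := (XT.nd (nat_lit 2028) (nat_lit 76) (nat_lit 0) (XT.nd (nat_lit 1014) (nat_lit 152) (nat_lit 0) (XT.nd (nat_lit 468) (nat_lit 76) (nat_lit 0) (XT.nd (nat_lit 234) (nat_lit 0) (nat_lit 0) (XT.nd (nat_lit 78) (nat_lit 152) (nat_lit 0) (XT.lf (nat_lit 0) (nat_lit 11296946735) (nat_lit 76) (nat_lit 7489817080) (nat_lit 76) (nat_lit 3378320092) (nat_lit 7) (nat_lit 4) (nat_lit 8) (nat_lit 5) (nat_lit 8) (nat_lit 4) (nat_lit 275) (nat_lit 228) (nat_lit 217)) (XT.nd (nat_lit 78) (nat_lit 152) (nat_lit 0) (XT.lf (nat_lit 0) (nat_lit 18715338038) (nat_lit 76) (nat_lit 4633077051) (nat_lit 76) (nat_lit 292872933) (nat_lit 7) (nat_lit 4) (nat_lit 8) (nat_lit 5) (nat_lit 8) (nat_lit 4) (nat_lit 276) (nat_lit 228) (nat_lit 216)) (XT.lf (nat_lit 0) (nat_lit 1256284817) (nat_lit 76) (nat_lit 1536145373) (nat_lit 152) (nat_lit 22445098693) (nat_lit 5) (nat_lit 5) (nat_lit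 6) (nat_lit 5) (nat_lit 7) (nat_lit 4) (nat_lit 277) (nat_lit 228) (nat_lit 215)))) (XT.nd (nat_lit 78) (nat_lit 0) (nat_lit 0) (XT.lf (nat_lit 0) (nat_lit 6166895038) (nat_lit 152) (nat_lit 19018938686) (nat_lit 0) (nat_lit 1770552928) (nat_lit 5) (nat_lit 5) (nat_lit 7) (nat_lit 4) (nat_lit 5) (nat_lit 4) (nat_lit 278) (nat_lit 228) (nat_lit 214)) (XT.nd (nat_lit 78) (nat_lit 0) (nat_lit 0) (XT.lf (nat_lit 0) (nat_lit 9736848693) (nat_lit 152) (nat_lit 13909627573) (nat_lit 0) (nat_lit 5172400015) (nat_lit 5) (nat_lit 5) (nat_lit 7) (nat_lit 4) (nat_lit 5) (nat_lit 4) (nat_lit 279) (nat_lit 228) (nat_lit 213)) (XT.lf (nat_lit 0) (nat_lit 13486502100) (nat_lit 152) (nat_lit 8586088997) (nat_lit 0) (nat_lit 8766399193) (nat_lit 5) (nat_lit 5) (nat_lit 7) (nat_lit 4) (nat_lit 5) (nat_lit 4) (nat_lit 280) (nat_lit 228) (nat_lit 212))))) (XT.nd (nat_lit 234) (nat_lit 0) (nat_lit 0) (XT.nd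 (nat_lit 78) (nat_lit 76) (nat_lit 0) (XT.lf (nat_lit 0) (nat_lit 17438075429) (nat_lit 152) (nat_lit 3016776060) (nat_lit 0) (nat_lit 12573848235) (nat_lit 5) (nat_lit 5) (nat_lit 7) (nat_lit 4) (nat_lit 5) (nat_lit 4) (nat_lit 281) (nat_lit 228) (nat_lit 211)) (XT.nd (nat_lit 78) (nat_lit 0) (nat_lit 0) (XT.lf (nat_lit 0) (nat_lit 2980406580) (nat_lit 76) (nat_lit 18706257679) (nat_lit 76) (nat_lit 13708582072) (nat_lit 4) (nat_lit 4) (nat_lit 5) (nat_lit 5) (nat_lit 5) (nat_lit 4) (nat_lit 282) (nat_lit 228) (nat_lit 210)) (XT.lf (nat_lit 0) (nat_lit 9466385178) (nat_lit 76) (nat_lit 16803265715) (nat_lit 76) (nat_lit 11682026762) (nat_lit 4) (nat_lit 4) (nat_lit 5) (nat_lit 5) (nat_lit 5) (nat_lit 4) (nat_lit 283) (nat_lit 228) (nat_lit 209)))) (XT.nd (nat_lit 156) (nat_lit 0) (nat_lit 0) (XT.nd (nat_lit 78) (nat_lit 0) (nat_lit 0) (XT.lf (nat_lit 0) (nat_lit 16320737082) (nat_lit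 76) (nat_lit 14817082610) (nat_lit 76) (nat_lit 9581433152) (nat_lit 4) (nat_lit 4) (nat_lit 5) (nat_lit 5) (nat_lit 5) (nat_lit 4) (nat_lit 284) (nat_lit 228) (nat_lit 208)) (XT.lf (nat_lit 0) (nat_lit 23584080673) (nat_lit 76) (nat_lit 12735938390) (nat_lit 76) (nat_lit 7394353279) (nat_lit 4) (nat_lit 4) (nat_lit 5) (nat_lit 5) (nat_lit 5) (nat_lit 4) (nat_lit 285) (nat_lit 228) (nat_lit 207))) (XT.nd (nat_lit 78) (nat_lit 0) (nat_lit 0) (XT.lf (nat_lit 0) (nat_lit 31299457986) (nat_lit 76) (nat_lit 10547500349) (nat_lit 76) (nat_lit 5107826670) (nat_lit 4) (nat_lit 4) (nat_lit 5) (nat_lit 5) (nat_lit 5) (nat_lit 4) (nat_lit 286) (nat_lit 228) (nat_lit 206)) (XT.lf (nat_lit 0) (nat_lit 39512589777) (nat_lit 76) (nat_lit 8238799965) (nat_lit 76) (nat_lit 2708303539) (nat_lit 4) (nat_lit 4) (nat_lit 5) (nat_lit 5) (nat_lit 5) (nat_lit 4) (nat_lit 287) (nat_lit 228) (nat_lit 205))))))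 (XT.nd (nat_lit 468) (nat_lit 0) (nat_lit 0) (XT.nd (nat_lit 234) (nat_lit 0) (nat_lit 0) (XT.nd (nat_lit 78) (nat_lit 152) (nat_lit 0) (XT.lf (nat_lit 0) (nat_lit 48272146457) (nat_lit 76) (nat_lit 5796156052) (nat_lit 76) (nat_lit 181564488) (nat_lit 4) (nat_lit 4) (nat_lit 5) (nat_lit 5) (nat_lit 5) (nat_lit 4) (nat_lit 288) (nat_lit 228) (nat_lit 204)) (XT.nd (nat_lit 78) (nat_lit 76) (nat_lit 0) (XT.lf (nat_lit 0) (nat_lit 2362935741) (nat_lit 152) (nat_lit 777551088) (nat_lit 76) (nat_lit 55202493916) (nat_lit 3) (nat_lit 5) (nat_lit 5) (nat_lit 5) (nat_lit 4) (nat_lit 4) (nat_lit 289) (nat_lit 228) (nat_lit 203)) (XT.lf (nat_lit 0) (nat_lit 4985631127) (nat_lit 76) (nat_lit 182727806) (nat_lit 152) (nat_lit 57589499441) (nat_lit 2) (nat_lit 5) (nat_lit 3) (nat_lit 5) (nat_lit 4) (nat_lit 4) (nat_lit 290) (nat_lit 228) (nat_lit 202)))) (XT.nd (nat_lit 78) (nat_lit 0) (nat_lit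 0) (XT.lf (nat_lit 0) (nat_lit 8240281391) (nat_lit 152) (nat_lit 56441422935) (nat_lit 0) (nat_lit 2840917606) (nat_lit 2) (nat_lit 5) (nat_lit 4) (nat_lit 4) (nat_lit 2) (nat_lit 4) (nat_lit 291) (nat_lit 228) (nat_lit 201)) (XT.nd (nat_lit 78) (nat_lit 0) (nat_lit 0) (XT.lf (nat_lit 0) (nat_lit 11514392047) (nat_lit 152) (nat_lit 55099921687) (nat_lit 0) (nat_lit 6057794525) (nat_lit 2) (nat_lit 5) (nat_lit 4) (nat_lit 4) (nat_lit 2) (nat_lit 4) (nat_lit 292) (nat_lit 228) (nat_lit 200)) (XT.lf (nat_lit 0) (nat_lit 15005698431) (nat_lit 152) (nat_lit 53735379259) (nat_lit 0) (nat_lit 9496106708) (nat_lit 2) (nat_lit 5) (nat_lit 4) (nat_lit 4) (nat_lit 2) (nat_lit 4) (nat_lit 293) (nat_lit 228) (nat_lit 199))))) (XT.nd (nat_lit 234) (nat_lit 0) (nat_lit 0) (XT.nd (nat_lit 78) (nat_lit 0) (nat_lit 0) (XT.lf (nat_lit 0) (nat_lit 18734889766) (nat_lit 152) (nat_lit 52339709474) (nat_lit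 0) (nat_lit 13176229338) (nat_lit 2) (nat_lit 5) (nat_lit 4) (nat_lit 4) (nat_lit 2) (nat_lit 4) (nat_lit 294) (nat_lit 228) (nat_lit 198)) (XT.nd (nat_lit 78) (nat_lit 0) (nat_lit 0) (XT.lf (nat_lit 0) (nat_lit 22724064963) (nat_lit 152) (nat_lit 50904641696) (nat_lit 0) (nat_lit 17119970550) (nat_lit 2) (nat_lit 5) (nat_lit 4) (nat_lit 4) (nat_lit 2) (nat_lit 4) (nat_lit 295) (nat_lit 228) (nat_lit 197)) (XT.lf (nat_lit 0) (nat_lit 26996863581) (nat_lit 152) (nat_lit 49421671820) (nat_lit 0) (nat_lit 21350700662) (nat_lit 2) (nat_lit 5) (nat_lit 4) (nat_lit 4) (nat_lit 2) (nat_lit 4) (nat_lit 296) (nat_lit 228) (nat_lit 196)))) (XT.nd (nat_lit 156) (nat_lit 0) (nat_lit 0) (XT.nd (nat_lit 78) (nat_lit 0) (nat_lit 0) (XT.lf (nat_lit 0) (nat_lit 31578605905) (nat_lit 152) (nat_lit 47882011876) (nat_lit 0) (nat_lit 25893490667) (nat_lit 2) (nat_lit 5) (nat_lit 4) (nat_lit 4) (nat_lit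 2) (nat_lit 4) (nat_lit 297) (nat_lit 228) (nat_lit 195)) (XT.lf (nat_lit 0) (nat_lit 36496443003) (nat_lit 152) (nat_lit 46276537952) (nat_lit 0) (nat_lit 30775260802) (nat_lit 2) (nat_lit 5) (nat_lit 4) (nat_lit 4) (nat_lit 2) (nat_lit 4) (nat_lit 298) (nat_lit 228) (nat_lit 194))) (XT.nd (nat_lit 78) (nat_lit 0) (nat_lit 0) (XT.lf (nat_lit 0) (nat_lit 41779517613) (nat_lit 152) (nat_lit 44595736130) (nat_lit 0) (nat_lit 36024940076) (nat_lit 2) (nat_lit 5) (nat_lit 4) (nat_lit 4) (nat_lit 2) (nat_lit 4) (nat_lit 299) (nat_lit 228) (nat_lit 193)) (XT.lf (nat_lit 0) (nat_lit 47459136843) (nat_lit 152) (nat_lit 42829646103) (nat_lit 0) (nat_lit 41673637699) (nat_lit 2) (nat_lit 5) (nat_lit 4) (nat_lit 4) (nat_lit 2) (nat_lit 4) (nat_lit 300) (nat_lit 228) (nat_lit 192))))))) (XT.nd (nat_lit 1014) (nat_lit 76) (nat_lit 0) (XT.nd (nat_lit 468) (nat_lit 0) (nat_lit 0) (XT.nd (nat_lit 234)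 (nat_lit 0) (nat_lit 0) (XT.nd (nat_lit 78) (nat_lit 0) (nat_lit 0) (XT.lf (nat_lit 0) (nat_lit 53568957696) (nat_lit 152) (nat_lit 40967802152) (nat_lit 0) (nat_lit 47754827434) (nat_lit 2) (nat_lit 5) (nat_lit 4) (nat_lit 4) (nat_lit 2) (nat_lit 4) (nat_lit 301) (nat_lit 228) (nat_lit 191)) (XT.nd (nat_lit 78) (nat_lit 0) (nat_lit 0) (XT.lf (nat_lit 0) (nat_lit 60145186518) (nat_lit 152) (nat_lit 38999171127) (nat_lit 0) (nat_lit 54304545961) (nat_lit 2) (nat_lit 5) (nat_lit 4) (nat_lit 4) (nat_lit 2) (nat_lit 4) (nat_lit 302) (nat_lit 228) (nat_lit 190)) (XT.lf (nat_lit 0) (nat_lit 67226793553) (nat_lit 152) (nat_lit 36912087067) (nat_lit 0) (nat_lit 61361606428) (nat_lit 2) (nat_lit 5) (nat_lit 4) (nat_lit 4) (nat_lit 2) (nat_lit 4) (nat_lit 303) (nat_lit 228) (nat_lit 189)))) (XT.nd (nat_lit 78) (nat_lit 0) (nat_lit 0) (XT.lf (nat_lit 0) (nat_lit 74855743882) (nat_lit 152) (nat_lit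 34694182066) (nat_lit 0) (nat_lit 68967828452) (nat_lit 2) (nat_lit 5) (nat_lit 4) (nat_lit 4) (nat_lit 2) (nat_lit 4) (nat_lit 304) (nat_lit 228) (nat_lit 188)) (XT.nd (nat_lit 78) (nat_lit 0) (nat_lit 0) (XT.lf (nat_lit 0) (nat_lit 83077246098) (nat_lit 152) (nat_lit 32332312984) (nat_lit 0) (nat_lit 77168285942) (nat_lit 2) (nat_lit 5) (nat_lit 4) (nat_lit 4) (nat_lit 2) (nat_lit 4) (nat_lit 305) (nat_lit 228) (nat_lit 187)) (XT.lf (nat_lit 0) (nat_lit 91940020213) (nat_lit 152) (nat_lit 29812483559) (nat_lit 0) (nat_lit 86011574200) (nat_lit 2) (nat_lit 5) (nat_lit 4) (nat_lit 4) (nat_lit 2) (nat_lit 4) (nat_lit 306) (nat_lit 228) (nat_lit 186))))) (XT.nd (nat_lit 234) (nat_lit 0) (nat_lit 0) (XT.nd (nat_lit 78) (nat_lit 0) (nat_lit 0) (XT.lf (nat_lit 0) (nat_lit 101496586372) (nat_lit 152) (nat_lit 27119761469) (nat_lit 0) (nat_lit 95550097898) (nat_lit 2) (nat_lit 5) (nat_lit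 4) (nat_lit 4) (nat_lit 2) (nat_lit 4) (nat_lit 307) (nat_lit 228) (nat_lit 185)) (XT.nd (nat_lit 78) (nat_lit 0) (nat_lit 0) (XT.lf (nat_lit 0) (nat_lit 111803576078) (nat_lit 152) (nat_lit 24238189842) (nat_lit 0) (nat_lit 105840381621) (nat_lit 2) (nat_lit 5) (nat_lit 4) (nat_lit 4) (nat_lit 2) (nat_lit 4) (nat_lit 308) (nat_lit 228) (nat_lit 184)) (XT.lf (nat_lit 0) (nat_lit 122922067787) (nat_lit 152) (nat_lit 21150692699) (nat_lit 0) (nat_lit 116943404828) (nat_lit 2) (nat_lit 5) (nat_lit 4) (nat_lit 4) (nat_lit 2) (nat_lit 4) (nat_lit 309) (nat_lit 228) (nat_lit 183)))) (XT.nd (nat_lit 156) (nat_lit 0) (nat_lit 0) (XT.nd (nat_lit 78) (nat_lit 0) (nat_lit 0) (XT.lf (nat_lit 0) (nat_lit 134917948858) (nat_lit 152) (nat_lit 17838973759) (nat_lit 0) (nat_lit 128924963212) (nat_lit 2) (nat_lit 5) (nat_lit 4) (nat_lit 4) (nat_lit 2) (nat_lit 4) (nat_lit 310) (nat_lit 228) (nat_lit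 182)) (XT.lf (nat_lit 0) (nat_lit 147862305994) (nat_lit 152) (nat_lit 14283408022) (nat_lit 0) (nat_lit 141856058601) (nat_lit 2) (nat_lit 5) (nat_lit 4) (nat_lit 4) (nat_lit 2) (nat_lit 4) (nat_lit 311) (nat_lit 228) (nat_lit 181))) (XT.nd (nat_lit 78) (nat_lit 0) (nat_lit 0) (XT.lf (nat_lit 0) (nat_lit 161831846496) (nat_lit 152) (nat_lit 10462925468) (nat_lit 0) (nat_lit 155813319707) (nat_lit 2) (nat_lit 5) (nat_lit 4) (nat_lit 4) (nat_lit 2) (nat_lit 4) (nat_lit 312) (nat_lit 228) (nat_lit 180)) (XT.lf (nat_lit 0) (nat_lit 176909352827) (nat_lit 152) (nat_lit 6354886201) (nat_lit 0) (nat_lit 170879456227) (nat_lit 2) (nat_lit 5) (nat_lit 4) (nat_lit 4) (nat_lit 2) (nat_lit 4) (nat_lit 313) (nat_lit 228) (nat_lit 179)))))) (XT.nd (nat_lit 546) (nat_lit 0) (nat_lit 0) (XT.nd (nat_lit 234) (nat_lit 0) (nat_lit 0) (XT.nd (nat_lit 78) (nat_lit 76) (nat_lit 0) (XT.lf (nat_lit 0) (nat_lit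 193184173172) (nat_lit 152) (nat_lit 1934946285) (nat_lit 0) (nat_lit 187143748970) (nat_lit 2) (nat_lit 5) (nat_lit 4) (nat_lit 4) (nat_lit 2) (nat_lit 4) (nat_lit 314) (nat_lit 228) (nat_lit 178)) (XT.nd (nat_lit 78) (nat_lit 0) (nat_lit 0) (XT.lf (nat_lit 0) (nat_lit 2971745250) (nat_lit 76) (nat_lit 207852476206) (nat_lit 76) (nat_lit 201802304223) (nat_lit 1) (nat_lit 4) (nat_lit 2) (nat_lit 5) (nat_lit 2) (nat_lit 4) (nat_lit 315) (nat_lit 228) (nat_lit 177)) (XT.lf (nat_lit 0) (nat_lit 8365904374) (nat_lit 76) (nat_lit 221554491962) (nat_lit 76) (nat_lit 215495294257) (nat_lit 1) (nat_lit 4) (nat_lit 2) (nat_lit 5) (nat_lit 2) (nat_lit 4) (nat_lit 316) (nat_lit 228) (nat_lit 176)))) (XT.nd (nat_lit 156) (nat_lit 0) (nat_lit 0) (XT.nd (nat_lit 78) (nat_lit 0) (nat_lit 0) (XT.lf (nat_lit 0) (nat_lit 14177605632) (nat_lit 76) (nat_lit 236359268716) (nat_lit 76) (nat_lit 230291713861)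 (nat_lit 1) (nat_lit 4) (nat_lit 2) (nat_lit 5) (nat_lit 2) (nat_lit 4) (nat_lit 317) (nat_lit 228) (nat_lit 175)) (XT.lf (nat_lit 0) (nat_lit 20441288735) (nat_lit 76) (nat_lit 252354538479) (nat_lit 76) (nat_lit 246279245521) (nat_lit 1) (nat_lit 4) (nat_lit 2) (nat_lit 5) (nat_lit 2) (nat_lit 4) (nat_lit 318) (nat_lit 228) (nat_lit 174))) (XT.nd (nat_lit 78) (nat_lit 0) (nat_lit 0) (XT.lf (nat_lit 0) (nat_lit 27194071805) (nat_lit 76) (nat_lit 269635088034) (nat_lit 76) (nat_lit 263552630167) (nat_lit 1) (nat_lit 4) (nat_lit 2) (nat_lit 5) (nat_lit 2) (nat_lit 4) (nat_lit 319) (nat_lit 228) (nat_lit 173)) (XT.lf (nat_lit 0) (nat_lit 34475971335) (nat_lit 76) (nat_lit 288303320639) (nat_lit 76) (nat_lit 282214228596) (nat_lit 1) (nat_lit 4) (nat_lit 2) (nat_lit 5) (nat_lit 2) (nat_lit 4) (nat_lit 320) (nat_lit 228) (nat_lit 172))))) (XT.nd (nat_lit 234) (nat_lit 0) (nat_lit 0) (XT.nd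 (nat_lit 78) (nat_lit 0) (nat_lit 0) (XT.lf (nat_lit 0) (nat_lit 42330139321) (nat_lit 76) (nat_lit 308469862856) (nat_lit 76) (nat_lit 302374628058) (nat_lit 1) (nat_lit 4) (nat_lit 2) (nat_lit 5) (nat_lit 2) (nat_lit 4) (nat_lit 321) (nat_lit 228) (nat_lit 171)) (XT.nd (nat_lit 78) (nat_lit 0) (nat_lit 0) (XT.lf (nat_lit 0) (nat_lit 50803118982) (nat_lit 76) (nat_lit 330254220121) (nat_lit 76) (nat_lit 324153297588) (nat_lit 1) (nat_lit 4) (nat_lit 2) (nat_lit 5) (nat_lit 2) (nat_lit 4) (nat_lit 322) (nat_lit 228) (nat_lit 170)) (XT.lf (nat_lit 0) (nat_lit 59945120566) (nat_lit 76) (nat_lit 353785484922) (nat_lit 76) (nat_lit 347679295966) (nat_lit 1) (nat_lit 4) (nat_lit 2) (nat_lit 5) (nat_lit 2) (nat_lit 4) (nat_lit 323) (nat_lit 228) (nat_lit 169)))) (XT.nd (nat_lit 156) (nat_lit 0) (nat_lit 0) (XT.nd (nat_lit 78) (nat_lit 0) (nat_lit 0) (XT.lf (nat_lit 0) (nat_lit 69810318899)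 (nat_lit 76) (nat_lit 379203101791) (nat_lit 76) (nat_lit 373092036518) (nat_lit 1) (nat_lit 4) (nat_lit 2) (nat_lit 5) (nat_lit 2) (nat_lit 4) (nat_lit 324) (nat_lit 228) (nat_lit 168)) (XT.lf (nat_lit 0) (nat_lit 80457174415) (nat_lit 76) (nat_lit 406657693642) (nat_lit 76) (nat_lit 400542113260) (nat_lit 1) (nat_lit 4) (nat_lit 2) (nat_lit 5) (nat_lit 2) (nat_lit 4) (nat_lit 325) (nat_lit 228) (nat_lit 167))) (XT.nd (nat_lit 78) (nat_lit 0) (nat_lit 0) (XT.lf (nat_lit 0) (nat_lit 91948779591) (nat_lit 76) (nat_lit 436311954353) (nat_lit 76) (nat_lit 430192193315) (nat_lit 1) (nat_lit 4) (nat_lit 2) (nat_lit 5) (nat_lit 2) (nat_lit 4) (nat_lit 326) (nat_lit 228) (nat_lit 166)) (XT.lf (nat_lit 0) (nat_lit 104353232827) (nat_lit 76) (nat_lit 468341612876) (nat_lit 76) (nat_lit 462217980861) (nat_lit 1) (nat_lit 4) (nat_lit 2) (nat_lit 5) (nat_lit 2) (nat_lit 4) (nat_lit 327) (nat_lit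 228) (nat_lit 165))))))))
noncomputable def xc31 : XT := (XT.nd (nat_lit 33228) (nat_lit 0) (nat_lit 76) (XT.nd (nat_lit 1014) (nat_lit 0) (nat_lit 0) (XT.nd (nat_lit 468) (nat_lit 0) (nat_lit 0) (XT.nd (nat_lit 234) (nat_lit 0) (nat_lit 0) (XT.nd (nat_lit 78) (nat_lit 0) (nat_lit 0) (XT.lf (nat_lit 0) (nat_lit 117744041996) (nat_lit 76) (nat_lit 502936474596) (nat_lit 76) (nat_lit 496809258343) (nat_lit 1) (nat_lit 4) (nat_lit 2) (nat_lit 5) (nat_lit 2) (nat_lit 4) (nat_lit 328) (nat_lit 228) (nat_lit 164)) (XT.nd (nat_lit 78) (nat_lit 0) (nat_lit 0) (XT.lf (nat_lit 0) (nat_lit 132200560041) (nat_lit 76) (nat_lit 540301546100) (nat_lit 76) (nat_lit 534171011108) (nat_lit 1) (nat_lit 4) (nat_lit 2) (nat_lit 5) (nat_lit 2) (nat_lit 4) (nat_lit 329) (nat_lit 228) (nat_lit 163)) (XT.lf (nat_lit 0) (nat_lit 147808455215) (nat_lit 76) (nat_lit 580658250035) (nat_lit 76) (nat_lit 574524642135)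 (nat_lit 1) (nat_lit 4) (nat_lit 2) (nat_lit 5) (nat_lit 2) (nat_lit 4) (nat_lit 330) (nat_lit 228) (nat_lit 162)))) (XT.nd (nat_lit 78) (nat_lit 0) (nat_lit 0) (XT.lf (nat_lit 0) (nat_lit 164660218751) (nat_lit 76) (nat_lit 624245737238) (nat_lit 76) (nat_lit 618109284054) (nat_lit 1) (nat_lit 4) (nat_lit 2) (nat_lit 5) (nat_lit 2) (nat_lit 4) (nat_lit 331) (nat_lit 228) (nat_lit 161)) (XT.nd (nat_lit 78) (nat_lit 0) (nat_lit 0) (XT.lf (nat_lit 0) (nat_lit 182855712950) (nat_lit 76) (nat_lit 671322303929) (nat_lit 76) (nat_lit 665183216223) (nat_lit 1) (nat_lit 4) (nat_lit 2) (nat_lit 5) (nat_lit 2) (nat_lit 4) (nat_lit 332) (nat_lit 228) (nat_lit 160)) (XT.lf (nat_lit 0) (nat_lit 202502762964) (nat_lit 76) (nat_lit 722166922357) (nat_lit 76) (nat_lit 716025395278) (nat_lit 1) (nat_lit 4) (nat_lit 2) (nat_lit 5) (nat_lit 2) (nat_lit 4) (nat_lit 333) (nat_lit 228) (nat_lit 159)))))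 (XT.nd (nat_lit 234) (nat_lit 0) (nat_lit 0) (XT.nd (nat_lit 78) (nat_lit 0) (nat_lit 0) (XT.lf (nat_lit 0) (nat_lit 223717795755) (nat_lit 76) (nat_lit 777080893963) (nat_lit 76) (nat_lit 770937108206) (nat_lit 1) (nat_lit 4) (nat_lit 2) (nat_lit 5) (nat_lit 2) (nat_lit 4) (nat_lit 334) (nat_lit 228) (nat_lit 158)) (XT.nd (nat_lit 78) (nat_lit 0) (nat_lit 0) (XT.lf (nat_lit 0) (nat_lit 246626530036) (nat_lit 76) (nat_lit 836389634875) (nat_lit 76) (nat_lit 830243757750) (nat_lit 1) (nat_lit 4) (nat_lit 2) (nat_lit 5) (nat_lit 2) (nat_lit 4) (nat_lit 335) (nat_lit 228) (nat_lit 157)) (XT.lf (nat_lit 0) (nat_lit 271364721270) (nat_lit 76) (nat_lit 900444604300) (nat_lit 76) (nat_lit 894296790722) (nat_lit 1) (nat_lit 4) (nat_lit 2) (nat_lit 5) (nat_lit 2) (nat_lit 4) (nat_lit 336) (nat_lit 228) (nat_lit 156)))) (XT.nd (nat_lit 156) (nat_lit 0) (nat_lit 0) (XT.nd (nat_lit 78) (nat_lit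 0) (nat_lit 0) (XT.lf (nat_lit 0) (nat_lit 298078966145) (nat_lit 76) (nat_lit 969625387240) (nat_lit 76) (nat_lit 963475780650) (nat_lit 1) (nat_lit 4) (nat_lit 2) (nat_lit 5) (nat_lit 2) (nat_lit 4) (nat_lit 337) (nat_lit 228) (nat_lit 155)) (XT.lf (nat_lit 0) (nat_lit 326927571297) (nat_lit 76) (nat_lit 1044341943891) (nat_lit 76) (nat_lit 1038190677106) (nat_lit 1) (nat_lit 4) (nat_lit 2) (nat_lit 5) (nat_lit 2) (nat_lit 4) (nat_lit 338) (nat_lit 228) (nat_lit 154))) (XT.nd (nat_lit 78) (nat_lit 0) (nat_lit 0) (XT.lf (nat_lit 0) (nat_lit 358081491425) (nat_lit 76) (nat_lit 1125037039034) (nat_lit 76) (nat_lit 1118884235030) (nat_lit 1) (nat_lit 4) (nat_lit 2) (nat_lit 5) (nat_lit 2) (nat_lit 4) (nat_lit 339) (nat_lit 228) (nat_lit 153)) (XT.lf (nat_lit 0) (nat_lit 391725342351) (nat_lit 76) (nat_lit 1212188865824) (nat_lit 76) (nat_lit 1206034638469) (nat_lit 1) (nat_lit 4) (nat_lit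 2) (nat_lit 5) (nat_lit 2) (nat_lit 4) (nat_lit 340) (nat_lit 228) (nat_lit 152)))))) (XT.nd (nat_lit 31668) (nat_lit 0) (nat_lit 532) (XT.nd (nat_lit 31356) (nat_lit 0) (nat_lit 912) (XT.nd (nat_lit 78) (nat_lit 0) (nat_lit 0) (XT.lf (nat_lit 0) (nat_lit 428058495042) (nat_lit 76) (nat_lit 1306313879532) (nat_lit 76) (nat_lit 1300158334260) (nat_lit 1) (nat_lit 4) (nat_lit 2) (nat_lit 5) (nat_lit 2) (nat_lit 4) (nat_lit 341) (nat_lit 228) (nat_lit 151)) (XT.nd (nat_lit 78) (nat_lit 0) (nat_lit 0) (XT.lf (nat_lit 0) (nat_lit 467296257072) (nat_lit 76) (nat_lit 1407969858016) (nat_lit 76) (nat_lit 1401813092450) (nat_lit 1) (nat_lit 4) (nat_lit 2) (nat_lit 5) (nat_lit 2) (nat_lit 4) (nat_lit 342) (nat_lit 228) (nat_lit 150)) (XT.lf (nat_lit 0) (nat_lit 509671148511) (nat_lit 76) (nat_lit 1517759207075) (nat_lit 76) (nat_lit 1511601311608) (nat_lit 1) (nat_lit 4) (nat_lit 2) (nat_lit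 5) (nat_lit 2) (nat_lit 4) (nat_lit 343) (nat_lit 228) (nat_lit 149)))) (XT.nd (nat_lit 156) (nat_lit 152) (nat_lit 0) (XT.nd (nat_lit 78) (nat_lit 152) (nat_lit 0) (XT.lf (nat_lit 0) (nat_lit 3036677294) (nat_lit 152) (nat_lit 1203911081) (nat_lit 152) (nat_lit 1203911081) (nat_lit 17) (nat_lit 4) (nat_lit 19) (nat_lit 5) (nat_lit 19) (nat_lit 4) (nat_lit 262) (nat_lit 229) (nat_lit 229)) (XT.lf (nat_lit 0) (nat_lit 1265019601) (nat_lit 152) (nat_lit 9537390317) (nat_lit 0) (nat_lit 593262479) (nat_lit 15) (nat_lit 5) (nat_lit 17) (nat_lit 4) (nat_lit 15) (nat_lit 4) (nat_lit 263) (nat_lit 229) (nat_lit 228))) (XT.nd (nat_lit 78) (nat_lit 152) (nat_lit 0) (XT.lf (nat_lit 0) (nat_lit 5072094991) (nat_lit 152) (nat_lit 3090415006) (nat_lit 0) (nat_lit 3778340532) (nat_lit 15) (nat_lit 5) (nat_lit 17) (nat_lit 4) (nat_lit 15) (nat_lit 4) (nat_lit 264) (nat_lit 229) (nat_lit 227)) (XT.lf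 (nat_lit 0) (nat_lit 3716024044) (nat_lit 152) (nat_lit 5346770037) (nat_lit 152) (nat_lit 3477092120) (nat_lit 13) (nat_lit 4) (nat_lit 15) (nat_lit 5) (nat_lit 15) (nat_lit 4) (nat_lit 265) (nat_lit 229) (nat_lit 226))))) (XT.nd (nat_lit 234) (nat_lit 228) (nat_lit 0) (XT.nd (nat_lit 78) (nat_lit 76) (nat_lit 0) (XT.lf (nat_lit 0) (nat_lit 54775658) (nat_lit 228) (nat_lit 2289007008) (nat_lit 76) (nat_lit 10852937588) (nat_lit 12) (nat_lit 5) (nat_lit 15) (nat_lit 5) (nat_lit 13) (nat_lit 4) (nat_lit 266) (nat_lit 229) (nat_lit 225)) (XT.nd (nat_lit 78) (nat_lit 0) (nat_lit 0) (XT.lf (nat_lit 0) (nat_lit 3622420791) (nat_lit 152) (nat_lit 9341330050) (nat_lit 0) (nat_lit 940289386) (nat_lit 11) (nat_lit 5) (nat_lit 13) (nat_lit 4) (nat_lit 11) (nat_lit 4) (nat_lit 267) (nat_lit 229) (nat_lit 224)) (XT.lf (nat_lit 0) (nat_lit 7411296564) (nat_lit 152) (nat_lit 2956356914) (nat_lit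 0) (nat_lit 4305844224) (nat_lit 11) (nat_lit 5) (nat_lit 13) (nat_lit 4) (nat_lit 11) (nat_lit 4) (nat_lit 268) (nat_lit 229) (nat_lit 223)))) (XT.nd (nat_lit 156) (nat_lit 152) (nat_lit 0) (XT.nd (nat_lit 78) (nat_lit 0) (nat_lit 0) (XT.lf (nat_lit 0) (nat_lit 3831393012) (nat_lit 76) (nat_lit 7588784898) (nat_lit 76) (nat_lit 4091368729) (nat_lit 10) (nat_lit 4) (nat_lit 11) (nat_lit 5) (nat_lit 11) (nat_lit 4) (nat_lit 269) (nat_lit 229) (nat_lit 222)) (XT.lf (nat_lit 0) (nat_lit 11038197623) (nat_lit 76) (nat_lit 4623111132) (nat_lit 76) (nat_lit 762765491) (nat_lit 10) (nat_lit 4) (nat_lit 11) (nat_lit 5) (nat_lit 11) (nat_lit 4) (nat_lit 270) (nat_lit 229) (nat_lit 221))) (XT.nd (nat_lit 78) (nat_lit 0) (nat_lit 0) (XT.lf (nat_lit 0) (nat_lit 1120637327) (nat_lit 76) (nat_lit 1435626506) (nat_lit 152) (nat_lit 14858933055) (nat_lit 8) (nat_lit 5) (nat_lit 9) (nat_lit 5) (nat_lit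 10) (nat_lit 4) (nat_lit 271) (nat_lit 229) (nat_lit 220)) (XT.lf (nat_lit 0) (nat_lit 6140406575) (nat_lit 152) (nat_lit 10373884050) (nat_lit 0) (nat_lit 1966753823) (nat_lit 8) (nat_lit 5) (nat_lit 10) (nat_lit 4) (nat_lit 8) (nat_lit 4) (nat_lit 272) (nat_lit 229) (nat_lit 219))))))) (XT.nd (nat_lit 1014) (nat_lit 152) (nat_lit 0) (XT.nd (nat_lit 468) (nat_lit 76) (nat_lit 0) (XT.nd (nat_lit 234) (nat_lit 152) (nat_lit 0) (XT.nd (nat_lit 78) (nat_lit 76) (nat_lit 0) (XT.lf (nat_lit 0) (nat_lit 9901765042) (nat_lit 152) (nat_lit 4278070783) (nat_lit 0) (nat_lit 5461348295) (nat_lit 8) (nat_lit 5) (nat_lit 10) (nat_lit 4) (nat_lit 8) (nat_lit 4) (nat_lit 273) (nat_lit 229) (nat_lit 218)) (XT.nd (nat_lit 78) (nat_lit 0) (nat_lit 0) (XT.lf (nat_lit 0) (nat_lit 2172192287) (nat_lit 76) (nat_lit 11708150904) (nat_lit 76) (nat_lit 7020730457) (nat_lit 7) (nat_lit 4) (nat_lit 8) (nat_lit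 5) (nat_lit 8) (nat_lit 4) (nat_lit 274) (nat_lit 229) (nat_lit 217)) (XT.lf (nat_lit 0) (nat_lit 9146020435) (nat_lit 76) (nat_lit 9016625949) (nat_lit 76) (nat_lit 4100498372) (nat_lit 7) (nat_lit 4) (nat_lit 8) (nat_lit 5) (nat_lit 8) (nat_lit 4) (nat_lit 275) (nat_lit 229) (nat_lit 216)))) (XT.nd (nat_lit 78) (nat_lit 152) (nat_lit 0) (XT.lf (nat_lit 0) (nat_lit 16459464425) (nat_lit 76) (nat_lit 6206281219) (nat_lit 76) (nat_lit 1078387781) (nat_lit 7) (nat_lit 4) (nat_lit 8) (nat_lit 5) (nat_lit 8) (nat_lit 4) (nat_lit 276) (nat_lit 229) (nat_lit 215)) (XT.nd (nat_lit 78) (nat_lit 76) (nat_lit 0) (XT.lf (nat_lit 0) (nat_lit 1960284984) (nat_lit 152) (nat_lit 1246580169) (nat_lit 76) (nat_lit 22141980534) (nat_lit 6) (nat_lit 5) (nat_lit 8) (nat_lit 5) (nat_lit 7) (nat_lit 4) (nat_lit 277) (nat_lit 229) (nat_lit 214)) (XT.lf (nat_lit 0) (nat_lit 5207205535) (nat_lit 152) (nat_lit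 21761286766) (nat_lit 0) (nat_lit 109494395) (nat_lit 5) (nat_lit 5) (nat_lit 7) (nat_lit 4) (nat_lit 5) (nat_lit 4) (nat_lit 278) (nat_lit 229) (nat_lit 213))))) (XT.nd (nat_lit 234) (nat_lit 76) (nat_lit 0) (XT.nd (nat_lit 78) (nat_lit 0) (nat_lit 0) (XT.lf (nat_lit 0) (nat_lit 8726247391) (nat_lit 152) (nat_lit 16745493646) (nat_lit 0) (nat_lit 3472882022) (nat_lit 5) (nat_lit 5) (nat_lit 7) (nat_lit 4) (nat_lit 5) (nat_lit 4) (nat_lit 279) (nat_lit 229) (nat_lit 212)) (XT.nd (nat_lit 78) (nat_lit 0) (nat_lit 0) (XT.lf (nat_lit 0) (nat_lit 12428760245) (nat_lit 152) (nat_lit 11508545803) (nat_lit 0) (nat_lit 7031270590) (nat_lit 5) (nat_lit 5) (nat_lit 7) (nat_lit 4) (nat_lit 5) (nat_lit 4) (nat_lit 280) (nat_lit 229) (nat_lit 211)) (XT.lf (nat_lit 0) (nat_lit 16336684914) (nat_lit 152) (nat_lit 6019409472) (nat_lit 0) (nat_lit 10805746845) (nat_lit 5) (nat_lit 5) (nat_lit 7) (nat_lit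 4) (nat_lit 5) (nat_lit 4) (nat_lit 281) (nat_lit 229) (nat_lit 210)))) (XT.nd (nat_lit 156) (nat_lit 0) (nat_lit 0) (XT.nd (nat_lit 78) (nat_lit 76) (nat_lit 0) (XT.lf (nat_lit 0) (nat_lit 20473179468) (nat_lit 152) (nat_lit 245556437) (nat_lit 0) (nat_lit 14818678054) (nat_lit 5) (nat_lit 5) (nat_lit 7) (nat_lit 4) (nat_lit 5) (nat_lit 4) (nat_lit 282) (nat_lit 229) (nat_lit 209)) (XT.lf (nat_lit 0) (nat_lit 6155133429) (nat_lit 76) (nat_lit 18855654147) (nat_lit 76) (nat_lit 13086742227) (nat_lit 4) (nat_lit 4) (nat_lit 5) (nat_lit 5) (nat_lit 5) (nat_lit 4) (nat_lit 283) (nat_lit 229) (nat_lit 208))) (XT.nd (nat_lit 78) (nat_lit 0) (nat_lit 0) (XT.lf (nat_lit 0) (nat_lit 12942487032) (nat_lit 76) (nat_lit 16900208318) (nat_lit 76) (nat_lit 11025360745) (nat_lit 4) (nat_lit 4) (nat_lit 5) (nat_lit 5) (nat_lit 5) (nat_lit 4) (nat_lit 284) (nat_lit 229) (nat_lit 207)) (XT.lf (nat_lit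 0) (nat_lit 20143795159) (nat_lit 76) (nat_lit 14847524539) (nat_lit 76) (nat_lit 8874588398) (nat_lit 4) (nat_lit 4) (nat_lit 5) (nat_lit 5) (nat_lit 5) (nat_lit 4) (nat_lit 285) (nat_lit 229) (nat_lit 206)))))) (XT.nd (nat_lit 546) (nat_lit 0) (nat_lit 0) (XT.nd (nat_lit 234) (nat_lit 152) (nat_lit 0) (XT.nd (nat_lit 78) (nat_lit 0) (nat_lit 0) (XT.lf (nat_lit 0) (nat_lit 27801732229) (nat_lit 76) (nat_lit 12685438758) (nat_lit 76) (nat_lit 6621679869) (nat_lit 4) (nat_lit 4) (nat_lit 5) (nat_lit 5) (nat_lit 5) (nat_lit 4) (nat_lit 286) (nat_lit 229) (nat_lit 205)) (XT.nd (nat_lit 78) (nat_lit 0) (nat_lit 0) (XT.lf (nat_lit 0) (nat_lit 35961678609) (nat_lit 76) (nat_lit 10401138614) (nat_lit 76) (nat_lit 4253284589) (nat_lit 4) (nat_lit 4) (nat_lit 5) (nat_lit 5) (nat_lit 5) (nat_lit 4) (nat_lit 287) (nat_lit 229) (nat_lit 204)) (XT.lf (nat_lit 0) (nat_lit 44671989537) (nat_lit 76)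 (nat_lit 7981087516) (nat_lit 76) (nat_lit 1755367623) (nat_lit 4) (nat_lit 4) (nat_lit 5) (nat_lit 5) (nat_lit 5) (nat_lit 4) (nat_lit 288) (nat_lit 229) (nat_lit 203)))) (XT.nd (nat_lit 156) (nat_lit 0) (nat_lit 0) (XT.nd (nat_lit 78) (nat_lit 76) (nat_lit 0) (XT.lf (nat_lit 0) (nat_lit 842508495) (nat_lit 152) (nat_lit 4545400248) (nat_lit 76) (nat_lit 53118737501) (nat_lit 3) (nat_lit 5) (nat_lit 5) (nat_lit 5) (nat_lit 4) (nat_lit 4) (nat_lit 289) (nat_lit 229) (nat_lit 202)) (XT.lf (nat_lit 0) (nat_lit 973598121) (nat_lit 76) (nat_lit 2554369892) (nat_lit 152) (nat_lit 59403182255) (nat_lit 2) (nat_lit 5) (nat_lit 3) (nat_lit 5) (nat_lit 4) (nat_lit 4) (nat_lit 290) (nat_lit 229) (nat_lit 201))) (XT.nd (nat_lit 78) (nat_lit 0) (nat_lit 0) (XT.lf (nat_lit 0) (nat_lit 6519625607) (nat_lit 152) (nat_lit 60613469994) (nat_lit 0) (nat_lit 569266547) (nat_lit 2) (nat_lit 5) (nat_lit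 4) (nat_lit 4) (nat_lit 2) (nat_lit 4) (nat_lit 291) (nat_lit 229) (nat_lit 200)) (XT.lf (nat_lit 0) (nat_lit 9772229953) (nat_lit 152) (nat_lit 59312487458) (nat_lit 0) (nat_lit 3768876692) (nat_lit 2) (nat_lit 5) (nat_lit 4) (nat_lit 4) (nat_lit 2) (nat_lit 4) (nat_lit 292) (nat_lit 229) (nat_lit 199))))) (XT.nd (nat_lit 234) (nat_lit 0) (nat_lit 0) (XT.nd (nat_lit 78) (nat_lit 0) (nat_lit 0) (XT.lf (nat_lit 0) (nat_lit 13243623088) (nat_lit 152) (nat_lit 57985462356) (nat_lit 0) (nat_lit 7191201122) (nat_lit 2) (nat_lit 5) (nat_lit 4) (nat_lit 4) (nat_lit 2) (nat_lit 4) (nat_lit 293) (nat_lit 229) (nat_lit 198)) (XT.nd (nat_lit 78) (nat_lit 0) (nat_lit 0) (XT.lf (nat_lit 0) (nat_lit 16954376228) (nat_lit 152) (nat_lit 56624530836) (nat_lit 0) (nat_lit 10856520277) (nat_lit 2) (nat_lit 5) (nat_lit 4) (nat_lit 4) (nat_lit 2) (nat_lit 4) (nat_lit 294) (nat_lit 229) (nat_lit 197)) (XT.lf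 (nat_lit 0) (nat_lit 20926479024) (nat_lit 152) (nat_lit 55221628117) (nat_lit 0) (nat_lit 14786554567) (nat_lit 2) (nat_lit 5) (nat_lit 4) (nat_lit 4) (nat_lit 2) (nat_lit 4) (nat_lit 295) (nat_lit 229) (nat_lit 196)))) (XT.nd (nat_lit 156) (nat_lit 0) (nat_lit 0) (XT.nd (nat_lit 78) (nat_lit 0) (nat_lit 0) (XT.lf (nat_lit 0) (nat_lit 25183469861) (nat_lit 152) (nat_lit 53768440703) (nat_lit 0) (nat_lit 19004593085) (nat_lit 2) (nat_lit 5) (nat_lit 4) (nat_lit 4) (nat_lit 2) (nat_lit 4) (nat_lit 296) (nat_lit 229) (nat_lit 195)) (XT.lf (nat_lit 0) (nat_lit 29750575353) (nat_lit 152) (nat_lit 52256357113) (nat_lit 0) (nat_lit 23535631613) (nat_lit 2) (nat_lit 5) (nat_lit 4) (nat_lit 4) (nat_lit 2) (nat_lit 4) (nat_lit 297) (nat_lit 229) (nat_lit 194))) (XT.nd (nat_lit 78) (nat_lit 0) (nat_lit 0) (XT.lf (nat_lit 0) (nat_lit 34654859828) (nat_lit 152) (nat_lit 50676416851) (nat_lit 0)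 (nat_lit 28406520752) (nat_lit 2) (nat_lit 5) (nat_lit 4) (nat_lit 4) (nat_lit 2) (nat_lit 4) (nat_lit 298) (nat_lit 229) (nat_lit 193)) (XT.lf (nat_lit 0) (nat_lit 39925385712) (nat_lit 152) (nat_lit 49019257308) (nat_lit 0) (nat_lit 33646125029) (nat_lit 2) (nat_lit 5) (nat_lit 4) (nat_lit 4) (nat_lit 2) (nat_lit 4) (nat_lit 299) (nat_lit 229) (nat_lit 192))))))))
noncomputable def xc32 : XT := (XT.nd (nat_lit 2028) (nat_lit 0) (nat_lit 0) (XT.nd (nat_lit 1014) (nat_lit 76) (nat_lit 0) (XT.nd (nat_lit 468) (nat_lit 0) (nat_lit 0) (XT.nd (nat_lit 234) (nat_lit 0) (nat_lit 0) (XT.nd (nat_lit 78) (nat_lit 0) (nat_lit 0) (XT.lf (nat_lit 0) (nat_lit 45593385752) (nat_lit 152) (nat_lit 47275058280) (nat_lit 0) (nat_lit 39285493951) (nat_lit 2) (nat_lit 5) (nat_lit 4) (nat_lit 4) (nat_lit 2) (nat_lit 4) (nat_lit 300) (nat_lit 229) (nat_lit 191)) (XT.nd (nat_lit 78) (nat_lit 0) (nat_lit 0)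 (XT.lf (nat_lit 0) (nat_lit 51692448096) (nat_lit 152) (nat_lit 45433483772) (nat_lit 0) (nat_lit 45358046001) (nat_lit 2) (nat_lit 5) (nat_lit 4) (nat_lit 4) (nat_lit 2) (nat_lit 4) (nat_lit 301) (nat_lit 229) (nat_lit 190)) (XT.lf (nat_lit 0) (nat_lit 58258715335) (nat_lit 152) (nat_lit 43483620750) (nat_lit 0) (nat_lit 51899766671) (nat_lit 2) (nat_lit 5) (nat_lit 4) (nat_lit 4) (nat_lit 2) (nat_lit 4) (nat_lit 302) (nat_lit 229) (nat_lit 189)))) (XT.nd (nat_lit 78) (nat_lit 0) (nat_lit 0) (XT.lf (nat_lit 0) (nat_lit 65331098683) (nat_lit 152) (nat_lit 41413914471) (nat_lit 0) (nat_lit 58949421715) (nat_lit 2) (nat_lit 5) (nat_lit 4) (nat_lit 4) (nat_lit 2) (nat_lit 4) (nat_lit 303) (nat_lit 229) (nat_lit 188)) (XT.nd (nat_lit 78) (nat_lit 0) (nat_lit 0) (XT.lf (nat_lit 0) (nat_lit 72951508560) (nat_lit 152) (nat_lit 39212100008) (nat_lit 0) (nat_lit 66548786866) (nat_lit 2) (nat_lit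 5) (nat_lit 4) (nat_lit 4) (nat_lit 2) (nat_lit 4) (nat_lit 304) (nat_lit 229) (nat_lit 187)) (XT.lf (nat_lit 0) (nat_lit 81165102950) (nat_lit 152) (nat_lit 36865129572) (nat_lit 0) (nat_lit 74742895398) (nat_lit 2) (nat_lit 5) (nat_lit 4) (nat_lit 4) (nat_lit 2) (nat_lit 4) (nat_lit 305) (nat_lit 229) (nat_lit 186))))) (XT.nd (nat_lit 234) (nat_lit 0) (nat_lit 0) (XT.nd (nat_lit 78) (nat_lit 0) (nat_lit 0) (XT.lf (nat_lit 0) (nat_lit 90020555006) (nat_lit 152) (nat_lit 34359095190) (nat_lit 0) (nat_lit 83580304992) (nat_lit 2) (nat_lit 5) (nat_lit 4) (nat_lit 4) (nat_lit 2) (nat_lit 4) (nat_lit 306) (nat_lit 229) (nat_lit 185)) (XT.nd (nat_lit 78) (nat_lit 0) (nat_lit 0) (XT.lf (nat_lit 0) (nat_lit 99570341479) (nat_lit 152) (nat_lit 31679146288) (nat_lit 0) (nat_lit 93113385483) (nat_lit 2) (nat_lit 5) (nat_lit 4) (nat_lit 4) (nat_lit 2) (nat_lit 4) (nat_lit 307) (nat_lit 229) (nat_lit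 184)) (XT.lf (nat_lit 0) (nat_lit 109871053697) (nat_lit 152) (nat_lit 28809401686) (nat_lit 0) (nat_lit 103398629200) (nat_lit 2) (nat_lit 5) (nat_lit 4) (nat_lit 4) (nat_lit 2) (nat_lit 4) (nat_lit 308) (nat_lit 229) (nat_lit 183)))) (XT.nd (nat_lit 156) (nat_lit 0) (nat_lit 0) (XT.nd (nat_lit 78) (nat_lit 0) (nat_lit 0) (XT.lf (nat_lit 0) (nat_lit 120983732919) (nat_lit 152) (nat_lit 25732855492) (nat_lit 0) (nat_lit 114496985734) (nat_lit 2) (nat_lit 5) (nat_lit 4) (nat_lit 4) (nat_lit 2) (nat_lit 4) (nat_lit 309) (nat_lit 229) (nat_lit 182)) (XT.lf (nat_lit 0) (nat_lit 132974232057) (nat_lit 152) (nat_lit 22431276321) (nat_lit 0) (nat_lit 126474223125) (nat_lit 2) (nat_lit 5) (nat_lit 4) (nat_lit 4) (nat_lit 2) (nat_lit 4) (nat_lit 310) (nat_lit 229) (nat_lit 181))) (XT.nd (nat_lit 78) (nat_lit 0) (nat_lit 0) (XT.lf (nat_lit 0) (nat_lit 145913605921) (nat_lit 152) (nat_lit 18885099258)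 (nat_lit 0) (nat_lit 139401317594) (nat_lit 2) (nat_lit 5) (nat_lit 4) (nat_lit 4) (nat_lit 2) (nat_lit 4) (nat_lit 311) (nat_lit 229) (nat_lit 180)) (XT.lf (nat_lit 0) (nat_lit 159878532283) (nat_lit 152) (nat_lit 15073309921) (nat_lit 0) (nat_lit 153354874145) (nat_lit 2) (nat_lit 5) (nat_lit 4) (nat_lit 4) (nat_lit 2) (nat_lit 4) (nat_lit 312) (nat_lit 229) (nat_lit 179)))))) (XT.nd (nat_lit 468) (nat_lit 0) (nat_lit 0) (XT.nd (nat_lit 234) (nat_lit 76) (nat_lit 0) (XT.nd (nat_lit 78) (nat_lit 0) (nat_lit 0) (XT.lf (nat_lit 0) (nat_lit 174951766262) (nat_lit 152) (nat_lit 10973319929) (nat_lit 0) (nat_lit 168417580521) (nat_lit 2) (nat_lit 5) (nat_lit 4) (nat_lit 4) (nat_lit 2) (nat_lit 4) (nat_lit 313) (nat_lit 229) (nat_lit 178)) (XT.nd (nat_lit 78) (nat_lit 0) (nat_lit 0) (XT.lf (nat_lit 0) (nat_lit 191222630726) (nat_lit 152) (nat_lit 6560833045) (nat_lit 0) (nat_lit 184678697204)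 (nat_lit 2) (nat_lit 5) (nat_lit 4) (nat_lit 4) (nat_lit 2) (nat_lit 4) (nat_lit 314) (nat_lit 229) (nat_lit 177)) (XT.lf (nat_lit 0) (nat_lit 208787545612) (nat_lit 152) (nat_lit 1809701199) (nat_lit 0) (nat_lit 202234586368) (nat_lit 2) (nat_lit 5) (nat_lit 4) (nat_lit 4) (nat_lit 2) (nat_lit 4) (nat_lit 315) (nat_lit 229) (nat_lit 176)))) (XT.nd (nat_lit 78) (nat_lit 0) (nat_lit 0) (XT.lf (nat_lit 0) (nat_lit 3482436018) (nat_lit 76) (nat_lit 224351915956) (nat_lit 76) (nat_lit 217790599561) (nat_lit 1) (nat_lit 4) (nat_lit 2) (nat_lit 5) (nat_lit 2) (nat_lit 4) (nat_lit 316) (nat_lit 229) (nat_lit 175)) (XT.nd (nat_lit 78) (nat_lit 0) (nat_lit 0) (XT.lf (nat_lit 0) (nat_lit 9287909269) (nat_lit 76) (nat_lit 239159630627) (nat_lit 76) (nat_lit 232590576131) (nat_lit 1) (nat_lit 4) (nat_lit 2) (nat_lit 5) (nat_lit 2) (nat_lit 4) (nat_lit 317) (nat_lit 229) (nat_lit 174)) (XT.lf (nat_lit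 0) (nat_lit 15545825698) (nat_lit 76) (nat_lit 255157620684) (nat_lit 76) (nat_lit 248581401278) (nat_lit 1) (nat_lit 4) (nat_lit 2) (nat_lit 5) (nat_lit 2) (nat_lit 4) (nat_lit 318) (nat_lit 229) (nat_lit 173))))) (XT.nd (nat_lit 234) (nat_lit 0) (nat_lit 0) (XT.nd (nat_lit 78) (nat_lit 0) (nat_lit 0) (XT.lf (nat_lit 0) (nat_lit 22293269256) (nat_lit 76) (nat_lit 272440689030) (nat_lit 76) (nat_lit 265857835449) (nat_lit 1) (nat_lit 4) (nat_lit 2) (nat_lit 5) (nat_lit 2) (nat_lit 4) (nat_lit 319) (nat_lit 229) (nat_lit 172)) (XT.nd (nat_lit 78) (nat_lit 0) (nat_lit 0) (XT.lf (nat_lit 0) (nat_lit 29570224792) (nat_lit 76) (nat_lit 291111253848) (nat_lit 76) (nat_lit 284522257512) (nat_lit 1) (nat_lit 4) (nat_lit 2) (nat_lit 5) (nat_lit 2) (nat_lit 4) (nat_lit 320) (nat_lit 229) (nat_lit 171)) (XT.lf (nat_lit 0) (nat_lit 37419815007) (nat_lit 76) (nat_lit 311279955522) (nat_lit 76) (nat_lit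 304685271450) (nat_lit 1) (nat_lit 4) (nat_lit 2) (nat_lit 5) (nat_lit 2) (nat_lit 4) (nat_lit 321) (nat_lit 229) (nat_lit 170)))) (XT.nd (nat_lit 156) (nat_lit 0) (nat_lit 0) (XT.nd (nat_lit 78) (nat_lit 0) (nat_lit 0) (XT.lf (nat_lit 0) (nat_lit 45888555990) (nat_lit 76) (nat_lit 333066312285) (nat_lit 76) (nat_lit 326466361790) (nat_lit 1) (nat_lit 4) (nat_lit 2) (nat_lit 5) (nat_lit 2) (nat_lit 4) (nat_lit 322) (nat_lit 229) (nat_lit 169)) (XT.lf (nat_lit 0) (nat_lit 55026632874) (nat_lit 76) (nat_lit 356599428472) (nat_lit 76) (nat_lit 349994601660) (nat_lit 1) (nat_lit 4) (nat_lit 2) (nat_lit 5) (nat_lit 2) (nat_lit 4) (nat_lit 323) (nat_lit 229) (nat_lit 168))) (XT.nd (nat_lit 78) (nat_lit 0) (nat_lit 0) (XT.lf (nat_lit 0) (nat_lit 64888197224) (nat_lit 76) (nat_lit 382018759587) (nat_lit 76) (nat_lit 375409417667) (nat_lit 1) (nat_lit 4) (nat_lit 2) (nat_lit 5) (nat_lit 2) (nat_lit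 4) (nat_lit 324) (nat_lit 229) (nat_lit 167)) (XT.lf (nat_lit 0) (nat_lit 75531687941) (nat_lit 76) (nat_lit 409474938704) (nat_lit 76) (nat_lit 402861416128) (nat_lit 1) (nat_lit 4) (nat_lit 2) (nat_lit 5) (nat_lit 2) (nat_lit 4) (nat_lit 325) (nat_lit 229) (nat_lit 166))))))) (XT.nd (nat_lit 1014) (nat_lit 0) (nat_lit 0) (XT.nd (nat_lit 468) (nat_lit 0) (nat_lit 0) (XT.nd (nat_lit 234) (nat_lit 0) (nat_lit 0) (XT.nd (nat_lit 78) (nat_lit 0) (nat_lit 0) (XT.lf (nat_lit 0) (nat_lit 87020177563) (nat_lit 76) (nat_lit 439130669105) (nat_lit 76) (nat_lit 432513275551) (nat_lit 1) (nat_lit 4) (nat_lit 2) (nat_lit 5) (nat_lit 2) (nat_lit 4) (nat_lit 326) (nat_lit 229) (nat_lit 165)) (XT.nd (nat_lit 78) (nat_lit 0) (nat_lit 0) (XT.lf (nat_lit 0) (nat_lit 99421746027) (nat_lit 76) (nat_lit 471161688453) (nat_lit 76) (nat_lit 464540710661) (nat_lit 1) (nat_lit 4) (nat_lit 2) (nat_lit 5) (nat_lit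 2) (nat_lit 4) (nat_lit 327) (nat_lit 229) (nat_lit 164)) (XT.lf (nat_lit 0) (nat_lit 112809884110) (nat_lit 76) (nat_lit 505757810195) (nat_lit 76) (nat_lit 499133513664) (nat_lit 1) (nat_lit 4) (nat_lit 2) (nat_lit 5) (nat_lit 2) (nat_lit 4) (nat_lit 328) (nat_lit 229) (nat_lit 163)))) (XT.nd (nat_lit 78) (nat_lit 0) (nat_lit 0) (XT.lf (nat_lit 0) (nat_lit 127263928927) (nat_lit 76) (nat_lit 543124048387) (nat_lit 76) (nat_lit 536496678948) (nat_lit 1) (nat_lit 4) (nat_lit 2) (nat_lit 5) (nat_lit 2) (nat_lit 4) (nat_lit 329) (nat_lit 229) (nat_lit 162)) (XT.nd (nat_lit 78) (nat_lit 0) (nat_lit 0) (XT.lf (nat_lit 0) (nat_lit 142869534076) (nat_lit 76) (nat_lit 583481832588) (nat_lit 76) (nat_lit 576851617865) (nat_lit 1) (nat_lit 4) (nat_lit 2) (nat_lit 5) (nat_lit 2) (nat_lit 4) (nat_lit 330) (nat_lit 229) (nat_lit 161)) (XT.lf (nat_lit 0) (nat_lit 159719177218) (nat_lit 76) (nat_lit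 627070320037) (nat_lit 76) (nat_lit 620437470792) (nat_lit 1) (nat_lit 4) (nat_lit 2) (nat_lit 5) (nat_lit 2) (nat_lit 4) (nat_lit 331) (nat_lit 229) (nat_lit 160))))) (XT.nd (nat_lit 234) (nat_lit 0) (nat_lit 0) (XT.nd (nat_lit 78) (nat_lit 0) (nat_lit 0) (XT.lf (nat_lit 0) (nat_lit 177912708090) (nat_lit 76) (nat_lit 674147812883) (nat_lit 76) (nat_lit 667512524265) (nat_lit 1) (nat_lit 4) (nat_lit 2) (nat_lit 5) (nat_lit 2) (nat_lit 4) (nat_lit 332) (nat_lit 229) (nat_lit 159)) (XT.nd (nat_lit 78) (nat_lit 0) (nat_lit 0) (XT.lf (nat_lit 0) (nat_lit 197557940207) (nat_lit 76) (nat_lit 724993288860) (nat_lit 76) (nat_lit 718355741565) (nat_lit 1) (nat_lit 4) (nat_lit 2) (nat_lit 5) (nat_lit 2) (nat_lit 4) (nat_lit 333) (nat_lit 229) (nat_lit 158)) (XT.lf (nat_lit 0) (nat_lit 218771289761) (nat_lit 76) (nat_lit 779908054494) (nat_lit 76) (nat_lit 773268415830) (nat_lit 1) (nat_lit 4)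 (nat_lit 2) (nat_lit 5) (nat_lit 2) (nat_lit 4) (nat_lit 334) (nat_lit 229) (nat_lit 157)))) (XT.nd (nat_lit 156) (nat_lit 0) (nat_lit 0) (XT.nd (nat_lit 78) (nat_lit 0) (nat_lit 0) (XT.lf (nat_lit 0) (nat_lit 241678465489) (nat_lit 76) (nat_lit 839217530618) (nat_lit 76) (nat_lit 832575955501) (nat_lit 1) (nat_lit 4) (nat_lit 2) (nat_lit 5) (nat_lit 2) (nat_lit 4) (nat_lit 335) (nat_lit 229) (nat_lit 156)) (XT.lf (nat_lit 0) (nat_lit 266415213619) (nat_lit 76) (nat_lit 903273180793) (nat_lit 76) (nat_lit 896629812664) (nat_lit 1) (nat_lit 4) (nat_lit 2) (nat_lit 5) (nat_lit 2) (nat_lit 4) (nat_lit 336) (nat_lit 229) (nat_lit 155))) (XT.nd (nat_lit 78) (nat_lit 0) (nat_lit 0) (XT.lf (nat_lit 0) (nat_lit 293128122286) (nat_lit 76) (nat_lit 972454594058) (nat_lit 76) (nat_lit 965809565734) (nat_lit 1) (nat_lit 4) (nat_lit 2) (nat_lit 5) (nat_lit 2) (nat_lit 4) (nat_lit 337) (nat_lit 229)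 (nat_lit 154)) (XT.lf (nat_lit 0) (nat_lit 321975490209) (nat_lit 76) (nat_lit 1047171734344) (nat_lit 76) (nat_lit 1040525168801) (nat_lit 1) (nat_lit 4) (nat_lit 2) (nat_lit 5) (nat_lit 2) (nat_lit 4) (nat_lit 338) (nat_lit 229) (nat_lit 153)))))) (XT.nd (nat_lit 31512) (nat_lit 0) (nat_lit 760) (XT.nd (nat_lit 234) (nat_lit 0) (nat_lit 0) (XT.nd (nat_lit 78) (nat_lit 0) (nat_lit 0) (XT.lf (nat_lit 0) (nat_lit 353128264754) (nat_lit 76) (nat_lit 1127867369888) (nat_lit 76) (nat_lit 1121219380995) (nat_lit 1) (nat_lit 4) (nat_lit 2) (nat_lit 5) (nat_lit 2) (nat_lit 4) (nat_lit 339) (nat_lit 229) (nat_lit 152)) (XT.nd (nat_lit 78) (nat_lit 0) (nat_lit 0) (XT.lf (nat_lit 0) (nat_lit 386771054954) (nat_lit 76) (nat_lit 1215019697051) (nat_lit 76) (nat_lit 1208370390240) (nat_lit 1) (nat_lit 4) (nat_lit 2) (nat_lit 5) (nat_lit 2) (nat_lit 4) (nat_lit 340) (nat_lit 229) (nat_lit 151)) (XT.lf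 (nat_lit 0) (nat_lit 423103225494) (nat_lit 76) (nat_lit 1309145174066) (nat_lit 76) (nat_lit 1302494646962) (nat_lit 1) (nat_lit 4) (nat_lit 2) (nat_lit 5) (nat_lit 2) (nat_lit 4) (nat_lit 341) (nat_lit 229) (nat_lit 150)))) (XT.nd (nat_lit 31122) (nat_lit 0) (nat_lit 1368) (XT.nd (nat_lit 78) (nat_lit 0) (nat_lit 0) (XT.lf (nat_lit 0) (nat_lit 462340078123) (nat_lit 76) (nat_lit 1410801581539) (nat_lit 76) (nat_lit 1404149924533) (nat_lit 1) (nat_lit 4) (nat_lit 2) (nat_lit 5) (nat_lit 2) (nat_lit 4) (nat_lit 342) (nat_lit 229) (nat_lit 149)) (XT.lf (nat_lit 0) (nat_lit 504714127524) (nat_lit 76) (nat_lit 1520591327809) (nat_lit 76) (nat_lit 1513938624599) (nat_lit 1) (nat_lit 4) (nat_lit 2) (nat_lit 5) (nat_lit 2) (nat_lit 4) (nat_lit 343) (nat_lit 229) (nat_lit 148))) (XT.nd (nat_lit 78) (nat_lit 0) (nat_lit 0) (XT.lf (nat_lit 0) (nat_lit 729918251) (nat_lit 228) (nat_lit 3540555367)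 (nat_lit 0) (nat_lit 729918251) (nat_lit 19) (nat_lit 5) (nat_lit 22) (nat_lit 4) (nat_lit 19) (nat_lit 4) (nat_lit 260) (nat_lit 230) (nat_lit 230)) (XT.lf (nat_lit 0) (nat_lit 5196314623) (nat_lit 228) (nat_lit 819809302) (nat_lit 0) (nat_lit 4412777115) (nat_lit 19) (nat_lit 5) (nat_lit 22) (nat_lit 4) (nat_lit 19) (nat_lit 4) (nat_lit 261) (nat_lit 230) (nat_lit 229))))) (XT.nd (nat_lit 234) (nat_lit 304) (nat_lit 0) (XT.nd (nat_lit 78) (nat_lit 152) (nat_lit 0) (XT.lf (nat_lit 0) (nat_lit 5904875225) (nat_lit 152) (nat_lit 3251100939) (nat_lit 152) (nat_lit 1742065739) (nat_lit 17) (nat_lit 4) (nat_lit 19) (nat_lit 5) (nat_lit 19) (nat_lit 4) (nat_lit 262) (nat_lit 230) (nat_lit 228)) (XT.nd (nat_lit 78) (nat_lit 0) (nat_lit 0) (XT.lf (nat_lit 0) (nat_lit 1500510785) (nat_lit 76) (nat_lit 269346478) (nat_lit 152) (nat_lit 9644081273) (nat_lit 15) (nat_lit 5) (nat_lit 16) (nat_lit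 5) (nat_lit 17) (nat_lit 4) (nat_lit 263) (nat_lit 230) (nat_lit 227)) (XT.lf (nat_lit 0) (nat_lit 5469342941) (nat_lit 152) (nat_lit 3624486602) (nat_lit 0) (nat_lit 2874167332) (nat_lit 15) (nat_lit 5) (nat_lit 17) (nat_lit 4) (nat_lit 15) (nat_lit 4) (nat_lit 264) (nat_lit 230) (nat_lit 226)))) (XT.nd (nat_lit 156) (nat_lit 76) (nat_lit 0) (XT.nd (nat_lit 78) (nat_lit 76) (nat_lit 0) (XT.lf (nat_lit 0) (nat_lit 2993482094) (nat_lit 152) (nat_lit 6355560637) (nat_lit 152) (nat_lit 3227122566) (nat_lit 13) (nat_lit 4) (nat_lit 15) (nat_lit 5) (nat_lit 15) (nat_lit 4) (nat_lit 265) (nat_lit 230) (nat_lit 225)) (XT.lf (nat_lit 0) (nat_lit 199416122) (nat_lit 228) (nat_lit 3207414074) (nat_lit 76) (nat_lit 9833330920) (nat_lit 12) (nat_lit 5) (nat_lit 15) (nat_lit 5) (nat_lit 13) (nat_lit 4) (nat_lit 266) (nat_lit 230) (nat_lit 224))) (XT.nd (nat_lit 78) (nat_lit 0) (nat_lit 0) (XT.lf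 (nat_lit 0) (nat_lit 3471964309) (nat_lit 76) (nat_lit 158492675) (nat_lit 152) (nat_lit 10328153132) (nat_lit 11) (nat_lit 5) (nat_lit 12) (nat_lit 5) (nat_lit 13) (nat_lit 4) (nat_lit 267) (nat_lit 230) (nat_lit 223)) (XT.lf (nat_lit 0) (nat_lit 7331266398) (nat_lit 152) (nat_lit 4241939215) (nat_lit 0) (nat_lit 3162093106) (nat_lit 11) (nat_lit 5) (nat_lit 13) (nat_lit 4) (nat_lit 11) (nat_lit 4) (nat_lit 268) (nat_lit 230) (nat_lit 222))))))))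
noncomputable def xc33 : XT := (XT.nd (nat_lit 2028) (nat_lit 76) (nat_lit 0) (XT.nd (nat_lit 1014) (nat_lit 228) (nat_lit 0) (XT.nd (nat_lit 468) (nat_lit 228) (nat_lit 0) (XT.nd (nat_lit 234) (nat_lit 76) (nat_lit 0) (XT.nd (nat_lit 78) (nat_lit 76) (nat_lit 0) (XT.lf (nat_lit 0) (nat_lit 2337683481) (nat_lit 76) (nat_lit 8888526988) (nat_lit 76) (nat_lit 4356424225) (nat_lit 10) (nat_lit 4) (nat_lit 11) (nat_lit 5) (nat_lit 11) (nat_lit 4) (nat_lit 269) (nat_lit 230) (nat_lit 221)) (XT.nd (nat_lit 78) (nat_lit 76) (nat_lit 0) (XT.lf (nat_lit 0) (nat_lit 9414459626) (nat_lit 76) (nat_lit 5977519755) (nat_lit 76) (nat_lit 1109371185) (nat_lit 10) (nat_lit 4) (nat_lit 11) (nat_lit 5) (nat_lit 11) (nat_lit 4) (nat_lit 270) (nat_lit 230) (nat_lit 220)) (XT.lf (nat_lit 0) (nat_lit 2128313251) (nat_lit 152) (nat_lit 752410531) (nat_lit 76) (nat_lit 14620447560) (nat_lit 9) (nat_lit 5) (nat_lit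 11) (nat_lit 5) (nat_lit 10) (nat_lit 4) (nat_lit 271) (nat_lit 230) (nat_lit 219)))) (XT.nd (nat_lit 78) (nat_lit 0) (nat_lit 0) (XT.lf (nat_lit 0) (nat_lit 5587579058) (nat_lit 152) (nat_lit 12464391491) (nat_lit 0) (nat_lit 525164975) (nat_lit 8) (nat_lit 5) (nat_lit 10) (nat_lit 4) (nat_lit 8) (nat_lit 4) (nat_lit 272) (nat_lit 230) (nat_lit 218)) (XT.nd (nat_lit 78) (nat_lit 0) (nat_lit 0) (XT.lf (nat_lit 0) (nat_lit 9283586432) (nat_lit 152) (nat_lit 6484865298) (nat_lit 0) (nat_lit 3974168649) (nat_lit 8) (nat_lit 5) (nat_lit 10) (nat_lit 4) (nat_lit 8) (nat_lit 4) (nat_lit 273) (nat_lit 230) (nat_lit 217)) (XT.lf (nat_lit 0) (nat_lit 13149413034) (nat_lit 152) (nat_lit 250937300) (nat_lit 0) (nat_lit 7611288121) (nat_lit 8) (nat_lit 5) (nat_lit 10) (nat_lit 4) (nat_lit 8) (nat_lit 4) (nat_lit 274) (nat_lit 230) (nat_lit 216))))) (XT.nd (nat_lit 234) (nat_lit 76) (nat_lit 0)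 (XT.nd (nat_lit 78) (nat_lit 76) (nat_lit 0) (XT.lf (nat_lit 0) (nat_lit 6604729621) (nat_lit 76) (nat_lit 10762081749) (nat_lit 76) (nat_lit 5012190976) (nat_lit 7) (nat_lit 4) (nat_lit 8) (nat_lit 5) (nat_lit 8) (nat_lit 4) (nat_lit 275) (nat_lit 230) (nat_lit 215)) (XT.nd (nat_lit 78) (nat_lit 76) (nat_lit 0) (XT.lf (nat_lit 0) (nat_lit 13821000173) (nat_lit 76) (nat_lit 7994695629) (nat_lit 76) (nat_lit 2048725355) (nat_lit 7) (nat_lit 4) (nat_lit 8) (nat_lit 5) (nat_lit 8) (nat_lit 4) (nat_lit 276) (nat_lit 230) (nat_lit 214)) (XT.lf (nat_lit 0) (nat_lit 986903078) (nat_lit 152) (nat_lit 4074766962) (nat_lit 76) (nat_lit 20413536768) (nat_lit 6) (nat_lit 5) (nat_lit 8) (nat_lit 5) (nat_lit 7) (nat_lit 4) (nat_lit 277) (nat_lit 230) (nat_lit 213)))) (XT.nd (nat_lit 156) (nat_lit 0) (nat_lit 0) (XT.nd (nat_lit 78) (nat_lit 0) (nat_lit 0) (XT.lf (nat_lit 0) (nat_lit 2252156797) (nat_lit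 76) (nat_lit 1857357015) (nat_lit 152) (nat_lit 23104852583) (nat_lit 5) (nat_lit 5) (nat_lit 6) (nat_lit 5) (nat_lit 7) (nat_lit 4) (nat_lit 278) (nat_lit 230) (nat_lit 212)) (XT.lf (nat_lit 0) (nat_lit 7536745635) (nat_lit 152) (nat_lit 19988337731) (nat_lit 0) (nat_lit 1563332521) (nat_lit 5) (nat_lit 5) (nat_lit 7) (nat_lit 4) (nat_lit 5) (nat_lit 4) (nat_lit 279) (nat_lit 230) (nat_lit 211))) (XT.nd (nat_lit 78) (nat_lit 0) (nat_lit 0) (XT.lf (nat_lit 0) (nat_lit 11195609828) (nat_lit 152) (nat_lit 14831566494) (nat_lit 0) (nat_lit 5088748301) (nat_lit 5) (nat_lit 5) (nat_lit 7) (nat_lit 4) (nat_lit 5) (nat_lit 4) (nat_lit 280) (nat_lit 230) (nat_lit 210)) (XT.lf (nat_lit 0) (nat_lit 15063119070) (nat_lit 152) (nat_lit 9416667760) (nat_lit 0) (nat_lit 8832694197) (nat_lit 5) (nat_lit 5) (nat_lit 7) (nat_lit 4) (nat_lit 5) (nat_lit 4) (nat_lit 281) (nat_lit 230) (nat_lit 209))))))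 (XT.nd (nat_lit 468) (nat_lit 152) (nat_lit 0) (XT.nd (nat_lit 234) (nat_lit 0) (nat_lit 0) (XT.nd (nat_lit 78) (nat_lit 76) (nat_lit 0) (XT.lf (nat_lit 0) (nat_lit 19162191934) (nat_lit 152) (nat_lit 3711553241) (nat_lit 0) (nat_lit 12817356555) (nat_lit 5) (nat_lit 5) (nat_lit 7) (nat_lit 4) (nat_lit 5) (nat_lit 4) (nat_lit 282) (nat_lit 230) (nat_lit 208)) (XT.nd (nat_lit 78) (nat_lit 0) (nat_lit 0) (XT.lf (nat_lit 0) (nat_lit 2439625075) (nat_lit 76) (nat_lit 21136167187) (nat_lit 76) (nat_lit 14685396155) (nat_lit 4) (nat_lit 4) (nat_lit 5) (nat_lit 5) (nat_lit 5) (nat_lit 4) (nat_lit 283) (nat_lit 230) (nat_lit 207)) (XT.lf (nat_lit 0) (nat_lit 9164943215) (nat_lit 76) (nat_lit 19209181799) (nat_lit 76) (nat_lit 12660322199) (nat_lit 4) (nat_lit 4) (nat_lit 5) (nat_lit 5) (nat_lit 5) (nat_lit 4) (nat_lit 284) (nat_lit 230) (nat_lit 206)))) (XT.nd (nat_lit 78) (nat_lit 0) (nat_lit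 0) (XT.lf (nat_lit 0) (nat_lit 16308811098) (nat_lit 76) (nat_lit 17182850279) (nat_lit 76) (nat_lit 10543167932) (nat_lit 4) (nat_lit 4) (nat_lit 5) (nat_lit 5) (nat_lit 5) (nat_lit 4) (nat_lit 285) (nat_lit 230) (nat_lit 205)) (XT.nd (nat_lit 78) (nat_lit 0) (nat_lit 0) (XT.lf (nat_lit 0) (nat_lit 23913562756) (nat_lit 76) (nat_lit 15045164739) (nat_lit 76) (nat_lit 8321387255) (nat_lit 4) (nat_lit 4) (nat_lit 5) (nat_lit 5) (nat_lit 5) (nat_lit 4) (nat_lit 286) (nat_lit 230) (nat_lit 204)) (XT.lf (nat_lit 0) (nat_lit 32024263385) (nat_lit 76) (nat_lit 12783457411) (nat_lit 76) (nat_lit 5981814060) (nat_lit 4) (nat_lit 4) (nat_lit 5) (nat_lit 5) (nat_lit 5) (nat_lit 4) (nat_lit 287) (nat_lit 230) (nat_lit 203))))) (XT.nd (nat_lit 234) (nat_lit 76) (nat_lit 0) (XT.nd (nat_lit 78) (nat_lit 76) (nat_lit 0) (XT.lf (nat_lit 0) (nat_lit 40688976396) (nat_lit 76) (nat_lit 10384325586) (nat_lit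 76) (nat_lit 3510584209) (nat_lit 4) (nat_lit 4) (nat_lit 5) (nat_lit 5) (nat_lit 5) (nat_lit 4) (nat_lit 288) (nat_lit 230) (nat_lit 202)) (XT.nd (nat_lit 78) (nat_lit 76) (nat_lit 0) (XT.lf (nat_lit 0) (nat_lit 49959048236) (nat_lit 76) (nat_lit 7833552186) (nat_lit 76) (nat_lit 893053378) (nat_lit 4) (nat_lit 4) (nat_lit 5) (nat_lit 5) (nat_lit 5) (nat_lit 4) (nat_lit 289) (nat_lit 230) (nat_lit 201)) (XT.lf (nat_lit 0) (nat_lit 1791929874) (nat_lit 152) (nat_lit 3275097104) (nat_lit 76) (nat_lit 58048488250) (nat_lit 3) (nat_lit 5) (nat_lit 5) (nat_lit 5) (nat_lit 4) (nat_lit 4) (nat_lit 290) (nat_lit 230) (nat_lit 200)))) (XT.nd (nat_lit 156) (nat_lit 0) (nat_lit 0) (XT.nd (nat_lit 78) (nat_lit 0) (nat_lit 0) (XT.lf (nat_lit 0) (nat_lit 2644055688) (nat_lit 76) (nat_lit 2021136941) (nat_lit 152) (nat_lit 63231031190) (nat_lit 2) (nat_lit 5) (nat_lit 3) (nat_lit 5) (nat_lit 4) (nat_lit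 4) (nat_lit 291) (nat_lit 230) (nat_lit 199)) (XT.lf (nat_lit 0) (nat_lit 7849275333) (nat_lit 152) (nat_lit 63940094528) (nat_lit 0) (nat_lit 1263590905) (nat_lit 2) (nat_lit 5) (nat_lit 4) (nat_lit 4) (nat_lit 2) (nat_lit 4) (nat_lit 292) (nat_lit 230) (nat_lit 198))) (XT.nd (nat_lit 78) (nat_lit 0) (nat_lit 0) (XT.lf (nat_lit 0) (nat_lit 11302230273) (nat_lit 152) (nat_lit 62647807690) (nat_lit 0) (nat_lit 4671111859) (nat_lit 2) (nat_lit 5) (nat_lit 4) (nat_lit 4) (nat_lit 2) (nat_lit 4) (nat_lit 293) (nat_lit 230) (nat_lit 197)) (XT.lf (nat_lit 0) (nat_lit 14995911012) (nat_lit 152) (nat_lit 61319041229) (nat_lit 0) (nat_lit 8322724093) (nat_lit 2) (nat_lit 5) (nat_lit 4) (nat_lit 4) (nat_lit 2) (nat_lit 4) (nat_lit 294) (nat_lit 230) (nat_lit 196))))))) (XT.nd (nat_lit 1014) (nat_lit 76) (nat_lit 0) (XT.nd (nat_lit 468) (nat_lit 0) (nat_lit 0) (XT.nd (nat_lit 234) (nat_lit 0)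 (nat_lit 0) (XT.nd (nat_lit 78) (nat_lit 0) (nat_lit 0) (XT.lf (nat_lit 0) (nat_lit 18952206028) (nat_lit 152) (nat_lit 59945920973) (nat_lit 0) (nat_lit 12240066789) (nat_lit 2) (nat_lit 5) (nat_lit 4) (nat_lit 4) (nat_lit 2) (nat_lit 4) (nat_lit 295) (nat_lit 230) (nat_lit 195)) (XT.nd (nat_lit 78) (nat_lit 0) (nat_lit 0) (XT.lf (nat_lit 0) (nat_lit 23194560032) (nat_lit 152) (nat_lit 58520309914) (nat_lit 0) (nat_lit 16446353830) (nat_lit 2) (nat_lit 5) (nat_lit 4) (nat_lit 4) (nat_lit 2) (nat_lit 4) (nat_lit 296) (nat_lit 230) (nat_lit 194)) (XT.lf (nat_lit 0) (nat_lit 27748112901) (nat_lit 152) (nat_lit 57033759985) (nat_lit 0) (nat_lit 20966511363) (nat_lit 2) (nat_lit 5) (nat_lit 4) (nat_lit 4) (nat_lit 2) (nat_lit 4) (nat_lit 297) (nat_lit 230) (nat_lit 193)))) (XT.nd (nat_lit 78) (nat_lit 0) (nat_lit 0) (XT.lf (nat_lit 0) (nat_lit 32639848650) (nat_lit 152) (nat_lit 55477462001)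 (nat_lit 0) (nat_lit 25827325505) (nat_lit 2) (nat_lit 5) (nat_lit 4) (nat_lit 4) (nat_lit 2) (nat_lit 4) (nat_lit 298) (nat_lit 230) (nat_lit 192)) (XT.nd (nat_lit 78) (nat_lit 0) (nat_lit 0) (XT.lf (nat_lit 0) (nat_lit 37898755344) (nat_lit 152) (nat_lit 53842193458) (nat_lit 0) (nat_lit 31057601082) (nat_lit 2) (nat_lit 5) (nat_lit 4) (nat_lit 4) (nat_lit 2) (nat_lit 4) (nat_lit 299) (nat_lit 230) (nat_lit 191)) (XT.lf (nat_lit 0) (nat_lit 43555996875) (nat_lit 152) (nat_lit 52118263873) (nat_lit 0) (nat_lit 36688332318) (nat_lit 2) (nat_lit 5) (nat_lit 4) (nat_lit 4) (nat_lit 2) (nat_lit 4) (nat_lit 300) (nat_lit 230) (nat_lit 190))))) (XT.nd (nat_lit 234) (nat_lit 0) (nat_lit 0) (XT.nd (nat_lit 78) (nat_lit 0) (nat_lit 0) (XT.lf (nat_lit 0) (nat_lit 49645097636) (nat_lit 152) (nat_lit 50295457369) (nat_lit 0) (nat_lit 42752886510) (nat_lit 2) (nat_lit 5) (nat_lit 4) (nat_lit 4)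 (nat_lit 2) (nat_lit 4) (nat_lit 301) (nat_lit 230) (nat_lit 189)) (XT.nd (nat_lit 78) (nat_lit 0) (nat_lit 0) (XT.lf (nat_lit 0) (nat_lit 56202141188) (nat_lit 152) (nat_lit 48362972128) (nat_lit 0) (nat_lit 49287201758) (nat_lit 2) (nat_lit 5) (nat_lit 4) (nat_lit 4) (nat_lit 2) (nat_lit 4) (nat_lit 302) (nat_lit 230) (nat_lit 188)) (XT.lf (nat_lit 0) (nat_lit 63265984085) (nat_lit 152) (nat_lit 46309356386) (nat_lit 0) (nat_lit 56329999928) (nat_lit 2) (nat_lit 5) (nat_lit 4) (nat_lit 4) (nat_lit 2) (nat_lit 4) (nat_lit 303) (nat_lit 230) (nat_lit 187)))) (XT.nd (nat_lit 156) (nat_lit 0) (nat_lit 0) (XT.nd (nat_lit 78) (nat_lit 0) (nat_lit 0) (XT.lf (nat_lit 0) (nat_lit 70878486136) (nat_lit 152) (nat_lit 44122440569) (nat_lit 0) (nat_lit 63923016122) (nat_lit 2) (nat_lit 5) (nat_lit 4) (nat_lit 4) (nat_lit 2) (nat_lit 4) (nat_lit 304) (nat_lit 230) (nat_lit 186)) (XT.lf (nat_lit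 0) (nat_lit 79084758465) (nat_lit 152) (nat_lit 41789265176) (nat_lit 0) (nat_lit 72111245990) (nat_lit 2) (nat_lit 5) (nat_lit 4) (nat_lit 4) (nat_lit 2) (nat_lit 4) (nat_lit 305) (nat_lit 230) (nat_lit 185))) (XT.nd (nat_lit 78) (nat_lit 0) (nat_lit 0) (XT.lf (nat_lit 0) (nat_lit 87933430835) (nat_lit 152) (nat_lit 39296003982) (nat_lit 0) (nat_lit 80943212377) (nat_lit 2) (nat_lit 5) (nat_lit 4) (nat_lit 4) (nat_lit 2) (nat_lit 4) (nat_lit 306) (nat_lit 230) (nat_lit 184)) (XT.lf (nat_lit 0) (nat_lit 97476939821) (nat_lit 152) (nat_lit 36627882105) (nat_lit 0) (nat_lit 90471252862) (nat_lit 2) (nat_lit 5) (nat_lit 4) (nat_lit 4) (nat_lit 2) (nat_lit 4) (nat_lit 307) (nat_lit 230) (nat_lit 183)))))) (XT.nd (nat_lit 546) (nat_lit 76) (nat_lit 0) (XT.nd (nat_lit 234) (nat_lit 0) (nat_lit 0) (XT.nd (nat_lit 78) (nat_lit 0) (nat_lit 0) (XT.lf (nat_lit 0) (nat_lit 107771839552) (nat_lit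 152) (nat_lit 33769088453) (nat_lit 0) (nat_lit 100751829905) (nat_lit 2) (nat_lit 5) (nat_lit 4) (nat_lit 4) (nat_lit 2) (nat_lit 4) (nat_lit 308) (nat_lit 230) (nat_lit 182)) (XT.nd (nat_lit 78) (nat_lit 0) (nat_lit 0) (XT.lf (nat_lit 0) (nat_lit 118879136840) (nat_lit 152) (nat_lit 30702682028) (nat_lit 0) (nat_lit 111845865446) (nat_lit 2) (nat_lit 5) (nat_lit 4) (nat_lit 4) (nat_lit 2) (nat_lit 4) (nat_lit 309) (nat_lit 230) (nat_lit 181)) (XT.lf (nat_lit 0) (nat_lit 130864652707) (nat_lit 152) (nat_lit 27410491530) (nat_lit 0) (nat_lit 123819101917) (nat_lit 2) (nat_lit 5) (nat_lit 4) (nat_lit 4) (nat_lit 2) (nat_lit 4) (nat_lit 310) (nat_lit 230) (nat_lit 180)))) (XT.nd (nat_lit 156) (nat_lit 0) (nat_lit 0) (XT.nd (nat_lit 78) (nat_lit 0) (nat_lit 0) (XT.lf (nat_lit 0) (nat_lit 143799412431) (nat_lit 152) (nat_lit 23873007684) (nat_lit 0) (nat_lit 136742491831) (nat_lit 2) (nat_lit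 5) (nat_lit 4) (nat_lit 4) (nat_lit 2) (nat_lit 4) (nat_lit 311) (nat_lit 230) (nat_lit 179)) (XT.lf (nat_lit 0) (nat_lit 157760066441) (nat_lit 152) (nat_lit 20069267622) (nat_lit 0) (nat_lit 150692618238) (nat_lit 2) (nat_lit 5) (nat_lit 4) (nat_lit 4) (nat_lit 2) (nat_lit 4) (nat_lit 312) (nat_lit 230) (nat_lit 178))) (XT.nd (nat_lit 78) (nat_lit 0) (nat_lit 0) (XT.lf (nat_lit 0) (nat_lit 172829344539) (nat_lit 152) (nat_lit 15976730663) (nat_lit 0) (nat_lit 165752148555) (nat_lit 2) (nat_lit 5) (nat_lit 4) (nat_lit 4) (nat_lit 2) (nat_lit 4) (nat_lit 313) (nat_lit 230) (nat_lit 177)) (XT.lf (nat_lit 0) (nat_lit 189096546149) (nat_lit 152) (nat_lit 11571144735) (nat_lit 0) (nat_lit 182010324443) (nat_lit 2) (nat_lit 5) (nat_lit 4) (nat_lit 4) (nat_lit 2) (nat_lit 4) (nat_lit 314) (nat_lit 230) (nat_lit 176))))) (XT.nd (nat_lit 234) (nat_lit 0) (nat_lit 0) (XT.nd (nat_lit 78) (nat_lit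 76) (nat_lit 0) (XT.lf (nat_lit 0) (nat_lit 206658069504) (nat_lit 152) (nat_lit 6826402662) (nat_lit 0) (nat_lit 199563490648) (nat_lit 2) (nat_lit 5) (nat_lit 4) (nat_lit 4) (nat_lit 2) (nat_lit 4) (nat_lit 315) (nat_lit 230) (nat_lit 175)) (XT.nd (nat_lit 78) (nat_lit 76) (nat_lit 0) (XT.lf (nat_lit 0) (nat_lit 225617982890) (nat_lit 152) (nat_lit 1714387455) (nat_lit 0) (nat_lit 218515665932) (nat_lit 2) (nat_lit 5) (nat_lit 4) (nat_lit 4) (nat_lit 2) (nat_lit 4) (nat_lit 316) (nat_lit 230) (nat_lit 174)) (XT.lf (nat_lit 0) (nat_lit 3995042516) (nat_lit 76) (nat_lit 242189679703) (nat_lit 76) (nat_lit 235080197835) (nat_lit 1) (nat_lit 4) (nat_lit 2) (nat_lit 5) (nat_lit 2) (nat_lit 4) (nat_lit 317) (nat_lit 230) (nat_lit 173)))) (XT.nd (nat_lit 156) (nat_lit 0) (nat_lit 0) (XT.nd (nat_lit 78) (nat_lit 0) (nat_lit 0) (XT.lf (nat_lit 0) (nat_lit 10247619432) (nat_lit 76) (nat_lit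 258190188550) (nat_lit 76) (nat_lit 251074072507) (nat_lit 1) (nat_lit 4) (nat_lit 2) (nat_lit 5) (nat_lit 2) (nat_lit 4) (nat_lit 318) (nat_lit 230) (nat_lit 172)) (XT.lf (nat_lit 0) (nat_lit 16990118997) (nat_lit 76) (nat_lit 275475589110) (nat_lit 76) (nat_lit 268353330312) (nat_lit 1) (nat_lit 4) (nat_lit 2) (nat_lit 5) (nat_lit 2) (nat_lit 4) (nat_lit 319) (nat_lit 230) (nat_lit 171))) (XT.nd (nat_lit 78) (nat_lit 0) (nat_lit 0) (XT.lf (nat_lit 0) (nat_lit 24262496762) (nat_lit 76) (nat_lit 294148313385) (nat_lit 76) (nat_lit 287020366851) (nat_lit 1) (nat_lit 4) (nat_lit 2) (nat_lit 5) (nat_lit 2) (nat_lit 4) (nat_lit 320) (nat_lit 230) (nat_lit 170)) (XT.lf (nat_lit 0) (nat_lit 32107848299) (nat_lit 76) (nat_lit 314319014557) (nat_lit 76) (nat_lit 307185801600) (nat_lit 1) (nat_lit 4) (nat_lit 2) (nat_lit 5) (nat_lit 2) (nat_lit 4) (nat_lit 321) (nat_lit 230) (nat_lit 169))))))))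
noncomputable def xc34 : XT := (XT.nd (nat_lit 32916) (nat_lit 0) (nat_lit 228) (XT.nd (nat_lit 1014) (nat_lit 0) (nat_lit 0) (XT.nd (nat_lit 468) (nat_lit 0) (nat_lit 0) (XT.nd (nat_lit 234) (nat_lit 0) (nat_lit 0) (XT.nd (nat_lit 78) (nat_lit 0) (nat_lit 0) (XT.lf (nat_lit 0) (nat_lit 40572664581) (nat_lit 76) (nat_lit 336107222706) (nat_lit 76) (nat_lit 328969133432) (nat_lit 1) (nat_lit 4) (nat_lit 2) (nat_lit 5) (nat_lit 2) (nat_lit 4) (nat_lit 322) (nat_lit 230) (nat_lit 168)) (XT.nd (nat_lit 78) (nat_lit 0) (nat_lit 0) (XT.lf (nat_lit 0) (nat_lit 49707107482) (nat_lit 76) (nat_lit 359642053139) (nat_lit 76) (nat_lit 352499448757) (nat_lit 1) (nat_lit 4) (nat_lit 2) (nat_lit 5) (nat_lit 2) (nat_lit 4) (nat_lit 323) (nat_lit 230) (nat_lit 167)) (XT.lf (nat_lit 0) (nat_lit 59565307034) (nat_lit 76) (nat_lit 385062971520) (nat_lit 76) (nat_lit 377916186482) (nat_lit 1) (nat_lit 4)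 (nat_lit 2) (nat_lit 5) (nat_lit 2) (nat_lit 4) (nat_lit 324) (nat_lit 230) (nat_lit 166)))) (XT.nd (nat_lit 78) (nat_lit 0) (nat_lit 0) (XT.lf (nat_lit 0) (nat_lit 70205682197) (nat_lit 76) (nat_lit 412520620326) (nat_lit 76) (nat_lit 405369964311) (nat_lit 1) (nat_lit 4) (nat_lit 2) (nat_lit 5) (nat_lit 2) (nat_lit 4) (nat_lit 325) (nat_lit 230) (nat_lit 165)) (XT.nd (nat_lit 78) (nat_lit 0) (nat_lit 0) (XT.lf (nat_lit 0) (nat_lit 81691287046) (nat_lit 76) (nat_lit 442177711552) (nat_lit 76) (nat_lit 435023471298) (nat_lit 1) (nat_lit 4) (nat_lit 2) (nat_lit 5) (nat_lit 2) (nat_lit 4) (nat_lit 326) (nat_lit 230) (nat_lit 164)) (XT.lf (nat_lit 0) (nat_lit 94090184424) (nat_lit 76) (nat_lit 474209990922) (nat_lit 76) (nat_lit 467052431929) (nat_lit 1) (nat_lit 4) (nat_lit 2) (nat_lit 5) (nat_lit 2) (nat_lit 4) (nat_lit 327) (nat_lit 230) (nat_lit 163))))) (XT.nd (nat_lit 234) (nat_lit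 0) (nat_lit 0) (XT.nd (nat_lit 78) (nat_lit 0) (nat_lit 0) (XT.lf (nat_lit 0) (nat_lit 107475849280) (nat_lit 76) (nat_lit 508807279352) (nat_lit 76) (nat_lit 501646647452) (nat_lit 1) (nat_lit 4) (nat_lit 2) (nat_lit 5) (nat_lit 2) (nat_lit 4) (nat_lit 328) (nat_lit 230) (nat_lit 162)) (XT.nd (nat_lit 78) (nat_lit 0) (nat_lit 0) (XT.lf (nat_lit 0) (nat_lit 121927604071) (nat_lit 76) (nat_lit 546174597810) (nat_lit 76) (nat_lit 539011120626) (nat_lit 1) (nat_lit 4) (nat_lit 2) (nat_lit 5) (nat_lit 2) (nat_lit 4) (nat_lit 329) (nat_lit 230) (nat_lit 161)) (XT.lf (nat_lit 0) (nat_lit 137531088827) (nat_lit 76) (nat_lit 586533382257) (nat_lit 76) (nat_lit 579367270550) (nat_lit 1) (nat_lit 4) (nat_lit 2) (nat_lit 5) (nat_lit 2) (nat_lit 4) (nat_lit 330) (nat_lit 230) (nat_lit 160)))) (XT.nd (nat_lit 156) (nat_lit 0) (nat_lit 0) (XT.nd (nat_lit 78) (nat_lit 0) (nat_lit 0) (XT.lf (nat_lit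 0) (nat_lit 154378768641) (nat_lit 76) (nat_lit 630122795860) (nat_lit 76) (nat_lit 622954244781) (nat_lit 1) (nat_lit 4) (nat_lit 2) (nat_lit 5) (nat_lit 2) (nat_lit 4) (nat_lit 331) (nat_lit 230) (nat_lit 159)) (XT.lf (nat_lit 0) (nat_lit 172570481616) (nat_lit 76) (nat_lit 677201146256) (nat_lit 76) (nat_lit 670030336499) (nat_lit 1) (nat_lit 4) (nat_lit 2) (nat_lit 5) (nat_lit 2) (nat_lit 4) (nat_lit 332) (nat_lit 230) (nat_lit 158))) (XT.nd (nat_lit 78) (nat_lit 0) (nat_lit 0) (XT.lf (nat_lit 0) (nat_lit 192214030497) (nat_lit 76) (nat_lit 728047416262) (nat_lit 76) (nat_lit 720874515136) (nat_lit 1) (nat_lit 4) (nat_lit 2) (nat_lit 5) (nat_lit 2) (nat_lit 4) (nat_lit 333) (nat_lit 230) (nat_lit 157)) (XT.lf (nat_lit 0) (nat_lit 213425821498) (nat_lit 76) (nat_lit 782962917107) (nat_lit 76) (nat_lit 775788079528) (nat_lit 1) (nat_lit 4) (nat_lit 2) (nat_lit 5) (nat_lit 2) (nat_lit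 4) (nat_lit 334) (nat_lit 230) (nat_lit 156)))))) (XT.nd (nat_lit 468) (nat_lit 0) (nat_lit 0) (XT.nd (nat_lit 234) (nat_lit 0) (nat_lit 0) (XT.nd (nat_lit 78) (nat_lit 0) (nat_lit 0) (XT.lf (nat_lit 0) (nat_lit 236331554122) (nat_lit 76) (nat_lit 842273073981) (nat_lit 76) (nat_lit 835096443391) (nat_lit 1) (nat_lit 4) (nat_lit 2) (nat_lit 5) (nat_lit 2) (nat_lit 4) (nat_lit 335) (nat_lit 230) (nat_lit 155)) (XT.nd (nat_lit 78) (nat_lit 0) (nat_lit 0) (XT.lf (nat_lit 0) (nat_lit 261066966043) (nat_lit 76) (nat_lit 906329354481) (nat_lit 76) (nat_lit 899151063695) (nat_lit 1) (nat_lit 4) (nat_lit 2) (nat_lit 5) (nat_lit 2) (nat_lit 4) (nat_lit 336) (nat_lit 230) (nat_lit 154)) (XT.lf (nat_lit 0) (nat_lit 287778637481) (nat_lit 76) (nat_lit 975511351381) (nat_lit 76) (nat_lit 968331523376) (nat_lit 1) (nat_lit 4) (nat_lit 2) (nat_lit 5) (nat_lit 2) (nat_lit 4) (nat_lit 337) (nat_lit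 230) (nat_lit 153)))) (XT.nd (nat_lit 78) (nat_lit 0) (nat_lit 0) (XT.lf (nat_lit 0) (nat_lit 316624859821) (nat_lit 76) (nat_lit 1050229032068) (nat_lit 76) (nat_lit 1043047780713) (nat_lit 1) (nat_lit 4) (nat_lit 2) (nat_lit 5) (nat_lit 2) (nat_lit 4) (nat_lit 338) (nat_lit 230) (nat_lit 152)) (XT.nd (nat_lit 78) (nat_lit 0) (nat_lit 0) (XT.lf (nat_lit 0) (nat_lit 347776573641) (nat_lit 76) (nat_lit 1130925167985) (nat_lit 76) (nat_lit 1123742598713) (nat_lit 1) (nat_lit 4) (nat_lit 2) (nat_lit 5) (nat_lit 2) (nat_lit 4) (nat_lit 339) (nat_lit 230) (nat_lit 151)) (XT.lf (nat_lit 0) (nat_lit 381418381689) (nat_lit 76) (nat_lit 1218077958455) (nat_lit 76) (nat_lit 1210894168889) (nat_lit 1) (nat_lit 4) (nat_lit 2) (nat_lit 5) (nat_lit 2) (nat_lit 4) (nat_lit 340) (nat_lit 230) (nat_lit 150))))) (XT.nd (nat_lit 31122) (nat_lit 0) (nat_lit 1216) (XT.nd (nat_lit 78) (nat_lit 0) (nat_lit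 0) (XT.lf (nat_lit 0) (nat_lit 417749642828) (nat_lit 76) (nat_lit 1312203864459) (nat_lit 76) (nat_lit 1305018944991) (nat_lit 1) (nat_lit 4) (nat_lit 2) (nat_lit 5) (nat_lit 2) (nat_lit 4) (nat_lit 341) (nat_lit 230) (nat_lit 149)) (XT.nd (nat_lit 30966) (nat_lit 0) (nat_lit 1748) (XT.lf (nat_lit 0) (nat_lit 456985653419) (nat_lit 76) (nat_lit 1413860669143) (nat_lit 76) (nat_lit 1406674703471) (nat_lit 1) (nat_lit 4) (nat_lit 2) (nat_lit 5) (nat_lit 2) (nat_lit 4) (nat_lit 342) (nat_lit 230) (nat_lit 148)) (XT.lf (nat_lit 0) (nat_lit 2242373179) (nat_lit 228) (nat_lit 136744962) (nat_lit 0) (nat_lit 2242373179) (nat_lit 24) (nat_lit 5) (nat_lit 27) (nat_lit 4) (nat_lit 24) (nat_lit 4) (nat_lit 258) (nat_lit 231) (nat_lit 231)))) (XT.nd (nat_lit 156) (nat_lit 152) (nat_lit 0) (XT.nd (nat_lit 78) (nat_lit 228) (nat_lit 0) (XT.lf (nat_lit 0) (nat_lit 6110370740) (nat_lit 152) (nat_lit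 2206031056) (nat_lit 152) (nat_lit 1292112907) (nat_lit 22) (nat_lit 4) (nat_lit 24) (nat_lit 5) (nat_lit 24) (nat_lit 4) (nat_lit 259) (nat_lit 231) (nat_lit 230)) (XT.lf (nat_lit 0) (nat_lit 2192995956) (nat_lit 228) (nat_lit 7253966186) (nat_lit 0) (nat_lit 563237940) (nat_lit 19) (nat_lit 5) (nat_lit 22) (nat_lit 4) (nat_lit 19) (nat_lit 4) (nat_lit 260) (nat_lit 231) (nat_lit 229))) (XT.nd (nat_lit 78) (nat_lit 152) (nat_lit 0) (XT.lf (nat_lit 0) (nat_lit 5824787912) (nat_lit 228) (nat_lit 1152716096) (nat_lit 0) (nat_lit 3469532204) (nat_lit 19) (nat_lit 5) (nat_lit 22) (nat_lit 4) (nat_lit 19) (nat_lit 4) (nat_lit 261) (nat_lit 231) (nat_lit 228)) (XT.lf (nat_lit 0) (nat_lit 5398438739) (nat_lit 152) (nat_lit 4276899272) (nat_lit 152) (nat_lit 1249886441) (nat_lit 17) (nat_lit 4) (nat_lit 19) (nat_lit 5) (nat_lit 19) (nat_lit 4) (nat_lit 262) (nat_lit 231) (nat_lit 227)))))))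 (XT.nd (nat_lit 1014) (nat_lit 228) (nat_lit 0) (XT.nd (nat_lit 468) (nat_lit 304) (nat_lit 0) (XT.nd (nat_lit 234) (nat_lit 152) (nat_lit 0) (XT.nd (nat_lit 78) (nat_lit 152) (nat_lit 0) (XT.lf (nat_lit 0) (nat_lit 768677277) (nat_lit 76) (nat_lit 1355210916) (nat_lit 152) (nat_lit 9325641174) (nat_lit 15) (nat_lit 5) (nat_lit 16) (nat_lit 5) (nat_lit 17) (nat_lit 4) (nat_lit 263) (nat_lit 231) (nat_lit 226)) (XT.nd (nat_lit 78) (nat_lit 152) (nat_lit 0) (XT.lf (nat_lit 0) (nat_lit 5703636657) (nat_lit 152) (nat_lit 4518121755) (nat_lit 0) (nat_lit 1791661078) (nat_lit 15) (nat_lit 5) (nat_lit 17) (nat_lit 4) (nat_lit 15) (nat_lit 4) (nat_lit 264) (nat_lit 231) (nat_lit 225)) (XT.lf (nat_lit 0) (nat_lit 1904320170) (nat_lit 152) (nat_lit 7566134731) (nat_lit 152) (nat_lit 3160397614) (nat_lit 13) (nat_lit 4) (nat_lit 15) (nat_lit 5) (nat_lit 15) (nat_lit 4) (nat_lit 265) (nat_lit 231)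 (nat_lit 224)))) (XT.nd (nat_lit 78) (nat_lit 76) (nat_lit 0) (XT.lf (nat_lit 0) (nat_lit 176854517) (nat_lit 228) (nat_lit 4495066331) (nat_lit 76) (nat_lit 8629875689) (nat_lit 12) (nat_lit 5) (nat_lit 15) (nat_lit 5) (nat_lit 13) (nat_lit 4) (nat_lit 266) (nat_lit 231) (nat_lit 223)) (XT.nd (nat_lit 78) (nat_lit 0) (nat_lit 0) (XT.lf (nat_lit 0) (nat_lit 1977908147) (nat_lit 76) (nat_lit 1514473011) (nat_lit 152) (nat_lit 10537291337) (nat_lit 11) (nat_lit 5) (nat_lit 12) (nat_lit 5) (nat_lit 13) (nat_lit 4) (nat_lit 267) (nat_lit 231) (nat_lit 222)) (XT.lf (nat_lit 0) (nat_lit 7082565687) (nat_lit 152) (nat_lit 5907852225) (nat_lit 0) (nat_lit 1824965232) (nat_lit 11) (nat_lit 5) (nat_lit 13) (nat_lit 4) (nat_lit 11) (nat_lit 4) (nat_lit 268) (nat_lit 231) (nat_lit 221))))) (XT.nd (nat_lit 234) (nat_lit 152) (nat_lit 0) (XT.nd (nat_lit 78) (nat_lit 76) (nat_lit 0) (XT.lf (nat_lit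 0) (nat_lit 454017978) (nat_lit 76) (nat_lit 10405954834) (nat_lit 76) (nat_lit 4812308572) (nat_lit 10) (nat_lit 4) (nat_lit 11) (nat_lit 5) (nat_lit 11) (nat_lit 4) (nat_lit 269) (nat_lit 231) (nat_lit 220)) (XT.nd (nat_lit 78) (nat_lit 76) (nat_lit 0) (XT.lf (nat_lit 0) (nat_lit 7410397394) (nat_lit 76) (nat_lit 7545564762) (nat_lit 76) (nat_lit 1640764976) (nat_lit 10) (nat_lit 4) (nat_lit 11) (nat_lit 5) (nat_lit 11) (nat_lit 4) (nat_lit 270) (nat_lit 231) (nat_lit 219)) (XT.lf (nat_lit 0) (nat_lit 1557083268) (nat_lit 152) (nat_lit 2954171702) (nat_lit 76) (nat_lit 13091755299) (nat_lit 9) (nat_lit 5) (nat_lit 11) (nat_lit 5) (nat_lit 10) (nat_lit 4) (nat_lit 271) (nat_lit 231) (nat_lit 218)))) (XT.nd (nat_lit 156) (nat_lit 76) (nat_lit 0) (XT.nd (nat_lit 78) (nat_lit 0) (nat_lit 0) (XT.lf (nat_lit 0) (nat_lit 3697212539) (nat_lit 76) (nat_lit 1185903536) (nat_lit 152) (nat_lit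 13806634115) (nat_lit 8) (nat_lit 5) (nat_lit 9) (nat_lit 5) (nat_lit 10) (nat_lit 4) (nat_lit 272) (nat_lit 231) (nat_lit 217)) (XT.lf (nat_lit 0) (nat_lit 8490092170) (nat_lit 152) (nat_lit 9092163666) (nat_lit 0) (nat_lit 2280210136) (nat_lit 8) (nat_lit 5) (nat_lit 10) (nat_lit 4) (nat_lit 8) (nat_lit 4) (nat_lit 273) (nat_lit 231) (nat_lit 216))) (XT.nd (nat_lit 78) (nat_lit 76) (nat_lit 0) (XT.lf (nat_lit 0) (nat_lit 12299890743) (nat_lit 152) (nat_lit 2957933091) (nat_lit 0) (nat_lit 5878242848) (nat_lit 8) (nat_lit 5) (nat_lit 10) (nat_lit 4) (nat_lit 8) (nat_lit 4) (nat_lit 274) (nat_lit 231) (nat_lit 215)) (XT.lf (nat_lit 0) (nat_lit 3658014791) (nat_lit 76) (nat_lit 12736527921) (nat_lit 76) (nat_lit 6118800525) (nat_lit 7) (nat_lit 4) (nat_lit 8) (nat_lit 5) (nat_lit 8) (nat_lit 4) (nat_lit 275) (nat_lit 231) (nat_lit 214)))))) (XT.nd (nat_lit 546) (nat_lit 76) (nat_lit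 0) (XT.nd (nat_lit 234) (nat_lit 76) (nat_lit 0) (XT.nd (nat_lit 78) (nat_lit 76) (nat_lit 0) (XT.lf (nat_lit 0) (nat_lit 10784309938) (nat_lit 76) (nat_lit 10008918292) (nat_lit 76) (nat_lit 3209635803) (nat_lit 7) (nat_lit 4) (nat_lit 8) (nat_lit 5) (nat_lit 8) (nat_lit 4) (nat_lit 276) (nat_lit 231) (nat_lit 213)) (XT.nd (nat_lit 78) (nat_lit 76) (nat_lit 0) (XT.lf (nat_lit 0) (nat_lit 18307422731) (nat_lit 76) (nat_lit 7139706468) (nat_lit 76) (nat_lit 172317411) (nat_lit 7) (nat_lit 4) (nat_lit 8) (nat_lit 5) (nat_lit 8) (nat_lit 4) (nat_lit 277) (nat_lit 231) (nat_lit 212)) (XT.lf (nat_lit 0) (nat_lit 2860523477) (nat_lit 152) (nat_lit 1173154452) (nat_lit 76) (nat_lit 23333199320) (nat_lit 6) (nat_lit 5) (nat_lit 8) (nat_lit 5) (nat_lit 7) (nat_lit 4) (nat_lit 278) (nat_lit 231) (nat_lit 211)))) (XT.nd (nat_lit 156) (nat_lit 0) (nat_lit 0) (XT.nd (nat_lit 78) (nat_lit 0) (nat_lit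 0) (XT.lf (nat_lit 0) (nat_lit 5578211971) (nat_lit 76) (nat_lit 597451270) (nat_lit 152) (nat_lit 23074294129) (nat_lit 5) (nat_lit 5) (nat_lit 6) (nat_lit 5) (nat_lit 7) (nat_lit 4) (nat_lit 279) (nat_lit 231) (nat_lit 210)) (XT.lf (nat_lit 0) (nat_lit 9779743291) (nat_lit 152) (nat_lit 18574843042) (nat_lit 0) (nat_lit 2927321082) (nat_lit 5) (nat_lit 5) (nat_lit 7) (nat_lit 4) (nat_lit 5) (nat_lit 4) (nat_lit 280) (nat_lit 231) (nat_lit 209))) (XT.nd (nat_lit 78) (nat_lit 0) (nat_lit 0) (XT.lf (nat_lit 0) (nat_lit 13609830842) (nat_lit 152) (nat_lit 13228682824) (nat_lit 0) (nat_lit 6642998127) (nat_lit 5) (nat_lit 5) (nat_lit 7) (nat_lit 4) (nat_lit 5) (nat_lit 4) (nat_lit 281) (nat_lit 231) (nat_lit 208)) (XT.lf (nat_lit 0) (nat_lit 17674253991) (nat_lit 152) (nat_lit 7587215080) (nat_lit 0) (nat_lit 10601485624) (nat_lit 5) (nat_lit 5) (nat_lit 7) (nat_lit 4) (nat_lit 5) (nat_lit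 4) (nat_lit 282) (nat_lit 231) (nat_lit 207))))) (XT.nd (nat_lit 234) (nat_lit 0) (nat_lit 0) (XT.nd (nat_lit 78) (nat_lit 76) (nat_lit 0) (XT.lf (nat_lit 0) (nat_lit 21997098210) (nat_lit 152) (nat_lit 1617008888) (nat_lit 0) (nat_lit 14826241275) (nat_lit 5) (nat_lit 5) (nat_lit 7) (nat_lit 4) (nat_lit 5) (nat_lit 4) (nat_lit 283) (nat_lit 231) (nat_lit 206)) (XT.nd (nat_lit 78) (nat_lit 0) (nat_lit 0) (XT.lf (nat_lit 0) (nat_lit 4965720184) (nat_lit 76) (nat_lit 21757685859) (nat_lit 76) (nat_lit 14496006176) (nat_lit 4) (nat_lit 4) (nat_lit 5) (nat_lit 5) (nat_lit 5) (nat_lit 4) (nat_lit 284) (nat_lit 231) (nat_lit 205)) (XT.lf (nat_lit 0) (nat_lit 12056402656) (nat_lit 76) (nat_lit 19755754580) (nat_lit 76) (nat_lit 12409979760) (nat_lit 4) (nat_lit 4) (nat_lit 5) (nat_lit 5) (nat_lit 5) (nat_lit 4) (nat_lit 285) (nat_lit 231) (nat_lit 204)))) (XT.nd (nat_lit 156) (nat_lit 0) (nat_lit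 0) (XT.nd (nat_lit 78) (nat_lit 0) (nat_lit 0) (XT.lf (nat_lit 0) (nat_lit 19611908563) (nat_lit 76) (nat_lit 17640661855) (nat_lit 76) (nat_lit 10217021168) (nat_lit 4) (nat_lit 4) (nat_lit 5) (nat_lit 5) (nat_lit 5) (nat_lit 4) (nat_lit 286) (nat_lit 231) (nat_lit 203)) (XT.lf (nat_lit 0) (nat_lit 27677011275) (nat_lit 76) (nat_lit 15399873801) (nat_lit 76) (nat_lit 7904135088) (nat_lit 4) (nat_lit 4) (nat_lit 5) (nat_lit 5) (nat_lit 5) (nat_lit 4) (nat_lit 287) (nat_lit 231) (nat_lit 202))) (XT.nd (nat_lit 78) (nat_lit 0) (nat_lit 0) (XT.lf (nat_lit 0) (nat_lit 36299503991) (nat_lit 76) (nat_lit 13020111673) (nat_lit 76) (nat_lit 5457615530) (nat_lit 4) (nat_lit 4) (nat_lit 5) (nat_lit 5) (nat_lit 5) (nat_lit 4) (nat_lit 288) (nat_lit 231) (nat_lit 201)) (XT.lf (nat_lit 0) (nat_lit 45530482966) (nat_lit 76) (nat_lit 10487273178) (nat_lit 76) (nat_lit 2862964599) (nat_lit 4) (nat_lit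 4) (nat_lit 5) (nat_lit 5) (nat_lit 5) (nat_lit 4) (nat_lit 289) (nat_lit 231) (nat_lit 200))))))))
noncomputable def xc35 : XT := (XT.nd (nat_lit 2028) (nat_lit 76) (nat_lit 0) (XT.nd (nat_lit 1014) (nat_lit 0) (nat_lit 0) (XT.nd (nat_lit 468) (nat_lit 0) (nat_lit 0) (XT.nd (nat_lit 234) (nat_lit 0) (nat_lit 0) (XT.nd (nat_lit 78) (nat_lit 152) (nat_lit 0) (XT.lf (nat_lit 0) (nat_lit 55424650297) (nat_lit 76) (nat_lit 7786348903) (nat_lit 76) (nat_lit 104806586) (nat_lit 4) (nat_lit 4) (nat_lit 5) (nat_lit 5) (nat_lit 5) (nat_lit 4) (nat_lit 290) (nat_lit 231) (nat_lit 199)) (XT.nd (nat_lit 78) (nat_lit 76) (nat_lit 0) (XT.lf (nat_lit 0) (nat_lit 2691474851) (nat_lit 152) (nat_lit 2136268826) (nat_lit 76) (nat_lit 63275573542) (nat_lit 3) (nat_lit 5) (nat_lit 5) (nat_lit 5) (nat_lit 4) (nat_lit 4) (nat_lit 291) (nat_lit 231) (nat_lit 198)) (XT.lf (nat_lit 0) (nat_lit 4220951985) (nat_lit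 76) (nat_lit 1550469749) (nat_lit 152) (nat_lit 67496984839) (nat_lit 2) (nat_lit 5) (nat_lit 3) (nat_lit 5) (nat_lit 4) (nat_lit 4) (nat_lit 292) (nat_lit 231) (nat_lit 197)))) (XT.nd (nat_lit 78) (nat_lit 0) (nat_lit 0) (XT.lf (nat_lit 0) (nat_lit 9170015437) (nat_lit 152) (nat_lit 67750043975) (nat_lit 0) (nat_lit 1920905059) (nat_lit 2) (nat_lit 5) (nat_lit 4) (nat_lit 4) (nat_lit 2) (nat_lit 4) (nat_lit 293) (nat_lit 231) (nat_lit 196)) (XT.nd (nat_lit 78) (nat_lit 0) (nat_lit 0) (XT.lf (nat_lit 0) (nat_lit 12847888396) (nat_lit 152) (nat_lit 66451059977) (nat_lit 0) (nat_lit 5559825698) (nat_lit 2) (nat_lit 5) (nat_lit 4) (nat_lit 4) (nat_lit 2) (nat_lit 4) (nat_lit 294) (nat_lit 231) (nat_lit 195)) (XT.lf (nat_lit 0) (nat_lit 16789546579) (nat_lit 152) (nat_lit 65105516075) (nat_lit 0) (nat_lit 9465416918) (nat_lit 2) (nat_lit 5) (nat_lit 4) (nat_lit 4) (nat_lit 2) (nat_lit 4)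 (nat_lit 295) (nat_lit 231) (nat_lit 194))))) (XT.nd (nat_lit 234) (nat_lit 0) (nat_lit 0) (XT.nd (nat_lit 78) (nat_lit 0) (nat_lit 0) (XT.lf (nat_lit 0) (nat_lit 21018347960) (nat_lit 152) (nat_lit 63705438676) (nat_lit 0) (nat_lit 13660822964) (nat_lit 2) (nat_lit 5) (nat_lit 4) (nat_lit 4) (nat_lit 2) (nat_lit 4) (nat_lit 296) (nat_lit 231) (nat_lit 193)) (XT.nd (nat_lit 78) (nat_lit 0) (nat_lit 0) (XT.lf (nat_lit 0) (nat_lit 25559352103) (nat_lit 152) (nat_lit 62242531026) (nat_lit 0) (nat_lit 18170905500) (nat_lit 2) (nat_lit 5) (nat_lit 4) (nat_lit 4) (nat_lit 2) (nat_lit 4) (nat_lit 297) (nat_lit 231) (nat_lit 192)) (XT.lf (nat_lit 0) (nat_lit 30439468663) (nat_lit 152) (nat_lit 60708124042) (nat_lit 0) (nat_lit 23022390941) (nat_lit 2) (nat_lit 5) (nat_lit 4) (nat_lit 4) (nat_lit 2) (nat_lit 4) (nat_lit 298) (nat_lit 231) (nat_lit 191)))) (XT.nd (nat_lit 156) (nat_lit 0) (nat_lit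 0) (XT.nd (nat_lit 78) (nat_lit 0) (nat_lit 0) (XT.lf (nat_lit 0) (nat_lit 35687616848) (nat_lit 152) (nat_lit 59093124942) (nat_lit 0) (nat_lit 28244028832) (nat_lit 2) (nat_lit 5) (nat_lit 4) (nat_lit 4) (nat_lit 2) (nat_lit 4) (nat_lit 299) (nat_lit 231) (nat_lit 190)) (XT.lf (nat_lit 0) (nat_lit 41334896796) (nat_lit 152) (nat_lit 57387963361) (nat_lit 0) (nat_lit 33866762211) (nat_lit 2) (nat_lit 5) (nat_lit 4) (nat_lit 4) (nat_lit 2) (nat_lit 4) (nat_lit 300) (nat_lit 231) (nat_lit 189))) (XT.nd (nat_lit 78) (nat_lit 0) (nat_lit 0) (XT.lf (nat_lit 0) (nat_lit 47414773869) (nat_lit 152) (nat_lit 55582534637) (nat_lit 0) (nat_lit 39923910980) (nat_lit 2) (nat_lit 5) (nat_lit 4) (nat_lit 4) (nat_lit 2) (nat_lit 4) (nat_lit 301) (nat_lit 231) (nat_lit 188)) (XT.lf (nat_lit 0) (nat_lit 53963276970) (nat_lit 152) (nat_lit 53666139934) (nat_lit 0) (nat_lit 46451369354) (nat_lit 2) (nat_lit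 5) (nat_lit 4) (nat_lit 4) (nat_lit 2) (nat_lit 4) (nat_lit 302) (nat_lit 231) (nat_lit 187)))))) (XT.nd (nat_lit 468) (nat_lit 0) (nat_lit 0) (XT.nd (nat_lit 234) (nat_lit 0) (nat_lit 0) (XT.nd (nat_lit 78) (nat_lit 0) (nat_lit 0) (XT.lf (nat_lit 0) (nat_lit 61019212041) (nat_lit 152) (nat_lit 51627422839) (nat_lit 0) (nat_lit 53487818568) (nat_lit 2) (nat_lit 5) (nat_lit 4) (nat_lit 4) (nat_lit 2) (nat_lit 4) (nat_lit 303) (nat_lit 231) (nat_lit 186)) (XT.nd (nat_lit 78) (nat_lit 0) (nat_lit 0) (XT.lf (nat_lit 0) (nat_lit 68624392032) (nat_lit 152) (nat_lit 49454302065) (nat_lit 0) (nat_lit 61074956098) (nat_lit 2) (nat_lit 5) (nat_lit 4) (nat_lit 4) (nat_lit 2) (nat_lit 4) (nat_lit 304) (nat_lit 231) (nat_lit 185)) (XT.lf (nat_lit 0) (nat_lit 76823884675) (nat_lit 152) (nat_lit 47133899859) (nat_lit 0) (nat_lit 69257742759) (nat_lit 2) (nat_lit 5) (nat_lit 4) (nat_lit 4) (nat_lit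 2) (nat_lit 4) (nat_lit 305) (nat_lit 231) (nat_lit 184)))) (XT.nd (nat_lit 78) (nat_lit 0) (nat_lit 0) (XT.lf (nat_lit 0) (nat_lit 85666279558) (nat_lit 152) (nat_lit 44652465690) (nat_lit 0) (nat_lit 78084669139) (nat_lit 2) (nat_lit 5) (nat_lit 4) (nat_lit 4) (nat_lit 2) (nat_lit 4) (nat_lit 306) (nat_lit 231) (nat_lit 183)) (XT.nd (nat_lit 78) (nat_lit 0) (nat_lit 0) (XT.lf (nat_lit 0) (nat_lit 95203976057) (nat_lit 152) (nat_lit 41995294763) (nat_lit 0) (nat_lit 87608042951) (nat_lit 2) (nat_lit 5) (nat_lit 4) (nat_lit 4) (nat_lit 2) (nat_lit 4) (nat_lit 307) (nat_lit 231) (nat_lit 182)) (XT.lf (nat_lit 0) (nat_lit 105493493854) (nat_lit 152) (nat_lit 39146640880) (nat_lit 0) (nat_lit 97884299001) (nat_lit 2) (nat_lit 5) (nat_lit 4) (nat_lit 4) (nat_lit 2) (nat_lit 4) (nat_lit 308) (nat_lit 231) (nat_lit 181))))) (XT.nd (nat_lit 234) (nat_lit 0) (nat_lit 0) (XT.nd (nat_lit 78)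 (nat_lit 0) (nat_lit 0) (XT.lf (nat_lit 0) (nat_lit 116595807871) (nat_lit 152) (nat_lit 36089623128) (nat_lit 0) (nat_lit 108974333622) (nat_lit 2) (nat_lit 5) (nat_lit 4) (nat_lit 4) (nat_lit 2) (nat_lit 4) (nat_lit 309) (nat_lit 231) (nat_lit 180)) (XT.nd (nat_lit 78) (nat_lit 0) (nat_lit 0) (XT.lf (nat_lit 0) (nat_lit 128576709597) (nat_lit 152) (nat_lit 32806125848) (nat_lit 0) (nat_lit 120943865538) (nat_lit 2) (nat_lit 5) (nat_lit 4) (nat_lit 4) (nat_lit 2) (nat_lit 4) (nat_lit 310) (nat_lit 231) (nat_lit 179)) (XT.lf (nat_lit 0) (nat_lit 141507196970) (nat_lit 152) (nat_lit 29276691277) (nat_lit 0) (nat_lit 133863825308) (nat_lit 2) (nat_lit 5) (nat_lit 4) (nat_lit 4) (nat_lit 2) (nat_lit 4) (nat_lit 311) (nat_lit 231) (nat_lit 178)))) (XT.nd (nat_lit 156) (nat_lit 0) (nat_lit 0) (XT.nd (nat_lit 78) (nat_lit 0) (nat_lit 0) (XT.lf (nat_lit 0) (nat_lit 155463895098) (nat_lit 152)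 (nat_lit 25480404247) (nat_lit 0) (nat_lit 147810775656) (nat_lit 2) (nat_lit 5) (nat_lit 4) (nat_lit 4) (nat_lit 2) (nat_lit 4) (nat_lit 312) (nat_lit 231) (nat_lit 177)) (XT.lf (nat_lit 0) (nat_lit 170529510342) (nat_lit 152) (nat_lit 21394768243) (nat_lit 0) (nat_lit 162867365177) (nat_lit 2) (nat_lit 5) (nat_lit 4) (nat_lit 4) (nat_lit 2) (nat_lit 4) (nat_lit 313) (nat_lit 231) (nat_lit 176))) (XT.nd (nat_lit 78) (nat_lit 0) (nat_lit 0) (XT.lf (nat_lit 0) (nat_lit 186793320422) (nat_lit 152) (nat_lit 16995572089) (nat_lit 0) (nat_lit 179122818107) (nat_lit 2) (nat_lit 5) (nat_lit 4) (nat_lit 4) (nat_lit 2) (nat_lit 4) (nat_lit 314) (nat_lit 231) (nat_lit 175)) (XT.lf (nat_lit 0) (nat_lit 204351703470) (nat_lit 152) (nat_lit 12256746474) (nat_lit 0) (nat_lit 196673463053) (nat_lit 2) (nat_lit 5) (nat_lit 4) (nat_lit 4) (nat_lit 2) (nat_lit 4) (nat_lit 315) (nat_lit 231) (nat_lit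 174))))))) (XT.nd (nat_lit 1014) (nat_lit 0) (nat_lit 0) (XT.nd (nat_lit 468) (nat_lit 0) (nat_lit 0) (XT.nd (nat_lit 234) (nat_lit 0) (nat_lit 0) (XT.nd (nat_lit 78) (nat_lit 76) (nat_lit 0) (XT.lf (nat_lit 0) (nat_lit 223308709166) (nat_lit 152) (nat_lit 7150209468) (nat_lit 0) (nat_lit 215623303839) (nat_lit 2) (nat_lit 5) (nat_lit 4) (nat_lit 4) (nat_lit 2) (nat_lit 4) (nat_lit 316) (nat_lit 231) (nat_lit 173)) (XT.nd (nat_lit 78) (nat_lit 76) (nat_lit 0) (XT.lf (nat_lit 0) (nat_lit 243776675319) (nat_lit 152) (nat_lit 1645700112) (nat_lit 0) (nat_lit 236084635817) (nat_lit 2) (nat_lit 5) (nat_lit 4) (nat_lit 4) (nat_lit 2) (nat_lit 4) (nat_lit 317) (nat_lit 231) (nat_lit 172)) (XT.lf (nat_lit 0) (nat_lit 4515273159) (nat_lit 76) (nat_lit 261470212850) (nat_lit 76) (nat_lit 253772030593) (nat_lit 1) (nat_lit 4) (nat_lit 2) (nat_lit 5) (nat_lit 2) (nat_lit 4) (nat_lit 318) (nat_lit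 231) (nat_lit 171)))) (XT.nd (nat_lit 78) (nat_lit 0) (nat_lit 0) (XT.lf (nat_lit 0) (nat_lit 11253194952) (nat_lit 76) (nat_lit 278757772867) (nat_lit 76) (nat_lit 271053902874) (nat_lit 1) (nat_lit 4) (nat_lit 2) (nat_lit 5) (nat_lit 2) (nat_lit 4) (nat_lit 319) (nat_lit 231) (nat_lit 170)) (XT.nd (nat_lit 78) (nat_lit 0) (nat_lit 0) (XT.lf (nat_lit 0) (nat_lit 18521334040) (nat_lit 76) (nat_lit 297432496639) (nat_lit 76) (nat_lit 289723360224) (nat_lit 1) (nat_lit 4) (nat_lit 2) (nat_lit 5) (nat_lit 2) (nat_lit 4) (nat_lit 320) (nat_lit 231) (nat_lit 169)) (XT.lf (nat_lit 0) (nat_lit 26362760876) (nat_lit 76) (nat_lit 317605049197) (nat_lit 76) (nat_lit 309891036465) (nat_lit 1) (nat_lit 4) (nat_lit 2) (nat_lit 5) (nat_lit 2) (nat_lit 4) (nat_lit 321) (nat_lit 231) (nat_lit 168))))) (XT.nd (nat_lit 234) (nat_lit 0) (nat_lit 0) (XT.nd (nat_lit 78) (nat_lit 0) (nat_lit 0) (XT.lf (nat_lit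 0) (nat_lit 34823943176) (nat_lit 76) (nat_lit 339394971593) (nat_lit 76) (nat_lit 331676443752) (nat_lit 1) (nat_lit 4) (nat_lit 2) (nat_lit 5) (nat_lit 2) (nat_lit 4) (nat_lit 322) (nat_lit 231) (nat_lit 167)) (XT.nd (nat_lit 78) (nat_lit 0) (nat_lit 0) (XT.lf (nat_lit 0) (nat_lit 43955021278) (nat_lit 76) (nat_lit 362931389292) (nat_lit 76) (nat_lit 355208680795) (nat_lit 1) (nat_lit 4) (nat_lit 2) (nat_lit 5) (nat_lit 2) (nat_lit 4) (nat_lit 323) (nat_lit 231) (nat_lit 166)) (XT.lf (nat_lit 0) (nat_lit 53810105275) (nat_lit 76) (nat_lit 388353777363) (nat_lit 76) (nat_lit 380627197888) (nat_lit 1) (nat_lit 4) (nat_lit 2) (nat_lit 5) (nat_lit 2) (nat_lit 4) (nat_lit 324) (nat_lit 231) (nat_lit 165)))) (XT.nd (nat_lit 156) (nat_lit 0) (nat_lit 0) (XT.nd (nat_lit 78) (nat_lit 0) (nat_lit 0) (XT.lf (nat_lit 0) (nat_lit 64447595666) (nat_lit 76) (nat_lit 415812786993) (nat_lit 76) (nat_lit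 408082623281) (nat_lit 1) (nat_lit 4) (nat_lit 2) (nat_lit 5) (nat_lit 2) (nat_lit 4) (nat_lit 325) (nat_lit 231) (nat_lit 164)) (XT.lf (nat_lit 0) (nat_lit 75930529429) (nat_lit 76) (nat_lit 445471138241) (nat_lit 76) (nat_lit 437737655789) (nat_lit 1) (nat_lit 4) (nat_lit 2) (nat_lit 5) (nat_lit 2) (nat_lit 4) (nat_lit 326) (nat_lit 231) (nat_lit 163))) (XT.nd (nat_lit 78) (nat_lit 0) (nat_lit 0) (XT.lf (nat_lit 0) (nat_lit 88326953580) (nat_lit 76) (nat_lit 477504584299) (nat_lit 76) (nat_lit 469768028940) (nat_lit 1) (nat_lit 4) (nat_lit 2) (nat_lit 5) (nat_lit 2) (nat_lit 4) (nat_lit 327) (nat_lit 231) (nat_lit 162)) (XT.lf (nat_lit 0) (nat_lit 101710328411) (nat_lit 76) (nat_lit 512102952995) (nat_lit 76) (nat_lit 504363552352) (nat_lit 1) (nat_lit 4) (nat_lit 2) (nat_lit 5) (nat_lit 2) (nat_lit 4) (nat_lit 328) (nat_lit 231) (nat_lit 161)))))) (XT.nd (nat_lit 546) (nat_lit 0)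 (nat_lit 0) (XT.nd (nat_lit 234) (nat_lit 0) (nat_lit 0) (XT.nd (nat_lit 78) (nat_lit 0) (nat_lit 0) (XT.lf (nat_lit 0) (nat_lit 116159962808) (nat_lit 76) (nat_lit 549471271700) (nat_lit 76) (nat_lit 541729236534) (nat_lit 1) (nat_lit 4) (nat_lit 2) (nat_lit 5) (nat_lit 2) (nat_lit 4) (nat_lit 329) (nat_lit 231) (nat_lit 160)) (XT.nd (nat_lit 78) (nat_lit 0) (nat_lit 0) (XT.lf (nat_lit 0) (nat_lit 131761484236) (nat_lit 76) (nat_lit 589830982301) (nat_lit 76) (nat_lit 582086507762) (nat_lit 1) (nat_lit 4) (nat_lit 2) (nat_lit 5) (nat_lit 2) (nat_lit 4) (nat_lit 330) (nat_lit 231) (nat_lit 159)) (XT.lf (nat_lit 0) (nat_lit 148607346154) (nat_lit 76) (nat_lit 633421253454) (nat_lit 76) (nat_lit 625674520238) (nat_lit 1) (nat_lit 4) (nat_lit 2) (nat_lit 5) (nat_lit 2) (nat_lit 4) (nat_lit 331) (nat_lit 231) (nat_lit 158)))) (XT.nd (nat_lit 156) (nat_lit 0) (nat_lit 0) (XT.nd (nat_lit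 78) (nat_lit 0) (nat_lit 0) (XT.lf (nat_lit 0) (nat_lit 166797375892) (nat_lit 76) (nat_lit 680500397878) (nat_lit 76) (nat_lit 672751573293) (nat_lit 1) (nat_lit 4) (nat_lit 2) (nat_lit 5) (nat_lit 2) (nat_lit 4) (nat_lit 332) (nat_lit 231) (nat_lit 157)) (XT.lf (nat_lit 0) (nat_lit 186439366220) (nat_lit 76) (nat_lit 731347403095) (nat_lit 76) (nat_lit 723596642057) (nat_lit 1) (nat_lit 4) (nat_lit 2) (nat_lit 5) (nat_lit 2) (nat_lit 4) (nat_lit 333) (nat_lit 231) (nat_lit 156))) (XT.nd (nat_lit 78) (nat_lit 0) (nat_lit 0) (XT.lf (nat_lit 0) (nat_lit 207649714116) (nat_lit 76) (nat_lit 786263584690) (nat_lit 76) (nat_lit 778511030641) (nat_lit 1) (nat_lit 4) (nat_lit 2) (nat_lit 5) (nat_lit 2) (nat_lit 4) (nat_lit 334) (nat_lit 231) (nat_lit 155)) (XT.lf (nat_lit 0) (nat_lit 230554110532) (nat_lit 76) (nat_lit 845574371890) (nat_lit 76) (nat_lit 837820157644) (nat_lit 1) (nat_lit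 4) (nat_lit 2) (nat_lit 5) (nat_lit 2) (nat_lit 4) (nat_lit 335) (nat_lit 231) (nat_lit 154))))) (XT.nd (nat_lit 234) (nat_lit 0) (nat_lit 0) (XT.nd (nat_lit 78) (nat_lit 0) (nat_lit 0) (XT.lf (nat_lit 0) (nat_lit 255288285224) (nat_lit 76) (nat_lit 909631236024) (nat_lit 76) (nat_lit 901875484560) (nat_lit 1) (nat_lit 4) (nat_lit 2) (nat_lit 5) (nat_lit 2) (nat_lit 4) (nat_lit 336) (nat_lit 231) (nat_lit 153)) (XT.nd (nat_lit 78) (nat_lit 0) (nat_lit 0) (XT.lf (nat_lit 0) (nat_lit 281998811079) (nat_lit 76) (nat_lit 978813773326) (nat_lit 76) (nat_lit 971056598511) (nat_lit 1) (nat_lit 4) (nat_lit 2) (nat_lit 5) (nat_lit 2) (nat_lit 4) (nat_lit 337) (nat_lit 231) (nat_lit 152)) (XT.lf (nat_lit 0) (nat_lit 310843972694) (nat_lit 76) (nat_lit 1053531954385) (nat_lit 76) (nat_lit 1045773461654) (nat_lit 1) (nat_lit 4) (nat_lit 2) (nat_lit 5) (nat_lit 2) (nat_lit 4) (nat_lit 338) (nat_lit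 231) (nat_lit 151)))) (XT.nd (nat_lit 156) (nat_lit 0) (nat_lit 0) (XT.nd (nat_lit 78) (nat_lit 0) (nat_lit 0) (XT.lf (nat_lit 0) (nat_lit 341994704362) (nat_lit 76) (nat_lit 1134228553610) (nat_lit 76) (nat_lit 1126468840585) (nat_lit 1) (nat_lit 4) (nat_lit 2) (nat_lit 5) (nat_lit 2) (nat_lit 4) (nat_lit 339) (nat_lit 231) (nat_lit 150)) (XT.lf (nat_lit 0) (nat_lit 375635603009) (nat_lit 76) (nat_lit 1221381773068) (nat_lit 76) (nat_lit 1213620930142) (nat_lit 1) (nat_lit 4) (nat_lit 2) (nat_lit 5) (nat_lit 2) (nat_lit 4) (nat_lit 340) (nat_lit 231) (nat_lit 149))) (XT.nd (nat_lit 78) (nat_lit 0) (nat_lit 0) (XT.lf (nat_lit 0) (nat_lit 411966022110) (nat_lit 76) (nat_lit 1315508076284) (nat_lit 76) (nat_lit 1307746187152) (nat_lit 1) (nat_lit 4) (nat_lit 2) (nat_lit 5) (nat_lit 2) (nat_lit 4) (nat_lit 341) (nat_lit 231) (nat_lit 148)) (XT.lf (nat_lit 0) (nat_lit 451201253037) (nat_lit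 76) (nat_lit 1417165248757) (nat_lit 76) (nat_lit 1409402390917) (nat_lit 1) (nat_lit 4) (nat_lit 2) (nat_lit 5) (nat_lit 2) (nat_lit 4) (nat_lit 342) (nat_lit 231) (nat_lit 147))))))))
noncomputable def xc36 : XT := (XT.nd (nat_lit 2028) (nat_lit 228) (nat_lit 0) (XT.nd (nat_lit 1014) (nat_lit 456) (nat_lit 0) (XT.nd (nat_lit 468) (nat_lit 608) (nat_lit 0) (XT.nd (nat_lit 234) (nat_lit 380) (nat_lit 0) (XT.nd (nat_lit 78) (nat_lit 228) (nat_lit 0) (XT.lf (nat_lit 0) (nat_lit 2728015254) (nat_lit 228) (nat_lit 786184383) (nat_lit 228) (nat_lit 786184383) (nat_lit 27) (nat_lit 4) (nat_lit 30) (nat_lit 5) (nat_lit 30) (nat_lit 4) (nat_lit 256) (nat_lit 232) (nat_lit 232)) (XT.nd (nat_lit 78) (nat_lit 0) (nat_lit 0) (XT.lf (nat_lit 0) (nat_lit 1849728584) (nat_lit 228) (nat_lit 6198873519) (nat_lit 0) (nat_lit 862696983) (nat_lit 24) (nat_lit 5) (nat_lit 27) (nat_lit 4) (nat_lit 24) (nat_lit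 4) (nat_lit 257) (nat_lit 232) (nat_lit 231)) (XT.lf (nat_lit 0) (nat_lit 5362589281) (nat_lit 228) (nat_lit 427922188) (nat_lit 0) (nat_lit 3461639531) (nat_lit 24) (nat_lit 5) (nat_lit 27) (nat_lit 4) (nat_lit 24) (nat_lit 4) (nat_lit 258) (nat_lit 232) (nat_lit 230)))) (XT.nd (nat_lit 78) (nat_lit 228) (nat_lit 0) (XT.lf (nat_lit 0) (nat_lit 5797283763) (nat_lit 152) (nat_lit 3288330579) (nat_lit 152) (nat_lit 541160321) (nat_lit 22) (nat_lit 4) (nat_lit 24) (nat_lit 5) (nat_lit 24) (nat_lit 4) (nat_lit 259) (nat_lit 232) (nat_lit 229)) (XT.nd (nat_lit 78) (nat_lit 0) (nat_lit 0) (XT.lf (nat_lit 0) (nat_lit 2251219378) (nat_lit 152) (nat_lit 528553286) (nat_lit 228) (nat_lit 7257715298) (nat_lit 19) (nat_lit 5) (nat_lit 21) (nat_lit 5) (nat_lit 22) (nat_lit 4) (nat_lit 260) (nat_lit 232) (nat_lit 228)) (XT.lf (nat_lit 0) (nat_lit 6301921270) (nat_lit 228) (nat_lit 1820502464) (nat_lit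 0) (nat_lit 2360990290) (nat_lit 19) (nat_lit 5) (nat_lit 22) (nat_lit 4) (nat_lit 19) (nat_lit 4) (nat_lit 261) (nat_lit 232) (nat_lit 227))))) (XT.nd (nat_lit 234) (nat_lit 304) (nat_lit 0) (XT.nd (nat_lit 78) (nat_lit 152) (nat_lit 0) (XT.lf (nat_lit 0) (nat_lit 4551044026) (nat_lit 152) (nat_lit 5491295967) (nat_lit 152) (nat_lit 928367653) (nat_lit 17) (nat_lit 4) (nat_lit 19) (nat_lit 5) (nat_lit 19) (nat_lit 4) (nat_lit 262) (nat_lit 232) (nat_lit 226)) (XT.nd (nat_lit 78) (nat_lit 76) (nat_lit 0) (XT.lf (nat_lit 0) (nat_lit 2322015352) (nat_lit 228) (nat_lit 309059840) (nat_lit 76) (nat_lit 8872156209) (nat_lit 16) (nat_lit 5) (nat_lit 19) (nat_lit 5) (nat_lit 17) (nat_lit 4) (nat_lit 263) (nat_lit 232) (nat_lit 225)) (XT.lf (nat_lit 0) (nat_lit 5776364545) (nat_lit 152) (nat_lit 5776616081) (nat_lit 0) (nat_lit 524406919) (nat_lit 15) (nat_lit 5) (nat_lit 17) (nat_lit 4) (nat_lit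 15) (nat_lit 4) (nat_lit 264) (nat_lit 232) (nat_lit 224)))) (XT.nd (nat_lit 156) (nat_lit 152) (nat_lit 0) (XT.nd (nat_lit 78) (nat_lit 0) (nat_lit 0) (XT.lf (nat_lit 0) (nat_lit 442083977) (nat_lit 152) (nat_lit 8985666094) (nat_lit 152) (nat_lit 3276521858) (nat_lit 13) (nat_lit 4) (nat_lit 15) (nat_lit 5) (nat_lit 15) (nat_lit 4) (nat_lit 265) (nat_lit 232) (nat_lit 223)) (XT.lf (nat_lit 0) (nat_lit 7222040839) (nat_lit 152) (nat_lit 6146194840) (nat_lit 152) (nat_lit 13729669) (nat_lit 13) (nat_lit 4) (nat_lit 15) (nat_lit 5) (nat_lit 15) (nat_lit 4) (nat_lit 266) (nat_lit 232) (nat_lit 222))) (XT.nd (nat_lit 78) (nat_lit 0) (nat_lit 0) (XT.lf (nat_lit 0) (nat_lit 97397205) (nat_lit 76) (nat_lit 3086173085) (nat_lit 152) (nat_lit 10935982567) (nat_lit 11) (nat_lit 5) (nat_lit 12) (nat_lit 5) (nat_lit 13) (nat_lit 4) (nat_lit 267) (nat_lit 232) (nat_lit 221)) (XT.lf (nat_lit 0)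 (nat_lit 6663720649) (nat_lit 152) (nat_lit 7963968021) (nat_lit 0) (nat_lit 286536880) (nat_lit 11) (nat_lit 5) (nat_lit 13) (nat_lit 4) (nat_lit 11) (nat_lit 4) (nat_lit 268) (nat_lit 232) (nat_lit 220)))))) (XT.nd (nat_lit 468) (nat_lit 228) (nat_lit 0) (XT.nd (nat_lit 234) (nat_lit 76) (nat_lit 0) (XT.nd (nat_lit 78) (nat_lit 152) (nat_lit 0) (XT.lf (nat_lit 0) (nat_lit 10363324608) (nat_lit 152) (nat_lit 1739183631) (nat_lit 0) (nat_lit 3674987314) (nat_lit 11) (nat_lit 5) (nat_lit 13) (nat_lit 4) (nat_lit 11) (nat_lit 4) (nat_lit 269) (nat_lit 232) (nat_lit 219)) (XT.nd (nat_lit 78) (nat_lit 76) (nat_lit 0) (XT.lf (nat_lit 0) (nat_lit 5014135004) (nat_lit 76) (nat_lit 9336538273) (nat_lit 76) (nat_lit 2360095863) (nat_lit 10) (nat_lit 4) (nat_lit 11) (nat_lit 5) (nat_lit 11) (nat_lit 4) (nat_lit 270) (nat_lit 232) (nat_lit 218)) (XT.lf (nat_lit 0) (nat_lit 812237465) (nat_lit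 152) (nat_lit 5553752477) (nat_lit 76) (nat_lit 11357483327) (nat_lit 9) (nat_lit 5) (nat_lit 11) (nat_lit 5) (nat_lit 10) (nat_lit 4) (nat_lit 271) (nat_lit 232) (nat_lit 217)))) (XT.nd (nat_lit 78) (nat_lit 0) (nat_lit 0) (XT.lf (nat_lit 0) (nat_lit 856864279) (nat_lit 76) (nat_lit 3156152251) (nat_lit 152) (nat_lit 14807325382) (nat_lit 8) (nat_lit 5) (nat_lit 9) (nat_lit 5) (nat_lit 10) (nat_lit 4) (nat_lit 272) (nat_lit 232) (nat_lit 216)) (XT.nd (nat_lit 78) (nat_lit 0) (nat_lit 0) (XT.lf (nat_lit 0) (nat_lit 7516580068) (nat_lit 152) (nat_lit 12115416543) (nat_lit 0) (nat_lit 369434481) (nat_lit 8) (nat_lit 5) (nat_lit 10) (nat_lit 4) (nat_lit 8) (nat_lit 4) (nat_lit 273) (nat_lit 232) (nat_lit 215)) (XT.lf (nat_lit 0) (nat_lit 11274500837) (nat_lit 152) (nat_lit 6073498398) (nat_lit 0) (nat_lit 3931275749) (nat_lit 8) (nat_lit 5) (nat_lit 10) (nat_lit 4) (nat_lit 8) (nat_lit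 4) (nat_lit 274) (nat_lit 232) (nat_lit 214))))) (XT.nd (nat_lit 234) (nat_lit 152) (nat_lit 0) (XT.nd (nat_lit 78) (nat_lit 0) (nat_lit 0) (XT.lf (nat_lit 0) (nat_lit 288413932) (nat_lit 76) (nat_lit 14951664889) (nat_lit 76) (nat_lit 7426884708) (nat_lit 7) (nat_lit 4) (nat_lit 8) (nat_lit 5) (nat_lit 8) (nat_lit 4) (nat_lit 275) (nat_lit 232) (nat_lit 213)) (XT.nd (nat_lit 78) (nat_lit 0) (nat_lit 0) (XT.lf (nat_lit 0) (nat_lit 7331398518) (nat_lit 76) (nat_lit 12260885344) (nat_lit 76) (nat_lit 4567998595) (nat_lit 7) (nat_lit 4) (nat_lit 8) (nat_lit 5) (nat_lit 8) (nat_lit 4) (nat_lit 276) (nat_lit 232) (nat_lit 212)) (XT.lf (nat_lit 0) (nat_lit 14777371903) (nat_lit 76) (nat_lit 9425775449) (nat_lit 76) (nat_lit 1577234471) (nat_lit 7) (nat_lit 4) (nat_lit 8) (nat_lit 5) (nat_lit 8) (nat_lit 4) (nat_lit 277) (nat_lit 232) (nat_lit 211)))) (XT.nd (nat_lit 156) (nat_lit 0) (nat_lit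 0) (XT.nd (nat_lit 78) (nat_lit 76) (nat_lit 0) (XT.lf (nat_lit 0) (nat_lit 1484936582) (nat_lit 152) (nat_lit 4903997173) (nat_lit 76) (nat_lit 21144920993) (nat_lit 6) (nat_lit 5) (nat_lit 8) (nat_lit 5) (nat_lit 7) (nat_lit 4) (nat_lit 278) (nat_lit 232) (nat_lit 210)) (XT.lf (nat_lit 0) (nat_lit 1579129145) (nat_lit 76) (nat_lit 3086852981) (nat_lit 152) (nat_lit 24761738859) (nat_lit 5) (nat_lit 5) (nat_lit 6) (nat_lit 5) (nat_lit 7) (nat_lit 4) (nat_lit 279) (nat_lit 232) (nat_lit 209))) (XT.nd (nat_lit 78) (nat_lit 0) (nat_lit 0) (XT.lf (nat_lit 0) (nat_lit 8172770313) (nat_lit 152) (nat_lit 22760557828) (nat_lit 0) (nat_lit 534180477) (nat_lit 5) (nat_lit 5) (nat_lit 7) (nat_lit 4) (nat_lit 5) (nat_lit 4) (nat_lit 280) (nat_lit 232) (nat_lit 208)) (XT.lf (nat_lit 0) (nat_lit 11968208150) (nat_lit 152) (nat_lit 17478044385) (nat_lit 0) (nat_lit 4223682660) (nat_lit 5) (nat_lit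 5) (nat_lit 7) (nat_lit 4) (nat_lit 5) (nat_lit 4) (nat_lit 281) (nat_lit 232) (nat_lit 207))))))) (XT.nd (nat_lit 1014) (nat_lit 0) (nat_lit 0) (XT.nd (nat_lit 468) (nat_lit 152) (nat_lit 0) (XT.nd (nat_lit 234) (nat_lit 0) (nat_lit 0) (XT.nd (nat_lit 78) (nat_lit 76) (nat_lit 0) (XT.lf (nat_lit 0) (nat_lit 16000548231) (nat_lit 152) (nat_lit 11895508839) (nat_lit 0) (nat_lit 8157934173) (nat_lit 5) (nat_lit 5) (nat_lit 7) (nat_lit 4) (nat_lit 5) (nat_lit 4) (nat_lit 282) (nat_lit 232) (nat_lit 206)) (XT.nd (nat_lit 78) (nat_lit 76) (nat_lit 0) (XT.lf (nat_lit 0) (nat_lit 20293685905) (nat_lit 152) (nat_lit 5979869497) (nat_lit 0) (nat_lit 12360249100) (nat_lit 5) (nat_lit 5) (nat_lit 7) (nat_lit 4) (nat_lit 5) (nat_lit 4) (nat_lit 283) (nat_lit 232) (nat_lit 205)) (XT.lf (nat_lit 0) (nat_lit 319933655) (nat_lit 76) (nat_lit 24560822744) (nat_lit 76) (nat_lit 16543290802) (nat_lit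 4) (nat_lit 4) (nat_lit 5) (nat_lit 5) (nat_lit 5) (nat_lit 4) (nat_lit 284) (nat_lit 232) (nat_lit 204)))) (XT.nd (nat_lit 78) (nat_lit 0) (nat_lit 0) (XT.lf (nat_lit 0) (nat_lit 7361370376) (nat_lit 76) (nat_lit 22581484280) (nat_lit 76) (nat_lit 14486086471) (nat_lit 4) (nat_lit 4) (nat_lit 5) (nat_lit 5) (nat_lit 5) (nat_lit 4) (nat_lit 285) (nat_lit 232) (nat_lit 203)) (XT.nd (nat_lit 78) (nat_lit 0) (nat_lit 0) (XT.lf (nat_lit 0) (nat_lit 14871278366) (nat_lit 76) (nat_lit 20487310829) (nat_lit 76) (nat_lit 12319814994) (nat_lit 4) (nat_lit 4) (nat_lit 5) (nat_lit 5) (nat_lit 5) (nat_lit 4) (nat_lit 286) (nat_lit 232) (nat_lit 202)) (XT.lf (nat_lit 0) (nat_lit 22894160783) (nat_lit 76) (nat_lit 18265892472) (nat_lit 76) (nat_lit 10031639206) (nat_lit 4) (nat_lit 4) (nat_lit 5) (nat_lit 5) (nat_lit 5) (nat_lit 4) (nat_lit 287) (nat_lit 232) (nat_lit 201))))) (XT.nd (nat_lit 234)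 (nat_lit 152) (nat_lit 0) (XT.nd (nat_lit 78) (nat_lit 0) (nat_lit 0) (XT.lf (nat_lit 0) (nat_lit 31477560635) (nat_lit 76) (nat_lit 15904065250) (nat_lit 76) (nat_lit 7607999548) (nat_lit 4) (nat_lit 4) (nat_lit 5) (nat_lit 5) (nat_lit 5) (nat_lit 4) (nat_lit 288) (nat_lit 232) (nat_lit 200)) (XT.nd (nat_lit 78) (nat_lit 0) (nat_lit 0) (XT.lf (nat_lit 0) (nat_lit 40672342513) (nat_lit 76) (nat_lit 13387833149) (nat_lit 76) (nat_lit 5034533710) (nat_lit 4) (nat_lit 4) (nat_lit 5) (nat_lit 5) (nat_lit 5) (nat_lit 4) (nat_lit 289) (nat_lit 232) (nat_lit 199)) (XT.lf (nat_lit 0) (nat_lit 50532994013) (nat_lit 76) (nat_lit 10702285164) (nat_lit 76) (nat_lit 2295991524) (nat_lit 4) (nat_lit 4) (nat_lit 5) (nat_lit 5) (nat_lit 5) (nat_lit 4) (nat_lit 290) (nat_lit 232) (nat_lit 198)))) (XT.nd (nat_lit 156) (nat_lit 76) (nat_lit 0) (XT.nd (nat_lit 78) (nat_lit 0) (nat_lit 0) (XT.lf (nat_lit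 0) (nat_lit 592647633) (nat_lit 152) (nat_lit 7222655267) (nat_lit 76) (nat_lit 60509096956) (nat_lit 3) (nat_lit 5) (nat_lit 5) (nat_lit 5) (nat_lit 4) (nat_lit 4) (nat_lit 291) (nat_lit 232) (nat_lit 197)) (XT.lf (nat_lit 0) (nat_lit 3555104384) (nat_lit 152) (nat_lit 1106179209) (nat_lit 76) (nat_lit 68837624769) (nat_lit 3) (nat_lit 5) (nat_lit 5) (nat_lit 5) (nat_lit 4) (nat_lit 4) (nat_lit 292) (nat_lit 232) (nat_lit 196))) (XT.nd (nat_lit 78) (nat_lit 0) (nat_lit 0) (XT.lf (nat_lit 0) (nat_lit 5729214428) (nat_lit 76) (nat_lit 1132362140) (nat_lit 152) (nat_lit 72217277881) (nat_lit 2) (nat_lit 5) (nat_lit 3) (nat_lit 5) (nat_lit 4) (nat_lit 4) (nat_lit 293) (nat_lit 232) (nat_lit 195)) (XT.lf (nat_lit 0) (nat_lit 10497579358) (nat_lit 152) (nat_lit 72050999040) (nat_lit 0) (nat_lit 2551452362) (nat_lit 2) (nat_lit 5) (nat_lit 4) (nat_lit 4) (nat_lit 2) (nat_lit 4) (nat_lit 294)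 (nat_lit 232) (nat_lit 194)))))) (XT.nd (nat_lit 546) (nat_lit 0) (nat_lit 0) (XT.nd (nat_lit 234) (nat_lit 0) (nat_lit 0) (XT.nd (nat_lit 78) (nat_lit 0) (nat_lit 0) (XT.lf (nat_lit 0) (nat_lit 14425684918) (nat_lit 152) (nat_lit 70730988800) (nat_lit 0) (nat_lit 6446162586) (nat_lit 2) (nat_lit 5) (nat_lit 4) (nat_lit 4) (nat_lit 2) (nat_lit 4) (nat_lit 295) (nat_lit 232) (nat_lit 193)) (XT.nd (nat_lit 78) (nat_lit 0) (nat_lit 0) (XT.lf (nat_lit 0) (nat_lit 18641937574) (nat_lit 152) (nat_lit 69354553680) (nat_lit 0) (nat_lit 10631493635) (nat_lit 2) (nat_lit 5) (nat_lit 4) (nat_lit 4) (nat_lit 2) (nat_lit 4) (nat_lit 296) (nat_lit 232) (nat_lit 192)) (XT.lf (nat_lit 0) (nat_lit 23171322527) (nat_lit 152) (nat_lit 67913537029) (nat_lit 0) (nat_lit 15132247470) (nat_lit 2) (nat_lit 5) (nat_lit 4) (nat_lit 4) (nat_lit 2) (nat_lit 4) (nat_lit 297) (nat_lit 232) (nat_lit 191)))) (XT.nd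 (nat_lit 156) (nat_lit 0) (nat_lit 0) (XT.nd (nat_lit 78) (nat_lit 0) (nat_lit 0) (XT.lf (nat_lit 0) (nat_lit 28040680577) (nat_lit 152) (nat_lit 66399399489) (nat_lit 0) (nat_lit 19975095226) (nat_lit 2) (nat_lit 5) (nat_lit 4) (nat_lit 4) (nat_lit 2) (nat_lit 4) (nat_lit 298) (nat_lit 232) (nat_lit 190)) (XT.lf (nat_lit 0) (nat_lit 33278867180) (nat_lit 152) (nat_lit 64803168392) (nat_lit 0) (nat_lit 25188735260) (nat_lit 2) (nat_lit 5) (nat_lit 4) (nat_lit 4) (nat_lit 2) (nat_lit 4) (nat_lit 299) (nat_lit 232) (nat_lit 189))) (XT.nd (nat_lit 78) (nat_lit 0) (nat_lit 0) (XT.lf (nat_lit 0) (nat_lit 38916923440) (nat_lit 152) (nat_lit 63115384591) (nat_lit 0) (nat_lit 30804063215) (nat_lit 2) (nat_lit 5) (nat_lit 4) (nat_lit 4) (nat_lit 2) (nat_lit 4) (nat_lit 300) (nat_lit 232) (nat_lit 188)) (XT.lf (nat_lit 0) (nat_lit 44988260062) (nat_lit 152) (nat_lit 61326046406) (nat_lit 0) (nat_lit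 36854355111) (nat_lit 2) (nat_lit 5) (nat_lit 4) (nat_lit 4) (nat_lit 2) (nat_lit 4) (nat_lit 301) (nat_lit 232) (nat_lit 187))))) (XT.nd (nat_lit 234) (nat_lit 0) (nat_lit 0) (XT.nd (nat_lit 78) (nat_lit 0) (nat_lit 0) (XT.lf (nat_lit 0) (nat_lit 51528855337) (nat_lit 152) (nat_lit 59424550349) (nat_lit 0) (nat_lit 43375464528) (nat_lit 2) (nat_lit 5) (nat_lit 4) (nat_lit 4) (nat_lit 2) (nat_lit 4) (nat_lit 302) (nat_lit 232) (nat_lit 186)) (XT.nd (nat_lit 78) (nat_lit 0) (nat_lit 0) (XT.lf (nat_lit 0) (nat_lit 58577468347) (nat_lit 152) (nat_lit 57399628296) (nat_lit 0) (nat_lit 50406035078) (nat_lit 2) (nat_lit 5) (nat_lit 4) (nat_lit 4) (nat_lit 2) (nat_lit 4) (nat_lit 303) (nat_lit 232) (nat_lit 185)) (XT.lf (nat_lit 0) (nat_lit 66175868652) (nat_lit 152) (nat_lit 55239280710) (nat_lit 0) (nat_lit 57987729401) (nat_lit 2) (nat_lit 5) (nat_lit 4) (nat_lit 4) (nat_lit 2) (nat_lit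 4) (nat_lit 304) (nat_lit 232) (nat_lit 184)))) (XT.nd (nat_lit 156) (nat_lit 0) (nat_lit 0) (XT.nd (nat_lit 78) (nat_lit 0) (nat_lit 0) (XT.lf (nat_lit 0) (nat_lit 74369083809) (nat_lit 152) (nat_lit 52930705530) (nat_lit 0) (nat_lit 66165476055) (nat_lit 2) (nat_lit 5) (nat_lit 4) (nat_lit 4) (nat_lit 2) (nat_lit 4) (nat_lit 305) (nat_lit 232) (nat_lit 183)) (XT.lf (nat_lit 0) (nat_lit 83205666204) (nat_lit 152) (nat_lit 50460222310) (nat_lit 0) (nat_lit 74987735763) (nat_lit 2) (nat_lit 5) (nat_lit 4) (nat_lit 4) (nat_lit 2) (nat_lit 4) (nat_lit 306) (nat_lit 232) (nat_lit 182))) (XT.nd (nat_lit 78) (nat_lit 0) (nat_lit 0) (XT.lf (nat_lit 0) (nat_lit 92737980770) (nat_lit 152) (nat_lit 47813191152) (nat_lit 0) (nat_lit 84506788581) (nat_lit 2) (nat_lit 5) (nat_lit 4) (nat_lit 4) (nat_lit 2) (nat_lit 4) (nat_lit 307) (nat_lit 232) (nat_lit 181)) (XT.lf (nat_lit 0) (nat_lit 103022515296)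 (nat_lit 152) (nat_lit 44973925942) (nat_lit 0) (nat_lit 94779043711) (nat_lit 2) (nat_lit 5) (nat_lit 4) (nat_lit 4) (nat_lit 2) (nat_lit 4) (nat_lit 308) (nat_lit 232) (nat_lit 180))))))))
noncomputable def xc37 : XT := (XT.nd (nat_lit 2028) (nat_lit 0) (nat_lit 0) (XT.nd (nat_lit 1014) (nat_lit 0) (nat_lit 0) (XT.nd (nat_lit 468) (nat_lit 76) (nat_lit 0) (XT.nd (nat_lit 234) (nat_lit 0) (nat_lit 0) (XT.nd (nat_lit 78) (nat_lit 0) (nat_lit 0) (XT.lf (nat_lit 0) (nat_lit 114120215172) (nat_lit 152) (nat_lit 41925601408) (nat_lit 0) (nat_lit 105865373777) (nat_lit 2) (nat_lit 5) (nat_lit 4) (nat_lit 4) (nat_lit 2) (nat_lit 4) (nat_lit 309) (nat_lit 232) (nat_lit 179)) (XT.nd (nat_lit 78) (nat_lit 0) (nat_lit 0) (XT.lf (nat_lit 0) (nat_lit 126096844547) (nat_lit 152) (nat_lit 38650153402) (nat_lit 0) (nat_lit 117831475549) (nat_lit 2) (nat_lit 5) (nat_lit 4) (nat_lit 4) (nat_lit 2) (nat_lit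 4) (nat_lit 310) (nat_lit 232) (nat_lit 178)) (XT.lf (nat_lit 0) (nat_lit 139023376038) (nat_lit 152) (nat_lit 35128171864) (nat_lit 0) (nat_lit 130748259260) (nat_lit 2) (nat_lit 5) (nat_lit 4) (nat_lit 4) (nat_lit 2) (nat_lit 4) (nat_lit 311) (nat_lit 232) (nat_lit 177)))) (XT.nd (nat_lit 78) (nat_lit 0) (nat_lit 0) (XT.lf (nat_lit 0) (nat_lit 152976411313) (nat_lit 152) (nat_lit 31338785790) (nat_lit 0) (nat_lit 144692268812) (nat_lit 2) (nat_lit 5) (nat_lit 4) (nat_lit 4) (nat_lit 2) (nat_lit 4) (nat_lit 312) (nat_lit 232) (nat_lit 176)) (XT.nd (nat_lit 78) (nat_lit 0) (nat_lit 0) (XT.lf (nat_lit 0) (nat_lit 168038635026) (nat_lit 152) (nat_lit 27259539560) (nat_lit 0) (nat_lit 159746135375) (nat_lit 2) (nat_lit 5) (nat_lit 4) (nat_lit 4) (nat_lit 2) (nat_lit 4) (nat_lit 313) (nat_lit 232) (nat_lit 175)) (XT.lf (nat_lit 0) (nat_lit 184299304799) (nat_lit 152) (nat_lit 22866259863)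 (nat_lit 0) (nat_lit 175999067046) (nat_lit 2) (nat_lit 5) (nat_lit 4) (nat_lit 4) (nat_lit 2) (nat_lit 4) (nat_lit 314) (nat_lit 232) (nat_lit 174))))) (XT.nd (nat_lit 234) (nat_lit 76) (nat_lit 0) (XT.nd (nat_lit 78) (nat_lit 0) (nat_lit 0) (XT.lf (nat_lit 0) (nat_lit 201854780157) (nat_lit 152) (nat_lit 18132912449) (nat_lit 0) (nat_lit 193547377495) (nat_lit 2) (nat_lit 5) (nat_lit 4) (nat_lit 4) (nat_lit 2) (nat_lit 4) (nat_lit 315) (nat_lit 232) (nat_lit 173)) (XT.nd (nat_lit 78) (nat_lit 0) (nat_lit 0) (XT.lf (nat_lit 0) (nat_lit 220809093546) (nat_lit 152) (nat_lit 13031447852) (nat_lit 0) (nat_lit 212495056708) (nat_lit 2) (nat_lit 5) (nat_lit 4) (nat_lit 4) (nat_lit 2) (nat_lit 4) (nat_lit 316) (nat_lit 232) (nat_lit 172)) (XT.lf (nat_lit 0) (nat_lit 241274566823) (nat_lit 152) (nat_lit 7531635170) (nat_lit 0) (nat_lit 232954387230) (nat_lit 2) (nat_lit 5) (nat_lit 4) (nat_lit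 4) (nat_lit 2) (nat_lit 4) (nat_lit 317) (nat_lit 232) (nat_lit 171)))) (XT.nd (nat_lit 156) (nat_lit 0) (nat_lit 0) (XT.nd (nat_lit 78) (nat_lit 76) (nat_lit 0) (XT.lf (nat_lit 0) (nat_lit 263372476867) (nat_lit 152) (nat_lit 1600882921) (nat_lit 0) (nat_lit 255046609538) (nat_lit 2) (nat_lit 5) (nat_lit 4) (nat_lit 4) (nat_lit 2) (nat_lit 4) (nat_lit 318) (nat_lit 232) (nat_lit 170)) (XT.lf (nat_lit 0) (nat_lit 5048500536) (nat_lit 76) (nat_lit 282306690279) (nat_lit 76) (nat_lit 273975556527) (nat_lit 1) (nat_lit 4) (nat_lit 2) (nat_lit 5) (nat_lit 2) (nat_lit 4) (nat_lit 319) (nat_lit 232) (nat_lit 169))) (XT.nd (nat_lit 78) (nat_lit 0) (nat_lit 0) (XT.lf (nat_lit 0) (nat_lit 12312714922) (nat_lit 76) (nat_lit 300983265437) (nat_lit 76) (nat_lit 292647255369) (nat_lit 1) (nat_lit 4) (nat_lit 2) (nat_lit 5) (nat_lit 2) (nat_lit 4) (nat_lit 320) (nat_lit 232) (nat_lit 168)) (XT.lf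 (nat_lit 0) (nat_lit 20150507776) (nat_lit 76) (nat_lit 321157532242) (nat_lit 76) (nat_lit 312817007065) (nat_lit 1) (nat_lit 4) (nat_lit 2) (nat_lit 5) (nat_lit 2) (nat_lit 4) (nat_lit 321) (nat_lit 232) (nat_lit 167)))))) (XT.nd (nat_lit 468) (nat_lit 0) (nat_lit 0) (XT.nd (nat_lit 234) (nat_lit 0) (nat_lit 0) (XT.nd (nat_lit 78) (nat_lit 0) (nat_lit 0) (XT.lf (nat_lit 0) (nat_lit 28608325277) (nat_lit 76) (nat_lit 342949041903) (nat_lit 76) (nat_lit 334604336071) (nat_lit 1) (nat_lit 4) (nat_lit 2) (nat_lit 5) (nat_lit 2) (nat_lit 4) (nat_lit 322) (nat_lit 232) (nat_lit 166)) (XT.nd (nat_lit 78) (nat_lit 0) (nat_lit 0) (XT.lf (nat_lit 0) (nat_lit 37736287825) (nat_lit 76) (nat_lit 366486929292) (nat_lit 76) (nat_lit 358138352482) (nat_lit 1) (nat_lit 4) (nat_lit 2) (nat_lit 5) (nat_lit 2) (nat_lit 4) (nat_lit 323) (nat_lit 232) (nat_lit 165)) (XT.lf (nat_lit 0) (nat_lit 47588487049)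 (nat_lit 76) (nat_lit 391910678187) (nat_lit 76) (nat_lit 383558517139) (nat_lit 1) (nat_lit 4) (nat_lit 2) (nat_lit 5) (nat_lit 2) (nat_lit 4) (nat_lit 324) (nat_lit 232) (nat_lit 164)))) (XT.nd (nat_lit 78) (nat_lit 0) (nat_lit 0) (XT.lf (nat_lit 0) (nat_lit 58223306354) (nat_lit 76) (nat_lit 419370947841) (nat_lit 76) (nat_lit 411015468053) (nat_lit 1) (nat_lit 4) (nat_lit 2) (nat_lit 5) (nat_lit 2) (nat_lit 4) (nat_lit 325) (nat_lit 232) (nat_lit 163)) (XT.nd (nat_lit 78) (nat_lit 0) (nat_lit 0) (XT.lf (nat_lit 0) (nat_lit 69703766890) (nat_lit 76) (nat_lit 449030465776) (nat_lit 76) (nat_lit 440671913081) (nat_lit 1) (nat_lit 4) (nat_lit 2) (nat_lit 5) (nat_lit 2) (nat_lit 4) (nat_lit 326) (nat_lit 232) (nat_lit 162)) (XT.lf (nat_lit 0) (nat_lit 82097901016) (nat_lit 76) (nat_lit 481064992100) (nat_lit 76) (nat_lit 472703594121) (nat_lit 1) (nat_lit 4) (nat_lit 2) (nat_lit 5) (nat_lit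 2) (nat_lit 4) (nat_lit 327) (nat_lit 232) (nat_lit 161))))) (XT.nd (nat_lit 234) (nat_lit 0) (nat_lit 0) (XT.nd (nat_lit 78) (nat_lit 0) (nat_lit 0) (XT.lf (nat_lit 0) (nat_lit 95479155452) (nat_lit 76) (nat_lit 515664361042) (nat_lit 76) (nat_lit 507300328541) (nat_lit 1) (nat_lit 4) (nat_lit 2) (nat_lit 5) (nat_lit 2) (nat_lit 4) (nat_lit 328) (nat_lit 232) (nat_lit 160)) (XT.nd (nat_lit 78) (nat_lit 0) (nat_lit 0) (XT.lf (nat_lit 0) (nat_lit 109926826522) (nat_lit 76) (nat_lit 553033605901) (nat_lit 76) (nat_lit 544667134027) (nat_lit 1) (nat_lit 4) (nat_lit 2) (nat_lit 5) (nat_lit 2) (nat_lit 4) (nat_lit 329) (nat_lit 232) (nat_lit 159)) (XT.lf (nat_lit 0) (nat_lit 125526530053) (nat_lit 76) (nat_lit 593394174052) (nat_lit 76) (nat_lit 585025443500) (nat_lit 1) (nat_lit 4) (nat_lit 2) (nat_lit 5) (nat_lit 2) (nat_lit 4) (nat_lit 330) (nat_lit 232) (nat_lit 158)))) (XT.nd (nat_lit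 156) (nat_lit 0) (nat_lit 0) (XT.nd (nat_lit 78) (nat_lit 0) (nat_lit 0) (XT.lf (nat_lit 0) (nat_lit 142370708734) (nat_lit 76) (nat_lit 636985239233) (nat_lit 76) (nat_lit 628614417313) (nat_lit 1) (nat_lit 4) (nat_lit 2) (nat_lit 5) (nat_lit 2) (nat_lit 4) (nat_lit 331) (nat_lit 232) (nat_lit 157)) (XT.lf (nat_lit 0) (nat_lit 160559179920) (nat_lit 76) (nat_lit 684065118868) (nat_lit 76) (nat_lit 675692360495) (nat_lit 1) (nat_lit 4) (nat_lit 2) (nat_lit 5) (nat_lit 2) (nat_lit 4) (nat_lit 332) (nat_lit 232) (nat_lit 156))) (XT.nd (nat_lit 78) (nat_lit 0) (nat_lit 0) (XT.lf (nat_lit 0) (nat_lit 180199727143) (nat_lit 76) (nat_lit 734912804836) (nat_lit 76) (nat_lit 726538253451) (nat_lit 1) (nat_lit 4) (nat_lit 2) (nat_lit 5) (nat_lit 2) (nat_lit 4) (nat_lit 333) (nat_lit 232) (nat_lit 155)) (XT.lf (nat_lit 0) (nat_lit 201408738832) (nat_lit 76) (nat_lit 789829616757) (nat_lit 76)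 (nat_lit 781453405176) (nat_lit 1) (nat_lit 4) (nat_lit 2) (nat_lit 5) (nat_lit 2) (nat_lit 4) (nat_lit 334) (nat_lit 232) (nat_lit 154))))))) (XT.nd (nat_lit 31590) (nat_lit 0) (nat_lit 608) (XT.nd (nat_lit 468) (nat_lit 0) (nat_lit 0) (XT.nd (nat_lit 234) (nat_lit 0) (nat_lit 0) (XT.nd (nat_lit 78) (nat_lit 0) (nat_lit 0) (XT.lf (nat_lit 0) (nat_lit 224311898018) (nat_lit 76) (nat_lit 849140987590) (nat_lit 76) (nat_lit 840763238791) (nat_lit 1) (nat_lit 4) (nat_lit 2) (nat_lit 5) (nat_lit 2) (nat_lit 4) (nat_lit 335) (nat_lit 232) (nat_lit 153)) (XT.nd (nat_lit 78) (nat_lit 0) (nat_lit 0) (XT.lf (nat_lit 0) (nat_lit 249044927127) (nat_lit 76) (nat_lit 913198392126) (nat_lit 76) (nat_lit 904819219977) (nat_lit 1) (nat_lit 4) (nat_lit 2) (nat_lit 5) (nat_lit 2) (nat_lit 4) (nat_lit 336) (nat_lit 232) (nat_lit 152)) (XT.lf (nat_lit 0) (nat_lit 275754392257) (nat_lit 76) (nat_lit 982381429800)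 (nat_lit 76) (nat_lit 974000939733) (nat_lit 1) (nat_lit 4) (nat_lit 2) (nat_lit 5) (nat_lit 2) (nat_lit 4) (nat_lit 337) (nat_lit 232) (nat_lit 151)))) (XT.nd (nat_lit 78) (nat_lit 0) (nat_lit 0) (XT.lf (nat_lit 0) (nat_lit 304598571720) (nat_lit 76) (nat_lit 1057100074168) (nat_lit 76) (nat_lit 1048718363807) (nat_lit 1) (nat_lit 4) (nat_lit 2) (nat_lit 5) (nat_lit 2) (nat_lit 4) (nat_lit 338) (nat_lit 232) (nat_lit 150)) (XT.nd (nat_lit 78) (nat_lit 0) (nat_lit 0) (XT.lf (nat_lit 0) (nat_lit 335748393987) (nat_lit 76) (nat_lit 1137797102381) (nat_lit 76) (nat_lit 1129414262118) (nat_lit 1) (nat_lit 4) (nat_lit 2) (nat_lit 5) (nat_lit 2) (nat_lit 4) (nat_lit 339) (nat_lit 232) (nat_lit 149)) (XT.lf (nat_lit 0) (nat_lit 369388450597) (nat_lit 76) (nat_lit 1224950719051) (nat_lit 76) (nat_lit 1216566832584) (nat_lit 1) (nat_lit 4) (nat_lit 2) (nat_lit 5) (nat_lit 2) (nat_lit 4) (nat_lit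 340) (nat_lit 232) (nat_lit 148))))) (XT.nd (nat_lit 30810) (nat_lit 0) (nat_lit 1748) (XT.nd (nat_lit 78) (nat_lit 0) (nat_lit 0) (XT.lf (nat_lit 0) (nat_lit 405718090033) (nat_lit 76) (nat_lit 1319077390055) (nat_lit 76) (nat_lit 1310692534879) (nat_lit 1) (nat_lit 4) (nat_lit 2) (nat_lit 5) (nat_lit 2) (nat_lit 4) (nat_lit 341) (nat_lit 232) (nat_lit 147)) (XT.nd (nat_lit 30654) (nat_lit 0) (nat_lit 2204) (XT.lf (nat_lit 0) (nat_lit 444952599048) (nat_lit 76) (nat_lit 1420734903073) (nat_lit 76) (nat_lit 1412349150945) (nat_lit 1) (nat_lit 4) (nat_lit 2) (nat_lit 5) (nat_lit 2) (nat_lit 4) (nat_lit 342) (nat_lit 232) (nat_lit 146)) (XT.lf (nat_lit 0) (nat_lit 562668987) (nat_lit 228) (nat_lit 2904723868) (nat_lit 0) (nat_lit 562668987) (nat_lit 30) (nat_lit 5) (nat_lit 33) (nat_lit 4) (nat_lit 30) (nat_lit 4) (nat_lit 254) (nat_lit 233) (nat_lit 233)))) (XT.nd (nat_lit 156) (nat_lit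 228) (nat_lit 0) (XT.nd (nat_lit 78) (nat_lit 228) (nat_lit 0) (XT.lf (nat_lit 0) (nat_lit 4508981169) (nat_lit 228) (nat_lit 453726899) (nat_lit 0) (nat_lit 3357707510) (nat_lit 30) (nat_lit 5) (nat_lit 33) (nat_lit 4) (nat_lit 30) (nat_lit 4) (nat_lit 255) (nat_lit 233) (nat_lit 232)) (XT.lf (nat_lit 0) (nat_lit 5312407146) (nat_lit 228) (nat_lit 2757459282) (nat_lit 228) (nat_lit 540191494) (nat_lit 27) (nat_lit 4) (nat_lit 30) (nat_lit 5) (nat_lit 30) (nat_lit 4) (nat_lit 256) (nat_lit 233) (nat_lit 231))) (XT.nd (nat_lit 78) (nat_lit 0) (nat_lit 0) (XT.lf (nat_lit 0) (nat_lit 2402666514) (nat_lit 152) (nat_lit 292990169) (nat_lit 228) (nat_lit 6234148876) (nat_lit 24) (nat_lit 5) (nat_lit 26) (nat_lit 5) (nat_lit 27) (nat_lit 4) (nat_lit 257) (nat_lit 233) (nat_lit 230)) (XT.lf (nat_lit 0) (nat_lit 6100370333) (nat_lit 228) (nat_lit 892134130) (nat_lit 0) (nat_lit 2287205946) (nat_lit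 24) (nat_lit 5) (nat_lit 27) (nat_lit 4) (nat_lit 24) (nat_lit 4) (nat_lit 258) (nat_lit 233) (nat_lit 229)))))) (XT.nd (nat_lit 546) (nat_lit 456) (nat_lit 0) (XT.nd (nat_lit 234) (nat_lit 304) (nat_lit 0) (XT.nd (nat_lit 78) (nat_lit 152) (nat_lit 0) (XT.lf (nat_lit 0) (nat_lit 48711718) (nat_lit 228) (nat_lit 4495381520) (nat_lit 76) (nat_lit 5119210897) (nat_lit 21) (nat_lit 5) (nat_lit 24) (nat_lit 5) (nat_lit 22) (nat_lit 4) (nat_lit 259) (nat_lit 233) (nat_lit 228)) (XT.nd (nat_lit 78) (nat_lit 0) (nat_lit 0) (XT.lf (nat_lit 0) (nat_lit 1395260262) (nat_lit 152) (nat_lit 1834287741) (nat_lit 228) (nat_lit 6852788753) (nat_lit 19) (nat_lit 5) (nat_lit 21) (nat_lit 5) (nat_lit 22) (nat_lit 4) (nat_lit 260) (nat_lit 233) (nat_lit 227)) (XT.lf (nat_lit 0) (nat_lit 6630542152) (nat_lit 228) (nat_lit 2827125658) (nat_lit 0) (nat_lit 1080582236) (nat_lit 19) (nat_lit 5) (nat_lit 22)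 (nat_lit 4) (nat_lit 19) (nat_lit 4) (nat_lit 261) (nat_lit 233) (nat_lit 226)))) (XT.nd (nat_lit 156) (nat_lit 76) (nat_lit 0) (XT.nd (nat_lit 78) (nat_lit 76) (nat_lit 0) (XT.lf (nat_lit 0) (nat_lit 3357669488) (nat_lit 152) (nat_lit 6901487451) (nat_lit 152) (nat_lit 775604076) (nat_lit 17) (nat_lit 4) (nat_lit 19) (nat_lit 5) (nat_lit 19) (nat_lit 4) (nat_lit 262) (nat_lit 233) (nat_lit 225)) (XT.lf (nat_lit 0) (nat_lit 2384895176) (nat_lit 228) (nat_lit 1698563869) (nat_lit 76) (nat_lit 7490345239) (nat_lit 16) (nat_lit 5) (nat_lit 19) (nat_lit 5) (nat_lit 17) (nat_lit 4) (nat_lit 263) (nat_lit 233) (nat_lit 224))) (XT.nd (nat_lit 78) (nat_lit 0) (nat_lit 0) (XT.lf (nat_lit 0) (nat_lit 4727285364) (nat_lit 76) (nat_lit 984345760) (nat_lit 152) (nat_lit 6446755104) (nat_lit 15) (nat_lit 5) (nat_lit 16) (nat_lit 5) (nat_lit 17) (nat_lit 4) (nat_lit 264) (nat_lit 233) (nat_lit 223))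 (XT.lf (nat_lit 0) (nat_lit 9254390700) (nat_lit 152) (nat_lit 1331763292) (nat_lit 0) (nat_lit 2208007380) (nat_lit 15) (nat_lit 5) (nat_lit 17) (nat_lit 4) (nat_lit 15) (nat_lit 4) (nat_lit 265) (nat_lit 233) (nat_lit 222))))) (XT.nd (nat_lit 234) (nat_lit 152) (nat_lit 0) (XT.nd (nat_lit 78) (nat_lit 152) (nat_lit 0) (XT.lf (nat_lit 0) (nat_lit 5260205376) (nat_lit 152) (nat_lit 7829305798) (nat_lit 152) (nat_lit 390958649) (nat_lit 13) (nat_lit 4) (nat_lit 15) (nat_lit 5) (nat_lit 15) (nat_lit 4) (nat_lit 266) (nat_lit 233) (nat_lit 221)) (XT.nd (nat_lit 78) (nat_lit 76) (nat_lit 0) (XT.lf (nat_lit 0) (nat_lit 2754640574) (nat_lit 228) (nat_lit 2071624225) (nat_lit 76) (nat_lit 9398323334) (nat_lit 12) (nat_lit 5) (nat_lit 15) (nat_lit 5) (nat_lit 13) (nat_lit 4) (nat_lit 267) (nat_lit 233) (nat_lit 220)) (XT.lf (nat_lit 0) (nat_lit 4569958571) (nat_lit 76) (nat_lit 1539311139)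 (nat_lit 152) (nat_lit 8920180324) (nat_lit 11) (nat_lit 5) (nat_lit 12) (nat_lit 5) (nat_lit 13) (nat_lit 4) (nat_lit 268) (nat_lit 233) (nat_lit 219)))) (XT.nd (nat_lit 156) (nat_lit 76) (nat_lit 0) (XT.nd (nat_lit 78) (nat_lit 76) (nat_lit 0) (XT.lf (nat_lit 0) (nat_lit 9709923548) (nat_lit 152) (nat_lit 4303588452) (nat_lit 0) (nat_lit 1887260630) (nat_lit 11) (nat_lit 5) (nat_lit 13) (nat_lit 4) (nat_lit 11) (nat_lit 4) (nat_lit 269) (nat_lit 233) (nat_lit 218)) (XT.lf (nat_lit 0) (nat_lit 2211472381) (nat_lit 76) (nat_lit 11361053462) (nat_lit 76) (nat_lit 3271626548) (nat_lit 10) (nat_lit 4) (nat_lit 11) (nat_lit 5) (nat_lit 11) (nat_lit 4) (nat_lit 270) (nat_lit 233) (nat_lit 217))) (XT.nd (nat_lit 78) (nat_lit 76) (nat_lit 0) (XT.lf (nat_lit 0) (nat_lit 9293691376) (nat_lit 76) (nat_lit 8452894678) (nat_lit 76) (nat_lit 116464064) (nat_lit 10) (nat_lit 4) (nat_lit 11) (nat_lit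 5) (nat_lit 11) (nat_lit 4) (nat_lit 271) (nat_lit 233) (nat_lit 216)) (XT.lf (nat_lit 0) (nat_lit 3016808123) (nat_lit 152) (nat_lit 2290176845) (nat_lit 76) (nat_lit 13659124894) (nat_lit 9) (nat_lit 5) (nat_lit 11) (nat_lit 5) (nat_lit 10) (nat_lit 4) (nat_lit 272) (nat_lit 233) (nat_lit 215))))))))
noncomputable def xc38 : XT := (XT.nd (nat_lit 2028) (nat_lit 76) (nat_lit 0) (XT.nd (nat_lit 1014) (nat_lit 152) (nat_lit 0) (XT.nd (nat_lit 468) (nat_lit 228) (nat_lit 0) (XT.nd (nat_lit 234) (nat_lit 76) (nat_lit 0) (XT.nd (nat_lit 78) (nat_lit 0) (nat_lit 0) (XT.lf (nat_lit 0) (nat_lit 4539418977) (nat_lit 76) (nat_lit 1862659186) (nat_lit 152) (nat_lit 13754677315) (nat_lit 8) (nat_lit 5) (nat_lit 9) (nat_lit 5) (nat_lit 10) (nat_lit 4) (nat_lit 273) (nat_lit 233) (nat_lit 214)) (XT.nd (nat_lit 78) (nat_lit 0) (nat_lit 0) (XT.lf (nat_lit 0) (nat_lit 10067166930) (nat_lit 152) (nat_lit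 9616095828) (nat_lit 0) (nat_lit 1758849241) (nat_lit 8) (nat_lit 5) (nat_lit 10) (nat_lit 4) (nat_lit 8) (nat_lit 4) (nat_lit 274) (nat_lit 233) (nat_lit 213)) (XT.lf (nat_lit 0) (nat_lit 13981331697) (nat_lit 152) (nat_lit 3347754160) (nat_lit 0) (nat_lit 5504907440) (nat_lit 8) (nat_lit 5) (nat_lit 10) (nat_lit 4) (nat_lit 8) (nat_lit 4) (nat_lit 275) (nat_lit 233) (nat_lit 212)))) (XT.nd (nat_lit 78) (nat_lit 0) (nat_lit 0) (XT.lf (nat_lit 0) (nat_lit 3441804217) (nat_lit 76) (nat_lit 14763941773) (nat_lit 76) (nat_lit 6131863287) (nat_lit 7) (nat_lit 4) (nat_lit 8) (nat_lit 5) (nat_lit 8) (nat_lit 4) (nat_lit 276) (nat_lit 233) (nat_lit 211)) (XT.nd (nat_lit 78) (nat_lit 0) (nat_lit 0) (XT.lf (nat_lit 0) (nat_lit 10816352224) (nat_lit 76) (nat_lit 11960407739) (nat_lit 76) (nat_lit 3184204967) (nat_lit 7) (nat_lit 4) (nat_lit 8) (nat_lit 5) (nat_lit 8) (nat_lit 4) (nat_lit 277)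 (nat_lit 233) (nat_lit 210)) (XT.lf (nat_lit 0) (nat_lit 18643304085) (nat_lit 76) (nat_lit 8993403751) (nat_lit 76) (nat_lit 83752565) (nat_lit 7) (nat_lit 4) (nat_lit 8) (nat_lit 5) (nat_lit 8) (nat_lit 4) (nat_lit 278) (nat_lit 233) (nat_lit 209))))) (XT.nd (nat_lit 234) (nat_lit 76) (nat_lit 0) (XT.nd (nat_lit 78) (nat_lit 76) (nat_lit 0) (XT.lf (nat_lit 0) (nat_lit 3028396950) (nat_lit 152) (nat_lit 2734148874) (nat_lit 76) (nat_lit 23857843048) (nat_lit 6) (nat_lit 5) (nat_lit 8) (nat_lit 5) (nat_lit 7) (nat_lit 4) (nat_lit 279) (nat_lit 233) (nat_lit 208)) (XT.nd (nat_lit 78) (nat_lit 0) (nat_lit 0) (XT.lf (nat_lit 0) (nat_lit 4202762534) (nat_lit 76) (nat_lit 2215693028) (nat_lit 152) (nat_lit 25251109530) (nat_lit 5) (nat_lit 5) (nat_lit 6) (nat_lit 5) (nat_lit 7) (nat_lit 4) (nat_lit 280) (nat_lit 233) (nat_lit 207)) (XT.lf (nat_lit 0) (nat_lit 10128522860) (nat_lit 152) (nat_lit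 22189933843) (nat_lit 0) (nat_lit 1560411110) (nat_lit 5) (nat_lit 5) (nat_lit 7) (nat_lit 4) (nat_lit 5) (nat_lit 4) (nat_lit 281) (nat_lit 233) (nat_lit 206)))) (XT.nd (nat_lit 156) (nat_lit 76) (nat_lit 0) (XT.nd (nat_lit 78) (nat_lit 0) (nat_lit 0) (XT.lf (nat_lit 0) (nat_lit 14131156396) (nat_lit 152) (nat_lit 16661965147) (nat_lit 0) (nat_lit 5472221899) (nat_lit 5) (nat_lit 5) (nat_lit 7) (nat_lit 4) (nat_lit 5) (nat_lit 4) (nat_lit 282) (nat_lit 233) (nat_lit 205)) (XT.lf (nat_lit 0) (nat_lit 18396788010) (nat_lit 152) (nat_lit 10796850667) (nat_lit 0) (nat_lit 9653758376) (nat_lit 5) (nat_lit 5) (nat_lit 7) (nat_lit 4) (nat_lit 5) (nat_lit 4) (nat_lit 283) (nat_lit 233) (nat_lit 204))) (XT.nd (nat_lit 78) (nat_lit 76) (nat_lit 0) (XT.lf (nat_lit 0) (nat_lit 22950695519) (nat_lit 152) (nat_lit 4559834170) (nat_lit 0) (nat_lit 14129800017) (nat_lit 5) (nat_lit 5) (nat_lit 7)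 (nat_lit 4) (nat_lit 5) (nat_lit 4) (nat_lit 284) (nat_lit 233) (nat_lit 203)) (XT.lf (nat_lit 0) (nat_lit 2195891846) (nat_lit 76) (nat_lit 25676784446) (nat_lit 76) (nat_lit 16783790919) (nat_lit 4) (nat_lit 4) (nat_lit 5) (nat_lit 5) (nat_lit 5) (nat_lit 4) (nat_lit 285) (nat_lit 233) (nat_lit 202)))))) (XT.nd (nat_lit 468) (nat_lit 152) (nat_lit 0) (XT.nd (nat_lit 234) (nat_lit 0) (nat_lit 0) (XT.nd (nat_lit 78) (nat_lit 0) (nat_lit 0) (XT.lf (nat_lit 0) (nat_lit 9663579541) (nat_lit 76) (nat_lit 23601980692) (nat_lit 76) (nat_lit 14642229734) (nat_lit 4) (nat_lit 4) (nat_lit 5) (nat_lit 5) (nat_lit 5) (nat_lit 4) (nat_lit 286) (nat_lit 233) (nat_lit 201)) (XT.nd (nat_lit 78) (nat_lit 0) (nat_lit 0) (XT.lf (nat_lit 0) (nat_lit 17647369094) (nat_lit 76) (nat_lit 21398497241) (nat_lit 76) (nat_lit 12376933846) (nat_lit 4) (nat_lit 4) (nat_lit 5) (nat_lit 5) (nat_lit 5) (nat_lit 4)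 (nat_lit 287) (nat_lit 233) (nat_lit 200)) (XT.lf (nat_lit 0) (nat_lit 26194571848) (nat_lit 76) (nat_lit 19053276412) (nat_lit 76) (nat_lit 9974479281) (nat_lit 4) (nat_lit 4) (nat_lit 5) (nat_lit 5) (nat_lit 5) (nat_lit 4) (nat_lit 288) (nat_lit 233) (nat_lit 199)))) (XT.nd (nat_lit 78) (nat_lit 0) (nat_lit 0) (XT.lf (nat_lit 0) (nat_lit 35355837895) (nat_lit 76) (nat_lit 16552420602) (nat_lit 76) (nat_lit 7420629269) (nat_lit 4) (nat_lit 4) (nat_lit 5) (nat_lit 5) (nat_lit 5) (nat_lit 4) (nat_lit 289) (nat_lit 233) (nat_lit 198)) (XT.nd (nat_lit 78) (nat_lit 0) (nat_lit 0) (XT.lf (nat_lit 0) (nat_lit 45185456219) (nat_lit 76) (nat_lit 13881109923) (nat_lit 76) (nat_lit 4700249886) (nat_lit 4) (nat_lit 4) (nat_lit 5) (nat_lit 5) (nat_lit 5) (nat_lit 4) (nat_lit 290) (nat_lit 233) (nat_lit 197)) (XT.lf (nat_lit 0) (nat_lit 55741676409) (nat_lit 76) (nat_lit 11023514386) (nat_lit 76)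 (nat_lit 1797220363) (nat_lit 4) (nat_lit 4) (nat_lit 5) (nat_lit 5) (nat_lit 5) (nat_lit 4) (nat_lit 291) (nat_lit 233) (nat_lit 196))))) (XT.nd (nat_lit 234) (nat_lit 0) (nat_lit 0) (XT.nd (nat_lit 78) (nat_lit 76) (nat_lit 0) (XT.lf (nat_lit 0) (nat_lit 1240347911) (nat_lit 152) (nat_lit 6688438871) (nat_lit 76) (nat_lit 65812792622) (nat_lit 3) (nat_lit 5) (nat_lit 5) (nat_lit 5) (nat_lit 4) (nat_lit 4) (nat_lit 292) (nat_lit 233) (nat_lit 195)) (XT.nd (nat_lit 78) (nat_lit 76) (nat_lit 0) (XT.lf (nat_lit 0) (nat_lit 4395335391) (nat_lit 152) (nat_lit 165017234) (nat_lit 76) (nat_lit 74773308742) (nat_lit 3) (nat_lit 5) (nat_lit 5) (nat_lit 5) (nat_lit 4) (nat_lit 4) (nat_lit 293) (nat_lit 233) (nat_lit 194)) (XT.lf (nat_lit 0) (nat_lit 7191140647) (nat_lit 76) (nat_lit 758148996) (nat_lit 152) (nat_lit 77412127750) (nat_lit 2) (nat_lit 5) (nat_lit 3) (nat_lit 5) (nat_lit 4) (nat_lit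 4) (nat_lit 294) (nat_lit 233) (nat_lit 193)))) (XT.nd (nat_lit 156) (nat_lit 0) (nat_lit 0) (XT.nd (nat_lit 78) (nat_lit 0) (nat_lit 0) (XT.lf (nat_lit 0) (nat_lit 11846612976) (nat_lit 152) (nat_lit 76855675283) (nat_lit 0) (nat_lit 3164411914) (nat_lit 2) (nat_lit 5) (nat_lit 4) (nat_lit 4) (nat_lit 2) (nat_lit 4) (nat_lit 295) (nat_lit 233) (nat_lit 192)) (XT.lf (nat_lit 0) (nat_lit 16051246442) (nat_lit 152) (nat_lit 75501131163) (nat_lit 0) (nat_lit 7340414262) (nat_lit 2) (nat_lit 5) (nat_lit 4) (nat_lit 4) (nat_lit 2) (nat_lit 4) (nat_lit 296) (nat_lit 233) (nat_lit 191))) (XT.nd (nat_lit 78) (nat_lit 0) (nat_lit 0) (XT.lf (nat_lit 0) (nat_lit 20569872886) (nat_lit 152) (nat_lit 74080383955) (nat_lit 0) (nat_lit 11832530412) (nat_lit 2) (nat_lit 5) (nat_lit 4) (nat_lit 4) (nat_lit 2) (nat_lit 4) (nat_lit 297) (nat_lit 233) (nat_lit 190)) (XT.lf (nat_lit 0) (nat_lit 25429269353)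 (nat_lit 152) (nat_lit 72585014418) (nat_lit 0) (nat_lit 16667380311) (nat_lit 2) (nat_lit 5) (nat_lit 4) (nat_lit 4) (nat_lit 2) (nat_lit 4) (nat_lit 298) (nat_lit 233) (nat_lit 189))))))) (XT.nd (nat_lit 1014) (nat_lit 76) (nat_lit 0) (XT.nd (nat_lit 468) (nat_lit 0) (nat_lit 0) (XT.nd (nat_lit 234) (nat_lit 0) (nat_lit 0) (XT.nd (nat_lit 78) (nat_lit 0) (nat_lit 0) (XT.lf (nat_lit 0) (nat_lit 30658232268) (nat_lit 152) (nat_lit 71006161102) (nat_lit 0) (nat_lit 21873614921) (nat_lit 2) (nat_lit 5) (nat_lit 4) (nat_lit 4) (nat_lit 2) (nat_lit 4) (nat_lit 299) (nat_lit 233) (nat_lit 188)) (XT.nd (nat_lit 78) (nat_lit 0) (nat_lit 0) (XT.lf (nat_lit 0) (nat_lit 36287748077) (nat_lit 152) (nat_lit 69334467839) (nat_lit 0) (nat_lit 27482086003) (nat_lit 2) (nat_lit 5) (nat_lit 4) (nat_lit 4) (nat_lit 2) (nat_lit 4) (nat_lit 300) (nat_lit 233) (nat_lit 187)) (XT.lf (nat_lit 0) (nat_lit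 42351176873) (nat_lit 152) (nat_lit 67560028299) (nat_lit 0) (nat_lit 33526028942) (nat_lit 2) (nat_lit 5) (nat_lit 4) (nat_lit 4) (nat_lit 2) (nat_lit 4) (nat_lit 301) (nat_lit 233) (nat_lit 186)))) (XT.nd (nat_lit 78) (nat_lit 0) (nat_lit 0) (XT.lf (nat_lit 0) (nat_lit 48884450087) (nat_lit 152) (nat_lit 65672327285) (nat_lit 0) (nat_lit 40041259695) (nat_lit 2) (nat_lit 5) (nat_lit 4) (nat_lit 4) (nat_lit 2) (nat_lit 4) (nat_lit 302) (nat_lit 233) (nat_lit 185)) (XT.nd (nat_lit 78) (nat_lit 0) (nat_lit 0) (XT.lf (nat_lit 0) (nat_lit 55926283412) (nat_lit 152) (nat_lit 63660178420) (nat_lit 0) (nat_lit 47066387038) (nat_lit 2) (nat_lit 5) (nat_lit 4) (nat_lit 4) (nat_lit 2) (nat_lit 4) (nat_lit 303) (nat_lit 233) (nat_lit 184)) (XT.lf (nat_lit 0) (nat_lit 63518406230) (nat_lit 152) (nat_lit 61511657860) (nat_lit 0) (nat_lit 54643041354) (nat_lit 2) (nat_lit 5) (nat_lit 4) (nat_lit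 4) (nat_lit 2) (nat_lit 4) (nat_lit 304) (nat_lit 233) (nat_lit 183))))) (XT.nd (nat_lit 234) (nat_lit 0) (nat_lit 0) (XT.nd (nat_lit 78) (nat_lit 0) (nat_lit 0) (XT.lf (nat_lit 0) (nat_lit 71705808899) (nat_lit 152) (nat_lit 59214033629) (nat_lit 0) (nat_lit 62816121336) (nat_lit 2) (nat_lit 5) (nat_lit 4) (nat_lit 4) (nat_lit 2) (nat_lit 4) (nat_lit 305) (nat_lit 233) (nat_lit 182)) (XT.nd (nat_lit 78) (nat_lit 0) (nat_lit 0) (XT.lf (nat_lit 0) (nat_lit 80537009361) (nat_lit 152) (nat_lit 56753690178) (nat_lit 0) (nat_lit 71634060050) (nat_lit 2) (nat_lit 5) (nat_lit 4) (nat_lit 4) (nat_lit 2) (nat_lit 4) (nat_lit 306) (nat_lit 233) (nat_lit 181)) (XT.lf (nat_lit 0) (nat_lit 90064340655) (nat_lit 152) (nat_lit 54116047694) (nat_lit 0) (nat_lit 81149111948) (nat_lit 2) (nat_lit 5) (nat_lit 4) (nat_lit 4) (nat_lit 2) (nat_lit 4) (nat_lit 307) (nat_lit 233) (nat_lit 180)))) (XT.nd (nat_lit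 156) (nat_lit 0) (nat_lit 0) (XT.nd (nat_lit 78) (nat_lit 0) (nat_lit 0) (XT.lf (nat_lit 0) (nat_lit 100344261041) (nat_lit 152) (nat_lit 51285475701) (nat_lit 0) (nat_lit 91417662524) (nat_lit 2) (nat_lit 5) (nat_lit 4) (nat_lit 4) (nat_lit 2) (nat_lit 4) (nat_lit 308) (nat_lit 233) (nat_lit 179)) (XT.lf (nat_lit 0) (nat_lit 111437688566) (nat_lit 152) (nat_lit 48245200442) (nat_lit 0) (nat_lit 102500562445) (nat_lit 2) (nat_lit 5) (nat_lit 4) (nat_lit 4) (nat_lit 2) (nat_lit 4) (nat_lit 309) (nat_lit 233) (nat_lit 178))) (XT.nd (nat_lit 78) (nat_lit 0) (nat_lit 0) (XT.lf (nat_lit 0) (nat_lit 123410362058) (nat_lit 152) (nat_lit 44977205469) (nat_lit 0) (nat_lit 114463488158) (nat_lit 2) (nat_lit 5) (nat_lit 4) (nat_lit 4) (nat_lit 2) (nat_lit 4) (nat_lit 310) (nat_lit 233) (nat_lit 177)) (XT.lf (nat_lit 0) (nat_lit 136333230696) (nat_lit 152) (nat_lit 41462124886) (nat_lit 0) (nat_lit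 127377331073) (nat_lit 2) (nat_lit 5) (nat_lit 4) (nat_lit 4) (nat_lit 2) (nat_lit 4) (nat_lit 311) (nat_lit 233) (nat_lit 176)))))) (XT.nd (nat_lit 546) (nat_lit 76) (nat_lit 0) (XT.nd (nat_lit 234) (nat_lit 0) (nat_lit 0) (XT.nd (nat_lit 78) (nat_lit 0) (nat_lit 0) (XT.lf (nat_lit 0) (nat_lit 150282874440) (nat_lit 152) (nat_lit 37679128586) (nat_lit 0) (nat_lit 141318617667) (nat_lit 2) (nat_lit 5) (nat_lit 4) (nat_lit 4) (nat_lit 2) (nat_lit 4) (nat_lit 312) (nat_lit 233) (nat_lit 175)) (XT.nd (nat_lit 78) (nat_lit 0) (nat_lit 0) (XT.lf (nat_lit 0) (nat_lit 165341957847) (nat_lit 152) (nat_lit 33605798814) (nat_lit 0) (nat_lit 156369962972) (nat_lit 2) (nat_lit 5) (nat_lit 4) (nat_lit 4) (nat_lit 2) (nat_lit 4) (nat_lit 313) (nat_lit 233) (nat_lit 174)) (XT.lf (nat_lit 0) (nat_lit 181599719930) (nat_lit 152) (nat_lit 29217997318) (nat_lit 0) (nat_lit 172620560145) (nat_lit 2) (nat_lit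 5) (nat_lit 4) (nat_lit 4) (nat_lit 2) (nat_lit 4) (nat_lit 314) (nat_lit 233) (nat_lit 173)))) (XT.nd (nat_lit 156) (nat_lit 0) (nat_lit 0) (XT.nd (nat_lit 78) (nat_lit 0) (nat_lit 0) (XT.lf (nat_lit 0) (nat_lit 199152502981) (nat_lit 152) (nat_lit 24489722313) (nat_lit 0) (nat_lit 190166709021) (nat_lit 2) (nat_lit 5) (nat_lit 4) (nat_lit 4) (nat_lit 2) (nat_lit 4) (nat_lit 315) (nat_lit 233) (nat_lit 172)) (XT.lf (nat_lit 0) (nat_lit 218104323493) (nat_lit 152) (nat_lit 19392954390) (nat_lit 0) (nat_lit 209112386778) (nat_lit 2) (nat_lit 5) (nat_lit 4) (nat_lit 4) (nat_lit 2) (nat_lit 4) (nat_lit 316) (nat_lit 233) (nat_lit 171))) (XT.nd (nat_lit 78) (nat_lit 0) (nat_lit 0) (XT.lf (nat_lit 0) (nat_lit 238567488551) (nat_lit 152) (nat_lit 13897490481) (nat_lit 0) (nat_lit 229569864100) (nat_lit 2) (nat_lit 5) (nat_lit 4) (nat_lit 4) (nat_lit 2) (nat_lit 4) (nat_lit 317) (nat_lit 233)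 (nat_lit 170)) (XT.lf (nat_lit 0) (nat_lit 260663261356) (nat_lit 152) (nat_lit 7970764873) (nat_lit 0) (nat_lit 251660370482) (nat_lit 2) (nat_lit 5) (nat_lit 4) (nat_lit 4) (nat_lit 2) (nat_lit 4) (nat_lit 318) (nat_lit 233) (nat_lit 169))))) (XT.nd (nat_lit 234) (nat_lit 0) (nat_lit 0) (XT.nd (nat_lit 78) (nat_lit 76) (nat_lit 0) (XT.lf (nat_lit 0) (nat_lit 284522579819) (nat_lit 152) (nat_lit 1577656230) (nat_lit 0) (nat_lit 275514812628) (nat_lit 2) (nat_lit 5) (nat_lit 4) (nat_lit 4) (nat_lit 2) (nat_lit 4) (nat_lit 319) (nat_lit 233) (nat_lit 168)) (XT.nd (nat_lit 78) (nat_lit 0) (nat_lit 0) (XT.lf (nat_lit 0) (nat_lit 5599847591) (nat_lit 76) (nat_lit 304821661372) (nat_lit 76) (nat_lit 295809379073) (nat_lit 1) (nat_lit 4) (nat_lit 2) (nat_lit 5) (nat_lit 2) (nat_lit 4) (nat_lit 320) (nat_lit 233) (nat_lit 167)) (XT.lf (nat_lit 0) (nat_lit 13434275646) (nat_lit 76) (nat_lit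 324997515442) (nat_lit 76) (nat_lit 315981052488) (nat_lit 1) (nat_lit 4) (nat_lit 2) (nat_lit 5) (nat_lit 2) (nat_lit 4) (nat_lit 321) (nat_lit 233) (nat_lit 166)))) (XT.nd (nat_lit 156) (nat_lit 0) (nat_lit 0) (XT.nd (nat_lit 78) (nat_lit 0) (nat_lit 0) (XT.lf (nat_lit 0) (nat_lit 21888977593) (nat_lit 76) (nat_lit 346790494793) (nat_lit 76) (nat_lit 337770160861) (nat_lit 1) (nat_lit 4) (nat_lit 2) (nat_lit 5) (nat_lit 2) (nat_lit 4) (nat_lit 322) (nat_lit 233) (nat_lit 165)) (XT.lf (nat_lit 0) (nat_lit 31014055368) (nat_lit 76) (nat_lit 370329743007) (nat_lit 76) (nat_lit 361305824836) (nat_lit 1) (nat_lit 4) (nat_lit 2) (nat_lit 5) (nat_lit 2) (nat_lit 4) (nat_lit 323) (nat_lit 233) (nat_lit 164))) (XT.nd (nat_lit 78) (nat_lit 0) (nat_lit 0) (XT.lf (nat_lit 0) (nat_lit 40863583507) (nat_lit 76) (nat_lit 395754751925) (nat_lit 76) (nat_lit 386727515014) (nat_lit 1) (nat_lit 4) (nat_lit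 2) (nat_lit 5) (nat_lit 2) (nat_lit 4) (nat_lit 324) (nat_lit 233) (nat_lit 163)) (XT.lf (nat_lit 0) (nat_lit 51495929584) (nat_lit 76) (nat_lit 423216188265) (nat_lit 76) (nat_lit 414185878448) (nat_lit 1) (nat_lit 4) (nat_lit 2) (nat_lit 5) (nat_lit 2) (nat_lit 4) (nat_lit 325) (nat_lit 233) (nat_lit 162))))))))
noncomputable def xc39 : XT := (XT.nd (nat_lit 32526) (nat_lit 0) (nat_lit 228) (XT.nd (nat_lit 1014) (nat_lit 0) (nat_lit 0) (XT.nd (nat_lit 468) (nat_lit 0) (nat_lit 0) (XT.nd (nat_lit 234) (nat_lit 0) (nat_lit 0) (XT.nd (nat_lit 78) (nat_lit 0) (nat_lit 0) (XT.lf (nat_lit 0) (nat_lit 62974100095) (nat_lit 76) (nat_lit 452876786467) (nat_lit 76) (nat_lit 443843631366) (nat_lit 1) (nat_lit 4) (nat_lit 2) (nat_lit 5) (nat_lit 2) (nat_lit 4) (nat_lit 326) (nat_lit 233) (nat_lit 161)) (XT.nd (nat_lit 78) (nat_lit 0) (nat_lit 0) (XT.lf (nat_lit 0) (nat_lit 75366113827) (nat_lit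 76) (nat_lit 484912313037) (nat_lit 76) (nat_lit 475876523414) (nat_lit 1) (nat_lit 4) (nat_lit 2) (nat_lit 5) (nat_lit 2) (nat_lit 4) (nat_lit 327) (nat_lit 233) (nat_lit 160)) (XT.lf (nat_lit 0) (nat_lit 88745404935) (nat_lit 76) (nat_lit 519512608134) (nat_lit 76) (nat_lit 510474379138) (nat_lit 1) (nat_lit 4) (nat_lit 2) (nat_lit 5) (nat_lit 2) (nat_lit 4) (nat_lit 328) (nat_lit 233) (nat_lit 159)))) (XT.nd (nat_lit 78) (nat_lit 0) (nat_lit 0) (XT.lf (nat_lit 0) (nat_lit 103191258109) (nat_lit 76) (nat_lit 556882710542) (nat_lit 76) (nat_lit 547842222868) (nat_lit 1) (nat_lit 4) (nat_lit 2) (nat_lit 5) (nat_lit 2) (nat_lit 4) (nat_lit 329) (nat_lit 233) (nat_lit 158)) (XT.nd (nat_lit 78) (nat_lit 0) (nat_lit 0) (XT.lf (nat_lit 0) (nat_lit 118789278404) (nat_lit 76) (nat_lit 597244072722) (nat_lit 76) (nat_lit 588201493678) (nat_lit 1) (nat_lit 4) (nat_lit 2) (nat_lit 5) (nat_lit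 2) (nat_lit 4) (nat_lit 330) (nat_lit 233) (nat_lit 157)) (XT.lf (nat_lit 0) (nat_lit 135631898532) (nat_lit 76) (nat_lit 640835873114) (nat_lit 76) (nat_lit 631791357618) (nat_lit 1) (nat_lit 4) (nat_lit 2) (nat_lit 5) (nat_lit 2) (nat_lit 4) (nat_lit 331) (nat_lit 233) (nat_lit 156))))) (XT.nd (nat_lit 234) (nat_lit 0) (nat_lit 0) (XT.nd (nat_lit 78) (nat_lit 0) (nat_lit 0) (XT.lf (nat_lit 0) (nat_lit 153818926613) (nat_lit 76) (nat_lit 687916433500) (nat_lit 76) (nat_lit 678870124992) (nat_lit 1) (nat_lit 4) (nat_lit 2) (nat_lit 5) (nat_lit 2) (nat_lit 4) (nat_lit 332) (nat_lit 233) (nat_lit 155)) (XT.nd (nat_lit 78) (nat_lit 0) (nat_lit 0) (XT.lf (nat_lit 0) (nat_lit 173458137628) (nat_lit 76) (nat_lit 738764749792) (nat_lit 76) (nat_lit 729716781089) (nat_lit 1) (nat_lit 4) (nat_lit 2) (nat_lit 5) (nat_lit 2) (nat_lit 4) (nat_lit 333) (nat_lit 233) (nat_lit 154)) (XT.lf (nat_lit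 0) (nat_lit 194665912087) (nat_lit 76) (nat_lit 793682145347) (nat_lit 76) (nat_lit 784632639425) (nat_lit 1) (nat_lit 4) (nat_lit 2) (nat_lit 5) (nat_lit 2) (nat_lit 4) (nat_lit 334) (nat_lit 233) (nat_lit 153)))) (XT.nd (nat_lit 156) (nat_lit 0) (nat_lit 0) (XT.nd (nat_lit 78) (nat_lit 0) (nat_lit 0) (XT.lf (nat_lit 0) (nat_lit 217567925691) (nat_lit 76) (nat_lit 852994056583) (nat_lit 76) (nat_lit 843943127310) (nat_lit 1) (nat_lit 4) (nat_lit 2) (nat_lit 5) (nat_lit 2) (nat_lit 4) (nat_lit 335) (nat_lit 233) (nat_lit 152)) (XT.lf (nat_lit 0) (nat_lit 242299894075) (nat_lit 76) (nat_lit 917051961491) (nat_lit 76) (nat_lit 907999714302) (nat_lit 1) (nat_lit 4) (nat_lit 2) (nat_lit 5) (nat_lit 2) (nat_lit 4) (nat_lit 336) (nat_lit 233) (nat_lit 151))) (XT.nd (nat_lit 78) (nat_lit 0) (nat_lit 0) (XT.lf (nat_lit 0) (nat_lit 269008377052) (nat_lit 76) (nat_lit 986235462473) (nat_lit 76)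 (nat_lit 977181994990) (nat_lit 1) (nat_lit 4) (nat_lit 2) (nat_lit 5) (nat_lit 2) (nat_lit 4) (nat_lit 337) (nat_lit 233) (nat_lit 150)) (XT.lf (nat_lit 0) (nat_lit 297851647115) (nat_lit 76) (nat_lit 1060954535829) (nat_lit 76) (nat_lit 1051899938444) (nat_lit 1) (nat_lit 4) (nat_lit 2) (nat_lit 5) (nat_lit 2) (nat_lit 4) (nat_lit 338) (nat_lit 233) (nat_lit 149)))))) (XT.nd (nat_lit 30966) (nat_lit 0) (nat_lit 1368) (XT.nd (nat_lit 234) (nat_lit 0) (nat_lit 0) (XT.nd (nat_lit 78) (nat_lit 0) (nat_lit 0) (XT.lf (nat_lit 0) (nat_lit 329000627344) (nat_lit 76) (nat_lit 1141651961253) (nat_lit 76) (nat_lit 1132596317664) (nat_lit 1) (nat_lit 4) (nat_lit 2) (nat_lit 5) (nat_lit 2) (nat_lit 4) (nat_lit 339) (nat_lit 233) (nat_lit 148)) (XT.nd (nat_lit 78) (nat_lit 0) (nat_lit 0) (XT.lf (nat_lit 0) (nat_lit 362639904289) (nat_lit 76) (nat_lit 1228805945712) (nat_lit 76) (nat_lit 1219749333414)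 (nat_lit 1) (nat_lit 4) (nat_lit 2) (nat_lit 5) (nat_lit 2) (nat_lit 4) (nat_lit 340) (nat_lit 233) (nat_lit 147)) (XT.lf (nat_lit 0) (nat_lit 398968821814) (nat_lit 76) (nat_lit 1322932957261) (nat_lit 76) (nat_lit 1313875448011) (nat_lit 1) (nat_lit 4) (nat_lit 2) (nat_lit 5) (nat_lit 2) (nat_lit 4) (nat_lit 341) (nat_lit 233) (nat_lit 146)))) (XT.nd (nat_lit 30576) (nat_lit 0) (nat_lit 2204) (XT.nd (nat_lit 30498) (nat_lit 0) (nat_lit 2660) (XT.lf (nat_lit 0) (nat_lit 438202662393) (nat_lit 76) (nat_lit 1424590785598) (nat_lit 76) (nat_lit 1415532445837) (nat_lit 1) (nat_lit 4) (nat_lit 2) (nat_lit 5) (nat_lit 2) (nat_lit 4) (nat_lit 342) (nat_lit 233) (nat_lit 145)) (XT.lf (nat_lit 0) (nat_lit 1761772885) (nat_lit 532) (nat_lit 280378234) (nat_lit 0) (nat_lit 1761772885) (nat_lit 36) (nat_lit 5) (nat_lit 43) (nat_lit 4) (nat_lit 36) (nat_lit 4) (nat_lit 252) (nat_lit 234) (nat_lit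 234))) (XT.nd (nat_lit 78) (nat_lit 228) (nat_lit 0) (XT.lf (nat_lit 0) (nat_lit 4692319293) (nat_lit 228) (nat_lit 2237924558) (nat_lit 228) (nat_lit 895078962) (nat_lit 33) (nat_lit 4) (nat_lit 36) (nat_lit 5) (nat_lit 36) (nat_lit 4) (nat_lit 253) (nat_lit 234) (nat_lit 233)) (XT.lf (nat_lit 0) (nat_lit 2109207124) (nat_lit 152) (nat_lit 148210314) (nat_lit 228) (nat_lit 5812155723) (nat_lit 30) (nat_lit 5) (nat_lit 32) (nat_lit 5) (nat_lit 33) (nat_lit 4) (nat_lit 254) (nat_lit 234) (nat_lit 232))))) (XT.nd (nat_lit 234) (nat_lit 380) (nat_lit 0) (XT.nd (nat_lit 78) (nat_lit 456) (nat_lit 0) (XT.lf (nat_lit 0) (nat_lit 5531143811) (nat_lit 228) (nat_lit 737519478) (nat_lit 0) (nat_lit 2070500471) (nat_lit 30) (nat_lit 5) (nat_lit 33) (nat_lit 4) (nat_lit 30) (nat_lit 4) (nat_lit 255) (nat_lit 234) (nat_lit 231)) (XT.nd (nat_lit 78) (nat_lit 152) (nat_lit 0) (XT.lf (nat_lit 0) (nat_lit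 327921381) (nat_lit 304) (nat_lit 3765598466) (nat_lit 76) (nat_lit 4543798624) (nat_lit 26) (nat_lit 5) (nat_lit 30) (nat_lit 5) (nat_lit 27) (nat_lit 4) (nat_lit 256) (nat_lit 234) (nat_lit 230)) (XT.lf (nat_lit 0) (nat_lit 1760984884) (nat_lit 152) (nat_lit 1663331449) (nat_lit 228) (nat_lit 5541106070) (nat_lit 24) (nat_lit 5) (nat_lit 26) (nat_lit 5) (nat_lit 27) (nat_lit 4) (nat_lit 257) (nat_lit 234) (nat_lit 229)))) (XT.nd (nat_lit 156) (nat_lit 152) (nat_lit 0) (XT.nd (nat_lit 78) (nat_lit 228) (nat_lit 0) (XT.lf (nat_lit 0) (nat_lit 6702461549) (nat_lit 228) (nat_lit 1668876636) (nat_lit 0) (nat_lit 954485996) (nat_lit 24) (nat_lit 5) (nat_lit 27) (nat_lit 4) (nat_lit 24) (nat_lit 4) (nat_lit 258) (nat_lit 234) (nat_lit 228)) (XT.lf (nat_lit 0) (nat_lit 464261956) (nat_lit 228) (nat_lit 5507808376) (nat_lit 76) (nat_lit 3745605533) (nat_lit 21) (nat_lit 5) (nat_lit 24) (nat_lit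 5) (nat_lit 22) (nat_lit 4) (nat_lit 259) (nat_lit 234) (nat_lit 227))) (XT.nd (nat_lit 78) (nat_lit 0) (nat_lit 0) (XT.lf (nat_lit 0) (nat_lit 198684121) (nat_lit 152) (nat_lit 3332043998) (nat_lit 228) (nat_lit 6615424851) (nat_lit 19) (nat_lit 5) (nat_lit 21) (nat_lit 5) (nat_lit 22) (nat_lit 4) (nat_lit 260) (nat_lit 234) (nat_lit 226)) (XT.lf (nat_lit 0) (nat_lit 6422948207) (nat_lit 152) (nat_lit 399251749) (nat_lit 228) (nat_lit 3788901119) (nat_lit 19) (nat_lit 5) (nat_lit 21) (nat_lit 5) (nat_lit 22) (nat_lit 4) (nat_lit 261) (nat_lit 234) (nat_lit 225))))))) (XT.nd (nat_lit 1014) (nat_lit 304) (nat_lit 0) (XT.nd (nat_lit 468) (nat_lit 304) (nat_lit 0) (XT.nd (nat_lit 234) (nat_lit 228) (nat_lit 0) (XT.nd (nat_lit 78) (nat_lit 152) (nat_lit 0) (XT.lf (nat_lit 0) (nat_lit 1811243274) (nat_lit 152) (nat_lit 8515830413) (nat_lit 152) (nat_lit 790690447) (nat_lit 17) (nat_lit 4)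 (nat_lit 19) (nat_lit 5) (nat_lit 19) (nat_lit 4) (nat_lit 262) (nat_lit 234) (nat_lit 224)) (XT.nd (nat_lit 78) (nat_lit 76) (nat_lit 0) (XT.lf (nat_lit 0) (nat_lit 2294413580) (nat_lit 228) (nat_lit 3446521257) (nat_lit 76) (nat_lit 5922210325) (nat_lit 16) (nat_lit 5) (nat_lit 19) (nat_lit 5) (nat_lit 17) (nat_lit 4) (nat_lit 263) (nat_lit 234) (nat_lit 223)) (XT.lf (nat_lit 0) (nat_lit 2771402650) (nat_lit 76) (nat_lit 2732198678) (nat_lit 152) (nat_lit 6753730318) (nat_lit 15) (nat_lit 5) (nat_lit 16) (nat_lit 5) (nat_lit 17) (nat_lit 4) (nat_lit 264) (nat_lit 234) (nat_lit 222)))) (XT.nd (nat_lit 78) (nat_lit 228) (nat_lit 0) (XT.lf (nat_lit 0) (nat_lit 8935509925) (nat_lit 152) (nat_lit 3456519589) (nat_lit 0) (nat_lit 510131176) (nat_lit 15) (nat_lit 5) (nat_lit 17) (nat_lit 4) (nat_lit 15) (nat_lit 4) (nat_lit 265) (nat_lit 234) (nat_lit 221)) (XT.nd (nat_lit 78) (nat_lit 76)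 (nat_lit 0) (XT.lf (nat_lit 0) (nat_lit 2914433642) (nat_lit 152) (nat_lit 9736063229) (nat_lit 152) (nat_lit 947755008) (nat_lit 13) (nat_lit 4) (nat_lit 15) (nat_lit 5) (nat_lit 15) (nat_lit 4) (nat_lit 266) (nat_lit 234) (nat_lit 220)) (XT.lf (nat_lit 0) (nat_lit 2162522560) (nat_lit 228) (nat_lit 4626307101) (nat_lit 76) (nat_lit 7559813303) (nat_lit 12) (nat_lit 5) (nat_lit 15) (nat_lit 5) (nat_lit 13) (nat_lit 4) (nat_lit 267) (nat_lit 234) (nat_lit 219))))) (XT.nd (nat_lit 234) (nat_lit 228) (nat_lit 0) (XT.nd (nat_lit 78) (nat_lit 0) (nat_lit 0) (XT.lf (nat_lit 0) (nat_lit 1778876646) (nat_lit 76) (nat_lit 3612654217) (nat_lit 152) (nat_lit 9772160251) (nat_lit 11) (nat_lit 5) (nat_lit 12) (nat_lit 5) (nat_lit 13) (nat_lit 4) (nat_lit 268) (nat_lit 234) (nat_lit 218)) (XT.nd (nat_lit 78) (nat_lit 0) (nat_lit 0) (XT.lf (nat_lit 0) (nat_lit 8763375549) (nat_lit 76) (nat_lit 124599554)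 (nat_lit 152) (nat_lit 7155501841) (nat_lit 11) (nat_lit 5) (nat_lit 12) (nat_lit 5) (nat_lit 13) (nat_lit 4) (nat_lit 269) (nat_lit 234) (nat_lit 217)) (XT.lf (nat_lit 0) (nat_lit 12641300119) (nat_lit 152) (nat_lit 963464511) (nat_lit 0) (nat_lit 3390951357) (nat_lit 11) (nat_lit 5) (nat_lit 13) (nat_lit 4) (nat_lit 11) (nat_lit 4) (nat_lit 270) (nat_lit 234) (nat_lit 216)))) (XT.nd (nat_lit 156) (nat_lit 76) (nat_lit 0) (XT.nd (nat_lit 78) (nat_lit 76) (nat_lit 0) (XT.lf (nat_lit 0) (nat_lit 5979524961) (nat_lit 76) (nat_lit 10760153797) (nat_lit 76) (nat_lit 1281097906) (nat_lit 10) (nat_lit 4) (nat_lit 11) (nat_lit 5) (nat_lit 11) (nat_lit 4) (nat_lit 271) (nat_lit 234) (nat_lit 215)) (XT.lf (nat_lit 0) (nat_lit 1861614284) (nat_lit 152) (nat_lit 5818664040) (nat_lit 76) (nat_lit 11449797373) (nat_lit 9) (nat_lit 5) (nat_lit 11) (nat_lit 5) (nat_lit 10) (nat_lit 4) (nat_lit 272)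 (nat_lit 234) (nat_lit 214))) (XT.nd (nat_lit 78) (nat_lit 0) (nat_lit 0) (XT.lf (nat_lit 0) (nat_lit 742666061) (nat_lit 76) (nat_lit 4367702839) (nat_lit 152) (nat_lit 15221359718) (nat_lit 8) (nat_lit 5) (nat_lit 9) (nat_lit 5) (nat_lit 10) (nat_lit 4) (nat_lit 273) (nat_lit 234) (nat_lit 213)) (XT.lf (nat_lit 0) (nat_lit 8000999755) (nat_lit 76) (nat_lit 686238754) (nat_lit 152) (nat_lit 12936983857) (nat_lit 8) (nat_lit 5) (nat_lit 9) (nat_lit 5) (nat_lit 10) (nat_lit 4) (nat_lit 274) (nat_lit 234) (nat_lit 212)))))) (XT.nd (nat_lit 546) (nat_lit 76) (nat_lit 0) (XT.nd (nat_lit 234) (nat_lit 152) (nat_lit 0) (XT.nd (nat_lit 78) (nat_lit 76) (nat_lit 0) (XT.lf (nat_lit 0) (nat_lit 12543716945) (nat_lit 152) (nat_lit 7411657467) (nat_lit 0) (nat_lit 3065417951) (nat_lit 8) (nat_lit 5) (nat_lit 10) (nat_lit 4) (nat_lit 8) (nat_lit 4) (nat_lit 275) (nat_lit 234) (nat_lit 211)) (XT.nd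 (nat_lit 78) (nat_lit 76) (nat_lit 0) (XT.lf (nat_lit 0) (nat_lit 16647224029) (nat_lit 152) (nat_lit 862124467) (nat_lit 0) (nat_lit 7024800749) (nat_lit 8) (nat_lit 5) (nat_lit 10) (nat_lit 4) (nat_lit 8) (nat_lit 4) (nat_lit 276) (nat_lit 234) (nat_lit 210)) (XT.lf (nat_lit 0) (nat_lit 6400890984) (nat_lit 76) (nat_lit 14758623382) (nat_lit 76) (nat_lit 5002751688) (nat_lit 7) (nat_lit 4) (nat_lit 8) (nat_lit 5) (nat_lit 8) (nat_lit 4) (nat_lit 277) (nat_lit 234) (nat_lit 209)))) (XT.nd (nat_lit 156) (nat_lit 76) (nat_lit 0) (XT.nd (nat_lit 78) (nat_lit 76) (nat_lit 0) (XT.lf (nat_lit 0) (nat_lit 14166607096) (nat_lit 76) (nat_lit 11818690605) (nat_lit 76) (nat_lit 1939255565) (nat_lit 7) (nat_lit 4) (nat_lit 8) (nat_lit 5) (nat_lit 8) (nat_lit 4) (nat_lit 278) (nat_lit 234) (nat_lit 208)) (XT.lf (nat_lit 0) (nat_lit 1233206710) (nat_lit 152) (nat_lit 7428775586) (nat_lit 76) (nat_lit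 21168720214) (nat_lit 6) (nat_lit 5) (nat_lit 8) (nat_lit 5) (nat_lit 7) (nat_lit 4) (nat_lit 279) (nat_lit 234) (nat_lit 207))) (XT.nd (nat_lit 78) (nat_lit 76) (nat_lit 0) (XT.lf (nat_lit 0) (nat_lit 4492089695) (nat_lit 152) (nat_lit 756234631) (nat_lit 76) (nat_lit 26642094956) (nat_lit 6) (nat_lit 5) (nat_lit 8) (nat_lit 5) (nat_lit 7) (nat_lit 4) (nat_lit 280) (nat_lit 234) (nat_lit 206)) (XT.lf (nat_lit 0) (nat_lit 6680018395) (nat_lit 76) (nat_lit 1434350912) (nat_lit 152) (nat_lit 25992418767) (nat_lit 5) (nat_lit 5) (nat_lit 6) (nat_lit 5) (nat_lit 7) (nat_lit 4) (nat_lit 281) (nat_lit 234) (nat_lit 205))))) (XT.nd (nat_lit 234) (nat_lit 76) (nat_lit 0) (XT.nd (nat_lit 78) (nat_lit 0) (nat_lit 0) (XT.lf (nat_lit 0) (nat_lit 12055000610) (nat_lit 152) (nat_lit 21914829672) (nat_lit 0) (nat_lit 2528433468) (nat_lit 5) (nat_lit 5) (nat_lit 7) (nat_lit 4) (nat_lit 5) (nat_lit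 4) (nat_lit 282) (nat_lit 234) (nat_lit 204)) (XT.nd (nat_lit 78) (nat_lit 0) (nat_lit 0) (XT.lf (nat_lit 0) (nat_lit 16295163649) (nat_lit 152) (nat_lit 16096497471) (nat_lit 0) (nat_lit 6690730640) (nat_lit 5) (nat_lit 5) (nat_lit 7) (nat_lit 4) (nat_lit 5) (nat_lit 4) (nat_lit 283) (nat_lit 234) (nat_lit 203)) (XT.lf (nat_lit 0) (nat_lit 20825489145) (nat_lit 152) (nat_lit 9902797899) (nat_lit 0) (nat_lit 11148958110) (nat_lit 5) (nat_lit 5) (nat_lit 7) (nat_lit 4) (nat_lit 5) (nat_lit 4) (nat_lit 284) (nat_lit 234) (nat_lit 202)))) (XT.nd (nat_lit 156) (nat_lit 0) (nat_lit 0) (XT.nd (nat_lit 78) (nat_lit 76) (nat_lit 0) (XT.lf (nat_lit 0) (nat_lit 25672823469) (nat_lit 152) (nat_lit 3297027550) (nat_lit 0) (nat_lit 15929535003) (nat_lit 5) (nat_lit 5) (nat_lit 7) (nat_lit 4) (nat_lit 5) (nat_lit 4) (nat_lit 285) (nat_lit 234) (nat_lit 201)) (XT.lf (nat_lit 0) (nat_lit 3957951652)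 (nat_lit 76) (nat_lit 27003128747) (nat_lit 76) (nat_lit 17198027845) (nat_lit 4) (nat_lit 4) (nat_lit 5) (nat_lit 5) (nat_lit 5) (nat_lit 4) (nat_lit 286) (nat_lit 234) (nat_lit 200))) (XT.nd (nat_lit 78) (nat_lit 0) (nat_lit 0) (XT.lf (nat_lit 0) (nat_lit 11905544107) (nat_lit 76) (nat_lit 24816251689) (nat_lit 76) (nat_lit 14953917050) (nat_lit 4) (nat_lit 4) (nat_lit 5) (nat_lit 5) (nat_lit 5) (nat_lit 4) (nat_lit 287) (nat_lit 234) (nat_lit 199)) (XT.lf (nat_lit 0) (nat_lit 20419231031) (nat_lit 76) (nat_lit 22486407151) (nat_lit 76) (nat_lit 12571078311) (nat_lit 4) (nat_lit 4) (nat_lit 5) (nat_lit 5) (nat_lit 5) (nat_lit 4) (nat_lit 288) (nat_lit 234) (nat_lit 198))))))))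
noncomputable def xc40 : XT := (XT.nd (nat_lit 2028) (nat_lit 76) (nat_lit 0) (XT.nd (nat_lit 1014) (nat_lit 0) (nat_lit 0) (XT.nd (nat_lit 468) (nat_lit 0) (nat_lit 0) (XT.nd (nat_lit 234) (nat_lit 152) (nat_lit 0) (XT.nd (nat_lit 78) (nat_lit 0) (nat_lit 0) (XT.lf (nat_lit 0) (nat_lit 29549463901) (nat_lit 76) (nat_lit 19999788647) (nat_lit 76) (nat_lit 10035391102) (nat_lit 4) (nat_lit 4) (nat_lit 5) (nat_lit 5) (nat_lit 5) (nat_lit 4) (nat_lit 289) (nat_lit 234) (nat_lit 197)) (XT.nd (nat_lit 78) (nat_lit 0) (nat_lit 0) (XT.lf (nat_lit 0) (nat_lit 39350347802) (nat_lit 76) (nat_lit 17341660659) (nat_lit 76) (nat_lit 7331829128) (nat_lit 4) (nat_lit 4) (nat_lit 5) (nat_lit 5) (nat_lit 5) (nat_lit 4) (nat_lit 290) (nat_lit 234) (nat_lit 196)) (XT.lf (nat_lit 0) (nat_lit 49879962045) (nat_lit 76) (nat_lit 14496271317) (nat_lit 76) (nat_lit 4444371282) (nat_lit 4) (nat_lit 4) (nat_lit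 5) (nat_lit 5) (nat_lit 5) (nat_lit 4) (nat_lit 291) (nat_lit 234) (nat_lit 195)))) (XT.nd (nat_lit 78) (nat_lit 152) (nat_lit 0) (XT.lf (nat_lit 0) (nat_lit 61200704344) (nat_lit 76) (nat_lit 11446759057) (nat_lit 76) (nat_lit 1355906701) (nat_lit 4) (nat_lit 4) (nat_lit 5) (nat_lit 5) (nat_lit 5) (nat_lit 4) (nat_lit 292) (nat_lit 234) (nat_lit 194)) (XT.nd (nat_lit 78) (nat_lit 76) (nat_lit 0) (XT.lf (nat_lit 0) (nat_lit 1854226351) (nat_lit 152) (nat_lit 6270128506) (nat_lit 76) (nat_lit 71474736394) (nat_lit 3) (nat_lit 5) (nat_lit 5) (nat_lit 5) (nat_lit 4) (nat_lit 4) (nat_lit 293) (nat_lit 234) (nat_lit 193)) (XT.lf (nat_lit 0) (nat_lit 741645844) (nat_lit 76) (nat_lit 4499681318) (nat_lit 152) (nat_lit 80398883051) (nat_lit 2) (nat_lit 5) (nat_lit 3) (nat_lit 5) (nat_lit 4) (nat_lit 4) (nat_lit 294) (nat_lit 234) (nat_lit 192))))) (XT.nd (nat_lit 234) (nat_lit 0) (nat_lit 0)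 (XT.nd (nat_lit 78) (nat_lit 0) (nat_lit 0) (XT.lf (nat_lit 0) (nat_lit 8626847763) (nat_lit 76) (nat_lit 420308017) (nat_lit 152) (nat_lit 83105670363) (nat_lit 2) (nat_lit 5) (nat_lit 3) (nat_lit 5) (nat_lit 4) (nat_lit 4) (nat_lit 295) (nat_lit 234) (nat_lit 191)) (XT.nd (nat_lit 78) (nat_lit 0) (nat_lit 0) (XT.lf (nat_lit 0) (nat_lit 13230922319) (nat_lit 152) (nat_lit 82181595286) (nat_lit 0) (nat_lit 3768082153) (nat_lit 2) (nat_lit 5) (nat_lit 4) (nat_lit 4) (nat_lit 2) (nat_lit 4) (nat_lit 296) (nat_lit 234) (nat_lit 190)) (XT.lf (nat_lit 0) (nat_lit 17739587181) (nat_lit 152) (nat_lit 80779616082) (nat_lit 0) (nat_lit 8252200446) (nat_lit 2) (nat_lit 5) (nat_lit 4) (nat_lit 4) (nat_lit 2) (nat_lit 4) (nat_lit 297) (nat_lit 234) (nat_lit 189)))) (XT.nd (nat_lit 156) (nat_lit 0) (nat_lit 0) (XT.nd (nat_lit 78) (nat_lit 0) (nat_lit 0) (XT.lf (nat_lit 0) (nat_lit 22589759961) (nat_lit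 152) (nat_lit 79301624326) (nat_lit 0) (nat_lit 13079644921) (nat_lit 2) (nat_lit 5) (nat_lit 4) (nat_lit 4) (nat_lit 2) (nat_lit 4) (nat_lit 298) (nat_lit 234) (nat_lit 188)) (XT.lf (nat_lit 0) (nat_lit 27810182424) (nat_lit 152) (nat_lit 77738861547) (nat_lit 0) (nat_lit 18279022658) (nat_lit 2) (nat_lit 5) (nat_lit 4) (nat_lit 4) (nat_lit 2) (nat_lit 4) (nat_lit 299) (nat_lit 234) (nat_lit 187))) (XT.nd (nat_lit 78) (nat_lit 0) (nat_lit 0) (XT.lf (nat_lit 0) (nat_lit 33431790407) (nat_lit 152) (nat_lit 76082066931) (nat_lit 0) (nat_lit 23881144784) (nat_lit 2) (nat_lit 5) (nat_lit 4) (nat_lit 4) (nat_lit 2) (nat_lit 4) (nat_lit 300) (nat_lit 234) (nat_lit 186)) (XT.lf (nat_lit 0) (nat_lit 39487897143) (nat_lit 152) (nat_lit 74321422434) (nat_lit 0) (nat_lit 29919209059) (nat_lit 2) (nat_lit 5) (nat_lit 4) (nat_lit 4) (nat_lit 2) (nat_lit 4) (nat_lit 301) (nat_lit 234) (nat_lit 185))))))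 (XT.nd (nat_lit 468) (nat_lit 0) (nat_lit 0) (XT.nd (nat_lit 234) (nat_lit 0) (nat_lit 0) (XT.nd (nat_lit 78) (nat_lit 0) (nat_lit 0) (XT.lf (nat_lit 0) (nat_lit 46014390672) (nat_lit 152) (nat_lit 72446494607) (nat_lit 0) (nat_lit 36428996605) (nat_lit 2) (nat_lit 5) (nat_lit 4) (nat_lit 4) (nat_lit 2) (nat_lit 4) (nat_lit 302) (nat_lit 234) (nat_lit 184)) (XT.nd (nat_lit 78) (nat_lit 0) (nat_lit 0) (XT.lf (nat_lit 0) (nat_lit 53049946510) (nat_lit 152) (nat_lit 70446172768) (nat_lit 0) (nat_lit 43449083941) (nat_lit 2) (nat_lit 5) (nat_lit 4) (nat_lit 4) (nat_lit 2) (nat_lit 4) (nat_lit 303) (nat_lit 234) (nat_lit 183)) (XT.lf (nat_lit 0) (nat_lit 60636256840) (nat_lit 152) (nat_lit 68308603157) (nat_lit 0) (nat_lit 51021071584) (nat_lit 2) (nat_lit 5) (nat_lit 4) (nat_lit 4) (nat_lit 2) (nat_lit 4) (nat_lit 304) (nat_lit 234) (nat_lit 182)))) (XT.nd (nat_lit 78) (nat_lit 0) (nat_lit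 0) (XT.lf (nat_lit 0) (nat_lit 68818277576) (nat_lit 152) (nat_lit 66021118695) (nat_lit 0) (nat_lit 59189830573) (nat_lit 2) (nat_lit 5) (nat_lit 4) (nat_lit 4) (nat_lit 2) (nat_lit 4) (nat_lit 305) (nat_lit 234) (nat_lit 181)) (XT.nd (nat_lit 78) (nat_lit 0) (nat_lit 0) (XT.lf (nat_lit 0) (nat_lit 77644494766) (nat_lit 152) (nat_lit 63570163918) (nat_lit 0) (nat_lit 68003768367) (nat_lit 2) (nat_lit 5) (nat_lit 4) (nat_lit 4) (nat_lit 2) (nat_lit 4) (nat_lit 306) (nat_lit 234) (nat_lit 180)) (XT.lf (nat_lit 0) (nat_lit 87167211920) (nat_lit 152) (nat_lit 60941214650) (nat_lit 0) (nat_lit 77515115710) (nat_lit 2) (nat_lit 5) (nat_lit 4) (nat_lit 4) (nat_lit 2) (nat_lit 4) (nat_lit 307) (nat_lit 234) (nat_lit 179))))) (XT.nd (nat_lit 234) (nat_lit 0) (nat_lit 0) (XT.nd (nat_lit 78) (nat_lit 0) (nat_lit 0) (XT.lf (nat_lit 0) (nat_lit 97442859954) (nat_lit 152) (nat_lit 58118691933) (nat_lit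 0) (nat_lit 87780236141) (nat_lit 2) (nat_lit 5) (nat_lit 4) (nat_lit 4) (nat_lit 2) (nat_lit 4) (nat_lit 308) (nat_lit 234) (nat_lit 178)) (XT.nd (nat_lit 78) (nat_lit 0) (nat_lit 0) (XT.lf (nat_lit 0) (nat_lit 108532331597) (nat_lit 152) (nat_lit 55085869706) (nat_lit 0) (nat_lit 98859960004) (nat_lit 2) (nat_lit 5) (nat_lit 4) (nat_lit 4) (nat_lit 2) (nat_lit 4) (nat_lit 309) (nat_lit 234) (nat_lit 177)) (XT.lf (nat_lit 0) (nat_lit 120501342236) (nat_lit 152) (nat_lit 51824775688) (nat_lit 0) (nat_lit 110819944921) (nat_lit 2) (nat_lit 5) (nat_lit 4) (nat_lit 4) (nat_lit 2) (nat_lit 4) (nat_lit 310) (nat_lit 234) (nat_lit 176)))) (XT.nd (nat_lit 156) (nat_lit 0) (nat_lit 0) (XT.nd (nat_lit 78) (nat_lit 0) (nat_lit 0) (XT.lf (nat_lit 0) (nat_lit 133420819343) (nat_lit 152) (nat_lit 48316084879) (nat_lit 0) (nat_lit 123731064878) (nat_lit 2) (nat_lit 5) (nat_lit 4) (nat_lit 4) (nat_lit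 2) (nat_lit 4) (nat_lit 311) (nat_lit 234) (nat_lit 175)) (XT.lf (nat_lit 0) (nat_lit 147367322781) (nat_lit 152) (nat_lit 44539005037) (nat_lit 0) (nat_lit 137669830214) (nat_lit 2) (nat_lit 5) (nat_lit 4) (nat_lit 4) (nat_lit 2) (nat_lit 4) (nat_lit 312) (nat_lit 234) (nat_lit 174))) (XT.nd (nat_lit 78) (nat_lit 0) (nat_lit 0) (XT.lf (nat_lit 0) (nat_lit 162423498497) (nat_lit 152) (nat_lit 40471153466) (nat_lit 0) (nat_lit 152718841020) (nat_lit 2) (nat_lit 5) (nat_lit 4) (nat_lit 4) (nat_lit 2) (nat_lit 4) (nat_lit 313) (nat_lit 234) (nat_lit 173)) (XT.lf (nat_lit 0) (nat_lit 178678568273) (nat_lit 152) (nat_lit 36088424379) (nat_lit 0) (nat_lit 168967276620) (nat_lit 2) (nat_lit 5) (nat_lit 4) (nat_lit 4) (nat_lit 2) (nat_lit 4) (nat_lit 314) (nat_lit 234) (nat_lit 172))))))) (XT.nd (nat_lit 1014) (nat_lit 0) (nat_lit 0) (XT.nd (nat_lit 468) (nat_lit 76) (nat_lit 0) (XT.nd (nat_lit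 234) (nat_lit 0) (nat_lit 0) (XT.nd (nat_lit 78) (nat_lit 0) (nat_lit 0) (XT.lf (nat_lit 0) (nat_lit 196228858448) (nat_lit 152) (nat_lit 31364846048) (nat_lit 0) (nat_lit 186511424040) (nat_lit 2) (nat_lit 5) (nat_lit 4) (nat_lit 4) (nat_lit 2) (nat_lit 4) (nat_lit 315) (nat_lit 234) (nat_lit 171)) (XT.nd (nat_lit 78) (nat_lit 0) (nat_lit 0) (XT.lf (nat_lit 0) (nat_lit 215178370741) (nat_lit 152) (nat_lit 26272426898) (nat_lit 0) (nat_lit 205455248598) (nat_lit 2) (nat_lit 5) (nat_lit 4) (nat_lit 4) (nat_lit 2) (nat_lit 4) (nat_lit 316) (nat_lit 234) (nat_lit 170)) (XT.lf (nat_lit 0) (nat_lit 235639398560) (nat_lit 152) (nat_lit 20780989631) (nat_lit 0) (nat_lit 225911009994) (nat_lit 2) (nat_lit 5) (nat_lit 4) (nat_lit 4) (nat_lit 2) (nat_lit 4) (nat_lit 317) (nat_lit 234) (nat_lit 169)))) (XT.nd (nat_lit 78) (nat_lit 0) (nat_lit 0) (XT.lf (nat_lit 0) (nat_lit 257733192438) (nat_lit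 152) (nat_lit 14857992395) (nat_lit 0) (nat_lit 247999927555) (nat_lit 2) (nat_lit 5) (nat_lit 4) (nat_lit 4) (nat_lit 2) (nat_lit 4) (nat_lit 318) (nat_lit 234) (nat_lit 168)) (XT.nd (nat_lit 78) (nat_lit 0) (nat_lit 0) (XT.lf (nat_lit 0) (nat_lit 281590678563) (nat_lit 152) (nat_lit 8468335948) (nat_lit 0) (nat_lit 271852898572) (nat_lit 2) (nat_lit 5) (nat_lit 4) (nat_lit 4) (nat_lit 2) (nat_lit 4) (nat_lit 319) (nat_lit 234) (nat_lit 167)) (XT.lf (nat_lit 0) (nat_lit 307353234629) (nat_lit 152) (nat_lit 1574155659) (nat_lit 0) (nat_lit 297611273982) (nat_lit 2) (nat_lit 5) (nat_lit 4) (nat_lit 4) (nat_lit 2) (nat_lit 4) (nat_lit 320) (nat_lit 234) (nat_lit 166))))) (XT.nd (nat_lit 234) (nat_lit 0) (nat_lit 0) (XT.nd (nat_lit 78) (nat_lit 0) (nat_lit 0) (XT.lf (nat_lit 0) (nat_lit 6174264593) (nat_lit 76) (nat_lit 329147754254) (nat_lit 76) (nat_lit 319401922630) (nat_lit 1) (nat_lit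 4) (nat_lit 2) (nat_lit 5) (nat_lit 2) (nat_lit 4) (nat_lit 321) (nat_lit 234) (nat_lit 165)) (XT.nd (nat_lit 78) (nat_lit 0) (nat_lit 0) (XT.lf (nat_lit 0) (nat_lit 14626081767) (nat_lit 76) (nat_lit 350942094430) (nat_lit 76) (nat_lit 341192678567) (nat_lit 1) (nat_lit 4) (nat_lit 2) (nat_lit 5) (nat_lit 2) (nat_lit 4) (nat_lit 322) (nat_lit 234) (nat_lit 164)) (XT.lf (nat_lit 0) (nat_lit 23748488457) (nat_lit 76) (nat_lit 374482602666) (nat_lit 76) (nat_lit 364729868063) (nat_lit 1) (nat_lit 4) (nat_lit 2) (nat_lit 5) (nat_lit 2) (nat_lit 4) (nat_lit 323) (nat_lit 234) (nat_lit 163)))) (XT.nd (nat_lit 156) (nat_lit 0) (nat_lit 0) (XT.nd (nat_lit 78) (nat_lit 0) (nat_lit 0) (XT.lf (nat_lit 0) (nat_lit 33595543368) (nat_lit 76) (nat_lit 399908778271) (nat_lit 76) (nat_lit 390152970761) (nat_lit 1) (nat_lit 4) (nat_lit 2) (nat_lit 5) (nat_lit 2) (nat_lit 4) (nat_lit 324) (nat_lit 234)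 (nat_lit 162)) (XT.lf (nat_lit 0) (nat_lit 44225599420) (nat_lit 76) (nat_lit 427371294878) (nat_lit 76) (nat_lit 417612642084) (nat_lit 1) (nat_lit 4) (nat_lit 2) (nat_lit 5) (nat_lit 2) (nat_lit 4) (nat_lit 325) (nat_lit 234) (nat_lit 161))) (XT.nd (nat_lit 78) (nat_lit 0) (nat_lit 0) (XT.lf (nat_lit 0) (nat_lit 55701649537) (nat_lit 76) (nat_lit 457032893326) (nat_lit 76) (nat_lit 447271606010) (nat_lit 1) (nat_lit 4) (nat_lit 2) (nat_lit 5) (nat_lit 2) (nat_lit 4) (nat_lit 326) (nat_lit 234) (nat_lit 160)) (XT.lf (nat_lit 0) (nat_lit 68091699941) (nat_lit 76) (nat_lit 489069346050) (nat_lit 76) (nat_lit 479305619362) (nat_lit 1) (nat_lit 4) (nat_lit 2) (nat_lit 5) (nat_lit 2) (nat_lit 4) (nat_lit 327) (nat_lit 234) (nat_lit 159)))))) (XT.nd (nat_lit 546) (nat_lit 0) (nat_lit 0) (XT.nd (nat_lit 234) (nat_lit 0) (nat_lit 0) (XT.nd (nat_lit 78) (nat_lit 0) (nat_lit 0) (XT.lf (nat_lit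 0) (nat_lit 81469173153) (nat_lit 76) (nat_lit 523670498697) (nat_lit 76) (nat_lit 513904513330) (nat_lit 1) (nat_lit 4) (nat_lit 2) (nat_lit 5) (nat_lit 2) (nat_lit 4) (nat_lit 328) (nat_lit 234) (nat_lit 158)) (XT.nd (nat_lit 78) (nat_lit 0) (nat_lit 0) (XT.lf (nat_lit 0) (nat_lit 95913343090) (nat_lit 76) (nat_lit 561041395133) (nat_lit 76) (nat_lit 551273318398) (nat_lit 1) (nat_lit 4) (nat_lit 2) (nat_lit 5) (nat_lit 2) (nat_lit 4) (nat_lit 329) (nat_lit 234) (nat_lit 157)) (XT.lf (nat_lit 0) (nat_lit 111509804832) (nat_lit 76) (nat_lit 601403492523) (nat_lit 76) (nat_lit 591633479335) (nat_lit 1) (nat_lit 4) (nat_lit 2) (nat_lit 5) (nat_lit 2) (nat_lit 4) (nat_lit 330) (nat_lit 234) (nat_lit 156)))) (XT.nd (nat_lit 156) (nat_lit 0) (nat_lit 0) (XT.nd (nat_lit 78) (nat_lit 0) (nat_lit 0) (XT.lf (nat_lit 0) (nat_lit 128350981856) (nat_lit 76) (nat_lit 644995973667) (nat_lit 76)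 (nat_lit 635224167467) (nat_lit 1) (nat_lit 4) (nat_lit 2) (nat_lit 5) (nat_lit 2) (nat_lit 4) (nat_lit 331) (nat_lit 234) (nat_lit 155)) (XT.lf (nat_lit 0) (nat_lit 146536673729) (nat_lit 76) (nat_lit 692077164377) (nat_lit 76) (nat_lit 682303697982) (nat_lit 1) (nat_lit 4) (nat_lit 2) (nat_lit 5) (nat_lit 2) (nat_lit 4) (nat_lit 332) (nat_lit 234) (nat_lit 154))) (XT.nd (nat_lit 78) (nat_lit 0) (nat_lit 0) (XT.lf (nat_lit 0) (nat_lit 166174647515) (nat_lit 76) (nat_lit 742926064304) (nat_lit 76) (nat_lit 733151060690) (nat_lit 1) (nat_lit 4) (nat_lit 2) (nat_lit 5) (nat_lit 2) (nat_lit 4) (nat_lit 333) (nat_lit 234) (nat_lit 153)) (XT.lf (nat_lit 0) (nat_lit 187381276391) (nat_lit 76) (nat_lit 797844000261) (nat_lit 76) (nat_lit 788067573296) (nat_lit 1) (nat_lit 4) (nat_lit 2) (nat_lit 5) (nat_lit 2) (nat_lit 4) (nat_lit 334) (nat_lit 234) (nat_lit 152))))) (XT.nd (nat_lit 234) (nat_lit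 0) (nat_lit 0) (XT.nd (nat_lit 78) (nat_lit 0) (nat_lit 0) (XT.lf (nat_lit 0) (nat_lit 210282229270) (nat_lit 76) (nat_lit 857156411869) (nat_lit 76) (nat_lit 847378666987) (nat_lit 1) (nat_lit 4) (nat_lit 2) (nat_lit 5) (nat_lit 2) (nat_lit 4) (nat_lit 335) (nat_lit 234) (nat_lit 151)) (XT.nd (nat_lit 78) (nat_lit 0) (nat_lit 0) (XT.lf (nat_lit 0) (nat_lit 235013215501) (nat_lit 76) (nat_lit 921214780085) (nat_lit 76) (nat_lit 911435814910) (nat_lit 1) (nat_lit 4) (nat_lit 2) (nat_lit 5) (nat_lit 2) (nat_lit 4) (nat_lit 336) (nat_lit 234) (nat_lit 150)) (XT.lf (nat_lit 0) (nat_lit 261720789078) (nat_lit 76) (nat_lit 990398710055) (nat_lit 76) (nat_lit 980618614978) (nat_lit 1) (nat_lit 4) (nat_lit 2) (nat_lit 5) (nat_lit 2) (nat_lit 4) (nat_lit 337) (nat_lit 234) (nat_lit 149)))) (XT.nd (nat_lit 156) (nat_lit 0) (nat_lit 0) (XT.nd (nat_lit 78) (nat_lit 0) (nat_lit 0) (XT.lf (nat_lit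 0) (nat_lit 290563217103) (nat_lit 76) (nat_lit 1065118180623) (nat_lit 76) (nat_lit 1055337039341) (nat_lit 1) (nat_lit 4) (nat_lit 2) (nat_lit 5) (nat_lit 2) (nat_lit 4) (nat_lit 338) (nat_lit 234) (nat_lit 148)) (XT.lf (nat_lit 0) (nat_lit 321711417667) (nat_lit 76) (nat_lit 1145815973836) (nat_lit 76) (nat_lit 1136033863846) (nat_lit 1) (nat_lit 4) (nat_lit 2) (nat_lit 5) (nat_lit 2) (nat_lit 4) (nat_lit 339) (nat_lit 234) (nat_lit 147))) (XT.nd (nat_lit 78) (nat_lit 0) (nat_lit 0) (XT.lf (nat_lit 0) (nat_lit 355349972701) (nat_lit 76) (nat_lit 1232970298840) (nat_lit 76) (nat_lit 1223187291897) (nat_lit 1) (nat_lit 4) (nat_lit 2) (nat_lit 5) (nat_lit 2) (nat_lit 4) (nat_lit 340) (nat_lit 234) (nat_lit 146)) (XT.lf (nat_lit 0) (nat_lit 391678221789) (nat_lit 76) (nat_lit 1327097625708) (nat_lit 76) (nat_lit 1317313788254) (nat_lit 1) (nat_lit 4) (nat_lit 2) (nat_lit 5) (nat_lit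 2) (nat_lit 4) (nat_lit 341) (nat_lit 234) (nat_lit 145))))))))
noncomputable def xc41 : XT := (XT.nd (nat_lit 32292) (nat_lit 0) (nat_lit 76) (XT.nd (nat_lit 31278) (nat_lit 0) (nat_lit 532) (XT.nd (nat_lit 30732) (nat_lit 0) (nat_lit 1368) (XT.nd (nat_lit 30498) (nat_lit 0) (nat_lit 2204) (XT.nd (nat_lit 30342) (nat_lit 0) (nat_lit 2660) (XT.lf (nat_lit 0) (nat_lit 430911443445) (nat_lit 76) (nat_lit 1428755746008) (nat_lit 76) (nat_lit 1418971139562) (nat_lit 1) (nat_lit 4) (nat_lit 2) (nat_lit 5) (nat_lit 2) (nat_lit 4) (nat_lit 342) (nat_lit 234) (nat_lit 144)) (XT.nd (nat_lit 78) (nat_lit 532) (nat_lit 0) (XT.lf (nat_lit 0) (nat_lit 2223440654) (nat_lit 380) (nat_lit 697859503) (nat_lit 380) (nat_lit 697859503) (nat_lit 43) (nat_lit 4) (nat_lit 48) (nat_lit 5) (nat_lit 48) (nat_lit 4) (nat_lit 250) (nat_lit 235) (nat_lit 235)) (XT.lf (nat_lit 0) (nat_lit 1706391983) (nat_lit 532)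 (nat_lit 5454243951) (nat_lit 0) (nat_lit 256118739) (nat_lit 36) (nat_lit 5) (nat_lit 43) (nat_lit 4) (nat_lit 36) (nat_lit 4) (nat_lit 251) (nat_lit 235) (nat_lit 234)))) (XT.nd (nat_lit 78) (nat_lit 456) (nat_lit 0) (XT.lf (nat_lit 0) (nat_lit 4860850983) (nat_lit 532) (nat_lit 688938937) (nat_lit 0) (nat_lit 2067732143) (nat_lit 36) (nat_lit 5) (nat_lit 43) (nat_lit 4) (nat_lit 36) (nat_lit 4) (nat_lit 252) (nat_lit 235) (nat_lit 233)) (XT.nd (nat_lit 78) (nat_lit 152) (nat_lit 0) (XT.lf (nat_lit 0) (nat_lit 296625100) (nat_lit 304) (nat_lit 3419514182) (nat_lit 76) (nat_lit 4127714266) (nat_lit 32) (nat_lit 5) (nat_lit 36) (nat_lit 5) (nat_lit 33) (nat_lit 4) (nat_lit 253) (nat_lit 235) (nat_lit 232)) (XT.lf (nat_lit 0) (nat_lit 1656947731) (nat_lit 152) (nat_lit 1633781009) (nat_lit 228) (nat_lit 4805247765) (nat_lit 30) (nat_lit 5) (nat_lit 32) (nat_lit 5) (nat_lit 33) (nat_lit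 4) (nat_lit 254) (nat_lit 235) (nat_lit 231))))) (XT.nd (nat_lit 234) (nat_lit 380) (nat_lit 0) (XT.nd (nat_lit 78) (nat_lit 456) (nat_lit 0) (XT.lf (nat_lit 0) (nat_lit 6430252695) (nat_lit 228) (nat_lit 1306786371) (nat_lit 0) (nat_lit 639732158) (nat_lit 30) (nat_lit 5) (nat_lit 33) (nat_lit 4) (nat_lit 30) (nat_lit 4) (nat_lit 255) (nat_lit 235) (nat_lit 230)) (XT.nd (nat_lit 78) (nat_lit 152) (nat_lit 0) (XT.lf (nat_lit 0) (nat_lit 1034542656) (nat_lit 304) (nat_lit 4552589960) (nat_lit 76) (nat_lit 3095479709) (nat_lit 26) (nat_lit 5) (nat_lit 30) (nat_lit 5) (nat_lit 27) (nat_lit 4) (nat_lit 256) (nat_lit 235) (nat_lit 229)) (XT.lf (nat_lit 0) (nat_lit 807165783) (nat_lit 152) (nat_lit 3211019301) (nat_lit 228) (nat_lit 5001922828) (nat_lit 24) (nat_lit 5) (nat_lit 26) (nat_lit 5) (nat_lit 27) (nat_lit 4) (nat_lit 257) (nat_lit 235) (nat_lit 228)))) (XT.nd (nat_lit 156) (nat_lit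 152) (nat_lit 0) (XT.nd (nat_lit 78) (nat_lit 228) (nat_lit 0) (XT.lf (nat_lit 0) (nat_lit 6613127609) (nat_lit 152) (nat_lit 573086001) (nat_lit 228) (nat_lit 2203449356) (nat_lit 24) (nat_lit 5) (nat_lit 26) (nat_lit 5) (nat_lit 27) (nat_lit 4) (nat_lit 258) (nat_lit 235) (nat_lit 227)) (XT.lf (nat_lit 0) (nat_lit 735023943) (nat_lit 228) (nat_lit 6859756117) (nat_lit 76) (nat_lit 2196473191) (nat_lit 21) (nat_lit 5) (nat_lit 24) (nat_lit 5) (nat_lit 22) (nat_lit 4) (nat_lit 259) (nat_lit 235) (nat_lit 226))) (XT.nd (nat_lit 78) (nat_lit 152) (nat_lit 0) (XT.lf (nat_lit 0) (nat_lit 3717459492) (nat_lit 228) (nat_lit 1278287510) (nat_lit 76) (nat_lit 5230978833) (nat_lit 21) (nat_lit 5) (nat_lit 24) (nat_lit 5) (nat_lit 22) (nat_lit 4) (nat_lit 260) (nat_lit 235) (nat_lit 225)) (XT.lf (nat_lit 0) (nat_lit 4766492855) (nat_lit 152) (nat_lit 2133997322) (nat_lit 228) (nat_lit 3800111862)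 (nat_lit 19) (nat_lit 5) (nat_lit 21) (nat_lit 5) (nat_lit 22) (nat_lit 4) (nat_lit 261) (nat_lit 235) (nat_lit 224)))))) (XT.nd (nat_lit 468) (nat_lit 304) (nat_lit 0) (XT.nd (nat_lit 234) (nat_lit 228) (nat_lit 0) (XT.nd (nat_lit 78) (nat_lit 304) (nat_lit 0) (XT.lf (nat_lit 0) (nat_lit 10248835147) (nat_lit 228) (nat_lit 92526347) (nat_lit 0) (nat_lit 878659984) (nat_lit 19) (nat_lit 5) (nat_lit 22) (nat_lit 4) (nat_lit 19) (nat_lit 4) (nat_lit 262) (nat_lit 235) (nat_lit 223)) (XT.nd (nat_lit 78) (nat_lit 76) (nat_lit 0) (XT.lf (nat_lit 0) (nat_lit 2050034376) (nat_lit 228) (nat_lit 5563290270) (nat_lit 76) (nat_lit 4158458816) (nat_lit 16) (nat_lit 5) (nat_lit 19) (nat_lit 5) (nat_lit 17) (nat_lit 4) (nat_lit 263) (nat_lit 235) (nat_lit 222)) (XT.lf (nat_lit 0) (nat_lit 435871122) (nat_lit 76) (nat_lit 4701895142) (nat_lit 152) (nat_lit 7238105972) (nat_lit 15) (nat_lit 5) (nat_lit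 16) (nat_lit 5) (nat_lit 17) (nat_lit 4) (nat_lit 264) (nat_lit 235) (nat_lit 221)))) (XT.nd (nat_lit 78) (nat_lit 228) (nat_lit 0) (XT.lf (nat_lit 0) (nat_lit 7024708194) (nat_lit 76) (nat_lit 1469212349) (nat_lit 152) (nat_lit 4533013136) (nat_lit 15) (nat_lit 5) (nat_lit 16) (nat_lit 5) (nat_lit 17) (nat_lit 4) (nat_lit 265) (nat_lit 235) (nat_lit 220)) (XT.nd (nat_lit 78) (nat_lit 76) (nat_lit 0) (XT.lf (nat_lit 0) (nat_lit 170824767) (nat_lit 152) (nat_lit 11877766436) (nat_lit 152) (nat_lit 1687418279) (nat_lit 13) (nat_lit 4) (nat_lit 15) (nat_lit 5) (nat_lit 15) (nat_lit 4) (nat_lit 266) (nat_lit 235) (nat_lit 219)) (XT.lf (nat_lit 0) (nat_lit 1401364996) (nat_lit 228) (nat_lit 7586662487) (nat_lit 76) (nat_lit 5504612401) (nat_lit 12) (nat_lit 5) (nat_lit 15) (nat_lit 5) (nat_lit 13) (nat_lit 4) (nat_lit 267) (nat_lit 235) (nat_lit 218))))) (XT.nd (nat_lit 234) (nat_lit 228)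 (nat_lit 0) (XT.nd (nat_lit 78) (nat_lit 76) (nat_lit 0) (XT.lf (nat_lit 0) (nat_lit 4533429012) (nat_lit 228) (nat_lit 1360074451) (nat_lit 76) (nat_lit 9422066581) (nat_lit 12) (nat_lit 5) (nat_lit 15) (nat_lit 5) (nat_lit 13) (nat_lit 4) (nat_lit 268) (nat_lit 235) (nat_lit 217)) (XT.nd (nat_lit 78) (nat_lit 0) (nat_lit 0) (XT.lf (nat_lit 0) (nat_lit 5465464827) (nat_lit 76) (nat_lit 2477725374) (nat_lit 152) (nat_lit 8259217415) (nat_lit 11) (nat_lit 5) (nat_lit 12) (nat_lit 5) (nat_lit 13) (nat_lit 4) (nat_lit 269) (nat_lit 235) (nat_lit 216)) (XT.lf (nat_lit 0) (nat_lit 11590760730) (nat_lit 152) (nat_lit 4447781473) (nat_lit 0) (nat_lit 1124673237) (nat_lit 11) (nat_lit 5) (nat_lit 13) (nat_lit 4) (nat_lit 11) (nat_lit 4) (nat_lit 270) (nat_lit 235) (nat_lit 215)))) (XT.nd (nat_lit 156) (nat_lit 76) (nat_lit 0) (XT.nd (nat_lit 78) (nat_lit 76) (nat_lit 0) (XT.lf (nat_lit 0) (nat_lit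 2229790052) (nat_lit 76) (nat_lit 13323647960) (nat_lit 76) (nat_lit 2645794607) (nat_lit 10) (nat_lit 4) (nat_lit 11) (nat_lit 5) (nat_lit 11) (nat_lit 4) (nat_lit 271) (nat_lit 235) (nat_lit 214)) (XT.lf (nat_lit 0) (nat_lit 519981814) (nat_lit 152) (nat_lit 9792370680) (nat_lit 76) (nat_lit 9002507183) (nat_lit 9) (nat_lit 5) (nat_lit 11) (nat_lit 5) (nat_lit 10) (nat_lit 4) (nat_lit 272) (nat_lit 235) (nat_lit 213))) (XT.nd (nat_lit 78) (nat_lit 76) (nat_lit 0) (XT.lf (nat_lit 0) (nat_lit 3709020270) (nat_lit 152) (nat_lit 3340725783) (nat_lit 76) (nat_lit 13471623530) (nat_lit 9) (nat_lit 5) (nat_lit 11) (nat_lit 5) (nat_lit 10) (nat_lit 4) (nat_lit 273) (nat_lit 235) (nat_lit 212)) (XT.lf (nat_lit 0) (nat_lit 3670993475) (nat_lit 76) (nat_lit 3489866135) (nat_lit 152) (nat_lit 14663079937) (nat_lit 8) (nat_lit 5) (nat_lit 9) (nat_lit 5) (nat_lit 10) (nat_lit 4) (nat_lit 274) (nat_lit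 235) (nat_lit 211))))))) (XT.nd (nat_lit 1014) (nat_lit 152) (nat_lit 0) (XT.nd (nat_lit 468) (nat_lit 152) (nat_lit 0) (XT.nd (nat_lit 234) (nat_lit 76) (nat_lit 0) (XT.nd (nat_lit 78) (nat_lit 76) (nat_lit 0) (XT.lf (nat_lit 0) (nat_lit 10911779004) (nat_lit 152) (nat_lit 11941806012) (nat_lit 0) (nat_lit 375437575) (nat_lit 8) (nat_lit 5) (nat_lit 10) (nat_lit 4) (nat_lit 8) (nat_lit 4) (nat_lit 275) (nat_lit 235) (nat_lit 210)) (XT.nd (nat_lit 78) (nat_lit 76) (nat_lit 0) (XT.lf (nat_lit 0) (nat_lit 14979978927) (nat_lit 152) (nat_lit 5455099300) (nat_lit 0) (nat_lit 4310189084) (nat_lit 8) (nat_lit 5) (nat_lit 10) (nat_lit 4) (nat_lit 8) (nat_lit 4) (nat_lit 276) (nat_lit 235) (nat_lit 209)) (XT.lf (nat_lit 0) (nat_lit 1504822486) (nat_lit 76) (nat_lit 17837004395) (nat_lit 76) (nat_lit 7043651206) (nat_lit 7) (nat_lit 4) (nat_lit 8) (nat_lit 5) (nat_lit 8) (nat_lit 4) (nat_lit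 277) (nat_lit 235) (nat_lit 208)))) (XT.nd (nat_lit 78) (nat_lit 76) (nat_lit 0) (XT.lf (nat_lit 0) (nat_lit 9213838831) (nat_lit 76) (nat_lit 14922137555) (nat_lit 76) (nat_lit 4014373861) (nat_lit 7) (nat_lit 4) (nat_lit 8) (nat_lit 5) (nat_lit 8) (nat_lit 4) (nat_lit 278) (nat_lit 235) (nat_lit 207)) (XT.nd (nat_lit 78) (nat_lit 76) (nat_lit 0) (XT.lf (nat_lit 0) (nat_lit 17430376931) (nat_lit 76) (nat_lit 11822356504) (nat_lit 76) (nat_lit 808657157) (nat_lit 7) (nat_lit 4) (nat_lit 8) (nat_lit 5) (nat_lit 8) (nat_lit 4) (nat_lit 279) (nat_lit 235) (nat_lit 206)) (XT.lf (nat_lit 0) (nat_lit 2462808607) (nat_lit 152) (nat_lit 5989146010) (nat_lit 76) (nat_lit 23672981224) (nat_lit 6) (nat_lit 5) (nat_lit 8) (nat_lit 5) (nat_lit 7) (nat_lit 4) (nat_lit 280) (nat_lit 235) (nat_lit 205))))) (XT.nd (nat_lit 234) (nat_lit 76) (nat_lit 0) (XT.nd (nat_lit 78) (nat_lit 0) (nat_lit 0) (XT.lf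 (nat_lit 0) (nat_lit 1122698547) (nat_lit 76) (nat_lit 4802930880) (nat_lit 152) (nat_lit 28428471777) (nat_lit 5) (nat_lit 5) (nat_lit 6) (nat_lit 5) (nat_lit 7) (nat_lit 4) (nat_lit 281) (nat_lit 235) (nat_lit 204)) (XT.nd (nat_lit 78) (nat_lit 0) (nat_lit 0) (XT.lf (nat_lit 0) (nat_lit 9050012166) (nat_lit 76) (nat_lit 727256086) (nat_lit 152) (nat_lit 26975464939) (nat_lit 5) (nat_lit 5) (nat_lit 6) (nat_lit 5) (nat_lit 7) (nat_lit 4) (nat_lit 282) (nat_lit 235) (nat_lit 203)) (XT.lf (nat_lit 0) (nat_lit 13976358752) (nat_lit 152) (nat_lit 21910215224) (nat_lit 0) (nat_lit 3453607209) (nat_lit 5) (nat_lit 5) (nat_lit 7) (nat_lit 4) (nat_lit 5) (nat_lit 4) (nat_lit 283) (nat_lit 235) (nat_lit 202)))) (XT.nd (nat_lit 156) (nat_lit 76) (nat_lit 0) (XT.nd (nat_lit 78) (nat_lit 0) (nat_lit 0) (XT.lf (nat_lit 0) (nat_lit 18484849050) (nat_lit 152) (nat_lit 15756623916) (nat_lit 0) (nat_lit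 7895340076) (nat_lit 5) (nat_lit 5) (nat_lit 7) (nat_lit 4) (nat_lit 5) (nat_lit 4) (nat_lit 284) (nat_lit 235) (nat_lit 201)) (XT.lf (nat_lit 0) (nat_lit 23311965599) (nat_lit 152) (nat_lit 9187990848) (nat_lit 0) (nat_lit 12660644189) (nat_lit 5) (nat_lit 5) (nat_lit 7) (nat_lit 4) (nat_lit 5) (nat_lit 4) (nat_lit 285) (nat_lit 235) (nat_lit 200))) (XT.nd (nat_lit 78) (nat_lit 76) (nat_lit 0) (XT.lf (nat_lit 0) (nat_lit 28486313535) (nat_lit 152) (nat_lit 2165390788) (nat_lit 0) (nat_lit 17777758387) (nat_lit 5) (nat_lit 5) (nat_lit 7) (nat_lit 4) (nat_lit 5) (nat_lit 4) (nat_lit 286) (nat_lit 235) (nat_lit 199)) (XT.lf (nat_lit 0) (nat_lit 5634660193) (nat_lit 76) (nat_lit 28539409178) (nat_lit 76) (nat_lit 17777859830) (nat_lit 4) (nat_lit 4) (nat_lit 5) (nat_lit 5) (nat_lit 5) (nat_lit 4) (nat_lit 287) (nat_lit 235) (nat_lit 198)))))) (XT.nd (nat_lit 546) (nat_lit 76) (nat_lit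 0) (XT.nd (nat_lit 234) (nat_lit 76) (nat_lit 0) (XT.nd (nat_lit 78) (nat_lit 0) (nat_lit 0) (XT.lf (nat_lit 0) (nat_lit 14117313941) (nat_lit 76) (nat_lit 26223801946) (nat_lit 76) (nat_lit 15413183893) (nat_lit 4) (nat_lit 4) (nat_lit 5) (nat_lit 5) (nat_lit 5) (nat_lit 4) (nat_lit 288) (nat_lit 235) (nat_lit 197)) (XT.nd (nat_lit 78) (nat_lit 0) (nat_lit 0) (XT.lf (nat_lit 0) (nat_lit 23218812388) (nat_lit 76) (nat_lit 23750366132) (nat_lit 76) (nat_lit 12894314094) (nat_lit 4) (nat_lit 4) (nat_lit 5) (nat_lit 5) (nat_lit 5) (nat_lit 4) (nat_lit 289) (nat_lit 235) (nat_lit 196)) (XT.lf (nat_lit 0) (nat_lit 32993090342) (nat_lit 76) (nat_lit 21104444339) (nat_lit 76) (nat_lit 10206323795) (nat_lit 4) (nat_lit 4) (nat_lit 5) (nat_lit 5) (nat_lit 5) (nat_lit 4) (nat_lit 290) (nat_lit 235) (nat_lit 195)))) (XT.nd (nat_lit 156) (nat_lit 76) (nat_lit 0) (XT.nd (nat_lit 78) (nat_lit 0)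 (nat_lit 0) (XT.lf (nat_lit 0) (nat_lit 43498069449) (nat_lit 76) (nat_lit 18270357031) (nat_lit 76) (nat_lit 7333284167) (nat_lit 4) (nat_lit 4) (nat_lit 5) (nat_lit 5) (nat_lit 5) (nat_lit 4) (nat_lit 291) (nat_lit 235) (nat_lit 194)) (XT.lf (nat_lit 0) (nat_lit 54796001437) (nat_lit 76) (nat_lit 15231309615) (nat_lit 76) (nat_lit 4258169788) (nat_lit 4) (nat_lit 4) (nat_lit 5) (nat_lit 5) (nat_lit 5) (nat_lit 4) (nat_lit 292) (nat_lit 235) (nat_lit 193))) (XT.nd (nat_lit 78) (nat_lit 76) (nat_lit 0) (XT.lf (nat_lit 0) (nat_lit 66953837015) (nat_lit 76) (nat_lit 11969292922) (nat_lit 76) (nat_lit 962757760) (nat_lit 4) (nat_lit 4) (nat_lit 5) (nat_lit 5) (nat_lit 5) (nat_lit 4) (nat_lit 293) (nat_lit 235) (nat_lit 192)) (XT.lf (nat_lit 0) (nat_lit 2443794404) (nat_lit 152) (nat_lit 5954364409) (nat_lit 76) (nat_lit 77533010541) (nat_lit 3) (nat_lit 5) (nat_lit 5) (nat_lit 5) (nat_lit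 4) (nat_lit 4) (nat_lit 294) (nat_lit 235) (nat_lit 191))))) (XT.nd (nat_lit 234) (nat_lit 0) (nat_lit 0) (XT.nd (nat_lit 78) (nat_lit 0) (nat_lit 0) (XT.lf (nat_lit 0) (nat_lit 1597658867) (nat_lit 76) (nat_lit 4490680918) (nat_lit 152) (nat_lit 86368360726) (nat_lit 2) (nat_lit 5) (nat_lit 3) (nat_lit 5) (nat_lit 4) (nat_lit 4) (nat_lit 295) (nat_lit 235) (nat_lit 190)) (XT.nd (nat_lit 78) (nat_lit 0) (nat_lit 0) (XT.lf (nat_lit 0) (nat_lit 10054663506) (nat_lit 76) (nat_lit 112289228) (nat_lit 152) (nat_lit 89325945317) (nat_lit 2) (nat_lit 5) (nat_lit 3) (nat_lit 5) (nat_lit 4) (nat_lit 4) (nat_lit 296) (nat_lit 235) (nat_lit 189)) (XT.lf (nat_lit 0) (nat_lit 14663693349) (nat_lit 152) (nat_lit 88050932563) (nat_lit 0) (nat_lit 4370040802) (nat_lit 2) (nat_lit 5) (nat_lit 4) (nat_lit 4) (nat_lit 2) (nat_lit 4) (nat_lit 297) (nat_lit 235) (nat_lit 188)))) (XT.nd (nat_lit 156) (nat_lit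 0) (nat_lit 0) (XT.nd (nat_lit 78) (nat_lit 0) (nat_lit 0) (XT.lf (nat_lit 0) (nat_lit 19505325678) (nat_lit 152) (nat_lit 86589031345) (nat_lit 0) (nat_lit 9190628404) (nat_lit 2) (nat_lit 5) (nat_lit 4) (nat_lit 4) (nat_lit 2) (nat_lit 4) (nat_lit 298) (nat_lit 235) (nat_lit 187)) (XT.lf (nat_lit 0) (nat_lit 24717840316) (nat_lit 152) (nat_lit 85041167212) (nat_lit 0) (nat_lit 14383657184) (nat_lit 2) (nat_lit 5) (nat_lit 4) (nat_lit 4) (nat_lit 2) (nat_lit 4) (nat_lit 299) (nat_lit 235) (nat_lit 186))) (XT.nd (nat_lit 78) (nat_lit 0) (nat_lit 0) (XT.lf (nat_lit 0) (nat_lit 30332126238) (nat_lit 152) (nat_lit 83398167639) (nat_lit 0) (nat_lit 19979900646) (nat_lit 2) (nat_lit 5) (nat_lit 4) (nat_lit 4) (nat_lit 2) (nat_lit 4) (nat_lit 300) (nat_lit 235) (nat_lit 185)) (XT.lf (nat_lit 0) (nat_lit 36381453288) (nat_lit 152) (nat_lit 81650296329) (nat_lit 0) (nat_lit 26012521714) (nat_lit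 2) (nat_lit 5) (nat_lit 4) (nat_lit 4) (nat_lit 2) (nat_lit 4) (nat_lit 301) (nat_lit 235) (nat_lit 184))))))))
noncomputable def xc42 : XT := (XT.nd (nat_lit 2028) (nat_lit 0) (nat_lit 0) (XT.nd (nat_lit 1014) (nat_lit 76) (nat_lit 0) (XT.nd (nat_lit 468) (nat_lit 0) (nat_lit 0) (XT.nd (nat_lit 234) (nat_lit 0) (nat_lit 0) (XT.nd (nat_lit 78) (nat_lit 0) (nat_lit 0) (XT.lf (nat_lit 0) (nat_lit 42901669330) (nat_lit 152) (nat_lit 79787195528) (nat_lit 0) (nat_lit 32517269254) (nat_lit 2) (nat_lit 5) (nat_lit 4) (nat_lit 4) (nat_lit 2) (nat_lit 4) (nat_lit 302) (nat_lit 235) (nat_lit 183)) (XT.nd (nat_lit 78) (nat_lit 0) (nat_lit 0) (XT.lf (nat_lit 0) (nat_lit 49931412680) (nat_lit 152) (nat_lit 77797824639) (nat_lit 0) (nat_lit 39532689917) (nat_lit 2) (nat_lit 5) (nat_lit 4) (nat_lit 4) (nat_lit 2) (nat_lit 4) (nat_lit 303) (nat_lit 235) (nat_lit 182)) (XT.lf (nat_lit 0) (nat_lit 57512341077)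 (nat_lit 152) (nat_lit 75670394796) (nat_lit 0) (nat_lit 47100356567) (nat_lit 2) (nat_lit 5) (nat_lit 4) (nat_lit 4) (nat_lit 2) (nat_lit 4) (nat_lit 304) (nat_lit 235) (nat_lit 181)))) (XT.nd (nat_lit 78) (nat_lit 0) (nat_lit 0) (XT.lf (nat_lit 0) (nat_lit 65689378542) (nat_lit 152) (nat_lit 73392299008) (nat_lit 0) (nat_lit 55265114635) (nat_lit 2) (nat_lit 5) (nat_lit 4) (nat_lit 4) (nat_lit 2) (nat_lit 4) (nat_lit 305) (nat_lit 235) (nat_lit 180)) (XT.nd (nat_lit 78) (nat_lit 0) (nat_lit 0) (XT.lf (nat_lit 0) (nat_lit 74510981592) (nat_lit 152) (nat_lit 70950037448) (nat_lit 0) (nat_lit 64075347875) (nat_lit 2) (nat_lit 5) (nat_lit 4) (nat_lit 4) (nat_lit 2) (nat_lit 4) (nat_lit 306) (nat_lit 235) (nat_lit 179)) (XT.lf (nat_lit 0) (nat_lit 84029426394) (nat_lit 152) (nat_lit 68329137455) (nat_lit 0) (nat_lit 73583265074) (nat_lit 2) (nat_lit 5) (nat_lit 4) (nat_lit 4) (nat_lit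 2) (nat_lit 4) (nat_lit 307) (nat_lit 235) (nat_lit 178))))) (XT.nd (nat_lit 234) (nat_lit 0) (nat_lit 0) (XT.nd (nat_lit 78) (nat_lit 0) (nat_lit 0) (XT.lf (nat_lit 0) (nat_lit 94301118546) (nat_lit 152) (nat_lit 65514067770) (nat_lit 0) (nat_lit 83845209446) (nat_lit 2) (nat_lit 5) (nat_lit 4) (nat_lit 4) (nat_lit 2) (nat_lit 4) (nat_lit 308) (nat_lit 235) (nat_lit 177)) (XT.nd (nat_lit 78) (nat_lit 0) (nat_lit 0) (XT.lf (nat_lit 0) (nat_lit 105386927336) (nat_lit 152) (nat_lit 62488146499) (nat_lit 0) (nat_lit 94921992513) (nat_lit 2) (nat_lit 5) (nat_lit 4) (nat_lit 4) (nat_lit 2) (nat_lit 4) (nat_lit 309) (nat_lit 235) (nat_lit 176)) (XT.lf (nat_lit 0) (nat_lit 117352546445) (nat_lit 152) (nat_lit 59233442255) (nat_lit 0) (nat_lit 106879254472) (nat_lit 2) (nat_lit 5) (nat_lit 4) (nat_lit 4) (nat_lit 2) (nat_lit 4) (nat_lit 310) (nat_lit 235) (nat_lit 175)))) (XT.nd (nat_lit 156)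 (nat_lit 0) (nat_lit 0) (XT.nd (nat_lit 78) (nat_lit 0) (nat_lit 0) (XT.lf (nat_lit 0) (nat_lit 130268883245) (nat_lit 152) (nat_lit 55730667904) (nat_lit 0) (nat_lit 119787853170) (nat_lit 2) (nat_lit 5) (nat_lit 4) (nat_lit 4) (nat_lit 2) (nat_lit 4) (nat_lit 311) (nat_lit 235) (nat_lit 174)) (XT.lf (nat_lit 0) (nat_lit 144212478992) (nat_lit 152) (nat_lit 51959066263) (nat_lit 0) (nat_lit 133724284007) (nat_lit 2) (nat_lit 5) (nat_lit 4) (nat_lit 4) (nat_lit 2) (nat_lit 4) (nat_lit 312) (nat_lit 235) (nat_lit 173))) (XT.nd (nat_lit 78) (nat_lit 0) (nat_lit 0) (XT.lf (nat_lit 0) (nat_lit 159265962402) (nat_lit 152) (nat_lit 47896287100) (nat_lit 0) (nat_lit 148771133241) (nat_lit 2) (nat_lit 5) (nat_lit 4) (nat_lit 4) (nat_lit 2) (nat_lit 4) (nat_lit 313) (nat_lit 235) (nat_lit 172)) (XT.lf (nat_lit 0) (nat_lit 175518539301) (nat_lit 152) (nat_lit 43518254688) (nat_lit 0) (nat_lit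 165017567386) (nat_lit 2) (nat_lit 5) (nat_lit 4) (nat_lit 4) (nat_lit 2) (nat_lit 4) (nat_lit 314) (nat_lit 235) (nat_lit 171)))))) (XT.nd (nat_lit 468) (nat_lit 76) (nat_lit 0) (XT.nd (nat_lit 234) (nat_lit 0) (nat_lit 0) (XT.nd (nat_lit 78) (nat_lit 0) (nat_lit 0) (XT.lf (nat_lit 0) (nat_lit 193066521257) (nat_lit 152) (nat_lit 38799025130) (nat_lit 0) (nat_lit 182559861606) (nat_lit 2) (nat_lit 5) (nat_lit 4) (nat_lit 4) (nat_lit 2) (nat_lit 4) (nat_lit 315) (nat_lit 235) (nat_lit 170)) (XT.nd (nat_lit 78) (nat_lit 0) (nat_lit 0) (XT.lf (nat_lit 0) (nat_lit 212013896311) (nat_lit 152) (nat_lit 33710632621) (nat_lit 0) (nat_lit 201501970237) (nat_lit 2) (nat_lit 5) (nat_lit 4) (nat_lit 4) (nat_lit 2) (nat_lit 4) (nat_lit 316) (nat_lit 235) (nat_lit 169)) (XT.lf (nat_lit 0) (nat_lit 232472945203) (nat_lit 152) (nat_lit 28222923726) (nat_lit 0) (nat_lit 221956142813) (nat_lit 2) (nat_lit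 5) (nat_lit 4) (nat_lit 4) (nat_lit 2) (nat_lit 4) (nat_lit 317) (nat_lit 235) (nat_lit 168)))) (XT.nd (nat_lit 78) (nat_lit 0) (nat_lit 0) (XT.lf (nat_lit 0) (nat_lit 254564906743) (nat_lit 152) (nat_lit 22303378686) (nat_lit 0) (nat_lit 244043589245) (nat_lit 2) (nat_lit 5) (nat_lit 4) (nat_lit 4) (nat_lit 2) (nat_lit 4) (nat_lit 318) (nat_lit 235) (nat_lit 167)) (XT.nd (nat_lit 78) (nat_lit 0) (nat_lit 0) (XT.lf (nat_lit 0) (nat_lit 278420696258) (nat_lit 152) (nat_lit 15916918717) (nat_lit 0) (nat_lit 267895198104) (nat_lit 2) (nat_lit 5) (nat_lit 4) (nat_lit 4) (nat_lit 2) (nat_lit 4) (nat_lit 319) (nat_lit 235) (nat_lit 166)) (XT.lf (nat_lit 0) (nat_lit 304181681390) (nat_lit 152) (nat_lit 9025698130) (nat_lit 0) (nat_lit 293652312257) (nat_lit 2) (nat_lit 5) (nat_lit 4) (nat_lit 4) (nat_lit 2) (nat_lit 4) (nat_lit 320) (nat_lit 235) (nat_lit 165))))) (XT.nd (nat_lit 234) (nat_lit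 0) (nat_lit 0) (XT.nd (nat_lit 78) (nat_lit 76) (nat_lit 0) (XT.lf (nat_lit 0) (nat_lit 332000519827) (nat_lit 152) (nat_lit 1588880062) (nat_lit 0) (nat_lit 321467566456) (nat_lit 2) (nat_lit 5) (nat_lit 4) (nat_lit 4) (nat_lit 2) (nat_lit 4) (nat_lit 321) (nat_lit 235) (nat_lit 164)) (XT.nd (nat_lit 78) (nat_lit 0) (nat_lit 0) (XT.lf (nat_lit 0) (nat_lit 6776598417) (nat_lit 76) (nat_lit 355428442884) (nat_lit 76) (nat_lit 344892170773) (nat_lit 1) (nat_lit 4) (nat_lit 2) (nat_lit 5) (nat_lit 2) (nat_lit 4) (nat_lit 322) (nat_lit 235) (nat_lit 163)) (XT.lf (nat_lit 0) (nat_lit 15896531879) (nat_lit 76) (nat_lit 378970117807) (nat_lit 76) (nat_lit 368430772790) (nat_lit 1) (nat_lit 4) (nat_lit 2) (nat_lit 5) (nat_lit 2) (nat_lit 4) (nat_lit 323) (nat_lit 235) (nat_lit 162)))) (XT.nd (nat_lit 156) (nat_lit 0) (nat_lit 0) (XT.nd (nat_lit 78) (nat_lit 0) (nat_lit 0) (XT.lf (nat_lit 0)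 (nat_lit 25741296766) (nat_lit 76) (nat_lit 404397373678) (nat_lit 76) (nat_lit 393855183377) (nat_lit 1) (nat_lit 4) (nat_lit 2) (nat_lit 5) (nat_lit 2) (nat_lit 4) (nat_lit 324) (nat_lit 235) (nat_lit 161)) (XT.lf (nat_lit 0) (nat_lit 36369232423) (nat_lit 76) (nat_lit 431860890532) (nat_lit 76) (nat_lit 421316065708) (nat_lit 1) (nat_lit 4) (nat_lit 2) (nat_lit 5) (nat_lit 2) (nat_lit 4) (nat_lit 325) (nat_lit 235) (nat_lit 160))) (XT.nd (nat_lit 78) (nat_lit 0) (nat_lit 0) (XT.lf (nat_lit 0) (nat_lit 47843319212) (nat_lit 76) (nat_lit 461523415134) (nat_lit 76) (nat_lit 450976150938) (nat_lit 1) (nat_lit 4) (nat_lit 2) (nat_lit 5) (nat_lit 2) (nat_lit 4) (nat_lit 326) (nat_lit 235) (nat_lit 159)) (XT.lf (nat_lit 0) (nat_lit 60231551720) (nat_lit 76) (nat_lit 493560725408) (nat_lit 76) (nat_lit 483011202534) (nat_lit 1) (nat_lit 4) (nat_lit 2) (nat_lit 5) (nat_lit 2) (nat_lit 4)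 (nat_lit 327) (nat_lit 235) (nat_lit 158))))))) (XT.nd (nat_lit 1014) (nat_lit 0) (nat_lit 0) (XT.nd (nat_lit 468) (nat_lit 0) (nat_lit 0) (XT.nd (nat_lit 234) (nat_lit 0) (nat_lit 0) (XT.nd (nat_lit 78) (nat_lit 0) (nat_lit 0) (XT.lf (nat_lit 0) (nat_lit 73607341696) (nat_lit 76) (nat_lit 528162672083) (nat_lit 76) (nat_lit 517611057840) (nat_lit 1) (nat_lit 4) (nat_lit 2) (nat_lit 5) (nat_lit 2) (nat_lit 4) (nat_lit 328) (nat_lit 235) (nat_lit 157)) (XT.nd (nat_lit 78) (nat_lit 0) (nat_lit 0) (XT.lf (nat_lit 0) (nat_lit 88049953080) (nat_lit 76) (nat_lit 565534303730) (nat_lit 76) (nat_lit 554980753035) (nat_lit 1) (nat_lit 4) (nat_lit 2) (nat_lit 5) (nat_lit 2) (nat_lit 4) (nat_lit 329) (nat_lit 235) (nat_lit 156)) (XT.lf (nat_lit 0) (nat_lit 103644971717) (nat_lit 76) (nat_lit 605897081871) (nat_lit 76) (nat_lit 595341738164) (nat_lit 1) (nat_lit 4) (nat_lit 2) (nat_lit 5) (nat_lit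 2) (nat_lit 4) (nat_lit 330) (nat_lit 235) (nat_lit 155)))) (XT.nd (nat_lit 78) (nat_lit 0) (nat_lit 0) (XT.lf (nat_lit 0) (nat_lit 120484812533) (nat_lit 76) (nat_lit 649490193340) (nat_lit 76) (nat_lit 638933189436) (nat_lit 1) (nat_lit 4) (nat_lit 2) (nat_lit 5) (nat_lit 2) (nat_lit 4) (nat_lit 331) (nat_lit 235) (nat_lit 154)) (XT.nd (nat_lit 78) (nat_lit 0) (nat_lit 0) (XT.lf (nat_lit 0) (nat_lit 138669267177) (nat_lit 76) (nat_lit 696571967685) (nat_lit 76) (nat_lit 686013426563) (nat_lit 1) (nat_lit 4) (nat_lit 2) (nat_lit 5) (nat_lit 2) (nat_lit 4) (nat_lit 332) (nat_lit 235) (nat_lit 153)) (XT.lf (nat_lit 0) (nat_lit 158306095380) (nat_lit 76) (nat_lit 747421408013) (nat_lit 76) (nat_lit 736861443541) (nat_lit 1) (nat_lit 4) (nat_lit 2) (nat_lit 5) (nat_lit 2) (nat_lit 4) (nat_lit 333) (nat_lit 235) (nat_lit 152))))) (XT.nd (nat_lit 234) (nat_lit 0) (nat_lit 0) (XT.nd (nat_lit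 78) (nat_lit 0) (nat_lit 0) (XT.lf (nat_lit 0) (nat_lit 179511663531) (nat_lit 76) (nat_lit 802339844342) (nat_lit 76) (nat_lit 791778561953) (nat_lit 1) (nat_lit 4) (nat_lit 2) (nat_lit 5) (nat_lit 2) (nat_lit 4) (nat_lit 334) (nat_lit 235) (nat_lit 151)) (XT.nd (nat_lit 78) (nat_lit 0) (nat_lit 0) (XT.lf (nat_lit 0) (nat_lit 202411634257) (nat_lit 76) (nat_lit 861652719258) (nat_lit 76) (nat_lit 851090216575) (nat_lit 1) (nat_lit 4) (nat_lit 2) (nat_lit 5) (nat_lit 2) (nat_lit 4) (nat_lit 335) (nat_lit 235) (nat_lit 150)) (XT.lf (nat_lit 0) (nat_lit 227141711088) (nat_lit 76) (nat_lit 925711516463) (nat_lit 76) (nat_lit 915147883878) (nat_lit 1) (nat_lit 4) (nat_lit 2) (nat_lit 5) (nat_lit 2) (nat_lit 4) (nat_lit 336) (nat_lit 235) (nat_lit 149)))) (XT.nd (nat_lit 156) (nat_lit 0) (nat_lit 0) (XT.nd (nat_lit 78) (nat_lit 0) (nat_lit 0) (XT.lf (nat_lit 0) (nat_lit 253848442627) (nat_lit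 76) (nat_lit 994895843644) (nat_lit 76) (nat_lit 984331164855) (nat_lit 1) (nat_lit 4) (nat_lit 2) (nat_lit 5) (nat_lit 2) (nat_lit 4) (nat_lit 337) (nat_lit 235) (nat_lit 148)) (XT.lf (nat_lit 0) (nat_lit 282690090987) (nat_lit 76) (nat_lit 1069615682000) (nat_lit 76) (nat_lit 1059050034503) (nat_lit 1) (nat_lit 4) (nat_lit 2) (nat_lit 5) (nat_lit 2) (nat_lit 4) (nat_lit 338) (nat_lit 235) (nat_lit 147))) (XT.nd (nat_lit 78) (nat_lit 0) (nat_lit 0) (XT.lf (nat_lit 0) (nat_lit 313837569640) (nat_lit 76) (nat_lit 1150313815759) (nat_lit 76) (nat_lit 1139747271308) (nat_lit 1) (nat_lit 4) (nat_lit 2) (nat_lit 5) (nat_lit 2) (nat_lit 4) (nat_lit 339) (nat_lit 235) (nat_lit 146)) (XT.lf (nat_lit 0) (nat_lit 347475456238) (nat_lit 76) (nat_lit 1237468456082) (nat_lit 76) (nat_lit 1226901081120) (nat_lit 1) (nat_lit 4) (nat_lit 2) (nat_lit 5) (nat_lit 2) (nat_lit 4) (nat_lit 340) (nat_lit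 235) (nat_lit 145)))))) (XT.nd (nat_lit 30654) (nat_lit 0) (nat_lit 1520) (XT.nd (nat_lit 30342) (nat_lit 0) (nat_lit 2660) (XT.nd (nat_lit 78) (nat_lit 0) (nat_lit 0) (XT.lf (nat_lit 0) (nat_lit 383803086403) (nat_lit 76) (nat_lit 1331596074912) (nat_lit 76) (nat_lit 1321027930959) (nat_lit 1) (nat_lit 4) (nat_lit 2) (nat_lit 5) (nat_lit 2) (nat_lit 4) (nat_lit 341) (nat_lit 235) (nat_lit 144)) (XT.nd (nat_lit 30186) (nat_lit 0) (nat_lit 3572) (XT.lf (nat_lit 0) (nat_lit 423035734983) (nat_lit 76) (nat_lit 1433254465548) (nat_lit 76) (nat_lit 1422685609565) (nat_lit 1) (nat_lit 4) (nat_lit 2) (nat_lit 5) (nat_lit 2) (nat_lit 4) (nat_lit 342) (nat_lit 235) (nat_lit 143)) (XT.lf (nat_lit 0) (nat_lit 592592066) (nat_lit 380) (nat_lit 2286845031) (nat_lit 0) (nat_lit 592592066) (nat_lit 48) (nat_lit 5) (nat_lit 53) (nat_lit 4) (nat_lit 48) (nat_lit 4) (nat_lit 248) (nat_lit 236) (nat_lit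 236)))) (XT.nd (nat_lit 156) (nat_lit 456) (nat_lit 0) (XT.nd (nat_lit 78) (nat_lit 456) (nat_lit 0) (XT.lf (nat_lit 0) (nat_lit 4244496231) (nat_lit 380) (nat_lit 287198571) (nat_lit 0) (nat_lit 2552897520) (nat_lit 48) (nat_lit 5) (nat_lit 53) (nat_lit 4) (nat_lit 48) (nat_lit 4) (nat_lit 249) (nat_lit 236) (nat_lit 235)) (XT.lf (nat_lit 0) (nat_lit 162306687) (nat_lit 456) (nat_lit 2920295905) (nat_lit 76) (nat_lit 4165336749) (nat_lit 42) (nat_lit 5) (nat_lit 48) (nat_lit 5) (nat_lit 43) (nat_lit 4) (nat_lit 250) (nat_lit 236) (nat_lit 234))) (XT.nd (nat_lit 78) (nat_lit 0) (nat_lit 0) (XT.lf (nat_lit 0) (nat_lit 1679875585) (nat_lit 456) (nat_lit 1391298762) (nat_lit 532) (nat_lit 4363025489) (nat_lit 36) (nat_lit 5) (nat_lit 42) (nat_lit 5) (nat_lit 43) (nat_lit 4) (nat_lit 251) (nat_lit 236) (nat_lit 233)) (XT.lf (nat_lit 0) (nat_lit 6087572550) (nat_lit 532) (nat_lit 1074245939)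 (nat_lit 0) (nat_lit 484783055) (nat_lit 36) (nat_lit 5) (nat_lit 43) (nat_lit 4) (nat_lit 36) (nat_lit 4) (nat_lit 252) (nat_lit 236) (nat_lit 232))))) (XT.nd (nat_lit 234) (nat_lit 684) (nat_lit 0) (XT.nd (nat_lit 78) (nat_lit 152) (nat_lit 0) (XT.lf (nat_lit 0) (nat_lit 1321607869) (nat_lit 304) (nat_lit 4005118785) (nat_lit 76) (nat_lit 2553427342) (nat_lit 32) (nat_lit 5) (nat_lit 36) (nat_lit 5) (nat_lit 33) (nat_lit 4) (nat_lit 253) (nat_lit 236) (nat_lit 231)) (XT.nd (nat_lit 78) (nat_lit 0) (nat_lit 0) (XT.lf (nat_lit 0) (nat_lit 921986451) (nat_lit 152) (nat_lit 3280919190) (nat_lit 228) (nat_lit 3938863708) (nat_lit 30) (nat_lit 5) (nat_lit 32) (nat_lit 5) (nat_lit 33) (nat_lit 4) (nat_lit 254) (nat_lit 236) (nat_lit 230)) (XT.lf (nat_lit 0) (nat_lit 6242774448) (nat_lit 152) (nat_lit 992736768) (nat_lit 228) (nat_lit 1196039586) (nat_lit 30) (nat_lit 5) (nat_lit 32) (nat_lit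 5) (nat_lit 33) (nat_lit 4) (nat_lit 255) (nat_lit 236) (nat_lit 229)))) (XT.nd (nat_lit 156) (nat_lit 380) (nat_lit 0) (XT.nd (nat_lit 78) (nat_lit 0) (nat_lit 0) (XT.lf (nat_lit 0) (nat_lit 1610882279) (nat_lit 304) (nat_lit 5650297295) (nat_lit 76) (nat_lit 1486067646) (nat_lit 26) (nat_lit 5) (nat_lit 30) (nat_lit 5) (nat_lit 27) (nat_lit 4) (nat_lit 256) (nat_lit 236) (nat_lit 228)) (XT.lf (nat_lit 0) (nat_lit 4491952028) (nat_lit 304) (nat_lit 441209726) (nat_lit 76) (nat_lit 4160130810) (nat_lit 26) (nat_lit 5) (nat_lit 30) (nat_lit 5) (nat_lit 27) (nat_lit 4) (nat_lit 257) (nat_lit 236) (nat_lit 227))) (XT.nd (nat_lit 78) (nat_lit 228) (nat_lit 0) (XT.lf (nat_lit 0) (nat_lit 5234020467) (nat_lit 152) (nat_lit 2335204583) (nat_lit 228) (nat_lit 1901201470) (nat_lit 24) (nat_lit 5) (nat_lit 26) (nat_lit 5) (nat_lit 27) (nat_lit 4) (nat_lit 258) (nat_lit 236) (nat_lit 226)) (XT.lf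 (nat_lit 0) (nat_lit 862602196) (nat_lit 228) (nat_lit 8559236283) (nat_lit 76) (nat_lit 462633828) (nat_lit 21) (nat_lit 5) (nat_lit 24) (nat_lit 5) (nat_lit 22) (nat_lit 4) (nat_lit 259) (nat_lit 236) (nat_lit 225))))))))
noncomputable def xc43 : XT := (XT.nd (nat_lit 2106) (nat_lit 228) (nat_lit 0) (XT.nd (nat_lit 1014) (nat_lit 380) (nat_lit 0) (XT.nd (nat_lit 468) (nat_lit 380) (nat_lit 0) (XT.nd (nat_lit 234) (nat_lit 304) (nat_lit 0) (XT.nd (nat_lit 78) (nat_lit 152) (nat_lit 0) (XT.lf (nat_lit 0) (nat_lit 3771656025) (nat_lit 228) (nat_lit 3084327776) (nat_lit 76) (nat_lit 3470084433) (nat_lit 21) (nat_lit 5) (nat_lit 24) (nat_lit 5) (nat_lit 22) (nat_lit 4) (nat_lit 260) (nat_lit 236) (nat_lit 224)) (XT.nd (nat_lit 78) (nat_lit 0) (nat_lit 0) (XT.lf (nat_lit 0) (nat_lit 2761487334) (nat_lit 152) (nat_lit 4077032909) (nat_lit 228) (nat_lit 3970951592) (nat_lit 19) (nat_lit 5)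 (nat_lit 21) (nat_lit 5) (nat_lit 22) (nat_lit 4) (nat_lit 261) (nat_lit 236) (nat_lit 223)) (XT.lf (nat_lit 0) (nat_lit 9050344865) (nat_lit 152) (nat_lit 1049049930) (nat_lit 228) (nat_lit 1236710852) (nat_lit 19) (nat_lit 5) (nat_lit 21) (nat_lit 5) (nat_lit 22) (nat_lit 4) (nat_lit 262) (nat_lit 236) (nat_lit 222)))) (XT.nd (nat_lit 78) (nat_lit 76) (nat_lit 0) (XT.lf (nat_lit 0) (nat_lit 1650309392) (nat_lit 228) (nat_lit 8061414724) (nat_lit 76) (nat_lit 2188638851) (nat_lit 16) (nat_lit 5) (nat_lit 19) (nat_lit 5) (nat_lit 17) (nat_lit 4) (nat_lit 263) (nat_lit 236) (nat_lit 221)) (XT.nd (nat_lit 78) (nat_lit 76) (nat_lit 0) (XT.lf (nat_lit 0) (nat_lit 4667108318) (nat_lit 228) (nat_lit 2178436786) (nat_lit 76) (nat_lit 5664753329) (nat_lit 16) (nat_lit 5) (nat_lit 19) (nat_lit 5) (nat_lit 17) (nat_lit 4) (nat_lit 264) (nat_lit 236) (nat_lit 220)) (XT.lf (nat_lit 0) (nat_lit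 4203697601) (nat_lit 76) (nat_lit 3706229880) (nat_lit 152) (nat_lit 5260658517) (nat_lit 15) (nat_lit 5) (nat_lit 16) (nat_lit 5) (nat_lit 17) (nat_lit 4) (nat_lit 265) (nat_lit 236) (nat_lit 219))))) (XT.nd (nat_lit 234) (nat_lit 152) (nat_lit 0) (XT.nd (nat_lit 78) (nat_lit 228) (nat_lit 0) (XT.lf (nat_lit 0) (nat_lit 11043126321) (nat_lit 76) (nat_lit 316548528) (nat_lit 152) (nat_lit 2528528323) (nat_lit 15) (nat_lit 5) (nat_lit 16) (nat_lit 5) (nat_lit 17) (nat_lit 4) (nat_lit 266) (nat_lit 236) (nat_lit 218)) (XT.nd (nat_lit 78) (nat_lit 0) (nat_lit 0) (XT.lf (nat_lit 0) (nat_lit 466657320) (nat_lit 228) (nat_lit 10970233228) (nat_lit 76) (nat_lit 3220541659) (nat_lit 12) (nat_lit 5) (nat_lit 15) (nat_lit 5) (nat_lit 13) (nat_lit 4) (nat_lit 267) (nat_lit 236) (nat_lit 217)) (XT.lf (nat_lit 0) (nat_lit 3548571092) (nat_lit 228) (nat_lit 4826616579) (nat_lit 76) (nat_lit 7109303813)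 (nat_lit 12) (nat_lit 5) (nat_lit 15) (nat_lit 5) (nat_lit 13) (nat_lit 4) (nat_lit 268) (nat_lit 236) (nat_lit 216)))) (XT.nd (nat_lit 156) (nat_lit 76) (nat_lit 0) (XT.nd (nat_lit 78) (nat_lit 0) (nat_lit 0) (XT.lf (nat_lit 0) (nat_lit 1735509887) (nat_lit 76) (nat_lit 5086681477) (nat_lit 152) (nat_lit 9560137390) (nat_lit 11) (nat_lit 5) (nat_lit 12) (nat_lit 5) (nat_lit 13) (nat_lit 4) (nat_lit 269) (nat_lit 236) (nat_lit 215)) (XT.lf (nat_lit 0) (nat_lit 8941349174) (nat_lit 76) (nat_lit 1455143351) (nat_lit 152) (nat_lit 6952605995) (nat_lit 11) (nat_lit 5) (nat_lit 12) (nat_lit 5) (nat_lit 13) (nat_lit 4) (nat_lit 270) (nat_lit 236) (nat_lit 214))) (XT.nd (nat_lit 78) (nat_lit 76) (nat_lit 0) (XT.lf (nat_lit 0) (nat_lit 14228398792) (nat_lit 152) (nat_lit 1878799736) (nat_lit 0) (nat_lit 2288471809) (nat_lit 11) (nat_lit 5) (nat_lit 13) (nat_lit 4) (nat_lit 11) (nat_lit 4) (nat_lit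 271) (nat_lit 236) (nat_lit 213)) (XT.lf (nat_lit 0) (nat_lit 5258931833) (nat_lit 76) (nat_lit 13191024627) (nat_lit 76) (nat_lit 1069542552) (nat_lit 10) (nat_lit 4) (nat_lit 11) (nat_lit 5) (nat_lit 11) (nat_lit 4) (nat_lit 272) (nat_lit 236) (nat_lit 212)))))) (XT.nd (nat_lit 546) (nat_lit 152) (nat_lit 0) (XT.nd (nat_lit 234) (nat_lit 76) (nat_lit 0) (XT.nd (nat_lit 78) (nat_lit 76) (nat_lit 0) (XT.lf (nat_lit 0) (nat_lit 2134244103) (nat_lit 152) (nat_lit 7850360908) (nat_lit 76) (nat_lit 10746635875) (nat_lit 9) (nat_lit 5) (nat_lit 11) (nat_lit 5) (nat_lit 10) (nat_lit 4) (nat_lit 273) (nat_lit 236) (nat_lit 211)) (XT.nd (nat_lit 78) (nat_lit 76) (nat_lit 0) (XT.lf (nat_lit 0) (nat_lit 5461912025) (nat_lit 152) (nat_lit 1084465859) (nat_lit 76) (nat_lit 15497435004) (nat_lit 9) (nat_lit 5) (nat_lit 11) (nat_lit 5) (nat_lit 10) (nat_lit 4) (nat_lit 274) (nat_lit 236) (nat_lit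 210)) (XT.lf (nat_lit 0) (nat_lit 6424304409) (nat_lit 76) (nat_lit 2716883844) (nat_lit 152) (nat_lit 14313502397) (nat_lit 8) (nat_lit 5) (nat_lit 9) (nat_lit 5) (nat_lit 10) (nat_lit 4) (nat_lit 275) (nat_lit 236) (nat_lit 209)))) (XT.nd (nat_lit 156) (nat_lit 76) (nat_lit 0) (XT.nd (nat_lit 78) (nat_lit 0) (nat_lit 0) (XT.lf (nat_lit 0) (nat_lit 13111355238) (nat_lit 152) (nat_lit 10536510897) (nat_lit 0) (nat_lit 1330970448) (nat_lit 8) (nat_lit 5) (nat_lit 10) (nat_lit 4) (nat_lit 8) (nat_lit 4) (nat_lit 276) (nat_lit 236) (nat_lit 208)) (XT.lf (nat_lit 0) (nat_lit 17406741975) (nat_lit 152) (nat_lit 3705729840) (nat_lit 0) (nat_lit 5511946681) (nat_lit 8) (nat_lit 5) (nat_lit 10) (nat_lit 4) (nat_lit 8) (nat_lit 4) (nat_lit 277) (nat_lit 236) (nat_lit 207))) (XT.nd (nat_lit 78) (nat_lit 0) (nat_lit 0) (XT.lf (nat_lit 0) (nat_lit 3755649553) (nat_lit 76) (nat_lit 18322135397)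 (nat_lit 76) (nat_lit 6321404449) (nat_lit 7) (nat_lit 4) (nat_lit 8) (nat_lit 5) (nat_lit 8) (nat_lit 4) (nat_lit 278) (nat_lit 236) (nat_lit 206)) (XT.lf (nat_lit 0) (nat_lit 11923576741) (nat_lit 76) (nat_lit 15243844346) (nat_lit 76) (nat_lit 3145024831) (nat_lit 7) (nat_lit 4) (nat_lit 8) (nat_lit 5) (nat_lit 8) (nat_lit 4) (nat_lit 279) (nat_lit 236) (nat_lit 205))))) (XT.nd (nat_lit 234) (nat_lit 0) (nat_lit 0) (XT.nd (nat_lit 78) (nat_lit 76) (nat_lit 0) (XT.lf (nat_lit 0) (nat_lit 217510390) (nat_lit 152) (nat_lit 11737220651) (nat_lit 76) (nat_lit 20427859579) (nat_lit 6) (nat_lit 5) (nat_lit 8) (nat_lit 5) (nat_lit 7) (nat_lit 4) (nat_lit 280) (nat_lit 236) (nat_lit 204)) (XT.nd (nat_lit 78) (nat_lit 76) (nat_lit 0) (XT.lf (nat_lit 0) (nat_lit 3629436656) (nat_lit 152) (nat_lit 4724509153) (nat_lit 76) (nat_lit 26261918652) (nat_lit 6) (nat_lit 5) (nat_lit 8) (nat_lit 5)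 (nat_lit 7) (nat_lit 4) (nat_lit 281) (nat_lit 236) (nat_lit 203)) (XT.lf (nat_lit 0) (nat_lit 2912136930) (nat_lit 76) (nat_lit 4426199703) (nat_lit 152) (nat_lit 29687613103) (nat_lit 5) (nat_lit 5) (nat_lit 6) (nat_lit 5) (nat_lit 7) (nat_lit 4) (nat_lit 282) (nat_lit 236) (nat_lit 202)))) (XT.nd (nat_lit 156) (nat_lit 0) (nat_lit 0) (XT.nd (nat_lit 78) (nat_lit 0) (nat_lit 0) (XT.lf (nat_lit 0) (nat_lit 11347737675) (nat_lit 76) (nat_lit 80838751) (nat_lit 152) (nat_lit 28193561008) (nat_lit 5) (nat_lit 5) (nat_lit 6) (nat_lit 5) (nat_lit 7) (nat_lit 4) (nat_lit 283) (nat_lit 236) (nat_lit 201)) (XT.lf (nat_lit 0) (nat_lit 15914904776) (nat_lit 152) (nat_lit 22156001559) (nat_lit 0) (nat_lit 4349665216) (nat_lit 5) (nat_lit 5) (nat_lit 7) (nat_lit 4) (nat_lit 5) (nat_lit 4) (nat_lit 284) (nat_lit 236) (nat_lit 200))) (XT.nd (nat_lit 78) (nat_lit 0) (nat_lit 0) (XT.lf (nat_lit 0)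 (nat_lit 20723301162) (nat_lit 152) (nat_lit 15621754863) (nat_lit 0) (nat_lit 9100827866) (nat_lit 5) (nat_lit 5) (nat_lit 7) (nat_lit 4) (nat_lit 5) (nat_lit 4) (nat_lit 285) (nat_lit 236) (nat_lit 199)) (XT.lf (nat_lit 0) (nat_lit 25880315614) (nat_lit 152) (nat_lit 8630994037) (nat_lit 0) (nat_lit 14204848117) (nat_lit 5) (nat_lit 5) (nat_lit 7) (nat_lit 4) (nat_lit 5) (nat_lit 4) (nat_lit 286) (nat_lit 236) (nat_lit 198))))))) (XT.nd (nat_lit 1014) (nat_lit 0) (nat_lit 0) (XT.nd (nat_lit 468) (nat_lit 152) (nat_lit 0) (XT.nd (nat_lit 234) (nat_lit 0) (nat_lit 0) (XT.nd (nat_lit 78) (nat_lit 76) (nat_lit 0) (XT.lf (nat_lit 0) (nat_lit 31416508216) (nat_lit 152) (nat_lit 1142292349) (nat_lit 0) (nat_lit 19691972015) (nat_lit 5) (nat_lit 5) (nat_lit 7) (nat_lit 4) (nat_lit 5) (nat_lit 4) (nat_lit 287) (nat_lit 236) (nat_lit 197)) (XT.nd (nat_lit 78) (nat_lit 0) (nat_lit 0) (XT.lf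 (nat_lit 0) (nat_lit 7251475884) (nat_lit 76) (nat_lit 30287608321) (nat_lit 76) (nat_lit 18517638134) (nat_lit 4) (nat_lit 4) (nat_lit 5) (nat_lit 5) (nat_lit 5) (nat_lit 4) (nat_lit 288) (nat_lit 236) (nat_lit 196)) (XT.lf (nat_lit 0) (nat_lit 16326368385) (nat_lit 76) (nat_lit 27826378703) (nat_lit 76) (nat_lit 16014340010) (nat_lit 4) (nat_lit 4) (nat_lit 5) (nat_lit 5) (nat_lit 5) (nat_lit 4) (nat_lit 289) (nat_lit 236) (nat_lit 195)))) (XT.nd (nat_lit 78) (nat_lit 0) (nat_lit 0) (XT.lf (nat_lit 0) (nat_lit 26076011202) (nat_lit 76) (nat_lit 25191758942) (nat_lit 76) (nat_lit 13340767930) (nat_lit 4) (nat_lit 4) (nat_lit 5) (nat_lit 5) (nat_lit 5) (nat_lit 4) (nat_lit 290) (nat_lit 236) (nat_lit 194)) (XT.nd (nat_lit 78) (nat_lit 0) (nat_lit 0) (XT.lf (nat_lit 0) (nat_lit 36558179998) (nat_lit 76) (nat_lit 22368136479) (nat_lit 76) (nat_lit 10481078503) (nat_lit 4) (nat_lit 4)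 (nat_lit 5) (nat_lit 5) (nat_lit 5) (nat_lit 4) (nat_lit 291) (nat_lit 236) (nat_lit 193)) (XT.lf (nat_lit 0) (nat_lit 47834991328) (nat_lit 76) (nat_lit 19338778734) (nat_lit 76) (nat_lit 7418325423) (nat_lit 4) (nat_lit 4) (nat_lit 5) (nat_lit 5) (nat_lit 5) (nat_lit 4) (nat_lit 292) (nat_lit 236) (nat_lit 192))))) (XT.nd (nat_lit 234) (nat_lit 76) (nat_lit 0) (XT.nd (nat_lit 78) (nat_lit 76) (nat_lit 0) (XT.lf (nat_lit 0) (nat_lit 59973270740) (nat_lit 76) (nat_lit 16085733959) (nat_lit 76) (nat_lit 4134359040) (nat_lit 4) (nat_lit 4) (nat_lit 5) (nat_lit 5) (nat_lit 5) (nat_lit 4) (nat_lit 293) (nat_lit 236) (nat_lit 191)) (XT.nd (nat_lit 78) (nat_lit 76) (nat_lit 0) (XT.lf (nat_lit 0) (nat_lit 73044948780) (nat_lit 76) (nat_lit 12589724851) (nat_lit 76) (nat_lit 609718814) (nat_lit 4) (nat_lit 4) (nat_lit 5) (nat_lit 5) (nat_lit 5) (nat_lit 4) (nat_lit 294) (nat_lit 236) (nat_lit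 190)) (XT.lf (nat_lit 0) (nat_lit 3017581516) (nat_lit 152) (nat_lit 5729946776) (nat_lit 76) (nat_lit 84027399700) (nat_lit 3) (nat_lit 5) (nat_lit 5) (nat_lit 5) (nat_lit 4) (nat_lit 4) (nat_lit 295) (nat_lit 236) (nat_lit 189)))) (XT.nd (nat_lit 156) (nat_lit 0) (nat_lit 0) (XT.nd (nat_lit 78) (nat_lit 0) (nat_lit 0) (XT.lf (nat_lit 0) (nat_lit 2408497430) (nat_lit 76) (nat_lit 4533598882) (nat_lit 152) (nat_lit 92881367847) (nat_lit 2) (nat_lit 5) (nat_lit 3) (nat_lit 5) (nat_lit 4) (nat_lit 4) (nat_lit 296) (nat_lit 236) (nat_lit 188)) (XT.lf (nat_lit 0) (nat_lit 11323963872) (nat_lit 152) (nat_lit 95937422681) (nat_lit 0) (nat_lit 163046091) (nat_lit 2) (nat_lit 5) (nat_lit 4) (nat_lit 4) (nat_lit 2) (nat_lit 4) (nat_lit 297) (nat_lit 236) (nat_lit 187))) (XT.nd (nat_lit 78) (nat_lit 0) (nat_lit 0) (XT.lf (nat_lit 0) (nat_lit 16157688375) (nat_lit 152) (nat_lit 94490420109) (nat_lit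 0) (nat_lit 4977284736) (nat_lit 2) (nat_lit 5) (nat_lit 4) (nat_lit 4) (nat_lit 2) (nat_lit 4) (nat_lit 298) (nat_lit 236) (nat_lit 186)) (XT.lf (nat_lit 0) (nat_lit 21362880952) (nat_lit 152) (nat_lit 92956351020) (nat_lit 0) (nat_lit 10164434852) (nat_lit 2) (nat_lit 5) (nat_lit 4) (nat_lit 4) (nat_lit 2) (nat_lit 4) (nat_lit 299) (nat_lit 236) (nat_lit 185)))))) (XT.nd (nat_lit 546) (nat_lit 0) (nat_lit 0) (XT.nd (nat_lit 234) (nat_lit 0) (nat_lit 0) (XT.nd (nat_lit 78) (nat_lit 0) (nat_lit 0) (XT.lf (nat_lit 0) (nat_lit 26970387189) (nat_lit 152) (nat_lit 91326124633) (nat_lit 0) (nat_lit 15755235107) (nat_lit 2) (nat_lit 5) (nat_lit 4) (nat_lit 4) (nat_lit 2) (nat_lit 4) (nat_lit 300) (nat_lit 236) (nat_lit 184)) (XT.nd (nat_lit 78) (nat_lit 0) (nat_lit 0) (XT.lf (nat_lit 0) (nat_lit 33013436752) (nat_lit 152) (nat_lit 89590080350) (nat_lit 0) (nat_lit 21782816168) (nat_lit 2)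 (nat_lit 5) (nat_lit 4) (nat_lit 4) (nat_lit 2) (nat_lit 4) (nat_lit 301) (nat_lit 236) (nat_lit 183)) (XT.lf (nat_lit 0) (nat_lit 39527840306) (nat_lit 152) (nat_lit 87737930498) (nat_lit 0) (nat_lit 28282897035) (nat_lit 2) (nat_lit 5) (nat_lit 4) (nat_lit 4) (nat_lit 2) (nat_lit 4) (nat_lit 302) (nat_lit 236) (nat_lit 182)))) (XT.nd (nat_lit 156) (nat_lit 0) (nat_lit 0) (XT.nd (nat_lit 78) (nat_lit 0) (nat_lit 0) (XT.lf (nat_lit 0) (nat_lit 46552201723) (nat_lit 152) (nat_lit 85758699377) (nat_lit 0) (nat_lit 35293996704) (nat_lit 2) (nat_lit 5) (nat_lit 4) (nat_lit 4) (nat_lit 2) (nat_lit 4) (nat_lit 303) (nat_lit 236) (nat_lit 181)) (XT.lf (nat_lit 0) (nat_lit 54128146849) (nat_lit 152) (nat_lit 83640658208) (nat_lit 0) (nat_lit 42857662434) (nat_lit 2) (nat_lit 5) (nat_lit 4) (nat_lit 4) (nat_lit 2) (nat_lit 4) (nat_lit 304) (nat_lit 236) (nat_lit 180))) (XT.nd (nat_lit 78) (nat_lit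 0) (nat_lit 0) (XT.lf (nat_lit 0) (nat_lit 62300570173) (nat_lit 152) (nat_lit 81371255637) (nat_lit 0) (nat_lit 51018715948) (nat_lit 2) (nat_lit 5) (nat_lit 4) (nat_lit 4) (nat_lit 2) (nat_lit 4) (nat_lit 305) (nat_lit 236) (nat_lit 179)) (XT.lf (nat_lit 0) (nat_lit 71117900871) (nat_lit 152) (nat_lit 78937043352) (nat_lit 0) (nat_lit 59825519043) (nat_lit 2) (nat_lit 5) (nat_lit 4) (nat_lit 4) (nat_lit 2) (nat_lit 4) (nat_lit 306) (nat_lit 236) (nat_lit 178))))) (XT.nd (nat_lit 234) (nat_lit 0) (nat_lit 0) (XT.nd (nat_lit 78) (nat_lit 0) (nat_lit 0) (XT.lf (nat_lit 0) (nat_lit 80632389792) (nat_lit 152) (nat_lit 76323596392) (nat_lit 0) (nat_lit 69330260183) (nat_lit 2) (nat_lit 5) (nat_lit 4) (nat_lit 4) (nat_lit 2) (nat_lit 4) (nat_lit 307) (nat_lit 236) (nat_lit 177)) (XT.nd (nat_lit 78) (nat_lit 0) (nat_lit 0) (XT.lf (nat_lit 0) (nat_lit 90900419091) (nat_lit 152) (nat_lit 73515427663)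 (nat_lit 0) (nat_lit 79589263760) (nat_lit 2) (nat_lit 5) (nat_lit 4) (nat_lit 4) (nat_lit 2) (nat_lit 4) (nat_lit 308) (nat_lit 236) (nat_lit 176)) (XT.lf (nat_lit 0) (nat_lit 101982836350) (nat_lit 152) (nat_lit 70495896165) (nat_lit 0) (nat_lit 90663323868) (nat_lit 2) (nat_lit 5) (nat_lit 4) (nat_lit 4) (nat_lit 2) (nat_lit 4) (nat_lit 309) (nat_lit 236) (nat_lit 175)))) (XT.nd (nat_lit 156) (nat_lit 0) (nat_lit 0) (XT.nd (nat_lit 78) (nat_lit 0) (nat_lit 0) (XT.lf (nat_lit 0) (nat_lit 113945315152) (nat_lit 152) (nat_lit 67247108379) (nat_lit 0) (nat_lit 102618064569) (nat_lit 2) (nat_lit 5) (nat_lit 4) (nat_lit 4) (nat_lit 2) (nat_lit 4) (nat_lit 310) (nat_lit 236) (nat_lit 174)) (XT.lf (nat_lit 0) (nat_lit 126858744262) (nat_lit 152) (nat_lit 63749812229) (nat_lit 0) (nat_lit 115524328769) (nat_lit 2) (nat_lit 5) (nat_lit 4) (nat_lit 4) (nat_lit 2) (nat_lit 4) (nat_lit 311) (nat_lit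 236) (nat_lit 173))) (XT.nd (nat_lit 78) (nat_lit 0) (nat_lit 0) (XT.lf (nat_lit 0) (nat_lit 140799647702) (nat_lit 152) (nat_lit 59983282996) (nat_lit 0) (nat_lit 129458598034) (nat_lit 2) (nat_lit 5) (nat_lit 4) (nat_lit 4) (nat_lit 2) (nat_lit 4) (nat_lit 312) (nat_lit 236) (nat_lit 172)) (XT.lf (nat_lit 0) (nat_lit 155850638235) (nat_lit 152) (nat_lit 55925200508) (nat_lit 0) (nat_lit 144503445812) (nat_lit 2) (nat_lit 5) (nat_lit 4) (nat_lit 4) (nat_lit 2) (nat_lit 4) (nat_lit 313) (nat_lit 236) (nat_lit 171))))))))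
noncomputable def xc44 : XT := (XT.nd (nat_lit 2028) (nat_lit 0) (nat_lit 0) (XT.nd (nat_lit 1014) (nat_lit 0) (nat_lit 0) (XT.nd (nat_lit 468) (nat_lit 76) (nat_lit 0) (XT.nd (nat_lit 234) (nat_lit 0) (nat_lit 0) (XT.nd (nat_lit 78) (nat_lit 0) (nat_lit 0) (XT.lf (nat_lit 0) (nat_lit 172100906916) (nat_lit 152) (nat_lit 51551516869) (nat_lit 0) (nat_lit 160748026756) (nat_lit 2) (nat_lit 5) (nat_lit 4) (nat_lit 4) (nat_lit 2) (nat_lit 4) (nat_lit 314) (nat_lit 236) (nat_lit 170)) (XT.nd (nat_lit 78) (nat_lit 0) (nat_lit 0) (XT.lf (nat_lit 0) (nat_lit 189646751632) (nat_lit 152) (nat_lit 46836313952) (nat_lit 0) (nat_lit 178288605050) (nat_lit 2) (nat_lit 5) (nat_lit 4) (nat_lit 4) (nat_lit 2) (nat_lit 4) (nat_lit 315) (nat_lit 236) (nat_lit 169)) (XT.lf (nat_lit 0) (nat_lit 208592147760) (nat_lit 152) (nat_lit 41751649816) (nat_lit 0) (nat_lit 197229124861) (nat_lit 2) (nat_lit 5)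 (nat_lit 4) (nat_lit 4) (nat_lit 2) (nat_lit 4) (nat_lit 316) (nat_lit 236) (nat_lit 168)))) (XT.nd (nat_lit 78) (nat_lit 0) (nat_lit 0) (XT.lf (nat_lit 0) (nat_lit 229049364314) (nat_lit 152) (nat_lit 36267393116) (nat_lit 0) (nat_lit 217681826307) (nat_lit 2) (nat_lit 5) (nat_lit 4) (nat_lit 4) (nat_lit 2) (nat_lit 4) (nat_lit 317) (nat_lit 236) (nat_lit 167)) (XT.nd (nat_lit 78) (nat_lit 0) (nat_lit 0) (XT.lf (nat_lit 0) (nat_lit 251139629245) (nat_lit 152) (nat_lit 30351044554) (nat_lit 0) (nat_lit 239767910582) (nat_lit 2) (nat_lit 5) (nat_lit 4) (nat_lit 4) (nat_lit 2) (nat_lit 4) (nat_lit 318) (nat_lit 236) (nat_lit 166)) (XT.lf (nat_lit 0) (nat_lit 274993847825) (nat_lit 152) (nat_lit 23967544286) (nat_lit 0) (nat_lit 263618258184) (nat_lit 2) (nat_lit 5) (nat_lit 4) (nat_lit 4) (nat_lit 2) (nat_lit 4) (nat_lit 319) (nat_lit 236) (nat_lit 165))))) (XT.nd (nat_lit 234) (nat_lit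 76) (nat_lit 0) (XT.nd (nat_lit 78) (nat_lit 0) (nat_lit 0) (XT.lf (nat_lit 0) (nat_lit 300753378386) (nat_lit 152) (nat_lit 17079064164) (nat_lit 0) (nat_lit 289374204507) (nat_lit 2) (nat_lit 5) (nat_lit 4) (nat_lit 4) (nat_lit 2) (nat_lit 4) (nat_lit 320) (nat_lit 236) (nat_lit 164)) (XT.nd (nat_lit 78) (nat_lit 0) (nat_lit 0) (XT.lf (nat_lit 0) (nat_lit 328570870000) (nat_lit 152) (nat_lit 9644783563) (nat_lit 0) (nat_lit 317188377382) (nat_lit 2) (nat_lit 5) (nat_lit 4) (nat_lit 4) (nat_lit 2) (nat_lit 4) (nat_lit 321) (nat_lit 236) (nat_lit 163)) (XT.lf (nat_lit 0) (nat_lit 358611167061) (nat_lit 152) (nat_lit 1620647488) (nat_lit 0) (nat_lit 347225601536) (nat_lit 2) (nat_lit 5) (nat_lit 4) (nat_lit 4) (nat_lit 2) (nat_lit 4) (nat_lit 322) (nat_lit 236) (nat_lit 162)))) (XT.nd (nat_lit 156) (nat_lit 0) (nat_lit 0) (XT.nd (nat_lit 78) (nat_lit 0) (nat_lit 0) (XT.lf (nat_lit 0)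 (nat_lit 7411655523) (nat_lit 76) (nat_lit 383818881113) (nat_lit 76) (nat_lit 372430470304) (nat_lit 1) (nat_lit 4) (nat_lit 2) (nat_lit 5) (nat_lit 2) (nat_lit 4) (nat_lit 323) (nat_lit 236) (nat_lit 161)) (XT.lf (nat_lit 0) (nat_lit 17254300015) (nat_lit 76) (nat_lit 409247137231) (nat_lit 76) (nat_lit 397856091899) (nat_lit 1) (nat_lit 4) (nat_lit 2) (nat_lit 5) (nat_lit 2) (nat_lit 4) (nat_lit 324) (nat_lit 236) (nat_lit 160))) (XT.nd (nat_lit 78) (nat_lit 0) (nat_lit 0) (XT.lf (nat_lit 0) (nat_lit 27880272345) (nat_lit 76) (nat_lit 436711580238) (nat_lit 76) (nat_lit 425318095534) (nat_lit 1) (nat_lit 4) (nat_lit 2) (nat_lit 5) (nat_lit 2) (nat_lit 4) (nat_lit 325) (nat_lit 236) (nat_lit 159)) (XT.lf (nat_lit 0) (nat_lit 39352541238) (nat_lit 76) (nat_lit 466374962391) (nat_lit 76) (nat_lit 454979219008) (nat_lit 1) (nat_lit 4) (nat_lit 2) (nat_lit 5) (nat_lit 2) (nat_lit 4) (nat_lit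 326) (nat_lit 236) (nat_lit 158)))))) (XT.nd (nat_lit 468) (nat_lit 0) (nat_lit 0) (XT.nd (nat_lit 234) (nat_lit 0) (nat_lit 0) (XT.nd (nat_lit 78) (nat_lit 0) (nat_lit 0) (XT.lf (nat_lit 0) (nat_lit 51739090509) (nat_lit 76) (nat_lit 498413066693) (nat_lit 76) (nat_lit 487015231942) (nat_lit 1) (nat_lit 4) (nat_lit 2) (nat_lit 5) (nat_lit 2) (nat_lit 4) (nat_lit 327) (nat_lit 236) (nat_lit 157)) (XT.nd (nat_lit 78) (nat_lit 0) (nat_lit 0) (XT.lf (nat_lit 0) (nat_lit 65113321932) (nat_lit 76) (nat_lit 533015748579) (nat_lit 76) (nat_lit 521615977375) (nat_lit 1) (nat_lit 4) (nat_lit 2) (nat_lit 5) (nat_lit 2) (nat_lit 4) (nat_lit 328) (nat_lit 236) (nat_lit 156)) (XT.lf (nat_lit 0) (nat_lit 79554490211) (nat_lit 76) (nat_lit 570388060977) (nat_lit 76) (nat_lit 558986496762) (nat_lit 1) (nat_lit 4) (nat_lit 2) (nat_lit 5) (nat_lit 2) (nat_lit 4) (nat_lit 329) (nat_lit 236) (nat_lit 155))))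 (XT.nd (nat_lit 78) (nat_lit 0) (nat_lit 0) (XT.lf (nat_lit 0) (nat_lit 95148172641) (nat_lit 76) (nat_lit 610751469443) (nat_lit 76) (nat_lit 599348245032) (nat_lit 1) (nat_lit 4) (nat_lit 2) (nat_lit 5) (nat_lit 2) (nat_lit 4) (nat_lit 330) (nat_lit 236) (nat_lit 154)) (XT.nd (nat_lit 78) (nat_lit 0) (nat_lit 0) (XT.lf (nat_lit 0) (nat_lit 111986776227) (nat_lit 76) (nat_lit 654345164546) (nat_lit 76) (nat_lit 642940402916) (nat_lit 1) (nat_lit 4) (nat_lit 2) (nat_lit 5) (nat_lit 2) (nat_lit 4) (nat_lit 331) (nat_lit 236) (nat_lit 153)) (XT.lf (nat_lit 0) (nat_lit 130170085288) (nat_lit 76) (nat_lit 701427479292) (nat_lit 76) (nat_lit 690021294312) (nat_lit 1) (nat_lit 4) (nat_lit 2) (nat_lit 5) (nat_lit 2) (nat_lit 4) (nat_lit 332) (nat_lit 236) (nat_lit 152))))) (XT.nd (nat_lit 234) (nat_lit 0) (nat_lit 0) (XT.nd (nat_lit 78) (nat_lit 0) (nat_lit 0) (XT.lf (nat_lit 0) (nat_lit 149805852766)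 (nat_lit 76) (nat_lit 752277419993) (nat_lit 76) (nat_lit 740869917096) (nat_lit 1) (nat_lit 4) (nat_lit 2) (nat_lit 5) (nat_lit 2) (nat_lit 4) (nat_lit 333) (nat_lit 236) (nat_lit 151)) (XT.nd (nat_lit 78) (nat_lit 0) (nat_lit 0) (XT.lf (nat_lit 0) (nat_lit 171010438765) (nat_lit 76) (nat_lit 807196319630) (nat_lit 76) (nat_lit 795787596439) (nat_lit 1) (nat_lit 4) (nat_lit 2) (nat_lit 5) (nat_lit 2) (nat_lit 4) (nat_lit 334) (nat_lit 236) (nat_lit 150)) (XT.lf (nat_lit 0) (nat_lit 193909500090) (nat_lit 76) (nat_lit 866509623534) (nat_lit 76) (nat_lit 855099770442) (nat_lit 1) (nat_lit 4) (nat_lit 2) (nat_lit 5) (nat_lit 2) (nat_lit 4) (nat_lit 335) (nat_lit 236) (nat_lit 149)))) (XT.nd (nat_lit 156) (nat_lit 0) (nat_lit 0) (XT.nd (nat_lit 78) (nat_lit 0) (nat_lit 0) (XT.lf (nat_lit 0) (nat_lit 218638734884) (nat_lit 76) (nat_lit 930568817951) (nat_lit 76) (nat_lit 919157918653) (nat_lit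 1) (nat_lit 4) (nat_lit 2) (nat_lit 5) (nat_lit 2) (nat_lit 4) (nat_lit 336) (nat_lit 236) (nat_lit 148)) (XT.lf (nat_lit 0) (nat_lit 245344686758) (nat_lit 76) (nat_lit 999753512921) (nat_lit 76) (nat_lit 988341644915) (nat_lit 1) (nat_lit 4) (nat_lit 2) (nat_lit 5) (nat_lit 2) (nat_lit 4) (nat_lit 337) (nat_lit 236) (nat_lit 147))) (XT.nd (nat_lit 78) (nat_lit 0) (nat_lit 0) (XT.lf (nat_lit 0) (nat_lit 274185613207) (nat_lit 76) (nat_lit 1074473691822) (nat_lit 76) (nat_lit 1063060926864) (nat_lit 1) (nat_lit 4) (nat_lit 2) (nat_lit 5) (nat_lit 2) (nat_lit 4) (nat_lit 338) (nat_lit 236) (nat_lit 146)) (XT.lf (nat_lit 0) (nat_lit 305332423423) (nat_lit 76) (nat_lit 1155172140899) (nat_lit 76) (nat_lit 1143758545430) (nat_lit 1) (nat_lit 4) (nat_lit 2) (nat_lit 5) (nat_lit 2) (nat_lit 4) (nat_lit 339) (nat_lit 236) (nat_lit 145))))))) (XT.nd (nat_lit 30966) (nat_lit 0) (nat_lit 836)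 (XT.nd (nat_lit 30420) (nat_lit 0) (nat_lit 2204) (XT.nd (nat_lit 30186) (nat_lit 0) (nat_lit 3572) (XT.nd (nat_lit 78) (nat_lit 0) (nat_lit 0) (XT.lf (nat_lit 0) (nat_lit 338969691098) (nat_lit 76) (nat_lit 1242327073185) (nat_lit 76) (nat_lit 1230912708723) (nat_lit 1) (nat_lit 4) (nat_lit 2) (nat_lit 5) (nat_lit 2) (nat_lit 4) (nat_lit 340) (nat_lit 236) (nat_lit 144)) (XT.nd (nat_lit 78) (nat_lit 0) (nat_lit 0) (XT.lf (nat_lit 0) (nat_lit 375296748187) (nat_lit 76) (nat_lit 1336454962351) (nat_lit 76) (nat_lit 1325039885860) (nat_lit 1) (nat_lit 4) (nat_lit 2) (nat_lit 5) (nat_lit 2) (nat_lit 4) (nat_lit 341) (nat_lit 236) (nat_lit 143)) (XT.lf (nat_lit 0) (nat_lit 414528866140) (nat_lit 76) (nat_lit 1438113603297) (nat_lit 76) (nat_lit 1426697867519) (nat_lit 1) (nat_lit 4) (nat_lit 2) (nat_lit 5) (nat_lit 2) (nat_lit 4) (nat_lit 342) (nat_lit 236) (nat_lit 142)))) (XT.nd (nat_lit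 78) (nat_lit 380) (nat_lit 0) (XT.lf (nat_lit 0) (nat_lit 421337838) (nat_lit 228) (nat_lit 1469182574) (nat_lit 228) (nat_lit 1469182574) (nat_lit 53) (nat_lit 4) (nat_lit 56) (nat_lit 5) (nat_lit 56) (nat_lit 4) (nat_lit 246) (nat_lit 237) (nat_lit 237)) (XT.nd (nat_lit 78) (nat_lit 304) (nat_lit 0) (XT.lf (nat_lit 0) (nat_lit 41201315) (nat_lit 304) (nat_lit 1887382000) (nat_lit 76) (nat_lit 4897952467) (nat_lit 52) (nat_lit 5) (nat_lit 56) (nat_lit 5) (nat_lit 53) (nat_lit 4) (nat_lit 247) (nat_lit 237) (nat_lit 236)) (XT.lf (nat_lit 0) (nat_lit 2245929536) (nat_lit 304) (nat_lit 660770887) (nat_lit 380) (nat_lit 4046592672) (nat_lit 48) (nat_lit 5) (nat_lit 52) (nat_lit 5) (nat_lit 53) (nat_lit 4) (nat_lit 248) (nat_lit 237) (nat_lit 235))))) (XT.nd (nat_lit 234) (nat_lit 456) (nat_lit 0) (XT.nd (nat_lit 78) (nat_lit 912) (nat_lit 0) (XT.lf (nat_lit 0) (nat_lit 5837804418) (nat_lit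 380) (nat_lit 514037867) (nat_lit 0) (nat_lit 752983995) (nat_lit 48) (nat_lit 5) (nat_lit 53) (nat_lit 4) (nat_lit 48) (nat_lit 4) (nat_lit 249) (nat_lit 237) (nat_lit 234)) (XT.nd (nat_lit 78) (nat_lit 456) (nat_lit 0) (XT.lf (nat_lit 0) (nat_lit 1540823447) (nat_lit 456) (nat_lit 3330180895) (nat_lit 76) (nat_lit 2404048239) (nat_lit 42) (nat_lit 5) (nat_lit 48) (nat_lit 5) (nat_lit 43) (nat_lit 4) (nat_lit 250) (nat_lit 237) (nat_lit 233)) (XT.lf (nat_lit 0) (nat_lit 1138536499) (nat_lit 456) (nat_lit 3196307616) (nat_lit 532) (nat_lit 3136246174) (nat_lit 36) (nat_lit 5) (nat_lit 42) (nat_lit 5) (nat_lit 43) (nat_lit 4) (nat_lit 251) (nat_lit 237) (nat_lit 232)))) (XT.nd (nat_lit 156) (nat_lit 152) (nat_lit 0) (XT.nd (nat_lit 78) (nat_lit 304) (nat_lit 0) (XT.lf (nat_lit 0) (nat_lit 5942539607) (nat_lit 456) (nat_lit 1299698095) (nat_lit 532) (nat_lit 450520452) (nat_lit 36) (nat_lit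 5) (nat_lit 42) (nat_lit 5) (nat_lit 43) (nat_lit 4) (nat_lit 252) (nat_lit 237) (nat_lit 231)) (XT.lf (nat_lit 0) (nat_lit 2230718791) (nat_lit 304) (nat_lit 4871760908) (nat_lit 76) (nat_lit 833681704) (nat_lit 32) (nat_lit 5) (nat_lit 36) (nat_lit 5) (nat_lit 33) (nat_lit 4) (nat_lit 253) (nat_lit 237) (nat_lit 230))) (XT.nd (nat_lit 78) (nat_lit 152) (nat_lit 0) (XT.lf (nat_lit 0) (nat_lit 5001759403) (nat_lit 304) (nat_lit 95028036) (nat_lit 76) (nat_lit 3110243155) (nat_lit 32) (nat_lit 5) (nat_lit 36) (nat_lit 5) (nat_lit 33) (nat_lit 4) (nat_lit 254) (nat_lit 237) (nat_lit 229)) (XT.lf (nat_lit 0) (nat_lit 5119144347) (nat_lit 152) (nat_lit 2828812427) (nat_lit 228) (nat_lit 556169101) (nat_lit 30) (nat_lit 5) (nat_lit 32) (nat_lit 5) (nat_lit 33) (nat_lit 4) (nat_lit 255) (nat_lit 237) (nat_lit 228)))))) (XT.nd (nat_lit 546) (nat_lit 532) (nat_lit 0) (XT.nd (nat_lit 234) (nat_lit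 380) (nat_lit 0) (XT.nd (nat_lit 78) (nat_lit 152) (nat_lit 0) (XT.lf (nat_lit 0) (nat_lit 1758342987) (nat_lit 228) (nat_lit 309455012) (nat_lit 304) (nat_lit 6763212790) (nat_lit 26) (nat_lit 5) (nat_lit 29) (nat_lit 5) (nat_lit 30) (nat_lit 5) (nat_lit 256) (nat_lit 237) (nat_lit 227)) (XT.nd (nat_lit 78) (nat_lit 152) (nat_lit 0) (XT.lf (nat_lit 0) (nat_lit 4864425047) (nat_lit 304) (nat_lit 1958258642) (nat_lit 76) (nat_lit 2361446321) (nat_lit 26) (nat_lit 5) (nat_lit 30) (nat_lit 5) (nat_lit 27) (nat_lit 4) (nat_lit 257) (nat_lit 237) (nat_lit 226)) (XT.lf (nat_lit 0) (nat_lit 3537550971) (nat_lit 152) (nat_lit 4292050391) (nat_lit 228) (nat_lit 1740925214) (nat_lit 24) (nat_lit 5) (nat_lit 26) (nat_lit 5) (nat_lit 27) (nat_lit 4) (nat_lit 258) (nat_lit 237) (nat_lit 225)))) (XT.nd (nat_lit 156) (nat_lit 152) (nat_lit 0) (XT.nd (nat_lit 78) (nat_lit 152) (nat_lit 0) (XT.lf (nat_lit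 0) (nat_lit 900708878) (nat_lit 228) (nat_lit 625580616) (nat_lit 76) (nat_lit 8467359455) (nat_lit 23) (nat_lit 5) (nat_lit 26) (nat_lit 5) (nat_lit 24) (nat_lit 5) (nat_lit 259) (nat_lit 237) (nat_lit 224)) (XT.lf (nat_lit 0) (nat_lit 3688860526) (nat_lit 228) (nat_lit 5240078121) (nat_lit 76) (nat_lit 1516212484) (nat_lit 21) (nat_lit 5) (nat_lit 24) (nat_lit 5) (nat_lit 22) (nat_lit 4) (nat_lit 260) (nat_lit 237) (nat_lit 223))) (XT.nd (nat_lit 78) (nat_lit 0) (nat_lit 0) (XT.lf (nat_lit 0) (nat_lit 396050129) (nat_lit 152) (nat_lit 6239872795) (nat_lit 228) (nat_lit 4302432693) (nat_lit 19) (nat_lit 5) (nat_lit 21) (nat_lit 5) (nat_lit 22) (nat_lit 4) (nat_lit 261) (nat_lit 237) (nat_lit 222)) (XT.lf (nat_lit 0) (nat_lit 6595862415) (nat_lit 152) (nat_lit 3240540748) (nat_lit 228) (nat_lit 1633618498) (nat_lit 19) (nat_lit 5) (nat_lit 21) (nat_lit 5) (nat_lit 22) (nat_lit 4) (nat_lit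 262) (nat_lit 237) (nat_lit 221))))) (XT.nd (nat_lit 234) (nat_lit 228) (nat_lit 0) (XT.nd (nat_lit 78) (nat_lit 76) (nat_lit 0) (XT.lf (nat_lit 0) (nat_lit 1092869886) (nat_lit 228) (nat_lit 10955698320) (nat_lit 76) (nat_lit 1077424) (nat_lit 16) (nat_lit 5) (nat_lit 19) (nat_lit 5) (nat_lit 17) (nat_lit 4) (nat_lit 263) (nat_lit 237) (nat_lit 220)) (XT.nd (nat_lit 78) (nat_lit 76) (nat_lit 0) (XT.lf (nat_lit 0) (nat_lit 4053696358) (nat_lit 228) (nat_lit 5160108731) (nat_lit 76) (nat_lit 3450413115) (nat_lit 16) (nat_lit 5) (nat_lit 19) (nat_lit 5) (nat_lit 17) (nat_lit 4) (nat_lit 264) (nat_lit 237) (nat_lit 219)) (XT.lf (nat_lit 0) (nat_lit 979840111) (nat_lit 76) (nat_lit 6187315213) (nat_lit 152) (nat_lit 6167846769) (nat_lit 15) (nat_lit 5) (nat_lit 16) (nat_lit 5) (nat_lit 17) (nat_lit 4) (nat_lit 265) (nat_lit 237) (nat_lit 218)))) (XT.nd (nat_lit 156) (nat_lit 76) (nat_lit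 0) (XT.nd (nat_lit 78) (nat_lit 152) (nat_lit 0) (XT.lf (nat_lit 0) (nat_lit 7740402178) (nat_lit 76) (nat_lit 2826616410) (nat_lit 152) (nat_lit 3489727991) (nat_lit 15) (nat_lit 5) (nat_lit 16) (nat_lit 5) (nat_lit 17) (nat_lit 4) (nat_lit 266) (nat_lit 237) (nat_lit 217)) (XT.lf (nat_lit 0) (nat_lit 29232426) (nat_lit 152) (nat_lit 14132236697) (nat_lit 152) (nat_lit 681216694) (nat_lit 13) (nat_lit 4) (nat_lit 15) (nat_lit 5) (nat_lit 15) (nat_lit 4) (nat_lit 267) (nat_lit 237) (nat_lit 216))) (XT.nd (nat_lit 78) (nat_lit 0) (nat_lit 0) (XT.lf (nat_lit 0) (nat_lit 2388338883) (nat_lit 228) (nat_lit 8730278824) (nat_lit 76) (nat_lit 4556261307) (nat_lit 12) (nat_lit 5) (nat_lit 15) (nat_lit 5) (nat_lit 13) (nat_lit 4) (nat_lit 268) (nat_lit 237) (nat_lit 215)) (XT.lf (nat_lit 0) (nat_lit 5577224350) (nat_lit 228) (nat_lit 2326104182) (nat_lit 76) (nat_lit 8676266929) (nat_lit 12)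 (nat_lit 5) (nat_lit 15) (nat_lit 5) (nat_lit 13) (nat_lit 4) (nat_lit 269) (nat_lit 237) (nat_lit 214))))))))
noncomputable def xc45 : XT := (XT.nd (nat_lit 2028) (nat_lit 152) (nat_lit 0) (XT.nd (nat_lit 1014) (nat_lit 152) (nat_lit 0) (XT.nd (nat_lit 468) (nat_lit 152) (nat_lit 0) (XT.nd (nat_lit 234) (nat_lit 152) (nat_lit 0) (XT.nd (nat_lit 78) (nat_lit 76) (nat_lit 0) (XT.lf (nat_lit 0) (nat_lit 4687912864) (nat_lit 76) (nat_lit 4363245576) (nat_lit 152) (nat_lit 8503329109) (nat_lit 11) (nat_lit 5) (nat_lit 12) (nat_lit 5) (nat_lit 13) (nat_lit 4) (nat_lit 270) (nat_lit 237) (nat_lit 213)) (XT.nd (nat_lit 78) (nat_lit 76) (nat_lit 0) (XT.lf (nat_lit 0) (nat_lit 12261807281) (nat_lit 76) (nat_lit 524915543) (nat_lit 152) (nat_lit 5822129964) (nat_lit 11) (nat_lit 5) (nat_lit 12) (nat_lit 5) (nat_lit 13) (nat_lit 4) (nat_lit 271) (nat_lit 237) (nat_lit 212)) (XT.lf (nat_lit 0)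 (nat_lit 503638554) (nat_lit 76) (nat_lit 16341517434) (nat_lit 76) (nat_lit 2900655131) (nat_lit 10) (nat_lit 4) (nat_lit 11) (nat_lit 5) (nat_lit 11) (nat_lit 4) (nat_lit 272) (nat_lit 237) (nat_lit 211)))) (XT.nd (nat_lit 78) (nat_lit 76) (nat_lit 0) (XT.lf (nat_lit 0) (nat_lit 358847254) (nat_lit 152) (nat_lit 12850114241) (nat_lit 76) (nat_lit 7755053601) (nat_lit 9) (nat_lit 5) (nat_lit 11) (nat_lit 5) (nat_lit 10) (nat_lit 4) (nat_lit 273) (nat_lit 237) (nat_lit 210)) (XT.nd (nat_lit 78) (nat_lit 76) (nat_lit 0) (XT.lf (nat_lit 0) (nat_lit 3653289310) (nat_lit 152) (nat_lit 6141799052) (nat_lit 76) (nat_lit 12484220070) (nat_lit 9) (nat_lit 5) (nat_lit 11) (nat_lit 5) (nat_lit 10) (nat_lit 4) (nat_lit 274) (nat_lit 237) (nat_lit 209)) (XT.lf (nat_lit 0) (nat_lit 1044538870) (nat_lit 76) (nat_lit 6127878486) (nat_lit 152) (nat_lit 16530639271) (nat_lit 8) (nat_lit 5) (nat_lit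 9) (nat_lit 5) (nat_lit 10) (nat_lit 4) (nat_lit 275) (nat_lit 237) (nat_lit 208))))) (XT.nd (nat_lit 234) (nat_lit 152) (nat_lit 0) (XT.nd (nat_lit 78) (nat_lit 0) (nat_lit 0) (XT.lf (nat_lit 0) (nat_lit 9046986292) (nat_lit 76) (nat_lit 2032167010) (nat_lit 152) (nat_lit 14153177980) (nat_lit 8) (nat_lit 5) (nat_lit 9) (nat_lit 5) (nat_lit 10) (nat_lit 4) (nat_lit 276) (nat_lit 237) (nat_lit 207)) (XT.nd (nat_lit 78) (nat_lit 0) (nat_lit 0) (XT.lf (nat_lit 0) (nat_lit 15297638411) (nat_lit 152) (nat_lit 9355563802) (nat_lit 0) (nat_lit 2230913334) (nat_lit 8) (nat_lit 5) (nat_lit 10) (nat_lit 4) (nat_lit 8) (nat_lit 4) (nat_lit 277) (nat_lit 237) (nat_lit 206)) (XT.lf (nat_lit 0) (nat_lit 19852406106) (nat_lit 152) (nat_lit 2128236406) (nat_lit 0) (nat_lit 6687592462) (nat_lit 8) (nat_lit 5) (nat_lit 10) (nat_lit 4) (nat_lit 8) (nat_lit 4) (nat_lit 278) (nat_lit 237) (nat_lit 205))))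 (XT.nd (nat_lit 156) (nat_lit 76) (nat_lit 0) (XT.nd (nat_lit 78) (nat_lit 0) (nat_lit 0) (XT.lf (nat_lit 0) (nat_lit 5882611520) (nat_lit 76) (nat_lit 18980439365) (nat_lit 76) (nat_lit 5724802973) (nat_lit 7) (nat_lit 4) (nat_lit 8) (nat_lit 5) (nat_lit 8) (nat_lit 4) (nat_lit 279) (nat_lit 237) (nat_lit 204)) (XT.lf (nat_lit 0) (nat_lit 14568675846) (nat_lit 76) (nat_lit 15715697391) (nat_lit 76) (nat_lit 2375965862) (nat_lit 7) (nat_lit 4) (nat_lit 8) (nat_lit 5) (nat_lit 8) (nat_lit 4) (nat_lit 280) (nat_lit 237) (nat_lit 203))) (XT.nd (nat_lit 78) (nat_lit 0) (nat_lit 0) (XT.lf (nat_lit 0) (nat_lit 1132692111) (nat_lit 152) (nat_lit 11061597805) (nat_lit 76) (nat_lit 22705698467) (nat_lit 6) (nat_lit 5) (nat_lit 8) (nat_lit 5) (nat_lit 7) (nat_lit 4) (nat_lit 281) (nat_lit 237) (nat_lit 202)) (XT.lf (nat_lit 0) (nat_lit 4751070190) (nat_lit 152) (nat_lit 3607469424) (nat_lit 76)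 (nat_lit 28958807442) (nat_lit 6) (nat_lit 5) (nat_lit 8) (nat_lit 5) (nat_lit 7) (nat_lit 4) (nat_lit 282) (nat_lit 237) (nat_lit 201)))))) (XT.nd (nat_lit 468) (nat_lit 76) (nat_lit 0) (XT.nd (nat_lit 234) (nat_lit 0) (nat_lit 0) (XT.nd (nat_lit 78) (nat_lit 0) (nat_lit 0) (XT.lf (nat_lit 0) (nat_lit 4602260233) (nat_lit 76) (nat_lit 4127890288) (nat_lit 152) (nat_lit 31192306294) (nat_lit 5) (nat_lit 5) (nat_lit 6) (nat_lit 5) (nat_lit 7) (nat_lit 4) (nat_lit 283) (nat_lit 237) (nat_lit 200)) (XT.nd (nat_lit 78) (nat_lit 0) (nat_lit 0) (XT.lf (nat_lit 0) (nat_lit 13100427021) (nat_lit 152) (nat_lit 29138853067) (nat_lit 0) (nat_lit 490922124) (nat_lit 5) (nat_lit 5) (nat_lit 7) (nat_lit 4) (nat_lit 5) (nat_lit 4) (nat_lit 284) (nat_lit 237) (nat_lit 199)) (XT.lf (nat_lit 0) (nat_lit 17891489924) (nat_lit 152) (nat_lit 22636445605) (nat_lit 0) (nat_lit 5228990826) (nat_lit 5) (nat_lit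 5) (nat_lit 7) (nat_lit 4) (nat_lit 5) (nat_lit 4) (nat_lit 285) (nat_lit 237) (nat_lit 198)))) (XT.nd (nat_lit 78) (nat_lit 0) (nat_lit 0) (XT.lf (nat_lit 0) (nat_lit 23032454854) (nat_lit 152) (nat_lit 15675165549) (nat_lit 0) (nat_lit 10320887052) (nat_lit 5) (nat_lit 5) (nat_lit 7) (nat_lit 4) (nat_lit 5) (nat_lit 4) (nat_lit 286) (nat_lit 237) (nat_lit 197)) (XT.nd (nat_lit 78) (nat_lit 0) (nat_lit 0) (XT.lf (nat_lit 0) (nat_lit 28553786788) (nat_lit 152) (nat_lit 8213760872) (nat_lit 0) (nat_lit 15796785000) (nat_lit 5) (nat_lit 5) (nat_lit 7) (nat_lit 4) (nat_lit 5) (nat_lit 4) (nat_lit 287) (nat_lit 237) (nat_lit 196)) (XT.lf (nat_lit 0) (nat_lit 34488204730) (nat_lit 152) (nat_lit 208015840) (nat_lit 0) (nat_lit 21689134436) (nat_lit 5) (nat_lit 5) (nat_lit 7) (nat_lit 4) (nat_lit 5) (nat_lit 4) (nat_lit 288) (nat_lit 237) (nat_lit 195))))) (XT.nd (nat_lit 234) (nat_lit 0)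 (nat_lit 0) (XT.nd (nat_lit 78) (nat_lit 0) (nat_lit 0) (XT.lf (nat_lit 0) (nat_lit 8831287778) (nat_lit 76) (nat_lit 32251980507) (nat_lit 76) (nat_lit 19413957893) (nat_lit 4) (nat_lit 4) (nat_lit 5) (nat_lit 5) (nat_lit 5) (nat_lit 4) (nat_lit 289) (nat_lit 237) (nat_lit 194)) (XT.nd (nat_lit 78) (nat_lit 0) (nat_lit 0) (XT.lf (nat_lit 0) (nat_lit 18558120284) (nat_lit 76) (nat_lit 29627825591) (nat_lit 76) (nat_lit 16753736015) (nat_lit 4) (nat_lit 4) (nat_lit 5) (nat_lit 5) (nat_lit 5) (nat_lit 4) (nat_lit 290) (nat_lit 237) (nat_lit 193)) (XT.lf (nat_lit 0) (nat_lit 29019168421) (nat_lit 76) (nat_lit 26813892799) (nat_lit 76) (nat_lit 13906407887) (nat_lit 4) (nat_lit 4) (nat_lit 5) (nat_lit 5) (nat_lit 5) (nat_lit 4) (nat_lit 291) (nat_lit 237) (nat_lit 192)))) (XT.nd (nat_lit 156) (nat_lit 0) (nat_lit 0) (XT.nd (nat_lit 78) (nat_lit 0) (nat_lit 0) (XT.lf (nat_lit 0) (nat_lit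 40276423586) (nat_lit 76) (nat_lit 23793506972) (nat_lit 76) (nat_lit 10855100452) (nat_lit 4) (nat_lit 4) (nat_lit 5) (nat_lit 5) (nat_lit 5) (nat_lit 4) (nat_lit 292) (nat_lit 237) (nat_lit 191)) (XT.lf (nat_lit 0) (nat_lit 52396595438) (nat_lit 76) (nat_lit 20548769528) (nat_lit 76) (nat_lit 7581731891) (nat_lit 4) (nat_lit 4) (nat_lit 5) (nat_lit 5) (nat_lit 5) (nat_lit 4) (nat_lit 293) (nat_lit 237) (nat_lit 190))) (XT.nd (nat_lit 78) (nat_lit 0) (nat_lit 0) (XT.lf (nat_lit 0) (nat_lit 65451507217) (nat_lit 76) (nat_lit 17060452393) (nat_lit 76) (nat_lit 4066904462) (nat_lit 4) (nat_lit 4) (nat_lit 5) (nat_lit 5) (nat_lit 5) (nat_lit 4) (nat_lit 294) (nat_lit 237) (nat_lit 189)) (XT.lf (nat_lit 0) (nat_lit 79518521365) (nat_lit 76) (nat_lit 13307884059) (nat_lit 76) (nat_lit 289789559) (nat_lit 4) (nat_lit 4) (nat_lit 5) (nat_lit 5) (nat_lit 5) (nat_lit 4) (nat_lit 295) (nat_lit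 237) (nat_lit 188))))))) (XT.nd (nat_lit 1014) (nat_lit 0) (nat_lit 0) (XT.nd (nat_lit 468) (nat_lit 0) (nat_lit 0) (XT.nd (nat_lit 234) (nat_lit 0) (nat_lit 0) (XT.nd (nat_lit 78) (nat_lit 76) (nat_lit 0) (XT.lf (nat_lit 0) (nat_lit 3583305218) (nat_lit 152) (nat_lit 5587547950) (nat_lit 76) (nat_lit 90999718832) (nat_lit 3) (nat_lit 5) (nat_lit 5) (nat_lit 5) (nat_lit 4) (nat_lit 4) (nat_lit 296) (nat_lit 237) (nat_lit 187)) (XT.nd (nat_lit 78) (nat_lit 0) (nat_lit 0) (XT.lf (nat_lit 0) (nat_lit 3186761804) (nat_lit 76) (nat_lit 4625079222) (nat_lit 152) (nat_lit 99971975237) (nat_lit 2) (nat_lit 5) (nat_lit 3) (nat_lit 5) (nat_lit 4) (nat_lit 4) (nat_lit 297) (nat_lit 237) (nat_lit 186)) (XT.lf (nat_lit 0) (nat_lit 12527010202) (nat_lit 152) (nat_lit 103052613663) (nat_lit 0) (nat_lit 414645953) (nat_lit 2) (nat_lit 5) (nat_lit 4) (nat_lit 4) (nat_lit 2) (nat_lit 4) (nat_lit 298)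 (nat_lit 237) (nat_lit 185)))) (XT.nd (nat_lit 78) (nat_lit 0) (nat_lit 0) (XT.lf (nat_lit 0) (nat_lit 17725423094) (nat_lit 152) (nat_lit 101531317762) (nat_lit 0) (nat_lit 5596352862) (nat_lit 2) (nat_lit 5) (nat_lit 4) (nat_lit 4) (nat_lit 2) (nat_lit 4) (nat_lit 299) (nat_lit 237) (nat_lit 184)) (XT.nd (nat_lit 78) (nat_lit 0) (nat_lit 0) (XT.lf (nat_lit 0) (nat_lit 23326651844) (nat_lit 152) (nat_lit 99912918401) (nat_lit 0) (nat_lit 11182113110) (nat_lit 2) (nat_lit 5) (nat_lit 4) (nat_lit 4) (nat_lit 2) (nat_lit 4) (nat_lit 300) (nat_lit 237) (nat_lit 183)) (XT.lf (nat_lit 0) (nat_lit 29363888919) (nat_lit 152) (nat_lit 98187825067) (nat_lit 0) (nat_lit 17205027499) (nat_lit 2) (nat_lit 5) (nat_lit 4) (nat_lit 4) (nat_lit 2) (nat_lit 4) (nat_lit 301) (nat_lit 237) (nat_lit 182))))) (XT.nd (nat_lit 234) (nat_lit 0) (nat_lit 0) (XT.nd (nat_lit 78) (nat_lit 0) (nat_lit 0) (XT.lf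 (nat_lit 0) (nat_lit 35872910540) (nat_lit 152) (nat_lit 96345814984) (nat_lit 0) (nat_lit 23700787372) (nat_lit 2) (nat_lit 5) (nat_lit 4) (nat_lit 4) (nat_lit 2) (nat_lit 4) (nat_lit 302) (nat_lit 237) (nat_lit 181)) (XT.nd (nat_lit 78) (nat_lit 0) (nat_lit 0) (XT.lf (nat_lit 0) (nat_lit 42892288685) (nat_lit 152) (nat_lit 94375972537) (nat_lit 0) (nat_lit 30707886122) (nat_lit 2) (nat_lit 5) (nat_lit 4) (nat_lit 4) (nat_lit 2) (nat_lit 4) (nat_lit 303) (nat_lit 237) (nat_lit 180)) (XT.lf (nat_lit 0) (nat_lit 50463619671) (nat_lit 152) (nat_lit 92266624585) (nat_lit 0) (nat_lit 38267847297) (nat_lit 2) (nat_lit 5) (nat_lit 4) (nat_lit 4) (nat_lit 2) (nat_lit 4) (nat_lit 304) (nat_lit 237) (nat_lit 179)))) (XT.nd (nat_lit 156) (nat_lit 0) (nat_lit 0) (XT.nd (nat_lit 78) (nat_lit 0) (nat_lit 0) (XT.lf (nat_lit 0) (nat_lit 58631770643) (nat_lit 152) (nat_lit 90005271289) (nat_lit 0)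 (nat_lit 46425470666) (nat_lit 2) (nat_lit 5) (nat_lit 4) (nat_lit 4) (nat_lit 2) (nat_lit 4) (nat_lit 305) (nat_lit 237) (nat_lit 178)) (XT.lf (nat_lit 0) (nat_lit 67445145460) (nat_lit 152) (nat_lit 87578512036) (nat_lit 0) (nat_lit 55229097702) (nat_lit 2) (nat_lit 5) (nat_lit 4) (nat_lit 4) (nat_lit 2) (nat_lit 4) (nat_lit 306) (nat_lit 237) (nat_lit 177))) (XT.nd (nat_lit 78) (nat_lit 0) (nat_lit 0) (XT.lf (nat_lit 0) (nat_lit 76955971527) (nat_lit 152) (nat_lit 84971966032) (nat_lit 0) (nat_lit 64730898047) (nat_lit 2) (nat_lit 5) (nat_lit 4) (nat_lit 4) (nat_lit 2) (nat_lit 4) (nat_lit 307) (nat_lit 237) (nat_lit 176)) (XT.lf (nat_lit 0) (nat_lit 87220609295) (nat_lit 152) (nat_lit 82170187077) (nat_lit 0) (nat_lit 74987178665) (nat_lit 2) (nat_lit 5) (nat_lit 4) (nat_lit 4) (nat_lit 2) (nat_lit 4) (nat_lit 308) (nat_lit 237) (nat_lit 175)))))) (XT.nd (nat_lit 546) (nat_lit 0)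 (nat_lit 0) (XT.nd (nat_lit 234) (nat_lit 0) (nat_lit 0) (XT.nd (nat_lit 78) (nat_lit 0) (nat_lit 0) (XT.lf (nat_lit 0) (nat_lit 98299886248) (nat_lit 152) (nat_lit 79156572036) (nat_lit 0) (nat_lit 86058717515) (nat_lit 2) (nat_lit 5) (nat_lit 4) (nat_lit 4) (nat_lit 2) (nat_lit 4) (nat_lit 309) (nat_lit 237) (nat_lit 174)) (XT.nd (nat_lit 78) (nat_lit 0) (nat_lit 0) (XT.lf (nat_lit 0) (nat_lit 110259457359) (nat_lit 152) (nat_lit 75913262452) (nat_lit 0) (nat_lit 98011123717) (nat_lit 2) (nat_lit 5) (nat_lit 4) (nat_lit 4) (nat_lit 2) (nat_lit 4) (nat_lit 310) (nat_lit 237) (nat_lit 173)) (XT.lf (nat_lit 0) (nat_lit 123170194162) (nat_lit 152) (nat_lit 72421038710) (nat_lit 0) (nat_lit 110915226345) (nat_lit 2) (nat_lit 5) (nat_lit 4) (nat_lit 4) (nat_lit 2) (nat_lit 4) (nat_lit 311) (nat_lit 237) (nat_lit 172)))) (XT.nd (nat_lit 156) (nat_lit 0) (nat_lit 0) (XT.nd (nat_lit 78) (nat_lit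 0) (nat_lit 0) (XT.lf (nat_lit 0) (nat_lit 137108604726) (nat_lit 152) (nat_lit 68659206152) (nat_lit 0) (nat_lit 124847494154) (nat_lit 2) (nat_lit 5) (nat_lit 4) (nat_lit 4) (nat_lit 2) (nat_lit 4) (nat_lit 312) (nat_lit 237) (nat_lit 171)) (XT.lf (nat_lit 0) (nat_lit 152157287040) (nat_lit 152) (nat_lit 64605472437) (nat_lit 0) (nat_lit 139890488732) (nat_lit 2) (nat_lit 5) (nat_lit 4) (nat_lit 4) (nat_lit 2) (nat_lit 4) (nat_lit 313) (nat_lit 237) (nat_lit 170))) (XT.nd (nat_lit 78) (nat_lit 0) (nat_lit 0) (XT.lf (nat_lit 0) (nat_lit 168405418481) (nat_lit 152) (nat_lit 60235815439) (nat_lit 0) (nat_lit 156133353751) (nat_lit 2) (nat_lit 5) (nat_lit 4) (nat_lit 4) (nat_lit 2) (nat_lit 4) (nat_lit 314) (nat_lit 237) (nat_lit 169)) (XT.lf (nat_lit 0) (nat_lit 185949284272) (nat_lit 152) (nat_lit 55524340894) (nat_lit 0) (nat_lit 173672343224) (nat_lit 2) (nat_lit 5) (nat_lit 4) (nat_lit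 4) (nat_lit 2) (nat_lit 4) (nat_lit 315) (nat_lit 237) (nat_lit 168))))) (XT.nd (nat_lit 234) (nat_lit 0) (nat_lit 0) (XT.nd (nat_lit 78) (nat_lit 0) (nat_lit 0) (XT.lf (nat_lit 0) (nat_lit 204892848061) (nat_lit 152) (nat_lit 50443128953) (nat_lit 0) (nat_lit 192611391906) (nat_lit 2) (nat_lit 5) (nat_lit 4) (nat_lit 4) (nat_lit 2) (nat_lit 4) (nat_lit 316) (nat_lit 237) (nat_lit 167)) (XT.nd (nat_lit 78) (nat_lit 0) (nat_lit 0) (XT.lf (nat_lit 0) (nat_lit 225348368006) (nat_lit 152) (nat_lit 44962068731) (nat_lit 0) (nat_lit 213062731194) (nat_lit 2) (nat_lit 5) (nat_lit 4) (nat_lit 4) (nat_lit 2) (nat_lit 4) (nat_lit 317) (nat_lit 237) (nat_lit 166)) (XT.lf (nat_lit 0) (nat_lit 247437062001) (nat_lit 152) (nat_lit 39048679871) (nat_lit 0) (nat_lit 235147554212) (nat_lit 2) (nat_lit 5) (nat_lit 4) (nat_lit 4) (nat_lit 2) (nat_lit 4) (nat_lit 318) (nat_lit 237) (nat_lit 165)))) (XT.nd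 (nat_lit 156) (nat_lit 0) (nat_lit 0) (XT.nd (nat_lit 78) (nat_lit 0) (nat_lit 0) (XT.lf (nat_lit 0) (nat_lit 271289826012) (nat_lit 152) (nat_lit 32667920068) (nat_lit 0) (nat_lit 258996733984) (nat_lit 2) (nat_lit 5) (nat_lit 4) (nat_lit 4) (nat_lit 2) (nat_lit 4) (nat_lit 319) (nat_lit 237) (nat_lit 164)) (XT.lf (nat_lit 0) (nat_lit 297048009750) (nat_lit 152) (nat_lit 25781977412) (nat_lit 0) (nat_lit 284751598983) (nat_lit 2) (nat_lit 5) (nat_lit 4) (nat_lit 4) (nat_lit 2) (nat_lit 4) (nat_lit 320) (nat_lit 237) (nat_lit 163))) (XT.nd (nat_lit 78) (nat_lit 0) (nat_lit 0) (XT.lf (nat_lit 0) (nat_lit 324864254305) (nat_lit 152) (nat_lit 18350046318) (nat_lit 0) (nat_lit 312564770631) (nat_lit 2) (nat_lit 5) (nat_lit 4) (nat_lit 4) (nat_lit 2) (nat_lit 4) (nat_lit 321) (nat_lit 237) (nat_lit 162)) (XT.lf (nat_lit 0) (nat_lit 354903396682) (nat_lit 152) (nat_lit 10328085712) (nat_lit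 0) (nat_lit 342601067723) (nat_lit 2) (nat_lit 5) (nat_lit 4) (nat_lit 4) (nat_lit 2) (nat_lit 4) (nat_lit 322) (nat_lit 237) (nat_lit 161))))))))
noncomputable def xc46 : XT := (XT.nd (nat_lit 31824) (nat_lit 0) (nat_lit 532) (XT.nd (nat_lit 1014) (nat_lit 0) (nat_lit 0) (XT.nd (nat_lit 468) (nat_lit 0) (nat_lit 0) (XT.nd (nat_lit 234) (nat_lit 0) (nat_lit 0) (XT.nd (nat_lit 78) (nat_lit 76) (nat_lit 0) (XT.lf (nat_lit 0) (nat_lit 387343446612) (nat_lit 152) (nat_lit 1668558050) (nat_lit 0) (nat_lit 375038483131) (nat_lit 2) (nat_lit 5) (nat_lit 4) (nat_lit 4) (nat_lit 2) (nat_lit 4) (nat_lit 323) (nat_lit 237) (nat_lit 160)) (XT.nd (nat_lit 78) (nat_lit 0) (nat_lit 0) (XT.lf (nat_lit 0) (nat_lit 8084259803) (nat_lit 76) (nat_lit 414486808269) (nat_lit 76) (nat_lit 402179405415) (nat_lit 1) (nat_lit 4) (nat_lit 2) (nat_lit 5) (nat_lit 2) (nat_lit 4) (nat_lit 324) (nat_lit 237) (nat_lit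 159)) (XT.lf (nat_lit 0) (nat_lit 18708414237) (nat_lit 76) (nat_lit 441952108826) (nat_lit 76) (nat_lit 429642447295) (nat_lit 1) (nat_lit 4) (nat_lit 2) (nat_lit 5) (nat_lit 2) (nat_lit 4) (nat_lit 325) (nat_lit 237) (nat_lit 158)))) (XT.nd (nat_lit 78) (nat_lit 0) (nat_lit 0) (XT.lf (nat_lit 0) (nat_lit 30178999893) (nat_lit 76) (nat_lit 471616285006) (nat_lit 76) (nat_lit 459304532106) (nat_lit 1) (nat_lit 4) (nat_lit 2) (nat_lit 5) (nat_lit 2) (nat_lit 4) (nat_lit 326) (nat_lit 237) (nat_lit 157)) (XT.nd (nat_lit 78) (nat_lit 0) (nat_lit 0) (XT.lf (nat_lit 0) (nat_lit 42563990611) (nat_lit 76) (nat_lit 503655124520) (nat_lit 76) (nat_lit 491341435167) (nat_lit 1) (nat_lit 4) (nat_lit 2) (nat_lit 5) (nat_lit 2) (nat_lit 4) (nat_lit 327) (nat_lit 237) (nat_lit 156)) (XT.lf (nat_lit 0) (nat_lit 55936778930) (nat_lit 76) (nat_lit 538258487156) (nat_lit 76) (nat_lit 525943004792) (nat_lit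 1) (nat_lit 4) (nat_lit 2) (nat_lit 5) (nat_lit 2) (nat_lit 4) (nat_lit 328) (nat_lit 237) (nat_lit 155))))) (XT.nd (nat_lit 234) (nat_lit 0) (nat_lit 0) (XT.nd (nat_lit 78) (nat_lit 0) (nat_lit 0) (XT.lf (nat_lit 0) (nat_lit 70376611001) (nat_lit 76) (nat_lit 575631429879) (nat_lit 76) (nat_lit 563314287319) (nat_lit 1) (nat_lit 4) (nat_lit 2) (nat_lit 5) (nat_lit 2) (nat_lit 4) (nat_lit 329) (nat_lit 237) (nat_lit 154)) (XT.nd (nat_lit 78) (nat_lit 0) (nat_lit 0) (XT.lf (nat_lit 0) (nat_lit 85969056201) (nat_lit 76) (nat_lit 615995421980) (nat_lit 76) (nat_lit 603676742201) (nat_lit 1) (nat_lit 4) (nat_lit 2) (nat_lit 5) (nat_lit 2) (nat_lit 4) (nat_lit 330) (nat_lit 237) (nat_lit 153)) (XT.lf (nat_lit 0) (nat_lit 102806514204) (nat_lit 76) (nat_lit 659589657484) (nat_lit 76) (nat_lit 647269554355) (nat_lit 1) (nat_lit 4) (nat_lit 2) (nat_lit 5) (nat_lit 2) (nat_lit 4) (nat_lit 331)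 (nat_lit 237) (nat_lit 152)))) (XT.nd (nat_lit 156) (nat_lit 0) (nat_lit 0) (XT.nd (nat_lit 78) (nat_lit 0) (nat_lit 0) (XT.lf (nat_lit 0) (nat_lit 120988762541) (nat_lit 76) (nat_lit 706672472603) (nat_lit 76) (nat_lit 694351051557) (nat_lit 1) (nat_lit 4) (nat_lit 2) (nat_lit 5) (nat_lit 2) (nat_lit 4) (nat_lit 332) (nat_lit 237) (nat_lit 151)) (XT.lf (nat_lit 0) (nat_lit 140623547866) (nat_lit 76) (nat_lit 757522876612) (nat_lit 76) (nat_lit 745200235272) (nat_lit 1) (nat_lit 4) (nat_lit 2) (nat_lit 5) (nat_lit 2) (nat_lit 4) (nat_lit 333) (nat_lit 237) (nat_lit 150))) (XT.nd (nat_lit 78) (nat_lit 0) (nat_lit 0) (XT.lf (nat_lit 0) (nat_lit 161827224464) (nat_lit 76) (nat_lit 812442205237) (nat_lit 76) (nat_lit 800118433996) (nat_lit 1) (nat_lit 4) (nat_lit 2) (nat_lit 5) (nat_lit 2) (nat_lit 4) (nat_lit 334) (nat_lit 237) (nat_lit 149)) (XT.lf (nat_lit 0) (nat_lit 184725443752) (nat_lit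 76) (nat_lit 871755906353) (nat_lit 76) (nat_lit 859431088906) (nat_lit 1) (nat_lit 4) (nat_lit 2) (nat_lit 5) (nat_lit 2) (nat_lit 4) (nat_lit 335) (nat_lit 237) (nat_lit 148)))))) (XT.nd (nat_lit 468) (nat_lit 0) (nat_lit 0) (XT.nd (nat_lit 234) (nat_lit 0) (nat_lit 0) (XT.nd (nat_lit 78) (nat_lit 0) (nat_lit 0) (XT.lf (nat_lit 0) (nat_lit 209453898881) (nat_lit 76) (nat_lit 935815468558) (nat_lit 76) (nat_lit 923489682403) (nat_lit 1) (nat_lit 4) (nat_lit 2) (nat_lit 5) (nat_lit 2) (nat_lit 4) (nat_lit 336) (nat_lit 237) (nat_lit 147)) (XT.nd (nat_lit 78) (nat_lit 0) (nat_lit 0) (XT.lf (nat_lit 0) (nat_lit 236159128844) (nat_lit 76) (nat_lit 1005000504073) (nat_lit 76) (nat_lit 992673820966) (nat_lit 1) (nat_lit 4) (nat_lit 2) (nat_lit 5) (nat_lit 2) (nat_lit 4) (nat_lit 337) (nat_lit 237) (nat_lit 146)) (XT.lf (nat_lit 0) (nat_lit 264999386856) (nat_lit 76) (nat_lit 1079720998293)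 (nat_lit 76) (nat_lit 1067393484675) (nat_lit 1) (nat_lit 4) (nat_lit 2) (nat_lit 5) (nat_lit 2) (nat_lit 4) (nat_lit 338) (nat_lit 237) (nat_lit 145)))) (XT.nd (nat_lit 78) (nat_lit 0) (nat_lit 0) (XT.lf (nat_lit 0) (nat_lit 296145578150) (nat_lit 76) (nat_lit 1160419739333) (nat_lit 76) (nat_lit 1148091456723) (nat_lit 1) (nat_lit 4) (nat_lit 2) (nat_lit 5) (nat_lit 2) (nat_lit 4) (nat_lit 339) (nat_lit 237) (nat_lit 144)) (XT.nd (nat_lit 78) (nat_lit 0) (nat_lit 0) (XT.lf (nat_lit 0) (nat_lit 329782272748) (nat_lit 76) (nat_lit 1247574941954) (nat_lit 76) (nat_lit 1235245947314) (nat_lit 1) (nat_lit 4) (nat_lit 2) (nat_lit 5) (nat_lit 2) (nat_lit 4) (nat_lit 340) (nat_lit 237) (nat_lit 143)) (XT.lf (nat_lit 0) (nat_lit 366108799210) (nat_lit 76) (nat_lit 1341703081431) (nat_lit 76) (nat_lit 1329373427505) (nat_lit 1) (nat_lit 4) (nat_lit 2) (nat_lit 5) (nat_lit 2) (nat_lit 4) (nat_lit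 341) (nat_lit 237) (nat_lit 142))))) (XT.nd (nat_lit 30030) (nat_lit 0) (nat_lit 3496) (XT.nd (nat_lit 29874) (nat_lit 0) (nat_lit 4180) (XT.lf (nat_lit 0) (nat_lit 405340425842) (nat_lit 76) (nat_lit 1443361954147) (nat_lit 76) (nat_lit 1431031689769) (nat_lit 1) (nat_lit 4) (nat_lit 2) (nat_lit 5) (nat_lit 2) (nat_lit 4) (nat_lit 342) (nat_lit 237) (nat_lit 141)) (XT.nd (nat_lit 78) (nat_lit 228) (nat_lit 0) (XT.lf (nat_lit 0) (nat_lit 3267742677) (nat_lit 76) (nat_lit 7637937) (nat_lit 76) (nat_lit 7637937) (nat_lit 59) (nat_lit 4) (nat_lit 60) (nat_lit 5) (nat_lit 60) (nat_lit 4) (nat_lit 244) (nat_lit 238) (nat_lit 238)) (XT.lf (nat_lit 0) (nat_lit 2887776586) (nat_lit 228) (nat_lit 2990434204) (nat_lit 0) (nat_lit 756849390) (nat_lit 56) (nat_lit 5) (nat_lit 59) (nat_lit 4) (nat_lit 56) (nat_lit 4) (nat_lit 245) (nat_lit 238) (nat_lit 237)))) (XT.nd (nat_lit 156) (nat_lit 380)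 (nat_lit 0) (XT.nd (nat_lit 78) (nat_lit 76) (nat_lit 0) (XT.lf (nat_lit 0) (nat_lit 740645536) (nat_lit 228) (nat_lit 5046831517) (nat_lit 228) (nat_lit 942823584) (nat_lit 53) (nat_lit 4) (nat_lit 56) (nat_lit 5) (nat_lit 56) (nat_lit 4) (nat_lit 246) (nat_lit 238) (nat_lit 236)) (XT.lf (nat_lit 0) (nat_lit 1817831610) (nat_lit 304) (nat_lit 2149844792) (nat_lit 76) (nat_lit 2876243458) (nat_lit 52) (nat_lit 5) (nat_lit 56) (nat_lit 5) (nat_lit 53) (nat_lit 4) (nat_lit 247) (nat_lit 238) (nat_lit 235))) (XT.nd (nat_lit 78) (nat_lit 76) (nat_lit 0) (XT.lf (nat_lit 0) (nat_lit 1870671519) (nat_lit 304) (nat_lit 2693369236) (nat_lit 380) (nat_lit 2416922154) (nat_lit 48) (nat_lit 5) (nat_lit 52) (nat_lit 5) (nat_lit 53) (nat_lit 4) (nat_lit 248) (nat_lit 238) (nat_lit 234)) (XT.lf (nat_lit 0) (nat_lit 217285972) (nat_lit 380) (nat_lit 1004078322) (nat_lit 76) (nat_lit 5921248394) (nat_lit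 47) (nat_lit 5) (nat_lit 52) (nat_lit 5) (nat_lit 48) (nat_lit 5) (nat_lit 249) (nat_lit 238) (nat_lit 233))))))) (XT.nd (nat_lit 1014) (nat_lit 836) (nat_lit 0) (XT.nd (nat_lit 468) (nat_lit 836) (nat_lit 0) (XT.nd (nat_lit 234) (nat_lit 380) (nat_lit 0) (XT.nd (nat_lit 78) (nat_lit 532) (nat_lit 0) (XT.lf (nat_lit 0) (nat_lit 2817819779) (nat_lit 456) (nat_lit 3989954858) (nat_lit 76) (nat_lit 514730447) (nat_lit 42) (nat_lit 5) (nat_lit 48) (nat_lit 5) (nat_lit 43) (nat_lit 4) (nat_lit 250) (nat_lit 238) (nat_lit 232)) (XT.nd (nat_lit 78) (nat_lit 76) (nat_lit 0) (XT.lf (nat_lit 0) (nat_lit 342288269) (nat_lit 456) (nat_lit 5156117413) (nat_lit 532) (nat_lit 2029757680) (nat_lit 36) (nat_lit 5) (nat_lit 42) (nat_lit 5) (nat_lit 43) (nat_lit 4) (nat_lit 251) (nat_lit 238) (nat_lit 231)) (XT.lf (nat_lit 0) (nat_lit 530781064) (nat_lit 532) (nat_lit 2718844066) (nat_lit 76) (nat_lit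 4506801762) (nat_lit 35) (nat_lit 5) (nat_lit 42) (nat_lit 5) (nat_lit 36) (nat_lit 5) (nat_lit 252) (nat_lit 238) (nat_lit 230)))) (XT.nd (nat_lit 78) (nat_lit 152) (nat_lit 0) (XT.lf (nat_lit 0) (nat_lit 1959149159) (nat_lit 228) (nat_lit 1096568530) (nat_lit 304) (nat_lit 4954380176) (nat_lit 32) (nat_lit 5) (nat_lit 35) (nat_lit 5) (nat_lit 36) (nat_lit 5) (nat_lit 253) (nat_lit 238) (nat_lit 229)) (XT.nd (nat_lit 78) (nat_lit 152) (nat_lit 0) (XT.lf (nat_lit 0) (nat_lit 5718827131) (nat_lit 304) (nat_lit 1344371917) (nat_lit 76) (nat_lit 1226803672) (nat_lit 32) (nat_lit 5) (nat_lit 36) (nat_lit 5) (nat_lit 33) (nat_lit 4) (nat_lit 254) (nat_lit 238) (nat_lit 228)) (XT.lf (nat_lit 0) (nat_lit 3709927410) (nat_lit 152) (nat_lit 4845688104) (nat_lit 228) (nat_lit 40606662) (nat_lit 30) (nat_lit 5) (nat_lit 32) (nat_lit 5) (nat_lit 33) (nat_lit 4) (nat_lit 255) (nat_lit 238) (nat_lit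 227))))) (XT.nd (nat_lit 234) (nat_lit 380) (nat_lit 0) (XT.nd (nat_lit 78) (nat_lit 152) (nat_lit 0) (XT.lf (nat_lit 0) (nat_lit 68769013) (nat_lit 228) (nat_lit 2373950718) (nat_lit 304) (nat_lit 6488901894) (nat_lit 26) (nat_lit 5) (nat_lit 29) (nat_lit 5) (nat_lit 30) (nat_lit 5) (nat_lit 256) (nat_lit 238) (nat_lit 226)) (XT.nd (nat_lit 78) (nat_lit 152) (nat_lit 0) (XT.lf (nat_lit 0) (nat_lit 5118399033) (nat_lit 304) (nat_lit 3793348585) (nat_lit 76) (nat_lit 382963920) (nat_lit 26) (nat_lit 5) (nat_lit 30) (nat_lit 5) (nat_lit 27) (nat_lit 4) (nat_lit 257) (nat_lit 238) (nat_lit 225)) (XT.lf (nat_lit 0) (nat_lit 1513665969) (nat_lit 152) (nat_lit 6455219549) (nat_lit 228) (nat_lit 1721670803) (nat_lit 24) (nat_lit 5) (nat_lit 26) (nat_lit 5) (nat_lit 27) (nat_lit 4) (nat_lit 258) (nat_lit 238) (nat_lit 224)))) (XT.nd (nat_lit 156) (nat_lit 152) (nat_lit 0) (XT.nd (nat_lit 78)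 (nat_lit 152) (nat_lit 0) (XT.lf (nat_lit 0) (nat_lit 853941324) (nat_lit 228) (nat_lit 2858954016) (nat_lit 76) (nat_lit 6406185091) (nat_lit 23) (nat_lit 5) (nat_lit 26) (nat_lit 5) (nat_lit 24) (nat_lit 5) (nat_lit 259) (nat_lit 238) (nat_lit 223)) (XT.lf (nat_lit 0) (nat_lit 2808807530) (nat_lit 152) (nat_lit 676033443) (nat_lit 228) (nat_lit 7098538540) (nat_lit 21) (nat_lit 5) (nat_lit 23) (nat_lit 5) (nat_lit 24) (nat_lit 5) (nat_lit 260) (nat_lit 238) (nat_lit 222))) (XT.nd (nat_lit 78) (nat_lit 152) (nat_lit 0) (XT.lf (nat_lit 0) (nat_lit 6347866962) (nat_lit 228) (nat_lit 2226587985) (nat_lit 76) (nat_lit 2509052650) (nat_lit 21) (nat_lit 5) (nat_lit 24) (nat_lit 5) (nat_lit 22) (nat_lit 4) (nat_lit 261) (nat_lit 238) (nat_lit 221)) (XT.lf (nat_lit 0) (nat_lit 3773526820) (nat_lit 152) (nat_lit 5662530402) (nat_lit 228) (nat_lit 2188285437) (nat_lit 19) (nat_lit 5) (nat_lit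 21) (nat_lit 5) (nat_lit 22) (nat_lit 4) (nat_lit 262) (nat_lit 238) (nat_lit 220)))))) (XT.nd (nat_lit 546) (nat_lit 304) (nat_lit 0) (XT.nd (nat_lit 234) (nat_lit 304) (nat_lit 0) (XT.nd (nat_lit 78) (nat_lit 152) (nat_lit 0) (XT.lf (nat_lit 0) (nat_lit 486325458) (nat_lit 228) (nat_lit 2003372460) (nat_lit 76) (nat_lit 9721865135) (nat_lit 18) (nat_lit 5) (nat_lit 21) (nat_lit 5) (nat_lit 19) (nat_lit 5) (nat_lit 263) (nat_lit 238) (nat_lit 219)) (XT.nd (nat_lit 78) (nat_lit 0) (nat_lit 0) (XT.lf (nat_lit 0) (nat_lit 3283412639) (nat_lit 228) (nat_lit 8548617916) (nat_lit 76) (nat_lit 1007351724) (nat_lit 16) (nat_lit 5) (nat_lit 19) (nat_lit 5) (nat_lit 17) (nat_lit 4) (nat_lit 264) (nat_lit 238) (nat_lit 218)) (XT.lf (nat_lit 0) (nat_lit 6325319068) (nat_lit 228) (nat_lit 2532606068) (nat_lit 76) (nat_lit 4658101819) (nat_lit 16) (nat_lit 5) (nat_lit 19) (nat_lit 5) (nat_lit 17)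 (nat_lit 4) (nat_lit 265) (nat_lit 238) (nat_lit 217)))) (XT.nd (nat_lit 156) (nat_lit 228) (nat_lit 0) (XT.nd (nat_lit 78) (nat_lit 0) (nat_lit 0) (XT.lf (nat_lit 0) (nat_lit 4021568773) (nat_lit 76) (nat_lit 5593307967) (nat_lit 152) (nat_lit 4631845615) (nat_lit 15) (nat_lit 5) (nat_lit 16) (nat_lit 5) (nat_lit 17) (nat_lit 4) (nat_lit 266) (nat_lit 238) (nat_lit 216)) (XT.lf (nat_lit 0) (nat_lit 11103469032) (nat_lit 76) (nat_lit 2044419369) (nat_lit 152) (nat_lit 1889805401) (nat_lit 15) (nat_lit 5) (nat_lit 16) (nat_lit 5) (nat_lit 17) (nat_lit 4) (nat_lit 267) (nat_lit 238) (nat_lit 215))) (XT.nd (nat_lit 78) (nat_lit 0) (nat_lit 0) (XT.lf (nat_lit 0) (nat_lit 1045856936) (nat_lit 228) (nat_lit 13094194000) (nat_lit 76) (nat_lit 1747809921) (nat_lit 12) (nat_lit 5) (nat_lit 15) (nat_lit 5) (nat_lit 13) (nat_lit 4) (nat_lit 268) (nat_lit 238) (nat_lit 214)) (XT.lf (nat_lit 0)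 (nat_lit 4194931523) (nat_lit 228) (nat_lit 6755884720) (nat_lit 76) (nat_lit 5845038888) (nat_lit 12) (nat_lit 5) (nat_lit 15) (nat_lit 5) (nat_lit 13) (nat_lit 4) (nat_lit 269) (nat_lit 238) (nat_lit 213))))) (XT.nd (nat_lit 234) (nat_lit 228) (nat_lit 0) (XT.nd (nat_lit 78) (nat_lit 76) (nat_lit 0) (XT.lf (nat_lit 0) (nat_lit 7519259270) (nat_lit 228) (nat_lit 37362507) (nat_lit 76) (nat_lit 10226180020) (nat_lit 12) (nat_lit 5) (nat_lit 15) (nat_lit 5) (nat_lit 13) (nat_lit 4) (nat_lit 270) (nat_lit 238) (nat_lit 212)) (XT.nd (nat_lit 78) (nat_lit 0) (nat_lit 0) (XT.lf (nat_lit 0) (nat_lit 7475121979) (nat_lit 76) (nat_lit 3743194781) (nat_lit 152) (nat_lit 7621850521) (nat_lit 11) (nat_lit 5) (nat_lit 12) (nat_lit 5) (nat_lit 13) (nat_lit 4) (nat_lit 271) (nat_lit 238) (nat_lit 211)) (XT.lf (nat_lit 0) (nat_lit 15153779048) (nat_lit 152) (nat_lit 4519371061) (nat_lit 0) (nat_lit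 313886964) (nat_lit 11) (nat_lit 5) (nat_lit 13) (nat_lit 4) (nat_lit 11) (nat_lit 4) (nat_lit 272) (nat_lit 238) (nat_lit 210)))) (XT.nd (nat_lit 156) (nat_lit 76) (nat_lit 0) (XT.nd (nat_lit 78) (nat_lit 76) (nat_lit 0) (XT.lf (nat_lit 0) (nat_lit 2806953708) (nat_lit 76) (nat_lit 16697418845) (nat_lit 76) (nat_lit 1713402475) (nat_lit 10) (nat_lit 4) (nat_lit 11) (nat_lit 5) (nat_lit 11) (nat_lit 4) (nat_lit 273) (nat_lit 238) (nat_lit 209)) (XT.lf (nat_lit 0) (nat_lit 1635986219) (nat_lit 152) (nat_lit 11714613447) (nat_lit 76) (nat_lit 9188285042) (nat_lit 9) (nat_lit 5) (nat_lit 11) (nat_lit 5) (nat_lit 10) (nat_lit 4) (nat_lit 274) (nat_lit 238) (nat_lit 208))) (XT.nd (nat_lit 78) (nat_lit 76) (nat_lit 0) (XT.lf (nat_lit 0) (nat_lit 5101507255) (nat_lit 152) (nat_lit 4629893038) (nat_lit 76) (nat_lit 14235575409) (nat_lit 9) (nat_lit 5) (nat_lit 11) (nat_lit 5) (nat_lit 10) (nat_lit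 4) (nat_lit 275) (nat_lit 238) (nat_lit 207)) (XT.lf (nat_lit 0) (nat_lit 3080636730) (nat_lit 76) (nat_lit 5782861041) (nat_lit 152) (nat_lit 16644382442) (nat_lit 8) (nat_lit 5) (nat_lit 9) (nat_lit 5) (nat_lit 10) (nat_lit 4) (nat_lit 276) (nat_lit 238) (nat_lit 206))))))))
noncomputable def xc47 : XT := (XT.nd (nat_lit 2106) (nat_lit 76) (nat_lit 0) (XT.nd (nat_lit 1014) (nat_lit 152) (nat_lit 0) (XT.nd (nat_lit 468) (nat_lit 152) (nat_lit 0) (XT.nd (nat_lit 234) (nat_lit 152) (nat_lit 0) (XT.nd (nat_lit 78) (nat_lit 0) (nat_lit 0) (XT.lf (nat_lit 0) (nat_lit 11578647742) (nat_lit 76) (nat_lit 1421362848) (nat_lit 152) (nat_lit 14166258172) (nat_lit 8) (nat_lit 5) (nat_lit 9) (nat_lit 5) (nat_lit 10) (nat_lit 4) (nat_lit 277) (nat_lit 238) (nat_lit 205)) (XT.nd (nat_lit 78) (nat_lit 0) (nat_lit 0) (XT.lf (nat_lit 0) (nat_lit 17496565014) (nat_lit 152) (nat_lit 8368868330) (nat_lit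 0) (nat_lit 3089654963) (nat_lit 8) (nat_lit 5) (nat_lit 10) (nat_lit 4) (nat_lit 8) (nat_lit 4) (nat_lit 278) (nat_lit 238) (nat_lit 204)) (XT.lf (nat_lit 0) (nat_lit 22343483344) (nat_lit 152) (nat_lit 691883675) (nat_lit 0) (nat_lit 7852478156) (nat_lit 8) (nat_lit 5) (nat_lit 10) (nat_lit 4) (nat_lit 8) (nat_lit 4) (nat_lit 279) (nat_lit 238) (nat_lit 203)))) (XT.nd (nat_lit 78) (nat_lit 76) (nat_lit 0) (XT.lf (nat_lit 0) (nat_lit 7919158373) (nat_lit 76) (nat_lit 19806601826) (nat_lit 76) (nat_lit 5237730771) (nat_lit 7) (nat_lit 4) (nat_lit 8) (nat_lit 5) (nat_lit 8) (nat_lit 4) (nat_lit 280) (nat_lit 238) (nat_lit 202)) (XT.nd (nat_lit 78) (nat_lit 76) (nat_lit 0) (XT.lf (nat_lit 0) (nat_lit 17184112443) (nat_lit 76) (nat_lit 16331959953) (nat_lit 76) (nat_lit 1690990872) (nat_lit 7) (nat_lit 4) (nat_lit 8) (nat_lit 5) (nat_lit 8) (nat_lit 4) (nat_lit 281) (nat_lit 238) (nat_lit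 201)) (XT.lf (nat_lit 0) (nat_lit 1993009888) (nat_lit 152) (nat_lit 10562265943) (nat_lit 76) (nat_lit 25073946286) (nat_lit 6) (nat_lit 5) (nat_lit 8) (nat_lit 5) (nat_lit 7) (nat_lit 4) (nat_lit 282) (nat_lit 238) (nat_lit 200))))) (XT.nd (nat_lit 234) (nat_lit 76) (nat_lit 0) (XT.nd (nat_lit 78) (nat_lit 76) (nat_lit 0) (XT.lf (nat_lit 0) (nat_lit 5843843221) (nat_lit 152) (nat_lit 2614345046) (nat_lit 76) (nat_lit 31786430502) (nat_lit 6) (nat_lit 5) (nat_lit 8) (nat_lit 5) (nat_lit 7) (nat_lit 4) (nat_lit 283) (nat_lit 238) (nat_lit 199)) (XT.nd (nat_lit 78) (nat_lit 0) (nat_lit 0) (XT.lf (nat_lit 0) (nat_lit 6219714327) (nat_lit 76) (nat_lit 3898789043) (nat_lit 152) (nat_lit 32941535227) (nat_lit 5) (nat_lit 5) (nat_lit 6) (nat_lit 5) (nat_lit 7) (nat_lit 4) (nat_lit 284) (nat_lit 238) (nat_lit 198)) (XT.lf (nat_lit 0) (nat_lit 14799750782) (nat_lit 152) (nat_lit 30273631610)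 (nat_lit 0) (nat_lit 1022188850) (nat_lit 5) (nat_lit 5) (nat_lit 7) (nat_lit 4) (nat_lit 5) (nat_lit 4) (nat_lit 285) (nat_lit 238) (nat_lit 197)))) (XT.nd (nat_lit 156) (nat_lit 76) (nat_lit 0) (XT.nd (nat_lit 78) (nat_lit 0) (nat_lit 0) (XT.lf (nat_lit 0) (nat_lit 19925855043) (nat_lit 152) (nat_lit 23339648565) (nat_lit 0) (nat_lit 6102859126) (nat_lit 5) (nat_lit 5) (nat_lit 7) (nat_lit 4) (nat_lit 5) (nat_lit 4) (nat_lit 286) (nat_lit 238) (nat_lit 196)) (XT.lf (nat_lit 0) (nat_lit 25433427099) (nat_lit 152) (nat_lit 15903518897) (nat_lit 0) (nat_lit 11568362676) (nat_lit 5) (nat_lit 5) (nat_lit 7) (nat_lit 4) (nat_lit 5) (nat_lit 4) (nat_lit 287) (nat_lit 238) (nat_lit 195))) (XT.nd (nat_lit 78) (nat_lit 76) (nat_lit 0) (XT.lf (nat_lit 0) (nat_lit 31355104413) (nat_lit 152) (nat_lit 7921176652) (nat_lit 0) (nat_lit 17451087671) (nat_lit 5) (nat_lit 5) (nat_lit 7) (nat_lit 4)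 (nat_lit 5) (nat_lit 4) (nat_lit 288) (nat_lit 238) (nat_lit 194)) (XT.lf (nat_lit 0) (nat_lit 689155275) (nat_lit 76) (nat_lit 37053397332) (nat_lit 76) (nat_lit 23113313627) (nat_lit 4) (nat_lit 4) (nat_lit 5) (nat_lit 5) (nat_lit 5) (nat_lit 4) (nat_lit 289) (nat_lit 238) (nat_lit 193)))))) (XT.nd (nat_lit 546) (nat_lit 76) (nat_lit 0) (XT.nd (nat_lit 234) (nat_lit 76) (nat_lit 0) (XT.nd (nat_lit 78) (nat_lit 0) (nat_lit 0) (XT.lf (nat_lit 0) (nat_lit 10394867123) (nat_lit 76) (nat_lit 34438932088) (nat_lit 76) (nat_lit 20465453047) (nat_lit 4) (nat_lit 4) (nat_lit 5) (nat_lit 5) (nat_lit 5) (nat_lit 4) (nat_lit 290) (nat_lit 238) (nat_lit 192)) (XT.nd (nat_lit 78) (nat_lit 0) (nat_lit 0) (XT.lf (nat_lit 0) (nat_lit 20836359095) (nat_lit 76) (nat_lit 31633971213) (nat_lit 76) (nat_lit 17629570565) (nat_lit 4) (nat_lit 4) (nat_lit 5) (nat_lit 5) (nat_lit 5) (nat_lit 4) (nat_lit 291)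 (nat_lit 238) (nat_lit 191)) (XT.lf (nat_lit 0) (nat_lit 32075506699) (nat_lit 76) (nat_lit 28621892718) (nat_lit 76) (nat_lit 14588860952) (nat_lit 4) (nat_lit 4) (nat_lit 5) (nat_lit 5) (nat_lit 5) (nat_lit 4) (nat_lit 292) (nat_lit 238) (nat_lit 190)))) (XT.nd (nat_lit 156) (nat_lit 76) (nat_lit 0) (XT.nd (nat_lit 78) (nat_lit 0) (nat_lit 0) (XT.lf (nat_lit 0) (nat_lit 44178912291) (nat_lit 76) (nat_lit 25384847247) (nat_lit 76) (nat_lit 11325305187) (nat_lit 4) (nat_lit 4) (nat_lit 5) (nat_lit 5) (nat_lit 5) (nat_lit 4) (nat_lit 293) (nat_lit 238) (nat_lit 189)) (XT.lf (nat_lit 0) (nat_lit 57218299756) (nat_lit 76) (nat_lit 21903652310) (nat_lit 76) (nat_lit 7819563681) (nat_lit 4) (nat_lit 4) (nat_lit 5) (nat_lit 5) (nat_lit 5) (nat_lit 4) (nat_lit 294) (nat_lit 238) (nat_lit 188))) (XT.nd (nat_lit 78) (nat_lit 76) (nat_lit 0) (XT.lf (nat_lit 0) (nat_lit 71270939539) (nat_lit 76)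 (nat_lit 18157678604) (nat_lit 76) (nat_lit 4050861670) (nat_lit 4) (nat_lit 4) (nat_lit 5) (nat_lit 5) (nat_lit 5) (nat_lit 4) (nat_lit 295) (nat_lit 238) (nat_lit 187)) (XT.lf (nat_lit 0) (nat_lit 2977125) (nat_lit 152) (nat_lit 14121669239) (nat_lit 76) (nat_lit 86417048016) (nat_lit 3) (nat_lit 5) (nat_lit 5) (nat_lit 5) (nat_lit 4) (nat_lit 4) (nat_lit 296) (nat_lit 238) (nat_lit 186))))) (XT.nd (nat_lit 234) (nat_lit 0) (nat_lit 0) (XT.nd (nat_lit 78) (nat_lit 76) (nat_lit 0) (XT.lf (nat_lit 0) (nat_lit 4148019345) (nat_lit 152) (nat_lit 5519467279) (nat_lit 76) (nat_lit 98494140060) (nat_lit 3) (nat_lit 5) (nat_lit 5) (nat_lit 5) (nat_lit 4) (nat_lit 4) (nat_lit 297) (nat_lit 238) (nat_lit 185)) (XT.nd (nat_lit 78) (nat_lit 0) (nat_lit 0) (XT.lf (nat_lit 0) (nat_lit 3943747141) (nat_lit 76) (nat_lit 4762568781) (nat_lit 152) (nat_lit 107678322045) (nat_lit 2) (nat_lit 5) (nat_lit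 3) (nat_lit 5) (nat_lit 4) (nat_lit 4) (nat_lit 298) (nat_lit 238) (nat_lit 184)) (XT.lf (nat_lit 0) (nat_lit 13783911434) (nat_lit 152) (nat_lit 110816882056) (nat_lit 0) (nat_lit 652341099) (nat_lit 2) (nat_lit 5) (nat_lit 4) (nat_lit 4) (nat_lit 2) (nat_lit 4) (nat_lit 299) (nat_lit 238) (nat_lit 183)))) (XT.nd (nat_lit 156) (nat_lit 0) (nat_lit 0) (XT.nd (nat_lit 78) (nat_lit 0) (nat_lit 0) (XT.lf (nat_lit 0) (nat_lit 19379327696) (nat_lit 152) (nat_lit 109209433645) (nat_lit 0) (nat_lit 6233434675) (nat_lit 2) (nat_lit 5) (nat_lit 4) (nat_lit 4) (nat_lit 2) (nat_lit 4) (nat_lit 300) (nat_lit 238) (nat_lit 182)) (XT.lf (nat_lit 0) (nat_lit 25411182838) (nat_lit 152) (nat_lit 107494480079) (nat_lit 0) (nat_lit 12252028070) (nat_lit 2) (nat_lit 5) (nat_lit 4) (nat_lit 4) (nat_lit 2) (nat_lit 4) (nat_lit 301) (nat_lit 238) (nat_lit 181))) (XT.nd (nat_lit 78) (nat_lit 0) (nat_lit 0)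 (XT.lf (nat_lit 0) (nat_lit 31915221187) (nat_lit 152) (nat_lit 105661858671) (nat_lit 0) (nat_lit 18743787023) (nat_lit 2) (nat_lit 5) (nat_lit 4) (nat_lit 4) (nat_lit 2) (nat_lit 4) (nat_lit 302) (nat_lit 238) (nat_lit 180)) (XT.lf (nat_lit 0) (nat_lit 38929985193) (nat_lit 152) (nat_lit 103700709440) (nat_lit 0) (nat_lit 25747181218) (nat_lit 2) (nat_lit 5) (nat_lit 4) (nat_lit 4) (nat_lit 2) (nat_lit 4) (nat_lit 303) (nat_lit 238) (nat_lit 179))))))) (XT.nd (nat_lit 1014) (nat_lit 76) (nat_lit 0) (XT.nd (nat_lit 468) (nat_lit 0) (nat_lit 0) (XT.nd (nat_lit 234) (nat_lit 0) (nat_lit 0) (XT.nd (nat_lit 78) (nat_lit 0) (nat_lit 0) (XT.lf (nat_lit 0) (nat_lit 46497043826) (nat_lit 152) (nat_lit 101599410763) (nat_lit 0) (nat_lit 33303712249) (nat_lit 2) (nat_lit 5) (nat_lit 4) (nat_lit 4) (nat_lit 2) (nat_lit 4) (nat_lit 304) (nat_lit 238) (nat_lit 178)) (XT.nd (nat_lit 78) (nat_lit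 0) (nat_lit 0) (XT.lf (nat_lit 0) (nat_lit 54661238917) (nat_lit 152) (nat_lit 99345510500) (nat_lit 0) (nat_lit 41458159559) (nat_lit 2) (nat_lit 5) (nat_lit 4) (nat_lit 4) (nat_lit 2) (nat_lit 4) (nat_lit 305) (nat_lit 238) (nat_lit 177)) (XT.lf (nat_lit 0) (nat_lit 63470950880) (nat_lit 152) (nat_lit 96925652203) (nat_lit 0) (nat_lit 50258845800) (nat_lit 2) (nat_lit 5) (nat_lit 4) (nat_lit 4) (nat_lit 2) (nat_lit 4) (nat_lit 306) (nat_lit 238) (nat_lit 176)))) (XT.nd (nat_lit 78) (nat_lit 0) (nat_lit 0) (XT.lf (nat_lit 0) (nat_lit 72978385417) (nat_lit 152) (nat_lit 94325495972) (nat_lit 0) (nat_lit 59757923186) (nat_lit 2) (nat_lit 5) (nat_lit 4) (nat_lit 4) (nat_lit 2) (nat_lit 4) (nat_lit 307) (nat_lit 238) (nat_lit 175)) (XT.nd (nat_lit 78) (nat_lit 0) (nat_lit 0) (XT.lf (nat_lit 0) (nat_lit 83239882878) (nat_lit 152) (nat_lit 91529633475) (nat_lit 0) (nat_lit 70011682545) (nat_lit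 2) (nat_lit 5) (nat_lit 4) (nat_lit 4) (nat_lit 2) (nat_lit 4) (nat_lit 308) (nat_lit 238) (nat_lit 174)) (XT.lf (nat_lit 0) (nat_lit 94316252140) (nat_lit 152) (nat_lit 88521496636) (nat_lit 0) (nat_lit 81080886898) (nat_lit 2) (nat_lit 5) (nat_lit 4) (nat_lit 4) (nat_lit 2) (nat_lit 4) (nat_lit 309) (nat_lit 238) (nat_lit 173))))) (XT.nd (nat_lit 234) (nat_lit 0) (nat_lit 0) (XT.nd (nat_lit 78) (nat_lit 0) (nat_lit 0) (XT.lf (nat_lit 0) (nat_lit 106273130945) (nat_lit 152) (nat_lit 85283259460) (nat_lit 0) (nat_lit 93031131527) (nat_lit 2) (nat_lit 5) (nat_lit 4) (nat_lit 4) (nat_lit 2) (nat_lit 4) (nat_lit 310) (nat_lit 238) (nat_lit 172)) (XT.nd (nat_lit 78) (nat_lit 0) (nat_lit 0) (XT.lf (nat_lit 0) (nat_lit 119181374872) (nat_lit 152) (nat_lit 81795732392) (nat_lit 0) (nat_lit 105933232699) (nat_lit 2) (nat_lit 5) (nat_lit 4) (nat_lit 4) (nat_lit 2) (nat_lit 4) (nat_lit 311) (nat_lit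 238) (nat_lit 171)) (XT.lf (nat_lit 0) (nat_lit 133117477217) (nat_lit 152) (nat_lit 78038248607) (nat_lit 0) (nat_lit 119863647308) (nat_lit 2) (nat_lit 5) (nat_lit 4) (nat_lit 4) (nat_lit 2) (nat_lit 4) (nat_lit 312) (nat_lit 238) (nat_lit 170)))) (XT.nd (nat_lit 156) (nat_lit 0) (nat_lit 0) (XT.nd (nat_lit 78) (nat_lit 0) (nat_lit 0) (XT.lf (nat_lit 0) (nat_lit 148164022291) (nat_lit 152) (nat_lit 73988541533) (nat_lit 0) (nat_lit 134904925960) (nat_lit 2) (nat_lit 5) (nat_lit 4) (nat_lit 4) (nat_lit 2) (nat_lit 4) (nat_lit 313) (nat_lit 238) (nat_lit 169)) (XT.lf (nat_lit 0) (nat_lit 164410174807) (nat_lit 152) (nat_lit 69622612907) (nat_lit 0) (nat_lit 151146202158) (nat_lit 2) (nat_lit 5) (nat_lit 4) (nat_lit 4) (nat_lit 2) (nat_lit 4) (nat_lit 314) (nat_lit 238) (nat_lit 168))) (XT.nd (nat_lit 78) (nat_lit 0) (nat_lit 0) (XT.lf (nat_lit 0) (nat_lit 181952208259) (nat_lit 152)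 (nat_lit 64914590558) (nat_lit 0) (nat_lit 168683720502) (nat_lit 2) (nat_lit 5) (nat_lit 4) (nat_lit 4) (nat_lit 2) (nat_lit 4) (nat_lit 315) (nat_lit 238) (nat_lit 167)) (XT.lf (nat_lit 0) (nat_lit 200894075438) (nat_lit 152) (nat_lit 59836575095) (nat_lit 0) (nat_lit 187621407026) (nat_lit 2) (nat_lit 5) (nat_lit 4) (nat_lit 4) (nat_lit 2) (nat_lit 4) (nat_lit 316) (nat_lit 238) (nat_lit 166)))))) (XT.nd (nat_lit 546) (nat_lit 76) (nat_lit 0) (XT.nd (nat_lit 234) (nat_lit 0) (nat_lit 0) (XT.nd (nat_lit 78) (nat_lit 0) (nat_lit 0) (XT.lf (nat_lit 0) (nat_lit 221348024448) (nat_lit 152) (nat_lit 54358474575) (nat_lit 0) (nat_lit 208071485058) (nat_lit 2) (nat_lit 5) (nat_lit 4) (nat_lit 4) (nat_lit 2) (nat_lit 4) (nat_lit 317) (nat_lit 238) (nat_lit 165)) (XT.nd (nat_lit 78) (nat_lit 0) (nat_lit 0) (XT.lf (nat_lit 0) (nat_lit 243435263874) (nat_lit 152) (nat_lit 48447826179) (nat_lit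 0) (nat_lit 230155140245) (nat_lit 2) (nat_lit 5) (nat_lit 4) (nat_lit 4) (nat_lit 2) (nat_lit 4) (nat_lit 318) (nat_lit 238) (nat_lit 164)) (XT.lf (nat_lit 0) (nat_lit 267286681061) (nat_lit 152) (nat_lit 42069603844) (nat_lit 0) (nat_lit 254003238693) (nat_lit 2) (nat_lit 5) (nat_lit 4) (nat_lit 4) (nat_lit 2) (nat_lit 4) (nat_lit 319) (nat_lit 238) (nat_lit 163)))) (XT.nd (nat_lit 156) (nat_lit 0) (nat_lit 0) (XT.nd (nat_lit 78) (nat_lit 0) (nat_lit 0) (XT.lf (nat_lit 0) (nat_lit 293043617740) (nat_lit 152) (nat_lit 35186010695) (nat_lit 0) (nat_lit 279757102465) (nat_lit 2) (nat_lit 5) (nat_lit 4) (nat_lit 4) (nat_lit 2) (nat_lit 4) (nat_lit 320) (nat_lit 238) (nat_lit 162)) (XT.lf (nat_lit 0) (nat_lit 320858707611) (nat_lit 152) (nat_lit 27756255070) (nat_lit 0) (nat_lit 307569347052) (nat_lit 2) (nat_lit 5) (nat_lit 4) (nat_lit 4) (nat_lit 2) (nat_lit 4) (nat_lit 321) (nat_lit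 238) (nat_lit 161))) (XT.nd (nat_lit 78) (nat_lit 0) (nat_lit 0) (XT.lf (nat_lit 0) (nat_lit 350896780836) (nat_lit 152) (nat_lit 19736308787) (nat_lit 0) (nat_lit 337604785754) (nat_lit 2) (nat_lit 5) (nat_lit 4) (nat_lit 4) (nat_lit 2) (nat_lit 4) (nat_lit 322) (nat_lit 238) (nat_lit 160)) (XT.lf (nat_lit 0) (nat_lit 383335840811) (nat_lit 152) (nat_lit 11078646239) (nat_lit 0) (nat_lit 370041406357) (nat_lit 2) (nat_lit 5) (nat_lit 4) (nat_lit 4) (nat_lit 2) (nat_lit 4) (nat_lit 323) (nat_lit 238) (nat_lit 159))))) (XT.nd (nat_lit 234) (nat_lit 0) (nat_lit 0) (XT.nd (nat_lit 78) (nat_lit 76) (nat_lit 0) (XT.lf (nat_lit 0) (nat_lit 418368119003) (nat_lit 152) (nat_lit 1731962759) (nat_lit 0) (nat_lit 405071425871) (nat_lit 2) (nat_lit 5) (nat_lit 4) (nat_lit 4) (nat_lit 2) (nat_lit 4) (nat_lit 324) (nat_lit 238) (nat_lit 158)) (XT.nd (nat_lit 78) (nat_lit 0) (nat_lit 0) (XT.lf (nat_lit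 0) (nat_lit 8799306348) (nat_lit 76) (nat_lit 447613531279) (nat_lit 76) (nat_lit 434314746778) (nat_lit 1) (nat_lit 4) (nat_lit 2) (nat_lit 5) (nat_lit 2) (nat_lit 4) (nat_lit 325) (nat_lit 238) (nat_lit 157)) (XT.lf (nat_lit 0) (nat_lit 20268333450) (nat_lit 76) (nat_lit 477278442670) (nat_lit 76) (nat_lit 463977721716) (nat_lit 1) (nat_lit 4) (nat_lit 2) (nat_lit 5) (nat_lit 2) (nat_lit 4) (nat_lit 326) (nat_lit 238) (nat_lit 156)))) (XT.nd (nat_lit 156) (nat_lit 0) (nat_lit 0) (XT.nd (nat_lit 78) (nat_lit 0) (nat_lit 0) (XT.lf (nat_lit 0) (nat_lit 32651881064) (nat_lit 76) (nat_lit 509317962934) (nat_lit 76) (nat_lit 496015448969) (nat_lit 1) (nat_lit 4) (nat_lit 2) (nat_lit 5) (nat_lit 2) (nat_lit 4) (nat_lit 327) (nat_lit 238) (nat_lit 155)) (XT.lf (nat_lit 0) (nat_lit 46023333175) (nat_lit 76) (nat_lit 543921955896) (nat_lit 76) (nat_lit 530617781735) (nat_lit 1) (nat_lit 4)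 (nat_lit 2) (nat_lit 5) (nat_lit 2) (nat_lit 4) (nat_lit 328) (nat_lit 238) (nat_lit 154))) (XT.nd (nat_lit 78) (nat_lit 0) (nat_lit 0) (XT.lf (nat_lit 0) (nat_lit 60461928017) (nat_lit 76) (nat_lit 581295482253) (nat_lit 76) (nat_lit 567989770873) (nat_lit 1) (nat_lit 4) (nat_lit 2) (nat_lit 5) (nat_lit 2) (nat_lit 4) (nat_lit 329) (nat_lit 238) (nat_lit 153)) (XT.lf (nat_lit 0) (nat_lit 76053227634) (nat_lit 76) (nat_lit 621660014755) (nat_lit 76) (nat_lit 608352880025) (nat_lit 1) (nat_lit 4) (nat_lit 2) (nat_lit 5) (nat_lit 2) (nat_lit 4) (nat_lit 330) (nat_lit 238) (nat_lit 152))))))))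
noncomputable def xc48 : XT := (XT.nd (nat_lit 31668) (nat_lit 0) (nat_lit 456) (XT.nd (nat_lit 30654) (nat_lit 0) (nat_lit 2128) (XT.nd (nat_lit 468) (nat_lit 0) (nat_lit 0) (XT.nd (nat_lit 234) (nat_lit 0) (nat_lit 0) (XT.nd (nat_lit 78) (nat_lit 0) (nat_lit 0) (XT.lf (nat_lit 0) (nat_lit 92889624912) (nat_lit 76) (nat_lit 665254750632) (nat_lit 76) (nat_lit 651946297985) (nat_lit 1) (nat_lit 4) (nat_lit 2) (nat_lit 5) (nat_lit 2) (nat_lit 4) (nat_lit 331) (nat_lit 238) (nat_lit 151)) (XT.nd (nat_lit 78) (nat_lit 0) (nat_lit 0) (XT.lf (nat_lit 0) (nat_lit 111070891096) (nat_lit 76) (nat_lit 712338029059) (nat_lit 76) (nat_lit 699028356118) (nat_lit 1) (nat_lit 4) (nat_lit 2) (nat_lit 5) (nat_lit 2) (nat_lit 4) (nat_lit 332) (nat_lit 238) (nat_lit 150)) (XT.lf (nat_lit 0) (nat_lit 130704767021) (nat_lit 76) (nat_lit 763188862056) (nat_lit 76) (nat_lit 749878059214) (nat_lit 1) (nat_lit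 4) (nat_lit 2) (nat_lit 5) (nat_lit 2) (nat_lit 4) (nat_lit 333) (nat_lit 238) (nat_lit 149)))) (XT.nd (nat_lit 78) (nat_lit 0) (nat_lit 0) (XT.lf (nat_lit 0) (nat_lit 151907601581) (nat_lit 76) (nat_lit 818108587893) (nat_lit 76) (nat_lit 804796738846) (nat_lit 1) (nat_lit 4) (nat_lit 2) (nat_lit 5) (nat_lit 2) (nat_lit 4) (nat_lit 334) (nat_lit 238) (nat_lit 148)) (XT.nd (nat_lit 78) (nat_lit 0) (nat_lit 0) (XT.lf (nat_lit 0) (nat_lit 174805041205) (nat_lit 76) (nat_lit 877422656797) (nat_lit 76) (nat_lit 864109839042) (nat_lit 1) (nat_lit 4) (nat_lit 2) (nat_lit 5) (nat_lit 2) (nat_lit 4) (nat_lit 335) (nat_lit 238) (nat_lit 147)) (XT.lf (nat_lit 0) (nat_lit 199532774422) (nat_lit 76) (nat_lit 941482559547) (nat_lit 76) (nat_lit 928168844839) (nat_lit 1) (nat_lit 4) (nat_lit 2) (nat_lit 5) (nat_lit 2) (nat_lit 4) (nat_lit 336) (nat_lit 238) (nat_lit 146))))) (XT.nd (nat_lit 234)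 (nat_lit 0) (nat_lit 0) (XT.nd (nat_lit 78) (nat_lit 0) (nat_lit 0) (XT.lf (nat_lit 0) (nat_lit 226237335948) (nat_lit 76) (nat_lit 1010667910382) (nat_lit 76) (nat_lit 997353365162) (nat_lit 1) (nat_lit 4) (nat_lit 2) (nat_lit 5) (nat_lit 2) (nat_lit 4) (nat_lit 337) (nat_lit 238) (nat_lit 145)) (XT.nd (nat_lit 78) (nat_lit 0) (nat_lit 0) (XT.lf (nat_lit 0) (nat_lit 255076975038) (nat_lit 76) (nat_lit 1085388696564) (nat_lit 76) (nat_lit 1072073382353) (nat_lit 1) (nat_lit 4) (nat_lit 2) (nat_lit 5) (nat_lit 2) (nat_lit 4) (nat_lit 338) (nat_lit 238) (nat_lit 144)) (XT.lf (nat_lit 0) (nat_lit 286222593255) (nat_lit 76) (nat_lit 1166087707940) (nat_lit 76) (nat_lit 1152771681699) (nat_lit 1) (nat_lit 4) (nat_lit 2) (nat_lit 5) (nat_lit 2) (nat_lit 4) (nat_lit 339) (nat_lit 238) (nat_lit 143)))) (XT.nd (nat_lit 156) (nat_lit 0) (nat_lit 0) (XT.nd (nat_lit 78) (nat_lit 0) (nat_lit 0)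 (XT.lf (nat_lit 0) (nat_lit 319858757226) (nat_lit 76) (nat_lit 1253243160872) (nat_lit 76) (nat_lit 1239926475344) (nat_lit 1) (nat_lit 4) (nat_lit 2) (nat_lit 5) (nat_lit 2) (nat_lit 4) (nat_lit 340) (nat_lit 238) (nat_lit 142)) (XT.lf (nat_lit 0) (nat_lit 356184792368) (nat_lit 76) (nat_lit 1347371532118) (nat_lit 76) (nat_lit 1334054236140) (nat_lit 1) (nat_lit 4) (nat_lit 2) (nat_lit 5) (nat_lit 2) (nat_lit 4) (nat_lit 341) (nat_lit 238) (nat_lit 141))) (XT.nd (nat_lit 29718) (nat_lit 0) (nat_lit 4484) (XT.lf (nat_lit 0) (nat_lit 395415964073) (nat_lit 76) (nat_lit 1449030619434) (nat_lit 76) (nat_lit 1435712758224) (nat_lit 1) (nat_lit 4) (nat_lit 2) (nat_lit 5) (nat_lit 2) (nat_lit 4) (nat_lit 342) (nat_lit 238) (nat_lit 140)) (XT.lf (nat_lit 0) (nat_lit 1527864892) (nat_lit 76) (nat_lit 179057455) (nat_lit 0) (nat_lit 1527864892) (nat_lit 60) (nat_lit 5) (nat_lit 61) (nat_lit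 0) (nat_lit 60) (nat_lit 4) (nat_lit 242) (nat_lit 239) (nat_lit 239)))))) (XT.nd (nat_lit 468) (nat_lit 1444) (nat_lit 0) (XT.nd (nat_lit 234) (nat_lit 608) (nat_lit 0) (XT.nd (nat_lit 78) (nat_lit 228) (nat_lit 0) (XT.lf (nat_lit 0) (nat_lit 2987643549) (nat_lit 76) (nat_lit 3004193284) (nat_lit 76) (nat_lit 518679802) (nat_lit 59) (nat_lit 4) (nat_lit 60) (nat_lit 5) (nat_lit 60) (nat_lit 4) (nat_lit 243) (nat_lit 239) (nat_lit 238)) (XT.nd (nat_lit 78) (nat_lit 152) (nat_lit 0) (XT.lf (nat_lit 0) (nat_lit 2216101367) (nat_lit 152) (nat_lit 177424009) (nat_lit 76) (nat_lit 4179214399) (nat_lit 58) (nat_lit 5) (nat_lit 60) (nat_lit 5) (nat_lit 59) (nat_lit 4) (nat_lit 244) (nat_lit 239) (nat_lit 237)) (XT.lf (nat_lit 0) (nat_lit 3425077826) (nat_lit 152) (nat_lit 1547479806) (nat_lit 228) (nat_lit 1681777779) (nat_lit 56) (nat_lit 5) (nat_lit 58) (nat_lit 5) (nat_lit 59) (nat_lit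 4) (nat_lit 245) (nat_lit 239) (nat_lit 236)))) (XT.nd (nat_lit 78) (nat_lit 304) (nat_lit 0) (XT.lf (nat_lit 0) (nat_lit 395704916) (nat_lit 228) (nat_lit 520835990) (nat_lit 304) (nat_lit 5843675277) (nat_lit 52) (nat_lit 5) (nat_lit 55) (nat_lit 5) (nat_lit 56) (nat_lit 5) (nat_lit 246) (nat_lit 239) (nat_lit 235)) (XT.nd (nat_lit 78) (nat_lit 304) (nat_lit 0) (XT.lf (nat_lit 0) (nat_lit 3507241131) (nat_lit 304) (nat_lit 2628873070) (nat_lit 76) (nat_lit 746473040) (nat_lit 52) (nat_lit 5) (nat_lit 56) (nat_lit 5) (nat_lit 53) (nat_lit 4) (nat_lit 247) (nat_lit 239) (nat_lit 234)) (XT.lf (nat_lit 0) (nat_lit 1274775496) (nat_lit 304) (nat_lit 4862246245) (nat_lit 380) (nat_lit 892610369) (nat_lit 48) (nat_lit 5) (nat_lit 52) (nat_lit 5) (nat_lit 53) (nat_lit 4) (nat_lit 248) (nat_lit 239) (nat_lit 233))))) (XT.nd (nat_lit 234) (nat_lit 988) (nat_lit 0) (XT.nd (nat_lit 78) (nat_lit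 380) (nat_lit 0) (XT.lf (nat_lit 0) (nat_lit 1565657079) (nat_lit 380) (nat_lit 1775996745) (nat_lit 76) (nat_lit 3855259813) (nat_lit 47) (nat_lit 5) (nat_lit 52) (nat_lit 5) (nat_lit 48) (nat_lit 5) (nat_lit 249) (nat_lit 239) (nat_lit 232)) (XT.nd (nat_lit 78) (nat_lit 0) (nat_lit 0) (XT.lf (nat_lit 0) (nat_lit 2445660163) (nat_lit 380) (nat_lit 1593527273) (nat_lit 456) (nat_lit 3348324662) (nat_lit 42) (nat_lit 5) (nat_lit 47) (nat_lit 5) (nat_lit 48) (nat_lit 5) (nat_lit 250) (nat_lit 239) (nat_lit 231)) (XT.lf (nat_lit 0) (nat_lit 6585916027) (nat_lit 456) (nat_lit 677891070) (nat_lit 76) (nat_lit 340577225) (nat_lit 42) (nat_lit 5) (nat_lit 48) (nat_lit 5) (nat_lit 43) (nat_lit 4) (nat_lit 251) (nat_lit 239) (nat_lit 230)))) (XT.nd (nat_lit 156) (nat_lit 228) (nat_lit 0) (XT.nd (nat_lit 78) (nat_lit 228) (nat_lit 0) (XT.lf (nat_lit 0) (nat_lit 1388343728) (nat_lit 532) (nat_lit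 3968345337) (nat_lit 76) (nat_lit 2482697364) (nat_lit 35) (nat_lit 5) (nat_lit 42) (nat_lit 5) (nat_lit 36) (nat_lit 5) (nat_lit 252) (nat_lit 239) (nat_lit 229)) (XT.lf (nat_lit 0) (nat_lit 554028710) (nat_lit 228) (nat_lit 3246263676) (nat_lit 304) (nat_lit 4302205224) (nat_lit 32) (nat_lit 5) (nat_lit 35) (nat_lit 5) (nat_lit 36) (nat_lit 5) (nat_lit 253) (nat_lit 239) (nat_lit 228))) (XT.nd (nat_lit 78) (nat_lit 228) (nat_lit 0) (XT.lf (nat_lit 0) (nat_lit 5490884215) (nat_lit 228) (nat_lit 866130566) (nat_lit 304) (nat_lit 2034270102) (nat_lit 32) (nat_lit 5) (nat_lit 35) (nat_lit 5) (nat_lit 36) (nat_lit 5) (nat_lit 254) (nat_lit 239) (nat_lit 227)) (XT.lf (nat_lit 0) (nat_lit 336009263) (nat_lit 228) (nat_lit 6710119303) (nat_lit 76) (nat_lit 1661576370) (nat_lit 29) (nat_lit 5) (nat_lit 32) (nat_lit 5) (nat_lit 30) (nat_lit 5) (nat_lit 255) (nat_lit 239) (nat_lit 226)))))))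 (XT.nd (nat_lit 1014) (nat_lit 608) (nat_lit 0) (XT.nd (nat_lit 468) (nat_lit 456) (nat_lit 0) (XT.nd (nat_lit 234) (nat_lit 380) (nat_lit 0) (XT.nd (nat_lit 78) (nat_lit 228) (nat_lit 0) (XT.lf (nat_lit 0) (nat_lit 2746932032) (nat_lit 228) (nat_lit 1844048250) (nat_lit 76) (nat_lit 4457970633) (nat_lit 29) (nat_lit 5) (nat_lit 32) (nat_lit 5) (nat_lit 30) (nat_lit 5) (nat_lit 256) (nat_lit 239) (nat_lit 225)) (XT.nd (nat_lit 78) (nat_lit 0) (nat_lit 0) (XT.lf (nat_lit 0) (nat_lit 3419477422) (nat_lit 228) (nat_lit 1881143131) (nat_lit 304) (nat_lit 4121452569) (nat_lit 26) (nat_lit 5) (nat_lit 29) (nat_lit 5) (nat_lit 30) (nat_lit 5) (nat_lit 257) (nat_lit 239) (nat_lit 224)) (XT.lf (nat_lit 0) (nat_lit 8008336478) (nat_lit 304) (nat_lit 807126101) (nat_lit 76) (nat_lit 1014129776) (nat_lit 26) (nat_lit 5) (nat_lit 30) (nat_lit 5) (nat_lit 27) (nat_lit 4) (nat_lit 258) (nat_lit 239)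 (nat_lit 223)))) (XT.nd (nat_lit 78) (nat_lit 152) (nat_lit 0) (XT.lf (nat_lit 0) (nat_lit 678133970) (nat_lit 228) (nat_lit 5442396191) (nat_lit 76) (nat_lit 4144490961) (nat_lit 23) (nat_lit 5) (nat_lit 26) (nat_lit 5) (nat_lit 24) (nat_lit 5) (nat_lit 259) (nat_lit 239) (nat_lit 222)) (XT.nd (nat_lit 78) (nat_lit 0) (nat_lit 0) (XT.lf (nat_lit 0) (nat_lit 9008710) (nat_lit 152) (nat_lit 3176912261) (nat_lit 228) (nat_lit 7553448930) (nat_lit 21) (nat_lit 5) (nat_lit 23) (nat_lit 5) (nat_lit 24) (nat_lit 5) (nat_lit 260) (nat_lit 239) (nat_lit 221)) (XT.lf (nat_lit 0) (nat_lit 5934863010) (nat_lit 228) (nat_lit 5200555852) (nat_lit 76) (nat_lit 113391660) (nat_lit 21) (nat_lit 5) (nat_lit 24) (nat_lit 5) (nat_lit 22) (nat_lit 4) (nat_lit 261) (nat_lit 239) (nat_lit 220))))) (XT.nd (nat_lit 234) (nat_lit 76) (nat_lit 0) (XT.nd (nat_lit 78) (nat_lit 228) (nat_lit 0) (XT.lf (nat_lit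 0) (nat_lit 566613129) (nat_lit 152) (nat_lit 8329371424) (nat_lit 228) (nat_lit 2903998583) (nat_lit 19) (nat_lit 5) (nat_lit 21) (nat_lit 5) (nat_lit 22) (nat_lit 4) (nat_lit 262) (nat_lit 239) (nat_lit 219)) (XT.nd (nat_lit 78) (nat_lit 228) (nat_lit 0) (XT.lf (nat_lit 0) (nat_lit 6943886915) (nat_lit 152) (nat_lit 5192579974) (nat_lit 228) (nat_lit 255716352) (nat_lit 19) (nat_lit 5) (nat_lit 21) (nat_lit 5) (nat_lit 22) (nat_lit 4) (nat_lit 263) (nat_lit 239) (nat_lit 218)) (XT.lf (nat_lit 0) (nat_lit 626879948) (nat_lit 152) (nat_lit 1767316575) (nat_lit 228) (nat_lit 10639231827) (nat_lit 16) (nat_lit 5) (nat_lit 18) (nat_lit 5) (nat_lit 19) (nat_lit 5) (nat_lit 264) (nat_lit 239) (nat_lit 217)))) (XT.nd (nat_lit 156) (nat_lit 76) (nat_lit 0) (XT.nd (nat_lit 78) (nat_lit 0) (nat_lit 0) (XT.lf (nat_lit 0) (nat_lit 5349166208) (nat_lit 228) (nat_lit 6417404237) (nat_lit 76) (nat_lit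 1950583987) (nat_lit 16) (nat_lit 5) (nat_lit 19) (nat_lit 5) (nat_lit 17) (nat_lit 4) (nat_lit 265) (nat_lit 239) (nat_lit 216)) (XT.lf (nat_lit 0) (nat_lit 8500863628) (nat_lit 228) (nat_lit 128637597) (nat_lit 76) (nat_lit 5829494524) (nat_lit 16) (nat_lit 5) (nat_lit 19) (nat_lit 5) (nat_lit 17) (nat_lit 4) (nat_lit 266) (nat_lit 239) (nat_lit 215))) (XT.nd (nat_lit 78) (nat_lit 0) (nat_lit 0) (XT.lf (nat_lit 0) (nat_lit 6883881941) (nat_lit 76) (nat_lit 5107137091) (nat_lit 152) (nat_lit 3262485089) (nat_lit 15) (nat_lit 5) (nat_lit 16) (nat_lit 5) (nat_lit 17) (nat_lit 4) (nat_lit 267) (nat_lit 239) (nat_lit 214)) (XT.lf (nat_lit 0) (nat_lit 14344142541) (nat_lit 76) (nat_lit 1343495591) (nat_lit 152) (nat_lit 429963745) (nat_lit 15) (nat_lit 5) (nat_lit 16) (nat_lit 5) (nat_lit 17) (nat_lit 4) (nat_lit 268) (nat_lit 239) (nat_lit 213)))))) (XT.nd (nat_lit 546) (nat_lit 152) (nat_lit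 0) (XT.nd (nat_lit 234) (nat_lit 152) (nat_lit 0) (XT.nd (nat_lit 78) (nat_lit 76) (nat_lit 0) (XT.lf (nat_lit 0) (nat_lit 2625382463) (nat_lit 228) (nat_lit 11666899510) (nat_lit 76) (nat_lit 2743446452) (nat_lit 12) (nat_lit 5) (nat_lit 15) (nat_lit 5) (nat_lit 13) (nat_lit 4) (nat_lit 269) (nat_lit 239) (nat_lit 212)) (XT.nd (nat_lit 78) (nat_lit 76) (nat_lit 0) (XT.lf (nat_lit 0) (nat_lit 5915578796) (nat_lit 228) (nat_lit 5004846229) (nat_lit 76) (nat_lit 7105060274) (nat_lit 12) (nat_lit 5) (nat_lit 15) (nat_lit 5) (nat_lit 13) (nat_lit 4) (nat_lit 270) (nat_lit 239) (nat_lit 211)) (XT.lf (nat_lit 0) (nat_lit 2191020029) (nat_lit 76) (nat_lit 7264930318) (nat_lit 152) (nat_lit 9639669103) (nat_lit 11) (nat_lit 5) (nat_lit 12) (nat_lit 5) (nat_lit 13) (nat_lit 4) (nat_lit 271) (nat_lit 239) (nat_lit 210)))) (XT.nd (nat_lit 156) (nat_lit 152) (nat_lit 0) (XT.nd (nat_lit 78) (nat_lit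 0) (nat_lit 0) (XT.lf (nat_lit 0) (nat_lit 10141183937) (nat_lit 76) (nat_lit 3211794360) (nat_lit 152) (nat_lit 6892654017) (nat_lit 11) (nat_lit 5) (nat_lit 12) (nat_lit 5) (nat_lit 13) (nat_lit 4) (nat_lit 272) (nat_lit 239) (nat_lit 209)) (XT.lf (nat_lit 0) (nat_lit 17530135357) (nat_lit 152) (nat_lit 2890348116) (nat_lit 0) (nat_lit 1069824978) (nat_lit 11) (nat_lit 5) (nat_lit 13) (nat_lit 4) (nat_lit 11) (nat_lit 4) (nat_lit 273) (nat_lit 239) (nat_lit 208))) (XT.nd (nat_lit 78) (nat_lit 76) (nat_lit 0) (XT.lf (nat_lit 0) (nat_lit 4971688392) (nat_lit 76) (nat_lit 17217523067) (nat_lit 76) (nat_lit 633649342) (nat_lit 10) (nat_lit 4) (nat_lit 11) (nat_lit 5) (nat_lit 11) (nat_lit 4) (nat_lit 274) (nat_lit 239) (nat_lit 207)) (XT.lf (nat_lit 0) (nat_lit 2837193635) (nat_lit 152) (nat_lit 10796921468) (nat_lit 76) (nat_lit 10620216117) (nat_lit 9) (nat_lit 5) (nat_lit 11) (nat_lit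 5) (nat_lit 10) (nat_lit 4) (nat_lit 275) (nat_lit 239) (nat_lit 206))))) (XT.nd (nat_lit 234) (nat_lit 76) (nat_lit 0) (XT.nd (nat_lit 78) (nat_lit 76) (nat_lit 0) (XT.lf (nat_lit 0) (nat_lit 6500672760) (nat_lit 152) (nat_lit 3282820542) (nat_lit 76) (nat_lit 16019669842) (nat_lit 9) (nat_lit 5) (nat_lit 11) (nat_lit 5) (nat_lit 10) (nat_lit 4) (nat_lit 276) (nat_lit 239) (nat_lit 205)) (XT.nd (nat_lit 78) (nat_lit 0) (nat_lit 0) (XT.lf (nat_lit 0) (nat_lit 5001071507) (nat_lit 76) (nat_lit 5529399626) (nat_lit 152) (nat_lit 16939660772) (nat_lit 8) (nat_lit 5) (nat_lit 9) (nat_lit 5) (nat_lit 10) (nat_lit 4) (nat_lit 277) (nat_lit 239) (nat_lit 204)) (XT.lf (nat_lit 0) (nat_lit 14054924598) (nat_lit 76) (nat_lit 872025304) (nat_lit 152) (nat_lit 14340047469) (nat_lit 8) (nat_lit 5) (nat_lit 9) (nat_lit 5) (nat_lit 10) (nat_lit 4) (nat_lit 278) (nat_lit 239) (nat_lit 203)))) (XT.nd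 (nat_lit 156) (nat_lit 0) (nat_lit 0) (XT.nd (nat_lit 78) (nat_lit 76) (nat_lit 0) (XT.lf (nat_lit 0) (nat_lit 19732294613) (nat_lit 152) (nat_lit 7550774423) (nat_lit 0) (nat_lit 3920048006) (nat_lit 8) (nat_lit 5) (nat_lit 10) (nat_lit 4) (nat_lit 8) (nat_lit 4) (nat_lit 279) (nat_lit 239) (nat_lit 202)) (XT.lf (nat_lit 0) (nat_lit 663360121) (nat_lit 76) (nat_lit 24257633863) (nat_lit 76) (nat_lit 8373289231) (nat_lit 7) (nat_lit 4) (nat_lit 8) (nat_lit 5) (nat_lit 8) (nat_lit 4) (nat_lit 280) (nat_lit 239) (nat_lit 201))) (XT.nd (nat_lit 78) (nat_lit 0) (nat_lit 0) (XT.lf (nat_lit 0) (nat_lit 9895230421) (nat_lit 76) (nat_lit 20797617723) (nat_lit 76) (nat_lit 4846515659) (nat_lit 7) (nat_lit 4) (nat_lit 8) (nat_lit 5) (nat_lit 8) (nat_lit 4) (nat_lit 281) (nat_lit 239) (nat_lit 200)) (XT.lf (nat_lit 0) (nat_lit 19801933455) (nat_lit 76) (nat_lit 17088968369) (nat_lit 76) (nat_lit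 1076053870) (nat_lit 7) (nat_lit 4) (nat_lit 8) (nat_lit 5) (nat_lit 8) (nat_lit 4) (nat_lit 282) (nat_lit 239) (nat_lit 199))))))))
noncomputable def xc49 : XT := (XT.nd (nat_lit 2028) (nat_lit 76) (nat_lit 0) (XT.nd (nat_lit 1014) (nat_lit 152) (nat_lit 0) (XT.nd (nat_lit 468) (nat_lit 76) (nat_lit 0) (XT.nd (nat_lit 234) (nat_lit 0) (nat_lit 0) (XT.nd (nat_lit 78) (nat_lit 76) (nat_lit 0) (XT.lf (nat_lit 0) (nat_lit 2812346434) (nat_lit 152) (nat_lit 10220467652) (nat_lit 76) (nat_lit 27552934641) (nat_lit 6) (nat_lit 5) (nat_lit 8) (nat_lit 5) (nat_lit 7) (nat_lit 4) (nat_lit 283) (nat_lit 239) (nat_lit 198)) (XT.nd (nat_lit 78) (nat_lit 76) (nat_lit 0) (XT.lf (nat_lit 0) (nat_lit 6922365267) (nat_lit 152) (nat_lit 1724622681) (nat_lit 76) (nat_lit 34767375176) (nat_lit 6) (nat_lit 5) (nat_lit 8) (nat_lit 5) (nat_lit 7) (nat_lit 4) (nat_lit 284) (nat_lit 239) (nat_lit 197)) (XT.lf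 (nat_lit 0) (nat_lit 7788341949) (nat_lit 76) (nat_lit 3731154729) (nat_lit 152) (nat_lit 34937149909) (nat_lit 5) (nat_lit 5) (nat_lit 6) (nat_lit 5) (nat_lit 7) (nat_lit 4) (nat_lit 285) (nat_lit 239) (nat_lit 196)))) (XT.nd (nat_lit 78) (nat_lit 0) (nat_lit 0) (XT.lf (nat_lit 0) (nat_lit 16542106701) (nat_lit 152) (nat_lit 31669862242) (nat_lit 0) (nat_lit 1525768619) (nat_lit 5) (nat_lit 5) (nat_lit 7) (nat_lit 4) (nat_lit 5) (nat_lit 4) (nat_lit 286) (nat_lit 239) (nat_lit 195)) (XT.nd (nat_lit 78) (nat_lit 0) (nat_lit 0) (XT.lf (nat_lit 0) (nat_lit 22036938129) (nat_lit 152) (nat_lit 24257135361) (nat_lit 0) (nat_lit 6981647727) (nat_lit 5) (nat_lit 5) (nat_lit 7) (nat_lit 4) (nat_lit 5) (nat_lit 4) (nat_lit 287) (nat_lit 239) (nat_lit 194)) (XT.lf (nat_lit 0) (nat_lit 27946818565) (nat_lit 152) (nat_lit 16296462363) (nat_lit 0) (nat_lit 12855461201) (nat_lit 5) (nat_lit 5) (nat_lit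 7) (nat_lit 4) (nat_lit 5) (nat_lit 4) (nat_lit 288) (nat_lit 239) (nat_lit 193))))) (XT.nd (nat_lit 234) (nat_lit 0) (nat_lit 0) (XT.nd (nat_lit 78) (nat_lit 76) (nat_lit 0) (XT.lf (nat_lit 0) (nat_lit 34306769524) (nat_lit 152) (nat_lit 7740668891) (nat_lit 0) (nat_lit 19182016823) (nat_lit 5) (nat_lit 5) (nat_lit 7) (nat_lit 4) (nat_lit 5) (nat_lit 4) (nat_lit 289) (nat_lit 239) (nat_lit 192)) (XT.nd (nat_lit 78) (nat_lit 0) (nat_lit 0) (XT.lf (nat_lit 0) (nat_lit 1537876885) (nat_lit 76) (nat_lit 39653588693) (nat_lit 76) (nat_lit 24497914386) (nat_lit 4) (nat_lit 4) (nat_lit 5) (nat_lit 5) (nat_lit 5) (nat_lit 4) (nat_lit 290) (nat_lit 239) (nat_lit 191)) (XT.lf (nat_lit 0) (nat_lit 11961261296) (nat_lit 76) (nat_lit 36856935150) (nat_lit 76) (nat_lit 21672629725) (nat_lit 4) (nat_lit 4) (nat_lit 5) (nat_lit 5) (nat_lit 5) (nat_lit 4) (nat_lit 291) (nat_lit 239) (nat_lit 190))))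 (XT.nd (nat_lit 156) (nat_lit 0) (nat_lit 0) (XT.nd (nat_lit 78) (nat_lit 0) (nat_lit 0) (XT.lf (nat_lit 0) (nat_lit 23183642640) (nat_lit 76) (nat_lit 33852548628) (nat_lit 76) (nat_lit 18641732908) (nat_lit 4) (nat_lit 4) (nat_lit 5) (nat_lit 5) (nat_lit 5) (nat_lit 4) (nat_lit 292) (nat_lit 239) (nat_lit 189)) (XT.lf (nat_lit 0) (nat_lit 35271523918) (nat_lit 76) (nat_lit 30622625355) (nat_lit 76) (nat_lit 15387263067) (nat_lit 4) (nat_lit 4) (nat_lit 5) (nat_lit 5) (nat_lit 5) (nat_lit 4) (nat_lit 293) (nat_lit 239) (nat_lit 188))) (XT.nd (nat_lit 78) (nat_lit 0) (nat_lit 0) (XT.lf (nat_lit 0) (nat_lit 48296537018) (nat_lit 76) (nat_lit 27148025046) (nat_lit 76) (nat_lit 11889934453) (nat_lit 4) (nat_lit 4) (nat_lit 5) (nat_lit 5) (nat_lit 5) (nat_lit 4) (nat_lit 294) (nat_lit 239) (nat_lit 187)) (XT.lf (nat_lit 0) (nat_lit 62335867203) (nat_lit 76) (nat_lit 23408157475) (nat_lit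 76) (nat_lit 8129022156) (nat_lit 4) (nat_lit 4) (nat_lit 5) (nat_lit 5) (nat_lit 5) (nat_lit 4) (nat_lit 295) (nat_lit 239) (nat_lit 186)))))) (XT.nd (nat_lit 468) (nat_lit 0) (nat_lit 0) (XT.nd (nat_lit 234) (nat_lit 76) (nat_lit 0) (XT.nd (nat_lit 78) (nat_lit 76) (nat_lit 0) (XT.lf (nat_lit 0) (nat_lit 77472710504) (nat_lit 76) (nat_lit 19380860466) (nat_lit 76) (nat_lit 4082239289) (nat_lit 4) (nat_lit 4) (nat_lit 5) (nat_lit 5) (nat_lit 5) (nat_lit 4) (nat_lit 296) (nat_lit 239) (nat_lit 185)) (XT.nd (nat_lit 78) (nat_lit 0) (nat_lit 0) (XT.lf (nat_lit 0) (nat_lit 260668729) (nat_lit 152) (nat_lit 14774472679) (nat_lit 76) (nat_lit 93528970859) (nat_lit 3) (nat_lit 5) (nat_lit 5) (nat_lit 5) (nat_lit 4) (nat_lit 4) (nat_lit 297) (nat_lit 239) (nat_lit 184)) (XT.lf (nat_lit 0) (nat_lit 4718243702) (nat_lit 152) (nat_lit 5519422718) (nat_lit 76) (nat_lit 106557522192) (nat_lit 3)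 (nat_lit 5) (nat_lit 5) (nat_lit 5) (nat_lit 4) (nat_lit 4) (nat_lit 298) (nat_lit 239) (nat_lit 183)))) (XT.nd (nat_lit 78) (nat_lit 0) (nat_lit 0) (XT.lf (nat_lit 0) (nat_lit 4689669060) (nat_lit 76) (nat_lit 4944228623) (nat_lit 152) (nat_lit 116042749664) (nat_lit 2) (nat_lit 5) (nat_lit 3) (nat_lit 5) (nat_lit 4) (nat_lit 4) (nat_lit 299) (nat_lit 239) (nat_lit 182)) (XT.nd (nat_lit 78) (nat_lit 0) (nat_lit 0) (XT.lf (nat_lit 0) (nat_lit 15105023195) (nat_lit 152) (nat_lit 119270760827) (nat_lit 0) (nat_lit 879874298) (nat_lit 2) (nat_lit 5) (nat_lit 4) (nat_lit 4) (nat_lit 2) (nat_lit 4) (nat_lit 300) (nat_lit 239) (nat_lit 181)) (XT.lf (nat_lit 0) (nat_lit 21131895066) (nat_lit 152) (nat_lit 117565195935) (nat_lit 0) (nat_lit 6894466773) (nat_lit 2) (nat_lit 5) (nat_lit 4) (nat_lit 4) (nat_lit 2) (nat_lit 4) (nat_lit 301) (nat_lit 239) (nat_lit 180))))) (XT.nd (nat_lit 234) (nat_lit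 0) (nat_lit 0) (XT.nd (nat_lit 78) (nat_lit 0) (nat_lit 0) (XT.lf (nat_lit 0) (nat_lit 27631319275) (nat_lit 152) (nat_lit 115741267743) (nat_lit 0) (nat_lit 13382521171) (nat_lit 2) (nat_lit 5) (nat_lit 4) (nat_lit 4) (nat_lit 2) (nat_lit 4) (nat_lit 302) (nat_lit 239) (nat_lit 179)) (XT.nd (nat_lit 78) (nat_lit 0) (nat_lit 0) (XT.lf (nat_lit 0) (nat_lit 34641810929) (nat_lit 152) (nat_lit 113788167788) (nat_lit 0) (nat_lit 20382485222) (nat_lit 2) (nat_lit 5) (nat_lit 4) (nat_lit 4) (nat_lit 2) (nat_lit 4) (nat_lit 303) (nat_lit 239) (nat_lit 178)) (XT.lf (nat_lit 0) (nat_lit 42204913681) (nat_lit 152) (nat_lit 111694322144) (nat_lit 0) (nat_lit 27935840194) (nat_lit 2) (nat_lit 5) (nat_lit 4) (nat_lit 4) (nat_lit 2) (nat_lit 4) (nat_lit 304) (nat_lit 239) (nat_lit 177)))) (XT.nd (nat_lit 156) (nat_lit 0) (nat_lit 0) (XT.nd (nat_lit 78) (nat_lit 0) (nat_lit 0) (XT.lf (nat_lit 0) (nat_lit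 50365445918) (nat_lit 152) (nat_lit 109447322836) (nat_lit 0) (nat_lit 36087346709) (nat_lit 2) (nat_lit 5) (nat_lit 4) (nat_lit 4) (nat_lit 2) (nat_lit 4) (nat_lit 305) (nat_lit 239) (nat_lit 176)) (XT.lf (nat_lit 0) (nat_lit 59171766351) (nat_lit 152) (nat_lit 107033854313) (nat_lit 0) (nat_lit 44885309991) (nat_lit 2) (nat_lit 5) (nat_lit 4) (nat_lit 4) (nat_lit 2) (nat_lit 4) (nat_lit 306) (nat_lit 239) (nat_lit 175))) (XT.nd (nat_lit 78) (nat_lit 0) (nat_lit 0) (XT.lf (nat_lit 0) (nat_lit 68676060580) (nat_lit 152) (nat_lit 104439614540) (nat_lit 0) (nat_lit 54381866118) (nat_lit 2) (nat_lit 5) (nat_lit 4) (nat_lit 4) (nat_lit 2) (nat_lit 4) (nat_lit 307) (nat_lit 239) (nat_lit 174)) (XT.lf (nat_lit 0) (nat_lit 78934650351) (nat_lit 152) (nat_lit 101649230243) (nat_lit 0) (nat_lit 64633290980) (nat_lit 2) (nat_lit 5) (nat_lit 4) (nat_lit 4) (nat_lit 2) (nat_lit 4) (nat_lit 308)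 (nat_lit 239) (nat_lit 173))))))) (XT.nd (nat_lit 1014) (nat_lit 76) (nat_lit 0) (XT.nd (nat_lit 468) (nat_lit 0) (nat_lit 0) (XT.nd (nat_lit 234) (nat_lit 0) (nat_lit 0) (XT.nd (nat_lit 78) (nat_lit 0) (nat_lit 0) (XT.lf (nat_lit 0) (nat_lit 90008327306) (nat_lit 152) (nat_lit 98646165813) (nat_lit 0) (nat_lit 75700333760) (nat_lit 2) (nat_lit 5) (nat_lit 4) (nat_lit 4) (nat_lit 2) (nat_lit 4) (nat_lit 309) (nat_lit 239) (nat_lit 172)) (XT.nd (nat_lit 78) (nat_lit 0) (nat_lit 0) (XT.lf (nat_lit 0) (nat_lit 101962713235) (nat_lit 152) (nat_lit 95412625311) (nat_lit 0) (nat_lit 87648576933) (nat_lit 2) (nat_lit 5) (nat_lit 4) (nat_lit 4) (nat_lit 2) (nat_lit 4) (nat_lit 310) (nat_lit 239) (nat_lit 171)) (XT.lf (nat_lit 0) (nat_lit 114868648943) (nat_lit 152) (nat_lit 91929447017) (nat_lit 0) (nat_lit 100548824905) (nat_lit 2) (nat_lit 5) (nat_lit 4) (nat_lit 4) (nat_lit 2) (nat_lit 4)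 (nat_lit 311) (nat_lit 239) (nat_lit 170)))) (XT.nd (nat_lit 78) (nat_lit 0) (nat_lit 0) (XT.lf (nat_lit 0) (nat_lit 128802614048) (nat_lit 152) (nat_lit 88175989873) (nat_lit 0) (nat_lit 114477523588) (nat_lit 2) (nat_lit 5) (nat_lit 4) (nat_lit 4) (nat_lit 2) (nat_lit 4) (nat_lit 312) (nat_lit 239) (nat_lit 169)) (XT.nd (nat_lit 78) (nat_lit 0) (nat_lit 0) (XT.lf (nat_lit 0) (nat_lit 143847180197) (nat_lit 152) (nat_lit 84130011171) (nat_lit 0) (nat_lit 129517213420) (nat_lit 2) (nat_lit 5) (nat_lit 4) (nat_lit 4) (nat_lit 2) (nat_lit 4) (nat_lit 313) (nat_lit 239) (nat_lit 168)) (XT.lf (nat_lit 0) (nat_lit 160091500374) (nat_lit 152) (nat_lit 79767534741) (nat_lit 0) (nat_lit 145757018488) (nat_lit 2) (nat_lit 5) (nat_lit 4) (nat_lit 4) (nat_lit 2) (nat_lit 4) (nat_lit 314) (nat_lit 239) (nat_lit 167))))) (XT.nd (nat_lit 234) (nat_lit 0) (nat_lit 0) (XT.nd (nat_lit 78) (nat_lit 0)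 (nat_lit 0) (XT.lf (nat_lit 0) (nat_lit 177631837216) (nat_lit 152) (nat_lit 75062708870) (nat_lit 0) (nat_lit 163293174675) (nat_lit 2) (nat_lit 5) (nat_lit 4) (nat_lit 4) (nat_lit 2) (nat_lit 4) (nat_lit 315) (nat_lit 239) (nat_lit 166)) (XT.nd (nat_lit 78) (nat_lit 0) (nat_lit 0) (XT.lf (nat_lit 0) (nat_lit 196572133461) (nat_lit 152) (nat_lit 69987653109) (nat_lit 0) (nat_lit 182229599942) (nat_lit 2) (nat_lit 5) (nat_lit 4) (nat_lit 4) (nat_lit 2) (nat_lit 4) (nat_lit 316) (nat_lit 239) (nat_lit 165)) (XT.lf (nat_lit 0) (nat_lit 217024627901) (nat_lit 152) (nat_lit 64512293053) (nat_lit 0) (nat_lit 202678510143) (nat_lit 2) (nat_lit 5) (nat_lit 4) (nat_lit 4) (nat_lit 2) (nat_lit 4) (nat_lit 317) (nat_lit 239) (nat_lit 164)))) (XT.nd (nat_lit 156) (nat_lit 0) (nat_lit 0) (XT.nd (nat_lit 78) (nat_lit 0) (nat_lit 0) (XT.lf (nat_lit 0) (nat_lit 239110520503) (nat_lit 152) (nat_lit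 58604182124) (nat_lit 0) (nat_lit 224761084006) (nat_lit 2) (nat_lit 5) (nat_lit 4) (nat_lit 4) (nat_lit 2) (nat_lit 4) (nat_lit 318) (nat_lit 239) (nat_lit 163)) (XT.lf (nat_lit 0) (nat_lit 262960690631) (nat_lit 152) (nat_lit 52228309295) (nat_lit 0) (nat_lit 248608181228) (nat_lit 2) (nat_lit 5) (nat_lit 4) (nat_lit 4) (nat_lit 2) (nat_lit 4) (nat_lit 319) (nat_lit 239) (nat_lit 162))) (XT.nd (nat_lit 78) (nat_lit 0) (nat_lit 0) (XT.lf (nat_lit 0) (nat_lit 288716472627) (nat_lit 152) (nat_lit 45346891615) (nat_lit 0) (nat_lit 274361117939) (nat_lit 2) (nat_lit 5) (nat_lit 4) (nat_lit 4) (nat_lit 2) (nat_lit 4) (nat_lit 320) (nat_lit 239) (nat_lit 161)) (XT.lf (nat_lit 0) (nat_lit 316530493346) (nat_lit 152) (nat_lit 37919150314) (nat_lit 0) (nat_lit 302172504135) (nat_lit 2) (nat_lit 5) (nat_lit 4) (nat_lit 4) (nat_lit 2) (nat_lit 4) (nat_lit 321) (nat_lit 239) (nat_lit 160))))))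 (XT.nd (nat_lit 546) (nat_lit 0) (nat_lit 0) (XT.nd (nat_lit 234) (nat_lit 76) (nat_lit 0) (XT.nd (nat_lit 78) (nat_lit 0) (nat_lit 0) (XT.lf (nat_lit 0) (nat_lit 346567576615) (nat_lit 152) (nat_lit 29901069145) (nat_lit 0) (nat_lit 332207148032) (nat_lit 2) (nat_lit 5) (nat_lit 4) (nat_lit 4) (nat_lit 2) (nat_lit 4) (nat_lit 322) (nat_lit 239) (nat_lit 159)) (XT.nd (nat_lit 78) (nat_lit 0) (nat_lit 0) (XT.lf (nat_lit 0) (nat_lit 379005719964) (nat_lit 152) (nat_lit 21245133554) (nat_lit 0) (nat_lit 364643032703) (nat_lit 2) (nat_lit 5) (nat_lit 4) (nat_lit 4) (nat_lit 2) (nat_lit 4) (nat_lit 323) (nat_lit 239) (nat_lit 158)) (XT.lf (nat_lit 0) (nat_lit 414037149429) (nat_lit 152) (nat_lit 11900049109) (nat_lit 0) (nat_lit 399672370799) (nat_lit 2) (nat_lit 5) (nat_lit 4) (nat_lit 4) (nat_lit 2) (nat_lit 4) (nat_lit 324) (nat_lit 239) (nat_lit 157)))) (XT.nd (nat_lit 156) (nat_lit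 0) (nat_lit 0) (XT.nd (nat_lit 78) (nat_lit 76) (nat_lit 0) (XT.lf (nat_lit 0) (nat_lit 451869458665) (nat_lit 152) (nat_lit 1810437530) (nat_lit 0) (nat_lit 437502743583) (nat_lit 2) (nat_lit 5) (nat_lit 4) (nat_lit 4) (nat_lit 2) (nat_lit 4) (nat_lit 325) (nat_lit 239) (nat_lit 156)) (XT.lf (nat_lit 0) (nat_lit 9561812035) (nat_lit 76) (nat_lit 483394988908) (nat_lit 76) (nat_lit 469026480814) (nat_lit 1) (nat_lit 4) (nat_lit 2) (nat_lit 5) (nat_lit 2) (nat_lit 4) (nat_lit 326) (nat_lit 239) (nat_lit 155))) (XT.nd (nat_lit 78) (nat_lit 0) (nat_lit 0) (XT.lf (nat_lit 0) (nat_lit 21944023441) (nat_lit 76) (nat_lit 515435139498) (nat_lit 76) (nat_lit 501064971208) (nat_lit 1) (nat_lit 4) (nat_lit 2) (nat_lit 5) (nat_lit 2) (nat_lit 4) (nat_lit 327) (nat_lit 239) (nat_lit 154)) (XT.lf (nat_lit 0) (nat_lit 35314238322) (nat_lit 76) (nat_lit 550039716093) (nat_lit 76) (nat_lit 535668010585)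 (nat_lit 1) (nat_lit 4) (nat_lit 2) (nat_lit 5) (nat_lit 2) (nat_lit 4) (nat_lit 328) (nat_lit 239) (nat_lit 153))))) (XT.nd (nat_lit 234) (nat_lit 0) (nat_lit 0) (XT.nd (nat_lit 78) (nat_lit 0) (nat_lit 0) (XT.lf (nat_lit 0) (nat_lit 49751687581) (nat_lit 76) (nat_lit 587413782853) (nat_lit 76) (nat_lit 573040653994) (nat_lit 1) (nat_lit 4) (nat_lit 2) (nat_lit 5) (nat_lit 2) (nat_lit 4) (nat_lit 329) (nat_lit 239) (nat_lit 152)) (XT.nd (nat_lit 78) (nat_lit 0) (nat_lit 0) (XT.lf (nat_lit 0) (nat_lit 65341926473) (nat_lit 76) (nat_lit 627778815727) (nat_lit 76) (nat_lit 613404368951) (nat_lit 1) (nat_lit 4) (nat_lit 2) (nat_lit 5) (nat_lit 2) (nat_lit 4) (nat_lit 330) (nat_lit 239) (nat_lit 151)) (XT.lf (nat_lit 0) (nat_lit 82177341599) (nat_lit 76) (nat_lit 671374014912) (nat_lit 76) (nat_lit 656998347842) (nat_lit 1) (nat_lit 4) (nat_lit 2) (nat_lit 5) (nat_lit 2) (nat_lit 4) (nat_lit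 331) (nat_lit 239) (nat_lit 150)))) (XT.nd (nat_lit 156) (nat_lit 0) (nat_lit 0) (XT.nd (nat_lit 78) (nat_lit 0) (nat_lit 0) (XT.lf (nat_lit 0) (nat_lit 100357698382) (nat_lit 76) (nat_lit 718457722327) (nat_lit 76) (nat_lit 704080925356) (nat_lit 1) (nat_lit 4) (nat_lit 2) (nat_lit 5) (nat_lit 2) (nat_lit 4) (nat_lit 332) (nat_lit 239) (nat_lit 149)) (XT.lf (nat_lit 0) (nat_lit 119990732269) (nat_lit 76) (nat_lit 769308952536) (nat_lit 76) (nat_lit 754931109360) (nat_lit 1) (nat_lit 4) (nat_lit 2) (nat_lit 5) (nat_lit 2) (nat_lit 4) (nat_lit 333) (nat_lit 239) (nat_lit 148))) (XT.nd (nat_lit 78) (nat_lit 0) (nat_lit 0) (XT.lf (nat_lit 0) (nat_lit 141192787165) (nat_lit 76) (nat_lit 824229046161) (nat_lit 76) (nat_lit 809850234277) (nat_lit 1) (nat_lit 4) (nat_lit 2) (nat_lit 5) (nat_lit 2) (nat_lit 4) (nat_lit 334) (nat_lit 239) (nat_lit 147)) (XT.lf (nat_lit 0) (nat_lit 164089504877)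 (nat_lit 76) (nat_lit 883543455611) (nat_lit 76) (nat_lit 869163746774) (nat_lit 1) (nat_lit 4) (nat_lit 2) (nat_lit 5) (nat_lit 2) (nat_lit 4) (nat_lit 335) (nat_lit 239) (nat_lit 146))))))))
noncomputable def xc50 : XT := (XT.nd (nat_lit 31512) (nat_lit 0) (nat_lit 380) (XT.nd (nat_lit 30498) (nat_lit 0) (nat_lit 1900) (XT.nd (nat_lit 468) (nat_lit 0) (nat_lit 0) (XT.nd (nat_lit 234) (nat_lit 0) (nat_lit 0) (XT.nd (nat_lit 78) (nat_lit 0) (nat_lit 0) (XT.lf (nat_lit 0) (nat_lit 188816569658) (nat_lit 76) (nat_lit 947603673680) (nat_lit 76) (nat_lit 933223134332) (nat_lit 1) (nat_lit 4) (nat_lit 2) (nat_lit 5) (nat_lit 2) (nat_lit 4) (nat_lit 336) (nat_lit 239) (nat_lit 145)) (XT.nd (nat_lit 78) (nat_lit 0) (nat_lit 0) (XT.lf (nat_lit 0) (nat_lit 215520512262) (nat_lit 76) (nat_lit 1016789316477) (nat_lit 76) (nat_lit 1002408008137) (nat_lit 1) (nat_lit 4) (nat_lit 2) (nat_lit 5) (nat_lit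 2) (nat_lit 4) (nat_lit 337) (nat_lit 239) (nat_lit 144)) (XT.lf (nat_lit 0) (nat_lit 244359578274) (nat_lit 76) (nat_lit 1091510372995) (nat_lit 76) (nat_lit 1077128352626) (nat_lit 1) (nat_lit 4) (nat_lit 2) (nat_lit 5) (nat_lit 2) (nat_lit 4) (nat_lit 338) (nat_lit 239) (nat_lit 143)))) (XT.nd (nat_lit 78) (nat_lit 0) (nat_lit 0) (XT.lf (nat_lit 0) (nat_lit 275504665865) (nat_lit 76) (nat_lit 1172209634681) (nat_lit 76) (nat_lit 1157826955025) (nat_lit 1) (nat_lit 4) (nat_lit 2) (nat_lit 5) (nat_lit 2) (nat_lit 4) (nat_lit 339) (nat_lit 239) (nat_lit 142)) (XT.nd (nat_lit 78) (nat_lit 0) (nat_lit 0) (XT.lf (nat_lit 0) (nat_lit 309140338515) (nat_lit 76) (nat_lit 1259365319382) (nat_lit 76) (nat_lit 1244982029275) (nat_lit 1) (nat_lit 4) (nat_lit 2) (nat_lit 5) (nat_lit 2) (nat_lit 4) (nat_lit 340) (nat_lit 239) (nat_lit 141)) (XT.lf (nat_lit 0) (nat_lit 345465918730) (nat_lit 76)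 (nat_lit 1353493905230) (nat_lit 76) (nat_lit 1339110049891) (nat_lit 1) (nat_lit 4) (nat_lit 2) (nat_lit 5) (nat_lit 2) (nat_lit 4) (nat_lit 341) (nat_lit 239) (nat_lit 140))))) (XT.nd (nat_lit 29718) (nat_lit 0) (nat_lit 4104) (XT.nd (nat_lit 29562) (nat_lit 0) (nat_lit 4484) (XT.lf (nat_lit 0) (nat_lit 384696669207) (nat_lit 76) (nat_lit 1455153191250) (nat_lit 76) (nat_lit 1440768812549) (nat_lit 1) (nat_lit 4) (nat_lit 2) (nat_lit 5) (nat_lit 2) (nat_lit 4) (nat_lit 342) (nat_lit 239) (nat_lit 139)) (XT.nd (nat_lit 78) (nat_lit 76) (nat_lit 0) (XT.lf (nat_lit 0) (nat_lit 1073741823) (nat_lit 0) (nat_lit 0) (nat_lit 0) (nat_lit 0) (nat_lit 61) (nat_lit 0) (nat_lit 1) (nat_lit 0) (nat_lit 1) (nat_lit 0) (nat_lit 240) (nat_lit 240) (nat_lit 240)) (XT.lf (nat_lit 0) (nat_lit 2829379429) (nat_lit 76) (nat_lit 3474897107) (nat_lit 0) (nat_lit 145024869) (nat_lit 60) (nat_lit 5) (nat_lit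 61) (nat_lit 0) (nat_lit 60) (nat_lit 4) (nat_lit 241) (nat_lit 240) (nat_lit 239)))) (XT.nd (nat_lit 156) (nat_lit 228) (nat_lit 0) (XT.nd (nat_lit 78) (nat_lit 152) (nat_lit 0) (XT.lf (nat_lit 0) (nat_lit 5605802057) (nat_lit 76) (nat_lit 439759305) (nat_lit 0) (nat_lit 435934015) (nat_lit 60) (nat_lit 5) (nat_lit 61) (nat_lit 0) (nat_lit 60) (nat_lit 4) (nat_lit 242) (nat_lit 240) (nat_lit 238)) (XT.lf (nat_lit 0) (nat_lit 1785763839) (nat_lit 152) (nat_lit 3756880625) (nat_lit 76) (nat_lit 987532668) (nat_lit 58) (nat_lit 5) (nat_lit 60) (nat_lit 5) (nat_lit 59) (nat_lit 4) (nat_lit 243) (nat_lit 240) (nat_lit 237))) (XT.nd (nat_lit 78) (nat_lit 228) (nat_lit 0) (XT.lf (nat_lit 0) (nat_lit 4373705074) (nat_lit 152) (nat_lit 504890055) (nat_lit 76) (nat_lit 1723414067) (nat_lit 58) (nat_lit 5) (nat_lit 60) (nat_lit 5) (nat_lit 59) (nat_lit 4) (nat_lit 244) (nat_lit 240) (nat_lit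 236)) (XT.lf (nat_lit 0) (nat_lit 298095993) (nat_lit 228) (nat_lit 3700353840) (nat_lit 76) (nat_lit 2695187520) (nat_lit 55) (nat_lit 5) (nat_lit 58) (nat_lit 5) (nat_lit 56) (nat_lit 5) (nat_lit 245) (nat_lit 240) (nat_lit 235)))))) (XT.nd (nat_lit 468) (nat_lit 1216) (nat_lit 0) (XT.nd (nat_lit 234) (nat_lit 380) (nat_lit 0) (XT.nd (nat_lit 78) (nat_lit 608) (nat_lit 0) (XT.lf (nat_lit 0) (nat_lit 2693864617) (nat_lit 228) (nat_lit 215197176) (nat_lit 76) (nat_lit 3897436789) (nat_lit 55) (nat_lit 5) (nat_lit 58) (nat_lit 5) (nat_lit 56) (nat_lit 5) (nat_lit 246) (nat_lit 240) (nat_lit 234)) (XT.nd (nat_lit 78) (nat_lit 380) (nat_lit 0) (XT.lf (nat_lit 0) (nat_lit 3574340077) (nat_lit 228) (nat_lit 1583176551) (nat_lit 304) (nat_lit 1782204405) (nat_lit 52) (nat_lit 5) (nat_lit 55) (nat_lit 5) (nat_lit 56) (nat_lit 5) (nat_lit 247) (nat_lit 240) (nat_lit 233)) (XT.lf (nat_lit 0)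 (nat_lit 438950884) (nat_lit 304) (nat_lit 71359291) (nat_lit 380) (nat_lit 6588111576) (nat_lit 47) (nat_lit 5) (nat_lit 51) (nat_lit 5) (nat_lit 52) (nat_lit 5) (nat_lit 248) (nat_lit 240) (nat_lit 232)))) (XT.nd (nat_lit 78) (nat_lit 380) (nat_lit 0) (XT.lf (nat_lit 0) (nat_lit 2829905346) (nat_lit 380) (nat_lit 2784337534) (nat_lit 76) (nat_lit 1657810425) (nat_lit 47) (nat_lit 5) (nat_lit 52) (nat_lit 5) (nat_lit 48) (nat_lit 5) (nat_lit 249) (nat_lit 240) (nat_lit 231)) (XT.nd (nat_lit 78) (nat_lit 0) (nat_lit 0) (XT.lf (nat_lit 0) (nat_lit 1302372465) (nat_lit 380) (nat_lit 3888100382) (nat_lit 456) (nat_lit 2281721309) (nat_lit 42) (nat_lit 5) (nat_lit 47) (nat_lit 5) (nat_lit 48) (nat_lit 5) (nat_lit 250) (nat_lit 240) (nat_lit 230)) (XT.lf (nat_lit 0) (nat_lit 5716730993) (nat_lit 380) (nat_lit 1930889678) (nat_lit 456) (nat_lit 49080095) (nat_lit 42) (nat_lit 5) (nat_lit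 47) (nat_lit 5) (nat_lit 48) (nat_lit 5) (nat_lit 251) (nat_lit 240) (nat_lit 229))))) (XT.nd (nat_lit 234) (nat_lit 456) (nat_lit 0) (XT.nd (nat_lit 78) (nat_lit 228) (nat_lit 0) (XT.lf (nat_lit 0) (nat_lit 2149786249) (nat_lit 532) (nat_lit 5495291784) (nat_lit 76) (nat_lit 297917143) (nat_lit 35) (nat_lit 5) (nat_lit 42) (nat_lit 5) (nat_lit 36) (nat_lit 5) (nat_lit 252) (nat_lit 240) (nat_lit 228)) (XT.nd (nat_lit 78) (nat_lit 228) (nat_lit 0) (XT.lf (nat_lit 0) (nat_lit 4475081998) (nat_lit 532) (nat_lit 1079641166) (nat_lit 76) (nat_lit 2658686882) (nat_lit 35) (nat_lit 5) (nat_lit 42) (nat_lit 5) (nat_lit 36) (nat_lit 5) (nat_lit 253) (nat_lit 240) (nat_lit 227)) (XT.lf (nat_lit 0) (nat_lit 3723353898) (nat_lit 228) (nat_lit 3211368987) (nat_lit 304) (nat_lit 1575584894) (nat_lit 32) (nat_lit 5) (nat_lit 35) (nat_lit 5) (nat_lit 36) (nat_lit 5) (nat_lit 254) (nat_lit 240) (nat_lit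 226)))) (XT.nd (nat_lit 156) (nat_lit 228) (nat_lit 0) (XT.nd (nat_lit 78) (nat_lit 152) (nat_lit 0) (XT.lf (nat_lit 0) (nat_lit 613987136) (nat_lit 304) (nat_lit 31872505) (nat_lit 76) (nat_lit 8192901515) (nat_lit 31) (nat_lit 5) (nat_lit 35) (nat_lit 5) (nat_lit 32) (nat_lit 5) (nat_lit 255) (nat_lit 240) (nat_lit 225)) (XT.lf (nat_lit 0) (nat_lit 2944920943) (nat_lit 228) (nat_lit 4069062755) (nat_lit 76) (nat_lit 2172695585) (nat_lit 29) (nat_lit 5) (nat_lit 32) (nat_lit 5) (nat_lit 30) (nat_lit 5) (nat_lit 256) (nat_lit 240) (nat_lit 224))) (XT.nd (nat_lit 78) (nat_lit 0) (nat_lit 0) (XT.lf (nat_lit 0) (nat_lit 1000969016) (nat_lit 228) (nat_lit 4380560295) (nat_lit 304) (nat_lit 4187891397) (nat_lit 26) (nat_lit 5) (nat_lit 29) (nat_lit 5) (nat_lit 30) (nat_lit 5) (nat_lit 257) (nat_lit 240) (nat_lit 223)) (XT.lf (nat_lit 0) (nat_lit 6561011343) (nat_lit 228) (nat_lit 1446309099)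 (nat_lit 304) (nat_lit 1976407563) (nat_lit 26) (nat_lit 5) (nat_lit 29) (nat_lit 5) (nat_lit 30) (nat_lit 5) (nat_lit 258) (nat_lit 240) (nat_lit 222))))))) (XT.nd (nat_lit 1014) (nat_lit 456) (nat_lit 0) (XT.nd (nat_lit 468) (nat_lit 456) (nat_lit 0) (XT.nd (nat_lit 234) (nat_lit 228) (nat_lit 0) (XT.nd (nat_lit 78) (nat_lit 152) (nat_lit 0) (XT.lf (nat_lit 0) (nat_lit 372244996) (nat_lit 228) (nat_lit 8391216427) (nat_lit 76) (nat_lit 1668874434) (nat_lit 23) (nat_lit 5) (nat_lit 26) (nat_lit 5) (nat_lit 24) (nat_lit 5) (nat_lit 259) (nat_lit 240) (nat_lit 221)) (XT.nd (nat_lit 78) (nat_lit 152) (nat_lit 0) (XT.lf (nat_lit 0) (nat_lit 2828169579) (nat_lit 228) (nat_lit 3010909741) (nat_lit 76) (nat_lit 5071940130) (nat_lit 23) (nat_lit 5) (nat_lit 26) (nat_lit 5) (nat_lit 24) (nat_lit 5) (nat_lit 260) (nat_lit 240) (nat_lit 220)) (XT.lf (nat_lit 0) (nat_lit 2804028358) (nat_lit 152)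 (nat_lit 2644510813) (nat_lit 228) (nat_lit 5982378751) (nat_lit 21) (nat_lit 5) (nat_lit 23) (nat_lit 5) (nat_lit 24) (nat_lit 5) (nat_lit 261) (nat_lit 240) (nat_lit 219)))) (XT.nd (nat_lit 78) (nat_lit 228) (nat_lit 0) (XT.lf (nat_lit 0) (nat_lit 8286190176) (nat_lit 228) (nat_lit 2891615255) (nat_lit 76) (nat_lit 814322058) (nat_lit 21) (nat_lit 5) (nat_lit 24) (nat_lit 5) (nat_lit 22) (nat_lit 4) (nat_lit 262) (nat_lit 240) (nat_lit 218)) (XT.nd (nat_lit 78) (nat_lit 76) (nat_lit 0) (XT.lf (nat_lit 0) (nat_lit 3267940281) (nat_lit 152) (nat_lit 8141135156) (nat_lit 228) (nat_lit 1184807432) (nat_lit 19) (nat_lit 5) (nat_lit 21) (nat_lit 5) (nat_lit 22) (nat_lit 4) (nat_lit 263) (nat_lit 240) (nat_lit 217)) (XT.lf (nat_lit 0) (nat_lit 1454205138) (nat_lit 228) (nat_lit 3322737371) (nat_lit 76) (nat_lit 8464689686) (nat_lit 18) (nat_lit 5) (nat_lit 21) (nat_lit 5) (nat_lit 19) (nat_lit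 5) (nat_lit 264) (nat_lit 240) (nat_lit 216))))) (XT.nd (nat_lit 234) (nat_lit 228) (nat_lit 0) (XT.nd (nat_lit 78) (nat_lit 76) (nat_lit 0) (XT.lf (nat_lit 0) (nat_lit 3167133030) (nat_lit 152) (nat_lit 1067896869) (nat_lit 228) (nat_lit 9704377069) (nat_lit 16) (nat_lit 5) (nat_lit 18) (nat_lit 5) (nat_lit 19) (nat_lit 5) (nat_lit 265) (nat_lit 240) (nat_lit 215)) (XT.nd (nat_lit 78) (nat_lit 76) (nat_lit 0) (XT.lf (nat_lit 0) (nat_lit 7322950462) (nat_lit 228) (nat_lit 4517299395) (nat_lit 76) (nat_lit 2846209002) (nat_lit 16) (nat_lit 5) (nat_lit 19) (nat_lit 5) (nat_lit 17) (nat_lit 4) (nat_lit 266) (nat_lit 240) (nat_lit 214)) (XT.lf (nat_lit 0) (nat_lit 2206151646) (nat_lit 76) (nat_lit 8459182552) (nat_lit 152) (nat_lit 4827555157) (nat_lit 15) (nat_lit 5) (nat_lit 16) (nat_lit 5) (nat_lit 17) (nat_lit 4) (nat_lit 267) (nat_lit 240) (nat_lit 213)))) (XT.nd (nat_lit 156) (nat_lit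 0) (nat_lit 0) (XT.nd (nat_lit 78) (nat_lit 228) (nat_lit 0) (XT.lf (nat_lit 0) (nat_lit 9612736928) (nat_lit 76) (nat_lit 4715266088) (nat_lit 152) (nat_lit 2031793074) (nat_lit 15) (nat_lit 5) (nat_lit 16) (nat_lit 5) (nat_lit 17) (nat_lit 4) (nat_lit 268) (nat_lit 240) (nat_lit 212)) (XT.lf (nat_lit 0) (nat_lit 194698829) (nat_lit 152) (nat_lit 680954275) (nat_lit 228) (nat_lit 16423673553) (nat_lit 12) (nat_lit 5) (nat_lit 14) (nat_lit 5) (nat_lit 15) (nat_lit 5) (nat_lit 269) (nat_lit 240) (nat_lit 211))) (XT.nd (nat_lit 78) (nat_lit 0) (nat_lit 0) (XT.lf (nat_lit 0) (nat_lit 4117869311) (nat_lit 228) (nat_lit 10478483629) (nat_lit 76) (nat_lit 3696642794) (nat_lit 12) (nat_lit 5) (nat_lit 15) (nat_lit 5) (nat_lit 13) (nat_lit 4) (nat_lit 270) (nat_lit 240) (nat_lit 210)) (XT.lf (nat_lit 0) (nat_lit 7576284592) (nat_lit 228) (nat_lit 3440634074) (nat_lit 76) (nat_lit 8352836045)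 (nat_lit 12) (nat_lit 5) (nat_lit 15) (nat_lit 5) (nat_lit 13) (nat_lit 4) (nat_lit 271) (nat_lit 240) (nat_lit 209)))))) (XT.nd (nat_lit 546) (nat_lit 152) (nat_lit 0) (XT.nd (nat_lit 234) (nat_lit 228) (nat_lit 0) (XT.nd (nat_lit 78) (nat_lit 0) (nat_lit 0) (XT.lf (nat_lit 0) (nat_lit 4281164779) (nat_lit 76) (nat_lit 7076813630) (nat_lit 152) (nat_lit 9171079163) (nat_lit 11) (nat_lit 5) (nat_lit 12) (nat_lit 5) (nat_lit 13) (nat_lit 4) (nat_lit 272) (nat_lit 240) (nat_lit 208)) (XT.nd (nat_lit 78) (nat_lit 0) (nat_lit 0) (XT.lf (nat_lit 0) (nat_lit 12725500086) (nat_lit 76) (nat_lit 2756412804) (nat_lit 152) (nat_lit 6296137202) (nat_lit 11) (nat_lit 5) (nat_lit 12) (nat_lit 5) (nat_lit 13) (nat_lit 4) (nat_lit 273) (nat_lit 240) (nat_lit 207)) (XT.lf (nat_lit 0) (nat_lit 19930534856) (nat_lit 152) (nat_lit 1414980774) (nat_lit 0) (nat_lit 1781977382) (nat_lit 11) (nat_lit 5) (nat_lit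 13) (nat_lit 4) (nat_lit 11) (nat_lit 4) (nat_lit 274) (nat_lit 240) (nat_lit 206)))) (XT.nd (nat_lit 156) (nat_lit 76) (nat_lit 0) (XT.nd (nat_lit 78) (nat_lit 0) (nat_lit 0) (XT.lf (nat_lit 0) (nat_lit 340937157) (nat_lit 152) (nat_lit 17545343839) (nat_lit 76) (nat_lit 6682554728) (nat_lit 9) (nat_lit 5) (nat_lit 11) (nat_lit 5) (nat_lit 10) (nat_lit 4) (nat_lit 275) (nat_lit 240) (nat_lit 205)) (XT.lf (nat_lit 0) (nat_lit 3981803315) (nat_lit 152) (nat_lit 10070430797) (nat_lit 76) (nat_lit 12067285629) (nat_lit 9) (nat_lit 5) (nat_lit 11) (nat_lit 5) (nat_lit 10) (nat_lit 4) (nat_lit 276) (nat_lit 240) (nat_lit 204))) (XT.nd (nat_lit 78) (nat_lit 76) (nat_lit 0) (XT.lf (nat_lit 0) (nat_lit 7870387867) (nat_lit 152) (nat_lit 2072997678) (nat_lit 76) (nat_lit 17854439932) (nat_lit 9) (nat_lit 5) (nat_lit 11) (nat_lit 5) (nat_lit 10) (nat_lit 4) (nat_lit 277) (nat_lit 240) (nat_lit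 203)) (XT.lf (nat_lit 0) (nat_lit 6836328558) (nat_lit 76) (nat_lit 5357819584) (nat_lit 152) (nat_lit 17406397192) (nat_lit 8) (nat_lit 5) (nat_lit 9) (nat_lit 5) (nat_lit 10) (nat_lit 4) (nat_lit 278) (nat_lit 240) (nat_lit 202))))) (XT.nd (nat_lit 234) (nat_lit 76) (nat_lit 0) (XT.nd (nat_lit 78) (nat_lit 76) (nat_lit 0) (XT.lf (nat_lit 0) (nat_lit 16508180908) (nat_lit 76) (nat_lit 373331762) (nat_lit 152) (nat_lit 14664624931) (nat_lit 8) (nat_lit 5) (nat_lit 9) (nat_lit 5) (nat_lit 10) (nat_lit 4) (nat_lit 279) (nat_lit 240) (nat_lit 201)) (XT.nd (nat_lit 78) (nat_lit 76) (nat_lit 0) (XT.lf (nat_lit 0) (nat_lit 22027617207) (nat_lit 152) (nat_lit 6879456256) (nat_lit 0) (nat_lit 4733669547) (nat_lit 8) (nat_lit 5) (nat_lit 10) (nat_lit 4) (nat_lit 8) (nat_lit 4) (nat_lit 280) (nat_lit 240) (nat_lit 200)) (XT.lf (nat_lit 0) (nat_lit 1959520948) (nat_lit 76) (nat_lit 25648696193)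 (nat_lit 76) (nat_lit 8292936097) (nat_lit 7) (nat_lit 4) (nat_lit 8) (nat_lit 5) (nat_lit 8) (nat_lit 4) (nat_lit 281) (nat_lit 240) (nat_lit 199)))) (XT.nd (nat_lit 156) (nat_lit 76) (nat_lit 0) (XT.nd (nat_lit 78) (nat_lit 0) (nat_lit 0) (XT.lf (nat_lit 0) (nat_lit 11837859982) (nat_lit 76) (nat_lit 21952586048) (nat_lit 76) (nat_lit 4539592216) (nat_lit 7) (nat_lit 4) (nat_lit 8) (nat_lit 5) (nat_lit 8) (nat_lit 4) (nat_lit 282) (nat_lit 240) (nat_lit 198)) (XT.lf (nat_lit 0) (nat_lit 22451839175) (nat_lit 76) (nat_lit 17984936680) (nat_lit 76) (nat_lit 518948646) (nat_lit 7) (nat_lit 4) (nat_lit 8) (nat_lit 5) (nat_lit 8) (nat_lit 4) (nat_lit 283) (nat_lit 240) (nat_lit 197))) (XT.nd (nat_lit 78) (nat_lit 0) (nat_lit 0) (XT.lf (nat_lit 0) (nat_lit 3603088397) (nat_lit 152) (nat_lit 10020632870) (nat_lit 76) (nat_lit 30162752963) (nat_lit 6) (nat_lit 5) (nat_lit 8) (nat_lit 5) (nat_lit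 7) (nat_lit 4) (nat_lit 284) (nat_lit 240) (nat_lit 196)) (XT.lf (nat_lit 0) (nat_lit 8000001015) (nat_lit 152) (nat_lit 920488612) (nat_lit 76) (nat_lit 37924305514) (nat_lit 6) (nat_lit 5) (nat_lit 8) (nat_lit 5) (nat_lit 7) (nat_lit 4) (nat_lit 285) (nat_lit 240) (nat_lit 195))))))))
noncomputable def xc51 : XT := (XT.nd (nat_lit 2028) (nat_lit 76) (nat_lit 0) (XT.nd (nat_lit 1014) (nat_lit 76) (nat_lit 0) (XT.nd (nat_lit 468) (nat_lit 76) (nat_lit 0) (XT.nd (nat_lit 234) (nat_lit 76) (nat_lit 0) (XT.nd (nat_lit 78) (nat_lit 0) (nat_lit 0) (XT.lf (nat_lit 0) (nat_lit 9329662457) (nat_lit 76) (nat_lit 3618521045) (nat_lit 152) (nat_lit 37183675282) (nat_lit 5) (nat_lit 5) (nat_lit 6) (nat_lit 5) (nat_lit 7) (nat_lit 4) (nat_lit 286) (nat_lit 240) (nat_lit 194)) (XT.nd (nat_lit 78) (nat_lit 0) (nat_lit 0) (XT.lf (nat_lit 0) (nat_lit 18344192535) (nat_lit 152) (nat_lit 33324113176)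 (nat_lit 0) (nat_lit 2009459619) (nat_lit 5) (nat_lit 5) (nat_lit 7) (nat_lit 4) (nat_lit 5) (nat_lit 4) (nat_lit 287) (nat_lit 240) (nat_lit 193)) (XT.lf (nat_lit 0) (nat_lit 24243149936) (nat_lit 152) (nat_lit 25383504296) (nat_lit 0) (nat_lit 7875021684) (nat_lit 5) (nat_lit 5) (nat_lit 7) (nat_lit 4) (nat_lit 5) (nat_lit 4) (nat_lit 288) (nat_lit 240) (nat_lit 192)))) (XT.nd (nat_lit 78) (nat_lit 76) (nat_lit 0) (XT.lf (nat_lit 0) (nat_lit 30592986974) (nat_lit 152) (nat_lit 16846288710) (nat_lit 0) (nat_lit 14193937114) (nat_lit 5) (nat_lit 5) (nat_lit 7) (nat_lit 4) (nat_lit 5) (nat_lit 4) (nat_lit 289) (nat_lit 240) (nat_lit 191)) (XT.nd (nat_lit 78) (nat_lit 76) (nat_lit 0) (XT.lf (nat_lit 0) (nat_lit 37431332311) (nat_lit 152) (nat_lit 7661875511) (nat_lit 0) (nat_lit 21003651334) (nat_lit 5) (nat_lit 5) (nat_lit 7) (nat_lit 4) (nat_lit 5) (nat_lit 4) (nat_lit 290) (nat_lit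 240) (nat_lit 190)) (XT.lf (nat_lit 0) (nat_lit 2341281854) (nat_lit 76) (nat_lit 42513735507) (nat_lit 76) (nat_lit 26059544235) (nat_lit 4) (nat_lit 4) (nat_lit 5) (nat_lit 5) (nat_lit 5) (nat_lit 4) (nat_lit 291) (nat_lit 240) (nat_lit 189))))) (XT.nd (nat_lit 234) (nat_lit 76) (nat_lit 0) (XT.nd (nat_lit 78) (nat_lit 0) (nat_lit 0) (XT.lf (nat_lit 0) (nat_lit 13548138883) (nat_lit 76) (nat_lit 39516471182) (nat_lit 76) (nat_lit 23037733342) (nat_lit 4) (nat_lit 4) (nat_lit 5) (nat_lit 5) (nat_lit 5) (nat_lit 4) (nat_lit 292) (nat_lit 240) (nat_lit 188)) (XT.nd (nat_lit 78) (nat_lit 0) (nat_lit 0) (XT.lf (nat_lit 0) (nat_lit 25621645796) (nat_lit 76) (nat_lit 36293142537) (nat_lit 76) (nat_lit 19791676392) (nat_lit 4) (nat_lit 4) (nat_lit 5) (nat_lit 5) (nat_lit 5) (nat_lit 4) (nat_lit 293) (nat_lit 240) (nat_lit 187)) (XT.lf (nat_lit 0) (nat_lit 38633349298) (nat_lit 76) (nat_lit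 32824648364) (nat_lit 76) (nat_lit 16302137493) (nat_lit 4) (nat_lit 4) (nat_lit 5) (nat_lit 5) (nat_lit 5) (nat_lit 4) (nat_lit 294) (nat_lit 240) (nat_lit 186)))) (XT.nd (nat_lit 156) (nat_lit 76) (nat_lit 0) (XT.nd (nat_lit 78) (nat_lit 0) (nat_lit 0) (XT.lf (nat_lit 0) (nat_lit 52660355782) (nat_lit 76) (nat_lit 29090434624) (nat_lit 76) (nat_lit 12548437895) (nat_lit 4) (nat_lit 4) (nat_lit 5) (nat_lit 5) (nat_lit 5) (nat_lit 4) (nat_lit 295) (nat_lit 240) (nat_lit 185)) (XT.lf (nat_lit 0) (nat_lit 67785788248) (nat_lit 76) (nat_lit 25068372642) (nat_lit 76) (nat_lit 8508333453) (nat_lit 4) (nat_lit 4) (nat_lit 5) (nat_lit 5) (nat_lit 5) (nat_lit 4) (nat_lit 296) (nat_lit 240) (nat_lit 184))) (XT.nd (nat_lit 78) (nat_lit 76) (nat_lit 0) (XT.lf (nat_lit 0) (nat_lit 84099278890) (nat_lit 76) (nat_lit 20734627978) (nat_lit 76) (nat_lit 4157882806) (nat_lit 4) (nat_lit 4) (nat_lit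 5) (nat_lit 5) (nat_lit 5) (nat_lit 4) (nat_lit 297) (nat_lit 240) (nat_lit 183)) (XT.lf (nat_lit 0) (nat_lit 502247052) (nat_lit 152) (nat_lit 15547539805) (nat_lit 76) (nat_lit 101181520867) (nat_lit 3) (nat_lit 5) (nat_lit 5) (nat_lit 5) (nat_lit 4) (nat_lit 4) (nat_lit 298) (nat_lit 240) (nat_lit 182)))))) (XT.nd (nat_lit 468) (nat_lit 0) (nat_lit 0) (XT.nd (nat_lit 234) (nat_lit 0) (nat_lit 0) (XT.nd (nat_lit 78) (nat_lit 76) (nat_lit 0) (XT.lf (nat_lit 0) (nat_lit 5300078035) (nat_lit 152) (nat_lit 5582374046) (nat_lit 76) (nat_lit 115239746504) (nat_lit 3) (nat_lit 5) (nat_lit 5) (nat_lit 5) (nat_lit 4) (nat_lit 4) (nat_lit 299) (nat_lit 240) (nat_lit 181)) (XT.nd (nat_lit 78) (nat_lit 0) (nat_lit 0) (XT.lf (nat_lit 0) (nat_lit 5433860201) (nat_lit 76) (nat_lit 5168860139) (nat_lit 152) (nat_lit 125111973697) (nat_lit 2) (nat_lit 5) (nat_lit 3) (nat_lit 5) (nat_lit 4) (nat_lit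 4) (nat_lit 300) (nat_lit 240) (nat_lit 180)) (XT.lf (nat_lit 0) (nat_lit 16500666861) (nat_lit 152) (nat_lit 128459650951) (nat_lit 0) (nat_lit 1100595098) (nat_lit 2) (nat_lit 5) (nat_lit 4) (nat_lit 4) (nat_lit 2) (nat_lit 4) (nat_lit 301) (nat_lit 240) (nat_lit 179)))) (XT.nd (nat_lit 78) (nat_lit 0) (nat_lit 0) (XT.lf (nat_lit 0) (nat_lit 22995818718) (nat_lit 152) (nat_lit 126643772034) (nat_lit 0) (nat_lit 7585219352) (nat_lit 2) (nat_lit 5) (nat_lit 4) (nat_lit 4) (nat_lit 2) (nat_lit 4) (nat_lit 302) (nat_lit 240) (nat_lit 178)) (XT.nd (nat_lit 78) (nat_lit 0) (nat_lit 0) (XT.lf (nat_lit 0) (nat_lit 30002354490) (nat_lit 152) (nat_lit 124698125111) (nat_lit 0) (nat_lit 14582007344) (nat_lit 2) (nat_lit 5) (nat_lit 4) (nat_lit 4) (nat_lit 2) (nat_lit 4) (nat_lit 303) (nat_lit 240) (nat_lit 177)) (XT.lf (nat_lit 0) (nat_lit 37561794388) (nat_lit 152) (nat_lit 122611180422) (nat_lit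 0) (nat_lit 22132421520) (nat_lit 2) (nat_lit 5) (nat_lit 4) (nat_lit 4) (nat_lit 2) (nat_lit 4) (nat_lit 304) (nat_lit 240) (nat_lit 176))))) (XT.nd (nat_lit 234) (nat_lit 0) (nat_lit 0) (XT.nd (nat_lit 78) (nat_lit 0) (nat_lit 0) (XT.lf (nat_lit 0) (nat_lit 45718935095) (nat_lit 152) (nat_lit 120370570888) (nat_lit 0) (nat_lit 30281205076) (nat_lit 2) (nat_lit 5) (nat_lit 4) (nat_lit 4) (nat_lit 2) (nat_lit 4) (nat_lit 305) (nat_lit 240) (nat_lit 175)) (XT.nd (nat_lit 78) (nat_lit 0) (nat_lit 0) (XT.lf (nat_lit 0) (nat_lit 54522115221) (nat_lit 152) (nat_lit 117963018823) (nat_lit 0) (nat_lit 39076647100) (nat_lit 2) (nat_lit 5) (nat_lit 4) (nat_lit 4) (nat_lit 2) (nat_lit 4) (nat_lit 306) (nat_lit 240) (nat_lit 174)) (XT.lf (nat_lit 0) (nat_lit 64023501760) (nat_lit 152) (nat_lit 115374257251) (nat_lit 0) (nat_lit 48570868730) (nat_lit 2) (nat_lit 5) (nat_lit 4) (nat_lit 4) (nat_lit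 2) (nat_lit 4) (nat_lit 307) (nat_lit 240) (nat_lit 173)))) (XT.nd (nat_lit 156) (nat_lit 0) (nat_lit 0) (XT.nd (nat_lit 78) (nat_lit 0) (nat_lit 0) (XT.lf (nat_lit 0) (nat_lit 74279399225) (nat_lit 152) (nat_lit 112588945363) (nat_lit 0) (nat_lit 58820132019) (nat_lit 2) (nat_lit 5) (nat_lit 4) (nat_lit 4) (nat_lit 2) (nat_lit 4) (nat_lit 308) (nat_lit 240) (nat_lit 172)) (XT.lf (nat_lit 0) (nat_lit 85350583303) (nat_lit 152) (nat_lit 109590577607) (nat_lit 0) (nat_lit 69885173342) (nat_lit 2) (nat_lit 5) (nat_lit 4) (nat_lit 4) (nat_lit 2) (nat_lit 4) (nat_lit 309) (nat_lit 240) (nat_lit 171))) (XT.nd (nat_lit 78) (nat_lit 0) (nat_lit 0) (XT.lf (nat_lit 0) (nat_lit 97302661013) (nat_lit 152) (nat_lit 106361385879) (nat_lit 0) (nat_lit 81831563316) (nat_lit 2) (nat_lit 5) (nat_lit 4) (nat_lit 4) (nat_lit 2) (nat_lit 4) (nat_lit 310) (nat_lit 240) (nat_lit 170)) (XT.lf (nat_lit 0) (nat_lit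 110206459481) (nat_lit 152) (nat_lit 102882234226) (nat_lit 0) (nat_lit 94730095362) (nat_lit 2) (nat_lit 5) (nat_lit 4) (nat_lit 4) (nat_lit 2) (nat_lit 4) (nat_lit 311) (nat_lit 240) (nat_lit 169))))))) (XT.nd (nat_lit 1014) (nat_lit 76) (nat_lit 0) (XT.nd (nat_lit 468) (nat_lit 0) (nat_lit 0) (XT.nd (nat_lit 234) (nat_lit 0) (nat_lit 0) (XT.nd (nat_lit 78) (nat_lit 0) (nat_lit 0) (XT.lf (nat_lit 0) (nat_lit 124138445661) (nat_lit 152) (nat_lit 99132505454) (nat_lit 0) (nat_lit 108657205225) (nat_lit 2) (nat_lit 5) (nat_lit 4) (nat_lit 4) (nat_lit 2) (nat_lit 4) (nat_lit 312) (nat_lit 240) (nat_lit 168)) (XT.nd (nat_lit 78) (nat_lit 0) (nat_lit 0) (XT.lf (nat_lit 0) (nat_lit 139181179471) (nat_lit 152) (nat_lit 95089978948) (nat_lit 0) (nat_lit 123695423927) (nat_lit 2) (nat_lit 5) (nat_lit 4) (nat_lit 4) (nat_lit 2) (nat_lit 4) (nat_lit 313) (nat_lit 240) (nat_lit 167)) (XT.lf (nat_lit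 0) (nat_lit 155423803038) (nat_lit 152) (nat_lit 90730698995) (nat_lit 0) (nat_lit 139933866837) (nat_lit 2) (nat_lit 5) (nat_lit 4) (nat_lit 4) (nat_lit 2) (nat_lit 4) (nat_lit 314) (nat_lit 240) (nat_lit 166)))) (XT.nd (nat_lit 78) (nat_lit 0) (nat_lit 0) (XT.lf (nat_lit 0) (nat_lit 172962568945) (nat_lit 152) (nat_lit 86028832826) (nat_lit 0) (nat_lit 157468761767) (nat_lit 2) (nat_lit 5) (nat_lit 4) (nat_lit 4) (nat_lit 2) (nat_lit 4) (nat_lit 315) (nat_lit 240) (nat_lit 165)) (XT.nd (nat_lit 78) (nat_lit 0) (nat_lit 0) (XT.lf (nat_lit 0) (nat_lit 191901410621) (nat_lit 152) (nat_lit 80956517529) (nat_lit 0) (nat_lit 176404019204) (nat_lit 2) (nat_lit 5) (nat_lit 4) (nat_lit 4) (nat_lit 2) (nat_lit 4) (nat_lit 316) (nat_lit 240) (nat_lit 164)) (XT.lf (nat_lit 0) (nat_lit 212352558237) (nat_lit 152) (nat_lit 75483694941) (nat_lit 0) (nat_lit 196851848081) (nat_lit 2) (nat_lit 5)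 (nat_lit 4) (nat_lit 4) (nat_lit 2) (nat_lit 4) (nat_lit 317) (nat_lit 240) (nat_lit 163))))) (XT.nd (nat_lit 234) (nat_lit 0) (nat_lit 0) (XT.nd (nat_lit 78) (nat_lit 0) (nat_lit 0) (XT.lf (nat_lit 0) (nat_lit 234437203781) (nat_lit 152) (nat_lit 69577933519) (nat_lit 0) (nat_lit 218933420718) (nat_lit 2) (nat_lit 5) (nat_lit 4) (nat_lit 4) (nat_lit 2) (nat_lit 4) (nat_lit 318) (nat_lit 240) (nat_lit 162)) (XT.nd (nat_lit 78) (nat_lit 0) (nat_lit 0) (XT.lf (nat_lit 0) (nat_lit 258286219225) (nat_lit 152) (nat_lit 63204236159) (nat_lit 0) (nat_lit 242779590878) (nat_lit 2) (nat_lit 5) (nat_lit 4) (nat_lit 4) (nat_lit 2) (nat_lit 4) (nat_lit 319) (nat_lit 240) (nat_lit 161)) (XT.lf (nat_lit 0) (nat_lit 284040932068) (nat_lit 152) (nat_lit 56324832802) (nat_lit 0) (nat_lit 268531669199) (nat_lit 2) (nat_lit 5) (nat_lit 4) (nat_lit 4) (nat_lit 2) (nat_lit 4) (nat_lit 320) (nat_lit 240)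 (nat_lit 160)))) (XT.nd (nat_lit 156) (nat_lit 0) (nat_lit 0) (XT.nd (nat_lit 78) (nat_lit 0) (nat_lit 0) (XT.lf (nat_lit 0) (nat_lit 311853962832) (nat_lit 152) (nat_lit 48898956614) (nat_lit 0) (nat_lit 296342260590) (nat_lit 2) (nat_lit 5) (nat_lit 4) (nat_lit 4) (nat_lit 2) (nat_lit 4) (nat_lit 321) (nat_lit 240) (nat_lit 159)) (XT.lf (nat_lit 0) (nat_lit 341890129475) (nat_lit 152) (nat_lit 40882602403) (nat_lit 0) (nat_lit 326376168555) (nat_lit 2) (nat_lit 5) (nat_lit 4) (nat_lit 4) (nat_lit 2) (nat_lit 4) (nat_lit 322) (nat_lit 240) (nat_lit 158))) (XT.nd (nat_lit 78) (nat_lit 0) (nat_lit 0) (XT.lf (nat_lit 0) (nat_lit 374327424097) (nat_lit 152) (nat_lit 32228265847) (nat_lit 0) (nat_lit 358811371808) (nat_lit 2) (nat_lit 5) (nat_lit 4) (nat_lit 4) (nat_lit 2) (nat_lit 4) (nat_lit 323) (nat_lit 240) (nat_lit 157)) (XT.lf (nat_lit 0) (nat_lit 409358067704) (nat_lit 152) (nat_lit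 22884661990) (nat_lit 0) (nat_lit 393840078962) (nat_lit 2) (nat_lit 5) (nat_lit 4) (nat_lit 4) (nat_lit 2) (nat_lit 4) (nat_lit 324) (nat_lit 240) (nat_lit 156)))))) (XT.nd (nat_lit 546) (nat_lit 0) (nat_lit 0) (XT.nd (nat_lit 234) (nat_lit 0) (nat_lit 0) (XT.nd (nat_lit 78) (nat_lit 76) (nat_lit 0) (XT.lf (nat_lit 0) (nat_lit 447189649293) (nat_lit 152) (nat_lit 12796421325) (nat_lit 0) (nat_lit 431669867540) (nat_lit 2) (nat_lit 5) (nat_lit 4) (nat_lit 4) (nat_lit 2) (nat_lit 4) (nat_lit 325) (nat_lit 240) (nat_lit 155)) (XT.nd (nat_lit 78) (nat_lit 76) (nat_lit 0) (XT.lf (nat_lit 0) (nat_lit 488046356015) (nat_lit 152) (nat_lit 1903761688) (nat_lit 0) (nat_lit 472524914066) (nat_lit 2) (nat_lit 5) (nat_lit 4) (nat_lit 4) (nat_lit 2) (nat_lit 4) (nat_lit 326) (nat_lit 240) (nat_lit 154)) (XT.lf (nat_lit 0) (nat_lit 10376963771) (nat_lit 76) (nat_lit 522042904146) (nat_lit 76) (nat_lit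 506519924978) (nat_lit 1) (nat_lit 4) (nat_lit 2) (nat_lit 5) (nat_lit 2) (nat_lit 4) (nat_lit 327) (nat_lit 240) (nat_lit 153)))) (XT.nd (nat_lit 156) (nat_lit 0) (nat_lit 0) (XT.nd (nat_lit 78) (nat_lit 0) (nat_lit 0) (XT.lf (nat_lit 0) (nat_lit 23746033069) (nat_lit 76) (nat_lit 556648021143) (nat_lit 76) (nat_lit 541123618625) (nat_lit 1) (nat_lit 4) (nat_lit 2) (nat_lit 5) (nat_lit 2) (nat_lit 4) (nat_lit 328) (nat_lit 240) (nat_lit 152)) (XT.lf (nat_lit 0) (nat_lit 38182421603) (nat_lit 76) (nat_lit 594022588275) (nat_lit 76) (nat_lit 578496867840) (nat_lit 1) (nat_lit 4) (nat_lit 2) (nat_lit 5) (nat_lit 2) (nat_lit 4) (nat_lit 329) (nat_lit 240) (nat_lit 151))) (XT.nd (nat_lit 78) (nat_lit 0) (nat_lit 0) (XT.lf (nat_lit 0) (nat_lit 53771678343) (nat_lit 76) (nat_lit 634388084457) (nat_lit 76) (nat_lit 618861143728) (nat_lit 1) (nat_lit 4) (nat_lit 2) (nat_lit 5) (nat_lit 2) (nat_lit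 4) (nat_lit 330) (nat_lit 240) (nat_lit 150)) (XT.lf (nat_lit 0) (nat_lit 70606184068) (nat_lit 76) (nat_lit 677983712630) (nat_lit 76) (nat_lit 662455642000) (nat_lit 1) (nat_lit 4) (nat_lit 2) (nat_lit 5) (nat_lit 2) (nat_lit 4) (nat_lit 331) (nat_lit 240) (nat_lit 149))))) (XT.nd (nat_lit 234) (nat_lit 0) (nat_lit 0) (XT.nd (nat_lit 78) (nat_lit 0) (nat_lit 0) (XT.lf (nat_lit 0) (nat_lit 88785698813) (nat_lit 76) (nat_lit 725067817257) (nat_lit 76) (nat_lit 709538700422) (nat_lit 1) (nat_lit 4) (nat_lit 2) (nat_lit 5) (nat_lit 2) (nat_lit 4) (nat_lit 332) (nat_lit 240) (nat_lit 148)) (XT.nd (nat_lit 78) (nat_lit 0) (nat_lit 0) (XT.lf (nat_lit 0) (nat_lit 108417953036) (nat_lit 76) (nat_lit 775919415254) (nat_lit 76) (nat_lit 760389329711) (nat_lit 1) (nat_lit 4) (nat_lit 2) (nat_lit 5) (nat_lit 2) (nat_lit 4) (nat_lit 333) (nat_lit 240) (nat_lit 147)) (XT.lf (nat_lit 0) (nat_lit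 129619286020) (nat_lit 76) (nat_lit 830839849425) (nat_lit 76) (nat_lit 815308866929) (nat_lit 1) (nat_lit 4) (nat_lit 2) (nat_lit 5) (nat_lit 2) (nat_lit 4) (nat_lit 334) (nat_lit 240) (nat_lit 146)))) (XT.nd (nat_lit 156) (nat_lit 0) (nat_lit 0) (XT.nd (nat_lit 78) (nat_lit 0) (nat_lit 0) (XT.lf (nat_lit 0) (nat_lit 152515335296) (nat_lit 76) (nat_lit 890154574193) (nat_lit 76) (nat_lit 874622761186) (nat_lit 1) (nat_lit 4) (nat_lit 2) (nat_lit 5) (nat_lit 2) (nat_lit 4) (nat_lit 335) (nat_lit 240) (nat_lit 145)) (XT.lf (nat_lit 0) (nat_lit 177241781154) (nat_lit 76) (nat_lit 954215084225) (nat_lit 76) (nat_lit 938682502226) (nat_lit 1) (nat_lit 4) (nat_lit 2) (nat_lit 5) (nat_lit 2) (nat_lit 4) (nat_lit 336) (nat_lit 240) (nat_lit 144))) (XT.nd (nat_lit 78) (nat_lit 0) (nat_lit 0) (XT.lf (nat_lit 0) (nat_lit 203945150681) (nat_lit 76) (nat_lit 1023400997357) (nat_lit 76) (nat_lit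 1007867703329) (nat_lit 1) (nat_lit 4) (nat_lit 2) (nat_lit 5) (nat_lit 2) (nat_lit 4) (nat_lit 337) (nat_lit 240) (nat_lit 143)) (XT.lf (nat_lit 0) (nat_lit 232783686067) (nat_lit 76) (nat_lit 1098122304187) (nat_lit 76) (nat_lit 1082588350871) (nat_lit 1) (nat_lit 4) (nat_lit 2) (nat_lit 5) (nat_lit 2) (nat_lit 4) (nat_lit 338) (nat_lit 240) (nat_lit 142))))))))
noncomputable def xc52 : XT := (XT.nd (nat_lit 31668) (nat_lit 0) (nat_lit 304) (XT.nd (nat_lit 30654) (nat_lit 0) (nat_lit 1520) (XT.nd (nat_lit 30108) (nat_lit 0) (nat_lit 3496) (XT.nd (nat_lit 29874) (nat_lit 0) (nat_lit 4256) (XT.nd (nat_lit 78) (nat_lit 0) (nat_lit 0) (XT.lf (nat_lit 0) (nat_lit 263928282337) (nat_lit 76) (nat_lit 1178821797642) (nat_lit 76) (nat_lit 1163287233876) (nat_lit 1) (nat_lit 4) (nat_lit 2) (nat_lit 5) (nat_lit 2) (nat_lit 4) (nat_lit 339) (nat_lit 240) (nat_lit 141)) (XT.nd (nat_lit 78) (nat_lit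 0) (nat_lit 0) (XT.lf (nat_lit 0) (nat_lit 297563500060) (nat_lit 76) (nat_lit 1265977696944) (nat_lit 76) (nat_lit 1250442567946) (nat_lit 1) (nat_lit 4) (nat_lit 2) (nat_lit 5) (nat_lit 2) (nat_lit 4) (nat_lit 340) (nat_lit 240) (nat_lit 140)) (XT.lf (nat_lit 0) (nat_lit 333888659047) (nat_lit 76) (nat_lit 1360106481496) (nat_lit 76) (nat_lit 1344570829135) (nat_lit 1) (nat_lit 4) (nat_lit 2) (nat_lit 5) (nat_lit 2) (nat_lit 4) (nat_lit 341) (nat_lit 240) (nat_lit 139)))) (XT.nd (nat_lit 78) (nat_lit 228) (nat_lit 0) (XT.lf (nat_lit 0) (nat_lit 1378874785) (nat_lit 0) (nat_lit 1378874785) (nat_lit 76) (nat_lit 476645911) (nat_lit 60) (nat_lit 5) (nat_lit 60) (nat_lit 3) (nat_lit 61) (nat_lit 0) (nat_lit 241) (nat_lit 241) (nat_lit 238)) (XT.nd (nat_lit 78) (nat_lit 0) (nat_lit 0) (XT.lf (nat_lit 0) (nat_lit 1563636797) (nat_lit 228) (nat_lit 782207874) (nat_lit 228) (nat_lit 4163721525)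 (nat_lit 57) (nat_lit 3) (nat_lit 60) (nat_lit 3) (nat_lit 60) (nat_lit 5) (nat_lit 242) (nat_lit 241) (nat_lit 237)) (XT.lf (nat_lit 76) (nat_lit 2336731256) (nat_lit 0) (nat_lit 1699217332) (nat_lit 228) (nat_lit 2533177085) (nat_lit 58) (nat_lit 5) (nat_lit 57) (nat_lit 3) (nat_lit 60) (nat_lit 5) (nat_lit 243) (nat_lit 241) (nat_lit 236))))) (XT.nd (nat_lit 234) (nat_lit 608) (nat_lit 0) (XT.nd (nat_lit 78) (nat_lit 152) (nat_lit 0) (XT.lf (nat_lit 76) (nat_lit 5616788838) (nat_lit 0) (nat_lit 875348520) (nat_lit 228) (nat_lit 160226674) (nat_lit 58) (nat_lit 5) (nat_lit 57) (nat_lit 3) (nat_lit 60) (nat_lit 5) (nat_lit 244) (nat_lit 241) (nat_lit 235)) (XT.nd (nat_lit 78) (nat_lit 0) (nat_lit 0) (XT.lf (nat_lit 0) (nat_lit 2118979634) (nat_lit 228) (nat_lit 4418314038) (nat_lit 76) (nat_lit 214961289) (nat_lit 55) (nat_lit 5) (nat_lit 58) (nat_lit 5) (nat_lit 56) (nat_lit 5) (nat_lit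 245) (nat_lit 241) (nat_lit 234)) (XT.lf (nat_lit 0) (nat_lit 4413911207) (nat_lit 228) (nat_lit 1006828003) (nat_lit 76) (nat_lit 1453131480) (nat_lit 55) (nat_lit 5) (nat_lit 58) (nat_lit 5) (nat_lit 56) (nat_lit 5) (nat_lit 246) (nat_lit 241) (nat_lit 233)))) (XT.nd (nat_lit 156) (nat_lit 304) (nat_lit 0) (XT.nd (nat_lit 78) (nat_lit 76) (nat_lit 0) (XT.lf (nat_lit 0) (nat_lit 2669217824) (nat_lit 228) (nat_lit 4093209543) (nat_lit 304) (nat_lit 254513252) (nat_lit 52) (nat_lit 5) (nat_lit 55) (nat_lit 5) (nat_lit 56) (nat_lit 5) (nat_lit 247) (nat_lit 241) (nat_lit 232)) (XT.lf (nat_lit 0) (nat_lit 1860125736) (nat_lit 304) (nat_lit 673908975) (nat_lit 76) (nat_lit 4647329477) (nat_lit 51) (nat_lit 5) (nat_lit 55) (nat_lit 5) (nat_lit 52) (nat_lit 5) (nat_lit 248) (nat_lit 241) (nat_lit 231))) (XT.nd (nat_lit 78) (nat_lit 0) (nat_lit 0) (XT.lf (nat_lit 0) (nat_lit 3314695823) (nat_lit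 304) (nat_lit 720146327) (nat_lit 380) (nat_lit 3332249252) (nat_lit 47) (nat_lit 5) (nat_lit 51) (nat_lit 5) (nat_lit 52) (nat_lit 5) (nat_lit 249) (nat_lit 241) (nat_lit 230)) (XT.lf (nat_lit 0) (nat_lit 6267632137) (nat_lit 380) (nat_lit 85511385) (nat_lit 76) (nat_lit 1224778858) (nat_lit 47) (nat_lit 5) (nat_lit 52) (nat_lit 5) (nat_lit 48) (nat_lit 5) (nat_lit 250) (nat_lit 241) (nat_lit 229)))))) (XT.nd (nat_lit 468) (nat_lit 608) (nat_lit 0) (XT.nd (nat_lit 234) (nat_lit 456) (nat_lit 0) (XT.nd (nat_lit 78) (nat_lit 456) (nat_lit 0) (XT.lf (nat_lit 0) (nat_lit 796669891) (nat_lit 456) (nat_lit 3575029694) (nat_lit 76) (nat_lit 3435719280) (nat_lit 41) (nat_lit 5) (nat_lit 47) (nat_lit 5) (nat_lit 42) (nat_lit 5) (nat_lit 251) (nat_lit 241) (nat_lit 228)) (XT.nd (nat_lit 78) (nat_lit 0) (nat_lit 0) (XT.lf (nat_lit 0) (nat_lit 702797803) (nat_lit 456) (nat_lit 2168987273) (nat_lit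 532) (nat_lit 5191908902) (nat_lit 35) (nat_lit 5) (nat_lit 41) (nat_lit 5) (nat_lit 42) (nat_lit 5) (nat_lit 252) (nat_lit 241) (nat_lit 227)) (XT.lf (nat_lit 0) (nat_lit 5077019863) (nat_lit 532) (nat_lit 2966237536) (nat_lit 76) (nat_lit 300800263) (nat_lit 35) (nat_lit 5) (nat_lit 42) (nat_lit 5) (nat_lit 36) (nat_lit 5) (nat_lit 253) (nat_lit 241) (nat_lit 226)))) (XT.nd (nat_lit 78) (nat_lit 228) (nat_lit 0) (XT.lf (nat_lit 0) (nat_lit 1666108586) (nat_lit 228) (nat_lit 5758207991) (nat_lit 304) (nat_lit 1225944816) (nat_lit 32) (nat_lit 5) (nat_lit 35) (nat_lit 5) (nat_lit 36) (nat_lit 5) (nat_lit 254) (nat_lit 241) (nat_lit 225)) (XT.nd (nat_lit 78) (nat_lit 152) (nat_lit 0) (XT.lf (nat_lit 0) (nat_lit 884505104) (nat_lit 304) (nat_lit 2307021063) (nat_lit 76) (nat_lit 5791719462) (nat_lit 31) (nat_lit 5) (nat_lit 35) (nat_lit 5) (nat_lit 32) (nat_lit 5) (nat_lit 255) (nat_lit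 241) (nat_lit 224)) (XT.lf (nat_lit 0) (nat_lit 2714287773) (nat_lit 152) (nat_lit 329850985) (nat_lit 228) (nat_lit 6300981816) (nat_lit 29) (nat_lit 5) (nat_lit 31) (nat_lit 5) (nat_lit 32) (nat_lit 5) (nat_lit 256) (nat_lit 241) (nat_lit 223))))) (XT.nd (nat_lit 234) (nat_lit 380) (nat_lit 0) (XT.nd (nat_lit 78) (nat_lit 228) (nat_lit 0) (XT.lf (nat_lit 0) (nat_lit 5394189978) (nat_lit 228) (nat_lit 1670079810) (nat_lit 76) (nat_lit 2670750862) (nat_lit 29) (nat_lit 5) (nat_lit 32) (nat_lit 5) (nat_lit 30) (nat_lit 5) (nat_lit 257) (nat_lit 241) (nat_lit 222)) (XT.nd (nat_lit 78) (nat_lit 0) (nat_lit 0) (XT.lf (nat_lit 0) (nat_lit 3736579618) (nat_lit 228) (nat_lit 4189037079) (nat_lit 304) (nat_lit 2231477142) (nat_lit 26) (nat_lit 5) (nat_lit 29) (nat_lit 5) (nat_lit 30) (nat_lit 5) (nat_lit 258) (nat_lit 241) (nat_lit 221)) (XT.lf (nat_lit 0) (nat_lit 9544719177) (nat_lit 228)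 (nat_lit 1060191568) (nat_lit 304) (nat_lit 12811310) (nat_lit 26) (nat_lit 5) (nat_lit 29) (nat_lit 5) (nat_lit 30) (nat_lit 5) (nat_lit 259) (nat_lit 241) (nat_lit 220)))) (XT.nd (nat_lit 156) (nat_lit 152) (nat_lit 0) (XT.nd (nat_lit 78) (nat_lit 0) (nat_lit 0) (XT.lf (nat_lit 0) (nat_lit 2342566161) (nat_lit 228) (nat_lit 6407996941) (nat_lit 76) (nat_lit 2354134289) (nat_lit 23) (nat_lit 5) (nat_lit 26) (nat_lit 5) (nat_lit 24) (nat_lit 5) (nat_lit 260) (nat_lit 241) (nat_lit 219)) (XT.lf (nat_lit 0) (nat_lit 4851220890) (nat_lit 228) (nat_lit 793896594) (nat_lit 76) (nat_lit 5988574877) (nat_lit 23) (nat_lit 5) (nat_lit 26) (nat_lit 5) (nat_lit 24) (nat_lit 5) (nat_lit 261) (nat_lit 241) (nat_lit 218))) (XT.nd (nat_lit 78) (nat_lit 0) (nat_lit 0) (XT.lf (nat_lit 0) (nat_lit 5424011593) (nat_lit 152) (nat_lit 2181728032) (nat_lit 228) (nat_lit 4595960397) (nat_lit 21) (nat_lit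 5) (nat_lit 23) (nat_lit 5) (nat_lit 24) (nat_lit 5) (nat_lit 262) (nat_lit 241) (nat_lit 217)) (XT.lf (nat_lit 0) (nat_lit 10557914373) (nat_lit 228) (nat_lit 786708995) (nat_lit 76) (nat_lit 1472625458) (nat_lit 21) (nat_lit 5) (nat_lit 24) (nat_lit 5) (nat_lit 22) (nat_lit 4) (nat_lit 263) (nat_lit 241) (nat_lit 216))))))) (XT.nd (nat_lit 1014) (nat_lit 304) (nat_lit 0) (XT.nd (nat_lit 468) (nat_lit 456) (nat_lit 0) (XT.nd (nat_lit 234) (nat_lit 76) (nat_lit 0) (XT.nd (nat_lit 78) (nat_lit 152) (nat_lit 0) (XT.lf (nat_lit 0) (nat_lit 373828971) (nat_lit 228) (nat_lit 7675706113) (nat_lit 76) (nat_lit 5422415664) (nat_lit 18) (nat_lit 5) (nat_lit 21) (nat_lit 5) (nat_lit 19) (nat_lit 5) (nat_lit 264) (nat_lit 241) (nat_lit 215)) (XT.nd (nat_lit 78) (nat_lit 152) (nat_lit 0) (XT.lf (nat_lit 0) (nat_lit 3042218052) (nat_lit 228) (nat_lit 1398243708) (nat_lit 76) (nat_lit 9738367038)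 (nat_lit 18) (nat_lit 5) (nat_lit 21) (nat_lit 5) (nat_lit 19) (nat_lit 5) (nat_lit 265) (nat_lit 241) (nat_lit 214)) (XT.lf (nat_lit 0) (nat_lit 5555365371) (nat_lit 152) (nat_lit 432473823) (nat_lit 228) (nat_lit 8949525842) (nat_lit 16) (nat_lit 5) (nat_lit 18) (nat_lit 5) (nat_lit 19) (nat_lit 5) (nat_lit 266) (nat_lit 241) (nat_lit 213)))) (XT.nd (nat_lit 78) (nat_lit 76) (nat_lit 0) (XT.lf (nat_lit 0) (nat_lit 9234104536) (nat_lit 228) (nat_lit 2809498520) (nat_lit 76) (nat_lit 3707974906) (nat_lit 16) (nat_lit 5) (nat_lit 19) (nat_lit 5) (nat_lit 17) (nat_lit 4) (nat_lit 267) (nat_lit 241) (nat_lit 212)) (XT.nd (nat_lit 78) (nat_lit 0) (nat_lit 0) (XT.lf (nat_lit 0) (nat_lit 4399444178) (nat_lit 76) (nat_lit 8394767184) (nat_lit 152) (nat_lit 3832564364) (nat_lit 15) (nat_lit 5) (nat_lit 16) (nat_lit 5) (nat_lit 17) (nat_lit 4) (nat_lit 268) (nat_lit 241) (nat_lit 211)) (XT.lf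 (nat_lit 0) (nat_lit 12249163660) (nat_lit 76) (nat_lit 4406237401) (nat_lit 152) (nat_lit 915452070) (nat_lit 15) (nat_lit 5) (nat_lit 16) (nat_lit 5) (nat_lit 17) (nat_lit 4) (nat_lit 269) (nat_lit 241) (nat_lit 210))))) (XT.nd (nat_lit 234) (nat_lit 228) (nat_lit 0) (XT.nd (nat_lit 78) (nat_lit 0) (nat_lit 0) (XT.lf (nat_lit 0) (nat_lit 2095680383) (nat_lit 152) (nat_lit 20285197) (nat_lit 228) (nat_lit 16470913740) (nat_lit 12) (nat_lit 5) (nat_lit 14) (nat_lit 5) (nat_lit 15) (nat_lit 5) (nat_lit 270) (nat_lit 241) (nat_lit 209)) (XT.nd (nat_lit 78) (nat_lit 0) (nat_lit 0) (XT.lf (nat_lit 0) (nat_lit 5546798385) (nat_lit 228) (nat_lit 9497688382) (nat_lit 76) (nat_lit 4621421393) (nat_lit 12) (nat_lit 5) (nat_lit 15) (nat_lit 5) (nat_lit 13) (nat_lit 4) (nat_lit 271) (nat_lit 241) (nat_lit 208)) (XT.lf (nat_lit 0) (nat_lit 9200442479) (nat_lit 228) (nat_lit 2031557080) (nat_lit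 76) (nat_lit 9603514017) (nat_lit 12) (nat_lit 5) (nat_lit 15) (nat_lit 5) (nat_lit 13) (nat_lit 4) (nat_lit 272) (nat_lit 241) (nat_lit 207)))) (XT.nd (nat_lit 156) (nat_lit 152) (nat_lit 0) (XT.nd (nat_lit 78) (nat_lit 0) (nat_lit 0) (XT.lf (nat_lit 0) (nat_lit 6265344473) (nat_lit 76) (nat_lit 6983398438) (nat_lit 152) (nat_lit 8841868148) (nat_lit 11) (nat_lit 5) (nat_lit 12) (nat_lit 5) (nat_lit 13) (nat_lit 4) (nat_lit 273) (nat_lit 241) (nat_lit 206)) (XT.lf (nat_lit 0) (nat_lit 15263620196) (nat_lit 76) (nat_lit 2366221863) (nat_lit 152) (nat_lit 5815663966) (nat_lit 11) (nat_lit 5) (nat_lit 12) (nat_lit 5) (nat_lit 13) (nat_lit 4) (nat_lit 274) (nat_lit 241) (nat_lit 205))) (XT.nd (nat_lit 78) (nat_lit 152) (nat_lit 0) (XT.lf (nat_lit 0) (nat_lit 22380592074) (nat_lit 152) (nat_lit 65048929) (nat_lit 0) (nat_lit 2461715276) (nat_lit 11) (nat_lit 5) (nat_lit 13) (nat_lit 4)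 (nat_lit 11) (nat_lit 4) (nat_lit 275) (nat_lit 241) (nat_lit 204)) (XT.lf (nat_lit 0) (nat_lit 1217873417) (nat_lit 152) (nat_lit 17476522838) (nat_lit 76) (nat_lit 7770355609) (nat_lit 9) (nat_lit 5) (nat_lit 11) (nat_lit 5) (nat_lit 10) (nat_lit 4) (nat_lit 276) (nat_lit 241) (nat_lit 203)))))) (XT.nd (nat_lit 546) (nat_lit 152) (nat_lit 0) (XT.nd (nat_lit 234) (nat_lit 76) (nat_lit 0) (XT.nd (nat_lit 78) (nat_lit 76) (nat_lit 0) (XT.lf (nat_lit 0) (nat_lit 5087070994) (nat_lit 152) (nat_lit 9512687014) (nat_lit 76) (nat_lit 13544887463) (nat_lit 9) (nat_lit 5) (nat_lit 11) (nat_lit 5) (nat_lit 10) (nat_lit 4) (nat_lit 277) (nat_lit 241) (nat_lit 202)) (XT.nd (nat_lit 78) (nat_lit 76) (nat_lit 0) (XT.lf (nat_lit 0) (nat_lit 9228466502) (nat_lit 152) (nat_lit 976450225) (nat_lit 76) (nat_lit 19757071963) (nat_lit 9) (nat_lit 5) (nat_lit 11) (nat_lit 5) (nat_lit 10) (nat_lit 4) (nat_lit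 278) (nat_lit 241) (nat_lit 201)) (XT.lf (nat_lit 0) (nat_lit 8613662938) (nat_lit 76) (nat_lit 5260097404) (nat_lit 152) (nat_lit 18037217917) (nat_lit 8) (nat_lit 5) (nat_lit 9) (nat_lit 5) (nat_lit 10) (nat_lit 4) (nat_lit 279) (nat_lit 241) (nat_lit 200)))) (XT.nd (nat_lit 156) (nat_lit 76) (nat_lit 0) (XT.nd (nat_lit 78) (nat_lit 0) (nat_lit 0) (XT.lf (nat_lit 0) (nat_lit 18885984000) (nat_lit 152) (nat_lit 15050388780) (nat_lit 0) (nat_lit 79950661) (nat_lit 8) (nat_lit 5) (nat_lit 10) (nat_lit 4) (nat_lit 8) (nat_lit 4) (nat_lit 280) (nat_lit 241) (nat_lit 199)) (XT.lf (nat_lit 0) (nat_lit 24404314773) (nat_lit 152) (nat_lit 6336379867) (nat_lit 0) (nat_lit 5541047696) (nat_lit 8) (nat_lit 5) (nat_lit 10) (nat_lit 4) (nat_lit 8) (nat_lit 4) (nat_lit 281) (nat_lit 241) (nat_lit 198))) (XT.nd (nat_lit 78) (nat_lit 0) (nat_lit 0) (XT.lf (nat_lit 0) (nat_lit 3182033668) (nat_lit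 76) (nat_lit 27229442729) (nat_lit 76) (nat_lit 8313181452) (nat_lit 7) (nat_lit 4) (nat_lit 8) (nat_lit 5) (nat_lit 8) (nat_lit 4) (nat_lit 282) (nat_lit 241) (nat_lit 197)) (XT.lf (nat_lit 0) (nat_lit 13771695303) (nat_lit 76) (nat_lit 23272543711) (nat_lit 76) (nat_lit 4307213729) (nat_lit 7) (nat_lit 4) (nat_lit 8) (nat_lit 5) (nat_lit 8) (nat_lit 4) (nat_lit 283) (nat_lit 241) (nat_lit 196))))) (XT.nd (nat_lit 234) (nat_lit 76) (nat_lit 0) (XT.nd (nat_lit 78) (nat_lit 76) (nat_lit 0) (XT.lf (nat_lit 0) (nat_lit 25161696052) (nat_lit 76) (nat_lit 19019797150) (nat_lit 76) (nat_lit 9033182) (nat_lit 7) (nat_lit 4) (nat_lit 8) (nat_lit 5) (nat_lit 8) (nat_lit 4) (nat_lit 284) (nat_lit 241) (nat_lit 195)) (XT.nd (nat_lit 78) (nat_lit 0) (nat_lit 0) (XT.lf (nat_lit 0) (nat_lit 4376378549) (nat_lit 152) (nat_lit 9949965090) (nat_lit 76) (nat_lit 32923495722) (nat_lit 6) (nat_lit 5) (nat_lit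 8) (nat_lit 5) (nat_lit 7) (nat_lit 4) (nat_lit 285) (nat_lit 241) (nat_lit 194)) (XT.lf (nat_lit 0) (nat_lit 9089115059) (nat_lit 152) (nat_lit 186425470) (nat_lit 76) (nat_lit 41280215253) (nat_lit 6) (nat_lit 5) (nat_lit 8) (nat_lit 5) (nat_lit 7) (nat_lit 4) (nat_lit 286) (nat_lit 241) (nat_lit 193)))) (XT.nd (nat_lit 156) (nat_lit 0) (nat_lit 0) (XT.nd (nat_lit 78) (nat_lit 0) (nat_lit 0) (XT.lf (nat_lit 0) (nat_lit 10863289528) (nat_lit 76) (nat_lit 3555528396) (nat_lit 152) (nat_lit 39688164727) (nat_lit 5) (nat_lit 5) (nat_lit 6) (nat_lit 5) (nat_lit 7) (nat_lit 4) (nat_lit 287) (nat_lit 241) (nat_lit 192)) (XT.lf (nat_lit 0) (nat_lit 20222150861) (nat_lit 152) (nat_lit 35236151588) (nat_lit 0) (nat_lit 2480255406) (nat_lit 5) (nat_lit 5) (nat_lit 7) (nat_lit 4) (nat_lit 5) (nat_lit 4) (nat_lit 288) (nat_lit 241) (nat_lit 191))) (XT.nd (nat_lit 78) (nat_lit 0) (nat_lit 0) (XT.lf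 (nat_lit 0) (nat_lit 26562623157) (nat_lit 152) (nat_lit 26716137749) (nat_lit 0) (nat_lit 8792096583) (nat_lit 5) (nat_lit 5) (nat_lit 7) (nat_lit 4) (nat_lit 5) (nat_lit 4) (nat_lit 289) (nat_lit 241) (nat_lit 190)) (XT.lf (nat_lit 0) (nat_lit 33392297437) (nat_lit 152) (nat_lit 17547652093) (nat_lit 0) (nat_lit 15595260569) (nat_lit 5) (nat_lit 5) (nat_lit 7) (nat_lit 4) (nat_lit 5) (nat_lit 4) (nat_lit 290) (nat_lit 241) (nat_lit 189))))))))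
noncomputable def xc53 : XT := (XT.nd (nat_lit 2028) (nat_lit 76) (nat_lit 0) (XT.nd (nat_lit 1014) (nat_lit 0) (nat_lit 0) (XT.nd (nat_lit 468) (nat_lit 152) (nat_lit 0) (XT.nd (nat_lit 234) (nat_lit 0) (nat_lit 0) (XT.nd (nat_lit 78) (nat_lit 76) (nat_lit 0) (XT.lf (nat_lit 0) (nat_lit 40751645845) (nat_lit 152) (nat_lit 7676362853) (nat_lit 0) (nat_lit 22930062409) (nat_lit 5) (nat_lit 5) (nat_lit 7) (nat_lit 4) (nat_lit 5) (nat_lit 4) (nat_lit 291) (nat_lit 241) (nat_lit 188)) (XT.nd (nat_lit 78) (nat_lit 0) (nat_lit 0) (XT.lf (nat_lit 0) (nat_lit 3111896146) (nat_lit 76) (nat_lit 45647224366) (nat_lit 76) (nat_lit 27802912625) (nat_lit 4) (nat_lit 4) (nat_lit 5) (nat_lit 5) (nat_lit 5) (nat_lit 4) (nat_lit 292) (nat_lit 241) (nat_lit 187)) (XT.lf (nat_lit 0) (nat_lit 15172093461) (nat_lit 76) (nat_lit 42430001857) (nat_lit 76) (nat_lit 24564645390) (nat_lit 4) (nat_lit 4) (nat_lit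 5) (nat_lit 5) (nat_lit 5) (nat_lit 4) (nat_lit 293) (nat_lit 241) (nat_lit 186)))) (XT.nd (nat_lit 78) (nat_lit 0) (nat_lit 0) (XT.lf (nat_lit 0) (nat_lit 28171473262) (nat_lit 76) (nat_lit 38967161514) (nat_lit 76) (nat_lit 21082319189) (nat_lit 4) (nat_lit 4) (nat_lit 5) (nat_lit 5) (nat_lit 5) (nat_lit 4) (nat_lit 294) (nat_lit 241) (nat_lit 185)) (XT.nd (nat_lit 78) (nat_lit 0) (nat_lit 0) (XT.lf (nat_lit 0) (nat_lit 42187068911) (nat_lit 76) (nat_lit 35238182802) (nat_lit 76) (nat_lit 17335298016) (nat_lit 4) (nat_lit 4) (nat_lit 5) (nat_lit 5) (nat_lit 5) (nat_lit 4) (nat_lit 295) (nat_lit 241) (nat_lit 184)) (XT.lf (nat_lit 0) (nat_lit 57301935790) (nat_lit 76) (nat_lit 31220968069) (nat_lit 76) (nat_lit 13301377300) (nat_lit 4) (nat_lit 4) (nat_lit 5) (nat_lit 5) (nat_lit 5) (nat_lit 4) (nat_lit 296) (nat_lit 241) (nat_lit 183))))) (XT.nd (nat_lit 234) (nat_lit 76) (nat_lit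 0) (XT.nd (nat_lit 78) (nat_lit 76) (nat_lit 0) (XT.lf (nat_lit 0) (nat_lit 73605643480) (nat_lit 76) (nat_lit 26891711597) (nat_lit 76) (nat_lit 8956652327) (nat_lit 4) (nat_lit 4) (nat_lit 5) (nat_lit 5) (nat_lit 5) (nat_lit 4) (nat_lit 297) (nat_lit 241) (nat_lit 182)) (XT.nd (nat_lit 78) (nat_lit 76) (nat_lit 0) (XT.lf (nat_lit 0) (nat_lit 91194806545) (nat_lit 76) (nat_lit 22224758535) (nat_lit 76) (nat_lit 4275376577) (nat_lit 4) (nat_lit 4) (nat_lit 5) (nat_lit 5) (nat_lit 5) (nat_lit 4) (nat_lit 298) (nat_lit 241) (nat_lit 181)) (XT.lf (nat_lit 0) (nat_lit 731662776) (nat_lit 152) (nat_lit 16440785129) (nat_lit 76) (nat_lit 109421989330) (nat_lit 3) (nat_lit 5) (nat_lit 5) (nat_lit 5) (nat_lit 4) (nat_lit 4) (nat_lit 299) (nat_lit 241) (nat_lit 180)))) (XT.nd (nat_lit 156) (nat_lit 0) (nat_lit 0) (XT.nd (nat_lit 78) (nat_lit 76) (nat_lit 0) (XT.lf (nat_lit 0) (nat_lit 5899302760)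 (nat_lit 152) (nat_lit 5704373358) (nat_lit 76) (nat_lit 124594062144) (nat_lit 3) (nat_lit 5) (nat_lit 5) (nat_lit 5) (nat_lit 4) (nat_lit 4) (nat_lit 300) (nat_lit 241) (nat_lit 179)) (XT.lf (nat_lit 0) (nat_lit 6184942145) (nat_lit 76) (nat_lit 5435843939) (nat_lit 152) (nat_lit 134937293098) (nat_lit 2) (nat_lit 5) (nat_lit 3) (nat_lit 5) (nat_lit 4) (nat_lit 4) (nat_lit 301) (nat_lit 241) (nat_lit 178))) (XT.nd (nat_lit 78) (nat_lit 0) (nat_lit 0) (XT.lf (nat_lit 0) (nat_lit 17981249882) (nat_lit 152) (nat_lit 138433978975) (nat_lit 0) (nat_lit 1317527184) (nat_lit 2) (nat_lit 5) (nat_lit 4) (nat_lit 4) (nat_lit 2) (nat_lit 4) (nat_lit 302) (nat_lit 241) (nat_lit 177)) (XT.lf (nat_lit 0) (nat_lit 24984122801) (nat_lit 152) (nat_lit 136495233008) (nat_lit 0) (nat_lit 8311374380) (nat_lit 2) (nat_lit 5) (nat_lit 4) (nat_lit 4) (nat_lit 2) (nat_lit 4) (nat_lit 303) (nat_lit 241) (nat_lit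 176)))))) (XT.nd (nat_lit 468) (nat_lit 0) (nat_lit 0) (XT.nd (nat_lit 234) (nat_lit 0) (nat_lit 0) (XT.nd (nat_lit 78) (nat_lit 0) (nat_lit 0) (XT.lf (nat_lit 0) (nat_lit 32540171169) (nat_lit 152) (nat_lit 134414678093) (nat_lit 0) (nat_lit 15859065598) (nat_lit 2) (nat_lit 5) (nat_lit 4) (nat_lit 4) (nat_lit 2) (nat_lit 4) (nat_lit 304) (nat_lit 241) (nat_lit 175)) (XT.nd (nat_lit 78) (nat_lit 0) (nat_lit 0) (XT.lf (nat_lit 0) (nat_lit 40694171569) (nat_lit 152) (nat_lit 132179985017) (nat_lit 0) (nat_lit 24005327896) (nat_lit 2) (nat_lit 5) (nat_lit 4) (nat_lit 4) (nat_lit 2) (nat_lit 4) (nat_lit 305) (nat_lit 241) (nat_lit 174)) (XT.lf (nat_lit 0) (nat_lit 49494444004) (nat_lit 152) (nat_lit 129777911153) (nat_lit 0) (nat_lit 32798435422) (nat_lit 2) (nat_lit 5) (nat_lit 4) (nat_lit 4) (nat_lit 2) (nat_lit 4) (nat_lit 306) (nat_lit 241) (nat_lit 173)))) (XT.nd (nat_lit 78) (nat_lit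 0) (nat_lit 0) (XT.lf (nat_lit 0) (nat_lit 58993138237) (nat_lit 152) (nat_lit 127194221989) (nat_lit 0) (nat_lit 42290495479) (nat_lit 2) (nat_lit 5) (nat_lit 4) (nat_lit 4) (nat_lit 2) (nat_lit 4) (nat_lit 307) (nat_lit 241) (nat_lit 172)) (XT.nd (nat_lit 78) (nat_lit 0) (nat_lit 0) (XT.lf (nat_lit 0) (nat_lit 69246542825) (nat_lit 152) (nat_lit 124413606776) (nat_lit 0) (nat_lit 52537757312) (nat_lit 2) (nat_lit 5) (nat_lit 4) (nat_lit 4) (nat_lit 2) (nat_lit 4) (nat_lit 308) (nat_lit 241) (nat_lit 171)) (XT.lf (nat_lit 0) (nat_lit 80315418685) (nat_lit 152) (nat_lit 121419587793) (nat_lit 0) (nat_lit 63600945436) (nat_lit 2) (nat_lit 5) (nat_lit 4) (nat_lit 4) (nat_lit 2) (nat_lit 4) (nat_lit 309) (nat_lit 241) (nat_lit 170))))) (XT.nd (nat_lit 234) (nat_lit 0) (nat_lit 0) (XT.nd (nat_lit 78) (nat_lit 0) (nat_lit 0) (XT.lf (nat_lit 0) (nat_lit 92265359155) (nat_lit 152) (nat_lit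 118194422705) (nat_lit 0) (nat_lit 75545619483) (nat_lit 2) (nat_lit 5) (nat_lit 4) (nat_lit 4) (nat_lit 2) (nat_lit 4) (nat_lit 310) (nat_lit 241) (nat_lit 169)) (XT.nd (nat_lit 78) (nat_lit 0) (nat_lit 0) (XT.lf (nat_lit 0) (nat_lit 105167178697) (nat_lit 152) (nat_lit 114718999424) (nat_lit 0) (nat_lit 88442562709) (nat_lit 2) (nat_lit 5) (nat_lit 4) (nat_lit 4) (nat_lit 2) (nat_lit 4) (nat_lit 311) (nat_lit 241) (nat_lit 168)) (XT.lf (nat_lit 0) (nat_lit 119097332538) (nat_lit 152) (nat_lit 110972722848) (nat_lit 0) (nat_lit 102368201442) (nat_lit 2) (nat_lit 5) (nat_lit 4) (nat_lit 4) (nat_lit 2) (nat_lit 4) (nat_lit 312) (nat_lit 241) (nat_lit 167)))) (XT.nd (nat_lit 156) (nat_lit 0) (nat_lit 0) (XT.nd (nat_lit 78) (nat_lit 0) (nat_lit 0) (XT.lf (nat_lit 0) (nat_lit 134138369739) (nat_lit 152) (nat_lit 106933392820) (nat_lit 0) (nat_lit 117405057986) (nat_lit 2) (nat_lit 5) (nat_lit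 4) (nat_lit 4) (nat_lit 2) (nat_lit 4) (nat_lit 313) (nat_lit 241) (nat_lit 166)) (XT.lf (nat_lit 0) (nat_lit 150379422371) (nat_lit 152) (nat_lit 102577072569) (nat_lit 0) (nat_lit 133642239640) (nat_lit 2) (nat_lit 5) (nat_lit 4) (nat_lit 4) (nat_lit 2) (nat_lit 4) (nat_lit 314) (nat_lit 241) (nat_lit 165))) (XT.nd (nat_lit 78) (nat_lit 0) (nat_lit 0) (XT.lf (nat_lit 0) (nat_lit 167916733708) (nat_lit 152) (nat_lit 97877946865) (nat_lit 0) (nat_lit 151175966740) (nat_lit 2) (nat_lit 5) (nat_lit 4) (nat_lit 4) (nat_lit 2) (nat_lit 4) (nat_lit 315) (nat_lit 241) (nat_lit 164)) (XT.lf (nat_lit 0) (nat_lit 186854228560) (nat_lit 152) (nat_lit 92808169035) (nat_lit 0) (nat_lit 170110142852) (nat_lit 2) (nat_lit 5) (nat_lit 4) (nat_lit 4) (nat_lit 2) (nat_lit 4) (nat_lit 316) (nat_lit 241) (nat_lit 163))))))) (XT.nd (nat_lit 1014) (nat_lit 0) (nat_lit 0) (XT.nd (nat_lit 468) (nat_lit 76)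 (nat_lit 0) (XT.nd (nat_lit 234) (nat_lit 0) (nat_lit 0) (XT.nd (nat_lit 78) (nat_lit 0) (nat_lit 0) (XT.lf (nat_lit 0) (nat_lit 207304129118) (nat_lit 152) (nat_lit 87337695953) (nat_lit 0) (nat_lit 190556970503) (nat_lit 2) (nat_lit 5) (nat_lit 4) (nat_lit 4) (nat_lit 2) (nat_lit 4) (nat_lit 317) (nat_lit 241) (nat_lit 162)) (XT.nd (nat_lit 78) (nat_lit 0) (nat_lit 0) (XT.lf (nat_lit 0) (nat_lit 229387619977) (nat_lit 152) (nat_lit 81434110000) (nat_lit 0) (nat_lit 212637616078) (nat_lit 2) (nat_lit 5) (nat_lit 4) (nat_lit 4) (nat_lit 2) (nat_lit 4) (nat_lit 318) (nat_lit 241) (nat_lit 161)) (XT.lf (nat_lit 0) (nat_lit 253235566269) (nat_lit 152) (nat_lit 75062426963) (nat_lit 0) (nat_lit 236482927848) (nat_lit 2) (nat_lit 5) (nat_lit 4) (nat_lit 4) (nat_lit 2) (nat_lit 4) (nat_lit 319) (nat_lit 241) (nat_lit 160)))) (XT.nd (nat_lit 78) (nat_lit 0) (nat_lit 0) (XT.lf (nat_lit 0) (nat_lit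 278989289157) (nat_lit 152) (nat_lit 68184888721) (nat_lit 0) (nat_lit 262234211363) (nat_lit 2) (nat_lit 5) (nat_lit 4) (nat_lit 4) (nat_lit 2) (nat_lit 4) (nat_lit 320) (nat_lit 241) (nat_lit 159)) (XT.nd (nat_lit 78) (nat_lit 0) (nat_lit 0) (XT.lf (nat_lit 0) (nat_lit 306801403295) (nat_lit 152) (nat_lit 60760739491) (nat_lit 0) (nat_lit 290044066823) (nat_lit 2) (nat_lit 5) (nat_lit 4) (nat_lit 4) (nat_lit 2) (nat_lit 4) (nat_lit 321) (nat_lit 241) (nat_lit 158)) (XT.lf (nat_lit 0) (nat_lit 336836721212) (nat_lit 152) (nat_lit 52745984314) (nat_lit 0) (nat_lit 320077293371) (nat_lit 2) (nat_lit 5) (nat_lit 4) (nat_lit 4) (nat_lit 2) (nat_lit 4) (nat_lit 322) (nat_lit 241) (nat_lit 157))))) (XT.nd (nat_lit 234) (nat_lit 76) (nat_lit 0) (XT.nd (nat_lit 78) (nat_lit 0) (nat_lit 0) (XT.lf (nat_lit 0) (nat_lit 369273229975) (nat_lit 152) (nat_lit 44093128346) (nat_lit 0) (nat_lit 352511865682)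 (nat_lit 2) (nat_lit 5) (nat_lit 4) (nat_lit 4) (nat_lit 2) (nat_lit 4) (nat_lit 323) (nat_lit 241) (nat_lit 156)) (XT.nd (nat_lit 78) (nat_lit 0) (nat_lit 0) (XT.lf (nat_lit 0) (nat_lit 404303145935) (nat_lit 152) (nat_lit 34750895403) (nat_lit 0) (nat_lit 387539988629) (nat_lit 2) (nat_lit 5) (nat_lit 4) (nat_lit 4) (nat_lit 2) (nat_lit 4) (nat_lit 324) (nat_lit 241) (nat_lit 155)) (XT.lf (nat_lit 0) (nat_lit 442134053777) (nat_lit 152) (nat_lit 24663924104) (nat_lit 0) (nat_lit 425369236276) (nat_lit 2) (nat_lit 5) (nat_lit 4) (nat_lit 4) (nat_lit 2) (nat_lit 4) (nat_lit 325) (nat_lit 241) (nat_lit 154)))) (XT.nd (nat_lit 156) (nat_lit 76) (nat_lit 0) (XT.nd (nat_lit 78) (nat_lit 0) (nat_lit 0) (XT.lf (nat_lit 0) (nat_lit 482990136659) (nat_lit 152) (nat_lit 13772439805) (nat_lit 0) (nat_lit 466223781940) (nat_lit 2) (nat_lit 5) (nat_lit 4) (nat_lit 4) (nat_lit 2) (nat_lit 4) (nat_lit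 326) (nat_lit 241) (nat_lit 153)) (XT.lf (nat_lit 0) (nat_lit 527113504703) (nat_lit 152) (nat_lit 2011900376) (nat_lit 0) (nat_lit 510345726633) (nat_lit 2) (nat_lit 5) (nat_lit 4) (nat_lit 4) (nat_lit 2) (nat_lit 4) (nat_lit 327) (nat_lit 241) (nat_lit 152))) (XT.nd (nat_lit 78) (nat_lit 0) (nat_lit 0) (XT.lf (nat_lit 0) (nat_lit 11250165088) (nat_lit 76) (nat_lit 563786031371) (nat_lit 76) (nat_lit 547016935384) (nat_lit 1) (nat_lit 4) (nat_lit 2) (nat_lit 5) (nat_lit 2) (nat_lit 4) (nat_lit 328) (nat_lit 241) (nat_lit 151)) (XT.lf (nat_lit 0) (nat_lit 25685571469) (nat_lit 76) (nat_lit 601161061811) (nat_lit 76) (nat_lit 584390745530) (nat_lit 1) (nat_lit 4) (nat_lit 2) (nat_lit 5) (nat_lit 2) (nat_lit 4) (nat_lit 329) (nat_lit 241) (nat_lit 150)))))) (XT.nd (nat_lit 546) (nat_lit 0) (nat_lit 0) (XT.nd (nat_lit 234) (nat_lit 0) (nat_lit 0) (XT.nd (nat_lit 78) (nat_lit 0) (nat_lit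 0) (XT.lf (nat_lit 0) (nat_lit 41273918808) (nat_lit 76) (nat_lit 641526986981) (nat_lit 76) (nat_lit 624755540799) (nat_lit 1) (nat_lit 4) (nat_lit 2) (nat_lit 5) (nat_lit 2) (nat_lit 4) (nat_lit 330) (nat_lit 241) (nat_lit 149)) (XT.nd (nat_lit 78) (nat_lit 0) (nat_lit 0) (XT.lf (nat_lit 0) (nat_lit 58107582496) (nat_lit 76) (nat_lit 685123012366) (nat_lit 76) (nat_lit 668350519979) (nat_lit 1) (nat_lit 4) (nat_lit 2) (nat_lit 5) (nat_lit 2) (nat_lit 4) (nat_lit 331) (nat_lit 241) (nat_lit 148)) (XT.lf (nat_lit 0) (nat_lit 76286317577) (nat_lit 76) (nat_lit 732207484781) (nat_lit 76) (nat_lit 715434023686) (nat_lit 1) (nat_lit 4) (nat_lit 2) (nat_lit 5) (nat_lit 2) (nat_lit 4) (nat_lit 332) (nat_lit 241) (nat_lit 147)))) (XT.nd (nat_lit 156) (nat_lit 0) (nat_lit 0) (XT.nd (nat_lit 78) (nat_lit 0) (nat_lit 0) (XT.lf (nat_lit 0) (nat_lit 95917849888) (nat_lit 76) (nat_lit 783059423324)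 (nat_lit 76) (nat_lit 766285065276) (nat_lit 1) (nat_lit 4) (nat_lit 2) (nat_lit 5) (nat_lit 2) (nat_lit 4) (nat_lit 333) (nat_lit 241) (nat_lit 146)) (XT.lf (nat_lit 0) (nat_lit 117118514436) (nat_lit 76) (nat_lit 837980172814) (nat_lit 76) (nat_lit 821204984254) (nat_lit 1) (nat_lit 4) (nat_lit 2) (nat_lit 5) (nat_lit 2) (nat_lit 4) (nat_lit 334) (nat_lit 241) (nat_lit 145))) (XT.nd (nat_lit 78) (nat_lit 0) (nat_lit 0) (XT.lf (nat_lit 0) (nat_lit 140013944788) (nat_lit 76) (nat_lit 897295189544) (nat_lit 76) (nat_lit 880519231993) (nat_lit 1) (nat_lit 4) (nat_lit 2) (nat_lit 5) (nat_lit 2) (nat_lit 4) (nat_lit 335) (nat_lit 241) (nat_lit 144)) (XT.lf (nat_lit 0) (nat_lit 164739817570) (nat_lit 76) (nat_lit 961355969912) (nat_lit 76) (nat_lit 944579300331) (nat_lit 1) (nat_lit 4) (nat_lit 2) (nat_lit 5) (nat_lit 2) (nat_lit 4) (nat_lit 336) (nat_lit 241) (nat_lit 143))))) (XT.nd (nat_lit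 234) (nat_lit 0) (nat_lit 0) (XT.nd (nat_lit 78) (nat_lit 0) (nat_lit 0) (XT.lf (nat_lit 0) (nat_lit 191442656470) (nat_lit 76) (nat_lit 1030542133355) (nat_lit 76) (nat_lit 1013764804488) (nat_lit 1) (nat_lit 4) (nat_lit 2) (nat_lit 5) (nat_lit 2) (nat_lit 4) (nat_lit 337) (nat_lit 241) (nat_lit 142)) (XT.nd (nat_lit 78) (nat_lit 0) (nat_lit 0) (XT.lf (nat_lit 0) (nat_lit 220280700536) (nat_lit 76) (nat_lit 1105263671953) (nat_lit 76) (nat_lit 1088485732635) (nat_lit 1) (nat_lit 4) (nat_lit 2) (nat_lit 5) (nat_lit 2) (nat_lit 4) (nat_lit 338) (nat_lit 241) (nat_lit 141)) (XT.lf (nat_lit 0) (nat_lit 251424841879) (nat_lit 76) (nat_lit 1185963380010) (nat_lit 76) (nat_lit 1169184875460) (nat_lit 1) (nat_lit 4) (nat_lit 2) (nat_lit 5) (nat_lit 2) (nat_lit 4) (nat_lit 339) (nat_lit 241) (nat_lit 140)))) (XT.nd (nat_lit 29874) (nat_lit 0) (nat_lit 4256) (XT.nd (nat_lit 78) (nat_lit 0) (nat_lit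 0) (XT.lf (nat_lit 0) (nat_lit 285059638374) (nat_lit 76) (nat_lit 1273119478016) (nat_lit 76) (nat_lit 1256340450103) (nat_lit 1) (nat_lit 4) (nat_lit 2) (nat_lit 5) (nat_lit 2) (nat_lit 4) (nat_lit 340) (nat_lit 241) (nat_lit 139)) (XT.lf (nat_lit 0) (nat_lit 321384407334) (nat_lit 76) (nat_lit 1367248446554) (nat_lit 76) (nat_lit 1350468934046) (nat_lit 1) (nat_lit 4) (nat_lit 2) (nat_lit 5) (nat_lit 2) (nat_lit 4) (nat_lit 341) (nat_lit 241) (nat_lit 138))) (XT.nd (nat_lit 78) (nat_lit 0) (nat_lit 0) (XT.lf (nat_lit 0) (nat_lit 1956182449) (nat_lit 228) (nat_lit 661679705) (nat_lit 228) (nat_lit 661679705) (nat_lit 57) (nat_lit 3) (nat_lit 60) (nat_lit 3) (nat_lit 60) (nat_lit 5) (nat_lit 242) (nat_lit 242) (nat_lit 236)) (XT.lf (nat_lit 76) (nat_lit 1703198284) (nat_lit 0) (nat_lit 4554655811) (nat_lit 228) (nat_lit 371801009) (nat_lit 58) (nat_lit 5) (nat_lit 57) (nat_lit 3) (nat_lit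 60) (nat_lit 5) (nat_lit 243) (nat_lit 242) (nat_lit 235))))))))
noncomputable def xc54 : XT := (XT.nd (nat_lit 2028) (nat_lit 836) (nat_lit 0) (XT.nd (nat_lit 1014) (nat_lit 1216) (nat_lit 0) (XT.nd (nat_lit 468) (nat_lit 1216) (nat_lit 0) (XT.nd (nat_lit 234) (nat_lit 532) (nat_lit 0) (XT.nd (nat_lit 78) (nat_lit 0) (nat_lit 0) (XT.lf (nat_lit 0) (nat_lit 1792818270) (nat_lit 228) (nat_lit 1843359899) (nat_lit 304) (nat_lit 3082265662) (nat_lit 54) (nat_lit 5) (nat_lit 57) (nat_lit 3) (nat_lit 58) (nat_lit 5) (nat_lit 244) (nat_lit 242) (nat_lit 234)) (XT.nd (nat_lit 78) (nat_lit 0) (nat_lit 0) (XT.lf (nat_lit 76) (nat_lit 1421506774) (nat_lit 0) (nat_lit 2514766317) (nat_lit 304) (nat_lit 2892659834) (nat_lit 55) (nat_lit 5) (nat_lit 54) (nat_lit 5) (nat_lit 58) (nat_lit 5) (nat_lit 245) (nat_lit 242) (nat_lit 233)) (XT.lf (nat_lit 76) (nat_lit 4929264169) (nat_lit 0) (nat_lit 1176384745)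 (nat_lit 304) (nat_lit 855580808) (nat_lit 55) (nat_lit 5) (nat_lit 54) (nat_lit 5) (nat_lit 58) (nat_lit 5) (nat_lit 246) (nat_lit 242) (nat_lit 232)))) (XT.nd (nat_lit 78) (nat_lit 304) (nat_lit 0) (XT.lf (nat_lit 0) (nat_lit 1136523142) (nat_lit 304) (nat_lit 5591594557) (nat_lit 76) (nat_lit 385795919) (nat_lit 51) (nat_lit 5) (nat_lit 55) (nat_lit 5) (nat_lit 52) (nat_lit 5) (nat_lit 247) (nat_lit 242) (nat_lit 231)) (XT.nd (nat_lit 78) (nat_lit 304) (nat_lit 0) (XT.lf (nat_lit 0) (nat_lit 3154265981) (nat_lit 304) (nat_lit 1990400778) (nat_lit 76) (nat_lit 2140419254) (nat_lit 51) (nat_lit 5) (nat_lit 55) (nat_lit 5) (nat_lit 52) (nat_lit 5) (nat_lit 248) (nat_lit 242) (nat_lit 230)) (XT.lf (nat_lit 0) (nat_lit 1864064420) (nat_lit 304) (nat_lit 3352100287) (nat_lit 380) (nat_lit 2264141862) (nat_lit 47) (nat_lit 5) (nat_lit 51) (nat_lit 5) (nat_lit 52) (nat_lit 5) (nat_lit 249)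 (nat_lit 242) (nat_lit 229))))) (XT.nd (nat_lit 234) (nat_lit 760) (nat_lit 0) (XT.nd (nat_lit 78) (nat_lit 456) (nat_lit 0) (XT.lf (nat_lit 0) (nat_lit 6015252890) (nat_lit 304) (nat_lit 1329094019) (nat_lit 380) (nat_lit 355592525) (nat_lit 47) (nat_lit 5) (nat_lit 51) (nat_lit 5) (nat_lit 52) (nat_lit 5) (nat_lit 250) (nat_lit 242) (nat_lit 228)) (XT.nd (nat_lit 78) (nat_lit 0) (nat_lit 0) (XT.lf (nat_lit 0) (nat_lit 1558515157) (nat_lit 456) (nat_lit 5442730819) (nat_lit 76) (nat_lit 938332126) (nat_lit 41) (nat_lit 5) (nat_lit 47) (nat_lit 5) (nat_lit 42) (nat_lit 5) (nat_lit 251) (nat_lit 242) (nat_lit 227)) (XT.lf (nat_lit 0) (nat_lit 3550438367) (nat_lit 456) (nat_lit 1264056553) (nat_lit 76) (nat_lit 3388357593) (nat_lit 41) (nat_lit 5) (nat_lit 47) (nat_lit 5) (nat_lit 42) (nat_lit 5) (nat_lit 252) (nat_lit 242) (nat_lit 226)))) (XT.nd (nat_lit 156) (nat_lit 304) (nat_lit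 0) (XT.nd (nat_lit 78) (nat_lit 0) (nat_lit 0) (XT.lf (nat_lit 0) (nat_lit 3290250929) (nat_lit 456) (nat_lit 2362926120) (nat_lit 532) (nat_lit 2838557300) (nat_lit 35) (nat_lit 5) (nat_lit 41) (nat_lit 5) (nat_lit 42) (nat_lit 5) (nat_lit 253) (nat_lit 242) (nat_lit 225)) (XT.lf (nat_lit 0) (nat_lit 7845364849) (nat_lit 532) (nat_lit 658373995) (nat_lit 76) (nat_lit 306902821) (nat_lit 35) (nat_lit 5) (nat_lit 42) (nat_lit 5) (nat_lit 36) (nat_lit 5) (nat_lit 254) (nat_lit 242) (nat_lit 224))) (XT.nd (nat_lit 78) (nat_lit 0) (nat_lit 0) (XT.lf (nat_lit 0) (nat_lit 1057966425) (nat_lit 304) (nat_lit 4898111897) (nat_lit 76) (nat_lit 3193232220) (nat_lit 31) (nat_lit 5) (nat_lit 35) (nat_lit 5) (nat_lit 32) (nat_lit 5) (nat_lit 255) (nat_lit 242) (nat_lit 223)) (XT.lf (nat_lit 0) (nat_lit 3099482146) (nat_lit 304) (nat_lit 72202737) (nat_lit 76) (nat_lit 6349184118) (nat_lit 31) (nat_lit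 5) (nat_lit 35) (nat_lit 5) (nat_lit 32) (nat_lit 5) (nat_lit 256) (nat_lit 242) (nat_lit 222)))))) (XT.nd (nat_lit 468) (nat_lit 456) (nat_lit 0) (XT.nd (nat_lit 234) (nat_lit 380) (nat_lit 0) (XT.nd (nat_lit 78) (nat_lit 228) (nat_lit 0) (XT.lf (nat_lit 0) (nat_lit 5289560680) (nat_lit 152) (nat_lit 40208031) (nat_lit 228) (nat_lit 4590798278) (nat_lit 29) (nat_lit 5) (nat_lit 31) (nat_lit 5) (nat_lit 32) (nat_lit 5) (nat_lit 257) (nat_lit 242) (nat_lit 221)) (XT.nd (nat_lit 78) (nat_lit 0) (nat_lit 0) (XT.lf (nat_lit 0) (nat_lit 560161813) (nat_lit 228) (nat_lit 7176905089) (nat_lit 304) (nat_lit 2615704246) (nat_lit 26) (nat_lit 5) (nat_lit 29) (nat_lit 5) (nat_lit 30) (nat_lit 5) (nat_lit 258) (nat_lit 242) (nat_lit 220)) (XT.lf (nat_lit 0) (nat_lit 6312197586) (nat_lit 228) (nat_lit 4059509805) (nat_lit 304) (nat_lit 445450075) (nat_lit 26) (nat_lit 5) (nat_lit 29) (nat_lit 5)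 (nat_lit 30) (nat_lit 5) (nat_lit 259) (nat_lit 242) (nat_lit 219)))) (XT.nd (nat_lit 78) (nat_lit 152) (nat_lit 0) (XT.lf (nat_lit 0) (nat_lit 1102130184) (nat_lit 152) (nat_lit 639260453) (nat_lit 228) (nat_lit 9578948201) (nat_lit 23) (nat_lit 5) (nat_lit 25) (nat_lit 5) (nat_lit 26) (nat_lit 5) (nat_lit 260) (nat_lit 242) (nat_lit 218)) (XT.nd (nat_lit 78) (nat_lit 152) (nat_lit 0) (XT.lf (nat_lit 0) (nat_lit 4193673070) (nat_lit 228) (nat_lit 4644816394) (nat_lit 76) (nat_lit 3015501640) (nat_lit 23) (nat_lit 5) (nat_lit 26) (nat_lit 5) (nat_lit 24) (nat_lit 5) (nat_lit 261) (nat_lit 242) (nat_lit 217)) (XT.lf (nat_lit 0) (nat_lit 1315646673) (nat_lit 152) (nat_lit 5495777682) (nat_lit 228) (nat_lit 5621652388) (nat_lit 21) (nat_lit 5) (nat_lit 23) (nat_lit 5) (nat_lit 24) (nat_lit 5) (nat_lit 262) (nat_lit 242) (nat_lit 216))))) (XT.nd (nat_lit 234) (nat_lit 228) (nat_lit 0) (XT.nd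 (nat_lit 78) (nat_lit 228) (nat_lit 0) (XT.lf (nat_lit 0) (nat_lit 7911825667) (nat_lit 152) (nat_lit 1778125288) (nat_lit 228) (nat_lit 3364692909) (nat_lit 21) (nat_lit 5) (nat_lit 23) (nat_lit 5) (nat_lit 24) (nat_lit 5) (nat_lit 263) (nat_lit 242) (nat_lit 215)) (XT.nd (nat_lit 78) (nat_lit 76) (nat_lit 0) (XT.lf (nat_lit 0) (nat_lit 1214030372) (nat_lit 152) (nat_lit 11597026152) (nat_lit 228) (nat_lit 914139649) (nat_lit 19) (nat_lit 5) (nat_lit 21) (nat_lit 5) (nat_lit 22) (nat_lit 4) (nat_lit 264) (nat_lit 242) (nat_lit 214)) (XT.lf (nat_lit 0) (nat_lit 1766398718) (nat_lit 228) (nat_lit 6261695331) (nat_lit 76) (nat_lit 6408525748) (nat_lit 18) (nat_lit 5) (nat_lit 21) (nat_lit 5) (nat_lit 19) (nat_lit 5) (nat_lit 265) (nat_lit 242) (nat_lit 213)))) (XT.nd (nat_lit 156) (nat_lit 76) (nat_lit 0) (XT.nd (nat_lit 78) (nat_lit 0) (nat_lit 0) (XT.lf (nat_lit 0) (nat_lit 387101231)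 (nat_lit 152) (nat_lit 4169529457) (nat_lit 228) (nat_lit 10651049438) (nat_lit 16) (nat_lit 5) (nat_lit 18) (nat_lit 5) (nat_lit 19) (nat_lit 5) (nat_lit 266) (nat_lit 242) (nat_lit 212)) (XT.lf (nat_lit 0) (nat_lit 7682779575) (nat_lit 228) (nat_lit 8205414677) (nat_lit 76) (nat_lit 143394185) (nat_lit 16) (nat_lit 5) (nat_lit 19) (nat_lit 5) (nat_lit 17) (nat_lit 4) (nat_lit 267) (nat_lit 242) (nat_lit 211))) (XT.nd (nat_lit 78) (nat_lit 76) (nat_lit 0) (XT.lf (nat_lit 0) (nat_lit 11109079501) (nat_lit 228) (nat_lit 1260265924) (nat_lit 76) (nat_lit 4548225024) (nat_lit 16) (nat_lit 5) (nat_lit 19) (nat_lit 5) (nat_lit 17) (nat_lit 4) (nat_lit 268) (nat_lit 242) (nat_lit 210)) (XT.lf (nat_lit 0) (nat_lit 6480480988) (nat_lit 76) (nat_lit 8430931916) (nat_lit 152) (nat_lit 2955017245) (nat_lit 15) (nat_lit 5) (nat_lit 16) (nat_lit 5) (nat_lit 17) (nat_lit 4) (nat_lit 269) (nat_lit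 242) (nat_lit 209))))))) (XT.nd (nat_lit 1014) (nat_lit 304) (nat_lit 0) (XT.nd (nat_lit 468) (nat_lit 228) (nat_lit 0) (XT.nd (nat_lit 234) (nat_lit 76) (nat_lit 0) (XT.nd (nat_lit 78) (nat_lit 152) (nat_lit 0) (XT.lf (nat_lit 0) (nat_lit 102359005) (nat_lit 152) (nat_lit 4065229968) (nat_lit 76) (nat_lit 14724940252) (nat_lit 14) (nat_lit 5) (nat_lit 16) (nat_lit 5) (nat_lit 15) (nat_lit 5) (nat_lit 270) (nat_lit 242) (nat_lit 208)) (XT.nd (nat_lit 78) (nat_lit 0) (nat_lit 0) (XT.lf (nat_lit 0) (nat_lit 3302771058) (nat_lit 228) (nat_lit 16125640244) (nat_lit 76) (nat_lit 561639002) (nat_lit 12) (nat_lit 5) (nat_lit 15) (nat_lit 5) (nat_lit 13) (nat_lit 4) (nat_lit 271) (nat_lit 242) (nat_lit 207)) (XT.lf (nat_lit 0) (nat_lit 6933185886) (nat_lit 228) (nat_lit 8697940748) (nat_lit 76) (nat_lit 5530441667) (nat_lit 12) (nat_lit 5) (nat_lit 15) (nat_lit 5) (nat_lit 13) (nat_lit 4) (nat_lit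 272) (nat_lit 242) (nat_lit 206)))) (XT.nd (nat_lit 78) (nat_lit 76) (nat_lit 0) (XT.lf (nat_lit 0) (nat_lit 10809296053) (nat_lit 228) (nat_lit 750042106) (nat_lit 76) (nat_lit 10871153068) (nat_lit 12) (nat_lit 5) (nat_lit 15) (nat_lit 5) (nat_lit 13) (nat_lit 4) (nat_lit 273) (nat_lit 242) (nat_lit 205)) (XT.nd (nat_lit 78) (nat_lit 0) (nat_lit 0) (XT.lf (nat_lit 0) (nat_lit 8174053609) (nat_lit 76) (nat_lit 6976603679) (nat_lit 152) (nat_lit 8637954440) (nat_lit 11) (nat_lit 5) (nat_lit 12) (nat_lit 5) (nat_lit 13) (nat_lit 4) (nat_lit 274) (nat_lit 242) (nat_lit 204)) (XT.lf (nat_lit 0) (nat_lit 17787933495) (nat_lit 76) (nat_lit 2031939395) (nat_lit 152) (nat_lit 5437154899) (nat_lit 11) (nat_lit 5) (nat_lit 12) (nat_lit 5) (nat_lit 13) (nat_lit 4) (nat_lit 275) (nat_lit 242) (nat_lit 203))))) (XT.nd (nat_lit 234) (nat_lit 76) (nat_lit 0) (XT.nd (nat_lit 78) (nat_lit 76) (nat_lit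 0) (XT.lf (nat_lit 0) (nat_lit 1246500575) (nat_lit 76) (nat_lit 23688068698) (nat_lit 76) (nat_lit 1902675304) (nat_lit 10) (nat_lit 4) (nat_lit 11) (nat_lit 5) (nat_lit 11) (nat_lit 4) (nat_lit 276) (nat_lit 242) (nat_lit 202)) (XT.nd (nat_lit 78) (nat_lit 0) (nat_lit 0) (XT.lf (nat_lit 0) (nat_lit 2043750895) (nat_lit 152) (nat_lit 17612257399) (nat_lit 76) (nat_lit 8866260894) (nat_lit 9) (nat_lit 5) (nat_lit 11) (nat_lit 5) (nat_lit 10) (nat_lit 4) (nat_lit 277) (nat_lit 242) (nat_lit 201)) (XT.lf (nat_lit 0) (nat_lit 6168525197) (nat_lit 152) (nat_lit 9104824876) (nat_lit 76) (nat_lit 15067623679) (nat_lit 9) (nat_lit 5) (nat_lit 11) (nat_lit 5) (nat_lit 10) (nat_lit 4) (nat_lit 278) (nat_lit 242) (nat_lit 200)))) (XT.nd (nat_lit 156) (nat_lit 0) (nat_lit 0) (XT.nd (nat_lit 78) (nat_lit 0) (nat_lit 0) (XT.lf (nat_lit 0) (nat_lit 29187439) (nat_lit 76) (nat_lit 10562784751) (nat_lit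 152) (nat_lit 21715768182) (nat_lit 8) (nat_lit 5) (nat_lit 9) (nat_lit 5) (nat_lit 10) (nat_lit 4) (nat_lit 279) (nat_lit 242) (nat_lit 199)) (XT.lf (nat_lit 0) (nat_lit 10357649745) (nat_lit 76) (nat_lit 5229646841) (nat_lit 152) (nat_lit 18827168043) (nat_lit 8) (nat_lit 5) (nat_lit 9) (nat_lit 5) (nat_lit 10) (nat_lit 4) (nat_lit 280) (nat_lit 242) (nat_lit 198))) (XT.nd (nat_lit 78) (nat_lit 0) (nat_lit 0) (XT.lf (nat_lit 0) (nat_lit 20965833266) (nat_lit 152) (nat_lit 15241982022) (nat_lit 0) (nat_lit 483276886) (nat_lit 8) (nat_lit 5) (nat_lit 10) (nat_lit 4) (nat_lit 8) (nat_lit 4) (nat_lit 281) (nat_lit 242) (nat_lit 197)) (XT.lf (nat_lit 0) (nat_lit 26883484534) (nat_lit 152) (nat_lit 5905847794) (nat_lit 0) (nat_lit 6351859449) (nat_lit 8) (nat_lit 5) (nat_lit 10) (nat_lit 4) (nat_lit 8) (nat_lit 4) (nat_lit 282) (nat_lit 242) (nat_lit 196)))))) (XT.nd (nat_lit 546) (nat_lit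 76) (nat_lit 0) (XT.nd (nat_lit 234) (nat_lit 76) (nat_lit 0) (XT.nd (nat_lit 78) (nat_lit 76) (nat_lit 0) (XT.lf (nat_lit 0) (nat_lit 4350306104) (nat_lit 76) (nat_lit 29003863683) (nat_lit 76) (nat_lit 8426804612) (nat_lit 7) (nat_lit 4) (nat_lit 8) (nat_lit 5) (nat_lit 8) (nat_lit 4) (nat_lit 283) (nat_lit 242) (nat_lit 195)) (XT.nd (nat_lit 78) (nat_lit 76) (nat_lit 0) (XT.lf (nat_lit 0) (nat_lit 15719458466) (nat_lit 76) (nat_lit 24760333815) (nat_lit 76) (nat_lit 4141206238) (nat_lit 7) (nat_lit 4) (nat_lit 8) (nat_lit 5) (nat_lit 8) (nat_lit 4) (nat_lit 284) (nat_lit 242) (nat_lit 194)) (XT.lf (nat_lit 0) (nat_lit 439846152) (nat_lit 152) (nat_lit 19743199898) (nat_lit 76) (nat_lit 27506118243) (nat_lit 6) (nat_lit 5) (nat_lit 8) (nat_lit 5) (nat_lit 7) (nat_lit 4) (nat_lit 285) (nat_lit 242) (nat_lit 193)))) (XT.nd (nat_lit 156) (nat_lit 0) (nat_lit 0) (XT.nd (nat_lit 78) (nat_lit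 76) (nat_lit 0) (XT.lf (nat_lit 0) (nat_lit 5142335095) (nat_lit 152) (nat_lit 9998089860) (nat_lit 76) (nat_lit 35855491396) (nat_lit 6) (nat_lit 5) (nat_lit 8) (nat_lit 5) (nat_lit 7) (nat_lit 4) (nat_lit 286) (nat_lit 242) (nat_lit 192)) (XT.lf (nat_lit 0) (nat_lit 516997267) (nat_lit 76) (nat_lit 9696723627) (nat_lit 152) (nat_lit 44354102351) (nat_lit 5) (nat_lit 5) (nat_lit 6) (nat_lit 5) (nat_lit 7) (nat_lit 4) (nat_lit 287) (nat_lit 242) (nat_lit 191))) (XT.nd (nat_lit 78) (nat_lit 0) (nat_lit 0) (XT.lf (nat_lit 0) (nat_lit 12407296169) (nat_lit 76) (nat_lit 3537780740) (nat_lit 152) (nat_lit 42460093268) (nat_lit 5) (nat_lit 5) (nat_lit 6) (nat_lit 5) (nat_lit 7) (nat_lit 4) (nat_lit 288) (nat_lit 242) (nat_lit 190)) (XT.lf (nat_lit 0) (nat_lit 22191794435) (nat_lit 152) (nat_lit 37408704001) (nat_lit 0) (nat_lit 2944484324) (nat_lit 5) (nat_lit 5) (nat_lit 7) (nat_lit 4) (nat_lit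 5) (nat_lit 4) (nat_lit 289) (nat_lit 242) (nat_lit 189))))) (XT.nd (nat_lit 234) (nat_lit 76) (nat_lit 0) (XT.nd (nat_lit 78) (nat_lit 0) (nat_lit 0) (XT.lf (nat_lit 0) (nat_lit 29013439958) (nat_lit 152) (nat_lit 28254966070) (nat_lit 0) (nat_lit 9741583278) (nat_lit 5) (nat_lit 5) (nat_lit 7) (nat_lit 4) (nat_lit 5) (nat_lit 4) (nat_lit 290) (nat_lit 242) (nat_lit 188)) (XT.nd (nat_lit 78) (nat_lit 0) (nat_lit 0) (XT.lf (nat_lit 0) (nat_lit 36365354333) (nat_lit 152) (nat_lit 18397332132) (nat_lit 0) (nat_lit 17070769348) (nat_lit 5) (nat_lit 5) (nat_lit 7) (nat_lit 4) (nat_lit 5) (nat_lit 4) (nat_lit 291) (nat_lit 242) (nat_lit 187)) (XT.lf (nat_lit 0) (nat_lit 44291104458) (nat_lit 152) (nat_lit 7777386578) (nat_lit 0) (nat_lit 24975474747) (nat_lit 5) (nat_lit 5) (nat_lit 7) (nat_lit 4) (nat_lit 5) (nat_lit 4) (nat_lit 292) (nat_lit 242) (nat_lit 186)))) (XT.nd (nat_lit 156) (nat_lit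 0) (nat_lit 0) (XT.nd (nat_lit 78) (nat_lit 0) (nat_lit 0) (XT.lf (nat_lit 0) (nat_lit 3860943640) (nat_lit 76) (nat_lit 49069569890) (nat_lit 76) (nat_lit 29734454321) (nat_lit 4) (nat_lit 4) (nat_lit 5) (nat_lit 5) (nat_lit 5) (nat_lit 4) (nat_lit 293) (nat_lit 242) (nat_lit 185)) (XT.lf (nat_lit 0) (nat_lit 16848912606) (nat_lit 76) (nat_lit 45611964575) (nat_lit 76) (nat_lit 26258806545) (nat_lit 4) (nat_lit 4) (nat_lit 5) (nat_lit 5) (nat_lit 5) (nat_lit 4) (nat_lit 294) (nat_lit 242) (nat_lit 184))) (XT.nd (nat_lit 78) (nat_lit 0) (nat_lit 0) (XT.lf (nat_lit 0) (nat_lit 30853942668) (nat_lit 76) (nat_lit 41887833110) (nat_lit 76) (nat_lit 22517969098) (nat_lit 4) (nat_lit 4) (nat_lit 5) (nat_lit 5) (nat_lit 5) (nat_lit 4) (nat_lit 295) (nat_lit 242) (nat_lit 183)) (XT.lf (nat_lit 0) (nat_lit 45959026595) (nat_lit 76) (nat_lit 37875106569) (nat_lit 76) (nat_lit 18489774056) (nat_lit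 4) (nat_lit 4) (nat_lit 5) (nat_lit 5) (nat_lit 5) (nat_lit 4) (nat_lit 296) (nat_lit 242) (nat_lit 182))))))))
noncomputable def xc55 : XT := (XT.nd (nat_lit 2106) (nat_lit 76) (nat_lit 0) (XT.nd (nat_lit 1014) (nat_lit 0) (nat_lit 0) (XT.nd (nat_lit 468) (nat_lit 0) (nat_lit 0) (XT.nd (nat_lit 234) (nat_lit 152) (nat_lit 0) (XT.nd (nat_lit 78) (nat_lit 0) (nat_lit 0) (XT.lf (nat_lit 0) (nat_lit 62253675997) (nat_lit 76) (nat_lit 33550005832) (nat_lit 76) (nat_lit 14150350631) (nat_lit 4) (nat_lit 4) (nat_lit 5) (nat_lit 5) (nat_lit 5) (nat_lit 4) (nat_lit 297) (nat_lit 242) (nat_lit 181)) (XT.nd (nat_lit 78) (nat_lit 0) (nat_lit 0) (XT.lf (nat_lit 0) (nat_lit 79834451758) (nat_lit 76) (nat_lit 28886900671) (nat_lit 76) (nat_lit 9473983723) (nat_lit 4) (nat_lit 4) (nat_lit 5) (nat_lit 5) (nat_lit 5) (nat_lit 4) (nat_lit 298) (nat_lit 242) (nat_lit 180)) (XT.lf (nat_lit 0) (nat_lit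 98805536254) (nat_lit 76) (nat_lit 23858157871) (nat_lit 76) (nat_lit 4432961527) (nat_lit 4) (nat_lit 4) (nat_lit 5) (nat_lit 5) (nat_lit 5) (nat_lit 4) (nat_lit 299) (nat_lit 242) (nat_lit 179)))) (XT.nd (nat_lit 78) (nat_lit 76) (nat_lit 0) (XT.lf (nat_lit 0) (nat_lit 952435133) (nat_lit 152) (nat_lit 17455501077) (nat_lit 76) (nat_lit 118300874328) (nat_lit 3) (nat_lit 5) (nat_lit 5) (nat_lit 5) (nat_lit 4) (nat_lit 4) (nat_lit 300) (nat_lit 242) (nat_lit 178)) (XT.nd (nat_lit 78) (nat_lit 76) (nat_lit 0) (XT.lf (nat_lit 0) (nat_lit 6521468587) (nat_lit 152) (nat_lit 5882439095) (nat_lit 76) (nat_lit 134677444386) (nat_lit 3) (nat_lit 5) (nat_lit 5) (nat_lit 5) (nat_lit 4) (nat_lit 4) (nat_lit 301) (nat_lit 242) (nat_lit 177)) (XT.lf (nat_lit 0) (nat_lit 6950976481) (nat_lit 76) (nat_lit 5745089874) (nat_lit 152) (nat_lit 145574836135) (nat_lit 2) (nat_lit 5) (nat_lit 3) (nat_lit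 5) (nat_lit 4) (nat_lit 4) (nat_lit 302) (nat_lit 242) (nat_lit 176))))) (XT.nd (nat_lit 234) (nat_lit 0) (nat_lit 0) (XT.nd (nat_lit 78) (nat_lit 0) (nat_lit 0) (XT.lf (nat_lit 0) (nat_lit 19557378193) (nat_lit 152) (nat_lit 149249400266) (nat_lit 0) (nat_lit 1533427026) (nat_lit 2) (nat_lit 5) (nat_lit 4) (nat_lit 4) (nat_lit 2) (nat_lit 4) (nat_lit 303) (nat_lit 242) (nat_lit 175)) (XT.nd (nat_lit 78) (nat_lit 0) (nat_lit 0) (XT.lf (nat_lit 0) (nat_lit 27110286255) (nat_lit 152) (nat_lit 147174761809) (nat_lit 0) (nat_lit 9078596986) (nat_lit 2) (nat_lit 5) (nat_lit 4) (nat_lit 4) (nat_lit 2) (nat_lit 4) (nat_lit 304) (nat_lit 242) (nat_lit 174)) (XT.lf (nat_lit 0) (nat_lit 35261378964) (nat_lit 152) (nat_lit 144945546934) (nat_lit 0) (nat_lit 17222524785) (nat_lit 2) (nat_lit 5) (nat_lit 4) (nat_lit 4) (nat_lit 2) (nat_lit 4) (nat_lit 305) (nat_lit 242) (nat_lit 173)))) (XT.nd (nat_lit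 156) (nat_lit 0) (nat_lit 0) (XT.nd (nat_lit 78) (nat_lit 0) (nat_lit 0) (XT.lf (nat_lit 0) (nat_lit 44058959092) (nat_lit 152) (nat_lit 142548545478) (nat_lit 0) (nat_lit 26013470739) (nat_lit 2) (nat_lit 5) (nat_lit 4) (nat_lit 4) (nat_lit 2) (nat_lit 4) (nat_lit 306) (nat_lit 242) (nat_lit 172)) (XT.lf (nat_lit 0) (nat_lit 53555160448) (nat_lit 152) (nat_lit 139969552989) (nat_lit 0) (nat_lit 35503529340) (nat_lit 2) (nat_lit 5) (nat_lit 4) (nat_lit 4) (nat_lit 2) (nat_lit 4) (nat_lit 307) (nat_lit 242) (nat_lit 171))) (XT.nd (nat_lit 78) (nat_lit 0) (nat_lit 0) (XT.lf (nat_lit 0) (nat_lit 63806256818) (nat_lit 152) (nat_lit 137193286549) (nat_lit 0) (nat_lit 45748937973) (nat_lit 2) (nat_lit 5) (nat_lit 4) (nat_lit 4) (nat_lit 2) (nat_lit 4) (nat_lit 308) (nat_lit 242) (nat_lit 170)) (XT.lf (nat_lit 0) (nat_lit 74872995438) (nat_lit 152) (nat_lit 134203294207) (nat_lit 0) (nat_lit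 56810410170) (nat_lit 2) (nat_lit 5) (nat_lit 4) (nat_lit 4) (nat_lit 2) (nat_lit 4) (nat_lit 309) (nat_lit 242) (nat_lit 169)))))) (XT.nd (nat_lit 546) (nat_lit 0) (nat_lit 0) (XT.nd (nat_lit 234) (nat_lit 0) (nat_lit 0) (XT.nd (nat_lit 78) (nat_lit 0) (nat_lit 0) (XT.lf (nat_lit 0) (nat_lit 86820956982) (nat_lit 152) (nat_lit 130981857492) (nat_lit 0) (nat_lit 68753495398) (nat_lit 2) (nat_lit 5) (nat_lit 4) (nat_lit 4) (nat_lit 2) (nat_lit 4) (nat_lit 310) (nat_lit 242) (nat_lit 168)) (XT.nd (nat_lit 78) (nat_lit 0) (nat_lit 0) (XT.lf (nat_lit 0) (nat_lit 99720944186) (nat_lit 152) (nat_lit 127509886407) (nat_lit 0) (nat_lit 81648967493) (nat_lit 2) (nat_lit 5) (nat_lit 4) (nat_lit 4) (nat_lit 2) (nat_lit 4) (nat_lit 311) (nat_lit 242) (nat_lit 167)) (XT.lf (nat_lit 0) (nat_lit 113649401418) (nat_lit 152) (nat_lit 123766806308) (nat_lit 0) (nat_lit 95573244069) (nat_lit 2) (nat_lit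 5) (nat_lit 4) (nat_lit 4) (nat_lit 2) (nat_lit 4) (nat_lit 312) (nat_lit 242) (nat_lit 166)))) (XT.nd (nat_lit 156) (nat_lit 0) (nat_lit 0) (XT.nd (nat_lit 78) (nat_lit 0) (nat_lit 0) (XT.lf (nat_lit 0) (nat_lit 128688867683) (nat_lit 152) (nat_lit 119730435982) (nat_lit 0) (nat_lit 110608839357) (nat_lit 2) (nat_lit 5) (nat_lit 4) (nat_lit 4) (nat_lit 2) (nat_lit 4) (nat_lit 313) (nat_lit 242) (nat_lit 165)) (XT.lf (nat_lit 0) (nat_lit 144928465745) (nat_lit 152) (nat_lit 115376856196) (nat_lit 0) (nat_lit 126844853181) (nat_lit 2) (nat_lit 5) (nat_lit 4) (nat_lit 4) (nat_lit 2) (nat_lit 4) (nat_lit 314) (nat_lit 242) (nat_lit 164))) (XT.nd (nat_lit 78) (nat_lit 0) (nat_lit 0) (XT.lf (nat_lit 0) (nat_lit 162464430260) (nat_lit 152) (nat_lit 110680267958) (nat_lit 0) (nat_lit 144377498956) (nat_lit 2) (nat_lit 5) (nat_lit 4) (nat_lit 4) (nat_lit 2) (nat_lit 4) (nat_lit 315) (nat_lit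 242) (nat_lit 163)) (XT.lf (nat_lit 0) (nat_lit 181400678053) (nat_lit 152) (nat_lit 105612839635) (nat_lit 0) (nat_lit 163310673842) (nat_lit 2) (nat_lit 5) (nat_lit 4) (nat_lit 4) (nat_lit 2) (nat_lit 4) (nat_lit 316) (nat_lit 242) (nat_lit 162))))) (XT.nd (nat_lit 234) (nat_lit 0) (nat_lit 0) (XT.nd (nat_lit 78) (nat_lit 0) (nat_lit 0) (XT.lf (nat_lit 0) (nat_lit 201849423926) (nat_lit 152) (nat_lit 100144542022) (nat_lit 0) (nat_lit 183756574431) (nat_lit 2) (nat_lit 5) (nat_lit 4) (nat_lit 4) (nat_lit 2) (nat_lit 4) (nat_lit 317) (nat_lit 242) (nat_lit 161)) (XT.nd (nat_lit 78) (nat_lit 0) (nat_lit 0) (XT.lf (nat_lit 0) (nat_lit 223931845634) (nat_lit 152) (nat_lit 94242970393) (nat_lit 0) (nat_lit 205836361616) (nat_lit 2) (nat_lit 5) (nat_lit 4) (nat_lit 4) (nat_lit 2) (nat_lit 4) (nat_lit 318) (nat_lit 242) (nat_lit 160)) (XT.lf (nat_lit 0) (nat_lit 247778801970) (nat_lit 152)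 (nat_lit 87873152470) (nat_lit 0) (nat_lit 229680878580) (nat_lit 2) (nat_lit 5) (nat_lit 4) (nat_lit 4) (nat_lit 2) (nat_lit 4) (nat_lit 319) (nat_lit 242) (nat_lit 159)))) (XT.nd (nat_lit 156) (nat_lit 0) (nat_lit 0) (XT.nd (nat_lit 78) (nat_lit 0) (nat_lit 0) (XT.lf (nat_lit 0) (nat_lit 273531608233) (nat_lit 152) (nat_lit 80997341185) (nat_lit 0) (nat_lit 255431426165) (nat_lit 2) (nat_lit 5) (nat_lit 4) (nat_lit 4) (nat_lit 2) (nat_lit 4) (nat_lit 320) (nat_lit 242) (nat_lit 158)) (XT.lf (nat_lit 0) (nat_lit 301342873643) (nat_lit 152) (nat_lit 73574790989) (nat_lit 0) (nat_lit 283240600206) (nat_lit 2) (nat_lit 5) (nat_lit 4) (nat_lit 4) (nat_lit 2) (nat_lit 4) (nat_lit 321) (nat_lit 242) (nat_lit 157))) (XT.nd (nat_lit 78) (nat_lit 0) (nat_lit 0) (XT.lf (nat_lit 0) (nat_lit 331377405701) (nat_lit 152) (nat_lit 65561516401) (nat_lit 0) (nat_lit 313273195812) (nat_lit 2) (nat_lit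 5) (nat_lit 4) (nat_lit 4) (nat_lit 2) (nat_lit 4) (nat_lit 322) (nat_lit 242) (nat_lit 156)) (XT.lf (nat_lit 0) (nat_lit 363813186818) (nat_lit 152) (nat_lit 56910031347) (nat_lit 0) (nat_lit 345707183917) (nat_lit 2) (nat_lit 5) (nat_lit 4) (nat_lit 4) (nat_lit 2) (nat_lit 4) (nat_lit 323) (nat_lit 242) (nat_lit 155))))))) (XT.nd (nat_lit 1014) (nat_lit 0) (nat_lit 0) (XT.nd (nat_lit 468) (nat_lit 0) (nat_lit 0) (XT.nd (nat_lit 234) (nat_lit 76) (nat_lit 0) (XT.nd (nat_lit 78) (nat_lit 0) (nat_lit 0) (XT.lf (nat_lit 0) (nat_lit 398842429030) (nat_lit 152) (nat_lit 47569067769) (nat_lit 0) (nat_lit 380734765933) (nat_lit 2) (nat_lit 5) (nat_lit 4) (nat_lit 4) (nat_lit 2) (nat_lit 4) (nat_lit 324) (nat_lit 242) (nat_lit 154)) (XT.nd (nat_lit 78) (nat_lit 0) (nat_lit 0) (XT.lf (nat_lit 0) (nat_lit 436672713032) (nat_lit 152) (nat_lit 37483271809) (nat_lit 0) (nat_lit 418563512717) (nat_lit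 2) (nat_lit 5) (nat_lit 4) (nat_lit 4) (nat_lit 2) (nat_lit 4) (nat_lit 325) (nat_lit 242) (nat_lit 153)) (XT.lf (nat_lit 0) (nat_lit 477528218285) (nat_lit 152) (nat_lit 26592875786) (nat_lit 0) (nat_lit 459417594619) (nat_lit 2) (nat_lit 5) (nat_lit 4) (nat_lit 4) (nat_lit 2) (nat_lit 4) (nat_lit 326) (nat_lit 242) (nat_lit 152)))) (XT.nd (nat_lit 78) (nat_lit 76) (nat_lit 0) (XT.lf (nat_lit 0) (nat_lit 521651051487) (nat_lit 152) (nat_lit 14833344020) (nat_lit 0) (nat_lit 503539109904) (nat_lit 2) (nat_lit 5) (nat_lit 4) (nat_lit 4) (nat_lit 2) (nat_lit 4) (nat_lit 327) (nat_lit 242) (nat_lit 151)) (XT.nd (nat_lit 78) (nat_lit 76) (nat_lit 0) (XT.lf (nat_lit 0) (nat_lit 569302681278) (nat_lit 152) (nat_lit 2134990398) (nat_lit 0) (nat_lit 551189519401) (nat_lit 2) (nat_lit 5) (nat_lit 4) (nat_lit 4) (nat_lit 2) (nat_lit 4) (nat_lit 328) (nat_lit 242) (nat_lit 150)) (XT.lf (nat_lit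 0) (nat_lit 12187081771) (nat_lit 76) (nat_lit 608871505525) (nat_lit 76) (nat_lit 590757213747) (nat_lit 1) (nat_lit 4) (nat_lit 2) (nat_lit 5) (nat_lit 2) (nat_lit 4) (nat_lit 329) (nat_lit 242) (nat_lit 149))))) (XT.nd (nat_lit 234) (nat_lit 0) (nat_lit 0) (XT.nd (nat_lit 78) (nat_lit 0) (nat_lit 0) (XT.lf (nat_lit 0) (nat_lit 27774587073) (nat_lit 76) (nat_lit 649237827908) (nat_lit 76) (nat_lit 631122489925) (nat_lit 1) (nat_lit 4) (nat_lit 2) (nat_lit 5) (nat_lit 2) (nat_lit 4) (nat_lit 330) (nat_lit 242) (nat_lit 148)) (XT.nd (nat_lit 78) (nat_lit 0) (nat_lit 0) (XT.lf (nat_lit 0) (nat_lit 44607471096) (nat_lit 76) (nat_lit 692834221081) (nat_lit 76) (nat_lit 674717914389) (nat_lit 1) (nat_lit 4) (nat_lit 2) (nat_lit 5) (nat_lit 2) (nat_lit 4) (nat_lit 331) (nat_lit 242) (nat_lit 147)) (XT.lf (nat_lit 0) (nat_lit 62785484265) (nat_lit 76) (nat_lit 739919034041) (nat_lit 76) (nat_lit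 721801830397) (nat_lit 1) (nat_lit 4) (nat_lit 2) (nat_lit 5) (nat_lit 2) (nat_lit 4) (nat_lit 332) (nat_lit 242) (nat_lit 146)))) (XT.nd (nat_lit 156) (nat_lit 0) (nat_lit 0) (XT.nd (nat_lit 78) (nat_lit 0) (nat_lit 0) (XT.lf (nat_lit 0) (nat_lit 82416348140) (nat_lit 76) (nat_lit 790771287903) (nat_lit 76) (nat_lit 772653253748) (nat_lit 1) (nat_lit 4) (nat_lit 2) (nat_lit 5) (nat_lit 2) (nat_lit 4) (nat_lit 333) (nat_lit 242) (nat_lit 145)) (XT.lf (nat_lit 0) (nat_lit 103616393765) (nat_lit 76) (nat_lit 845692329355) (nat_lit 76) (nat_lit 827573526208) (nat_lit 1) (nat_lit 4) (nat_lit 2) (nat_lit 5) (nat_lit 2) (nat_lit 4) (nat_lit 334) (nat_lit 242) (nat_lit 144))) (XT.nd (nat_lit 78) (nat_lit 0) (nat_lit 0) (XT.lf (nat_lit 0) (nat_lit 126511251041) (nat_lit 76) (nat_lit 905007616422) (nat_lit 76) (nat_lit 886888101245) (nat_lit 1) (nat_lit 4) (nat_lit 2) (nat_lit 5) (nat_lit 2)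 (nat_lit 4) (nat_lit 335) (nat_lit 242) (nat_lit 143)) (XT.lf (nat_lit 0) (nat_lit 151236593196) (nat_lit 76) (nat_lit 969068647100) (nat_lit 76) (nat_lit 950948472636) (nat_lit 1) (nat_lit 4) (nat_lit 2) (nat_lit 5) (nat_lit 2) (nat_lit 4) (nat_lit 336) (nat_lit 242) (nat_lit 142)))))) (XT.nd (nat_lit 30342) (nat_lit 0) (nat_lit 3040) (XT.nd (nat_lit 234) (nat_lit 0) (nat_lit 0) (XT.nd (nat_lit 78) (nat_lit 0) (nat_lit 0) (XT.lf (nat_lit 0) (nat_lit 177938940775) (nat_lit 76) (nat_lit 1038255042312) (nat_lit 76) (nat_lit 1020134257398) (nat_lit 1) (nat_lit 4) (nat_lit 2) (nat_lit 5) (nat_lit 2) (nat_lit 4) (nat_lit 337) (nat_lit 242) (nat_lit 141)) (XT.nd (nat_lit 78) (nat_lit 0) (nat_lit 0) (XT.lf (nat_lit 0) (nat_lit 206776529914) (nat_lit 76) (nat_lit 1112976795511) (nat_lit 76) (nat_lit 1094855445365) (nat_lit 1) (nat_lit 4) (nat_lit 2) (nat_lit 5) (nat_lit 2) (nat_lit 4) (nat_lit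 338) (nat_lit 242) (nat_lit 140)) (XT.lf (nat_lit 0) (nat_lit 237920250029) (nat_lit 76) (nat_lit 1193676702272) (nat_lit 76) (nat_lit 1175554828763) (nat_lit 1) (nat_lit 4) (nat_lit 2) (nat_lit 5) (nat_lit 2) (nat_lit 4) (nat_lit 339) (nat_lit 242) (nat_lit 139)))) (XT.nd (nat_lit 29952) (nat_lit 0) (nat_lit 4028) (XT.nd (nat_lit 78) (nat_lit 0) (nat_lit 0) (XT.lf (nat_lit 0) (nat_lit 271554656497) (nat_lit 76) (nat_lit 1280832984265) (nat_lit 76) (nat_lit 1262710626161) (nat_lit 1) (nat_lit 4) (nat_lit 2) (nat_lit 5) (nat_lit 2) (nat_lit 4) (nat_lit 340) (nat_lit 242) (nat_lit 138)) (XT.lf (nat_lit 0) (nat_lit 307879064322) (nat_lit 76) (nat_lit 1374962123160) (nat_lit 76) (nat_lit 1356839316356) (nat_lit 1) (nat_lit 4) (nat_lit 2) (nat_lit 5) (nat_lit 2) (nat_lit 4) (nat_lit 341) (nat_lit 242) (nat_lit 137))) (XT.nd (nat_lit 78) (nat_lit 0) (nat_lit 0) (XT.lf (nat_lit 0) (nat_lit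 414788989) (nat_lit 0) (nat_lit 414788989) (nat_lit 228) (nat_lit 2525026105) (nat_lit 54) (nat_lit 5) (nat_lit 54) (nat_lit 3) (nat_lit 57) (nat_lit 3) (nat_lit 243) (nat_lit 243) (nat_lit 234)) (XT.lf (nat_lit 0) (nat_lit 3685016046) (nat_lit 228) (nat_lit 2846259470) (nat_lit 304) (nat_lit 276306383) (nat_lit 54) (nat_lit 5) (nat_lit 57) (nat_lit 3) (nat_lit 58) (nat_lit 5) (nat_lit 244) (nat_lit 243) (nat_lit 233))))) (XT.nd (nat_lit 234) (nat_lit 684) (nat_lit 0) (XT.nd (nat_lit 78) (nat_lit 304) (nat_lit 0) (XT.lf (nat_lit 76) (nat_lit 306598152) (nat_lit 0) (nat_lit 5402273184) (nat_lit 304) (nat_lit 1219404228) (nat_lit 55) (nat_lit 5) (nat_lit 54) (nat_lit 5) (nat_lit 58) (nat_lit 5) (nat_lit 245) (nat_lit 243) (nat_lit 232)) (XT.nd (nat_lit 78) (nat_lit 0) (nat_lit 0) (XT.lf (nat_lit 0) (nat_lit 686714508) (nat_lit 304) (nat_lit 3325983027) (nat_lit 380) (nat_lit 3054051959)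 (nat_lit 50) (nat_lit 5) (nat_lit 54) (nat_lit 5) (nat_lit 55) (nat_lit 5) (nat_lit 246) (nat_lit 243) (nat_lit 231)) (XT.lf (nat_lit 76) (nat_lit 90469425) (nat_lit 0) (nat_lit 2417706720) (nat_lit 380) (nat_lit 4720343882) (nat_lit 51) (nat_lit 5) (nat_lit 50) (nat_lit 5) (nat_lit 55) (nat_lit 5) (nat_lit 247) (nat_lit 243) (nat_lit 230)))) (XT.nd (nat_lit 156) (nat_lit 456) (nat_lit 0) (XT.nd (nat_lit 78) (nat_lit 228) (nat_lit 0) (XT.lf (nat_lit 76) (nat_lit 3856569771) (nat_lit 0) (nat_lit 546414626) (nat_lit 380) (nat_lit 3007010718) (nat_lit 51) (nat_lit 5) (nat_lit 50) (nat_lit 5) (nat_lit 55) (nat_lit 5) (nat_lit 248) (nat_lit 243) (nat_lit 229)) (XT.lf (nat_lit 0) (nat_lit 172552704) (nat_lit 304) (nat_lit 6166350858) (nat_lit 380) (nat_lit 1276823738) (nat_lit 47) (nat_lit 5) (nat_lit 51) (nat_lit 5) (nat_lit 52) (nat_lit 5) (nat_lit 249) (nat_lit 243) (nat_lit 228))) (XT.nd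 (nat_lit 78) (nat_lit 380) (nat_lit 0) (XT.lf (nat_lit 0) (nat_lit 529824104) (nat_lit 380) (nat_lit 3586454158) (nat_lit 76) (nat_lit 3723861918) (nat_lit 46) (nat_lit 5) (nat_lit 51) (nat_lit 5) (nat_lit 47) (nat_lit 5) (nat_lit 250) (nat_lit 243) (nat_lit 227)) (XT.lf (nat_lit 0) (nat_lit 453457055) (nat_lit 380) (nat_lit 1834078094) (nat_lit 456) (nat_lit 5802992155) (nat_lit 41) (nat_lit 5) (nat_lit 46) (nat_lit 5) (nat_lit 47) (nat_lit 5) (nat_lit 251) (nat_lit 243) (nat_lit 226))))))))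
noncomputable def xc56 : XT := (XT.nd (nat_lit 2028) (nat_lit 608) (nat_lit 0) (XT.nd (nat_lit 1014) (nat_lit 836) (nat_lit 0) (XT.nd (nat_lit 468) (nat_lit 608) (nat_lit 0) (XT.nd (nat_lit 234) (nat_lit 456) (nat_lit 0) (XT.nd (nat_lit 78) (nat_lit 456) (nat_lit 0) (XT.lf (nat_lit 0) (nat_lit 4173969411) (nat_lit 456) (nat_lit 3473542324) (nat_lit 76) (nat_lit 715047558) (nat_lit 41) (nat_lit 5) (nat_lit 47) (nat_lit 5) (nat_lit 42) (nat_lit 5) (nat_lit 252) (nat_lit 243) (nat_lit 225)) (XT.nd (nat_lit 78) (nat_lit 0) (nat_lit 0) (XT.lf (nat_lit 0) (nat_lit 906661741) (nat_lit 456) (nat_lit 5255888266) (nat_lit 532) (nat_lit 2498318642) (nat_lit 35) (nat_lit 5) (nat_lit 41) (nat_lit 5) (nat_lit 42) (nat_lit 5) (nat_lit 253) (nat_lit 243) (nat_lit 224)) (XT.lf (nat_lit 0) (nat_lit 5723592146) (nat_lit 456) (nat_lit 2569466953) (nat_lit 532) (nat_lit 691924194) (nat_lit 35) (nat_lit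 5) (nat_lit 41) (nat_lit 5) (nat_lit 42) (nat_lit 5) (nat_lit 254) (nat_lit 243) (nat_lit 223)))) (XT.nd (nat_lit 78) (nat_lit 152) (nat_lit 0) (XT.lf (nat_lit 0) (nat_lit 1135399018) (nat_lit 304) (nat_lit 7820499618) (nat_lit 76) (nat_lit 382041347) (nat_lit 31) (nat_lit 5) (nat_lit 35) (nat_lit 5) (nat_lit 32) (nat_lit 5) (nat_lit 255) (nat_lit 243) (nat_lit 222)) (XT.nd (nat_lit 78) (nat_lit 152) (nat_lit 0) (XT.lf (nat_lit 0) (nat_lit 3127989511) (nat_lit 304) (nat_lit 3049794171) (nat_lit 76) (nat_lit 3535845519) (nat_lit 31) (nat_lit 5) (nat_lit 35) (nat_lit 5) (nat_lit 32) (nat_lit 5) (nat_lit 256) (nat_lit 243) (nat_lit 221)) (XT.lf (nat_lit 0) (nat_lit 2101368406) (nat_lit 152) (nat_lit 3134930431) (nat_lit 228) (nat_lit 4886987217) (nat_lit 29) (nat_lit 5) (nat_lit 31) (nat_lit 5) (nat_lit 32) (nat_lit 5) (nat_lit 257) (nat_lit 243) (nat_lit 220))))) (XT.nd (nat_lit 234)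 (nat_lit 304) (nat_lit 0) (XT.nd (nat_lit 78) (nat_lit 304) (nat_lit 0) (XT.lf (nat_lit 0) (nat_lit 7512392715) (nat_lit 228) (nat_lit 2837640186) (nat_lit 76) (nat_lit 216139476) (nat_lit 29) (nat_lit 5) (nat_lit 32) (nat_lit 5) (nat_lit 30) (nat_lit 5) (nat_lit 258) (nat_lit 243) (nat_lit 219)) (XT.nd (nat_lit 78) (nat_lit 76) (nat_lit 0) (XT.lf (nat_lit 0) (nat_lit 2713022534) (nat_lit 228) (nat_lit 7320825792) (nat_lit 304) (nat_lit 1005937216) (nat_lit 26) (nat_lit 5) (nat_lit 29) (nat_lit 5) (nat_lit 30) (nat_lit 5) (nat_lit 259) (nat_lit 243) (nat_lit 218)) (XT.lf (nat_lit 0) (nat_lit 1143006138) (nat_lit 304) (nat_lit 2811649950) (nat_lit 76) (nat_lit 7594811531) (nat_lit 25) (nat_lit 5) (nat_lit 29) (nat_lit 5) (nat_lit 26) (nat_lit 5) (nat_lit 260) (nat_lit 243) (nat_lit 217)))) (XT.nd (nat_lit 156) (nat_lit 152) (nat_lit 0) (XT.nd (nat_lit 78) (nat_lit 0) (nat_lit 0) (XT.lf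 (nat_lit 0) (nat_lit 3180737528) (nat_lit 152) (nat_lit 229340292) (nat_lit 228) (nat_lit 8687995506) (nat_lit 23) (nat_lit 5) (nat_lit 25) (nat_lit 5) (nat_lit 26) (nat_lit 5) (nat_lit 261) (nat_lit 243) (nat_lit 216)) (XT.lf (nat_lit 0) (nat_lit 5955522897) (nat_lit 228) (nat_lit 3065252612) (nat_lit 76) (nat_lit 3662294419) (nat_lit 23) (nat_lit 5) (nat_lit 26) (nat_lit 5) (nat_lit 24) (nat_lit 5) (nat_lit 262) (nat_lit 243) (nat_lit 215))) (XT.nd (nat_lit 78) (nat_lit 0) (nat_lit 0) (XT.lf (nat_lit 0) (nat_lit 3322651320) (nat_lit 152) (nat_lit 5400124169) (nat_lit 228) (nat_lit 4590880579) (nat_lit 21) (nat_lit 5) (nat_lit 23) (nat_lit 5) (nat_lit 24) (nat_lit 5) (nat_lit 263) (nat_lit 243) (nat_lit 214)) (XT.lf (nat_lit 0) (nat_lit 10305654048) (nat_lit 152) (nat_lit 1424712601) (nat_lit 228) (nat_lit 2263031305) (nat_lit 21) (nat_lit 5) (nat_lit 23) (nat_lit 5) (nat_lit 24) (nat_lit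 5) (nat_lit 264) (nat_lit 243) (nat_lit 213)))))) (XT.nd (nat_lit 468) (nat_lit 380) (nat_lit 0) (XT.nd (nat_lit 234) (nat_lit 76) (nat_lit 0) (XT.nd (nat_lit 78) (nat_lit 152) (nat_lit 0) (XT.lf (nat_lit 0) (nat_lit 323841861) (nat_lit 228) (nat_lit 11610475113) (nat_lit 76) (nat_lit 2786084209) (nat_lit 18) (nat_lit 5) (nat_lit 21) (nat_lit 5) (nat_lit 19) (nat_lit 5) (nat_lit 265) (nat_lit 243) (nat_lit 212)) (XT.nd (nat_lit 78) (nat_lit 152) (nat_lit 0) (XT.lf (nat_lit 0) (nat_lit 3075974873) (nat_lit 228) (nat_lit 5023890156) (nat_lit 76) (nat_lit 7394730469) (nat_lit 18) (nat_lit 5) (nat_lit 21) (nat_lit 5) (nat_lit 19) (nat_lit 5) (nat_lit 266) (nat_lit 243) (nat_lit 211)) (XT.lf (nat_lit 0) (nat_lit 2112791376) (nat_lit 152) (nat_lit 3930854036) (nat_lit 228) (nat_lit 10287616360) (nat_lit 16) (nat_lit 5) (nat_lit 18) (nat_lit 5) (nat_lit 19) (nat_lit 5) (nat_lit 267) (nat_lit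 243) (nat_lit 210)))) (XT.nd (nat_lit 78) (nat_lit 76) (nat_lit 0) (XT.lf (nat_lit 0) (nat_lit 9349482128) (nat_lit 228) (nat_lit 7219262223) (nat_lit 76) (nat_lit 658210281) (nat_lit 16) (nat_lit 5) (nat_lit 19) (nat_lit 5) (nat_lit 17) (nat_lit 4) (nat_lit 268) (nat_lit 243) (nat_lit 209)) (XT.nd (nat_lit 78) (nat_lit 0) (nat_lit 0) (XT.lf (nat_lit 0) (nat_lit 168241543) (nat_lit 76) (nat_lit 12807758852) (nat_lit 152) (nat_lit 5213947475) (nat_lit 15) (nat_lit 5) (nat_lit 16) (nat_lit 5) (nat_lit 17) (nat_lit 4) (nat_lit 269) (nat_lit 243) (nat_lit 208)) (XT.lf (nat_lit 0) (nat_lit 8481327969) (nat_lit 76) (nat_lit 8560639115) (nat_lit 152) (nat_lit 2176198916) (nat_lit 15) (nat_lit 5) (nat_lit 16) (nat_lit 5) (nat_lit 17) (nat_lit 4) (nat_lit 270) (nat_lit 243) (nat_lit 207))))) (XT.nd (nat_lit 234) (nat_lit 152) (nat_lit 0) (XT.nd (nat_lit 78) (nat_lit 152) (nat_lit 0) (XT.lf (nat_lit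 0) (nat_lit 1003542455) (nat_lit 152) (nat_lit 2968623361) (nat_lit 76) (nat_lit 16358125149) (nat_lit 14) (nat_lit 5) (nat_lit 16) (nat_lit 5) (nat_lit 15) (nat_lit 5) (nat_lit 271) (nat_lit 243) (nat_lit 206)) (XT.nd (nat_lit 78) (nat_lit 0) (nat_lit 0) (XT.lf (nat_lit 0) (nat_lit 4439810918) (nat_lit 228) (nat_lit 15971651922) (nat_lit 76) (nat_lit 1105928051) (nat_lit 12) (nat_lit 5) (nat_lit 15) (nat_lit 5) (nat_lit 13) (nat_lit 4) (nat_lit 272) (nat_lit 243) (nat_lit 205)) (XT.lf (nat_lit 0) (nat_lit 8296005734) (nat_lit 228) (nat_lit 8056702359) (nat_lit 76) (nat_lit 6435245453) (nat_lit 12) (nat_lit 5) (nat_lit 15) (nat_lit 5) (nat_lit 13) (nat_lit 4) (nat_lit 273) (nat_lit 243) (nat_lit 204)))) (XT.nd (nat_lit 156) (nat_lit 76) (nat_lit 0) (XT.nd (nat_lit 78) (nat_lit 0) (nat_lit 0) (XT.lf (nat_lit 0) (nat_lit 450522649) (nat_lit 76) (nat_lit 11982653073) (nat_lit 152) (nat_lit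 11729276682) (nat_lit 11) (nat_lit 5) (nat_lit 12) (nat_lit 5) (nat_lit 13) (nat_lit 4) (nat_lit 274) (nat_lit 243) (nat_lit 203)) (XT.lf (nat_lit 0) (nat_lit 10034666493) (nat_lit 76) (nat_lit 7049935476) (nat_lit 152) (nat_lit 8547729514) (nat_lit 11) (nat_lit 5) (nat_lit 12) (nat_lit 5) (nat_lit 13) (nat_lit 4) (nat_lit 275) (nat_lit 243) (nat_lit 202))) (XT.nd (nat_lit 78) (nat_lit 76) (nat_lit 0) (XT.lf (nat_lit 0) (nat_lit 20328272430) (nat_lit 76) (nat_lit 1745608901) (nat_lit 152) (nat_lit 5148737216) (nat_lit 11) (nat_lit 5) (nat_lit 12) (nat_lit 5) (nat_lit 13) (nat_lit 4) (nat_lit 276) (nat_lit 243) (nat_lit 201)) (XT.lf (nat_lit 0) (nat_lit 2478296075) (nat_lit 76) (nat_lit 25107167331) (nat_lit 76) (nat_lit 1344883435) (nat_lit 10) (nat_lit 4) (nat_lit 11) (nat_lit 5) (nat_lit 11) (nat_lit 4) (nat_lit 277) (nat_lit 243) (nat_lit 200))))))) (XT.nd (nat_lit 1014) (nat_lit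 228) (nat_lit 0) (XT.nd (nat_lit 468) (nat_lit 228) (nat_lit 0) (XT.nd (nat_lit 234) (nat_lit 0) (nat_lit 0) (XT.nd (nat_lit 78) (nat_lit 76) (nat_lit 0) (XT.lf (nat_lit 0) (nat_lit 2831777377) (nat_lit 152) (nat_lit 17938944381) (nat_lit 76) (nat_lit 9982177709) (nat_lit 9) (nat_lit 5) (nat_lit 11) (nat_lit 5) (nat_lit 10) (nat_lit 4) (nat_lit 278) (nat_lit 243) (nat_lit 199)) (XT.nd (nat_lit 78) (nat_lit 76) (nat_lit 0) (XT.lf (nat_lit 0) (nat_lit 7240272407) (nat_lit 152) (nat_lit 8831087154) (nat_lit 76) (nat_lit 16649529817) (nat_lit 9) (nat_lit 5) (nat_lit 11) (nat_lit 5) (nat_lit 10) (nat_lit 4) (nat_lit 279) (nat_lit 243) (nat_lit 198)) (XT.lf (nat_lit 0) (nat_lit 1008275927) (nat_lit 76) (nat_lit 10989975720) (nat_lit 152) (nat_lit 22848374723) (nat_lit 8) (nat_lit 5) (nat_lit 9) (nat_lit 5) (nat_lit 10) (nat_lit 4) (nat_lit 280) (nat_lit 243) (nat_lit 197)))) (XT.nd (nat_lit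 78) (nat_lit 0) (nat_lit 0) (XT.lf (nat_lit 0) (nat_lit 12090663106) (nat_lit 76) (nat_lit 5261137281) (nat_lit 152) (nat_lit 19773475826) (nat_lit 8) (nat_lit 5) (nat_lit 9) (nat_lit 5) (nat_lit 10) (nat_lit 4) (nat_lit 281) (nat_lit 243) (nat_lit 196)) (XT.nd (nat_lit 78) (nat_lit 0) (nat_lit 0) (XT.lf (nat_lit 0) (nat_lit 23130900464) (nat_lit 152) (nat_lit 15593338304) (nat_lit 0) (nat_lit 862242682) (nat_lit 8) (nat_lit 5) (nat_lit 10) (nat_lit 4) (nat_lit 8) (nat_lit 4) (nat_lit 282) (nat_lit 243) (nat_lit 195)) (XT.lf (nat_lit 0) (nat_lit 29485830461) (nat_lit 152) (nat_lit 5574609802) (nat_lit 0) (nat_lit 7175104173) (nat_lit 8) (nat_lit 5) (nat_lit 10) (nat_lit 4) (nat_lit 8) (nat_lit 4) (nat_lit 283) (nat_lit 243) (nat_lit 194))))) (XT.nd (nat_lit 234) (nat_lit 76) (nat_lit 0) (XT.nd (nat_lit 78) (nat_lit 76) (nat_lit 0) (XT.lf (nat_lit 0) (nat_lit 5481689425) (nat_lit 76)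 (nat_lit 30977864081) (nat_lit 76) (nat_lit 8628185473) (nat_lit 7) (nat_lit 4) (nat_lit 8) (nat_lit 5) (nat_lit 8) (nat_lit 4) (nat_lit 284) (nat_lit 243) (nat_lit 193)) (XT.nd (nat_lit 78) (nat_lit 76) (nat_lit 0) (XT.lf (nat_lit 0) (nat_lit 17702347396) (nat_lit 76) (nat_lit 26420504319) (nat_lit 76) (nat_lit 4034758748) (nat_lit 7) (nat_lit 4) (nat_lit 8) (nat_lit 5) (nat_lit 8) (nat_lit 4) (nat_lit 285) (nat_lit 243) (nat_lit 192)) (XT.lf (nat_lit 0) (nat_lit 860076679) (nat_lit 152) (nat_lit 20630181412) (nat_lit 76) (nat_lit 29982641051) (nat_lit 6) (nat_lit 5) (nat_lit 8) (nat_lit 5) (nat_lit 7) (nat_lit 4) (nat_lit 286) (nat_lit 243) (nat_lit 191)))) (XT.nd (nat_lit 156) (nat_lit 0) (nat_lit 0) (XT.nd (nat_lit 78) (nat_lit 76) (nat_lit 0) (XT.lf (nat_lit 0) (nat_lit 5910243046) (nat_lit 152) (nat_lit 10156756977) (nat_lit 76) (nat_lit 38979517142) (nat_lit 6) (nat_lit 5) (nat_lit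 8) (nat_lit 5) (nat_lit 7) (nat_lit 4) (nat_lit 287) (nat_lit 243) (nat_lit 190)) (XT.lf (nat_lit 0) (nat_lit 1183304715) (nat_lit 76) (nat_lit 10192656028) (nat_lit 152) (nat_lit 47529166986) (nat_lit 5) (nat_lit 5) (nat_lit 6) (nat_lit 5) (nat_lit 7) (nat_lit 4) (nat_lit 288) (nat_lit 243) (nat_lit 189))) (XT.nd (nat_lit 78) (nat_lit 0) (nat_lit 0) (XT.lf (nat_lit 0) (nat_lit 13978535108) (nat_lit 76) (nat_lit 3561724042) (nat_lit 152) (nat_lit 45511286328) (nat_lit 5) (nat_lit 5) (nat_lit 6) (nat_lit 5) (nat_lit 7) (nat_lit 4) (nat_lit 289) (nat_lit 243) (nat_lit 188)) (XT.lf (nat_lit 0) (nat_lit 24268811091) (nat_lit 152) (nat_lit 39847268193) (nat_lit 0) (nat_lit 3407931003) (nat_lit 5) (nat_lit 5) (nat_lit 7) (nat_lit 4) (nat_lit 5) (nat_lit 4) (nat_lit 290) (nat_lit 243) (nat_lit 187)))))) (XT.nd (nat_lit 546) (nat_lit 152) (nat_lit 0) (XT.nd (nat_lit 234) (nat_lit 76) (nat_lit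 0) (XT.nd (nat_lit 78) (nat_lit 0) (nat_lit 0) (XT.lf (nat_lit 0) (nat_lit 31613842101) (nat_lit 152) (nat_lit 30002278052) (nat_lit 0) (nat_lit 10731917286) (nat_lit 5) (nat_lit 5) (nat_lit 7) (nat_lit 4) (nat_lit 5) (nat_lit 4) (nat_lit 291) (nat_lit 243) (nat_lit 186)) (XT.nd (nat_lit 78) (nat_lit 0) (nat_lit 0) (XT.lf (nat_lit 0) (nat_lit 39533218740) (nat_lit 152) (nat_lit 19394039718) (nat_lit 0) (nat_lit 18631808068) (nat_lit 5) (nat_lit 5) (nat_lit 7) (nat_lit 4) (nat_lit 5) (nat_lit 4) (nat_lit 292) (nat_lit 243) (nat_lit 185)) (XT.lf (nat_lit 0) (nat_lit 48073870649) (nat_lit 152) (nat_lit 7959689555) (nat_lit 0) (nat_lit 27154417516) (nat_lit 5) (nat_lit 5) (nat_lit 7) (nat_lit 4) (nat_lit 5) (nat_lit 4) (nat_lit 293) (nat_lit 243) (nat_lit 184)))) (XT.nd (nat_lit 156) (nat_lit 0) (nat_lit 0) (XT.nd (nat_lit 78) (nat_lit 0) (nat_lit 0) (XT.lf (nat_lit 0) (nat_lit 4598570676)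 (nat_lit 76) (nat_lit 52798434156) (nat_lit 76) (nat_lit 31862275041) (nat_lit 4) (nat_lit 4) (nat_lit 5) (nat_lit 5) (nat_lit 5) (nat_lit 4) (nat_lit 294) (nat_lit 243) (nat_lit 183)) (XT.lf (nat_lit 0) (nat_lit 18593817786) (nat_lit 76) (nat_lit 49078790884) (nat_lit 76) (nat_lit 28127163267) (nat_lit 4) (nat_lit 4) (nat_lit 5) (nat_lit 5) (nat_lit 5) (nat_lit 4) (nat_lit 295) (nat_lit 243) (nat_lit 182))) (XT.nd (nat_lit 78) (nat_lit 0) (nat_lit 0) (XT.lf (nat_lit 0) (nat_lit 33689843425) (nat_lit 76) (nat_lit 45070220077) (nat_lit 76) (nat_lit 24104269773) (nat_lit 4) (nat_lit 4) (nat_lit 5) (nat_lit 5) (nat_lit 5) (nat_lit 4) (nat_lit 296) (nat_lit 243) (nat_lit 181)) (XT.lf (nat_lit 0) (nat_lit 49976105523) (nat_lit 76) (nat_lit 40748967241) (nat_lit 76) (nat_lit 19769755190) (nat_lit 4) (nat_lit 4) (nat_lit 5) (nat_lit 5) (nat_lit 5) (nat_lit 4) (nat_lit 297) (nat_lit 243) (nat_lit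 180))))) (XT.nd (nat_lit 234) (nat_lit 152) (nat_lit 0) (XT.nd (nat_lit 78) (nat_lit 0) (nat_lit 0) (XT.lf (nat_lit 0) (nat_lit 67549115262) (nat_lit 76) (nat_lit 36089424952) (nat_lit 76) (nat_lit 15097933505) (nat_lit 4) (nat_lit 4) (nat_lit 5) (nat_lit 5) (nat_lit 5) (nat_lit 4) (nat_lit 298) (nat_lit 243) (nat_lit 179)) (XT.nd (nat_lit 78) (nat_lit 0) (nat_lit 0) (XT.lf (nat_lit 0) (nat_lit 86513008996) (nat_lit 76) (nat_lit 31063981108) (nat_lit 76) (nat_lit 10061119850) (nat_lit 4) (nat_lit 4) (nat_lit 5) (nat_lit 5) (nat_lit 5) (nat_lit 4) (nat_lit 299) (nat_lit 243) (nat_lit 178)) (XT.lf (nat_lit 0) (nat_lit 106980165356) (nat_lit 76) (nat_lit 25642855300) (nat_lit 76) (nat_lit 4629466439) (nat_lit 4) (nat_lit 4) (nat_lit 5) (nat_lit 5) (nat_lit 5) (nat_lit 4) (nat_lit 300) (nat_lit 243) (nat_lit 177)))) (XT.nd (nat_lit 156) (nat_lit 76) (nat_lit 0) (XT.nd (nat_lit 78) (nat_lit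 0) (nat_lit 0) (XT.lf (nat_lit 0) (nat_lit 1167724023) (nat_lit 152) (nat_lit 18594270671) (nat_lit 76) (nat_lit 127872219524) (nat_lit 3) (nat_lit 5) (nat_lit 5) (nat_lit 5) (nat_lit 4) (nat_lit 4) (nat_lit 301) (nat_lit 243) (nat_lit 176)) (XT.lf (nat_lit 0) (nat_lit 7171976889) (nat_lit 152) (nat_lit 6114450434) (nat_lit 76) (nat_lit 145550968872) (nat_lit 3) (nat_lit 5) (nat_lit 5) (nat_lit 5) (nat_lit 4) (nat_lit 4) (nat_lit 302) (nat_lit 243) (nat_lit 175))) (XT.nd (nat_lit 78) (nat_lit 0) (nat_lit 0) (XT.lf (nat_lit 0) (nat_lit 7739598292) (nat_lit 76) (nat_lit 6096996806) (nat_lit 152) (nat_lit 157085843250) (nat_lit 2) (nat_lit 5) (nat_lit 3) (nat_lit 5) (nat_lit 4) (nat_lit 4) (nat_lit 303) (nat_lit 243) (nat_lit 174)) (XT.lf (nat_lit 0) (nat_lit 21239962550) (nat_lit 152) (nat_lit 160967046881) (nat_lit 0) (nat_lit 1750835128) (nat_lit 2) (nat_lit 5) (nat_lit 4) (nat_lit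 4) (nat_lit 2) (nat_lit 4) (nat_lit 304) (nat_lit 243) (nat_lit 173))))))))
noncomputable def xc57 : XT := (XT.nd (nat_lit 2028) (nat_lit 0) (nat_lit 0) (XT.nd (nat_lit 1014) (nat_lit 76) (nat_lit 0) (XT.nd (nat_lit 468) (nat_lit 0) (nat_lit 0) (XT.nd (nat_lit 234) (nat_lit 0) (nat_lit 0) (XT.nd (nat_lit 78) (nat_lit 0) (nat_lit 0) (XT.lf (nat_lit 0) (nat_lit 29388362953) (nat_lit 152) (nat_lit 158742904414) (nat_lit 0) (nat_lit 9892601355) (nat_lit 2) (nat_lit 5) (nat_lit 4) (nat_lit 4) (nat_lit 2) (nat_lit 4) (nat_lit 305) (nat_lit 243) (nat_lit 172)) (XT.nd (nat_lit 78) (nat_lit 0) (nat_lit 0) (XT.lf (nat_lit 0) (nat_lit 38183450205) (nat_lit 152) (nat_lit 156350599633) (nat_lit 0) (nat_lit 18681545852) (nat_lit 2) (nat_lit 5) (nat_lit 4) (nat_lit 4) (nat_lit 2) (nat_lit 4) (nat_lit 306) (nat_lit 243) (nat_lit 171)) (XT.lf (nat_lit 0) (nat_lit 47677343342) (nat_lit 152) (nat_lit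 153775955917) (nat_lit 0) (nat_lit 28169751253) (nat_lit 2) (nat_lit 5) (nat_lit 4) (nat_lit 4) (nat_lit 2) (nat_lit 4) (nat_lit 307) (nat_lit 243) (nat_lit 170)))) (XT.nd (nat_lit 78) (nat_lit 0) (nat_lit 0) (XT.lf (nat_lit 0) (nat_lit 57926302471) (nat_lit 152) (nat_lit 151003716118) (nat_lit 0) (nat_lit 38413443960) (nat_lit 2) (nat_lit 5) (nat_lit 4) (nat_lit 4) (nat_lit 2) (nat_lit 4) (nat_lit 308) (nat_lit 243) (nat_lit 169)) (XT.nd (nat_lit 78) (nat_lit 0) (nat_lit 0) (XT.lf (nat_lit 0) (nat_lit 68991062166) (nat_lit 152) (nat_lit 148017452148) (nat_lit 0) (nat_lit 49473327338) (nat_lit 2) (nat_lit 5) (nat_lit 4) (nat_lit 4) (nat_lit 2) (nat_lit 4) (nat_lit 309) (nat_lit 243) (nat_lit 168)) (XT.lf (nat_lit 0) (nat_lit 80937191372) (nat_lit 152) (nat_lit 144799467629) (nat_lit 0) (nat_lit 61414941435) (nat_lit 2) (nat_lit 5) (nat_lit 4) (nat_lit 4) (nat_lit 2) (nat_lit 4) (nat_lit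 310) (nat_lit 243) (nat_lit 167))))) (XT.nd (nat_lit 234) (nat_lit 0) (nat_lit 0) (XT.nd (nat_lit 78) (nat_lit 0) (nat_lit 0) (XT.lf (nat_lit 0) (nat_lit 93835481966) (nat_lit 152) (nat_lit 141330693021) (nat_lit 0) (nat_lit 74309051373) (nat_lit 2) (nat_lit 5) (nat_lit 4) (nat_lit 4) (nat_lit 2) (nat_lit 4) (nat_lit 311) (nat_lit 243) (nat_lit 166)) (XT.nd (nat_lit 78) (nat_lit 0) (nat_lit 0) (XT.lf (nat_lit 0) (nat_lit 107762368262) (nat_lit 152) (nat_lit 137590572625) (nat_lit 0) (nat_lit 88232066693) (nat_lit 2) (nat_lit 5) (nat_lit 4) (nat_lit 4) (nat_lit 2) (nat_lit 4) (nat_lit 312) (nat_lit 243) (nat_lit 165)) (XT.lf (nat_lit 0) (nat_lit 122800379958) (nat_lit 152) (nat_lit 133556942763) (nat_lit 0) (nat_lit 103266494150) (nat_lit 2) (nat_lit 5) (nat_lit 4) (nat_lit 4) (nat_lit 2) (nat_lit 4) (nat_lit 313) (nat_lit 243) (nat_lit 164)))) (XT.nd (nat_lit 156) (nat_lit 0) (nat_lit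 0) (XT.nd (nat_lit 78) (nat_lit 0) (nat_lit 0) (XT.lf (nat_lit 0) (nat_lit 139038631197) (nat_lit 152) (nat_lit 129205900444) (nat_lit 0) (nat_lit 119501426649) (nat_lit 2) (nat_lit 5) (nat_lit 4) (nat_lit 4) (nat_lit 2) (nat_lit 4) (nat_lit 314) (nat_lit 243) (nat_lit 163)) (XT.lf (nat_lit 0) (nat_lit 156573348653) (nat_lit 152) (nat_lit 124511661713) (nat_lit 0) (nat_lit 137033071198) (nat_lit 2) (nat_lit 5) (nat_lit 4) (nat_lit 4) (nat_lit 2) (nat_lit 4) (nat_lit 315) (nat_lit 243) (nat_lit 162))) (XT.nd (nat_lit 78) (nat_lit 0) (nat_lit 0) (XT.lf (nat_lit 0) (nat_lit 175508441762) (nat_lit 152) (nat_lit 119446408859) (nat_lit 0) (nat_lit 155965319023) (nat_lit 2) (nat_lit 5) (nat_lit 4) (nat_lit 4) (nat_lit 2) (nat_lit 4) (nat_lit 316) (nat_lit 243) (nat_lit 161)) (XT.lf (nat_lit 0) (nat_lit 195956118483) (nat_lit 152) (nat_lit 113980125569) (nat_lit 0) (nat_lit 176410361222) (nat_lit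 2) (nat_lit 5) (nat_lit 4) (nat_lit 4) (nat_lit 2) (nat_lit 4) (nat_lit 317) (nat_lit 243) (nat_lit 160)))))) (XT.nd (nat_lit 468) (nat_lit 76) (nat_lit 0) (XT.nd (nat_lit 234) (nat_lit 0) (nat_lit 0) (XT.nd (nat_lit 78) (nat_lit 0) (nat_lit 0) (XT.lf (nat_lit 0) (nat_lit 218037550235) (nat_lit 152) (nat_lit 108080419054) (nat_lit 0) (nat_lit 198489353601) (nat_lit 2) (nat_lit 5) (nat_lit 4) (nat_lit 4) (nat_lit 2) (nat_lit 4) (nat_lit 318) (nat_lit 243) (nat_lit 159)) (XT.nd (nat_lit 78) (nat_lit 0) (nat_lit 0) (XT.lf (nat_lit 0) (nat_lit 241883589946) (nat_lit 152) (nat_lit 101712328088) (nat_lit 0) (nat_lit 222333134634) (nat_lit 2) (nat_lit 5) (nat_lit 4) (nat_lit 4) (nat_lit 2) (nat_lit 4) (nat_lit 319) (nat_lit 243) (nat_lit 158)) (XT.lf (nat_lit 0) (nat_lit 267635547481) (nat_lit 152) (nat_lit 94838115838) (nat_lit 0) (nat_lit 248083000801) (nat_lit 2) (nat_lit 5) (nat_lit 4)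 (nat_lit 4) (nat_lit 2) (nat_lit 4) (nat_lit 320) (nat_lit 243) (nat_lit 157)))) (XT.nd (nat_lit 78) (nat_lit 0) (nat_lit 0) (XT.lf (nat_lit 0) (nat_lit 295446027033) (nat_lit 152) (nat_lit 87417046230) (nat_lit 0) (nat_lit 275891543900) (nat_lit 2) (nat_lit 5) (nat_lit 4) (nat_lit 4) (nat_lit 2) (nat_lit 4) (nat_lit 321) (nat_lit 243) (nat_lit 156)) (XT.nd (nat_lit 78) (nat_lit 0) (nat_lit 0) (XT.lf (nat_lit 0) (nat_lit 325479831444) (nat_lit 152) (nat_lit 79405142556) (nat_lit 0) (nat_lit 305923555299) (nat_lit 2) (nat_lit 5) (nat_lit 4) (nat_lit 4) (nat_lit 2) (nat_lit 4) (nat_lit 322) (nat_lit 243) (nat_lit 155)) (XT.lf (nat_lit 0) (nat_lit 357914938814) (nat_lit 152) (nat_lit 70754926868) (nat_lit 0) (nat_lit 338357002473) (nat_lit 2) (nat_lit 5) (nat_lit 4) (nat_lit 4) (nat_lit 2) (nat_lit 4) (nat_lit 323) (nat_lit 243) (nat_lit 154))))) (XT.nd (nat_lit 234) (nat_lit 76) (nat_lit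 0) (XT.nd (nat_lit 78) (nat_lit 0) (nat_lit 0) (XT.lf (nat_lit 0) (nat_lit 392943557186) (nat_lit 152) (nat_lit 61415138628) (nat_lit 0) (nat_lit 373384083627) (nat_lit 2) (nat_lit 5) (nat_lit 4) (nat_lit 4) (nat_lit 2) (nat_lit 4) (nat_lit 324) (nat_lit 243) (nat_lit 153)) (XT.nd (nat_lit 78) (nat_lit 0) (nat_lit 0) (XT.lf (nat_lit 0) (nat_lit 430773263559) (nat_lit 152) (nat_lit 51330430944) (nat_lit 0) (nat_lit 411212366649) (nat_lit 2) (nat_lit 5) (nat_lit 4) (nat_lit 4) (nat_lit 2) (nat_lit 4) (nat_lit 325) (nat_lit 243) (nat_lit 152)) (XT.lf (nat_lit 0) (nat_lit 471628233970) (nat_lit 152) (nat_lit 40441042584) (nat_lit 0) (nat_lit 452066019143) (nat_lit 2) (nat_lit 5) (nat_lit 4) (nat_lit 4) (nat_lit 2) (nat_lit 4) (nat_lit 326) (nat_lit 243) (nat_lit 151)))) (XT.nd (nat_lit 156) (nat_lit 76) (nat_lit 0) (XT.nd (nat_lit 78) (nat_lit 0) (nat_lit 0) (XT.lf (nat_lit 0) (nat_lit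 515750571947) (nat_lit 152) (nat_lit 28682443840) (nat_lit 0) (nat_lit 496187136827) (nat_lit 2) (nat_lit 5) (nat_lit 4) (nat_lit 4) (nat_lit 2) (nat_lit 4) (nat_lit 327) (nat_lit 243) (nat_lit 150)) (XT.lf (nat_lit 0) (nat_lit 563401743197) (nat_lit 152) (nat_lit 15984954126) (nat_lit 0) (nat_lit 543837178176) (nat_lit 2) (nat_lit 5) (nat_lit 4) (nat_lit 4) (nat_lit 2) (nat_lit 4) (nat_lit 328) (nat_lit 243) (nat_lit 149))) (XT.nd (nat_lit 78) (nat_lit 76) (nat_lit 0) (XT.lf (nat_lit 0) (nat_lit 614864125032) (nat_lit 152) (nat_lit 2273329060) (nat_lit 0) (nat_lit 595298513805) (nat_lit 2) (nat_lit 5) (nat_lit 4) (nat_lit 4) (nat_lit 2) (nat_lit 4) (nat_lit 329) (nat_lit 243) (nat_lit 148)) (XT.lf (nat_lit 0) (nat_lit 13193687096) (nat_lit 76) (nat_lit 657566301108) (nat_lit 76) (nat_lit 637999721173) (nat_lit 1) (nat_lit 4) (nat_lit 2) (nat_lit 5) (nat_lit 2) (nat_lit 4) (nat_lit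 330) (nat_lit 243) (nat_lit 147))))))) (XT.nd (nat_lit 30888) (nat_lit 0) (nat_lit 2128) (XT.nd (nat_lit 468) (nat_lit 0) (nat_lit 0) (XT.nd (nat_lit 234) (nat_lit 0) (nat_lit 0) (XT.nd (nat_lit 78) (nat_lit 0) (nat_lit 0) (XT.lf (nat_lit 0) (nat_lit 30025849208) (nat_lit 76) (nat_lit 701163034826) (nat_lit 76) (nat_lit 681595557939) (nat_lit 1) (nat_lit 4) (nat_lit 2) (nat_lit 5) (nat_lit 2) (nat_lit 4) (nat_lit 331) (nat_lit 243) (nat_lit 146)) (XT.nd (nat_lit 78) (nat_lit 0) (nat_lit 0) (XT.lf (nat_lit 0) (nat_lit 48203193941) (nat_lit 76) (nat_lit 748248163106) (nat_lit 76) (nat_lit 728679855707) (nat_lit 1) (nat_lit 4) (nat_lit 2) (nat_lit 5) (nat_lit 2) (nat_lit 4) (nat_lit 332) (nat_lit 243) (nat_lit 145)) (XT.lf (nat_lit 0) (nat_lit 67833438893) (nat_lit 76) (nat_lit 799100708930) (nat_lit 76) (nat_lit 779531632539) (nat_lit 1) (nat_lit 4) (nat_lit 2) (nat_lit 5) (nat_lit 2)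 (nat_lit 4) (nat_lit 333) (nat_lit 243) (nat_lit 144)))) (XT.nd (nat_lit 78) (nat_lit 0) (nat_lit 0) (XT.lf (nat_lit 0) (nat_lit 89032911441) (nat_lit 76) (nat_lit 854022020718) (nat_lit 76) (nat_lit 834452232298) (nat_lit 1) (nat_lit 4) (nat_lit 2) (nat_lit 5) (nat_lit 2) (nat_lit 4) (nat_lit 334) (nat_lit 243) (nat_lit 143)) (XT.nd (nat_lit 78) (nat_lit 0) (nat_lit 0) (XT.lf (nat_lit 0) (nat_lit 111927238091) (nat_lit 76) (nat_lit 913337558095) (nat_lit 76) (nat_lit 893767110388) (nat_lit 1) (nat_lit 4) (nat_lit 2) (nat_lit 5) (nat_lit 2) (nat_lit 4) (nat_lit 335) (nat_lit 243) (nat_lit 142)) (XT.lf (nat_lit 0) (nat_lit 136652088924) (nat_lit 76) (nat_lit 977398820543) (nat_lit 76) (nat_lit 957827762385) (nat_lit 1) (nat_lit 4) (nat_lit 2) (nat_lit 5) (nat_lit 2) (nat_lit 4) (nat_lit 336) (nat_lit 243) (nat_lit 141))))) (XT.nd (nat_lit 234) (nat_lit 0) (nat_lit 0) (XT.nd (nat_lit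 78) (nat_lit 0) (nat_lit 0) (XT.lf (nat_lit 0) (nat_lit 163353981578) (nat_lit 76) (nat_lit 1046585430356) (nat_lit 76) (nat_lit 1027013806966) (nat_lit 1) (nat_lit 4) (nat_lit 2) (nat_lit 5) (nat_lit 2) (nat_lit 4) (nat_lit 337) (nat_lit 243) (nat_lit 140)) (XT.nd (nat_lit 78) (nat_lit 0) (nat_lit 0) (XT.lf (nat_lit 0) (nat_lit 192191149488) (nat_lit 76) (nat_lit 1121307382260) (nat_lit 76) (nat_lit 1101735235507) (nat_lit 1) (nat_lit 4) (nat_lit 2) (nat_lit 5) (nat_lit 2) (nat_lit 4) (nat_lit 338) (nat_lit 243) (nat_lit 139)) (XT.lf (nat_lit 0) (nat_lit 223334479576) (nat_lit 76) (nat_lit 1202007473007) (nat_lit 76) (nat_lit 1182434841659) (nat_lit 1) (nat_lit 4) (nat_lit 2) (nat_lit 5) (nat_lit 2) (nat_lit 4) (nat_lit 339) (nat_lit 243) (nat_lit 138)))) (XT.nd (nat_lit 30030) (nat_lit 0) (nat_lit 3648) (XT.nd (nat_lit 78) (nat_lit 0) (nat_lit 0) (XT.lf (nat_lit 0) (nat_lit 256968524909)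 (nat_lit 76) (nat_lit 1289163925357) (nat_lit 76) (nat_lit 1269590845309) (nat_lit 1) (nat_lit 4) (nat_lit 2) (nat_lit 5) (nat_lit 2) (nat_lit 4) (nat_lit 340) (nat_lit 243) (nat_lit 137)) (XT.lf (nat_lit 0) (nat_lit 293292598349) (nat_lit 76) (nat_lit 1383293221990) (nat_lit 76) (nat_lit 1363719726480) (nat_lit 1) (nat_lit 4) (nat_lit 2) (nat_lit 5) (nat_lit 2) (nat_lit 4) (nat_lit 341) (nat_lit 243) (nat_lit 136))) (XT.nd (nat_lit 78) (nat_lit 380) (nat_lit 0) (XT.lf (nat_lit 0) (nat_lit 1400742663) (nat_lit 0) (nat_lit 1400742663) (nat_lit 228) (nat_lit 656127012) (nat_lit 54) (nat_lit 5) (nat_lit 54) (nat_lit 3) (nat_lit 57) (nat_lit 3) (nat_lit 244) (nat_lit 244) (nat_lit 232)) (XT.lf (nat_lit 0) (nat_lit 431737454) (nat_lit 380) (nat_lit 1006723312) (nat_lit 380) (nat_lit 5607235303) (nat_lit 49) (nat_lit 3) (nat_lit 54) (nat_lit 3) (nat_lit 54) (nat_lit 5) (nat_lit 245) (nat_lit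 244) (nat_lit 231)))))) (XT.nd (nat_lit 546) (nat_lit 912) (nat_lit 0) (XT.nd (nat_lit 234) (nat_lit 684) (nat_lit 0) (XT.nd (nat_lit 78) (nat_lit 0) (nat_lit 0) (XT.lf (nat_lit 0) (nat_lit 2132726975) (nat_lit 304) (nat_lit 4861495070) (nat_lit 380) (nat_lit 199637552) (nat_lit 50) (nat_lit 5) (nat_lit 54) (nat_lit 5) (nat_lit 55) (nat_lit 5) (nat_lit 246) (nat_lit 244) (nat_lit 230)) (XT.nd (nat_lit 78) (nat_lit 0) (nat_lit 0) (XT.lf (nat_lit 0) (nat_lit 3874803558) (nat_lit 304) (nat_lit 1501095281) (nat_lit 380) (nat_lit 1986550021) (nat_lit 50) (nat_lit 5) (nat_lit 54) (nat_lit 5) (nat_lit 55) (nat_lit 5) (nat_lit 247) (nat_lit 244) (nat_lit 229)) (XT.lf (nat_lit 76) (nat_lit 2135737509) (nat_lit 0) (nat_lit 3523173976) (nat_lit 380) (nat_lit 1894301755) (nat_lit 51) (nat_lit 5) (nat_lit 50) (nat_lit 5) (nat_lit 55) (nat_lit 5) (nat_lit 248) (nat_lit 244) (nat_lit 228)))) (XT.nd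 (nat_lit 156) (nat_lit 380) (nat_lit 0) (XT.nd (nat_lit 78) (nat_lit 304) (nat_lit 0) (XT.lf (nat_lit 76) (nat_lit 6052160658) (nat_lit 0) (nat_lit 1434619202) (nat_lit 380) (nat_lit 281210801) (nat_lit 51) (nat_lit 5) (nat_lit 50) (nat_lit 5) (nat_lit 55) (nat_lit 5) (nat_lit 249) (nat_lit 244) (nat_lit 227)) (XT.lf (nat_lit 0) (nat_lit 1331470199) (nat_lit 380) (nat_lit 5764465715) (nat_lit 76) (nat_lit 906428984) (nat_lit 46) (nat_lit 5) (nat_lit 51) (nat_lit 5) (nat_lit 47) (nat_lit 5) (nat_lit 250) (nat_lit 244) (nat_lit 226))) (XT.nd (nat_lit 78) (nat_lit 380) (nat_lit 0) (XT.lf (nat_lit 0) (nat_lit 3018004655) (nat_lit 380) (nat_lit 1798371790) (nat_lit 76) (nat_lit 3442388167) (nat_lit 46) (nat_lit 5) (nat_lit 51) (nat_lit 5) (nat_lit 47) (nat_lit 5) (nat_lit 251) (nat_lit 244) (nat_lit 225)) (XT.lf (nat_lit 0) (nat_lit 2512200708) (nat_lit 380) (nat_lit 2271602286) (nat_lit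 456) (nat_lit 3756939354) (nat_lit 41) (nat_lit 5) (nat_lit 46) (nat_lit 5) (nat_lit 47) (nat_lit 5) (nat_lit 252) (nat_lit 244) (nat_lit 224))))) (XT.nd (nat_lit 234) (nat_lit 380) (nat_lit 0) (XT.nd (nat_lit 78) (nat_lit 532) (nat_lit 0) (XT.lf (nat_lit 0) (nat_lit 6643323385) (nat_lit 456) (nat_lit 1689862815) (nat_lit 76) (nat_lit 516463351) (nat_lit 41) (nat_lit 5) (nat_lit 47) (nat_lit 5) (nat_lit 42) (nat_lit 5) (nat_lit 253) (nat_lit 244) (nat_lit 223)) (XT.nd (nat_lit 78) (nat_lit 76) (nat_lit 0) (XT.lf (nat_lit 0) (nat_lit 2988566109) (nat_lit 456) (nat_lit 5692569274) (nat_lit 532) (nat_lit 500297384) (nat_lit 35) (nat_lit 5) (nat_lit 41) (nat_lit 5) (nat_lit 42) (nat_lit 5) (nat_lit 254) (nat_lit 244) (nat_lit 222)) (XT.lf (nat_lit 0) (nat_lit 1223381113) (nat_lit 532) (nat_lit 1533202998) (nat_lit 76) (nat_lit 6785178099) (nat_lit 34) (nat_lit 5) (nat_lit 41) (nat_lit 5)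 (nat_lit 35) (nat_lit 5) (nat_lit 255) (nat_lit 244) (nat_lit 221)))) (XT.nd (nat_lit 156) (nat_lit 152) (nat_lit 0) (XT.nd (nat_lit 78) (nat_lit 0) (nat_lit 0) (XT.lf (nat_lit 0) (nat_lit 3064551099) (nat_lit 304) (nat_lit 6371911183) (nat_lit 76) (nat_lit 493303471) (nat_lit 31) (nat_lit 5) (nat_lit 35) (nat_lit 5) (nat_lit 32) (nat_lit 5) (nat_lit 256) (nat_lit 244) (nat_lit 220)) (XT.lf (nat_lit 0) (nat_lit 5080376968) (nat_lit 304) (nat_lit 1373195849) (nat_lit 76) (nat_lit 3893434286) (nat_lit 31) (nat_lit 5) (nat_lit 35) (nat_lit 5) (nat_lit 32) (nat_lit 5) (nat_lit 257) (nat_lit 244) (nat_lit 219))) (XT.nd (nat_lit 78) (nat_lit 0) (nat_lit 0) (XT.lf (nat_lit 0) (nat_lit 4141437410) (nat_lit 152) (nat_lit 3134849243) (nat_lit 228) (nat_lit 3520193563) (nat_lit 29) (nat_lit 5) (nat_lit 31) (nat_lit 5) (nat_lit 32) (nat_lit 5) (nat_lit 258) (nat_lit 244) (nat_lit 218)) (XT.lf (nat_lit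 0) (nat_lit 9619974385) (nat_lit 228) (nat_lit 1210397059) (nat_lit 76) (nat_lit 454102678) (nat_lit 29) (nat_lit 5) (nat_lit 32) (nat_lit 5) (nat_lit 30) (nat_lit 5) (nat_lit 259) (nat_lit 244) (nat_lit 217))))))))
noncomputable def xc58 : XT := (XT.nd (nat_lit 2028) (nat_lit 380) (nat_lit 0) (XT.nd (nat_lit 1014) (nat_lit 532) (nat_lit 0) (XT.nd (nat_lit 468) (nat_lit 532) (nat_lit 0) (XT.nd (nat_lit 234) (nat_lit 152) (nat_lit 0) (XT.nd (nat_lit 78) (nat_lit 152) (nat_lit 0) (XT.lf (nat_lit 0) (nat_lit 449440419) (nat_lit 304) (nat_lit 7075908597) (nat_lit 76) (nat_lit 4275646614) (nat_lit 25) (nat_lit 5) (nat_lit 29) (nat_lit 5) (nat_lit 26) (nat_lit 5) (nat_lit 260) (nat_lit 244) (nat_lit 216)) (XT.nd (nat_lit 78) (nat_lit 152) (nat_lit 0) (XT.lf (nat_lit 0) (nat_lit 2606211328) (nat_lit 304) (nat_lit 1285778971) (nat_lit 76) (nat_lit 8466561567) (nat_lit 25) (nat_lit 5) (nat_lit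 29) (nat_lit 5) (nat_lit 26) (nat_lit 5) (nat_lit 261) (nat_lit 244) (nat_lit 215)) (XT.lf (nat_lit 0) (nat_lit 4997627138) (nat_lit 228) (nat_lit 7818146241) (nat_lit 76) (nat_lit 140214527) (nat_lit 23) (nat_lit 5) (nat_lit 26) (nat_lit 5) (nat_lit 24) (nat_lit 5) (nat_lit 262) (nat_lit 244) (nat_lit 214)))) (XT.nd (nat_lit 78) (nat_lit 152) (nat_lit 0) (XT.lf (nat_lit 0) (nat_lit 7654835083) (nat_lit 228) (nat_lit 1637676959) (nat_lit 76) (nat_lit 4302974001) (nat_lit 23) (nat_lit 5) (nat_lit 26) (nat_lit 5) (nat_lit 24) (nat_lit 5) (nat_lit 263) (nat_lit 244) (nat_lit 213)) (XT.nd (nat_lit 78) (nat_lit 0) (nat_lit 0) (XT.lf (nat_lit 0) (nat_lit 5218910025) (nat_lit 152) (nat_lit 5373187148) (nat_lit 228) (nat_lit 3688857473) (nat_lit 21) (nat_lit 5) (nat_lit 23) (nat_lit 5) (nat_lit 24) (nat_lit 5) (nat_lit 264) (nat_lit 244) (nat_lit 212)) (XT.lf (nat_lit 0) (nat_lit 12639779149)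 (nat_lit 152) (nat_lit 1113738725) (nat_lit 228) (nat_lit 1268802002) (nat_lit 21) (nat_lit 5) (nat_lit 23) (nat_lit 5) (nat_lit 24) (nat_lit 5) (nat_lit 265) (nat_lit 244) (nat_lit 211))))) (XT.nd (nat_lit 234) (nat_lit 152) (nat_lit 0) (XT.nd (nat_lit 78) (nat_lit 152) (nat_lit 0) (XT.lf (nat_lit 0) (nat_lit 1431475373) (nat_lit 228) (nat_lit 10929367935) (nat_lit 76) (nat_lit 3447417854) (nat_lit 18) (nat_lit 5) (nat_lit 21) (nat_lit 5) (nat_lit 19) (nat_lit 5) (nat_lit 266) (nat_lit 244) (nat_lit 210)) (XT.nd (nat_lit 78) (nat_lit 152) (nat_lit 0) (XT.lf (nat_lit 0) (nat_lit 4323651162) (nat_lit 228) (nat_lit 3935111381) (nat_lit 76) (nat_lit 8392278265) (nat_lit 18) (nat_lit 5) (nat_lit 21) (nat_lit 5) (nat_lit 19) (nat_lit 5) (nat_lit 267) (nat_lit 244) (nat_lit 209)) (XT.lf (nat_lit 0) (nat_lit 3734765687) (nat_lit 152) (nat_lit 3754720698) (nat_lit 228) (nat_lit 10068515730)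 (nat_lit 16) (nat_lit 5) (nat_lit 18) (nat_lit 5) (nat_lit 19) (nat_lit 5) (nat_lit 268) (nat_lit 244) (nat_lit 208)))) (XT.nd (nat_lit 156) (nat_lit 76) (nat_lit 0) (XT.nd (nat_lit 78) (nat_lit 76) (nat_lit 0) (XT.lf (nat_lit 0) (nat_lit 10999429884) (nat_lit 228) (nat_lit 6388550777) (nat_lit 76) (nat_lit 1142403936) (nat_lit 16) (nat_lit 5) (nat_lit 19) (nat_lit 5) (nat_lit 17) (nat_lit 4) (nat_lit 269) (nat_lit 244) (nat_lit 207)) (XT.lf (nat_lit 0) (nat_lit 1554301330) (nat_lit 76) (nat_lit 13327965343) (nat_lit 152) (nat_lit 4691045024) (nat_lit 15) (nat_lit 5) (nat_lit 16) (nat_lit 5) (nat_lit 17) (nat_lit 4) (nat_lit 270) (nat_lit 244) (nat_lit 206))) (XT.nd (nat_lit 78) (nat_lit 76) (nat_lit 0) (XT.lf (nat_lit 0) (nat_lit 10430760562) (nat_lit 76) (nat_lit 8778440042) (nat_lit 152) (nat_lit 1479907561) (nat_lit 15) (nat_lit 5) (nat_lit 16) (nat_lit 5) (nat_lit 17) (nat_lit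 4) (nat_lit 271) (nat_lit 244) (nat_lit 205)) (XT.lf (nat_lit 0) (nat_lit 1849424899) (nat_lit 152) (nat_lit 1987127457) (nat_lit 76) (nat_lit 18057026941) (nat_lit 14) (nat_lit 5) (nat_lit 16) (nat_lit 5) (nat_lit 15) (nat_lit 5) (nat_lit 272) (nat_lit 244) (nat_lit 204)))))) (XT.nd (nat_lit 468) (nat_lit 228) (nat_lit 0) (XT.nd (nat_lit 234) (nat_lit 76) (nat_lit 0) (XT.nd (nat_lit 78) (nat_lit 76) (nat_lit 0) (XT.lf (nat_lit 0) (nat_lit 5543296697) (nat_lit 228) (nat_lit 16011352920) (nat_lit 76) (nat_lit 1622521233) (nat_lit 12) (nat_lit 5) (nat_lit 15) (nat_lit 5) (nat_lit 13) (nat_lit 4) (nat_lit 273) (nat_lit 244) (nat_lit 203)) (XT.nd (nat_lit 78) (nat_lit 76) (nat_lit 0) (XT.lf (nat_lit 0) (nat_lit 9652557401) (nat_lit 228) (nat_lit 7554913403) (nat_lit 76) (nat_lit 7346471513) (nat_lit 12) (nat_lit 5) (nat_lit 15) (nat_lit 5) (nat_lit 13) (nat_lit 4) (nat_lit 274) (nat_lit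 244) (nat_lit 202)) (XT.lf (nat_lit 0) (nat_lit 1603868716) (nat_lit 76) (nat_lit 12492379674) (nat_lit 152) (nat_lit 11944228741) (nat_lit 11) (nat_lit 5) (nat_lit 12) (nat_lit 5) (nat_lit 13) (nat_lit 4) (nat_lit 275) (nat_lit 244) (nat_lit 201)))) (XT.nd (nat_lit 78) (nat_lit 76) (nat_lit 0) (XT.lf (nat_lit 0) (nat_lit 11871980789) (nat_lit 76) (nat_lit 7198295456) (nat_lit 152) (nat_lit 8561742249) (nat_lit 11) (nat_lit 5) (nat_lit 12) (nat_lit 5) (nat_lit 13) (nat_lit 4) (nat_lit 276) (nat_lit 244) (nat_lit 200)) (XT.nd (nat_lit 78) (nat_lit 76) (nat_lit 0) (XT.lf (nat_lit 0) (nat_lit 22912442536) (nat_lit 76) (nat_lit 1500410523) (nat_lit 152) (nat_lit 4940445799) (nat_lit 11) (nat_lit 5) (nat_lit 12) (nat_lit 5) (nat_lit 13) (nat_lit 4) (nat_lit 277) (nat_lit 244) (nat_lit 199)) (XT.lf (nat_lit 0) (nat_lit 3647131995) (nat_lit 76) (nat_lit 26707692994) (nat_lit 76) (nat_lit 843758495)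 (nat_lit 10) (nat_lit 4) (nat_lit 11) (nat_lit 5) (nat_lit 11) (nat_lit 4) (nat_lit 278) (nat_lit 244) (nat_lit 198))))) (XT.nd (nat_lit 234) (nat_lit 76) (nat_lit 0) (XT.nd (nat_lit 78) (nat_lit 76) (nat_lit 0) (XT.lf (nat_lit 0) (nat_lit 3593750303) (nat_lit 152) (nat_lit 18446167605) (nat_lit 76) (nat_lit 11129359559) (nat_lit 9) (nat_lit 5) (nat_lit 11) (nat_lit 5) (nat_lit 10) (nat_lit 4) (nat_lit 279) (nat_lit 244) (nat_lit 197)) (XT.nd (nat_lit 78) (nat_lit 76) (nat_lit 0) (XT.lf (nat_lit 0) (nat_lit 8315263400) (nat_lit 152) (nat_lit 8678414564) (nat_lit 76) (nat_lit 18304277048) (nat_lit 9) (nat_lit 5) (nat_lit 11) (nat_lit 5) (nat_lit 10) (nat_lit 4) (nat_lit 280) (nat_lit 244) (nat_lit 196)) (XT.lf (nat_lit 0) (nat_lit 1926346687) (nat_lit 76) (nat_lit 11510950345) (nat_lit 152) (nat_lit 24157850570) (nat_lit 8) (nat_lit 5) (nat_lit 9) (nat_lit 5) (nat_lit 10) (nat_lit 4)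 (nat_lit 281) (nat_lit 244) (nat_lit 195)))) (XT.nd (nat_lit 156) (nat_lit 76) (nat_lit 0) (XT.nd (nat_lit 78) (nat_lit 0) (nat_lit 0) (XT.lf (nat_lit 0) (nat_lit 13833294568) (nat_lit 76) (nat_lit 5350339901) (nat_lit 152) (nat_lit 20875359326) (nat_lit 8) (nat_lit 5) (nat_lit 9) (nat_lit 5) (nat_lit 10) (nat_lit 4) (nat_lit 282) (nat_lit 244) (nat_lit 194)) (XT.lf (nat_lit 0) (nat_lit 25399582838) (nat_lit 152) (nat_lit 16096633317) (nat_lit 0) (nat_lit 1222977622) (nat_lit 8) (nat_lit 5) (nat_lit 10) (nat_lit 4) (nat_lit 8) (nat_lit 4) (nat_lit 283) (nat_lit 244) (nat_lit 193))) (XT.nd (nat_lit 78) (nat_lit 76) (nat_lit 0) (XT.lf (nat_lit 0) (nat_lit 32231928691) (nat_lit 152) (nat_lit 5331530390) (nat_lit 0) (nat_lit 8019256512) (nat_lit 8) (nat_lit 5) (nat_lit 10) (nat_lit 4) (nat_lit 8) (nat_lit 4) (nat_lit 284) (nat_lit 244) (nat_lit 192)) (XT.lf (nat_lit 0) (nat_lit 6591828516)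 (nat_lit 76) (nat_lit 33159189317) (nat_lit 76) (nat_lit 8913121802) (nat_lit 7) (nat_lit 4) (nat_lit 8) (nat_lit 5) (nat_lit 8) (nat_lit 4) (nat_lit 285) (nat_lit 244) (nat_lit 191))))))) (XT.nd (nat_lit 1014) (nat_lit 152) (nat_lit 0) (XT.nd (nat_lit 468) (nat_lit 76) (nat_lit 0) (XT.nd (nat_lit 234) (nat_lit 76) (nat_lit 0) (XT.nd (nat_lit 78) (nat_lit 76) (nat_lit 0) (XT.lf (nat_lit 0) (nat_lit 19740390685) (nat_lit 76) (nat_lit 28259233655) (nat_lit 76) (nat_lit 3982244533) (nat_lit 7) (nat_lit 4) (nat_lit 8) (nat_lit 5) (nat_lit 8) (nat_lit 4) (nat_lit 286) (nat_lit 244) (nat_lit 190)) (XT.nd (nat_lit 78) (nat_lit 0) (nat_lit 0) (XT.lf (nat_lit 0) (nat_lit 1258994984) (nat_lit 152) (nat_lit 21686910673) (nat_lit 76) (nat_lit 32617906441) (nat_lit 6) (nat_lit 5) (nat_lit 8) (nat_lit 5) (nat_lit 7) (nat_lit 4) (nat_lit 287) (nat_lit 244) (nat_lit 189)) (XT.lf (nat_lit 0) (nat_lit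 6688721906) (nat_lit 152) (nat_lit 10419588968) (nat_lit 76) (nat_lit 42317002686) (nat_lit 6) (nat_lit 5) (nat_lit 8) (nat_lit 5) (nat_lit 7) (nat_lit 4) (nat_lit 288) (nat_lit 244) (nat_lit 188)))) (XT.nd (nat_lit 78) (nat_lit 0) (nat_lit 0) (XT.lf (nat_lit 0) (nat_lit 1813760986) (nat_lit 76) (nat_lit 10768180402) (nat_lit 152) (nat_lit 51011487010) (nat_lit 5) (nat_lit 5) (nat_lit 6) (nat_lit 5) (nat_lit 7) (nat_lit 4) (nat_lit 289) (nat_lit 244) (nat_lit 187)) (XT.nd (nat_lit 78) (nat_lit 0) (nat_lit 0) (XT.lf (nat_lit 0) (nat_lit 15592921523) (nat_lit 76) (nat_lit 3624543347) (nat_lit 152) (nat_lit 48855880591) (nat_lit 5) (nat_lit 5) (nat_lit 6) (nat_lit 5) (nat_lit 7) (nat_lit 4) (nat_lit 290) (nat_lit 244) (nat_lit 186)) (XT.lf (nat_lit 0) (nat_lit 26468952039) (nat_lit 152) (nat_lit 42559970663) (nat_lit 0) (nat_lit 3875942656) (nat_lit 5) (nat_lit 5) (nat_lit 7) (nat_lit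 4) (nat_lit 5) (nat_lit 4) (nat_lit 291) (nat_lit 244) (nat_lit 185))))) (XT.nd (nat_lit 234) (nat_lit 76) (nat_lit 0) (XT.nd (nat_lit 78) (nat_lit 0) (nat_lit 0) (XT.lf (nat_lit 0) (nat_lit 34382427302) (nat_lit 152) (nat_lit 31962572347) (nat_lit 0) (nat_lit 11771375458) (nat_lit 5) (nat_lit 5) (nat_lit 7) (nat_lit 4) (nat_lit 5) (nat_lit 4) (nat_lit 292) (nat_lit 244) (nat_lit 184)) (XT.nd (nat_lit 78) (nat_lit 0) (nat_lit 0) (XT.lf (nat_lit 0) (nat_lit 42917614974) (nat_lit 152) (nat_lit 20538259239) (nat_lit 0) (nat_lit 20289857148) (nat_lit 5) (nat_lit 5) (nat_lit 7) (nat_lit 4) (nat_lit 5) (nat_lit 4) (nat_lit 293) (nat_lit 244) (nat_lit 183)) (XT.lf (nat_lit 0) (nat_lit 52125093944) (nat_lit 152) (nat_lit 8219331704) (nat_lit 0) (nat_lit 29481867615) (nat_lit 5) (nat_lit 5) (nat_lit 7) (nat_lit 4) (nat_lit 5) (nat_lit 4) (nat_lit 294) (nat_lit 244) (nat_lit 182)))) (XT.nd (nat_lit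 156) (nat_lit 0) (nat_lit 0) (XT.nd (nat_lit 78) (nat_lit 0) (nat_lit 0) (XT.lf (nat_lit 0) (nat_lit 5334041675) (nat_lit 76) (nat_lit 56853669206) (nat_lit 76) (nat_lit 34196120190) (nat_lit 4) (nat_lit 4) (nat_lit 5) (nat_lit 5) (nat_lit 5) (nat_lit 4) (nat_lit 295) (nat_lit 244) (nat_lit 181)) (XT.lf (nat_lit 0) (nat_lit 20421680009) (nat_lit 76) (nat_lit 52848946301) (nat_lit 76) (nat_lit 30178135538) (nat_lit 4) (nat_lit 4) (nat_lit 5) (nat_lit 5) (nat_lit 5) (nat_lit 4) (nat_lit 296) (nat_lit 244) (nat_lit 180))) (XT.nd (nat_lit 78) (nat_lit 0) (nat_lit 0) (XT.lf (nat_lit 0) (nat_lit 36700176085) (nat_lit 76) (nat_lit 48531256337) (nat_lit 76) (nat_lit 25848166178) (nat_lit 4) (nat_lit 4) (nat_lit 5) (nat_lit 5) (nat_lit 5) (nat_lit 4) (nat_lit 297) (nat_lit 244) (nat_lit 179)) (XT.lf (nat_lit 0) (nat_lit 54265995062) (nat_lit 76) (nat_lit 43875013004) (nat_lit 76) (nat_lit 21180553034)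 (nat_lit 4) (nat_lit 4) (nat_lit 5) (nat_lit 5) (nat_lit 5) (nat_lit 4) (nat_lit 298) (nat_lit 244) (nat_lit 178)))))) (XT.nd (nat_lit 546) (nat_lit 0) (nat_lit 0) (XT.nd (nat_lit 234) (nat_lit 152) (nat_lit 0) (XT.nd (nat_lit 78) (nat_lit 0) (nat_lit 0) (XT.lf (nat_lit 0) (nat_lit 73223230684) (nat_lit 76) (nat_lit 38852623748) (nat_lit 76) (nat_lit 16147636176) (nat_lit 4) (nat_lit 4) (nat_lit 5) (nat_lit 5) (nat_lit 5) (nat_lit 4) (nat_lit 299) (nat_lit 244) (nat_lit 177)) (XT.nd (nat_lit 78) (nat_lit 0) (nat_lit 0) (XT.lf (nat_lit 0) (nat_lit 93684222125) (nat_lit 76) (nat_lit 33434326263) (nat_lit 76) (nat_lit 10719590910) (nat_lit 4) (nat_lit 4) (nat_lit 5) (nat_lit 5) (nat_lit 5) (nat_lit 4) (nat_lit 300) (nat_lit 244) (nat_lit 176)) (XT.lf (nat_lit 0) (nat_lit 115770219703) (nat_lit 76) (nat_lit 27588012119) (nat_lit 76) (nat_lit 4864251044) (nat_lit 4) (nat_lit 4) (nat_lit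 5) (nat_lit 5) (nat_lit 5) (nat_lit 4) (nat_lit 301) (nat_lit 244) (nat_lit 175)))) (XT.nd (nat_lit 156) (nat_lit 76) (nat_lit 0) (XT.nd (nat_lit 78) (nat_lit 0) (nat_lit 0) (XT.lf (nat_lit 0) (nat_lit 1380392700) (nat_lit 152) (nat_lit 19860901408) (nat_lit 76) (nat_lit 138193968323) (nat_lit 3) (nat_lit 5) (nat_lit 5) (nat_lit 5) (nat_lit 4) (nat_lit 4) (nat_lit 302) (nat_lit 244) (nat_lit 174)) (XT.lf (nat_lit 0) (nat_lit 7856152405) (nat_lit 152) (nat_lit 6399059324) (nat_lit 76) (nat_lit 157280204934) (nat_lit 3) (nat_lit 5) (nat_lit 5) (nat_lit 5) (nat_lit 4) (nat_lit 4) (nat_lit 303) (nat_lit 244) (nat_lit 173))) (XT.nd (nat_lit 78) (nat_lit 0) (nat_lit 0) (XT.lf (nat_lit 0) (nat_lit 8558134892) (nat_lit 76) (nat_lit 6492420939) (nat_lit 152) (nat_lit 169536987309) (nat_lit 2) (nat_lit 5) (nat_lit 3) (nat_lit 5) (nat_lit 4) (nat_lit 4) (nat_lit 304) (nat_lit 244) (nat_lit 172))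 (XT.lf (nat_lit 0) (nat_lit 23040320478) (nat_lit 152) (nat_lit 173653819576) (nat_lit 0) (nat_lit 1972121022) (nat_lit 2) (nat_lit 5) (nat_lit 4) (nat_lit 4) (nat_lit 2) (nat_lit 4) (nat_lit 305) (nat_lit 244) (nat_lit 171))))) (XT.nd (nat_lit 234) (nat_lit 0) (nat_lit 0) (XT.nd (nat_lit 78) (nat_lit 0) (nat_lit 0) (XT.lf (nat_lit 0) (nat_lit 31833099511) (nat_lit 152) (nat_lit 171265863568) (nat_lit 0) (nat_lit 10759212319) (nat_lit 2) (nat_lit 5) (nat_lit 4) (nat_lit 4) (nat_lit 2) (nat_lit 4) (nat_lit 306) (nat_lit 244) (nat_lit 170)) (XT.nd (nat_lit 78) (nat_lit 0) (nat_lit 0) (XT.lf (nat_lit 0) (nat_lit 41324855408) (nat_lit 152) (nat_lit 168695246493) (nat_lit 0) (nat_lit 20245701794) (nat_lit 2) (nat_lit 5) (nat_lit 4) (nat_lit 4) (nat_lit 2) (nat_lit 4) (nat_lit 307) (nat_lit 244) (nat_lit 169)) (XT.lf (nat_lit 0) (nat_lit 51571835612) (nat_lit 152) (nat_lit 165926735066) (nat_lit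 0) (nat_lit 30487805681) (nat_lit 2) (nat_lit 5) (nat_lit 4) (nat_lit 4) (nat_lit 2) (nat_lit 4) (nat_lit 308) (nat_lit 244) (nat_lit 168)))) (XT.nd (nat_lit 156) (nat_lit 0) (nat_lit 0) (XT.nd (nat_lit 78) (nat_lit 0) (nat_lit 0) (XT.lf (nat_lit 0) (nat_lit 62634762968) (nat_lit 152) (nat_lit 162943923292) (nat_lit 0) (nat_lit 41546217928) (nat_lit 2) (nat_lit 5) (nat_lit 4) (nat_lit 4) (nat_lit 2) (nat_lit 4) (nat_lit 309) (nat_lit 244) (nat_lit 167)) (XT.lf (nat_lit 0) (nat_lit 74579195564) (nat_lit 152) (nat_lit 159729135250) (nat_lit 0) (nat_lit 53486469869) (nat_lit 2) (nat_lit 5) (nat_lit 4) (nat_lit 4) (nat_lit 2) (nat_lit 4) (nat_lit 310) (nat_lit 244) (nat_lit 166))) (XT.nd (nat_lit 78) (nat_lit 0) (nat_lit 0) (XT.lf (nat_lit 0) (nat_lit 87475915223) (nat_lit 152) (nat_lit 156263320345) (nat_lit 0) (nat_lit 66379318550) (nat_lit 2) (nat_lit 5) (nat_lit 4) (nat_lit 4) (nat_lit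 2) (nat_lit 4) (nat_lit 311) (nat_lit 244) (nat_lit 165)) (XT.lf (nat_lit 0) (nat_lit 101401346950) (nat_lit 152) (nat_lit 152525940413) (nat_lit 0) (nat_lit 80301166039) (nat_lit 2) (nat_lit 5) (nat_lit 4) (nat_lit 4) (nat_lit 2) (nat_lit 4) (nat_lit 312) (nat_lit 244) (nat_lit 164))))))))
noncomputable def xc59 : XT := (XT.nd (nat_lit 2106) (nat_lit 0) (nat_lit 0) (XT.nd (nat_lit 1014) (nat_lit 76) (nat_lit 0) (XT.nd (nat_lit 468) (nat_lit 0) (nat_lit 0) (XT.nd (nat_lit 234) (nat_lit 0) (nat_lit 0) (XT.nd (nat_lit 78) (nat_lit 0) (nat_lit 0) (XT.lf (nat_lit 0) (nat_lit 116438011823) (nat_lit 152) (nat_lit 148494848018) (nat_lit 0) (nat_lit 95334512172) (nat_lit 2) (nat_lit 5) (nat_lit 4) (nat_lit 4) (nat_lit 2) (nat_lit 4) (nat_lit 313) (nat_lit 244) (nat_lit 163)) (XT.nd (nat_lit 78) (nat_lit 0) (nat_lit 0) (XT.lf (nat_lit 0) (nat_lit 132675016003) (nat_lit 152) (nat_lit 144146155205)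 (nat_lit 0) (nat_lit 111568443445) (nat_lit 2) (nat_lit 5) (nat_lit 4) (nat_lit 4) (nat_lit 2) (nat_lit 4) (nat_lit 314) (nat_lit 244) (nat_lit 162)) (XT.lf (nat_lit 0) (nat_lit 150208578774) (nat_lit 152) (nat_lit 139454091943) (nat_lit 0) (nat_lit 129099160932) (nat_lit 2) (nat_lit 5) (nat_lit 4) (nat_lit 4) (nat_lit 2) (nat_lit 4) (nat_lit 315) (nat_lit 244) (nat_lit 161)))) (XT.nd (nat_lit 78) (nat_lit 0) (nat_lit 0) (XT.lf (nat_lit 0) (nat_lit 169142602731) (nat_lit 152) (nat_lit 134390853413) (nat_lit 0) (nat_lit 148030550367) (nat_lit 2) (nat_lit 5) (nat_lit 4) (nat_lit 4) (nat_lit 2) (nat_lit 4) (nat_lit 316) (nat_lit 244) (nat_lit 160)) (XT.nd (nat_lit 78) (nat_lit 0) (nat_lit 0) (XT.lf (nat_lit 0) (nat_lit 189589289497) (nat_lit 152) (nat_lit 128926435237) (nat_lit 0) (nat_lit 168474797760) (nat_lit 2) (nat_lit 5) (nat_lit 4) (nat_lit 4) (nat_lit 2) (nat_lit 4) (nat_lit 317)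 (nat_lit 244) (nat_lit 159)) (XT.lf (nat_lit 0) (nat_lit 211669804624) (nat_lit 152) (nat_lit 123028455679) (nat_lit 0) (nat_lit 190553054209) (nat_lit 2) (nat_lit 5) (nat_lit 4) (nat_lit 4) (nat_lit 2) (nat_lit 4) (nat_lit 318) (nat_lit 244) (nat_lit 158))))) (XT.nd (nat_lit 234) (nat_lit 0) (nat_lit 0) (XT.nd (nat_lit 78) (nat_lit 0) (nat_lit 0) (XT.lf (nat_lit 0) (nat_lit 235514995607) (nat_lit 152) (nat_lit 116661963749) (nat_lit 0) (nat_lit 214396153824) (nat_lit 2) (nat_lit 5) (nat_lit 4) (nat_lit 4) (nat_lit 2) (nat_lit 4) (nat_lit 319) (nat_lit 244) (nat_lit 157)) (XT.nd (nat_lit 78) (nat_lit 0) (nat_lit 0) (XT.lf (nat_lit 0) (nat_lit 261266167284) (nat_lit 152) (nat_lit 109789232086) (nat_lit 0) (nat_lit 240145389048) (nat_lit 2) (nat_lit 5) (nat_lit 4) (nat_lit 4) (nat_lit 2) (nat_lit 4) (nat_lit 320) (nat_lit 244) (nat_lit 156)) (XT.lf (nat_lit 0) (nat_lit 289075919189) (nat_lit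 152) (nat_lit 102369533393) (nat_lit 0) (nat_lit 267953347941) (nat_lit 2) (nat_lit 5) (nat_lit 4) (nat_lit 4) (nat_lit 2) (nat_lit 4) (nat_lit 321) (nat_lit 244) (nat_lit 155)))) (XT.nd (nat_lit 156) (nat_lit 0) (nat_lit 0) (XT.nd (nat_lit 78) (nat_lit 0) (nat_lit 0) (XT.lf (nat_lit 0) (nat_lit 319109049853) (nat_lit 152) (nat_lit 94358899084) (nat_lit 0) (nat_lit 297984818409) (nat_lit 2) (nat_lit 5) (nat_lit 4) (nat_lit 4) (nat_lit 2) (nat_lit 4) (nat_lit 322) (nat_lit 244) (nat_lit 154)) (XT.lf (nat_lit 0) (nat_lit 351543533383) (nat_lit 152) (nat_lit 85709858734) (nat_lit 0) (nat_lit 330417764720) (nat_lit 2) (nat_lit 5) (nat_lit 4) (nat_lit 4) (nat_lit 2) (nat_lit 4) (nat_lit 323) (nat_lit 244) (nat_lit 153))) (XT.nd (nat_lit 78) (nat_lit 0) (nat_lit 0) (XT.lf (nat_lit 0) (nat_lit 386571574126) (nat_lit 152) (nat_lit 76371158771) (nat_lit 0) (nat_lit 365444382113) (nat_lit 2)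 (nat_lit 5) (nat_lit 4) (nat_lit 4) (nat_lit 2) (nat_lit 4) (nat_lit 324) (nat_lit 244) (nat_lit 152)) (XT.lf (nat_lit 0) (nat_lit 424400745656) (nat_lit 152) (nat_lit 66287458750) (nat_lit 0) (nat_lit 403272235726) (nat_lit 2) (nat_lit 5) (nat_lit 4) (nat_lit 4) (nat_lit 2) (nat_lit 4) (nat_lit 325) (nat_lit 244) (nat_lit 151)))))) (XT.nd (nat_lit 546) (nat_lit 0) (nat_lit 0) (XT.nd (nat_lit 234) (nat_lit 76) (nat_lit 0) (XT.nd (nat_lit 78) (nat_lit 0) (nat_lit 0) (XT.lf (nat_lit 0) (nat_lit 465255220843) (nat_lit 152) (nat_lit 55399003411) (nat_lit 0) (nat_lit 444125490619) (nat_lit 2) (nat_lit 5) (nat_lit 4) (nat_lit 4) (nat_lit 2) (nat_lit 4) (nat_lit 326) (nat_lit 244) (nat_lit 150)) (XT.nd (nat_lit 78) (nat_lit 0) (nat_lit 0) (XT.lf (nat_lit 0) (nat_lit 509377100279) (nat_lit 152) (nat_lit 43641268576) (nat_lit 0) (nat_lit 488246240154) (nat_lit 2) (nat_lit 5) (nat_lit 4) (nat_lit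 4) (nat_lit 2) (nat_lit 4) (nat_lit 327) (nat_lit 244) (nat_lit 149)) (XT.lf (nat_lit 0) (nat_lit 557027846954) (nat_lit 152) (nat_lit 30944578777) (nat_lit 0) (nat_lit 535895940624) (nat_lit 2) (nat_lit 5) (nat_lit 4) (nat_lit 4) (nat_lit 2) (nat_lit 4) (nat_lit 328) (nat_lit 244) (nat_lit 148)))) (XT.nd (nat_lit 156) (nat_lit 76) (nat_lit 0) (XT.nd (nat_lit 78) (nat_lit 0) (nat_lit 0) (XT.lf (nat_lit 0) (nat_lit 608489835664) (nat_lit 152) (nat_lit 17233694373) (nat_lit 0) (nat_lit 587356960625) (nat_lit 2) (nat_lit 5) (nat_lit 4) (nat_lit 4) (nat_lit 2) (nat_lit 4) (nat_lit 329) (nat_lit 244) (nat_lit 147)) (XT.lf (nat_lit 0) (nat_lit 664068026341) (nat_lit 152) (nat_lit 2427365678) (nat_lit 0) (nat_lit 642934254350) (nat_lit 2) (nat_lit 5) (nat_lit 4) (nat_lit 4) (nat_lit 2) (nat_lit 4) (nat_lit 330) (nat_lit 244) (nat_lit 146))) (XT.nd (nat_lit 78) (nat_lit 0) (nat_lit 0) (XT.lf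 (nat_lit 0) (nat_lit 14276307221) (nat_lit 76) (nat_lit 710158809536) (nat_lit 76) (nat_lit 689024207034) (nat_lit 1) (nat_lit 4) (nat_lit 2) (nat_lit 5) (nat_lit 2) (nat_lit 4) (nat_lit 331) (nat_lit 244) (nat_lit 145)) (XT.lf (nat_lit 0) (nat_lit 32453033031) (nat_lit 76) (nat_lit 757244229778) (nat_lit 76) (nat_lit 736108858284) (nat_lit 1) (nat_lit 4) (nat_lit 2) (nat_lit 5) (nat_lit 2) (nat_lit 4) (nat_lit 332) (nat_lit 244) (nat_lit 144))))) (XT.nd (nat_lit 234) (nat_lit 0) (nat_lit 0) (XT.nd (nat_lit 78) (nat_lit 0) (nat_lit 0) (XT.lf (nat_lit 0) (nat_lit 52082704906) (nat_lit 76) (nat_lit 808097045938) (nat_lit 76) (nat_lit 786960962414) (nat_lit 1) (nat_lit 4) (nat_lit 2) (nat_lit 5) (nat_lit 2) (nat_lit 4) (nat_lit 333) (nat_lit 244) (nat_lit 143)) (XT.nd (nat_lit 78) (nat_lit 0) (nat_lit 0) (XT.lf (nat_lit 0) (nat_lit 73281646828) (nat_lit 76) (nat_lit 863018608036) (nat_lit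 76) (nat_lit 841881865226) (nat_lit 1) (nat_lit 4) (nat_lit 2) (nat_lit 5) (nat_lit 2) (nat_lit 4) (nat_lit 334) (nat_lit 244) (nat_lit 142)) (XT.lf (nat_lit 0) (nat_lit 96175482157) (nat_lit 76) (nat_lit 922334377183) (nat_lit 76) (nat_lit 901197023922) (nat_lit 1) (nat_lit 4) (nat_lit 2) (nat_lit 5) (nat_lit 2) (nat_lit 4) (nat_lit 335) (nat_lit 244) (nat_lit 141)))) (XT.nd (nat_lit 156) (nat_lit 0) (nat_lit 0) (XT.nd (nat_lit 78) (nat_lit 0) (nat_lit 0) (XT.lf (nat_lit 0) (nat_lit 120899878064) (nat_lit 76) (nat_lit 986395854231) (nat_lit 76) (nat_lit 965257935738) (nat_lit 1) (nat_lit 4) (nat_lit 2) (nat_lit 5) (nat_lit 2) (nat_lit 4) (nat_lit 336) (nat_lit 244) (nat_lit 140)) (XT.lf (nat_lit 0) (nat_lit 147601349489) (nat_lit 76) (nat_lit 1055582662749) (nat_lit 76) (nat_lit 1034444220893) (nat_lit 1) (nat_lit 4) (nat_lit 2) (nat_lit 5) (nat_lit 2) (nat_lit 4) (nat_lit 337) (nat_lit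 244) (nat_lit 139))) (XT.nd (nat_lit 78) (nat_lit 0) (nat_lit 0) (XT.lf (nat_lit 0) (nat_lit 176438127372) (nat_lit 76) (nat_lit 1130304798639) (nat_lit 76) (nat_lit 1109165872188) (nat_lit 1) (nat_lit 4) (nat_lit 2) (nat_lit 5) (nat_lit 2) (nat_lit 4) (nat_lit 338) (nat_lit 244) (nat_lit 138)) (XT.lf (nat_lit 0) (nat_lit 207581096325) (nat_lit 76) (nat_lit 1211005059743) (nat_lit 76) (nat_lit 1189865684593) (nat_lit 1) (nat_lit 4) (nat_lit 2) (nat_lit 5) (nat_lit 2) (nat_lit 4) (nat_lit 339) (nat_lit 244) (nat_lit 137))))))) (XT.nd (nat_lit 30966) (nat_lit 0) (nat_lit 1140) (XT.nd (nat_lit 30420) (nat_lit 0) (nat_lit 2508) (XT.nd (nat_lit 30186) (nat_lit 0) (nat_lit 3648) (XT.nd (nat_lit 78) (nat_lit 0) (nat_lit 0) (XT.lf (nat_lit 0) (nat_lit 241214807274) (nat_lit 76) (nat_lit 1298161669831) (nat_lit 76) (nat_lit 1277021879218) (nat_lit 1) (nat_lit 4) (nat_lit 2) (nat_lit 5) (nat_lit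 2) (nat_lit 4) (nat_lit 340) (nat_lit 244) (nat_lit 136)) (XT.nd (nat_lit 30030) (nat_lit 0) (nat_lit 3648) (XT.lf (nat_lit 0) (nat_lit 277538571098) (nat_lit 76) (nat_lit 1392291112519) (nat_lit 76) (nat_lit 1371150937218) (nat_lit 1) (nat_lit 4) (nat_lit 2) (nat_lit 5) (nat_lit 2) (nat_lit 4) (nat_lit 341) (nat_lit 244) (nat_lit 135)) (XT.lf (nat_lit 0) (nat_lit 1013478805) (nat_lit 380) (nat_lit 1288460149) (nat_lit 380) (nat_lit 1288460149) (nat_lit 49) (nat_lit 3) (nat_lit 54) (nat_lit 3) (nat_lit 54) (nat_lit 5) (nat_lit 245) (nat_lit 245) (nat_lit 230)))) (XT.nd (nat_lit 78) (nat_lit 0) (nat_lit 0) (XT.lf (nat_lit 76) (nat_lit 640943720) (nat_lit 0) (nat_lit 2964169807) (nat_lit 380) (nat_lit 3734142821) (nat_lit 50) (nat_lit 5) (nat_lit 49) (nat_lit 3) (nat_lit 54) (nat_lit 5) (nat_lit 246) (nat_lit 245) (nat_lit 229)) (XT.nd (nat_lit 78) (nat_lit 0) (nat_lit 76) (XT.lf (nat_lit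 76) (nat_lit 4178050797) (nat_lit 0) (nat_lit 1051653185) (nat_lit 380) (nat_lit 2287973786) (nat_lit 50) (nat_lit 5) (nat_lit 49) (nat_lit 3) (nat_lit 54) (nat_lit 5) (nat_lit 247) (nat_lit 245) (nat_lit 228)) (XT.lf (nat_lit 76) (nat_lit 180513782) (nat_lit 0) (nat_lit 6694788167) (nat_lit 380) (nat_lit 844622166) (nat_lit 51) (nat_lit 5) (nat_lit 50) (nat_lit 5) (nat_lit 55) (nat_lit 5) (nat_lit 248) (nat_lit 245) (nat_lit 227))))) (XT.nd (nat_lit 234) (nat_lit 836) (nat_lit 0) (XT.nd (nat_lit 78) (nat_lit 0) (nat_lit 0) (XT.lf (nat_lit 0) (nat_lit 665728375) (nat_lit 380) (nat_lit 3903033812) (nat_lit 456) (nat_lit 3369948631) (nat_lit 45) (nat_lit 5) (nat_lit 50) (nat_lit 5) (nat_lit 51) (nat_lit 5) (nat_lit 249) (nat_lit 245) (nat_lit 226)) (XT.nd (nat_lit 78) (nat_lit 0) (nat_lit 76) (XT.lf (nat_lit 0) (nat_lit 2127441294) (nat_lit 380) (nat_lit 87794694) (nat_lit 456) (nat_lit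 5968578544) (nat_lit 45) (nat_lit 5) (nat_lit 50) (nat_lit 5) (nat_lit 51) (nat_lit 5) (nat_lit 250) (nat_lit 245) (nat_lit 225)) (XT.lf (nat_lit 0) (nat_lit 3702612465) (nat_lit 380) (nat_lit 4304327880) (nat_lit 76) (nat_lit 442477835) (nat_lit 46) (nat_lit 5) (nat_lit 51) (nat_lit 5) (nat_lit 47) (nat_lit 5) (nat_lit 251) (nat_lit 245) (nat_lit 224)))) (XT.nd (nat_lit 156) (nat_lit 532) (nat_lit 0) (XT.nd (nat_lit 78) (nat_lit 380) (nat_lit 0) (XT.lf (nat_lit 0) (nat_lit 5356319703) (nat_lit 380) (nat_lit 163264596) (nat_lit 76) (nat_lit 3221051935) (nat_lit 46) (nat_lit 5) (nat_lit 51) (nat_lit 5) (nat_lit 47) (nat_lit 5) (nat_lit 252) (nat_lit 245) (nat_lit 223)) (XT.lf (nat_lit 0) (nat_lit 4447116311) (nat_lit 380) (nat_lit 2702642835) (nat_lit 456) (nat_lit 1905323572) (nat_lit 41) (nat_lit 5) (nat_lit 46) (nat_lit 5) (nat_lit 47) (nat_lit 5) (nat_lit 253) (nat_lit 245) (nat_lit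 222))) (XT.nd (nat_lit 78) (nat_lit 532) (nat_lit 0) (XT.lf (nat_lit 0) (nat_lit 9005581798) (nat_lit 456) (nat_lit 57593940) (nat_lit 76) (nat_lit 338483426) (nat_lit 41) (nat_lit 5) (nat_lit 47) (nat_lit 5) (nat_lit 42) (nat_lit 5) (nat_lit 254) (nat_lit 245) (nat_lit 221)) (XT.lf (nat_lit 0) (nat_lit 1276779512) (nat_lit 532) (nat_lit 4850183306) (nat_lit 76) (nat_lit 3638674602) (nat_lit 34) (nat_lit 5) (nat_lit 41) (nat_lit 5) (nat_lit 35) (nat_lit 5) (nat_lit 255) (nat_lit 245) (nat_lit 220)))))) (XT.nd (nat_lit 546) (nat_lit 532) (nat_lit 0) (XT.nd (nat_lit 234) (nat_lit 456) (nat_lit 0) (XT.nd (nat_lit 78) (nat_lit 152) (nat_lit 0) (XT.lf (nat_lit 0) (nat_lit 35858577) (nat_lit 228) (nat_lit 2943729158) (nat_lit 304) (nat_lit 7185307989) (nat_lit 31) (nat_lit 5) (nat_lit 34) (nat_lit 5) (nat_lit 35) (nat_lit 5) (nat_lit 256) (nat_lit 245) (nat_lit 219)) (XT.nd (nat_lit 78) (nat_lit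 152) (nat_lit 0) (XT.lf (nat_lit 0) (nat_lit 4885778424) (nat_lit 304) (nat_lit 5103347544) (nat_lit 76) (nat_lit 601953977) (nat_lit 31) (nat_lit 5) (nat_lit 35) (nat_lit 5) (nat_lit 32) (nat_lit 5) (nat_lit 257) (nat_lit 245) (nat_lit 218)) (XT.lf (nat_lit 0) (nat_lit 172149480) (nat_lit 152) (nat_lit 6778115656) (nat_lit 228) (nat_lit 4100961070) (nat_lit 29) (nat_lit 5) (nat_lit 31) (nat_lit 5) (nat_lit 32) (nat_lit 5) (nat_lit 258) (nat_lit 245) (nat_lit 217)))) (XT.nd (nat_lit 156) (nat_lit 228) (nat_lit 0) (XT.nd (nat_lit 78) (nat_lit 228) (nat_lit 0) (XT.lf (nat_lit 0) (nat_lit 6077655979) (nat_lit 152) (nat_lit 3170551772) (nat_lit 228) (nat_lit 2294819481) (nat_lit 29) (nat_lit 5) (nat_lit 31) (nat_lit 5) (nat_lit 32) (nat_lit 5) (nat_lit 259) (nat_lit 245) (nat_lit 216)) (XT.lf (nat_lit 0) (nat_lit 297371113) (nat_lit 228) (nat_lit 11391011316) (nat_lit 304) (nat_lit 389402272)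 (nat_lit 26) (nat_lit 5) (nat_lit 29) (nat_lit 5) (nat_lit 30) (nat_lit 5) (nat_lit 260) (nat_lit 245) (nat_lit 215))) (XT.nd (nat_lit 78) (nat_lit 152) (nat_lit 0) (XT.lf (nat_lit 0) (nat_lit 1755548152) (nat_lit 304) (nat_lit 6020867420) (nat_lit 76) (nat_lit 4862295670) (nat_lit 25) (nat_lit 5) (nat_lit 29) (nat_lit 5) (nat_lit 26) (nat_lit 5) (nat_lit 261) (nat_lit 245) (nat_lit 214)) (XT.lf (nat_lit 0) (nat_lit 118308329) (nat_lit 152) (nat_lit 3875312352) (nat_lit 228) (nat_lit 9254902488) (nat_lit 23) (nat_lit 5) (nat_lit 25) (nat_lit 5) (nat_lit 26) (nat_lit 5) (nat_lit 262) (nat_lit 245) (nat_lit 213))))) (XT.nd (nat_lit 234) (nat_lit 380) (nat_lit 0) (XT.nd (nat_lit 78) (nat_lit 152) (nat_lit 0) (XT.lf (nat_lit 0) (nat_lit 6529724674) (nat_lit 228) (nat_lit 6894712884) (nat_lit 76) (nat_lit 473372456) (nat_lit 23) (nat_lit 5) (nat_lit 26) (nat_lit 5) (nat_lit 24) (nat_lit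 5) (nat_lit 263) (nat_lit 245) (nat_lit 212)) (XT.nd (nat_lit 78) (nat_lit 152) (nat_lit 0) (XT.lf (nat_lit 0) (nat_lit 9315636116) (nat_lit 228) (nat_lit 334538285) (nat_lit 76) (nat_lit 4945305224) (nat_lit 23) (nat_lit 5) (nat_lit 26) (nat_lit 5) (nat_lit 24) (nat_lit 5) (nat_lit 264) (nat_lit 245) (nat_lit 211)) (XT.lf (nat_lit 0) (nat_lit 7034267992) (nat_lit 152) (nat_lit 5409569079) (nat_lit 228) (nat_lit 2895751434) (nat_lit 21) (nat_lit 5) (nat_lit 23) (nat_lit 5) (nat_lit 24) (nat_lit 5) (nat_lit 265) (nat_lit 245) (nat_lit 210)))) (XT.nd (nat_lit 156) (nat_lit 152) (nat_lit 0) (XT.nd (nat_lit 78) (nat_lit 228) (nat_lit 0) (XT.lf (nat_lit 0) (nat_lit 14945262559) (nat_lit 152) (nat_lit 838510933) (nat_lit 228) (nat_lit 362700017) (nat_lit 21) (nat_lit 5) (nat_lit 23) (nat_lit 5) (nat_lit 24) (nat_lit 5) (nat_lit 266) (nat_lit 245) (nat_lit 209)) (XT.lf (nat_lit 0) (nat_lit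 2473399236) (nat_lit 228) (nat_lit 10423448863) (nat_lit 76) (nat_lit 4099108837) (nat_lit 18) (nat_lit 5) (nat_lit 21) (nat_lit 5) (nat_lit 19) (nat_lit 5) (nat_lit 267) (nat_lit 245) (nat_lit 208))) (XT.nd (nat_lit 78) (nat_lit 152) (nat_lit 0) (XT.lf (nat_lit 0) (nat_lit 5528252360) (nat_lit 228) (nat_lit 2971893897) (nat_lit 76) (nat_lit 9411713818) (nat_lit 18) (nat_lit 5) (nat_lit 21) (nat_lit 5) (nat_lit 19) (nat_lit 5) (nat_lit 268) (nat_lit 245) (nat_lit 207)) (XT.lf (nat_lit 0) (nat_lit 5279218238) (nat_lit 152) (nat_lit 3634486505) (nat_lit 228) (nat_lit 9980555682) (nat_lit 16) (nat_lit 5) (nat_lit 18) (nat_lit 5) (nat_lit 19) (nat_lit 5) (nat_lit 269) (nat_lit 245) (nat_lit 206))))))))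
noncomputable def xc60 : XT := (XT.nd (nat_lit 2028) (nat_lit 228) (nat_lit 0) (XT.nd (nat_lit 1014) (nat_lit 228) (nat_lit 0) (XT.nd (nat_lit 468) (nat_lit 304) (nat_lit 0) (XT.nd (nat_lit 234) (nat_lit 228) (nat_lit 0) (XT.nd (nat_lit 78) (nat_lit 76) (nat_lit 0) (XT.lf (nat_lit 0) (nat_lit 12652694620) (nat_lit 228) (nat_lit 5692285367) (nat_lit 76) (nat_lit 1603769530) (nat_lit 16) (nat_lit 5) (nat_lit 19) (nat_lit 5) (nat_lit 17) (nat_lit 4) (nat_lit 270) (nat_lit 245) (nat_lit 205)) (XT.nd (nat_lit 78) (nat_lit 0) (nat_lit 0) (XT.lf (nat_lit 0) (nat_lit 2855429099) (nat_lit 76) (nat_lit 13961748680) (nat_lit 152) (nat_lit 4260414489) (nat_lit 15) (nat_lit 5) (nat_lit 16) (nat_lit 5) (nat_lit 17) (nat_lit 4) (nat_lit 271) (nat_lit 245) (nat_lit 204)) (XT.lf (nat_lit 0) (nat_lit 12354835910) (nat_lit 76) (nat_lit 9080294977) (nat_lit 152) (nat_lit 852083373) (nat_lit 15) (nat_lit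 5) (nat_lit 16) (nat_lit 5) (nat_lit 17) (nat_lit 4) (nat_lit 272) (nat_lit 245) (nat_lit 203)))) (XT.nd (nat_lit 78) (nat_lit 152) (nat_lit 0) (XT.lf (nat_lit 0) (nat_lit 2653756675) (nat_lit 152) (nat_lit 1101013830) (nat_lit 76) (nat_lit 19836167098) (nat_lit 14) (nat_lit 5) (nat_lit 16) (nat_lit 5) (nat_lit 15) (nat_lit 5) (nat_lit 273) (nat_lit 245) (nat_lit 202)) (XT.nd (nat_lit 78) (nat_lit 0) (nat_lit 0) (XT.lf (nat_lit 0) (nat_lit 6628307848) (nat_lit 228) (nat_lit 16230848983) (nat_lit 76) (nat_lit 2119365917) (nat_lit 12) (nat_lit 5) (nat_lit 15) (nat_lit 5) (nat_lit 13) (nat_lit 4) (nat_lit 274) (nat_lit 245) (nat_lit 201)) (XT.lf (nat_lit 0) (nat_lit 11018787377) (nat_lit 228) (nat_lit 7176517428) (nat_lit 76) (nat_lit 8274043850) (nat_lit 12) (nat_lit 5) (nat_lit 15) (nat_lit 5) (nat_lit 13) (nat_lit 4) (nat_lit 275) (nat_lit 245) (nat_lit 200))))) (XT.nd (nat_lit 234)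 (nat_lit 228) (nat_lit 0) (XT.nd (nat_lit 78) (nat_lit 0) (nat_lit 0) (XT.lf (nat_lit 0) (nat_lit 2690086525) (nat_lit 76) (nat_lit 13106922958) (nat_lit 152) (nat_lit 12279576646) (nat_lit 11) (nat_lit 5) (nat_lit 12) (nat_lit 5) (nat_lit 13) (nat_lit 4) (nat_lit 276) (nat_lit 245) (nat_lit 199)) (XT.nd (nat_lit 78) (nat_lit 0) (nat_lit 0) (XT.lf (nat_lit 0) (nat_lit 13708691393) (nat_lit 76) (nat_lit 7417819195) (nat_lit 152) (nat_lit 8672431264) (nat_lit 11) (nat_lit 5) (nat_lit 12) (nat_lit 5) (nat_lit 13) (nat_lit 4) (nat_lit 277) (nat_lit 245) (nat_lit 198)) (XT.lf (nat_lit 0) (nat_lit 25566689921) (nat_lit 76) (nat_lit 1290499015) (nat_lit 152) (nat_lit 4803968162) (nat_lit 11) (nat_lit 5) (nat_lit 12) (nat_lit 5) (nat_lit 13) (nat_lit 4) (nat_lit 278) (nat_lit 245) (nat_lit 197)))) (XT.nd (nat_lit 156) (nat_lit 76) (nat_lit 0) (XT.nd (nat_lit 78) (nat_lit 76) (nat_lit 0) (XT.lf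 (nat_lit 0) (nat_lit 4771011809) (nat_lit 76) (nat_lit 28494473281) (nat_lit 76) (nat_lit 389383647) (nat_lit 10) (nat_lit 4) (nat_lit 11) (nat_lit 5) (nat_lit 11) (nat_lit 4) (nat_lit 279) (nat_lit 245) (nat_lit 196)) (XT.lf (nat_lit 0) (nat_lit 4340295883) (nat_lit 152) (nat_lit 19126342901) (nat_lit 76) (nat_lit 12318583181) (nat_lit 9) (nat_lit 5) (nat_lit 11) (nat_lit 5) (nat_lit 10) (nat_lit 4) (nat_lit 280) (nat_lit 245) (nat_lit 195))) (XT.nd (nat_lit 78) (nat_lit 76) (nat_lit 0) (XT.lf (nat_lit 0) (nat_lit 9405526653) (nat_lit 152) (nat_lit 8636096884) (nat_lit 76) (nat_lit 20045355190) (nat_lit 9) (nat_lit 5) (nat_lit 11) (nat_lit 5) (nat_lit 10) (nat_lit 4) (nat_lit 281) (nat_lit 245) (nat_lit 194)) (XT.lf (nat_lit 0) (nat_lit 2798397398) (nat_lit 76) (nat_lit 12124707518) (nat_lit 152) (nat_lit 25646039203) (nat_lit 8) (nat_lit 5) (nat_lit 9) (nat_lit 5) (nat_lit 10) (nat_lit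 4) (nat_lit 282) (nat_lit 245) (nat_lit 193)))))) (XT.nd (nat_lit 468) (nat_lit 76) (nat_lit 0) (XT.nd (nat_lit 234) (nat_lit 152) (nat_lit 0) (XT.nd (nat_lit 78) (nat_lit 0) (nat_lit 0) (XT.lf (nat_lit 0) (nat_lit 15604720148) (nat_lit 76) (nat_lit 5493997783) (nat_lit 152) (nat_lit 22133870098) (nat_lit 8) (nat_lit 5) (nat_lit 9) (nat_lit 5) (nat_lit 10) (nat_lit 4) (nat_lit 283) (nat_lit 245) (nat_lit 192)) (XT.nd (nat_lit 78) (nat_lit 0) (nat_lit 0) (XT.lf (nat_lit 0) (nat_lit 27790097422) (nat_lit 152) (nat_lit 16746356394) (nat_lit 0) (nat_lit 1570949170) (nat_lit 8) (nat_lit 5) (nat_lit 10) (nat_lit 4) (nat_lit 8) (nat_lit 4) (nat_lit 284) (nat_lit 245) (nat_lit 191)) (XT.lf (nat_lit 0) (nat_lit 35142471835) (nat_lit 152) (nat_lit 5167305054) (nat_lit 0) (nat_lit 8892401976) (nat_lit 8) (nat_lit 5) (nat_lit 10) (nat_lit 4) (nat_lit 8) (nat_lit 4) (nat_lit 285) (nat_lit 245) (nat_lit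 190)))) (XT.nd (nat_lit 78) (nat_lit 76) (nat_lit 0) (XT.lf (nat_lit 0) (nat_lit 7694966925) (nat_lit 76) (nat_lit 35557377232) (nat_lit 76) (nat_lit 9278676255) (nat_lit 7) (nat_lit 4) (nat_lit 8) (nat_lit 5) (nat_lit 8) (nat_lit 4) (nat_lit 286) (nat_lit 245) (nat_lit 189)) (XT.nd (nat_lit 78) (nat_lit 76) (nat_lit 0) (XT.lf (nat_lit 0) (nat_lit 21852762799) (nat_lit 76) (nat_lit 30284280467) (nat_lit 76) (nat_lit 3979069196) (nat_lit 7) (nat_lit 4) (nat_lit 8) (nat_lit 5) (nat_lit 8) (nat_lit 4) (nat_lit 287) (nat_lit 245) (nat_lit 188)) (XT.lf (nat_lit 0) (nat_lit 1642732561) (nat_lit 152) (nat_lit 22912874113) (nat_lit 76) (nat_lit 35430231709) (nat_lit 6) (nat_lit 5) (nat_lit 8) (nat_lit 5) (nat_lit 7) (nat_lit 4) (nat_lit 288) (nat_lit 245) (nat_lit 187))))) (XT.nd (nat_lit 234) (nat_lit 0) (nat_lit 0) (XT.nd (nat_lit 78) (nat_lit 76) (nat_lit 0) (XT.lf (nat_lit 0) (nat_lit 7485873343)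 (nat_lit 152) (nat_lit 10781869591) (nat_lit 76) (nat_lit 45890226560) (nat_lit 6) (nat_lit 5) (nat_lit 8) (nat_lit 5) (nat_lit 7) (nat_lit 4) (nat_lit 289) (nat_lit 245) (nat_lit 186)) (XT.nd (nat_lit 78) (nat_lit 0) (nat_lit 0) (XT.lf (nat_lit 0) (nat_lit 2418217056) (nat_lit 76) (nat_lit 11423969447) (nat_lit 152) (nat_lit 54818046116) (nat_lit 5) (nat_lit 5) (nat_lit 6) (nat_lit 5) (nat_lit 7) (nat_lit 4) (nat_lit 290) (nat_lit 245) (nat_lit 185)) (XT.lf (nat_lit 0) (nat_lit 17265684125) (nat_lit 76) (nat_lit 3724075900) (nat_lit 152) (nat_lit 52510314136) (nat_lit 5) (nat_lit 5) (nat_lit 6) (nat_lit 5) (nat_lit 7) (nat_lit 4) (nat_lit 291) (nat_lit 245) (nat_lit 184)))) (XT.nd (nat_lit 156) (nat_lit 0) (nat_lit 0) (XT.nd (nat_lit 78) (nat_lit 0) (nat_lit 0) (XT.lf (nat_lit 0) (nat_lit 28808206937) (nat_lit 152) (nat_lit 45557464660) (nat_lit 0) (nat_lit 4353522502) (nat_lit 5)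 (nat_lit 5) (nat_lit 7) (nat_lit 4) (nat_lit 5) (nat_lit 4) (nat_lit 292) (nat_lit 245) (nat_lit 183)) (XT.lf (nat_lit 0) (nat_lit 37338335130) (nat_lit 152) (nat_lit 34142445120) (nat_lit 0) (nat_lit 12868182193) (nat_lit 5) (nat_lit 5) (nat_lit 7) (nat_lit 4) (nat_lit 5) (nat_lit 4) (nat_lit 293) (nat_lit 245) (nat_lit 182))) (XT.nd (nat_lit 78) (nat_lit 0) (nat_lit 0) (XT.lf (nat_lit 0) (nat_lit 46541129398) (nat_lit 152) (nat_lit 21832122742) (nat_lit 0) (nat_lit 22056653774) (nat_lit 5) (nat_lit 5) (nat_lit 7) (nat_lit 4) (nat_lit 5) (nat_lit 4) (nat_lit 294) (nat_lit 245) (nat_lit 181)) (XT.lf (nat_lit 0) (nat_lit 56471124817) (nat_lit 152) (nat_lit 8553547466) (nat_lit 0) (nat_lit 31973387445) (nat_lit 5) (nat_lit 5) (nat_lit 7) (nat_lit 4) (nat_lit 5) (nat_lit 4) (nat_lit 295) (nat_lit 245) (nat_lit 180))))))) (XT.nd (nat_lit 1014) (nat_lit 0) (nat_lit 0) (XT.nd (nat_lit 468)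 (nat_lit 152) (nat_lit 0) (XT.nd (nat_lit 234) (nat_lit 0) (nat_lit 0) (XT.nd (nat_lit 78) (nat_lit 0) (nat_lit 0) (XT.lf (nat_lit 0) (nat_lit 6075910194) (nat_lit 76) (nat_lit 61257381396) (nat_lit 76) (nat_lit 36747364629) (nat_lit 4) (nat_lit 4) (nat_lit 5) (nat_lit 5) (nat_lit 5) (nat_lit 4) (nat_lit 296) (nat_lit 245) (nat_lit 179)) (XT.nd (nat_lit 78) (nat_lit 0) (nat_lit 0) (XT.lf (nat_lit 0) (nat_lit 22347215508) (nat_lit 76) (nat_lit 56942990388) (nat_lit 76) (nat_lit 32421603810) (nat_lit 4) (nat_lit 4) (nat_lit 5) (nat_lit 5) (nat_lit 5) (nat_lit 4) (nat_lit 297) (nat_lit 245) (nat_lit 178)) (XT.lf (nat_lit 0) (nat_lit 39906376373) (nat_lit 76) (nat_lit 52289801643) (nat_lit 76) (nat_lit 27757887463) (nat_lit 4) (nat_lit 4) (nat_lit 5) (nat_lit 5) (nat_lit 5) (nat_lit 4) (nat_lit 298) (nat_lit 245) (nat_lit 177)))) (XT.nd (nat_lit 78) (nat_lit 0) (nat_lit 0) (XT.lf (nat_lit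 0) (nat_lit 58857447076) (nat_lit 76) (nat_lit 47270240710) (nat_lit 76) (nat_lit 22728578749) (nat_lit 4) (nat_lit 4) (nat_lit 5) (nat_lit 5) (nat_lit 5) (nat_lit 4) (nat_lit 299) (nat_lit 245) (nat_lit 176)) (XT.nd (nat_lit 78) (nat_lit 0) (nat_lit 0) (XT.lf (nat_lit 0) (nat_lit 79312730258) (nat_lit 76) (nat_lit 41854562042) (nat_lit 76) (nat_lit 17303874359) (nat_lit 4) (nat_lit 4) (nat_lit 5) (nat_lit 5) (nat_lit 5) (nat_lit 4) (nat_lit 300) (nat_lit 245) (nat_lit 175)) (XT.lf (nat_lit 0) (nat_lit 101393442412) (nat_lit 76) (nat_lit 36010672729) (nat_lit 76) (nat_lit 11451627895) (nat_lit 4) (nat_lit 4) (nat_lit 5) (nat_lit 5) (nat_lit 5) (nat_lit 4) (nat_lit 301) (nat_lit 245) (nat_lit 174))))) (XT.nd (nat_lit 234) (nat_lit 76) (nat_lit 0) (XT.nd (nat_lit 78) (nat_lit 76) (nat_lit 0) (XT.lf (nat_lit 0) (nat_lit 125230432203) (nat_lit 76) (nat_lit 29703942315) (nat_lit 76) (nat_lit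 5137159380) (nat_lit 4) (nat_lit 4) (nat_lit 5) (nat_lit 5) (nat_lit 5) (nat_lit 4) (nat_lit 302) (nat_lit 245) (nat_lit 173)) (XT.nd (nat_lit 78) (nat_lit 0) (nat_lit 0) (XT.lf (nat_lit 0) (nat_lit 1593062417) (nat_lit 152) (nat_lit 21260378017) (nat_lit 76) (nat_lit 149328336300) (nat_lit 3) (nat_lit 5) (nat_lit 5) (nat_lit 5) (nat_lit 4) (nat_lit 4) (nat_lit 303) (nat_lit 245) (nat_lit 172)) (XT.lf (nat_lit 0) (nat_lit 8579309691) (nat_lit 152) (nat_lit 6735617862) (nat_lit 76) (nat_lit 169935631061) (nat_lit 3) (nat_lit 5) (nat_lit 5) (nat_lit 5) (nat_lit 4) (nat_lit 4) (nat_lit 304) (nat_lit 245) (nat_lit 171)))) (XT.nd (nat_lit 156) (nat_lit 0) (nat_lit 0) (XT.nd (nat_lit 78) (nat_lit 0) (nat_lit 0) (XT.lf (nat_lit 0) (nat_lit 9413712240) (nat_lit 76) (nat_lit 6932651709) (nat_lit 152) (nat_lit 183000732129) (nat_lit 2) (nat_lit 5) (nat_lit 3) (nat_lit 5) (nat_lit 4) (nat_lit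 4) (nat_lit 305) (nat_lit 245) (nat_lit 170)) (XT.lf (nat_lit 0) (nat_lit 24970275303) (nat_lit 152) (nat_lit 187382724031) (nat_lit 0) (nat_lit 2199522977) (nat_lit 2) (nat_lit 5) (nat_lit 4) (nat_lit 4) (nat_lit 2) (nat_lit 4) (nat_lit 306) (nat_lit 245) (nat_lit 169))) (XT.nd (nat_lit 78) (nat_lit 0) (nat_lit 0) (XT.lf (nat_lit 0) (nat_lit 34460052275) (nat_lit 152) (nat_lit 184815835329) (nat_lit 0) (nat_lit 11684423632) (nat_lit 2) (nat_lit 5) (nat_lit 4) (nat_lit 4) (nat_lit 2) (nat_lit 4) (nat_lit 307) (nat_lit 245) (nat_lit 168)) (XT.lf (nat_lit 0) (nat_lit 44705200140) (nat_lit 152) (nat_lit 182050776097) (nat_lit 0) (nat_lit 21925056389) (nat_lit 2) (nat_lit 5) (nat_lit 4) (nat_lit 4) (nat_lit 2) (nat_lit 4) (nat_lit 308) (nat_lit 245) (nat_lit 167)))))) (XT.nd (nat_lit 546) (nat_lit 0) (nat_lit 0) (XT.nd (nat_lit 234) (nat_lit 0) (nat_lit 0) (XT.nd (nat_lit 78) (nat_lit 0)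 (nat_lit 0) (XT.lf (nat_lit 0) (nat_lit 55766430886) (nat_lit 152) (nat_lit 179071160801) (nat_lit 0) (nat_lit 32982106479) (nat_lit 2) (nat_lit 5) (nat_lit 4) (nat_lit 4) (nat_lit 2) (nat_lit 4) (nat_lit 309) (nat_lit 245) (nat_lit 166)) (XT.nd (nat_lit 78) (nat_lit 0) (nat_lit 0) (XT.lf (nat_lit 0) (nat_lit 67709292547) (nat_lit 152) (nat_lit 175859332461) (nat_lit 0) (nat_lit 44921097162) (nat_lit 2) (nat_lit 5) (nat_lit 4) (nat_lit 4) (nat_lit 2) (nat_lit 4) (nat_lit 310) (nat_lit 245) (nat_lit 165)) (XT.lf (nat_lit 0) (nat_lit 80604557637) (nat_lit 152) (nat_lit 172396258020) (nat_lit 0) (nat_lit 57812778013) (nat_lit 2) (nat_lit 5) (nat_lit 4) (nat_lit 4) (nat_lit 2) (nat_lit 4) (nat_lit 311) (nat_lit 245) (nat_lit 164)))) (XT.nd (nat_lit 156) (nat_lit 0) (nat_lit 0) (XT.nd (nat_lit 78) (nat_lit 0) (nat_lit 0) (XT.lf (nat_lit 0) (nat_lit 94528642540) (nat_lit 152) (nat_lit 168661415555)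 (nat_lit 0) (nat_lit 71733544178) (nat_lit 2) (nat_lit 5) (nat_lit 4) (nat_lit 4) (nat_lit 2) (nat_lit 4) (nat_lit 312) (nat_lit 245) (nat_lit 163)) (XT.lf (nat_lit 0) (nat_lit 109564060354) (nat_lit 152) (nat_lit 164632672667) (nat_lit 0) (nat_lit 86765889085) (nat_lit 2) (nat_lit 5) (nat_lit 4) (nat_lit 4) (nat_lit 2) (nat_lit 4) (nat_lit 313) (nat_lit 245) (nat_lit 162))) (XT.nd (nat_lit 78) (nat_lit 0) (nat_lit 0) (XT.lf (nat_lit 0) (nat_lit 125799909850) (nat_lit 152) (nat_lit 160286155324) (nat_lit 0) (nat_lit 102998893296) (nat_lit 2) (nat_lit 5) (nat_lit 4) (nat_lit 4) (nat_lit 2) (nat_lit 4) (nat_lit 314) (nat_lit 245) (nat_lit 161)) (XT.lf (nat_lit 0) (nat_lit 143332403469) (nat_lit 152) (nat_lit 155596106385) (nat_lit 0) (nat_lit 120528752393) (nat_lit 2) (nat_lit 5) (nat_lit 4) (nat_lit 4) (nat_lit 2) (nat_lit 4) (nat_lit 315) (nat_lit 245) (nat_lit 160))))) (XT.nd (nat_lit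 234) (nat_lit 0) (nat_lit 0) (XT.nd (nat_lit 78) (nat_lit 0) (nat_lit 0) (XT.lf (nat_lit 0) (nat_lit 162265437471) (nat_lit 152) (nat_lit 150534732969) (nat_lit 0) (nat_lit 139459347022) (nat_lit 2) (nat_lit 5) (nat_lit 4) (nat_lit 4) (nat_lit 2) (nat_lit 4) (nat_lit 316) (nat_lit 245) (nat_lit 159)) (XT.nd (nat_lit 78) (nat_lit 0) (nat_lit 0) (XT.lf (nat_lit 0) (nat_lit 182711207611) (nat_lit 152) (nat_lit 145072041750) (nat_lit 0) (nat_lit 159902858485) (nat_lit 2) (nat_lit 5) (nat_lit 4) (nat_lit 4) (nat_lit 2) (nat_lit 4) (nat_lit 317) (nat_lit 245) (nat_lit 158)) (XT.lf (nat_lit 0) (nat_lit 204790874010) (nat_lit 152) (nat_lit 139175661227) (nat_lit 0) (nat_lit 181980433515) (nat_lit 2) (nat_lit 5) (nat_lit 4) (nat_lit 4) (nat_lit 2) (nat_lit 4) (nat_lit 318) (nat_lit 245) (nat_lit 157)))) (XT.nd (nat_lit 156) (nat_lit 0) (nat_lit 0) (XT.nd (nat_lit 78) (nat_lit 0) (nat_lit 0)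 (XT.lf (nat_lit 0) (nat_lit 228635279136) (nat_lit 152) (nat_lit 132810649884) (nat_lit 0) (nat_lit 205822902188) (nat_lit 2) (nat_lit 5) (nat_lit 4) (nat_lit 4) (nat_lit 2) (nat_lit 4) (nat_lit 319) (nat_lit 245) (nat_lit 156)) (XT.lf (nat_lit 0) (nat_lit 254385723165) (nat_lit 152) (nat_lit 125939289136) (nat_lit 0) (nat_lit 231571553206) (nat_lit 2) (nat_lit 5) (nat_lit 4) (nat_lit 4) (nat_lit 2) (nat_lit 4) (nat_lit 320) (nat_lit 245) (nat_lit 155))) (XT.nd (nat_lit 78) (nat_lit 0) (nat_lit 0) (XT.lf (nat_lit 0) (nat_lit 282194801324) (nat_lit 152) (nat_lit 118520859809) (nat_lit 0) (nat_lit 259378971168) (nat_lit 2) (nat_lit 5) (nat_lit 4) (nat_lit 4) (nat_lit 2) (nat_lit 4) (nat_lit 321) (nat_lit 245) (nat_lit 154)) (XT.lf (nat_lit 0) (nat_lit 312227308147) (nat_lit 152) (nat_lit 110511400838) (nat_lit 0) (nat_lit 289409940773) (nat_lit 2) (nat_lit 5) (nat_lit 4) (nat_lit 4) (nat_lit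 2) (nat_lit 4) (nat_lit 322) (nat_lit 245) (nat_lit 153))))))))
noncomputable def xc61 : XT := (XT.nd (nat_lit 32058) (nat_lit 0) (nat_lit 760) (XT.nd (nat_lit 1014) (nat_lit 0) (nat_lit 0) (XT.nd (nat_lit 468) (nat_lit 76) (nat_lit 0) (XT.nd (nat_lit 234) (nat_lit 0) (nat_lit 0) (XT.nd (nat_lit 78) (nat_lit 0) (nat_lit 0) (XT.lf (nat_lit 0) (nat_lit 344661214048) (nat_lit 152) (nat_lit 101863448764) (nat_lit 0) (nat_lit 321842423323) (nat_lit 2) (nat_lit 5) (nat_lit 4) (nat_lit 4) (nat_lit 2) (nat_lit 4) (nat_lit 323) (nat_lit 245) (nat_lit 152)) (XT.nd (nat_lit 78) (nat_lit 0) (nat_lit 0) (XT.lf (nat_lit 0) (nat_lit 379688719948) (nat_lit 152) (nat_lit 92525756464) (nat_lit 0) (nat_lit 356868611307) (nat_lit 2) (nat_lit 5) (nat_lit 4) (nat_lit 4) (nat_lit 2) (nat_lit 4) (nat_lit 324) (nat_lit 245) (nat_lit 151)) (XT.lf (nat_lit 0) (nat_lit 417517396255) (nat_lit 152) (nat_lit 82442989464)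 (nat_lit 0) (nat_lit 394696067319) (nat_lit 2) (nat_lit 5) (nat_lit 4) (nat_lit 4) (nat_lit 2) (nat_lit 4) (nat_lit 325) (nat_lit 245) (nat_lit 150)))) (XT.nd (nat_lit 78) (nat_lit 0) (nat_lit 0) (XT.lf (nat_lit 0) (nat_lit 458371412900) (nat_lit 152) (nat_lit 71555398034) (nat_lit 0) (nat_lit 435548954064) (nat_lit 2) (nat_lit 5) (nat_lit 4) (nat_lit 4) (nat_lit 2) (nat_lit 4) (nat_lit 326) (nat_lit 245) (nat_lit 149)) (XT.nd (nat_lit 78) (nat_lit 0) (nat_lit 0) (XT.lf (nat_lit 0) (nat_lit 502492867762) (nat_lit 152) (nat_lit 59798463114) (nat_lit 0) (nat_lit 479669362720) (nat_lit 2) (nat_lit 5) (nat_lit 4) (nat_lit 4) (nat_lit 2) (nat_lit 4) (nat_lit 327) (nat_lit 245) (nat_lit 148)) (XT.lf (nat_lit 0) (nat_lit 550143221312) (nat_lit 152) (nat_lit 47102513979) (nat_lit 0) (nat_lit 527318747562) (nat_lit 2) (nat_lit 5) (nat_lit 4) (nat_lit 4) (nat_lit 2) (nat_lit 4) (nat_lit 328)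 (nat_lit 245) (nat_lit 147))))) (XT.nd (nat_lit 234) (nat_lit 76) (nat_lit 0) (XT.nd (nat_lit 78) (nat_lit 0) (nat_lit 0) (XT.lf (nat_lit 0) (nat_lit 601604846017) (nat_lit 152) (nat_lit 33392315373) (nat_lit 0) (nat_lit 578779475315) (nat_lit 2) (nat_lit 5) (nat_lit 4) (nat_lit 4) (nat_lit 2) (nat_lit 4) (nat_lit 329) (nat_lit 245) (nat_lit 146)) (XT.nd (nat_lit 78) (nat_lit 0) (nat_lit 0) (XT.lf (nat_lit 0) (nat_lit 657182699652) (nat_lit 152) (nat_lit 18586621677) (nat_lit 0) (nat_lit 634356498439) (nat_lit 2) (nat_lit 5) (nat_lit 4) (nat_lit 4) (nat_lit 2) (nat_lit 4) (nat_lit 330) (nat_lit 245) (nat_lit 145)) (XT.lf (nat_lit 0) (nat_lit 717206132462) (nat_lit 152) (nat_lit 2597695445) (nat_lit 0) (nat_lit 694379162257) (nat_lit 2) (nat_lit 5) (nat_lit 4) (nat_lit 4) (nat_lit 2) (nat_lit 4) (nat_lit 331) (nat_lit 245) (nat_lit 144)))) (XT.nd (nat_lit 156) (nat_lit 0) (nat_lit 0)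 (XT.nd (nat_lit 78) (nat_lit 0) (nat_lit 0) (XT.lf (nat_lit 0) (nat_lit 15441667249) (nat_lit 76) (nat_lit 766960544082) (nat_lit 76) (nat_lit 744132861847) (nat_lit 1) (nat_lit 4) (nat_lit 2) (nat_lit 5) (nat_lit 2) (nat_lit 4) (nat_lit 332) (nat_lit 245) (nat_lit 143)) (XT.lf (nat_lit 0) (nat_lit 35070808498) (nat_lit 76) (nat_lit 817813610552) (nat_lit 76) (nat_lit 794985269030) (nat_lit 1) (nat_lit 4) (nat_lit 2) (nat_lit 5) (nat_lit 2) (nat_lit 4) (nat_lit 333) (nat_lit 245) (nat_lit 142))) (XT.nd (nat_lit 78) (nat_lit 0) (nat_lit 0) (XT.lf (nat_lit 0) (nat_lit 56269259099) (nat_lit 76) (nat_lit 872735404420) (nat_lit 76) (nat_lit 849906452448) (nat_lit 1) (nat_lit 4) (nat_lit 2) (nat_lit 5) (nat_lit 2) (nat_lit 4) (nat_lit 334) (nat_lit 245) (nat_lit 141)) (XT.lf (nat_lit 0) (nat_lit 79162639501) (nat_lit 76) (nat_lit 932051388167) (nat_lit 76) (nat_lit 909221870963) (nat_lit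 1) (nat_lit 4) (nat_lit 2) (nat_lit 5) (nat_lit 2) (nat_lit 4) (nat_lit 335) (nat_lit 245) (nat_lit 140)))))) (XT.nd (nat_lit 30498) (nat_lit 0) (nat_lit 3268) (XT.nd (nat_lit 234) (nat_lit 0) (nat_lit 0) (XT.nd (nat_lit 78) (nat_lit 0) (nat_lit 0) (XT.lf (nat_lit 0) (nat_lit 103886614179) (nat_lit 76) (nat_lit 996113063920) (nat_lit 76) (nat_lit 973283023353) (nat_lit 1) (nat_lit 4) (nat_lit 2) (nat_lit 5) (nat_lit 2) (nat_lit 4) (nat_lit 336) (nat_lit 245) (nat_lit 139)) (XT.nd (nat_lit 78) (nat_lit 0) (nat_lit 0) (XT.lf (nat_lit 0) (nat_lit 130587695578) (nat_lit 76) (nat_lit 1065300056424) (nat_lit 76) (nat_lit 1042469531261) (nat_lit 1) (nat_lit 4) (nat_lit 2) (nat_lit 5) (nat_lit 2) (nat_lit 4) (nat_lit 337) (nat_lit 245) (nat_lit 138)) (XT.lf (nat_lit 0) (nat_lit 159424112326) (nat_lit 76) (nat_lit 1140022362672) (nat_lit 76) (nat_lit 1117191388809) (nat_lit 1) (nat_lit 4) (nat_lit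 2) (nat_lit 5) (nat_lit 2) (nat_lit 4) (nat_lit 338) (nat_lit 245) (nat_lit 137)))) (XT.nd (nat_lit 78) (nat_lit 0) (nat_lit 0) (XT.lf (nat_lit 0) (nat_lit 190566746894) (nat_lit 76) (nat_lit 1220722781514) (nat_lit 76) (nat_lit 1197891392189) (nat_lit 1) (nat_lit 4) (nat_lit 2) (nat_lit 5) (nat_lit 2) (nat_lit 4) (nat_lit 339) (nat_lit 245) (nat_lit 136)) (XT.nd (nat_lit 78) (nat_lit 0) (nat_lit 0) (XT.lf (nat_lit 0) (nat_lit 224200148227) (nat_lit 76) (nat_lit 1307879537656) (nat_lit 76) (nat_lit 1285047763644) (nat_lit 1) (nat_lit 4) (nat_lit 2) (nat_lit 5) (nat_lit 2) (nat_lit 4) (nat_lit 340) (nat_lit 245) (nat_lit 135)) (XT.lf (nat_lit 0) (nat_lit 260523625371) (nat_lit 76) (nat_lit 1402009115578) (nat_lit 76) (nat_lit 1379176985374) (nat_lit 1) (nat_lit 4) (nat_lit 2) (nat_lit 5) (nat_lit 2) (nat_lit 4) (nat_lit 341) (nat_lit 245) (nat_lit 134))))) (XT.nd (nat_lit 234) (nat_lit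 0) (nat_lit 76) (XT.nd (nat_lit 78) (nat_lit 380) (nat_lit 0) (XT.lf (nat_lit 0) (nat_lit 2540585982) (nat_lit 380) (nat_lit 606285897) (nat_lit 380) (nat_lit 606285897) (nat_lit 49) (nat_lit 3) (nat_lit 54) (nat_lit 3) (nat_lit 54) (nat_lit 5) (nat_lit 246) (nat_lit 246) (nat_lit 228)) (XT.nd (nat_lit 78) (nat_lit 380) (nat_lit 0) (XT.lf (nat_lit 76) (nat_lit 2222961798) (nat_lit 0) (nat_lit 4385206454) (nat_lit 380) (nat_lit 1084777426) (nat_lit 50) (nat_lit 5) (nat_lit 49) (nat_lit 3) (nat_lit 54) (nat_lit 5) (nat_lit 247) (nat_lit 246) (nat_lit 227)) (XT.lf (nat_lit 0) (nat_lit 245765988) (nat_lit 380) (nat_lit 1979506313) (nat_lit 456) (nat_lit 5677163436) (nat_lit 44) (nat_lit 5) (nat_lit 49) (nat_lit 3) (nat_lit 50) (nat_lit 5) (nat_lit 248) (nat_lit 246) (nat_lit 226)))) (XT.nd (nat_lit 156) (nat_lit 0) (nat_lit 0) (XT.nd (nat_lit 78) (nat_lit 0) (nat_lit 0) (XT.lf (nat_lit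 0) (nat_lit 1549395867) (nat_lit 380) (nat_lit 6362627389) (nat_lit 456) (nat_lit 221050130) (nat_lit 45) (nat_lit 5) (nat_lit 50) (nat_lit 5) (nat_lit 51) (nat_lit 5) (nat_lit 249) (nat_lit 246) (nat_lit 225)) (XT.lf (nat_lit 0) (nat_lit 2955983193) (nat_lit 380) (nat_lit 2587501024) (nat_lit 456) (nat_lit 2839397804) (nat_lit 45) (nat_lit 5) (nat_lit 50) (nat_lit 5) (nat_lit 51) (nat_lit 5) (nat_lit 250) (nat_lit 246) (nat_lit 224))) (XT.nd (nat_lit 78) (nat_lit 0) (nat_lit 76) (XT.lf (nat_lit 76) (nat_lit 1486754754) (nat_lit 0) (nat_lit 2917931430) (nat_lit 456) (nat_lit 4254189970) (nat_lit 46) (nat_lit 5) (nat_lit 45) (nat_lit 5) (nat_lit 51) (nat_lit 5) (nat_lit 251) (nat_lit 246) (nat_lit 223)) (XT.lf (nat_lit 0) (nat_lit 5940372089) (nat_lit 380) (nat_lit 3001473242) (nat_lit 76) (nat_lit 17943391) (nat_lit 46) (nat_lit 5) (nat_lit 51) (nat_lit 5) (nat_lit 47) (nat_lit 5) (nat_lit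 252) (nat_lit 246) (nat_lit 222))))))) (XT.nd (nat_lit 1014) (nat_lit 760) (nat_lit 0) (XT.nd (nat_lit 468) (nat_lit 760) (nat_lit 0) (XT.nd (nat_lit 234) (nat_lit 228) (nat_lit 0) (XT.nd (nat_lit 78) (nat_lit 532) (nat_lit 0) (XT.lf (nat_lit 0) (nat_lit 1419888814) (nat_lit 380) (nat_lit 6196816886) (nat_lit 456) (nat_lit 1667132051) (nat_lit 41) (nat_lit 5) (nat_lit 46) (nat_lit 5) (nat_lit 47) (nat_lit 5) (nat_lit 253) (nat_lit 246) (nat_lit 221)) (XT.nd (nat_lit 78) (nat_lit 532) (nat_lit 0) (XT.lf (nat_lit 0) (nat_lit 6289459302) (nat_lit 380) (nat_lit 3132599432) (nat_lit 456) (nat_lit 212609771) (nat_lit 41) (nat_lit 5) (nat_lit 46) (nat_lit 5) (nat_lit 47) (nat_lit 5) (nat_lit 254) (nat_lit 246) (nat_lit 220)) (XT.lf (nat_lit 0) (nat_lit 1249493022) (nat_lit 532) (nat_lit 8519142097) (nat_lit 76) (nat_lit 245970575) (nat_lit 34) (nat_lit 5) (nat_lit 41) (nat_lit 5) (nat_lit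 35) (nat_lit 5) (nat_lit 255) (nat_lit 246) (nat_lit 219)))) (XT.nd (nat_lit 78) (nat_lit 228) (nat_lit 0) (XT.lf (nat_lit 0) (nat_lit 2913619776) (nat_lit 532) (nat_lit 3673453503) (nat_lit 76) (nat_lit 3830057293) (nat_lit 34) (nat_lit 5) (nat_lit 41) (nat_lit 5) (nat_lit 35) (nat_lit 5) (nat_lit 256) (nat_lit 246) (nat_lit 218)) (XT.nd (nat_lit 78) (nat_lit 0) (nat_lit 0) (XT.lf (nat_lit 0) (nat_lit 1563857947) (nat_lit 228) (nat_lit 3111792813) (nat_lit 304) (nat_lit 6179356117) (nat_lit 31) (nat_lit 5) (nat_lit 34) (nat_lit 5) (nat_lit 35) (nat_lit 5) (nat_lit 257) (nat_lit 246) (nat_lit 217)) (XT.lf (nat_lit 0) (nat_lit 6627860894) (nat_lit 304) (nat_lit 3986995548) (nat_lit 76) (nat_lit 709426334) (nat_lit 31) (nat_lit 5) (nat_lit 35) (nat_lit 5) (nat_lit 32) (nat_lit 5) (nat_lit 258) (nat_lit 246) (nat_lit 216))))) (XT.nd (nat_lit 234) (nat_lit 304) (nat_lit 0) (XT.nd (nat_lit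 78) (nat_lit 304) (nat_lit 0) (XT.lf (nat_lit 0) (nat_lit 1671943268) (nat_lit 152) (nat_lit 7121211751) (nat_lit 228) (nat_lit 3033677245) (nat_lit 29) (nat_lit 5) (nat_lit 31) (nat_lit 5) (nat_lit 32) (nat_lit 5) (nat_lit 259) (nat_lit 246) (nat_lit 215)) (XT.nd (nat_lit 78) (nat_lit 304) (nat_lit 0) (XT.lf (nat_lit 0) (nat_lit 7939814596) (nat_lit 152) (nat_lit 3239794842) (nat_lit 228) (nat_lit 1186404381) (nat_lit 29) (nat_lit 5) (nat_lit 31) (nat_lit 5) (nat_lit 32) (nat_lit 5) (nat_lit 260) (nat_lit 246) (nat_lit 214)) (XT.lf (nat_lit 0) (nat_lit 776550511) (nat_lit 304) (nat_lit 11211700974) (nat_lit 76) (nat_lit 958079918) (nat_lit 25) (nat_lit 5) (nat_lit 29) (nat_lit 5) (nat_lit 26) (nat_lit 5) (nat_lit 261) (nat_lit 246) (nat_lit 213)))) (XT.nd (nat_lit 156) (nat_lit 152) (nat_lit 0) (XT.nd (nat_lit 78) (nat_lit 152) (nat_lit 0) (XT.lf (nat_lit 0) (nat_lit 2984943050) (nat_lit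 304) (nat_lit 5112692964) (nat_lit 76) (nat_lit 5460982108) (nat_lit 25) (nat_lit 5) (nat_lit 29) (nat_lit 5) (nat_lit 26) (nat_lit 5) (nat_lit 262) (nat_lit 246) (nat_lit 212)) (XT.lf (nat_lit 0) (nat_lit 1482430924) (nat_lit 152) (nat_lit 3871546972) (nat_lit 228) (nat_lit 8867385558) (nat_lit 23) (nat_lit 5) (nat_lit 25) (nat_lit 5) (nat_lit 26) (nat_lit 5) (nat_lit 263) (nat_lit 246) (nat_lit 211))) (XT.nd (nat_lit 78) (nat_lit 152) (nat_lit 0) (XT.lf (nat_lit 0) (nat_lit 8022856562) (nat_lit 228) (nat_lit 6118370627) (nat_lit 76) (nat_lit 787254571) (nat_lit 23) (nat_lit 5) (nat_lit 26) (nat_lit 5) (nat_lit 24) (nat_lit 5) (nat_lit 264) (nat_lit 246) (nat_lit 210)) (XT.lf (nat_lit 0) (nat_lit 913974240) (nat_lit 152) (nat_lit 10067740084) (nat_lit 228) (nat_lit 4704503465) (nat_lit 21) (nat_lit 5) (nat_lit 23) (nat_lit 5) (nat_lit 24) (nat_lit 5) (nat_lit 265) (nat_lit 246) (nat_lit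 209)))))) (XT.nd (nat_lit 546) (nat_lit 304) (nat_lit 0) (XT.nd (nat_lit 234) (nat_lit 228) (nat_lit 0) (XT.nd (nat_lit 78) (nat_lit 228) (nat_lit 0) (XT.lf (nat_lit 0) (nat_lit 8795436355) (nat_lit 152) (nat_lit 5504994893) (nat_lit 228) (nat_lit 2194442896) (nat_lit 21) (nat_lit 5) (nat_lit 23) (nat_lit 5) (nat_lit 24) (nat_lit 5) (nat_lit 266) (nat_lit 246) (nat_lit 208)) (XT.nd (nat_lit 78) (nat_lit 152) (nat_lit 0) (XT.lf (nat_lit 0) (nat_lit 448525297) (nat_lit 228) (nat_lit 132451448) (nat_lit 76) (nat_lit 16789749348) (nat_lit 20) (nat_lit 5) (nat_lit 23) (nat_lit 5) (nat_lit 21) (nat_lit 5) (nat_lit 267) (nat_lit 246) (nat_lit 207)) (XT.lf (nat_lit 0) (nat_lit 3466372198) (nat_lit 228) (nat_lit 10073966999) (nat_lit 76) (nat_lit 4749309111) (nat_lit 18) (nat_lit 5) (nat_lit 21) (nat_lit 5) (nat_lit 19) (nat_lit 5) (nat_lit 268) (nat_lit 246) (nat_lit 206)))) (XT.nd (nat_lit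 156) (nat_lit 76) (nat_lit 0) (XT.nd (nat_lit 78) (nat_lit 152) (nat_lit 0) (XT.lf (nat_lit 0) (nat_lit 6706717200) (nat_lit 228) (nat_lit 2113943766) (nat_lit 76) (nat_lit 10463050522) (nat_lit 18) (nat_lit 5) (nat_lit 21) (nat_lit 5) (nat_lit 19) (nat_lit 5) (nat_lit 269) (nat_lit 246) (nat_lit 205)) (XT.lf (nat_lit 0) (nat_lit 6769518057) (nat_lit 152) (nat_lit 3564638559) (nat_lit 228) (nat_lit 10013018222) (nat_lit 16) (nat_lit 5) (nat_lit 18) (nat_lit 5) (nat_lit 19) (nat_lit 5) (nat_lit 270) (nat_lit 246) (nat_lit 204))) (XT.nd (nat_lit 78) (nat_lit 76) (nat_lit 0) (XT.lf (nat_lit 0) (nat_lit 14327899169) (nat_lit 228) (nat_lit 5112560624) (nat_lit 76) (nat_lit 2049263546) (nat_lit 16) (nat_lit 5) (nat_lit 19) (nat_lit 5) (nat_lit 17) (nat_lit 4) (nat_lit 271) (nat_lit 246) (nat_lit 203)) (XT.lf (nat_lit 0) (nat_lit 4092765745) (nat_lit 76) (nat_lit 14707929067) (nat_lit 152)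 (nat_lit 3910306173) (nat_lit 15) (nat_lit 5) (nat_lit 16) (nat_lit 5) (nat_lit 17) (nat_lit 4) (nat_lit 272) (nat_lit 246) (nat_lit 202))))) (XT.nd (nat_lit 234) (nat_lit 76) (nat_lit 0) (XT.nd (nat_lit 78) (nat_lit 228) (nat_lit 0) (XT.lf (nat_lit 0) (nat_lit 14277391594) (nat_lit 76) (nat_lit 9463422735) (nat_lit 152) (nat_lit 280489418) (nat_lit 15) (nat_lit 5) (nat_lit 16) (nat_lit 5) (nat_lit 17) (nat_lit 4) (nat_lit 273) (nat_lit 246) (nat_lit 201)) (XT.nd (nat_lit 78) (nat_lit 152) (nat_lit 0) (XT.lf (nat_lit 0) (nat_lit 3428795364) (nat_lit 152) (nat_lit 293104003) (nat_lit 76) (nat_lit 21709907174) (nat_lit 14) (nat_lit 5) (nat_lit 16) (nat_lit 5) (nat_lit 15) (nat_lit 5) (nat_lit 274) (nat_lit 246) (nat_lit 200)) (XT.lf (nat_lit 0) (nat_lit 7708595980) (nat_lit 228) (nat_lit 16619327043) (nat_lit 76) (nat_lit 2603595390) (nat_lit 12) (nat_lit 5) (nat_lit 15) (nat_lit 5) (nat_lit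 13) (nat_lit 4) (nat_lit 275) (nat_lit 246) (nat_lit 199)))) (XT.nd (nat_lit 156) (nat_lit 0) (nat_lit 0) (XT.nd (nat_lit 78) (nat_lit 76) (nat_lit 0) (XT.lf (nat_lit 0) (nat_lit 12409571390) (nat_lit 228) (nat_lit 6908055620) (nat_lit 76) (nat_lit 9227337914) (nat_lit 12) (nat_lit 5) (nat_lit 15) (nat_lit 5) (nat_lit 13) (nat_lit 4) (nat_lit 276) (nat_lit 246) (nat_lit 198)) (XT.lf (nat_lit 0) (nat_lit 3726545429) (nat_lit 76) (nat_lit 13825532444) (nat_lit 152) (nat_lit 12730229477) (nat_lit 11) (nat_lit 5) (nat_lit 12) (nat_lit 5) (nat_lit 13) (nat_lit 4) (nat_lit 277) (nat_lit 246) (nat_lit 197))) (XT.nd (nat_lit 78) (nat_lit 0) (nat_lit 0) (XT.lf (nat_lit 0) (nat_lit 15565805206) (nat_lit 76) (nat_lit 7705740703) (nat_lit 152) (nat_lit 8873898635) (nat_lit 11) (nat_lit 5) (nat_lit 12) (nat_lit 5) (nat_lit 13) (nat_lit 4) (nat_lit 278) (nat_lit 246) (nat_lit 196)) (XT.lf (nat_lit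 0) (nat_lit 28316116320) (nat_lit 76) (nat_lit 1110864836) (nat_lit 152) (nat_lit 4732427160) (nat_lit 11) (nat_lit 5) (nat_lit 12) (nat_lit 5) (nat_lit 13) (nat_lit 4) (nat_lit 279) (nat_lit 246) (nat_lit 195))))))))
noncomputable def xc62 : XT := (XT.nd (nat_lit 2028) (nat_lit 76) (nat_lit 0) (XT.nd (nat_lit 1014) (nat_lit 152) (nat_lit 0) (XT.nd (nat_lit 468) (nat_lit 228) (nat_lit 0) (XT.nd (nat_lit 234) (nat_lit 76) (nat_lit 0) (XT.nd (nat_lit 78) (nat_lit 0) (nat_lit 0) (XT.lf (nat_lit 0) (nat_lit 25544672) (nat_lit 152) (nat_lit 30447860776) (nat_lit 76) (nat_lit 5839849210) (nat_lit 9) (nat_lit 5) (nat_lit 11) (nat_lit 5) (nat_lit 10) (nat_lit 4) (nat_lit 280) (nat_lit 246) (nat_lit 194)) (XT.nd (nat_lit 78) (nat_lit 0) (nat_lit 0) (XT.lf (nat_lit 0) (nat_lit 5081077129) (nat_lit 152) (nat_lit 19974421772) (nat_lit 76) (nat_lit 13560306853) (nat_lit 9) (nat_lit 5) (nat_lit 11)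 (nat_lit 5) (nat_lit 10) (nat_lit 4) (nat_lit 281) (nat_lit 246) (nat_lit 193)) (XT.lf (nat_lit 0) (nat_lit 10522373947) (nat_lit 152) (nat_lit 8695476709) (nat_lit 76) (nat_lit 21886240103) (nat_lit 9) (nat_lit 5) (nat_lit 11) (nat_lit 5) (nat_lit 10) (nat_lit 4) (nat_lit 282) (nat_lit 246) (nat_lit 192)))) (XT.nd (nat_lit 78) (nat_lit 0) (nat_lit 0) (XT.lf (nat_lit 0) (nat_lit 3637789574) (nat_lit 76) (nat_lit 12831379203) (nat_lit 152) (nat_lit 27316687178) (nat_lit 8) (nat_lit 5) (nat_lit 9) (nat_lit 5) (nat_lit 10) (nat_lit 4) (nat_lit 283) (nat_lit 246) (nat_lit 191)) (XT.nd (nat_lit 78) (nat_lit 0) (nat_lit 0) (XT.lf (nat_lit 0) (nat_lit 17423024041) (nat_lit 76) (nat_lit 5689716757) (nat_lit 152) (nat_lit 23551769371) (nat_lit 8) (nat_lit 5) (nat_lit 9) (nat_lit 5) (nat_lit 10) (nat_lit 4) (nat_lit 284) (nat_lit 246) (nat_lit 190)) (XT.lf (nat_lit 0) (nat_lit 30320702298) (nat_lit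 152) (nat_lit 17539076232) (nat_lit 0) (nat_lit 1911074125) (nat_lit 8) (nat_lit 5) (nat_lit 10) (nat_lit 4) (nat_lit 8) (nat_lit 4) (nat_lit 285) (nat_lit 246) (nat_lit 189))))) (XT.nd (nat_lit 234) (nat_lit 152) (nat_lit 0) (XT.nd (nat_lit 78) (nat_lit 76) (nat_lit 0) (XT.lf (nat_lit 0) (nat_lit 38238496510) (nat_lit 152) (nat_lit 5074218465) (nat_lit 0) (nat_lit 9802358042) (nat_lit 8) (nat_lit 5) (nat_lit 10) (nat_lit 4) (nat_lit 8) (nat_lit 4) (nat_lit 286) (nat_lit 246) (nat_lit 188)) (XT.nd (nat_lit 78) (nat_lit 0) (nat_lit 0) (XT.lf (nat_lit 0) (nat_lit 8804213222) (nat_lit 76) (nat_lit 38183734188) (nat_lit 76) (nat_lit 9723049152) (nat_lit 7) (nat_lit 4) (nat_lit 8) (nat_lit 5) (nat_lit 8) (nat_lit 4) (nat_lit 287) (nat_lit 246) (nat_lit 187)) (XT.lf (nat_lit 0) (nat_lit 24058066178) (nat_lit 76) (nat_lit 32504955106) (nat_lit 76) (nat_lit 4021541765) (nat_lit 7) (nat_lit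 4) (nat_lit 8) (nat_lit 5) (nat_lit 8) (nat_lit 4) (nat_lit 288) (nat_lit 246) (nat_lit 186)))) (XT.nd (nat_lit 156) (nat_lit 76) (nat_lit 0) (XT.nd (nat_lit 78) (nat_lit 0) (nat_lit 0) (XT.lf (nat_lit 0) (nat_lit 2016793465) (nat_lit 152) (nat_lit 24309527658) (nat_lit 76) (nat_lit 38438598078) (nat_lit 6) (nat_lit 5) (nat_lit 8) (nat_lit 5) (nat_lit 7) (nat_lit 4) (nat_lit 289) (nat_lit 246) (nat_lit 185)) (XT.lf (nat_lit 0) (nat_lit 8309412006) (nat_lit 152) (nat_lit 11240366951) (nat_lit 76) (nat_lit 49722507493) (nat_lit 6) (nat_lit 5) (nat_lit 8) (nat_lit 5) (nat_lit 7) (nat_lit 4) (nat_lit 290) (nat_lit 246) (nat_lit 184))) (XT.nd (nat_lit 78) (nat_lit 0) (nat_lit 0) (XT.lf (nat_lit 0) (nat_lit 3005497458) (nat_lit 76) (nat_lit 12161562082) (nat_lit 152) (nat_lit 58968270451) (nat_lit 5) (nat_lit 5) (nat_lit 6) (nat_lit 5) (nat_lit 7) (nat_lit 4) (nat_lit 291) (nat_lit 246) (nat_lit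 183)) (XT.lf (nat_lit 0) (nat_lit 19011589816) (nat_lit 76) (nat_lit 3858738156) (nat_lit 152) (nat_lit 56493343568) (nat_lit 5) (nat_lit 5) (nat_lit 6) (nat_lit 5) (nat_lit 7) (nat_lit 4) (nat_lit 292) (nat_lit 246) (nat_lit 182)))))) (XT.nd (nat_lit 468) (nat_lit 76) (nat_lit 0) (XT.nd (nat_lit 234) (nat_lit 76) (nat_lit 0) (XT.nd (nat_lit 78) (nat_lit 0) (nat_lit 0) (XT.lf (nat_lit 0) (nat_lit 31302968718) (nat_lit 152) (nat_lit 48852864596) (nat_lit 0) (nat_lit 4845412357) (nat_lit 5) (nat_lit 5) (nat_lit 7) (nat_lit 4) (nat_lit 5) (nat_lit 4) (nat_lit 293) (nat_lit 246) (nat_lit 181)) (XT.nd (nat_lit 78) (nat_lit 0) (nat_lit 0) (XT.lf (nat_lit 0) (nat_lit 40501425298) (nat_lit 152) (nat_lit 36550509955) (nat_lit 0) (nat_lit 14030607189) (nat_lit 5) (nat_lit 5) (nat_lit 7) (nat_lit 4) (nat_lit 5) (nat_lit 4) (nat_lit 294) (nat_lit 246) (nat_lit 180)) (XT.lf (nat_lit 0) (nat_lit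 50427404339) (nat_lit 152) (nat_lit 23279312214) (nat_lit 0) (nat_lit 23944306835) (nat_lit 5) (nat_lit 5) (nat_lit 7) (nat_lit 4) (nat_lit 5) (nat_lit 4) (nat_lit 295) (nat_lit 246) (nat_lit 179)))) (XT.nd (nat_lit 78) (nat_lit 76) (nat_lit 0) (XT.lf (nat_lit 0) (nat_lit 61139726459) (nat_lit 152) (nat_lit 8960627239) (nat_lit 0) (nat_lit 34645259144) (nat_lit 5) (nat_lit 5) (nat_lit 7) (nat_lit 4) (nat_lit 5) (nat_lit 4) (nat_lit 296) (nat_lit 246) (nat_lit 178)) (XT.nd (nat_lit 78) (nat_lit 0) (nat_lit 0) (XT.lf (nat_lit 0) (nat_lit 6832169211) (nat_lit 76) (nat_lit 66034016707) (nat_lit 76) (nat_lit 39529021790) (nat_lit 4) (nat_lit 4) (nat_lit 5) (nat_lit 5) (nat_lit 5) (nat_lit 4) (nat_lit 297) (nat_lit 246) (nat_lit 177)) (XT.lf (nat_lit 0) (nat_lit 24385165157) (nat_lit 76) (nat_lit 61383656285) (nat_lit 76) (nat_lit 34868913587) (nat_lit 4) (nat_lit 4) (nat_lit 5) (nat_lit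 5) (nat_lit 5) (nat_lit 4) (nat_lit 298) (nat_lit 246) (nat_lit 176))))) (XT.nd (nat_lit 234) (nat_lit 76) (nat_lit 0) (XT.nd (nat_lit 78) (nat_lit 0) (nat_lit 0) (XT.lf (nat_lit 0) (nat_lit 43330527602) (nat_lit 76) (nat_lit 56366714169) (nat_lit 76) (nat_lit 29842945749) (nat_lit 4) (nat_lit 4) (nat_lit 5) (nat_lit 5) (nat_lit 5) (nat_lit 4) (nat_lit 299) (nat_lit 246) (nat_lit 175)) (XT.nd (nat_lit 78) (nat_lit 0) (nat_lit 0) (XT.lf (nat_lit 0) (nat_lit 63780525360) (nat_lit 76) (nat_lit 50953460332) (nat_lit 76) (nat_lit 24421334762) (nat_lit 4) (nat_lit 4) (nat_lit 5) (nat_lit 5) (nat_lit 5) (nat_lit 4) (nat_lit 300) (nat_lit 246) (nat_lit 174)) (XT.lf (nat_lit 0) (nat_lit 85856343602) (nat_lit 76) (nat_lit 45111816233) (nat_lit 76) (nat_lit 18571952560) (nat_lit 4) (nat_lit 4) (nat_lit 5) (nat_lit 5) (nat_lit 5) (nat_lit 4) (nat_lit 301) (nat_lit 246) (nat_lit 173)))) (XT.nd (nat_lit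 156) (nat_lit 76) (nat_lit 0) (XT.nd (nat_lit 78) (nat_lit 0) (nat_lit 0) (XT.lf (nat_lit 0) (nat_lit 109688801994) (nat_lit 76) (nat_lit 38807164721) (nat_lit 76) (nat_lit 12260136138) (nat_lit 4) (nat_lit 4) (nat_lit 5) (nat_lit 5) (nat_lit 5) (nat_lit 4) (nat_lit 302) (nat_lit 246) (nat_lit 172)) (XT.lf (nat_lit 0) (nat_lit 135419129917) (nat_lit 76) (nat_lit 32002144898) (nat_lit 76) (nat_lit 5448482140) (nat_lit 4) (nat_lit 4) (nat_lit 5) (nat_lit 5) (nat_lit 5) (nat_lit 4) (nat_lit 303) (nat_lit 246) (nat_lit 171))) (XT.nd (nat_lit 78) (nat_lit 0) (nat_lit 0) (XT.lf (nat_lit 0) (nat_lit 1808160275) (nat_lit 152) (nat_lit 22798832140) (nat_lit 76) (nat_lit 161342204808) (nat_lit 3) (nat_lit 5) (nat_lit 5) (nat_lit 5) (nat_lit 4) (nat_lit 4) (nat_lit 304) (nat_lit 246) (nat_lit 170)) (XT.lf (nat_lit 0) (nat_lit 9346814526) (nat_lit 152) (nat_lit 7124119034) (nat_lit 76) (nat_lit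 183593075624) (nat_lit 3) (nat_lit 5) (nat_lit 5) (nat_lit 5) (nat_lit 4) (nat_lit 4) (nat_lit 305) (nat_lit 246) (nat_lit 169))))))) (XT.nd (nat_lit 1014) (nat_lit 0) (nat_lit 0) (XT.nd (nat_lit 468) (nat_lit 0) (nat_lit 0) (XT.nd (nat_lit 234) (nat_lit 0) (nat_lit 0) (XT.nd (nat_lit 78) (nat_lit 0) (nat_lit 0) (XT.lf (nat_lit 0) (nat_lit 10313351192) (nat_lit 76) (nat_lit 7419394415) (nat_lit 152) (nat_lit 197555730544) (nat_lit 2) (nat_lit 5) (nat_lit 3) (nat_lit 5) (nat_lit 4) (nat_lit 4) (nat_lit 306) (nat_lit 246) (nat_lit 168)) (XT.nd (nat_lit 78) (nat_lit 0) (nat_lit 0) (XT.lf (nat_lit 0) (nat_lit 27042253626) (nat_lit 152) (nat_lit 202233251839) (nat_lit 0) (nat_lit 2435183266) (nat_lit 2) (nat_lit 5) (nat_lit 4) (nat_lit 4) (nat_lit 2) (nat_lit 4) (nat_lit 307) (nat_lit 246) (nat_lit 167)) (XT.lf (nat_lit 0) (nat_lit 37285704881) (nat_lit 152) (nat_lit 199471389085) (nat_lit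 0) (nat_lit 12674453866) (nat_lit 2) (nat_lit 5) (nat_lit 4) (nat_lit 4) (nat_lit 2) (nat_lit 4) (nat_lit 308) (nat_lit 246) (nat_lit 166)))) (XT.nd (nat_lit 78) (nat_lit 0) (nat_lit 0) (XT.lf (nat_lit 0) (nat_lit 48345364693) (nat_lit 152) (nat_lit 196494733491) (nat_lit 0) (nat_lit 23730242700) (nat_lit 2) (nat_lit 5) (nat_lit 4) (nat_lit 4) (nat_lit 2) (nat_lit 4) (nat_lit 309) (nat_lit 246) (nat_lit 165)) (XT.nd (nat_lit 78) (nat_lit 0) (nat_lit 0) (XT.lf (nat_lit 0) (nat_lit 60286771784) (nat_lit 152) (nat_lit 193285645615) (nat_lit 0) (nat_lit 35668065553) (nat_lit 2) (nat_lit 5) (nat_lit 4) (nat_lit 4) (nat_lit 2) (nat_lit 4) (nat_lit 310) (nat_lit 246) (nat_lit 164)) (XT.lf (nat_lit 0) (nat_lit 73180690050) (nat_lit 152) (nat_lit 189825108641) (nat_lit 0) (nat_lit 48558665079) (nat_lit 2) (nat_lit 5) (nat_lit 4) (nat_lit 4) (nat_lit 2) (nat_lit 4) (nat_lit 311) (nat_lit 246)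 (nat_lit 163))))) (XT.nd (nat_lit 234) (nat_lit 0) (nat_lit 0) (XT.nd (nat_lit 78) (nat_lit 0) (nat_lit 0) (XT.lf (nat_lit 0) (nat_lit 87103527895) (nat_lit 152) (nat_lit 186092615683) (nat_lit 0) (nat_lit 62478430017) (nat_lit 2) (nat_lit 5) (nat_lit 4) (nat_lit 4) (nat_lit 2) (nat_lit 4) (nat_lit 312) (nat_lit 246) (nat_lit 162)) (XT.nd (nat_lit 78) (nat_lit 0) (nat_lit 0) (XT.lf (nat_lit 0) (nat_lit 102137791025) (nat_lit 152) (nat_lit 182066048264) (nat_lit 0) (nat_lit 77509847863) (nat_lit 2) (nat_lit 5) (nat_lit 4) (nat_lit 4) (nat_lit 2) (nat_lit 4) (nat_lit 313) (nat_lit 246) (nat_lit 161)) (XT.lf (nat_lit 0) (nat_lit 118372571369) (nat_lit 152) (nat_lit 177721545244) (nat_lit 0) (nat_lit 93741993684) (nat_lit 2) (nat_lit 5) (nat_lit 4) (nat_lit 4) (nat_lit 2) (nat_lit 4) (nat_lit 314) (nat_lit 246) (nat_lit 160)))) (XT.nd (nat_lit 156) (nat_lit 0) (nat_lit 0) (XT.nd (nat_lit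 78) (nat_lit 0) (nat_lit 0) (XT.lf (nat_lit 0) (nat_lit 135904075032) (nat_lit 152) (nat_lit 173033361419) (nat_lit 0) (nat_lit 111271057976) (nat_lit 2) (nat_lit 5) (nat_lit 4) (nat_lit 4) (nat_lit 2) (nat_lit 4) (nat_lit 315) (nat_lit 246) (nat_lit 159)) (XT.lf (nat_lit 0) (nat_lit 154836192409) (nat_lit 152) (nat_lit 167973714960) (nat_lit 0) (nat_lit 130200916674) (nat_lit 2) (nat_lit 5) (nat_lit 4) (nat_lit 4) (nat_lit 2) (nat_lit 4) (nat_lit 316) (nat_lit 246) (nat_lit 158))) (XT.nd (nat_lit 78) (nat_lit 0) (nat_lit 0) (XT.lf (nat_lit 0) (nat_lit 175281113822) (nat_lit 152) (nat_lit 162512622777) (nat_lit 0) (nat_lit 150643746718) (nat_lit 2) (nat_lit 5) (nat_lit 4) (nat_lit 4) (nat_lit 2) (nat_lit 4) (nat_lit 317) (nat_lit 246) (nat_lit 157)) (XT.lf (nat_lit 0) (nat_lit 197359994362) (nat_lit 152) (nat_lit 156617722841) (nat_lit 0) (nat_lit 172720690806) (nat_lit 2) (nat_lit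 5) (nat_lit 4) (nat_lit 4) (nat_lit 2) (nat_lit 4) (nat_lit 318) (nat_lit 246) (nat_lit 156)))))) (XT.nd (nat_lit 546) (nat_lit 0) (nat_lit 0) (XT.nd (nat_lit 234) (nat_lit 0) (nat_lit 0) (XT.nd (nat_lit 78) (nat_lit 0) (nat_lit 0) (XT.lf (nat_lit 0) (nat_lit 221203671841) (nat_lit 152) (nat_lit 150254082413) (nat_lit 0) (nat_lit 196562575273) (nat_lit 2) (nat_lit 5) (nat_lit 4) (nat_lit 4) (nat_lit 2) (nat_lit 4) (nat_lit 319) (nat_lit 246) (nat_lit 155)) (XT.nd (nat_lit 78) (nat_lit 0) (nat_lit 0) (XT.lf (nat_lit 0) (nat_lit 246953442123) (nat_lit 152) (nat_lit 143383991030) (nat_lit 0) (nat_lit 222310685359) (nat_lit 2) (nat_lit 5) (nat_lit 4) (nat_lit 4) (nat_lit 2) (nat_lit 4) (nat_lit 320) (nat_lit 246) (nat_lit 154)) (XT.lf (nat_lit 0) (nat_lit 274761896442) (nat_lit 152) (nat_lit 135966737041) (nat_lit 0) (nat_lit 250117602459) (nat_lit 2) (nat_lit 5) (nat_lit 4) (nat_lit 4)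 (nat_lit 2) (nat_lit 4) (nat_lit 321) (nat_lit 246) (nat_lit 153)))) (XT.nd (nat_lit 156) (nat_lit 0) (nat_lit 0) (XT.nd (nat_lit 78) (nat_lit 0) (nat_lit 0) (XT.lf (nat_lit 0) (nat_lit 304793825636) (nat_lit 152) (nat_lit 127958366346) (nat_lit 0) (nat_lit 280148108303) (nat_lit 2) (nat_lit 5) (nat_lit 4) (nat_lit 4) (nat_lit 2) (nat_lit 4) (nat_lit 322) (nat_lit 246) (nat_lit 152)) (XT.lf (nat_lit 0) (nat_lit 337227196694) (nat_lit 152) (nat_lit 119311421936) (nat_lit 0) (nat_lit 312580161444) (nat_lit 2) (nat_lit 5) (nat_lit 4) (nat_lit 4) (nat_lit 2) (nat_lit 4) (nat_lit 323) (nat_lit 246) (nat_lit 151))) (XT.nd (nat_lit 78) (nat_lit 0) (nat_lit 0) (XT.lf (nat_lit 0) (nat_lit 372254207370) (nat_lit 152) (nat_lit 109974662657) (nat_lit 0) (nat_lit 347605951827) (nat_lit 2) (nat_lit 5) (nat_lit 4) (nat_lit 4) (nat_lit 2) (nat_lit 4) (nat_lit 324) (nat_lit 246) (nat_lit 150)) (XT.lf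 (nat_lit 0) (nat_lit 410082425136) (nat_lit 152) (nat_lit 99892759566) (nat_lit 0) (nat_lit 385433039691) (nat_lit 2) (nat_lit 5) (nat_lit 4) (nat_lit 4) (nat_lit 2) (nat_lit 4) (nat_lit 325) (nat_lit 246) (nat_lit 149))))) (XT.nd (nat_lit 234) (nat_lit 0) (nat_lit 0) (XT.nd (nat_lit 78) (nat_lit 0) (nat_lit 0) (XT.lf (nat_lit 0) (nat_lit 450936017207) (nat_lit 152) (nat_lit 89005968051) (nat_lit 0) (nat_lit 426285585556) (nat_lit 2) (nat_lit 5) (nat_lit 4) (nat_lit 4) (nat_lit 2) (nat_lit 4) (nat_lit 326) (nat_lit 246) (nat_lit 148)) (XT.nd (nat_lit 78) (nat_lit 0) (nat_lit 0) (XT.lf (nat_lit 0) (nat_lit 495057078943) (nat_lit 152) (nat_lit 77249773794) (nat_lit 0) (nat_lit 470405678585) (nat_lit 2) (nat_lit 5) (nat_lit 4) (nat_lit 4) (nat_lit 2) (nat_lit 4) (nat_lit 327) (nat_lit 246) (nat_lit 147)) (XT.lf (nat_lit 0) (nat_lit 542707068489) (nat_lit 152) (nat_lit 64554510457) (nat_lit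 0) (nat_lit 518054771178) (nat_lit 2) (nat_lit 5) (nat_lit 4) (nat_lit 4) (nat_lit 2) (nat_lit 4) (nat_lit 328) (nat_lit 246) (nat_lit 146)))) (XT.nd (nat_lit 156) (nat_lit 0) (nat_lit 0) (XT.nd (nat_lit 78) (nat_lit 0) (nat_lit 0) (XT.lf (nat_lit 0) (nat_lit 594168356152) (nat_lit 152) (nat_lit 50844946850) (nat_lit 0) (nat_lit 569515228330) (nat_lit 2) (nat_lit 5) (nat_lit 4) (nat_lit 4) (nat_lit 2) (nat_lit 4) (nat_lit 329) (nat_lit 246) (nat_lit 145)) (XT.lf (nat_lit 0) (nat_lit 649745897713) (nat_lit 152) (nat_lit 36039841115) (nat_lit 0) (nat_lit 625092000899) (nat_lit 2) (nat_lit 5) (nat_lit 4) (nat_lit 4) (nat_lit 2) (nat_lit 4) (nat_lit 330) (nat_lit 246) (nat_lit 144))) (XT.nd (nat_lit 78) (nat_lit 0) (nat_lit 0) (XT.lf (nat_lit 0) (nat_lit 709769041564) (nat_lit 152) (nat_lit 20051459292) (nat_lit 0) (nat_lit 685114432720) (nat_lit 2) (nat_lit 5) (nat_lit 4) (nat_lit 4) (nat_lit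 2) (nat_lit 4) (nat_lit 331) (nat_lit 246) (nat_lit 143)) (XT.lf (nat_lit 0) (nat_lit 774593480410) (nat_lit 152) (nat_lit 2785055415) (nat_lit 0) (nat_lit 749938212280) (nat_lit 2) (nat_lit 5) (nat_lit 4) (nat_lit 4) (nat_lit 2) (nat_lit 4) (nat_lit 332) (nat_lit 246) (nat_lit 142))))))))
noncomputable def xc63 : XT := (XT.nd (nat_lit 32214) (nat_lit 0) (nat_lit 380) (XT.nd (nat_lit 31122) (nat_lit 0) (nat_lit 1672) (XT.nd (nat_lit 468) (nat_lit 0) (nat_lit 0) (XT.nd (nat_lit 234) (nat_lit 0) (nat_lit 0) (XT.nd (nat_lit 78) (nat_lit 0) (nat_lit 0) (XT.lf (nat_lit 0) (nat_lit 16696938429) (nat_lit 76) (nat_lit 828307982416) (nat_lit 76) (nat_lit 803652103835) (nat_lit 1) (nat_lit 4) (nat_lit 2) (nat_lit 5) (nat_lit 2) (nat_lit 4) (nat_lit 333) (nat_lit 246) (nat_lit 141)) (XT.nd (nat_lit 78) (nat_lit 0) (nat_lit 0) (XT.lf (nat_lit 0) (nat_lit 37894934104) (nat_lit 76) (nat_lit 883229990885)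 (nat_lit 76) (nat_lit 858573547072) (nat_lit 1) (nat_lit 4) (nat_lit 2) (nat_lit 5) (nat_lit 2) (nat_lit 4) (nat_lit 334) (nat_lit 246) (nat_lit 140)) (XT.lf (nat_lit 0) (nat_lit 60787893277) (nat_lit 76) (nat_lit 942546173337) (nat_lit 76) (nat_lit 917889206161) (nat_lit 1) (nat_lit 4) (nat_lit 2) (nat_lit 5) (nat_lit 2) (nat_lit 4) (nat_lit 335) (nat_lit 246) (nat_lit 139)))) (XT.nd (nat_lit 78) (nat_lit 0) (nat_lit 0) (XT.lf (nat_lit 0) (nat_lit 85511477929) (nat_lit 76) (nat_lit 1006608033076) (nat_lit 76) (nat_lit 981950581304) (nat_lit 1) (nat_lit 4) (nat_lit 2) (nat_lit 5) (nat_lit 2) (nat_lit 4) (nat_lit 336) (nat_lit 246) (nat_lit 138)) (XT.nd (nat_lit 78) (nat_lit 0) (nat_lit 0) (XT.lf (nat_lit 0) (nat_lit 112212198192) (nat_lit 76) (nat_lit 1075795195937) (nat_lit 76) (nat_lit 1051137295466) (nat_lit 1) (nat_lit 4) (nat_lit 2) (nat_lit 5) (nat_lit 2) (nat_lit 4) (nat_lit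 337) (nat_lit 246) (nat_lit 137)) (XT.lf (nat_lit 0) (nat_lit 141048280556) (nat_lit 76) (nat_lit 1150517659922) (nat_lit 76) (nat_lit 1125859343989) (nat_lit 1) (nat_lit 4) (nat_lit 2) (nat_lit 5) (nat_lit 2) (nat_lit 4) (nat_lit 338) (nat_lit 246) (nat_lit 136))))) (XT.nd (nat_lit 30342) (nat_lit 0) (nat_lit 3268) (XT.nd (nat_lit 78) (nat_lit 0) (nat_lit 0) (XT.lf (nat_lit 0) (nat_lit 172190605508) (nat_lit 76) (nat_lit 1231218224818) (nat_lit 76) (nat_lit 1206559524198) (nat_lit 1) (nat_lit 4) (nat_lit 2) (nat_lit 5) (nat_lit 2) (nat_lit 4) (nat_lit 339) (nat_lit 246) (nat_lit 135)) (XT.nd (nat_lit 78) (nat_lit 0) (nat_lit 0) (XT.lf (nat_lit 0) (nat_lit 205823720160) (nat_lit 76) (nat_lit 1318375116195) (nat_lit 76) (nat_lit 1293716059383) (nat_lit 1) (nat_lit 4) (nat_lit 2) (nat_lit 5) (nat_lit 2) (nat_lit 4) (nat_lit 340) (nat_lit 246) (nat_lit 134)) (XT.lf (nat_lit 0) (nat_lit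 242146931859) (nat_lit 76) (nat_lit 1412504819335) (nat_lit 76) (nat_lit 1387845432715) (nat_lit 1) (nat_lit 4) (nat_lit 2) (nat_lit 5) (nat_lit 2) (nat_lit 4) (nat_lit 341) (nat_lit 246) (nat_lit 133)))) (XT.nd (nat_lit 156) (nat_lit 0) (nat_lit 0) (XT.nd (nat_lit 78) (nat_lit 0) (nat_lit 0) (XT.lf (nat_lit 0) (nat_lit 17970680) (nat_lit 0) (nat_lit 17970680) (nat_lit 380) (nat_lit 3910609450) (nat_lit 44) (nat_lit 5) (nat_lit 44) (nat_lit 3) (nat_lit 49) (nat_lit 3) (nat_lit 247) (nat_lit 247) (nat_lit 226)) (XT.lf (nat_lit 0) (nat_lit 1288127708) (nat_lit 380) (nat_lit 4427681622) (nat_lit 456) (nat_lit 2389816377) (nat_lit 44) (nat_lit 5) (nat_lit 49) (nat_lit 3) (nat_lit 50) (nat_lit 5) (nat_lit 248) (nat_lit 247) (nat_lit 225))) (XT.nd (nat_lit 78) (nat_lit 0) (nat_lit 0) (XT.lf (nat_lit 0) (nat_lit 2488650573) (nat_lit 380) (nat_lit 793677067) (nat_lit 456) (nat_lit 5062479151)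 (nat_lit 44) (nat_lit 5) (nat_lit 49) (nat_lit 3) (nat_lit 50) (nat_lit 5) (nat_lit 249) (nat_lit 247) (nat_lit 224)) (XT.lf (nat_lit 76) (nat_lit 3228768723) (nat_lit 0) (nat_lit 528584380) (nat_lit 456) (nat_lit 4848566137) (nat_lit 45) (nat_lit 5) (nat_lit 44) (nat_lit 5) (nat_lit 50) (nat_lit 5) (nat_lit 250) (nat_lit 247) (nat_lit 223)))))) (XT.nd (nat_lit 546) (nat_lit 836) (nat_lit 0) (XT.nd (nat_lit 234) (nat_lit 836) (nat_lit 0) (XT.nd (nat_lit 78) (nat_lit 0) (nat_lit 0) (XT.lf (nat_lit 0) (nat_lit 5110325830) (nat_lit 380) (nat_lit 1398945985) (nat_lit 456) (nat_lit 2380552785) (nat_lit 45) (nat_lit 5) (nat_lit 50) (nat_lit 5) (nat_lit 51) (nat_lit 5) (nat_lit 251) (nat_lit 247) (nat_lit 222)) (XT.nd (nat_lit 78) (nat_lit 0) (nat_lit 0) (XT.lf (nat_lit 76) (nat_lit 2965919746) (nat_lit 0) (nat_lit 3599654751) (nat_lit 456) (nat_lit 2631831729) (nat_lit 46) (nat_lit 5) (nat_lit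 45) (nat_lit 5) (nat_lit 51) (nat_lit 5) (nat_lit 252) (nat_lit 247) (nat_lit 221)) (XT.lf (nat_lit 76) (nat_lit 7694977803) (nat_lit 0) (nat_lit 394682908) (nat_lit 456) (nat_lit 1444191076) (nat_lit 46) (nat_lit 5) (nat_lit 45) (nat_lit 5) (nat_lit 51) (nat_lit 5) (nat_lit 253) (nat_lit 247) (nat_lit 220)))) (XT.nd (nat_lit 156) (nat_lit 456) (nat_lit 0) (XT.nd (nat_lit 78) (nat_lit 76) (nat_lit 0) (XT.lf (nat_lit 0) (nat_lit 2909937035) (nat_lit 380) (nat_lit 6890474432) (nat_lit 456) (nat_lit 92039943) (nat_lit 41) (nat_lit 5) (nat_lit 46) (nat_lit 5) (nat_lit 47) (nat_lit 5) (nat_lit 254) (nat_lit 247) (nat_lit 219)) (XT.lf (nat_lit 0) (nat_lit 1284644239) (nat_lit 456) (nat_lit 2246690729) (nat_lit 76) (nat_lit 6747344686) (nat_lit 40) (nat_lit 5) (nat_lit 46) (nat_lit 5) (nat_lit 41) (nat_lit 5) (nat_lit 255) (nat_lit 247) (nat_lit 218))) (XT.nd (nat_lit 78) (nat_lit 0) (nat_lit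 0) (XT.lf (nat_lit 0) (nat_lit 2770469040) (nat_lit 532) (nat_lit 7751835995) (nat_lit 76) (nat_lit 173322964) (nat_lit 34) (nat_lit 5) (nat_lit 41) (nat_lit 5) (nat_lit 35) (nat_lit 5) (nat_lit 256) (nat_lit 247) (nat_lit 217)) (XT.lf (nat_lit 0) (nat_lit 4462465447) (nat_lit 532) (nat_lit 2625813607) (nat_lit 76) (nat_lit 4050975528) (nat_lit 34) (nat_lit 5) (nat_lit 41) (nat_lit 5) (nat_lit 35) (nat_lit 5) (nat_lit 257) (nat_lit 247) (nat_lit 216))))) (XT.nd (nat_lit 234) (nat_lit 456) (nat_lit 0) (XT.nd (nat_lit 78) (nat_lit 152) (nat_lit 0) (XT.lf (nat_lit 0) (nat_lit 2996520325) (nat_lit 228) (nat_lit 3302921871) (nat_lit 304) (nat_lit 5318443537) (nat_lit 31) (nat_lit 5) (nat_lit 34) (nat_lit 5) (nat_lit 35) (nat_lit 5) (nat_lit 258) (nat_lit 247) (nat_lit 215)) (XT.nd (nat_lit 78) (nat_lit 152) (nat_lit 0) (XT.lf (nat_lit 0) (nat_lit 8316543294) (nat_lit 304) (nat_lit 2998839452)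 (nat_lit 76) (nat_lit 817034383) (nat_lit 31) (nat_lit 5) (nat_lit 35) (nat_lit 5) (nat_lit 32) (nat_lit 5) (nat_lit 259) (nat_lit 247) (nat_lit 214)) (XT.lf (nat_lit 0) (nat_lit 3079722932) (nat_lit 152) (nat_lit 7520166958) (nat_lit 228) (nat_lit 2080074520) (nat_lit 29) (nat_lit 5) (nat_lit 31) (nat_lit 5) (nat_lit 32) (nat_lit 5) (nat_lit 260) (nat_lit 247) (nat_lit 213)))) (XT.nd (nat_lit 156) (nat_lit 152) (nat_lit 0) (XT.nd (nat_lit 78) (nat_lit 304) (nat_lit 0) (XT.lf (nat_lit 0) (nat_lit 9754651803) (nat_lit 152) (nat_lit 3340884232) (nat_lit 228) (nat_lit 173634412) (nat_lit 29) (nat_lit 5) (nat_lit 31) (nat_lit 5) (nat_lit 32) (nat_lit 5) (nat_lit 261) (nat_lit 247) (nat_lit 212)) (XT.lf (nat_lit 0) (nat_lit 1846962557) (nat_lit 304) (nat_lit 10821744599) (nat_lit 76) (nat_lit 1228895556) (nat_lit 25) (nat_lit 5) (nat_lit 29) (nat_lit 5) (nat_lit 26) (nat_lit 5) (nat_lit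 262) (nat_lit 247) (nat_lit 211))) (XT.nd (nat_lit 78) (nat_lit 152) (nat_lit 0) (XT.lf (nat_lit 0) (nat_lit 4157338498) (nat_lit 304) (nat_lit 4330141316) (nat_lit 76) (nat_lit 6077647014) (nat_lit 25) (nat_lit 5) (nat_lit 29) (nat_lit 5) (nat_lit 26) (nat_lit 5) (nat_lit 263) (nat_lit 247) (nat_lit 210)) (XT.lf (nat_lit 0) (nat_lit 2762426229) (nat_lit 152) (nat_lit 3912246066) (nat_lit 228) (nat_lit 8609776121) (nat_lit 23) (nat_lit 5) (nat_lit 25) (nat_lit 5) (nat_lit 26) (nat_lit 5) (nat_lit 264) (nat_lit 247) (nat_lit 209))))))) (XT.nd (nat_lit 1014) (nat_lit 456) (nat_lit 0) (XT.nd (nat_lit 468) (nat_lit 456) (nat_lit 0) (XT.nd (nat_lit 234) (nat_lit 228) (nat_lit 0) (XT.nd (nat_lit 78) (nat_lit 152) (nat_lit 0) (XT.lf (nat_lit 0) (nat_lit 9496950102) (nat_lit 228) (nat_lit 5469363521) (nat_lit 76) (nat_lit 1086871011) (nat_lit 23) (nat_lit 5) (nat_lit 26) (nat_lit 5) (nat_lit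 24) (nat_lit 5) (nat_lit 265) (nat_lit 247) (nat_lit 208)) (XT.nd (nat_lit 78) (nat_lit 0) (nat_lit 0) (XT.lf (nat_lit 0) (nat_lit 2096746739) (nat_lit 152) (nat_lit 10560807705) (nat_lit 228) (nat_lit 4217003878) (nat_lit 21) (nat_lit 5) (nat_lit 23) (nat_lit 5) (nat_lit 24) (nat_lit 5) (nat_lit 266) (nat_lit 247) (nat_lit 207)) (XT.lf (nat_lit 0) (nat_lit 10526529189) (nat_lit 152) (nat_lit 5656180053) (nat_lit 228) (nat_lit 1570128084) (nat_lit 21) (nat_lit 5) (nat_lit 23) (nat_lit 5) (nat_lit 24) (nat_lit 5) (nat_lit 267) (nat_lit 247) (nat_lit 206)))) (XT.nd (nat_lit 78) (nat_lit 0) (nat_lit 0) (XT.lf (nat_lit 0) (nat_lit 892182827) (nat_lit 152) (nat_lit 317253267) (nat_lit 228) (nat_lit 17490744765) (nat_lit 18) (nat_lit 5) (nat_lit 20) (nat_lit 5) (nat_lit 21) (nat_lit 5) (nat_lit 268) (nat_lit 247) (nat_lit 205)) (XT.nd (nat_lit 78) (nat_lit 0) (nat_lit 0) (XT.lf (nat_lit 0)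 (nat_lit 4425352947) (nat_lit 228) (nat_lit 9865345801) (nat_lit 76) (nat_lit 5405549764) (nat_lit 18) (nat_lit 5) (nat_lit 21) (nat_lit 5) (nat_lit 19) (nat_lit 5) (nat_lit 269) (nat_lit 247) (nat_lit 204)) (XT.lf (nat_lit 0) (nat_lit 7874431402) (nat_lit 228) (nat_lit 1343671715) (nat_lit 76) (nat_lit 11555924123) (nat_lit 18) (nat_lit 5) (nat_lit 21) (nat_lit 5) (nat_lit 19) (nat_lit 5) (nat_lit 270) (nat_lit 247) (nat_lit 203))))) (XT.nd (nat_lit 234) (nat_lit 228) (nat_lit 0) (XT.nd (nat_lit 78) (nat_lit 76) (nat_lit 0) (XT.lf (nat_lit 0) (nat_lit 8226685092) (nat_lit 152) (nat_lit 3540647378) (nat_lit 228) (nat_lit 10157353648) (nat_lit 16) (nat_lit 5) (nat_lit 18) (nat_lit 5) (nat_lit 19) (nat_lit 5) (nat_lit 271) (nat_lit 247) (nat_lit 202)) (XT.nd (nat_lit 78) (nat_lit 76) (nat_lit 0) (XT.lf (nat_lit 0) (nat_lit 16042537291) (nat_lit 228) (nat_lit 4634127569) (nat_lit 76) (nat_lit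 2485146035) (nat_lit 16) (nat_lit 5) (nat_lit 19) (nat_lit 5) (nat_lit 17) (nat_lit 4) (nat_lit 272) (nat_lit 247) (nat_lit 201)) (XT.lf (nat_lit 0) (nat_lit 5285158126) (nat_lit 76) (nat_lit 15566696873) (nat_lit 152) (nat_lit 3630759718) (nat_lit 15) (nat_lit 5) (nat_lit 16) (nat_lit 5) (nat_lit 17) (nat_lit 4) (nat_lit 273) (nat_lit 247) (nat_lit 200)))) (XT.nd (nat_lit 156) (nat_lit 0) (nat_lit 0) (XT.nd (nat_lit 78) (nat_lit 152) (nat_lit 0) (XT.lf (nat_lit 0) (nat_lit 233278989) (nat_lit 152) (nat_lit 9686518452) (nat_lit 76) (nat_lit 15980824859) (nat_lit 14) (nat_lit 5) (nat_lit 16) (nat_lit 5) (nat_lit 15) (nat_lit 5) (nat_lit 274) (nat_lit 247) (nat_lit 199)) (XT.lf (nat_lit 0) (nat_lit 475396756) (nat_lit 152) (nat_lit 3721592807) (nat_lit 228) (nat_lit 23228661114) (nat_lit 12) (nat_lit 5) (nat_lit 14) (nat_lit 5) (nat_lit 15) (nat_lit 5) (nat_lit 275) (nat_lit 247) (nat_lit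 198))) (XT.nd (nat_lit 78) (nat_lit 0) (nat_lit 0) (XT.lf (nat_lit 0) (nat_lit 8796840160) (nat_lit 228) (nat_lit 17168703574) (nat_lit 76) (nat_lit 3081670572) (nat_lit 12) (nat_lit 5) (nat_lit 15) (nat_lit 5) (nat_lit 13) (nat_lit 4) (nat_lit 276) (nat_lit 247) (nat_lit 197)) (XT.lf (nat_lit 0) (nat_lit 13838963492) (nat_lit 228) (nat_lit 6738320781) (nat_lit 76) (nat_lit 10215328235) (nat_lit 12) (nat_lit 5) (nat_lit 15) (nat_lit 5) (nat_lit 13) (nat_lit 4) (nat_lit 277) (nat_lit 247) (nat_lit 196)))))) (XT.nd (nat_lit 546) (nat_lit 152) (nat_lit 0) (XT.nd (nat_lit 234) (nat_lit 228) (nat_lit 0) (XT.nd (nat_lit 78) (nat_lit 0) (nat_lit 0) (XT.lf (nat_lit 0) (nat_lit 4728760269) (nat_lit 76) (nat_lit 14648700940) (nat_lit 152) (nat_lit 13292789381) (nat_lit 11) (nat_lit 5) (nat_lit 12) (nat_lit 5) (nat_lit 13) (nat_lit 4) (nat_lit 278) (nat_lit 247) (nat_lit 195)) (XT.nd (nat_lit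 78) (nat_lit 0) (nat_lit 0) (XT.lf (nat_lit 0) (nat_lit 17463005924) (nat_lit 76) (nat_lit 8060279496) (nat_lit 152) (nat_lit 9161719364) (nat_lit 11) (nat_lit 5) (nat_lit 12) (nat_lit 5) (nat_lit 13) (nat_lit 4) (nat_lit 279) (nat_lit 247) (nat_lit 194)) (XT.lf (nat_lit 0) (nat_lit 31185050349) (nat_lit 76) (nat_lit 957215076) (nat_lit 152) (nat_lit 4720196184) (nat_lit 11) (nat_lit 5) (nat_lit 12) (nat_lit 5) (nat_lit 13) (nat_lit 4) (nat_lit 280) (nat_lit 247) (nat_lit 193)))) (XT.nd (nat_lit 156) (nat_lit 76) (nat_lit 0) (XT.nd (nat_lit 78) (nat_lit 0) (nat_lit 0) (XT.lf (nat_lit 0) (nat_lit 391993408) (nat_lit 152) (nat_lit 32252181712) (nat_lit 76) (nat_lit 6544293645) (nat_lit 9) (nat_lit 5) (nat_lit 11) (nat_lit 5) (nat_lit 10) (nat_lit 4) (nat_lit 281) (nat_lit 247) (nat_lit 192)) (XT.lf (nat_lit 0) (nat_lit 5824975486) (nat_lit 152) (nat_lit 20987645953) (nat_lit 76) (nat_lit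 14864813343) (nat_lit 9) (nat_lit 5) (nat_lit 11) (nat_lit 5) (nat_lit 10) (nat_lit 4) (nat_lit 282) (nat_lit 247) (nat_lit 191))) (XT.nd (nat_lit 78) (nat_lit 76) (nat_lit 0) (XT.lf (nat_lit 0) (nat_lit 11676582555) (nat_lit 152) (nat_lit 8849698585) (nat_lit 76) (nat_lit 23840548517) (nat_lit 9) (nat_lit 5) (nat_lit 11) (nat_lit 5) (nat_lit 10) (nat_lit 4) (nat_lit 283) (nat_lit 247) (nat_lit 190)) (XT.lf (nat_lit 0) (nat_lit 4456522259) (nat_lit 76) (nat_lit 13632148013) (nat_lit 152) (nat_lit 29175345917) (nat_lit 8) (nat_lit 5) (nat_lit 9) (nat_lit 5) (nat_lit 10) (nat_lit 4) (nat_lit 284) (nat_lit 247) (nat_lit 189))))) (XT.nd (nat_lit 234) (nat_lit 152) (nat_lit 0) (XT.nd (nat_lit 78) (nat_lit 0) (nat_lit 0) (XT.lf (nat_lit 0) (nat_lit 19305485890) (nat_lit 76) (nat_lit 5935874165) (nat_lit 152) (nat_lit 25133432925) (nat_lit 8) (nat_lit 5) (nat_lit 9) (nat_lit 5) (nat_lit 10)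 (nat_lit 4) (nat_lit 285) (nat_lit 247) (nat_lit 188)) (XT.nd (nat_lit 78) (nat_lit 0) (nat_lit 0) (XT.lf (nat_lit 0) (nat_lit 33009901934) (nat_lit 152) (nat_lit 18473247707) (nat_lit 0) (nat_lit 2247815526) (nat_lit 8) (nat_lit 5) (nat_lit 10) (nat_lit 4) (nat_lit 8) (nat_lit 4) (nat_lit 286) (nat_lit 247) (nat_lit 187)) (XT.lf (nat_lit 0) (nat_lit 41541597945) (nat_lit 152) (nat_lit 5045938698) (nat_lit 0) (nat_lit 10756783233) (nat_lit 8) (nat_lit 5) (nat_lit 10) (nat_lit 4) (nat_lit 8) (nat_lit 4) (nat_lit 287) (nat_lit 247) (nat_lit 186)))) (XT.nd (nat_lit 156) (nat_lit 76) (nat_lit 0) (XT.nd (nat_lit 78) (nat_lit 0) (nat_lit 0) (XT.lf (nat_lit 0) (nat_lit 9931774683) (nat_lit 76) (nat_lit 41051333109) (nat_lit 76) (nat_lit 10245473671) (nat_lit 7) (nat_lit 4) (nat_lit 8) (nat_lit 5) (nat_lit 8) (nat_lit 4) (nat_lit 288) (nat_lit 247) (nat_lit 185)) (XT.lf (nat_lit 0) (nat_lit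 26374585919) (nat_lit 76) (nat_lit 34932110946) (nat_lit 76) (nat_lit 4106765650) (nat_lit 7) (nat_lit 4) (nat_lit 8) (nat_lit 5) (nat_lit 8) (nat_lit 4) (nat_lit 289) (nat_lit 247) (nat_lit 184))) (XT.nd (nat_lit 78) (nat_lit 0) (nat_lit 0) (XT.lf (nat_lit 0) (nat_lit 2386163605) (nat_lit 152) (nat_lit 25880167457) (nat_lit 76) (nat_lit 41662818154) (nat_lit 6) (nat_lit 5) (nat_lit 8) (nat_lit 5) (nat_lit 7) (nat_lit 4) (nat_lit 290) (nat_lit 247) (nat_lit 183)) (XT.lf (nat_lit 0) (nat_lit 9166782247) (nat_lit 152) (nat_lit 11793186664) (nat_lit 76) (nat_lit 53838393490) (nat_lit 6) (nat_lit 5) (nat_lit 8) (nat_lit 5) (nat_lit 7) (nat_lit 4) (nat_lit 291) (nat_lit 247) (nat_lit 182))))))))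
noncomputable def xc64 : XT := (XT.nd (nat_lit 2028) (nat_lit 76) (nat_lit 0) (XT.nd (nat_lit 1014) (nat_lit 152) (nat_lit 0) (XT.nd (nat_lit 468) (nat_lit 76) (nat_lit 0) (XT.nd (nat_lit 234) (nat_lit 0) (nat_lit 0) (XT.nd (nat_lit 78) (nat_lit 0) (nat_lit 0) (XT.lf (nat_lit 0) (nat_lit 3583577033) (nat_lit 76) (nat_lit 12983316849) (nat_lit 152) (nat_lit 63484069404) (nat_lit 5) (nat_lit 5) (nat_lit 6) (nat_lit 5) (nat_lit 7) (nat_lit 4) (nat_lit 292) (nat_lit 247) (nat_lit 181)) (XT.nd (nat_lit 78) (nat_lit 0) (nat_lit 0) (XT.lf (nat_lit 0) (nat_lit 20845146425) (nat_lit 76) (nat_lit 4027464802) (nat_lit 152) (nat_lit 60826086347) (nat_lit 5) (nat_lit 5) (nat_lit 6) (nat_lit 5) (nat_lit 7) (nat_lit 4) (nat_lit 293) (nat_lit 247) (nat_lit 180)) (XT.lf (nat_lit 0) (nat_lit 33970190805) (nat_lit 152) (nat_lit 52461713417) (nat_lit 0) (nat_lit 5356166105) (nat_lit 5) (nat_lit 5) (nat_lit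 7) (nat_lit 4) (nat_lit 5) (nat_lit 4) (nat_lit 294) (nat_lit 247) (nat_lit 179)))) (XT.nd (nat_lit 78) (nat_lit 0) (nat_lit 0) (XT.lf (nat_lit 0) (nat_lit 43892450979) (nat_lit 152) (nat_lit 39197346727) (nat_lit 0) (nat_lit 15267056468) (nat_lit 5) (nat_lit 5) (nat_lit 7) (nat_lit 4) (nat_lit 5) (nat_lit 4) (nat_lit 295) (nat_lit 247) (nat_lit 178)) (XT.nd (nat_lit 78) (nat_lit 0) (nat_lit 0) (XT.lf (nat_lit 0) (nat_lit 54601329702) (nat_lit 152) (nat_lit 24884986798) (nat_lit 0) (nat_lit 25965407589) (nat_lit 5) (nat_lit 5) (nat_lit 7) (nat_lit 4) (nat_lit 5) (nat_lit 4) (nat_lit 296) (nat_lit 247) (nat_lit 177)) (XT.lf (nat_lit 0) (nat_lit 66160286998) (nat_lit 152) (nat_lit 9439819647) (nat_lit 0) (nat_lit 37514617104) (nat_lit 5) (nat_lit 5) (nat_lit 7) (nat_lit 4) (nat_lit 5) (nat_lit 4) (nat_lit 297) (nat_lit 247) (nat_lit 176))))) (XT.nd (nat_lit 234) (nat_lit 0) (nat_lit 0)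 (XT.nd (nat_lit 78) (nat_lit 0) (nat_lit 0) (XT.lf (nat_lit 0) (nat_lit 7610383866) (nat_lit 76) (nat_lit 71210466438) (nat_lit 76) (nat_lit 42555770822) (nat_lit 4) (nat_lit 4) (nat_lit 5) (nat_lit 5) (nat_lit 5) (nat_lit 4) (nat_lit 298) (nat_lit 247) (nat_lit 175)) (XT.nd (nat_lit 78) (nat_lit 0) (nat_lit 0) (XT.lf (nat_lit 0) (nat_lit 26550460887) (nat_lit 76) (nat_lit 66195949153) (nat_lit 76) (nat_lit 37532896387) (nat_lit 4) (nat_lit 4) (nat_lit 5) (nat_lit 5) (nat_lit 5) (nat_lit 4) (nat_lit 299) (nat_lit 247) (nat_lit 174)) (XT.lf (nat_lit 0) (nat_lit 46995564734) (nat_lit 76) (nat_lit 60784940530) (nat_lit 76) (nat_lit 32114149661) (nat_lit 4) (nat_lit 4) (nat_lit 5) (nat_lit 5) (nat_lit 5) (nat_lit 4) (nat_lit 300) (nat_lit 247) (nat_lit 173)))) (XT.nd (nat_lit 156) (nat_lit 0) (nat_lit 0) (XT.nd (nat_lit 78) (nat_lit 0) (nat_lit 0) (XT.lf (nat_lit 0) (nat_lit 69066851577)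 (nat_lit 76) (nat_lit 54945375332) (nat_lit 76) (nat_lit 26267419554) (nat_lit 4) (nat_lit 4) (nat_lit 5) (nat_lit 5) (nat_lit 5) (nat_lit 4) (nat_lit 301) (nat_lit 247) (nat_lit 172)) (XT.lf (nat_lit 0) (nat_lit 92895114228) (nat_lit 76) (nat_lit 48642648729) (nat_lit 76) (nat_lit 19958058775) (nat_lit 4) (nat_lit 4) (nat_lit 5) (nat_lit 5) (nat_lit 5) (nat_lit 4) (nat_lit 302) (nat_lit 247) (nat_lit 171))) (XT.nd (nat_lit 78) (nat_lit 0) (nat_lit 0) (XT.lf (nat_lit 0) (nat_lit 118621557207) (nat_lit 76) (nat_lit 41839411229) (nat_lit 76) (nat_lit 13148678520) (nat_lit 4) (nat_lit 4) (nat_lit 5) (nat_lit 5) (nat_lit 5) (nat_lit 4) (nat_lit 303) (nat_lit 247) (nat_lit 170)) (XT.lf (nat_lit 0) (nat_lit 146398633508) (nat_lit 76) (nat_lit 34495347352) (nat_lit 76) (nat_lit 5798926907) (nat_lit 4) (nat_lit 4) (nat_lit 5) (nat_lit 5) (nat_lit 5) (nat_lit 4) (nat_lit 304) (nat_lit 247) (nat_lit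 169)))))) (XT.nd (nat_lit 468) (nat_lit 0) (nat_lit 0) (XT.nd (nat_lit 234) (nat_lit 0) (nat_lit 0) (XT.nd (nat_lit 78) (nat_lit 76) (nat_lit 0) (XT.lf (nat_lit 0) (nat_lit 2027961300) (nat_lit 152) (nat_lit 24483527362) (nat_lit 76) (nat_lit 174307538672) (nat_lit 3) (nat_lit 5) (nat_lit 5) (nat_lit 5) (nat_lit 4) (nat_lit 4) (nat_lit 305) (nat_lit 247) (nat_lit 168)) (XT.nd (nat_lit 78) (nat_lit 76) (nat_lit 0) (XT.lf (nat_lit 0) (nat_lit 10164141358) (nat_lit 152) (nat_lit 7565149159) (nat_lit 76) (nat_lit 198334186007) (nat_lit 3) (nat_lit 5) (nat_lit 5) (nat_lit 5) (nat_lit 4) (nat_lit 4) (nat_lit 306) (nat_lit 247) (nat_lit 167)) (XT.lf (nat_lit 0) (nat_lit 11264055409) (nat_lit 76) (nat_lit 7954758870) (nat_lit 152) (nat_lit 213287263615) (nat_lit 2) (nat_lit 5) (nat_lit 3) (nat_lit 5) (nat_lit 4) (nat_lit 4) (nat_lit 307) (nat_lit 247) (nat_lit 166)))) (XT.nd (nat_lit 78) (nat_lit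 0) (nat_lit 0) (XT.lf (nat_lit 0) (nat_lit 29269382458) (nat_lit 152) (nat_lit 218291807291) (nat_lit 0) (nat_lit 2681179728) (nat_lit 2) (nat_lit 5) (nat_lit 4) (nat_lit 4) (nat_lit 2) (nat_lit 4) (nat_lit 308) (nat_lit 247) (nat_lit 165)) (XT.nd (nat_lit 78) (nat_lit 0) (nat_lit 0) (XT.lf (nat_lit 0) (nat_lit 40327587699) (nat_lit 152) (nat_lit 215317892162) (nat_lit 0) (nat_lit 13735800731) (nat_lit 2) (nat_lit 5) (nat_lit 4) (nat_lit 4) (nat_lit 2) (nat_lit 4) (nat_lit 309) (nat_lit 247) (nat_lit 164)) (XT.lf (nat_lit 0) (nat_lit 52267647967) (nat_lit 152) (nat_lit 212111341753) (nat_lit 0) (nat_lit 25672542259) (nat_lit 2) (nat_lit 5) (nat_lit 4) (nat_lit 4) (nat_lit 2) (nat_lit 4) (nat_lit 310) (nat_lit 247) (nat_lit 163))))) (XT.nd (nat_lit 234) (nat_lit 0) (nat_lit 0) (XT.nd (nat_lit 78) (nat_lit 0) (nat_lit 0) (XT.lf (nat_lit 0) (nat_lit 65160319175) (nat_lit 152) (nat_lit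 208653154286) (nat_lit 0) (nat_lit 38562140560) (nat_lit 2) (nat_lit 5) (nat_lit 4) (nat_lit 4) (nat_lit 2) (nat_lit 4) (nat_lit 311) (nat_lit 247) (nat_lit 162)) (XT.nd (nat_lit 78) (nat_lit 0) (nat_lit 0) (XT.lf (nat_lit 0) (nat_lit 79082002335) (nat_lit 152) (nat_lit 204922836797) (nat_lit 0) (nat_lit 52480978436) (nat_lit 2) (nat_lit 5) (nat_lit 4) (nat_lit 4) (nat_lit 2) (nat_lit 4) (nat_lit 312) (nat_lit 247) (nat_lit 161)) (XT.lf (nat_lit 0) (nat_lit 94115196313) (nat_lit 152) (nat_lit 200898283701) (nat_lit 0) (nat_lit 67511537892) (nat_lit 2) (nat_lit 5) (nat_lit 4) (nat_lit 4) (nat_lit 2) (nat_lit 4) (nat_lit 313) (nat_lit 247) (nat_lit 160)))) (XT.nd (nat_lit 156) (nat_lit 0) (nat_lit 0) (XT.nd (nat_lit 78) (nat_lit 0) (nat_lit 0) (XT.lf (nat_lit 0) (nat_lit 110348986701) (nat_lit 152) (nat_lit 196555645795) (nat_lit 0) (nat_lit 83742888908) (nat_lit 2) (nat_lit 5) (nat_lit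 4) (nat_lit 4) (nat_lit 2) (nat_lit 4) (nat_lit 314) (nat_lit 247) (nat_lit 159)) (XT.lf (nat_lit 0) (nat_lit 127879573740) (nat_lit 152) (nat_lit 191869188928) (nat_lit 0) (nat_lit 101271217268) (nat_lit 2) (nat_lit 5) (nat_lit 4) (nat_lit 4) (nat_lit 2) (nat_lit 4) (nat_lit 315) (nat_lit 247) (nat_lit 158))) (XT.nd (nat_lit 78) (nat_lit 0) (nat_lit 0) (XT.lf (nat_lit 0) (nat_lit 146810842389) (nat_lit 152) (nat_lit 186811141504) (nat_lit 0) (nat_lit 120200394548) (nat_lit 2) (nat_lit 5) (nat_lit 4) (nat_lit 4) (nat_lit 2) (nat_lit 4) (nat_lit 316) (nat_lit 247) (nat_lit 157)) (XT.lf (nat_lit 0) (nat_lit 167254977943) (nat_lit 152) (nat_lit 181351529908) (nat_lit 0) (nat_lit 140642593650) (nat_lit 2) (nat_lit 5) (nat_lit 4) (nat_lit 4) (nat_lit 2) (nat_lit 4) (nat_lit 317) (nat_lit 247) (nat_lit 156))))))) (XT.nd (nat_lit 1014) (nat_lit 76) (nat_lit 0) (XT.nd (nat_lit 468) (nat_lit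 0) (nat_lit 0) (XT.nd (nat_lit 234) (nat_lit 0) (nat_lit 0) (XT.nd (nat_lit 78) (nat_lit 0) (nat_lit 0) (XT.lf (nat_lit 0) (nat_lit 189333130837) (nat_lit 152) (nat_lit 175458000887) (nat_lit 0) (nat_lit 162718953532) (nat_lit 2) (nat_lit 5) (nat_lit 4) (nat_lit 4) (nat_lit 2) (nat_lit 4) (nat_lit 318) (nat_lit 247) (nat_lit 155)) (XT.nd (nat_lit 78) (nat_lit 0) (nat_lit 0) (XT.lf (nat_lit 0) (nat_lit 213176134568) (nat_lit 152) (nat_lit 169095629824) (nat_lit 0) (nat_lit 186560297067) (nat_lit 2) (nat_lit 5) (nat_lit 4) (nat_lit 4) (nat_lit 2) (nat_lit 4) (nat_lit 319) (nat_lit 247) (nat_lit 154)) (XT.lf (nat_lit 0) (nat_lit 238925281011) (nat_lit 152) (nat_lit 162226713780) (nat_lit 0) (nat_lit 212307906291) (nat_lit 2) (nat_lit 5) (nat_lit 4) (nat_lit 4) (nat_lit 2) (nat_lit 4) (nat_lit 320) (nat_lit 247) (nat_lit 153)))) (XT.nd (nat_lit 78) (nat_lit 0) (nat_lit 0) (XT.lf (nat_lit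 0) (nat_lit 266733157700) (nat_lit 152) (nat_lit 154810548066) (nat_lit 0) (nat_lit 240114359630) (nat_lit 2) (nat_lit 5) (nat_lit 4) (nat_lit 4) (nat_lit 2) (nat_lit 4) (nat_lit 321) (nat_lit 247) (nat_lit 152)) (XT.nd (nat_lit 78) (nat_lit 0) (nat_lit 0) (XT.lf (nat_lit 0) (nat_lit 296764552052) (nat_lit 152) (nat_lit 146803185035) (nat_lit 0) (nat_lit 270144436065) (nat_lit 2) (nat_lit 5) (nat_lit 4) (nat_lit 4) (nat_lit 2) (nat_lit 4) (nat_lit 322) (nat_lit 247) (nat_lit 151)) (XT.lf (nat_lit 0) (nat_lit 329197427886) (nat_lit 152) (nat_lit 138157173646) (nat_lit 0) (nat_lit 302576091605) (nat_lit 2) (nat_lit 5) (nat_lit 4) (nat_lit 4) (nat_lit 2) (nat_lit 4) (nat_lit 323) (nat_lit 247) (nat_lit 150))))) (XT.nd (nat_lit 234) (nat_lit 0) (nat_lit 0) (XT.nd (nat_lit 78) (nat_lit 0) (nat_lit 0) (XT.lf (nat_lit 0) (nat_lit 364223980021) (nat_lit 152) (nat_lit 128821278275) (nat_lit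 0) (nat_lit 337601513839) (nat_lit 2) (nat_lit 5) (nat_lit 4) (nat_lit 4) (nat_lit 2) (nat_lit 4) (nat_lit 324) (nat_lit 247) (nat_lit 149)) (XT.nd (nat_lit 78) (nat_lit 0) (nat_lit 0) (XT.lf (nat_lit 0) (nat_lit 402051773212) (nat_lit 152) (nat_lit 118740175100) (nat_lit 0) (nat_lit 375428260824) (nat_lit 2) (nat_lit 5) (nat_lit 4) (nat_lit 4) (nat_lit 2) (nat_lit 4) (nat_lit 325) (nat_lit 247) (nat_lit 148)) (XT.lf (nat_lit 0) (nat_lit 442904972157) (nat_lit 152) (nat_lit 107854124248) (nat_lit 0) (nat_lit 416280491062) (nat_lit 2) (nat_lit 5) (nat_lit 4) (nat_lit 4) (nat_lit 2) (nat_lit 4) (nat_lit 326) (nat_lit 247) (nat_lit 147)))) (XT.nd (nat_lit 156) (nat_lit 0) (nat_lit 0) (XT.nd (nat_lit 78) (nat_lit 0) (nat_lit 0) (XT.lf (nat_lit 0) (nat_lit 487025669889) (nat_lit 152) (nat_lit 96098615789) (nat_lit 0) (nat_lit 460400291841) (nat_lit 2) (nat_lit 5) (nat_lit 4) (nat_lit 4)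 (nat_lit 2) (nat_lit 4) (nat_lit 327) (nat_lit 247) (nat_lit 146)) (XT.lf (nat_lit 0) (nat_lit 534675322394) (nat_lit 152) (nat_lit 83403987451) (nat_lit 0) (nat_lit 508049113835) (nat_lit 2) (nat_lit 5) (nat_lit 4) (nat_lit 4) (nat_lit 2) (nat_lit 4) (nat_lit 328) (nat_lit 247) (nat_lit 145))) (XT.nd (nat_lit 78) (nat_lit 0) (nat_lit 0) (XT.lf (nat_lit 0) (nat_lit 586136297982) (nat_lit 152) (nat_lit 69695011806) (nat_lit 0) (nat_lit 559509320431) (nat_lit 2) (nat_lit 5) (nat_lit 4) (nat_lit 4) (nat_lit 2) (nat_lit 4) (nat_lit 329) (nat_lit 247) (nat_lit 144)) (XT.lf (nat_lit 0) (nat_lit 641713550584) (nat_lit 152) (nat_lit 54890450480) (nat_lit 0) (nat_lit 615085861003) (nat_lit 2) (nat_lit 5) (nat_lit 4) (nat_lit 4) (nat_lit 2) (nat_lit 4) (nat_lit 330) (nat_lit 247) (nat_lit 143)))))) (XT.nd (nat_lit 546) (nat_lit 0) (nat_lit 0) (XT.nd (nat_lit 234) (nat_lit 76) (nat_lit 0) (XT.nd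 (nat_lit 78) (nat_lit 0) (nat_lit 0) (XT.lf (nat_lit 0) (nat_lit 701736426881) (nat_lit 152) (nat_lit 38902572739) (nat_lit 0) (nat_lit 675108078013) (nat_lit 2) (nat_lit 5) (nat_lit 4) (nat_lit 4) (nat_lit 2) (nat_lit 4) (nat_lit 331) (nat_lit 247) (nat_lit 142)) (XT.nd (nat_lit 78) (nat_lit 0) (nat_lit 0) (XT.lf (nat_lit 0) (nat_lit 766560617992) (nat_lit 152) (nat_lit 21636635605) (nat_lit 0) (nat_lit 739931658674) (nat_lit 2) (nat_lit 5) (nat_lit 4) (nat_lit 4) (nat_lit 2) (nat_lit 4) (nat_lit 332) (nat_lit 247) (nat_lit 141)) (XT.lf (nat_lit 0) (nat_lit 836570267271) (nat_lit 152) (nat_lit 2990322413) (nat_lit 0) (nat_lit 809940742721) (nat_lit 2) (nat_lit 5) (nat_lit 4) (nat_lit 4) (nat_lit 2) (nat_lit 4) (nat_lit 333) (nat_lit 247) (nat_lit 140)))) (XT.nd (nat_lit 156) (nat_lit 0) (nat_lit 0) (XT.nd (nat_lit 78) (nat_lit 0) (nat_lit 0) (XT.lf (nat_lit 0) (nat_lit 18049786954)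 (nat_lit 76) (nat_lit 894564557572) (nat_lit 76) (nat_lit 867934509659) (nat_lit 1) (nat_lit 4) (nat_lit 2) (nat_lit 5) (nat_lit 2) (nat_lit 4) (nat_lit 334) (nat_lit 247) (nat_lit 139)) (XT.lf (nat_lit 0) (nat_lit 40942356101) (nat_lit 76) (nat_lit 953880924010) (nat_lit 76) (nat_lit 927250391502) (nat_lit 1) (nat_lit 4) (nat_lit 2) (nat_lit 5) (nat_lit 2) (nat_lit 4) (nat_lit 335) (nat_lit 247) (nat_lit 138))) (XT.nd (nat_lit 78) (nat_lit 0) (nat_lit 0) (XT.lf (nat_lit 0) (nat_lit 65665579618) (nat_lit 76) (nat_lit 1017942954106) (nat_lit 76) (nat_lit 991311972898) (nat_lit 1) (nat_lit 4) (nat_lit 2) (nat_lit 5) (nat_lit 2) (nat_lit 4) (nat_lit 336) (nat_lit 247) (nat_lit 137)) (XT.lf (nat_lit 0) (nat_lit 92365965496) (nat_lit 76) (nat_lit 1087130274705) (nat_lit 76) (nat_lit 1060498878035) (nat_lit 1) (nat_lit 4) (nat_lit 2) (nat_lit 5) (nat_lit 2) (nat_lit 4) (nat_lit 337) (nat_lit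 247) (nat_lit 136))))) (XT.nd (nat_lit 234) (nat_lit 0) (nat_lit 0) (XT.nd (nat_lit 78) (nat_lit 0) (nat_lit 0) (XT.lf (nat_lit 0) (nat_lit 121201738244) (nat_lit 76) (nat_lit 1161852884745) (nat_lit 76) (nat_lit 1135221103387) (nat_lit 1) (nat_lit 4) (nat_lit 2) (nat_lit 5) (nat_lit 2) (nat_lit 4) (nat_lit 338) (nat_lit 247) (nat_lit 135)) (XT.nd (nat_lit 78) (nat_lit 0) (nat_lit 0) (XT.lf (nat_lit 0) (nat_lit 152343776515) (nat_lit 76) (nat_lit 1242553584876) (nat_lit 76) (nat_lit 1215921447327) (nat_lit 1) (nat_lit 4) (nat_lit 2) (nat_lit 5) (nat_lit 2) (nat_lit 4) (nat_lit 339) (nat_lit 247) (nat_lit 134)) (XT.lf (nat_lit 0) (nat_lit 185976625722) (nat_lit 76) (nat_lit 1329710601471) (nat_lit 76) (nat_lit 1303078134114) (nat_lit 1) (nat_lit 4) (nat_lit 2) (nat_lit 5) (nat_lit 2) (nat_lit 4) (nat_lit 340) (nat_lit 247) (nat_lit 133)))) (XT.nd (nat_lit 30342) (nat_lit 0) (nat_lit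 3268) (XT.nd (nat_lit 30264) (nat_lit 0) (nat_lit 3268) (XT.lf (nat_lit 0) (nat_lit 222299591637) (nat_lit 76) (nat_lit 1423840420553) (nat_lit 76) (nat_lit 1397207647819) (nat_lit 1) (nat_lit 4) (nat_lit 2) (nat_lit 5) (nat_lit 2) (nat_lit 4) (nat_lit 341) (nat_lit 247) (nat_lit 132)) (XT.lf (nat_lit 0) (nat_lit 581979081) (nat_lit 0) (nat_lit 581979081) (nat_lit 380) (nat_lit 3002322424) (nat_lit 44) (nat_lit 5) (nat_lit 44) (nat_lit 3) (nat_lit 49) (nat_lit 3) (nat_lit 248) (nat_lit 248) (nat_lit 224))) (XT.nd (nat_lit 78) (nat_lit 0) (nat_lit 0) (XT.lf (nat_lit 0) (nat_lit 3449718023) (nat_lit 380) (nat_lit 3537276012) (nat_lit 456) (nat_lit 1591318948) (nat_lit 44) (nat_lit 5) (nat_lit 49) (nat_lit 3) (nat_lit 50) (nat_lit 5) (nat_lit 249) (nat_lit 248) (nat_lit 223)) (XT.lf (nat_lit 76) (nat_lit 310802418) (nat_lit 0) (nat_lit 4290470654) (nat_lit 456) (nat_lit 4247776964) (nat_lit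 45) (nat_lit 5) (nat_lit 44) (nat_lit 5) (nat_lit 50) (nat_lit 5) (nat_lit 250) (nat_lit 248) (nat_lit 222))))))))
noncomputable def xc65 : XT := (XT.nd (nat_lit 2028) (nat_lit 608) (nat_lit 0) (XT.nd (nat_lit 1014) (nat_lit 988) (nat_lit 0) (XT.nd (nat_lit 468) (nat_lit 1140) (nat_lit 0) (XT.nd (nat_lit 234) (nat_lit 304) (nat_lit 0) (XT.nd (nat_lit 78) (nat_lit 0) (nat_lit 76) (XT.lf (nat_lit 76) (nat_lit 4610320933) (nat_lit 0) (nat_lit 1239500965) (nat_lit 456) (nat_lit 3291721489) (nat_lit 45) (nat_lit 5) (nat_lit 44) (nat_lit 5) (nat_lit 50) (nat_lit 5) (nat_lit 251) (nat_lit 248) (nat_lit 221)) (XT.nd (nat_lit 78) (nat_lit 0) (nat_lit 0) (XT.lf (nat_lit 0) (nat_lit 7163411140) (nat_lit 380) (nat_lit 314398083) (nat_lit 456) (nat_lit 1982865284) (nat_lit 45) (nat_lit 5) (nat_lit 50) (nat_lit 5) (nat_lit 51) (nat_lit 5) (nat_lit 252) (nat_lit 248) (nat_lit 220)) (XT.lf (nat_lit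 76) (nat_lit 4369366689) (nat_lit 0) (nat_lit 4271962527) (nat_lit 456) (nat_lit 1159684990) (nat_lit 46) (nat_lit 5) (nat_lit 45) (nat_lit 5) (nat_lit 51) (nat_lit 5) (nat_lit 253) (nat_lit 248) (nat_lit 219)))) (XT.nd (nat_lit 78) (nat_lit 380) (nat_lit 0) (XT.lf (nat_lit 76) (nat_lit 9390366179) (nat_lit 0) (nat_lit 782123649) (nat_lit 456) (nat_lit 1677031) (nat_lit 46) (nat_lit 5) (nat_lit 45) (nat_lit 5) (nat_lit 51) (nat_lit 5) (nat_lit 254) (nat_lit 248) (nat_lit 218)) (XT.nd (nat_lit 78) (nat_lit 0) (nat_lit 0) (XT.lf (nat_lit 0) (nat_lit 1297028985) (nat_lit 456) (nat_lit 6278898137) (nat_lit 76) (nat_lit 2990330062) (nat_lit 40) (nat_lit 5) (nat_lit 46) (nat_lit 5) (nat_lit 41) (nat_lit 5) (nat_lit 255) (nat_lit 248) (nat_lit 217)) (XT.lf (nat_lit 0) (nat_lit 2675804276) (nat_lit 456) (nat_lit 1259919747) (nat_lit 76) (nat_lit 7056192977) (nat_lit 40) (nat_lit 5) (nat_lit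 46) (nat_lit 5) (nat_lit 41) (nat_lit 5) (nat_lit 256) (nat_lit 248) (nat_lit 216))))) (XT.nd (nat_lit 234) (nat_lit 456) (nat_lit 0) (XT.nd (nat_lit 78) (nat_lit 228) (nat_lit 0) (XT.lf (nat_lit 0) (nat_lit 4210399239) (nat_lit 532) (nat_lit 7129838267) (nat_lit 76) (nat_lit 108034774) (nat_lit 34) (nat_lit 5) (nat_lit 41) (nat_lit 5) (nat_lit 35) (nat_lit 5) (nat_lit 257) (nat_lit 248) (nat_lit 215)) (XT.nd (nat_lit 78) (nat_lit 228) (nat_lit 0) (XT.lf (nat_lit 0) (nat_lit 5947511456) (nat_lit 532) (nat_lit 1685744800) (nat_lit 76) (nat_lit 4301762804) (nat_lit 34) (nat_lit 5) (nat_lit 41) (nat_lit 5) (nat_lit 35) (nat_lit 5) (nat_lit 258) (nat_lit 248) (nat_lit 214)) (XT.lf (nat_lit 0) (nat_lit 4357258533) (nat_lit 228) (nat_lit 3517589120) (nat_lit 304) (nat_lit 4582001094) (nat_lit 31) (nat_lit 5) (nat_lit 34) (nat_lit 5) (nat_lit 35) (nat_lit 5) (nat_lit 259) (nat_lit 248) (nat_lit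 213)))) (XT.nd (nat_lit 156) (nat_lit 304) (nat_lit 0) (XT.nd (nat_lit 78) (nat_lit 152) (nat_lit 0) (XT.lf (nat_lit 0) (nat_lit 9975053940) (nat_lit 304) (nat_lit 2118105542) (nat_lit 76) (nat_lit 925996193) (nat_lit 31) (nat_lit 5) (nat_lit 35) (nat_lit 5) (nat_lit 32) (nat_lit 5) (nat_lit 260) (nat_lit 248) (nat_lit 212)) (XT.lf (nat_lit 0) (nat_lit 4418371173) (nat_lit 152) (nat_lit 7975396798) (nat_lit 228) (nat_lit 1220848704) (nat_lit 29) (nat_lit 5) (nat_lit 31) (nat_lit 5) (nat_lit 32) (nat_lit 5) (nat_lit 261) (nat_lit 248) (nat_lit 211))) (XT.nd (nat_lit 78) (nat_lit 228) (nat_lit 0) (XT.lf (nat_lit 0) (nat_lit 724008864) (nat_lit 228) (nat_lit 2728810128) (nat_lit 76) (nat_lit 10802580885) (nat_lit 28) (nat_lit 5) (nat_lit 31) (nat_lit 5) (nat_lit 29) (nat_lit 5) (nat_lit 262) (nat_lit 248) (nat_lit 210)) (XT.lf (nat_lit 0) (nat_lit 2859164011) (nat_lit 304) (nat_lit 10584181309)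 (nat_lit 76) (nat_lit 1493676031) (nat_lit 25) (nat_lit 5) (nat_lit 29) (nat_lit 5) (nat_lit 26) (nat_lit 5) (nat_lit 263) (nat_lit 248) (nat_lit 209)))))) (XT.nd (nat_lit 468) (nat_lit 456) (nat_lit 0) (XT.nd (nat_lit 234) (nat_lit 380) (nat_lit 0) (XT.nd (nat_lit 78) (nat_lit 152) (nat_lit 0) (XT.lf (nat_lit 0) (nat_lit 5290337105) (nat_lit 304) (nat_lit 3654975901) (nat_lit 76) (nat_lit 6717996582) (nat_lit 25) (nat_lit 5) (nat_lit 29) (nat_lit 5) (nat_lit 26) (nat_lit 5) (nat_lit 264) (nat_lit 248) (nat_lit 208)) (XT.nd (nat_lit 78) (nat_lit 0) (nat_lit 0) (XT.lf (nat_lit 0) (nat_lit 3979134345) (nat_lit 152) (nat_lit 3994580464) (nat_lit 228) (nat_lit 8469511330) (nat_lit 23) (nat_lit 5) (nat_lit 25) (nat_lit 5) (nat_lit 26) (nat_lit 5) (nat_lit 265) (nat_lit 248) (nat_lit 207)) (XT.lf (nat_lit 0) (nat_lit 10970239217) (nat_lit 228) (nat_lit 4930852284) (nat_lit 76) (nat_lit 1376697985)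 (nat_lit 23) (nat_lit 5) (nat_lit 26) (nat_lit 5) (nat_lit 24) (nat_lit 5) (nat_lit 266) (nat_lit 248) (nat_lit 206)))) (XT.nd (nat_lit 78) (nat_lit 228) (nat_lit 0) (XT.lf (nat_lit 0) (nat_lit 3215836408) (nat_lit 152) (nat_lit 11137881181) (nat_lit 228) (nat_lit 3813743592) (nat_lit 21) (nat_lit 5) (nat_lit 23) (nat_lit 5) (nat_lit 24) (nat_lit 5) (nat_lit 267) (nat_lit 248) (nat_lit 205)) (XT.nd (nat_lit 78) (nat_lit 228) (nat_lit 0) (XT.lf (nat_lit 0) (nat_lit 12249531089) (nat_lit 152) (nat_lit 5860719698) (nat_lit 228) (nat_lit 1009978519) (nat_lit 21) (nat_lit 5) (nat_lit 23) (nat_lit 5) (nat_lit 24) (nat_lit 5) (nat_lit 268) (nat_lit 248) (nat_lit 204)) (XT.lf (nat_lit 0) (nat_lit 1857558673) (nat_lit 152) (nat_lit 73332438) (nat_lit 228) (nat_lit 18213441186) (nat_lit 18) (nat_lit 5) (nat_lit 20) (nat_lit 5) (nat_lit 21) (nat_lit 5) (nat_lit 269) (nat_lit 248) (nat_lit 203)))))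 (XT.nd (nat_lit 234) (nat_lit 304) (nat_lit 0) (XT.nd (nat_lit 78) (nat_lit 152) (nat_lit 0) (XT.lf (nat_lit 0) (nat_lit 5363804170) (nat_lit 228) (nat_lit 9784770175) (nat_lit 76) (nat_lit 6074872967) (nat_lit 18) (nat_lit 5) (nat_lit 21) (nat_lit 5) (nat_lit 19) (nat_lit 5) (nat_lit 270) (nat_lit 248) (nat_lit 202)) (XT.nd (nat_lit 78) (nat_lit 152) (nat_lit 0) (XT.lf (nat_lit 0) (nat_lit 9045518311) (nat_lit 228) (nat_lit 645792035) (nat_lit 76) (nat_lit 12699730666) (nat_lit 18) (nat_lit 5) (nat_lit 21) (nat_lit 5) (nat_lit 19) (nat_lit 5) (nat_lit 271) (nat_lit 248) (nat_lit 201)) (XT.lf (nat_lit 0) (nat_lit 9669804115) (nat_lit 152) (nat_lit 3558842356) (nat_lit 228) (nat_lit 10406922366) (nat_lit 16) (nat_lit 5) (nat_lit 18) (nat_lit 5) (nat_lit 19) (nat_lit 5) (nat_lit 272) (nat_lit 248) (nat_lit 200)))) (XT.nd (nat_lit 156) (nat_lit 228) (nat_lit 0) (XT.nd (nat_lit 78) (nat_lit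 76) (nat_lit 0) (XT.lf (nat_lit 0) (nat_lit 17813256966) (nat_lit 228) (nat_lit 4244022809) (nat_lit 76) (nat_lit 2917103641) (nat_lit 16) (nat_lit 5) (nat_lit 19) (nat_lit 5) (nat_lit 17) (nat_lit 4) (nat_lit 273) (nat_lit 248) (nat_lit 199)) (XT.lf (nat_lit 0) (nat_lit 6449544098) (nat_lit 76) (nat_lit 16539513316) (nat_lit 152) (nat_lit 3413357884) (nat_lit 15) (nat_lit 5) (nat_lit 16) (nat_lit 5) (nat_lit 17) (nat_lit 4) (nat_lit 274) (nat_lit 248) (nat_lit 198))) (XT.nd (nat_lit 78) (nat_lit 152) (nat_lit 0) (XT.lf (nat_lit 0) (nat_lit 698660999) (nat_lit 152) (nat_lit 9750173438) (nat_lit 76) (nat_lit 17486999013) (nat_lit 14) (nat_lit 5) (nat_lit 16) (nat_lit 5) (nat_lit 15) (nat_lit 5) (nat_lit 275) (nat_lit 248) (nat_lit 197)) (XT.lf (nat_lit 0) (nat_lit 1206688240) (nat_lit 152) (nat_lit 3756362745) (nat_lit 228) (nat_lit 24621208068) (nat_lit 12) (nat_lit 5) (nat_lit 14)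 (nat_lit 5) (nat_lit 15) (nat_lit 5) (nat_lit 276) (nat_lit 248) (nat_lit 196))))))) (XT.nd (nat_lit 1014) (nat_lit 228) (nat_lit 0) (XT.nd (nat_lit 468) (nat_lit 152) (nat_lit 0) (XT.nd (nat_lit 234) (nat_lit 152) (nat_lit 0) (XT.nd (nat_lit 78) (nat_lit 76) (nat_lit 0) (XT.lf (nat_lit 0) (nat_lit 9904871068) (nat_lit 228) (nat_lit 17873330149) (nat_lit 76) (nat_lit 3559503559) (nat_lit 12) (nat_lit 5) (nat_lit 15) (nat_lit 5) (nat_lit 13) (nat_lit 4) (nat_lit 277) (nat_lit 248) (nat_lit 195)) (XT.nd (nat_lit 78) (nat_lit 76) (nat_lit 0) (XT.lf (nat_lit 0) (nat_lit 15320417326) (nat_lit 228) (nat_lit 6658062637) (nat_lit 76) (nat_lit 11246720550) (nat_lit 12) (nat_lit 5) (nat_lit 15) (nat_lit 5) (nat_lit 13) (nat_lit 4) (nat_lit 278) (nat_lit 248) (nat_lit 194)) (XT.lf (nat_lit 0) (nat_lit 5710705814) (nat_lit 76) (nat_lit 15578078068) (nat_lit 152) (nat_lit 13965387382) (nat_lit 11)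 (nat_lit 5) (nat_lit 12) (nat_lit 5) (nat_lit 13) (nat_lit 4) (nat_lit 279) (nat_lit 248) (nat_lit 193)))) (XT.nd (nat_lit 78) (nat_lit 152) (nat_lit 0) (XT.lf (nat_lit 0) (nat_lit 19418976698) (nat_lit 76) (nat_lit 8480547275) (nat_lit 152) (nat_lit 9532781775) (nat_lit 11) (nat_lit 5) (nat_lit 12) (nat_lit 5) (nat_lit 13) (nat_lit 4) (nat_lit 280) (nat_lit 248) (nat_lit 192)) (XT.nd (nat_lit 78) (nat_lit 152) (nat_lit 0) (XT.lf (nat_lit 0) (nat_lit 34197382432) (nat_lit 76) (nat_lit 825871374) (nat_lit 152) (nat_lit 4762742306) (nat_lit 11) (nat_lit 5) (nat_lit 12) (nat_lit 5) (nat_lit 13) (nat_lit 4) (nat_lit 281) (nat_lit 248) (nat_lit 191)) (XT.lf (nat_lit 0) (nat_lit 735771572) (nat_lit 152) (nat_lit 34290939989) (nat_lit 76) (nat_lit 7271246342) (nat_lit 9) (nat_lit 5) (nat_lit 11) (nat_lit 5) (nat_lit 10) (nat_lit 4) (nat_lit 282) (nat_lit 248) (nat_lit 190))))) (XT.nd (nat_lit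 234) (nat_lit 76) (nat_lit 0) (XT.nd (nat_lit 78) (nat_lit 76) (nat_lit 0) (XT.lf (nat_lit 0) (nat_lit 6580250091) (nat_lit 152) (nat_lit 22165346277) (nat_lit 76) (nat_lit 16242340268) (nat_lit 9) (nat_lit 5) (nat_lit 11) (nat_lit 5) (nat_lit 10) (nat_lit 4) (nat_lit 283) (nat_lit 248) (nat_lit 189)) (XT.nd (nat_lit 78) (nat_lit 76) (nat_lit 0) (XT.lf (nat_lit 0) (nat_lit 12878557832) (nat_lit 152) (nat_lit 9093497294) (nat_lit 76) (nat_lit 25922183007) (nat_lit 9) (nat_lit 5) (nat_lit 11) (nat_lit 5) (nat_lit 10) (nat_lit 4) (nat_lit 284) (nat_lit 248) (nat_lit 188)) (XT.lf (nat_lit 0) (nat_lit 5265469897) (nat_lit 76) (nat_lit 14529182880) (nat_lit 152) (nat_lit 31229301372) (nat_lit 8) (nat_lit 5) (nat_lit 9) (nat_lit 5) (nat_lit 10) (nat_lit 4) (nat_lit 285) (nat_lit 248) (nat_lit 187)))) (XT.nd (nat_lit 156) (nat_lit 76) (nat_lit 0) (XT.nd (nat_lit 78) (nat_lit 0) (nat_lit 0)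 (XT.lf (nat_lit 0) (nat_lit 21268837592) (nat_lit 76) (nat_lit 6231543196) (nat_lit 152) (nat_lit 26884781431) (nat_lit 8) (nat_lit 5) (nat_lit 9) (nat_lit 5) (nat_lit 10) (nat_lit 4) (nat_lit 286) (nat_lit 248) (nat_lit 186)) (XT.lf (nat_lit 0) (nat_lit 35876640121) (nat_lit 152) (nat_lit 19549054519) (nat_lit 0) (nat_lit 2585267200) (nat_lit 8) (nat_lit 5) (nat_lit 10) (nat_lit 4) (nat_lit 8) (nat_lit 4) (nat_lit 287) (nat_lit 248) (nat_lit 185))) (XT.nd (nat_lit 78) (nat_lit 76) (nat_lit 0) (XT.lf (nat_lit 0) (nat_lit 45074135070) (nat_lit 152) (nat_lit 5077342494) (nat_lit 0) (nat_lit 11763276292) (nat_lit 8) (nat_lit 5) (nat_lit 10) (nat_lit 4) (nat_lit 8) (nat_lit 4) (nat_lit 288) (nat_lit 248) (nat_lit 184)) (XT.lf (nat_lit 0) (nat_lit 11089163368) (nat_lit 76) (nat_lit 44175031825) (nat_lit 76) (nat_lit 10846130586) (nat_lit 7) (nat_lit 4) (nat_lit 8) (nat_lit 5) (nat_lit 8)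 (nat_lit 4) (nat_lit 289) (nat_lit 248) (nat_lit 183)))))) (XT.nd (nat_lit 546) (nat_lit 76) (nat_lit 0) (XT.nd (nat_lit 234) (nat_lit 76) (nat_lit 0) (XT.nd (nat_lit 78) (nat_lit 76) (nat_lit 0) (XT.lf (nat_lit 0) (nat_lit 28820521969) (nat_lit 76) (nat_lit 37578153958) (nat_lit 76) (nat_lit 4232546737) (nat_lit 7) (nat_lit 4) (nat_lit 8) (nat_lit 5) (nat_lit 8) (nat_lit 4) (nat_lit 290) (nat_lit 248) (nat_lit 182)) (XT.nd (nat_lit 78) (nat_lit 0) (nat_lit 0) (XT.lf (nat_lit 0) (nat_lit 2755406028) (nat_lit 152) (nat_lit 27629831184) (nat_lit 76) (nat_lit 45123700456) (nat_lit 6) (nat_lit 5) (nat_lit 8) (nat_lit 5) (nat_lit 7) (nat_lit 4) (nat_lit 291) (nat_lit 248) (nat_lit 181)) (XT.lf (nat_lit 0) (nat_lit 10065263099) (nat_lit 152) (nat_lit 12439651163) (nat_lit 76) (nat_lit 58263850941) (nat_lit 6) (nat_lit 5) (nat_lit 8) (nat_lit 5) (nat_lit 7) (nat_lit 4) (nat_lit 292) (nat_lit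 248) (nat_lit 180)))) (XT.nd (nat_lit 156) (nat_lit 0) (nat_lit 0) (XT.nd (nat_lit 78) (nat_lit 0) (nat_lit 0) (XT.lf (nat_lit 0) (nat_lit 4159734884) (nat_lit 76) (nat_lit 13892378116) (nat_lit 152) (nat_lit 68389901709) (nat_lit 5) (nat_lit 5) (nat_lit 6) (nat_lit 5) (nat_lit 7) (nat_lit 4) (nat_lit 293) (nat_lit 248) (nat_lit 179)) (XT.lf (nat_lit 0) (nat_lit 22780787481) (nat_lit 76) (nat_lit 4229658208) (nat_lit 152) (nat_lit 65532086914) (nat_lit 5) (nat_lit 5) (nat_lit 6) (nat_lit 5) (nat_lit 7) (nat_lit 4) (nat_lit 294) (nat_lit 248) (nat_lit 178))) (XT.nd (nat_lit 78) (nat_lit 0) (nat_lit 0) (XT.lf (nat_lit 0) (nat_lit 36827539085) (nat_lit 152) (nat_lit 56401980097) (nat_lit 0) (nat_lit 5890215600) (nat_lit 5) (nat_lit 5) (nat_lit 7) (nat_lit 4) (nat_lit 5) (nat_lit 4) (nat_lit 295) (nat_lit 248) (nat_lit 177)) (XT.lf (nat_lit 0) (nat_lit 47533229479) (nat_lit 152) (nat_lit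 42095476694) (nat_lit 0) (nat_lit 16586158214) (nat_lit 5) (nat_lit 5) (nat_lit 7) (nat_lit 4) (nat_lit 5) (nat_lit 4) (nat_lit 296) (nat_lit 248) (nat_lit 176))))) (XT.nd (nat_lit 234) (nat_lit 0) (nat_lit 0) (XT.nd (nat_lit 78) (nat_lit 76) (nat_lit 0) (XT.lf (nat_lit 0) (nat_lit 59089234618) (nat_lit 152) (nat_lit 26655732250) (nat_lit 0) (nat_lit 28133137630) (nat_lit 5) (nat_lit 5) (nat_lit 7) (nat_lit 4) (nat_lit 5) (nat_lit 4) (nat_lit 297) (nat_lit 248) (nat_lit 175)) (XT.nd (nat_lit 78) (nat_lit 76) (nat_lit 0) (XT.lf (nat_lit 0) (nat_lit 71564034531) (nat_lit 152) (nat_lit 9991251985) (nat_lit 0) (nat_lit 40599580393) (nat_lit 5) (nat_lit 5) (nat_lit 7) (nat_lit 4) (nat_lit 5) (nat_lit 4) (nat_lit 298) (nat_lit 248) (nat_lit 174)) (XT.lf (nat_lit 0) (nat_lit 8417809500) (nat_lit 76) (nat_lit 76816192981) (nat_lit 76) (nat_lit 45844000740) (nat_lit 4) (nat_lit 4) (nat_lit 5)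 (nat_lit 5) (nat_lit 5) (nat_lit 4) (nat_lit 299) (nat_lit 248) (nat_lit 173)))) (XT.nd (nat_lit 156) (nat_lit 0) (nat_lit 0) (XT.nd (nat_lit 78) (nat_lit 0) (nat_lit 0) (XT.lf (nat_lit 0) (nat_lit 28858381947) (nat_lit 76) (nat_lit 71407263259) (nat_lit 76) (nat_lit 40427906109) (nat_lit 4) (nat_lit 4) (nat_lit 5) (nat_lit 5) (nat_lit 5) (nat_lit 4) (nat_lit 300) (nat_lit 248) (nat_lit 172)) (XT.lf (nat_lit 0) (nat_lit 50925473050) (nat_lit 76) (nat_lit 65569622970) (nat_lit 76) (nat_lit 34583631644) (nat_lit 4) (nat_lit 4) (nat_lit 5) (nat_lit 5) (nat_lit 5) (nat_lit 4) (nat_lit 301) (nat_lit 248) (nat_lit 171))) (XT.nd (nat_lit 78) (nat_lit 0) (nat_lit 0) (XT.lf (nat_lit 0) (nat_lit 74749850757) (nat_lit 76) (nat_lit 59268678690) (nat_lit 76) (nat_lit 28276544609) (nat_lit 4) (nat_lit 4) (nat_lit 5) (nat_lit 5) (nat_lit 5) (nat_lit 4) (nat_lit 302) (nat_lit 248) (nat_lit 170)) (XT.lf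 (nat_lit 0) (nat_lit 100472696564) (nat_lit 76) (nat_lit 52467091489) (nat_lit 76) (nat_lit 21469269673) (nat_lit 4) (nat_lit 4) (nat_lit 5) (nat_lit 5) (nat_lit 5) (nat_lit 4) (nat_lit 303) (nat_lit 248) (nat_lit 169))))))))
noncomputable def xc66 : XT := (XT.nd (nat_lit 2028) (nat_lit 76) (nat_lit 0) (XT.nd (nat_lit 1014) (nat_lit 0) (nat_lit 0) (XT.nd (nat_lit 468) (nat_lit 0) (nat_lit 0) (XT.nd (nat_lit 234) (nat_lit 76) (nat_lit 0) (XT.nd (nat_lit 78) (nat_lit 76) (nat_lit 0) (XT.lf (nat_lit 0) (nat_lit 128246442152) (nat_lit 76) (nat_lit 45124555667) (nat_lit 76) (nat_lit 14121467428) (nat_lit 4) (nat_lit 4) (nat_lit 5) (nat_lit 5) (nat_lit 5) (nat_lit 4) (nat_lit 304) (nat_lit 248) (nat_lit 168)) (XT.nd (nat_lit 78) (nat_lit 76) (nat_lit 0) (XT.lf (nat_lit 0) (nat_lit 158235672678) (nat_lit 76) (nat_lit 37197559898) (nat_lit 76) (nat_lit 6189595342) (nat_lit 4) (nat_lit 4) (nat_lit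 5) (nat_lit 5) (nat_lit 5) (nat_lit 4) (nat_lit 305) (nat_lit 248) (nat_lit 167)) (XT.lf (nat_lit 0) (nat_lit 2254625676) (nat_lit 152) (nat_lit 26322858257) (nat_lit 76) (nat_lit 188301830964) (nat_lit 3) (nat_lit 5) (nat_lit 5) (nat_lit 5) (nat_lit 4) (nat_lit 4) (nat_lit 306) (nat_lit 248) (nat_lit 166)))) (XT.nd (nat_lit 78) (nat_lit 76) (nat_lit 0) (XT.lf (nat_lit 0) (nat_lit 11036927733) (nat_lit 152) (nat_lit 8059850634) (nat_lit 76) (nat_lit 214246929404) (nat_lit 3) (nat_lit 5) (nat_lit 5) (nat_lit 5) (nat_lit 4) (nat_lit 4) (nat_lit 307) (nat_lit 248) (nat_lit 165)) (XT.nd (nat_lit 78) (nat_lit 0) (nat_lit 0) (XT.lf (nat_lit 0) (nat_lit 12272892566) (nat_lit 76) (nat_lit 8541253522) (nat_lit 152) (nat_lit 230287722951) (nat_lit 2) (nat_lit 5) (nat_lit 3) (nat_lit 5) (nat_lit 4) (nat_lit 4) (nat_lit 308) (nat_lit 248) (nat_lit 164)) (XT.lf (nat_lit 0) (nat_lit 31665587154)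 (nat_lit 152) (nat_lit 235652181458) (nat_lit 0) (nat_lit 2939554250) (nat_lit 2) (nat_lit 5) (nat_lit 4) (nat_lit 4) (nat_lit 2) (nat_lit 4) (nat_lit 309) (nat_lit 248) (nat_lit 163))))) (XT.nd (nat_lit 234) (nat_lit 0) (nat_lit 0) (XT.nd (nat_lit 78) (nat_lit 0) (nat_lit 0) (XT.lf (nat_lit 0) (nat_lit 43604400363) (nat_lit 152) (nat_lit 232447980556) (nat_lit 0) (nat_lit 14875294552) (nat_lit 2) (nat_lit 5) (nat_lit 4) (nat_lit 4) (nat_lit 2) (nat_lit 4) (nat_lit 310) (nat_lit 248) (nat_lit 162)) (XT.nd (nat_lit 78) (nat_lit 0) (nat_lit 0) (XT.lf (nat_lit 0) (nat_lit 56495916886) (nat_lit 152) (nat_lit 228991968558) (nat_lit 0) (nat_lit 27763965791) (nat_lit 2) (nat_lit 5) (nat_lit 4) (nat_lit 4) (nat_lit 2) (nat_lit 4) (nat_lit 311) (nat_lit 248) (nat_lit 161)) (XT.lf (nat_lit 0) (nat_lit 70416530895) (nat_lit 152) (nat_lit 225263665392) (nat_lit 0) (nat_lit 41681945278) (nat_lit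 2) (nat_lit 5) (nat_lit 4) (nat_lit 4) (nat_lit 2) (nat_lit 4) (nat_lit 312) (nat_lit 248) (nat_lit 160)))) (XT.nd (nat_lit 156) (nat_lit 0) (nat_lit 0) (XT.nd (nat_lit 78) (nat_lit 0) (nat_lit 0) (XT.lf (nat_lit 0) (nat_lit 85448734917) (nat_lit 152) (nat_lit 221240977410) (nat_lit 0) (nat_lit 56711709927) (nat_lit 2) (nat_lit 5) (nat_lit 4) (nat_lit 4) (nat_lit 2) (nat_lit 4) (nat_lit 313) (nat_lit 248) (nat_lit 159)) (XT.lf (nat_lit 0) (nat_lit 101681608680) (nat_lit 152) (nat_lit 216900066462) (nat_lit 0) (nat_lit 72942325012) (nat_lit 2) (nat_lit 5) (nat_lit 4) (nat_lit 4) (nat_lit 2) (nat_lit 4) (nat_lit 314) (nat_lit 248) (nat_lit 158))) (XT.nd (nat_lit 78) (nat_lit 0) (nat_lit 0) (XT.lf (nat_lit 0) (nat_lit 119211346991) (nat_lit 152) (nat_lit 212215208629) (nat_lit 0) (nat_lit 90469971954) (nat_lit 2) (nat_lit 5) (nat_lit 4) (nat_lit 4) (nat_lit 2) (nat_lit 4) (nat_lit 315)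 (nat_lit 248) (nat_lit 157)) (XT.lf (nat_lit 0) (nat_lit 138141829781) (nat_lit 152) (nat_lit 207158641793) (nat_lit 0) (nat_lit 109398518292) (nat_lit 2) (nat_lit 5) (nat_lit 4) (nat_lit 4) (nat_lit 2) (nat_lit 4) (nat_lit 316) (nat_lit 248) (nat_lit 156)))))) (XT.nd (nat_lit 468) (nat_lit 0) (nat_lit 0) (XT.nd (nat_lit 234) (nat_lit 0) (nat_lit 0) (XT.nd (nat_lit 78) (nat_lit 0) (nat_lit 0) (XT.lf (nat_lit 0) (nat_lit 158585237689) (nat_lit 152) (nat_lit 201700401112) (nat_lit 0) (nat_lit 129840133188) (nat_lit 2) (nat_lit 5) (nat_lit 4) (nat_lit 4) (nat_lit 2) (nat_lit 4) (nat_lit 317) (nat_lit 248) (nat_lit 155)) (XT.nd (nat_lit 78) (nat_lit 0) (nat_lit 0) (XT.lf (nat_lit 0) (nat_lit 180662716836) (nat_lit 152) (nat_lit 195808141456) (nat_lit 0) (nat_lit 151915952139) (nat_lit 2) (nat_lit 5) (nat_lit 4) (nat_lit 4) (nat_lit 2) (nat_lit 4) (nat_lit 318) (nat_lit 248) (nat_lit 154))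 (XT.lf (nat_lit 0) (nat_lit 204505096727) (nat_lit 152) (nat_lit 189446945731) (nat_lit 0) (nat_lit 175756794811) (nat_lit 2) (nat_lit 5) (nat_lit 4) (nat_lit 4) (nat_lit 2) (nat_lit 4) (nat_lit 319) (nat_lit 248) (nat_lit 153)))) (XT.nd (nat_lit 78) (nat_lit 0) (nat_lit 0) (XT.lf (nat_lit 0) (nat_lit 230253665540) (nat_lit 152) (nat_lit 182579117963) (nat_lit 0) (nat_lit 201503940274) (nat_lit 2) (nat_lit 5) (nat_lit 4) (nat_lit 4) (nat_lit 2) (nat_lit 4) (nat_lit 320) (nat_lit 248) (nat_lit 152)) (XT.nd (nat_lit 78) (nat_lit 0) (nat_lit 0) (XT.lf (nat_lit 0) (nat_lit 258061007387) (nat_lit 152) (nat_lit 175163959913) (nat_lit 0) (nat_lit 229309964204) (nat_lit 2) (nat_lit 5) (nat_lit 4) (nat_lit 4) (nat_lit 2) (nat_lit 4) (nat_lit 321) (nat_lit 248) (nat_lit 151)) (XT.lf (nat_lit 0) (nat_lit 288091906515) (nat_lit 152) (nat_lit 167157529903) (nat_lit 0) (nat_lit 259339643038) (nat_lit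 2) (nat_lit 5) (nat_lit 4) (nat_lit 4) (nat_lit 2) (nat_lit 4) (nat_lit 322) (nat_lit 248) (nat_lit 150))))) (XT.nd (nat_lit 234) (nat_lit 0) (nat_lit 0) (XT.nd (nat_lit 78) (nat_lit 0) (nat_lit 0) (XT.lf (nat_lit 0) (nat_lit 320524323808) (nat_lit 152) (nat_lit 158512382422) (nat_lit 0) (nat_lit 291770930430) (nat_lit 2) (nat_lit 5) (nat_lit 4) (nat_lit 4) (nat_lit 2) (nat_lit 4) (nat_lit 323) (nat_lit 248) (nat_lit 149)) (XT.nd (nat_lit 78) (nat_lit 0) (nat_lit 0) (XT.lf (nat_lit 0) (nat_lit 355550451368) (nat_lit 152) (nat_lit 149177286968) (nat_lit 0) (nat_lit 326796011785) (nat_lit 2) (nat_lit 5) (nat_lit 4) (nat_lit 4) (nat_lit 2) (nat_lit 4) (nat_lit 324) (nat_lit 248) (nat_lit 148)) (XT.lf (nat_lit 0) (nat_lit 393377851434) (nat_lit 152) (nat_lit 139096924454) (nat_lit 0) (nat_lit 364622443142) (nat_lit 2) (nat_lit 5) (nat_lit 4) (nat_lit 4) (nat_lit 2) (nat_lit 4) (nat_lit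 325) (nat_lit 248) (nat_lit 147)))) (XT.nd (nat_lit 156) (nat_lit 0) (nat_lit 0) (XT.nd (nat_lit 78) (nat_lit 0) (nat_lit 0) (XT.lf (nat_lit 0) (nat_lit 434230686375) (nat_lit 152) (nat_lit 128211559401) (nat_lit 0) (nat_lit 405474381131) (nat_lit 2) (nat_lit 5) (nat_lit 4) (nat_lit 4) (nat_lit 2) (nat_lit 4) (nat_lit 326) (nat_lit 248) (nat_lit 146)) (XT.lf (nat_lit 0) (nat_lit 478351047065) (nat_lit 152) (nat_lit 116456685941) (nat_lit 0) (nat_lit 449593911310) (nat_lit 2) (nat_lit 5) (nat_lit 4) (nat_lit 4) (nat_lit 2) (nat_lit 4) (nat_lit 327) (nat_lit 248) (nat_lit 145))) (XT.nd (nat_lit 78) (nat_lit 0) (nat_lit 0) (XT.lf (nat_lit 0) (nat_lit 526000387495) (nat_lit 152) (nat_lit 103762645564) (nat_lit 0) (nat_lit 497242482748) (nat_lit 2) (nat_lit 5) (nat_lit 4) (nat_lit 4) (nat_lit 2) (nat_lit 4) (nat_lit 328) (nat_lit 248) (nat_lit 144)) (XT.lf (nat_lit 0) (nat_lit 577461074124)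 (nat_lit 152) (nat_lit 90054214328) (nat_lit 0) (nat_lit 548702457348) (nat_lit 2) (nat_lit 5) (nat_lit 4) (nat_lit 4) (nat_lit 2) (nat_lit 4) (nat_lit 329) (nat_lit 248) (nat_lit 143))))))) (XT.nd (nat_lit 31278) (nat_lit 0) (nat_lit 2052) (XT.nd (nat_lit 468) (nat_lit 0) (nat_lit 0) (XT.nd (nat_lit 234) (nat_lit 76) (nat_lit 0) (XT.nd (nat_lit 78) (nat_lit 0) (nat_lit 0) (XT.lf (nat_lit 0) (nat_lit 633038059172) (nat_lit 152) (nat_lit 75250157085) (nat_lit 0) (nat_lit 604278783108) (nat_lit 2) (nat_lit 5) (nat_lit 4) (nat_lit 4) (nat_lit 2) (nat_lit 4) (nat_lit 330) (nat_lit 248) (nat_lit 142)) (XT.nd (nat_lit 78) (nat_lit 0) (nat_lit 0) (XT.lf (nat_lit 0) (nat_lit 693060687733) (nat_lit 152) (nat_lit 59262746087) (nat_lit 0) (nat_lit 664300801219) (nat_lit 2) (nat_lit 5) (nat_lit 4) (nat_lit 4) (nat_lit 2) (nat_lit 4) (nat_lit 331) (nat_lit 248) (nat_lit 141)) (XT.lf (nat_lit 0)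 (nat_lit 757884649460) (nat_lit 152) (nat_lit 41997241123) (nat_lit 0) (nat_lit 729124197714) (nat_lit 2) (nat_lit 5) (nat_lit 4) (nat_lit 4) (nat_lit 2) (nat_lit 4) (nat_lit 332) (nat_lit 248) (nat_lit 140)))) (XT.nd (nat_lit 78) (nat_lit 76) (nat_lit 0) (XT.lf (nat_lit 0) (nat_lit 827894086346) (nat_lit 152) (nat_lit 23351328087) (nat_lit 0) (nat_lit 799133111237) (nat_lit 2) (nat_lit 5) (nat_lit 4) (nat_lit 4) (nat_lit 2) (nat_lit 4) (nat_lit 333) (nat_lit 248) (nat_lit 139)) (XT.nd (nat_lit 78) (nat_lit 76) (nat_lit 0) (XT.lf (nat_lit 0) (nat_lit 903503869130) (nat_lit 152) (nat_lit 3214512681) (nat_lit 0) (nat_lit 874742409426) (nat_lit 2) (nat_lit 5) (nat_lit 4) (nat_lit 4) (nat_lit 2) (nat_lit 4) (nat_lit 334) (nat_lit 248) (nat_lit 138)) (XT.lf (nat_lit 0) (nat_lit 19508424788) (nat_lit 76) (nat_lit 966122809080) (nat_lit 76) (nat_lit 937360900677) (nat_lit 1) (nat_lit 4) (nat_lit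 2) (nat_lit 5) (nat_lit 2) (nat_lit 4) (nat_lit 335) (nat_lit 248) (nat_lit 137))))) (XT.nd (nat_lit 234) (nat_lit 0) (nat_lit 0) (XT.nd (nat_lit 78) (nat_lit 0) (nat_lit 0) (XT.lf (nat_lit 0) (nat_lit 44231313920) (nat_lit 76) (nat_lit 1030184996915) (nat_lit 76) (nat_lit 1001422673048) (nat_lit 1) (nat_lit 4) (nat_lit 2) (nat_lit 5) (nat_lit 2) (nat_lit 4) (nat_lit 336) (nat_lit 248) (nat_lit 136)) (XT.nd (nat_lit 78) (nat_lit 0) (nat_lit 0) (XT.lf (nat_lit 0) (nat_lit 70931390183) (nat_lit 76) (nat_lit 1099372463568) (nat_lit 76) (nat_lit 1070609755014) (nat_lit 1) (nat_lit 4) (nat_lit 2) (nat_lit 5) (nat_lit 2) (nat_lit 4) (nat_lit 337) (nat_lit 248) (nat_lit 135)) (XT.lf (nat_lit 0) (nat_lit 99766876250) (nat_lit 76) (nat_lit 1174095208842) (nat_lit 76) (nat_lit 1145332144097) (nat_lit 1) (nat_lit 4) (nat_lit 2) (nat_lit 5) (nat_lit 2) (nat_lit 4) (nat_lit 338) (nat_lit 248) (nat_lit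 134)))) (XT.nd (nat_lit 156) (nat_lit 0) (nat_lit 0) (XT.nd (nat_lit 78) (nat_lit 0) (nat_lit 0) (XT.lf (nat_lit 0) (nat_lit 130908649076) (nat_lit 76) (nat_lit 1254796034191) (nat_lit 76) (nat_lit 1226032639638) (nat_lit 1) (nat_lit 4) (nat_lit 2) (nat_lit 5) (nat_lit 2) (nat_lit 4) (nat_lit 339) (nat_lit 248) (nat_lit 133)) (XT.lf (nat_lit 0) (nat_lit 164541252500) (nat_lit 76) (nat_lit 1341953166728) (nat_lit 76) (nat_lit 1313189466798) (nat_lit 1) (nat_lit 4) (nat_lit 2) (nat_lit 5) (nat_lit 2) (nat_lit 4) (nat_lit 340) (nat_lit 248) (nat_lit 132))) (XT.nd (nat_lit 30342) (nat_lit 0) (nat_lit 3268) (XT.lf (nat_lit 0) (nat_lit 200863990839) (nat_lit 76) (nat_lit 1436083093164) (nat_lit 76) (nat_lit 1407319110477) (nat_lit 1) (nat_lit 4) (nat_lit 2) (nat_lit 5) (nat_lit 2) (nat_lit 4) (nat_lit 341) (nat_lit 248) (nat_lit 131)) (XT.lf (nat_lit 0) (nat_lit 1110851148) (nat_lit 0) (nat_lit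 1110851148) (nat_lit 380) (nat_lit 2195581107) (nat_lit 44) (nat_lit 5) (nat_lit 44) (nat_lit 3) (nat_lit 49) (nat_lit 3) (nat_lit 249) (nat_lit 249) (nat_lit 222)))))) (XT.nd (nat_lit 546) (nat_lit 836) (nat_lit 0) (XT.nd (nat_lit 234) (nat_lit 380) (nat_lit 0) (XT.nd (nat_lit 78) (nat_lit 0) (nat_lit 0) (XT.lf (nat_lit 0) (nat_lit 5490561805) (nat_lit 380) (nat_lit 2753196931) (nat_lit 456) (nat_lit 870131031) (nat_lit 44) (nat_lit 5) (nat_lit 49) (nat_lit 3) (nat_lit 50) (nat_lit 5) (nat_lit 250) (nat_lit 249) (nat_lit 221)) (XT.nd (nat_lit 78) (nat_lit 0) (nat_lit 0) (XT.lf (nat_lit 76) (nat_lit 1375713567) (nat_lit 0) (nat_lit 5252810005) (nat_lit 456) (nat_lit 2786923252) (nat_lit 45) (nat_lit 5) (nat_lit 44) (nat_lit 5) (nat_lit 50) (nat_lit 5) (nat_lit 251) (nat_lit 249) (nat_lit 220)) (XT.lf (nat_lit 76) (nat_lit 5942153048) (nat_lit 0) (nat_lit 1911903356) (nat_lit 456) (nat_lit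 1887766738) (nat_lit 45) (nat_lit 5) (nat_lit 44) (nat_lit 5) (nat_lit 50) (nat_lit 5) (nat_lit 252) (nat_lit 249) (nat_lit 219)))) (XT.nd (nat_lit 156) (nat_lit 0) (nat_lit 0) (XT.nd (nat_lit 78) (nat_lit 456) (nat_lit 0) (XT.lf (nat_lit 76) (nat_lit 722360123) (nat_lit 0) (nat_lit 8441183966) (nat_lit 456) (nat_lit 932279003) (nat_lit 46) (nat_lit 5) (nat_lit 45) (nat_lit 5) (nat_lit 51) (nat_lit 5) (nat_lit 253) (nat_lit 249) (nat_lit 218)) (XT.lf (nat_lit 0) (nat_lit 180664982) (nat_lit 456) (nat_lit 4757620501) (nat_lit 532) (nat_lit 5533117037) (nat_lit 39) (nat_lit 5) (nat_lit 45) (nat_lit 5) (nat_lit 46) (nat_lit 5) (nat_lit 254) (nat_lit 249) (nat_lit 217))) (XT.nd (nat_lit 78) (nat_lit 0) (nat_lit 76) (XT.lf (nat_lit 76) (nat_lit 160100601) (nat_lit 0) (nat_lit 1110984471) (nat_lit 532) (nat_lit 9609208219) (nat_lit 40) (nat_lit 5) (nat_lit 39) (nat_lit 5) (nat_lit 46) (nat_lit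 5) (nat_lit 255) (nat_lit 249) (nat_lit 216)) (XT.lf (nat_lit 0) (nat_lit 2593743616) (nat_lit 456) (nat_lit 5701111617) (nat_lit 76) (nat_lit 3015723796) (nat_lit 40) (nat_lit 5) (nat_lit 46) (nat_lit 5) (nat_lit 41) (nat_lit 5) (nat_lit 256) (nat_lit 249) (nat_lit 215))))) (XT.nd (nat_lit 234) (nat_lit 456) (nat_lit 0) (XT.nd (nat_lit 78) (nat_lit 456) (nat_lit 0) (XT.lf (nat_lit 0) (nat_lit 3994454092) (nat_lit 456) (nat_lit 360622242) (nat_lit 76) (nat_lit 7422695201) (nat_lit 40) (nat_lit 5) (nat_lit 46) (nat_lit 5) (nat_lit 41) (nat_lit 5) (nat_lit 257) (nat_lit 249) (nat_lit 214)) (XT.nd (nat_lit 78) (nat_lit 0) (nat_lit 0) (XT.lf (nat_lit 0) (nat_lit 5591720783) (nat_lit 532) (nat_lit 6635286536) (nat_lit 76) (nat_lit 48815736) (nat_lit 34) (nat_lit 5) (nat_lit 41) (nat_lit 5) (nat_lit 35) (nat_lit 5) (nat_lit 258) (nat_lit 249) (nat_lit 213)) (XT.lf (nat_lit 0) (nat_lit 7390432378)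 (nat_lit 532) (nat_lit 834549946) (nat_lit 76) (nat_lit 4583068810) (nat_lit 34) (nat_lit 5) (nat_lit 41) (nat_lit 5) (nat_lit 35) (nat_lit 5) (nat_lit 259) (nat_lit 249) (nat_lit 212)))) (XT.nd (nat_lit 156) (nat_lit 228) (nat_lit 0) (XT.nd (nat_lit 78) (nat_lit 0) (nat_lit 0) (XT.lf (nat_lit 0) (nat_lit 5666930249) (nat_lit 228) (nat_lit 3756500964) (nat_lit 304) (nat_lit 3952403838) (nat_lit 31) (nat_lit 5) (nat_lit 34) (nat_lit 5) (nat_lit 35) (nat_lit 5) (nat_lit 260) (nat_lit 249) (nat_lit 211)) (XT.lf (nat_lit 0) (nat_lit 11624556182) (nat_lit 304) (nat_lit 1326784895) (nat_lit 76) (nat_lit 1037455055) (nat_lit 31) (nat_lit 5) (nat_lit 35) (nat_lit 5) (nat_lit 32) (nat_lit 5) (nat_lit 261) (nat_lit 249) (nat_lit 210))) (XT.nd (nat_lit 78) (nat_lit 76) (nat_lit 0) (XT.lf (nat_lit 0) (nat_lit 5708286689) (nat_lit 152) (nat_lit 8487928271) (nat_lit 228) (nat_lit 439202661) (nat_lit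 29) (nat_lit 5) (nat_lit 31) (nat_lit 5) (nat_lit 32) (nat_lit 5) (nat_lit 262) (nat_lit 249) (nat_lit 209)) (XT.lf (nat_lit 0) (nat_lit 1555380586) (nat_lit 228) (nat_lit 2036312450) (nat_lit 76) (nat_lit 11739268286) (nat_lit 28) (nat_lit 5) (nat_lit 31) (nat_lit 5) (nat_lit 29) (nat_lit 5) (nat_lit 263) (nat_lit 249) (nat_lit 208))))))))
noncomputable def xc67 : XT := (XT.nd (nat_lit 2028) (nat_lit 456) (nat_lit 0) (XT.nd (nat_lit 1014) (nat_lit 456) (nat_lit 0) (XT.nd (nat_lit 468) (nat_lit 532) (nat_lit 0) (XT.nd (nat_lit 234) (nat_lit 152) (nat_lit 0) (XT.nd (nat_lit 78) (nat_lit 152) (nat_lit 0) (XT.lf (nat_lit 0) (nat_lit 3829018916) (nat_lit 304) (nat_lit 10485011444) (nat_lit 76) (nat_lit 1755890305) (nat_lit 25) (nat_lit 5) (nat_lit 29) (nat_lit 5) (nat_lit 26) (nat_lit 5) (nat_lit 264) (nat_lit 249) (nat_lit 207)) (XT.nd (nat_lit 78) (nat_lit 152) (nat_lit 0) (XT.lf (nat_lit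 0) (nat_lit 6399787947) (nat_lit 304) (nat_lit 3071536593) (nat_lit 76) (nat_lit 7387584633) (nat_lit 25) (nat_lit 5) (nat_lit 29) (nat_lit 5) (nat_lit 26) (nat_lit 5) (nat_lit 265) (nat_lit 249) (nat_lit 206)) (XT.lf (nat_lit 0) (nat_lit 5151129375) (nat_lit 152) (nat_lit 4116405742) (nat_lit 228) (nat_lit 8436298162) (nat_lit 23) (nat_lit 5) (nat_lit 25) (nat_lit 5) (nat_lit 26) (nat_lit 5) (nat_lit 266) (nat_lit 249) (nat_lit 205)))) (XT.nd (nat_lit 78) (nat_lit 152) (nat_lit 0) (XT.lf (nat_lit 0) (nat_lit 12459597986) (nat_lit 228) (nat_lit 4488506065) (nat_lit 76) (nat_lit 1660768403) (nat_lit 23) (nat_lit 5) (nat_lit 26) (nat_lit 5) (nat_lit 24) (nat_lit 5) (nat_lit 267) (nat_lit 249) (nat_lit 204)) (XT.nd (nat_lit 78) (nat_lit 0) (nat_lit 0) (XT.lf (nat_lit 0) (nat_lit 4288732549) (nat_lit 152) (nat_lit 11799323936) (nat_lit 228) (nat_lit 3483880291) (nat_lit 21) (nat_lit 5)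 (nat_lit 23) (nat_lit 5) (nat_lit 24) (nat_lit 5) (nat_lit 268) (nat_lit 249) (nat_lit 203)) (XT.lf (nat_lit 0) (nat_lit 13984705824) (nat_lit 152) (nat_lit 6116996034) (nat_lit 228) (nat_lit 502848292) (nat_lit 21) (nat_lit 5) (nat_lit 23) (nat_lit 5) (nat_lit 24) (nat_lit 5) (nat_lit 269) (nat_lit 249) (nat_lit 202))))) (XT.nd (nat_lit 234) (nat_lit 304) (nat_lit 0) (XT.nd (nat_lit 78) (nat_lit 0) (nat_lit 0) (XT.lf (nat_lit 0) (nat_lit 2624590058) (nat_lit 228) (nat_lit 18942437359) (nat_lit 76) (nat_lit 144095436) (nat_lit 18) (nat_lit 5) (nat_lit 21) (nat_lit 5) (nat_lit 19) (nat_lit 5) (nat_lit 270) (nat_lit 249) (nat_lit 201)) (XT.nd (nat_lit 78) (nat_lit 0) (nat_lit 0) (XT.lf (nat_lit 0) (nat_lit 6293957019) (nat_lit 228) (nat_lit 9821835663) (nat_lit 76) (nat_lit 6763948557) (nat_lit 18) (nat_lit 5) (nat_lit 21) (nat_lit 5) (nat_lit 19) (nat_lit 5) (nat_lit 271) (nat_lit 249)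 (nat_lit 200)) (XT.lf (nat_lit 0) (nat_lit 10233093586) (nat_lit 228) (nat_lit 6977503) (nat_lit 76) (nat_lit 13903751483) (nat_lit 18) (nat_lit 5) (nat_lit 21) (nat_lit 5) (nat_lit 19) (nat_lit 5) (nat_lit 272) (nat_lit 249) (nat_lit 199)))) (XT.nd (nat_lit 156) (nat_lit 152) (nat_lit 0) (XT.nd (nat_lit 78) (nat_lit 0) (nat_lit 0) (XT.lf (nat_lit 0) (nat_lit 11116385887) (nat_lit 152) (nat_lit 3616306250) (nat_lit 228) (nat_lit 10756777617) (nat_lit 16) (nat_lit 5) (nat_lit 18) (nat_lit 5) (nat_lit 19) (nat_lit 5) (nat_lit 273) (nat_lit 249) (nat_lit 198)) (XT.lf (nat_lit 0) (nat_lit 19656113041) (nat_lit 228) (nat_lit 3931251281) (nat_lit 76) (nat_lit 3350356982) (nat_lit 16) (nat_lit 5) (nat_lit 19) (nat_lit 5) (nat_lit 17) (nat_lit 4) (nat_lit 274) (nat_lit 249) (nat_lit 197))) (XT.nd (nat_lit 78) (nat_lit 76) (nat_lit 0) (XT.lf (nat_lit 0) (nat_lit 7601287223) (nat_lit 76) (nat_lit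 17629033001) (nat_lit 152) (nat_lit 3251016184) (nat_lit 15) (nat_lit 5) (nat_lit 16) (nat_lit 5) (nat_lit 17) (nat_lit 4) (nat_lit 275) (nat_lit 249) (nat_lit 196)) (XT.lf (nat_lit 0) (nat_lit 1137544012) (nat_lit 152) (nat_lit 9920390939) (nat_lit 76) (nat_lit 19081181984) (nat_lit 14) (nat_lit 5) (nat_lit 16) (nat_lit 5) (nat_lit 15) (nat_lit 5) (nat_lit 276) (nat_lit 249) (nat_lit 195)))))) (XT.nd (nat_lit 468) (nat_lit 228) (nat_lit 0) (XT.nd (nat_lit 234) (nat_lit 76) (nat_lit 0) (XT.nd (nat_lit 78) (nat_lit 0) (nat_lit 0) (XT.lf (nat_lit 0) (nat_lit 1897581790) (nat_lit 152) (nat_lit 3831428103) (nat_lit 228) (nat_lit 26191602642) (nat_lit 12) (nat_lit 5) (nat_lit 14) (nat_lit 5) (nat_lit 15) (nat_lit 5) (nat_lit 277) (nat_lit 249) (nat_lit 194)) (XT.nd (nat_lit 78) (nat_lit 0) (nat_lit 0) (XT.lf (nat_lit 0) (nat_lit 11043868860) (nat_lit 228) (nat_lit 18729748591) (nat_lit 76)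 (nat_lit 4042565748) (nat_lit 12) (nat_lit 5) (nat_lit 15) (nat_lit 5) (nat_lit 13) (nat_lit 4) (nat_lit 278) (nat_lit 249) (nat_lit 193)) (XT.lf (nat_lit 0) (nat_lit 16866984144) (nat_lit 228) (nat_lit 6659737305) (nat_lit 76) (nat_lit 12330071068) (nat_lit 12) (nat_lit 5) (nat_lit 15) (nat_lit 5) (nat_lit 13) (nat_lit 4) (nat_lit 279) (nat_lit 249) (nat_lit 192)))) (XT.nd (nat_lit 78) (nat_lit 0) (nat_lit 0) (XT.lf (nat_lit 0) (nat_lit 6685090334) (nat_lit 76) (nat_lit 16616403406) (nat_lit 152) (nat_lit 14747548800) (nat_lit 11) (nat_lit 5) (nat_lit 12) (nat_lit 5) (nat_lit 13) (nat_lit 4) (nat_lit 280) (nat_lit 249) (nat_lit 191)) (XT.nd (nat_lit 78) (nat_lit 0) (nat_lit 0) (XT.lf (nat_lit 0) (nat_lit 21451687477) (nat_lit 76) (nat_lit 8966471698) (nat_lit 152) (nat_lit 9985154713) (nat_lit 11) (nat_lit 5) (nat_lit 12) (nat_lit 5) (nat_lit 13) (nat_lit 4) (nat_lit 281) (nat_lit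 249) (nat_lit 190)) (XT.lf (nat_lit 0) (nat_lit 37376869919) (nat_lit 76) (nat_lit 713682418) (nat_lit 152) (nat_lit 4856493539) (nat_lit 11) (nat_lit 5) (nat_lit 12) (nat_lit 5) (nat_lit 13) (nat_lit 4) (nat_lit 282) (nat_lit 249) (nat_lit 189))))) (XT.nd (nat_lit 234) (nat_lit 76) (nat_lit 0) (XT.nd (nat_lit 78) (nat_lit 0) (nat_lit 0) (XT.lf (nat_lit 0) (nat_lit 1062481971) (nat_lit 152) (nat_lit 36570038010) (nat_lit 76) (nat_lit 8027336658) (nat_lit 9) (nat_lit 5) (nat_lit 11) (nat_lit 5) (nat_lit 10) (nat_lit 4) (nat_lit 283) (nat_lit 249) (nat_lit 188)) (XT.nd (nat_lit 78) (nat_lit 0) (nat_lit 0) (XT.lf (nat_lit 0) (nat_lit 7354678129) (nat_lit 152) (nat_lit 23508780296) (nat_lit 76) (nat_lit 17703200275) (nat_lit 9) (nat_lit 5) (nat_lit 11) (nat_lit 5) (nat_lit 10) (nat_lit 4) (nat_lit 284) (nat_lit 249) (nat_lit 187)) (XT.lf (nat_lit 0) (nat_lit 14138479524) (nat_lit 152) (nat_lit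 9423019963) (nat_lit 76) (nat_lit 28145469487) (nat_lit 9) (nat_lit 5) (nat_lit 11) (nat_lit 5) (nat_lit 10) (nat_lit 4) (nat_lit 285) (nat_lit 249) (nat_lit 186)))) (XT.nd (nat_lit 156) (nat_lit 0) (nat_lit 0) (XT.nd (nat_lit 78) (nat_lit 0) (nat_lit 0) (XT.lf (nat_lit 0) (nat_lit 6074589739) (nat_lit 76) (nat_lit 15525590749) (nat_lit 152) (nat_lit 33487528696) (nat_lit 8) (nat_lit 5) (nat_lit 9) (nat_lit 5) (nat_lit 10) (nat_lit 4) (nat_lit 286) (nat_lit 249) (nat_lit 185)) (XT.lf (nat_lit 0) (nat_lit 23329494831) (nat_lit 76) (nat_lit 6576430762) (nat_lit 152) (nat_lit 28813233588) (nat_lit 8) (nat_lit 5) (nat_lit 9) (nat_lit 5) (nat_lit 10) (nat_lit 4) (nat_lit 287) (nat_lit 249) (nat_lit 184))) (XT.nd (nat_lit 78) (nat_lit 0) (nat_lit 0) (XT.lf (nat_lit 0) (nat_lit 38940483635) (nat_lit 152) (nat_lit 20768283233) (nat_lit 0) (nat_lit 2927227836) (nat_lit 8) (nat_lit 5) (nat_lit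 10) (nat_lit 4) (nat_lit 8) (nat_lit 4) (nat_lit 288) (nat_lit 249) (nat_lit 183)) (XT.lf (nat_lit 0) (nat_lit 48859429121) (nat_lit 152) (nat_lit 5164367256) (nat_lit 0) (nat_lit 12829467340) (nat_lit 8) (nat_lit 5) (nat_lit 10) (nat_lit 4) (nat_lit 8) (nat_lit 4) (nat_lit 289) (nat_lit 249) (nat_lit 182))))))) (XT.nd (nat_lit 1014) (nat_lit 152) (nat_lit 0) (XT.nd (nat_lit 468) (nat_lit 76) (nat_lit 0) (XT.nd (nat_lit 234) (nat_lit 76) (nat_lit 0) (XT.nd (nat_lit 78) (nat_lit 76) (nat_lit 0) (XT.lf (nat_lit 0) (nat_lit 12287379007) (nat_lit 76) (nat_lit 47571510422) (nat_lit 76) (nat_lit 11526080139) (nat_lit 7) (nat_lit 4) (nat_lit 8) (nat_lit 5) (nat_lit 8) (nat_lit 4) (nat_lit 290) (nat_lit 249) (nat_lit 181)) (XT.nd (nat_lit 78) (nat_lit 76) (nat_lit 0) (XT.lf (nat_lit 0) (nat_lit 31414203143) (nat_lit 76) (nat_lit 40457069285) (nat_lit 76) (nat_lit 4397316315) (nat_lit 7) (nat_lit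 4) (nat_lit 8) (nat_lit 5) (nat_lit 8) (nat_lit 4) (nat_lit 291) (nat_lit 249) (nat_lit 180)) (XT.lf (nat_lit 0) (nat_lit 3128744317) (nat_lit 152) (nat_lit 29565226536) (nat_lit 76) (nat_lit 48843213133) (nat_lit 6) (nat_lit 5) (nat_lit 8) (nat_lit 5) (nat_lit 7) (nat_lit 4) (nat_lit 292) (nat_lit 249) (nat_lit 179)))) (XT.nd (nat_lit 78) (nat_lit 76) (nat_lit 0) (XT.lf (nat_lit 0) (nat_lit 11012063598) (nat_lit 152) (nat_lit 13180201828) (nat_lit 76) (nat_lit 63026455906) (nat_lit 6) (nat_lit 5) (nat_lit 8) (nat_lit 5) (nat_lit 7) (nat_lit 4) (nat_lit 293) (nat_lit 249) (nat_lit 178)) (XT.nd (nat_lit 78) (nat_lit 0) (nat_lit 0) (XT.lf (nat_lit 0) (nat_lit 4740688992) (nat_lit 76) (nat_lit 14892653756) (nat_lit 152) (nat_lit 73712865753) (nat_lit 5) (nat_lit 5) (nat_lit 6) (nat_lit 5) (nat_lit 7) (nat_lit 4) (nat_lit 294) (nat_lit 249) (nat_lit 177)) (XT.lf (nat_lit 0) (nat_lit 24833042439)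 (nat_lit 76) (nat_lit 4465146967) (nat_lit 152) (nat_lit 70637405634) (nat_lit 5) (nat_lit 5) (nat_lit 6) (nat_lit 5) (nat_lit 7) (nat_lit 4) (nat_lit 295) (nat_lit 249) (nat_lit 176))))) (XT.nd (nat_lit 234) (nat_lit 76) (nat_lit 0) (XT.nd (nat_lit 78) (nat_lit 0) (nat_lit 0) (XT.lf (nat_lit 0) (nat_lit 39893540751) (nat_lit 152) (nat_lit 60694085013) (nat_lit 0) (nat_lit 6451930282) (nat_lit 5) (nat_lit 5) (nat_lit 7) (nat_lit 4) (nat_lit 5) (nat_lit 4) (nat_lit 296) (nat_lit 249) (nat_lit 175)) (XT.nd (nat_lit 78) (nat_lit 0) (nat_lit 0) (XT.lf (nat_lit 0) (nat_lit 51446812411) (nat_lit 152) (nat_lit 45259361596) (nat_lit 0) (nat_lit 17996844791) (nat_lit 5) (nat_lit 5) (nat_lit 7) (nat_lit 4) (nat_lit 5) (nat_lit 4) (nat_lit 297) (nat_lit 249) (nat_lit 174)) (XT.lf (nat_lit 0) (nat_lit 63919081325) (nat_lit 152) (nat_lit 28599530429) (nat_lit 0) (nat_lit 30461375603) (nat_lit 5)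 (nat_lit 5) (nat_lit 7) (nat_lit 4) (nat_lit 5) (nat_lit 4) (nat_lit 298) (nat_lit 249) (nat_lit 173)))) (XT.nd (nat_lit 156) (nat_lit 0) (nat_lit 0) (XT.nd (nat_lit 78) (nat_lit 76) (nat_lit 0) (XT.lf (nat_lit 0) (nat_lit 77384257236) (nat_lit 152) (nat_lit 10615866587) (nat_lit 0) (nat_lit 43919386605) (nat_lit 5) (nat_lit 5) (nat_lit 7) (nat_lit 4) (nat_lit 5) (nat_lit 4) (nat_lit 299) (nat_lit 249) (nat_lit 172)) (XT.lf (nat_lit 0) (nat_lit 9261497397) (nat_lit 76) (nat_lit 82883375617) (nat_lit 76) (nat_lit 49411870810) (nat_lit 4) (nat_lit 4) (nat_lit 5) (nat_lit 5) (nat_lit 5) (nat_lit 4) (nat_lit 300) (nat_lit 249) (nat_lit 171))) (XT.nd (nat_lit 78) (nat_lit 0) (nat_lit 0) (XT.lf (nat_lit 0) (nat_lit 31324703556) (nat_lit 76) (nat_lit 77047517651) (nat_lit 76) (nat_lit 43569870089) (nat_lit 4) (nat_lit 4) (nat_lit 5) (nat_lit 5) (nat_lit 5) (nat_lit 4) (nat_lit 301) (nat_lit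 249) (nat_lit 170)) (XT.lf (nat_lit 0) (nat_lit 55145484092) (nat_lit 76) (nat_lit 70748223669) (nat_lit 76) (nat_lit 37264888371) (nat_lit 4) (nat_lit 4) (nat_lit 5) (nat_lit 5) (nat_lit 5) (nat_lit 4) (nat_lit 302) (nat_lit 249) (nat_lit 169)))))) (XT.nd (nat_lit 546) (nat_lit 0) (nat_lit 0) (XT.nd (nat_lit 234) (nat_lit 152) (nat_lit 0) (XT.nd (nat_lit 78) (nat_lit 0) (nat_lit 0) (XT.lf (nat_lit 0) (nat_lit 80864999185) (nat_lit 76) (nat_lit 63948164524) (nat_lit 76) (nat_lit 30459562803) (nat_lit 4) (nat_lit 4) (nat_lit 5) (nat_lit 5) (nat_lit 5) (nat_lit 4) (nat_lit 303) (nat_lit 249) (nat_lit 168)) (XT.nd (nat_lit 78) (nat_lit 0) (nat_lit 0) (XT.lf (nat_lit 0) (nat_lit 108635660778) (nat_lit 76) (nat_lit 56607043567) (nat_lit 76) (nat_lit 23113565529) (nat_lit 4) (nat_lit 4) (nat_lit 5) (nat_lit 5) (nat_lit 5) (nat_lit 4) (nat_lit 304) (nat_lit 249) (nat_lit 167)) (XT.lf (nat_lit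 0) (nat_lit 138622035754) (nat_lit 76) (nat_lit 48681357859) (nat_lit 76) (nat_lit 15183364713) (nat_lit 4) (nat_lit 4) (nat_lit 5) (nat_lit 5) (nat_lit 5) (nat_lit 4) (nat_lit 305) (nat_lit 249) (nat_lit 166)))) (XT.nd (nat_lit 156) (nat_lit 76) (nat_lit 0) (XT.nd (nat_lit 78) (nat_lit 76) (nat_lit 0) (XT.lf (nat_lit 0) (nat_lit 171001821150) (nat_lit 76) (nat_lit 40124140375) (nat_lit 76) (nat_lit 6621966573) (nat_lit 4) (nat_lit 4) (nat_lit 5) (nat_lit 5) (nat_lit 5) (nat_lit 4) (nat_lit 306) (nat_lit 249) (nat_lit 165)) (XT.lf (nat_lit 0) (nat_lit 2490231903) (nat_lit 152) (nat_lit 28326362420) (nat_lit 76) (nat_lit 203408577918) (nat_lit 3) (nat_lit 5) (nat_lit 5) (nat_lit 5) (nat_lit 4) (nat_lit 4) (nat_lit 307) (nat_lit 249) (nat_lit 164))) (XT.nd (nat_lit 78) (nat_lit 76) (nat_lit 0) (XT.lf (nat_lit 0) (nat_lit 11971026556) (nat_lit 152) (nat_lit 8609893779) (nat_lit 76) (nat_lit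 231426128643) (nat_lit 3) (nat_lit 5) (nat_lit 5) (nat_lit 5) (nat_lit 4) (nat_lit 4) (nat_lit 308) (nat_lit 249) (nat_lit 163)) (XT.lf (nat_lit 0) (nat_lit 13347070272) (nat_lit 76) (nat_lit 9181784549) (nat_lit 152) (nat_lit 248657138461) (nat_lit 2) (nat_lit 5) (nat_lit 3) (nat_lit 5) (nat_lit 4) (nat_lit 4) (nat_lit 309) (nat_lit 249) (nat_lit 162))))) (XT.nd (nat_lit 234) (nat_lit 0) (nat_lit 0) (XT.nd (nat_lit 78) (nat_lit 0) (nat_lit 0) (XT.lf (nat_lit 0) (nat_lit 34245691207) (nat_lit 152) (nat_lit 254416075439) (nat_lit 0) (nat_lit 3212338740) (nat_lit 2) (nat_lit 5) (nat_lit 4) (nat_lit 4) (nat_lit 2) (nat_lit 4) (nat_lit 310) (nat_lit 249) (nat_lit 161)) (XT.nd (nat_lit 78) (nat_lit 0) (nat_lit 0) (XT.lf (nat_lit 0) (nat_lit 47136138578) (nat_lit 152) (nat_lit 250962077764) (nat_lit 0) (nat_lit 16100151589) (nat_lit 2) (nat_lit 5) (nat_lit 4) (nat_lit 4) (nat_lit 2) (nat_lit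 4) (nat_lit 311) (nat_lit 249) (nat_lit 160)) (XT.lf (nat_lit 0) (nat_lit 61055762632) (nat_lit 152) (nat_lit 247235639712) (nat_lit 0) (nat_lit 30017336270) (nat_lit 2) (nat_lit 5) (nat_lit 4) (nat_lit 4) (nat_lit 2) (nat_lit 4) (nat_lit 312) (nat_lit 249) (nat_lit 159)))) (XT.nd (nat_lit 156) (nat_lit 0) (nat_lit 0) (XT.nd (nat_lit 78) (nat_lit 0) (nat_lit 0) (XT.lf (nat_lit 0) (nat_lit 76087050028) (nat_lit 152) (nat_lit 243214678688) (nat_lit 0) (nat_lit 45046364988) (nat_lit 2) (nat_lit 5) (nat_lit 4) (nat_lit 4) (nat_lit 2) (nat_lit 4) (nat_lit 313) (nat_lit 249) (nat_lit 158)) (XT.lf (nat_lit 0) (nat_lit 92319075064) (nat_lit 152) (nat_lit 238875366774) (nat_lit 0) (nat_lit 61276298655) (nat_lit 2) (nat_lit 5) (nat_lit 4) (nat_lit 4) (nat_lit 2) (nat_lit 4) (nat_lit 314) (nat_lit 249) (nat_lit 157))) (XT.nd (nat_lit 78) (nat_lit 0) (nat_lit 0) (XT.lf (nat_lit 0) (nat_lit 109848027516)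 (nat_lit 152) (nat_lit 234191989529) (nat_lit 0) (nat_lit 78803314655) (nat_lit 2) (nat_lit 5) (nat_lit 4) (nat_lit 4) (nat_lit 2) (nat_lit 4) (nat_lit 315) (nat_lit 249) (nat_lit 156)) (XT.lf (nat_lit 0) (nat_lit 128777782660) (nat_lit 152) (nat_lit 229136793607) (nat_lit 0) (nat_lit 97731276787) (nat_lit 2) (nat_lit 5) (nat_lit 4) (nat_lit 4) (nat_lit 2) (nat_lit 4) (nat_lit 316) (nat_lit 249) (nat_lit 155))))))))
noncomputable def xc68 : XT := (XT.nd (nat_lit 32448) (nat_lit 0) (nat_lit 836) (XT.nd (nat_lit 1014) (nat_lit 76) (nat_lit 0) (XT.nd (nat_lit 468) (nat_lit 0) (nat_lit 0) (XT.nd (nat_lit 234) (nat_lit 0) (nat_lit 0) (XT.nd (nat_lit 78) (nat_lit 0) (nat_lit 0) (XT.lf (nat_lit 0) (nat_lit 149220516820) (nat_lit 152) (nat_lit 223679822292) (nat_lit 0) (nat_lit 118172350752) (nat_lit 2) (nat_lit 5) (nat_lit 4) (nat_lit 4) (nat_lit 2) (nat_lit 4) (nat_lit 317) (nat_lit 249)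 (nat_lit 154)) (XT.nd (nat_lit 78) (nat_lit 0) (nat_lit 0) (XT.lf (nat_lit 0) (nat_lit 171297372127) (nat_lit 152) (nat_lit 217788737974) (nat_lit 0) (nat_lit 140247668840) (nat_lit 2) (nat_lit 5) (nat_lit 4) (nat_lit 4) (nat_lit 2) (nat_lit 4) (nat_lit 318) (nat_lit 249) (nat_lit 153)) (XT.lf (nat_lit 0) (nat_lit 195139174389) (nat_lit 152) (nat_lit 211428630526) (nat_lit 0) (nat_lit 164088047751) (nat_lit 2) (nat_lit 5) (nat_lit 4) (nat_lit 4) (nat_lit 2) (nat_lit 4) (nat_lit 319) (nat_lit 249) (nat_lit 152)))) (XT.nd (nat_lit 78) (nat_lit 0) (nat_lit 0) (XT.lf (nat_lit 0) (nat_lit 220887208360) (nat_lit 152) (nat_lit 204561810421) (nat_lit 0) (nat_lit 189834763805) (nat_lit 2) (nat_lit 5) (nat_lit 4) (nat_lit 4) (nat_lit 2) (nat_lit 4) (nat_lit 320) (nat_lit 249) (nat_lit 151)) (XT.nd (nat_lit 78) (nat_lit 0) (nat_lit 0) (XT.lf (nat_lit 0) (nat_lit 248694054982) (nat_lit 152) (nat_lit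 197147585392) (nat_lit 0) (nat_lit 217640390134) (nat_lit 2) (nat_lit 5) (nat_lit 4) (nat_lit 4) (nat_lit 2) (nat_lit 4) (nat_lit 321) (nat_lit 249) (nat_lit 150)) (XT.lf (nat_lit 0) (nat_lit 278724495569) (nat_lit 152) (nat_lit 189142019290) (nat_lit 0) (nat_lit 247669700819) (nat_lit 2) (nat_lit 5) (nat_lit 4) (nat_lit 4) (nat_lit 2) (nat_lit 4) (nat_lit 322) (nat_lit 249) (nat_lit 149))))) (XT.nd (nat_lit 234) (nat_lit 0) (nat_lit 0) (XT.nd (nat_lit 78) (nat_lit 0) (nat_lit 0) (XT.lf (nat_lit 0) (nat_lit 311156488287) (nat_lit 152) (nat_lit 180497671725) (nat_lit 0) (nat_lit 280100647332) (nat_lit 2) (nat_lit 5) (nat_lit 4) (nat_lit 4) (nat_lit 2) (nat_lit 4) (nat_lit 323) (nat_lit 249) (nat_lit 148)) (XT.nd (nat_lit 78) (nat_lit 0) (nat_lit 0) (XT.lf (nat_lit 0) (nat_lit 346182222723) (nat_lit 152) (nat_lit 171163316933) (nat_lit 0) (nat_lit 315125413060) (nat_lit 2) (nat_lit 5)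 (nat_lit 4) (nat_lit 4) (nat_lit 2) (nat_lit 4) (nat_lit 324) (nat_lit 249) (nat_lit 147)) (XT.lf (nat_lit 0) (nat_lit 384009258784) (nat_lit 152) (nat_lit 161083640218) (nat_lit 0) (nat_lit 352951552168) (nat_lit 2) (nat_lit 5) (nat_lit 4) (nat_lit 4) (nat_lit 2) (nat_lit 4) (nat_lit 325) (nat_lit 249) (nat_lit 146)))) (XT.nd (nat_lit 156) (nat_lit 0) (nat_lit 0) (XT.nd (nat_lit 78) (nat_lit 0) (nat_lit 0) (XT.lf (nat_lit 0) (nat_lit 424861756684) (nat_lit 152) (nat_lit 150198910164) (nat_lit 0) (nat_lit 393803219557) (nat_lit 2) (nat_lit 5) (nat_lit 4) (nat_lit 4) (nat_lit 2) (nat_lit 4) (nat_lit 326) (nat_lit 249) (nat_lit 145)) (XT.lf (nat_lit 0) (nat_lit 468981805299) (nat_lit 152) (nat_lit 138444624665) (nat_lit 0) (nat_lit 437922499180) (nat_lit 2) (nat_lit 5) (nat_lit 4) (nat_lit 4) (nat_lit 2) (nat_lit 4) (nat_lit 327) (nat_lit 249) (nat_lit 144))) (XT.nd (nat_lit 78) (nat_lit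 0) (nat_lit 0) (XT.lf (nat_lit 0) (nat_lit 516630856770) (nat_lit 152) (nat_lit 125751128698) (nat_lit 0) (nat_lit 485570838621) (nat_lit 2) (nat_lit 5) (nat_lit 4) (nat_lit 4) (nat_lit 2) (nat_lit 4) (nat_lit 328) (nat_lit 249) (nat_lit 143)) (XT.lf (nat_lit 0) (nat_lit 568091275845) (nat_lit 152) (nat_lit 112043201544) (nat_lit 0) (nat_lit 537030598410) (nat_lit 2) (nat_lit 5) (nat_lit 4) (nat_lit 4) (nat_lit 2) (nat_lit 4) (nat_lit 329) (nat_lit 249) (nat_lit 142)))))) (XT.nd (nat_lit 468) (nat_lit 76) (nat_lit 0) (XT.nd (nat_lit 234) (nat_lit 0) (nat_lit 0) (XT.nd (nat_lit 78) (nat_lit 0) (nat_lit 0) (XT.lf (nat_lit 0) (nat_lit 623668013157) (nat_lit 152) (nat_lit 97239611044) (nat_lit 0) (nat_lit 592606725271) (nat_lit 2) (nat_lit 5) (nat_lit 4) (nat_lit 4) (nat_lit 2) (nat_lit 4) (nat_lit 330) (nat_lit 249) (nat_lit 141)) (XT.nd (nat_lit 78) (nat_lit 0) (nat_lit 0) (XT.lf (nat_lit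 0) (nat_lit 683690412334) (nat_lit 152) (nat_lit 81252632216) (nat_lit 0) (nat_lit 652628559216) (nat_lit 2) (nat_lit 5) (nat_lit 4) (nat_lit 4) (nat_lit 2) (nat_lit 4) (nat_lit 331) (nat_lit 249) (nat_lit 140)) (XT.lf (nat_lit 0) (nat_lit 748514161667) (nat_lit 152) (nat_lit 63987527408) (nat_lit 0) (nat_lit 717451785186) (nat_lit 2) (nat_lit 5) (nat_lit 4) (nat_lit 4) (nat_lit 2) (nat_lit 4) (nat_lit 332) (nat_lit 249) (nat_lit 139)))) (XT.nd (nat_lit 78) (nat_lit 0) (nat_lit 0) (XT.lf (nat_lit 0) (nat_lit 818523401893) (nat_lit 152) (nat_lit 45341984888) (nat_lit 0) (nat_lit 787460540817) (nat_lit 2) (nat_lit 5) (nat_lit 4) (nat_lit 4) (nat_lit 2) (nat_lit 4) (nat_lit 333) (nat_lit 249) (nat_lit 138)) (XT.nd (nat_lit 78) (nat_lit 0) (nat_lit 0) (XT.lf (nat_lit 0) (nat_lit 894133002585) (nat_lit 152) (nat_lit 25205512552) (nat_lit 0) (nat_lit 863069692809) (nat_lit 2) (nat_lit 5)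 (nat_lit 4) (nat_lit 4) (nat_lit 2) (nat_lit 4) (nat_lit 334) (nat_lit 249) (nat_lit 137)) (XT.lf (nat_lit 0) (nat_lit 975791020634) (nat_lit 152) (nat_lit 3458783157) (nat_lit 0) (nat_lit 944727295396) (nat_lit 2) (nat_lit 5) (nat_lit 4) (nat_lit 4) (nat_lit 2) (nat_lit 4) (nat_lit 335) (nat_lit 249) (nat_lit 136))))) (XT.nd (nat_lit 234) (nat_lit 0) (nat_lit 0) (XT.nd (nat_lit 78) (nat_lit 0) (nat_lit 0) (XT.lf (nat_lit 0) (nat_lit 21081662967) (nat_lit 76) (nat_lit 1043406706940) (nat_lit 76) (nat_lit 1012342597015) (nat_lit 1) (nat_lit 4) (nat_lit 2) (nat_lit 5) (nat_lit 2) (nat_lit 4) (nat_lit 336) (nat_lit 249) (nat_lit 135)) (XT.nd (nat_lit 78) (nat_lit 0) (nat_lit 0) (XT.lf (nat_lit 0) (nat_lit 47781452549) (nat_lit 76) (nat_lit 1112594308828) (nat_lit 76) (nat_lit 1081529842711) (nat_lit 1) (nat_lit 4) (nat_lit 2) (nat_lit 5) (nat_lit 2) (nat_lit 4) (nat_lit 337) (nat_lit 249)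 (nat_lit 134)) (XT.lf (nat_lit 0) (nat_lit 76616673171) (nat_lit 76) (nat_lit 1187317179320) (nat_lit 76) (nat_lit 1156252383395) (nat_lit 1) (nat_lit 4) (nat_lit 2) (nat_lit 5) (nat_lit 2) (nat_lit 4) (nat_lit 338) (nat_lit 249) (nat_lit 133)))) (XT.nd (nat_lit 30576) (nat_lit 0) (nat_lit 3268) (XT.nd (nat_lit 78) (nat_lit 0) (nat_lit 0) (XT.lf (nat_lit 0) (nat_lit 107758200214) (nat_lit 76) (nat_lit 1268018120612) (nat_lit 76) (nat_lit 1236953019309) (nat_lit 1) (nat_lit 4) (nat_lit 2) (nat_lit 5) (nat_lit 2) (nat_lit 4) (nat_lit 339) (nat_lit 249) (nat_lit 132)) (XT.lf (nat_lit 0) (nat_lit 141390576062) (nat_lit 76) (nat_lit 1355175360503) (nat_lit 76) (nat_lit 1324109976444) (nat_lit 1) (nat_lit 4) (nat_lit 2) (nat_lit 5) (nat_lit 2) (nat_lit 4) (nat_lit 340) (nat_lit 249) (nat_lit 131))) (XT.nd (nat_lit 78) (nat_lit 0) (nat_lit 0) (XT.lf (nat_lit 0) (nat_lit 1613225533) (nat_lit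 0) (nat_lit 1613225533) (nat_lit 380) (nat_lit 1473656341) (nat_lit 44) (nat_lit 5) (nat_lit 44) (nat_lit 3) (nat_lit 49) (nat_lit 3) (nat_lit 250) (nat_lit 250) (nat_lit 220)) (XT.lf (nat_lit 0) (nat_lit 7442895175) (nat_lit 380) (nat_lit 2058619727) (nat_lit 456) (nat_lit 212295155) (nat_lit 44) (nat_lit 5) (nat_lit 49) (nat_lit 3) (nat_lit 50) (nat_lit 5) (nat_lit 251) (nat_lit 250) (nat_lit 219))))))) (XT.nd (nat_lit 1014) (nat_lit 1216) (nat_lit 0) (XT.nd (nat_lit 468) (nat_lit 836) (nat_lit 0) (XT.nd (nat_lit 234) (nat_lit 0) (nat_lit 0) (XT.nd (nat_lit 78) (nat_lit 380) (nat_lit 0) (XT.lf (nat_lit 76) (nat_lit 2377443282) (nat_lit 0) (nat_lit 6203814725) (nat_lit 456) (nat_lit 1466087787) (nat_lit 45) (nat_lit 5) (nat_lit 44) (nat_lit 5) (nat_lit 50) (nat_lit 5) (nat_lit 252) (nat_lit 250) (nat_lit 218)) (XT.nd (nat_lit 78) (nat_lit 380) (nat_lit 0) (XT.lf (nat_lit 76) (nat_lit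 7243148098) (nat_lit 0) (nat_lit 2556318513) (nat_lit 456) (nat_lit 609353517) (nat_lit 45) (nat_lit 5) (nat_lit 44) (nat_lit 5) (nat_lit 50) (nat_lit 5) (nat_lit 253) (nat_lit 250) (nat_lit 217)) (XT.lf (nat_lit 0) (nat_lit 312461199) (nat_lit 456) (nat_lit 9100572070) (nat_lit 532) (nat_lit 1384890506) (nat_lit 39) (nat_lit 5) (nat_lit 45) (nat_lit 5) (nat_lit 46) (nat_lit 5) (nat_lit 254) (nat_lit 250) (nat_lit 216)))) (XT.nd (nat_lit 78) (nat_lit 0) (nat_lit 0) (XT.lf (nat_lit 0) (nat_lit 1370076737) (nat_lit 456) (nat_lit 4213644125) (nat_lit 532) (nat_lit 5625854630) (nat_lit 39) (nat_lit 5) (nat_lit 45) (nat_lit 5) (nat_lit 46) (nat_lit 5) (nat_lit 255) (nat_lit 250) (nat_lit 215)) (XT.nd (nat_lit 78) (nat_lit 0) (nat_lit 76) (XT.lf (nat_lit 76) (nat_lit 1074087424) (nat_lit 0) (nat_lit 1408282414) (nat_lit 532) (nat_lit 9174447093) (nat_lit 40) (nat_lit 5) (nat_lit 39) (nat_lit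 5) (nat_lit 46) (nat_lit 5) (nat_lit 256) (nat_lit 250) (nat_lit 214)) (XT.lf (nat_lit 0) (nat_lit 3824007434) (nat_lit 456) (nat_lit 5231190283) (nat_lit 76) (nat_lit 3073654650) (nat_lit 40) (nat_lit 5) (nat_lit 46) (nat_lit 5) (nat_lit 41) (nat_lit 5) (nat_lit 257) (nat_lit 250) (nat_lit 213))))) (XT.nd (nat_lit 234) (nat_lit 456) (nat_lit 0) (XT.nd (nat_lit 78) (nat_lit 0) (nat_lit 0) (XT.lf (nat_lit 0) (nat_lit 492586037) (nat_lit 456) (nat_lit 4780275096) (nat_lit 532) (nat_lit 7366024218) (nat_lit 34) (nat_lit 5) (nat_lit 40) (nat_lit 5) (nat_lit 41) (nat_lit 5) (nat_lit 258) (nat_lit 250) (nat_lit 212)) (XT.nd (nat_lit 78) (nat_lit 0) (nat_lit 0) (XT.lf (nat_lit 0) (nat_lit 6928931081) (nat_lit 456) (nat_lit 5747068) (nat_lit 532) (nat_lit 6247487240) (nat_lit 34) (nat_lit 5) (nat_lit 40) (nat_lit 5) (nat_lit 41) (nat_lit 5) (nat_lit 259) (nat_lit 250) (nat_lit 211)) (XT.lf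 (nat_lit 0) (nat_lit 8810816492) (nat_lit 532) (nat_lit 55931194) (nat_lit 76) (nat_lit 4895843415) (nat_lit 34) (nat_lit 5) (nat_lit 41) (nat_lit 5) (nat_lit 35) (nat_lit 5) (nat_lit 260) (nat_lit 250) (nat_lit 210)))) (XT.nd (nat_lit 156) (nat_lit 228) (nat_lit 0) (XT.nd (nat_lit 78) (nat_lit 0) (nat_lit 0) (XT.lf (nat_lit 0) (nat_lit 6944265323) (nat_lit 228) (nat_lit 4020588183) (nat_lit 304) (nat_lit 3414551782) (nat_lit 31) (nat_lit 5) (nat_lit 34) (nat_lit 5) (nat_lit 35) (nat_lit 5) (nat_lit 261) (nat_lit 250) (nat_lit 209)) (XT.lf (nat_lit 0) (nat_lit 13284542905) (nat_lit 304) (nat_lit 609223048) (nat_lit 76) (nat_lit 1152498070) (nat_lit 31) (nat_lit 5) (nat_lit 35) (nat_lit 5) (nat_lit 32) (nat_lit 5) (nat_lit 262) (nat_lit 250) (nat_lit 208))) (XT.nd (nat_lit 78) (nat_lit 0) (nat_lit 0) (XT.lf (nat_lit 0) (nat_lit 265547821) (nat_lit 228) (nat_lit 8786557908) (nat_lit 76)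 (nat_lit 6694992610) (nat_lit 28) (nat_lit 5) (nat_lit 31) (nat_lit 5) (nat_lit 29) (nat_lit 5) (nat_lit 263) (nat_lit 250) (nat_lit 207)) (XT.lf (nat_lit 0) (nat_lit 2342920612) (nat_lit 228) (nat_lit 1418351114) (nat_lit 76) (nat_lit 12740550464) (nat_lit 28) (nat_lit 5) (nat_lit 31) (nat_lit 5) (nat_lit 29) (nat_lit 5) (nat_lit 264) (nat_lit 250) (nat_lit 206)))))) (XT.nd (nat_lit 546) (nat_lit 456) (nat_lit 0) (XT.nd (nat_lit 234) (nat_lit 380) (nat_lit 0) (XT.nd (nat_lit 78) (nat_lit 152) (nat_lit 0) (XT.lf (nat_lit 0) (nat_lit 4770732905) (nat_lit 304) (nat_lit 10512851823) (nat_lit 76) (nat_lit 2018721090) (nat_lit 25) (nat_lit 5) (nat_lit 29) (nat_lit 5) (nat_lit 26) (nat_lit 5) (nat_lit 265) (nat_lit 250) (nat_lit 205)) (XT.nd (nat_lit 78) (nat_lit 152) (nat_lit 0) (XT.lf (nat_lit 0) (nat_lit 7500097350) (nat_lit 304) (nat_lit 2566370135) (nat_lit 76) (nat_lit 8091887293) (nat_lit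 25) (nat_lit 5) (nat_lit 29) (nat_lit 5) (nat_lit 26) (nat_lit 5) (nat_lit 266) (nat_lit 250) (nat_lit 204)) (XT.lf (nat_lit 0) (nat_lit 6295099253) (nat_lit 152) (nat_lit 4276187029) (nat_lit 228) (nat_lit 8501827808) (nat_lit 23) (nat_lit 5) (nat_lit 25) (nat_lit 5) (nat_lit 26) (nat_lit 5) (nat_lit 267) (nat_lit 250) (nat_lit 203)))) (XT.nd (nat_lit 156) (nat_lit 228) (nat_lit 0) (XT.nd (nat_lit 78) (nat_lit 152) (nat_lit 0) (XT.lf (nat_lit 0) (nat_lit 13980833959) (nat_lit 228) (nat_lit 4130153078) (nat_lit 76) (nat_lit 1942750742) (nat_lit 23) (nat_lit 5) (nat_lit 26) (nat_lit 5) (nat_lit 24) (nat_lit 5) (nat_lit 268) (nat_lit 250) (nat_lit 202)) (XT.lf (nat_lit 0) (nat_lit 5331101752) (nat_lit 152) (nat_lit 12546435369) (nat_lit 228) (nat_lit 3218212466) (nat_lit 21) (nat_lit 5) (nat_lit 23) (nat_lit 5) (nat_lit 24) (nat_lit 5) (nat_lit 269) (nat_lit 250) (nat_lit 201))) (XT.nd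 (nat_lit 78) (nat_lit 228) (nat_lit 0) (XT.lf (nat_lit 0) (nat_lit 15750955067) (nat_lit 152) (nat_lit 6424101566) (nat_lit 228) (nat_lit 39022222) (nat_lit 21) (nat_lit 5) (nat_lit 23) (nat_lit 5) (nat_lit 24) (nat_lit 5) (nat_lit 270) (nat_lit 250) (nat_lit 200)) (XT.lf (nat_lit 0) (nat_lit 3298491072) (nat_lit 228) (nat_lit 19767354453) (nat_lit 76) (nat_lit 343665434) (nat_lit 18) (nat_lit 5) (nat_lit 21) (nat_lit 5) (nat_lit 19) (nat_lit 5) (nat_lit 271) (nat_lit 250) (nat_lit 199))))) (XT.nd (nat_lit 234) (nat_lit 304) (nat_lit 0) (XT.nd (nat_lit 78) (nat_lit 152) (nat_lit 0) (XT.lf (nat_lit 0) (nat_lit 7227041923) (nat_lit 228) (nat_lit 9968251132) (nat_lit 76) (nat_lit 7479177741) (nat_lit 18) (nat_lit 5) (nat_lit 21) (nat_lit 5) (nat_lit 19) (nat_lit 5) (nat_lit 272) (nat_lit 250) (nat_lit 198)) (XT.nd (nat_lit 78) (nat_lit 0) (nat_lit 0) (XT.lf (nat_lit 0) (nat_lit 615213258)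 (nat_lit 152) (nat_lit 10849072173) (nat_lit 228) (nat_lit 14576850254) (nat_lit 16) (nat_lit 5) (nat_lit 18) (nat_lit 5) (nat_lit 19) (nat_lit 5) (nat_lit 273) (nat_lit 250) (nat_lit 197)) (XT.lf (nat_lit 0) (nat_lit 12582683590) (nat_lit 152) (nat_lit 3710786080) (nat_lit 228) (nat_lit 11203483632) (nat_lit 16) (nat_lit 5) (nat_lit 18) (nat_lit 5) (nat_lit 19) (nat_lit 5) (nat_lit 274) (nat_lit 250) (nat_lit 196)))) (XT.nd (nat_lit 156) (nat_lit 228) (nat_lit 0) (XT.nd (nat_lit 78) (nat_lit 76) (nat_lit 0) (XT.lf (nat_lit 0) (nat_lit 21586794400) (nat_lit 228) (nat_lit 3686514970) (nat_lit 76) (nat_lit 3789754754) (nat_lit 16) (nat_lit 5) (nat_lit 19) (nat_lit 5) (nat_lit 17) (nat_lit 4) (nat_lit 275) (nat_lit 250) (nat_lit 195)) (XT.lf (nat_lit 0) (nat_lit 8754468730) (nat_lit 76) (nat_lit 18839045815) (nat_lit 152) (nat_lit 3137803298) (nat_lit 15) (nat_lit 5) (nat_lit 16) (nat_lit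 5) (nat_lit 17) (nat_lit 4) (nat_lit 276) (nat_lit 250) (nat_lit 194))) (XT.nd (nat_lit 78) (nat_lit 152) (nat_lit 0) (XT.lf (nat_lit 0) (nat_lit 1556899842) (nat_lit 152) (nat_lit 10191220111) (nat_lit 76) (nat_lit 20775048842) (nat_lit 14) (nat_lit 5) (nat_lit 16) (nat_lit 5) (nat_lit 15) (nat_lit 5) (nat_lit 277) (nat_lit 250) (nat_lit 193)) (XT.lf (nat_lit 0) (nat_lit 2558954940) (nat_lit 152) (nat_lit 3944660748) (nat_lit 228) (nat_lit 27944593686) (nat_lit 12) (nat_lit 5) (nat_lit 14) (nat_lit 5) (nat_lit 15) (nat_lit 5) (nat_lit 278) (nat_lit 250) (nat_lit 192))))))))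
noncomputable def xc69 : XT := (XT.nd (nat_lit 2028) (nat_lit 152) (nat_lit 0) (XT.nd (nat_lit 1014) (nat_lit 228) (nat_lit 0) (XT.nd (nat_lit 468) (nat_lit 152) (nat_lit 0) (XT.nd (nat_lit 234) (nat_lit 152) (nat_lit 0) (XT.nd (nat_lit 78) (nat_lit 76) (nat_lit 0) (XT.lf (nat_lit 0) (nat_lit 12224538954) (nat_lit 228) (nat_lit 19736489272) (nat_lit 76) (nat_lit 4535982928) (nat_lit 12) (nat_lit 5) (nat_lit 15) (nat_lit 5) (nat_lit 13) (nat_lit 4) (nat_lit 279) (nat_lit 250) (nat_lit 191)) (XT.nd (nat_lit 78) (nat_lit 76) (nat_lit 0) (XT.lf (nat_lit 0) (nat_lit 18491491565) (nat_lit 228) (nat_lit 6737294803) (nat_lit 76) (nat_lit 13473895199) (nat_lit 12) (nat_lit 5) (nat_lit 15) (nat_lit 5) (nat_lit 13) (nat_lit 4) (nat_lit 280) (nat_lit 250) (nat_lit 190)) (XT.lf (nat_lit 0) (nat_lit 7663594453) (nat_lit 76) (nat_lit 17767457012) (nat_lit 152) (nat_lit 15640084552) (nat_lit 11) (nat_lit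 5) (nat_lit 12) (nat_lit 5) (nat_lit 13) (nat_lit 4) (nat_lit 281) (nat_lit 250) (nat_lit 189)))) (XT.nd (nat_lit 78) (nat_lit 152) (nat_lit 0) (XT.lf (nat_lit 0) (nat_lit 23578652931) (nat_lit 76) (nat_lit 9518735113) (nat_lit 152) (nat_lit 10517978061) (nat_lit 11) (nat_lit 5) (nat_lit 12) (nat_lit 5) (nat_lit 13) (nat_lit 4) (nat_lit 282) (nat_lit 250) (nat_lit 188)) (XT.nd (nat_lit 78) (nat_lit 152) (nat_lit 0) (XT.lf (nat_lit 0) (nat_lit 40747418083) (nat_lit 76) (nat_lit 617948938) (nat_lit 152) (nat_lit 4998726883) (nat_lit 11) (nat_lit 5) (nat_lit 12) (nat_lit 5) (nat_lit 13) (nat_lit 4) (nat_lit 283) (nat_lit 250) (nat_lit 187)) (XT.lf (nat_lit 0) (nat_lit 1377117594) (nat_lit 152) (nat_lit 39097683937) (nat_lit 76) (nat_lit 8819035429) (nat_lit 9) (nat_lit 5) (nat_lit 11) (nat_lit 5) (nat_lit 10) (nat_lit 4) (nat_lit 284) (nat_lit 250) (nat_lit 186))))) (XT.nd (nat_lit 234)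 (nat_lit 76) (nat_lit 0) (XT.nd (nat_lit 78) (nat_lit 76) (nat_lit 0) (XT.lf (nat_lit 0) (nat_lit 8155679291) (nat_lit 152) (nat_lit 25021003910) (nat_lit 76) (nat_lit 19257893185) (nat_lit 9) (nat_lit 5) (nat_lit 11) (nat_lit 5) (nat_lit 10) (nat_lit 4) (nat_lit 285) (nat_lit 250) (nat_lit 185)) (XT.nd (nat_lit 78) (nat_lit 76) (nat_lit 0) (XT.lf (nat_lit 0) (nat_lit 15466434656) (nat_lit 152) (nat_lit 9835677478) (nat_lit 76) (nat_lit 30525289349) (nat_lit 9) (nat_lit 5) (nat_lit 11) (nat_lit 5) (nat_lit 10) (nat_lit 4) (nat_lit 286) (nat_lit 250) (nat_lit 184)) (XT.lf (nat_lit 0) (nat_lit 6893103430) (nat_lit 76) (nat_lit 16625382556) (nat_lit 152) (nat_lit 35960669550) (nat_lit 8) (nat_lit 5) (nat_lit 9) (nat_lit 5) (nat_lit 10) (nat_lit 4) (nat_lit 287) (nat_lit 250) (nat_lit 183)))) (XT.nd (nat_lit 156) (nat_lit 76) (nat_lit 0) (XT.nd (nat_lit 78) (nat_lit 0) (nat_lit 0) (XT.lf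 (nat_lit 0) (nat_lit 25503767854) (nat_lit 76) (nat_lit 6970827211) (nat_lit 152) (nat_lit 30927679829) (nat_lit 8) (nat_lit 5) (nat_lit 9) (nat_lit 5) (nat_lit 10) (nat_lit 4) (nat_lit 288) (nat_lit 250) (nat_lit 182)) (XT.lf (nat_lit 0) (nat_lit 42221799404) (nat_lit 152) (nat_lit 22134224931) (nat_lit 0) (nat_lit 3277266196) (nat_lit 8) (nat_lit 5) (nat_lit 10) (nat_lit 4) (nat_lit 8) (nat_lit 4) (nat_lit 289) (nat_lit 250) (nat_lit 181))) (XT.nd (nat_lit 78) (nat_lit 76) (nat_lit 0) (XT.lf (nat_lit 0) (nat_lit 52921958523) (nat_lit 152) (nat_lit 5303886118) (nat_lit 0) (nat_lit 13963102628) (nat_lit 8) (nat_lit 5) (nat_lit 10) (nat_lit 4) (nat_lit 8) (nat_lit 4) (nat_lit 290) (nat_lit 250) (nat_lit 180)) (XT.lf (nat_lit 0) (nat_lit 13537072492) (nat_lit 76) (nat_lit 51259326636) (nat_lit 76) (nat_lit 12287208994) (nat_lit 7) (nat_lit 4) (nat_lit 8) (nat_lit 5) (nat_lit 8) (nat_lit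 4) (nat_lit 291) (nat_lit 250) (nat_lit 179)))))) (XT.nd (nat_lit 468) (nat_lit 76) (nat_lit 0) (XT.nd (nat_lit 234) (nat_lit 76) (nat_lit 0) (XT.nd (nat_lit 78) (nat_lit 76) (nat_lit 0) (XT.lf (nat_lit 0) (nat_lit 34174286769) (nat_lit 76) (nat_lit 43584463884) (nat_lit 76) (nat_lit 4600066846) (nat_lit 7) (nat_lit 4) (nat_lit 8) (nat_lit 5) (nat_lit 8) (nat_lit 4) (nat_lit 292) (nat_lit 250) (nat_lit 178)) (XT.nd (nat_lit 78) (nat_lit 0) (nat_lit 0) (XT.lf (nat_lit 0) (nat_lit 3510135947) (nat_lit 152) (nat_lit 31694684077) (nat_lit 76) (nat_lit 52844648785) (nat_lit 6) (nat_lit 5) (nat_lit 8) (nat_lit 5) (nat_lit 7) (nat_lit 4) (nat_lit 293) (nat_lit 250) (nat_lit 177)) (XT.lf (nat_lit 0) (nat_lit 12014410246) (nat_lit 152) (nat_lit 14016321139) (nat_lit 76) (nat_lit 68155589602) (nat_lit 6) (nat_lit 5) (nat_lit 8) (nat_lit 5) (nat_lit 7) (nat_lit 4) (nat_lit 294) (nat_lit 250) (nat_lit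 176)))) (XT.nd (nat_lit 78) (nat_lit 0) (nat_lit 0) (XT.lf (nat_lit 0) (nat_lit 5332714444) (nat_lit 76) (nat_lit 15988803188) (nat_lit 152) (nat_lit 79482813315) (nat_lit 5) (nat_lit 5) (nat_lit 6) (nat_lit 5) (nat_lit 7) (nat_lit 4) (nat_lit 295) (nat_lit 250) (nat_lit 175)) (XT.nd (nat_lit 78) (nat_lit 0) (nat_lit 0) (XT.lf (nat_lit 0) (nat_lit 27016695402) (nat_lit 76) (nat_lit 4734152365) (nat_lit 152) (nat_lit 76170729845) (nat_lit 5) (nat_lit 5) (nat_lit 6) (nat_lit 5) (nat_lit 7) (nat_lit 4) (nat_lit 296) (nat_lit 250) (nat_lit 174)) (XT.lf (nat_lit 0) (nat_lit 43187731950) (nat_lit 152) (nat_lit 65360951413) (nat_lit 0) (nat_lit 7045671668) (nat_lit 5) (nat_lit 5) (nat_lit 7) (nat_lit 4) (nat_lit 5) (nat_lit 4) (nat_lit 297) (nat_lit 250) (nat_lit 173))))) (XT.nd (nat_lit 234) (nat_lit 76) (nat_lit 0) (XT.nd (nat_lit 78) (nat_lit 0) (nat_lit 0) (XT.lf (nat_lit 0) (nat_lit 55657657347)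 (nat_lit 152) (nat_lit 48705424966) (nat_lit 0) (nat_lit 19508432155) (nat_lit 5) (nat_lit 5) (nat_lit 7) (nat_lit 4) (nat_lit 5) (nat_lit 4) (nat_lit 298) (nat_lit 250) (nat_lit 172)) (XT.nd (nat_lit 78) (nat_lit 0) (nat_lit 0) (XT.lf (nat_lit 0) (nat_lit 69120663334) (nat_lit 152) (nat_lit 30725746977) (nat_lit 0) (nat_lit 32964803967) (nat_lit 5) (nat_lit 5) (nat_lit 7) (nat_lit 4) (nat_lit 5) (nat_lit 4) (nat_lit 299) (nat_lit 250) (nat_lit 171)) (XT.lf (nat_lit 0) (nat_lit 83656530688) (nat_lit 152) (nat_lit 11315371205) (nat_lit 0) (nat_lit 47494528566) (nat_lit 5) (nat_lit 5) (nat_lit 7) (nat_lit 4) (nat_lit 5) (nat_lit 4) (nat_lit 300) (nat_lit 250) (nat_lit 170)))) (XT.nd (nat_lit 156) (nat_lit 0) (nat_lit 0) (XT.nd (nat_lit 78) (nat_lit 0) (nat_lit 0) (XT.lf (nat_lit 0) (nat_lit 10148390387) (nat_lit 76) (nat_lit 89447076528) (nat_lit 76) (nat_lit 53279386670) (nat_lit 4)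 (nat_lit 4) (nat_lit 5) (nat_lit 5) (nat_lit 5) (nat_lit 4) (nat_lit 301) (nat_lit 250) (nat_lit 169)) (XT.lf (nat_lit 0) (nat_lit 33965840209) (nat_lit 76) (nat_lit 83149310602) (nat_lit 76) (nat_lit 46976354321) (nat_lit 4) (nat_lit 4) (nat_lit 5) (nat_lit 5) (nat_lit 5) (nat_lit 4) (nat_lit 302) (nat_lit 250) (nat_lit 168))) (XT.nd (nat_lit 78) (nat_lit 0) (nat_lit 0) (XT.lf (nat_lit 0) (nat_lit 59682271308) (nat_lit 76) (nat_lit 76350666321) (nat_lit 76) (nat_lit 40172833724) (nat_lit 4) (nat_lit 4) (nat_lit 5) (nat_lit 5) (nat_lit 5) (nat_lit 4) (nat_lit 303) (nat_lit 250) (nat_lit 167)) (XT.lf (nat_lit 0) (nat_lit 87450077351) (nat_lit 76) (nat_lit 69010855425) (nat_lit 76) (nat_lit 32828507719) (nat_lit 4) (nat_lit 4) (nat_lit 5) (nat_lit 5) (nat_lit 5) (nat_lit 4) (nat_lit 304) (nat_lit 250) (nat_lit 166))))))) (XT.nd (nat_lit 1014) (nat_lit 0) (nat_lit 0) (XT.nd (nat_lit 468)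 (nat_lit 0) (nat_lit 0) (XT.nd (nat_lit 234) (nat_lit 152) (nat_lit 0) (XT.nd (nat_lit 78) (nat_lit 0) (nat_lit 0) (XT.lf (nat_lit 0) (nat_lit 117433808299) (nat_lit 76) (nat_lit 61086382736) (nat_lit 76) (nat_lit 24899854375) (nat_lit 4) (nat_lit 4) (nat_lit 5) (nat_lit 5) (nat_lit 5) (nat_lit 4) (nat_lit 305) (nat_lit 250) (nat_lit 165)) (XT.nd (nat_lit 78) (nat_lit 0) (nat_lit 0) (XT.lf (nat_lit 0) (nat_lit 149811145520) (nat_lit 76) (nat_lit 52530288418) (nat_lit 76) (nat_lit 16339889078) (nat_lit 4) (nat_lit 4) (nat_lit 5) (nat_lit 5) (nat_lit 5) (nat_lit 4) (nat_lit 306) (nat_lit 250) (nat_lit 164)) (XT.lf (nat_lit 0) (nat_lit 184773954718) (nat_lit 76) (nat_lit 43291869688) (nat_lit 76) (nat_lit 7097886110) (nat_lit 4) (nat_lit 4) (nat_lit 5) (nat_lit 5) (nat_lit 5) (nat_lit 4) (nat_lit 307) (nat_lit 250) (nat_lit 163)))) (XT.nd (nat_lit 78) (nat_lit 76) (nat_lit 0) (XT.lf (nat_lit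 0) (nat_lit 2736806571) (nat_lit 152) (nat_lit 30504744649) (nat_lit 76) (nat_lit 219717787195) (nat_lit 3) (nat_lit 5) (nat_lit 5) (nat_lit 5) (nat_lit 4) (nat_lit 4) (nat_lit 308) (nat_lit 250) (nat_lit 162)) (XT.nd (nat_lit 78) (nat_lit 76) (nat_lit 0) (XT.lf (nat_lit 0) (nat_lit 12972556936) (nat_lit 152) (nat_lit 9217456796) (nat_lit 76) (nat_lit 249974036567) (nat_lit 3) (nat_lit 5) (nat_lit 5) (nat_lit 5) (nat_lit 4) (nat_lit 4) (nat_lit 309) (nat_lit 250) (nat_lit 161)) (XT.lf (nat_lit 0) (nat_lit 14494007961) (nat_lit 76) (nat_lit 9879659571) (nat_lit 152) (nat_lit 268503754183) (nat_lit 2) (nat_lit 5) (nat_lit 3) (nat_lit 5) (nat_lit 4) (nat_lit 4) (nat_lit 310) (nat_lit 250) (nat_lit 160))))) (XT.nd (nat_lit 234) (nat_lit 0) (nat_lit 0) (XT.nd (nat_lit 78) (nat_lit 0) (nat_lit 0) (XT.lf (nat_lit 0) (nat_lit 37025518898) (nat_lit 152) (nat_lit 274693675144) (nat_lit 0) (nat_lit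 3501579055) (nat_lit 2) (nat_lit 5) (nat_lit 4) (nat_lit 4) (nat_lit 2) (nat_lit 4) (nat_lit 311) (nat_lit 250) (nat_lit 159)) (XT.nd (nat_lit 78) (nat_lit 0) (nat_lit 0) (XT.lf (nat_lit 0) (nat_lit 50944226326) (nat_lit 152) (nat_lit 270968964049) (nat_lit 0) (nat_lit 17418027805) (nat_lit 2) (nat_lit 5) (nat_lit 4) (nat_lit 4) (nat_lit 2) (nat_lit 4) (nat_lit 312) (nat_lit 250) (nat_lit 158)) (XT.lf (nat_lit 0) (nat_lit 65974664996) (nat_lit 152) (nat_lit 266949602060) (nat_lit 0) (nat_lit 32446375106) (nat_lit 2) (nat_lit 5) (nat_lit 4) (nat_lit 4) (nat_lit 2) (nat_lit 4) (nat_lit 313) (nat_lit 250) (nat_lit 157)))) (XT.nd (nat_lit 156) (nat_lit 0) (nat_lit 0) (XT.nd (nat_lit 78) (nat_lit 0) (nat_lit 0) (XT.lf (nat_lit 0) (nat_lit 82205904173) (nat_lit 152) (nat_lit 262611770734) (nat_lit 0) (nat_lit 48675677830) (nat_lit 2) (nat_lit 5) (nat_lit 4) (nat_lit 4) (nat_lit 2) (nat_lit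 4) (nat_lit 314) (nat_lit 250) (nat_lit 156)) (XT.lf (nat_lit 0) (nat_lit 99734128978) (nat_lit 152) (nat_lit 257929764404) (nat_lit 0) (nat_lit 66202109624) (nat_lit 2) (nat_lit 5) (nat_lit 4) (nat_lit 4) (nat_lit 2) (nat_lit 4) (nat_lit 315) (nat_lit 250) (nat_lit 155))) (XT.nd (nat_lit 78) (nat_lit 0) (nat_lit 0) (XT.lf (nat_lit 0) (nat_lit 118663210374) (nat_lit 152) (nat_lit 252875837847) (nat_lit 0) (nat_lit 85129530824) (nat_lit 2) (nat_lit 5) (nat_lit 4) (nat_lit 4) (nat_lit 2) (nat_lit 4) (nat_lit 316) (nat_lit 250) (nat_lit 154)) (XT.lf (nat_lit 0) (nat_lit 139105320695) (nat_lit 152) (nat_lit 247420041869) (nat_lit 0) (nat_lit 105570103927) (nat_lit 2) (nat_lit 5) (nat_lit 4) (nat_lit 4) (nat_lit 2) (nat_lit 4) (nat_lit 317) (nat_lit 250) (nat_lit 153)))))) (XT.nd (nat_lit 546) (nat_lit 0) (nat_lit 0) (XT.nd (nat_lit 234) (nat_lit 0) (nat_lit 0) (XT.nd (nat_lit 78) (nat_lit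 0) (nat_lit 0) (XT.lf (nat_lit 0) (nat_lit 161181598373) (nat_lit 152) (nat_lit 241530045828) (nat_lit 0) (nat_lit 127644958253) (nat_lit 2) (nat_lit 5) (nat_lit 4) (nat_lit 4) (nat_lit 2) (nat_lit 4) (nat_lit 318) (nat_lit 250) (nat_lit 152)) (XT.nd (nat_lit 78) (nat_lit 0) (nat_lit 0) (XT.lf (nat_lit 0) (nat_lit 185022865792) (nat_lit 152) (nat_lit 235170946043) (nat_lit 0) (nat_lit 151484907756) (nat_lit 2) (nat_lit 5) (nat_lit 4) (nat_lit 4) (nat_lit 2) (nat_lit 4) (nat_lit 319) (nat_lit 250) (nat_lit 151)) (XT.lf (nat_lit 0) (nat_lit 210770404539) (nat_lit 152) (nat_lit 228305058959) (nat_lit 0) (nat_lit 177231226209) (nat_lit 2) (nat_lit 5) (nat_lit 4) (nat_lit 4) (nat_lit 2) (nat_lit 4) (nat_lit 320) (nat_lit 250) (nat_lit 150)))) (XT.nd (nat_lit 156) (nat_lit 0) (nat_lit 0) (XT.nd (nat_lit 78) (nat_lit 0) (nat_lit 0) (XT.lf (nat_lit 0) (nat_lit 238576792620) (nat_lit 152) (nat_lit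 220891697839) (nat_lit 0) (nat_lit 205036484389) (nat_lit 2) (nat_lit 5) (nat_lit 4) (nat_lit 4) (nat_lit 2) (nat_lit 4) (nat_lit 321) (nat_lit 250) (nat_lit 149)) (XT.lf (nat_lit 0) (nat_lit 268606808632) (nat_lit 152) (nat_lit 212886931653) (nat_lit 0) (nat_lit 235065454196) (nat_lit 2) (nat_lit 5) (nat_lit 4) (nat_lit 4) (nat_lit 2) (nat_lit 4) (nat_lit 322) (nat_lit 250) (nat_lit 148))) (XT.nd (nat_lit 78) (nat_lit 0) (nat_lit 0) (XT.lf (nat_lit 0) (nat_lit 301038408226) (nat_lit 152) (nat_lit 204243324751) (nat_lit 0) (nat_lit 267496085081) (nat_lit 2) (nat_lit 5) (nat_lit 4) (nat_lit 4) (nat_lit 2) (nat_lit 4) (nat_lit 323) (nat_lit 250) (nat_lit 147)) (XT.lf (nat_lit 0) (nat_lit 336063778656) (nat_lit 152) (nat_lit 194909655757) (nat_lit 0) (nat_lit 302520558560) (nat_lit 2) (nat_lit 5) (nat_lit 4) (nat_lit 4) (nat_lit 2) (nat_lit 4) (nat_lit 324) (nat_lit 250) (nat_lit 146)))))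 (XT.nd (nat_lit 234) (nat_lit 0) (nat_lit 0) (XT.nd (nat_lit 78) (nat_lit 0) (nat_lit 0) (XT.lf (nat_lit 0) (nat_lit 373890477676) (nat_lit 152) (nat_lit 184830614041) (nat_lit 0) (nat_lit 340346427068) (nat_lit 2) (nat_lit 5) (nat_lit 4) (nat_lit 4) (nat_lit 2) (nat_lit 4) (nat_lit 325) (nat_lit 250) (nat_lit 145)) (XT.nd (nat_lit 78) (nat_lit 0) (nat_lit 0) (XT.lf (nat_lit 0) (nat_lit 414742663501) (nat_lit 152) (nat_lit 173946471948) (nat_lit 0) (nat_lit 381197843900) (nat_lit 2) (nat_lit 5) (nat_lit 4) (nat_lit 4) (nat_lit 2) (nat_lit 4) (nat_lit 326) (nat_lit 250) (nat_lit 144)) (XT.lf (nat_lit 0) (nat_lit 458862423157) (nat_lit 152) (nat_lit 162192730859) (nat_lit 0) (nat_lit 425316891528) (nat_lit 2) (nat_lit 5) (nat_lit 4) (nat_lit 4) (nat_lit 2) (nat_lit 4) (nat_lit 327) (nat_lit 250) (nat_lit 143)))) (XT.nd (nat_lit 156) (nat_lit 0) (nat_lit 0) (XT.nd (nat_lit 78) (nat_lit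 0) (nat_lit 0) (XT.lf (nat_lit 0) (nat_lit 506511207074) (nat_lit 152) (nat_lit 149499738973) (nat_lit 0) (nat_lit 472965016157) (nat_lit 2) (nat_lit 5) (nat_lit 4) (nat_lit 4) (nat_lit 2) (nat_lit 4) (nat_lit 328) (nat_lit 250) (nat_lit 142)) (XT.lf (nat_lit 0) (nat_lit 557971378414) (nat_lit 152) (nat_lit 135792278563) (nat_lit 0) (nat_lit 524424577047) (nat_lit 2) (nat_lit 5) (nat_lit 4) (nat_lit 4) (nat_lit 2) (nat_lit 4) (nat_lit 329) (nat_lit 250) (nat_lit 141))) (XT.nd (nat_lit 78) (nat_lit 0) (nat_lit 0) (XT.lf (nat_lit 0) (nat_lit 613547886341) (nat_lit 152) (nat_lit 120989120232) (nat_lit 0) (nat_lit 580000519742) (nat_lit 2) (nat_lit 5) (nat_lit 4) (nat_lit 4) (nat_lit 2) (nat_lit 4) (nat_lit 330) (nat_lit 250) (nat_lit 140)) (XT.lf (nat_lit 0) (nat_lit 673570073125) (nat_lit 152) (nat_lit 105002541561) (nat_lit 0) (nat_lit 640022183163) (nat_lit 2) (nat_lit 5) (nat_lit 4)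 (nat_lit 4) (nat_lit 2) (nat_lit 4) (nat_lit 331) (nat_lit 250) (nat_lit 139))))))))
noncomputable def xc70 : XT := (XT.nd (nat_lit 32526) (nat_lit 0) (nat_lit 380) (XT.nd (nat_lit 31512) (nat_lit 0) (nat_lit 1824) (XT.nd (nat_lit 468) (nat_lit 0) (nat_lit 0) (XT.nd (nat_lit 234) (nat_lit 76) (nat_lit 0) (XT.nd (nat_lit 78) (nat_lit 0) (nat_lit 0) (XT.lf (nat_lit 0) (nat_lit 738393625798) (nat_lit 152) (nat_lit 87737807269) (nat_lit 0) (nat_lit 704845251240) (nat_lit 2) (nat_lit 5) (nat_lit 4) (nat_lit 4) (nat_lit 2) (nat_lit 4) (nat_lit 332) (nat_lit 250) (nat_lit 138)) (XT.nd (nat_lit 78) (nat_lit 0) (nat_lit 0) (XT.lf (nat_lit 0) (nat_lit 808402683931) (nat_lit 152) (nat_lit 69092607819) (nat_lit 0) (nat_lit 774853860674) (nat_lit 2) (nat_lit 5) (nat_lit 4) (nat_lit 4) (nat_lit 2) (nat_lit 4) (nat_lit 333) (nat_lit 250) (nat_lit 137)) (XT.lf (nat_lit 0) (nat_lit 884012116018) (nat_lit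 152) (nat_lit 48956453140) (nat_lit 0) (nat_lit 850462877298) (nat_lit 2) (nat_lit 5) (nat_lit 4) (nat_lit 4) (nat_lit 2) (nat_lit 4) (nat_lit 334) (nat_lit 250) (nat_lit 136)))) (XT.nd (nat_lit 78) (nat_lit 76) (nat_lit 0) (XT.lf (nat_lit 0) (nat_lit 965669977951) (nat_lit 152) (nat_lit 27210017872) (nat_lit 0) (nat_lit 932120354545) (nat_lit 2) (nat_lit 5) (nat_lit 4) (nat_lit 4) (nat_lit 2) (nat_lit 4) (nat_lit 335) (nat_lit 250) (nat_lit 135)) (XT.nd (nat_lit 78) (nat_lit 76) (nat_lit 0) (XT.lf (nat_lit 0) (nat_lit 1053860168173) (nat_lit 152) (nat_lit 3724434250) (nat_lit 0) (nat_lit 1020310188574) (nat_lit 2) (nat_lit 5) (nat_lit 4) (nat_lit 4) (nat_lit 2) (nat_lit 4) (nat_lit 336) (nat_lit 250) (nat_lit 134)) (XT.lf (nat_lit 0) (nat_lit 22778967778) (nat_lit 76) (nat_lit 1126874162162) (nat_lit 76) (nat_lit 1093323852756) (nat_lit 1) (nat_lit 4) (nat_lit 2) (nat_lit 5) (nat_lit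 2) (nat_lit 4) (nat_lit 337) (nat_lit 250) (nat_lit 133))))) (XT.nd (nat_lit 30732) (nat_lit 0) (nat_lit 2812) (XT.nd (nat_lit 78) (nat_lit 0) (nat_lit 0) (XT.lf (nat_lit 0) (nat_lit 51613942617) (nat_lit 76) (nat_lit 1201597148596) (nat_lit 76) (nat_lit 1168046533813) (nat_lit 1) (nat_lit 4) (nat_lit 2) (nat_lit 5) (nat_lit 2) (nat_lit 4) (nat_lit 338) (nat_lit 250) (nat_lit 132)) (XT.nd (nat_lit 78) (nat_lit 0) (nat_lit 0) (XT.lf (nat_lit 0) (nat_lit 82755242084) (nat_lit 76) (nat_lit 1282298197242) (nat_lit 76) (nat_lit 1248747299701) (nat_lit 1) (nat_lit 4) (nat_lit 2) (nat_lit 5) (nat_lit 2) (nat_lit 4) (nat_lit 339) (nat_lit 250) (nat_lit 131)) (XT.lf (nat_lit 0) (nat_lit 116387407212) (nat_lit 76) (nat_lit 1369455536535) (nat_lit 76) (nat_lit 1335904377182) (nat_lit 1) (nat_lit 4) (nat_lit 2) (nat_lit 5) (nat_lit 2) (nat_lit 4) (nat_lit 340) (nat_lit 250) (nat_lit 130)))) (XT.nd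 (nat_lit 156) (nat_lit 456) (nat_lit 0) (XT.nd (nat_lit 78) (nat_lit 0) (nat_lit 0) (XT.lf (nat_lit 0) (nat_lit 2096798573) (nat_lit 0) (nat_lit 2096798573) (nat_lit 380) (nat_lit 822026168) (nat_lit 44) (nat_lit 5) (nat_lit 44) (nat_lit 3) (nat_lit 49) (nat_lit 3) (nat_lit 251) (nat_lit 251) (nat_lit 218)) (XT.lf (nat_lit 0) (nat_lit 8930383699) (nat_lit 0) (nat_lit 415157073) (nat_lit 380) (nat_lit 1033814961) (nat_lit 44) (nat_lit 5) (nat_lit 44) (nat_lit 3) (nat_lit 49) (nat_lit 3) (nat_lit 252) (nat_lit 251) (nat_lit 217))) (XT.nd (nat_lit 78) (nat_lit 456) (nat_lit 0) (XT.lf (nat_lit 76) (nat_lit 3332104306) (nat_lit 0) (nat_lit 7155178133) (nat_lit 456) (nat_lit 259824292) (nat_lit 45) (nat_lit 5) (nat_lit 44) (nat_lit 5) (nat_lit 50) (nat_lit 5) (nat_lit 253) (nat_lit 251) (nat_lit 216)) (XT.lf (nat_lit 0) (nat_lit 539023897) (nat_lit 456) (nat_lit 2628412441) (nat_lit 532)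 (nat_lit 7976676661) (nat_lit 38) (nat_lit 5) (nat_lit 44) (nat_lit 5) (nat_lit 45) (nat_lit 5) (nat_lit 254) (nat_lit 251) (nat_lit 215)))))) (XT.nd (nat_lit 468) (nat_lit 684) (nat_lit 0) (XT.nd (nat_lit 234) (nat_lit 380) (nat_lit 0) (XT.nd (nat_lit 78) (nat_lit 0) (nat_lit 0) (XT.lf (nat_lit 0) (nat_lit 1425382684) (nat_lit 456) (nat_lit 8972519673) (nat_lit 532) (nat_lit 1171689367) (nat_lit 39) (nat_lit 5) (nat_lit 45) (nat_lit 5) (nat_lit 46) (nat_lit 5) (nat_lit 255) (nat_lit 251) (nat_lit 214)) (XT.nd (nat_lit 78) (nat_lit 0) (nat_lit 0) (XT.lf (nat_lit 0) (nat_lit 2487020459) (nat_lit 456) (nat_lit 3758052171) (nat_lit 532) (nat_lit 5775930057) (nat_lit 39) (nat_lit 5) (nat_lit 45) (nat_lit 5) (nat_lit 46) (nat_lit 5) (nat_lit 256) (nat_lit 251) (nat_lit 213)) (XT.lf (nat_lit 76) (nat_lit 1932629966) (nat_lit 0) (nat_lit 1699630866) (nat_lit 532) (nat_lit 8876597490) (nat_lit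 40) (nat_lit 5) (nat_lit 39) (nat_lit 5) (nat_lit 46) (nat_lit 5) (nat_lit 257) (nat_lit 251) (nat_lit 212)))) (XT.nd (nat_lit 78) (nat_lit 456) (nat_lit 0) (XT.lf (nat_lit 0) (nat_lit 5006783591) (nat_lit 456) (nat_lit 4855780959) (nat_lit 76) (nat_lit 3162373625) (nat_lit 40) (nat_lit 5) (nat_lit 46) (nat_lit 5) (nat_lit 41) (nat_lit 5) (nat_lit 258) (nat_lit 251) (nat_lit 211)) (XT.nd (nat_lit 78) (nat_lit 0) (nat_lit 0) (XT.lf (nat_lit 0) (nat_lit 1305798617) (nat_lit 456) (nat_lit 5219404750) (nat_lit 532) (nat_lit 7054579581) (nat_lit 34) (nat_lit 5) (nat_lit 40) (nat_lit 5) (nat_lit 41) (nat_lit 5) (nat_lit 259) (nat_lit 251) (nat_lit 210)) (XT.lf (nat_lit 0) (nat_lit 8199732324) (nat_lit 456) (nat_lit 58713914) (nat_lit 532) (nat_lit 5913280131) (nat_lit 34) (nat_lit 5) (nat_lit 40) (nat_lit 5) (nat_lit 41) (nat_lit 5) (nat_lit 260) (nat_lit 251) (nat_lit 209))))) (XT.nd (nat_lit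 234) (nat_lit 304) (nat_lit 0) (XT.nd (nat_lit 78) (nat_lit 152) (nat_lit 0) (XT.lf (nat_lit 0) (nat_lit 699358502) (nat_lit 228) (nat_lit 9544004972) (nat_lit 304) (nat_lit 4558786359) (nat_lit 31) (nat_lit 5) (nat_lit 34) (nat_lit 5) (nat_lit 35) (nat_lit 5) (nat_lit 261) (nat_lit 251) (nat_lit 208)) (XT.nd (nat_lit 78) (nat_lit 152) (nat_lit 0) (XT.lf (nat_lit 0) (nat_lit 8206237150) (nat_lit 228) (nat_lit 4310999934) (nat_lit 304) (nat_lit 2955510539) (nat_lit 31) (nat_lit 5) (nat_lit 34) (nat_lit 5) (nat_lit 35) (nat_lit 5) (nat_lit 262) (nat_lit 251) (nat_lit 207)) (XT.lf (nat_lit 0) (nat_lit 50772937) (nat_lit 152) (nat_lit 14923630885) (nat_lit 228) (nat_lit 1222620871) (nat_lit 29) (nat_lit 5) (nat_lit 31) (nat_lit 5) (nat_lit 32) (nat_lit 5) (nat_lit 263) (nat_lit 251) (nat_lit 206)))) (XT.nd (nat_lit 156) (nat_lit 228) (nat_lit 0) (XT.nd (nat_lit 78) (nat_lit 0) (nat_lit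 0) (XT.lf (nat_lit 0) (nat_lit 900781998) (nat_lit 228) (nat_lit 8766458160) (nat_lit 76) (nat_lit 7288129718) (nat_lit 28) (nat_lit 5) (nat_lit 31) (nat_lit 5) (nat_lit 29) (nat_lit 5) (nat_lit 264) (nat_lit 251) (nat_lit 205)) (XT.lf (nat_lit 0) (nat_lit 3098863845) (nat_lit 228) (nat_lit 862352184) (nat_lit 76) (nat_lit 13813070149) (nat_lit 28) (nat_lit 5) (nat_lit 31) (nat_lit 5) (nat_lit 29) (nat_lit 5) (nat_lit 265) (nat_lit 251) (nat_lit 204))) (XT.nd (nat_lit 78) (nat_lit 0) (nat_lit 0) (XT.lf (nat_lit 0) (nat_lit 5697138173) (nat_lit 304) (nat_lit 10658612018) (nat_lit 76) (nat_lit 2285122378) (nat_lit 25) (nat_lit 5) (nat_lit 29) (nat_lit 5) (nat_lit 26) (nat_lit 5) (nat_lit 266) (nat_lit 251) (nat_lit 203)) (XT.lf (nat_lit 0) (nat_lit 8604500171) (nat_lit 304) (nat_lit 2127913125) (nat_lit 76) (nat_lit 8836371241) (nat_lit 25) (nat_lit 5) (nat_lit 29) (nat_lit 5) (nat_lit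 26) (nat_lit 5) (nat_lit 267) (nat_lit 251) (nat_lit 202))))))) (XT.nd (nat_lit 1014) (nat_lit 456) (nat_lit 0) (XT.nd (nat_lit 468) (nat_lit 456) (nat_lit 0) (XT.nd (nat_lit 234) (nat_lit 228) (nat_lit 0) (XT.nd (nat_lit 78) (nat_lit 152) (nat_lit 0) (XT.lf (nat_lit 0) (nat_lit 7426175924) (nat_lit 152) (nat_lit 4472936336) (nat_lit 228) (nat_lit 8659533869) (nat_lit 23) (nat_lit 5) (nat_lit 25) (nat_lit 5) (nat_lit 26) (nat_lit 5) (nat_lit 268) (nat_lit 251) (nat_lit 201)) (XT.nd (nat_lit 78) (nat_lit 152) (nat_lit 0) (XT.lf (nat_lit 0) (nat_lit 15548947567) (nat_lit 228) (nat_lit 3845481758) (nat_lit 76) (nat_lit 2226017909) (nat_lit 23) (nat_lit 5) (nat_lit 26) (nat_lit 5) (nat_lit 24) (nat_lit 5) (nat_lit 269) (nat_lit 251) (nat_lit 200)) (XT.lf (nat_lit 0) (nat_lit 6357101723) (nat_lit 152) (nat_lit 13381396355) (nat_lit 228) (nat_lit 3008952858) (nat_lit 21) (nat_lit 5) (nat_lit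 23) (nat_lit 5) (nat_lit 24) (nat_lit 5) (nat_lit 270) (nat_lit 251) (nat_lit 199)))) (XT.nd (nat_lit 78) (nat_lit 152) (nat_lit 0) (XT.lf (nat_lit 0) (nat_lit 370491574) (nat_lit 228) (nat_lit 6401154663) (nat_lit 76) (nat_lit 17185513549) (nat_lit 20) (nat_lit 5) (nat_lit 23) (nat_lit 5) (nat_lit 21) (nat_lit 5) (nat_lit 271) (nat_lit 251) (nat_lit 198)) (XT.nd (nat_lit 78) (nat_lit 0) (nat_lit 0) (XT.lf (nat_lit 0) (nat_lit 3960118824) (nat_lit 228) (nat_lit 20756769305) (nat_lit 76) (nat_lit 532374687) (nat_lit 18) (nat_lit 5) (nat_lit 21) (nat_lit 5) (nat_lit 19) (nat_lit 5) (nat_lit 272) (nat_lit 251) (nat_lit 197)) (XT.lf (nat_lit 0) (nat_lit 8173490893) (nat_lit 228) (nat_lit 10217587608) (nat_lit 76) (nat_lit 8226786051) (nat_lit 18) (nat_lit 5) (nat_lit 21) (nat_lit 5) (nat_lit 19) (nat_lit 5) (nat_lit 273) (nat_lit 251) (nat_lit 196))))) (XT.nd (nat_lit 234) (nat_lit 304)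 (nat_lit 0) (XT.nd (nat_lit 78) (nat_lit 0) (nat_lit 0) (XT.lf (nat_lit 0) (nat_lit 1198677387) (nat_lit 152) (nat_lit 11536604734) (nat_lit 228) (nat_lit 15359816613) (nat_lit 16) (nat_lit 5) (nat_lit 18) (nat_lit 5) (nat_lit 19) (nat_lit 5) (nat_lit 274) (nat_lit 251) (nat_lit 195)) (XT.nd (nat_lit 78) (nat_lit 0) (nat_lit 0) (XT.lf (nat_lit 0) (nat_lit 14083971488) (nat_lit 152) (nat_lit 3840618214) (nat_lit 228) (nat_lit 11744964487) (nat_lit 16) (nat_lit 5) (nat_lit 18) (nat_lit 5) (nat_lit 19) (nat_lit 5) (nat_lit 275) (nat_lit 251) (nat_lit 194)) (XT.lf (nat_lit 0) (nat_lit 23620830130) (nat_lit 228) (nat_lit 3501981081) (nat_lit 76) (nat_lit 4239856614) (nat_lit 16) (nat_lit 5) (nat_lit 19) (nat_lit 5) (nat_lit 17) (nat_lit 4) (nat_lit 276) (nat_lit 251) (nat_lit 193)))) (XT.nd (nat_lit 156) (nat_lit 152) (nat_lit 0) (XT.nd (nat_lit 78) (nat_lit 76) (nat_lit 0) (XT.lf (nat_lit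 0) (nat_lit 9922143212) (nat_lit 76) (nat_lit 20174436091) (nat_lit 152) (nat_lit 3068787970) (nat_lit 15) (nat_lit 5) (nat_lit 16) (nat_lit 5) (nat_lit 17) (nat_lit 4) (nat_lit 277) (nat_lit 251) (nat_lit 192)) (XT.lf (nat_lit 0) (nat_lit 1962961010) (nat_lit 152) (nat_lit 10558299181) (nat_lit 76) (nat_lit 22580547519) (nat_lit 14) (nat_lit 5) (nat_lit 16) (nat_lit 5) (nat_lit 15) (nat_lit 5) (nat_lit 278) (nat_lit 251) (nat_lit 191))) (XT.nd (nat_lit 78) (nat_lit 0) (nat_lit 0) (XT.lf (nat_lit 0) (nat_lit 3200542569) (nat_lit 152) (nat_lit 4094525787) (nat_lit 228) (nat_lit 29886662239) (nat_lit 12) (nat_lit 5) (nat_lit 14) (nat_lit 5) (nat_lit 15) (nat_lit 5) (nat_lit 279) (nat_lit 251) (nat_lit 190)) (XT.lf (nat_lit 0) (nat_lit 13457269375) (nat_lit 228) (nat_lit 20893907037) (nat_lit 76) (nat_lit 5044619382) (nat_lit 12) (nat_lit 5) (nat_lit 15) (nat_lit 5) (nat_lit 13) (nat_lit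 4) (nat_lit 280) (nat_lit 251) (nat_lit 189)))))) (XT.nd (nat_lit 546) (nat_lit 228) (nat_lit 0) (XT.nd (nat_lit 234) (nat_lit 152) (nat_lit 0) (XT.nd (nat_lit 78) (nat_lit 76) (nat_lit 0) (XT.lf (nat_lit 0) (nat_lit 20206706544) (nat_lit 228) (nat_lit 6885999335) (nat_lit 76) (nat_lit 14686767759) (nat_lit 12) (nat_lit 5) (nat_lit 15) (nat_lit 5) (nat_lit 13) (nat_lit 4) (nat_lit 281) (nat_lit 251) (nat_lit 188)) (XT.nd (nat_lit 78) (nat_lit 0) (nat_lit 0) (XT.lf (nat_lit 0) (nat_lit 8657080580) (nat_lit 76) (nat_lit 19036025499) (nat_lit 152) (nat_lit 16645005178) (nat_lit 11) (nat_lit 5) (nat_lit 12) (nat_lit 5) (nat_lit 13) (nat_lit 4) (nat_lit 282) (nat_lit 251) (nat_lit 187)) (XT.lf (nat_lit 0) (nat_lit 25817166064) (nat_lit 76) (nat_lit 10138726446) (nat_lit 152) (nat_lit 11131373585) (nat_lit 11) (nat_lit 5) (nat_lit 12) (nat_lit 5) (nat_lit 13) (nat_lit 4) (nat_lit 283) (nat_lit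 251) (nat_lit 186)))) (XT.nd (nat_lit 156) (nat_lit 0) (nat_lit 0) (XT.nd (nat_lit 78) (nat_lit 152) (nat_lit 0) (XT.lf (nat_lit 0) (nat_lit 44333341991) (nat_lit 76) (nat_lit 536359412) (nat_lit 152) (nat_lit 5187474367) (nat_lit 11) (nat_lit 5) (nat_lit 12) (nat_lit 5) (nat_lit 13) (nat_lit 4) (nat_lit 284) (nat_lit 251) (nat_lit 185)) (XT.lf (nat_lit 0) (nat_lit 1684163772) (nat_lit 152) (nat_lit 41884314569) (nat_lit 76) (nat_lit 9652740567) (nat_lit 9) (nat_lit 5) (nat_lit 11) (nat_lit 5) (nat_lit 10) (nat_lit 4) (nat_lit 285) (nat_lit 251) (nat_lit 184))) (XT.nd (nat_lit 78) (nat_lit 0) (nat_lit 0) (XT.lf (nat_lit 0) (nat_lit 8990426941) (nat_lit 152) (nat_lit 26706773035) (nat_lit 76) (nat_lit 20917211957) (nat_lit 9) (nat_lit 5) (nat_lit 11) (nat_lit 5) (nat_lit 10) (nat_lit 4) (nat_lit 286) (nat_lit 251) (nat_lit 183)) (XT.lf (nat_lit 0) (nat_lit 16872539527) (nat_lit 152)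 (nat_lit 10330021317) (nat_lit 76) (nat_lit 33077208161) (nat_lit 9) (nat_lit 5) (nat_lit 11) (nat_lit 5) (nat_lit 10) (nat_lit 4) (nat_lit 287) (nat_lit 251) (nat_lit 182))))) (XT.nd (nat_lit 234) (nat_lit 152) (nat_lit 0) (XT.nd (nat_lit 78) (nat_lit 0) (nat_lit 0) (XT.lf (nat_lit 0) (nat_lit 7729656738) (nat_lit 76) (nat_lit 17833452037) (nat_lit 152) (nat_lit 38661030108) (nat_lit 8) (nat_lit 5) (nat_lit 9) (nat_lit 5) (nat_lit 10) (nat_lit 4) (nat_lit 288) (nat_lit 251) (nat_lit 181)) (XT.nd (nat_lit 78) (nat_lit 0) (nat_lit 0) (XT.lf (nat_lit 0) (nat_lit 27808055424) (nat_lit 76) (nat_lit 7415566422) (nat_lit 152) (nat_lit 33238474766) (nat_lit 8) (nat_lit 5) (nat_lit 9) (nat_lit 5) (nat_lit 10) (nat_lit 4) (nat_lit 289) (nat_lit 251) (nat_lit 180)) (XT.lf (nat_lit 0) (nat_lit 45741927684) (nat_lit 152) (nat_lit 23651601334) (nat_lit 0) (nat_lit 3638778882) (nat_lit 8) (nat_lit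 5) (nat_lit 10) (nat_lit 4) (nat_lit 8) (nat_lit 4) (nat_lit 290) (nat_lit 251) (nat_lit 179)))) (XT.nd (nat_lit 156) (nat_lit 76) (nat_lit 0) (XT.nd (nat_lit 78) (nat_lit 76) (nat_lit 0) (XT.lf (nat_lit 0) (nat_lit 57287552545) (nat_lit 152) (nat_lit 5493602941) (nat_lit 0) (nat_lit 15172124348) (nat_lit 8) (nat_lit 5) (nat_lit 10) (nat_lit 4) (nat_lit 8) (nat_lit 4) (nat_lit 291) (nat_lit 251) (nat_lit 178)) (XT.lf (nat_lit 0) (nat_lit 14848693267) (nat_lit 76) (nat_lit 55258988560) (nat_lit 76) (nat_lit 13132190552) (nat_lit 7) (nat_lit 4) (nat_lit 8) (nat_lit 5) (nat_lit 8) (nat_lit 4) (nat_lit 292) (nat_lit 251) (nat_lit 177))) (XT.nd (nat_lit 78) (nat_lit 76) (nat_lit 0) (XT.lf (nat_lit 0) (nat_lit 37119947280) (nat_lit 76) (nat_lit 46977624506) (nat_lit 76) (nat_lit 4840298896) (nat_lit 7) (nat_lit 4) (nat_lit 8) (nat_lit 5) (nat_lit 8) (nat_lit 4) (nat_lit 293) (nat_lit 251)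 (nat_lit 176)) (XT.lf (nat_lit 0) (nat_lit 3903337156) (nat_lit 152) (nat_lit 34028132104) (nat_lit 76) (nat_lit 57152792191) (nat_lit 6) (nat_lit 5) (nat_lit 8) (nat_lit 5) (nat_lit 7) (nat_lit 4) (nat_lit 294) (nat_lit 251) (nat_lit 175))))))))
noncomputable def xc71 : XT := (XT.nd (nat_lit 2106) (nat_lit 76) (nat_lit 0) (XT.nd (nat_lit 1014) (nat_lit 152) (nat_lit 0) (XT.nd (nat_lit 468) (nat_lit 76) (nat_lit 0) (XT.nd (nat_lit 234) (nat_lit 0) (nat_lit 0) (XT.nd (nat_lit 78) (nat_lit 76) (nat_lit 0) (XT.lf (nat_lit 0) (nat_lit 13079628189) (nat_lit 152) (nat_lit 14950472479) (nat_lit 76) (nat_lit 73682640014) (nat_lit 6) (nat_lit 5) (nat_lit 8) (nat_lit 5) (nat_lit 7) (nat_lit 4) (nat_lit 295) (nat_lit 251) (nat_lit 174)) (XT.nd (nat_lit 78) (nat_lit 0) (nat_lit 0) (XT.lf (nat_lit 0) (nat_lit 5941747866) (nat_lit 76) (nat_lit 17186234888) (nat_lit 152) (nat_lit 85732486307) (nat_lit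 5) (nat_lit 5) (nat_lit 6) (nat_lit 5) (nat_lit 7) (nat_lit 4) (nat_lit 296) (nat_lit 251) (nat_lit 173)) (XT.lf (nat_lit 0) (nat_lit 29346934985) (nat_lit 76) (nat_lit 5037261818) (nat_lit 152) (nat_lit 82163506684) (nat_lit 5) (nat_lit 5) (nat_lit 6) (nat_lit 5) (nat_lit 7) (nat_lit 4) (nat_lit 297) (nat_lit 251) (nat_lit 172)))) (XT.nd (nat_lit 78) (nat_lit 0) (nat_lit 0) (XT.lf (nat_lit 0) (nat_lit 46730806008) (nat_lit 152) (nat_lit 70428081640) (nat_lit 0) (nat_lit 7675843716) (nat_lit 5) (nat_lit 5) (nat_lit 7) (nat_lit 4) (nat_lit 5) (nat_lit 4) (nat_lit 298) (nat_lit 251) (nat_lit 171)) (XT.nd (nat_lit 78) (nat_lit 0) (nat_lit 0) (XT.lf (nat_lit 0) (nat_lit 60191802807) (nat_lit 152) (nat_lit 52452094255) (nat_lit 0) (nat_lit 21130697760) (nat_lit 5) (nat_lit 5) (nat_lit 7) (nat_lit 4) (nat_lit 5) (nat_lit 4) (nat_lit 299) (nat_lit 251) (nat_lit 170)) (XT.lf (nat_lit 0) (nat_lit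 74725809801) (nat_lit 152) (nat_lit 33045135708) (nat_lit 0) (nat_lit 35659017018) (nat_lit 5) (nat_lit 5) (nat_lit 7) (nat_lit 4) (nat_lit 5) (nat_lit 4) (nat_lit 300) (nat_lit 251) (nat_lit 169))))) (XT.nd (nat_lit 234) (nat_lit 0) (nat_lit 0) (XT.nd (nat_lit 78) (nat_lit 76) (nat_lit 0) (XT.lf (nat_lit 0) (nat_lit 90418954440) (nat_lit 152) (nat_lit 12092201802) (nat_lit 0) (nat_lit 51346895235) (nat_lit 5) (nat_lit 5) (nat_lit 7) (nat_lit 4) (nat_lit 5) (nat_lit 4) (nat_lit 301) (nat_lit 251) (nat_lit 168)) (XT.nd (nat_lit 78) (nat_lit 0) (nat_lit 0) (XT.lf (nat_lit 0) (nat_lit 11085410107) (nat_lit 76) (nat_lit 96545427408) (nat_lit 76) (nat_lit 57468491886) (nat_lit 4) (nat_lit 4) (nat_lit 5) (nat_lit 5) (nat_lit 5) (nat_lit 4) (nat_lit 302) (nat_lit 251) (nat_lit 167)) (XT.lf (nat_lit 0) (nat_lit 36798985656) (nat_lit 76) (nat_lit 89748093189) (nat_lit 76) (nat_lit 50666642558)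 (nat_lit 4) (nat_lit 4) (nat_lit 5) (nat_lit 5) (nat_lit 5) (nat_lit 4) (nat_lit 303) (nat_lit 251) (nat_lit 166)))) (XT.nd (nat_lit 156) (nat_lit 0) (nat_lit 0) (XT.nd (nat_lit 78) (nat_lit 0) (nat_lit 0) (XT.lf (nat_lit 0) (nat_lit 64564147671) (nat_lit 76) (nat_lit 82409495311) (nat_lit 76) (nat_lit 43323864025) (nat_lit 4) (nat_lit 4) (nat_lit 5) (nat_lit 5) (nat_lit 5) (nat_lit 4) (nat_lit 304) (nat_lit 251) (nat_lit 165)) (XT.lf (nat_lit 0) (nat_lit 94545430444) (nat_lit 76) (nat_lit 74486145789) (nat_lit 76) (nat_lit 35396643525) (nat_lit 4) (nat_lit 4) (nat_lit 5) (nat_lit 5) (nat_lit 5) (nat_lit 4) (nat_lit 305) (nat_lit 251) (nat_lit 164))) (XT.nd (nat_lit 78) (nat_lit 0) (nat_lit 0) (XT.lf (nat_lit 0) (nat_lit 126920500838) (nat_lit 76) (nat_lit 65931091439) (nat_lit 76) (nat_lit 26838004936) (nat_lit 4) (nat_lit 4) (nat_lit 5) (nat_lit 5) (nat_lit 5) (nat_lit 4) (nat_lit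 306) (nat_lit 251) (nat_lit 163)) (XT.lf (nat_lit 0) (nat_lit 161881211121) (nat_lit 76) (nat_lit 56693635642) (nat_lit 76) (nat_lit 17597230400) (nat_lit 4) (nat_lit 4) (nat_lit 5) (nat_lit 5) (nat_lit 5) (nat_lit 4) (nat_lit 307) (nat_lit 251) (nat_lit 162)))))) (XT.nd (nat_lit 546) (nat_lit 0) (nat_lit 0) (XT.nd (nat_lit 234) (nat_lit 76) (nat_lit 0) (XT.nd (nat_lit 78) (nat_lit 76) (nat_lit 0) (XT.lf (nat_lit 0) (nat_lit 199634735872) (nat_lit 76) (nat_lit 46719037921) (nat_lit 76) (nat_lit 7619559773) (nat_lit 4) (nat_lit 4) (nat_lit 5) (nat_lit 5) (nat_lit 5) (nat_lit 4) (nat_lit 308) (nat_lit 251) (nat_lit 161)) (XT.nd (nat_lit 78) (nat_lit 0) (nat_lit 0) (XT.lf (nat_lit 0) (nat_lit 2996351332) (nat_lit 152) (nat_lit 32869912660) (nat_lit 76) (nat_lit 237326522794) (nat_lit 3) (nat_lit 5) (nat_lit 5) (nat_lit 5) (nat_lit 4) (nat_lit 4) (nat_lit 309) (nat_lit 251) (nat_lit 160))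 (XT.lf (nat_lit 0) (nat_lit 14047954302) (nat_lit 152) (nat_lit 9885213006) (nat_lit 76) (nat_lit 270000952662) (nat_lit 3) (nat_lit 5) (nat_lit 5) (nat_lit 5) (nat_lit 4) (nat_lit 4) (nat_lit 310) (nat_lit 251) (nat_lit 159)))) (XT.nd (nat_lit 156) (nat_lit 0) (nat_lit 0) (XT.nd (nat_lit 78) (nat_lit 0) (nat_lit 0) (XT.lf (nat_lit 0) (nat_lit 15721405886) (nat_lit 76) (nat_lit 10638595658) (nat_lit 152) (nat_lit 289944655208) (nat_lit 2) (nat_lit 5) (nat_lit 3) (nat_lit 5) (nat_lit 4) (nat_lit 4) (nat_lit 311) (nat_lit 251) (nat_lit 158)) (XT.lf (nat_lit 0) (nat_lit 40022001764) (nat_lit 152) (nat_lit 296604280326) (nat_lit 0) (nat_lit 3809357314) (nat_lit 2) (nat_lit 5) (nat_lit 4) (nat_lit 4) (nat_lit 2) (nat_lit 4) (nat_lit 312) (nat_lit 251) (nat_lit 157))) (XT.nd (nat_lit 78) (nat_lit 0) (nat_lit 0) (XT.lf (nat_lit 0) (nat_lit 55051654575) (nat_lit 152) (nat_lit 292586398924)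 (nat_lit 0) (nat_lit 18837073672) (nat_lit 2) (nat_lit 5) (nat_lit 4) (nat_lit 4) (nat_lit 2) (nat_lit 4) (nat_lit 313) (nat_lit 251) (nat_lit 156)) (XT.lf (nat_lit 0) (nat_lit 71282166105) (nat_lit 152) (nat_lit 288249938512) (nat_lit 0) (nat_lit 35065792190) (nat_lit 2) (nat_lit 5) (nat_lit 4) (nat_lit 4) (nat_lit 2) (nat_lit 4) (nat_lit 314) (nat_lit 251) (nat_lit 155))))) (XT.nd (nat_lit 234) (nat_lit 0) (nat_lit 0) (XT.nd (nat_lit 78) (nat_lit 0) (nat_lit 0) (XT.lf (nat_lit 0) (nat_lit 88809717163) (nat_lit 152) (nat_lit 283569201548) (nat_lit 0) (nat_lit 52591683053) (nat_lit 2) (nat_lit 5) (nat_lit 4) (nat_lit 4) (nat_lit 2) (nat_lit 4) (nat_lit 315) (nat_lit 251) (nat_lit 154)) (XT.nd (nat_lit 78) (nat_lit 0) (nat_lit 0) (XT.lf (nat_lit 0) (nat_lit 107738174720) (nat_lit 152) (nat_lit 278516450329) (nat_lit 0) (nat_lit 71518603391) (nat_lit 2) (nat_lit 5) (nat_lit 4) (nat_lit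 4) (nat_lit 2) (nat_lit 4) (nat_lit 316) (nat_lit 251) (nat_lit 153)) (XT.lf (nat_lit 0) (nat_lit 128179707411) (nat_lit 152) (nat_lit 273061742628) (nat_lit 0) (nat_lit 91958712732) (nat_lit 2) (nat_lit 5) (nat_lit 4) (nat_lit 4) (nat_lit 2) (nat_lit 4) (nat_lit 317) (nat_lit 251) (nat_lit 152)))) (XT.nd (nat_lit 156) (nat_lit 0) (nat_lit 0) (XT.nd (nat_lit 78) (nat_lit 0) (nat_lit 0) (XT.lf (nat_lit 0) (nat_lit 150255450246) (nat_lit 152) (nat_lit 267172754250) (nat_lit 0) (nat_lit 114033137650) (nat_lit 2) (nat_lit 5) (nat_lit 4) (nat_lit 4) (nat_lit 2) (nat_lit 4) (nat_lit 318) (nat_lit 251) (nat_lit 151)) (XT.lf (nat_lit 0) (nat_lit 174096222441) (nat_lit 152) (nat_lit 260814587486) (nat_lit 0) (nat_lit 137872689552) (nat_lit 2) (nat_lit 5) (nat_lit 4) (nat_lit 4) (nat_lit 2) (nat_lit 4) (nat_lit 319) (nat_lit 251) (nat_lit 150))) (XT.nd (nat_lit 78) (nat_lit 0) (nat_lit 0) (XT.lf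 (nat_lit 0) (nat_lit 199843302647) (nat_lit 152) (nat_lit 253949564311) (nat_lit 0) (nat_lit 163618639856) (nat_lit 2) (nat_lit 5) (nat_lit 4) (nat_lit 4) (nat_lit 2) (nat_lit 4) (nat_lit 320) (nat_lit 251) (nat_lit 149)) (XT.lf (nat_lit 0) (nat_lit 227649266154) (nat_lit 152) (nat_lit 246537003106) (nat_lit 0) (nat_lit 191423557157) (nat_lit 2) (nat_lit 5) (nat_lit 4) (nat_lit 4) (nat_lit 2) (nat_lit 4) (nat_lit 321) (nat_lit 251) (nat_lit 148))))))) (XT.nd (nat_lit 1014) (nat_lit 76) (nat_lit 0) (XT.nd (nat_lit 468) (nat_lit 0) (nat_lit 0) (XT.nd (nat_lit 234) (nat_lit 0) (nat_lit 0) (XT.nd (nat_lit 78) (nat_lit 0) (nat_lit 0) (XT.lf (nat_lit 0) (nat_lit 257678889041) (nat_lit 152) (nat_lit 238532977583) (nat_lit 0) (nat_lit 221452211336) (nat_lit 2) (nat_lit 5) (nat_lit 4) (nat_lit 4) (nat_lit 2) (nat_lit 4) (nat_lit 322) (nat_lit 251) (nat_lit 147)) (XT.nd (nat_lit 78) (nat_lit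 0) (nat_lit 0) (XT.lf (nat_lit 0) (nat_lit 290110124629) (nat_lit 152) (nat_lit 229890056479) (nat_lit 0) (nat_lit 253882549972) (nat_lit 2) (nat_lit 5) (nat_lit 4) (nat_lit 4) (nat_lit 2) (nat_lit 4) (nat_lit 323) (nat_lit 251) (nat_lit 146)) (XT.lf (nat_lit 0) (nat_lit 325135158019) (nat_lit 152) (nat_lit 220557022484) (nat_lit 0) (nat_lit 288906752851) (nat_lit 2) (nat_lit 5) (nat_lit 4) (nat_lit 4) (nat_lit 2) (nat_lit 4) (nat_lit 324) (nat_lit 251) (nat_lit 145)))) (XT.nd (nat_lit 78) (nat_lit 0) (nat_lit 0) (XT.lf (nat_lit 0) (nat_lit 362961544963) (nat_lit 152) (nat_lit 210478568730) (nat_lit 0) (nat_lit 326732370803) (nat_lit 2) (nat_lit 5) (nat_lit 4) (nat_lit 4) (nat_lit 2) (nat_lit 4) (nat_lit 325) (nat_lit 251) (nat_lit 144)) (XT.nd (nat_lit 78) (nat_lit 0) (nat_lit 0) (XT.lf (nat_lit 0) (nat_lit 403813441829) (nat_lit 152) (nat_lit 199594971046) (nat_lit 0) (nat_lit 367583555639)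 (nat_lit 2) (nat_lit 5) (nat_lit 4) (nat_lit 4) (nat_lit 2) (nat_lit 4) (nat_lit 326) (nat_lit 251) (nat_lit 143)) (XT.lf (nat_lit 0) (nat_lit 447932933932) (nat_lit 152) (nat_lit 187841734039) (nat_lit 0) (nat_lit 411702388455) (nat_lit 2) (nat_lit 5) (nat_lit 4) (nat_lit 4) (nat_lit 2) (nat_lit 4) (nat_lit 327) (nat_lit 251) (nat_lit 142))))) (XT.nd (nat_lit 234) (nat_lit 0) (nat_lit 0) (XT.nd (nat_lit 78) (nat_lit 0) (nat_lit 0) (XT.lf (nat_lit 0) (nat_lit 495581470113) (nat_lit 152) (nat_lit 175149208897) (nat_lit 0) (nat_lit 459350314186) (nat_lit 2) (nat_lit 5) (nat_lit 4) (nat_lit 4) (nat_lit 2) (nat_lit 4) (nat_lit 328) (nat_lit 251) (nat_lit 141)) (XT.nd (nat_lit 78) (nat_lit 0) (nat_lit 0) (XT.lf (nat_lit 0) (nat_lit 547041412068) (nat_lit 152) (nat_lit 161442180656) (nat_lit 0) (nat_lit 510809690909) (nat_lit 2) (nat_lit 5) (nat_lit 4) (nat_lit 4) (nat_lit 2) (nat_lit 4)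 (nat_lit 329) (nat_lit 251) (nat_lit 140)) (XT.lf (nat_lit 0) (nat_lit 602617707602) (nat_lit 152) (nat_lit 146639422481) (nat_lit 0) (nat_lit 566385463080) (nat_lit 2) (nat_lit 5) (nat_lit 4) (nat_lit 4) (nat_lit 2) (nat_lit 4) (nat_lit 330) (nat_lit 251) (nat_lit 139)))) (XT.nd (nat_lit 156) (nat_lit 0) (nat_lit 0) (XT.nd (nat_lit 78) (nat_lit 0) (nat_lit 0) (XT.lf (nat_lit 0) (nat_lit 662639697726) (nat_lit 152) (nat_lit 130653214326) (nat_lit 0) (nat_lit 626406968608) (nat_lit 2) (nat_lit 5) (nat_lit 4) (nat_lit 4) (nat_lit 2) (nat_lit 4) (nat_lit 331) (nat_lit 251) (nat_lit 138)) (XT.lf (nat_lit 0) (nat_lit 727463068306) (nat_lit 152) (nat_lit 113388823104) (nat_lit 0) (nat_lit 691229890489) (nat_lit 2) (nat_lit 5) (nat_lit 4) (nat_lit 4) (nat_lit 2) (nat_lit 4) (nat_lit 332) (nat_lit 251) (nat_lit 137))) (XT.nd (nat_lit 78) (nat_lit 0) (nat_lit 0) (XT.lf (nat_lit 0) (nat_lit 797471957834)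 (nat_lit 152) (nat_lit 94743941311) (nat_lit 0) (nat_lit 761238364555) (nat_lit 2) (nat_lit 5) (nat_lit 4) (nat_lit 4) (nat_lit 2) (nat_lit 4) (nat_lit 333) (nat_lit 251) (nat_lit 136)) (XT.lf (nat_lit 0) (nat_lit 873081233806) (nat_lit 152) (nat_lit 74608080760) (nat_lit 0) (nat_lit 836847255839) (nat_lit 2) (nat_lit 5) (nat_lit 4) (nat_lit 4) (nat_lit 2) (nat_lit 4) (nat_lit 334) (nat_lit 251) (nat_lit 135)))))) (XT.nd (nat_lit 31122) (nat_lit 0) (nat_lit 2736) (XT.nd (nat_lit 234) (nat_lit 76) (nat_lit 0) (XT.nd (nat_lit 78) (nat_lit 0) (nat_lit 0) (XT.lf (nat_lit 0) (nat_lit 954738951188) (nat_lit 152) (nat_lit 52861917832) (nat_lit 0) (nat_lit 918504617029) (nat_lit 2) (nat_lit 5) (nat_lit 4) (nat_lit 4) (nat_lit 2) (nat_lit 4) (nat_lit 335) (nat_lit 251) (nat_lit 134)) (XT.nd (nat_lit 78) (nat_lit 0) (nat_lit 0) (XT.lf (nat_lit 0) (nat_lit 1042929007566) (nat_lit 152) (nat_lit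 29376586377) (nat_lit 0) (nat_lit 1006694343600) (nat_lit 2) (nat_lit 5) (nat_lit 4) (nat_lit 4) (nat_lit 2) (nat_lit 4) (nat_lit 336) (nat_lit 251) (nat_lit 133)) (XT.lf (nat_lit 0) (nat_lit 1138174010681) (nat_lit 152) (nat_lit 4012914059) (nat_lit 0) (nat_lit 1101939041338) (nat_lit 2) (nat_lit 5) (nat_lit 4) (nat_lit 4) (nat_lit 2) (nat_lit 4) (nat_lit 337) (nat_lit 251) (nat_lit 132)))) (XT.nd (nat_lit 156) (nat_lit 0) (nat_lit 0) (XT.nd (nat_lit 78) (nat_lit 0) (nat_lit 0) (XT.lf (nat_lit 0) (nat_lit 24610520260) (nat_lit 76) (nat_lit 1217019738711) (nat_lit 76) (nat_lit 1180784486611) (nat_lit 1) (nat_lit 4) (nat_lit 2) (nat_lit 5) (nat_lit 2) (nat_lit 4) (nat_lit 338) (nat_lit 251) (nat_lit 131)) (XT.lf (nat_lit 0) (nat_lit 55751609007) (nat_lit 76) (nat_lit 1297720886758) (nat_lit 76) (nat_lit 1261485372846) (nat_lit 1) (nat_lit 4) (nat_lit 2) (nat_lit 5) (nat_lit 2) (nat_lit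 4) (nat_lit 339) (nat_lit 251) (nat_lit 130))) (XT.nd (nat_lit 30654) (nat_lit 0) (nat_lit 3268) (XT.lf (nat_lit 0) (nat_lit 89383579025) (nat_lit 76) (nat_lit 1384878318090) (nat_lit 76) (nat_lit 1348642561759) (nat_lit 1) (nat_lit 4) (nat_lit 2) (nat_lit 5) (nat_lit 2) (nat_lit 4) (nat_lit 340) (nat_lit 251) (nat_lit 129)) (XT.lf (nat_lit 0) (nat_lit 2568481929) (nat_lit 0) (nat_lit 2568481929) (nat_lit 380) (nat_lit 228046595) (nat_lit 44) (nat_lit 5) (nat_lit 44) (nat_lit 3) (nat_lit 49) (nat_lit 3) (nat_lit 252) (nat_lit 252) (nat_lit 216))))) (XT.nd (nat_lit 234) (nat_lit 0) (nat_lit 152) (XT.nd (nat_lit 78) (nat_lit 0) (nat_lit 76) (XT.lf (nat_lit 0) (nat_lit 99959955) (nat_lit 532) (nat_lit 908527471) (nat_lit 532) (nat_lit 10104972228) (nat_lit 37) (nat_lit 3) (nat_lit 44) (nat_lit 3) (nat_lit 44) (nat_lit 5) (nat_lit 253) (nat_lit 252) (nat_lit 215)) (XT.nd (nat_lit 78) (nat_lit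 0) (nat_lit 0) (XT.lf (nat_lit 0) (nat_lit 811394412) (nat_lit 456) (nat_lit 7284152096) (nat_lit 532) (nat_lit 3420499278) (nat_lit 38) (nat_lit 5) (nat_lit 44) (nat_lit 5) (nat_lit 45) (nat_lit 5) (nat_lit 254) (nat_lit 252) (nat_lit 214)) (XT.lf (nat_lit 0) (nat_lit 1580263761) (nat_lit 456) (nat_lit 2174517065) (nat_lit 532) (nat_lit 8196259938) (nat_lit 38) (nat_lit 5) (nat_lit 44) (nat_lit 5) (nat_lit 45) (nat_lit 5) (nat_lit 255) (nat_lit 252) (nat_lit 213)))) (XT.nd (nat_lit 156) (nat_lit 0) (nat_lit 0) (XT.nd (nat_lit 78) (nat_lit 0) (nat_lit 0) (XT.lf (nat_lit 0) (nat_lit 2472133283) (nat_lit 456) (nat_lit 8956355057) (nat_lit 532) (nat_lit 987653272) (nat_lit 39) (nat_lit 5) (nat_lit 45) (nat_lit 5) (nat_lit 46) (nat_lit 5) (nat_lit 256) (nat_lit 252) (nat_lit 212)) (XT.lf (nat_lit 0) (nat_lit 3549611711) (nat_lit 456) (nat_lit 3379098022) (nat_lit 532) (nat_lit 5980808864)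 (nat_lit 39) (nat_lit 5) (nat_lit 45) (nat_lit 5) (nat_lit 46) (nat_lit 5) (nat_lit 257) (nat_lit 252) (nat_lit 211))) (XT.nd (nat_lit 78) (nat_lit 0) (nat_lit 76) (XT.lf (nat_lit 76) (nat_lit 2749633666) (nat_lit 0) (nat_lit 1988795659) (nat_lit 532) (nat_lit 8702118491) (nat_lit 40) (nat_lit 5) (nat_lit 39) (nat_lit 5) (nat_lit 46) (nat_lit 5) (nat_lit 258) (nat_lit 252) (nat_lit 210)) (XT.lf (nat_lit 0) (nat_lit 6159088592) (nat_lit 456) (nat_lit 4563598248) (nat_lit 76) (nat_lit 3280612661) (nat_lit 40) (nat_lit 5) (nat_lit 46) (nat_lit 5) (nat_lit 41) (nat_lit 5) (nat_lit 259) (nat_lit 252) (nat_lit 209))))))))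
noncomputable def xc72 : XT := (XT.nd (nat_lit 2028) (nat_lit 684) (nat_lit 0) (XT.nd (nat_lit 1014) (nat_lit 684) (nat_lit 0) (XT.nd (nat_lit 468) (nat_lit 608) (nat_lit 0) (XT.nd (nat_lit 234) (nat_lit 228) (nat_lit 0) (XT.nd (nat_lit 78) (nat_lit 228) (nat_lit 0) (XT.lf (nat_lit 0) (nat_lit 2073676170) (nat_lit 456) (nat_lit 5685574797) (nat_lit 532) (nat_lit 6846718088) (nat_lit 34) (nat_lit 5) (nat_lit 40) (nat_lit 5) (nat_lit 41) (nat_lit 5) (nat_lit 260) (nat_lit 252) (nat_lit 208)) (XT.nd (nat_lit 78) (nat_lit 228) (nat_lit 0) (XT.lf (nat_lit 0) (nat_lit 9469982821) (nat_lit 456) (nat_lit 108427385) (nat_lit 532) (nat_lit 5671316746) (nat_lit 34) (nat_lit 5) (nat_lit 40) (nat_lit 5) (nat_lit 41) (nat_lit 5) (nat_lit 261) (nat_lit 252) (nat_lit 207)) (XT.lf (nat_lit 0) (nat_lit 1409409591) (nat_lit 228) (nat_lit 10278603792) (nat_lit 304) (nat_lit 4245521318) (nat_lit 31) (nat_lit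 5) (nat_lit 34) (nat_lit 5) (nat_lit 35) (nat_lit 5) (nat_lit 262) (nat_lit 252) (nat_lit 206)))) (XT.nd (nat_lit 78) (nat_lit 228) (nat_lit 0) (XT.lf (nat_lit 0) (nat_lit 9468386500) (nat_lit 228) (nat_lit 4629100690) (nat_lit 304) (nat_lit 2564203280) (nat_lit 31) (nat_lit 5) (nat_lit 34) (nat_lit 5) (nat_lit 35) (nat_lit 5) (nat_lit 263) (nat_lit 252) (nat_lit 205)) (XT.nd (nat_lit 78) (nat_lit 76) (nat_lit 0) (XT.lf (nat_lit 0) (nat_lit 692164064) (nat_lit 152) (nat_lit 16032107980) (nat_lit 228) (nat_lit 721984249) (nat_lit 29) (nat_lit 5) (nat_lit 31) (nat_lit 5) (nat_lit 32) (nat_lit 5) (nat_lit 264) (nat_lit 252) (nat_lit 204)) (XT.lf (nat_lit 0) (nat_lit 1499242321) (nat_lit 228) (nat_lit 8847897943) (nat_lit 76) (nat_lit 7920509399) (nat_lit 28) (nat_lit 5) (nat_lit 31) (nat_lit 5) (nat_lit 29) (nat_lit 5) (nat_lit 265) (nat_lit 252) (nat_lit 203))))) (XT.nd (nat_lit 234)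 (nat_lit 380) (nat_lit 0) (XT.nd (nat_lit 78) (nat_lit 228) (nat_lit 0) (XT.lf (nat_lit 0) (nat_lit 3834178289) (nat_lit 228) (nat_lit 357380294) (nat_lit 76) (nat_lit 14963791042) (nat_lit 28) (nat_lit 5) (nat_lit 31) (nat_lit 5) (nat_lit 29) (nat_lit 5) (nat_lit 266) (nat_lit 252) (nat_lit 202)) (XT.nd (nat_lit 78) (nat_lit 0) (nat_lit 0) (XT.lf (nat_lit 0) (nat_lit 6619941665) (nat_lit 304) (nat_lit 10915220776) (nat_lit 76) (nat_lit 2557870098) (nat_lit 25) (nat_lit 5) (nat_lit 29) (nat_lit 5) (nat_lit 26) (nat_lit 5) (nat_lit 267) (nat_lit 252) (nat_lit 201)) (XT.lf (nat_lit 0) (nat_lit 9725297628) (nat_lit 304) (nat_lit 1746220061) (nat_lit 76) (nat_lit 9626556801) (nat_lit 25) (nat_lit 5) (nat_lit 29) (nat_lit 5) (nat_lit 26) (nat_lit 5) (nat_lit 268) (nat_lit 252) (nat_lit 200)))) (XT.nd (nat_lit 156) (nat_lit 228) (nat_lit 0) (XT.nd (nat_lit 78) (nat_lit 0) (nat_lit 0) (XT.lf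 (nat_lit 0) (nat_lit 8558223300) (nat_lit 152) (nat_lit 4706160771) (nat_lit 228) (nat_lit 8904388346) (nat_lit 23) (nat_lit 5) (nat_lit 25) (nat_lit 5) (nat_lit 26) (nat_lit 5) (nat_lit 269) (nat_lit 252) (nat_lit 199)) (XT.lf (nat_lit 0) (nat_lit 17178363107) (nat_lit 228) (nat_lit 3625785279) (nat_lit 76) (nat_lit 2513707631) (nat_lit 23) (nat_lit 5) (nat_lit 26) (nat_lit 5) (nat_lit 24) (nat_lit 5) (nat_lit 270) (nat_lit 252) (nat_lit 198))) (XT.nd (nat_lit 78) (nat_lit 76) (nat_lit 0) (XT.lf (nat_lit 0) (nat_lit 7379654627) (nat_lit 152) (nat_lit 14307228843) (nat_lit 228) (nat_lit 2849534824) (nat_lit 21) (nat_lit 5) (nat_lit 23) (nat_lit 5) (nat_lit 24) (nat_lit 5) (nat_lit 271) (nat_lit 252) (nat_lit 197)) (XT.lf (nat_lit 0) (nat_lit 752091943) (nat_lit 228) (nat_lit 6417700513) (nat_lit 76) (nat_lit 18674682171) (nat_lit 20) (nat_lit 5) (nat_lit 23) (nat_lit 5) (nat_lit 21)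 (nat_lit 5) (nat_lit 272) (nat_lit 252) (nat_lit 196)))))) (XT.nd (nat_lit 468) (nat_lit 304) (nat_lit 0) (XT.nd (nat_lit 234) (nat_lit 76) (nat_lit 0) (XT.nd (nat_lit 78) (nat_lit 152) (nat_lit 0) (XT.lf (nat_lit 0) (nat_lit 4617933530) (nat_lit 228) (nat_lit 21909788984) (nat_lit 76) (nat_lit 713181413) (nat_lit 18) (nat_lit 5) (nat_lit 21) (nat_lit 5) (nat_lit 19) (nat_lit 5) (nat_lit 273) (nat_lit 252) (nat_lit 195)) (XT.nd (nat_lit 78) (nat_lit 152) (nat_lit 0) (XT.lf (nat_lit 0) (nat_lit 9143115721) (nat_lit 228) (nat_lit 10565066963) (nat_lit 76) (nat_lit 9012907409) (nat_lit 18) (nat_lit 5) (nat_lit 21) (nat_lit 5) (nat_lit 19) (nat_lit 5) (nat_lit 274) (nat_lit 252) (nat_lit 194)) (XT.lf (nat_lit 0) (nat_lit 1752602328) (nat_lit 152) (nat_lit 12304875009) (nat_lit 228) (nat_lit 16260085428) (nat_lit 16) (nat_lit 5) (nat_lit 18) (nat_lit 5) (nat_lit 19) (nat_lit 5) (nat_lit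 275) (nat_lit 252) (nat_lit 193)))) (XT.nd (nat_lit 78) (nat_lit 76) (nat_lit 0) (XT.lf (nat_lit 0) (nat_lit 15634791754) (nat_lit 152) (nat_lit 4004665723) (nat_lit 228) (nat_lit 12380379689) (nat_lit 16) (nat_lit 5) (nat_lit 18) (nat_lit 5) (nat_lit 19) (nat_lit 5) (nat_lit 276) (nat_lit 252) (nat_lit 192)) (XT.nd (nat_lit 78) (nat_lit 76) (nat_lit 0) (XT.lf (nat_lit 0) (nat_lit 25773778586) (nat_lit 228) (nat_lit 3371084109) (nat_lit 76) (nat_lit 4705006631) (nat_lit 16) (nat_lit 5) (nat_lit 19) (nat_lit 5) (nat_lit 17) (nat_lit 4) (nat_lit 277) (nat_lit 252) (nat_lit 191)) (XT.lf (nat_lit 0) (nat_lit 11116563660) (nat_lit 76) (nat_lit 21641157276) (nat_lit 152) (nat_lit 3039908642) (nat_lit 15) (nat_lit 5) (nat_lit 16) (nat_lit 5) (nat_lit 17) (nat_lit 4) (nat_lit 278) (nat_lit 252) (nat_lit 190))))) (XT.nd (nat_lit 234) (nat_lit 76) (nat_lit 0) (XT.nd (nat_lit 78) (nat_lit 152)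 (nat_lit 0) (XT.lf (nat_lit 0) (nat_lit 2361346640) (nat_lit 152) (nat_lit 11018687963) (nat_lit 76) (nat_lit 24510014958) (nat_lit 14) (nat_lit 5) (nat_lit 16) (nat_lit 5) (nat_lit 15) (nat_lit 5) (nat_lit 279) (nat_lit 252) (nat_lit 189)) (XT.nd (nat_lit 78) (nat_lit 0) (nat_lit 0) (XT.lf (nat_lit 0) (nat_lit 3831132643) (nat_lit 152) (nat_lit 4280020102) (nat_lit 228) (nat_lit 32025967181) (nat_lit 12) (nat_lit 5) (nat_lit 14) (nat_lit 5) (nat_lit 15) (nat_lit 5) (nat_lit 280) (nat_lit 252) (nat_lit 188)) (XT.lf (nat_lit 0) (nat_lit 14752272826) (nat_lit 228) (nat_lit 22204050107) (nat_lit 76) (nat_lit 5573152769) (nat_lit 12) (nat_lit 5) (nat_lit 15) (nat_lit 5) (nat_lit 13) (nat_lit 4) (nat_lit 281) (nat_lit 252) (nat_lit 187)))) (XT.nd (nat_lit 156) (nat_lit 0) (nat_lit 0) (XT.nd (nat_lit 78) (nat_lit 76) (nat_lit 0) (XT.lf (nat_lit 0) (nat_lit 22025485568) (nat_lit 228) (nat_lit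 7102277899) (nat_lit 76) (nat_lit 15977416436) (nat_lit 12) (nat_lit 5) (nat_lit 15) (nat_lit 5) (nat_lit 13) (nat_lit 4) (nat_lit 282) (nat_lit 252) (nat_lit 186)) (XT.lf (nat_lit 0) (nat_lit 9675777488) (nat_lit 76) (nat_lit 20427882098) (nat_lit 152) (nat_lit 17765454925) (nat_lit 11) (nat_lit 5) (nat_lit 12) (nat_lit 5) (nat_lit 13) (nat_lit 4) (nat_lit 283) (nat_lit 252) (nat_lit 185))) (XT.nd (nat_lit 78) (nat_lit 0) (nat_lit 0) (XT.lf (nat_lit 0) (nat_lit 28184511999) (nat_lit 76) (nat_lit 10828504709) (nat_lit 152) (nat_lit 11826373594) (nat_lit 11) (nat_lit 5) (nat_lit 12) (nat_lit 5) (nat_lit 13) (nat_lit 4) (nat_lit 284) (nat_lit 252) (nat_lit 184)) (XT.lf (nat_lit 0) (nat_lit 48159613655) (nat_lit 76) (nat_lit 466934967) (nat_lit 152) (nat_lit 5421444652) (nat_lit 11) (nat_lit 5) (nat_lit 12) (nat_lit 5) (nat_lit 13) (nat_lit 4) (nat_lit 285) (nat_lit 252) (nat_lit 183)))))))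 (XT.nd (nat_lit 1014) (nat_lit 228) (nat_lit 0) (XT.nd (nat_lit 468) (nat_lit 228) (nat_lit 0) (XT.nd (nat_lit 234) (nat_lit 76) (nat_lit 0) (XT.nd (nat_lit 78) (nat_lit 0) (nat_lit 0) (XT.lf (nat_lit 0) (nat_lit 1987686971) (nat_lit 152) (nat_lit 44942549375) (nat_lit 76) (nat_lit 10534855477) (nat_lit 9) (nat_lit 5) (nat_lit 11) (nat_lit 5) (nat_lit 10) (nat_lit 4) (nat_lit 286) (nat_lit 252) (nat_lit 182)) (XT.nd (nat_lit 78) (nat_lit 0) (nat_lit 0) (XT.lf (nat_lit 0) (nat_lit 9865948224) (nat_lit 152) (nat_lit 28572471953) (nat_lit 76) (nat_lit 22692344159) (nat_lit 9) (nat_lit 5) (nat_lit 11) (nat_lit 5) (nat_lit 10) (nat_lit 4) (nat_lit 287) (nat_lit 252) (nat_lit 181)) (XT.lf (nat_lit 0) (nat_lit 18367052992) (nat_lit 152) (nat_lit 10905642536) (nat_lit 76) (nat_lit 35817602634) (nat_lit 9) (nat_lit 5) (nat_lit 11) (nat_lit 5) (nat_lit 10) (nat_lit 4) (nat_lit 288) (nat_lit 252)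 (nat_lit 180)))) (XT.nd (nat_lit 78) (nat_lit 0) (nat_lit 0) (XT.lf (nat_lit 0) (nat_lit 8592460890) (nat_lit 76) (nat_lit 19155566195) (nat_lit 152) (nat_lit 41602598212) (nat_lit 8) (nat_lit 5) (nat_lit 9) (nat_lit 5) (nat_lit 10) (nat_lit 4) (nat_lit 289) (nat_lit 252) (nat_lit 179)) (XT.nd (nat_lit 78) (nat_lit 0) (nat_lit 0) (XT.lf (nat_lit 0) (nat_lit 30259025426) (nat_lit 76) (nat_lit 7911995065) (nat_lit 152) (nat_lit 35757446909) (nat_lit 8) (nat_lit 5) (nat_lit 9) (nat_lit 5) (nat_lit 10) (nat_lit 4) (nat_lit 290) (nat_lit 252) (nat_lit 178)) (XT.lf (nat_lit 0) (nat_lit 49523353509) (nat_lit 152) (nat_lit 25326512713) (nat_lit 0) (nat_lit 4015041850) (nat_lit 8) (nat_lit 5) (nat_lit 10) (nat_lit 4) (nat_lit 8) (nat_lit 4) (nat_lit 291) (nat_lit 252) (nat_lit 177))))) (XT.nd (nat_lit 234) (nat_lit 152) (nat_lit 0) (XT.nd (nat_lit 78) (nat_lit 76) (nat_lit 0) (XT.lf (nat_lit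 0) (nat_lit 61983586018) (nat_lit 152) (nat_lit 5731964577) (nat_lit 0) (nat_lit 16464746756) (nat_lit 8) (nat_lit 5) (nat_lit 10) (nat_lit 4) (nat_lit 8) (nat_lit 4) (nat_lit 292) (nat_lit 252) (nat_lit 176)) (XT.nd (nat_lit 78) (nat_lit 0) (nat_lit 0) (XT.lf (nat_lit 0) (nat_lit 16232623516) (nat_lit 76) (nat_lit 59593044229) (nat_lit 76) (nat_lit 14064457187) (nat_lit 7) (nat_lit 4) (nat_lit 8) (nat_lit 5) (nat_lit 8) (nat_lit 4) (nat_lit 293) (nat_lit 252) (nat_lit 175)) (XT.lf (nat_lit 0) (nat_lit 40271056755) (nat_lit 76) (nat_lit 50655590564) (nat_lit 76) (nat_lit 5117977799) (nat_lit 7) (nat_lit 4) (nat_lit 8) (nat_lit 5) (nat_lit 8) (nat_lit 4) (nat_lit 294) (nat_lit 252) (nat_lit 174)))) (XT.nd (nat_lit 156) (nat_lit 76) (nat_lit 0) (XT.nd (nat_lit 78) (nat_lit 0) (nat_lit 0) (XT.lf (nat_lit 0) (nat_lit 4311960725) (nat_lit 152) (nat_lit 36577091606) (nat_lit 76) (nat_lit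 61794092644) (nat_lit 6) (nat_lit 5) (nat_lit 8) (nat_lit 5) (nat_lit 7) (nat_lit 4) (nat_lit 295) (nat_lit 252) (nat_lit 173)) (XT.lf (nat_lit 0) (nat_lit 14215217514) (nat_lit 152) (nat_lit 15986055587) (nat_lit 76) (nat_lit 79641211472) (nat_lit 6) (nat_lit 5) (nat_lit 8) (nat_lit 5) (nat_lit 7) (nat_lit 4) (nat_lit 296) (nat_lit 252) (nat_lit 172))) (XT.nd (nat_lit 78) (nat_lit 0) (nat_lit 0) (XT.lf (nat_lit 0) (nat_lit 6573480242) (nat_lit 76) (nat_lit 18491112627) (nat_lit 152) (nat_lit 92497676370) (nat_lit 5) (nat_lit 5) (nat_lit 6) (nat_lit 5) (nat_lit 7) (nat_lit 4) (nat_lit 297) (nat_lit 252) (nat_lit 171)) (XT.lf (nat_lit 0) (nat_lit 31839497697) (nat_lit 76) (nat_lit 5375408456) (nat_lit 152) (nat_lit 88650097550) (nat_lit 5) (nat_lit 5) (nat_lit 6) (nat_lit 5) (nat_lit 7) (nat_lit 4) (nat_lit 298) (nat_lit 252) (nat_lit 170)))))) (XT.nd (nat_lit 546) (nat_lit 152) (nat_lit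 0) (XT.nd (nat_lit 234) (nat_lit 76) (nat_lit 0) (XT.nd (nat_lit 78) (nat_lit 0) (nat_lit 0) (XT.lf (nat_lit 0) (nat_lit 50544763889) (nat_lit 152) (nat_lit 75923657144) (nat_lit 0) (nat_lit 8346939948) (nat_lit 5) (nat_lit 5) (nat_lit 7) (nat_lit 4) (nat_lit 5) (nat_lit 4) (nat_lit 299) (nat_lit 252) (nat_lit 169)) (XT.nd (nat_lit 78) (nat_lit 0) (nat_lit 0) (XT.lf (nat_lit 0) (nat_lit 65077048328) (nat_lit 152) (nat_lit 56519862696) (nat_lit 0) (nat_lit 22873957965) (nat_lit 5) (nat_lit 5) (nat_lit 7) (nat_lit 4) (nat_lit 5) (nat_lit 4) (nat_lit 300) (nat_lit 252) (nat_lit 168)) (XT.lf (nat_lit 0) (nat_lit 80768598009) (nat_lit 152) (nat_lit 35569858510) (nat_lit 0) (nat_lit 38560631328) (nat_lit 5) (nat_lit 5) (nat_lit 7) (nat_lit 4) (nat_lit 5) (nat_lit 4) (nat_lit 301) (nat_lit 252) (nat_lit 167)))) (XT.nd (nat_lit 156) (nat_lit 0) (nat_lit 0) (XT.nd (nat_lit 78) (nat_lit 76) (nat_lit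 0) (XT.lf (nat_lit 0) (nat_lit 97712399891) (nat_lit 152) (nat_lit 12949496414) (nat_lit 0) (nat_lit 55499918101) (nat_lit 5) (nat_lit 5) (nat_lit 7) (nat_lit 4) (nat_lit 5) (nat_lit 4) (nat_lit 302) (nat_lit 252) (nat_lit 166)) (XT.lf (nat_lit 0) (nat_lit 12079537573) (nat_lit 76) (nat_lit 104219837285) (nat_lit 76) (nat_lit 62003174840) (nat_lit 4) (nat_lit 4) (nat_lit 5) (nat_lit 5) (nat_lit 5) (nat_lit 4) (nat_lit 303) (nat_lit 252) (nat_lit 165))) (XT.nd (nat_lit 78) (nat_lit 0) (nat_lit 0) (XT.lf (nat_lit 0) (nat_lit 39842251414) (nat_lit 76) (nat_lit 96882362574) (nat_lit 76) (nat_lit 54661829151) (nat_lit 4) (nat_lit 4) (nat_lit 5) (nat_lit 5) (nat_lit 5) (nat_lit 4) (nat_lit 304) (nat_lit 252) (nat_lit 164)) (XT.lf (nat_lit 0) (nat_lit 69821267360) (nat_lit 76) (nat_lit 88960053020) (nat_lit 76) (nat_lit 46735935358) (nat_lit 4) (nat_lit 4) (nat_lit 5) (nat_lit 5) (nat_lit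 5) (nat_lit 4) (nat_lit 305) (nat_lit 252) (nat_lit 163))))) (XT.nd (nat_lit 234) (nat_lit 152) (nat_lit 0) (XT.nd (nat_lit 78) (nat_lit 0) (nat_lit 0) (XT.lf (nat_lit 0) (nat_lit 102194238839) (nat_lit 76) (nat_lit 80405961603) (nat_lit 76) (nat_lit 38178525202) (nat_lit 4) (nat_lit 4) (nat_lit 5) (nat_lit 5) (nat_lit 5) (nat_lit 4) (nat_lit 306) (nat_lit 252) (nat_lit 162)) (XT.nd (nat_lit 78) (nat_lit 0) (nat_lit 0) (XT.lf (nat_lit 0) (nat_lit 137153005682) (nat_lit 76) (nat_lit 71169397412) (nat_lit 76) (nat_lit 28938888105) (nat_lit 4) (nat_lit 4) (nat_lit 5) (nat_lit 5) (nat_lit 5) (nat_lit 4) (nat_lit 307) (nat_lit 252) (nat_lit 161)) (XT.lf (nat_lit 0) (nat_lit 174904730952) (nat_lit 76) (nat_lit 61195625252) (nat_lit 76) (nat_lit 18962270660) (nat_lit 4) (nat_lit 4) (nat_lit 5) (nat_lit 5) (nat_lit 5) (nat_lit 4) (nat_lit 308) (nat_lit 252) (nat_lit 160)))) (XT.nd (nat_lit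 156) (nat_lit 76) (nat_lit 0) (XT.nd (nat_lit 78) (nat_lit 76) (nat_lit 0) (XT.lf (nat_lit 0) (nat_lit 215673128576) (nat_lit 76) (nat_lit 50425541287) (nat_lit 76) (nat_lit 8189552173) (nat_lit 4) (nat_lit 4) (nat_lit 5) (nat_lit 5) (nat_lit 5) (nat_lit 4) (nat_lit 309) (nat_lit 252) (nat_lit 159)) (XT.lf (nat_lit 0) (nat_lit 3270867597) (nat_lit 152) (nat_lit 35435023883) (nat_lit 76) (nat_lit 256339490145) (nat_lit 3) (nat_lit 5) (nat_lit 5) (nat_lit 5) (nat_lit 4) (nat_lit 4) (nat_lit 310) (nat_lit 252) (nat_lit 158))) (XT.nd (nat_lit 78) (nat_lit 76) (nat_lit 0) (XT.lf (nat_lit 0) (nat_lit 15204020422) (nat_lit 152) (nat_lit 10616324685) (nat_lit 76) (nat_lit 291625885845) (nat_lit 3) (nat_lit 5) (nat_lit 5) (nat_lit 5) (nat_lit 4) (nat_lit 4) (nat_lit 311) (nat_lit 252) (nat_lit 157)) (XT.lf (nat_lit 0) (nat_lit 17037312190) (nat_lit 76) (nat_lit 11462731426) (nat_lit 152) (nat_lit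 313106449067) (nat_lit 2) (nat_lit 5) (nat_lit 3) (nat_lit 5) (nat_lit 4) (nat_lit 4) (nat_lit 312) (nat_lit 252) (nat_lit 156))))))))
noncomputable def xc73 : XT := (XT.nd (nat_lit 2028) (nat_lit 76) (nat_lit 0) (XT.nd (nat_lit 1014) (nat_lit 0) (nat_lit 0) (XT.nd (nat_lit 468) (nat_lit 0) (nat_lit 0) (XT.nd (nat_lit 234) (nat_lit 0) (nat_lit 0) (XT.nd (nat_lit 78) (nat_lit 0) (nat_lit 0) (XT.lf (nat_lit 0) (nat_lit 43253289814) (nat_lit 152) (nat_lit 320276991040) (nat_lit 0) (nat_lit 4137812975) (nat_lit 2) (nat_lit 5) (nat_lit 4) (nat_lit 4) (nat_lit 2) (nat_lit 4) (nat_lit 313) (nat_lit 252) (nat_lit 155)) (XT.nd (nat_lit 78) (nat_lit 0) (nat_lit 0) (XT.lf (nat_lit 0) (nat_lit 59483127597) (nat_lit 152) (nat_lit 315941799993) (nat_lit 0) (nat_lit 20365990562) (nat_lit 2) (nat_lit 5) (nat_lit 4) (nat_lit 4) (nat_lit 2) (nat_lit 4) (nat_lit 314) (nat_lit 252) (nat_lit 154)) (XT.lf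 (nat_lit 0) (nat_lit 77010054816) (nat_lit 152) (nat_lit 311262238367) (nat_lit 0) (nat_lit 37891380563) (nat_lit 2) (nat_lit 5) (nat_lit 4) (nat_lit 4) (nat_lit 2) (nat_lit 4) (nat_lit 315) (nat_lit 252) (nat_lit 153)))) (XT.nd (nat_lit 78) (nat_lit 0) (nat_lit 0) (XT.lf (nat_lit 0) (nat_lit 95937934743) (nat_lit 152) (nat_lit 306210575425) (nat_lit 0) (nat_lit 56817837139) (nat_lit 2) (nat_lit 5) (nat_lit 4) (nat_lit 4) (nat_lit 2) (nat_lit 4) (nat_lit 316) (nat_lit 252) (nat_lit 152)) (XT.nd (nat_lit 78) (nat_lit 0) (nat_lit 0) (XT.lf (nat_lit 0) (nat_lit 116378932592) (nat_lit 152) (nat_lit 300756875387) (nat_lit 0) (nat_lit 77257517071) (nat_lit 2) (nat_lit 5) (nat_lit 4) (nat_lit 4) (nat_lit 2) (nat_lit 4) (nat_lit 317) (nat_lit 252) (nat_lit 151)) (XT.lf (nat_lit 0) (nat_lit 138454180203) (nat_lit 152) (nat_lit 294868820030) (nat_lit 0) (nat_lit 99331544388) (nat_lit 2) (nat_lit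 5) (nat_lit 4) (nat_lit 4) (nat_lit 2) (nat_lit 4) (nat_lit 318) (nat_lit 252) (nat_lit 150))))) (XT.nd (nat_lit 234) (nat_lit 0) (nat_lit 0) (XT.nd (nat_lit 78) (nat_lit 0) (nat_lit 0) (XT.lf (nat_lit 0) (nat_lit 162294493857) (nat_lit 152) (nat_lit 288511517174) (nat_lit 0) (nat_lit 123170728141) (nat_lit 2) (nat_lit 5) (nat_lit 4) (nat_lit 4) (nat_lit 2) (nat_lit 4) (nat_lit 319) (nat_lit 252) (nat_lit 149)) (XT.nd (nat_lit 78) (nat_lit 0) (nat_lit 0) (XT.lf (nat_lit 0) (nat_lit 188041149488) (nat_lit 152) (nat_lit 281647293915) (nat_lit 0) (nat_lit 148916337567) (nat_lit 2) (nat_lit 5) (nat_lit 4) (nat_lit 4) (nat_lit 2) (nat_lit 4) (nat_lit 320) (nat_lit 252) (nat_lit 148)) (XT.lf (nat_lit 0) (nat_lit 215846719870) (nat_lit 152) (nat_lit 274235473373) (nat_lit 0) (nat_lit 176720939240) (nat_lit 2) (nat_lit 5) (nat_lit 4) (nat_lit 4) (nat_lit 2) (nat_lit 4) (nat_lit 321) (nat_lit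 252) (nat_lit 147)))) (XT.nd (nat_lit 156) (nat_lit 0) (nat_lit 0) (XT.nd (nat_lit 78) (nat_lit 0) (nat_lit 0) (XT.lf (nat_lit 0) (nat_lit 245875978752) (nat_lit 152) (nat_lit 266232133648) (nat_lit 0) (nat_lit 206749301170) (nat_lit 2) (nat_lit 5) (nat_lit 4) (nat_lit 4) (nat_lit 2) (nat_lit 4) (nat_lit 322) (nat_lit 252) (nat_lit 146)) (XT.lf (nat_lit 0) (nat_lit 278306877299) (nat_lit 152) (nat_lit 257589847543) (nat_lit 0) (nat_lit 239179369206) (nat_lit 2) (nat_lit 5) (nat_lit 4) (nat_lit 4) (nat_lit 2) (nat_lit 4) (nat_lit 323) (nat_lit 252) (nat_lit 145))) (XT.nd (nat_lit 78) (nat_lit 0) (nat_lit 0) (XT.lf (nat_lit 0) (nat_lit 313331598614) (nat_lit 152) (nat_lit 248257401509) (nat_lit 0) (nat_lit 274203321529) (nat_lit 2) (nat_lit 5) (nat_lit 4) (nat_lit 4) (nat_lit 2) (nat_lit 4) (nat_lit 324) (nat_lit 252) (nat_lit 144)) (XT.lf (nat_lit 0) (nat_lit 351157696600) (nat_lit 152)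 (nat_lit 238179492164) (nat_lit 0) (nat_lit 312028707485) (nat_lit 2) (nat_lit 5) (nat_lit 4) (nat_lit 4) (nat_lit 2) (nat_lit 4) (nat_lit 325) (nat_lit 252) (nat_lit 143)))))) (XT.nd (nat_lit 468) (nat_lit 0) (nat_lit 0) (XT.nd (nat_lit 234) (nat_lit 0) (nat_lit 0) (XT.nd (nat_lit 78) (nat_lit 0) (nat_lit 0) (XT.lf (nat_lit 0) (nat_lit 392009325911) (nat_lit 152) (nat_lit 227296398563) (nat_lit 0) (nat_lit 352879677510) (nat_lit 2) (nat_lit 5) (nat_lit 4) (nat_lit 4) (nat_lit 2) (nat_lit 4) (nat_lit 326) (nat_lit 252) (nat_lit 142)) (XT.nd (nat_lit 78) (nat_lit 0) (nat_lit 0) (XT.lf (nat_lit 0) (nat_lit 436128570278) (nat_lit 152) (nat_lit 215543628299) (nat_lit 0) (nat_lit 396998311427) (nat_lit 2) (nat_lit 5) (nat_lit 4) (nat_lit 4) (nat_lit 2) (nat_lit 4) (nat_lit 327) (nat_lit 252) (nat_lit 141)) (XT.lf (nat_lit 0) (nat_lit 483776877075) (nat_lit 152) (nat_lit 202851535326) (nat_lit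 0) (nat_lit 444646052991) (nat_lit 2) (nat_lit 5) (nat_lit 4) (nat_lit 4) (nat_lit 2) (nat_lit 4) (nat_lit 328) (nat_lit 252) (nat_lit 140)))) (XT.nd (nat_lit 78) (nat_lit 0) (nat_lit 0) (XT.lf (nat_lit 0) (nat_lit 535236606637) (nat_lit 152) (nat_lit 189144907242) (nat_lit 0) (nat_lit 496105259190) (nat_lit 2) (nat_lit 5) (nat_lit 4) (nat_lit 4) (nat_lit 2) (nat_lit 4) (nat_lit 329) (nat_lit 252) (nat_lit 139)) (XT.nd (nat_lit 78) (nat_lit 0) (nat_lit 0) (XT.lf (nat_lit 0) (nat_lit 590812705511) (nat_lit 152) (nat_lit 174342519583) (nat_lit 0) (nat_lit 551680873469) (nat_lit 2) (nat_lit 5) (nat_lit 4) (nat_lit 4) (nat_lit 2) (nat_lit 4) (nat_lit 330) (nat_lit 252) (nat_lit 138)) (XT.lf (nat_lit 0) (nat_lit 650834513541) (nat_lit 152) (nat_lit 158356654498) (nat_lit 0) (nat_lit 611702232800) (nat_lit 2) (nat_lit 5) (nat_lit 4) (nat_lit 4) (nat_lit 2) (nat_lit 4) (nat_lit 331) (nat_lit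 252) (nat_lit 137))))) (XT.nd (nat_lit 234) (nat_lit 0) (nat_lit 0) (XT.nd (nat_lit 78) (nat_lit 0) (nat_lit 0) (XT.lf (nat_lit 0) (nat_lit 715657715517) (nat_lit 152) (nat_lit 141092580933) (nat_lit 0) (nat_lit 676525019313) (nat_lit 2) (nat_lit 5) (nat_lit 4) (nat_lit 4) (nat_lit 2) (nat_lit 4) (nat_lit 332) (nat_lit 252) (nat_lit 136)) (XT.nd (nat_lit 78) (nat_lit 0) (nat_lit 0) (XT.lf (nat_lit 0) (nat_lit 785666448930) (nat_lit 152) (nat_lit 122447993268) (nat_lit 0) (nat_lit 746533368039) (nat_lit 2) (nat_lit 5) (nat_lit 4) (nat_lit 4) (nat_lit 2) (nat_lit 4) (nat_lit 333) (nat_lit 252) (nat_lit 135)) (XT.lf (nat_lit 0) (nat_lit 861275580350) (nat_lit 152) (nat_lit 102312405057) (nat_lit 0) (nat_lit 822142143267) (nat_lit 2) (nat_lit 5) (nat_lit 4) (nat_lit 4) (nat_lit 2) (nat_lit 4) (nat_lit 334) (nat_lit 252) (nat_lit 134)))) (XT.nd (nat_lit 156) (nat_lit 0) (nat_lit 0) (XT.nd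 (nat_lit 78) (nat_lit 0) (nat_lit 0) (XT.lf (nat_lit 0) (nat_lit 942933163889) (nat_lit 152) (nat_lit 80566494296) (nat_lit 0) (nat_lit 903799396998) (nat_lit 2) (nat_lit 5) (nat_lit 4) (nat_lit 4) (nat_lit 2) (nat_lit 4) (nat_lit 335) (nat_lit 252) (nat_lit 133)) (XT.lf (nat_lit 0) (nat_lit 1031123096337) (nat_lit 152) (nat_lit 57081396328) (nat_lit 0) (nat_lit 991989024069) (nat_lit 2) (nat_lit 5) (nat_lit 4) (nat_lit 4) (nat_lit 2) (nat_lit 4) (nat_lit 336) (nat_lit 252) (nat_lit 132))) (XT.nd (nat_lit 78) (nat_lit 0) (nat_lit 0) (XT.lf (nat_lit 0) (nat_lit 1126367984703) (nat_lit 152) (nat_lit 31717940203) (nat_lit 0) (nat_lit 1087233629678) (nat_lit 2) (nat_lit 5) (nat_lit 4) (nat_lit 4) (nat_lit 2) (nat_lit 4) (nat_lit 337) (nat_lit 252) (nat_lit 131)) (XT.lf (nat_lit 0) (nat_lit 1229232243139) (nat_lit 152) (nat_lit 4325823958) (nat_lit 0) (nat_lit 1190097626302) (nat_lit 2)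 (nat_lit 5) (nat_lit 4) (nat_lit 4) (nat_lit 2) (nat_lit 4) (nat_lit 338) (nat_lit 252) (nat_lit 130))))))) (XT.nd (nat_lit 31668) (nat_lit 0) (nat_lit 1140) (XT.nd (nat_lit 31122) (nat_lit 0) (nat_lit 2280) (XT.nd (nat_lit 30888) (nat_lit 0) (nat_lit 2736) (XT.nd (nat_lit 78) (nat_lit 0) (nat_lit 0) (XT.lf (nat_lit 0) (nat_lit 26587279455) (nat_lit 76) (nat_lit 1314377582876) (nat_lit 76) (nat_lit 1275242723621) (nat_lit 1) (nat_lit 4) (nat_lit 2) (nat_lit 5) (nat_lit 2) (nat_lit 4) (nat_lit 339) (nat_lit 252) (nat_lit 129)) (XT.nd (nat_lit 30732) (nat_lit 0) (nat_lit 2736) (XT.lf (nat_lit 0) (nat_lit 60219068816) (nat_lit 76) (nat_lit 1401535099429) (nat_lit 76) (nat_lit 1362400015712) (nat_lit 1) (nat_lit 4) (nat_lit 2) (nat_lit 5) (nat_lit 2) (nat_lit 4) (nat_lit 340) (nat_lit 252) (nat_lit 128)) (XT.lf (nat_lit 0) (nat_lit 303357548) (nat_lit 532) (nat_lit 2722887709) (nat_lit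 532) (nat_lit 2722887709) (nat_lit 37) (nat_lit 3) (nat_lit 44) (nat_lit 3) (nat_lit 44) (nat_lit 5) (nat_lit 253) (nat_lit 253) (nat_lit 214)))) (XT.nd (nat_lit 78) (nat_lit 0) (nat_lit 76) (XT.lf (nat_lit 0) (nat_lit 1103007551) (nat_lit 532) (nat_lit 441506317) (nat_lit 532) (nat_lit 10373666654) (nat_lit 37) (nat_lit 3) (nat_lit 44) (nat_lit 3) (nat_lit 44) (nat_lit 5) (nat_lit 254) (nat_lit 253) (nat_lit 213)) (XT.nd (nat_lit 78) (nat_lit 0) (nat_lit 0) (XT.lf (nat_lit 0) (nat_lit 1800489254) (nat_lit 456) (nat_lit 7251913551) (nat_lit 532) (nat_lit 3306592132) (nat_lit 38) (nat_lit 5) (nat_lit 44) (nat_lit 5) (nat_lit 45) (nat_lit 5) (nat_lit 255) (nat_lit 253) (nat_lit 212)) (XT.lf (nat_lit 0) (nat_lit 2562410129) (nat_lit 456) (nat_lit 1779061103) (nat_lit 532) (nat_lit 8493120836) (nat_lit 38) (nat_lit 5) (nat_lit 44) (nat_lit 5) (nat_lit 45) (nat_lit 5) (nat_lit 256) (nat_lit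 253) (nat_lit 211))))) (XT.nd (nat_lit 234) (nat_lit 608) (nat_lit 0) (XT.nd (nat_lit 78) (nat_lit 0) (nat_lit 0) (XT.lf (nat_lit 0) (nat_lit 3469560996) (nat_lit 456) (nat_lit 9043605755) (nat_lit 532) (nat_lit 828521462) (nat_lit 39) (nat_lit 5) (nat_lit 45) (nat_lit 5) (nat_lit 46) (nat_lit 5) (nat_lit 257) (nat_lit 253) (nat_lit 210)) (XT.nd (nat_lit 78) (nat_lit 0) (nat_lit 0) (XT.lf (nat_lit 0) (nat_lit 4574003843) (nat_lit 456) (nat_lit 3066779839) (nat_lit 532) (nat_lit 6238769804) (nat_lit 39) (nat_lit 5) (nat_lit 45) (nat_lit 5) (nat_lit 46) (nat_lit 5) (nat_lit 258) (nat_lit 253) (nat_lit 209)) (XT.lf (nat_lit 76) (nat_lit 3537499852) (nat_lit 0) (nat_lit 2279238752) (nat_lit 532) (nat_lit 8639880221) (nat_lit 40) (nat_lit 5) (nat_lit 39) (nat_lit 5) (nat_lit 46) (nat_lit 5) (nat_lit 259) (nat_lit 253) (nat_lit 208)))) (XT.nd (nat_lit 156) (nat_lit 228) (nat_lit 0) (XT.nd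 (nat_lit 78) (nat_lit 456) (nat_lit 0) (XT.lf (nat_lit 0) (nat_lit 7296330694) (nat_lit 456) (nat_lit 4345142566) (nat_lit 76) (nat_lit 3427534535) (nat_lit 40) (nat_lit 5) (nat_lit 46) (nat_lit 5) (nat_lit 41) (nat_lit 5) (nat_lit 260) (nat_lit 253) (nat_lit 207)) (XT.lf (nat_lit 0) (nat_lit 2808340552) (nat_lit 456) (nat_lit 6182102594) (nat_lit 532) (nat_lit 6732394614) (nat_lit 34) (nat_lit 5) (nat_lit 40) (nat_lit 5) (nat_lit 41) (nat_lit 5) (nat_lit 261) (nat_lit 253) (nat_lit 206))) (XT.nd (nat_lit 78) (nat_lit 228) (nat_lit 0) (XT.lf (nat_lit 0) (nat_lit 10754220602) (nat_lit 456) (nat_lit 155695847) (nat_lit 532) (nat_lit 5512002714) (nat_lit 34) (nat_lit 5) (nat_lit 40) (nat_lit 5) (nat_lit 41) (nat_lit 5) (nat_lit 262) (nat_lit 253) (nat_lit 205)) (XT.lf (nat_lit 0) (nat_lit 2082949746) (nat_lit 228) (nat_lit 11076096505) (nat_lit 304) (nat_lit 4003914781) (nat_lit 31) (nat_lit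 5) (nat_lit 34) (nat_lit 5) (nat_lit 35) (nat_lit 5) (nat_lit 263) (nat_lit 253) (nat_lit 204)))))) (XT.nd (nat_lit 546) (nat_lit 532) (nat_lit 0) (XT.nd (nat_lit 234) (nat_lit 380) (nat_lit 0) (XT.nd (nat_lit 78) (nat_lit 228) (nat_lit 0) (XT.lf (nat_lit 0) (nat_lit 10745105001) (nat_lit 228) (nat_lit 4976469865) (nat_lit 304) (nat_lit 2231146726) (nat_lit 31) (nat_lit 5) (nat_lit 34) (nat_lit 5) (nat_lit 35) (nat_lit 5) (nat_lit 264) (nat_lit 253) (nat_lit 203)) (XT.nd (nat_lit 78) (nat_lit 76) (nat_lit 0) (XT.lf (nat_lit 0) (nat_lit 1293944332) (nat_lit 152) (nat_lit 17241448416) (nat_lit 228) (nat_lit 266671751) (nat_lit 29) (nat_lit 5) (nat_lit 31) (nat_lit 5) (nat_lit 32) (nat_lit 5) (nat_lit 265) (nat_lit 253) (nat_lit 202)) (XT.lf (nat_lit 0) (nat_lit 2070482944) (nat_lit 228) (nat_lit 9024285274) (nat_lit 76) (nat_lit 8596442078) (nat_lit 28) (nat_lit 5) (nat_lit 31) (nat_lit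 5) (nat_lit 29) (nat_lit 5) (nat_lit 266) (nat_lit 253) (nat_lit 201)))) (XT.nd (nat_lit 156) (nat_lit 152) (nat_lit 0) (XT.nd (nat_lit 78) (nat_lit 0) (nat_lit 0) (XT.lf (nat_lit 0) (nat_lit 111694960) (nat_lit 228) (nat_lit 4449775374) (nat_lit 304) (nat_lit 16091044823) (nat_lit 25) (nat_lit 5) (nat_lit 28) (nat_lit 5) (nat_lit 29) (nat_lit 5) (nat_lit 267) (nat_lit 253) (nat_lit 200)) (XT.lf (nat_lit 0) (nat_lit 7549942038) (nat_lit 304) (nat_lit 11277395739) (nat_lit 76) (nat_lit 2839606984) (nat_lit 25) (nat_lit 5) (nat_lit 29) (nat_lit 5) (nat_lit 26) (nat_lit 5) (nat_lit 268) (nat_lit 253) (nat_lit 199))) (XT.nd (nat_lit 78) (nat_lit 152) (nat_lit 0) (XT.lf (nat_lit 0) (nat_lit 10874066845) (nat_lit 304) (nat_lit 1412729981) (nat_lit 76) (nat_lit 10468076973) (nat_lit 25) (nat_lit 5) (nat_lit 29) (nat_lit 5) (nat_lit 26) (nat_lit 5) (nat_lit 269) (nat_lit 253) (nat_lit 198))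 (XT.lf (nat_lit 0) (nat_lit 9704089413) (nat_lit 152) (nat_lit 4975820237) (nat_lit 228) (nat_lit 9232730297) (nat_lit 23) (nat_lit 5) (nat_lit 25) (nat_lit 5) (nat_lit 26) (nat_lit 5) (nat_lit 270) (nat_lit 253) (nat_lit 197))))) (XT.nd (nat_lit 234) (nat_lit 304) (nat_lit 0) (XT.nd (nat_lit 78) (nat_lit 228) (nat_lit 0) (XT.lf (nat_lit 0) (nat_lit 18883136044) (nat_lit 228) (nat_lit 3463743318) (nat_lit 76) (nat_lit 2808775683) (nat_lit 23) (nat_lit 5) (nat_lit 26) (nat_lit 5) (nat_lit 24) (nat_lit 5) (nat_lit 271) (nat_lit 253) (nat_lit 196)) (XT.nd (nat_lit 78) (nat_lit 76) (nat_lit 0) (XT.lf (nat_lit 0) (nat_lit 8410686090) (nat_lit 152) (nat_lit 15327768039) (nat_lit 228) (nat_lit 2734446972) (nat_lit 21) (nat_lit 5) (nat_lit 23) (nat_lit 5) (nat_lit 24) (nat_lit 5) (nat_lit 272) (nat_lit 253) (nat_lit 195)) (XT.lf (nat_lit 0) (nat_lit 1114009165) (nat_lit 228) (nat_lit 6506265282)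 (nat_lit 76) (nat_lit 20266674181) (nat_lit 20) (nat_lit 5) (nat_lit 23) (nat_lit 5) (nat_lit 21) (nat_lit 5) (nat_lit 273) (nat_lit 253) (nat_lit 194)))) (XT.nd (nat_lit 156) (nat_lit 152) (nat_lit 0) (XT.nd (nat_lit 78) (nat_lit 0) (nat_lit 0) (XT.lf (nat_lit 0) (nat_lit 5279725208) (nat_lit 228) (nat_lit 23227453905) (nat_lit 76) (nat_lit 888734512) (nat_lit 18) (nat_lit 5) (nat_lit 21) (nat_lit 5) (nat_lit 19) (nat_lit 5) (nat_lit 274) (nat_lit 253) (nat_lit 193)) (XT.lf (nat_lit 0) (nat_lit 10145265901) (nat_lit 228) (nat_lit 11007385101) (nat_lit 76) (nat_lit 9843660914) (nat_lit 18) (nat_lit 5) (nat_lit 21) (nat_lit 5) (nat_lit 19) (nat_lit 5) (nat_lit 275) (nat_lit 253) (nat_lit 192))) (XT.nd (nat_lit 78) (nat_lit 0) (nat_lit 0) (XT.lf (nat_lit 0) (nat_lit 2285498058) (nat_lit 152) (nat_lit 13156670613) (nat_lit 228) (nat_lit 17279242302) (nat_lit 16) (nat_lit 5) (nat_lit 18)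 (nat_lit 5) (nat_lit 19) (nat_lit 5) (nat_lit 276) (nat_lit 253) (nat_lit 191)) (XT.lf (nat_lit 0) (nat_lit 17249174672) (nat_lit 152) (nat_lit 4202266392) (nat_lit 228) (nat_lit 13110023064) (nat_lit 16) (nat_lit 5) (nat_lit 18) (nat_lit 5) (nat_lit 19) (nat_lit 5) (nat_lit 277) (nat_lit 253) (nat_lit 190))))))))
noncomputable def xc74 : XT := (XT.nd (nat_lit 2028) (nat_lit 228) (nat_lit 0) (XT.nd (nat_lit 1014) (nat_lit 228) (nat_lit 0) (XT.nd (nat_lit 468) (nat_lit 304) (nat_lit 0) (XT.nd (nat_lit 234) (nat_lit 152) (nat_lit 0) (XT.nd (nat_lit 78) (nat_lit 152) (nat_lit 0) (XT.lf (nat_lit 0) (nat_lit 28061402791) (nat_lit 228) (nat_lit 3288357036) (nat_lit 76) (nat_lit 5189398835) (nat_lit 16) (nat_lit 5) (nat_lit 19) (nat_lit 5) (nat_lit 17) (nat_lit 4) (nat_lit 278) (nat_lit 253) (nat_lit 189)) (XT.nd (nat_lit 78) (nat_lit 76) (nat_lit 0) (XT.lf (nat_lit 0) (nat_lit 12349380687)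 (nat_lit 76) (nat_lit 23246220690) (nat_lit 152) (nat_lit 3047862679) (nat_lit 15) (nat_lit 5) (nat_lit 16) (nat_lit 5) (nat_lit 17) (nat_lit 4) (nat_lit 279) (nat_lit 253) (nat_lit 188)) (XT.lf (nat_lit 0) (nat_lit 2757172023) (nat_lit 152) (nat_lit 11570728993) (nat_lit 76) (nat_lit 26576289094) (nat_lit 14) (nat_lit 5) (nat_lit 16) (nat_lit 5) (nat_lit 15) (nat_lit 5) (nat_lit 280) (nat_lit 253) (nat_lit 187)))) (XT.nd (nat_lit 78) (nat_lit 0) (nat_lit 0) (XT.lf (nat_lit 0) (nat_lit 4458736653) (nat_lit 152) (nat_lit 4500621515) (nat_lit 228) (nat_lit 34372314070) (nat_lit 12) (nat_lit 5) (nat_lit 14) (nat_lit 5) (nat_lit 15) (nat_lit 5) (nat_lit 281) (nat_lit 253) (nat_lit 186)) (XT.nd (nat_lit 78) (nat_lit 0) (nat_lit 0) (XT.lf (nat_lit 0) (nat_lit 16119716228) (nat_lit 228) (nat_lit 23670558021) (nat_lit 76) (nat_lit 6126141339) (nat_lit 12) (nat_lit 5) (nat_lit 15) (nat_lit 5)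 (nat_lit 13) (nat_lit 4) (nat_lit 282) (nat_lit 253) (nat_lit 185)) (XT.lf (nat_lit 0) (nat_lit 23960914761) (nat_lit 228) (nat_lit 7383593377) (nat_lit 76) (nat_lit 17354810073) (nat_lit 12) (nat_lit 5) (nat_lit 15) (nat_lit 5) (nat_lit 13) (nat_lit 4) (nat_lit 283) (nat_lit 253) (nat_lit 184))))) (XT.nd (nat_lit 234) (nat_lit 228) (nat_lit 0) (XT.nd (nat_lit 78) (nat_lit 0) (nat_lit 0) (XT.lf (nat_lit 0) (nat_lit 10729443992) (nat_lit 76) (nat_lit 21949779468) (nat_lit 152) (nat_lit 19005663655) (nat_lit 11) (nat_lit 5) (nat_lit 12) (nat_lit 5) (nat_lit 13) (nat_lit 4) (nat_lit 284) (nat_lit 253) (nat_lit 183)) (XT.nd (nat_lit 78) (nat_lit 0) (nat_lit 0) (XT.lf (nat_lit 0) (nat_lit 30698165834) (nat_lit 76) (nat_lit 11590772867) (nat_lit 152) (nat_lit 12604865274) (nat_lit 11) (nat_lit 5) (nat_lit 12) (nat_lit 5) (nat_lit 13) (nat_lit 4) (nat_lit 285) (nat_lit 253) (nat_lit 182))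 (XT.lf (nat_lit 0) (nat_lit 52252098373) (nat_lit 76) (nat_lit 407982154) (nat_lit 152) (nat_lit 5699958180) (nat_lit 11) (nat_lit 5) (nat_lit 12) (nat_lit 5) (nat_lit 13) (nat_lit 4) (nat_lit 286) (nat_lit 253) (nat_lit 181)))) (XT.nd (nat_lit 156) (nat_lit 76) (nat_lit 0) (XT.nd (nat_lit 78) (nat_lit 0) (nat_lit 0) (XT.lf (nat_lit 0) (nat_lit 2291412233) (nat_lit 152) (nat_lit 48287172839) (nat_lit 76) (nat_lit 11471861735) (nat_lit 9) (nat_lit 5) (nat_lit 11) (nat_lit 5) (nat_lit 10) (nat_lit 4) (nat_lit 287) (nat_lit 253) (nat_lit 180)) (XT.lf (nat_lit 0) (nat_lit 10789215103) (nat_lit 152) (nat_lit 30626065555) (nat_lit 76) (nat_lit 24594970413) (nat_lit 9) (nat_lit 5) (nat_lit 11) (nat_lit 5) (nat_lit 10) (nat_lit 4) (nat_lit 288) (nat_lit 253) (nat_lit 179))) (XT.nd (nat_lit 78) (nat_lit 76) (nat_lit 0) (XT.lf (nat_lit 0) (nat_lit 19960482993) (nat_lit 152) (nat_lit 11563090093)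 (nat_lit 76) (nat_lit 38763787439) (nat_lit 9) (nat_lit 5) (nat_lit 11) (nat_lit 5) (nat_lit 10) (nat_lit 4) (nat_lit 289) (nat_lit 253) (nat_lit 178)) (XT.lf (nat_lit 0) (nat_lit 9489418472) (nat_lit 76) (nat_lit 20598366425) (nat_lit 152) (nat_lit 44801078441) (nat_lit 8) (nat_lit 5) (nat_lit 9) (nat_lit 5) (nat_lit 10) (nat_lit 4) (nat_lit 290) (nat_lit 253) (nat_lit 177)))))) (XT.nd (nat_lit 468) (nat_lit 76) (nat_lit 0) (XT.nd (nat_lit 234) (nat_lit 152) (nat_lit 0) (XT.nd (nat_lit 78) (nat_lit 0) (nat_lit 0) (XT.lf (nat_lit 0) (nat_lit 32873785156) (nat_lit 76) (nat_lit 8461949979) (nat_lit 152) (nat_lit 38497924488) (nat_lit 8) (nat_lit 5) (nat_lit 9) (nat_lit 5) (nat_lit 10) (nat_lit 4) (nat_lit 291) (nat_lit 253) (nat_lit 176)) (XT.nd (nat_lit 78) (nat_lit 0) (nat_lit 0) (XT.lf (nat_lit 0) (nat_lit 53589878521) (nat_lit 152) (nat_lit 27166405396) (nat_lit 0) (nat_lit 4409256735)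 (nat_lit 8) (nat_lit 5) (nat_lit 10) (nat_lit 4) (nat_lit 8) (nat_lit 4) (nat_lit 292) (nat_lit 253) (nat_lit 175)) (XT.lf (nat_lit 0) (nat_lit 67039177279) (nat_lit 152) (nat_lit 6018088101) (nat_lit 0) (nat_lit 17849529771) (nat_lit 8) (nat_lit 5) (nat_lit 10) (nat_lit 4) (nat_lit 8) (nat_lit 4) (nat_lit 293) (nat_lit 253) (nat_lit 174)))) (XT.nd (nat_lit 78) (nat_lit 76) (nat_lit 0) (XT.lf (nat_lit 0) (nat_lit 17699301631) (nat_lit 76) (nat_lit 64286187858) (nat_lit 76) (nat_lit 15088183199) (nat_lit 7) (nat_lit 4) (nat_lit 8) (nat_lit 5) (nat_lit 8) (nat_lit 4) (nat_lit 294) (nat_lit 253) (nat_lit 173)) (XT.nd (nat_lit 78) (nat_lit 76) (nat_lit 0) (XT.lf (nat_lit 0) (nat_lit 43648360030) (nat_lit 76) (nat_lit 54639241596) (nat_lit 76) (nat_lit 5433498835) (nat_lit 7) (nat_lit 4) (nat_lit 8) (nat_lit 5) (nat_lit 8) (nat_lit 4) (nat_lit 295) (nat_lit 253) (nat_lit 172)) (XT.lf (nat_lit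 0) (nat_lit 4739527833) (nat_lit 152) (nat_lit 39354689777) (nat_lit 76) (nat_lit 66796842516) (nat_lit 6) (nat_lit 5) (nat_lit 8) (nat_lit 5) (nat_lit 7) (nat_lit 4) (nat_lit 296) (nat_lit 253) (nat_lit 171))))) (XT.nd (nat_lit 234) (nat_lit 0) (nat_lit 0) (XT.nd (nat_lit 78) (nat_lit 76) (nat_lit 0) (XT.lf (nat_lit 0) (nat_lit 15428925887) (nat_lit 152) (nat_lit 17127375998) (nat_lit 76) (nat_lit 86067344002) (nat_lit 6) (nat_lit 5) (nat_lit 8) (nat_lit 5) (nat_lit 7) (nat_lit 4) (nat_lit 297) (nat_lit 253) (nat_lit 170)) (XT.nd (nat_lit 78) (nat_lit 0) (nat_lit 0) (XT.lf (nat_lit 0) (nat_lit 7233440063) (nat_lit 76) (nat_lit 19910369871) (nat_lit 152) (nat_lit 99817407453) (nat_lit 5) (nat_lit 5) (nat_lit 6) (nat_lit 5) (nat_lit 7) (nat_lit 4) (nat_lit 298) (nat_lit 253) (nat_lit 169)) (XT.lf (nat_lit 0) (nat_lit 34510806959) (nat_lit 76) (nat_lit 5749856163) (nat_lit 152) (nat_lit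 95667954404) (nat_lit 5) (nat_lit 5) (nat_lit 6) (nat_lit 5) (nat_lit 7) (nat_lit 4) (nat_lit 299) (nat_lit 253) (nat_lit 168)))) (XT.nd (nat_lit 156) (nat_lit 0) (nat_lit 0) (XT.nd (nat_lit 78) (nat_lit 0) (nat_lit 0) (XT.lf (nat_lit 0) (nat_lit 54653068424) (nat_lit 152) (nat_lit 81878661661) (nat_lit 0) (nat_lit 9063588091) (nat_lit 5) (nat_lit 5) (nat_lit 7) (nat_lit 4) (nat_lit 5) (nat_lit 4) (nat_lit 300) (nat_lit 253) (nat_lit 167)) (XT.lf (nat_lit 0) (nat_lit 70343141290) (nat_lit 152) (nat_lit 60931370179) (nat_lit 0) (nat_lit 24749145850) (nat_lit 5) (nat_lit 5) (nat_lit 7) (nat_lit 4) (nat_lit 5) (nat_lit 4) (nat_lit 301) (nat_lit 253) (nat_lit 166))) (XT.nd (nat_lit 78) (nat_lit 0) (nat_lit 0) (XT.lf (nat_lit 0) (nat_lit 87285575752) (nat_lit 152) (nat_lit 38313519847) (nat_lit 0) (nat_lit 41687399656) (nat_lit 5) (nat_lit 5) (nat_lit 7) (nat_lit 4) (nat_lit 5) (nat_lit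 4) (nat_lit 302) (nat_lit 253) (nat_lit 165)) (XT.lf (nat_lit 0) (nat_lit 105580771422) (nat_lit 152) (nat_lit 13891078957) (nat_lit 0) (nat_lit 59978724348) (nat_lit 5) (nat_lit 5) (nat_lit 7) (nat_lit 4) (nat_lit 5) (nat_lit 4) (nat_lit 303) (nat_lit 253) (nat_lit 164))))))) (XT.nd (nat_lit 1014) (nat_lit 0) (nat_lit 0) (XT.nd (nat_lit 468) (nat_lit 152) (nat_lit 0) (XT.nd (nat_lit 234) (nat_lit 0) (nat_lit 0) (XT.nd (nat_lit 78) (nat_lit 0) (nat_lit 0) (XT.lf (nat_lit 0) (nat_lit 13137888454) (nat_lit 76) (nat_lit 112515222352) (nat_lit 76) (nat_lit 66909591039) (nat_lit 4) (nat_lit 4) (nat_lit 5) (nat_lit 5) (nat_lit 5) (nat_lit 4) (nat_lit 304) (nat_lit 253) (nat_lit 163)) (XT.nd (nat_lit 78) (nat_lit 0) (nat_lit 0) (XT.lf (nat_lit 0) (nat_lit 43114805486) (nat_lit 76) (nat_lit 104593875731) (nat_lit 76) (nat_lit 58984925679) (nat_lit 4) (nat_lit 4) (nat_lit 5) (nat_lit 5) (nat_lit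 5) (nat_lit 4) (nat_lit 305) (nat_lit 253) (nat_lit 162)) (XT.lf (nat_lit 0) (nat_lit 75485833525) (nat_lit 76) (nat_lit 96040675920) (nat_lit 76) (nat_lit 50428652961) (nat_lit 4) (nat_lit 4) (nat_lit 5) (nat_lit 5) (nat_lit 5) (nat_lit 4) (nat_lit 306) (nat_lit 253) (nat_lit 161)))) (XT.nd (nat_lit 78) (nat_lit 0) (nat_lit 0) (XT.lf (nat_lit 0) (nat_lit 110442800887) (nat_lit 76) (nat_lit 86804937289) (nat_lit 76) (nat_lit 41190069046) (nat_lit 4) (nat_lit 4) (nat_lit 5) (nat_lit 5) (nat_lit 5) (nat_lit 4) (nat_lit 307) (nat_lit 253) (nat_lit 160)) (XT.nd (nat_lit 78) (nat_lit 0) (nat_lit 0) (XT.lf (nat_lit 0) (nat_lit 148192859971) (nat_lit 76) (nat_lit 76831929537) (nat_lit 76) (nat_lit 31214426771) (nat_lit 4) (nat_lit 4) (nat_lit 5) (nat_lit 5) (nat_lit 5) (nat_lit 4) (nat_lit 308) (nat_lit 253) (nat_lit 159)) (XT.lf (nat_lit 0) (nat_lit 188959714830) (nat_lit 76) (nat_lit 66062553356)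 (nat_lit 76) (nat_lit 20442611218) (nat_lit 4) (nat_lit 4) (nat_lit 5) (nat_lit 5) (nat_lit 5) (nat_lit 4) (nat_lit 309) (nat_lit 253) (nat_lit 158))))) (XT.nd (nat_lit 234) (nat_lit 76) (nat_lit 0) (XT.nd (nat_lit 78) (nat_lit 76) (nat_lit 0) (XT.lf (nat_lit 0) (nat_lit 232984946827) (nat_lit 76) (nat_lit 54432990223) (nat_lit 76) (nat_lit 8810789407) (nat_lit 4) (nat_lit 4) (nat_lit 5) (nat_lit 5) (nat_lit 5) (nat_lit 4) (nat_lit 310) (nat_lit 253) (nat_lit 157)) (XT.nd (nat_lit 78) (nat_lit 0) (nat_lit 0) (XT.lf (nat_lit 0) (nat_lit 3562379391) (nat_lit 152) (nat_lit 38214543051) (nat_lit 76) (nat_lit 276869665069) (nat_lit 3) (nat_lit 5) (nat_lit 5) (nat_lit 5) (nat_lit 4) (nat_lit 4) (nat_lit 311) (nat_lit 253) (nat_lit 156)) (XT.lf (nat_lit 0) (nat_lit 16447973895) (nat_lit 152) (nat_lit 11414442935) (nat_lit 76) (nat_lit 314977267557) (nat_lit 3) (nat_lit 5) (nat_lit 5) (nat_lit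 5) (nat_lit 4) (nat_lit 4) (nat_lit 312) (nat_lit 253) (nat_lit 155)))) (XT.nd (nat_lit 156) (nat_lit 0) (nat_lit 0) (XT.nd (nat_lit 78) (nat_lit 0) (nat_lit 0) (XT.lf (nat_lit 0) (nat_lit 18450188998) (nat_lit 76) (nat_lit 12356643043) (nat_lit 152) (nat_lit 338126005323) (nat_lit 2) (nat_lit 5) (nat_lit 3) (nat_lit 5) (nat_lit 4) (nat_lit 4) (nat_lit 313) (nat_lit 253) (nat_lit 154)) (XT.lf (nat_lit 0) (nat_lit 46738868422) (nat_lit 152) (nat_lit 345851455096) (nat_lit 0) (nat_lit 4489163010) (nat_lit 2) (nat_lit 5) (nat_lit 4) (nat_lit 4) (nat_lit 2) (nat_lit 4) (nat_lit 314) (nat_lit 253) (nat_lit 153))) (XT.nd (nat_lit 78) (nat_lit 0) (nat_lit 0) (XT.lf (nat_lit 0) (nat_lit 64265218012) (nat_lit 152) (nat_lit 341172981746) (nat_lit 0) (nat_lit 22014089249) (nat_lit 2) (nat_lit 5) (nat_lit 4) (nat_lit 4) (nat_lit 2) (nat_lit 4) (nat_lit 315) (nat_lit 253) (nat_lit 152)) (XT.lf (nat_lit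 0) (nat_lit 83192563096) (nat_lit 152) (nat_lit 336122326467) (nat_lit 0) (nat_lit 40940116416) (nat_lit 2) (nat_lit 5) (nat_lit 4) (nat_lit 4) (nat_lit 2) (nat_lit 4) (nat_lit 316) (nat_lit 253) (nat_lit 151)))))) (XT.nd (nat_lit 546) (nat_lit 0) (nat_lit 0) (XT.nd (nat_lit 234) (nat_lit 0) (nat_lit 0) (XT.nd (nat_lit 78) (nat_lit 0) (nat_lit 0) (XT.lf (nat_lit 0) (nat_lit 103633065721) (nat_lit 152) (nat_lit 330669559450) (nat_lit 0) (nat_lit 61379398748) (nat_lit 2) (nat_lit 5) (nat_lit 4) (nat_lit 4) (nat_lit 2) (nat_lit 4) (nat_lit 317) (nat_lit 253) (nat_lit 150)) (XT.nd (nat_lit 78) (nat_lit 0) (nat_lit 0) (XT.lf (nat_lit 0) (nat_lit 125707854791) (nat_lit 152) (nat_lit 324782368002) (nat_lit 0) (nat_lit 83453057916) (nat_lit 2) (nat_lit 5) (nat_lit 4) (nat_lit 4) (nat_lit 2) (nat_lit 4) (nat_lit 318) (nat_lit 253) (nat_lit 149)) (XT.lf (nat_lit 0) (nat_lit 149547743871) (nat_lit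 152) (nat_lit 318425865062) (nat_lit 0) (nat_lit 107291900791) (nat_lit 2) (nat_lit 5) (nat_lit 4) (nat_lit 4) (nat_lit 2) (nat_lit 4) (nat_lit 319) (nat_lit 253) (nat_lit 148)))) (XT.nd (nat_lit 156) (nat_lit 0) (nat_lit 0) (XT.nd (nat_lit 78) (nat_lit 0) (nat_lit 0) (XT.lf (nat_lit 0) (nat_lit 175294006376) (nat_lit 152) (nat_lit 311562382465) (nat_lit 0) (nat_lit 133037194588) (nat_lit 2) (nat_lit 5) (nat_lit 4) (nat_lit 4) (nat_lit 2) (nat_lit 4) (nat_lit 320) (nat_lit 253) (nat_lit 147)) (XT.lf (nat_lit 0) (nat_lit 203099212753) (nat_lit 152) (nat_lit 304151247722) (nat_lit 0) (nat_lit 160841504013) (nat_lit 2) (nat_lit 5) (nat_lit 4) (nat_lit 4) (nat_lit 2) (nat_lit 4) (nat_lit 321) (nat_lit 253) (nat_lit 146))) (XT.nd (nat_lit 78) (nat_lit 0) (nat_lit 0) (XT.lf (nat_lit 0) (nat_lit 233128134595) (nat_lit 152) (nat_lit 296148542996) (nat_lit 0) (nat_lit 190869595343) (nat_lit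 2) (nat_lit 5) (nat_lit 4) (nat_lit 4) (nat_lit 2) (nat_lit 4) (nat_lit 322) (nat_lit 253) (nat_lit 145)) (XT.lf (nat_lit 0) (nat_lit 265558721067) (nat_lit 152) (nat_lit 287506844852) (nat_lit 0) (nat_lit 223299412823) (nat_lit 2) (nat_lit 5) (nat_lit 4) (nat_lit 4) (nat_lit 2) (nat_lit 4) (nat_lit 323) (nat_lit 253) (nat_lit 144))))) (XT.nd (nat_lit 234) (nat_lit 0) (nat_lit 0) (XT.nd (nat_lit 78) (nat_lit 0) (nat_lit 0) (XT.lf (nat_lit 0) (nat_lit 300583153422) (nat_lit 152) (nat_lit 278174943228) (nat_lit 0) (nat_lit 258323133149) (nat_lit 2) (nat_lit 5) (nat_lit 4) (nat_lit 4) (nat_lit 2) (nat_lit 4) (nat_lit 324) (nat_lit 253) (nat_lit 143)) (XT.nd (nat_lit 78) (nat_lit 0) (nat_lit 0) (XT.lf (nat_lit 0) (nat_lit 338408983854) (nat_lit 152) (nat_lit 268097537965) (nat_lit 0) (nat_lit 296148304294) (nat_lit 2) (nat_lit 5) (nat_lit 4) (nat_lit 4) (nat_lit 2) (nat_lit 4) (nat_lit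 325) (nat_lit 253) (nat_lit 142)) (XT.lf (nat_lit 0) (nat_lit 379260365430) (nat_lit 152) (nat_lit 257214911107) (nat_lit 0) (nat_lit 336999075420) (nat_lit 2) (nat_lit 5) (nat_lit 4) (nat_lit 4) (nat_lit 2) (nat_lit 4) (nat_lit 326) (nat_lit 253) (nat_lit 141)))) (XT.nd (nat_lit 156) (nat_lit 0) (nat_lit 0) (XT.nd (nat_lit 78) (nat_lit 0) (nat_lit 0) (XT.lf (nat_lit 0) (nat_lit 423379380413) (nat_lit 152) (nat_lit 245462573012) (nat_lit 0) (nat_lit 381117525170) (nat_lit 2) (nat_lit 5) (nat_lit 4) (nat_lit 4) (nat_lit 2) (nat_lit 4) (nat_lit 327) (nat_lit 253) (nat_lit 140)) (XT.lf (nat_lit 0) (nat_lit 471027474816) (nat_lit 152) (nat_lit 232770880196) (nat_lit 0) (nat_lit 428765096210) (nat_lit 2) (nat_lit 5) (nat_lit 4) (nat_lit 4) (nat_lit 2) (nat_lit 4) (nat_lit 328) (nat_lit 253) (nat_lit 139))) (XT.nd (nat_lit 78) (nat_lit 0) (nat_lit 0) (XT.lf (nat_lit 0) (nat_lit 522487007718)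 (nat_lit 152) (nat_lit 219064622628) (nat_lit 0) (nat_lit 480224144517) (nat_lit 2) (nat_lit 5) (nat_lit 4) (nat_lit 4) (nat_lit 2) (nat_lit 4) (nat_lit 329) (nat_lit 253) (nat_lit 138)) (XT.lf (nat_lit 0) (nat_lit 578062924499) (nat_lit 152) (nat_lit 204262578039) (nat_lit 0) (nat_lit 535799612598) (nat_lit 2) (nat_lit 5) (nat_lit 4) (nat_lit 4) (nat_lit 2) (nat_lit 4) (nat_lit 330) (nat_lit 253) (nat_lit 137))))))))
noncomputable def xc75 : XT := (XT.nd (nat_lit 32838) (nat_lit 0) (nat_lit 380) (XT.nd (nat_lit 31746) (nat_lit 0) (nat_lit 1824) (XT.nd (nat_lit 468) (nat_lit 76) (nat_lit 0) (XT.nd (nat_lit 234) (nat_lit 0) (nat_lit 0) (XT.nd (nat_lit 78) (nat_lit 0) (nat_lit 0) (XT.lf (nat_lit 0) (nat_lit 638084563925) (nat_lit 152) (nat_lit 188277030611) (nat_lit 0) (nat_lit 595820836562) (nat_lit 2) (nat_lit 5) (nat_lit 4) (nat_lit 4) (nat_lit 2) (nat_lit 4) (nat_lit 331) (nat_lit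 253) (nat_lit 136)) (XT.nd (nat_lit 78) (nat_lit 0) (nat_lit 0) (XT.lf (nat_lit 0) (nat_lit 702907609785) (nat_lit 152) (nat_lit 171013251174) (nat_lit 0) (nat_lit 660643497734) (nat_lit 2) (nat_lit 5) (nat_lit 4) (nat_lit 4) (nat_lit 2) (nat_lit 4) (nat_lit 332) (nat_lit 253) (nat_lit 135)) (XT.lf (nat_lit 0) (nat_lit 772916198647) (nat_lit 152) (nat_lit 152368935849) (nat_lit 0) (nat_lit 730651730405) (nat_lit 2) (nat_lit 5) (nat_lit 4) (nat_lit 4) (nat_lit 2) (nat_lit 4) (nat_lit 333) (nat_lit 253) (nat_lit 134)))) (XT.nd (nat_lit 78) (nat_lit 0) (nat_lit 0) (XT.lf (nat_lit 0) (nat_lit 848525196223) (nat_lit 152) (nat_lit 132233599804) (nat_lit 0) (nat_lit 806260398173) (nat_lit 2) (nat_lit 5) (nat_lit 4) (nat_lit 4) (nat_lit 2) (nat_lit 4) (nat_lit 334) (nat_lit 253) (nat_lit 133)) (XT.nd (nat_lit 78) (nat_lit 0) (nat_lit 0) (XT.lf (nat_lit 0) (nat_lit 930182655832) (nat_lit 152)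 (nat_lit 110487922531) (nat_lit 0) (nat_lit 887917552405) (nat_lit 2) (nat_lit 5) (nat_lit 4) (nat_lit 4) (nat_lit 2) (nat_lit 4) (nat_lit 335) (nat_lit 253) (nat_lit 132)) (XT.lf (nat_lit 0) (nat_lit 1018372473532) (nat_lit 152) (nat_lit 87003040755) (nat_lit 0) (nat_lit 976107087348) (nat_lit 2) (nat_lit 5) (nat_lit 4) (nat_lit 4) (nat_lit 2) (nat_lit 4) (nat_lit 336) (nat_lit 253) (nat_lit 131))))) (XT.nd (nat_lit 234) (nat_lit 76) (nat_lit 0) (XT.nd (nat_lit 78) (nat_lit 0) (nat_lit 0) (XT.lf (nat_lit 0) (nat_lit 1113617255648) (nat_lit 152) (nat_lit 61639784808) (nat_lit 0) (nat_lit 1071351607652) (nat_lit 2) (nat_lit 5) (nat_lit 4) (nat_lit 4) (nat_lit 2) (nat_lit 4) (nat_lit 337) (nat_lit 253) (nat_lit 130)) (XT.nd (nat_lit 78) (nat_lit 0) (nat_lit 0) (XT.lf (nat_lit 0) (nat_lit 1216481415705) (nat_lit 152) (nat_lit 34247853913) (nat_lit 0) (nat_lit 1174215525291) (nat_lit 2)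 (nat_lit 5) (nat_lit 4) (nat_lit 4) (nat_lit 2) (nat_lit 4) (nat_lit 338) (nat_lit 253) (nat_lit 129)) (XT.lf (nat_lit 0) (nat_lit 1327574519096) (nat_lit 152) (nat_lit 4664925517) (nat_lit 0) (nat_lit 1285308404220) (nat_lit 2) (nat_lit 5) (nat_lit 4) (nat_lit 4) (nat_lit 2) (nat_lit 4) (nat_lit 339) (nat_lit 253) (nat_lit 128)))) (XT.nd (nat_lit 30888) (nat_lit 0) (nat_lit 2736) (XT.nd (nat_lit 30810) (nat_lit 0) (nat_lit 2736) (XT.lf (nat_lit 0) (nat_lit 28721049856) (nat_lit 76) (nat_lit 1419524587405) (nat_lit 76) (nat_lit 1377258264695) (nat_lit 1) (nat_lit 4) (nat_lit 2) (nat_lit 5) (nat_lit 2) (nat_lit 4) (nat_lit 340) (nat_lit 253) (nat_lit 127)) (XT.lf (nat_lit 0) (nat_lit 788297818) (nat_lit 532) (nat_lit 2690856063) (nat_lit 532) (nat_lit 2690856063) (nat_lit 37) (nat_lit 3) (nat_lit 44) (nat_lit 3) (nat_lit 44) (nat_lit 5) (nat_lit 254) (nat_lit 254) (nat_lit 212))) (XT.nd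 (nat_lit 78) (nat_lit 0) (nat_lit 76) (XT.lf (nat_lit 0) (nat_lit 2044343835) (nat_lit 532) (nat_lit 14118188) (nat_lit 532) (nat_lit 10740851352) (nat_lit 37) (nat_lit 3) (nat_lit 44) (nat_lit 3) (nat_lit 44) (nat_lit 5) (nat_lit 255) (nat_lit 254) (nat_lit 211)) (XT.lf (nat_lit 0) (nat_lit 2736866605) (nat_lit 456) (nat_lit 7304828368) (nat_lit 532) (nat_lit 3238860338) (nat_lit 38) (nat_lit 5) (nat_lit 44) (nat_lit 5) (nat_lit 45) (nat_lit 5) (nat_lit 256) (nat_lit 254) (nat_lit 210)))))) (XT.nd (nat_lit 546) (nat_lit 684) (nat_lit 0) (XT.nd (nat_lit 234) (nat_lit 304) (nat_lit 0) (XT.nd (nat_lit 78) (nat_lit 0) (nat_lit 76) (XT.lf (nat_lit 0) (nat_lit 3501049431) (nat_lit 456) (nat_lit 1433202412) (nat_lit 532) (nat_lit 8864923129) (nat_lit 38) (nat_lit 5) (nat_lit 44) (nat_lit 5) (nat_lit 45) (nat_lit 5) (nat_lit 257) (nat_lit 254) (nat_lit 209)) (XT.nd (nat_lit 78) (nat_lit 0)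 (nat_lit 0) (XT.lf (nat_lit 0) (nat_lit 4432702909) (nat_lit 456) (nat_lit 9227607156) (nat_lit 532) (nat_lit 690633022) (nat_lit 39) (nat_lit 5) (nat_lit 45) (nat_lit 5) (nat_lit 46) (nat_lit 5) (nat_lit 258) (nat_lit 254) (nat_lit 208)) (XT.lf (nat_lit 0) (nat_lit 5574717699) (nat_lit 456) (nat_lit 2812597170) (nat_lit 532) (nat_lit 6548824947) (nat_lit 39) (nat_lit 5) (nat_lit 45) (nat_lit 5) (nat_lit 46) (nat_lit 5) (nat_lit 259) (nat_lit 254) (nat_lit 207)))) (XT.nd (nat_lit 156) (nat_lit 380) (nat_lit 0) (XT.nd (nat_lit 78) (nat_lit 0) (nat_lit 76) (XT.lf (nat_lit 76) (nat_lit 4307378692) (nat_lit 0) (nat_lit 2574180253) (nat_lit 532) (nat_lit 8680858234) (nat_lit 40) (nat_lit 5) (nat_lit 39) (nat_lit 5) (nat_lit 46) (nat_lit 5) (nat_lit 260) (nat_lit 254) (nat_lit 206)) (XT.lf (nat_lit 0) (nat_lit 8432604892) (nat_lit 456) (nat_lit 4192459439) (nat_lit 76) (nat_lit 3602691397)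 (nat_lit 40) (nat_lit 5) (nat_lit 46) (nat_lit 5) (nat_lit 41) (nat_lit 5) (nat_lit 261) (nat_lit 254) (nat_lit 205))) (XT.nd (nat_lit 78) (nat_lit 0) (nat_lit 0) (XT.lf (nat_lit 0) (nat_lit 3520636644) (nat_lit 456) (nat_lit 6712406238) (nat_lit 532) (nat_lit 6703375653) (nat_lit 34) (nat_lit 5) (nat_lit 40) (nat_lit 5) (nat_lit 41) (nat_lit 5) (nat_lit 262) (nat_lit 254) (nat_lit 204)) (XT.lf (nat_lit 0) (nat_lit 12066066443) (nat_lit 456) (nat_lit 201239882) (nat_lit 532) (nat_lit 5427397627) (nat_lit 34) (nat_lit 5) (nat_lit 40) (nat_lit 5) (nat_lit 41) (nat_lit 5) (nat_lit 263) (nat_lit 254) (nat_lit 203))))) (XT.nd (nat_lit 234) (nat_lit 228) (nat_lit 0) (XT.nd (nat_lit 78) (nat_lit 228) (nat_lit 0) (XT.lf (nat_lit 0) (nat_lit 2730370523) (nat_lit 228) (nat_lit 11940926002) (nat_lit 304) (nat_lit 3825901281) (nat_lit 31) (nat_lit 5) (nat_lit 34) (nat_lit 5) (nat_lit 35) (nat_lit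 5) (nat_lit 264) (nat_lit 254) (nat_lit 202)) (XT.nd (nat_lit 78) (nat_lit 228) (nat_lit 0) (XT.lf (nat_lit 0) (nat_lit 12049884510) (nat_lit 228) (nat_lit 5354903915) (nat_lit 304) (nat_lit 1948224869) (nat_lit 31) (nat_lit 5) (nat_lit 34) (nat_lit 5) (nat_lit 35) (nat_lit 5) (nat_lit 265) (nat_lit 254) (nat_lit 201)) (XT.lf (nat_lit 0) (nat_lit 144273225) (nat_lit 228) (nat_lit 18409764998) (nat_lit 76) (nat_lit 1717698023) (nat_lit 28) (nat_lit 5) (nat_lit 31) (nat_lit 5) (nat_lit 29) (nat_lit 5) (nat_lit 266) (nat_lit 254) (nat_lit 200)))) (XT.nd (nat_lit 156) (nat_lit 0) (nat_lit 0) (XT.nd (nat_lit 78) (nat_lit 228) (nat_lit 0) (XT.lf (nat_lit 0) (nat_lit 2623039650) (nat_lit 228) (nat_lit 9290600092) (nat_lit 76) (nat_lit 9320415955) (nat_lit 28) (nat_lit 5) (nat_lit 31) (nat_lit 5) (nat_lit 29) (nat_lit 5) (nat_lit 267) (nat_lit 254) (nat_lit 199)) (XT.lf (nat_lit 0) (nat_lit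 564723675) (nat_lit 228) (nat_lit 4730602208) (nat_lit 304) (nat_lit 16978488435) (nat_lit 25) (nat_lit 5) (nat_lit 28) (nat_lit 5) (nat_lit 29) (nat_lit 5) (nat_lit 268) (nat_lit 254) (nat_lit 198))) (XT.nd (nat_lit 78) (nat_lit 0) (nat_lit 0) (XT.lf (nat_lit 0) (nat_lit 8497220185) (nat_lit 304) (nat_lit 11741450654) (nat_lit 76) (nat_lit 3132882606) (nat_lit 25) (nat_lit 5) (nat_lit 29) (nat_lit 5) (nat_lit 26) (nat_lit 5) (nat_lit 269) (nat_lit 254) (nat_lit 197)) (XT.lf (nat_lit 0) (nat_lit 12061846622) (nat_lit 304) (nat_lit 1120066209) (nat_lit 76) (nat_lit 11366733375) (nat_lit 25) (nat_lit 5) (nat_lit 29) (nat_lit 5) (nat_lit 26) (nat_lit 5) (nat_lit 270) (nat_lit 254) (nat_lit 196))))))) (XT.nd (nat_lit 1014) (nat_lit 456) (nat_lit 0) (XT.nd (nat_lit 468) (nat_lit 456) (nat_lit 0) (XT.nd (nat_lit 234) (nat_lit 228) (nat_lit 0) (XT.nd (nat_lit 78) (nat_lit 152) (nat_lit 0)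 (XT.lf (nat_lit 0) (nat_lit 10875828302) (nat_lit 152) (nat_lit 5282293439) (nat_lit 228) (nat_lit 9642122798) (nat_lit 23) (nat_lit 5) (nat_lit 25) (nat_lit 5) (nat_lit 26) (nat_lit 5) (nat_lit 271) (nat_lit 254) (nat_lit 195)) (XT.nd (nat_lit 78) (nat_lit 152) (nat_lit 0) (XT.lf (nat_lit 0) (nat_lit 20677140742) (nat_lit 228) (nat_lit 3353235801) (nat_lit 76) (nat_lit 3114043102) (nat_lit 23) (nat_lit 5) (nat_lit 26) (nat_lit 5) (nat_lit 24) (nat_lit 5) (nat_lit 272) (nat_lit 254) (nat_lit 194)) (XT.lf (nat_lit 0) (nat_lit 9461335124) (nat_lit 152) (nat_lit 16447645936) (nat_lit 228) (nat_lit 2659092101) (nat_lit 21) (nat_lit 5) (nat_lit 23) (nat_lit 5) (nat_lit 24) (nat_lit 5) (nat_lit 273) (nat_lit 254) (nat_lit 193)))) (XT.nd (nat_lit 78) (nat_lit 152) (nat_lit 0) (XT.lf (nat_lit 0) (nat_lit 1461831772) (nat_lit 228) (nat_lit 6662525016) (nat_lit 76) (nat_lit 21972042269) (nat_lit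 20) (nat_lit 5) (nat_lit 23) (nat_lit 5) (nat_lit 21) (nat_lit 5) (nat_lit 274) (nat_lit 254) (nat_lit 192)) (XT.nd (nat_lit 78) (nat_lit 0) (nat_lit 0) (XT.lf (nat_lit 0) (nat_lit 5952752227) (nat_lit 228) (nat_lit 24712606496) (nat_lit 76) (nat_lit 1061426711) (nat_lit 18) (nat_lit 5) (nat_lit 21) (nat_lit 5) (nat_lit 19) (nat_lit 5) (nat_lit 275) (nat_lit 254) (nat_lit 191)) (XT.lf (nat_lit 0) (nat_lit 11188969582) (nat_lit 228) (nat_lit 11542565055) (nat_lit 76) (nat_lit 10725221786) (nat_lit 18) (nat_lit 5) (nat_lit 21) (nat_lit 5) (nat_lit 19) (nat_lit 5) (nat_lit 276) (nat_lit 254) (nat_lit 190))))) (XT.nd (nat_lit 234) (nat_lit 304) (nat_lit 0) (XT.nd (nat_lit 78) (nat_lit 0) (nat_lit 0) (XT.lf (nat_lit 0) (nat_lit 2805004178) (nat_lit 152) (nat_lit 14095525939) (nat_lit 228) (nat_lit 18420112241) (nat_lit 16) (nat_lit 5) (nat_lit 18) (nat_lit 5) (nat_lit 19) (nat_lit 5) (nat_lit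 277) (nat_lit 254) (nat_lit 189)) (XT.nd (nat_lit 78) (nat_lit 0) (nat_lit 0) (XT.lf (nat_lit 0) (nat_lit 18940836678) (nat_lit 152) (nat_lit 4433189997) (nat_lit 228) (nat_lit 13935242089) (nat_lit 16) (nat_lit 5) (nat_lit 18) (nat_lit 5) (nat_lit 19) (nat_lit 5) (nat_lit 278) (nat_lit 254) (nat_lit 188)) (XT.lf (nat_lit 0) (nat_lit 30499835177) (nat_lit 228) (nat_lit 3249287565) (nat_lit 76) (nat_lit 5697136195) (nat_lit 16) (nat_lit 5) (nat_lit 19) (nat_lit 5) (nat_lit 17) (nat_lit 4) (nat_lit 279) (nat_lit 254) (nat_lit 187)))) (XT.nd (nat_lit 156) (nat_lit 152) (nat_lit 0) (XT.nd (nat_lit 78) (nat_lit 76) (nat_lit 0) (XT.lf (nat_lit 0) (nat_lit 13631820111) (nat_lit 76) (nat_lit 24997697179) (nat_lit 152) (nat_lit 3090012463) (nat_lit 15) (nat_lit 5) (nat_lit 16) (nat_lit 5) (nat_lit 17) (nat_lit 4) (nat_lit 280) (nat_lit 254) (nat_lit 186)) (XT.lf (nat_lit 0) (nat_lit 3155144321)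 (nat_lit 152) (nat_lit 12213933603) (nat_lit 76) (nat_lit 28792818267) (nat_lit 14) (nat_lit 5) (nat_lit 16) (nat_lit 5) (nat_lit 15) (nat_lit 5) (nat_lit 281) (nat_lit 254) (nat_lit 185))) (XT.nd (nat_lit 78) (nat_lit 0) (nat_lit 0) (XT.lf (nat_lit 0) (nat_lit 5090738568) (nat_lit 152) (nat_lit 4756247200) (nat_lit 228) (nat_lit 36937145077) (nat_lit 12) (nat_lit 5) (nat_lit 14) (nat_lit 5) (nat_lit 15) (nat_lit 5) (nat_lit 282) (nat_lit 254) (nat_lit 184)) (XT.lf (nat_lit 0) (nat_lit 17569840144) (nat_lit 228) (nat_lit 25298585298) (nat_lit 76) (nat_lit 6708084797) (nat_lit 12) (nat_lit 5) (nat_lit 15) (nat_lit 5) (nat_lit 13) (nat_lit 4) (nat_lit 283) (nat_lit 254) (nat_lit 183)))))) (XT.nd (nat_lit 546) (nat_lit 228) (nat_lit 0) (XT.nd (nat_lit 234) (nat_lit 152) (nat_lit 0) (XT.nd (nat_lit 78) (nat_lit 76) (nat_lit 0) (XT.lf (nat_lit 0) (nat_lit 26026442217) (nat_lit 228) (nat_lit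 7728338842) (nat_lit 76) (nat_lit 18828243167) (nat_lit 12) (nat_lit 5) (nat_lit 15) (nat_lit 5) (nat_lit 13) (nat_lit 4) (nat_lit 284) (nat_lit 254) (nat_lit 182)) (XT.nd (nat_lit 78) (nat_lit 0) (nat_lit 0) (XT.lf (nat_lit 0) (nat_lit 11827515136) (nat_lit 76) (nat_lit 23609454215) (nat_lit 152) (nat_lit 20370914703) (nat_lit 11) (nat_lit 5) (nat_lit 12) (nat_lit 5) (nat_lit 13) (nat_lit 4) (nat_lit 285) (nat_lit 254) (nat_lit 181)) (XT.lf (nat_lit 0) (nat_lit 33375978013) (nat_lit 76) (nat_lit 12428860982) (nat_lit 152) (nat_lit 13469548900) (nat_lit 11) (nat_lit 5) (nat_lit 12) (nat_lit 5) (nat_lit 13) (nat_lit 4) (nat_lit 286) (nat_lit 254) (nat_lit 180)))) (XT.nd (nat_lit 156) (nat_lit 0) (nat_lit 0) (XT.nd (nat_lit 78) (nat_lit 152) (nat_lit 0) (XT.lf (nat_lit 0) (nat_lit 56637783754) (nat_lit 76) (nat_lit 358052473) (nat_lit 152) (nat_lit 6022894097) (nat_lit 11) (nat_lit 5)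 (nat_lit 12) (nat_lit 5) (nat_lit 13) (nat_lit 4) (nat_lit 287) (nat_lit 254) (nat_lit 179)) (XT.lf (nat_lit 0) (nat_lit 2598790972) (nat_lit 152) (nat_lit 51935142820) (nat_lit 76) (nat_lit 12470387268) (nat_lit 9) (nat_lit 5) (nat_lit 11) (nat_lit 5) (nat_lit 10) (nat_lit 4) (nat_lit 288) (nat_lit 254) (nat_lit 178))) (XT.nd (nat_lit 78) (nat_lit 0) (nat_lit 0) (XT.lf (nat_lit 0) (nat_lit 11767228016) (nat_lit 152) (nat_lit 32877073164) (nat_lit 76) (nat_lit 26637361189) (nat_lit 9) (nat_lit 5) (nat_lit 11) (nat_lit 5) (nat_lit 10) (nat_lit 4) (nat_lit 289) (nat_lit 254) (nat_lit 177)) (XT.lf (nat_lit 0) (nat_lit 21663688025) (nat_lit 152) (nat_lit 12303806157) (nat_lit 76) (nat_lit 41934143344) (nat_lit 9) (nat_lit 5) (nat_lit 11) (nat_lit 5) (nat_lit 10) (nat_lit 4) (nat_lit 290) (nat_lit 254) (nat_lit 176))))) (XT.nd (nat_lit 234) (nat_lit 152) (nat_lit 0) (XT.nd (nat_lit 78) (nat_lit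 0) (nat_lit 0) (XT.lf (nat_lit 0) (nat_lit 10428236482) (nat_lit 76) (nat_lit 22169379544) (nat_lit 152) (nat_lit 48273944185) (nat_lit 8) (nat_lit 5) (nat_lit 9) (nat_lit 5) (nat_lit 10) (nat_lit 4) (nat_lit 291) (nat_lit 254) (nat_lit 175)) (XT.nd (nat_lit 78) (nat_lit 0) (nat_lit 0) (XT.lf (nat_lit 0) (nat_lit 35670044017) (nat_lit 76) (nat_lit 9067742834) (nat_lit 152) (nat_lit 41474776474) (nat_lit 8) (nat_lit 5) (nat_lit 9) (nat_lit 5) (nat_lit 10) (nat_lit 4) (nat_lit 292) (nat_lit 254) (nat_lit 174)) (XT.lf (nat_lit 0) (nat_lit 57966795080) (nat_lit 152) (nat_lit 29180057049) (nat_lit 0) (nat_lit 4824592899) (nat_lit 8) (nat_lit 5) (nat_lit 10) (nat_lit 4) (nat_lit 8) (nat_lit 4) (nat_lit 293) (nat_lit 254) (nat_lit 173)))) (XT.nd (nat_lit 156) (nat_lit 76) (nat_lit 0) (XT.nd (nat_lit 78) (nat_lit 76) (nat_lit 0) (XT.lf (nat_lit 0) (nat_lit 72485391349) (nat_lit 152) (nat_lit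 6351701094) (nat_lit 0) (nat_lit 19335451065) (nat_lit 8) (nat_lit 5) (nat_lit 10) (nat_lit 4) (nat_lit 8) (nat_lit 4) (nat_lit 294) (nat_lit 254) (nat_lit 172)) (XT.lf (nat_lit 0) (nat_lit 19259337182) (nat_lit 76) (nat_lit 69365382689) (nat_lit 76) (nat_lit 16208277496) (nat_lit 7) (nat_lit 4) (nat_lit 8) (nat_lit 5) (nat_lit 8) (nat_lit 4) (nat_lit 295) (nat_lit 254) (nat_lit 171))) (XT.nd (nat_lit 78) (nat_lit 76) (nat_lit 0) (XT.lf (nat_lit 0) (nat_lit 47273646815) (nat_lit 76) (nat_lit 58951399259) (nat_lit 76) (nat_lit 5787659891) (nat_lit 7) (nat_lit 4) (nat_lit 8) (nat_lit 5) (nat_lit 8) (nat_lit 4) (nat_lit 296) (nat_lit 254) (nat_lit 170)) (XT.lf (nat_lit 0) (nat_lit 5189515034) (nat_lit 152) (nat_lit 42375690852) (nat_lit 76) (nat_lit 72191363632) (nat_lit 6) (nat_lit 5) (nat_lit 8) (nat_lit 5) (nat_lit 7) (nat_lit 4) (nat_lit 297) (nat_lit 254) (nat_lit 169))))))))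
noncomputable def xc76 : XT := (XT.nd (nat_lit 2028) (nat_lit 0) (nat_lit 0) (XT.nd (nat_lit 1014) (nat_lit 152) (nat_lit 0) (XT.nd (nat_lit 468) (nat_lit 76) (nat_lit 0) (XT.nd (nat_lit 234) (nat_lit 0) (nat_lit 0) (XT.nd (nat_lit 78) (nat_lit 76) (nat_lit 0) (XT.lf (nat_lit 0) (nat_lit 16728818638) (nat_lit 152) (nat_lit 18379627091) (nat_lit 76) (nat_lit 92999744220) (nat_lit 6) (nat_lit 5) (nat_lit 8) (nat_lit 5) (nat_lit 7) (nat_lit 4) (nat_lit 298) (nat_lit 254) (nat_lit 168)) (XT.nd (nat_lit 78) (nat_lit 0) (nat_lit 0) (XT.lf (nat_lit 0) (nat_lit 7927068458) (nat_lit 76) (nat_lit 21451731897) (nat_lit 152) (nat_lit 107734141762) (nat_lit 5) (nat_lit 5) (nat_lit 6) (nat_lit 5) (nat_lit 7) (nat_lit 4) (nat_lit 299) (nat_lit 254) (nat_lit 167)) (XT.lf (nat_lit 0) (nat_lit 37378109655) (nat_lit 76) (nat_lit 6162189505) (nat_lit 152) (nat_lit 103257818268) (nat_lit 5) (nat_lit 5)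 (nat_lit 6) (nat_lit 5) (nat_lit 7) (nat_lit 4) (nat_lit 300) (nat_lit 254) (nat_lit 166)))) (XT.nd (nat_lit 78) (nat_lit 0) (nat_lit 0) (XT.lf (nat_lit 0) (nat_lit 59080803801) (nat_lit 152) (nat_lit 88327027249) (nat_lit 0) (nat_lit 9830592961) (nat_lit 5) (nat_lit 5) (nat_lit 7) (nat_lit 4) (nat_lit 5) (nat_lit 4) (nat_lit 301) (nat_lit 254) (nat_lit 165)) (XT.nd (nat_lit 78) (nat_lit 0) (nat_lit 0) (XT.lf (nat_lit 0) (nat_lit 76021972133) (nat_lit 152) (nat_lit 65711502623) (nat_lit 0) (nat_lit 26767890316) (nat_lit 5) (nat_lit 5) (nat_lit 7) (nat_lit 4) (nat_lit 5) (nat_lit 4) (nat_lit 302) (nat_lit 254) (nat_lit 164)) (XT.lf (nat_lit 0) (nat_lit 94315995461) (nat_lit 152) (nat_lit 41291215165) (nat_lit 0) (nat_lit 45058329404) (nat_lit 5) (nat_lit 5) (nat_lit 7) (nat_lit 4) (nat_lit 5) (nat_lit 4) (nat_lit 303) (nat_lit 254) (nat_lit 163))))) (XT.nd (nat_lit 234) (nat_lit 0) (nat_lit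 0) (XT.nd (nat_lit 78) (nat_lit 76) (nat_lit 0) (XT.lf (nat_lit 0) (nat_lit 114071282810) (nat_lit 152) (nat_lit 14921452061) (nat_lit 0) (nat_lit 64810298014) (nat_lit 5) (nat_lit 5) (nat_lit 7) (nat_lit 4) (nat_lit 5) (nat_lit 4) (nat_lit 304) (nat_lit 254) (nat_lit 162)) (XT.nd (nat_lit 78) (nat_lit 0) (nat_lit 0) (XT.lf (nat_lit 0) (nat_lit 14267784308) (nat_lit 76) (nat_lit 121480258798) (nat_lit 76) (nat_lit 72216201096) (nat_lit 4) (nat_lit 4) (nat_lit 5) (nat_lit 5) (nat_lit 5) (nat_lit 4) (nat_lit 305) (nat_lit 254) (nat_lit 161)) (XT.lf (nat_lit 0) (nat_lit 46637012866) (nat_lit 76) (nat_lit 112927884547) (nat_lit 76) (nat_lit 63660981561) (nat_lit 4) (nat_lit 4) (nat_lit 5) (nat_lit 5) (nat_lit 5) (nat_lit 4) (nat_lit 306) (nat_lit 254) (nat_lit 160)))) (XT.nd (nat_lit 156) (nat_lit 0) (nat_lit 0) (XT.nd (nat_lit 78) (nat_lit 0) (nat_lit 0) (XT.lf (nat_lit 0) (nat_lit 81592314042)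 (nat_lit 76) (nat_lit 103692910325) (nat_lit 76) (nat_lit 54423372816) (nat_lit 4) (nat_lit 4) (nat_lit 5) (nat_lit 5) (nat_lit 5) (nat_lit 4) (nat_lit 307) (nat_lit 254) (nat_lit 159)) (XT.lf (nat_lit 0) (nat_lit 119340830361) (nat_lit 76) (nat_lit 93720610357) (nat_lit 76) (nat_lit 44448633475) (nat_lit 4) (nat_lit 4) (nat_lit 5) (nat_lit 5) (nat_lit 5) (nat_lit 4) (nat_lit 308) (nat_lit 254) (nat_lit 158))) (XT.nd (nat_lit 78) (nat_lit 0) (nat_lit 0) (XT.lf (nat_lit 0) (nat_lit 160106256734) (nat_lit 76) (nat_lit 82951889533) (nat_lit 76) (nat_lit 33677653974) (nat_lit 4) (nat_lit 4) (nat_lit 5) (nat_lit 5) (nat_lit 5) (nat_lit 4) (nat_lit 309) (nat_lit 254) (nat_lit 157)) (XT.lf (nat_lit 0) (nat_lit 204130166058) (nat_lit 76) (nat_lit 71322933212) (nat_lit 76) (nat_lit 22046606283) (nat_lit 4) (nat_lit 4) (nat_lit 5) (nat_lit 5) (nat_lit 5) (nat_lit 4) (nat_lit 310) (nat_lit 254)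 (nat_lit 156)))))) (XT.nd (nat_lit 468) (nat_lit 0) (nat_lit 0) (XT.nd (nat_lit 234) (nat_lit 76) (nat_lit 0) (XT.nd (nat_lit 78) (nat_lit 76) (nat_lit 0) (XT.lf (nat_lit 0) (nat_lit 251673440760) (nat_lit 76) (nat_lit 58764829059) (nat_lit 76) (nat_lit 9486565678) (nat_lit 4) (nat_lit 4) (nat_lit 5) (nat_lit 5) (nat_lit 5) (nat_lit 4) (nat_lit 311) (nat_lit 254) (nat_lit 155)) (XT.nd (nat_lit 78) (nat_lit 0) (nat_lit 0) (XT.lf (nat_lit 0) (nat_lit 3872954778) (nat_lit 152) (nat_lit 41224310454) (nat_lit 76) (nat_lit 299038970538) (nat_lit 3) (nat_lit 5) (nat_lit 5) (nat_lit 5) (nat_lit 4) (nat_lit 4) (nat_lit 312) (nat_lit 254) (nat_lit 154)) (XT.lf (nat_lit 0) (nat_lit 17787501654) (nat_lit 152) (nat_lit 12283713147) (nat_lit 76) (nat_lit 340193719577) (nat_lit 3) (nat_lit 5) (nat_lit 5) (nat_lit 5) (nat_lit 4) (nat_lit 4) (nat_lit 313) (nat_lit 254) (nat_lit 153)))) (XT.nd (nat_lit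 78) (nat_lit 0) (nat_lit 0) (XT.lf (nat_lit 0) (nat_lit 19968978323) (nat_lit 76) (nat_lit 13325364047) (nat_lit 152) (nat_lit 365151257501) (nat_lit 2) (nat_lit 5) (nat_lit 3) (nat_lit 5) (nat_lit 4) (nat_lit 4) (nat_lit 314) (nat_lit 254) (nat_lit 152)) (XT.nd (nat_lit 78) (nat_lit 0) (nat_lit 0) (XT.lf (nat_lit 0) (nat_lit 50499681791) (nat_lit 152) (nat_lit 373478680535) (nat_lit 0) (nat_lit 4865721460) (nat_lit 2) (nat_lit 5) (nat_lit 4) (nat_lit 4) (nat_lit 2) (nat_lit 4) (nat_lit 315) (nat_lit 254) (nat_lit 151)) (XT.lf (nat_lit 0) (nat_lit 69426531651) (nat_lit 152) (nat_lit 368428958277) (nat_lit 0) (nat_lit 23791351027) (nat_lit 2) (nat_lit 5) (nat_lit 4) (nat_lit 4) (nat_lit 2) (nat_lit 4) (nat_lit 316) (nat_lit 254) (nat_lit 150))))) (XT.nd (nat_lit 234) (nat_lit 0) (nat_lit 0) (XT.nd (nat_lit 78) (nat_lit 0) (nat_lit 0) (XT.lf (nat_lit 0) (nat_lit 89866575736) (nat_lit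 152) (nat_lit 362977055169) (nat_lit 0) (nat_lit 44230265209) (nat_lit 2) (nat_lit 5) (nat_lit 4) (nat_lit 4) (nat_lit 2) (nat_lit 4) (nat_lit 317) (nat_lit 254) (nat_lit 149)) (XT.nd (nat_lit 78) (nat_lit 0) (nat_lit 0) (XT.lf (nat_lit 0) (nat_lit 111940940230) (nat_lit 152) (nat_lit 357090663636) (nat_lit 0) (nat_lit 66303583499) (nat_lit 2) (nat_lit 5) (nat_lit 4) (nat_lit 4) (nat_lit 2) (nat_lit 4) (nat_lit 318) (nat_lit 254) (nat_lit 148)) (XT.lf (nat_lit 0) (nat_lit 135780436185) (nat_lit 152) (nat_lit 350734901359) (nat_lit 0) (nat_lit 90142110745) (nat_lit 2) (nat_lit 5) (nat_lit 4) (nat_lit 4) (nat_lit 2) (nat_lit 4) (nat_lit 319) (nat_lit 254) (nat_lit 147)))) (XT.nd (nat_lit 156) (nat_lit 0) (nat_lit 0) (XT.nd (nat_lit 78) (nat_lit 0) (nat_lit 0) (XT.lf (nat_lit 0) (nat_lit 161526334686) (nat_lit 152) (nat_lit 343872104561) (nat_lit 0) (nat_lit 115887112294) (nat_lit 2) (nat_lit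 5) (nat_lit 4) (nat_lit 4) (nat_lit 2) (nat_lit 4) (nat_lit 320) (nat_lit 254) (nat_lit 146)) (XT.lf (nat_lit 0) (nat_lit 189331204022) (nat_lit 152) (nat_lit 336461604816) (nat_lit 0) (nat_lit 143691151119) (nat_lit 2) (nat_lit 5) (nat_lit 4) (nat_lit 4) (nat_lit 2) (nat_lit 4) (nat_lit 321) (nat_lit 254) (nat_lit 145))) (XT.nd (nat_lit 78) (nat_lit 0) (nat_lit 0) (XT.lf (nat_lit 0) (nat_lit 219359813788) (nat_lit 152) (nat_lit 328459488052) (nat_lit 0) (nat_lit 173718991893) (nat_lit 2) (nat_lit 5) (nat_lit 4) (nat_lit 4) (nat_lit 2) (nat_lit 4) (nat_lit 322) (nat_lit 254) (nat_lit 144)) (XT.lf (nat_lit 0) (nat_lit 251790111301) (nat_lit 152) (nat_lit 319818334317) (nat_lit 0) (nat_lit 206148577377) (nat_lit 2) (nat_lit 5) (nat_lit 4) (nat_lit 4) (nat_lit 2) (nat_lit 4) (nat_lit 323) (nat_lit 254) (nat_lit 143))))))) (XT.nd (nat_lit 1014) (nat_lit 0) (nat_lit 0) (XT.nd (nat_lit 468)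 (nat_lit 0) (nat_lit 0) (XT.nd (nat_lit 234) (nat_lit 0) (nat_lit 0) (XT.nd (nat_lit 78) (nat_lit 0) (nat_lit 0) (XT.lf (nat_lit 0) (nat_lit 286814276103) (nat_lit 152) (nat_lit 310486936775) (nat_lit 0) (nat_lit 241172082891) (nat_lit 2) (nat_lit 5) (nat_lit 4) (nat_lit 4) (nat_lit 2) (nat_lit 4) (nat_lit 324) (nat_lit 254) (nat_lit 142)) (XT.nd (nat_lit 78) (nat_lit 0) (nat_lit 0) (XT.lf (nat_lit 0) (nat_lit 324639858799) (nat_lit 152) (nat_lit 300409998255) (nat_lit 0) (nat_lit 278997055137) (nat_lit 2) (nat_lit 5) (nat_lit 4) (nat_lit 4) (nat_lit 2) (nat_lit 4) (nat_lit 325) (nat_lit 254) (nat_lit 141)) (XT.lf (nat_lit 0) (nat_lit 365491010991) (nat_lit 152) (nat_lit 289527803566) (nat_lit 0) (nat_lit 319847642097) (nat_lit 2) (nat_lit 5) (nat_lit 4) (nat_lit 4) (nat_lit 2) (nat_lit 4) (nat_lit 326) (nat_lit 254) (nat_lit 140)))) (XT.nd (nat_lit 78) (nat_lit 0) (nat_lit 0) (XT.lf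 (nat_lit 0) (nat_lit 409609813580) (nat_lit 152) (nat_lit 277775865629) (nat_lit 0) (nat_lit 363965921323) (nat_lit 2) (nat_lit 5) (nat_lit 4) (nat_lit 4) (nat_lit 2) (nat_lit 4) (nat_lit 327) (nat_lit 254) (nat_lit 139)) (XT.nd (nat_lit 78) (nat_lit 0) (nat_lit 0) (XT.lf (nat_lit 0) (nat_lit 457257711323) (nat_lit 152) (nat_lit 265084543329) (nat_lit 0) (nat_lit 411613334470) (nat_lit 2) (nat_lit 5) (nat_lit 4) (nat_lit 4) (nat_lit 2) (nat_lit 4) (nat_lit 328) (nat_lit 254) (nat_lit 138)) (XT.lf (nat_lit 0) (nat_lit 508717062132) (nat_lit 152) (nat_lit 251378628830) (nat_lit 0) (nat_lit 463072236580) (nat_lit 2) (nat_lit 5) (nat_lit 4) (nat_lit 4) (nat_lit 2) (nat_lit 4) (nat_lit 329) (nat_lit 254) (nat_lit 137))))) (XT.nd (nat_lit 234) (nat_lit 0) (nat_lit 0) (XT.nd (nat_lit 78) (nat_lit 0) (nat_lit 0) (XT.lf (nat_lit 0) (nat_lit 564292810308) (nat_lit 152) (nat_lit 236576901899)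 (nat_lit 0) (nat_lit 518647569294) (nat_lit 2) (nat_lit 5) (nat_lit 4) (nat_lit 4) (nat_lit 2) (nat_lit 4) (nat_lit 330) (nat_lit 254) (nat_lit 136)) (XT.nd (nat_lit 78) (nat_lit 0) (nat_lit 0) (XT.lf (nat_lit 0) (nat_lit 624314293619) (nat_lit 152) (nat_lit 220591648598) (nat_lit 0) (nat_lit 578668667917) (nat_lit 2) (nat_lit 5) (nat_lit 4) (nat_lit 4) (nat_lit 2) (nat_lit 4) (nat_lit 331) (nat_lit 254) (nat_lit 135)) (XT.lf (nat_lit 0) (nat_lit 689137194928) (nat_lit 152) (nat_lit 203328141501) (nat_lit 0) (nat_lit 643491213034) (nat_lit 2) (nat_lit 5) (nat_lit 4) (nat_lit 4) (nat_lit 2) (nat_lit 4) (nat_lit 332) (nat_lit 254) (nat_lit 134)))) (XT.nd (nat_lit 156) (nat_lit 0) (nat_lit 0) (XT.nd (nat_lit 78) (nat_lit 0) (nat_lit 0) (XT.lf (nat_lit 0) (nat_lit 759145649946) (nat_lit 152) (nat_lit 184684078342) (nat_lit 0) (nat_lit 713499338245) (nat_lit 2) (nat_lit 5) (nat_lit 4) (nat_lit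 4) (nat_lit 2) (nat_lit 4) (nat_lit 333) (nat_lit 254) (nat_lit 133)) (XT.lf (nat_lit 0) (nat_lit 834754523593) (nat_lit 152) (nat_lit 164548975786) (nat_lit 0) (nat_lit 789107906514) (nat_lit 2) (nat_lit 5) (nat_lit 4) (nat_lit 4) (nat_lit 2) (nat_lit 4) (nat_lit 334) (nat_lit 254) (nat_lit 132))) (XT.nd (nat_lit 78) (nat_lit 0) (nat_lit 0) (XT.lf (nat_lit 0) (nat_lit 916411868453) (nat_lit 152) (nat_lit 142803514704) (nat_lit 0) (nat_lit 870764968618) (nat_lit 2) (nat_lit 5) (nat_lit 4) (nat_lit 4) (nat_lit 2) (nat_lit 4) (nat_lit 335) (nat_lit 254) (nat_lit 131)) (XT.lf (nat_lit 0) (nat_lit 1004601579903) (nat_lit 152) (nat_lit 119318833107) (nat_lit 0) (nat_lit 958954418256) (nat_lit 2) (nat_lit 5) (nat_lit 4) (nat_lit 4) (nat_lit 2) (nat_lit 4) (nat_lit 336) (nat_lit 254) (nat_lit 130)))))) (XT.nd (nat_lit 31434) (nat_lit 0) (nat_lit 2204) (XT.nd (nat_lit 31122) (nat_lit 0) (nat_lit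 2660) (XT.nd (nat_lit 78) (nat_lit 0) (nat_lit 0) (XT.lf (nat_lit 0) (nat_lit 1099846263640) (nat_lit 152) (nat_lit 93955762510) (nat_lit 0) (nat_lit 1054198859574) (nat_lit 2) (nat_lit 5) (nat_lit 4) (nat_lit 4) (nat_lit 2) (nat_lit 4) (nat_lit 337) (nat_lit 254) (nat_lit 129)) (XT.nd (nat_lit 78) (nat_lit 0) (nat_lit 0) (XT.lf (nat_lit 0) (nat_lit 1202710332605) (nat_lit 152) (nat_lit 66564003236) (nat_lit 0) (nat_lit 1157062704078) (nat_lit 2) (nat_lit 5) (nat_lit 4) (nat_lit 4) (nat_lit 2) (nat_lit 4) (nat_lit 338) (nat_lit 254) (nat_lit 128)) (XT.lf (nat_lit 0) (nat_lit 1313803351651) (nat_lit 152) (nat_lit 36981233747) (nat_lit 0) (nat_lit 1268155515290) (nat_lit 2) (nat_lit 5) (nat_lit 4) (nat_lit 4) (nat_lit 2) (nat_lit 4) (nat_lit 339) (nat_lit 254) (nat_lit 127)))) (XT.nd (nat_lit 156) (nat_lit 0) (nat_lit 76) (XT.nd (nat_lit 78) (nat_lit 0) (nat_lit 0) (XT.lf (nat_lit 0)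 (nat_lit 1246313347) (nat_lit 532) (nat_lit 2691907587) (nat_lit 532) (nat_lit 2691907587) (nat_lit 37) (nat_lit 3) (nat_lit 44) (nat_lit 3) (nat_lit 44) (nat_lit 5) (nat_lit 255) (nat_lit 255) (nat_lit 210)) (XT.lf (nat_lit 76) (nat_lit 401536935) (nat_lit 0) (nat_lit 2547403422) (nat_lit 532) (nat_lit 10811541423) (nat_lit 38) (nat_lit 5) (nat_lit 37) (nat_lit 3) (nat_lit 44) (nat_lit 5) (nat_lit 256) (nat_lit 255) (nat_lit 209))) (XT.nd (nat_lit 78) (nat_lit 0) (nat_lit 0) (XT.lf (nat_lit 0) (nat_lit 3635118240) (nat_lit 456) (nat_lit 7437192805) (nat_lit 532) (nat_lit 3213110485) (nat_lit 38) (nat_lit 5) (nat_lit 44) (nat_lit 5) (nat_lit 45) (nat_lit 5) (nat_lit 257) (nat_lit 255) (nat_lit 208)) (XT.lf (nat_lit 0) (nat_lit 4410117003) (nat_lit 456) (nat_lit 1129319870) (nat_lit 532) (nat_lit 9310358942) (nat_lit 38) (nat_lit 5) (nat_lit 44) (nat_lit 5) (nat_lit 45) (nat_lit 5) (nat_lit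 258) (nat_lit 255) (nat_lit 207))))) (XT.nd (nat_lit 234) (nat_lit 608) (nat_lit 0) (XT.nd (nat_lit 78) (nat_lit 0) (nat_lit 0) (XT.lf (nat_lit 0) (nat_lit 5375090946) (nat_lit 456) (nat_lit 9503292529) (nat_lit 532) (nat_lit 570840663) (nat_lit 39) (nat_lit 5) (nat_lit 45) (nat_lit 5) (nat_lit 46) (nat_lit 5) (nat_lit 259) (nat_lit 255) (nat_lit 206)) (XT.nd (nat_lit 78) (nat_lit 0) (nat_lit 0) (XT.lf (nat_lit 0) (nat_lit 6564928267) (nat_lit 456) (nat_lit 2609342722) (nat_lit 532) (nat_lit 6910654089) (nat_lit 39) (nat_lit 5) (nat_lit 45) (nat_lit 5) (nat_lit 46) (nat_lit 5) (nat_lit 260) (nat_lit 255) (nat_lit 205)) (XT.lf (nat_lit 76) (nat_lit 5069389128) (nat_lit 0) (nat_lit 2876653083) (nat_lit 532) (nat_lit 8817874556) (nat_lit 40) (nat_lit 5) (nat_lit 39) (nat_lit 5) (nat_lit 46) (nat_lit 5) (nat_lit 261) (nat_lit 255) (nat_lit 204)))) (XT.nd (nat_lit 156) (nat_lit 228) (nat_lit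 0) (XT.nd (nat_lit 78) (nat_lit 456) (nat_lit 0) (XT.lf (nat_lit 0) (nat_lit 9580951060) (nat_lit 456) (nat_lit 4098934270) (nat_lit 76) (nat_lit 3805990814) (nat_lit 40) (nat_lit 5) (nat_lit 46) (nat_lit 5) (nat_lit 41) (nat_lit 5) (nat_lit 262) (nat_lit 255) (nat_lit 203)) (XT.lf (nat_lit 0) (nat_lit 4220350716) (nat_lit 456) (nat_lit 7280036115) (nat_lit 532) (nat_lit 6753011164) (nat_lit 34) (nat_lit 5) (nat_lit 40) (nat_lit 5) (nat_lit 41) (nat_lit 5) (nat_lit 263) (nat_lit 255) (nat_lit 202))) (XT.nd (nat_lit 78) (nat_lit 228) (nat_lit 0) (XT.lf (nat_lit 0) (nat_lit 13418447259) (nat_lit 456) (nat_lit 245707015) (nat_lit 532) (nat_lit 5411001898) (nat_lit 34) (nat_lit 5) (nat_lit 40) (nat_lit 5) (nat_lit 41) (nat_lit 5) (nat_lit 264) (nat_lit 255) (nat_lit 201)) (XT.lf (nat_lit 0) (nat_lit 3360995635) (nat_lit 228) (nat_lit 12877974583) (nat_lit 304) (nat_lit 3704738574) (nat_lit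 31) (nat_lit 5) (nat_lit 34) (nat_lit 5) (nat_lit 35) (nat_lit 5) (nat_lit 265) (nat_lit 255) (nat_lit 200))))))))
noncomputable def xc77 : XT := (XT.nd (nat_lit 2028) (nat_lit 532) (nat_lit 0) (XT.nd (nat_lit 1014) (nat_lit 532) (nat_lit 0) (XT.nd (nat_lit 468) (nat_lit 684) (nat_lit 0) (XT.nd (nat_lit 234) (nat_lit 228) (nat_lit 0) (XT.nd (nat_lit 78) (nat_lit 228) (nat_lit 0) (XT.lf (nat_lit 0) (nat_lit 13395537743) (nat_lit 228) (nat_lit 5766420765) (nat_lit 304) (nat_lit 1708495071) (nat_lit 31) (nat_lit 5) (nat_lit 34) (nat_lit 5) (nat_lit 35) (nat_lit 5) (nat_lit 266) (nat_lit 255) (nat_lit 199)) (XT.nd (nat_lit 78) (nat_lit 0) (nat_lit 0) (XT.lf (nat_lit 0) (nat_lit 514072555) (nat_lit 228) (nat_lit 19460668416) (nat_lit 76) (nat_lit 1888686560) (nat_lit 28) (nat_lit 5) (nat_lit 31) (nat_lit 5) (nat_lit 29) (nat_lit 5) (nat_lit 267) (nat_lit 255) (nat_lit 198)) (XT.lf (nat_lit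 0) (nat_lit 3164602704) (nat_lit 228) (nat_lit 9643220524) (nat_lit 76) (nat_lit 10097135060) (nat_lit 28) (nat_lit 5) (nat_lit 31) (nat_lit 5) (nat_lit 29) (nat_lit 5) (nat_lit 268) (nat_lit 255) (nat_lit 197)))) (XT.nd (nat_lit 78) (nat_lit 0) (nat_lit 0) (XT.lf (nat_lit 0) (nat_lit 990639839) (nat_lit 228) (nat_lit 5044616918) (nat_lit 304) (nat_lit 17993969180) (nat_lit 25) (nat_lit 5) (nat_lit 28) (nat_lit 5) (nat_lit 29) (nat_lit 5) (nat_lit 269) (nat_lit 255) (nat_lit 196)) (XT.nd (nat_lit 78) (nat_lit 0) (nat_lit 0) (XT.lf (nat_lit 0) (nat_lit 9471307458) (nat_lit 304) (nat_lit 12305135066) (nat_lit 76) (nat_lit 3440189366) (nat_lit 25) (nat_lit 5) (nat_lit 29) (nat_lit 5) (nat_lit 26) (nat_lit 5) (nat_lit 270) (nat_lit 255) (nat_lit 195)) (XT.lf (nat_lit 0) (nat_lit 13299303294) (nat_lit 304) (nat_lit 861864432) (nat_lit 76) (nat_lit 12328549963) (nat_lit 25) (nat_lit 5) (nat_lit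 29) (nat_lit 5) (nat_lit 26) (nat_lit 5) (nat_lit 271) (nat_lit 255) (nat_lit 194))))) (XT.nd (nat_lit 234) (nat_lit 380) (nat_lit 0) (XT.nd (nat_lit 78) (nat_lit 152) (nat_lit 0) (XT.lf (nat_lit 0) (nat_lit 12084896398) (nat_lit 152) (nat_lit 5626351179) (nat_lit 228) (nat_lit 10131234457) (nat_lit 23) (nat_lit 5) (nat_lit 25) (nat_lit 5) (nat_lit 26) (nat_lit 5) (nat_lit 272) (nat_lit 255) (nat_lit 193)) (XT.nd (nat_lit 78) (nat_lit 152) (nat_lit 0) (XT.lf (nat_lit 0) (nat_lit 22574242226) (nat_lit 228) (nat_lit 3289184153) (nat_lit 76) (nat_lit 3432238364) (nat_lit 23) (nat_lit 5) (nat_lit 26) (nat_lit 5) (nat_lit 24) (nat_lit 5) (nat_lit 273) (nat_lit 255) (nat_lit 192)) (XT.lf (nat_lit 0) (nat_lit 10542139522) (nat_lit 152) (nat_lit 17672285160) (nat_lit 228) (nat_lit 2619667010) (nat_lit 21) (nat_lit 5) (nat_lit 23) (nat_lit 5) (nat_lit 24) (nat_lit 5) (nat_lit 274) (nat_lit 255)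 (nat_lit 191)))) (XT.nd (nat_lit 156) (nat_lit 152) (nat_lit 0) (XT.nd (nat_lit 78) (nat_lit 152) (nat_lit 0) (XT.lf (nat_lit 0) (nat_lit 1800573473) (nat_lit 228) (nat_lit 6883248650) (nat_lit 76) (nat_lit 23801851393) (nat_lit 20) (nat_lit 5) (nat_lit 23) (nat_lit 5) (nat_lit 21) (nat_lit 5) (nat_lit 275) (nat_lit 255) (nat_lit 190)) (XT.lf (nat_lit 0) (nat_lit 6643863525) (nat_lit 228) (nat_lit 26369790151) (nat_lit 76) (nat_lit 1233440846) (nat_lit 18) (nat_lit 5) (nat_lit 21) (nat_lit 5) (nat_lit 19) (nat_lit 5) (nat_lit 276) (nat_lit 255) (nat_lit 189))) (XT.nd (nat_lit 78) (nat_lit 152) (nat_lit 0) (XT.lf (nat_lit 0) (nat_lit 12283060408) (nat_lit 228) (nat_lit 12169836125) (nat_lit 76) (nat_lit 11663887675) (nat_lit 18) (nat_lit 5) (nat_lit 21) (nat_lit 5) (nat_lit 19) (nat_lit 5) (nat_lit 277) (nat_lit 255) (nat_lit 188)) (XT.lf (nat_lit 0) (nat_lit 3318041579) (nat_lit 152)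 (nat_lit 15125707174) (nat_lit 228) (nat_lit 19686700091) (nat_lit 16) (nat_lit 5) (nat_lit 18) (nat_lit 5) (nat_lit 19) (nat_lit 5) (nat_lit 278) (nat_lit 255) (nat_lit 187)))))) (XT.nd (nat_lit 468) (nat_lit 228) (nat_lit 0) (XT.nd (nat_lit 234) (nat_lit 228) (nat_lit 0) (XT.nd (nat_lit 78) (nat_lit 76) (nat_lit 0) (XT.lf (nat_lit 0) (nat_lit 20723360156) (nat_lit 152) (nat_lit 4697603678) (nat_lit 228) (nat_lit 14858375226) (nat_lit 16) (nat_lit 5) (nat_lit 18) (nat_lit 5) (nat_lit 19) (nat_lit 5) (nat_lit 279) (nat_lit 255) (nat_lit 186)) (XT.nd (nat_lit 78) (nat_lit 76) (nat_lit 0) (XT.lf (nat_lit 0) (nat_lit 33105734340) (nat_lit 228) (nat_lit 3250195906) (nat_lit 76) (nat_lit 6232284195) (nat_lit 16) (nat_lit 5) (nat_lit 19) (nat_lit 5) (nat_lit 17) (nat_lit 4) (nat_lit 280) (nat_lit 255) (nat_lit 185)) (XT.lf (nat_lit 0) (nat_lit 14974842545) (nat_lit 76) (nat_lit 26904730747)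 (nat_lit 152) (nat_lit 3164306027) (nat_lit 15) (nat_lit 5) (nat_lit 16) (nat_lit 5) (nat_lit 17) (nat_lit 4) (nat_lit 281) (nat_lit 255) (nat_lit 184)))) (XT.nd (nat_lit 78) (nat_lit 152) (nat_lit 0) (XT.lf (nat_lit 0) (nat_lit 3559646517) (nat_lit 152) (nat_lit 12948889762) (nat_lit 76) (nat_lit 31173769487) (nat_lit 14) (nat_lit 5) (nat_lit 16) (nat_lit 5) (nat_lit 15) (nat_lit 5) (nat_lit 282) (nat_lit 255) (nat_lit 183)) (XT.nd (nat_lit 78) (nat_lit 0) (nat_lit 0) (XT.lf (nat_lit 0) (nat_lit 5734025588) (nat_lit 152) (nat_lit 5047220197) (nat_lit 228) (nat_lit 39733548337) (nat_lit 12) (nat_lit 5) (nat_lit 14) (nat_lit 5) (nat_lit 15) (nat_lit 5) (nat_lit 283) (nat_lit 255) (nat_lit 182)) (XT.lf (nat_lit 0) (nat_lit 19113070203) (nat_lit 228) (nat_lit 27094748043) (nat_lit 76) (nat_lit 7323479996) (nat_lit 12) (nat_lit 5) (nat_lit 15) (nat_lit 5) (nat_lit 13) (nat_lit 4) (nat_lit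 284) (nat_lit 255) (nat_lit 181))))) (XT.nd (nat_lit 234) (nat_lit 152) (nat_lit 0) (XT.nd (nat_lit 78) (nat_lit 76) (nat_lit 0) (XT.lf (nat_lit 0) (nat_lit 28236004676) (nat_lit 228) (nat_lit 8135750321) (nat_lit 76) (nat_lit 20407417819) (nat_lit 12) (nat_lit 5) (nat_lit 15) (nat_lit 5) (nat_lit 13) (nat_lit 4) (nat_lit 285) (nat_lit 255) (nat_lit 180)) (XT.nd (nat_lit 78) (nat_lit 0) (nat_lit 0) (XT.lf (nat_lit 0) (nat_lit 12979233858) (nat_lit 76) (nat_lit 25415642299) (nat_lit 152) (nat_lit 21867527142) (nat_lit 11) (nat_lit 5) (nat_lit 12) (nat_lit 5) (nat_lit 13) (nat_lit 4) (nat_lit 286) (nat_lit 255) (nat_lit 179)) (XT.lf (nat_lit 0) (nat_lit 36236350245) (nat_lit 76) (nat_lit 13346717775) (nat_lit 152) (nat_lit 14423908426) (nat_lit 11) (nat_lit 5) (nat_lit 12) (nat_lit 5) (nat_lit 13) (nat_lit 4) (nat_lit 287) (nat_lit 255) (nat_lit 178)))) (XT.nd (nat_lit 156) (nat_lit 0)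 (nat_lit 0) (XT.nd (nat_lit 78) (nat_lit 152) (nat_lit 0) (XT.lf (nat_lit 0) (nat_lit 61345004595) (nat_lit 76) (nat_lit 315907702) (nat_lit 152) (nat_lit 6390647490) (nat_lit 11) (nat_lit 5) (nat_lit 12) (nat_lit 5) (nat_lit 13) (nat_lit 4) (nat_lit 288) (nat_lit 255) (nat_lit 177)) (XT.lf (nat_lit 0) (nat_lit 2913060643) (nat_lit 152) (nat_lit 55905623102) (nat_lit 76) (nat_lit 13537271159) (nat_lit 9) (nat_lit 5) (nat_lit 11) (nat_lit 5) (nat_lit 10) (nat_lit 4) (nat_lit 289) (nat_lit 255) (nat_lit 176))) (XT.nd (nat_lit 78) (nat_lit 0) (nat_lit 0) (XT.lf (nat_lit 0) (nat_lit 12807093659) (nat_lit 152) (nat_lit 35336562033) (nat_lit 76) (nat_lit 28832473149) (nat_lit 9) (nat_lit 5) (nat_lit 11) (nat_lit 5) (nat_lit 10) (nat_lit 4) (nat_lit 290) (nat_lit 255) (nat_lit 175)) (XT.lf (nat_lit 0) (nat_lit 23487975105) (nat_lit 152) (nat_lit 13130076404) (nat_lit 76) (nat_lit 45348248020)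 (nat_lit 9) (nat_lit 5) (nat_lit 11) (nat_lit 5) (nat_lit 10) (nat_lit 4) (nat_lit 291) (nat_lit 255) (nat_lit 174))))))) (XT.nd (nat_lit 1014) (nat_lit 228) (nat_lit 0) (XT.nd (nat_lit 468) (nat_lit 152) (nat_lit 0) (XT.nd (nat_lit 234) (nat_lit 76) (nat_lit 0) (XT.nd (nat_lit 78) (nat_lit 0) (nat_lit 0) (XT.lf (nat_lit 0) (nat_lit 11416528779) (nat_lit 76) (nat_lit 23877038108) (nat_lit 152) (nat_lit 52040506040) (nat_lit 8) (nat_lit 5) (nat_lit 9) (nat_lit 5) (nat_lit 10) (nat_lit 4) (nat_lit 292) (nat_lit 255) (nat_lit 173)) (XT.nd (nat_lit 78) (nat_lit 0) (nat_lit 0) (XT.lf (nat_lit 0) (nat_lit 38666271037) (nat_lit 76) (nat_lit 9732151335) (nat_lit 152) (nat_lit 44704468148) (nat_lit 8) (nat_lit 5) (nat_lit 9) (nat_lit 5) (nat_lit 10) (nat_lit 4) (nat_lit 293) (nat_lit 255) (nat_lit 172)) (XT.lf (nat_lit 0) (nat_lit 62681064508) (nat_lit 152) (nat_lit 31377578228) (nat_lit 0)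 (nat_lit 5264225990) (nat_lit 8) (nat_lit 5) (nat_lit 10) (nat_lit 4) (nat_lit 8) (nat_lit 4) (nat_lit 294) (nat_lit 255) (nat_lit 171)))) (XT.nd (nat_lit 78) (nat_lit 76) (nat_lit 0) (XT.lf (nat_lit 0) (nat_lit 78355450269) (nat_lit 152) (nat_lit 6733093307) (nat_lit 0) (nat_lit 20931977576) (nat_lit 8) (nat_lit 5) (nat_lit 10) (nat_lit 4) (nat_lit 8) (nat_lit 4) (nat_lit 295) (nat_lit 255) (nat_lit 170)) (XT.nd (nat_lit 78) (nat_lit 0) (nat_lit 0) (XT.lf (nat_lit 0) (nat_lit 20923619325) (nat_lit 76) (nat_lit 74860000652) (nat_lit 76) (nat_lit 17430385204) (nat_lit 7) (nat_lit 4) (nat_lit 8) (nat_lit 5) (nat_lit 8) (nat_lit 4) (nat_lit 296) (nat_lit 255) (nat_lit 169)) (XT.lf (nat_lit 0) (nat_lit 51169922975) (nat_lit 76) (nat_lit 63616943930) (nat_lit 76) (nat_lit 6181640745) (nat_lit 7) (nat_lit 4) (nat_lit 8) (nat_lit 5) (nat_lit 8) (nat_lit 4) (nat_lit 297) (nat_lit 255) (nat_lit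 168))))) (XT.nd (nat_lit 234) (nat_lit 0) (nat_lit 0) (XT.nd (nat_lit 78) (nat_lit 76) (nat_lit 0) (XT.lf (nat_lit 0) (nat_lit 5665397236) (nat_lit 152) (nat_lit 45656543354) (nat_lit 76) (nat_lit 78010202998) (nat_lit 6) (nat_lit 5) (nat_lit 8) (nat_lit 5) (nat_lit 7) (nat_lit 4) (nat_lit 298) (nat_lit 255) (nat_lit 167)) (XT.nd (nat_lit 78) (nat_lit 76) (nat_lit 0) (XT.lf (nat_lit 0) (nat_lit 18123347277) (nat_lit 152) (nat_lit 19748883585) (nat_lit 76) (nat_lit 100480029569) (nat_lit 6) (nat_lit 5) (nat_lit 8) (nat_lit 5) (nat_lit 7) (nat_lit 4) (nat_lit 299) (nat_lit 255) (nat_lit 166)) (XT.lf (nat_lit 0) (nat_lit 8659787768) (nat_lit 76) (nat_lit 23123745308) (nat_lit 152) (nat_lit 116294009688) (nat_lit 5) (nat_lit 5) (nat_lit 6) (nat_lit 5) (nat_lit 7) (nat_lit 4) (nat_lit 300) (nat_lit 255) (nat_lit 165)))) (XT.nd (nat_lit 156) (nat_lit 0) (nat_lit 0) (XT.nd (nat_lit 78) (nat_lit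 0) (nat_lit 0) (XT.lf (nat_lit 0) (nat_lit 40459611976) (nat_lit 76) (nat_lit 6614308054) (nat_lit 152) (nat_lit 111463940568) (nat_lit 5) (nat_lit 5) (nat_lit 6) (nat_lit 5) (nat_lit 7) (nat_lit 4) (nat_lit 301) (nat_lit 255) (nat_lit 164)) (XT.lf (nat_lit 0) (nat_lit 63854841753) (nat_lit 152) (nat_lit 95305803160) (nat_lit 0) (nat_lit 10652978174) (nat_lit 5) (nat_lit 5) (nat_lit 7) (nat_lit 4) (nat_lit 5) (nat_lit 4) (nat_lit 302) (nat_lit 255) (nat_lit 163))) (XT.nd (nat_lit 78) (nat_lit 0) (nat_lit 0) (XT.lf (nat_lit 0) (nat_lit 82147779578) (nat_lit 152) (nat_lit 70887509620) (nat_lit 0) (nat_lit 28942597260) (nat_lit 5) (nat_lit 5) (nat_lit 7) (nat_lit 4) (nat_lit 5) (nat_lit 4) (nat_lit 303) (nat_lit 255) (nat_lit 162)) (XT.lf (nat_lit 0) (nat_lit 101902061833) (nat_lit 152) (nat_lit 44519592737) (nat_lit 0) (nat_lit 48693806607) (nat_lit 5) (nat_lit 5) (nat_lit 7) (nat_lit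 4) (nat_lit 5) (nat_lit 4) (nat_lit 304) (nat_lit 255) (nat_lit 161)))))) (XT.nd (nat_lit 546) (nat_lit 152) (nat_lit 0) (XT.nd (nat_lit 234) (nat_lit 0) (nat_lit 0) (XT.nd (nat_lit 78) (nat_lit 76) (nat_lit 0) (XT.lf (nat_lit 0) (nat_lit 123234750931) (nat_lit 152) (nat_lit 16045798188) (nat_lit 0) (nat_lit 70023650421) (nat_lit 5) (nat_lit 5) (nat_lit 7) (nat_lit 4) (nat_lit 5) (nat_lit 4) (nat_lit 305) (nat_lit 255) (nat_lit 160)) (XT.nd (nat_lit 78) (nat_lit 0) (nat_lit 0) (XT.lf (nat_lit 0) (nat_lit 15476820887) (nat_lit 76) (nat_lit 131167659834) (nat_lit 76) (nat_lit 77953924801) (nat_lit 4) (nat_lit 4) (nat_lit 5) (nat_lit 5) (nat_lit 5) (nat_lit 4) (nat_lit 306) (nat_lit 255) (nat_lit 159)) (XT.lf (nat_lit 0) (nat_lit 50430579298) (nat_lit 76) (nat_lit 121933393396) (nat_lit 76) (nat_lit 68717218991) (nat_lit 4) (nat_lit 4) (nat_lit 5) (nat_lit 5) (nat_lit 5) (nat_lit 4) (nat_lit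 307) (nat_lit 255) (nat_lit 158)))) (XT.nd (nat_lit 156) (nat_lit 0) (nat_lit 0) (XT.nd (nat_lit 78) (nat_lit 0) (nat_lit 0) (XT.lf (nat_lit 0) (nat_lit 88177667130) (nat_lit 76) (nat_lit 111961748785) (nat_lit 76) (nat_lit 58743315702) (nat_lit 4) (nat_lit 4) (nat_lit 5) (nat_lit 5) (nat_lit 5) (nat_lit 4) (nat_lit 308) (nat_lit 255) (nat_lit 157)) (XT.lf (nat_lit 0) (nat_lit 128941770831) (nat_lit 76) (nat_lit 101193634773) (nat_lit 76) (nat_lit 47973110321) (nat_lit 4) (nat_lit 4) (nat_lit 5) (nat_lit 5) (nat_lit 5) (nat_lit 4) (nat_lit 309) (nat_lit 255) (nat_lit 156))) (XT.nd (nat_lit 78) (nat_lit 0) (nat_lit 0) (XT.lf (nat_lit 0) (nat_lit 172964455459) (nat_lit 76) (nat_lit 89565240314) (nat_lit 76) (nat_lit 36342779409) (nat_lit 4) (nat_lit 4) (nat_lit 5) (nat_lit 5) (nat_lit 5) (nat_lit 4) (nat_lit 310) (nat_lit 255) (nat_lit 155)) (XT.lf (nat_lit 0) (nat_lit 220506596183) (nat_lit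 76) (nat_lit 77007656404) (nat_lit 76) (nat_lit 23783402488) (nat_lit 4) (nat_lit 4) (nat_lit 5) (nat_lit 5) (nat_lit 5) (nat_lit 4) (nat_lit 311) (nat_lit 255) (nat_lit 154))))) (XT.nd (nat_lit 234) (nat_lit 76) (nat_lit 0) (XT.nd (nat_lit 78) (nat_lit 76) (nat_lit 0) (XT.lf (nat_lit 0) (nat_lit 271849924206) (nat_lit 76) (nat_lit 63446467731) (nat_lit 76) (nat_lit 10220553619) (nat_lit 4) (nat_lit 4) (nat_lit 5) (nat_lit 5) (nat_lit 5) (nat_lit 4) (nat_lit 312) (nat_lit 255) (nat_lit 153)) (XT.nd (nat_lit 78) (nat_lit 0) (nat_lit 0) (XT.lf (nat_lit 0) (nat_lit 4204726204) (nat_lit 152) (nat_lit 44481620824) (nat_lit 76) (nat_lit 322979005417) (nat_lit 3) (nat_lit 5) (nat_lit 5) (nat_lit 5) (nat_lit 4) (nat_lit 4) (nat_lit 313) (nat_lit 255) (nat_lit 152)) (XT.lf (nat_lit 0) (nat_lit 19230812012) (nat_lit 152) (nat_lit 13228785693) (nat_lit 76) (nat_lit 367424881250) (nat_lit 3) (nat_lit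 5) (nat_lit 5) (nat_lit 5) (nat_lit 4) (nat_lit 4) (nat_lit 314) (nat_lit 255) (nat_lit 151)))) (XT.nd (nat_lit 156) (nat_lit 0) (nat_lit 0) (XT.nd (nat_lit 78) (nat_lit 0) (nat_lit 0) (XT.lf (nat_lit 0) (nat_lit 21603168575) (nat_lit 76) (nat_lit 14374408911) (nat_lit 152) (nat_lit 394342071880) (nat_lit 2) (nat_lit 5) (nat_lit 3) (nat_lit 5) (nat_lit 4) (nat_lit 4) (nat_lit 315) (nat_lit 255) (nat_lit 150)) (XT.lf (nat_lit 0) (nat_lit 54558263926) (nat_lit 152) (nat_lit 403321917562) (nat_lit 0) (nat_lit 5269918656) (nat_lit 2) (nat_lit 5) (nat_lit 4) (nat_lit 4) (nat_lit 2) (nat_lit 4) (nat_lit 316) (nat_lit 255) (nat_lit 149))) (XT.nd (nat_lit 78) (nat_lit 0) (nat_lit 0) (XT.lf (nat_lit 0) (nat_lit 74997883435) (nat_lit 152) (nat_lit 397870814370) (nat_lit 0) (nat_lit 25708491960) (nat_lit 2) (nat_lit 5) (nat_lit 4) (nat_lit 4) (nat_lit 2) (nat_lit 4) (nat_lit 317) (nat_lit 255)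 (nat_lit 148)) (XT.lf (nat_lit 0) (nat_lit 97071854805) (nat_lit 152) (nat_lit 391985163500) (nat_lit 0) (nat_lit 47781494622) (nat_lit 2) (nat_lit 5) (nat_lit 4) (nat_lit 4) (nat_lit 2) (nat_lit 4) (nat_lit 318) (nat_lit 255) (nat_lit 147))))))))
noncomputable def xc78 : XT := (XT.nd (nat_lit 32994) (nat_lit 0) (nat_lit 684) (XT.nd (nat_lit 1014) (nat_lit 0) (nat_lit 0) (XT.nd (nat_lit 468) (nat_lit 0) (nat_lit 0) (XT.nd (nat_lit 234) (nat_lit 0) (nat_lit 0) (XT.nd (nat_lit 78) (nat_lit 0) (nat_lit 0) (XT.lf (nat_lit 0) (nat_lit 120910986755) (nat_lit 152) (nat_lit 385630087021) (nat_lit 0) (nat_lit 71619729620) (nat_lit 2) (nat_lit 5) (nat_lit 4) (nat_lit 4) (nat_lit 2) (nat_lit 4) (nat_lit 319) (nat_lit 255) (nat_lit 146)) (XT.nd (nat_lit 78) (nat_lit 0) (nat_lit 0) (XT.lf (nat_lit 0) (nat_lit 146656548215) (nat_lit 152) (nat_lit 378767925221) (nat_lit 0) (nat_lit 97364460568) (nat_lit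 2) (nat_lit 5) (nat_lit 4) (nat_lit 4) (nat_lit 2) (nat_lit 4) (nat_lit 320) (nat_lit 255) (nat_lit 145)) (XT.lf (nat_lit 0) (nat_lit 174461105475) (nat_lit 152) (nat_lit 371358013438) (nat_lit 0) (nat_lit 125168248837) (nat_lit 2) (nat_lit 5) (nat_lit 4) (nat_lit 4) (nat_lit 2) (nat_lit 4) (nat_lit 321) (nat_lit 255) (nat_lit 144)))) (XT.nd (nat_lit 78) (nat_lit 0) (nat_lit 0) (XT.lf (nat_lit 0) (nat_lit 204489426283) (nat_lit 152) (nat_lit 363356441083) (nat_lit 0) (nat_lit 155195857615) (nat_lit 2) (nat_lit 5) (nat_lit 4) (nat_lit 4) (nat_lit 2) (nat_lit 4) (nat_lit 322) (nat_lit 255) (nat_lit 143)) (XT.nd (nat_lit 78) (nat_lit 0) (nat_lit 0) (XT.lf (nat_lit 0) (nat_lit 236919456242) (nat_lit 152) (nat_lit 354715791431) (nat_lit 0) (nat_lit 187625228287) (nat_lit 2) (nat_lit 5) (nat_lit 4) (nat_lit 4) (nat_lit 2) (nat_lit 4) (nat_lit 323) (nat_lit 255) (nat_lit 142)) (XT.lf (nat_lit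 0) (nat_lit 271943373308) (nat_lit 152) (nat_lit 345384860632) (nat_lit 0) (nat_lit 222648534903) (nat_lit 2) (nat_lit 5) (nat_lit 4) (nat_lit 4) (nat_lit 2) (nat_lit 4) (nat_lit 324) (nat_lit 255) (nat_lit 141))))) (XT.nd (nat_lit 234) (nat_lit 0) (nat_lit 0) (XT.nd (nat_lit 78) (nat_lit 0) (nat_lit 0) (XT.lf (nat_lit 0) (nat_lit 309768726620) (nat_lit 152) (nat_lit 335308354281) (nat_lit 0) (nat_lit 260473322982) (nat_lit 2) (nat_lit 5) (nat_lit 4) (nat_lit 4) (nat_lit 2) (nat_lit 4) (nat_lit 325) (nat_lit 255) (nat_lit 140)) (XT.nd (nat_lit 78) (nat_lit 0) (nat_lit 0) (XT.lf (nat_lit 0) (nat_lit 350619666418) (nat_lit 152) (nat_lit 324426559749) (nat_lit 0) (nat_lit 301323739418) (nat_lit 2) (nat_lit 5) (nat_lit 4) (nat_lit 4) (nat_lit 2) (nat_lit 4) (nat_lit 326) (nat_lit 255) (nat_lit 139)) (XT.lf (nat_lit 0) (nat_lit 394738272347) (nat_lit 152) (nat_lit 312674992327) (nat_lit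 0) (nat_lit 345441860751) (nat_lit 2) (nat_lit 5) (nat_lit 4) (nat_lit 4) (nat_lit 2) (nat_lit 4) (nat_lit 327) (nat_lit 255) (nat_lit 138)))) (XT.nd (nat_lit 156) (nat_lit 0) (nat_lit 0) (XT.nd (nat_lit 78) (nat_lit 0) (nat_lit 0) (XT.lf (nat_lit 0) (nat_lit 442385987997) (nat_lit 152) (nat_lit 299984013097) (nat_lit 0) (nat_lit 393089127702) (nat_lit 2) (nat_lit 5) (nat_lit 4) (nat_lit 4) (nat_lit 2) (nat_lit 4) (nat_lit 328) (nat_lit 255) (nat_lit 137)) (XT.lf (nat_lit 0) (nat_lit 493845170202) (nat_lit 152) (nat_lit 286278416256) (nat_lit 0) (nat_lit 444547894444) (nat_lit 2) (nat_lit 5) (nat_lit 4) (nat_lit 4) (nat_lit 2) (nat_lit 4) (nat_lit 329) (nat_lit 255) (nat_lit 136))) (XT.nd (nat_lit 78) (nat_lit 0) (nat_lit 0) (XT.lf (nat_lit 0) (nat_lit 549420762263) (nat_lit 152) (nat_lit 271476983452) (nat_lit 0) (nat_lit 500123101817) (nat_lit 2) (nat_lit 5) (nat_lit 4) (nat_lit 4)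 (nat_lit 2) (nat_lit 4) (nat_lit 330) (nat_lit 255) (nat_lit 135)) (XT.lf (nat_lit 0) (nat_lit 609442101022) (nat_lit 152) (nat_lit 255492002492) (nat_lit 0) (nat_lit 560144084384) (nat_lit 2) (nat_lit 5) (nat_lit 4) (nat_lit 4) (nat_lit 2) (nat_lit 4) (nat_lit 331) (nat_lit 255) (nat_lit 134)))))) (XT.nd (nat_lit 468) (nat_lit 0) (nat_lit 0) (XT.nd (nat_lit 234) (nat_lit 0) (nat_lit 0) (XT.nd (nat_lit 78) (nat_lit 0) (nat_lit 0) (XT.lf (nat_lit 0) (nat_lit 674264868487) (nat_lit 152) (nat_lit 238228747561) (nat_lit 0) (nat_lit 624966522042) (nat_lit 2) (nat_lit 5) (nat_lit 4) (nat_lit 4) (nat_lit 2) (nat_lit 4) (nat_lit 332) (nat_lit 255) (nat_lit 133)) (XT.nd (nat_lit 78) (nat_lit 0) (nat_lit 0) (XT.lf (nat_lit 0) (nat_lit 744273199576) (nat_lit 152) (nat_lit 219584917890) (nat_lit 0) (nat_lit 694974547754) (nat_lit 2) (nat_lit 5) (nat_lit 4) (nat_lit 4) (nat_lit 2) (nat_lit 4) (nat_lit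 333) (nat_lit 255) (nat_lit 132)) (XT.lf (nat_lit 0) (nat_lit 819881958474) (nat_lit 152) (nat_lit 199450031526) (nat_lit 0) (nat_lit 770583023895) (nat_lit 2) (nat_lit 5) (nat_lit 4) (nat_lit 4) (nat_lit 2) (nat_lit 4) (nat_lit 334) (nat_lit 255) (nat_lit 131)))) (XT.nd (nat_lit 78) (nat_lit 0) (nat_lit 0) (XT.lf (nat_lit 0) (nat_lit 901539197084) (nat_lit 152) (nat_lit 177704770622) (nat_lit 0) (nat_lit 852240000693) (nat_lit 2) (nat_lit 5) (nat_lit 4) (nat_lit 4) (nat_lit 2) (nat_lit 4) (nat_lit 335) (nat_lit 255) (nat_lit 130)) (XT.nd (nat_lit 78) (nat_lit 0) (nat_lit 0) (XT.lf (nat_lit 0) (nat_lit 989728810155) (nat_lit 152) (nat_lit 154220274375) (nat_lit 0) (nat_lit 940429371346) (nat_lit 2) (nat_lit 5) (nat_lit 4) (nat_lit 4) (nat_lit 2) (nat_lit 4) (nat_lit 336) (nat_lit 255) (nat_lit 129)) (XT.lf (nat_lit 0) (nat_lit 1084973402800) (nat_lit 152) (nat_lit 128857375398) (nat_lit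 0) (nat_lit 1035673739529) (nat_lit 2) (nat_lit 5) (nat_lit 4) (nat_lit 4) (nat_lit 2) (nat_lit 4) (nat_lit 337) (nat_lit 255) (nat_lit 128))))) (XT.nd (nat_lit 31200) (nat_lit 0) (nat_lit 2660) (XT.nd (nat_lit 78) (nat_lit 0) (nat_lit 0) (XT.lf (nat_lit 0) (nat_lit 1187837387421) (nat_lit 152) (nat_lit 101465775032) (nat_lit 0) (nat_lit 1138537516316) (nat_lit 2) (nat_lit 5) (nat_lit 4) (nat_lit 4) (nat_lit 2) (nat_lit 4) (nat_lit 338) (nat_lit 255) (nat_lit 127)) (XT.nd (nat_lit 31044) (nat_lit 0) (nat_lit 2660) (XT.lf (nat_lit 0) (nat_lit 1298930328371) (nat_lit 152) (nat_lit 71883152681) (nat_lit 0) (nat_lit 1249630264826) (nat_lit 2) (nat_lit 5) (nat_lit 4) (nat_lit 4) (nat_lit 2) (nat_lit 4) (nat_lit 339) (nat_lit 255) (nat_lit 126)) (XT.lf (nat_lit 0) (nat_lit 1684625842) (nat_lit 532) (nat_lit 2723603678) (nat_lit 532) (nat_lit 2723603678) (nat_lit 37) (nat_lit 3) (nat_lit 44)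 (nat_lit 3) (nat_lit 44) (nat_lit 5) (nat_lit 256) (nat_lit 256) (nat_lit 208)))) (XT.nd (nat_lit 156) (nat_lit 0) (nat_lit 76) (XT.nd (nat_lit 78) (nat_lit 0) (nat_lit 76) (XT.lf (nat_lit 76) (nat_lit 791673858) (nat_lit 0) (nat_lit 3028842764) (nat_lit 532) (nat_lit 10986956354) (nat_lit 38) (nat_lit 5) (nat_lit 37) (nat_lit 3) (nat_lit 44) (nat_lit 5) (nat_lit 257) (nat_lit 256) (nat_lit 207)) (XT.lf (nat_lit 0) (nat_lit 4508319937) (nat_lit 456) (nat_lit 7644632364) (nat_lit 532) (nat_lit 3225938920) (nat_lit 38) (nat_lit 5) (nat_lit 44) (nat_lit 5) (nat_lit 45) (nat_lit 5) (nat_lit 258) (nat_lit 256) (nat_lit 206))) (XT.nd (nat_lit 78) (nat_lit 0) (nat_lit 76) (XT.lf (nat_lit 0) (nat_lit 5302178435) (nat_lit 456) (nat_lit 860835955) (nat_lit 532) (nat_lit 9829057653) (nat_lit 38) (nat_lit 5) (nat_lit 44) (nat_lit 5) (nat_lit 45) (nat_lit 5) (nat_lit 259) (nat_lit 256) (nat_lit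 205)) (XT.lf (nat_lit 0) (nat_lit 6309017807) (nat_lit 456) (nat_lit 9867016837) (nat_lit 532) (nat_lit 466436755) (nat_lit 39) (nat_lit 5) (nat_lit 45) (nat_lit 5) (nat_lit 46) (nat_lit 5) (nat_lit 260) (nat_lit 256) (nat_lit 204))))))) (XT.nd (nat_lit 1014) (nat_lit 912) (nat_lit 0) (XT.nd (nat_lit 468) (nat_lit 608) (nat_lit 0) (XT.nd (nat_lit 234) (nat_lit 608) (nat_lit 0) (XT.nd (nat_lit 78) (nat_lit 0) (nat_lit 0) (XT.lf (nat_lit 0) (nat_lit 7556714737) (nat_lit 456) (nat_lit 2450924312) (nat_lit 532) (nat_lit 7324551638) (nat_lit 39) (nat_lit 5) (nat_lit 45) (nat_lit 5) (nat_lit 46) (nat_lit 5) (nat_lit 261) (nat_lit 256) (nat_lit 203)) (XT.nd (nat_lit 78) (nat_lit 0) (nat_lit 76) (XT.lf (nat_lit 76) (nat_lit 5832810748) (nat_lit 0) (nat_lit 3189551456) (nat_lit 532) (nat_lit 9045378993) (nat_lit 40) (nat_lit 5) (nat_lit 39) (nat_lit 5) (nat_lit 46) (nat_lit 5) (nat_lit 262)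 (nat_lit 256) (nat_lit 202)) (XT.lf (nat_lit 0) (nat_lit 10753580932) (nat_lit 456) (nat_lit 4059117596) (nat_lit 76) (nat_lit 4037668385) (nat_lit 40) (nat_lit 5) (nat_lit 46) (nat_lit 5) (nat_lit 41) (nat_lit 5) (nat_lit 263) (nat_lit 256) (nat_lit 201)))) (XT.nd (nat_lit 78) (nat_lit 228) (nat_lit 0) (XT.lf (nat_lit 0) (nat_lit 4916400534) (nat_lit 456) (nat_lit 7888705616) (nat_lit 532) (nat_lit 6876041373) (nat_lit 34) (nat_lit 5) (nat_lit 40) (nat_lit 5) (nat_lit 41) (nat_lit 5) (nat_lit 264) (nat_lit 256) (nat_lit 200)) (XT.nd (nat_lit 78) (nat_lit 228) (nat_lit 0) (XT.lf (nat_lit 0) (nat_lit 14823795040) (nat_lit 456) (nat_lit 289684513) (nat_lit 532) (nat_lit 5457575861) (nat_lit 34) (nat_lit 5) (nat_lit 40) (nat_lit 5) (nat_lit 41) (nat_lit 5) (nat_lit 265) (nat_lit 256) (nat_lit 199)) (XT.lf (nat_lit 0) (nat_lit 3983266465) (nat_lit 228) (nat_lit 13892587121) (nat_lit 304)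 (nat_lit 3634832672) (nat_lit 31) (nat_lit 5) (nat_lit 34) (nat_lit 5) (nat_lit 35) (nat_lit 5) (nat_lit 266) (nat_lit 256) (nat_lit 198))))) (XT.nd (nat_lit 234) (nat_lit 380) (nat_lit 0) (XT.nd (nat_lit 78) (nat_lit 228) (nat_lit 0) (XT.lf (nat_lit 0) (nat_lit 14794394817) (nat_lit 228) (nat_lit 6213266437) (nat_lit 304) (nat_lit 1506021910) (nat_lit 31) (nat_lit 5) (nat_lit 34) (nat_lit 5) (nat_lit 35) (nat_lit 5) (nat_lit 267) (nat_lit 256) (nat_lit 197)) (XT.nd (nat_lit 78) (nat_lit 0) (nat_lit 0) (XT.lf (nat_lit 0) (nat_lit 862346398) (nat_lit 228) (nat_lit 20655829689) (nat_lit 76) (nat_lit 2068564659) (nat_lit 28) (nat_lit 5) (nat_lit 31) (nat_lit 5) (nat_lit 29) (nat_lit 5) (nat_lit 268) (nat_lit 256) (nat_lit 196)) (XT.lf (nat_lit 0) (nat_lit 3702167253) (nat_lit 228) (nat_lit 10079777981) (nat_lit 76) (nat_lit 10931556952) (nat_lit 28) (nat_lit 5) (nat_lit 31) (nat_lit 5)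 (nat_lit 29) (nat_lit 5) (nat_lit 269) (nat_lit 256) (nat_lit 195)))) (XT.nd (nat_lit 156) (nat_lit 152) (nat_lit 0) (XT.nd (nat_lit 78) (nat_lit 0) (nat_lit 0) (XT.lf (nat_lit 0) (nat_lit 1396312726) (nat_lit 228) (nat_lit 5392944960) (nat_lit 304) (nat_lit 19139592398) (nat_lit 25) (nat_lit 5) (nat_lit 28) (nat_lit 5) (nat_lit 29) (nat_lit 5) (nat_lit 270) (nat_lit 256) (nat_lit 194)) (XT.lf (nat_lit 0) (nat_lit 10481335149) (nat_lit 304) (nat_lit 12967502285) (nat_lit 76) (nat_lit 3763995180) (nat_lit 25) (nat_lit 5) (nat_lit 29) (nat_lit 5) (nat_lit 26) (nat_lit 5) (nat_lit 271) (nat_lit 256) (nat_lit 193))) (XT.nd (nat_lit 78) (nat_lit 152) (nat_lit 0) (XT.lf (nat_lit 0) (nat_lit 14596880052) (nat_lit 304) (nat_lit 632625080) (nat_lit 76) (nat_lit 13359825316) (nat_lit 25) (nat_lit 5) (nat_lit 29) (nat_lit 5) (nat_lit 26) (nat_lit 5) (nat_lit 272) (nat_lit 256) (nat_lit 192)) (XT.lf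 (nat_lit 0) (nat_lit 13342327540) (nat_lit 152) (nat_lit 6009136112) (nat_lit 228) (nat_lit 10699742332) (nat_lit 23) (nat_lit 5) (nat_lit 25) (nat_lit 5) (nat_lit 26) (nat_lit 5) (nat_lit 273) (nat_lit 256) (nat_lit 191)))))) (XT.nd (nat_lit 546) (nat_lit 380) (nat_lit 0) (XT.nd (nat_lit 234) (nat_lit 304) (nat_lit 0) (XT.nd (nat_lit 78) (nat_lit 228) (nat_lit 0) (XT.lf (nat_lit 0) (nat_lit 24588455116) (nat_lit 228) (nat_lit 3267416182) (nat_lit 76) (nat_lit 3766035382) (nat_lit 23) (nat_lit 5) (nat_lit 26) (nat_lit 5) (nat_lit 24) (nat_lit 5) (nat_lit 274) (nat_lit 256) (nat_lit 190)) (XT.nd (nat_lit 78) (nat_lit 76) (nat_lit 0) (XT.lf (nat_lit 0) (nat_lit 11663200660) (nat_lit 152) (nat_lit 19007902292) (nat_lit 228) (nat_lit 2613060278) (nat_lit 21) (nat_lit 5) (nat_lit 23) (nat_lit 5) (nat_lit 24) (nat_lit 5) (nat_lit 275) (nat_lit 256) (nat_lit 189)) (XT.lf (nat_lit 0) (nat_lit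 2134772952) (nat_lit 228) (nat_lit 7166180174) (nat_lit 76) (nat_lit 25767767116) (nat_lit 20) (nat_lit 5) (nat_lit 23) (nat_lit 5) (nat_lit 21) (nat_lit 5) (nat_lit 276) (nat_lit 256) (nat_lit 188)))) (XT.nd (nat_lit 156) (nat_lit 152) (nat_lit 0) (XT.nd (nat_lit 78) (nat_lit 0) (nat_lit 0) (XT.lf (nat_lit 0) (nat_lit 7359607106) (nat_lit 228) (nat_lit 28205175091) (nat_lit 76) (nat_lit 1406790323) (nat_lit 18) (nat_lit 5) (nat_lit 21) (nat_lit 5) (nat_lit 19) (nat_lit 5) (nat_lit 277) (nat_lit 256) (nat_lit 187)) (XT.lf (nat_lit 0) (nat_lit 13436292739) (nat_lit 228) (nat_lit 12889535726) (nat_lit 76) (nat_lit 12666141476) (nat_lit 18) (nat_lit 5) (nat_lit 21) (nat_lit 5) (nat_lit 19) (nat_lit 5) (nat_lit 278) (nat_lit 256) (nat_lit 186))) (XT.nd (nat_lit 78) (nat_lit 0) (nat_lit 0) (XT.lf (nat_lit 0) (nat_lit 3830944668) (nat_lit 152) (nat_lit 16252206787) (nat_lit 228) (nat_lit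 21084148848) (nat_lit 16) (nat_lit 5) (nat_lit 18) (nat_lit 5) (nat_lit 19) (nat_lit 5) (nat_lit 279) (nat_lit 256) (nat_lit 185)) (XT.lf (nat_lit 0) (nat_lit 22610358379) (nat_lit 152) (nat_lit 4996044416) (nat_lit 228) (nat_lit 15882705197) (nat_lit 16) (nat_lit 5) (nat_lit 18) (nat_lit 5) (nat_lit 19) (nat_lit 5) (nat_lit 280) (nat_lit 256) (nat_lit 184))))) (XT.nd (nat_lit 234) (nat_lit 228) (nat_lit 0) (XT.nd (nat_lit 78) (nat_lit 152) (nat_lit 0) (XT.lf (nat_lit 0) (nat_lit 35896436184) (nat_lit 228) (nat_lit 3288131104) (nat_lit 76) (nat_lit 6798920003) (nat_lit 16) (nat_lit 5) (nat_lit 19) (nat_lit 5) (nat_lit 17) (nat_lit 4) (nat_lit 281) (nat_lit 256) (nat_lit 183)) (XT.nd (nat_lit 78) (nat_lit 76) (nat_lit 0) (XT.lf (nat_lit 0) (nat_lit 16389288132) (nat_lit 76) (nat_lit 28977563419) (nat_lit 152) (nat_lit 3269210254) (nat_lit 15) (nat_lit 5) (nat_lit 16) (nat_lit 5) (nat_lit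 17) (nat_lit 4) (nat_lit 282) (nat_lit 256) (nat_lit 182)) (XT.lf (nat_lit 0) (nat_lit 3974811458) (nat_lit 152) (nat_lit 13777189034) (nat_lit 76) (nat_lit 33734136889) (nat_lit 14) (nat_lit 5) (nat_lit 16) (nat_lit 5) (nat_lit 15) (nat_lit 5) (nat_lit 283) (nat_lit 256) (nat_lit 181)))) (XT.nd (nat_lit 156) (nat_lit 76) (nat_lit 0) (XT.nd (nat_lit 78) (nat_lit 0) (nat_lit 0) (XT.lf (nat_lit 0) (nat_lit 6395103546) (nat_lit 152) (nat_lit 5374243029) (nat_lit 228) (nat_lit 42776285405) (nat_lit 12) (nat_lit 5) (nat_lit 14) (nat_lit 5) (nat_lit 15) (nat_lit 5) (nat_lit 284) (nat_lit 256) (nat_lit 180)) (XT.lf (nat_lit 0) (nat_lit 20760122376) (nat_lit 228) (nat_lit 29067091193) (nat_lit 76) (nat_lit 7976872468) (nat_lit 12) (nat_lit 5) (nat_lit 15) (nat_lit 5) (nat_lit 13) (nat_lit 4) (nat_lit 285) (nat_lit 256) (nat_lit 179))) (XT.nd (nat_lit 78) (nat_lit 76) (nat_lit 0) (XT.lf (nat_lit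 0) (nat_lit 30604150381) (nat_lit 228) (nat_lit 8605835631) (nat_lit 76) (nat_lit 22102524275) (nat_lit 12) (nat_lit 5) (nat_lit 15) (nat_lit 5) (nat_lit 13) (nat_lit 4) (nat_lit 286) (nat_lit 256) (nat_lit 178)) (XT.lf (nat_lit 0) (nat_lit 14193770707) (nat_lit 76) (nat_lit 27378104714) (nat_lit 152) (nat_lit 23502851178) (nat_lit 11) (nat_lit 5) (nat_lit 12) (nat_lit 5) (nat_lit 13) (nat_lit 4) (nat_lit 287) (nat_lit 256) (nat_lit 177))))))))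
noncomputable def xc79 : XT := (XT.nd (nat_lit 2106) (nat_lit 76) (nat_lit 0) (XT.nd (nat_lit 1014) (nat_lit 228) (nat_lit 0) (XT.nd (nat_lit 468) (nat_lit 152) (nat_lit 0) (XT.nd (nat_lit 234) (nat_lit 76) (nat_lit 0) (XT.nd (nat_lit 78) (nat_lit 152) (nat_lit 0) (XT.lf (nat_lit 0) (nat_lit 39298404692) (nat_lit 76) (nat_lit 14348909855) (nat_lit 152) (nat_lit 15472193196) (nat_lit 11) (nat_lit 5) (nat_lit 12) (nat_lit 5) (nat_lit 13) (nat_lit 4) (nat_lit 288) (nat_lit 256) (nat_lit 176)) (XT.nd (nat_lit 78) (nat_lit 152) (nat_lit 0) (XT.lf (nat_lit 0) (nat_lit 66403666469) (nat_lit 76) (nat_lit 280490188) (nat_lit 152) (nat_lit 6804095675) (nat_lit 11) (nat_lit 5) (nat_lit 12) (nat_lit 5) (nat_lit 13) (nat_lit 4) (nat_lit 289) (nat_lit 256) (nat_lit 175)) (XT.lf (nat_lit 0) (nat_lit 3237297533) (nat_lit 152) (nat_lit 60220038705) (nat_lit 76) (nat_lit 14679626060) (nat_lit 9) (nat_lit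 5) (nat_lit 11) (nat_lit 5) (nat_lit 10) (nat_lit 4) (nat_lit 290) (nat_lit 256) (nat_lit 174)))) (XT.nd (nat_lit 78) (nat_lit 76) (nat_lit 0) (XT.lf (nat_lit 0) (nat_lit 13916098224) (nat_lit 152) (nat_lit 38017158990) (nat_lit 76) (nat_lit 31194046194) (nat_lit 9) (nat_lit 5) (nat_lit 11) (nat_lit 5) (nat_lit 10) (nat_lit 4) (nat_lit 291) (nat_lit 256) (nat_lit 173)) (XT.nd (nat_lit 78) (nat_lit 76) (nat_lit 0) (XT.lf (nat_lit 0) (nat_lit 25445195588) (nat_lit 152) (nat_lit 14044993623) (nat_lit 76) (nat_lit 49027010818) (nat_lit 9) (nat_lit 5) (nat_lit 11) (nat_lit 5) (nat_lit 10) (nat_lit 4) (nat_lit 292) (nat_lit 256) (nat_lit 172)) (XT.lf (nat_lit 0) (nat_lit 12461909877) (nat_lit 76) (nat_lit 25730709558) (nat_lit 152) (nat_lit 56121996113) (nat_lit 8) (nat_lit 5) (nat_lit 9) (nat_lit 5) (nat_lit 10) (nat_lit 4) (nat_lit 293) (nat_lit 256) (nat_lit 171))))) (XT.nd (nat_lit 234)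 (nat_lit 152) (nat_lit 0) (XT.nd (nat_lit 78) (nat_lit 0) (nat_lit 0) (XT.lf (nat_lit 0) (nat_lit 41881849382) (nat_lit 76) (nat_lit 10458416406) (nat_lit 152) (nat_lit 48205130775) (nat_lit 8) (nat_lit 5) (nat_lit 9) (nat_lit 5) (nat_lit 10) (nat_lit 4) (nat_lit 294) (nat_lit 256) (nat_lit 170)) (XT.nd (nat_lit 78) (nat_lit 0) (nat_lit 0) (XT.lf (nat_lit 0) (nat_lit 67761501162) (nat_lit 152) (nat_lit 33770429047) (nat_lit 0) (nat_lit 5731373722) (nat_lit 8) (nat_lit 5) (nat_lit 10) (nat_lit 4) (nat_lit 8) (nat_lit 4) (nat_lit 295) (nat_lit 256) (nat_lit 169)) (XT.lf (nat_lit 0) (nat_lit 84684952488) (nat_lit 152) (nat_lit 7163078328) (nat_lit 0) (nat_lit 22649137312) (nat_lit 8) (nat_lit 5) (nat_lit 10) (nat_lit 4) (nat_lit 8) (nat_lit 4) (nat_lit 296) (nat_lit 256) (nat_lit 168)))) (XT.nd (nat_lit 156) (nat_lit 76) (nat_lit 0) (XT.nd (nat_lit 78) (nat_lit 0) (nat_lit 0) (XT.lf (nat_lit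 0) (nat_lit 22703420367) (nat_lit 76) (nat_lit 80801979158) (nat_lit 76) (nat_lit 18760897560) (nat_lit 7) (nat_lit 4) (nat_lit 8) (nat_lit 5) (nat_lit 8) (nat_lit 4) (nat_lit 297) (nat_lit 256) (nat_lit 167)) (XT.lf (nat_lit 0) (nat_lit 55361583013) (nat_lit 76) (nat_lit 68662946160) (nat_lit 76) (nat_lit 6616988245) (nat_lit 7) (nat_lit 4) (nat_lit 8) (nat_lit 5) (nat_lit 8) (nat_lit 4) (nat_lit 298) (nat_lit 256) (nat_lit 166))) (XT.nd (nat_lit 78) (nat_lit 0) (nat_lit 0) (XT.lf (nat_lit 0) (nat_lit 6170687486) (nat_lit 152) (nat_lit 49215443052) (nat_lit 76) (nat_lit 84288339434) (nat_lit 6) (nat_lit 5) (nat_lit 8) (nat_lit 5) (nat_lit 7) (nat_lit 4) (nat_lit 299) (nat_lit 256) (nat_lit 165)) (XT.lf (nat_lit 0) (nat_lit 19621417347) (nat_lit 152) (nat_lit 21242105595) (nat_lit 76) (nat_lit 108552987671) (nat_lit 6) (nat_lit 5) (nat_lit 8) (nat_lit 5) (nat_lit 7) (nat_lit 4) (nat_lit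 300) (nat_lit 256) (nat_lit 164)))))) (XT.nd (nat_lit 546) (nat_lit 76) (nat_lit 0) (XT.nd (nat_lit 234) (nat_lit 76) (nat_lit 0) (XT.nd (nat_lit 78) (nat_lit 0) (nat_lit 0) (XT.lf (nat_lit 0) (nat_lit 9437064816) (nat_lit 76) (nat_lit 24935814737) (nat_lit 152) (nat_lit 125547064573) (nat_lit 5) (nat_lit 5) (nat_lit 6) (nat_lit 5) (nat_lit 7) (nat_lit 4) (nat_lit 301) (nat_lit 256) (nat_lit 163)) (XT.nd (nat_lit 78) (nat_lit 0) (nat_lit 0) (XT.lf (nat_lit 0) (nat_lit 43774616144) (nat_lit 76) (nat_lit 7108424739) (nat_lit 152) (nat_lit 120334328136) (nat_lit 5) (nat_lit 5) (nat_lit 6) (nat_lit 5) (nat_lit 7) (nat_lit 4) (nat_lit 302) (nat_lit 256) (nat_lit 162)) (XT.lf (nat_lit 0) (nat_lit 69004015829) (nat_lit 152) (nat_lit 102855347772) (nat_lit 0) (nat_lit 11536027278) (nat_lit 5) (nat_lit 5) (nat_lit 7) (nat_lit 4) (nat_lit 5) (nat_lit 4) (nat_lit 303) (nat_lit 256) (nat_lit 161))))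 (XT.nd (nat_lit 156) (nat_lit 76) (nat_lit 0) (XT.nd (nat_lit 78) (nat_lit 0) (nat_lit 0) (XT.lf (nat_lit 0) (nat_lit 88757367440) (nat_lit 152) (nat_lit 76489140352) (nat_lit 0) (nat_lit 31286533606) (nat_lit 5) (nat_lit 5) (nat_lit 7) (nat_lit 4) (nat_lit 5) (nat_lit 4) (nat_lit 304) (nat_lit 256) (nat_lit 160)) (XT.lf (nat_lit 0) (nat_lit 110089194831) (nat_lit 152) (nat_lit 48016928639) (nat_lit 0) (nat_lit 52615726474) (nat_lit 5) (nat_lit 5) (nat_lit 7) (nat_lit 4) (nat_lit 5) (nat_lit 4) (nat_lit 305) (nat_lit 256) (nat_lit 159))) (XT.nd (nat_lit 78) (nat_lit 76) (nat_lit 0) (XT.lf (nat_lit 0) (nat_lit 133125908831) (nat_lit 152) (nat_lit 17269988416) (nat_lit 0) (nat_lit 75650001101) (nat_lit 5) (nat_lit 5) (nat_lit 7) (nat_lit 4) (nat_lit 5) (nat_lit 4) (nat_lit 306) (nat_lit 256) (nat_lit 158)) (XT.lf (nat_lit 0) (nat_lit 16772934523) (nat_lit 76) (nat_lit 141634478254) (nat_lit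 76) (nat_lit 84156311846) (nat_lit 4) (nat_lit 4) (nat_lit 5) (nat_lit 5) (nat_lit 5) (nat_lit 4) (nat_lit 307) (nat_lit 256) (nat_lit 157))))) (XT.nd (nat_lit 234) (nat_lit 76) (nat_lit 0) (XT.nd (nat_lit 78) (nat_lit 0) (nat_lit 0) (XT.lf (nat_lit 0) (nat_lit 54518699683) (nat_lit 76) (nat_lit 131663440454) (nat_lit 76) (nat_lit 74183182678) (nat_lit 4) (nat_lit 4) (nat_lit 5) (nat_lit 5) (nat_lit 5) (nat_lit 4) (nat_lit 308) (nat_lit 256) (nat_lit 156)) (XT.nd (nat_lit 78) (nat_lit 0) (nat_lit 0) (XT.lf (nat_lit 0) (nat_lit 95281578688) (nat_lit 76) (nat_lit 120895888305) (nat_lit 76) (nat_lit 63413694076) (nat_lit 4) (nat_lit 4) (nat_lit 5) (nat_lit 5) (nat_lit 5) (nat_lit 4) (nat_lit 309) (nat_lit 256) (nat_lit 155)) (XT.lf (nat_lit 0) (nat_lit 139303129337) (nat_lit 76) (nat_lit 109268014089) (nat_lit 76) (nat_lit 51784026848) (nat_lit 4) (nat_lit 4) (nat_lit 5) (nat_lit 5) (nat_lit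 5) (nat_lit 4) (nat_lit 310) (nat_lit 256) (nat_lit 154)))) (XT.nd (nat_lit 156) (nat_lit 76) (nat_lit 0) (XT.nd (nat_lit 78) (nat_lit 0) (nat_lit 0) (XT.lf (nat_lit 0) (nat_lit 186844220081) (nat_lit 76) (nat_lit 96710911886) (nat_lit 76) (nat_lit 39225264449) (nat_lit 4) (nat_lit 4) (nat_lit 5) (nat_lit 5) (nat_lit 5) (nat_lit 4) (nat_lit 311) (nat_lit 256) (nat_lit 153)) (XT.lf (nat_lit 0) (nat_lit 238186575901) (nat_lit 76) (nat_lit 83150169237) (nat_lit 76) (nat_lit 25662984582) (nat_lit 4) (nat_lit 4) (nat_lit 5) (nat_lit 5) (nat_lit 5) (nat_lit 4) (nat_lit 312) (nat_lit 256) (nat_lit 152))) (XT.nd (nat_lit 78) (nat_lit 76) (nat_lit 0) (XT.lf (nat_lit 0) (nat_lit 293634447794) (nat_lit 76) (nat_lit 68505426187) (nat_lit 76) (nat_lit 11016818182) (nat_lit 4) (nat_lit 4) (nat_lit 5) (nat_lit 5) (nat_lit 5) (nat_lit 4) (nat_lit 313) (nat_lit 256) (nat_lit 151)) (XT.lf (nat_lit 0)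 (nat_lit 4559910065) (nat_lit 152) (nat_lit 48005312985) (nat_lit 76) (nat_lit 348831829654) (nat_lit 3) (nat_lit 5) (nat_lit 5) (nat_lit 5) (nat_lit 4) (nat_lit 4) (nat_lit 314) (nat_lit 256) (nat_lit 150))))))) (XT.nd (nat_lit 1014) (nat_lit 0) (nat_lit 0) (XT.nd (nat_lit 468) (nat_lit 0) (nat_lit 0) (XT.nd (nat_lit 234) (nat_lit 0) (nat_lit 0) (XT.nd (nat_lit 78) (nat_lit 76) (nat_lit 0) (XT.lf (nat_lit 0) (nat_lit 20786689719) (nat_lit 152) (nat_lit 14254831600) (nat_lit 76) (nat_lit 396832301197) (nat_lit 3) (nat_lit 5) (nat_lit 5) (nat_lit 5) (nat_lit 4) (nat_lit 4) (nat_lit 315) (nat_lit 256) (nat_lit 149)) (XT.nd (nat_lit 78) (nat_lit 0) (nat_lit 0) (XT.lf (nat_lit 0) (nat_lit 23362862378) (nat_lit 76) (nat_lit 15509800359) (nat_lit 152) (nat_lit 425871188126) (nat_lit 2) (nat_lit 5) (nat_lit 3) (nat_lit 5) (nat_lit 4) (nat_lit 4) (nat_lit 316) (nat_lit 256) (nat_lit 148)) (XT.lf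 (nat_lit 0) (nat_lit 58938878051) (nat_lit 152) (nat_lit 435557614884) (nat_lit 0) (nat_lit 5704320344) (nat_lit 2) (nat_lit 5) (nat_lit 4) (nat_lit 4) (nat_lit 2) (nat_lit 4) (nat_lit 317) (nat_lit 256) (nat_lit 147)))) (XT.nd (nat_lit 78) (nat_lit 0) (nat_lit 0) (XT.lf (nat_lit 0) (nat_lit 81012485416) (nat_lit 152) (nat_lit 429672649813) (nat_lit 0) (nat_lit 27777030758) (nat_lit 2) (nat_lit 5) (nat_lit 4) (nat_lit 4) (nat_lit 2) (nat_lit 4) (nat_lit 318) (nat_lit 256) (nat_lit 146)) (XT.nd (nat_lit 78) (nat_lit 0) (nat_lit 0) (XT.lf (nat_lit 0) (nat_lit 104851280325) (nat_lit 152) (nat_lit 423318208333) (nat_lit 0) (nat_lit 51614995155) (nat_lit 2) (nat_lit 5) (nat_lit 4) (nat_lit 4) (nat_lit 2) (nat_lit 4) (nat_lit 319) (nat_lit 256) (nat_lit 145)) (XT.lf (nat_lit 0) (nat_lit 130596529710) (nat_lit 152) (nat_lit 416456634495) (nat_lit 0) (nat_lit 77359475548) (nat_lit 2) (nat_lit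 5) (nat_lit 4) (nat_lit 4) (nat_lit 2) (nat_lit 4) (nat_lit 320) (nat_lit 256) (nat_lit 144))))) (XT.nd (nat_lit 234) (nat_lit 0) (nat_lit 0) (XT.nd (nat_lit 78) (nat_lit 0) (nat_lit 0) (XT.lf (nat_lit 0) (nat_lit 158400798011) (nat_lit 152) (nat_lit 409047267120) (nat_lit 0) (nat_lit 105163031820) (nat_lit 2) (nat_lit 5) (nat_lit 4) (nat_lit 4) (nat_lit 2) (nat_lit 4) (nat_lit 321) (nat_lit 256) (nat_lit 143)) (XT.nd (nat_lit 78) (nat_lit 0) (nat_lit 0) (XT.lf (nat_lit 0) (nat_lit 188428851265) (nat_lit 152) (nat_lit 401046198848) (nat_lit 0) (nat_lit 135190425786) (nat_lit 2) (nat_lit 5) (nat_lit 4) (nat_lit 4) (nat_lit 2) (nat_lit 4) (nat_lit 322) (nat_lit 256) (nat_lit 142)) (XT.lf (nat_lit 0) (nat_lit 220858633488) (nat_lit 152) (nat_lit 392406015939) (nat_lit 0) (nat_lit 167619597560) (nat_lit 2) (nat_lit 5) (nat_lit 4) (nat_lit 4) (nat_lit 2) (nat_lit 4) (nat_lit 323) (nat_lit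 256) (nat_lit 141)))) (XT.nd (nat_lit 156) (nat_lit 0) (nat_lit 0) (XT.nd (nat_lit 78) (nat_lit 0) (nat_lit 0) (XT.lf (nat_lit 0) (nat_lit 255882321170) (nat_lit 152) (nat_lit 383075517309) (nat_lit 0) (nat_lit 202642720009) (nat_lit 2) (nat_lit 5) (nat_lit 4) (nat_lit 4) (nat_lit 2) (nat_lit 4) (nat_lit 324) (nat_lit 256) (nat_lit 140)) (XT.lf (nat_lit 0) (nat_lit 293707462088) (nat_lit 152) (nat_lit 372999411116) (nat_lit 0) (nat_lit 240467337564) (nat_lit 2) (nat_lit 5) (nat_lit 4) (nat_lit 4) (nat_lit 2) (nat_lit 4) (nat_lit 325) (nat_lit 256) (nat_lit 139))) (XT.nd (nat_lit 78) (nat_lit 0) (nat_lit 0) (XT.lf (nat_lit 0) (nat_lit 334558205226) (nat_lit 152) (nat_lit 362117987099) (nat_lit 0) (nat_lit 281317596107) (nat_lit 2) (nat_lit 5) (nat_lit 4) (nat_lit 4) (nat_lit 2) (nat_lit 4) (nat_lit 326) (nat_lit 256) (nat_lit 138)) (XT.lf (nat_lit 0) (nat_lit 378676629062) (nat_lit 152)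 (nat_lit 350366762747) (nat_lit 0) (nat_lit 325435571244) (nat_lit 2) (nat_lit 5) (nat_lit 4) (nat_lit 4) (nat_lit 2) (nat_lit 4) (nat_lit 327) (nat_lit 256) (nat_lit 137)))))) (XT.nd (nat_lit 546) (nat_lit 0) (nat_lit 0) (XT.nd (nat_lit 234) (nat_lit 0) (nat_lit 0) (XT.nd (nat_lit 78) (nat_lit 0) (nat_lit 0) (XT.lf (nat_lit 0) (nat_lit 426324176108) (nat_lit 152) (nat_lit 337676101175) (nat_lit 0) (nat_lit 373082702827) (nat_lit 2) (nat_lit 5) (nat_lit 4) (nat_lit 4) (nat_lit 2) (nat_lit 4) (nat_lit 328) (nat_lit 256) (nat_lit 136)) (XT.nd (nat_lit 78) (nat_lit 0) (nat_lit 0) (XT.lf (nat_lit 0) (nat_lit 477783202197) (nat_lit 152) (nat_lit 323970798461) (nat_lit 0) (nat_lit 424541344229) (nat_lit 2) (nat_lit 5) (nat_lit 4) (nat_lit 4) (nat_lit 2) (nat_lit 4) (nat_lit 329) (nat_lit 256) (nat_lit 135)) (XT.lf (nat_lit 0) (nat_lit 533358649707) (nat_lit 152) (nat_lit 309169637997) (nat_lit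 0) (nat_lit 480116435546) (nat_lit 2) (nat_lit 5) (nat_lit 4) (nat_lit 4) (nat_lit 2) (nat_lit 4) (nat_lit 330) (nat_lit 256) (nat_lit 134)))) (XT.nd (nat_lit 156) (nat_lit 0) (nat_lit 0) (XT.nd (nat_lit 78) (nat_lit 0) (nat_lit 0) (XT.lf (nat_lit 0) (nat_lit 593379854622) (nat_lit 152) (nat_lit 293184909203) (nat_lit 0) (nat_lit 540137310654) (nat_lit 2) (nat_lit 5) (nat_lit 4) (nat_lit 4) (nat_lit 2) (nat_lit 4) (nat_lit 331) (nat_lit 256) (nat_lit 133)) (XT.lf (nat_lit 0) (nat_lit 658202498158) (nat_lit 152) (nat_lit 275921887760) (nat_lit 0) (nat_lit 604959648813) (nat_lit 2) (nat_lit 5) (nat_lit 4) (nat_lit 4) (nat_lit 2) (nat_lit 4) (nat_lit 332) (nat_lit 256) (nat_lit 132))) (XT.nd (nat_lit 78) (nat_lit 0) (nat_lit 0) (XT.lf (nat_lit 0) (nat_lit 728210714498) (nat_lit 152) (nat_lit 257278274282) (nat_lit 0) (nat_lit 674967582396) (nat_lit 2) (nat_lit 5) (nat_lit 4) (nat_lit 4)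 (nat_lit 2) (nat_lit 4) (nat_lit 333) (nat_lit 256) (nat_lit 131)) (XT.lf (nat_lit 0) (nat_lit 803819367146) (nat_lit 152) (nat_lit 237143588095) (nat_lit 0) (nat_lit 750575973232) (nat_lit 2) (nat_lit 5) (nat_lit 4) (nat_lit 4) (nat_lit 2) (nat_lit 4) (nat_lit 334) (nat_lit 256) (nat_lit 130))))) (XT.nd (nat_lit 234) (nat_lit 0) (nat_lit 0) (XT.nd (nat_lit 78) (nat_lit 0) (nat_lit 0) (XT.lf (nat_lit 0) (nat_lit 885476507377) (nat_lit 152) (nat_lit 215398512542) (nat_lit 0) (nat_lit 832232871045) (nat_lit 2) (nat_lit 5) (nat_lit 4) (nat_lit 4) (nat_lit 2) (nat_lit 4) (nat_lit 335) (nat_lit 256) (nat_lit 129)) (XT.nd (nat_lit 78) (nat_lit 0) (nat_lit 0) (XT.lf (nat_lit 0) (nat_lit 973666029356) (nat_lit 152) (nat_lit 191914187915) (nat_lit 0) (nat_lit 920422168562) (nat_lit 2) (nat_lit 5) (nat_lit 4) (nat_lit 4) (nat_lit 2) (nat_lit 4) (nat_lit 336) (nat_lit 256) (nat_lit 128)) (XT.lf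 (nat_lit 0) (nat_lit 1068910537657) (nat_lit 152) (nat_lit 166551447846) (nat_lit 0) (nat_lit 1015666469029) (nat_lit 2) (nat_lit 5) (nat_lit 4) (nat_lit 4) (nat_lit 2) (nat_lit 4) (nat_lit 337) (nat_lit 256) (nat_lit 127)))) (XT.nd (nat_lit 31200) (nat_lit 0) (nat_lit 2660) (XT.nd (nat_lit 78) (nat_lit 0) (nat_lit 0) (XT.lf (nat_lit 0) (nat_lit 1171774444181) (nat_lit 152) (nat_lit 139159994617) (nat_lit 0) (nat_lit 1118530183114) (nat_lit 2) (nat_lit 5) (nat_lit 4) (nat_lit 4) (nat_lit 2) (nat_lit 4) (nat_lit 338) (nat_lit 256) (nat_lit 126)) (XT.lf (nat_lit 0) (nat_lit 1282867312819) (nat_lit 152) (nat_lit 109577508503) (nat_lit 0) (nat_lit 1229622873567) (nat_lit 2) (nat_lit 5) (nat_lit 4) (nat_lit 4) (nat_lit 2) (nat_lit 4) (nat_lit 339) (nat_lit 256) (nat_lit 125))) (XT.nd (nat_lit 78) (nat_lit 0) (nat_lit 0) (XT.lf (nat_lit 0) (nat_lit 2109697202) (nat_lit 532) (nat_lit 2784036111)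 (nat_lit 532) (nat_lit 2784036111) (nat_lit 37) (nat_lit 3) (nat_lit 44) (nat_lit 3) (nat_lit 44) (nat_lit 5) (nat_lit 257) (nat_lit 257) (nat_lit 206)) (XT.lf (nat_lit 76) (nat_lit 1161947040) (nat_lit 0) (nat_lit 3509187794) (nat_lit 532) (nat_lit 11274770558) (nat_lit 38) (nat_lit 5) (nat_lit 37) (nat_lit 3) (nat_lit 44) (nat_lit 5) (nat_lit 258) (nat_lit 257) (nat_lit 205))))))))
noncomputable def xc80 : XT := (XT.nd (nat_lit 2028) (nat_lit 760) (nat_lit 0) (XT.nd (nat_lit 1014) (nat_lit 836) (nat_lit 0) (XT.nd (nat_lit 468) (nat_lit 988) (nat_lit 0) (XT.nd (nat_lit 234) (nat_lit 0) (nat_lit 76) (XT.nd (nat_lit 78) (nat_lit 0) (nat_lit 0) (XT.lf (nat_lit 0) (nat_lit 5368293007) (nat_lit 456) (nat_lit 7923953412) (nat_lit 532) (nat_lit 3274634400) (nat_lit 38) (nat_lit 5) (nat_lit 44) (nat_lit 5) (nat_lit 45) (nat_lit 5) (nat_lit 259) (nat_lit 257) (nat_lit 204)) (XT.nd (nat_lit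 78) (nat_lit 0) (nat_lit 76) (XT.lf (nat_lit 0) (nat_lit 6188674446) (nat_lit 456) (nat_lit 622064367) (nat_lit 532) (nat_lit 10421512235) (nat_lit 38) (nat_lit 5) (nat_lit 44) (nat_lit 5) (nat_lit 45) (nat_lit 5) (nat_lit 260) (nat_lit 257) (nat_lit 203)) (XT.lf (nat_lit 0) (nat_lit 7245769055) (nat_lit 456) (nat_lit 10316409824) (nat_lit 532) (nat_lit 375089864) (nat_lit 39) (nat_lit 5) (nat_lit 45) (nat_lit 5) (nat_lit 46) (nat_lit 5) (nat_lit 261) (nat_lit 257) (nat_lit 202)))) (XT.nd (nat_lit 78) (nat_lit 0) (nat_lit 0) (XT.lf (nat_lit 0) (nat_lit 8561279530) (nat_lit 456) (nat_lit 2332212739) (nat_lit 532) (nat_lit 7791384444) (nat_lit 39) (nat_lit 5) (nat_lit 45) (nat_lit 5) (nat_lit 46) (nat_lit 5) (nat_lit 262) (nat_lit 257) (nat_lit 201)) (XT.nd (nat_lit 78) (nat_lit 0) (nat_lit 76) (XT.lf (nat_lit 76) (nat_lit 6606251873) (nat_lit 0) (nat_lit 3515674185) (nat_lit 532) (nat_lit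 9359265203) (nat_lit 40) (nat_lit 5) (nat_lit 39) (nat_lit 5) (nat_lit 46) (nat_lit 5) (nat_lit 263) (nat_lit 257) (nat_lit 200)) (XT.lf (nat_lit 0) (nat_lit 11962078815) (nat_lit 456) (nat_lit 4068576585) (nat_lit 76) (nat_lit 4298266137) (nat_lit 40) (nat_lit 5) (nat_lit 46) (nat_lit 5) (nat_lit 41) (nat_lit 5) (nat_lit 264) (nat_lit 257) (nat_lit 199))))) (XT.nd (nat_lit 234) (nat_lit 456) (nat_lit 0) (XT.nd (nat_lit 78) (nat_lit 228) (nat_lit 0) (XT.lf (nat_lit 0) (nat_lit 5617001465) (nat_lit 456) (nat_lit 8542321453) (nat_lit 532) (nat_lit 7068433768) (nat_lit 34) (nat_lit 5) (nat_lit 40) (nat_lit 5) (nat_lit 41) (nat_lit 5) (nat_lit 265) (nat_lit 257) (nat_lit 198)) (XT.nd (nat_lit 78) (nat_lit 228) (nat_lit 0) (XT.lf (nat_lit 0) (nat_lit 16294225392) (nat_lit 456) (nat_lit 333710559) (nat_lit 532) (nat_lit 5562986638) (nat_lit 34) (nat_lit 5) (nat_lit 40) (nat_lit 5) (nat_lit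 41) (nat_lit 5) (nat_lit 266) (nat_lit 257) (nat_lit 197)) (XT.lf (nat_lit 0) (nat_lit 4604903758) (nat_lit 228) (nat_lit 14990597804) (nat_lit 304) (nat_lit 3611588946) (nat_lit 31) (nat_lit 5) (nat_lit 34) (nat_lit 5) (nat_lit 35) (nat_lit 5) (nat_lit 267) (nat_lit 257) (nat_lit 196)))) (XT.nd (nat_lit 156) (nat_lit 228) (nat_lit 0) (XT.nd (nat_lit 78) (nat_lit 228) (nat_lit 0) (XT.lf (nat_lit 0) (nat_lit 16258479714) (nat_lit 228) (nat_lit 6697923784) (nat_lit 304) (nat_lit 1335734830) (nat_lit 31) (nat_lit 5) (nat_lit 34) (nat_lit 5) (nat_lit 35) (nat_lit 5) (nat_lit 268) (nat_lit 257) (nat_lit 195)) (XT.lf (nat_lit 0) (nat_lit 1194664048) (nat_lit 228) (nat_lit 21998203301) (nat_lit 76) (nat_lit 2258726765) (nat_lit 28) (nat_lit 5) (nat_lit 31) (nat_lit 5) (nat_lit 29) (nat_lit 5) (nat_lit 269) (nat_lit 257) (nat_lit 194))) (XT.nd (nat_lit 78) (nat_lit 228) (nat_lit 0) (XT.lf (nat_lit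 0) (nat_lit 4242164649) (nat_lit 228) (nat_lit 10599037290) (nat_lit 76) (nat_lit 11828930521) (nat_lit 28) (nat_lit 5) (nat_lit 31) (nat_lit 5) (nat_lit 29) (nat_lit 5) (nat_lit 270) (nat_lit 257) (nat_lit 193)) (XT.lf (nat_lit 0) (nat_lit 1787871738) (nat_lit 228) (nat_lit 5777020035) (nat_lit 304) (nat_lit 20418792783) (nat_lit 25) (nat_lit 5) (nat_lit 28) (nat_lit 5) (nat_lit 29) (nat_lit 5) (nat_lit 271) (nat_lit 257) (nat_lit 192)))))) (XT.nd (nat_lit 468) (nat_lit 456) (nat_lit 0) (XT.nd (nat_lit 234) (nat_lit 228) (nat_lit 0) (XT.nd (nat_lit 78) (nat_lit 152) (nat_lit 0) (XT.lf (nat_lit 0) (nat_lit 11536168345) (nat_lit 304) (nat_lit 13728801999) (nat_lit 76) (nat_lit 4106773458) (nat_lit 25) (nat_lit 5) (nat_lit 29) (nat_lit 5) (nat_lit 26) (nat_lit 5) (nat_lit 272) (nat_lit 257) (nat_lit 191)) (XT.nd (nat_lit 78) (nat_lit 152) (nat_lit 0) (XT.lf (nat_lit 0) (nat_lit 15964932664)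 (nat_lit 304) (nat_lit 427586504) (nat_lit 76) (nat_lit 14467184178) (nat_lit 25) (nat_lit 5) (nat_lit 29) (nat_lit 5) (nat_lit 26) (nat_lit 5) (nat_lit 273) (nat_lit 257) (nat_lit 190)) (XT.lf (nat_lit 0) (nat_lit 14658890210) (nat_lit 152) (nat_lit 6432148242) (nat_lit 228) (nat_lit 11348253542) (nat_lit 23) (nat_lit 5) (nat_lit 25) (nat_lit 5) (nat_lit 26) (nat_lit 5) (nat_lit 274) (nat_lit 257) (nat_lit 189)))) (XT.nd (nat_lit 78) (nat_lit 228) (nat_lit 0) (XT.lf (nat_lit 0) (nat_lit 26734092492) (nat_lit 228) (nat_lit 3284551330) (nat_lit 76) (nat_lit 4118088058) (nat_lit 23) (nat_lit 5) (nat_lit 26) (nat_lit 5) (nat_lit 24) (nat_lit 5) (nat_lit 275) (nat_lit 257) (nat_lit 188)) (XT.nd (nat_lit 78) (nat_lit 76) (nat_lit 0) (XT.lf (nat_lit 0) (nat_lit 12834331109) (nat_lit 152) (nat_lit 20461520003) (nat_lit 228) (nat_lit 2636765515) (nat_lit 21) (nat_lit 5) (nat_lit 23) (nat_lit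 5) (nat_lit 24) (nat_lit 5) (nat_lit 276) (nat_lit 257) (nat_lit 187)) (XT.lf (nat_lit 0) (nat_lit 2468580851) (nat_lit 228) (nat_lit 7509940666) (nat_lit 76) (nat_lit 27882144256) (nat_lit 20) (nat_lit 5) (nat_lit 23) (nat_lit 5) (nat_lit 21) (nat_lit 5) (nat_lit 277) (nat_lit 257) (nat_lit 186))))) (XT.nd (nat_lit 234) (nat_lit 152) (nat_lit 0) (XT.nd (nat_lit 78) (nat_lit 152) (nat_lit 0) (XT.lf (nat_lit 0) (nat_lit 8106327063) (nat_lit 228) (nat_lit 30226508275) (nat_lit 76) (nat_lit 1583354648) (nat_lit 18) (nat_lit 5) (nat_lit 21) (nat_lit 5) (nat_lit 19) (nat_lit 5) (nat_lit 278) (nat_lit 257) (nat_lit 185)) (XT.nd (nat_lit 78) (nat_lit 152) (nat_lit 0) (XT.lf (nat_lit 0) (nat_lit 14657447444) (nat_lit 228) (nat_lit 13703031156) (nat_lit 76) (nat_lit 13738711589) (nat_lit 18) (nat_lit 5) (nat_lit 21) (nat_lit 5) (nat_lit 19) (nat_lit 5) (nat_lit 279) (nat_lit 257) (nat_lit 184))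 (XT.lf (nat_lit 0) (nat_lit 4349577103) (nat_lit 152) (nat_lit 17480746703) (nat_lit 228) (nat_lit 22618714046) (nat_lit 16) (nat_lit 5) (nat_lit 18) (nat_lit 5) (nat_lit 19) (nat_lit 5) (nat_lit 280) (nat_lit 257) (nat_lit 183)))) (XT.nd (nat_lit 156) (nat_lit 152) (nat_lit 0) (XT.nd (nat_lit 78) (nat_lit 0) (nat_lit 0) (XT.lf (nat_lit 0) (nat_lit 24615628587) (nat_lit 152) (nat_lit 5329397759) (nat_lit 228) (nat_lit 17012426511) (nat_lit 16) (nat_lit 5) (nat_lit 18) (nat_lit 5) (nat_lit 19) (nat_lit 5) (nat_lit 281) (nat_lit 257) (nat_lit 182)) (XT.lf (nat_lit 0) (nat_lit 38890101608) (nat_lit 228) (nat_lit 3360783381) (nat_lit 76) (nat_lit 7401178144) (nat_lit 16) (nat_lit 5) (nat_lit 19) (nat_lit 5) (nat_lit 17) (nat_lit 4) (nat_lit 282) (nat_lit 257) (nat_lit 181))) (XT.nd (nat_lit 78) (nat_lit 76) (nat_lit 0) (XT.lf (nat_lit 0) (nat_lit 17886009187) (nat_lit 76) (nat_lit 31227570800)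 (nat_lit 152) (nat_lit 3403654949) (nat_lit 15) (nat_lit 5) (nat_lit 16) (nat_lit 5) (nat_lit 17) (nat_lit 4) (nat_lit 283) (nat_lit 257) (nat_lit 180)) (XT.lf (nat_lit 0) (nat_lit 4404587544) (nat_lit 152) (nat_lit 14701370408) (nat_lit 76) (nat_lit 36489851588) (nat_lit 14) (nat_lit 5) (nat_lit 16) (nat_lit 5) (nat_lit 15) (nat_lit 5) (nat_lit 284) (nat_lit 257) (nat_lit 179))))))) (XT.nd (nat_lit 1014) (nat_lit 304) (nat_lit 0) (XT.nd (nat_lit 468) (nat_lit 228) (nat_lit 0) (XT.nd (nat_lit 234) (nat_lit 76) (nat_lit 0) (XT.nd (nat_lit 78) (nat_lit 0) (nat_lit 0) (XT.lf (nat_lit 0) (nat_lit 7080199407) (nat_lit 152) (nat_lit 5738377615) (nat_lit 228) (nat_lit 46081835769) (nat_lit 12) (nat_lit 5) (nat_lit 14) (nat_lit 5) (nat_lit 15) (nat_lit 5) (nat_lit 285) (nat_lit 257) (nat_lit 178)) (XT.nd (nat_lit 78) (nat_lit 0) (nat_lit 0) (XT.lf (nat_lit 0) (nat_lit 22522103768) (nat_lit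 228) (nat_lit 31225074493) (nat_lit 76) (nat_lit 8672904701) (nat_lit 12) (nat_lit 5) (nat_lit 15) (nat_lit 5) (nat_lit 13) (nat_lit 4) (nat_lit 286) (nat_lit 257) (nat_lit 177)) (XT.lf (nat_lit 0) (nat_lit 33146159821) (nat_lit 228) (nat_lit 9139317300) (nat_lit 76) (nat_lit 23924321064) (nat_lit 12) (nat_lit 5) (nat_lit 15) (nat_lit 5) (nat_lit 13) (nat_lit 4) (nat_lit 287) (nat_lit 257) (nat_lit 176)))) (XT.nd (nat_lit 78) (nat_lit 0) (nat_lit 0) (XT.lf (nat_lit 0) (nat_lit 15480333870) (nat_lit 76) (nat_lit 29507662961) (nat_lit 152) (nat_lit 25285275658) (nat_lit 11) (nat_lit 5) (nat_lit 12) (nat_lit 5) (nat_lit 13) (nat_lit 4) (nat_lit 288) (nat_lit 257) (nat_lit 175)) (XT.nd (nat_lit 78) (nat_lit 0) (nat_lit 0) (XT.lf (nat_lit 0) (nat_lit 42582148832) (nat_lit 76) (nat_lit 15440628078) (nat_lit 152) (nat_lit 16619409750) (nat_lit 11) (nat_lit 5) (nat_lit 12) (nat_lit 5) (nat_lit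 13) (nat_lit 4) (nat_lit 289) (nat_lit 257) (nat_lit 174)) (XT.lf (nat_lit 0) (nat_lit 71845470679) (nat_lit 76) (nat_lit 250897397) (nat_lit 152) (nat_lit 7264572493) (nat_lit 11) (nat_lit 5) (nat_lit 12) (nat_lit 5) (nat_lit 13) (nat_lit 4) (nat_lit 290) (nat_lit 257) (nat_lit 173))))) (XT.nd (nat_lit 234) (nat_lit 76) (nat_lit 0) (XT.nd (nat_lit 78) (nat_lit 0) (nat_lit 0) (XT.lf (nat_lit 0) (nat_lit 3574463810) (nat_lit 152) (nat_lit 64902152908) (nat_lit 76) (nat_lit 15904899101) (nat_lit 9) (nat_lit 5) (nat_lit 11) (nat_lit 5) (nat_lit 10) (nat_lit 4) (nat_lit 291) (nat_lit 257) (nat_lit 172)) (XT.nd (nat_lit 78) (nat_lit 0) (nat_lit 0) (XT.lf (nat_lit 0) (nat_lit 15101777262) (nat_lit 152) (nat_lit 40933079030) (nat_lit 76) (nat_lit 33736702257) (nat_lit 9) (nat_lit 5) (nat_lit 11) (nat_lit 5) (nat_lit 10) (nat_lit 4) (nat_lit 292) (nat_lit 257) (nat_lit 171)) (XT.lf (nat_lit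 0) (nat_lit 27547840105) (nat_lit 152) (nat_lit 15052433224) (nat_lit 76) (nat_lit 52992812764) (nat_lit 9) (nat_lit 5) (nat_lit 11) (nat_lit 5) (nat_lit 10) (nat_lit 4) (nat_lit 293) (nat_lit 257) (nat_lit 170)))) (XT.nd (nat_lit 156) (nat_lit 0) (nat_lit 0) (XT.nd (nat_lit 78) (nat_lit 0) (nat_lit 0) (XT.lf (nat_lit 0) (nat_lit 13572081798) (nat_lit 76) (nat_lit 27740733883) (nat_lit 152) (nat_lit 60541668001) (nat_lit 8) (nat_lit 5) (nat_lit 9) (nat_lit 5) (nat_lit 10) (nat_lit 4) (nat_lit 294) (nat_lit 257) (nat_lit 169)) (XT.lf (nat_lit 0) (nat_lit 45337229861) (nat_lit 76) (nat_lit 11250244867) (nat_lit 152) (nat_lit 51996645125) (nat_lit 8) (nat_lit 5) (nat_lit 9) (nat_lit 5) (nat_lit 10) (nat_lit 4) (nat_lit 295) (nat_lit 257) (nat_lit 168))) (XT.nd (nat_lit 78) (nat_lit 0) (nat_lit 0) (XT.lf (nat_lit 0) (nat_lit 73238964030) (nat_lit 152) (nat_lit 36371449997) (nat_lit 0) (nat_lit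 6229329482) (nat_lit 8) (nat_lit 5) (nat_lit 10) (nat_lit 4) (nat_lit 8) (nat_lit 4) (nat_lit 296) (nat_lit 257) (nat_lit 167)) (XT.lf (nat_lit 0) (nat_lit 91512103108) (nat_lit 152) (nat_lit 7642964062) (nat_lit 0) (nat_lit 24497592243) (nat_lit 8) (nat_lit 5) (nat_lit 10) (nat_lit 4) (nat_lit 8) (nat_lit 4) (nat_lit 297) (nat_lit 257) (nat_lit 166)))))) (XT.nd (nat_lit 546) (nat_lit 76) (nat_lit 0) (XT.nd (nat_lit 234) (nat_lit 76) (nat_lit 0) (XT.nd (nat_lit 78) (nat_lit 76) (nat_lit 0) (XT.lf (nat_lit 0) (nat_lit 24610496034) (nat_lit 76) (nat_lit 87225995561) (nat_lit 76) (nat_lit 20206969587) (nat_lit 7) (nat_lit 4) (nat_lit 8) (nat_lit 5) (nat_lit 8) (nat_lit 4) (nat_lit 298) (nat_lit 257) (nat_lit 165)) (XT.nd (nat_lit 78) (nat_lit 76) (nat_lit 0) (XT.lf (nat_lit 0) (nat_lit 59874585615) (nat_lit 76) (nat_lit 74118813400) (nat_lit 76) (nat_lit 7095606771) (nat_lit 7) (nat_lit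 4) (nat_lit 8) (nat_lit 5) (nat_lit 8) (nat_lit 4) (nat_lit 299) (nat_lit 257) (nat_lit 164)) (XT.lf (nat_lit 0) (nat_lit 6708974232) (nat_lit 152) (nat_lit 53072411202) (nat_lit 76) (nat_lit 91063402641) (nat_lit 6) (nat_lit 5) (nat_lit 8) (nat_lit 5) (nat_lit 7) (nat_lit 4) (nat_lit 300) (nat_lit 257) (nat_lit 163)))) (XT.nd (nat_lit 156) (nat_lit 0) (nat_lit 0) (XT.nd (nat_lit 78) (nat_lit 76) (nat_lit 0) (XT.lf (nat_lit 0) (nat_lit 21232456427) (nat_lit 152) (nat_lit 22867152475) (nat_lit 76) (nat_lit 117266852660) (nat_lit 6) (nat_lit 5) (nat_lit 8) (nat_lit 5) (nat_lit 7) (nat_lit 4) (nat_lit 301) (nat_lit 257) (nat_lit 162)) (XT.lf (nat_lit 0) (nat_lit 10264470010) (nat_lit 76) (nat_lit 26898246621) (nat_lit 152) (nat_lit 135547563371) (nat_lit 5) (nat_lit 5) (nat_lit 6) (nat_lit 5) (nat_lit 7) (nat_lit 4) (nat_lit 302) (nat_lit 257) (nat_lit 161))) (XT.nd (nat_lit 78) (nat_lit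 0) (nat_lit 0) (XT.lf (nat_lit 0) (nat_lit 47343659518) (nat_lit 76) (nat_lit 7647067890) (nat_lit 152) (nat_lit 129921012936) (nat_lit 5) (nat_lit 5) (nat_lit 6) (nat_lit 5) (nat_lit 7) (nat_lit 4) (nat_lit 303) (nat_lit 257) (nat_lit 160)) (XT.lf (nat_lit 0) (nat_lit 74559305147) (nat_lit 152) (nat_lit 111019544077) (nat_lit 0) (nat_lit 12485324799) (nat_lit 5) (nat_lit 5) (nat_lit 7) (nat_lit 4) (nat_lit 5) (nat_lit 4) (nat_lit 304) (nat_lit 257) (nat_lit 159))))) (XT.nd (nat_lit 234) (nat_lit 76) (nat_lit 0) (XT.nd (nat_lit 78) (nat_lit 0) (nat_lit 0) (XT.lf (nat_lit 0) (nat_lit 95890334661) (nat_lit 152) (nat_lit 82548797954) (nat_lit 0) (nat_lit 33813914941) (nat_lit 5) (nat_lit 5) (nat_lit 7) (nat_lit 4) (nat_lit 5) (nat_lit 4) (nat_lit 305) (nat_lit 257) (nat_lit 158)) (XT.nd (nat_lit 78) (nat_lit 0) (nat_lit 0) (XT.lf (nat_lit 0) (nat_lit 118926309886) (nat_lit 152) (nat_lit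 51803214758) (nat_lit 0) (nat_lit 56847631487) (nat_lit 5) (nat_lit 5) (nat_lit 7) (nat_lit 4) (nat_lit 5) (nat_lit 4) (nat_lit 306) (nat_lit 257) (nat_lit 157)) (XT.lf (nat_lit 0) (nat_lit 143803740304) (nat_lit 152) (nat_lit 18600598440) (nat_lit 0) (nat_lit 81722970536) (nat_lit 5) (nat_lit 5) (nat_lit 7) (nat_lit 4) (nat_lit 5) (nat_lit 4) (nat_lit 307) (nat_lit 257) (nat_lit 156)))) (XT.nd (nat_lit 156) (nat_lit 0) (nat_lit 0) (XT.nd (nat_lit 78) (nat_lit 0) (nat_lit 0) (XT.lf (nat_lit 0) (nat_lit 18164467472) (nat_lit 76) (nat_lit 152942436132) (nat_lit 76) (nat_lit 90859729912) (nat_lit 4) (nat_lit 4) (nat_lit 5) (nat_lit 5) (nat_lit 5) (nat_lit 4) (nat_lit 308) (nat_lit 257) (nat_lit 155)) (XT.lf (nat_lit 0) (nat_lit 58926212498) (nat_lit 76) (nat_lit 142175404226) (nat_lit 76) (nat_lit 80090904994) (nat_lit 4) (nat_lit 4) (nat_lit 5) (nat_lit 5) (nat_lit 5) (nat_lit 4) (nat_lit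 309) (nat_lit 257) (nat_lit 154))) (XT.nd (nat_lit 78) (nat_lit 0) (nat_lit 0) (XT.lf (nat_lit 0) (nat_lit 102946713168) (nat_lit 76) (nat_lit 130548011716) (nat_lit 76) (nat_lit 68461852289) (nat_lit 4) (nat_lit 4) (nat_lit 5) (nat_lit 5) (nat_lit 5) (nat_lit 4) (nat_lit 310) (nat_lit 257) (nat_lit 153)) (XT.lf (nat_lit 0) (nat_lit 150486831708) (nat_lit 76) (nat_lit 117991355538) (nat_lit 76) (nat_lit 55903658892) (nat_lit 4) (nat_lit 4) (nat_lit 5) (nat_lit 5) (nat_lit 5) (nat_lit 4) (nat_lit 311) (nat_lit 257) (nat_lit 152))))))))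
noncomputable def xc81 : XT := (XT.nd (nat_lit 2028) (nat_lit 0) (nat_lit 0) (XT.nd (nat_lit 1014) (nat_lit 0) (nat_lit 0) (XT.nd (nat_lit 468) (nat_lit 0) (nat_lit 0) (XT.nd (nat_lit 234) (nat_lit 152) (nat_lit 0) (XT.nd (nat_lit 78) (nat_lit 0) (nat_lit 0) (XT.lf (nat_lit 0) (nat_lit 201828287339) (nat_lit 76) (nat_lit 104431025875) (nat_lit 76) (nat_lit 42341905878) (nat_lit 4) (nat_lit 4) (nat_lit 5) (nat_lit 5) (nat_lit 5) (nat_lit 4) (nat_lit 312) (nat_lit 257) (nat_lit 151)) (XT.nd (nat_lit 78) (nat_lit 0) (nat_lit 0) (XT.lf (nat_lit 0) (nat_lit 257275325724) (nat_lit 76) (nat_lit 89786665219) (nat_lit 76) (nat_lit 27696227306) (nat_lit 4) (nat_lit 4) (nat_lit 5) (nat_lit 5) (nat_lit 5) (nat_lit 4) (nat_lit 313) (nat_lit 257) (nat_lit 150)) (XT.lf (nat_lit 0) (nat_lit 317156521905) (nat_lit 76) (nat_lit 73971492174) (nat_lit 76) (nat_lit 11879833967) (nat_lit 4) (nat_lit 4) (nat_lit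 5) (nat_lit 5) (nat_lit 5) (nat_lit 4) (nat_lit 314) (nat_lit 257) (nat_lit 149)))) (XT.nd (nat_lit 78) (nat_lit 76) (nat_lit 0) (XT.lf (nat_lit 0) (nat_lit 4940825783) (nat_lit 152) (nat_lit 51815870479) (nat_lit 76) (nat_lit 376750810699) (nat_lit 3) (nat_lit 5) (nat_lit 5) (nat_lit 5) (nat_lit 4) (nat_lit 4) (nat_lit 315) (nat_lit 257) (nat_lit 148)) (XT.nd (nat_lit 78) (nat_lit 76) (nat_lit 0) (XT.lf (nat_lit 0) (nat_lit 22464553519) (nat_lit 152) (nat_lit 15367562993) (nat_lit 76) (nat_lit 428590398880) (nat_lit 3) (nat_lit 5) (nat_lit 5) (nat_lit 5) (nat_lit 4) (nat_lit 4) (nat_lit 316) (nat_lit 257) (nat_lit 147)) (XT.lf (nat_lit 0) (nat_lit 25258846373) (nat_lit 76) (nat_lit 16738100451) (nat_lit 152) (nat_lit 459925237168) (nat_lit 2) (nat_lit 5) (nat_lit 3) (nat_lit 5) (nat_lit 4) (nat_lit 4) (nat_lit 317) (nat_lit 257) (nat_lit 146))))) (XT.nd (nat_lit 234) (nat_lit 0) (nat_lit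 0) (XT.nd (nat_lit 78) (nat_lit 0) (nat_lit 0) (XT.lf (nat_lit 0) (nat_lit 63667665430) (nat_lit 152) (nat_lit 470376455828) (nat_lit 0) (nat_lit 6171646935) (nat_lit 2) (nat_lit 5) (nat_lit 4) (nat_lit 4) (nat_lit 2) (nat_lit 4) (nat_lit 318) (nat_lit 257) (nat_lit 145)) (XT.nd (nat_lit 78) (nat_lit 0) (nat_lit 0) (XT.lf (nat_lit 0) (nat_lit 87506148264) (nat_lit 152) (nat_lit 464022602310) (nat_lit 0) (nat_lit 30009360777) (nat_lit 2) (nat_lit 5) (nat_lit 4) (nat_lit 4) (nat_lit 2) (nat_lit 4) (nat_lit 319) (nat_lit 257) (nat_lit 144)) (XT.lf (nat_lit 0) (nat_lit 113251108690) (nat_lit 152) (nat_lit 457161572881) (nat_lit 0) (nat_lit 55753609174) (nat_lit 2) (nat_lit 5) (nat_lit 4) (nat_lit 4) (nat_lit 2) (nat_lit 4) (nat_lit 320) (nat_lit 257) (nat_lit 143)))) (XT.nd (nat_lit 156) (nat_lit 0) (nat_lit 0) (XT.nd (nat_lit 78) (nat_lit 0) (nat_lit 0) (XT.lf (nat_lit 0) (nat_lit 141055109437)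 (nat_lit 152) (nat_lit 449752709589) (nat_lit 0) (nat_lit 83556950634) (nat_lit 2) (nat_lit 5) (nat_lit 4) (nat_lit 4) (nat_lit 2) (nat_lit 4) (nat_lit 321) (nat_lit 257) (nat_lit 142)) (XT.lf (nat_lit 0) (nat_lit 171082914955) (nat_lit 152) (nat_lit 441752108059) (nat_lit 0) (nat_lit 113584145702) (nat_lit 2) (nat_lit 5) (nat_lit 4) (nat_lit 4) (nat_lit 2) (nat_lit 4) (nat_lit 322) (nat_lit 257) (nat_lit 141))) (XT.nd (nat_lit 78) (nat_lit 0) (nat_lit 0) (XT.lf (nat_lit 0) (nat_lit 203512467794) (nat_lit 152) (nat_lit 433112357320) (nat_lit 0) (nat_lit 146013133309) (nat_lit 2) (nat_lit 5) (nat_lit 4) (nat_lit 4) (nat_lit 2) (nat_lit 4) (nat_lit 323) (nat_lit 257) (nat_lit 140)) (XT.lf (nat_lit 0) (nat_lit 238535943083) (nat_lit 152) (nat_lit 423782258847) (nat_lit 0) (nat_lit 181036085234) (nat_lit 2) (nat_lit 5) (nat_lit 4) (nat_lit 4) (nat_lit 2) (nat_lit 4) (nat_lit 324) (nat_lit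 257) (nat_lit 139)))))) (XT.nd (nat_lit 468) (nat_lit 0) (nat_lit 0) (XT.nd (nat_lit 234) (nat_lit 0) (nat_lit 0) (XT.nd (nat_lit 78) (nat_lit 0) (nat_lit 0) (XT.lf (nat_lit 0) (nat_lit 276360887341) (nat_lit 152) (nat_lit 413706523169) (nat_lit 0) (nat_lit 218860544897) (nat_lit 2) (nat_lit 5) (nat_lit 4) (nat_lit 4) (nat_lit 2) (nat_lit 4) (nat_lit 325) (nat_lit 257) (nat_lit 138)) (XT.nd (nat_lit 78) (nat_lit 0) (nat_lit 0) (XT.lf (nat_lit 0) (nat_lit 317211448386) (nat_lit 152) (nat_lit 402825442223) (nat_lit 0) (nat_lit 259710657242) (nat_lit 2) (nat_lit 5) (nat_lit 4) (nat_lit 4) (nat_lit 2) (nat_lit 4) (nat_lit 326) (nat_lit 257) (nat_lit 137)) (XT.lf (nat_lit 0) (nat_lit 361329703617) (nat_lit 152) (nat_lit 391074535528) (nat_lit 0) (nat_lit 303828497011) (nat_lit 2) (nat_lit 5) (nat_lit 4) (nat_lit 4) (nat_lit 2) (nat_lit 4) (nat_lit 327) (nat_lit 257) (nat_lit 136)))) (XT.nd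 (nat_lit 78) (nat_lit 0) (nat_lit 0) (XT.lf (nat_lit 0) (nat_lit 408977094547) (nat_lit 152) (nat_lit 378384168083) (nat_lit 0) (nat_lit 351475503254) (nat_lit 2) (nat_lit 5) (nat_lit 4) (nat_lit 4) (nat_lit 2) (nat_lit 4) (nat_lit 328) (nat_lit 257) (nat_lit 135)) (XT.nd (nat_lit 78) (nat_lit 0) (nat_lit 0) (XT.lf (nat_lit 0) (nat_lit 460435976085) (nat_lit 152) (nat_lit 364679137709) (nat_lit 0) (nat_lit 402934028600) (nat_lit 2) (nat_lit 5) (nat_lit 4) (nat_lit 4) (nat_lit 2) (nat_lit 4) (nat_lit 329) (nat_lit 257) (nat_lit 134)) (XT.lf (nat_lit 0) (nat_lit 516011289751) (nat_lit 152) (nat_lit 349878229412) (nat_lit 0) (nat_lit 458509012459) (nat_lit 2) (nat_lit 5) (nat_lit 4) (nat_lit 4) (nat_lit 2) (nat_lit 4) (nat_lit 330) (nat_lit 257) (nat_lit 133))))) (XT.nd (nat_lit 234) (nat_lit 0) (nat_lit 0) (XT.nd (nat_lit 78) (nat_lit 0) (nat_lit 0) (XT.lf (nat_lit 0) (nat_lit 576032370737)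 (nat_lit 152) (nat_lit 333893734106) (nat_lit 0) (nat_lit 518529788067) (nat_lit 2) (nat_lit 5) (nat_lit 4) (nat_lit 4) (nat_lit 2) (nat_lit 4) (nat_lit 331) (nat_lit 257) (nat_lit 132)) (XT.nd (nat_lit 78) (nat_lit 0) (nat_lit 0) (XT.lf (nat_lit 0) (nat_lit 640854899524) (nat_lit 152) (nat_lit 316630928855) (nat_lit 0) (nat_lit 583352034097) (nat_lit 2) (nat_lit 5) (nat_lit 4) (nat_lit 4) (nat_lit 2) (nat_lit 4) (nat_lit 332) (nat_lit 257) (nat_lit 131)) (XT.lf (nat_lit 0) (nat_lit 710863009614) (nat_lit 152) (nat_lit 297987515555) (nat_lit 0) (nat_lit 653359882375) (nat_lit 2) (nat_lit 5) (nat_lit 4) (nat_lit 4) (nat_lit 2) (nat_lit 4) (nat_lit 333) (nat_lit 257) (nat_lit 130)))) (XT.nd (nat_lit 156) (nat_lit 0) (nat_lit 0) (XT.nd (nat_lit 78) (nat_lit 0) (nat_lit 0) (XT.lf (nat_lit 0) (nat_lit 786471563883) (nat_lit 152) (nat_lit 277853014719) (nat_lit 0) (nat_lit 728968194226) (nat_lit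 2) (nat_lit 5) (nat_lit 4) (nat_lit 4) (nat_lit 2) (nat_lit 4) (nat_lit 334) (nat_lit 257) (nat_lit 129)) (XT.lf (nat_lit 0) (nat_lit 868128613022) (nat_lit 152) (nat_lit 256108110786) (nat_lit 0) (nat_lit 810625018904) (nat_lit 2) (nat_lit 5) (nat_lit 4) (nat_lit 4) (nat_lit 2) (nat_lit 4) (nat_lit 335) (nat_lit 257) (nat_lit 128))) (XT.nd (nat_lit 78) (nat_lit 0) (nat_lit 0) (XT.lf (nat_lit 0) (nat_lit 956318050657) (nat_lit 152) (nat_lit 232623945067) (nat_lit 0) (nat_lit 898814248704) (nat_lit 2) (nat_lit 5) (nat_lit 4) (nat_lit 4) (nat_lit 2) (nat_lit 4) (nat_lit 336) (nat_lit 257) (nat_lit 127)) (XT.lf (nat_lit 0) (nat_lit 1051562480861) (nat_lit 152) (nat_lit 207261352135) (nat_lit 0) (nat_lit 994058486469) (nat_lit 2) (nat_lit 5) (nat_lit 4) (nat_lit 4) (nat_lit 2) (nat_lit 4) (nat_lit 337) (nat_lit 257) (nat_lit 126))))))) (XT.nd (nat_lit 32136) (nat_lit 0) (nat_lit 1064) (XT.nd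 (nat_lit 31590) (nat_lit 0) (nat_lit 2204) (XT.nd (nat_lit 31356) (nat_lit 0) (nat_lit 2660) (XT.nd (nat_lit 78) (nat_lit 0) (nat_lit 0) (XT.lf (nat_lit 0) (nat_lit 1154426315074) (nat_lit 152) (nat_lit 179870035143) (nat_lit 0) (nat_lit 1096922142497) (nat_lit 2) (nat_lit 5) (nat_lit 4) (nat_lit 4) (nat_lit 2) (nat_lit 4) (nat_lit 338) (nat_lit 257) (nat_lit 125)) (XT.nd (nat_lit 31200) (nat_lit 0) (nat_lit 2660) (XT.lf (nat_lit 0) (nat_lit 1265519116757) (nat_lit 152) (nat_lit 150287675176) (nat_lit 0) (nat_lit 1208014779194) (nat_lit 2) (nat_lit 5) (nat_lit 4) (nat_lit 4) (nat_lit 2) (nat_lit 4) (nat_lit 339) (nat_lit 257) (nat_lit 124)) (XT.lf (nat_lit 0) (nat_lit 2527359545) (nat_lit 532) (nat_lit 2871765978) (nat_lit 532) (nat_lit 2871765978) (nat_lit 37) (nat_lit 3) (nat_lit 44) (nat_lit 3) (nat_lit 44) (nat_lit 5) (nat_lit 258) (nat_lit 258) (nat_lit 204)))) (XT.nd (nat_lit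 78) (nat_lit 0) (nat_lit 76) (XT.lf (nat_lit 76) (nat_lit 1518053757) (nat_lit 0) (nat_lit 3994001701) (nat_lit 532) (nat_lit 11669942957) (nat_lit 38) (nat_lit 5) (nat_lit 37) (nat_lit 3) (nat_lit 44) (nat_lit 5) (nat_lit 259) (nat_lit 258) (nat_lit 203)) (XT.nd (nat_lit 78) (nat_lit 0) (nat_lit 0) (XT.lf (nat_lit 0) (nat_lit 6225832128) (nat_lit 456) (nat_lit 8273019255) (nat_lit 532) (nat_lit 3357095864) (nat_lit 38) (nat_lit 5) (nat_lit 44) (nat_lit 5) (nat_lit 45) (nat_lit 5) (nat_lit 260) (nat_lit 258) (nat_lit 202)) (XT.lf (nat_lit 0) (nat_lit 7080134773) (nat_lit 456) (nat_lit 408079119) (nat_lit 532) (nat_lit 11089020910) (nat_lit 38) (nat_lit 5) (nat_lit 44) (nat_lit 5) (nat_lit 45) (nat_lit 5) (nat_lit 261) (nat_lit 258) (nat_lit 201))))) (XT.nd (nat_lit 234) (nat_lit 608) (nat_lit 0) (XT.nd (nat_lit 78) (nat_lit 0) (nat_lit 0) (XT.lf (nat_lit 0) (nat_lit 8195826518) (nat_lit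 456) (nat_lit 10850254538) (nat_lit 532) (nat_lit 294790270) (nat_lit 39) (nat_lit 5) (nat_lit 45) (nat_lit 5) (nat_lit 46) (nat_lit 5) (nat_lit 262) (nat_lit 258) (nat_lit 200)) (XT.nd (nat_lit 78) (nat_lit 0) (nat_lit 0) (XT.lf (nat_lit 0) (nat_lit 9589141095) (nat_lit 456) (nat_lit 2248911914) (nat_lit 532) (nat_lit 8312559289) (nat_lit 39) (nat_lit 5) (nat_lit 45) (nat_lit 5) (nat_lit 46) (nat_lit 5) (nat_lit 263) (nat_lit 258) (nat_lit 199)) (XT.lf (nat_lit 76) (nat_lit 7397797516) (nat_lit 0) (nat_lit 3857763693) (nat_lit 532) (nat_lit 9756716889) (nat_lit 40) (nat_lit 5) (nat_lit 39) (nat_lit 5) (nat_lit 46) (nat_lit 5) (nat_lit 264) (nat_lit 258) (nat_lit 198)))) (XT.nd (nat_lit 156) (nat_lit 228) (nat_lit 0) (XT.nd (nat_lit 78) (nat_lit 456) (nat_lit 0) (XT.lf (nat_lit 0) (nat_lit 13217580278) (nat_lit 456) (nat_lit 4123769143) (nat_lit 76) (nat_lit 4588616010) (nat_lit 40)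 (nat_lit 5) (nat_lit 46) (nat_lit 5) (nat_lit 41) (nat_lit 5) (nat_lit 265) (nat_lit 258) (nat_lit 197)) (XT.lf (nat_lit 0) (nat_lit 6329812276) (nat_lit 456) (nat_lit 9245013913) (nat_lit 532) (nat_lit 7327246161) (nat_lit 34) (nat_lit 5) (nat_lit 40) (nat_lit 5) (nat_lit 41) (nat_lit 5) (nat_lit 266) (nat_lit 258) (nat_lit 196))) (XT.nd (nat_lit 78) (nat_lit 228) (nat_lit 0) (XT.lf (nat_lit 0) (nat_lit 17841699251) (nat_lit 456) (nat_lit 378284018) (nat_lit 532) (nat_lit 5724078988) (nat_lit 34) (nat_lit 5) (nat_lit 40) (nat_lit 5) (nat_lit 41) (nat_lit 5) (nat_lit 267) (nat_lit 258) (nat_lit 195)) (XT.lf (nat_lit 0) (nat_lit 5233049125) (nat_lit 228) (nat_lit 16178360472) (nat_lit 304) (nat_lit 3631285661) (nat_lit 31) (nat_lit 5) (nat_lit 34) (nat_lit 5) (nat_lit 35) (nat_lit 5) (nat_lit 268) (nat_lit 258) (nat_lit 194)))))) (XT.nd (nat_lit 546) (nat_lit 532) (nat_lit 0) (XT.nd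 (nat_lit 234) (nat_lit 380) (nat_lit 0) (XT.nd (nat_lit 78) (nat_lit 228) (nat_lit 0) (XT.lf (nat_lit 0) (nat_lit 17799670189) (nat_lit 228) (nat_lit 7223123282) (nat_lit 304) (nat_lit 1193306208) (nat_lit 31) (nat_lit 5) (nat_lit 34) (nat_lit 5) (nat_lit 35) (nat_lit 5) (nat_lit 269) (nat_lit 258) (nat_lit 193)) (XT.nd (nat_lit 78) (nat_lit 0) (nat_lit 0) (XT.lf (nat_lit 0) (nat_lit 1516000149) (nat_lit 228) (nat_lit 23492205000) (nat_lit 76) (nat_lit 2460581399) (nat_lit 28) (nat_lit 5) (nat_lit 31) (nat_lit 5) (nat_lit 29) (nat_lit 5) (nat_lit 270) (nat_lit 258) (nat_lit 192)) (XT.lf (nat_lit 0) (nat_lit 4790577615) (nat_lit 228) (nat_lit 11200798639) (nat_lit 76) (nat_lit 12794834307) (nat_lit 28) (nat_lit 5) (nat_lit 31) (nat_lit 5) (nat_lit 29) (nat_lit 5) (nat_lit 271) (nat_lit 258) (nat_lit 191)))) (XT.nd (nat_lit 156) (nat_lit 152) (nat_lit 0) (XT.nd (nat_lit 78) (nat_lit 0)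 (nat_lit 0) (XT.lf (nat_lit 0) (nat_lit 2170831171) (nat_lit 228) (nat_lit 6198577624) (nat_lit 304) (nat_lit 21836275109) (nat_lit 25) (nat_lit 5) (nat_lit 28) (nat_lit 5) (nat_lit 29) (nat_lit 5) (nat_lit 272) (nat_lit 258) (nat_lit 190)) (XT.lf (nat_lit 0) (nat_lit 12644526819) (nat_lit 304) (nat_lit 14590394508) (nat_lit 76) (nat_lit 4471030924) (nat_lit 25) (nat_lit 5) (nat_lit 29) (nat_lit 5) (nat_lit 26) (nat_lit 5) (nat_lit 273) (nat_lit 258) (nat_lit 189))) (XT.nd (nat_lit 78) (nat_lit 152) (nat_lit 0) (XT.lf (nat_lit 0) (nat_lit 17413854135) (nat_lit 304) (nat_lit 242615971) (nat_lit 76) (nat_lit 15657628902) (nat_lit 25) (nat_lit 5) (nat_lit 29) (nat_lit 5) (nat_lit 26) (nat_lit 5) (nat_lit 274) (nat_lit 258) (nat_lit 188)) (XT.lf (nat_lit 0) (nat_lit 16045230084) (nat_lit 152) (nat_lit 6897235568) (nat_lit 228) (nat_lit 12078243303) (nat_lit 23) (nat_lit 5) (nat_lit 25)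 (nat_lit 5) (nat_lit 26) (nat_lit 5) (nat_lit 275) (nat_lit 258) (nat_lit 187))))) (XT.nd (nat_lit 234) (nat_lit 304) (nat_lit 0) (XT.nd (nat_lit 78) (nat_lit 228) (nat_lit 0) (XT.lf (nat_lit 0) (nat_lit 29025907140) (nat_lit 228) (nat_lit 3337903445) (nat_lit 76) (nat_lit 4491062062) (nat_lit 23) (nat_lit 5) (nat_lit 26) (nat_lit 5) (nat_lit 24) (nat_lit 5) (nat_lit 276) (nat_lit 258) (nat_lit 186)) (XT.nd (nat_lit 78) (nat_lit 76) (nat_lit 0) (XT.lf (nat_lit 0) (nat_lit 14065188020) (nat_lit 152) (nat_lit 22040987494) (nat_lit 228) (nat_lit 2688807935) (nat_lit 21) (nat_lit 5) (nat_lit 23) (nat_lit 5) (nat_lit 24) (nat_lit 5) (nat_lit 277) (nat_lit 258) (nat_lit 185)) (XT.lf (nat_lit 0) (nat_lit 2805835892) (nat_lit 228) (nat_lit 7913947576) (nat_lit 76) (nat_lit 30158116835) (nat_lit 20) (nat_lit 5) (nat_lit 23) (nat_lit 5) (nat_lit 21) (nat_lit 5) (nat_lit 278) (nat_lit 258) (nat_lit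 184)))) (XT.nd (nat_lit 156) (nat_lit 152) (nat_lit 0) (XT.nd (nat_lit 78) (nat_lit 0) (nat_lit 0) (XT.lf (nat_lit 0) (nat_lit 8890251084) (nat_lit 228) (nat_lit 32443085021) (nat_lit 76) (nat_lit 1764910794) (nat_lit 18) (nat_lit 5) (nat_lit 21) (nat_lit 5) (nat_lit 19) (nat_lit 5) (nat_lit 279) (nat_lit 258) (nat_lit 183)) (XT.lf (nat_lit 0) (nat_lit 15955430144) (nat_lit 228) (nat_lit 14612658912) (nat_lit 76) (nat_lit 14888630529) (nat_lit 18) (nat_lit 5) (nat_lit 21) (nat_lit 5) (nat_lit 19) (nat_lit 5) (nat_lit 280) (nat_lit 258) (nat_lit 182))) (XT.nd (nat_lit 78) (nat_lit 0) (nat_lit 0) (XT.lf (nat_lit 0) (nat_lit 4879433584) (nat_lit 152) (nat_lit 18817789578) (nat_lit 228) (nat_lit 24297752742) (nat_lit 16) (nat_lit 5) (nat_lit 18) (nat_lit 5) (nat_lit 19) (nat_lit 5) (nat_lit 281) (nat_lit 258) (nat_lit 181)) (XT.lf (nat_lit 0) (nat_lit 26753295831) (nat_lit 152) (nat_lit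 5698882116) (nat_lit 228) (nat_lit 18252625792) (nat_lit 16) (nat_lit 5) (nat_lit 18) (nat_lit 5) (nat_lit 19) (nat_lit 5) (nat_lit 282) (nat_lit 258) (nat_lit 180))))))))
noncomputable def xc82 : XT := (XT.nd (nat_lit 2028) (nat_lit 228) (nat_lit 0) (XT.nd (nat_lit 1014) (nat_lit 228) (nat_lit 0) (XT.nd (nat_lit 468) (nat_lit 304) (nat_lit 0) (XT.nd (nat_lit 234) (nat_lit 152) (nat_lit 0) (XT.nd (nat_lit 78) (nat_lit 152) (nat_lit 0) (XT.lf (nat_lit 0) (nat_lit 42105862659) (nat_lit 228) (nat_lit 3466410273) (nat_lit 76) (nat_lit 8043293436) (nat_lit 16) (nat_lit 5) (nat_lit 19) (nat_lit 5) (nat_lit 17) (nat_lit 4) (nat_lit 283) (nat_lit 258) (nat_lit 179)) (XT.nd (nat_lit 78) (nat_lit 76) (nat_lit 0) (XT.lf (nat_lit 0) (nat_lit 19475993148) (nat_lit 76) (nat_lit 33667307936) (nat_lit 152) (nat_lit 3566986332) (nat_lit 15) (nat_lit 5) (nat_lit 16) (nat_lit 5) (nat_lit 17) (nat_lit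 4) (nat_lit 284) (nat_lit 258) (nat_lit 178)) (XT.lf (nat_lit 0) (nat_lit 4852797456) (nat_lit 152) (nat_lit 15724879091) (nat_lit 76) (nat_lit 39457894094) (nat_lit 14) (nat_lit 5) (nat_lit 16) (nat_lit 5) (nat_lit 15) (nat_lit 5) (nat_lit 285) (nat_lit 258) (nat_lit 177)))) (XT.nd (nat_lit 78) (nat_lit 0) (nat_lit 0) (XT.lf (nat_lit 0) (nat_lit 7795352995) (nat_lit 152) (nat_lit 6141030767) (nat_lit 228) (nat_lit 49668457675) (nat_lit 12) (nat_lit 5) (nat_lit 14) (nat_lit 5) (nat_lit 15) (nat_lit 5) (nat_lit 286) (nat_lit 258) (nat_lit 176)) (XT.nd (nat_lit 78) (nat_lit 0) (nat_lit 0) (XT.lf (nat_lit 0) (nat_lit 24410610412) (nat_lit 228) (nat_lit 33579575655) (nat_lit 76) (nat_lit 9416361936) (nat_lit 12) (nat_lit 5) (nat_lit 15) (nat_lit 5) (nat_lit 13) (nat_lit 4) (nat_lit 287) (nat_lit 258) (nat_lit 175)) (XT.lf (nat_lit 0) (nat_lit 35878165886) (nat_lit 228) (nat_lit 9737587871)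 (nat_lit 76) (nat_lit 25884215693) (nat_lit 12) (nat_lit 5) (nat_lit 15) (nat_lit 5) (nat_lit 13) (nat_lit 4) (nat_lit 288) (nat_lit 258) (nat_lit 174))))) (XT.nd (nat_lit 234) (nat_lit 228) (nat_lit 0) (XT.nd (nat_lit 78) (nat_lit 0) (nat_lit 0) (XT.lf (nat_lit 0) (nat_lit 16848271473) (nat_lit 76) (nat_lit 31816243992) (nat_lit 152) (nat_lit 27224246875) (nat_lit 11) (nat_lit 5) (nat_lit 12) (nat_lit 5) (nat_lit 13) (nat_lit 4) (nat_lit 289) (nat_lit 258) (nat_lit 173)) (XT.nd (nat_lit 78) (nat_lit 0) (nat_lit 0) (XT.lf (nat_lit 0) (nat_lit 46108638232) (nat_lit 76) (nat_lit 16627700541) (nat_lit 152) (nat_lit 17871322868) (nat_lit 11) (nat_lit 5) (nat_lit 12) (nat_lit 5) (nat_lit 13) (nat_lit 4) (nat_lit 290) (nat_lit 258) (nat_lit 172)) (XT.lf (nat_lit 0) (nat_lit 77704143050) (nat_lit 76) (nat_lit 226360131) (nat_lit 152) (nat_lit 7773849717) (nat_lit 11) (nat_lit 5) (nat_lit 12)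 (nat_lit 5) (nat_lit 13) (nat_lit 4) (nat_lit 291) (nat_lit 258) (nat_lit 171)))) (XT.nd (nat_lit 156) (nat_lit 76) (nat_lit 0) (XT.nd (nat_lit 78) (nat_lit 0) (nat_lit 0) (XT.lf (nat_lit 0) (nat_lit 3927449785) (nat_lit 152) (nat_lit 69978165252) (nat_lit 76) (nat_lit 17220932110) (nat_lit 9) (nat_lit 5) (nat_lit 11) (nat_lit 5) (nat_lit 10) (nat_lit 4) (nat_lit 292) (nat_lit 258) (nat_lit 170)) (XT.lf (nat_lit 0) (nat_lit 16371983211) (nat_lit 152) (nat_lit 44100169901) (nat_lit 76) (nat_lit 36476046845) (nat_lit 9) (nat_lit 5) (nat_lit 11) (nat_lit 5) (nat_lit 10) (nat_lit 4) (nat_lit 293) (nat_lit 258) (nat_lit 169))) (XT.nd (nat_lit 78) (nat_lit 76) (nat_lit 0) (XT.lf (nat_lit 0) (nat_lit 29809133767) (nat_lit 152) (nat_lit 16157039501) (nat_lit 76) (nat_lit 57269652977) (nat_lit 9) (nat_lit 5) (nat_lit 11) (nat_lit 5) (nat_lit 10) (nat_lit 4) (nat_lit 294) (nat_lit 258) (nat_lit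 168)) (XT.lf (nat_lit 0) (nat_lit 14754915499) (nat_lit 76) (nat_lit 29918469583) (nat_lit 152) (nat_lit 65324912449) (nat_lit 8) (nat_lit 5) (nat_lit 9) (nat_lit 5) (nat_lit 10) (nat_lit 4) (nat_lit 295) (nat_lit 258) (nat_lit 167)))))) (XT.nd (nat_lit 468) (nat_lit 76) (nat_lit 0) (XT.nd (nat_lit 234) (nat_lit 152) (nat_lit 0) (XT.nd (nat_lit 78) (nat_lit 0) (nat_lit 0) (XT.lf (nat_lit 0) (nat_lit 49054085247) (nat_lit 76) (nat_lit 12111817224) (nat_lit 152) (nat_lit 56100738779) (nat_lit 8) (nat_lit 5) (nat_lit 9) (nat_lit 5) (nat_lit 10) (nat_lit 4) (nat_lit 296) (nat_lit 258) (nat_lit 166)) (XT.nd (nat_lit 78) (nat_lit 0) (nat_lit 0) (XT.lf (nat_lit 0) (nat_lit 79146557469) (nat_lit 152) (nat_lit 39194906245) (nat_lit 0) (nat_lit 6761494309) (nat_lit 8) (nat_lit 5) (nat_lit 10) (nat_lit 4) (nat_lit 8) (nat_lit 4) (nat_lit 297) (nat_lit 258) (nat_lit 165)) (XT.lf (nat_lit 0) (nat_lit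 98877956835) (nat_lit 152) (nat_lit 8174531047) (nat_lit 0) (nat_lit 26488713020) (nat_lit 8) (nat_lit 5) (nat_lit 10) (nat_lit 4) (nat_lit 8) (nat_lit 4) (nat_lit 298) (nat_lit 258) (nat_lit 164)))) (XT.nd (nat_lit 78) (nat_lit 76) (nat_lit 0) (XT.lf (nat_lit 0) (nat_lit 26657183828) (nat_lit 76) (nat_lit 94169659971) (nat_lit 76) (nat_lit 21776545178) (nat_lit 7) (nat_lit 4) (nat_lit 8) (nat_lit 5) (nat_lit 8) (nat_lit 4) (nat_lit 299) (nat_lit 258) (nat_lit 163)) (XT.nd (nat_lit 78) (nat_lit 76) (nat_lit 0) (XT.lf (nat_lit 0) (nat_lit 64736634048) (nat_lit 76) (nat_lit 80016452514) (nat_lit 76) (nat_lit 7619753482) (nat_lit 7) (nat_lit 4) (nat_lit 8) (nat_lit 5) (nat_lit 8) (nat_lit 4) (nat_lit 300) (nat_lit 258) (nat_lit 162)) (XT.lf (nat_lit 0) (nat_lit 7283956701) (nat_lit 152) (nat_lit 57249387832) (nat_lit 76) (nat_lit 98375906310) (nat_lit 6) (nat_lit 5) (nat_lit 8) (nat_lit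 5) (nat_lit 7) (nat_lit 4) (nat_lit 301) (nat_lit 258) (nat_lit 161))))) (XT.nd (nat_lit 234) (nat_lit 0) (nat_lit 0) (XT.nd (nat_lit 78) (nat_lit 76) (nat_lit 0) (XT.lf (nat_lit 0) (nat_lit 22966483062) (nat_lit 152) (nat_lit 24632805908) (nat_lit 76) (nat_lit 126673600370) (nat_lit 6) (nat_lit 5) (nat_lit 8) (nat_lit 5) (nat_lit 7) (nat_lit 4) (nat_lit 302) (nat_lit 258) (nat_lit 160)) (XT.nd (nat_lit 78) (nat_lit 0) (nat_lit 0) (XT.lf (nat_lit 0) (nat_lit 11147733243) (nat_lit 76) (nat_lit 29022300028) (nat_lit 152) (nat_lit 146354274505) (nat_lit 5) (nat_lit 5) (nat_lit 6) (nat_lit 5) (nat_lit 7) (nat_lit 4) (nat_lit 303) (nat_lit 258) (nat_lit 159)) (XT.lf (nat_lit 0) (nat_lit 51188657494) (nat_lit 76) (nat_lit 8233086725) (nat_lit 152) (nat_lit 140280347734) (nat_lit 5) (nat_lit 5) (nat_lit 6) (nat_lit 5) (nat_lit 7) (nat_lit 4) (nat_lit 304) (nat_lit 258) (nat_lit 158)))) (XT.nd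 (nat_lit 156) (nat_lit 0) (nat_lit 0) (XT.nd (nat_lit 78) (nat_lit 0) (nat_lit 0) (XT.lf (nat_lit 0) (nat_lit 80554029026) (nat_lit 152) (nat_lit 119846039430) (nat_lit 0) (nat_lit 13506797678) (nat_lit 5) (nat_lit 5) (nat_lit 7) (nat_lit 4) (nat_lit 5) (nat_lit 4) (nat_lit 305) (nat_lit 258) (nat_lit 157)) (XT.lf (nat_lit 0) (nat_lit 103589320201) (nat_lit 152) (nat_lit 89101712741) (nat_lit 0) (nat_lit 36539997483) (nat_lit 5) (nat_lit 5) (nat_lit 7) (nat_lit 4) (nat_lit 5) (nat_lit 4) (nat_lit 306) (nat_lit 258) (nat_lit 156))) (XT.nd (nat_lit 78) (nat_lit 0) (nat_lit 0) (XT.lf (nat_lit 0) (nat_lit 128466117239) (nat_lit 152) (nat_lit 55900259856) (nat_lit 0) (nat_lit 61414858068) (nat_lit 5) (nat_lit 5) (nat_lit 7) (nat_lit 4) (nat_lit 5) (nat_lit 4) (nat_lit 307) (nat_lit 258) (nat_lit 155)) (XT.lf (nat_lit 0) (nat_lit 155331838196) (nat_lit 152) (nat_lit 20044931425) (nat_lit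 0) (nat_lit 88278786015) (nat_lit 5) (nat_lit 5) (nat_lit 7) (nat_lit 4) (nat_lit 5) (nat_lit 4) (nat_lit 308) (nat_lit 258) (nat_lit 154))))))) (XT.nd (nat_lit 1014) (nat_lit 0) (nat_lit 0) (XT.nd (nat_lit 468) (nat_lit 152) (nat_lit 0) (XT.nd (nat_lit 234) (nat_lit 0) (nat_lit 0) (XT.nd (nat_lit 78) (nat_lit 0) (nat_lit 0) (XT.lf (nat_lit 0) (nat_lit 19660233054) (nat_lit 76) (nat_lit 165158283370) (nat_lit 76) (nat_lit 98103570992) (nat_lit 4) (nat_lit 4) (nat_lit 5) (nat_lit 5) (nat_lit 5) (nat_lit 4) (nat_lit 309) (nat_lit 258) (nat_lit 153)) (XT.nd (nat_lit 78) (nat_lit 0) (nat_lit 0) (XT.lf (nat_lit 0) (nat_lit 63679761521) (nat_lit 76) (nat_lit 153531336885) (nat_lit 76) (nat_lit 86475087289) (nat_lit 4) (nat_lit 4) (nat_lit 5) (nat_lit 5) (nat_lit 5) (nat_lit 4) (nat_lit 310) (nat_lit 258) (nat_lit 152)) (XT.lf (nat_lit 0) (nat_lit 111218979872) (nat_lit 76) (nat_lit 140975093692)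 (nat_lit 76) (nat_lit 73917420745) (nat_lit 4) (nat_lit 4) (nat_lit 5) (nat_lit 5) (nat_lit 5) (nat_lit 4) (nat_lit 311) (nat_lit 258) (nat_lit 151)))) (XT.nd (nat_lit 78) (nat_lit 0) (nat_lit 0) (XT.lf (nat_lit 0) (nat_lit 162559601995) (nat_lit 76) (nat_lit 127415146423) (nat_lit 76) (nat_lit 60356155560) (nat_lit 4) (nat_lit 4) (nat_lit 5) (nat_lit 5) (nat_lit 5) (nat_lit 4) (nat_lit 312) (nat_lit 258) (nat_lit 150)) (XT.nd (nat_lit 78) (nat_lit 0) (nat_lit 0) (XT.lf (nat_lit 0) (nat_lit 218005868614) (nat_lit 76) (nat_lit 112771139836) (nat_lit 76) (nat_lit 45710928679) (nat_lit 4) (nat_lit 4) (nat_lit 5) (nat_lit 5) (nat_lit 5) (nat_lit 4) (nat_lit 313) (nat_lit 258) (nat_lit 149)) (XT.lf (nat_lit 0) (nat_lit 277886350196) (nat_lit 76) (nat_lit 96956294632) (nat_lit 76) (nat_lit 29894953574) (nat_lit 4) (nat_lit 4) (nat_lit 5) (nat_lit 5) (nat_lit 5) (nat_lit 4) (nat_lit 314) (nat_lit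 258) (nat_lit 148))))) (XT.nd (nat_lit 234) (nat_lit 76) (nat_lit 0) (XT.nd (nat_lit 78) (nat_lit 76) (nat_lit 0) (XT.lf (nat_lit 0) (nat_lit 342555894041) (nat_lit 76) (nat_lit 79876893210) (nat_lit 76) (nat_lit 12814505947) (nat_lit 4) (nat_lit 4) (nat_lit 5) (nat_lit 5) (nat_lit 5) (nat_lit 4) (nat_lit 315) (nat_lit 258) (nat_lit 147)) (XT.nd (nat_lit 78) (nat_lit 0) (nat_lit 0) (XT.lf (nat_lit 0) (nat_lit 5349914644) (nat_lit 152) (nat_lit 55935533511) (nat_lit 76) (nat_lit 406901536284) (nat_lit 3) (nat_lit 5) (nat_lit 5) (nat_lit 5) (nat_lit 4) (nat_lit 4) (nat_lit 316) (nat_lit 258) (nat_lit 146)) (XT.lf (nat_lit 0) (nat_lit 24274516688) (nat_lit 152) (nat_lit 16573258212) (nat_lit 76) (nat_lit 462887501835) (nat_lit 3) (nat_lit 5) (nat_lit 5) (nat_lit 5) (nat_lit 4) (nat_lit 4) (nat_lit 317) (nat_lit 258) (nat_lit 145)))) (XT.nd (nat_lit 156) (nat_lit 0) (nat_lit 0) (XT.nd (nat_lit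 78) (nat_lit 0) (nat_lit 0) (XT.lf (nat_lit 0) (nat_lit 27302663655) (nat_lit 76) (nat_lit 18066445522) (nat_lit 152) (nat_lit 496705842212) (nat_lit 2) (nat_lit 5) (nat_lit 3) (nat_lit 5) (nat_lit 4) (nat_lit 4) (nat_lit 318) (nat_lit 258) (nat_lit 144)) (XT.lf (nat_lit 0) (nat_lit 68772804604) (nat_lit 152) (nat_lit 507984480176) (nat_lit 0) (nat_lit 6674793097) (nat_lit 2) (nat_lit 5) (nat_lit 4) (nat_lit 4) (nat_lit 2) (nat_lit 4) (nat_lit 319) (nat_lit 258) (nat_lit 143))) (XT.nd (nat_lit 78) (nat_lit 0) (nat_lit 0) (XT.lf (nat_lit 0) (nat_lit 94517497476) (nat_lit 152) (nat_lit 501123954830) (nat_lit 0) (nat_lit 32418826682) (nat_lit 2) (nat_lit 5) (nat_lit 4) (nat_lit 4) (nat_lit 2) (nat_lit 4) (nat_lit 320) (nat_lit 258) (nat_lit 142)) (XT.lf (nat_lit 0) (nat_lit 122321250488) (nat_lit 152) (nat_lit 493715558281) (nat_lit 0) (nat_lit 60221969243) (nat_lit 2) (nat_lit 5) (nat_lit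 4) (nat_lit 4) (nat_lit 2) (nat_lit 4) (nat_lit 321) (nat_lit 258) (nat_lit 141)))))) (XT.nd (nat_lit 546) (nat_lit 0) (nat_lit 0) (XT.nd (nat_lit 234) (nat_lit 0) (nat_lit 0) (XT.nd (nat_lit 78) (nat_lit 0) (nat_lit 0) (XT.lf (nat_lit 0) (nat_lit 152348826621) (nat_lit 152) (nat_lit 485715388921) (nat_lit 0) (nat_lit 90248980144) (nat_lit 2) (nat_lit 5) (nat_lit 4) (nat_lit 4) (nat_lit 2) (nat_lit 4) (nat_lit 322) (nat_lit 258) (nat_lit 140)) (XT.nd (nat_lit 78) (nat_lit 0) (nat_lit 0) (XT.lf (nat_lit 0) (nat_lit 184778167067) (nat_lit 152) (nat_lit 477076038338) (nat_lit 0) (nat_lit 122677797227) (nat_lit 2) (nat_lit 5) (nat_lit 4) (nat_lit 4) (nat_lit 2) (nat_lit 4) (nat_lit 323) (nat_lit 258) (nat_lit 139)) (XT.lf (nat_lit 0) (nat_lit 219801445695) (nat_lit 152) (nat_lit 467746310381) (nat_lit 0) (nat_lit 157700591260) (nat_lit 2) (nat_lit 5) (nat_lit 4) (nat_lit 4) (nat_lit 2)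 (nat_lit 4) (nat_lit 324) (nat_lit 258) (nat_lit 138)))) (XT.nd (nat_lit 156) (nat_lit 0) (nat_lit 0) (XT.nd (nat_lit 78) (nat_lit 0) (nat_lit 0) (XT.lf (nat_lit 0) (nat_lit 257626207860) (nat_lit 152) (nat_lit 457670917773) (nat_lit 0) (nat_lit 195524904726) (nat_lit 2) (nat_lit 5) (nat_lit 4) (nat_lit 4) (nat_lit 2) (nat_lit 4) (nat_lit 325) (nat_lit 258) (nat_lit 137)) (XT.lf (nat_lit 0) (nat_lit 298476600301) (nat_lit 152) (nat_lit 446790154484) (nat_lit 0) (nat_lit 236374881704) (nat_lit 2) (nat_lit 5) (nat_lit 4) (nat_lit 4) (nat_lit 2) (nat_lit 4) (nat_lit 326) (nat_lit 258) (nat_lit 136))) (XT.nd (nat_lit 78) (nat_lit 0) (nat_lit 0) (XT.lf (nat_lit 0) (nat_lit 342594699417) (nat_lit 152) (nat_lit 435039541917) (nat_lit 0) (nat_lit 280492596133) (nat_lit 2) (nat_lit 5) (nat_lit 4) (nat_lit 4) (nat_lit 2) (nat_lit 4) (nat_lit 327) (nat_lit 258) (nat_lit 135)) (XT.lf (nat_lit 0)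 (nat_lit 390241945796) (nat_lit 152) (nat_lit 422349446811) (nat_lit 0) (nat_lit 328139486319) (nat_lit 2) (nat_lit 5) (nat_lit 4) (nat_lit 4) (nat_lit 2) (nat_lit 4) (nat_lit 328) (nat_lit 258) (nat_lit 134))))) (XT.nd (nat_lit 234) (nat_lit 0) (nat_lit 0) (XT.nd (nat_lit 78) (nat_lit 0) (nat_lit 0) (XT.lf (nat_lit 0) (nat_lit 441700693490) (nat_lit 152) (nat_lit 408644668604) (nat_lit 0) (nat_lit 379597904206) (nat_lit 2) (nat_lit 5) (nat_lit 4) (nat_lit 4) (nat_lit 2) (nat_lit 4) (nat_lit 329) (nat_lit 258) (nat_lit 133)) (XT.nd (nat_lit 78) (nat_lit 0) (nat_lit 0) (XT.lf (nat_lit 0) (nat_lit 497275883226) (nat_lit 152) (nat_lit 393843993795) (nat_lit 0) (nat_lit 435172788565) (nat_lit 2) (nat_lit 5) (nat_lit 4) (nat_lit 4) (nat_lit 2) (nat_lit 4) (nat_lit 330) (nat_lit 258) (nat_lit 132)) (XT.lf (nat_lit 0) (nat_lit 557296849463) (nat_lit 152) (nat_lit 377859714681) (nat_lit 0)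 (nat_lit 495193472045) (nat_lit 2) (nat_lit 5) (nat_lit 4) (nat_lit 4) (nat_lit 2) (nat_lit 4) (nat_lit 331) (nat_lit 258) (nat_lit 131)))) (XT.nd (nat_lit 156) (nat_lit 0) (nat_lit 0) (XT.nd (nat_lit 78) (nat_lit 0) (nat_lit 0) (XT.lf (nat_lit 0) (nat_lit 622119272000) (nat_lit 152) (nat_lit 360597109609) (nat_lit 0) (nat_lit 560015632770) (nat_lit 2) (nat_lit 5) (nat_lit 4) (nat_lit 4) (nat_lit 2) (nat_lit 4) (nat_lit 332) (nat_lit 258) (nat_lit 130)) (XT.lf (nat_lit 0) (nat_lit 692127283711) (nat_lit 152) (nat_lit 341953881658) (nat_lit 0) (nat_lit 630023402063) (nat_lit 2) (nat_lit 5) (nat_lit 4) (nat_lit 4) (nat_lit 2) (nat_lit 4) (nat_lit 333) (nat_lit 258) (nat_lit 129))) (XT.nd (nat_lit 78) (nat_lit 0) (nat_lit 0) (XT.lf (nat_lit 0) (nat_lit 767735746888) (nat_lit 152) (nat_lit 321819552442) (nat_lit 0) (nat_lit 705631640779) (nat_lit 2) (nat_lit 5) (nat_lit 4) (nat_lit 4) (nat_lit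 2) (nat_lit 4) (nat_lit 334) (nat_lit 258) (nat_lit 128)) (XT.lf (nat_lit 0) (nat_lit 849392711683) (nat_lit 152) (nat_lit 300074807417) (nat_lit 0) (nat_lit 787288397739) (nat_lit 2) (nat_lit 5) (nat_lit 4) (nat_lit 4) (nat_lit 2) (nat_lit 4) (nat_lit 335) (nat_lit 258) (nat_lit 127))))))))
noncomputable def xc83 : XT := (XT.nd (nat_lit 33228) (nat_lit 0) (nat_lit 228) (XT.nd (nat_lit 32214) (nat_lit 0) (nat_lit 1216) (XT.nd (nat_lit 31668) (nat_lit 0) (nat_lit 2432) (XT.nd (nat_lit 234) (nat_lit 0) (nat_lit 0) (XT.nd (nat_lit 78) (nat_lit 0) (nat_lit 0) (XT.lf (nat_lit 0) (nat_lit 937582071221) (nat_lit 152) (nat_lit 276590788835) (nat_lit 0) (nat_lit 875477564838) (nat_lit 2) (nat_lit 5) (nat_lit 4) (nat_lit 4) (nat_lit 2) (nat_lit 4) (nat_lit 336) (nat_lit 258) (nat_lit 126)) (XT.nd (nat_lit 78) (nat_lit 0) (nat_lit 0) (XT.lf (nat_lit 0) (nat_lit 1032826429114) (nat_lit 152) (nat_lit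 251228332141) (nat_lit 0) (nat_lit 970721744546) (nat_lit 2) (nat_lit 5) (nat_lit 4) (nat_lit 4) (nat_lit 2) (nat_lit 4) (nat_lit 337) (nat_lit 258) (nat_lit 125)) (XT.lf (nat_lit 0) (nat_lit 1135690196372) (nat_lit 152) (nat_lit 223837141295) (nat_lit 0) (nat_lit 1073585346818) (nat_lit 2) (nat_lit 5) (nat_lit 4) (nat_lit 4) (nat_lit 2) (nat_lit 4) (nat_lit 338) (nat_lit 258) (nat_lit 124)))) (XT.nd (nat_lit 31278) (nat_lit 0) (nat_lit 2660) (XT.lf (nat_lit 0) (nat_lit 1246782936059) (nat_lit 152) (nat_lit 194254898130) (nat_lit 0) (nat_lit 1184677933741) (nat_lit 2) (nat_lit 5) (nat_lit 4) (nat_lit 4) (nat_lit 2) (nat_lit 4) (nat_lit 339) (nat_lit 258) (nat_lit 123)) (XT.nd (nat_lit 78) (nat_lit 0) (nat_lit 0) (XT.lf (nat_lit 0) (nat_lit 2942928425) (nat_lit 532) (nat_lit 2985772498) (nat_lit 532) (nat_lit 2985772498) (nat_lit 37) (nat_lit 3) (nat_lit 44) (nat_lit 3) (nat_lit 44)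 (nat_lit 5) (nat_lit 259) (nat_lit 259) (nat_lit 202)) (XT.lf (nat_lit 76) (nat_lit 1865107587) (nat_lit 0) (nat_lit 4488486586) (nat_lit 532) (nat_lit 12169031153) (nat_lit 38) (nat_lit 5) (nat_lit 37) (nat_lit 3) (nat_lit 44) (nat_lit 5) (nat_lit 260) (nat_lit 259) (nat_lit 201))))) (XT.nd (nat_lit 234) (nat_lit 304) (nat_lit 0) (XT.nd (nat_lit 78) (nat_lit 0) (nat_lit 0) (XT.lf (nat_lit 0) (nat_lit 7090904598) (nat_lit 456) (nat_lit 8690647464) (nat_lit 532) (nat_lit 3471763252) (nat_lit 38) (nat_lit 5) (nat_lit 44) (nat_lit 5) (nat_lit 45) (nat_lit 5) (nat_lit 261) (nat_lit 259) (nat_lit 200)) (XT.nd (nat_lit 78) (nat_lit 0) (nat_lit 76) (XT.lf (nat_lit 0) (nat_lit 7986365832) (nat_lit 456) (nat_lit 214601993) (nat_lit 532) (nat_lit 11833642322) (nat_lit 38) (nat_lit 5) (nat_lit 44) (nat_lit 5) (nat_lit 45) (nat_lit 5) (nat_lit 262) (nat_lit 259) (nat_lit 199)) (XT.lf (nat_lit 0)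 (nat_lit 9169047456) (nat_lit 456) (nat_lit 11468388008) (nat_lit 532) (nat_lit 223803205) (nat_lit 39) (nat_lit 5) (nat_lit 45) (nat_lit 5) (nat_lit 46) (nat_lit 5) (nat_lit 263) (nat_lit 259) (nat_lit 198)))) (XT.nd (nat_lit 156) (nat_lit 380) (nat_lit 0) (XT.nd (nat_lit 78) (nat_lit 0) (nat_lit 0) (XT.lf (nat_lit 0) (nat_lit 10650304621) (nat_lit 456) (nat_lit 2197448114) (nat_lit 532) (nat_lit 8889998952) (nat_lit 39) (nat_lit 5) (nat_lit 45) (nat_lit 5) (nat_lit 46) (nat_lit 5) (nat_lit 264) (nat_lit 259) (nat_lit 197)) (XT.lf (nat_lit 76) (nat_lit 8215140431) (nat_lit 0) (nat_lit 4218541488) (nat_lit 532) (nat_lit 10236080088) (nat_lit 40) (nat_lit 5) (nat_lit 39) (nat_lit 5) (nat_lit 46) (nat_lit 5) (nat_lit 265) (nat_lit 259) (nat_lit 196))) (XT.nd (nat_lit 78) (nat_lit 456) (nat_lit 0) (XT.lf (nat_lit 0) (nat_lit 14530932480) (nat_lit 456) (nat_lit 4221937505) (nat_lit 76)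 (nat_lit 4909827875) (nat_lit 40) (nat_lit 5) (nat_lit 46) (nat_lit 5) (nat_lit 41) (nat_lit 5) (nat_lit 266) (nat_lit 259) (nat_lit 195)) (XT.lf (nat_lit 0) (nat_lit 7062063765) (nat_lit 456) (nat_lit 10001167448) (nat_lit 532) (nat_lit 7650512353) (nat_lit 34) (nat_lit 5) (nat_lit 40) (nat_lit 5) (nat_lit 41) (nat_lit 5) (nat_lit 267) (nat_lit 259) (nat_lit 194)))))) (XT.nd (nat_lit 468) (nat_lit 532) (nat_lit 0) (XT.nd (nat_lit 234) (nat_lit 456) (nat_lit 0) (XT.nd (nat_lit 78) (nat_lit 228) (nat_lit 0) (XT.lf (nat_lit 0) (nat_lit 19478170845) (nat_lit 456) (nat_lit 423873056) (nat_lit 532) (nat_lit 5938566880) (nat_lit 34) (nat_lit 5) (nat_lit 40) (nat_lit 5) (nat_lit 41) (nat_lit 5) (nat_lit 268) (nat_lit 259) (nat_lit 193)) (XT.nd (nat_lit 78) (nat_lit 0) (nat_lit 0) (XT.lf (nat_lit 0) (nat_lit 5874389442) (nat_lit 228) (nat_lit 17462782640) (nat_lit 304) (nat_lit 3690966839)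 (nat_lit 31) (nat_lit 5) (nat_lit 34) (nat_lit 5) (nat_lit 35) (nat_lit 5) (nat_lit 269) (nat_lit 259) (nat_lit 192)) (XT.lf (nat_lit 0) (nat_lit 19429844163) (nat_lit 228) (nat_lit 7791855858) (nat_lit 304) (nat_lit 1075046933) (nat_lit 31) (nat_lit 5) (nat_lit 34) (nat_lit 5) (nat_lit 35) (nat_lit 5) (nat_lit 270) (nat_lit 259) (nat_lit 191)))) (XT.nd (nat_lit 78) (nat_lit 228) (nat_lit 0) (XT.lf (nat_lit 0) (nat_lit 1830835526) (nat_lit 228) (nat_lit 25143653962) (nat_lit 76) (nat_lit 2675566193) (nat_lit 28) (nat_lit 5) (nat_lit 31) (nat_lit 5) (nat_lit 29) (nat_lit 5) (nat_lit 271) (nat_lit 259) (nat_lit 190)) (XT.nd (nat_lit 78) (nat_lit 228) (nat_lit 0) (XT.lf (nat_lit 0) (nat_lit 5353041755) (nat_lit 228) (nat_lit 11885818606) (nat_lit 76) (nat_lit 13835215758) (nat_lit 28) (nat_lit 5) (nat_lit 31) (nat_lit 5) (nat_lit 29) (nat_lit 5) (nat_lit 272) (nat_lit 259) (nat_lit 189))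 (XT.lf (nat_lit 0) (nat_lit 2550198705) (nat_lit 228) (nat_lit 6659652437) (nat_lit 304) (nat_lit 23397973846) (nat_lit 25) (nat_lit 5) (nat_lit 28) (nat_lit 5) (nat_lit 29) (nat_lit 5) (nat_lit 273) (nat_lit 259) (nat_lit 188))))) (XT.nd (nat_lit 234) (nat_lit 380) (nat_lit 0) (XT.nd (nat_lit 78) (nat_lit 152) (nat_lit 0) (XT.lf (nat_lit 0) (nat_lit 13815095315) (nat_lit 304) (nat_lit 15554683982) (nat_lit 76) (nat_lit 4859333759) (nat_lit 25) (nat_lit 5) (nat_lit 29) (nat_lit 5) (nat_lit 26) (nat_lit 5) (nat_lit 274) (nat_lit 259) (nat_lit 187)) (XT.nd (nat_lit 78) (nat_lit 152) (nat_lit 0) (XT.lf (nat_lit 0) (nat_lit 18954190568) (nat_lit 304) (nat_lit 74115909) (nat_lit 76) (nat_lit 16938591401) (nat_lit 25) (nat_lit 5) (nat_lit 29) (nat_lit 5) (nat_lit 26) (nat_lit 5) (nat_lit 275) (nat_lit 259) (nat_lit 186)) (XT.lf (nat_lit 0) (nat_lit 17512000632) (nat_lit 152) (nat_lit 7406589403)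 (nat_lit 228) (nat_lit 12892007463) (nat_lit 23) (nat_lit 5) (nat_lit 25) (nat_lit 5) (nat_lit 26) (nat_lit 5) (nat_lit 276) (nat_lit 259) (nat_lit 185)))) (XT.nd (nat_lit 156) (nat_lit 228) (nat_lit 0) (XT.nd (nat_lit 78) (nat_lit 152) (nat_lit 0) (XT.lf (nat_lit 0) (nat_lit 31479227353) (nat_lit 228) (nat_lit 3425398690) (nat_lit 76) (nat_lit 4887664379) (nat_lit 23) (nat_lit 5) (nat_lit 26) (nat_lit 5) (nat_lit 24) (nat_lit 5) (nat_lit 277) (nat_lit 259) (nat_lit 184)) (XT.lf (nat_lit 0) (nat_lit 15365394851) (nat_lit 152) (nat_lit 23755008856) (nat_lit 228) (nat_lit 2767682442) (nat_lit 21) (nat_lit 5) (nat_lit 23) (nat_lit 5) (nat_lit 24) (nat_lit 5) (nat_lit 278) (nat_lit 259) (nat_lit 183))) (XT.nd (nat_lit 78) (nat_lit 152) (nat_lit 0) (XT.lf (nat_lit 0) (nat_lit 3150131787) (nat_lit 228) (nat_lit 8378349097) (nat_lit 76) (nat_lit 32609690254) (nat_lit 20) (nat_lit 5) (nat_lit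 23) (nat_lit 5) (nat_lit 21) (nat_lit 5) (nat_lit 279) (nat_lit 259) (nat_lit 182)) (XT.lf (nat_lit 0) (nat_lit 9717570157) (nat_lit 228) (nat_lit 34865740400) (nat_lit 76) (nat_lit 1953161076) (nat_lit 18) (nat_lit 5) (nat_lit 21) (nat_lit 5) (nat_lit 19) (nat_lit 5) (nat_lit 280) (nat_lit 259) (nat_lit 181))))))) (XT.nd (nat_lit 1014) (nat_lit 304) (nat_lit 0) (XT.nd (nat_lit 468) (nat_lit 380) (nat_lit 0) (XT.nd (nat_lit 234) (nat_lit 152) (nat_lit 0) (XT.nd (nat_lit 78) (nat_lit 152) (nat_lit 0) (XT.lf (nat_lit 0) (nat_lit 17339363616) (nat_lit 228) (nat_lit 15621679566) (nat_lit 76) (nat_lit 16123292656) (nat_lit 18) (nat_lit 5) (nat_lit 21) (nat_lit 5) (nat_lit 19) (nat_lit 5) (nat_lit 281) (nat_lit 259) (nat_lit 180)) (XT.nd (nat_lit 78) (nat_lit 0) (nat_lit 0) (XT.lf (nat_lit 0) (nat_lit 5425729897) (nat_lit 152) (nat_lit 20270557686) (nat_lit 228) (nat_lit 26129725887) (nat_lit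 16) (nat_lit 5) (nat_lit 18) (nat_lit 5) (nat_lit 19) (nat_lit 5) (nat_lit 282) (nat_lit 259) (nat_lit 179)) (XT.lf (nat_lit 0) (nat_lit 29037949892) (nat_lit 152) (nat_lit 6106038001) (nat_lit 228) (nat_lit 19609273749) (nat_lit 16) (nat_lit 5) (nat_lit 18) (nat_lit 5) (nat_lit 19) (nat_lit 5) (nat_lit 283) (nat_lit 259) (nat_lit 178)))) (XT.nd (nat_lit 78) (nat_lit 152) (nat_lit 0) (XT.lf (nat_lit 0) (nat_lit 45563968951) (nat_lit 228) (nat_lit 3603774726) (nat_lit 76) (nat_lit 8729641890) (nat_lit 16) (nat_lit 5) (nat_lit 19) (nat_lit 5) (nat_lit 17) (nat_lit 4) (nat_lit 284) (nat_lit 259) (nat_lit 177)) (XT.nd (nat_lit 78) (nat_lit 76) (nat_lit 0) (XT.lf (nat_lit 0) (nat_lit 21170477973) (nat_lit 76) (nat_lit 36310565231) (nat_lit 152) (nat_lit 3758928733) (nat_lit 15) (nat_lit 5) (nat_lit 16) (nat_lit 5) (nat_lit 17) (nat_lit 4) (nat_lit 285) (nat_lit 259) (nat_lit 176)) (XT.lf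 (nat_lit 0) (nat_lit 5323191099) (nat_lit 152) (nat_lit 16852038699) (nat_lit 76) (nat_lit 42656410377) (nat_lit 14) (nat_lit 5) (nat_lit 16) (nat_lit 5) (nat_lit 15) (nat_lit 5) (nat_lit 286) (nat_lit 259) (nat_lit 175))))) (XT.nd (nat_lit 234) (nat_lit 228) (nat_lit 0) (XT.nd (nat_lit 78) (nat_lit 0) (nat_lit 0) (XT.lf (nat_lit 0) (nat_lit 8546499783) (nat_lit 152) (nat_lit 6583944695) (nat_lit 228) (nat_lit 53556264745) (nat_lit 12) (nat_lit 5) (nat_lit 14) (nat_lit 5) (nat_lit 15) (nat_lit 5) (nat_lit 287) (nat_lit 259) (nat_lit 174)) (XT.nd (nat_lit 78) (nat_lit 0) (nat_lit 0) (XT.lf (nat_lit 0) (nat_lit 26437823393) (nat_lit 228) (nat_lit 36142909473) (nat_lit 76) (nat_lit 10212216209) (nat_lit 12) (nat_lit 5) (nat_lit 15) (nat_lit 5) (nat_lit 13) (nat_lit 4) (nat_lit 288) (nat_lit 259) (nat_lit 173)) (XT.lf (nat_lit 0) (nat_lit 38817274849) (nat_lit 228) (nat_lit 10402676166)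 (nat_lit 76) (nat_lit 27994346761) (nat_lit 12) (nat_lit 5) (nat_lit 15) (nat_lit 5) (nat_lit 13) (nat_lit 4) (nat_lit 289) (nat_lit 259) (nat_lit 172)))) (XT.nd (nat_lit 156) (nat_lit 152) (nat_lit 0) (XT.nd (nat_lit 78) (nat_lit 0) (nat_lit 0) (XT.lf (nat_lit 0) (nat_lit 18307167907) (nat_lit 76) (nat_lit 34316934453) (nat_lit 152) (nat_lit 29330298049) (nat_lit 11) (nat_lit 5) (nat_lit 12) (nat_lit 5) (nat_lit 13) (nat_lit 4) (nat_lit 290) (nat_lit 259) (nat_lit 171)) (XT.lf (nat_lit 0) (nat_lit 49900139213) (nat_lit 76) (nat_lit 17916611901) (nat_lit 152) (nat_lit 19234465201) (nat_lit 11) (nat_lit 5) (nat_lit 12) (nat_lit 5) (nat_lit 13) (nat_lit 4) (nat_lit 291) (nat_lit 259) (nat_lit 170))) (XT.nd (nat_lit 78) (nat_lit 152) (nat_lit 0) (XT.lf (nat_lit 0) (nat_lit 84015668867) (nat_lit 76) (nat_lit 206223864) (nat_lit 152) (nat_lit 8334124827) (nat_lit 11) (nat_lit 5) (nat_lit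 12) (nat_lit 5) (nat_lit 13) (nat_lit 4) (nat_lit 292) (nat_lit 259) (nat_lit 169)) (XT.lf (nat_lit 0) (nat_lit 4299112220) (nat_lit 152) (nat_lit 75476830091) (nat_lit 76) (nat_lit 18636021871) (nat_lit 9) (nat_lit 5) (nat_lit 11) (nat_lit 5) (nat_lit 10) (nat_lit 4) (nat_lit 293) (nat_lit 259) (nat_lit 168)))))) (XT.nd (nat_lit 546) (nat_lit 152) (nat_lit 0) (XT.nd (nat_lit 234) (nat_lit 76) (nat_lit 0) (XT.nd (nat_lit 78) (nat_lit 76) (nat_lit 0) (XT.lf (nat_lit 0) (nat_lit 17734951546) (nat_lit 152) (nat_lit 47535972029) (nat_lit 76) (nat_lit 39428774289) (nat_lit 9) (nat_lit 5) (nat_lit 11) (nat_lit 5) (nat_lit 10) (nat_lit 4) (nat_lit 294) (nat_lit 259) (nat_lit 167)) (XT.nd (nat_lit 78) (nat_lit 76) (nat_lit 0) (XT.lf (nat_lit 0) (nat_lit 32243132689) (nat_lit 152) (nat_lit 17364221675) (nat_lit 76) (nat_lit 61883302712) (nat_lit 9) (nat_lit 5) (nat_lit 11) (nat_lit 5) (nat_lit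 10) (nat_lit 4) (nat_lit 295) (nat_lit 259) (nat_lit 166)) (XT.lf (nat_lit 0) (nat_lit 16018528180) (nat_lit 76) (nat_lit 32276347861) (nat_lit 152) (nat_lit 70499388819) (nat_lit 8) (nat_lit 5) (nat_lit 9) (nat_lit 5) (nat_lit 10) (nat_lit 4) (nat_lit 296) (nat_lit 259) (nat_lit 165)))) (XT.nd (nat_lit 156) (nat_lit 76) (nat_lit 0) (XT.nd (nat_lit 78) (nat_lit 0) (nat_lit 0) (XT.lf (nat_lit 0) (nat_lit 53055467105) (nat_lit 76) (nat_lit 13047800298) (nat_lit 152) (nat_lit 60541097302) (nat_lit 8) (nat_lit 5) (nat_lit 9) (nat_lit 5) (nat_lit 10) (nat_lit 4) (nat_lit 297) (nat_lit 259) (nat_lit 164)) (XT.lf (nat_lit 0) (nat_lit 85519842694) (nat_lit 152) (nat_lit 42256544912) (nat_lit 0) (nat_lit 7331407740) (nat_lit 8) (nat_lit 5) (nat_lit 10) (nat_lit 4) (nat_lit 8) (nat_lit 4) (nat_lit 298) (nat_lit 259) (nat_lit 163))) (XT.nd (nat_lit 78) (nat_lit 76) (nat_lit 0) (XT.lf (nat_lit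 0) (nat_lit 106826675445) (nat_lit 152) (nat_lit 8760017759) (nat_lit 0) (nat_lit 28634656252) (nat_lit 8) (nat_lit 5) (nat_lit 10) (nat_lit 4) (nat_lit 8) (nat_lit 4) (nat_lit 299) (nat_lit 259) (nat_lit 162)) (XT.lf (nat_lit 0) (nat_lit 28856500742) (nat_lit 76) (nat_lit 101673727252) (nat_lit 76) (nat_lit 23478389320) (nat_lit 7) (nat_lit 4) (nat_lit 8) (nat_lit 5) (nat_lit 8) (nat_lit 4) (nat_lit 300) (nat_lit 259) (nat_lit 161))))) (XT.nd (nat_lit 234) (nat_lit 76) (nat_lit 0) (XT.nd (nat_lit 78) (nat_lit 76) (nat_lit 0) (XT.lf (nat_lit 0) (nat_lit 69977363113) (nat_lit 76) (nat_lit 86390448792) (nat_lit 76) (nat_lit 8192037953) (nat_lit 7) (nat_lit 4) (nat_lit 8) (nat_lit 5) (nat_lit 8) (nat_lit 4) (nat_lit 301) (nat_lit 259) (nat_lit 160)) (XT.nd (nat_lit 78) (nat_lit 0) (nat_lit 0) (XT.lf (nat_lit 0) (nat_lit 7899478904) (nat_lit 152) (nat_lit 61770340002) (nat_lit 76) (nat_lit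 106269496869) (nat_lit 6) (nat_lit 5) (nat_lit 8) (nat_lit 5) (nat_lit 7) (nat_lit 4) (nat_lit 302) (nat_lit 259) (nat_lit 159)) (XT.lf (nat_lit 0) (nat_lit 24834177324) (nat_lit 152) (nat_lit 26548801810) (nat_lit 76) (nat_lit 136829264376) (nat_lit 6) (nat_lit 5) (nat_lit 8) (nat_lit 5) (nat_lit 7) (nat_lit 4) (nat_lit 303) (nat_lit 259) (nat_lit 158)))) (XT.nd (nat_lit 156) (nat_lit 0) (nat_lit 0) (XT.nd (nat_lit 78) (nat_lit 0) (nat_lit 0) (XT.lf (nat_lit 0) (nat_lit 12092797472) (nat_lit 76) (nat_lit 31320244590) (nat_lit 152) (nat_lit 158030814393) (nat_lit 5) (nat_lit 5) (nat_lit 6) (nat_lit 5) (nat_lit 7) (nat_lit 4) (nat_lit 304) (nat_lit 259) (nat_lit 157)) (XT.lf (nat_lit 0) (nat_lit 55333051547) (nat_lit 76) (nat_lit 8869660108) (nat_lit 152) (nat_lit 151473329190) (nat_lit 5) (nat_lit 5) (nat_lit 6) (nat_lit 5) (nat_lit 7) (nat_lit 4) (nat_lit 305) (nat_lit 259) (nat_lit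 156))) (XT.nd (nat_lit 78) (nat_lit 0) (nat_lit 0) (XT.lf (nat_lit 0) (nat_lit 87024053910) (nat_lit 152) (nat_lit 129386510502) (nat_lit 0) (nat_lit 14606757554) (nat_lit 5) (nat_lit 5) (nat_lit 7) (nat_lit 4) (nat_lit 5) (nat_lit 4) (nat_lit 306) (nat_lit 259) (nat_lit 155)) (XT.lf (nat_lit 0) (nat_lit 111900264485) (nat_lit 152) (nat_lit 96186134870) (nat_lit 0) (nat_lit 39481175117) (nat_lit 5) (nat_lit 5) (nat_lit 7) (nat_lit 4) (nat_lit 5) (nat_lit 4) (nat_lit 307) (nat_lit 259) (nat_lit 154))))))))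
noncomputable def xc84 : XT := (XT.nd (nat_lit 2028) (nat_lit 0) (nat_lit 0) (XT.nd (nat_lit 1014) (nat_lit 0) (nat_lit 0) (XT.nd (nat_lit 468) (nat_lit 152) (nat_lit 0) (XT.nd (nat_lit 234) (nat_lit 0) (nat_lit 0) (XT.nd (nat_lit 78) (nat_lit 76) (nat_lit 0) (XT.lf (nat_lit 0) (nat_lit 138765442422) (nat_lit 152) (nat_lit 60331803894) (nat_lit 0) (nat_lit 66344692858) (nat_lit 5) (nat_lit 5) (nat_lit 7) (nat_lit 4) (nat_lit 5) (nat_lit 4) (nat_lit 308) (nat_lit 259) (nat_lit 153)) (XT.nd (nat_lit 78) (nat_lit 76) (nat_lit 0) (XT.lf (nat_lit 0) (nat_lit 167778788774) (nat_lit 152) (nat_lit 21611047466) (nat_lit 0) (nat_lit 95356501992) (nat_lit 5) (nat_lit 5) (nat_lit 7) (nat_lit 4) (nat_lit 5) (nat_lit 4) (nat_lit 309) (nat_lit 259) (nat_lit 152)) (XT.lf (nat_lit 0) (nat_lit 21269581350) (nat_lit 76) (nat_lit 178354187077) (nat_lit 76) (nat_lit 105930476945) (nat_lit 4) (nat_lit 4)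 (nat_lit 5) (nat_lit 5) (nat_lit 5) (nat_lit 4) (nat_lit 310) (nat_lit 259) (nat_lit 151)))) (XT.nd (nat_lit 78) (nat_lit 0) (nat_lit 0) (XT.lf (nat_lit 0) (nat_lit 68807966193) (nat_lit 76) (nat_lit 165798326279) (nat_lit 76) (nat_lit 93373298229) (nat_lit 4) (nat_lit 4) (nat_lit 5) (nat_lit 5) (nat_lit 5) (nat_lit 4) (nat_lit 311) (nat_lit 259) (nat_lit 150)) (XT.nd (nat_lit 78) (nat_lit 0) (nat_lit 0) (XT.lf (nat_lit 0) (nat_lit 120147816550) (nat_lit 76) (nat_lit 152238733079) (nat_lit 76) (nat_lit 79812484735) (nat_lit 4) (nat_lit 4) (nat_lit 5) (nat_lit 5) (nat_lit 5) (nat_lit 4) (nat_lit 312) (nat_lit 259) (nat_lit 149)) (XT.lf (nat_lit 0) (nat_lit 175593368569) (nat_lit 76) (nat_lit 137595054333) (nat_lit 76) (nat_lit 65167676088) (nat_lit 4) (nat_lit 4) (nat_lit 5) (nat_lit 5) (nat_lit 5) (nat_lit 4) (nat_lit 313) (nat_lit 259) (nat_lit 148))))) (XT.nd (nat_lit 234) (nat_lit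 152) (nat_lit 0) (XT.nd (nat_lit 78) (nat_lit 0) (nat_lit 0) (XT.lf (nat_lit 0) (nat_lit 235473188487) (nat_lit 76) (nat_lit 121780512686) (nat_lit 76) (nat_lit 49352088236) (nat_lit 4) (nat_lit 4) (nat_lit 5) (nat_lit 5) (nat_lit 5) (nat_lit 4) (nat_lit 314) (nat_lit 259) (nat_lit 147)) (XT.nd (nat_lit 78) (nat_lit 0) (nat_lit 0) (XT.lf (nat_lit 0) (nat_lit 300142119679) (nat_lit 76) (nat_lit 104701392335) (nat_lit 76) (nat_lit 32271999177) (nat_lit 4) (nat_lit 4) (nat_lit 5) (nat_lit 5) (nat_lit 5) (nat_lit 4) (nat_lit 315) (nat_lit 259) (nat_lit 146)) (XT.lf (nat_lit 0) (nat_lit 369983385441) (nat_lit 76) (nat_lit 86256483679) (nat_lit 76) (nat_lit 13826193568) (nat_lit 4) (nat_lit 4) (nat_lit 5) (nat_lit 5) (nat_lit 5) (nat_lit 4) (nat_lit 316) (nat_lit 259) (nat_lit 145)))) (XT.nd (nat_lit 156) (nat_lit 76) (nat_lit 0) (XT.nd (nat_lit 78) (nat_lit 0) (nat_lit 0) (XT.lf (nat_lit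 0) (nat_lit 5789758638) (nat_lit 152) (nat_lit 60388422654) (nat_lit 76) (nat_lit 439462799042) (nat_lit 3) (nat_lit 5) (nat_lit 5) (nat_lit 5) (nat_lit 4) (nat_lit 4) (nat_lit 317) (nat_lit 259) (nat_lit 144)) (XT.lf (nat_lit 0) (nat_lit 26227451006) (nat_lit 152) (nat_lit 17878791519) (nat_lit 76) (nat_lit 499926964811) (nat_lit 3) (nat_lit 5) (nat_lit 5) (nat_lit 5) (nat_lit 4) (nat_lit 4) (nat_lit 318) (nat_lit 259) (nat_lit 143))) (XT.nd (nat_lit 78) (nat_lit 0) (nat_lit 0) (XT.lf (nat_lit 0) (nat_lit 29506689481) (nat_lit 76) (nat_lit 19502585097) (nat_lit 152) (nat_lit 536430809306) (nat_lit 2) (nat_lit 5) (nat_lit 3) (nat_lit 5) (nat_lit 4) (nat_lit 4) (nat_lit 319) (nat_lit 259) (nat_lit 142)) (XT.lf (nat_lit 0) (nat_lit 74284682075) (nat_lit 152) (nat_lit 548604298160) (nat_lit 0) (nat_lit 7216847880) (nat_lit 2) (nat_lit 5) (nat_lit 4) (nat_lit 4) (nat_lit 2) (nat_lit 4)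 (nat_lit 320) (nat_lit 259) (nat_lit 141)))))) (XT.nd (nat_lit 468) (nat_lit 0) (nat_lit 0) (XT.nd (nat_lit 234) (nat_lit 0) (nat_lit 0) (XT.nd (nat_lit 78) (nat_lit 0) (nat_lit 0) (XT.lf (nat_lit 0) (nat_lit 102088205702) (nat_lit 152) (nat_lit 541196333780) (nat_lit 0) (nat_lit 35019806276) (nat_lit 2) (nat_lit 5) (nat_lit 4) (nat_lit 4) (nat_lit 2) (nat_lit 4) (nat_lit 321) (nat_lit 259) (nat_lit 140)) (XT.nd (nat_lit 78) (nat_lit 0) (nat_lit 0) (XT.lf (nat_lit 0) (nat_lit 132115569442) (nat_lit 152) (nat_lit 533196564577) (nat_lit 0) (nat_lit 65046646653) (nat_lit 2) (nat_lit 5) (nat_lit 4) (nat_lit 4) (nat_lit 2) (nat_lit 4) (nat_lit 322) (nat_lit 259) (nat_lit 139)) (XT.lf (nat_lit 0) (nat_lit 164544713228) (nat_lit 152) (nat_lit 524557584510) (nat_lit 0) (nat_lit 97475305843) (nat_lit 2) (nat_lit 5) (nat_lit 4) (nat_lit 4) (nat_lit 2) (nat_lit 4) (nat_lit 323) (nat_lit 259) (nat_lit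 138)))) (XT.nd (nat_lit 78) (nat_lit 0) (nat_lit 0) (XT.lf (nat_lit 0) (nat_lit 199567809763) (nat_lit 152) (nat_lit 515228199623) (nat_lit 0) (nat_lit 132497953678) (nat_lit 2) (nat_lit 5) (nat_lit 4) (nat_lit 4) (nat_lit 2) (nat_lit 4) (nat_lit 324) (nat_lit 259) (nat_lit 137)) (XT.nd (nat_lit 78) (nat_lit 0) (nat_lit 0) (XT.lf (nat_lit 0) (nat_lit 237392403323) (nat_lit 152) (nat_lit 505153124672) (nat_lit 0) (nat_lit 170322131776) (nat_lit 2) (nat_lit 5) (nat_lit 4) (nat_lit 4) (nat_lit 2) (nat_lit 4) (nat_lit 325) (nat_lit 259) (nat_lit 136)) (XT.lf (nat_lit 0) (nat_lit 278242639649) (nat_lit 152) (nat_lit 494272655511) (nat_lit 0) (nat_lit 211171983414) (nat_lit 2) (nat_lit 5) (nat_lit 4) (nat_lit 4) (nat_lit 2) (nat_lit 4) (nat_lit 326) (nat_lit 259) (nat_lit 135))))) (XT.nd (nat_lit 234) (nat_lit 0) (nat_lit 0) (XT.nd (nat_lit 78) (nat_lit 0) (nat_lit 0) (XT.lf (nat_lit 0) (nat_lit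 322360594214) (nat_lit 152) (nat_lit 482522315284) (nat_lit 0) (nat_lit 255289581787) (nat_lit 2) (nat_lit 5) (nat_lit 4) (nat_lit 4) (nat_lit 2) (nat_lit 4) (nat_lit 327) (nat_lit 259) (nat_lit 134)) (XT.nd (nat_lit 78) (nat_lit 0) (nat_lit 0) (XT.lf (nat_lit 0) (nat_lit 370007706749) (nat_lit 152) (nat_lit 469832472345) (nat_lit 0) (nat_lit 302936364515) (nat_lit 2) (nat_lit 5) (nat_lit 4) (nat_lit 4) (nat_lit 2) (nat_lit 4) (nat_lit 328) (nat_lit 259) (nat_lit 133)) (XT.lf (nat_lit 0) (nat_lit 421466330514) (nat_lit 152) (nat_lit 456127927625) (nat_lit 0) (nat_lit 354394682902) (nat_lit 2) (nat_lit 5) (nat_lit 4) (nat_lit 4) (nat_lit 2) (nat_lit 4) (nat_lit 329) (nat_lit 259) (nat_lit 132)))) (XT.nd (nat_lit 156) (nat_lit 0) (nat_lit 0) (XT.nd (nat_lit 78) (nat_lit 0) (nat_lit 0) (XT.lf (nat_lit 0) (nat_lit 477041405501) (nat_lit 152) (nat_lit 441327469009) (nat_lit 0) (nat_lit 409969475133)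 (nat_lit 2) (nat_lit 5) (nat_lit 4) (nat_lit 4) (nat_lit 2) (nat_lit 4) (nat_lit 330) (nat_lit 259) (nat_lit 131)) (XT.lf (nat_lit 0) (nat_lit 537062265488) (nat_lit 152) (nat_lit 425343390073) (nat_lit 0) (nat_lit 469990073308) (nat_lit 2) (nat_lit 5) (nat_lit 4) (nat_lit 4) (nat_lit 2) (nat_lit 4) (nat_lit 331) (nat_lit 259) (nat_lit 130))) (XT.nd (nat_lit 78) (nat_lit 0) (nat_lit 0) (XT.lf (nat_lit 0) (nat_lit 601884589646) (nat_lit 152) (nat_lit 408080970350) (nat_lit 0) (nat_lit 534812155048) (nat_lit 2) (nat_lit 5) (nat_lit 4) (nat_lit 4) (nat_lit 2) (nat_lit 4) (nat_lit 332) (nat_lit 259) (nat_lit 129)) (XT.lf (nat_lit 0) (nat_lit 671892510265) (nat_lit 152) (nat_lit 389437914020) (nat_lit 0) (nat_lit 604819851206) (nat_lit 2) (nat_lit 5) (nat_lit 4) (nat_lit 4) (nat_lit 2) (nat_lit 4) (nat_lit 333) (nat_lit 259) (nat_lit 128))))))) (XT.nd (nat_lit 32292) (nat_lit 0) (nat_lit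 1368) (XT.nd (nat_lit 31746) (nat_lit 0) (nat_lit 2660) (XT.nd (nat_lit 234) (nat_lit 0) (nat_lit 0) (XT.nd (nat_lit 78) (nat_lit 0) (nat_lit 0) (XT.lf (nat_lit 0) (nat_lit 747500889098) (nat_lit 152) (nat_lit 369303743712) (nat_lit 0) (nat_lit 680428022204) (nat_lit 2) (nat_lit 5) (nat_lit 4) (nat_lit 4) (nat_lit 2) (nat_lit 4) (nat_lit 334) (nat_lit 259) (nat_lit 127)) (XT.nd (nat_lit 78) (nat_lit 0) (nat_lit 0) (XT.lf (nat_lit 0) (nat_lit 829157775797) (nat_lit 152) (nat_lit 347559145824) (nat_lit 0) (nat_lit 762084716463) (nat_lit 2) (nat_lit 5) (nat_lit 4) (nat_lit 4) (nat_lit 2) (nat_lit 4) (nat_lit 335) (nat_lit 259) (nat_lit 126)) (XT.lf (nat_lit 0) (nat_lit 917347063023) (nat_lit 152) (nat_lit 324075263480) (nat_lit 0) (nat_lit 850273825505) (nat_lit 2) (nat_lit 5) (nat_lit 4) (nat_lit 4) (nat_lit 2) (nat_lit 4) (nat_lit 336) (nat_lit 259) (nat_lit 125)))) (XT.nd (nat_lit 78)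 (nat_lit 0) (nat_lit 0) (XT.lf (nat_lit 0) (nat_lit 1012591353961) (nat_lit 152) (nat_lit 298712932932) (nat_lit 0) (nat_lit 945517951457) (nat_lit 2) (nat_lit 5) (nat_lit 4) (nat_lit 4) (nat_lit 2) (nat_lit 4) (nat_lit 337) (nat_lit 259) (nat_lit 124)) (XT.nd (nat_lit 78) (nat_lit 0) (nat_lit 0) (XT.lf (nat_lit 0) (nat_lit 1115455059223) (nat_lit 152) (nat_lit 271321858888) (nat_lit 0) (nat_lit 1048381503954) (nat_lit 2) (nat_lit 5) (nat_lit 4) (nat_lit 4) (nat_lit 2) (nat_lit 4) (nat_lit 338) (nat_lit 259) (nat_lit 123)) (XT.lf (nat_lit 0) (nat_lit 1226547741507) (nat_lit 152) (nat_lit 241739723873) (nat_lit 0) (nat_lit 1159474044789) (nat_lit 2) (nat_lit 5) (nat_lit 4) (nat_lit 4) (nat_lit 2) (nat_lit 4) (nat_lit 339) (nat_lit 259) (nat_lit 122))))) (XT.nd (nat_lit 234) (nat_lit 0) (nat_lit 76) (XT.nd (nat_lit 78) (nat_lit 0) (nat_lit 0) (XT.lf (nat_lit 0) (nat_lit 3361301756) (nat_lit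 532) (nat_lit 3125410397) (nat_lit 532) (nat_lit 3125410397) (nat_lit 37) (nat_lit 3) (nat_lit 44) (nat_lit 3) (nat_lit 44) (nat_lit 5) (nat_lit 260) (nat_lit 260) (nat_lit 200)) (XT.nd (nat_lit 78) (nat_lit 0) (nat_lit 76) (XT.lf (nat_lit 76) (nat_lit 2207740001) (nat_lit 0) (nat_lit 4997569585) (nat_lit 532) (nat_lit 12770033720) (nat_lit 38) (nat_lit 5) (nat_lit 37) (nat_lit 3) (nat_lit 44) (nat_lit 5) (nat_lit 261) (nat_lit 260) (nat_lit 199)) (XT.lf (nat_lit 0) (nat_lit 7972825371) (nat_lit 456) (nat_lit 9176525692) (nat_lit 532) (nat_lit 3617559627) (nat_lit 38) (nat_lit 5) (nat_lit 44) (nat_lit 5) (nat_lit 45) (nat_lit 5) (nat_lit 262) (nat_lit 260) (nat_lit 198)))) (XT.nd (nat_lit 156) (nat_lit 0) (nat_lit 76) (XT.nd (nat_lit 78) (nat_lit 0) (nat_lit 76) (XT.lf (nat_lit 0) (nat_lit 8916616214) (nat_lit 456) (nat_lit 37905736) (nat_lit 532) (nat_lit 12658162703) (nat_lit 38)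 (nat_lit 5) (nat_lit 44) (nat_lit 5) (nat_lit 45) (nat_lit 5) (nat_lit 263) (nat_lit 260) (nat_lit 197)) (XT.lf (nat_lit 0) (nat_lit 10174823325) (nat_lit 456) (nat_lit 12171621315) (nat_lit 532) (nat_lit 160628683) (nat_lit 39) (nat_lit 5) (nat_lit 45) (nat_lit 5) (nat_lit 46) (nat_lit 5) (nat_lit 264) (nat_lit 260) (nat_lit 196))) (XT.nd (nat_lit 78) (nat_lit 0) (nat_lit 0) (XT.lf (nat_lit 0) (nat_lit 11754414243) (nat_lit 456) (nat_lit 2174875691) (nat_lit 532) (nat_lit 9526125925) (nat_lit 39) (nat_lit 5) (nat_lit 45) (nat_lit 5) (nat_lit 46) (nat_lit 5) (nat_lit 265) (nat_lit 260) (nat_lit 195)) (XT.lf (nat_lit 76) (nat_lit 9065697957) (nat_lit 0) (nat_lit 4600740770) (nat_lit 532) (nat_lit 10796758203) (nat_lit 40) (nat_lit 5) (nat_lit 39) (nat_lit 5) (nat_lit 46) (nat_lit 5) (nat_lit 266) (nat_lit 260) (nat_lit 194)))))) (XT.nd (nat_lit 546) (nat_lit 608) (nat_lit 0) (XT.nd (nat_lit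 234) (nat_lit 456) (nat_lit 0) (XT.nd (nat_lit 78) (nat_lit 456) (nat_lit 0) (XT.lf (nat_lit 0) (nat_lit 15912839332) (nat_lit 456) (nat_lit 4361018663) (nat_lit 76) (nat_lit 5263281615) (nat_lit 40) (nat_lit 5) (nat_lit 46) (nat_lit 5) (nat_lit 41) (nat_lit 5) (nat_lit 267) (nat_lit 260) (nat_lit 193)) (XT.nd (nat_lit 78) (nat_lit 0) (nat_lit 0) (XT.lf (nat_lit 0) (nat_lit 7820672991) (nat_lit 456) (nat_lit 10815451877) (nat_lit 532) (nat_lit 8037147391) (nat_lit 34) (nat_lit 5) (nat_lit 40) (nat_lit 5) (nat_lit 41) (nat_lit 5) (nat_lit 268) (nat_lit 260) (nat_lit 192)) (XT.lf (nat_lit 0) (nat_lit 21215724628) (nat_lit 456) (nat_lit 470922747) (nat_lit 532) (nat_lit 6204943017) (nat_lit 34) (nat_lit 5) (nat_lit 40) (nat_lit 5) (nat_lit 41) (nat_lit 5) (nat_lit 269) (nat_lit 260) (nat_lit 191)))) (XT.nd (nat_lit 156) (nat_lit 228) (nat_lit 0) (XT.nd (nat_lit 78) (nat_lit 0) (nat_lit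 0) (XT.lf (nat_lit 0) (nat_lit 6535266855) (nat_lit 228) (nat_lit 18851363318) (nat_lit 304) (nat_lit 3788351805) (nat_lit 31) (nat_lit 5) (nat_lit 34) (nat_lit 5) (nat_lit 35) (nat_lit 5) (nat_lit 270) (nat_lit 260) (nat_lit 190)) (XT.lf (nat_lit 0) (nat_lit 21161015268) (nat_lit 228) (nat_lit 8407387722) (nat_lit 304) (nat_lit 977817000) (nat_lit 31) (nat_lit 5) (nat_lit 34) (nat_lit 5) (nat_lit 35) (nat_lit 5) (nat_lit 271) (nat_lit 260) (nat_lit 189))) (XT.nd (nat_lit 78) (nat_lit 0) (nat_lit 0) (XT.lf (nat_lit 0) (nat_lit 2143244897) (nat_lit 228) (nat_lit 26959735238) (nat_lit 76) (nat_lit 2905162143) (nat_lit 28) (nat_lit 5) (nat_lit 31) (nat_lit 5) (nat_lit 29) (nat_lit 5) (nat_lit 272) (nat_lit 260) (nat_lit 188)) (XT.lf (nat_lit 0) (nat_lit 5934935584) (nat_lit 228) (nat_lit 12655747945) (nat_lit 76) (nat_lit 14956431772) (nat_lit 28) (nat_lit 5) (nat_lit 31) (nat_lit 5) (nat_lit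 29) (nat_lit 5) (nat_lit 273) (nat_lit 260) (nat_lit 187))))) (XT.nd (nat_lit 234) (nat_lit 228) (nat_lit 0) (XT.nd (nat_lit 78) (nat_lit 152) (nat_lit 0) (XT.lf (nat_lit 0) (nat_lit 2930570089) (nat_lit 228) (nat_lit 7162579470) (nat_lit 304) (nat_lit 25111029799) (nat_lit 25) (nat_lit 5) (nat_lit 28) (nat_lit 5) (nat_lit 29) (nat_lit 5) (nat_lit 274) (nat_lit 260) (nat_lit 186)) (XT.nd (nat_lit 78) (nat_lit 152) (nat_lit 0) (XT.lf (nat_lit 0) (nat_lit 15056625257) (nat_lit 304) (nat_lit 16625068571) (nat_lit 76) (nat_lit 5274332484) (nat_lit 25) (nat_lit 5) (nat_lit 29) (nat_lit 5) (nat_lit 26) (nat_lit 5) (nat_lit 275) (nat_lit 260) (nat_lit 185)) (XT.lf (nat_lit 0) (nat_lit 85325096) (nat_lit 152) (nat_lit 20513477155) (nat_lit 228) (nat_lit 18234713117) (nat_lit 23) (nat_lit 5) (nat_lit 25) (nat_lit 5) (nat_lit 26) (nat_lit 5) (nat_lit 276) (nat_lit 260) (nat_lit 184)))) (XT.nd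 (nat_lit 156) (nat_lit 228) (nat_lit 0) (XT.nd (nat_lit 78) (nat_lit 0) (nat_lit 0) (XT.lf (nat_lit 0) (nat_lit 19069984124) (nat_lit 152) (nat_lit 7962743946) (nat_lit 228) (nat_lit 13792627917) (nat_lit 23) (nat_lit 5) (nat_lit 25) (nat_lit 5) (nat_lit 26) (nat_lit 5) (nat_lit 277) (nat_lit 260) (nat_lit 183)) (XT.lf (nat_lit 0) (nat_lit 34110089239) (nat_lit 228) (nat_lit 3545506520) (nat_lit 76) (nat_lit 5310671144) (nat_lit 23) (nat_lit 5) (nat_lit 26) (nat_lit 5) (nat_lit 24) (nat_lit 5) (nat_lit 278) (nat_lit 260) (nat_lit 182))) (XT.nd (nat_lit 78) (nat_lit 76) (nat_lit 0) (XT.lf (nat_lit 0) (nat_lit 16744653692) (nat_lit 152) (nat_lit 25613179079) (nat_lit 228) (nat_lit 2872301660) (nat_lit 21) (nat_lit 5) (nat_lit 23) (nat_lit 5) (nat_lit 24) (nat_lit 5) (nat_lit 279) (nat_lit 260) (nat_lit 181)) (XT.lf (nat_lit 0) (nat_lit 3504876404) (nat_lit 228) (nat_lit 8903971719) (nat_lit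 76) (nat_lit 35251836593) (nat_lit 20) (nat_lit 5) (nat_lit 23) (nat_lit 5) (nat_lit 21) (nat_lit 5) (nat_lit 280) (nat_lit 260) (nat_lit 180))))))))
noncomputable def xc85 : XT := (XT.nd (nat_lit 2028) (nat_lit 228) (nat_lit 0) (XT.nd (nat_lit 1014) (nat_lit 456) (nat_lit 0) (XT.nd (nat_lit 468) (nat_lit 304) (nat_lit 0) (XT.nd (nat_lit 234) (nat_lit 76) (nat_lit 0) (XT.nd (nat_lit 78) (nat_lit 152) (nat_lit 0) (XT.lf (nat_lit 0) (nat_lit 10594511937) (nat_lit 228) (nat_lit 37506858838) (nat_lit 76) (nat_lit 2149758114) (nat_lit 18) (nat_lit 5) (nat_lit 21) (nat_lit 5) (nat_lit 19) (nat_lit 5) (nat_lit 281) (nat_lit 260) (nat_lit 179)) (XT.nd (nat_lit 78) (nat_lit 152) (nat_lit 0) (XT.lf (nat_lit 0) (nat_lit 18818675823) (nat_lit 228) (nat_lit 16734246529) (nat_lit 76) (nat_lit 17450511764) (nat_lit 18) (nat_lit 5) (nat_lit 21) (nat_lit 5) (nat_lit 19) (nat_lit 5) (nat_lit 282) (nat_lit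 260) (nat_lit 178)) (XT.lf (nat_lit 0) (nat_lit 5993483099) (nat_lit 152) (nat_lit 21847059074) (nat_lit 228) (nat_lit 28124213119) (nat_lit 16) (nat_lit 5) (nat_lit 18) (nat_lit 5) (nat_lit 19) (nat_lit 5) (nat_lit 283) (nat_lit 260) (nat_lit 177)))) (XT.nd (nat_lit 78) (nat_lit 76) (nat_lit 0) (XT.lf (nat_lit 0) (nat_lit 31484777374) (nat_lit 152) (nat_lit 6552721757) (nat_lit 228) (nat_lit 21089227835) (nat_lit 16) (nat_lit 5) (nat_lit 18) (nat_lit 5) (nat_lit 19) (nat_lit 5) (nat_lit 284) (nat_lit 260) (nat_lit 176)) (XT.nd (nat_lit 78) (nat_lit 76) (nat_lit 0) (XT.lf (nat_lit 0) (nat_lit 49285935987) (nat_lit 228) (nat_lit 3772093534) (nat_lit 76) (nat_lit 9464780198) (nat_lit 16) (nat_lit 5) (nat_lit 19) (nat_lit 5) (nat_lit 17) (nat_lit 4) (nat_lit 285) (nat_lit 260) (nat_lit 175)) (XT.lf (nat_lit 0) (nat_lit 22981061832) (nat_lit 76) (nat_lit 39172434336) (nat_lit 152) (nat_lit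 3979553434) (nat_lit 15) (nat_lit 5) (nat_lit 16) (nat_lit 5) (nat_lit 17) (nat_lit 4) (nat_lit 286) (nat_lit 260) (nat_lit 174))))) (XT.nd (nat_lit 234) (nat_lit 76) (nat_lit 0) (XT.nd (nat_lit 78) (nat_lit 152) (nat_lit 0) (XT.lf (nat_lit 0) (nat_lit 5819493786) (nat_lit 152) (nat_lit 18088035541) (nat_lit 76) (nat_lit 46104832634) (nat_lit 14) (nat_lit 5) (nat_lit 16) (nat_lit 5) (nat_lit 15) (nat_lit 5) (nat_lit 287) (nat_lit 260) (nat_lit 173)) (XT.nd (nat_lit 78) (nat_lit 0) (nat_lit 0) (XT.lf (nat_lit 0) (nat_lit 9339546368) (nat_lit 152) (nat_lit 7069192049) (nat_lit 228) (nat_lit 57767318099) (nat_lit 12) (nat_lit 5) (nat_lit 14) (nat_lit 5) (nat_lit 15) (nat_lit 5) (nat_lit 288) (nat_lit 260) (nat_lit 172)) (XT.lf (nat_lit 0) (nat_lit 28616604535) (nat_lit 228) (nat_lit 38928861921) (nat_lit 76) (nat_lit 11065669259) (nat_lit 12) (nat_lit 5) (nat_lit 15) (nat_lit 5) (nat_lit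 13) (nat_lit 4) (nat_lit 289) (nat_lit 260) (nat_lit 171)))) (XT.nd (nat_lit 156) (nat_lit 0) (nat_lit 0) (XT.nd (nat_lit 78) (nat_lit 76) (nat_lit 0) (XT.lf (nat_lit 0) (nat_lit 41981689495) (nat_lit 228) (nat_lit 11137223305) (nat_lit 76) (nat_lit 30267668348) (nat_lit 12) (nat_lit 5) (nat_lit 15) (nat_lit 5) (nat_lit 13) (nat_lit 4) (nat_lit 290) (nat_lit 260) (nat_lit 170)) (XT.lf (nat_lit 0) (nat_lit 19866935713) (nat_lit 76) (nat_lit 37024044132) (nat_lit 152) (nat_lit 31615089026) (nat_lit 11) (nat_lit 5) (nat_lit 12) (nat_lit 5) (nat_lit 13) (nat_lit 4) (nat_lit 291) (nat_lit 260) (nat_lit 169))) (XT.nd (nat_lit 78) (nat_lit 0) (nat_lit 0) (XT.lf (nat_lit 0) (nat_lit 53980293288) (nat_lit 76) (nat_lit 19314528745) (nat_lit 152) (nat_lit 20716154948) (nat_lit 11) (nat_lit 5) (nat_lit 12) (nat_lit 5) (nat_lit 13) (nat_lit 4) (nat_lit 292) (nat_lit 260) (nat_lit 168)) (XT.lf (nat_lit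 0) (nat_lit 90818536208) (nat_lit 76) (nat_lit 189932784) (nat_lit 152) (nat_lit 8948014564) (nat_lit 11) (nat_lit 5) (nat_lit 12) (nat_lit 5) (nat_lit 13) (nat_lit 4) (nat_lit 293) (nat_lit 260) (nat_lit 167)))))) (XT.nd (nat_lit 468) (nat_lit 228) (nat_lit 0) (XT.nd (nat_lit 234) (nat_lit 76) (nat_lit 0) (XT.nd (nat_lit 78) (nat_lit 0) (nat_lit 0) (XT.lf (nat_lit 0) (nat_lit 4692309419) (nat_lit 152) (nat_lit 81429595513) (nat_lit 76) (nat_lit 20158981118) (nat_lit 9) (nat_lit 5) (nat_lit 11) (nat_lit 5) (nat_lit 10) (nat_lit 4) (nat_lit 294) (nat_lit 260) (nat_lit 166)) (XT.nd (nat_lit 78) (nat_lit 0) (nat_lit 0) (XT.lf (nat_lit 0) (nat_lit 19199366393) (nat_lit 152) (nat_lit 51259793323) (nat_lit 76) (nat_lit 42612777619) (nat_lit 9) (nat_lit 5) (nat_lit 11) (nat_lit 5) (nat_lit 10) (nat_lit 4) (nat_lit 295) (nat_lit 260) (nat_lit 165)) (XT.lf (nat_lit 0) (nat_lit 34864822862) (nat_lit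 152) (nat_lit 18680158976) (nat_lit 76) (nat_lit 66861468213) (nat_lit 9) (nat_lit 5) (nat_lit 11) (nat_lit 5) (nat_lit 10) (nat_lit 4) (nat_lit 296) (nat_lit 260) (nat_lit 164)))) (XT.nd (nat_lit 78) (nat_lit 0) (nat_lit 0) (XT.lf (nat_lit 0) (nat_lit 17371357693) (nat_lit 76) (nat_lit 34827935037) (nat_lit 152) (nat_lit 76095172721) (nat_lit 8) (nat_lit 5) (nat_lit 9) (nat_lit 5) (nat_lit 10) (nat_lit 4) (nat_lit 297) (nat_lit 260) (nat_lit 163)) (XT.nd (nat_lit 78) (nat_lit 0) (nat_lit 0) (XT.lf (nat_lit 0) (nat_lit 57365966750) (nat_lit 76) (nat_lit 14063364458) (nat_lit 152) (nat_lit 65343489527) (nat_lit 8) (nat_lit 5) (nat_lit 9) (nat_lit 5) (nat_lit 10) (nat_lit 4) (nat_lit 298) (nat_lit 260) (nat_lit 162)) (XT.lf (nat_lit 0) (nat_lit 92397061649) (nat_lit 152) (nat_lit 45573665012) (nat_lit 0) (nat_lit 7942777943) (nat_lit 8) (nat_lit 5) (nat_lit 10) (nat_lit 4) (nat_lit 8)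 (nat_lit 4) (nat_lit 299) (nat_lit 260) (nat_lit 161))))) (XT.nd (nat_lit 234) (nat_lit 152) (nat_lit 0) (XT.nd (nat_lit 78) (nat_lit 76) (nat_lit 0) (XT.lf (nat_lit 0) (nat_lit 115405801646) (nat_lit 152) (nat_lit 9402112243) (nat_lit 0) (nat_lit 30948445034) (nat_lit 8) (nat_lit 5) (nat_lit 10) (nat_lit 4) (nat_lit 8) (nat_lit 4) (nat_lit 300) (nat_lit 260) (nat_lit 160)) (XT.nd (nat_lit 78) (nat_lit 0) (nat_lit 0) (XT.lf (nat_lit 0) (nat_lit 31222241487) (nat_lit 76) (nat_lit 109782329207) (nat_lit 76) (nat_lit 25322127311) (nat_lit 7) (nat_lit 4) (nat_lit 8) (nat_lit 5) (nat_lit 8) (nat_lit 4) (nat_lit 301) (nat_lit 260) (nat_lit 159)) (XT.lf (nat_lit 0) (nat_lit 75628534278) (nat_lit 76) (nat_lit 93278262265) (nat_lit 76) (nat_lit 8815425846) (nat_lit 7) (nat_lit 4) (nat_lit 8) (nat_lit 5) (nat_lit 8) (nat_lit 4) (nat_lit 302) (nat_lit 260) (nat_lit 158)))) (XT.nd (nat_lit 156)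 (nat_lit 76) (nat_lit 0) (XT.nd (nat_lit 78) (nat_lit 0) (nat_lit 0) (XT.lf (nat_lit 0) (nat_lit 8559562788) (nat_lit 152) (nat_lit 66661385192) (nat_lit 76) (nat_lit 114791219559) (nat_lit 6) (nat_lit 5) (nat_lit 8) (nat_lit 5) (nat_lit 7) (nat_lit 4) (nat_lit 303) (nat_lit 260) (nat_lit 157)) (XT.lf (nat_lit 0) (nat_lit 26846953706) (nat_lit 152) (nat_lit 28625870760) (nat_lit 76) (nat_lit 147794274915) (nat_lit 6) (nat_lit 5) (nat_lit 8) (nat_lit 5) (nat_lit 7) (nat_lit 4) (nat_lit 304) (nat_lit 260) (nat_lit 156))) (XT.nd (nat_lit 78) (nat_lit 0) (nat_lit 0) (XT.lf (nat_lit 0) (nat_lit 13105870763) (nat_lit 76) (nat_lit 33805425679) (nat_lit 152) (nat_lit 170646014394) (nat_lit 5) (nat_lit 5) (nat_lit 6) (nat_lit 5) (nat_lit 7) (nat_lit 4) (nat_lit 305) (nat_lit 260) (nat_lit 155)) (XT.lf (nat_lit 0) (nat_lit 59801963720) (nat_lit 76) (nat_lit 9560308400) (nat_lit 152) (nat_lit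 163565950015) (nat_lit 5) (nat_lit 5) (nat_lit 6) (nat_lit 5) (nat_lit 7) (nat_lit 4) (nat_lit 306) (nat_lit 260) (nat_lit 154))))))) (XT.nd (nat_lit 1014) (nat_lit 76) (nat_lit 0) (XT.nd (nat_lit 468) (nat_lit 76) (nat_lit 0) (XT.nd (nat_lit 234) (nat_lit 76) (nat_lit 0) (XT.nd (nat_lit 78) (nat_lit 0) (nat_lit 0) (XT.lf (nat_lit 0) (nat_lit 94008014027) (nat_lit 152) (nat_lit 139696954592) (nat_lit 0) (nat_lit 15791944302) (nat_lit 5) (nat_lit 5) (nat_lit 7) (nat_lit 4) (nat_lit 5) (nat_lit 4) (nat_lit 307) (nat_lit 260) (nat_lit 153)) (XT.nd (nat_lit 78) (nat_lit 0) (nat_lit 0) (XT.lf (nat_lit 0) (nat_lit 120872689166) (nat_lit 152) (nat_lit 103843547186) (nat_lit 0) (nat_lit 42655082223) (nat_lit 5) (nat_lit 5) (nat_lit 7) (nat_lit 4) (nat_lit 5) (nat_lit 4) (nat_lit 308) (nat_lit 260) (nat_lit 152)) (XT.lf (nat_lit 0) (nat_lit 149885569966) (nat_lit 152) (nat_lit 65123645915) (nat_lit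 0) (nat_lit 71666539672) (nat_lit 5) (nat_lit 5) (nat_lit 7) (nat_lit 4) (nat_lit 5) (nat_lit 4) (nat_lit 309) (nat_lit 260) (nat_lit 151)))) (XT.nd (nat_lit 78) (nat_lit 76) (nat_lit 0) (XT.lf (nat_lit 0) (nat_lit 181218584608) (nat_lit 152) (nat_lit 23307799513) (nat_lit 0) (nat_lit 102998236397) (nat_lit 5) (nat_lit 5) (nat_lit 7) (nat_lit 4) (nat_lit 5) (nat_lit 4) (nat_lit 310) (nat_lit 260) (nat_lit 150)) (XT.nd (nat_lit 78) (nat_lit 0) (nat_lit 0) (XT.lf (nat_lit 0) (nat_lit 23002466145) (nat_lit 76) (nat_lit 192608153935) (nat_lit 76) (nat_lit 114386585431) (nat_lit 4) (nat_lit 4) (nat_lit 5) (nat_lit 5) (nat_lit 5) (nat_lit 4) (nat_lit 311) (nat_lit 260) (nat_lit 149)) (XT.lf (nat_lit 0) (nat_lit 74341601903) (nat_lit 76) (nat_lit 179048888577) (nat_lit 76) (nat_lit 100826190171) (nat_lit 4) (nat_lit 4) (nat_lit 5) (nat_lit 5) (nat_lit 5) (nat_lit 4) (nat_lit 312) (nat_lit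 260) (nat_lit 148))))) (XT.nd (nat_lit 234) (nat_lit 76) (nat_lit 0) (XT.nd (nat_lit 78) (nat_lit 0) (nat_lit 0) (XT.lf (nat_lit 0) (nat_lit 129786492258) (nat_lit 76) (nat_lit 164405513388) (nat_lit 76) (nat_lit 86181768777) (nat_lit 4) (nat_lit 4) (nat_lit 5) (nat_lit 5) (nat_lit 5) (nat_lit 4) (nat_lit 313) (nat_lit 260) (nat_lit 147)) (XT.nd (nat_lit 78) (nat_lit 0) (nat_lit 0) (XT.lf (nat_lit 0) (nat_lit 189665699522) (nat_lit 76) (nat_lit 148591252812) (nat_lit 76) (nat_lit 70366539493) (nat_lit 4) (nat_lit 4) (nat_lit 5) (nat_lit 5) (nat_lit 5) (nat_lit 4) (nat_lit 314) (nat_lit 260) (nat_lit 146)) (XT.lf (nat_lit 0) (nat_lit 254334063442) (nat_lit 76) (nat_lit 131512392712) (nat_lit 76) (nat_lit 53286782441) (nat_lit 4) (nat_lit 4) (nat_lit 5) (nat_lit 5) (nat_lit 5) (nat_lit 4) (nat_lit 315) (nat_lit 260) (nat_lit 145)))) (XT.nd (nat_lit 156) (nat_lit 76) (nat_lit 0) (XT.nd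 (nat_lit 78) (nat_lit 0) (nat_lit 0) (XT.lf (nat_lit 0) (nat_lit 324174803953) (nat_lit 76) (nat_lit 113067725029) (nat_lit 76) (nat_lit 34841284246) (nat_lit 4) (nat_lit 4) (nat_lit 5) (nat_lit 5) (nat_lit 5) (nat_lit 4) (nat_lit 316) (nat_lit 260) (nat_lit 144)) (XT.lf (nat_lit 0) (nat_lit 399601792110) (nat_lit 76) (nat_lit 93147948027) (nat_lit 76) (nat_lit 14920738252) (nat_lit 4) (nat_lit 4) (nat_lit 5) (nat_lit 5) (nat_lit 5) (nat_lit 4) (nat_lit 317) (nat_lit 260) (nat_lit 143))) (XT.nd (nat_lit 78) (nat_lit 0) (nat_lit 0) (XT.lf (nat_lit 0) (nat_lit 6263099498) (nat_lit 152) (nat_lit 65200674847) (nat_lit 76) (nat_lit 474627658919) (nat_lit 3) (nat_lit 5) (nat_lit 5) (nat_lit 5) (nat_lit 4) (nat_lit 4) (nat_lit 318) (nat_lit 260) (nat_lit 142)) (XT.lf (nat_lit 0) (nat_lit 28335054651) (nat_lit 152) (nat_lit 19291667415) (nat_lit 76) (nat_lit 539928377509) (nat_lit 3) (nat_lit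 5) (nat_lit 5) (nat_lit 5) (nat_lit 4) (nat_lit 4) (nat_lit 319) (nat_lit 260) (nat_lit 141)))))) (XT.nd (nat_lit 546) (nat_lit 0) (nat_lit 0) (XT.nd (nat_lit 234) (nat_lit 0) (nat_lit 0) (XT.nd (nat_lit 78) (nat_lit 0) (nat_lit 0) (XT.lf (nat_lit 0) (nat_lit 31884210865) (nat_lit 76) (nat_lit 21054924907) (nat_lit 152) (nat_lit 579335414411) (nat_lit 2) (nat_lit 5) (nat_lit 3) (nat_lit 5) (nat_lit 4) (nat_lit 4) (nat_lit 320) (nat_lit 260) (nat_lit 140)) (XT.nd (nat_lit 78) (nat_lit 0) (nat_lit 0) (XT.lf (nat_lit 0) (nat_lit 80236075556) (nat_lit 152) (nat_lit 592476403646) (nat_lit 0) (nat_lit 7801115580) (nat_lit 2) (nat_lit 5) (nat_lit 4) (nat_lit 4) (nat_lit 2) (nat_lit 4) (nat_lit 321) (nat_lit 260) (nat_lit 139)) (XT.lf (nat_lit 0) (nat_lit 110263242636) (nat_lit 152) (nat_lit 584477004958) (nat_lit 0) (nat_lit 37827798064) (nat_lit 2) (nat_lit 5) (nat_lit 4) (nat_lit 4) (nat_lit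 2) (nat_lit 4) (nat_lit 322) (nat_lit 260) (nat_lit 138)))) (XT.nd (nat_lit 156) (nat_lit 0) (nat_lit 0) (XT.nd (nat_lit 78) (nat_lit 0) (nat_lit 0) (XT.lf (nat_lit 0) (nat_lit 142692204328) (nat_lit 152) (nat_lit 575838367961) (nat_lit 0) (nat_lit 70256311058) (nat_lit 2) (nat_lit 5) (nat_lit 4) (nat_lit 4) (nat_lit 2) (nat_lit 4) (nat_lit 323) (nat_lit 260) (nat_lit 137)) (XT.lf (nat_lit 0) (nat_lit 177715132259) (nat_lit 152) (nat_lit 566509300732) (nat_lit 0) (nat_lit 105278823526) (nat_lit 2) (nat_lit 5) (nat_lit 4) (nat_lit 4) (nat_lit 2) (nat_lit 4) (nat_lit 324) (nat_lit 260) (nat_lit 136))) (XT.nd (nat_lit 78) (nat_lit 0) (nat_lit 0) (XT.lf (nat_lit 0) (nat_lit 215539569704) (nat_lit 152) (nat_lit 556434519909) (nat_lit 0) (nat_lit 143102876283) (nat_lit 2) (nat_lit 5) (nat_lit 4) (nat_lit 4) (nat_lit 2) (nat_lit 4) (nat_lit 325) (nat_lit 260) (nat_lit 135)) (XT.lf (nat_lit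 0) (nat_lit 256389661478) (nat_lit 152) (nat_lit 545554323087) (nat_lit 0) (nat_lit 183952611866) (nat_lit 2) (nat_lit 5) (nat_lit 4) (nat_lit 4) (nat_lit 2) (nat_lit 4) (nat_lit 326) (nat_lit 260) (nat_lit 134))))) (XT.nd (nat_lit 234) (nat_lit 0) (nat_lit 0) (XT.nd (nat_lit 78) (nat_lit 0) (nat_lit 0) (XT.lf (nat_lit 0) (nat_lit 300507482199) (nat_lit 152) (nat_lit 533804235026) (nat_lit 0) (nat_lit 228070102779) (nat_lit 2) (nat_lit 5) (nat_lit 4) (nat_lit 4) (nat_lit 2) (nat_lit 4) (nat_lit 327) (nat_lit 260) (nat_lit 133)) (XT.nd (nat_lit 78) (nat_lit 0) (nat_lit 0) (XT.lf (nat_lit 0) (nat_lit 348154470805) (nat_lit 152) (nat_lit 521114625575) (nat_lit 0) (nat_lit 275716786008) (nat_lit 2) (nat_lit 5) (nat_lit 4) (nat_lit 4) (nat_lit 2) (nat_lit 4) (nat_lit 328) (nat_lit 260) (nat_lit 132)) (XT.lf (nat_lit 0) (nat_lit 399612979820) (nat_lit 152) (nat_lit 507410297048) (nat_lit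 0) (nat_lit 327175012266) (nat_lit 2) (nat_lit 5) (nat_lit 4) (nat_lit 4) (nat_lit 2) (nat_lit 4) (nat_lit 329) (nat_lit 260) (nat_lit 131)))) (XT.nd (nat_lit 156) (nat_lit 0) (nat_lit 0) (XT.nd (nat_lit 78) (nat_lit 0) (nat_lit 0) (XT.lf (nat_lit 0) (nat_lit 455187948558) (nat_lit 152) (nat_lit 492610038609) (nat_lit 0) (nat_lit 382749719192) (nat_lit 2) (nat_lit 5) (nat_lit 4) (nat_lit 4) (nat_lit 2) (nat_lit 4) (nat_lit 330) (nat_lit 260) (nat_lit 130)) (XT.lf (nat_lit 0) (nat_lit 515208710166) (nat_lit 152) (nat_lit 476626145024) (nat_lit 0) (nat_lit 442770238382) (nat_lit 2) (nat_lit 5) (nat_lit 4) (nat_lit 4) (nat_lit 2) (nat_lit 4) (nat_lit 331) (nat_lit 260) (nat_lit 129))) (XT.nd (nat_lit 78) (nat_lit 0) (nat_lit 0) (XT.lf (nat_lit 0) (nat_lit 580030943232) (nat_lit 152) (nat_lit 459363896922) (nat_lit 0) (nat_lit 507592246987) (nat_lit 2) (nat_lit 5) (nat_lit 4) (nat_lit 4)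 (nat_lit 2) (nat_lit 4) (nat_lit 332) (nat_lit 260) (nat_lit 128)) (XT.lf (nat_lit 0) (nat_lit 650038779507) (nat_lit 152) (nat_lit 440720999499) (nat_lit 0) (nat_lit 577599875427) (nat_lit 2) (nat_lit 5) (nat_lit 4) (nat_lit 4) (nat_lit 2) (nat_lit 4) (nat_lit 333) (nat_lit 260) (nat_lit 127))))))))
noncomputable def xc86 : XT := (XT.nd (nat_lit 33462) (nat_lit 0) (nat_lit 228) (XT.nd (nat_lit 32448) (nat_lit 0) (nat_lit 1368) (XT.nd (nat_lit 31902) (nat_lit 0) (nat_lit 2660) (XT.nd (nat_lit 234) (nat_lit 0) (nat_lit 0) (XT.nd (nat_lit 78) (nat_lit 0) (nat_lit 0) (XT.lf (nat_lit 0) (nat_lit 725647080244) (nat_lit 152) (nat_lit 420586976328) (nat_lit 0) (nat_lit 653207983724) (nat_lit 2) (nat_lit 5) (nat_lit 4) (nat_lit 4) (nat_lit 2) (nat_lit 4) (nat_lit 334) (nat_lit 260) (nat_lit 126)) (XT.nd (nat_lit 78) (nat_lit 0) (nat_lit 0) (XT.lf (nat_lit 0) (nat_lit 807303894631) (nat_lit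 152) (nat_lit 398842514678) (nat_lit 0) (nat_lit 734864619926) (nat_lit 2) (nat_lit 5) (nat_lit 4) (nat_lit 4) (nat_lit 2) (nat_lit 4) (nat_lit 335) (nat_lit 260) (nat_lit 125)) (XT.lf (nat_lit 0) (nat_lit 895493114902) (nat_lit 152) (nat_lit 375358758480) (nat_lit 0) (nat_lit 823053675212) (nat_lit 2) (nat_lit 5) (nat_lit 4) (nat_lit 4) (nat_lit 2) (nat_lit 4) (nat_lit 336) (nat_lit 260) (nat_lit 124)))) (XT.nd (nat_lit 78) (nat_lit 0) (nat_lit 0) (XT.lf (nat_lit 0) (nat_lit 990737343844) (nat_lit 152) (nat_lit 349996544734) (nat_lit 0) (nat_lit 918297751389) (nat_lit 2) (nat_lit 5) (nat_lit 4) (nat_lit 4) (nat_lit 2) (nat_lit 4) (nat_lit 337) (nat_lit 260) (nat_lit 123)) (XT.nd (nat_lit 31512) (nat_lit 0) (nat_lit 2660) (XT.lf (nat_lit 0) (nat_lit 1093600991703) (nat_lit 152) (nat_lit 322605578840) (nat_lit 0) (nat_lit 1021161257799) (nat_lit 2) (nat_lit 5) (nat_lit 4) (nat_lit 4)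 (nat_lit 2) (nat_lit 4) (nat_lit 338) (nat_lit 260) (nat_lit 122)) (XT.lf (nat_lit 0) (nat_lit 3787046652) (nat_lit 532) (nat_lit 3290374726) (nat_lit 532) (nat_lit 3290374726) (nat_lit 37) (nat_lit 3) (nat_lit 44) (nat_lit 3) (nat_lit 44) (nat_lit 5) (nat_lit 261) (nat_lit 261) (nat_lit 198))))) (XT.nd (nat_lit 234) (nat_lit 0) (nat_lit 152) (XT.nd (nat_lit 78) (nat_lit 0) (nat_lit 76) (XT.lf (nat_lit 76) (nat_lit 2550188940) (nat_lit 0) (nat_lit 5525979465) (nat_lit 532) (nat_lit 13472260625) (nat_lit 38) (nat_lit 5) (nat_lit 37) (nat_lit 3) (nat_lit 44) (nat_lit 5) (nat_lit 262) (nat_lit 261) (nat_lit 197)) (XT.nd (nat_lit 78) (nat_lit 0) (nat_lit 0) (XT.lf (nat_lit 0) (nat_lit 8880411693) (nat_lit 456) (nat_lit 9731143658) (nat_lit 532) (nat_lit 3793843096) (nat_lit 38) (nat_lit 5) (nat_lit 44) (nat_lit 5) (nat_lit 45) (nat_lit 5) (nat_lit 263) (nat_lit 261) (nat_lit 196)) (XT.lf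 (nat_lit 76) (nat_lit 131865753) (nat_lit 0) (nat_lit 9751029181) (nat_lit 532) (nat_lit 13437379395) (nat_lit 39) (nat_lit 5) (nat_lit 38) (nat_lit 5) (nat_lit 45) (nat_lit 5) (nat_lit 264) (nat_lit 261) (nat_lit 195)))) (XT.nd (nat_lit 156) (nat_lit 0) (nat_lit 0) (XT.nd (nat_lit 78) (nat_lit 0) (nat_lit 0) (XT.lf (nat_lit 0) (nat_lit 11222221461) (nat_lit 456) (nat_lit 12961676694) (nat_lit 532) (nat_lit 103966993) (nat_lit 39) (nat_lit 5) (nat_lit 45) (nat_lit 5) (nat_lit 46) (nat_lit 5) (nat_lit 265) (nat_lit 261) (nat_lit 194)) (XT.lf (nat_lit 0) (nat_lit 12910889855) (nat_lit 456) (nat_lit 2178796925) (nat_lit 532) (nat_lit 10223853050) (nat_lit 39) (nat_lit 5) (nat_lit 45) (nat_lit 5) (nat_lit 46) (nat_lit 5) (nat_lit 266) (nat_lit 261) (nat_lit 193))) (XT.nd (nat_lit 78) (nat_lit 0) (nat_lit 76) (XT.lf (nat_lit 76) (nat_lit 9956717074) (nat_lit 0) (nat_lit 5007136762) (nat_lit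 532) (nat_lit 11439126867) (nat_lit 40) (nat_lit 5) (nat_lit 39) (nat_lit 5) (nat_lit 46) (nat_lit 5) (nat_lit 267) (nat_lit 261) (nat_lit 192)) (XT.lf (nat_lit 0) (nat_lit 17373994267) (nat_lit 456) (nat_lit 4539569359) (nat_lit 76) (nat_lit 5650622874) (nat_lit 40) (nat_lit 5) (nat_lit 46) (nat_lit 5) (nat_lit 41) (nat_lit 5) (nat_lit 268) (nat_lit 261) (nat_lit 191)))))) (XT.nd (nat_lit 468) (nat_lit 608) (nat_lit 0) (XT.nd (nat_lit 234) (nat_lit 228) (nat_lit 0) (XT.nd (nat_lit 78) (nat_lit 228) (nat_lit 0) (XT.lf (nat_lit 0) (nat_lit 8612345456) (nat_lit 456) (nat_lit 11692854551) (nat_lit 532) (nat_lit 8486869910) (nat_lit 34) (nat_lit 5) (nat_lit 40) (nat_lit 5) (nat_lit 41) (nat_lit 5) (nat_lit 269) (nat_lit 261) (nat_lit 190)) (XT.nd (nat_lit 78) (nat_lit 228) (nat_lit 0) (XT.lf (nat_lit 0) (nat_lit 23066703548) (nat_lit 456) (nat_lit 519861866) (nat_lit 532) (nat_lit 6522403947)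 (nat_lit 34) (nat_lit 5) (nat_lit 40) (nat_lit 5) (nat_lit 41) (nat_lit 5) (nat_lit 270) (nat_lit 261) (nat_lit 189)) (XT.lf (nat_lit 0) (nat_lit 7221776697) (nat_lit 228) (nat_lit 20352234787) (nat_lit 304) (nat_lit 3921759128) (nat_lit 31) (nat_lit 5) (nat_lit 34) (nat_lit 5) (nat_lit 35) (nat_lit 5) (nat_lit 271) (nat_lit 261) (nat_lit 188)))) (XT.nd (nat_lit 78) (nat_lit 228) (nat_lit 0) (XT.lf (nat_lit 0) (nat_lit 23005459909) (nat_lit 228) (nat_lit 9073277261) (nat_lit 304) (nat_lit 898949007) (nat_lit 31) (nat_lit 5) (nat_lit 34) (nat_lit 5) (nat_lit 35) (nat_lit 5) (nat_lit 272) (nat_lit 261) (nat_lit 187)) (XT.nd (nat_lit 78) (nat_lit 0) (nat_lit 0) (XT.lf (nat_lit 0) (nat_lit 2456973460) (nat_lit 228) (nat_lit 28948980585) (nat_lit 76) (nat_lit 3150907293) (nat_lit 28) (nat_lit 5) (nat_lit 31) (nat_lit 5) (nat_lit 29) (nat_lit 5) (nat_lit 273) (nat_lit 261) (nat_lit 186))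 (XT.lf (nat_lit 0) (nat_lit 6541460960) (nat_lit 228) (nat_lit 13513084196) (nat_lit 76) (nat_lit 16165290924) (nat_lit 28) (nat_lit 5) (nat_lit 31) (nat_lit 5) (nat_lit 29) (nat_lit 5) (nat_lit 274) (nat_lit 261) (nat_lit 185))))) (XT.nd (nat_lit 234) (nat_lit 228) (nat_lit 0) (XT.nd (nat_lit 78) (nat_lit 152) (nat_lit 0) (XT.lf (nat_lit 0) (nat_lit 3316212101) (nat_lit 228) (nat_lit 7709998412) (nat_lit 304) (nat_lit 26983782250) (nat_lit 25) (nat_lit 5) (nat_lit 28) (nat_lit 5) (nat_lit 29) (nat_lit 5) (nat_lit 275) (nat_lit 261) (nat_lit 184)) (XT.nd (nat_lit 78) (nat_lit 152) (nat_lit 0) (XT.lf (nat_lit 0) (nat_lit 16378029692) (nat_lit 304) (nat_lit 17805905565) (nat_lit 76) (nat_lit 5718785963) (nat_lit 25) (nat_lit 5) (nat_lit 29) (nat_lit 5) (nat_lit 26) (nat_lit 5) (nat_lit 276) (nat_lit 261) (nat_lit 183)) (XT.lf (nat_lit 0) (nat_lit 237543179) (nat_lit 152) (nat_lit 22120876985)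 (nat_lit 228) (nat_lit 19572434477) (nat_lit 23) (nat_lit 5) (nat_lit 25) (nat_lit 5) (nat_lit 26) (nat_lit 5) (nat_lit 277) (nat_lit 261) (nat_lit 182)))) (XT.nd (nat_lit 156) (nat_lit 228) (nat_lit 0) (XT.nd (nat_lit 78) (nat_lit 0) (nat_lit 0) (XT.lf (nat_lit 0) (nat_lit 20730205145) (nat_lit 152) (nat_lit 8568579812) (nat_lit 228) (nat_lit 14783949550) (nat_lit 23) (nat_lit 5) (nat_lit 25) (nat_lit 5) (nat_lit 26) (nat_lit 5) (nat_lit 278) (nat_lit 261) (nat_lit 181)) (XT.lf (nat_lit 0) (nat_lit 36935367313) (nat_lit 228) (nat_lit 3697181965) (nat_lit 76) (nat_lit 5762954204) (nat_lit 23) (nat_lit 5) (nat_lit 26) (nat_lit 5) (nat_lit 24) (nat_lit 5) (nat_lit 279) (nat_lit 261) (nat_lit 180))) (XT.nd (nat_lit 78) (nat_lit 76) (nat_lit 0) (XT.lf (nat_lit 0) (nat_lit 18212850176) (nat_lit 152) (nat_lit 27626027571) (nat_lit 228) (nat_lit 3001952582) (nat_lit 21) (nat_lit 5) (nat_lit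 23) (nat_lit 5) (nat_lit 24) (nat_lit 5) (nat_lit 280) (nat_lit 261) (nat_lit 179)) (XT.lf (nat_lit 0) (nat_lit 3873344426) (nat_lit 228) (nat_lit 9492279420) (nat_lit 76) (nat_lit 38100593876) (nat_lit 20) (nat_lit 5) (nat_lit 23) (nat_lit 5) (nat_lit 21) (nat_lit 5) (nat_lit 281) (nat_lit 261) (nat_lit 178))))))) (XT.nd (nat_lit 1014) (nat_lit 456) (nat_lit 0) (XT.nd (nat_lit 468) (nat_lit 304) (nat_lit 0) (XT.nd (nat_lit 234) (nat_lit 76) (nat_lit 0) (XT.nd (nat_lit 78) (nat_lit 152) (nat_lit 0) (XT.lf (nat_lit 0) (nat_lit 11527409112) (nat_lit 228) (nat_lit 40380400690) (nat_lit 76) (nat_lit 2356327371) (nat_lit 18) (nat_lit 5) (nat_lit 21) (nat_lit 5) (nat_lit 19) (nat_lit 5) (nat_lit 282) (nat_lit 261) (nat_lit 177)) (XT.nd (nat_lit 78) (nat_lit 152) (nat_lit 0) (XT.lf (nat_lit 0) (nat_lit 20403184908) (nat_lit 228) (nat_lit 17955387313) (nat_lit 76) (nat_lit 18878579194) (nat_lit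 18) (nat_lit 5) (nat_lit 21) (nat_lit 5) (nat_lit 19) (nat_lit 5) (nat_lit 283) (nat_lit 261) (nat_lit 176)) (XT.lf (nat_lit 0) (nat_lit 6587583498) (nat_lit 152) (nat_lit 23556120760) (nat_lit 228) (nat_lit 30291939230) (nat_lit 16) (nat_lit 5) (nat_lit 18) (nat_lit 5) (nat_lit 19) (nat_lit 5) (nat_lit 284) (nat_lit 261) (nat_lit 175)))) (XT.nd (nat_lit 78) (nat_lit 76) (nat_lit 0) (XT.lf (nat_lit 0) (nat_lit 34109690815) (nat_lit 152) (nat_lit 7041103349) (nat_lit 228) (nat_lit 22700244823) (nat_lit 16) (nat_lit 5) (nat_lit 18) (nat_lit 5) (nat_lit 19) (nat_lit 5) (nat_lit 285) (nat_lit 261) (nat_lit 174)) (XT.nd (nat_lit 78) (nat_lit 76) (nat_lit 0) (XT.lf (nat_lit 0) (nat_lit 53294696942) (nat_lit 228) (nat_lit 3970994787) (nat_lit 76) (nat_lit 10253484354) (nat_lit 16) (nat_lit 5) (nat_lit 19) (nat_lit 5) (nat_lit 17) (nat_lit 4) (nat_lit 286) (nat_lit 261) (nat_lit 173)) (XT.lf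 (nat_lit 0) (nat_lit 24919808800) (nat_lit 76) (nat_lit 42269383991) (nat_lit 152) (nat_lit 4229253788) (nat_lit 15) (nat_lit 5) (nat_lit 16) (nat_lit 5) (nat_lit 17) (nat_lit 4) (nat_lit 287) (nat_lit 261) (nat_lit 172))))) (XT.nd (nat_lit 234) (nat_lit 76) (nat_lit 0) (XT.nd (nat_lit 78) (nat_lit 152) (nat_lit 0) (XT.lf (nat_lit 0) (nat_lit 6345450580) (nat_lit 152) (nat_lit 19438913900) (nat_lit 76) (nat_lit 49824005790) (nat_lit 14) (nat_lit 5) (nat_lit 16) (nat_lit 5) (nat_lit 15) (nat_lit 5) (nat_lit 288) (nat_lit 261) (nat_lit 171)) (XT.nd (nat_lit 78) (nat_lit 0) (nat_lit 0) (XT.lf (nat_lit 0) (nat_lit 10180440018) (nat_lit 152) (nat_lit 7599175097) (nat_lit 228) (nat_lit 62325733875) (nat_lit 12) (nat_lit 5) (nat_lit 14) (nat_lit 5) (nat_lit 15) (nat_lit 5) (nat_lit 289) (nat_lit 261) (nat_lit 170)) (XT.lf (nat_lit 0) (nat_lit 30960592767) (nat_lit 228) (nat_lit 41952738510)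 (nat_lit 76) (nat_lit 11982194878) (nat_lit 12) (nat_lit 5) (nat_lit 15) (nat_lit 5) (nat_lit 13) (nat_lit 4) (nat_lit 290) (nat_lit 261) (nat_lit 169)))) (XT.nd (nat_lit 156) (nat_lit 0) (nat_lit 0) (XT.nd (nat_lit 78) (nat_lit 76) (nat_lit 0) (XT.lf (nat_lit 0) (nat_lit 45390835645) (nat_lit 228) (nat_lit 11944467499) (nat_lit 76) (nat_lit 32718037444) (nat_lit 12) (nat_lit 5) (nat_lit 15) (nat_lit 5) (nat_lit 13) (nat_lit 4) (nat_lit 291) (nat_lit 261) (nat_lit 168)) (XT.lf (nat_lit 0) (nat_lit 21537904401) (nat_lit 76) (nat_lit 39953178674) (nat_lit 152) (nat_lit 34091455899) (nat_lit 11) (nat_lit 5) (nat_lit 12) (nat_lit 5) (nat_lit 13) (nat_lit 4) (nat_lit 292) (nat_lit 261) (nat_lit 167))) (XT.nd (nat_lit 78) (nat_lit 0) (nat_lit 0) (XT.lf (nat_lit 0) (nat_lit 58374285114) (nat_lit 76) (nat_lit 20829330869) (nat_lit 152) (nat_lit 22324521187) (nat_lit 11) (nat_lit 5) (nat_lit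 12) (nat_lit 5) (nat_lit 13) (nat_lit 4) (nat_lit 293) (nat_lit 261) (nat_lit 166)) (XT.lf (nat_lit 0) (nat_lit 98153989811) (nat_lit 76) (nat_lit 177016133) (nat_lit 152) (nat_lit 9618553732) (nat_lit 11) (nat_lit 5) (nat_lit 12) (nat_lit 5) (nat_lit 13) (nat_lit 4) (nat_lit 294) (nat_lit 261) (nat_lit 165)))))) (XT.nd (nat_lit 546) (nat_lit 228) (nat_lit 0) (XT.nd (nat_lit 234) (nat_lit 76) (nat_lit 0) (XT.nd (nat_lit 78) (nat_lit 0) (nat_lit 0) (XT.lf (nat_lit 0) (nat_lit 5109933730) (nat_lit 152) (nat_lit 87870762720) (nat_lit 76) (nat_lit 21799200890) (nat_lit 9) (nat_lit 5) (nat_lit 11) (nat_lit 5) (nat_lit 10) (nat_lit 4) (nat_lit 295) (nat_lit 261) (nat_lit 164)) (XT.nd (nat_lit 78) (nat_lit 0) (nat_lit 0) (XT.lf (nat_lit 0) (nat_lit 20774426407) (nat_lit 152) (nat_lit 55292798610) (nat_lit 76) (nat_lit 46047263980) (nat_lit 9) (nat_lit 5) (nat_lit 11) (nat_lit 5) (nat_lit 10)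 (nat_lit 4) (nat_lit 296) (nat_lit 261) (nat_lit 163)) (XT.lf (nat_lit 0) (nat_lit 37690222304) (nat_lit 152) (nat_lit 20111814121) (nat_lit 76) (nat_lit 72233963588) (nat_lit 9) (nat_lit 5) (nat_lit 11) (nat_lit 5) (nat_lit 10) (nat_lit 4) (nat_lit 297) (nat_lit 261) (nat_lit 162)))) (XT.nd (nat_lit 156) (nat_lit 0) (nat_lit 0) (XT.nd (nat_lit 78) (nat_lit 0) (nat_lit 0) (XT.lf (nat_lit 0) (nat_lit 18822235082) (nat_lit 76) (nat_lit 37588003300) (nat_lit 152) (nat_lit 82144920281) (nat_lit 8) (nat_lit 5) (nat_lit 9) (nat_lit 5) (nat_lit 10) (nat_lit 4) (nat_lit 298) (nat_lit 261) (nat_lit 161)) (XT.lf (nat_lit 0) (nat_lit 62011881843) (nat_lit 76) (nat_lit 15164205337) (nat_lit 152) (nat_lit 70535907340) (nat_lit 8) (nat_lit 5) (nat_lit 9) (nat_lit 5) (nat_lit 10) (nat_lit 4) (nat_lit 299) (nat_lit 261) (nat_lit 160))) (XT.nd (nat_lit 78) (nat_lit 0) (nat_lit 0) (XT.lf (nat_lit 0)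 (nat_lit 99819374883) (nat_lit 152) (nat_lit 49165199938) (nat_lit 0) (nat_lit 8599511550) (nat_lit 8) (nat_lit 5) (nat_lit 10) (nat_lit 4) (nat_lit 8) (nat_lit 4) (nat_lit 300) (nat_lit 261) (nat_lit 159)) (XT.lf (nat_lit 0) (nat_lit 124666551243) (nat_lit 152) (nat_lit 10103949486) (nat_lit 0) (nat_lit 33444053388) (nat_lit 8) (nat_lit 5) (nat_lit 10) (nat_lit 4) (nat_lit 8) (nat_lit 4) (nat_lit 301) (nat_lit 261) (nat_lit 158))))) (XT.nd (nat_lit 234) (nat_lit 76) (nat_lit 0) (XT.nd (nat_lit 78) (nat_lit 76) (nat_lit 0) (XT.lf (nat_lit 0) (nat_lit 33769078321) (nat_lit 76) (nat_lit 118543228109) (nat_lit 76) (nat_lit 27318290881) (nat_lit 7) (nat_lit 4) (nat_lit 8) (nat_lit 5) (nat_lit 8) (nat_lit 4) (nat_lit 302) (nat_lit 261) (nat_lit 157)) (XT.nd (nat_lit 78) (nat_lit 76) (nat_lit 0) (XT.lf (nat_lit 0) (nat_lit 81724240646) (nat_lit 76) (nat_lit 100720442288) (nat_lit 76) (nat_lit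 9493246382) (nat_lit 7) (nat_lit 4) (nat_lit 8) (nat_lit 5) (nat_lit 8) (nat_lit 4) (nat_lit 303) (nat_lit 261) (nat_lit 156)) (XT.lf (nat_lit 0) (nat_lit 9268440955) (nat_lit 152) (nat_lit 71950930086) (nat_lit 76) (nat_lit 123991803595) (nat_lit 6) (nat_lit 5) (nat_lit 8) (nat_lit 5) (nat_lit 7) (nat_lit 4) (nat_lit 304) (nat_lit 261) (nat_lit 155)))) (XT.nd (nat_lit 156) (nat_lit 0) (nat_lit 0) (XT.nd (nat_lit 78) (nat_lit 76) (nat_lit 0) (XT.lf (nat_lit 0) (nat_lit 29017036988) (nat_lit 152) (nat_lit 30875786790) (nat_lit 76) (nat_lit 159633822901) (nat_lit 6) (nat_lit 5) (nat_lit 8) (nat_lit 5) (nat_lit 7) (nat_lit 4) (nat_lit 305) (nat_lit 261) (nat_lit 154)) (XT.lf (nat_lit 0) (nat_lit 14193477507) (nat_lit 76) (nat_lit 36492337033) (nat_lit 152) (nat_lit 184274320074) (nat_lit 5) (nat_lit 5) (nat_lit 6) (nat_lit 5) (nat_lit 7) (nat_lit 4) (nat_lit 306) (nat_lit 261) (nat_lit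 153))) (XT.nd (nat_lit 78) (nat_lit 0) (nat_lit 0) (XT.lf (nat_lit 0) (nat_lit 64622358858) (nat_lit 76) (nat_lit 10308908349) (nat_lit 152) (nat_lit 176629582061) (nat_lit 5) (nat_lit 5) (nat_lit 6) (nat_lit 5) (nat_lit 7) (nat_lit 4) (nat_lit 307) (nat_lit 261) (nat_lit 152)) (XT.lf (nat_lit 0) (nat_lit 101547547300) (nat_lit 152) (nat_lit 150838008669) (nat_lit 0) (nat_lit 17069571232) (nat_lit 5) (nat_lit 5) (nat_lit 7) (nat_lit 4) (nat_lit 5) (nat_lit 4) (nat_lit 308) (nat_lit 261) (nat_lit 151))))))))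
noncomputable def xc87 : XT := (XT.nd (nat_lit 2106) (nat_lit 0) (nat_lit 0) (XT.nd (nat_lit 1014) (nat_lit 0) (nat_lit 0) (XT.nd (nat_lit 468) (nat_lit 152) (nat_lit 0) (XT.nd (nat_lit 234) (nat_lit 76) (nat_lit 0) (XT.nd (nat_lit 78) (nat_lit 0) (nat_lit 0) (XT.lf (nat_lit 0) (nat_lit 130559997031) (nat_lit 152) (nat_lit 112118899211) (nat_lit 0) (nat_lit 46080703046) (nat_lit 5) (nat_lit 5) (nat_lit 7) (nat_lit 4) (nat_lit 5) (nat_lit 4) (nat_lit 309) (nat_lit 261) (nat_lit 150)) (XT.nd (nat_lit 78) (nat_lit 0) (nat_lit 0) (XT.lf (nat_lit 0) (nat_lit 161892612537) (nat_lit 152) (nat_lit 70303785968) (nat_lit 0) (nat_lit 77412098258) (nat_lit 5) (nat_lit 5) (nat_lit 7) (nat_lit 4) (nat_lit 5) (nat_lit 4) (nat_lit 310) (nat_lit 261) (nat_lit 149)) (XT.lf (nat_lit 0) (nat_lit 195731068575) (nat_lit 152) (nat_lit 25144875678) (nat_lit 0) (nat_lit 111249424395) (nat_lit 5) (nat_lit 5)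 (nat_lit 7) (nat_lit 4) (nat_lit 5) (nat_lit 4) (nat_lit 311) (nat_lit 261) (nat_lit 148)))) (XT.nd (nat_lit 78) (nat_lit 0) (nat_lit 0) (XT.lf (nat_lit 0) (nat_lit 24869513821) (nat_lit 76) (nat_lit 208004487913) (nat_lit 76) (nat_lit 123521797528) (nat_lit 4) (nat_lit 4) (nat_lit 5) (nat_lit 5) (nat_lit 5) (nat_lit 4) (nat_lit 312) (nat_lit 261) (nat_lit 147)) (XT.nd (nat_lit 78) (nat_lit 0) (nat_lit 0) (XT.lf (nat_lit 0) (nat_lit 80313791522) (nat_lit 76) (nat_lit 193361393795) (nat_lit 76) (nat_lit 108877734702) (nat_lit 4) (nat_lit 4) (nat_lit 5) (nat_lit 5) (nat_lit 5) (nat_lit 4) (nat_lit 313) (nat_lit 261) (nat_lit 146)) (XT.lf (nat_lit 0) (nat_lit 140192431515) (nat_lit 76) (nat_lit 177547393470) (nat_lit 76) (nat_lit 93062837425) (nat_lit 4) (nat_lit 4) (nat_lit 5) (nat_lit 5) (nat_lit 5) (nat_lit 4) (nat_lit 314) (nat_lit 261) (nat_lit 145))))) (XT.nd (nat_lit 234) (nat_lit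 152) (nat_lit 0) (XT.nd (nat_lit 78) (nat_lit 0) (nat_lit 0) (XT.lf (nat_lit 0) (nat_lit 204860270184) (nat_lit 76) (nat_lit 160468774344) (nat_lit 76) (nat_lit 75983387787) (nat_lit 4) (nat_lit 4) (nat_lit 5) (nat_lit 5) (nat_lit 5) (nat_lit 4) (nat_lit 315) (nat_lit 261) (nat_lit 144)) (XT.nd (nat_lit 78) (nat_lit 0) (nat_lit 0) (XT.lf (nat_lit 0) (nat_lit 274700524351) (nat_lit 76) (nat_lit 142024329784) (nat_lit 76) (nat_lit 57538174235) (nat_lit 4) (nat_lit 4) (nat_lit 5) (nat_lit 5) (nat_lit 5) (nat_lit 4) (nat_lit 316) (nat_lit 261) (nat_lit 143)) (XT.lf (nat_lit 0) (nat_lit 350127062190) (nat_lit 76) (nat_lit 122104759378) (nat_lit 76) (nat_lit 37617891799) (nat_lit 4) (nat_lit 4) (nat_lit 5) (nat_lit 5) (nat_lit 5) (nat_lit 4) (nat_lit 317) (nat_lit 261) (nat_lit 142)))) (XT.nd (nat_lit 156) (nat_lit 76) (nat_lit 0) (XT.nd (nat_lit 78) (nat_lit 76) (nat_lit 0) (XT.lf (nat_lit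 0) (nat_lit 431586855776) (nat_lit 76) (nat_lit 100592021228) (nat_lit 76) (nat_lit 16104494363) (nat_lit 4) (nat_lit 4) (nat_lit 5) (nat_lit 5) (nat_lit 5) (nat_lit 4) (nat_lit 318) (nat_lit 261) (nat_lit 141)) (XT.lf (nat_lit 0) (nat_lit 6772858166) (nat_lit 152) (nat_lit 70400592329) (nat_lit 76) (nat_lit 512604589700) (nat_lit 3) (nat_lit 5) (nat_lit 5) (nat_lit 5) (nat_lit 4) (nat_lit 4) (nat_lit 319) (nat_lit 261) (nat_lit 140))) (XT.nd (nat_lit 78) (nat_lit 76) (nat_lit 0) (XT.lf (nat_lit 0) (nat_lit 30609924494) (nat_lit 152) (nat_lit 20820059599) (nat_lit 76) (nat_lit 583128868142) (nat_lit 3) (nat_lit 5) (nat_lit 5) (nat_lit 5) (nat_lit 4) (nat_lit 4) (nat_lit 320) (nat_lit 261) (nat_lit 139)) (XT.lf (nat_lit 0) (nat_lit 34449510684) (nat_lit 76) (nat_lit 22732574216) (nat_lit 152) (nat_lit 625673794513) (nat_lit 2) (nat_lit 5) (nat_lit 3) (nat_lit 5) (nat_lit 4) (nat_lit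 4) (nat_lit 321) (nat_lit 261) (nat_lit 138)))))) (XT.nd (nat_lit 546) (nat_lit 0) (nat_lit 0) (XT.nd (nat_lit 234) (nat_lit 0) (nat_lit 0) (XT.nd (nat_lit 78) (nat_lit 0) (nat_lit 0) (XT.lf (nat_lit 0) (nat_lit 86662350931) (nat_lit 152) (nat_lit 639860594156) (nat_lit 0) (nat_lit 8431137500) (nat_lit 2) (nat_lit 5) (nat_lit 4) (nat_lit 4) (nat_lit 2) (nat_lit 4) (nat_lit 322) (nat_lit 261) (nat_lit 137)) (XT.nd (nat_lit 78) (nat_lit 0) (nat_lit 0) (XT.lf (nat_lit 0) (nat_lit 119091144019) (nat_lit 152) (nat_lit 631222274816) (nat_lit 0) (nat_lit 40859515125) (nat_lit 2) (nat_lit 5) (nat_lit 4) (nat_lit 4) (nat_lit 2) (nat_lit 4) (nat_lit 323) (nat_lit 261) (nat_lit 136)) (XT.lf (nat_lit 0) (nat_lit 154113915835) (nat_lit 152) (nat_lit 621893501714) (nat_lit 0) (nat_lit 75881902253) (nat_lit 2) (nat_lit 5) (nat_lit 4) (nat_lit 4) (nat_lit 2) (nat_lit 4) (nat_lit 324) (nat_lit 261)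 (nat_lit 135)))) (XT.nd (nat_lit 156) (nat_lit 0) (nat_lit 0) (XT.nd (nat_lit 78) (nat_lit 0) (nat_lit 0) (XT.lf (nat_lit 0) (nat_lit 191938208728) (nat_lit 152) (nat_lit 611818993231) (nat_lit 0) (nat_lit 113705838955) (nat_lit 2) (nat_lit 5) (nat_lit 4) (nat_lit 4) (nat_lit 2) (nat_lit 4) (nat_lit 325) (nat_lit 261) (nat_lit 134)) (XT.lf (nat_lit 0) (nat_lit 232788166659) (nat_lit 152) (nat_lit 600939048576) (nat_lit 0) (nat_lit 154555467078) (nat_lit 2) (nat_lit 5) (nat_lit 4) (nat_lit 4) (nat_lit 2) (nat_lit 4) (nat_lit 326) (nat_lit 261) (nat_lit 133))) (XT.nd (nat_lit 78) (nat_lit 0) (nat_lit 0) (XT.lf (nat_lit 0) (nat_lit 276905863451) (nat_lit 152) (nat_lit 589189194003) (nat_lit 0) (nat_lit 198672858492) (nat_lit 2) (nat_lit 5) (nat_lit 4) (nat_lit 4) (nat_lit 2) (nat_lit 4) (nat_lit 327) (nat_lit 261) (nat_lit 132)) (XT.lf (nat_lit 0) (nat_lit 324552737307) (nat_lit 152) (nat_lit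 576499800744) (nat_lit 0) (nat_lit 246319449592) (nat_lit 2) (nat_lit 5) (nat_lit 4) (nat_lit 4) (nat_lit 2) (nat_lit 4) (nat_lit 328) (nat_lit 261) (nat_lit 131))))) (XT.nd (nat_lit 234) (nat_lit 0) (nat_lit 0) (XT.nd (nat_lit 78) (nat_lit 0) (nat_lit 0) (XT.lf (nat_lit 0) (nat_lit 376011140073) (nat_lit 152) (nat_lit 562795672395) (nat_lit 0) (nat_lit 297777590546) (nat_lit 2) (nat_lit 5) (nat_lit 4) (nat_lit 4) (nat_lit 2) (nat_lit 4) (nat_lit 329) (nat_lit 261) (nat_lit 130)) (XT.nd (nat_lit 78) (nat_lit 0) (nat_lit 0) (XT.lf (nat_lit 0) (nat_lit 431586010432) (nat_lit 152) (nat_lit 547995599307) (nat_lit 0) (nat_lit 353352218486) (nat_lit 2) (nat_lit 5) (nat_lit 4) (nat_lit 4) (nat_lit 2) (nat_lit 4) (nat_lit 330) (nat_lit 261) (nat_lit 129)) (XT.lf (nat_lit 0) (nat_lit 491606680948) (nat_lit 152) (nat_lit 532011877341) (nat_lit 0) (nat_lit 413372664541) (nat_lit 2) (nat_lit 5)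 (nat_lit 4) (nat_lit 4) (nat_lit 2) (nat_lit 4) (nat_lit 331) (nat_lit 261) (nat_lit 128)))) (XT.nd (nat_lit 156) (nat_lit 0) (nat_lit 0) (XT.nd (nat_lit 78) (nat_lit 0) (nat_lit 0) (XT.lf (nat_lit 0) (nat_lit 556428829669) (nat_lit 152) (nat_lit 514749788147) (nat_lit 0) (nat_lit 478194605428) (nat_lit 2) (nat_lit 5) (nat_lit 4) (nat_lit 4) (nat_lit 2) (nat_lit 4) (nat_lit 332) (nat_lit 261) (nat_lit 127)) (XT.lf (nat_lit 0) (nat_lit 626436587848) (nat_lit 152) (nat_lit 496107037862) (nat_lit 0) (nat_lit 548202171167) (nat_lit 2) (nat_lit 5) (nat_lit 4) (nat_lit 4) (nat_lit 2) (nat_lit 4) (nat_lit 333) (nat_lit 261) (nat_lit 126))) (XT.nd (nat_lit 78) (nat_lit 0) (nat_lit 0) (XT.lf (nat_lit 0) (nat_lit 702044816273) (nat_lit 152) (nat_lit 475973150928) (nat_lit 0) (nat_lit 623810221407) (nat_lit 2) (nat_lit 5) (nat_lit 4) (nat_lit 4) (nat_lit 2) (nat_lit 4) (nat_lit 334) (nat_lit 261)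 (nat_lit 125)) (XT.lf (nat_lit 0) (nat_lit 783701563705) (nat_lit 152) (nat_lit 454228815424) (nat_lit 0) (nat_lit 705466803853) (nat_lit 2) (nat_lit 5) (nat_lit 4) (nat_lit 4) (nat_lit 2) (nat_lit 4) (nat_lit 335) (nat_lit 261) (nat_lit 124))))))) (XT.nd (nat_lit 32526) (nat_lit 0) (nat_lit 1064) (XT.nd (nat_lit 31980) (nat_lit 0) (nat_lit 2432) (XT.nd (nat_lit 31746) (nat_lit 0) (nat_lit 2660) (XT.nd (nat_lit 78) (nat_lit 0) (nat_lit 0) (XT.lf (nat_lit 0) (nat_lit 871890721980) (nat_lit 152) (nat_lit 430745176028) (nat_lit 0) (nat_lit 793655809364) (nat_lit 2) (nat_lit 5) (nat_lit 4) (nat_lit 4) (nat_lit 2) (nat_lit 4) (nat_lit 336) (nat_lit 261) (nat_lit 123)) (XT.nd (nat_lit 78) (nat_lit 0) (nat_lit 0) (XT.lf (nat_lit 0) (nat_lit 967134893519) (nat_lit 152) (nat_lit 405383070432) (nat_lit 0) (nat_lit 888899839454) (nat_lit 2) (nat_lit 5) (nat_lit 4) (nat_lit 4) (nat_lit 2) (nat_lit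 4) (nat_lit 337) (nat_lit 261) (nat_lit 122)) (XT.lf (nat_lit 0) (nat_lit 1069998488227) (nat_lit 152) (nat_lit 377992204677) (nat_lit 0) (nat_lit 991763303191) (nat_lit 2) (nat_lit 5) (nat_lit 4) (nat_lit 4) (nat_lit 2) (nat_lit 4) (nat_lit 338) (nat_lit 261) (nat_lit 121)))) (XT.nd (nat_lit 78) (nat_lit 0) (nat_lit 0) (XT.lf (nat_lit 0) (nat_lit 4224476053) (nat_lit 532) (nat_lit 3480672175) (nat_lit 532) (nat_lit 3480672175) (nat_lit 37) (nat_lit 3) (nat_lit 44) (nat_lit 3) (nat_lit 44) (nat_lit 5) (nat_lit 262) (nat_lit 262) (nat_lit 196)) (XT.nd (nat_lit 78) (nat_lit 0) (nat_lit 76) (XT.lf (nat_lit 76) (nat_lit 2896376328) (nat_lit 0) (nat_lit 6078315293) (nat_lit 532) (nat_lit 14276228209) (nat_lit 38) (nat_lit 5) (nat_lit 37) (nat_lit 3) (nat_lit 44) (nat_lit 5) (nat_lit 263) (nat_lit 262) (nat_lit 195)) (XT.lf (nat_lit 0) (nat_lit 9822120599) (nat_lit 456) (nat_lit 10355739327)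 (nat_lit 532) (nat_lit 4000367261) (nat_lit 38) (nat_lit 5) (nat_lit 44) (nat_lit 5) (nat_lit 45) (nat_lit 5) (nat_lit 264) (nat_lit 262) (nat_lit 194))))) (XT.nd (nat_lit 234) (nat_lit 304) (nat_lit 0) (XT.nd (nat_lit 78) (nat_lit 0) (nat_lit 76) (XT.lf (nat_lit 76) (nat_lit 292414740) (nat_lit 0) (nat_lit 10598863703) (nat_lit 532) (nat_lit 14276178181) (nat_lit 39) (nat_lit 5) (nat_lit 38) (nat_lit 5) (nat_lit 45) (nat_lit 5) (nat_lit 265) (nat_lit 262) (nat_lit 193)) (XT.nd (nat_lit 78) (nat_lit 0) (nat_lit 0) (XT.lf (nat_lit 0) (nat_lit 12320112579) (nat_lit 456) (nat_lit 13841139699) (nat_lit 532) (nat_lit 52689030) (nat_lit 39) (nat_lit 5) (nat_lit 45) (nat_lit 5) (nat_lit 46) (nat_lit 5) (nat_lit 266) (nat_lit 262) (nat_lit 192)) (XT.lf (nat_lit 0) (nat_lit 14129051229) (nat_lit 456) (nat_lit 2207294077) (nat_lit 532) (nat_lit 10986580440) (nat_lit 39) (nat_lit 5) (nat_lit 45)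 (nat_lit 5) (nat_lit 46) (nat_lit 5) (nat_lit 267) (nat_lit 262) (nat_lit 191)))) (XT.nd (nat_lit 156) (nat_lit 380) (nat_lit 0) (XT.nd (nat_lit 78) (nat_lit 0) (nat_lit 76) (XT.lf (nat_lit 76) (nat_lit 10895369736) (nat_lit 0) (nat_lit 5440575270) (nat_lit 532) (nat_lit 12164466213) (nat_lit 40) (nat_lit 5) (nat_lit 39) (nat_lit 5) (nat_lit 46) (nat_lit 5) (nat_lit 268) (nat_lit 262) (nat_lit 190)) (XT.lf (nat_lit 0) (nat_lit 18925203066) (nat_lit 456) (nat_lit 4756703703) (nat_lit 76) (nat_lit 6073762149) (nat_lit 40) (nat_lit 5) (nat_lit 46) (nat_lit 5) (nat_lit 41) (nat_lit 5) (nat_lit 269) (nat_lit 262) (nat_lit 189))) (XT.nd (nat_lit 78) (nat_lit 0) (nat_lit 0) (XT.lf (nat_lit 0) (nat_lit 9443667305) (nat_lit 456) (nat_lit 12638713749) (nat_lit 532) (nat_lit 9000139400) (nat_lit 34) (nat_lit 5) (nat_lit 40) (nat_lit 5) (nat_lit 41) (nat_lit 5) (nat_lit 270) (nat_lit 262) (nat_lit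 188)) (XT.lf (nat_lit 0) (nat_lit 25043830769) (nat_lit 456) (nat_lit 571108995) (nat_lit 532) (nat_lit 6890788760) (nat_lit 34) (nat_lit 5) (nat_lit 40) (nat_lit 5) (nat_lit 41) (nat_lit 5) (nat_lit 271) (nat_lit 262) (nat_lit 187)))))) (XT.nd (nat_lit 546) (nat_lit 532) (nat_lit 0) (XT.nd (nat_lit 234) (nat_lit 380) (nat_lit 0) (XT.nd (nat_lit 78) (nat_lit 228) (nat_lit 0) (XT.lf (nat_lit 0) (nat_lit 7939855332) (nat_lit 228) (nat_lit 21974208498) (nat_lit 304) (nat_lit 4090043050) (nat_lit 31) (nat_lit 5) (nat_lit 34) (nat_lit 5) (nat_lit 35) (nat_lit 5) (nat_lit 272) (nat_lit 262) (nat_lit 186)) (XT.nd (nat_lit 78) (nat_lit 228) (nat_lit 0) (XT.lf (nat_lit 0) (nat_lit 24975837905) (nat_lit 228) (nat_lit 9793394004) (nat_lit 304) (nat_lit 836182698) (nat_lit 31) (nat_lit 5) (nat_lit 34) (nat_lit 5) (nat_lit 35) (nat_lit 5) (nat_lit 273) (nat_lit 262) (nat_lit 185)) (XT.lf (nat_lit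 0) (nat_lit 2775504049) (nat_lit 228) (nat_lit 31121266083) (nat_lit 76) (nat_lit 3414410071) (nat_lit 28) (nat_lit 5) (nat_lit 31) (nat_lit 5) (nat_lit 29) (nat_lit 5) (nat_lit 274) (nat_lit 262) (nat_lit 184)))) (XT.nd (nat_lit 156) (nat_lit 152) (nat_lit 0) (XT.nd (nat_lit 78) (nat_lit 228) (nat_lit 0) (XT.lf (nat_lit 0) (nat_lit 7177715534) (nat_lit 228) (nat_lit 14461137460) (nat_lit 76) (nat_lit 17469097712) (nat_lit 28) (nat_lit 5) (nat_lit 31) (nat_lit 5) (nat_lit 29) (nat_lit 5) (nat_lit 275) (nat_lit 262) (nat_lit 183)) (XT.lf (nat_lit 0) (nat_lit 3711135618) (nat_lit 228) (nat_lit 8304861199) (nat_lit 304) (nat_lit 29025775353) (nat_lit 25) (nat_lit 5) (nat_lit 28) (nat_lit 5) (nat_lit 29) (nat_lit 5) (nat_lit 276) (nat_lit 262) (nat_lit 182))) (XT.nd (nat_lit 78) (nat_lit 152) (nat_lit 0) (XT.lf (nat_lit 0) (nat_lit 17788473039) (nat_lit 304) (nat_lit 19102490071) (nat_lit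 76) (nat_lit 6195584861) (nat_lit 25) (nat_lit 5) (nat_lit 29) (nat_lit 5) (nat_lit 26) (nat_lit 5) (nat_lit 277) (nat_lit 262) (nat_lit 181)) (XT.lf (nat_lit 0) (nat_lit 381196903) (nat_lit 152) (nat_lit 23861673395) (nat_lit 228) (nat_lit 21034443494) (nat_lit 23) (nat_lit 5) (nat_lit 25) (nat_lit 5) (nat_lit 26) (nat_lit 5) (nat_lit 278) (nat_lit 262) (nat_lit 180))))) (XT.nd (nat_lit 234) (nat_lit 380) (nat_lit 0) (XT.nd (nat_lit 78) (nat_lit 152) (nat_lit 0) (XT.lf (nat_lit 0) (nat_lit 22504038473) (nat_lit 152) (nat_lit 9227331243) (nat_lit 228) (nat_lit 15870567605) (nat_lit 23) (nat_lit 5) (nat_lit 25) (nat_lit 5) (nat_lit 26) (nat_lit 5) (nat_lit 279) (nat_lit 262) (nat_lit 179)) (XT.nd (nat_lit 78) (nat_lit 152) (nat_lit 0) (XT.lf (nat_lit 0) (nat_lit 39972904975) (nat_lit 228) (nat_lit 3879817739) (nat_lit 76) (nat_lit 6247506802) (nat_lit 23) (nat_lit 5) (nat_lit 26) (nat_lit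 5) (nat_lit 24) (nat_lit 5) (nat_lit 280) (nat_lit 262) (nat_lit 178)) (XT.lf (nat_lit 0) (nat_lit 19780152701) (nat_lit 152) (nat_lit 29805069109) (nat_lit 228) (nat_lit 3156260699) (nat_lit 21) (nat_lit 5) (nat_lit 23) (nat_lit 5) (nat_lit 24) (nat_lit 5) (nat_lit 281) (nat_lit 262) (nat_lit 177)))) (XT.nd (nat_lit 156) (nat_lit 152) (nat_lit 0) (XT.nd (nat_lit 78) (nat_lit 152) (nat_lit 0) (XT.lf (nat_lit 0) (nat_lit 4258724591) (nat_lit 228) (nat_lit 10145343155) (nat_lit 76) (nat_lit 41173170155) (nat_lit 20) (nat_lit 5) (nat_lit 23) (nat_lit 5) (nat_lit 21) (nat_lit 5) (nat_lit 282) (nat_lit 262) (nat_lit 176)) (XT.lf (nat_lit 0) (nat_lit 12522763895) (nat_lit 228) (nat_lit 43501944839) (nat_lit 76) (nat_lit 2574487717) (nat_lit 18) (nat_lit 5) (nat_lit 21) (nat_lit 5) (nat_lit 19) (nat_lit 5) (nat_lit 283) (nat_lit 262) (nat_lit 175))) (XT.nd (nat_lit 78) (nat_lit 152) (nat_lit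 0) (XT.lf (nat_lit 0) (nat_lit 22103182343) (nat_lit 228) (nat_lit 19290996162) (nat_lit 76) (nat_lit 20416323082) (nat_lit 18) (nat_lit 5) (nat_lit 21) (nat_lit 5) (nat_lit 19) (nat_lit 5) (nat_lit 284) (nat_lit 262) (nat_lit 174)) (XT.lf (nat_lit 0) (nat_lit 7212859854) (nat_lit 152) (nat_lit 25407428802) (nat_lit 228) (nat_lit 32644811739) (nat_lit 16) (nat_lit 5) (nat_lit 18) (nat_lit 5) (nat_lit 19) (nat_lit 5) (nat_lit 285) (nat_lit 262) (nat_lit 173))))))))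
noncomputable def xc88 : XT := (XT.nd (nat_lit 2028) (nat_lit 228) (nat_lit 0) (XT.nd (nat_lit 1014) (nat_lit 304) (nat_lit 0) (XT.nd (nat_lit 468) (nat_lit 228) (nat_lit 0) (XT.nd (nat_lit 234) (nat_lit 228) (nat_lit 0) (XT.nd (nat_lit 78) (nat_lit 76) (nat_lit 0) (XT.lf (nat_lit 0) (nat_lit 36929456521) (nat_lit 152) (nat_lit 7573667896) (nat_lit 228) (nat_lit 24451002715) (nat_lit 16) (nat_lit 5) (nat_lit 18) (nat_lit 5) (nat_lit 19) (nat_lit 5) (nat_lit 286) (nat_lit 262) (nat_lit 172)) (XT.nd (nat_lit 78) (nat_lit 76) (nat_lit 0) (XT.lf (nat_lit 0) (nat_lit 57614759388) (nat_lit 228) (nat_lit 4200483158) (nat_lit 76) (nat_lit 11100787914) (nat_lit 16) (nat_lit 5) (nat_lit 19) (nat_lit 5) (nat_lit 17) (nat_lit 4) (nat_lit 287) (nat_lit 262) (nat_lit 171)) (XT.lf (nat_lit 0) (nat_lit 26999352027) (nat_lit 76) (nat_lit 45619345984) (nat_lit 152) (nat_lit 4508725847) (nat_lit 15) (nat_lit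 5) (nat_lit 16) (nat_lit 5) (nat_lit 17) (nat_lit 4) (nat_lit 288) (nat_lit 262) (nat_lit 170)))) (XT.nd (nat_lit 78) (nat_lit 152) (nat_lit 0) (XT.lf (nat_lit 0) (nat_lit 6904867567) (nat_lit 152) (nat_lit 20911581467) (nat_lit 76) (nat_lit 53836320754) (nat_lit 14) (nat_lit 5) (nat_lit 16) (nat_lit 5) (nat_lit 15) (nat_lit 5) (nat_lit 289) (nat_lit 262) (nat_lit 169)) (XT.nd (nat_lit 78) (nat_lit 0) (nat_lit 0) (XT.lf (nat_lit 0) (nat_lit 11075233536) (nat_lit 152) (nat_lit 8176628725) (nat_lit 228) (nat_lit 67257806241) (nat_lit 12) (nat_lit 5) (nat_lit 14) (nat_lit 5) (nat_lit 15) (nat_lit 5) (nat_lit 290) (nat_lit 262) (nat_lit 168)) (XT.lf (nat_lit 0) (nat_lit 33484302215) (nat_lit 228) (nat_lit 45231426414) (nat_lit 76) (nat_lit 12967581236) (nat_lit 12) (nat_lit 5) (nat_lit 15) (nat_lit 5) (nat_lit 13) (nat_lit 4) (nat_lit 291) (nat_lit 262) (nat_lit 167))))) (XT.nd (nat_lit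 234) (nat_lit 152) (nat_lit 0) (XT.nd (nat_lit 78) (nat_lit 76) (nat_lit 0) (XT.lf (nat_lit 0) (nat_lit 49065493262) (nat_lit 228) (nat_lit 12828236772) (nat_lit 76) (nat_lit 35360305224) (nat_lit 12) (nat_lit 5) (nat_lit 15) (nat_lit 5) (nat_lit 13) (nat_lit 4) (nat_lit 292) (nat_lit 262) (nat_lit 166)) (XT.nd (nat_lit 78) (nat_lit 0) (nat_lit 0) (XT.lf (nat_lit 0) (nat_lit 23330907459) (nat_lit 76) (nat_lit 43121321694) (nat_lit 152) (nat_lit 36773470374) (nat_lit 11) (nat_lit 5) (nat_lit 12) (nat_lit 5) (nat_lit 13) (nat_lit 4) (nat_lit 293) (nat_lit 262) (nat_lit 165)) (XT.lf (nat_lit 0) (nat_lit 63109015614) (nat_lit 76) (nat_lit 22469648382) (nat_lit 152) (nat_lit 24068536588) (nat_lit 11) (nat_lit 5) (nat_lit 12) (nat_lit 5) (nat_lit 13) (nat_lit 4) (nat_lit 294) (nat_lit 262) (nat_lit 164)))) (XT.nd (nat_lit 156) (nat_lit 0) (nat_lit 0) (XT.nd (nat_lit 78) (nat_lit 152) (nat_lit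 0) (XT.lf (nat_lit 0) (nat_lit 106066297598) (nat_lit 76) (nat_lit 167076538) (nat_lit 152) (nat_lit 10349198870) (nat_lit 11) (nat_lit 5) (nat_lit 12) (nat_lit 5) (nat_lit 13) (nat_lit 4) (nat_lit 295) (nat_lit 262) (nat_lit 163)) (XT.lf (nat_lit 0) (nat_lit 5554942042) (nat_lit 152) (nat_lit 94837666165) (nat_lit 76) (nat_lit 23566714880) (nat_lit 9) (nat_lit 5) (nat_lit 11) (nat_lit 5) (nat_lit 10) (nat_lit 4) (nat_lit 296) (nat_lit 262) (nat_lit 162))) (XT.nd (nat_lit 78) (nat_lit 0) (nat_lit 0) (XT.lf (nat_lit 0) (nat_lit 22469911642) (nat_lit 152) (nat_lit 59658113634) (nat_lit 76) (nat_lit 49752876503) (nat_lit 9) (nat_lit 5) (nat_lit 11) (nat_lit 5) (nat_lit 10) (nat_lit 4) (nat_lit 297) (nat_lit 262) (nat_lit 161)) (XT.lf (nat_lit 0) (nat_lit 40736487424) (nat_lit 152) (nat_lit 21666954747) (nat_lit 76) (nat_lit 78032894939) (nat_lit 9) (nat_lit 5) (nat_lit 11) (nat_lit 5)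 (nat_lit 10) (nat_lit 4) (nat_lit 298) (nat_lit 262) (nat_lit 160)))))) (XT.nd (nat_lit 468) (nat_lit 152) (nat_lit 0) (XT.nd (nat_lit 234) (nat_lit 76) (nat_lit 0) (XT.nd (nat_lit 78) (nat_lit 0) (nat_lit 0) (XT.lf (nat_lit 0) (nat_lit 20380456253) (nat_lit 76) (nat_lit 40572609973) (nat_lit 152) (nat_lit 88684049690) (nat_lit 8) (nat_lit 5) (nat_lit 9) (nat_lit 5) (nat_lit 10) (nat_lit 4) (nat_lit 299) (nat_lit 262) (nat_lit 159)) (XT.nd (nat_lit 78) (nat_lit 0) (nat_lit 0) (XT.lf (nat_lit 0) (nat_lit 67021390136) (nat_lit 76) (nat_lit 16356569920) (nat_lit 152) (nat_lit 76148720470) (nat_lit 8) (nat_lit 5) (nat_lit 9) (nat_lit 5) (nat_lit 10) (nat_lit 4) (nat_lit 300) (nat_lit 262) (nat_lit 158)) (XT.lf (nat_lit 0) (nat_lit 107831115119) (nat_lit 152) (nat_lit 53051812474) (nat_lit 0) (nat_lit 9305743540) (nat_lit 8) (nat_lit 5) (nat_lit 10) (nat_lit 4) (nat_lit 8) (nat_lit 4) (nat_lit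 301) (nat_lit 262) (nat_lit 157)))) (XT.nd (nat_lit 78) (nat_lit 76) (nat_lit 0) (XT.lf (nat_lit 0) (nat_lit 134664125570) (nat_lit 152) (nat_lit 10869114094) (nat_lit 0) (nat_lit 36136495313) (nat_lit 8) (nat_lit 5) (nat_lit 10) (nat_lit 4) (nat_lit 8) (nat_lit 4) (nat_lit 302) (nat_lit 262) (nat_lit 156)) (XT.nd (nat_lit 78) (nat_lit 0) (nat_lit 0) (XT.lf (nat_lit 0) (nat_lit 36512663499) (nat_lit 76) (nat_lit 128008092877) (nat_lit 76) (nat_lit 29478371252) (nat_lit 7) (nat_lit 4) (nat_lit 8) (nat_lit 5) (nat_lit 8) (nat_lit 4) (nat_lit 303) (nat_lit 262) (nat_lit 155)) (XT.lf (nat_lit 0) (nat_lit 88301123335) (nat_lit 76) (nat_lit 108760861485) (nat_lit 76) (nat_lit 10229203407) (nat_lit 7) (nat_lit 4) (nat_lit 8) (nat_lit 5) (nat_lit 8) (nat_lit 4) (nat_lit 304) (nat_lit 262) (nat_lit 154))))) (XT.nd (nat_lit 234) (nat_lit 0) (nat_lit 0) (XT.nd (nat_lit 78) (nat_lit 76) (nat_lit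 0) (XT.lf (nat_lit 0) (nat_lit 10030589366) (nat_lit 152) (nat_lit 77669825206) (nat_lit 76) (nat_lit 133925968246) (nat_lit 6) (nat_lit 5) (nat_lit 8) (nat_lit 5) (nat_lit 7) (nat_lit 4) (nat_lit 305) (nat_lit 262) (nat_lit 153)) (XT.nd (nat_lit 78) (nat_lit 76) (nat_lit 0) (XT.lf (nat_lit 0) (nat_lit 31357541739) (nat_lit 152) (nat_lit 33311424467) (nat_lit 76) (nat_lit 172418251291) (nat_lit 6) (nat_lit 5) (nat_lit 8) (nat_lit 5) (nat_lit 7) (nat_lit 4) (nat_lit 306) (nat_lit 262) (nat_lit 152)) (XT.lf (nat_lit 0) (nat_lit 15362509449) (nat_lit 76) (nat_lit 39396701105) (nat_lit 152) (nat_lit 198996224980) (nat_lit 5) (nat_lit 5) (nat_lit 6) (nat_lit 5) (nat_lit 7) (nat_lit 4) (nat_lit 307) (nat_lit 262) (nat_lit 151)))) (XT.nd (nat_lit 156) (nat_lit 0) (nat_lit 0) (XT.nd (nat_lit 78) (nat_lit 0) (nat_lit 0) (XT.lf (nat_lit 0) (nat_lit 69823215845) (nat_lit 76) (nat_lit 11119710933)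 (nat_lit 152) (nat_lit 190741392423) (nat_lit 5) (nat_lit 5) (nat_lit 6) (nat_lit 5) (nat_lit 7) (nat_lit 4) (nat_lit 308) (nat_lit 262) (nat_lit 150)) (XT.lf (nat_lit 0) (nat_lit 109687548058) (nat_lit 152) (nat_lit 162875297743) (nat_lit 0) (nat_lit 18447372343) (nat_lit 5) (nat_lit 5) (nat_lit 7) (nat_lit 4) (nat_lit 5) (nat_lit 4) (nat_lit 309) (nat_lit 262) (nat_lit 149))) (XT.nd (nat_lit 78) (nat_lit 0) (nat_lit 0) (XT.lf (nat_lit 0) (nat_lit 141019793992) (nat_lit 152) (nat_lit 121060863351) (nat_lit 0) (nat_lit 49778488376) (nat_lit 5) (nat_lit 5) (nat_lit 7) (nat_lit 4) (nat_lit 5) (nat_lit 4) (nat_lit 310) (nat_lit 262) (nat_lit 148)) (XT.lf (nat_lit 0) (nat_lit 174857907834) (nat_lit 152) (nat_lit 75902581627) (nat_lit 0) (nat_lit 83615556013) (nat_lit 5) (nat_lit 5) (nat_lit 7) (nat_lit 4) (nat_lit 5) (nat_lit 4) (nat_lit 311) (nat_lit 262) (nat_lit 147))))))) (XT.nd (nat_lit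 1014) (nat_lit 0) (nat_lit 0) (XT.nd (nat_lit 468) (nat_lit 152) (nat_lit 0) (XT.nd (nat_lit 234) (nat_lit 0) (nat_lit 0) (XT.nd (nat_lit 78) (nat_lit 76) (nat_lit 0) (XT.lf (nat_lit 0) (nat_lit 211402411741) (nat_lit 152) (nat_lit 27132847936) (nat_lit 0) (nat_lit 120159091211) (nat_lit 5) (nat_lit 5) (nat_lit 7) (nat_lit 4) (nat_lit 5) (nat_lit 4) (nat_lit 312) (nat_lit 262) (nat_lit 146)) (XT.nd (nat_lit 78) (nat_lit 0) (nat_lit 0) (XT.lf (nat_lit 0) (nat_lit 26882094803) (nat_lit 76) (nat_lit 224634285957) (nat_lit 76) (nat_lit 133390068476) (nat_lit 4) (nat_lit 4) (nat_lit 5) (nat_lit 5) (nat_lit 5) (nat_lit 4) (nat_lit 313) (nat_lit 262) (nat_lit 145)) (XT.lf (nat_lit 0) (nat_lit 86760209545) (nat_lit 76) (nat_lit 208820526606) (nat_lit 76) (nat_lit 117575478613) (nat_lit 4) (nat_lit 4) (nat_lit 5) (nat_lit 5) (nat_lit 5) (nat_lit 4) (nat_lit 314) (nat_lit 262) (nat_lit 144))))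 (XT.nd (nat_lit 78) (nat_lit 0) (nat_lit 0) (XT.lf (nat_lit 0) (nat_lit 151427561870) (nat_lit 76) (nat_lit 191742130602) (nat_lit 76) (nat_lit 100496313618) (nat_lit 4) (nat_lit 4) (nat_lit 5) (nat_lit 5) (nat_lit 5) (nat_lit 4) (nat_lit 315) (nat_lit 262) (nat_lit 143)) (XT.nd (nat_lit 78) (nat_lit 0) (nat_lit 0) (XT.lf (nat_lit 0) (nat_lit 221267365719) (nat_lit 76) (nat_lit 173297892638) (nat_lit 76) (nat_lit 82051363624) (nat_lit 4) (nat_lit 4) (nat_lit 5) (nat_lit 5) (nat_lit 5) (nat_lit 4) (nat_lit 316) (nat_lit 262) (nat_lit 142)) (XT.lf (nat_lit 0) (nat_lit 296693486596) (nat_lit 76) (nat_lit 153378513525) (nat_lit 76) (nat_lit 62131325224) (nat_lit 4) (nat_lit 4) (nat_lit 5) (nat_lit 5) (nat_lit 5) (nat_lit 4) (nat_lit 317) (nat_lit 262) (nat_lit 141))))) (XT.nd (nat_lit 234) (nat_lit 76) (nat_lit 0) (XT.nd (nat_lit 78) (nat_lit 76) (nat_lit 0) (XT.lf (nat_lit 0) (nat_lit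 378152894106) (nat_lit 76) (nat_lit 131865952497) (nat_lit 76) (nat_lit 40618153745) (nat_lit 4) (nat_lit 4) (nat_lit 5) (nat_lit 5) (nat_lit 5) (nat_lit 4) (nat_lit 318) (nat_lit 262) (nat_lit 140)) (XT.nd (nat_lit 78) (nat_lit 76) (nat_lit 0) (XT.lf (nat_lit 0) (nat_lit 466128310665) (nat_lit 76) (nat_lit 108632727712) (nat_lit 76) (nat_lit 17384363728) (nat_lit 4) (nat_lit 4) (nat_lit 5) (nat_lit 5) (nat_lit 5) (nat_lit 4) (nat_lit 319) (nat_lit 262) (nat_lit 139)) (XT.lf (nat_lit 0) (nat_lit 7322154847) (nat_lit 152) (nat_lit 76018805263) (nat_lit 76) (nat_lit 553618716536) (nat_lit 3) (nat_lit 5) (nat_lit 5) (nat_lit 5) (nat_lit 4) (nat_lit 4) (nat_lit 320) (nat_lit 262) (nat_lit 138)))) (XT.nd (nat_lit 156) (nat_lit 0) (nat_lit 0) (XT.nd (nat_lit 78) (nat_lit 76) (nat_lit 0) (XT.lf (nat_lit 0) (nat_lit 33065633294) (nat_lit 152) (nat_lit 22472854689) (nat_lit 76) (nat_lit 629784510612)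 (nat_lit 3) (nat_lit 5) (nat_lit 5) (nat_lit 5) (nat_lit 4) (nat_lit 4) (nat_lit 321) (nat_lit 262) (nat_lit 137)) (XT.lf (nat_lit 0) (nat_lit 37217956922) (nat_lit 76) (nat_lit 24545397675) (nat_lit 152) (nat_lit 675720450945) (nat_lit 2) (nat_lit 5) (nat_lit 3) (nat_lit 5) (nat_lit 4) (nat_lit 4) (nat_lit 322) (nat_lit 262) (nat_lit 136))) (XT.nd (nat_lit 78) (nat_lit 0) (nat_lit 0) (XT.lf (nat_lit 0) (nat_lit 93601674166) (nat_lit 152) (nat_lit 691037506004) (nat_lit 0) (nat_lit 9110714810) (nat_lit 2) (nat_lit 5) (nat_lit 4) (nat_lit 4) (nat_lit 2) (nat_lit 4) (nat_lit 323) (nat_lit 262) (nat_lit 135)) (XT.lf (nat_lit 0) (nat_lit 128624301430) (nat_lit 152) (nat_lit 681709005242) (nat_lit 0) (nat_lit 44132985882) (nat_lit 2) (nat_lit 5) (nat_lit 4) (nat_lit 4) (nat_lit 2) (nat_lit 4) (nat_lit 324) (nat_lit 262) (nat_lit 134)))))) (XT.nd (nat_lit 546) (nat_lit 0) (nat_lit 0) (XT.nd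 (nat_lit 234) (nat_lit 0) (nat_lit 0) (XT.nd (nat_lit 78) (nat_lit 0) (nat_lit 0) (XT.lf (nat_lit 0) (nat_lit 166448460480) (nat_lit 152) (nat_lit 671634748926) (nat_lit 0) (nat_lit 81956815125) (nat_lit 2) (nat_lit 5) (nat_lit 4) (nat_lit 4) (nat_lit 2) (nat_lit 4) (nat_lit 325) (nat_lit 262) (nat_lit 133)) (XT.nd (nat_lit 78) (nat_lit 0) (nat_lit 0) (XT.lf (nat_lit 0) (nat_lit 207298294481) (nat_lit 152) (nat_lit 660755037758) (nat_lit 0) (nat_lit 122806343749) (nat_lit 2) (nat_lit 5) (nat_lit 4) (nat_lit 4) (nat_lit 2) (nat_lit 4) (nat_lit 326) (nat_lit 262) (nat_lit 132)) (XT.lf (nat_lit 0) (nat_lit 251415876523) (nat_lit 152) (nat_lit 649005399378) (nat_lit 0) (nat_lit 166923643034) (nat_lit 2) (nat_lit 5) (nat_lit 4) (nat_lit 4) (nat_lit 2) (nat_lit 4) (nat_lit 327) (nat_lit 262) (nat_lit 131)))) (XT.nd (nat_lit 156) (nat_lit 0) (nat_lit 0) (XT.nd (nat_lit 78) (nat_lit 0) (nat_lit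 0) (XT.lf (nat_lit 0) (nat_lit 299062644130) (nat_lit 152) (nat_lit 636316206297) (nat_lit 0) (nat_lit 214570148829) (nat_lit 2) (nat_lit 5) (nat_lit 4) (nat_lit 4) (nat_lit 2) (nat_lit 4) (nat_lit 328) (nat_lit 262) (nat_lit 130)) (XT.lf (nat_lit 0) (nat_lit 350520948517) (nat_lit 152) (nat_lit 622612263298) (nat_lit 0) (nat_lit 266028210798) (nat_lit 2) (nat_lit 5) (nat_lit 4) (nat_lit 4) (nat_lit 2) (nat_lit 4) (nat_lit 329) (nat_lit 262) (nat_lit 129))) (XT.nd (nat_lit 78) (nat_lit 0) (nat_lit 0) (XT.lf (nat_lit 0) (nat_lit 406095727784) (nat_lit 152) (nat_lit 607812361830) (nat_lit 0) (nat_lit 321602765603) (nat_lit 2) (nat_lit 5) (nat_lit 4) (nat_lit 4) (nat_lit 2) (nat_lit 4) (nat_lit 330) (nat_lit 262) (nat_lit 128)) (XT.lf (nat_lit 0) (nat_lit 466116313956) (nat_lit 152) (nat_lit 591828798772) (nat_lit 0) (nat_lit 381623143941) (nat_lit 2) (nat_lit 5) (nat_lit 4) (nat_lit 4)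 (nat_lit 2) (nat_lit 4) (nat_lit 331) (nat_lit 262) (nat_lit 127))))) (XT.nd (nat_lit 234) (nat_lit 0) (nat_lit 0) (XT.nd (nat_lit 78) (nat_lit 0) (nat_lit 0) (XT.lf (nat_lit 0) (nat_lit 530938384581) (nat_lit 152) (nat_lit 574566856715) (nat_lit 0) (nat_lit 446445022126) (nat_lit 2) (nat_lit 5) (nat_lit 4) (nat_lit 4) (nat_lit 2) (nat_lit 4) (nat_lit 332) (nat_lit 262) (nat_lit 126)) (XT.nd (nat_lit 78) (nat_lit 0) (nat_lit 0) (XT.lf (nat_lit 0) (nat_lit 600946070448) (nat_lit 152) (nat_lit 555924242667) (nat_lit 0) (nat_lit 516452529808) (nat_lit 2) (nat_lit 5) (nat_lit 4) (nat_lit 4) (nat_lit 2) (nat_lit 4) (nat_lit 333) (nat_lit 262) (nat_lit 125)) (XT.lf (nat_lit 0) (nat_lit 676554231917) (nat_lit 152) (nat_lit 535790481880) (nat_lit 0) (nat_lit 592060526292) (nat_lit 2) (nat_lit 5) (nat_lit 4) (nat_lit 4) (nat_lit 2) (nat_lit 4) (nat_lit 334) (nat_lit 262) (nat_lit 124)))) (XT.nd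 (nat_lit 156) (nat_lit 0) (nat_lit 0) (XT.nd (nat_lit 78) (nat_lit 0) (nat_lit 0) (XT.lf (nat_lit 0) (nat_lit 758210917354) (nat_lit 152) (nat_lit 514046263178) (nat_lit 0) (nat_lit 673717058964) (nat_lit 2) (nat_lit 5) (nat_lit 4) (nat_lit 4) (nat_lit 2) (nat_lit 4) (nat_lit 335) (nat_lit 262) (nat_lit 123)) (XT.lf (nat_lit 0) (nat_lit 846400018226) (nat_lit 152) (nat_lit 490562731932) (nat_lit 0) (nat_lit 761906018387) (nat_lit 2) (nat_lit 5) (nat_lit 4) (nat_lit 4) (nat_lit 2) (nat_lit 4) (nat_lit 336) (nat_lit 262) (nat_lit 122))) (XT.nd (nat_lit 78) (nat_lit 0) (nat_lit 0) (XT.lf (nat_lit 0) (nat_lit 941644136614) (nat_lit 152) (nat_lit 465200726475) (nat_lit 0) (nat_lit 857150005804) (nat_lit 2) (nat_lit 5) (nat_lit 4) (nat_lit 4) (nat_lit 2) (nat_lit 4) (nat_lit 337) (nat_lit 262) (nat_lit 121)) (XT.lf (nat_lit 0) (nat_lit 1044507682107) (nat_lit 152) (nat_lit 437809953441) (nat_lit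 0) (nat_lit 960013430028) (nat_lit 2) (nat_lit 5) (nat_lit 4) (nat_lit 4) (nat_lit 2) (nat_lit 4) (nat_lit 338) (nat_lit 262) (nat_lit 120))))))))
noncomputable def xc89 : XT := (XT.nd (nat_lit 2028) (nat_lit 912) (nat_lit 0) (XT.nd (nat_lit 1014) (nat_lit 912) (nat_lit 0) (XT.nd (nat_lit 468) (nat_lit 684) (nat_lit 0) (XT.nd (nat_lit 234) (nat_lit 0) (nat_lit 76) (XT.nd (nat_lit 78) (nat_lit 0) (nat_lit 0) (XT.lf (nat_lit 0) (nat_lit 4677716774) (nat_lit 532) (nat_lit 3696598060) (nat_lit 532) (nat_lit 3696598060) (nat_lit 37) (nat_lit 3) (nat_lit 44) (nat_lit 3) (nat_lit 44) (nat_lit 5) (nat_lit 263) (nat_lit 263) (nat_lit 194)) (XT.nd (nat_lit 78) (nat_lit 0) (nat_lit 76) (XT.lf (nat_lit 76) (nat_lit 3249976243) (nat_lit 0) (nat_lit 6659108526) (nat_lit 532) (nat_lit 15183575724) (nat_lit 38) (nat_lit 5) (nat_lit 37) (nat_lit 3) (nat_lit 44) (nat_lit 5) (nat_lit 264) (nat_lit 263)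 (nat_lit 193)) (XT.lf (nat_lit 0) (nat_lit 10806172115) (nat_lit 456) (nat_lit 11052257608) (nat_lit 532) (nat_lit 4237249108) (nat_lit 38) (nat_lit 5) (nat_lit 44) (nat_lit 5) (nat_lit 45) (nat_lit 5) (nat_lit 265) (nat_lit 263) (nat_lit 192)))) (XT.nd (nat_lit 78) (nat_lit 0) (nat_lit 76) (XT.lf (nat_lit 76) (nat_lit 444408509) (nat_lit 0) (nat_lit 11504859379) (nat_lit 532) (nat_lit 15215776236) (nat_lit 39) (nat_lit 5) (nat_lit 38) (nat_lit 5) (nat_lit 45) (nat_lit 5) (nat_lit 266) (nat_lit 263) (nat_lit 191)) (XT.nd (nat_lit 78) (nat_lit 0) (nat_lit 0) (XT.lf (nat_lit 0) (nat_lit 13477286572) (nat_lit 456) (nat_lit 14813424762) (nat_lit 532) (nat_lit 5810769) (nat_lit 39) (nat_lit 5) (nat_lit 45) (nat_lit 5) (nat_lit 46) (nat_lit 5) (nat_lit 267) (nat_lit 263) (nat_lit 190)) (XT.lf (nat_lit 0) (nat_lit 15418231796) (nat_lit 456) (nat_lit 2258871943) (nat_lit 532) (nat_lit 11818198187)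 (nat_lit 39) (nat_lit 5) (nat_lit 45) (nat_lit 5) (nat_lit 46) (nat_lit 5) (nat_lit 268) (nat_lit 263) (nat_lit 189))))) (XT.nd (nat_lit 234) (nat_lit 456) (nat_lit 0) (XT.nd (nat_lit 78) (nat_lit 380) (nat_lit 0) (XT.lf (nat_lit 76) (nat_lit 11888840275) (nat_lit 0) (nat_lit 5903999933) (nat_lit 532) (nat_lit 12974908487) (nat_lit 40) (nat_lit 5) (nat_lit 39) (nat_lit 5) (nat_lit 46) (nat_lit 5) (nat_lit 269) (nat_lit 263) (nat_lit 188)) (XT.nd (nat_lit 78) (nat_lit 456) (nat_lit 0) (XT.lf (nat_lit 0) (nat_lit 20577498852) (nat_lit 456) (nat_lit 5012041778) (nat_lit 76) (nat_lit 6534876981) (nat_lit 40) (nat_lit 5) (nat_lit 46) (nat_lit 5) (nat_lit 41) (nat_lit 5) (nat_lit 270) (nat_lit 263) (nat_lit 187)) (XT.lf (nat_lit 0) (nat_lit 10321189335) (nat_lit 456) (nat_lit 13658753607) (nat_lit 532) (nat_lit 9578106568) (nat_lit 34) (nat_lit 5) (nat_lit 40) (nat_lit 5) (nat_lit 41) (nat_lit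 5) (nat_lit 271) (nat_lit 263) (nat_lit 186)))) (XT.nd (nat_lit 156) (nat_lit 228) (nat_lit 0) (XT.nd (nat_lit 78) (nat_lit 228) (nat_lit 0) (XT.lf (nat_lit 0) (nat_lit 27160326718) (nat_lit 456) (nat_lit 625078046) (nat_lit 532) (nat_lit 7310529654) (nat_lit 34) (nat_lit 5) (nat_lit 40) (nat_lit 5) (nat_lit 41) (nat_lit 5) (nat_lit 272) (nat_lit 263) (nat_lit 185)) (XT.lf (nat_lit 0) (nat_lit 8695359687) (nat_lit 228) (nat_lit 23726825328) (nat_lit 304) (nat_lit 4292540725) (nat_lit 31) (nat_lit 5) (nat_lit 34) (nat_lit 5) (nat_lit 35) (nat_lit 5) (nat_lit 273) (nat_lit 263) (nat_lit 184))) (XT.nd (nat_lit 78) (nat_lit 228) (nat_lit 0) (XT.lf (nat_lit 0) (nat_lit 27085308575) (nat_lit 228) (nat_lit 10571939738) (nat_lit 304) (nat_lit 787609010) (nat_lit 31) (nat_lit 5) (nat_lit 34) (nat_lit 5) (nat_lit 35) (nat_lit 5) (nat_lit 274) (nat_lit 263) (nat_lit 183)) (XT.lf (nat_lit 0) (nat_lit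 3102116314) (nat_lit 228) (nat_lit 33487825267) (nat_lit 76) (nat_lit 3697362427) (nat_lit 28) (nat_lit 5) (nat_lit 31) (nat_lit 5) (nat_lit 29) (nat_lit 5) (nat_lit 275) (nat_lit 263) (nat_lit 182)))))) (XT.nd (nat_lit 468) (nat_lit 532) (nat_lit 0) (XT.nd (nat_lit 234) (nat_lit 152) (nat_lit 0) (XT.nd (nat_lit 78) (nat_lit 228) (nat_lit 0) (XT.lf (nat_lit 0) (nat_lit 7848758648) (nat_lit 228) (nat_lit 15504007992) (nat_lit 76) (nat_lit 18875699186) (nat_lit 28) (nat_lit 5) (nat_lit 31) (nat_lit 5) (nat_lit 29) (nat_lit 5) (nat_lit 276) (nat_lit 263) (nat_lit 181)) (XT.nd (nat_lit 78) (nat_lit 0) (nat_lit 0) (XT.lf (nat_lit 0) (nat_lit 4119160339) (nat_lit 228) (nat_lit 8950442581) (nat_lit 304) (nat_lit 31247777817) (nat_lit 25) (nat_lit 5) (nat_lit 28) (nat_lit 5) (nat_lit 29) (nat_lit 5) (nat_lit 277) (nat_lit 263) (nat_lit 180)) (XT.lf (nat_lit 0) (nat_lit 19297457066) (nat_lit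 304) (nat_lit 20521045981) (nat_lit 76) (nat_lit 6707774879) (nat_lit 25) (nat_lit 5) (nat_lit 29) (nat_lit 5) (nat_lit 26) (nat_lit 5) (nat_lit 278) (nat_lit 263) (nat_lit 179)))) (XT.nd (nat_lit 78) (nat_lit 0) (nat_lit 0) (XT.lf (nat_lit 0) (nat_lit 518560171) (nat_lit 152) (nat_lit 25745852680) (nat_lit 228) (nat_lit 22628219429) (nat_lit 23) (nat_lit 5) (nat_lit 25) (nat_lit 5) (nat_lit 26) (nat_lit 5) (nat_lit 279) (nat_lit 263) (nat_lit 178)) (XT.nd (nat_lit 78) (nat_lit 0) (nat_lit 0) (XT.lf (nat_lit 0) (nat_lit 24403312954) (nat_lit 152) (nat_lit 9942596829) (nat_lit 228) (nat_lit 17057824546) (nat_lit 23) (nat_lit 5) (nat_lit 25) (nat_lit 5) (nat_lit 26) (nat_lit 5) (nat_lit 280) (nat_lit 263) (nat_lit 177)) (XT.lf (nat_lit 0) (nat_lit 43241646390) (nat_lit 228) (nat_lit 4093204888) (nat_lit 76) (nat_lit 6767468750) (nat_lit 23) (nat_lit 5) (nat_lit 26) (nat_lit 5) (nat_lit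 24) (nat_lit 5) (nat_lit 281) (nat_lit 263) (nat_lit 176))))) (XT.nd (nat_lit 234) (nat_lit 152) (nat_lit 0) (XT.nd (nat_lit 78) (nat_lit 228) (nat_lit 0) (XT.lf (nat_lit 0) (nat_lit 21457107535) (nat_lit 152) (nat_lit 32162862269) (nat_lit 228) (nat_lit 3335160656) (nat_lit 21) (nat_lit 5) (nat_lit 23) (nat_lit 5) (nat_lit 24) (nat_lit 5) (nat_lit 282) (nat_lit 263) (nat_lit 175)) (XT.nd (nat_lit 78) (nat_lit 152) (nat_lit 0) (XT.lf (nat_lit 0) (nat_lit 4664162451) (nat_lit 228) (nat_lit 10865819529) (nat_lit 76) (nat_lit 44488053232) (nat_lit 20) (nat_lit 5) (nat_lit 23) (nat_lit 5) (nat_lit 21) (nat_lit 5) (nat_lit 283) (nat_lit 263) (nat_lit 174)) (XT.lf (nat_lit 0) (nat_lit 13587309676) (nat_lit 228) (nat_lit 46888746597) (nat_lit 76) (nat_lit 2805870393) (nat_lit 18) (nat_lit 5) (nat_lit 21) (nat_lit 5) (nat_lit 19) (nat_lit 5) (nat_lit 284) (nat_lit 263) (nat_lit 173)))) (XT.nd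 (nat_lit 156) (nat_lit 0) (nat_lit 0) (XT.nd (nat_lit 78) (nat_lit 152) (nat_lit 0) (XT.lf (nat_lit 0) (nat_lit 23929515329) (nat_lit 228) (nat_lit 20747837124) (nat_lit 76) (nat_lit 22073169354) (nat_lit 18) (nat_lit 5) (nat_lit 21) (nat_lit 5) (nat_lit 19) (nat_lit 5) (nat_lit 285) (nat_lit 263) (nat_lit 172)) (XT.lf (nat_lit 0) (nat_lit 7874139051) (nat_lit 152) (nat_lit 27411575216) (nat_lit 228) (nat_lit 35195969185) (nat_lit 16) (nat_lit 5) (nat_lit 18) (nat_lit 5) (nat_lit 19) (nat_lit 5) (nat_lit 286) (nat_lit 263) (nat_lit 171))) (XT.nd (nat_lit 78) (nat_lit 0) (nat_lit 0) (XT.lf (nat_lit 0) (nat_lit 39961822680) (nat_lit 152) (nat_lit 8153220689) (nat_lit 228) (nat_lit 26351131549) (nat_lit 16) (nat_lit 5) (nat_lit 18) (nat_lit 5) (nat_lit 19) (nat_lit 5) (nat_lit 287) (nat_lit 263) (nat_lit 170)) (XT.lf (nat_lit 0) (nat_lit 62272368372) (nat_lit 228) (nat_lit 4460912062)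 (nat_lit 76) (nat_lit 12012020367) (nat_lit 16) (nat_lit 5) (nat_lit 19) (nat_lit 5) (nat_lit 17) (nat_lit 4) (nat_lit 288) (nat_lit 263) (nat_lit 169))))))) (XT.nd (nat_lit 1014) (nat_lit 304) (nat_lit 0) (XT.nd (nat_lit 468) (nat_lit 228) (nat_lit 0) (XT.nd (nat_lit 234) (nat_lit 76) (nat_lit 0) (XT.nd (nat_lit 78) (nat_lit 228) (nat_lit 0) (XT.lf (nat_lit 0) (nat_lit 29232995768) (nat_lit 76) (nat_lit 49241811421) (nat_lit 152) (nat_lit 4818953883) (nat_lit 15) (nat_lit 5) (nat_lit 16) (nat_lit 5) (nat_lit 17) (nat_lit 4) (nat_lit 289) (nat_lit 263) (nat_lit 168)) (XT.nd (nat_lit 78) (nat_lit 152) (nat_lit 0) (XT.lf (nat_lit 0) (nat_lit 7501650784) (nat_lit 152) (nat_lit 22513824218) (nat_lit 76) (nat_lit 58165855444) (nat_lit 14) (nat_lit 5) (nat_lit 16) (nat_lit 5) (nat_lit 15) (nat_lit 5) (nat_lit 290) (nat_lit 263) (nat_lit 167)) (XT.lf (nat_lit 0) (nat_lit 12030146523) (nat_lit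 152) (nat_lit 8804627009) (nat_lit 228) (nat_lit 72592146151) (nat_lit 12) (nat_lit 5) (nat_lit 14) (nat_lit 5) (nat_lit 15) (nat_lit 5) (nat_lit 291) (nat_lit 263) (nat_lit 166)))) (XT.nd (nat_lit 78) (nat_lit 76) (nat_lit 0) (XT.lf (nat_lit 0) (nat_lit 36203223028) (nat_lit 228) (nat_lit 48783470039) (nat_lit 76) (nat_lit 14027973646) (nat_lit 12) (nat_lit 5) (nat_lit 15) (nat_lit 5) (nat_lit 13) (nat_lit 4) (nat_lit 292) (nat_lit 263) (nat_lit 165)) (XT.nd (nat_lit 78) (nat_lit 76) (nat_lit 0) (XT.lf (nat_lit 0) (nat_lit 53027933312) (nat_lit 228) (nat_lit 13792948966) (nat_lit 76) (nat_lit 38210412893) (nat_lit 12) (nat_lit 5) (nat_lit 15) (nat_lit 5) (nat_lit 13) (nat_lit 4) (nat_lit 293) (nat_lit 263) (nat_lit 164)) (XT.lf (nat_lit 0) (nat_lit 25257368658) (nat_lit 76) (nat_lit 46546926544) (nat_lit 152) (nat_lit 39676508843) (nat_lit 11) (nat_lit 5) (nat_lit 12) (nat_lit 5) (nat_lit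 13) (nat_lit 4) (nat_lit 294) (nat_lit 263) (nat_lit 163))))) (XT.nd (nat_lit 234) (nat_lit 76) (nat_lit 0) (XT.nd (nat_lit 78) (nat_lit 152) (nat_lit 0) (XT.lf (nat_lit 0) (nat_lit 68213281865) (nat_lit 76) (nat_lit 24244904617) (nat_lit 152) (nat_lit 25958057329) (nat_lit 11) (nat_lit 5) (nat_lit 12) (nat_lit 5) (nat_lit 13) (nat_lit 4) (nat_lit 295) (nat_lit 263) (nat_lit 162)) (XT.nd (nat_lit 78) (nat_lit 152) (nat_lit 0) (XT.lf (nat_lit 0) (nat_lit 114603031963) (nat_lit 76) (nat_lit 159780036) (nat_lit 152) (nat_lit 11143836459) (nat_lit 11) (nat_lit 5) (nat_lit 12) (nat_lit 5) (nat_lit 13) (nat_lit 4) (nat_lit 296) (nat_lit 263) (nat_lit 161)) (XT.lf (nat_lit 0) (nat_lit 6030384741) (nat_lit 152) (nat_lit 102370874954) (nat_lit 76) (nat_lit 25472266334) (nat_lit 9) (nat_lit 5) (nat_lit 11) (nat_lit 5) (nat_lit 10) (nat_lit 4) (nat_lit 297) (nat_lit 263) (nat_lit 160)))) (XT.nd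 (nat_lit 156) (nat_lit 76) (nat_lit 0) (XT.nd (nat_lit 78) (nat_lit 0) (nat_lit 0) (XT.lf (nat_lit 0) (nat_lit 24296252107) (nat_lit 152) (nat_lit 64380943740) (nat_lit 76) (nat_lit 53751823535) (nat_lit 9) (nat_lit 5) (nat_lit 11) (nat_lit 5) (nat_lit 10) (nat_lit 4) (nat_lit 298) (nat_lit 263) (nat_lit 159)) (XT.lf (nat_lit 0) (nat_lit 44022024505) (nat_lit 152) (nat_lit 23354182437) (nat_lit 76) (nat_lit 84292857008) (nat_lit 9) (nat_lit 5) (nat_lit 11) (nat_lit 5) (nat_lit 10) (nat_lit 4) (nat_lit 299) (nat_lit 263) (nat_lit 158))) (XT.nd (nat_lit 78) (nat_lit 0) (nat_lit 0) (XT.lf (nat_lit 0) (nat_lit 22055853628) (nat_lit 76) (nat_lit 43799185582) (nat_lit 152) (nat_lit 95750940836) (nat_lit 8) (nat_lit 5) (nat_lit 9) (nat_lit 5) (nat_lit 10) (nat_lit 4) (nat_lit 300) (nat_lit 263) (nat_lit 157)) (XT.lf (nat_lit 0) (nat_lit 72424731786) (nat_lit 76) (nat_lit 17647287006) (nat_lit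 152) (nat_lit 82214846969) (nat_lit 8) (nat_lit 5) (nat_lit 9) (nat_lit 5) (nat_lit 10) (nat_lit 4) (nat_lit 301) (nat_lit 263) (nat_lit 156)))))) (XT.nd (nat_lit 546) (nat_lit 76) (nat_lit 0) (XT.nd (nat_lit 234) (nat_lit 152) (nat_lit 0) (XT.nd (nat_lit 78) (nat_lit 76) (nat_lit 0) (XT.lf (nat_lit 0) (nat_lit 116480058242) (nat_lit 152) (nat_lit 57256002516) (nat_lit 0) (nat_lit 10065867518) (nat_lit 8) (nat_lit 5) (nat_lit 10) (nat_lit 4) (nat_lit 8) (nat_lit 4) (nat_lit 302) (nat_lit 263) (nat_lit 155)) (XT.nd (nat_lit 78) (nat_lit 76) (nat_lit 0) (XT.lf (nat_lit 0) (nat_lit 145458046276) (nat_lit 152) (nat_lit 11701647892) (nat_lit 0) (nat_lit 39041919100) (nat_lit 8) (nat_lit 5) (nat_lit 10) (nat_lit 4) (nat_lit 8) (nat_lit 4) (nat_lit 303) (nat_lit 263) (nat_lit 154)) (XT.lf (nat_lit 0) (nat_lit 39469735317) (nat_lit 76) (nat_lit 138232799395) (nat_lit 76) (nat_lit 31814879206)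 (nat_lit 7) (nat_lit 4) (nat_lit 8) (nat_lit 5) (nat_lit 8) (nat_lit 4) (nat_lit 304) (nat_lit 263) (nat_lit 153)))) (XT.nd (nat_lit 156) (nat_lit 76) (nat_lit 0) (XT.nd (nat_lit 78) (nat_lit 76) (nat_lit 0) (XT.lf (nat_lit 0) (nat_lit 95398600922) (nat_lit 76) (nat_lit 117446970300) (nat_lit 76) (nat_lit 11027389915) (nat_lit 7) (nat_lit 4) (nat_lit 8) (nat_lit 5) (nat_lit 8) (nat_lit 4) (nat_lit 305) (nat_lit 263) (nat_lit 152)) (XT.lf (nat_lit 0) (nat_lit 10850760397) (nat_lit 152) (nat_lit 83851535976) (nat_lit 76) (nat_lit 144652751779) (nat_lit 6) (nat_lit 5) (nat_lit 8) (nat_lit 5) (nat_lit 7) (nat_lit 4) (nat_lit 306) (nat_lit 263) (nat_lit 151))) (XT.nd (nat_lit 78) (nat_lit 76) (nat_lit 0) (XT.lf (nat_lit 0) (nat_lit 33882556079) (nat_lit 152) (nat_lit 35946824307) (nat_lit 76) (nat_lit 186223476277) (nat_lit 6) (nat_lit 5) (nat_lit 8) (nat_lit 5) (nat_lit 7) (nat_lit 4) (nat_lit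 307) (nat_lit 263) (nat_lit 150)) (XT.lf (nat_lit 0) (nat_lit 16620277129) (nat_lit 76) (nat_lit 42535557485) (nat_lit 152) (nat_lit 214898741309) (nat_lit 5) (nat_lit 5) (nat_lit 6) (nat_lit 5) (nat_lit 7) (nat_lit 4) (nat_lit 308) (nat_lit 263) (nat_lit 149))))) (XT.nd (nat_lit 234) (nat_lit 76) (nat_lit 0) (XT.nd (nat_lit 78) (nat_lit 0) (nat_lit 0) (XT.lf (nat_lit 0) (nat_lit 75435709153) (nat_lit 76) (nat_lit 11997362152) (nat_lit 152) (nat_lit 205984794863) (nat_lit 5) (nat_lit 5) (nat_lit 6) (nat_lit 5) (nat_lit 7) (nat_lit 4) (nat_lit 309) (nat_lit 263) (nat_lit 148)) (XT.nd (nat_lit 78) (nat_lit 0) (nat_lit 0) (XT.lf (nat_lit 0) (nat_lit 118476438197) (nat_lit 152) (nat_lit 175879814343) (nat_lit 0) (nat_lit 19933652025) (nat_lit 5) (nat_lit 5) (nat_lit 7) (nat_lit 4) (nat_lit 5) (nat_lit 4) (nat_lit 310) (nat_lit 263) (nat_lit 147)) (XT.lf (nat_lit 0) (nat_lit 152314235191)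 (nat_lit 152) (nat_lit 130722114624) (nat_lit 0) (nat_lit 53770480311) (nat_lit 5) (nat_lit 5) (nat_lit 7) (nat_lit 4) (nat_lit 5) (nat_lit 4) (nat_lit 311) (nat_lit 263) (nat_lit 146)))) (XT.nd (nat_lit 156) (nat_lit 76) (nat_lit 0) (XT.nd (nat_lit 78) (nat_lit 0) (nat_lit 0) (XT.lf (nat_lit 0) (nat_lit 188858445720) (nat_lit 152) (nat_lit 81952919828) (nat_lit 0) (nat_lit 90313793888) (nat_lit 5) (nat_lit 5) (nat_lit 7) (nat_lit 4) (nat_lit 5) (nat_lit 4) (nat_lit 312) (nat_lit 263) (nat_lit 145)) (XT.lf (nat_lit 0) (nat_lit 228325628068) (nat_lit 152) (nat_lit 29283227319) (nat_lit 0) (nat_lit 129780145725) (nat_lit 5) (nat_lit 5) (nat_lit 7) (nat_lit 4) (nat_lit 5) (nat_lit 4) (nat_lit 313) (nat_lit 263) (nat_lit 144))) (XT.nd (nat_lit 78) (nat_lit 0) (nat_lit 0) (XT.lf (nat_lit 0) (nat_lit 29052398221) (nat_lit 76) (nat_lit 242595974488) (nat_lit 76) (nat_lit 144049723153) (nat_lit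 4) (nat_lit 4) (nat_lit 5) (nat_lit 5) (nat_lit 5) (nat_lit 4) (nat_lit 314) (nat_lit 263) (nat_lit 143)) (XT.lf (nat_lit 0) (nat_lit 93719300228) (nat_lit 76) (nat_lit 225517785081) (nat_lit 76) (nat_lit 126970821716) (nat_lit 4) (nat_lit 4) (nat_lit 5) (nat_lit 5) (nat_lit 5) (nat_lit 4) (nat_lit 315) (nat_lit 263) (nat_lit 142))))))))
noncomputable def xc90 : XT := (XT.nd (nat_lit 33696) (nat_lit 0) (nat_lit 760) (XT.nd (nat_lit 1014) (nat_lit 0) (nat_lit 0) (XT.nd (nat_lit 468) (nat_lit 76) (nat_lit 0) (XT.nd (nat_lit 234) (nat_lit 76) (nat_lit 0) (XT.nd (nat_lit 78) (nat_lit 0) (nat_lit 0) (XT.lf (nat_lit 0) (nat_lit 163558687116) (nat_lit 76) (nat_lit 207073738409) (nat_lit 76) (nat_lit 108526115757) (nat_lit 4) (nat_lit 4) (nat_lit 5) (nat_lit 5) (nat_lit 5) (nat_lit 4) (nat_lit 316) (nat_lit 263) (nat_lit 141)) (XT.nd (nat_lit 78) (nat_lit 0) (nat_lit 0) (XT.lf (nat_lit 0) (nat_lit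 238984421918) (nat_lit 76) (nat_lit 187154536418) (nat_lit 76) (nat_lit 88606303315) (nat_lit 4) (nat_lit 4) (nat_lit 5) (nat_lit 5) (nat_lit 5) (nat_lit 4) (nat_lit 317) (nat_lit 263) (nat_lit 140)) (XT.lf (nat_lit 0) (nat_lit 320443471951) (nat_lit 76) (nat_lit 165642139392) (nat_lit 76) (nat_lit 67093341058) (nat_lit 4) (nat_lit 4) (nat_lit 5) (nat_lit 5) (nat_lit 5) (nat_lit 4) (nat_lit 318) (nat_lit 263) (nat_lit 139)))) (XT.nd (nat_lit 78) (nat_lit 76) (nat_lit 0) (XT.lf (nat_lit 0) (nat_lit 408418557512) (nat_lit 76) (nat_lit 142409066461) (nat_lit 76) (nat_lit 43859744764) (nat_lit 4) (nat_lit 4) (nat_lit 5) (nat_lit 5) (nat_lit 5) (nat_lit 4) (nat_lit 319) (nat_lit 263) (nat_lit 138)) (XT.nd (nat_lit 78) (nat_lit 76) (nat_lit 0) (XT.lf (nat_lit 0) (nat_lit 503431012441) (nat_lit 76) (nat_lit 117317640155) (nat_lit 76) (nat_lit 18767833862) (nat_lit 4) (nat_lit 4) (nat_lit 5)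 (nat_lit 5) (nat_lit 5) (nat_lit 4) (nat_lit 320) (nat_lit 263) (nat_lit 137)) (XT.lf (nat_lit 0) (nat_lit 7914329866) (nat_lit 152) (nat_lit 82088448870) (nat_lit 76) (nat_lit 597913151839) (nat_lit 3) (nat_lit 5) (nat_lit 5) (nat_lit 5) (nat_lit 4) (nat_lit 4) (nat_lit 321) (nat_lit 263) (nat_lit 136))))) (XT.nd (nat_lit 234) (nat_lit 0) (nat_lit 0) (XT.nd (nat_lit 78) (nat_lit 76) (nat_lit 0) (XT.lf (nat_lit 0) (nat_lit 35716812319) (nat_lit 152) (nat_lit 24259700829) (nat_lit 76) (nat_lit 680171843664) (nat_lit 3) (nat_lit 5) (nat_lit 5) (nat_lit 5) (nat_lit 4) (nat_lit 4) (nat_lit 322) (nat_lit 263) (nat_lit 135)) (XT.nd (nat_lit 78) (nat_lit 0) (nat_lit 0) (XT.lf (nat_lit 0) (nat_lit 40206097679) (nat_lit 76) (nat_lit 26504071946) (nat_lit 152) (nat_lit 729771873776) (nat_lit 2) (nat_lit 5) (nat_lit 3) (nat_lit 5) (nat_lit 4) (nat_lit 4) (nat_lit 323) (nat_lit 263) (nat_lit 134))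 (XT.lf (nat_lit 0) (nat_lit 101095239478) (nat_lit 152) (nat_lit 746310273559) (nat_lit 0) (nat_lit 9843932687) (nat_lit 2) (nat_lit 5) (nat_lit 4) (nat_lit 4) (nat_lit 2) (nat_lit 4) (nat_lit 324) (nat_lit 263) (nat_lit 133)))) (XT.nd (nat_lit 156) (nat_lit 0) (nat_lit 0) (XT.nd (nat_lit 78) (nat_lit 0) (nat_lit 0) (XT.lf (nat_lit 0) (nat_lit 138919274599) (nat_lit 152) (nat_lit 736236250730) (nat_lit 0) (nat_lit 47667662430) (nat_lit 2) (nat_lit 5) (nat_lit 4) (nat_lit 4) (nat_lit 2) (nat_lit 4) (nat_lit 325) (nat_lit 263) (nat_lit 132)) (XT.lf (nat_lit 0) (nat_lit 179768993850) (nat_lit 152) (nat_lit 725356755756) (nat_lit 0) (nat_lit 88517098925) (nat_lit 2) (nat_lit 5) (nat_lit 4) (nat_lit 4) (nat_lit 2) (nat_lit 4) (nat_lit 326) (nat_lit 263) (nat_lit 131))) (XT.nd (nat_lit 78) (nat_lit 0) (nat_lit 0) (XT.lf (nat_lit 0) (nat_lit 223886469643) (nat_lit 152) (nat_lit 713607317553)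 (nat_lit 0) (nat_lit 132634312906) (nat_lit 2) (nat_lit 5) (nat_lit 4) (nat_lit 4) (nat_lit 2) (nat_lit 4) (nat_lit 327) (nat_lit 263) (nat_lit 130)) (XT.lf (nat_lit 0) (nat_lit 271533138871) (nat_lit 152) (nat_lit 700918309823) (nat_lit 0) (nat_lit 180280739716) (nat_lit 2) (nat_lit 5) (nat_lit 4) (nat_lit 4) (nat_lit 2) (nat_lit 4) (nat_lit 328) (nat_lit 263) (nat_lit 129)))))) (XT.nd (nat_lit 468) (nat_lit 0) (nat_lit 0) (XT.nd (nat_lit 234) (nat_lit 0) (nat_lit 0) (XT.nd (nat_lit 78) (nat_lit 0) (nat_lit 0) (XT.lf (nat_lit 0) (nat_lit 322991352166) (nat_lit 152) (nat_lit 687214538444) (nat_lit 0) (nat_lit 231738728549) (nat_lit 2) (nat_lit 5) (nat_lit 4) (nat_lit 4) (nat_lit 2) (nat_lit 4) (nat_lit 329) (nat_lit 263) (nat_lit 128)) (XT.nd (nat_lit 78) (nat_lit 0) (nat_lit 0) (XT.lf (nat_lit 0) (nat_lit 378566047088) (nat_lit 152) (nat_lit 672414795883) (nat_lit 0) (nat_lit 287313215637)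 (nat_lit 2) (nat_lit 5) (nat_lit 4) (nat_lit 4) (nat_lit 2) (nat_lit 4) (nat_lit 330) (nat_lit 263) (nat_lit 127)) (XT.lf (nat_lit 0) (nat_lit 438586555164) (nat_lit 152) (nat_lit 656431379963) (nat_lit 0) (nat_lit 347333531273) (nat_lit 2) (nat_lit 5) (nat_lit 4) (nat_lit 4) (nat_lit 2) (nat_lit 4) (nat_lit 331) (nat_lit 263) (nat_lit 126)))) (XT.nd (nat_lit 78) (nat_lit 0) (nat_lit 0) (XT.lf (nat_lit 0) (nat_lit 503408553477) (nat_lit 152) (nat_lit 639169574143) (nat_lit 0) (nat_lit 412155351402) (nat_lit 2) (nat_lit 5) (nat_lit 4) (nat_lit 4) (nat_lit 2) (nat_lit 4) (nat_lit 332) (nat_lit 263) (nat_lit 125)) (XT.nd (nat_lit 78) (nat_lit 0) (nat_lit 0) (XT.lf (nat_lit 0) (nat_lit 573416172389) (nat_lit 152) (nat_lit 620527086242) (nat_lit 0) (nat_lit 482162805328) (nat_lit 2) (nat_lit 5) (nat_lit 4) (nat_lit 4) (nat_lit 2) (nat_lit 4) (nat_lit 333) (nat_lit 263) (nat_lit 124)) (XT.lf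 (nat_lit 0) (nat_lit 649024271863) (nat_lit 152) (nat_lit 600393442257) (nat_lit 0) (nat_lit 557770752037) (nat_lit 2) (nat_lit 5) (nat_lit 4) (nat_lit 4) (nat_lit 2) (nat_lit 4) (nat_lit 334) (nat_lit 263) (nat_lit 123))))) (XT.nd (nat_lit 234) (nat_lit 0) (nat_lit 0) (XT.nd (nat_lit 78) (nat_lit 0) (nat_lit 0) (XT.lf (nat_lit 0) (nat_lit 730680899896) (nat_lit 152) (nat_lit 578649331704) (nat_lit 0) (nat_lit 639427238621) (nat_lit 2) (nat_lit 5) (nat_lit 4) (nat_lit 4) (nat_lit 2) (nat_lit 4) (nat_lit 335) (nat_lit 263) (nat_lit 122)) (XT.nd (nat_lit 78) (nat_lit 0) (nat_lit 0) (XT.lf (nat_lit 0) (nat_lit 818869947617) (nat_lit 152) (nat_lit 555165900597) (nat_lit 0) (nat_lit 727616155372) (nat_lit 2) (nat_lit 5) (nat_lit 4) (nat_lit 4) (nat_lit 2) (nat_lit 4) (nat_lit 336) (nat_lit 263) (nat_lit 121)) (XT.lf (nat_lit 0) (nat_lit 914114016791) (nat_lit 152) (nat_lit 529803987861)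 (nat_lit 0) (nat_lit 822860103276) (nat_lit 2) (nat_lit 5) (nat_lit 4) (nat_lit 4) (nat_lit 2) (nat_lit 4) (nat_lit 337) (nat_lit 263) (nat_lit 120)))) (XT.nd (nat_lit 31824) (nat_lit 0) (nat_lit 2660) (XT.nd (nat_lit 31746) (nat_lit 0) (nat_lit 2660) (XT.lf (nat_lit 0) (nat_lit 1016977516716) (nat_lit 152) (nat_lit 502413300680) (nat_lit 0) (nat_lit 925723490914) (nat_lit 2) (nat_lit 5) (nat_lit 4) (nat_lit 4) (nat_lit 2) (nat_lit 4) (nat_lit 338) (nat_lit 263) (nat_lit 119)) (XT.lf (nat_lit 0) (nat_lit 5150770397) (nat_lit 532) (nat_lit 3938718319) (nat_lit 532) (nat_lit 3938718319) (nat_lit 37) (nat_lit 3) (nat_lit 44) (nat_lit 3) (nat_lit 44) (nat_lit 5) (nat_lit 264) (nat_lit 264) (nat_lit 192))) (XT.nd (nat_lit 78) (nat_lit 0) (nat_lit 76) (XT.lf (nat_lit 76) (nat_lit 3614475207) (nat_lit 0) (nat_lit 7272879741) (nat_lit 532) (nat_lit 16197000857) (nat_lit 38) (nat_lit 5) (nat_lit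 37) (nat_lit 3) (nat_lit 44) (nat_lit 5) (nat_lit 265) (nat_lit 264) (nat_lit 191)) (XT.lf (nat_lit 0) (nat_lit 11840660627) (nat_lit 456) (nat_lit 11823320192) (nat_lit 532) (nat_lit 4504943429) (nat_lit 38) (nat_lit 5) (nat_lit 44) (nat_lit 5) (nat_lit 45) (nat_lit 5) (nat_lit 266) (nat_lit 264) (nat_lit 190))))))) (XT.nd (nat_lit 1014) (nat_lit 988) (nat_lit 0) (XT.nd (nat_lit 468) (nat_lit 684) (nat_lit 0) (XT.nd (nat_lit 234) (nat_lit 304) (nat_lit 0) (XT.nd (nat_lit 78) (nat_lit 0) (nat_lit 0) (XT.lf (nat_lit 76) (nat_lit 590215467) (nat_lit 0) (nat_lit 12475048010) (nat_lit 532) (nat_lit 16259430483) (nat_lit 39) (nat_lit 5) (nat_lit 38) (nat_lit 5) (nat_lit 45) (nat_lit 5) (nat_lit 267) (nat_lit 264) (nat_lit 189)) (XT.nd (nat_lit 78) (nat_lit 0) (nat_lit 76) (XT.lf (nat_lit 76) (nat_lit 14664004010) (nat_lit 0) (nat_lit 39504905) (nat_lit 532) (nat_lit 15844197950) (nat_lit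 39) (nat_lit 5) (nat_lit 38) (nat_lit 5) (nat_lit 45) (nat_lit 5) (nat_lit 268) (nat_lit 264) (nat_lit 188)) (XT.lf (nat_lit 0) (nat_lit 16787884158) (nat_lit 456) (nat_lit 2332409494) (nat_lit 532) (nat_lit 12723094467) (nat_lit 39) (nat_lit 5) (nat_lit 45) (nat_lit 5) (nat_lit 46) (nat_lit 5) (nat_lit 269) (nat_lit 264) (nat_lit 187)))) (XT.nd (nat_lit 78) (nat_lit 380) (nat_lit 0) (XT.lf (nat_lit 76) (nat_lit 12944406481) (nat_lit 0) (nat_lit 6400478571) (nat_lit 532) (nat_lit 13873399261) (nat_lit 40) (nat_lit 5) (nat_lit 39) (nat_lit 5) (nat_lit 46) (nat_lit 5) (nat_lit 270) (nat_lit 264) (nat_lit 186)) (XT.nd (nat_lit 78) (nat_lit 456) (nat_lit 0) (XT.lf (nat_lit 0) (nat_lit 22342251179) (nat_lit 456) (nat_lit 5305667825) (nat_lit 76) (nat_lit 7036417019) (nat_lit 40) (nat_lit 5) (nat_lit 46) (nat_lit 5) (nat_lit 41) (nat_lit 5) (nat_lit 271) (nat_lit 264) (nat_lit 185)) (XT.lf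 (nat_lit 0) (nat_lit 11251504377) (nat_lit 456) (nat_lit 14759120870) (nat_lit 532) (nat_lit 10222575272) (nat_lit 34) (nat_lit 5) (nat_lit 40) (nat_lit 5) (nat_lit 41) (nat_lit 5) (nat_lit 272) (nat_lit 264) (nat_lit 184))))) (XT.nd (nat_lit 234) (nat_lit 456) (nat_lit 0) (XT.nd (nat_lit 78) (nat_lit 228) (nat_lit 0) (XT.lf (nat_lit 0) (nat_lit 29430023128) (nat_lit 456) (nat_lit 682183340) (nat_lit 532) (nat_lit 7782612932) (nat_lit 34) (nat_lit 5) (nat_lit 40) (nat_lit 5) (nat_lit 41) (nat_lit 5) (nat_lit 273) (nat_lit 264) (nat_lit 183)) (XT.nd (nat_lit 78) (nat_lit 0) (nat_lit 0) (XT.lf (nat_lit 0) (nat_lit 9494139978) (nat_lit 228) (nat_lit 25620410441) (nat_lit 304) (nat_lit 4529028887) (nat_lit 31) (nat_lit 5) (nat_lit 34) (nat_lit 5) (nat_lit 35) (nat_lit 5) (nat_lit 274) (nat_lit 264) (nat_lit 182)) (XT.lf (nat_lit 0) (nat_lit 29347643924) (nat_lit 228) (nat_lit 11413471849)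 (nat_lit 304) (nat_lit 751622271) (nat_lit 31) (nat_lit 5) (nat_lit 34) (nat_lit 5) (nat_lit 35) (nat_lit 5) (nat_lit 275) (nat_lit 264) (nat_lit 181)))) (XT.nd (nat_lit 156) (nat_lit 228) (nat_lit 0) (XT.nd (nat_lit 78) (nat_lit 0) (nat_lit 0) (XT.lf (nat_lit 0) (nat_lit 3439939204) (nat_lit 228) (nat_lit 36061276783) (nat_lit 76) (nat_lit 4001552955) (nat_lit 28) (nat_lit 5) (nat_lit 31) (nat_lit 5) (nat_lit 29) (nat_lit 5) (nat_lit 276) (nat_lit 264) (nat_lit 180)) (XT.lf (nat_lit 0) (nat_lit 8559671918) (nat_lit 228) (nat_lit 16646574459) (nat_lit 76) (nat_lit 20393534319) (nat_lit 28) (nat_lit 5) (nat_lit 31) (nat_lit 5) (nat_lit 29) (nat_lit 5) (nat_lit 277) (nat_lit 264) (nat_lit 179))) (XT.nd (nat_lit 78) (nat_lit 0) (nat_lit 0) (XT.lf (nat_lit 0) (nat_lit 4543972548) (nat_lit 228) (nat_lit 9650353575) (nat_lit 304) (nat_lit 33661815092) (nat_lit 25) (nat_lit 5) (nat_lit 28)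 (nat_lit 5) (nat_lit 29) (nat_lit 5) (nat_lit 278) (nat_lit 264) (nat_lit 178)) (XT.lf (nat_lit 0) (nat_lit 20914904337) (nat_lit 304) (nat_lit 22068728207) (nat_lit 76) (nat_lit 7258580021) (nat_lit 25) (nat_lit 5) (nat_lit 29) (nat_lit 5) (nat_lit 26) (nat_lit 5) (nat_lit 279) (nat_lit 264) (nat_lit 177)))))) (XT.nd (nat_lit 546) (nat_lit 456) (nat_lit 0) (XT.nd (nat_lit 234) (nat_lit 380) (nat_lit 0) (XT.nd (nat_lit 78) (nat_lit 0) (nat_lit 0) (XT.lf (nat_lit 0) (nat_lit 651666654) (nat_lit 152) (nat_lit 27784297826) (nat_lit 228) (nat_lit 24362191365) (nat_lit 23) (nat_lit 5) (nat_lit 25) (nat_lit 5) (nat_lit 26) (nat_lit 5) (nat_lit 280) (nat_lit 264) (nat_lit 176)) (XT.nd (nat_lit 78) (nat_lit 0) (nat_lit 0) (XT.lf (nat_lit 0) (nat_lit 26440412870) (nat_lit 152) (nat_lit 10718353587) (nat_lit 228) (nat_lit 18351815678) (nat_lit 23) (nat_lit 5) (nat_lit 25) (nat_lit 5) (nat_lit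 26) (nat_lit 5) (nat_lit 281) (nat_lit 264) (nat_lit 175)) (XT.lf (nat_lit 0) (nat_lit 46761771154) (nat_lit 228) (nat_lit 4337500896) (nat_lit 76) (nat_lit 7326151405) (nat_lit 23) (nat_lit 5) (nat_lit 26) (nat_lit 5) (nat_lit 24) (nat_lit 5) (nat_lit 282) (nat_lit 264) (nat_lit 174)))) (XT.nd (nat_lit 156) (nat_lit 152) (nat_lit 0) (XT.nd (nat_lit 78) (nat_lit 76) (nat_lit 0) (XT.lf (nat_lit 0) (nat_lit 23254731195) (nat_lit 152) (nat_lit 34713075433) (nat_lit 228) (nat_lit 3538872600) (nat_lit 21) (nat_lit 5) (nat_lit 23) (nat_lit 5) (nat_lit 24) (nat_lit 5) (nat_lit 283) (nat_lit 264) (nat_lit 173)) (XT.lf (nat_lit 0) (nat_lit 5092799471) (nat_lit 228) (nat_lit 11656937733) (nat_lit 76) (nat_lit 48065126868) (nat_lit 20) (nat_lit 5) (nat_lit 23) (nat_lit 5) (nat_lit 21) (nat_lit 5) (nat_lit 284) (nat_lit 264) (nat_lit 172))) (XT.nd (nat_lit 78) (nat_lit 0) (nat_lit 0) (XT.lf (nat_lit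 0) (nat_lit 14728070745) (nat_lit 228) (nat_lit 50559810463) (nat_lit 76) (nat_lit 3052136715) (nat_lit 18) (nat_lit 5) (nat_lit 21) (nat_lit 5) (nat_lit 19) (nat_lit 5) (nat_lit 285) (nat_lit 264) (nat_lit 171)) (XT.lf (nat_lit 0) (nat_lit 25893669420) (nat_lit 228) (nat_lit 22333556815) (nat_lit 76) (nat_lit 23859205022) (nat_lit 18) (nat_lit 5) (nat_lit 21) (nat_lit 5) (nat_lit 19) (nat_lit 5) (nat_lit 286) (nat_lit 264) (nat_lit 170))))) (XT.nd (nat_lit 234) (nat_lit 304) (nat_lit 0) (XT.nd (nat_lit 78) (nat_lit 0) (nat_lit 0) (XT.lf (nat_lit 0) (nat_lit 8576301321) (nat_lit 152) (nat_lit 29580111752) (nat_lit 228) (nat_lit 37959839883) (nat_lit 16) (nat_lit 5) (nat_lit 18) (nat_lit 5) (nat_lit 19) (nat_lit 5) (nat_lit 287) (nat_lit 264) (nat_lit 169)) (XT.nd (nat_lit 78) (nat_lit 0) (nat_lit 0) (XT.lf (nat_lit 0) (nat_lit 43225649185) (nat_lit 152) (nat_lit 8782895492) (nat_lit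 228) (nat_lit 28411252779) (nat_lit 16) (nat_lit 5) (nat_lit 18) (nat_lit 5) (nat_lit 19) (nat_lit 5) (nat_lit 288) (nat_lit 264) (nat_lit 168)) (XT.lf (nat_lit 0) (nat_lit 67295677246) (nat_lit 228) (nat_lit 4752961853) (nat_lit 76) (nat_lit 12992846040) (nat_lit 16) (nat_lit 5) (nat_lit 19) (nat_lit 5) (nat_lit 17) (nat_lit 4) (nat_lit 289) (nat_lit 264) (nat_lit 167)))) (XT.nd (nat_lit 156) (nat_lit 152) (nat_lit 0) (XT.nd (nat_lit 78) (nat_lit 76) (nat_lit 0) (XT.lf (nat_lit 0) (nat_lit 31634817510) (nat_lit 76) (nat_lit 53157937678) (nat_lit 152) (nat_lit 5161200276) (nat_lit 15) (nat_lit 5) (nat_lit 16) (nat_lit 5) (nat_lit 17) (nat_lit 4) (nat_lit 290) (nat_lit 264) (nat_lit 166)) (XT.lf (nat_lit 0) (nat_lit 8139843385) (nat_lit 152) (nat_lit 24254330218) (nat_lit 76) (nat_lit 62838524626) (nat_lit 14) (nat_lit 5) (nat_lit 16) (nat_lit 5) (nat_lit 15) (nat_lit 5) (nat_lit 291)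 (nat_lit 264) (nat_lit 165))) (XT.nd (nat_lit 78) (nat_lit 0) (nat_lit 0) (XT.lf (nat_lit 0) (nat_lit 13051624006) (nat_lit 152) (nat_lit 9486593180) (nat_lit 228) (nat_lit 78359836269) (nat_lit 12) (nat_lit 5) (nat_lit 14) (nat_lit 5) (nat_lit 15) (nat_lit 5) (nat_lit 292) (nat_lit 264) (nat_lit 164)) (XT.lf (nat_lit 0) (nat_lit 39133925859) (nat_lit 228) (nat_lit 52629159912) (nat_lit 76) (nat_lit 15169918252) (nat_lit 12) (nat_lit 5) (nat_lit 15) (nat_lit 5) (nat_lit 13) (nat_lit 4) (nat_lit 293) (nat_lit 264) (nat_lit 163))))))))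
noncomputable def xc91 : XT := (XT.nd (nat_lit 2106) (nat_lit 152) (nat_lit 0) (XT.nd (nat_lit 1014) (nat_lit 228) (nat_lit 0) (XT.nd (nat_lit 468) (nat_lit 152) (nat_lit 0) (XT.nd (nat_lit 234) (nat_lit 152) (nat_lit 0) (XT.nd (nat_lit 78) (nat_lit 76) (nat_lit 0) (XT.lf (nat_lit 0) (nat_lit 57302061485) (nat_lit 228) (nat_lit 14843618467) (nat_lit 76) (nat_lit 41285492883) (nat_lit 12) (nat_lit 5) (nat_lit 15) (nat_lit 5) (nat_lit 13) (nat_lit 4) (nat_lit 294) (nat_lit 264) (nat_lit 162)) (XT.nd (nat_lit 78) (nat_lit 0) (nat_lit 0) (XT.lf (nat_lit 0) (nat_lit 27329388709) (nat_lit 76) (nat_lit 50250018042) (nat_lit 152) (nat_lit 42817331230) (nat_lit 11) (nat_lit 5) (nat_lit 12) (nat_lit 5) (nat_lit 13) (nat_lit 4) (nat_lit 295) (nat_lit 264) (nat_lit 161)) (XT.lf (nat_lit 0) (nat_lit 73717965301) (nat_lit 76) (nat_lit 26165364926) (nat_lit 152) (nat_lit 28003870137) (nat_lit 11)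 (nat_lit 5) (nat_lit 12) (nat_lit 5) (nat_lit 13) (nat_lit 4) (nat_lit 296) (nat_lit 264) (nat_lit 160)))) (XT.nd (nat_lit 78) (nat_lit 152) (nat_lit 0) (XT.lf (nat_lit 0) (nat_lit 123815367934) (nat_lit 76) (nat_lit 154847568) (nat_lit 152) (nat_lit 12006795433) (nat_lit 11) (nat_lit 5) (nat_lit 12) (nat_lit 5) (nat_lit 13) (nat_lit 4) (nat_lit 297) (nat_lit 264) (nat_lit 159)) (XT.nd (nat_lit 78) (nat_lit 0) (nat_lit 0) (XT.lf (nat_lit 0) (nat_lit 6539433607) (nat_lit 152) (nat_lit 110514416261) (nat_lit 76) (nat_lit 27527378115) (nat_lit 9) (nat_lit 5) (nat_lit 11) (nat_lit 5) (nat_lit 10) (nat_lit 4) (nat_lit 298) (nat_lit 264) (nat_lit 158)) (XT.lf (nat_lit 0) (nat_lit 26264598652) (nat_lit 152) (nat_lit 69488707490) (nat_lit 76) (nat_lit 58068016153) (nat_lit 9) (nat_lit 5) (nat_lit 11) (nat_lit 5) (nat_lit 10) (nat_lit 4) (nat_lit 299) (nat_lit 264) (nat_lit 157))))) (XT.nd (nat_lit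 234) (nat_lit 76) (nat_lit 0) (XT.nd (nat_lit 78) (nat_lit 76) (nat_lit 0) (XT.lf (nat_lit 0) (nat_lit 47566607184) (nat_lit 152) (nat_lit 25182969116) (nat_lit 76) (nat_lit 91051143656) (nat_lit 9) (nat_lit 5) (nat_lit 11) (nat_lit 5) (nat_lit 10) (nat_lit 4) (nat_lit 300) (nat_lit 264) (nat_lit 156)) (XT.nd (nat_lit 78) (nat_lit 0) (nat_lit 0) (XT.lf (nat_lit 0) (nat_lit 23858868622) (nat_lit 76) (nat_lit 47286631070) (nat_lit 152) (nat_lit 103387153937) (nat_lit 8) (nat_lit 5) (nat_lit 9) (nat_lit 5) (nat_lit 10) (nat_lit 4) (nat_lit 301) (nat_lit 264) (nat_lit 155)) (XT.lf (nat_lit 0) (nat_lit 78254401721) (nat_lit 76) (nat_lit 19043802042) (nat_lit 152) (nat_lit 88769940129) (nat_lit 8) (nat_lit 5) (nat_lit 9) (nat_lit 5) (nat_lit 10) (nat_lit 4) (nat_lit 302) (nat_lit 264) (nat_lit 154)))) (XT.nd (nat_lit 156) (nat_lit 76) (nat_lit 0) (XT.nd (nat_lit 78) (nat_lit 0) (nat_lit 0)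 (XT.lf (nat_lit 0) (nat_lit 125817713514) (nat_lit 152) (nat_lit 61802227784) (nat_lit 0) (nat_lit 10884566699) (nat_lit 8) (nat_lit 5) (nat_lit 10) (nat_lit 4) (nat_lit 8) (nat_lit 4) (nat_lit 303) (nat_lit 264) (nat_lit 153)) (XT.lf (nat_lit 0) (nat_lit 157112514619) (nat_lit 152) (nat_lit 12606062192) (nat_lit 0) (nat_lit 42177707608) (nat_lit 8) (nat_lit 5) (nat_lit 10) (nat_lit 4) (nat_lit 8) (nat_lit 4) (nat_lit 304) (nat_lit 264) (nat_lit 152))) (XT.nd (nat_lit 78) (nat_lit 0) (nat_lit 0) (XT.lf (nat_lit 0) (nat_lit 42658228699) (nat_lit 76) (nat_lit 149277756583) (nat_lit 76) (nat_lit 34341412353) (nat_lit 7) (nat_lit 4) (nat_lit 8) (nat_lit 5) (nat_lit 8) (nat_lit 4) (nat_lit 305) (nat_lit 264) (nat_lit 151)) (XT.lf (nat_lit 0) (nat_lit 103059113585) (nat_lit 76) (nat_lit 126830073513) (nat_lit 76) (nat_lit 11892305934) (nat_lit 7) (nat_lit 4) (nat_lit 8) (nat_lit 5) (nat_lit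 8) (nat_lit 4) (nat_lit 306) (nat_lit 264) (nat_lit 150)))))) (XT.nd (nat_lit 546) (nat_lit 76) (nat_lit 0) (XT.nd (nat_lit 234) (nat_lit 0) (nat_lit 0) (XT.nd (nat_lit 78) (nat_lit 76) (nat_lit 0) (XT.lf (nat_lit 0) (nat_lit 11734016600) (nat_lit 152) (nat_lit 90532330968) (nat_lit 76) (nat_lit 156235865330) (nat_lit 6) (nat_lit 5) (nat_lit 8) (nat_lit 5) (nat_lit 7) (nat_lit 4) (nat_lit 307) (nat_lit 264) (nat_lit 149)) (XT.nd (nat_lit 78) (nat_lit 76) (nat_lit 0) (XT.lf (nat_lit 0) (nat_lit 36607230354) (nat_lit 152) (nat_lit 38797266654) (nat_lit 76) (nat_lit 201131440869) (nat_lit 6) (nat_lit 5) (nat_lit 8) (nat_lit 5) (nat_lit 7) (nat_lit 4) (nat_lit 308) (nat_lit 264) (nat_lit 148)) (XT.lf (nat_lit 0) (nat_lit 17974562300) (nat_lit 76) (nat_lit 45927359811) (nat_lit 152) (nat_lit 232075910102) (nat_lit 5) (nat_lit 5) (nat_lit 6) (nat_lit 5) (nat_lit 7) (nat_lit 4) (nat_lit 309)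 (nat_lit 264) (nat_lit 147)))) (XT.nd (nat_lit 156) (nat_lit 0) (nat_lit 0) (XT.nd (nat_lit 78) (nat_lit 0) (nat_lit 0) (XT.lf (nat_lit 0) (nat_lit 81493401998) (nat_lit 76) (nat_lit 12946926797) (nat_lit 152) (nat_lit 222449939089) (nat_lit 5) (nat_lit 5) (nat_lit 6) (nat_lit 5) (nat_lit 7) (nat_lit 4) (nat_lit 310) (nat_lit 264) (nat_lit 146)) (XT.lf (nat_lit 0) (nat_lit 127966458512) (nat_lit 152) (nat_lit 189928331161) (nat_lit 0) (nat_lit 21537337581) (nat_lit 5) (nat_lit 5) (nat_lit 7) (nat_lit 4) (nat_lit 5) (nat_lit 4) (nat_lit 311) (nat_lit 264) (nat_lit 145))) (XT.nd (nat_lit 78) (nat_lit 0) (nat_lit 0) (XT.lf (nat_lit 0) (nat_lit 164510397395) (nat_lit 152) (nat_lit 141159635341) (nat_lit 0) (nat_lit 58080445952) (nat_lit 5) (nat_lit 5) (nat_lit 7) (nat_lit 4) (nat_lit 5) (nat_lit 4) (nat_lit 312) (nat_lit 264) (nat_lit 144)) (XT.lf (nat_lit 0) (nat_lit 203977328219) (nat_lit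 152) (nat_lit 88490404847) (nat_lit 0) (nat_lit 97546607784) (nat_lit 5) (nat_lit 5) (nat_lit 7) (nat_lit 4) (nat_lit 5) (nat_lit 4) (nat_lit 313) (nat_lit 264) (nat_lit 143))))) (XT.nd (nat_lit 234) (nat_lit 0) (nat_lit 0) (XT.nd (nat_lit 78) (nat_lit 76) (nat_lit 0) (XT.lf (nat_lit 0) (nat_lit 246601129092) (nat_lit 152) (nat_lit 31608525719) (nat_lit 0) (nat_lit 140169696628) (nat_lit 5) (nat_lit 5) (nat_lit 7) (nat_lit 4) (nat_lit 5) (nat_lit 4) (nat_lit 314) (nat_lit 264) (nat_lit 142)) (XT.nd (nat_lit 78) (nat_lit 0) (nat_lit 0) (XT.lf (nat_lit 0) (nat_lit 31393510376) (nat_lit 76) (nat_lit 261995889805) (nat_lit 76) (nat_lit 155563798055) (nat_lit 4) (nat_lit 4) (nat_lit 5) (nat_lit 5) (nat_lit 5) (nat_lit 4) (nat_lit 315) (nat_lit 264) (nat_lit 141)) (XT.lf (nat_lit 0) (nat_lit 101232511188) (nat_lit 76) (nat_lit 243552020256) (nat_lit 76) (nat_lit 137119318055) (nat_lit 4)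 (nat_lit 4) (nat_lit 5) (nat_lit 5) (nat_lit 5) (nat_lit 4) (nat_lit 316) (nat_lit 264) (nat_lit 140)))) (XT.nd (nat_lit 156) (nat_lit 0) (nat_lit 0) (XT.nd (nat_lit 78) (nat_lit 0) (nat_lit 0) (XT.lf (nat_lit 0) (nat_lit 176657888512) (nat_lit 76) (nat_lit 223632982267) (nat_lit 76) (nat_lit 117199714834) (nat_lit 4) (nat_lit 4) (nat_lit 5) (nat_lit 5) (nat_lit 5) (nat_lit 4) (nat_lit 317) (nat_lit 264) (nat_lit 139)) (XT.lf (nat_lit 0) (nat_lit 258116607548) (nat_lit 76) (nat_lit 202120737096) (nat_lit 76) (nat_lit 95686946300) (nat_lit 4) (nat_lit 4) (nat_lit 5) (nat_lit 5) (nat_lit 5) (nat_lit 4) (nat_lit 318) (nat_lit 264) (nat_lit 138))) (XT.nd (nat_lit 78) (nat_lit 0) (nat_lit 0) (XT.lf (nat_lit 0) (nat_lit 346091386630) (nat_lit 76) (nat_lit 178887804770) (nat_lit 76) (nat_lit 72453529379) (nat_lit 4) (nat_lit 4) (nat_lit 5) (nat_lit 5) (nat_lit 5) (nat_lit 4) (nat_lit 319)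 (nat_lit 264) (nat_lit 137)) (XT.lf (nat_lit 0) (nat_lit 441103557782) (nat_lit 76) (nat_lit 153796508654) (nat_lit 76) (nat_lit 47361784563) (nat_lit 4) (nat_lit 4) (nat_lit 5) (nat_lit 5) (nat_lit 5) (nat_lit 4) (nat_lit 320) (nat_lit 264) (nat_lit 136))))))) (XT.nd (nat_lit 1014) (nat_lit 0) (nat_lit 0) (XT.nd (nat_lit 468) (nat_lit 0) (nat_lit 0) (XT.nd (nat_lit 234) (nat_lit 76) (nat_lit 0) (XT.nd (nat_lit 78) (nat_lit 76) (nat_lit 0) (XT.lf (nat_lit 0) (nat_lit 543716156093) (nat_lit 76) (nat_lit 126698159586) (nat_lit 76) (nat_lit 20263020033) (nat_lit 4) (nat_lit 4) (nat_lit 5) (nat_lit 5) (nat_lit 5) (nat_lit 4) (nat_lit 321) (nat_lit 264) (nat_lit 135)) (XT.nd (nat_lit 78) (nat_lit 0) (nat_lit 0) (XT.lf (nat_lit 0) (nat_lit 8552965478) (nat_lit 152) (nat_lit 88645356044) (nat_lit 76) (nat_lit 645750437508) (nat_lit 3) (nat_lit 5) (nat_lit 5) (nat_lit 5) (nat_lit 4) (nat_lit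 4) (nat_lit 322) (nat_lit 264) (nat_lit 134)) (XT.lf (nat_lit 0) (nat_lit 38579239919) (nat_lit 152) (nat_lit 26191061400) (nat_lit 76) (nat_lit 734589511085) (nat_lit 3) (nat_lit 5) (nat_lit 5) (nat_lit 5) (nat_lit 4) (nat_lit 4) (nat_lit 323) (nat_lit 264) (nat_lit 133)))) (XT.nd (nat_lit 78) (nat_lit 0) (nat_lit 0) (XT.lf (nat_lit 0) (nat_lit 43431762622) (nat_lit 76) (nat_lit 28620147407) (nat_lit 152) (nat_lit 788148296822) (nat_lit 2) (nat_lit 5) (nat_lit 3) (nat_lit 5) (nat_lit 4) (nat_lit 4) (nat_lit 324) (nat_lit 264) (nat_lit 132)) (XT.nd (nat_lit 78) (nat_lit 0) (nat_lit 0) (XT.lf (nat_lit 0) (nat_lit 109187515168) (nat_lit 152) (nat_lit 806006322360) (nat_lit 0) (nat_lit 10635185892) (nat_lit 2) (nat_lit 5) (nat_lit 4) (nat_lit 4) (nat_lit 2) (nat_lit 4) (nat_lit 325) (nat_lit 264) (nat_lit 131)) (XT.lf (nat_lit 0) (nat_lit 150037128170) (nat_lit 152) (nat_lit 795127027563)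 (nat_lit 0) (nat_lit 51484537082) (nat_lit 2) (nat_lit 5) (nat_lit 4) (nat_lit 4) (nat_lit 2) (nat_lit 4) (nat_lit 326) (nat_lit 264) (nat_lit 130))))) (XT.nd (nat_lit 234) (nat_lit 0) (nat_lit 0) (XT.nd (nat_lit 78) (nat_lit 0) (nat_lit 0) (XT.lf (nat_lit 0) (nat_lit 194154505584) (nat_lit 152) (nat_lit 783377774710) (nat_lit 0) (nat_lit 95601672078) (nat_lit 2) (nat_lit 5) (nat_lit 4) (nat_lit 4) (nat_lit 2) (nat_lit 4) (nat_lit 327) (nat_lit 264) (nat_lit 129)) (XT.nd (nat_lit 78) (nat_lit 0) (nat_lit 0) (XT.lf (nat_lit 0) (nat_lit 241801083720) (nat_lit 152) (nat_lit 770688938600) (nat_lit 0) (nat_lit 143248025752) (nat_lit 2) (nat_lit 5) (nat_lit 4) (nat_lit 4) (nat_lit 2) (nat_lit 4) (nat_lit 328) (nat_lit 264) (nat_lit 128)) (XT.lf (nat_lit 0) (nat_lit 293259212670) (nat_lit 152) (nat_lit 756985326130) (nat_lit 0) (nat_lit 194705946868) (nat_lit 2) (nat_lit 5) (nat_lit 4) (nat_lit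 4) (nat_lit 2) (nat_lit 4) (nat_lit 329) (nat_lit 264) (nat_lit 127)))) (XT.nd (nat_lit 156) (nat_lit 0) (nat_lit 0) (XT.nd (nat_lit 78) (nat_lit 0) (nat_lit 0) (XT.lf (nat_lit 0) (nat_lit 348833829496) (nat_lit 152) (nat_lit 742185730706) (nat_lit 0) (nat_lit 250280371255) (nat_lit 2) (nat_lit 5) (nat_lit 4) (nat_lit 4) (nat_lit 2) (nat_lit 4) (nat_lit 330) (nat_lit 264) (nat_lit 126)) (XT.lf (nat_lit 0) (nat_lit 408854265260) (nat_lit 152) (nat_lit 726202451023) (nat_lit 0) (nat_lit 310300628834) (nat_lit 2) (nat_lit 5) (nat_lit 4) (nat_lit 4) (nat_lit 2) (nat_lit 4) (nat_lit 331) (nat_lit 264) (nat_lit 125))) (XT.nd (nat_lit 78) (nat_lit 0) (nat_lit 0) (XT.lf (nat_lit 0) (nat_lit 473676196619) (nat_lit 152) (nat_lit 708940771349) (nat_lit 0) (nat_lit 375122395207) (nat_lit 2) (nat_lit 5) (nat_lit 4) (nat_lit 4) (nat_lit 2) (nat_lit 4) (nat_lit 332) (nat_lit 264) (nat_lit 124)) (XT.lf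 (nat_lit 0) (nat_lit 543683753535) (nat_lit 152) (nat_lit 690298400250) (nat_lit 0) (nat_lit 445129799358) (nat_lit 2) (nat_lit 5) (nat_lit 4) (nat_lit 4) (nat_lit 2) (nat_lit 4) (nat_lit 333) (nat_lit 264) (nat_lit 123)))))) (XT.nd (nat_lit 32292) (nat_lit 0) (nat_lit 2432) (XT.nd (nat_lit 234) (nat_lit 0) (nat_lit 0) (XT.nd (nat_lit 78) (nat_lit 0) (nat_lit 0) (XT.lf (nat_lit 0) (nat_lit 619291795605) (nat_lit 152) (nat_lit 670164864415) (nat_lit 0) (nat_lit 520737699980) (nat_lit 2) (nat_lit 5) (nat_lit 4) (nat_lit 4) (nat_lit 2) (nat_lit 4) (nat_lit 334) (nat_lit 264) (nat_lit 122)) (XT.nd (nat_lit 78) (nat_lit 0) (nat_lit 0) (XT.lf (nat_lit 0) (nat_lit 700948370487) (nat_lit 152) (nat_lit 648420854002) (nat_lit 0) (nat_lit 602394143891) (nat_lit 2) (nat_lit 5) (nat_lit 4) (nat_lit 4) (nat_lit 2) (nat_lit 4) (nat_lit 335) (nat_lit 264) (nat_lit 121)) (XT.lf (nat_lit 0) (nat_lit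 789137368994) (nat_lit 152) (nat_lit 624937515615) (nat_lit 0) (nat_lit 690583021128) (nat_lit 2) (nat_lit 5) (nat_lit 4) (nat_lit 4) (nat_lit 2) (nat_lit 4) (nat_lit 336) (nat_lit 264) (nat_lit 120)))) (XT.nd (nat_lit 31902) (nat_lit 0) (nat_lit 2660) (XT.nd (nat_lit 78) (nat_lit 0) (nat_lit 0) (XT.lf (nat_lit 0) (nat_lit 884381392600) (nat_lit 152) (nat_lit 599575688732) (nat_lit 0) (nat_lit 785826932447) (nat_lit 2) (nat_lit 5) (nat_lit 4) (nat_lit 4) (nat_lit 2) (nat_lit 4) (nat_lit 337) (nat_lit 264) (nat_lit 119)) (XT.lf (nat_lit 0) (nat_lit 987244850331) (nat_lit 152) (nat_lit 572185081045) (nat_lit 0) (nat_lit 888690286210) (nat_lit 2) (nat_lit 5) (nat_lit 4) (nat_lit 4) (nat_lit 2) (nat_lit 4) (nat_lit 338) (nat_lit 264) (nat_lit 118))) (XT.nd (nat_lit 78) (nat_lit 0) (nat_lit 0) (XT.lf (nat_lit 0) (nat_lit 5647568208) (nat_lit 532) (nat_lit 4207855920) (nat_lit 532) (nat_lit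 4207855920) (nat_lit 37) (nat_lit 3) (nat_lit 44) (nat_lit 3) (nat_lit 44) (nat_lit 5) (nat_lit 265) (nat_lit 265) (nat_lit 190)) (XT.lf (nat_lit 76) (nat_lit 3993225871) (nat_lit 0) (nat_lit 7924191029) (nat_lit 532) (nat_lit 17320212122) (nat_lit 38) (nat_lit 5) (nat_lit 37) (nat_lit 3) (nat_lit 44) (nat_lit 5) (nat_lit 266) (nat_lit 265) (nat_lit 189))))) (XT.nd (nat_lit 234) (nat_lit 304) (nat_lit 0) (XT.nd (nat_lit 78) (nat_lit 0) (nat_lit 0) (XT.lf (nat_lit 0) (nat_lit 12933656569) (nat_lit 456) (nat_lit 12672205334) (nat_lit 532) (nat_lit 4804222984) (nat_lit 38) (nat_lit 5) (nat_lit 44) (nat_lit 5) (nat_lit 45) (nat_lit 5) (nat_lit 267) (nat_lit 265) (nat_lit 188)) (XT.nd (nat_lit 78) (nat_lit 0) (nat_lit 0) (XT.lf (nat_lit 76) (nat_lit 731957976) (nat_lit 0) (nat_lit 13515747221) (nat_lit 532) (nat_lit 17411344171) (nat_lit 39) (nat_lit 5) (nat_lit 38) (nat_lit 5) (nat_lit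 45) (nat_lit 5) (nat_lit 268) (nat_lit 265) (nat_lit 187)) (XT.lf (nat_lit 76) (nat_lit 15924647731) (nat_lit 0) (nat_lit 82198048) (nat_lit 532) (nat_lit 16973918276) (nat_lit 39) (nat_lit 5) (nat_lit 38) (nat_lit 5) (nat_lit 45) (nat_lit 5) (nat_lit 269) (nat_lit 265) (nat_lit 186)))) (XT.nd (nat_lit 156) (nat_lit 380) (nat_lit 0) (XT.nd (nat_lit 78) (nat_lit 0) (nat_lit 0) (XT.lf (nat_lit 0) (nat_lit 18247679138) (nat_lit 456) (nat_lit 2427119361) (nat_lit 532) (nat_lit 13706168726) (nat_lit 39) (nat_lit 5) (nat_lit 45) (nat_lit 5) (nat_lit 46) (nat_lit 5) (nat_lit 270) (nat_lit 265) (nat_lit 185)) (XT.lf (nat_lit 76) (nat_lit 14069515743) (nat_lit 0) (nat_lit 6933229000) (nat_lit 532) (nat_lit 14863670802) (nat_lit 40) (nat_lit 5) (nat_lit 39) (nat_lit 5) (nat_lit 46) (nat_lit 5) (nat_lit 271) (nat_lit 265) (nat_lit 184))) (XT.nd (nat_lit 78) (nat_lit 456) (nat_lit 0) (XT.lf (nat_lit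 0) (nat_lit 24231270864) (nat_lit 456) (nat_lit 5638096822) (nat_lit 76) (nat_lit 7581111827) (nat_lit 40) (nat_lit 5) (nat_lit 46) (nat_lit 5) (nat_lit 41) (nat_lit 5) (nat_lit 272) (nat_lit 265) (nat_lit 183)) (XT.lf (nat_lit 0) (nat_lit 12241319424) (nat_lit 456) (nat_lit 15946423734) (nat_lit 532) (nat_lit 10935974726) (nat_lit 34) (nat_lit 5) (nat_lit 40) (nat_lit 5) (nat_lit 41) (nat_lit 5) (nat_lit 273) (nat_lit 265) (nat_lit 182))))))))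
noncomputable def xc92 : XT := (XT.nd (nat_lit 2028) (nat_lit 532) (nat_lit 0) (XT.nd (nat_lit 1014) (nat_lit 684) (nat_lit 0) (XT.nd (nat_lit 468) (nat_lit 532) (nat_lit 0) (XT.nd (nat_lit 234) (nat_lit 456) (nat_lit 0) (XT.nd (nat_lit 78) (nat_lit 228) (nat_lit 0) (XT.lf (nat_lit 0) (nat_lit 31867475625) (nat_lit 456) (nat_lit 742844298) (nat_lit 532) (nat_lit 8308549218) (nat_lit 34) (nat_lit 5) (nat_lit 40) (nat_lit 5) (nat_lit 41) (nat_lit 5) (nat_lit 274) (nat_lit 265) (nat_lit 181)) (XT.nd (nat_lit 78) (nat_lit 0) (nat_lit 0) (XT.lf (nat_lit 0) (nat_lit 10342106976) (nat_lit 228) (nat_lit 27666133028) (nat_lit 304) (nat_lit 4799688735) (nat_lit 31) (nat_lit 5) (nat_lit 34) (nat_lit 5) (nat_lit 35) (nat_lit 5) (nat_lit 275) (nat_lit 265) (nat_lit 180)) (XT.lf (nat_lit 0) (nat_lit 31777340437) (nat_lit 228) (nat_lit 12322928997) (nat_lit 304) (nat_lit 726879402) (nat_lit 31) (nat_lit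 5) (nat_lit 34) (nat_lit 5) (nat_lit 35) (nat_lit 5) (nat_lit 276) (nat_lit 265) (nat_lit 179)))) (XT.nd (nat_lit 78) (nat_lit 228) (nat_lit 0) (XT.lf (nat_lit 0) (nat_lit 3791997839) (nat_lit 228) (nat_lit 38855665804) (nat_lit 76) (nat_lit 4328880153) (nat_lit 28) (nat_lit 5) (nat_lit 31) (nat_lit 5) (nat_lit 29) (nat_lit 5) (nat_lit 277) (nat_lit 265) (nat_lit 178)) (XT.nd (nat_lit 78) (nat_lit 228) (nat_lit 0) (XT.lf (nat_lit 0) (nat_lit 9315615578) (nat_lit 228) (nat_lit 17894491970) (nat_lit 76) (nat_lit 22031686474) (nat_lit 28) (nat_lit 5) (nat_lit 31) (nat_lit 5) (nat_lit 29) (nat_lit 5) (nat_lit 278) (nat_lit 265) (nat_lit 177)) (XT.lf (nat_lit 0) (nat_lit 4989177065) (nat_lit 228) (nat_lit 10408557776) (nat_lit 304) (nat_lit 36281213533) (nat_lit 25) (nat_lit 5) (nat_lit 28) (nat_lit 5) (nat_lit 29) (nat_lit 5) (nat_lit 279) (nat_lit 265) (nat_lit 176))))) (XT.nd (nat_lit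 234) (nat_lit 380) (nat_lit 0) (XT.nd (nat_lit 78) (nat_lit 152) (nat_lit 0) (XT.lf (nat_lit 0) (nat_lit 22651240294) (nat_lit 304) (nat_lit 23753635368) (nat_lit 76) (nat_lit 7851426189) (nat_lit 25) (nat_lit 5) (nat_lit 29) (nat_lit 5) (nat_lit 26) (nat_lit 5) (nat_lit 280) (nat_lit 265) (nat_lit 175)) (XT.nd (nat_lit 78) (nat_lit 0) (nat_lit 0) (XT.lf (nat_lit 0) (nat_lit 782350801) (nat_lit 152) (nat_lit 29988846292) (nat_lit 228) (nat_lit 26245764053) (nat_lit 23) (nat_lit 5) (nat_lit 25) (nat_lit 5) (nat_lit 26) (nat_lit 5) (nat_lit 281) (nat_lit 265) (nat_lit 174)) (XT.lf (nat_lit 0) (nat_lit 28628378135) (nat_lit 152) (nat_lit 11558974318) (nat_lit 228) (nat_lit 19759402949) (nat_lit 23) (nat_lit 5) (nat_lit 25) (nat_lit 5) (nat_lit 26) (nat_lit 5) (nat_lit 282) (nat_lit 265) (nat_lit 173)))) (XT.nd (nat_lit 156) (nat_lit 228) (nat_lit 0) (XT.nd (nat_lit 78) (nat_lit 152) (nat_lit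 0) (XT.lf (nat_lit 0) (nat_lit 50554833091) (nat_lit 228) (nat_lit 4613204343) (nat_lit 76) (nat_lit 7927062751) (nat_lit 23) (nat_lit 5) (nat_lit 26) (nat_lit 5) (nat_lit 24) (nat_lit 5) (nat_lit 283) (nat_lit 265) (nat_lit 172)) (XT.lf (nat_lit 0) (nat_lit 25184601337) (nat_lit 152) (nat_lit 37470560582) (nat_lit 228) (nat_lit 3767883550) (nat_lit 21) (nat_lit 5) (nat_lit 23) (nat_lit 5) (nat_lit 24) (nat_lit 5) (nat_lit 284) (nat_lit 265) (nat_lit 171))) (XT.nd (nat_lit 78) (nat_lit 152) (nat_lit 0) (XT.lf (nat_lit 0) (nat_lit 5547809182) (nat_lit 228) (nat_lit 12522493987) (nat_lit 76) (nat_lit 51925794302) (nat_lit 20) (nat_lit 5) (nat_lit 23) (nat_lit 5) (nat_lit 21) (nat_lit 5) (nat_lit 285) (nat_lit 265) (nat_lit 170)) (XT.lf (nat_lit 0) (nat_lit 15952420909) (nat_lit 228) (nat_lit 54535977449) (nat_lit 76) (nat_lit 3314994801) (nat_lit 18) (nat_lit 5) (nat_lit 21) (nat_lit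 5) (nat_lit 19) (nat_lit 5) (nat_lit 286) (nat_lit 265) (nat_lit 169)))))) (XT.nd (nat_lit 468) (nat_lit 380) (nat_lit 0) (XT.nd (nat_lit 234) (nat_lit 152) (nat_lit 0) (XT.nd (nat_lit 78) (nat_lit 152) (nat_lit 0) (XT.lf (nat_lit 0) (nat_lit 28007852329) (nat_lit 228) (nat_lit 24056706312) (nat_lit 76) (nat_lit 25785244339) (nat_lit 18) (nat_lit 5) (nat_lit 21) (nat_lit 5) (nat_lit 19) (nat_lit 5) (nat_lit 287) (nat_lit 265) (nat_lit 168)) (XT.nd (nat_lit 78) (nat_lit 0) (nat_lit 0) (XT.lf (nat_lit 0) (nat_lit 9324331992) (nat_lit 152) (nat_lit 31925610644) (nat_lit 228) (nat_lit 40952211061) (nat_lit 16) (nat_lit 5) (nat_lit 18) (nat_lit 5) (nat_lit 19) (nat_lit 5) (nat_lit 288) (nat_lit 265) (nat_lit 167)) (XT.lf (nat_lit 0) (nat_lit 46741040532) (nat_lit 152) (nat_lit 9466165975) (nat_lit 228) (nat_lit 30643027065) (nat_lit 16) (nat_lit 5) (nat_lit 18) (nat_lit 5) (nat_lit 19) (nat_lit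 5) (nat_lit 289) (nat_lit 265) (nat_lit 166)))) (XT.nd (nat_lit 78) (nat_lit 152) (nat_lit 0) (XT.lf (nat_lit 0) (nat_lit 72714927623) (nat_lit 228) (nat_lit 5077623378) (nat_lit 76) (nat_lit 14049303938) (nat_lit 16) (nat_lit 5) (nat_lit 19) (nat_lit 5) (nat_lit 17) (nat_lit 4) (nat_lit 290) (nat_lit 265) (nat_lit 165)) (XT.nd (nat_lit 78) (nat_lit 76) (nat_lit 0) (XT.lf (nat_lit 0) (nat_lit 34219771361) (nat_lit 76) (nat_lit 57390666436) (nat_lit 152) (nat_lit 5536999318) (nat_lit 15) (nat_lit 5) (nat_lit 16) (nat_lit 5) (nat_lit 17) (nat_lit 4) (nat_lit 291) (nat_lit 265) (nat_lit 164)) (XT.lf (nat_lit 0) (nat_lit 8823661632) (nat_lit 152) (nat_lit 26142721957) (nat_lit 76) (nat_lit 67882239609) (nat_lit 14) (nat_lit 5) (nat_lit 16) (nat_lit 5) (nat_lit 15) (nat_lit 5) (nat_lit 292) (nat_lit 265) (nat_lit 163))))) (XT.nd (nat_lit 234) (nat_lit 228) (nat_lit 0) (XT.nd (nat_lit 78)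 (nat_lit 0) (nat_lit 0) (XT.lf (nat_lit 0) (nat_lit 14146393296) (nat_lit 152) (nat_lit 10226312824) (nat_lit 228) (nat_lit 84594602616) (nat_lit 12) (nat_lit 5) (nat_lit 14) (nat_lit 5) (nat_lit 15) (nat_lit 5) (nat_lit 293) (nat_lit 265) (nat_lit 162)) (XT.nd (nat_lit 78) (nat_lit 0) (nat_lit 0) (XT.lf (nat_lit 0) (nat_lit 42294170954) (nat_lit 228) (nat_lit 56790634913) (nat_lit 76) (nat_lit 16400407043) (nat_lit 12) (nat_lit 5) (nat_lit 15) (nat_lit 5) (nat_lit 13) (nat_lit 4) (nat_lit 294) (nat_lit 265) (nat_lit 161)) (XT.lf (nat_lit 0) (nat_lit 61913569947) (nat_lit 228) (nat_lit 15985869247) (nat_lit 76) (nat_lit 44603976138) (nat_lit 12) (nat_lit 5) (nat_lit 15) (nat_lit 5) (nat_lit 13) (nat_lit 4) (nat_lit 295) (nat_lit 265) (nat_lit 160)))) (XT.nd (nat_lit 156) (nat_lit 152) (nat_lit 0) (XT.nd (nat_lit 78) (nat_lit 0) (nat_lit 0) (XT.lf (nat_lit 0) (nat_lit 29559833219) (nat_lit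 76) (nat_lit 54252304615) (nat_lit 152) (nat_lit 46214169786) (nat_lit 11) (nat_lit 5) (nat_lit 12) (nat_lit 5) (nat_lit 13) (nat_lit 4) (nat_lit 296) (nat_lit 265) (nat_lit 159)) (XT.lf (nat_lit 0) (nat_lit 79656229760) (nat_lit 76) (nat_lit 28242191462) (nat_lit 152) (nat_lit 30217746468) (nat_lit 11) (nat_lit 5) (nat_lit 12) (nat_lit 5) (nat_lit 13) (nat_lit 4) (nat_lit 297) (nat_lit 265) (nat_lit 158))) (XT.nd (nat_lit 78) (nat_lit 152) (nat_lit 0) (XT.lf (nat_lit 0) (nat_lit 133758400364) (nat_lit 76) (nat_lit 152047727) (nat_lit 152) (nat_lit 12942863808) (nat_lit 11) (nat_lit 5) (nat_lit 12) (nat_lit 5) (nat_lit 13) (nat_lit 4) (nat_lit 298) (nat_lit 265) (nat_lit 157)) (XT.lf (nat_lit 0) (nat_lit 7085409015) (nat_lit 152) (nat_lit 119316021645) (nat_lit 76) (nat_lit 29744426451) (nat_lit 9) (nat_lit 5) (nat_lit 11) (nat_lit 5) (nat_lit 10) (nat_lit 4) (nat_lit 299) (nat_lit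 265) (nat_lit 156))))))) (XT.nd (nat_lit 1014) (nat_lit 228) (nat_lit 0) (XT.nd (nat_lit 468) (nat_lit 228) (nat_lit 0) (XT.nd (nat_lit 234) (nat_lit 0) (nat_lit 0) (XT.nd (nat_lit 78) (nat_lit 76) (nat_lit 0) (XT.lf (nat_lit 0) (nat_lit 28386896840) (nat_lit 152) (nat_lit 75011185648) (nat_lit 76) (nat_lit 62727214933) (nat_lit 9) (nat_lit 5) (nat_lit 11) (nat_lit 5) (nat_lit 10) (nat_lit 4) (nat_lit 300) (nat_lit 265) (nat_lit 155)) (XT.nd (nat_lit 78) (nat_lit 76) (nat_lit 0) (XT.lf (nat_lit 0) (nat_lit 51391500847) (nat_lit 152) (nat_lit 27163700681) (nat_lit 76) (nat_lit 98347973564) (nat_lit 9) (nat_lit 5) (nat_lit 11) (nat_lit 5) (nat_lit 10) (nat_lit 4) (nat_lit 301) (nat_lit 265) (nat_lit 154)) (XT.lf (nat_lit 0) (nat_lit 25800625697) (nat_lit 76) (nat_lit 51055424588) (nat_lit 152) (nat_lit 111637668291) (nat_lit 8) (nat_lit 5) (nat_lit 9) (nat_lit 5) (nat_lit 10) (nat_lit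 4) (nat_lit 302) (nat_lit 265) (nat_lit 153)))) (XT.nd (nat_lit 78) (nat_lit 0) (nat_lit 0) (XT.lf (nat_lit 0) (nat_lit 84545353475) (nat_lit 76) (nat_lit 20554216421) (nat_lit 152) (nat_lit 95852592783) (nat_lit 8) (nat_lit 5) (nat_lit 9) (nat_lit 5) (nat_lit 10) (nat_lit 4) (nat_lit 303) (nat_lit 265) (nat_lit 152)) (XT.nd (nat_lit 78) (nat_lit 0) (nat_lit 0) (XT.lf (nat_lit 0) (nat_lit 135899634892) (nat_lit 152) (nat_lit 66717037922) (nat_lit 0) (nat_lit 11766845906) (nat_lit 8) (nat_lit 5) (nat_lit 10) (nat_lit 4) (nat_lit 8) (nat_lit 4) (nat_lit 304) (nat_lit 265) (nat_lit 151)) (XT.lf (nat_lit 0) (nat_lit 169696797545) (nat_lit 152) (nat_lit 13587354496) (nat_lit 0) (nat_lit 45562585209) (nat_lit 8) (nat_lit 5) (nat_lit 10) (nat_lit 4) (nat_lit 8) (nat_lit 4) (nat_lit 305) (nat_lit 265) (nat_lit 150))))) (XT.nd (nat_lit 234) (nat_lit 76) (nat_lit 0) (XT.nd (nat_lit 78) (nat_lit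 76) (nat_lit 0) (XT.lf (nat_lit 0) (nat_lit 46097391244) (nat_lit 76) (nat_lit 161208260063) (nat_lit 76) (nat_lit 37072729809) (nat_lit 7) (nat_lit 4) (nat_lit 8) (nat_lit 5) (nat_lit 8) (nat_lit 4) (nat_lit 306) (nat_lit 265) (nat_lit 149)) (XT.nd (nat_lit 78) (nat_lit 76) (nat_lit 0) (XT.lf (nat_lit 0) (nat_lit 111328383643) (nat_lit 76) (nat_lit 136965630277) (nat_lit 76) (nat_lit 12828879730) (nat_lit 7) (nat_lit 4) (nat_lit 8) (nat_lit 5) (nat_lit 8) (nat_lit 4) (nat_lit 307) (nat_lit 265) (nat_lit 148)) (XT.lf (nat_lit 0) (nat_lit 12685765510) (nat_lit 152) (nat_lit 97751488187) (nat_lit 76) (nat_lit 168744073900) (nat_lit 6) (nat_lit 5) (nat_lit 8) (nat_lit 5) (nat_lit 7) (nat_lit 4) (nat_lit 308) (nat_lit 265) (nat_lit 147)))) (XT.nd (nat_lit 156) (nat_lit 0) (nat_lit 0) (XT.nd (nat_lit 78) (nat_lit 76) (nat_lit 0) (XT.lf (nat_lit 0) (nat_lit 39547871358) (nat_lit 152) (nat_lit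 41879354229) (nat_lit 76) (nat_lit 217230603678) (nat_lit 6) (nat_lit 5) (nat_lit 8) (nat_lit 5) (nat_lit 7) (nat_lit 4) (nat_lit 309) (nat_lit 265) (nat_lit 146)) (XT.lf (nat_lit 0) (nat_lit 19433671832) (nat_lit 76) (nat_lit 49592081626) (nat_lit 152) (nat_lit 250629353870) (nat_lit 5) (nat_lit 5) (nat_lit 6) (nat_lit 5) (nat_lit 7) (nat_lit 4) (nat_lit 310) (nat_lit 265) (nat_lit 145))) (XT.nd (nat_lit 78) (nat_lit 0) (nat_lit 0) (XT.lf (nat_lit 0) (nat_lit 88032452443) (nat_lit 76) (nat_lit 13973915228) (nat_lit 152) (nat_lit 240234240660) (nat_lit 5) (nat_lit 5) (nat_lit 6) (nat_lit 5) (nat_lit 7) (nat_lit 4) (nat_lit 311) (nat_lit 265) (nat_lit 144)) (XT.lf (nat_lit 0) (nat_lit 138213982033) (nat_lit 152) (nat_lit 205103849087) (nat_lit 0) (nat_lit 23268034972) (nat_lit 5) (nat_lit 5) (nat_lit 7) (nat_lit 4) (nat_lit 5) (nat_lit 4) (nat_lit 312) (nat_lit 265) (nat_lit 143))))))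 (XT.nd (nat_lit 546) (nat_lit 152) (nat_lit 0) (XT.nd (nat_lit 234) (nat_lit 76) (nat_lit 0) (XT.nd (nat_lit 78) (nat_lit 0) (nat_lit 0) (XT.lf (nat_lit 0) (nat_lit 177680679965) (nat_lit 152) (nat_lit 152435046384) (nat_lit 0) (nat_lit 62734020874) (nat_lit 5) (nat_lit 5) (nat_lit 7) (nat_lit 4) (nat_lit 5) (nat_lit 4) (nat_lit 313) (nat_lit 265) (nat_lit 142)) (XT.nd (nat_lit 78) (nat_lit 0) (nat_lit 0) (XT.lf (nat_lit 0) (nat_lit 220304265197) (nat_lit 152) (nat_lit 95553563360) (nat_lit 0) (nat_lit 105356946820) (nat_lit 5) (nat_lit 5) (nat_lit 7) (nat_lit 4) (nat_lit 5) (nat_lit 4) (nat_lit 314) (nat_lit 265) (nat_lit 141)) (XT.lf (nat_lit 0) (nat_lit 266337321939) (nat_lit 152) (nat_lit 34122324560) (nat_lit 0) (nat_lit 151389393111) (nat_lit 5) (nat_lit 5) (nat_lit 7) (nat_lit 4) (nat_lit 5) (nat_lit 4) (nat_lit 315) (nat_lit 265) (nat_lit 140)))) (XT.nd (nat_lit 156) (nat_lit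 0) (nat_lit 0) (XT.nd (nat_lit 78) (nat_lit 0) (nat_lit 0) (XT.lf (nat_lit 0) (nat_lit 33919497633) (nat_lit 76) (nat_lit 282948905776) (nat_lit 76) (nat_lit 168000411716) (nat_lit 4) (nat_lit 4) (nat_lit 5) (nat_lit 5) (nat_lit 5) (nat_lit 4) (nat_lit 316) (nat_lit 265) (nat_lit 139)) (XT.lf (nat_lit 0) (nat_lit 109344543960) (nat_lit 76) (nat_lit 263030019641) (nat_lit 76) (nat_lit 148081002218) (nat_lit 4) (nat_lit 4) (nat_lit 5) (nat_lit 5) (nat_lit 5) (nat_lit 4) (nat_lit 317) (nat_lit 265) (nat_lit 138))) (XT.nd (nat_lit 78) (nat_lit 0) (nat_lit 0) (XT.lf (nat_lit 0) (nat_lit 190802956516) (nat_lit 76) (nat_lit 241517915075) (nat_lit 76) (nat_lit 126568413057) (nat_lit 4) (nat_lit 4) (nat_lit 5) (nat_lit 5) (nat_lit 5) (nat_lit 4) (nat_lit 318) (nat_lit 265) (nat_lit 137)) (XT.lf (nat_lit 0) (nat_lit 278777451821) (nat_lit 76) (nat_lit 218285112940) (nat_lit 76) (nat_lit 103335162222)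 (nat_lit 4) (nat_lit 4) (nat_lit 5) (nat_lit 5) (nat_lit 5) (nat_lit 4) (nat_lit 319) (nat_lit 265) (nat_lit 136))))) (XT.nd (nat_lit 234) (nat_lit 152) (nat_lit 0) (XT.nd (nat_lit 78) (nat_lit 0) (nat_lit 0) (XT.lf (nat_lit 0) (nat_lit 373789360217) (nat_lit 76) (nat_lit 193193937371) (nat_lit 76) (nat_lit 78243571190) (nat_lit 4) (nat_lit 4) (nat_lit 5) (nat_lit 5) (nat_lit 5) (nat_lit 4) (nat_lit 320) (nat_lit 265) (nat_lit 135)) (XT.nd (nat_lit 78) (nat_lit 0) (nat_lit 0) (XT.lf (nat_lit 0) (nat_lit 476401715235) (nat_lit 76) (nat_lit 166095699920) (nat_lit 76) (nat_lit 51144949052) (nat_lit 4) (nat_lit 4) (nat_lit 5) (nat_lit 5) (nat_lit 5) (nat_lit 4) (nat_lit 321) (nat_lit 265) (nat_lit 134)) (XT.lf (nat_lit 0) (nat_lit 587222590090) (nat_lit 76) (nat_lit 136829818439) (nat_lit 76) (nat_lit 21878711380) (nat_lit 4) (nat_lit 4) (nat_lit 5) (nat_lit 5) (nat_lit 5) (nat_lit 4) (nat_lit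 322) (nat_lit 265) (nat_lit 133)))) (XT.nd (nat_lit 156) (nat_lit 76) (nat_lit 0) (XT.nd (nat_lit 78) (nat_lit 0) (nat_lit 0) (XT.lf (nat_lit 0) (nat_lit 9241908841) (nat_lit 152) (nat_lit 95728266476) (nat_lit 76) (nat_lit 697414102071) (nat_lit 3) (nat_lit 5) (nat_lit 5) (nat_lit 5) (nat_lit 4) (nat_lit 4) (nat_lit 323) (nat_lit 265) (nat_lit 132)) (XT.lf (nat_lit 0) (nat_lit 41669936635) (nat_lit 152) (nat_lit 28278274042) (nat_lit 76) (nat_lit 793360032678) (nat_lit 3) (nat_lit 5) (nat_lit 5) (nat_lit 5) (nat_lit 4) (nat_lit 4) (nat_lit 324) (nat_lit 265) (nat_lit 131))) (XT.nd (nat_lit 78) (nat_lit 0) (nat_lit 0) (XT.lf (nat_lit 0) (nat_lit 46914171541) (nat_lit 76) (nat_lit 30906115257) (nat_lit 152) (nat_lit 851195593647) (nat_lit 2) (nat_lit 5) (nat_lit 3) (nat_lit 5) (nat_lit 4) (nat_lit 4) (nat_lit 325) (nat_lit 265) (nat_lit 130)) (XT.lf (nat_lit 0) (nat_lit 117926508607)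 (nat_lit 152) (nat_lit 870479306643) (nat_lit 0) (nat_lit 11489206002) (nat_lit 2) (nat_lit 5) (nat_lit 4) (nat_lit 4) (nat_lit 2) (nat_lit 4) (nat_lit 326) (nat_lit 265) (nat_lit 129))))))))
noncomputable def xc93 : XT := (XT.nd (nat_lit 33852) (nat_lit 0) (nat_lit 456) (XT.nd (nat_lit 32838) (nat_lit 0) (nat_lit 1976) (XT.nd (nat_lit 468) (nat_lit 0) (nat_lit 0) (XT.nd (nat_lit 234) (nat_lit 0) (nat_lit 0) (XT.nd (nat_lit 78) (nat_lit 0) (nat_lit 0) (XT.lf (nat_lit 0) (nat_lit 162043794929) (nat_lit 152) (nat_lit 858730225411) (nat_lit 0) (nat_lit 55606267863) (nat_lit 2) (nat_lit 5) (nat_lit 4) (nat_lit 4) (nat_lit 2) (nat_lit 4) (nat_lit 327) (nat_lit 265) (nat_lit 128)) (XT.nd (nat_lit 78) (nat_lit 0) (nat_lit 0) (XT.lf (nat_lit 0) (nat_lit 209690288720) (nat_lit 152) (nat_lit 846041548209) (nat_lit 0) (nat_lit 103252553820) (nat_lit 2) (nat_lit 5) (nat_lit 4) (nat_lit 4) (nat_lit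 2) (nat_lit 4) (nat_lit 328) (nat_lit 265) (nat_lit 127)) (XT.lf (nat_lit 0) (nat_lit 261148339574) (nat_lit 152) (nat_lit 832338082875) (nat_lit 0) (nat_lit 154710412234) (nat_lit 2) (nat_lit 5) (nat_lit 4) (nat_lit 4) (nat_lit 2) (nat_lit 4) (nat_lit 329) (nat_lit 265) (nat_lit 126)))) (XT.nd (nat_lit 78) (nat_lit 0) (nat_lit 0) (XT.lf (nat_lit 0) (nat_lit 316722884089) (nat_lit 152) (nat_lit 817538623689) (nat_lit 0) (nat_lit 210284778564) (nat_lit 2) (nat_lit 5) (nat_lit 4) (nat_lit 4) (nat_lit 2) (nat_lit 4) (nat_lit 330) (nat_lit 265) (nat_lit 125)) (XT.nd (nat_lit 78) (nat_lit 0) (nat_lit 0) (XT.lf (nat_lit 0) (nat_lit 376743252898) (nat_lit 152) (nat_lit 801555470152) (nat_lit 0) (nat_lit 270304982387) (nat_lit 2) (nat_lit 5) (nat_lit 4) (nat_lit 4) (nat_lit 2) (nat_lit 4) (nat_lit 331) (nat_lit 265) (nat_lit 124)) (XT.lf (nat_lit 0) (nat_lit 441565122260) (nat_lit 152) (nat_lit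 784293907281) (nat_lit 0) (nat_lit 335126698985) (nat_lit 2) (nat_lit 5) (nat_lit 4) (nat_lit 4) (nat_lit 2) (nat_lit 4) (nat_lit 332) (nat_lit 265) (nat_lit 123))))) (XT.nd (nat_lit 234) (nat_lit 0) (nat_lit 0) (XT.nd (nat_lit 78) (nat_lit 0) (nat_lit 0) (XT.lf (nat_lit 0) (nat_lit 511572621773) (nat_lit 152) (nat_lit 765651644331) (nat_lit 0) (nat_lit 405134057049) (nat_lit 2) (nat_lit 5) (nat_lit 4) (nat_lit 4) (nat_lit 2) (nat_lit 4) (nat_lit 333) (nat_lit 265) (nat_lit 122)) (XT.nd (nat_lit 78) (nat_lit 0) (nat_lit 0) (XT.lf (nat_lit 0) (nat_lit 587180610693) (nat_lit 152) (nat_lit 745518208635) (nat_lit 0) (nat_lit 480741914997) (nat_lit 2) (nat_lit 5) (nat_lit 4) (nat_lit 4) (nat_lit 2) (nat_lit 4) (nat_lit 334) (nat_lit 265) (nat_lit 121)) (XT.lf (nat_lit 0) (nat_lit 668837136361) (nat_lit 152) (nat_lit 723774290943) (nat_lit 0) (nat_lit 562398319396) (nat_lit 2) (nat_lit 5)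 (nat_lit 4) (nat_lit 4) (nat_lit 2) (nat_lit 4) (nat_lit 335) (nat_lit 265) (nat_lit 120)))) (XT.nd (nat_lit 156) (nat_lit 0) (nat_lit 0) (XT.nd (nat_lit 78) (nat_lit 0) (nat_lit 0) (XT.lf (nat_lit 0) (nat_lit 757026089299) (nat_lit 152) (nat_lit 700291038409) (nat_lit 0) (nat_lit 650587160048) (nat_lit 2) (nat_lit 5) (nat_lit 4) (nat_lit 4) (nat_lit 2) (nat_lit 4) (nat_lit 336) (nat_lit 265) (nat_lit 119)) (XT.lf (nat_lit 0) (nat_lit 852270070711) (nat_lit 152) (nat_lit 674929291020) (nat_lit 0) (nat_lit 745831037491) (nat_lit 2) (nat_lit 5) (nat_lit 4) (nat_lit 4) (nat_lit 2) (nat_lit 4) (nat_lit 337) (nat_lit 265) (nat_lit 118))) (XT.nd (nat_lit 31902) (nat_lit 0) (nat_lit 2660) (XT.lf (nat_lit 0) (nat_lit 955133489375) (nat_lit 152) (nat_lit 647538756938) (nat_lit 0) (nat_lit 848694359887) (nat_lit 2) (nat_lit 5) (nat_lit 4) (nat_lit 4) (nat_lit 2) (nat_lit 4) (nat_lit 338) (nat_lit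 265) (nat_lit 117)) (XT.lf (nat_lit 0) (nat_lit 6172021282) (nat_lit 532) (nat_lit 4505081217) (nat_lit 532) (nat_lit 4505081217) (nat_lit 37) (nat_lit 3) (nat_lit 44) (nat_lit 3) (nat_lit 44) (nat_lit 5) (nat_lit 266) (nat_lit 266) (nat_lit 188)))))) (XT.nd (nat_lit 468) (nat_lit 684) (nat_lit 0) (XT.nd (nat_lit 234) (nat_lit 0) (nat_lit 76) (XT.nd (nat_lit 78) (nat_lit 0) (nat_lit 76) (XT.lf (nat_lit 76) (nat_lit 4389495196) (nat_lit 0) (nat_lit 8617694992) (nat_lit 532) (nat_lit 18557896304) (nat_lit 38) (nat_lit 5) (nat_lit 37) (nat_lit 3) (nat_lit 44) (nat_lit 5) (nat_lit 267) (nat_lit 266) (nat_lit 187)) (XT.nd (nat_lit 78) (nat_lit 0) (nat_lit 0) (XT.lf (nat_lit 0) (nat_lit 14093300306) (nat_lit 456) (nat_lit 13602836635) (nat_lit 532) (nat_lit 5136163773) (nat_lit 38) (nat_lit 5) (nat_lit 44) (nat_lit 5) (nat_lit 45) (nat_lit 5) (nat_lit 268) (nat_lit 266) (nat_lit 186)) (XT.lf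 (nat_lit 76) (nat_lit 871554800) (nat_lit 0) (nat_lit 14633611398) (nat_lit 532) (nat_lit 18676644751) (nat_lit 39) (nat_lit 5) (nat_lit 38) (nat_lit 5) (nat_lit 45) (nat_lit 5) (nat_lit 269) (nat_lit 266) (nat_lit 185)))) (XT.nd (nat_lit 78) (nat_lit 0) (nat_lit 76) (XT.lf (nat_lit 76) (nat_lit 17273656758) (nat_lit 0) (nat_lit 122666854) (nat_lit 532) (nat_lit 18213677151) (nat_lit 39) (nat_lit 5) (nat_lit 38) (nat_lit 5) (nat_lit 45) (nat_lit 5) (nat_lit 270) (nat_lit 266) (nat_lit 184)) (XT.nd (nat_lit 78) (nat_lit 0) (nat_lit 0) (XT.lf (nat_lit 0) (nat_lit 19807599991) (nat_lit 456) (nat_lit 2542514140) (nat_lit 532) (nat_lit 14772849725) (nat_lit 39) (nat_lit 5) (nat_lit 45) (nat_lit 5) (nat_lit 46) (nat_lit 5) (nat_lit 271) (nat_lit 266) (nat_lit 183)) (XT.lf (nat_lit 76) (nat_lit 15271857474) (nat_lit 0) (nat_lit 7505644644) (nat_lit 532) (nat_lit 15950226401) (nat_lit 40) (nat_lit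 5) (nat_lit 39) (nat_lit 5) (nat_lit 46) (nat_lit 5) (nat_lit 272) (nat_lit 266) (nat_lit 182))))) (XT.nd (nat_lit 234) (nat_lit 456) (nat_lit 0) (XT.nd (nat_lit 78) (nat_lit 456) (nat_lit 0) (XT.lf (nat_lit 0) (nat_lit 26256912100) (nat_lit 456) (nat_lit 6010248451) (nat_lit 76) (nat_lit 8171981301) (nat_lit 40) (nat_lit 5) (nat_lit 46) (nat_lit 5) (nat_lit 41) (nat_lit 5) (nat_lit 273) (nat_lit 266) (nat_lit 181)) (XT.nd (nat_lit 78) (nat_lit 0) (nat_lit 0) (XT.lf (nat_lit 0) (nat_lit 13297523724) (nat_lit 456) (nat_lit 17227773087) (nat_lit 532) (nat_lit 11721340899) (nat_lit 34) (nat_lit 5) (nat_lit 40) (nat_lit 5) (nat_lit 41) (nat_lit 5) (nat_lit 274) (nat_lit 266) (nat_lit 180)) (XT.lf (nat_lit 0) (nat_lit 34488076217) (nat_lit 456) (nat_lit 807489855) (nat_lit 532) (nat_lit 8890351855) (nat_lit 34) (nat_lit 5) (nat_lit 40) (nat_lit 5) (nat_lit 41) (nat_lit 5) (nat_lit 275) (nat_lit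 266) (nat_lit 179)))) (XT.nd (nat_lit 156) (nat_lit 228) (nat_lit 0) (XT.nd (nat_lit 78) (nat_lit 0) (nat_lit 0) (XT.lf (nat_lit 0) (nat_lit 11245294978) (nat_lit 228) (nat_lit 29876071262) (nat_lit 304) (nat_lit 5105078046) (nat_lit 31) (nat_lit 5) (nat_lit 34) (nat_lit 5) (nat_lit 35) (nat_lit 5) (nat_lit 276) (nat_lit 266) (nat_lit 178)) (XT.lf (nat_lit 0) (nat_lit 34389730861) (nat_lit 228) (nat_lit 13305659236) (nat_lit 304) (nat_lit 712265136) (nat_lit 31) (nat_lit 5) (nat_lit 34) (nat_lit 5) (nat_lit 35) (nat_lit 5) (nat_lit 277) (nat_lit 266) (nat_lit 177))) (XT.nd (nat_lit 78) (nat_lit 0) (nat_lit 0) (XT.lf (nat_lit 0) (nat_lit 4161255727) (nat_lit 228) (nat_lit 41886518655) (nat_lit 76) (nat_lit 4681365944) (nat_lit 28) (nat_lit 5) (nat_lit 31) (nat_lit 5) (nat_lit 29) (nat_lit 5) (nat_lit 278) (nat_lit 266) (nat_lit 176)) (XT.lf (nat_lit 0) (nat_lit 10121881547) (nat_lit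 228) (nat_lit 19254199093) (nat_lit 76) (nat_lit 23799939335) (nat_lit 28) (nat_lit 5) (nat_lit 31) (nat_lit 5) (nat_lit 29) (nat_lit 5) (nat_lit 279) (nat_lit 266) (nat_lit 175))))))) (XT.nd (nat_lit 1014) (nat_lit 532) (nat_lit 0) (XT.nd (nat_lit 468) (nat_lit 456) (nat_lit 0) (XT.nd (nat_lit 234) (nat_lit 152) (nat_lit 0) (XT.nd (nat_lit 78) (nat_lit 152) (nat_lit 0) (XT.lf (nat_lit 0) (nat_lit 5458344421) (nat_lit 228) (nat_lit 11229390473) (nat_lit 304) (nat_lit 39120656116) (nat_lit 25) (nat_lit 5) (nat_lit 28) (nat_lit 5) (nat_lit 29) (nat_lit 5) (nat_lit 280) (nat_lit 266) (nat_lit 174)) (XT.nd (nat_lit 78) (nat_lit 152) (nat_lit 0) (XT.lf (nat_lit 0) (nat_lit 24517474985) (nat_lit 304) (nat_lit 25584832324) (nat_lit 76) (nat_lit 8489965324) (nat_lit 25) (nat_lit 5) (nat_lit 29) (nat_lit 5) (nat_lit 26) (nat_lit 5) (nat_lit 281) (nat_lit 266) (nat_lit 173)) (XT.lf (nat_lit 0)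 (nat_lit 912283527) (nat_lit 152) (nat_lit 32372354407) (nat_lit 228) (nat_lit 28289352970) (nat_lit 23) (nat_lit 5) (nat_lit 25) (nat_lit 5) (nat_lit 26) (nat_lit 5) (nat_lit 282) (nat_lit 266) (nat_lit 172)))) (XT.nd (nat_lit 78) (nat_lit 152) (nat_lit 0) (XT.lf (nat_lit 0) (nat_lit 30981004555) (nat_lit 152) (nat_lit 12469248200) (nat_lit 228) (nat_lit 21288236475) (nat_lit 23) (nat_lit 5) (nat_lit 25) (nat_lit 5) (nat_lit 26) (nat_lit 5) (nat_lit 283) (nat_lit 266) (nat_lit 171)) (XT.nd (nat_lit 78) (nat_lit 152) (nat_lit 0) (XT.lf (nat_lit 0) (nat_lit 54643904446) (nat_lit 228) (nat_lit 4921135326) (nat_lit 76) (nat_lit 8573932876) (nat_lit 23) (nat_lit 5) (nat_lit 26) (nat_lit 5) (nat_lit 24) (nat_lit 5) (nat_lit 284) (nat_lit 266) (nat_lit 170)) (XT.lf (nat_lit 0) (nat_lit 27258947331) (nat_lit 152) (nat_lit 40451435122) (nat_lit 228) (nat_lit 4022933183) (nat_lit 21) (nat_lit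 5) (nat_lit 23) (nat_lit 5) (nat_lit 24) (nat_lit 5) (nat_lit 285) (nat_lit 266) (nat_lit 169))))) (XT.nd (nat_lit 234) (nat_lit 228) (nat_lit 0) (XT.nd (nat_lit 78) (nat_lit 152) (nat_lit 0) (XT.lf (nat_lit 0) (nat_lit 6032431031) (nat_lit 228) (nat_lit 13466852865) (nat_lit 76) (nat_lit 56093109977) (nat_lit 20) (nat_lit 5) (nat_lit 23) (nat_lit 5) (nat_lit 21) (nat_lit 5) (nat_lit 286) (nat_lit 266) (nat_lit 168)) (XT.nd (nat_lit 78) (nat_lit 0) (nat_lit 0) (XT.lf (nat_lit 0) (nat_lit 17268141763) (nat_lit 228) (nat_lit 58840026897) (nat_lit 76) (nat_lit 3596215603) (nat_lit 18) (nat_lit 5) (nat_lit 21) (nat_lit 5) (nat_lit 19) (nat_lit 5) (nat_lit 287) (nat_lit 266) (nat_lit 167)) (XT.lf (nat_lit 0) (nat_lit 30285079758) (nat_lit 228) (nat_lit 25926771755) (nat_lit 76) (nat_lit 27862898347) (nat_lit 18) (nat_lit 5) (nat_lit 21) (nat_lit 5) (nat_lit 19) (nat_lit 5) (nat_lit 288)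 (nat_lit 266) (nat_lit 166)))) (XT.nd (nat_lit 156) (nat_lit 76) (nat_lit 0) (XT.nd (nat_lit 78) (nat_lit 0) (nat_lit 0) (XT.lf (nat_lit 0) (nat_lit 10123370600) (nat_lit 152) (nat_lit 34461732500) (nat_lit 228) (nat_lit 44190308375) (nat_lit 16) (nat_lit 5) (nat_lit 18) (nat_lit 5) (nat_lit 19) (nat_lit 5) (nat_lit 289) (nat_lit 266) (nat_lit 165)) (XT.lf (nat_lit 0) (nat_lit 50529483079) (nat_lit 152) (nat_lit 10206860183) (nat_lit 228) (nat_lit 33059210367) (nat_lit 16) (nat_lit 5) (nat_lit 18) (nat_lit 5) (nat_lit 19) (nat_lit 5) (nat_lit 290) (nat_lit 266) (nat_lit 164))) (XT.nd (nat_lit 78) (nat_lit 76) (nat_lit 0) (XT.lf (nat_lit 0) (nat_lit 78562639834) (nat_lit 228) (nat_lit 5436186281) (nat_lit 76) (nat_lit 15187848918) (nat_lit 16) (nat_lit 5) (nat_lit 19) (nat_lit 5) (nat_lit 17) (nat_lit 4) (nat_lit 291) (nat_lit 266) (nat_lit 163)) (XT.lf (nat_lit 0) (nat_lit 37003793785)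 (nat_lit 76) (nat_lit 61964853344) (nat_lit 152) (nat_lit 5948154583) (nat_lit 15) (nat_lit 5) (nat_lit 16) (nat_lit 5) (nat_lit 17) (nat_lit 4) (nat_lit 292) (nat_lit 266) (nat_lit 162)))))) (XT.nd (nat_lit 546) (nat_lit 228) (nat_lit 0) (XT.nd (nat_lit 234) (nat_lit 76) (nat_lit 0) (XT.nd (nat_lit 78) (nat_lit 152) (nat_lit 0) (XT.lf (nat_lit 0) (nat_lit 9557530194) (nat_lit 152) (nat_lit 28189596951) (nat_lit 76) (nat_lit 73327078905) (nat_lit 14) (nat_lit 5) (nat_lit 16) (nat_lit 5) (nat_lit 15) (nat_lit 5) (nat_lit 293) (nat_lit 266) (nat_lit 161)) (XT.nd (nat_lit 78) (nat_lit 0) (nat_lit 0) (XT.lf (nat_lit 0) (nat_lit 15321519858) (nat_lit 152) (nat_lit 11027950249) (nat_lit 228) (nat_lit 91333003683) (nat_lit 12) (nat_lit 5) (nat_lit 14) (nat_lit 5) (nat_lit 15) (nat_lit 5) (nat_lit 294) (nat_lit 266) (nat_lit 160)) (XT.lf (nat_lit 0) (nat_lit 45703022726) (nat_lit 228) (nat_lit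 61291998023) (nat_lit 76) (nat_lit 17726924630) (nat_lit 12) (nat_lit 5) (nat_lit 15) (nat_lit 5) (nat_lit 13) (nat_lit 4) (nat_lit 295) (nat_lit 266) (nat_lit 159)))) (XT.nd (nat_lit 156) (nat_lit 0) (nat_lit 0) (XT.nd (nat_lit 78) (nat_lit 76) (nat_lit 0) (XT.lf (nat_lit 0) (nat_lit 66890098223) (nat_lit 228) (nat_lit 17225953896) (nat_lit 76) (nat_lit 48185706288) (nat_lit 12) (nat_lit 5) (nat_lit 15) (nat_lit 5) (nat_lit 13) (nat_lit 4) (nat_lit 296) (nat_lit 266) (nat_lit 158)) (XT.lf (nat_lit 0) (nat_lit 31962422872) (nat_lit 76) (nat_lit 58577301337) (nat_lit 152) (nat_lit 49886828109) (nat_lit 11) (nat_lit 5) (nat_lit 12) (nat_lit 5) (nat_lit 13) (nat_lit 4) (nat_lit 297) (nat_lit 266) (nat_lit 157))) (XT.nd (nat_lit 78) (nat_lit 0) (nat_lit 0) (XT.lf (nat_lit 0) (nat_lit 86063730914) (nat_lit 76) (nat_lit 30487504144) (nat_lit 152) (nat_lit 32612503908) (nat_lit 11) (nat_lit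 5) (nat_lit 12) (nat_lit 5) (nat_lit 13) (nat_lit 4) (nat_lit 298) (nat_lit 266) (nat_lit 156)) (XT.lf (nat_lit 0) (nat_lit 144491482369) (nat_lit 76) (nat_lit 151190587) (nat_lit 152) (nat_lit 13957309323) (nat_lit 11) (nat_lit 5) (nat_lit 12) (nat_lit 5) (nat_lit 13) (nat_lit 4) (nat_lit 299) (nat_lit 266) (nat_lit 155))))) (XT.nd (nat_lit 234) (nat_lit 76) (nat_lit 0) (XT.nd (nat_lit 78) (nat_lit 0) (nat_lit 0) (XT.lf (nat_lit 0) (nat_lit 7671806824) (nat_lit 152) (nat_lit 128827397413) (nat_lit 76) (nat_lit 32136718983) (nat_lit 9) (nat_lit 5) (nat_lit 11) (nat_lit 5) (nat_lit 10) (nat_lit 4) (nat_lit 300) (nat_lit 266) (nat_lit 154)) (XT.nd (nat_lit 78) (nat_lit 0) (nat_lit 0) (XT.lf (nat_lit 0) (nat_lit 30675964410) (nat_lit 152) (nat_lit 80980686089) (nat_lit 76) (nat_lit 67757186957) (nat_lit 9) (nat_lit 5) (nat_lit 11) (nat_lit 5) (nat_lit 10) (nat_lit 4) (nat_lit 301) (nat_lit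 266) (nat_lit 153)) (XT.lf (nat_lit 0) (nat_lit 55519594825) (nat_lit 152) (nat_lit 29307727836) (nat_lit 76) (nat_lit 106226732587) (nat_lit 9) (nat_lit 5) (nat_lit 11) (nat_lit 5) (nat_lit 10) (nat_lit 4) (nat_lit 302) (nat_lit 266) (nat_lit 152)))) (XT.nd (nat_lit 156) (nat_lit 0) (nat_lit 0) (XT.nd (nat_lit 78) (nat_lit 0) (nat_lit 0) (XT.lf (nat_lit 0) (nat_lit 27893008730) (nat_lit 76) (nat_lit 55127738384) (nat_lit 152) (nat_lit 120551142350) (nat_lit 8) (nat_lit 5) (nat_lit 9) (nat_lit 5) (nat_lit 10) (nat_lit 4) (nat_lit 303) (nat_lit 266) (nat_lit 151)) (XT.lf (nat_lit 0) (nat_lit 91335215991) (nat_lit 76) (nat_lit 22187331354) (nat_lit 152) (nat_lit 103504560017) (nat_lit 8) (nat_lit 5) (nat_lit 9) (nat_lit 5) (nat_lit 10) (nat_lit 4) (nat_lit 304) (nat_lit 266) (nat_lit 150))) (XT.nd (nat_lit 78) (nat_lit 0) (nat_lit 0) (XT.lf (nat_lit 0) (nat_lit 146785755458) (nat_lit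 152) (nat_lit 72029222556) (nat_lit 0) (nat_lit 12718064867) (nat_lit 8) (nat_lit 5) (nat_lit 10) (nat_lit 4) (nat_lit 8) (nat_lit 4) (nat_lit 305) (nat_lit 266) (nat_lit 149)) (XT.lf (nat_lit 0) (nat_lit 183285642992) (nat_lit 152) (nat_lit 14651029524) (nat_lit 0) (nat_lit 49216732107) (nat_lit 8) (nat_lit 5) (nat_lit 10) (nat_lit 4) (nat_lit 8) (nat_lit 4) (nat_lit 306) (nat_lit 266) (nat_lit 148))))))))
noncomputable def xc94 : XT := (XT.nd (nat_lit 2028) (nat_lit 0) (nat_lit 0) (XT.nd (nat_lit 1014) (nat_lit 152) (nat_lit 0) (XT.nd (nat_lit 468) (nat_lit 76) (nat_lit 0) (XT.nd (nat_lit 234) (nat_lit 76) (nat_lit 0) (XT.nd (nat_lit 78) (nat_lit 76) (nat_lit 0) (XT.lf (nat_lit 0) (nat_lit 49807905665) (nat_lit 76) (nat_lit 174094875389) (nat_lit 76) (nat_lit 40024834603) (nat_lit 7) (nat_lit 4) (nat_lit 8) (nat_lit 5) (nat_lit 8) (nat_lit 4) (nat_lit 307) (nat_lit 266) (nat_lit 147))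 (XT.nd (nat_lit 78) (nat_lit 76) (nat_lit 0) (XT.lf (nat_lit 0) (nat_lit 120255694262) (nat_lit 76) (nat_lit 147913579330) (nat_lit 76) (nat_lit 13842492339) (nat_lit 7) (nat_lit 4) (nat_lit 8) (nat_lit 5) (nat_lit 8) (nat_lit 4) (nat_lit 308) (nat_lit 266) (nat_lit 146)) (XT.lf (nat_lit 0) (nat_lit 13711795802) (nat_lit 152) (nat_lit 105551520430) (nat_lit 76) (nat_lit 182251606793) (nat_lit 6) (nat_lit 5) (nat_lit 8) (nat_lit 5) (nat_lit 7) (nat_lit 4) (nat_lit 309) (nat_lit 266) (nat_lit 145)))) (XT.nd (nat_lit 78) (nat_lit 76) (nat_lit 0) (XT.lf (nat_lit 0) (nat_lit 42722042781) (nat_lit 152) (nat_lit 45211103667) (nat_lit 76) (nat_lit 234616465844) (nat_lit 6) (nat_lit 5) (nat_lit 8) (nat_lit 5) (nat_lit 7) (nat_lit 4) (nat_lit 310) (nat_lit 266) (nat_lit 144)) (XT.nd (nat_lit 78) (nat_lit 0) (nat_lit 0) (XT.lf (nat_lit 0) (nat_lit 21006493621) (nat_lit 76) (nat_lit 53551331755)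 (nat_lit 152) (nat_lit 270668874813) (nat_lit 5) (nat_lit 5) (nat_lit 6) (nat_lit 5) (nat_lit 7) (nat_lit 4) (nat_lit 311) (nat_lit 266) (nat_lit 143)) (XT.lf (nat_lit 0) (nat_lit 95091833862) (nat_lit 76) (nat_lit 15084313261) (nat_lit 152) (nat_lit 259442954574) (nat_lit 5) (nat_lit 5) (nat_lit 6) (nat_lit 5) (nat_lit 7) (nat_lit 4) (nat_lit 312) (nat_lit 266) (nat_lit 142))))) (XT.nd (nat_lit 234) (nat_lit 76) (nat_lit 0) (XT.nd (nat_lit 78) (nat_lit 0) (nat_lit 0) (XT.lf (nat_lit 0) (nat_lit 149279851317) (nat_lit 152) (nat_lit 221496083139) (nat_lit 0) (nat_lit 25136088183) (nat_lit 5) (nat_lit 5) (nat_lit 7) (nat_lit 4) (nat_lit 5) (nat_lit 4) (nat_lit 313) (nat_lit 266) (nat_lit 141)) (XT.nd (nat_lit 78) (nat_lit 0) (nat_lit 0) (XT.lf (nat_lit 0) (nat_lit 191903236882) (nat_lit 152) (nat_lit 164614966877) (nat_lit 0) (nat_lit 67758863297) (nat_lit 5) (nat_lit 5) (nat_lit 7) (nat_lit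 4) (nat_lit 5) (nat_lit 4) (nat_lit 314) (nat_lit 266) (nat_lit 140)) (XT.lf (nat_lit 0) (nat_lit 237936108746) (nat_lit 152) (nat_lit 103184067672) (nat_lit 0) (nat_lit 113791169929) (nat_lit 5) (nat_lit 5) (nat_lit 7) (nat_lit 4) (nat_lit 5) (nat_lit 4) (nat_lit 315) (nat_lit 266) (nat_lit 139)))) (XT.nd (nat_lit 156) (nat_lit 0) (nat_lit 0) (XT.nd (nat_lit 78) (nat_lit 76) (nat_lit 0) (XT.lf (nat_lit 0) (nat_lit 287651254299) (nat_lit 152) (nat_lit 36839350565) (nat_lit 0) (nat_lit 163505792119) (nat_lit 5) (nat_lit 5) (nat_lit 7) (nat_lit 4) (nat_lit 5) (nat_lit 4) (nat_lit 316) (nat_lit 266) (nat_lit 138)) (XT.lf (nat_lit 0) (nat_lit 36645494366) (nat_lit 76) (nat_lit 305579112464) (nat_lit 76) (nat_lit 181433165689) (nat_lit 4) (nat_lit 4) (nat_lit 5) (nat_lit 5) (nat_lit 5) (nat_lit 4) (nat_lit 317) (nat_lit 266) (nat_lit 137))) (XT.nd (nat_lit 78) (nat_lit 0) (nat_lit 0) (XT.lf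 (nat_lit 0) (nat_lit 118103623146) (nat_lit 76) (nat_lit 284067138089) (nat_lit 76) (nat_lit 159920742614) (nat_lit 4) (nat_lit 4) (nat_lit 5) (nat_lit 5) (nat_lit 5) (nat_lit 4) (nat_lit 318) (nat_lit 266) (nat_lit 136)) (XT.lf (nat_lit 0) (nat_lit 206077855694) (nat_lit 76) (nat_lit 260834456500) (nat_lit 76) (nat_lit 136687645563) (nat_lit 4) (nat_lit 4) (nat_lit 5) (nat_lit 5) (nat_lit 5) (nat_lit 4) (nat_lit 319) (nat_lit 266) (nat_lit 135)))))) (XT.nd (nat_lit 468) (nat_lit 76) (nat_lit 0) (XT.nd (nat_lit 234) (nat_lit 76) (nat_lit 0) (XT.nd (nat_lit 78) (nat_lit 0) (nat_lit 0) (XT.lf (nat_lit 0) (nat_lit 301089520797) (nat_lit 76) (nat_lit 235743392548) (nat_lit 76) (nat_lit 111596196924) (nat_lit 4) (nat_lit 4) (nat_lit 5) (nat_lit 5) (nat_lit 5) (nat_lit 4) (nat_lit 320) (nat_lit 266) (nat_lit 134)) (XT.nd (nat_lit 78) (nat_lit 0) (nat_lit 0) (XT.lf (nat_lit 0) (nat_lit 403701650544)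 (nat_lit 76) (nat_lit 208645258446) (nat_lit 76) (nat_lit 84497706630) (nat_lit 4) (nat_lit 4) (nat_lit 5) (nat_lit 5) (nat_lit 5) (nat_lit 4) (nat_lit 321) (nat_lit 266) (nat_lit 133)) (XT.lf (nat_lit 0) (nat_lit 514522316815) (nat_lit 76) (nat_lit 179379472660) (nat_lit 76) (nat_lit 55231591036) (nat_lit 4) (nat_lit 4) (nat_lit 5) (nat_lit 5) (nat_lit 5) (nat_lit 4) (nat_lit 322) (nat_lit 266) (nat_lit 132)))) (XT.nd (nat_lit 78) (nat_lit 76) (nat_lit 0) (XT.lf (nat_lit 0) (nat_lit 634208234669) (nat_lit 76) (nat_lit 147772608309) (nat_lit 76) (nat_lit 23624421308) (nat_lit 4) (nat_lit 4) (nat_lit 5) (nat_lit 5) (nat_lit 5) (nat_lit 4) (nat_lit 323) (nat_lit 266) (nat_lit 131)) (XT.nd (nat_lit 78) (nat_lit 0) (nat_lit 0) (XT.lf (nat_lit 0) (nat_lit 9985296292) (nat_lit 152) (nat_lit 103379053470) (nat_lit 76) (nat_lit 753210342001) (nat_lit 3) (nat_lit 5) (nat_lit 5) (nat_lit 5) (nat_lit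 4) (nat_lit 4) (nat_lit 324) (nat_lit 266) (nat_lit 130)) (XT.lf (nat_lit 0) (nat_lit 45007267439) (nat_lit 152) (nat_lit 30533615294) (nat_lit 76) (nat_lit 856831716556) (nat_lit 3) (nat_lit 5) (nat_lit 5) (nat_lit 5) (nat_lit 4) (nat_lit 4) (nat_lit 325) (nat_lit 266) (nat_lit 129))))) (XT.nd (nat_lit 234) (nat_lit 0) (nat_lit 0) (XT.nd (nat_lit 78) (nat_lit 0) (nat_lit 0) (XT.lf (nat_lit 0) (nat_lit 50674050728) (nat_lit 76) (nat_lit 33375480385) (nat_lit 152) (nat_lit 919287325740) (nat_lit 2) (nat_lit 5) (nat_lit 3) (nat_lit 5) (nat_lit 4) (nat_lit 4) (nat_lit 326) (nat_lit 266) (nat_lit 128)) (XT.nd (nat_lit 78) (nat_lit 0) (nat_lit 0) (XT.lf (nat_lit 0) (nat_lit 127364051985) (nat_lit 152) (nat_lit 940111202695) (nat_lit 0) (nat_lit 12411090458) (nat_lit 2) (nat_lit 5) (nat_lit 4) (nat_lit 4) (nat_lit 2) (nat_lit 4) (nat_lit 327) (nat_lit 266) (nat_lit 127)) (XT.lf (nat_lit 0)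 (nat_lit 175010467680) (nat_lit 152) (nat_lit 927422672630) (nat_lit 0) (nat_lit 60057313713) (nat_lit 2) (nat_lit 5) (nat_lit 4) (nat_lit 4) (nat_lit 2) (nat_lit 4) (nat_lit 328) (nat_lit 266) (nat_lit 126)))) (XT.nd (nat_lit 156) (nat_lit 0) (nat_lit 0) (XT.nd (nat_lit 78) (nat_lit 0) (nat_lit 0) (XT.lf (nat_lit 0) (nat_lit 226468446223) (nat_lit 152) (nat_lit 913719343534) (nat_lit 0) (nat_lit 111515114071) (nat_lit 2) (nat_lit 5) (nat_lit 4) (nat_lit 4) (nat_lit 2) (nat_lit 4) (nat_lit 329) (nat_lit 266) (nat_lit 125)) (XT.lf (nat_lit 0) (nat_lit 282042923782) (nat_lit 152) (nat_lit 898920010494) (nat_lit 0) (nat_lit 167089426645) (nat_lit 2) (nat_lit 5) (nat_lit 4) (nat_lit 4) (nat_lit 2) (nat_lit 4) (nat_lit 330) (nat_lit 266) (nat_lit 124))) (XT.nd (nat_lit 78) (nat_lit 0) (nat_lit 0) (XT.lf (nat_lit 0) (nat_lit 342063230595) (nat_lit 152) (nat_lit 882936973760) (nat_lit 0) (nat_lit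 227109580693) (nat_lit 2) (nat_lit 5) (nat_lit 4) (nat_lit 4) (nat_lit 2) (nat_lit 4) (nat_lit 331) (nat_lit 266) (nat_lit 123)) (XT.lf (nat_lit 0) (nat_lit 406885042555) (nat_lit 152) (nat_lit 865675519038) (nat_lit 0) (nat_lit 291931251204) (nat_lit 2) (nat_lit 5) (nat_lit 4) (nat_lit 4) (nat_lit 2) (nat_lit 4) (nat_lit 332) (nat_lit 266) (nat_lit 122))))))) (XT.nd (nat_lit 32994) (nat_lit 0) (nat_lit 1216) (XT.nd (nat_lit 32448) (nat_lit 0) (nat_lit 2660) (XT.nd (nat_lit 234) (nat_lit 0) (nat_lit 0) (XT.nd (nat_lit 78) (nat_lit 0) (nat_lit 0) (XT.lf (nat_lit 0) (nat_lit 476892488916) (nat_lit 152) (nat_lit 847033356228) (nat_lit 0) (nat_lit 361938566594) (nat_lit 2) (nat_lit 5) (nat_lit 4) (nat_lit 4) (nat_lit 2) (nat_lit 4) (nat_lit 333) (nat_lit 266) (nat_lit 121)) (XT.nd (nat_lit 78) (nat_lit 0) (nat_lit 0) (XT.lf (nat_lit 0) (nat_lit 552500428622) (nat_lit 152) (nat_lit 826900013252)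 (nat_lit 0) (nat_lit 437546385030) (nat_lit 2) (nat_lit 5) (nat_lit 4) (nat_lit 4) (nat_lit 2) (nat_lit 4) (nat_lit 334) (nat_lit 266) (nat_lit 120)) (XT.lf (nat_lit 0) (nat_lit 634156908721) (nat_lit 152) (nat_lit 805156181413) (nat_lit 0) (nat_lit 519202752843) (nat_lit 2) (nat_lit 5) (nat_lit 4) (nat_lit 4) (nat_lit 2) (nat_lit 4) (nat_lit 335) (nat_lit 266) (nat_lit 119)))) (XT.nd (nat_lit 78) (nat_lit 0) (nat_lit 0) (XT.lf (nat_lit 0) (nat_lit 722345819466) (nat_lit 152) (nat_lit 781673008373) (nat_lit 0) (nat_lit 607391559619) (nat_lit 2) (nat_lit 5) (nat_lit 4) (nat_lit 4) (nat_lit 2) (nat_lit 4) (nat_lit 336) (nat_lit 266) (nat_lit 118)) (XT.nd (nat_lit 32058) (nat_lit 0) (nat_lit 2660) (XT.lf (nat_lit 0) (nat_lit 817589761811) (nat_lit 152) (nat_lit 756311334589) (nat_lit 0) (nat_lit 702635405696) (nat_lit 2) (nat_lit 5) (nat_lit 4) (nat_lit 4) (nat_lit 2) (nat_lit 4) (nat_lit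 337) (nat_lit 266) (nat_lit 117)) (XT.lf (nat_lit 0) (nat_lit 6728066606) (nat_lit 532) (nat_lit 4831705842) (nat_lit 532) (nat_lit 4831705842) (nat_lit 37) (nat_lit 3) (nat_lit 44) (nat_lit 3) (nat_lit 44) (nat_lit 5) (nat_lit 267) (nat_lit 267) (nat_lit 186))))) (XT.nd (nat_lit 234) (nat_lit 0) (nat_lit 76) (XT.nd (nat_lit 78) (nat_lit 0) (nat_lit 76) (XT.lf (nat_lit 76) (nat_lit 4806508083) (nat_lit 0) (nat_lit 9358181134) (nat_lit 532) (nat_lit 19915699487) (nat_lit 38) (nat_lit 5) (nat_lit 37) (nat_lit 3) (nat_lit 44) (nat_lit 5) (nat_lit 268) (nat_lit 267) (nat_lit 185)) (XT.nd (nat_lit 78) (nat_lit 0) (nat_lit 0) (XT.lf (nat_lit 0) (nat_lit 15327889854) (nat_lit 456) (nat_lit 14619780023) (nat_lit 532) (nat_lit 5502134850) (nat_lit 38) (nat_lit 5) (nat_lit 44) (nat_lit 5) (nat_lit 45) (nat_lit 5) (nat_lit 269) (nat_lit 267) (nat_lit 184)) (XT.lf (nat_lit 76) (nat_lit 1010758081)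 (nat_lit 0) (nat_lit 15835682681) (nat_lit 532) (nat_lit 20061373936) (nat_lit 39) (nat_lit 5) (nat_lit 38) (nat_lit 5) (nat_lit 45) (nat_lit 5) (nat_lit 270) (nat_lit 267) (nat_lit 183)))) (XT.nd (nat_lit 156) (nat_lit 0) (nat_lit 76) (XT.nd (nat_lit 78) (nat_lit 0) (nat_lit 76) (XT.lf (nat_lit 76) (nat_lit 18719881610) (nat_lit 0) (nat_lit 161537954) (nat_lit 532) (nat_lit 19569472809) (nat_lit 39) (nat_lit 5) (nat_lit 38) (nat_lit 5) (nat_lit 45) (nat_lit 5) (nat_lit 271) (nat_lit 267) (nat_lit 182)) (XT.lf (nat_lit 0) (nat_lit 21478033198) (nat_lit 456) (nat_lit 2678378603) (nat_lit 532) (nat_lit 15929118291) (nat_lit 39) (nat_lit 5) (nat_lit 45) (nat_lit 5) (nat_lit 46) (nat_lit 5) (nat_lit 272) (nat_lit 267) (nat_lit 181))) (XT.nd (nat_lit 78) (nat_lit 0) (nat_lit 76) (XT.lf (nat_lit 76) (nat_lit 16559432952) (nat_lit 0) (nat_lit 8121320259) (nat_lit 532) (nat_lit 17138334649)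 (nat_lit 40) (nat_lit 5) (nat_lit 39) (nat_lit 5) (nat_lit 46) (nat_lit 5) (nat_lit 273) (nat_lit 267) (nat_lit 180)) (XT.lf (nat_lit 0) (nat_lit 28432173201) (nat_lit 456) (nat_lit 6423427624) (nat_lit 76) (nat_lit 8812348624) (nat_lit 40) (nat_lit 5) (nat_lit 46) (nat_lit 5) (nat_lit 41) (nat_lit 5) (nat_lit 274) (nat_lit 267) (nat_lit 179)))))) (XT.nd (nat_lit 546) (nat_lit 532) (nat_lit 0) (XT.nd (nat_lit 234) (nat_lit 456) (nat_lit 0) (XT.nd (nat_lit 78) (nat_lit 228) (nat_lit 0) (XT.lf (nat_lit 0) (nat_lit 14427253903) (nat_lit 456) (nat_lit 18610826428) (nat_lit 532) (nat_lit 12582306227) (nat_lit 34) (nat_lit 5) (nat_lit 40) (nat_lit 5) (nat_lit 41) (nat_lit 5) (nat_lit 275) (nat_lit 267) (nat_lit 178)) (XT.nd (nat_lit 78) (nat_lit 228) (nat_lit 0) (XT.lf (nat_lit 0) (nat_lit 37308167019) (nat_lit 456) (nat_lit 876562649) (nat_lit 532) (nat_lit 9530522647) (nat_lit 34) (nat_lit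 5) (nat_lit 40) (nat_lit 5) (nat_lit 41) (nat_lit 5) (nat_lit 276) (nat_lit 267) (nat_lit 177)) (XT.lf (nat_lit 0) (nat_lit 12209921529) (nat_lit 228) (nat_lit 32263282814) (nat_lit 304) (nat_lit 5446109644) (nat_lit 31) (nat_lit 5) (nat_lit 34) (nat_lit 5) (nat_lit 35) (nat_lit 5) (nat_lit 277) (nat_lit 267) (nat_lit 176)))) (XT.nd (nat_lit 156) (nat_lit 228) (nat_lit 0) (XT.nd (nat_lit 78) (nat_lit 228) (nat_lit 0) (XT.lf (nat_lit 0) (nat_lit 37201097249) (nat_lit 228) (nat_lit 14367450725) (nat_lit 304) (nat_lit 706862415) (nat_lit 31) (nat_lit 5) (nat_lit 34) (nat_lit 5) (nat_lit 35) (nat_lit 5) (nat_lit 278) (nat_lit 267) (nat_lit 175)) (XT.lf (nat_lit 0) (nat_lit 4550653151) (nat_lit 228) (nat_lit 45170910301) (nat_lit 76) (nat_lit 5061169611) (nat_lit 28) (nat_lit 5) (nat_lit 31) (nat_lit 5) (nat_lit 29) (nat_lit 5) (nat_lit 279) (nat_lit 267) (nat_lit 174))) (XT.nd (nat_lit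 78) (nat_lit 228) (nat_lit 0) (XT.lf (nat_lit 0) (nat_lit 10983944077) (nat_lit 228) (nat_lit 20732933311) (nat_lit 76) (nat_lit 25708836696) (nat_lit 28) (nat_lit 5) (nat_lit 31) (nat_lit 5) (nat_lit 29) (nat_lit 5) (nat_lit 280) (nat_lit 267) (nat_lit 173)) (XT.lf (nat_lit 0) (nat_lit 5955054148) (nat_lit 228) (nat_lit 12117580596) (nat_lit 304) (nat_lit 42196249536) (nat_lit 25) (nat_lit 5) (nat_lit 28) (nat_lit 5) (nat_lit 29) (nat_lit 5) (nat_lit 281) (nat_lit 267) (nat_lit 172))))) (XT.nd (nat_lit 234) (nat_lit 380) (nat_lit 0) (XT.nd (nat_lit 78) (nat_lit 152) (nat_lit 0) (XT.lf (nat_lit 0) (nat_lit 26525285422) (nat_lit 304) (nat_lit 27572382049) (nat_lit 76) (nat_lit 9178100342) (nat_lit 25) (nat_lit 5) (nat_lit 29) (nat_lit 5) (nat_lit 26) (nat_lit 5) (nat_lit 282) (nat_lit 267) (nat_lit 171)) (XT.nd (nat_lit 78) (nat_lit 0) (nat_lit 0) (XT.lf (nat_lit 0) (nat_lit 1043003402)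 (nat_lit 152) (nat_lit 34948768626) (nat_lit 228) (nat_lit 30504428328) (nat_lit 23) (nat_lit 5) (nat_lit 25) (nat_lit 5) (nat_lit 26) (nat_lit 5) (nat_lit 283) (nat_lit 267) (nat_lit 170)) (XT.lf (nat_lit 0) (nat_lit 33512945283) (nat_lit 152) (nat_lit 13454404600) (nat_lit 228) (nat_lit 22946783468) (nat_lit 23) (nat_lit 5) (nat_lit 25) (nat_lit 5) (nat_lit 26) (nat_lit 5) (nat_lit 284) (nat_lit 267) (nat_lit 169)))) (XT.nd (nat_lit 156) (nat_lit 228) (nat_lit 0) (XT.nd (nat_lit 78) (nat_lit 152) (nat_lit 0) (XT.lf (nat_lit 0) (nat_lit 59053726738) (nat_lit 228) (nat_lit 5262421004) (nat_lit 76) (nat_lit 9270740085) (nat_lit 23) (nat_lit 5) (nat_lit 26) (nat_lit 5) (nat_lit 24) (nat_lit 5) (nat_lit 285) (nat_lit 267) (nat_lit 168)) (XT.lf (nat_lit 0) (nat_lit 29490741553) (nat_lit 152) (nat_lit 43673172096) (nat_lit 228) (nat_lit 4305003562) (nat_lit 21) (nat_lit 5) (nat_lit 23) (nat_lit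 5) (nat_lit 24) (nat_lit 5) (nat_lit 286) (nat_lit 267) (nat_lit 167))) (XT.nd (nat_lit 78) (nat_lit 152) (nat_lit 0) (XT.lf (nat_lit 0) (nat_lit 6550002463) (nat_lit 228) (nat_lit 14494955003) (nat_lit 76) (nat_lit 60591920341) (nat_lit 20) (nat_lit 5) (nat_lit 23) (nat_lit 5) (nat_lit 21) (nat_lit 5) (nat_lit 287) (nat_lit 267) (nat_lit 166)) (XT.lf (nat_lit 0) (nat_lit 18683481291) (nat_lit 228) (nat_lit 63496792880) (nat_lit 76) (nat_lit 3897648463) (nat_lit 18) (nat_lit 5) (nat_lit 21) (nat_lit 5) (nat_lit 19) (nat_lit 5) (nat_lit 288) (nat_lit 267) (nat_lit 165))))))))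
noncomputable def xc95 : XT := (XT.nd (nat_lit 2106) (nat_lit 228) (nat_lit 0) (XT.nd (nat_lit 1014) (nat_lit 304) (nat_lit 0) (XT.nd (nat_lit 468) (nat_lit 380) (nat_lit 0) (XT.nd (nat_lit 234) (nat_lit 152) (nat_lit 0) (XT.nd (nat_lit 78) (nat_lit 152) (nat_lit 0) (XT.lf (nat_lit 0) (nat_lit 32739264090) (nat_lit 228) (nat_lit 27954213339) (nat_lit 76) (nat_lit 30104648375) (nat_lit 18) (nat_lit 5) (nat_lit 21) (nat_lit 5) (nat_lit 19) (nat_lit 5) (nat_lit 289) (nat_lit 267) (nat_lit 164)) (XT.nd (nat_lit 78) (nat_lit 0) (nat_lit 0) (XT.lf (nat_lit 0) (nat_lit 10978758122) (nat_lit 152) (nat_lit 37203301590) (nat_lit 228) (nat_lit 47692885950) (nat_lit 16) (nat_lit 5) (nat_lit 18) (nat_lit 5) (nat_lit 19) (nat_lit 5) (nat_lit 290) (nat_lit 267) (nat_lit 163)) (XT.lf (nat_lit 0) (nat_lit 54613987905) (nat_lit 152) (nat_lit 11009177970) (nat_lit 228) (nat_lit 35673718405) (nat_lit 16)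 (nat_lit 5) (nat_lit 18) (nat_lit 5) (nat_lit 19) (nat_lit 5) (nat_lit 291) (nat_lit 267) (nat_lit 162)))) (XT.nd (nat_lit 78) (nat_lit 152) (nat_lit 0) (XT.lf (nat_lit 0) (nat_lit 84873815288) (nat_lit 228) (nat_lit 5830231589) (nat_lit 76) (nat_lit 16415394548) (nat_lit 16) (nat_lit 5) (nat_lit 19) (nat_lit 5) (nat_lit 17) (nat_lit 4) (nat_lit 292) (nat_lit 267) (nat_lit 161)) (XT.nd (nat_lit 78) (nat_lit 76) (nat_lit 0) (XT.lf (nat_lit 0) (nat_lit 40003912716) (nat_lit 76) (nat_lit 66907409919) (nat_lit 152) (nat_lit 6396739562) (nat_lit 15) (nat_lit 5) (nat_lit 16) (nat_lit 5) (nat_lit 17) (nat_lit 4) (nat_lit 293) (nat_lit 267) (nat_lit 160)) (XT.lf (nat_lit 0) (nat_lit 10346117205) (nat_lit 152) (nat_lit 30406576468) (nat_lit 76) (nat_lit 79205470978) (nat_lit 14) (nat_lit 5) (nat_lit 16) (nat_lit 5) (nat_lit 15) (nat_lit 5) (nat_lit 294) (nat_lit 267) (nat_lit 159))))) (XT.nd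 (nat_lit 234) (nat_lit 228) (nat_lit 0) (XT.nd (nat_lit 78) (nat_lit 0) (nat_lit 0) (XT.lf (nat_lit 0) (nat_lit 16584462896) (nat_lit 152) (nat_lit 11896067955) (nat_lit 228) (nat_lit 98614637855) (nat_lit 12) (nat_lit 5) (nat_lit 14) (nat_lit 5) (nat_lit 15) (nat_lit 5) (nat_lit 295) (nat_lit 267) (nat_lit 158)) (XT.nd (nat_lit 78) (nat_lit 0) (nat_lit 0) (XT.lf (nat_lit 0) (nat_lit 49380970730) (nat_lit 228) (nat_lit 66159445929) (nat_lit 76) (nat_lit 19157497173) (nat_lit 12) (nat_lit 5) (nat_lit 15) (nat_lit 5) (nat_lit 13) (nat_lit 4) (nat_lit 296) (nat_lit 267) (nat_lit 157)) (XT.lf (nat_lit 0) (nat_lit 72261404401) (nat_lit 228) (nat_lit 18570778414) (nat_lit 76) (nat_lit 52052061470) (nat_lit 12) (nat_lit 5) (nat_lit 15) (nat_lit 5) (nat_lit 13) (nat_lit 4) (nat_lit 297) (nat_lit 267) (nat_lit 156)))) (XT.nd (nat_lit 156) (nat_lit 152) (nat_lit 0) (XT.nd (nat_lit 78) (nat_lit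 0) (nat_lit 0) (XT.lf (nat_lit 0) (nat_lit 34551826677) (nat_lit 76) (nat_lit 63250464486) (nat_lit 152) (nat_lit 53856790768) (nat_lit 11) (nat_lit 5) (nat_lit 12) (nat_lit 5) (nat_lit 13) (nat_lit 4) (nat_lit 298) (nat_lit 267) (nat_lit 155)) (XT.lf (nat_lit 0) (nat_lit 92978838624) (nat_lit 76) (nat_lit 32914448032) (nat_lit 152) (nat_lit 35202074971) (nat_lit 11) (nat_lit 5) (nat_lit 12) (nat_lit 5) (nat_lit 13) (nat_lit 4) (nat_lit 299) (nat_lit 267) (nat_lit 154))) (XT.nd (nat_lit 78) (nat_lit 152) (nat_lit 0) (XT.lf (nat_lit 0) (nat_lit 156078587288) (nat_lit 76) (nat_lit 152122460) (nat_lit 152) (nat_lit 15055904022) (nat_lit 11) (nat_lit 5) (nat_lit 12) (nat_lit 5) (nat_lit 13) (nat_lit 4) (nat_lit 300) (nat_lit 267) (nat_lit 153)) (XT.lf (nat_lit 0) (nat_lit 8302325280) (nat_lit 152) (nat_lit 139104520307) (nat_lit 76) (nat_lit 34718577640) (nat_lit 9) (nat_lit 5) (nat_lit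 11) (nat_lit 5) (nat_lit 10) (nat_lit 4) (nat_lit 301) (nat_lit 267) (nat_lit 152)))))) (XT.nd (nat_lit 546) (nat_lit 152) (nat_lit 0) (XT.nd (nat_lit 234) (nat_lit 76) (nat_lit 0) (XT.nd (nat_lit 78) (nat_lit 76) (nat_lit 0) (XT.lf (nat_lit 0) (nat_lit 33145572960) (nat_lit 152) (nat_lit 87432225328) (nat_lit 76) (nat_lit 73187874079) (nat_lit 9) (nat_lit 5) (nat_lit 11) (nat_lit 5) (nat_lit 10) (nat_lit 4) (nat_lit 302) (nat_lit 267) (nat_lit 151)) (XT.nd (nat_lit 78) (nat_lit 76) (nat_lit 0) (XT.lf (nat_lit 0) (nat_lit 59975543335) (nat_lit 152) (nat_lit 31627424167) (nat_lit 76) (nat_lit 114734234310) (nat_lit 9) (nat_lit 5) (nat_lit 11) (nat_lit 5) (nat_lit 10) (nat_lit 4) (nat_lit 303) (nat_lit 267) (nat_lit 150)) (XT.lf (nat_lit 0) (nat_lit 30148740390) (nat_lit 76) (nat_lit 59527566362) (nat_lit 152) (nat_lit 130180196526) (nat_lit 8) (nat_lit 5) (nat_lit 9) (nat_lit 5) (nat_lit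 10) (nat_lit 4) (nat_lit 304) (nat_lit 267) (nat_lit 149)))) (XT.nd (nat_lit 156) (nat_lit 76) (nat_lit 0) (XT.nd (nat_lit 78) (nat_lit 0) (nat_lit 0) (XT.lf (nat_lit 0) (nat_lit 98664524902) (nat_lit 76) (nat_lit 23952696480) (nat_lit 152) (nat_lit 111771001474) (nat_lit 8) (nat_lit 5) (nat_lit 9) (nat_lit 5) (nat_lit 10) (nat_lit 4) (nat_lit 305) (nat_lit 267) (nat_lit 148)) (XT.lf (nat_lit 0) (nat_lit 158540747046) (nat_lit 152) (nat_lit 77769973942) (nat_lit 0) (nat_lit 13743973095) (nat_lit 8) (nat_lit 5) (nat_lit 10) (nat_lit 4) (nat_lit 8) (nat_lit 4) (nat_lit 306) (nat_lit 267) (nat_lit 147))) (XT.nd (nat_lit 78) (nat_lit 76) (nat_lit 0) (XT.lf (nat_lit 0) (nat_lit 197959726979) (nat_lit 152) (nat_lit 15803124461) (nat_lit 0) (nat_lit 53161906823) (nat_lit 8) (nat_lit 5) (nat_lit 10) (nat_lit 4) (nat_lit 8) (nat_lit 4) (nat_lit 307) (nat_lit 267) (nat_lit 146)) (XT.lf (nat_lit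 0) (nat_lit 53812019532) (nat_lit 76) (nat_lit 188013853041) (nat_lit 76) (nat_lit 43215064177) (nat_lit 7) (nat_lit 4) (nat_lit 8) (nat_lit 5) (nat_lit 8) (nat_lit 4) (nat_lit 308) (nat_lit 267) (nat_lit 145))))) (XT.nd (nat_lit 234) (nat_lit 76) (nat_lit 0) (XT.nd (nat_lit 78) (nat_lit 76) (nat_lit 0) (XT.lf (nat_lit 0) (nat_lit 129894188149) (nat_lit 76) (nat_lit 159738691252) (nat_lit 76) (nat_lit 14939005435) (nat_lit 7) (nat_lit 4) (nat_lit 8) (nat_lit 5) (nat_lit 8) (nat_lit 4) (nat_lit 309) (nat_lit 267) (nat_lit 144)) (XT.nd (nat_lit 78) (nat_lit 0) (nat_lit 0) (XT.lf (nat_lit 0) (nat_lit 14818315128) (nat_lit 152) (nat_lit 113978420861) (nat_lit 76) (nat_lit 196838600032) (nat_lit 6) (nat_lit 5) (nat_lit 8) (nat_lit 5) (nat_lit 7) (nat_lit 4) (nat_lit 310) (nat_lit 267) (nat_lit 143)) (XT.lf (nat_lit 0) (nat_lit 46148672556) (nat_lit 152) (nat_lit 48812046401) (nat_lit 76)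 (nat_lit 253392139311) (nat_lit 6) (nat_lit 5) (nat_lit 8) (nat_lit 5) (nat_lit 7) (nat_lit 4) (nat_lit 311) (nat_lit 267) (nat_lit 142)))) (XT.nd (nat_lit 156) (nat_lit 0) (nat_lit 0) (XT.nd (nat_lit 78) (nat_lit 0) (nat_lit 0) (XT.lf (nat_lit 0) (nat_lit 22702554985) (nat_lit 76) (nat_lit 57828479790) (nat_lit 152) (nat_lit 292313102076) (nat_lit 5) (nat_lit 5) (nat_lit 6) (nat_lit 5) (nat_lit 7) (nat_lit 4) (nat_lit 312) (nat_lit 267) (nat_lit 141)) (XT.lf (nat_lit 0) (nat_lit 102713571195) (nat_lit 76) (nat_lit 16284615261) (nat_lit 152) (nat_lit 280189795827) (nat_lit 5) (nat_lit 5) (nat_lit 6) (nat_lit 5) (nat_lit 7) (nat_lit 4) (nat_lit 313) (nat_lit 267) (nat_lit 140))) (XT.nd (nat_lit 78) (nat_lit 0) (nat_lit 0) (XT.lf (nat_lit 0) (nat_lit 161229741755) (nat_lit 152) (nat_lit 239201989034) (nat_lit 0) (nat_lit 27152642601) (nat_lit 5) (nat_lit 5) (nat_lit 7) (nat_lit 4) (nat_lit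 5) (nat_lit 4) (nat_lit 314) (nat_lit 267) (nat_lit 139)) (XT.lf (nat_lit 0) (nat_lit 207262442437) (nat_lit 152) (nat_lit 177771404268) (nat_lit 0) (nat_lit 73184819919) (nat_lit 5) (nat_lit 5) (nat_lit 7) (nat_lit 4) (nat_lit 5) (nat_lit 4) (nat_lit 315) (nat_lit 267) (nat_lit 138))))))) (XT.nd (nat_lit 1014) (nat_lit 0) (nat_lit 0) (XT.nd (nat_lit 468) (nat_lit 152) (nat_lit 0) (XT.nd (nat_lit 234) (nat_lit 0) (nat_lit 0) (XT.nd (nat_lit 78) (nat_lit 76) (nat_lit 0) (XT.lf (nat_lit 0) (nat_lit 256977429487) (nat_lit 152) (nat_lit 111426978308) (nat_lit 0) (nat_lit 122899322374) (nat_lit 5) (nat_lit 5) (nat_lit 7) (nat_lit 4) (nat_lit 5) (nat_lit 4) (nat_lit 316) (nat_lit 267) (nat_lit 137)) (XT.nd (nat_lit 78) (nat_lit 76) (nat_lit 0) (XT.lf (nat_lit 0) (nat_lit 310669310236) (nat_lit 152) (nat_lit 39775559001) (nat_lit 0) (nat_lit 176590754424) (nat_lit 5) (nat_lit 5) (nat_lit 7)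 (nat_lit 4) (nat_lit 5) (nat_lit 4) (nat_lit 317) (nat_lit 267) (nat_lit 136)) (XT.lf (nat_lit 0) (nat_lit 39587796573) (nat_lit 76) (nat_lit 330020549680) (nat_lit 76) (nat_lit 195941578406) (nat_lit 4) (nat_lit 4) (nat_lit 5) (nat_lit 5) (nat_lit 5) (nat_lit 4) (nat_lit 318) (nat_lit 267) (nat_lit 135)))) (XT.nd (nat_lit 78) (nat_lit 0) (nat_lit 0) (XT.lf (nat_lit 0) (nat_lit 127561785828) (nat_lit 76) (nat_lit 306787979709) (nat_lit 76) (nat_lit 172708623747) (nat_lit 4) (nat_lit 4) (nat_lit 5) (nat_lit 5) (nat_lit 5) (nat_lit 4) (nat_lit 319) (nat_lit 267) (nat_lit 134)) (XT.nd (nat_lit 78) (nat_lit 0) (nat_lit 0) (XT.lf (nat_lit 0) (nat_lit 222573225660) (nat_lit 76) (nat_lit 281697019106) (nat_lit 76) (nat_lit 147617306952) (nat_lit 4) (nat_lit 4) (nat_lit 5) (nat_lit 5) (nat_lit 5) (nat_lit 4) (nat_lit 320) (nat_lit 267) (nat_lit 133)) (XT.lf (nat_lit 0) (nat_lit 325185146822)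 (nat_lit 76) (nat_lit 254598980698) (nat_lit 76) (nat_lit 120518938737) (nat_lit 4) (nat_lit 4) (nat_lit 5) (nat_lit 5) (nat_lit 5) (nat_lit 4) (nat_lit 321) (nat_lit 267) (nat_lit 132))))) (XT.nd (nat_lit 234) (nat_lit 152) (nat_lit 0) (XT.nd (nat_lit 78) (nat_lit 0) (nat_lit 0) (XT.lf (nat_lit 0) (nat_lit 436005619959) (nat_lit 76) (nat_lit 225333283517) (nat_lit 76) (nat_lit 91252936178) (nat_lit 4) (nat_lit 4) (nat_lit 5) (nat_lit 5) (nat_lit 5) (nat_lit 4) (nat_lit 322) (nat_lit 267) (nat_lit 131)) (XT.nd (nat_lit 78) (nat_lit 0) (nat_lit 0) (XT.lf (nat_lit 0) (nat_lit 555691358985) (nat_lit 76) (nat_lit 193726501209) (nat_lit 76) (nat_lit 59645871113) (nat_lit 4) (nat_lit 4) (nat_lit 5) (nat_lit 5) (nat_lit 5) (nat_lit 4) (nat_lit 323) (nat_lit 267) (nat_lit 130)) (XT.lf (nat_lit 0) (nat_lit 684951612725) (nat_lit 76) (nat_lit 159591334322) (nat_lit 76) (nat_lit 25510442415) (nat_lit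 4) (nat_lit 4) (nat_lit 5) (nat_lit 5) (nat_lit 5) (nat_lit 4) (nat_lit 324) (nat_lit 267) (nat_lit 129)))) (XT.nd (nat_lit 156) (nat_lit 76) (nat_lit 0) (XT.nd (nat_lit 78) (nat_lit 0) (nat_lit 0) (XT.lf (nat_lit 0) (nat_lit 10787579137) (nat_lit 152) (nat_lit 111642969719) (nat_lit 76) (nat_lit 813469837199) (nat_lit 3) (nat_lit 5) (nat_lit 5) (nat_lit 5) (nat_lit 4) (nat_lit 4) (nat_lit 325) (nat_lit 267) (nat_lit 128)) (XT.lf (nat_lit 0) (nat_lit 48611051744) (nat_lit 152) (nat_lit 32970371158) (nat_lit 76) (nat_lit 925380724100) (nat_lit 3) (nat_lit 5) (nat_lit 5) (nat_lit 5) (nat_lit 4) (nat_lit 4) (nat_lit 326) (nat_lit 267) (nat_lit 127))) (XT.nd (nat_lit 78) (nat_lit 0) (nat_lit 0) (XT.lf (nat_lit 0) (nat_lit 54733757934) (nat_lit 76) (nat_lit 36042840409) (nat_lit 152) (nat_lit 992826954977) (nat_lit 2) (nat_lit 5) (nat_lit 3) (nat_lit 5) (nat_lit 4) (nat_lit 4) (nat_lit 327)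 (nat_lit 267) (nat_lit 126)) (XT.lf (nat_lit 0) (nat_lit 137556110549) (nat_lit 152) (nat_lit 1015314570380) (nat_lit 0) (nat_lit 13406333640) (nat_lit 2) (nat_lit 5) (nat_lit 4) (nat_lit 4) (nat_lit 2) (nat_lit 4) (nat_lit 328) (nat_lit 267) (nat_lit 125)))))) (XT.nd (nat_lit 546) (nat_lit 0) (nat_lit 0) (XT.nd (nat_lit 234) (nat_lit 0) (nat_lit 0) (XT.nd (nat_lit 78) (nat_lit 0) (nat_lit 0) (XT.lf (nat_lit 0) (nat_lit 189014022136) (nat_lit 152) (nat_lit 1001611367430) (nat_lit 0) (nat_lit 64864080242) (nat_lit 2) (nat_lit 5) (nat_lit 4) (nat_lit 4) (nat_lit 2) (nat_lit 4) (nat_lit 329) (nat_lit 267) (nat_lit 124)) (XT.nd (nat_lit 78) (nat_lit 0) (nat_lit 0) (XT.lf (nat_lit 0) (nat_lit 244588437700) (nat_lit 152) (nat_lit 986812151192) (nat_lit 0) (nat_lit 120438343041) (nat_lit 2) (nat_lit 5) (nat_lit 4) (nat_lit 4) (nat_lit 2) (nat_lit 4) (nat_lit 330) (nat_lit 267) (nat_lit 123))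 (XT.lf (nat_lit 0) (nat_lit 304608687110) (nat_lit 152) (nat_lit 970829222608) (nat_lit 0) (nat_lit 180458451002) (nat_lit 2) (nat_lit 5) (nat_lit 4) (nat_lit 4) (nat_lit 2) (nat_lit 4) (nat_lit 331) (nat_lit 267) (nat_lit 122)))) (XT.nd (nat_lit 156) (nat_lit 0) (nat_lit 0) (XT.nd (nat_lit 78) (nat_lit 0) (nat_lit 0) (XT.lf (nat_lit 0) (nat_lit 369430445918) (nat_lit 152) (nat_lit 953567868025) (nat_lit 0) (nat_lit 245280078839) (nat_lit 2) (nat_lit 5) (nat_lit 4) (nat_lit 4) (nat_lit 2) (nat_lit 4) (nat_lit 332) (nat_lit 267) (nat_lit 121)) (XT.lf (nat_lit 0) (nat_lit 439437843066) (nat_lit 152) (nat_lit 934925797936) (nat_lit 0) (nat_lit 315287354717) (nat_lit 2) (nat_lit 5) (nat_lit 4) (nat_lit 4) (nat_lit 2) (nat_lit 4) (nat_lit 333) (nat_lit 267) (nat_lit 120))) (XT.nd (nat_lit 78) (nat_lit 0) (nat_lit 0) (XT.lf (nat_lit 0) (nat_lit 515045737203) (nat_lit 152) (nat_lit 914792540813)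 (nat_lit 0) (nat_lit 390895136568) (nat_lit 2) (nat_lit 5) (nat_lit 4) (nat_lit 4) (nat_lit 2) (nat_lit 4) (nat_lit 334) (nat_lit 267) (nat_lit 119)) (XT.lf (nat_lit 0) (nat_lit 596702175109) (nat_lit 152) (nat_lit 893048788468) (nat_lit 0) (nat_lit 472551470505) (nat_lit 2) (nat_lit 5) (nat_lit 4) (nat_lit 4) (nat_lit 2) (nat_lit 4) (nat_lit 335) (nat_lit 267) (nat_lit 118))))) (XT.nd (nat_lit 32292) (nat_lit 0) (nat_lit 2660) (XT.nd (nat_lit 78) (nat_lit 0) (nat_lit 0) (XT.lf (nat_lit 0) (nat_lit 684891046786) (nat_lit 152) (nat_lit 869565689033) (nat_lit 0) (nat_lit 560740245915) (nat_lit 2) (nat_lit 5) (nat_lit 4) (nat_lit 4) (nat_lit 2) (nat_lit 4) (nat_lit 336) (nat_lit 267) (nat_lit 117)) (XT.nd (nat_lit 32136) (nat_lit 0) (nat_lit 2660) (XT.lf (nat_lit 0) (nat_lit 780134952957) (nat_lit 152) (nat_lit 844204083401) (nat_lit 0) (nat_lit 655984062948) (nat_lit 2) (nat_lit 5) (nat_lit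 4) (nat_lit 4) (nat_lit 2) (nat_lit 4) (nat_lit 337) (nat_lit 267) (nat_lit 116)) (XT.lf (nat_lit 0) (nat_lit 7319710101) (nat_lit 532) (nat_lit 5189279798) (nat_lit 532) (nat_lit 5189279798) (nat_lit 37) (nat_lit 3) (nat_lit 44) (nat_lit 3) (nat_lit 44) (nat_lit 5) (nat_lit 268) (nat_lit 268) (nat_lit 184)))) (XT.nd (nat_lit 156) (nat_lit 0) (nat_lit 76) (XT.nd (nat_lit 78) (nat_lit 0) (nat_lit 76) (XT.lf (nat_lit 76) (nat_lit 5247487295) (nat_lit 0) (nat_lit 10150620383) (nat_lit 532) (nat_lit 21400220431) (nat_lit 38) (nat_lit 5) (nat_lit 37) (nat_lit 3) (nat_lit 44) (nat_lit 5) (nat_lit 269) (nat_lit 268) (nat_lit 183)) (XT.lf (nat_lit 0) (nat_lit 16645963912) (nat_lit 456) (nat_lit 15728248275) (nat_lit 532) (nat_lit 5903792242) (nat_lit 38) (nat_lit 5) (nat_lit 44) (nat_lit 5) (nat_lit 45) (nat_lit 5) (nat_lit 270) (nat_lit 268) (nat_lit 182))) (XT.nd (nat_lit 78) (nat_lit 0)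 (nat_lit 0) (XT.lf (nat_lit 76) (nat_lit 1151185683) (nat_lit 0) (nat_lit 17129442622) (nat_lit 532) (nat_lit 21572488930) (nat_lit 39) (nat_lit 5) (nat_lit 38) (nat_lit 5) (nat_lit 45) (nat_lit 5) (nat_lit 271) (nat_lit 268) (nat_lit 181)) (XT.lf (nat_lit 76) (nat_lit 20272626728) (nat_lit 0) (nat_lit 199373329) (nat_lit 532) (nat_lit 21048183485) (nat_lit 39) (nat_lit 5) (nat_lit 38) (nat_lit 5) (nat_lit 45) (nat_lit 5) (nat_lit 272) (nat_lit 268) (nat_lit 180))))))))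
noncomputable def xc96 : XT := (XT.nd (nat_lit 2028) (nat_lit 608) (nat_lit 0) (XT.nd (nat_lit 1014) (nat_lit 836) (nat_lit 0) (XT.nd (nat_lit 468) (nat_lit 608) (nat_lit 0) (XT.nd (nat_lit 234) (nat_lit 608) (nat_lit 0) (XT.nd (nat_lit 78) (nat_lit 0) (nat_lit 0) (XT.lf (nat_lit 0) (nat_lit 23269857136) (nat_lit 456) (nat_lit 2834747083) (nat_lit 532) (nat_lit 17181534678) (nat_lit 39) (nat_lit 5) (nat_lit 45) (nat_lit 5) (nat_lit 46) (nat_lit 5) (nat_lit 273) (nat_lit 268) (nat_lit 179)) (XT.nd (nat_lit 78) (nat_lit 0) (nat_lit 76) (XT.lf (nat_lit 76) (nat_lit 17940623527) (nat_lit 0) (nat_lit 8784078043) (nat_lit 532) (nat_lit 18434032882) (nat_lit 40) (nat_lit 5) (nat_lit 39) (nat_lit 5) (nat_lit 46) (nat_lit 5) (nat_lit 274) (nat_lit 268) (nat_lit 178)) (XT.lf (nat_lit 0) (nat_lit 30770797240) (nat_lit 456) (nat_lit 6879310833) (nat_lit 76) (nat_lit 9505855735) (nat_lit 40) (nat_lit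 5) (nat_lit 46) (nat_lit 5) (nat_lit 41) (nat_lit 5) (nat_lit 275) (nat_lit 268) (nat_lit 177)))) (XT.nd (nat_lit 78) (nat_lit 228) (nat_lit 0) (XT.lf (nat_lit 0) (nat_lit 15637957089) (nat_lit 456) (nat_lit 20103834770) (nat_lit 532) (nat_lit 13523096876) (nat_lit 34) (nat_lit 5) (nat_lit 40) (nat_lit 5) (nat_lit 41) (nat_lit 5) (nat_lit 276) (nat_lit 268) (nat_lit 176)) (XT.nd (nat_lit 78) (nat_lit 228) (nat_lit 0) (XT.lf (nat_lit 0) (nat_lit 40345156375) (nat_lit 456) (nat_lit 950523057) (nat_lit 532) (nat_lit 10232044229) (nat_lit 34) (nat_lit 5) (nat_lit 40) (nat_lit 5) (nat_lit 41) (nat_lit 5) (nat_lit 277) (nat_lit 268) (nat_lit 175)) (XT.lf (nat_lit 0) (nat_lit 13242444806) (nat_lit 228) (nat_lit 34841881320) (nat_lit 304) (nat_lit 5824035515) (nat_lit 31) (nat_lit 5) (nat_lit 34) (nat_lit 5) (nat_lit 35) (nat_lit 5) (nat_lit 278) (nat_lit 268) (nat_lit 174))))) (XT.nd (nat_lit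 234) (nat_lit 380) (nat_lit 0) (XT.nd (nat_lit 78) (nat_lit 228) (nat_lit 0) (XT.lf (nat_lit 0) (nat_lit 40228786469) (nat_lit 228) (nat_lit 15514565191) (nat_lit 304) (nat_lit 709927242) (nat_lit 31) (nat_lit 5) (nat_lit 34) (nat_lit 5) (nat_lit 35) (nat_lit 5) (nat_lit 279) (nat_lit 268) (nat_lit 173)) (XT.nd (nat_lit 78) (nat_lit 0) (nat_lit 0) (XT.lf (nat_lit 0) (nat_lit 4963142446) (nat_lit 228) (nat_lit 48727544504) (nat_lit 76) (nat_lit 5470602268) (nat_lit 28) (nat_lit 5) (nat_lit 31) (nat_lit 5) (nat_lit 29) (nat_lit 5) (nat_lit 280) (nat_lit 268) (nat_lit 172)) (XT.lf (nat_lit 0) (nat_lit 11907508716) (nat_lit 228) (nat_lit 22338754439) (nat_lit 76) (nat_lit 27769746491) (nat_lit 28) (nat_lit 5) (nat_lit 31) (nat_lit 5) (nat_lit 29) (nat_lit 5) (nat_lit 281) (nat_lit 268) (nat_lit 171)))) (XT.nd (nat_lit 156) (nat_lit 152) (nat_lit 0) (XT.nd (nat_lit 78) (nat_lit 0) (nat_lit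 0) (XT.lf (nat_lit 0) (nat_lit 6482934965) (nat_lit 228) (nat_lit 13078275526) (nat_lit 304) (nat_lit 45525602560) (nat_lit 25) (nat_lit 5) (nat_lit 28) (nat_lit 5) (nat_lit 29) (nat_lit 5) (nat_lit 282) (nat_lit 268) (nat_lit 170)) (XT.lf (nat_lit 0) (nat_lit 28687099440) (nat_lit 304) (nat_lit 29727386552) (nat_lit 76) (nat_lit 9920011085) (nat_lit 25) (nat_lit 5) (nat_lit 29) (nat_lit 5) (nat_lit 26) (nat_lit 5) (nat_lit 283) (nat_lit 268) (nat_lit 169))) (XT.nd (nat_lit 78) (nat_lit 0) (nat_lit 0) (XT.lf (nat_lit 0) (nat_lit 1175944012) (nat_lit 152) (nat_lit 37733203953) (nat_lit 228) (nat_lit 32903567849) (nat_lit 23) (nat_lit 5) (nat_lit 25) (nat_lit 5) (nat_lit 26) (nat_lit 5) (nat_lit 284) (nat_lit 268) (nat_lit 168)) (XT.lf (nat_lit 0) (nat_lit 36239814551) (nat_lit 152) (nat_lit 14520140150) (nat_lit 228) (nat_lit 24744364344) (nat_lit 23) (nat_lit 5) (nat_lit 25) (nat_lit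 5) (nat_lit 26) (nat_lit 5) (nat_lit 285) (nat_lit 268) (nat_lit 167)))))) (XT.nd (nat_lit 468) (nat_lit 304) (nat_lit 0) (XT.nd (nat_lit 234) (nat_lit 304) (nat_lit 0) (XT.nd (nat_lit 78) (nat_lit 228) (nat_lit 0) (XT.lf (nat_lit 0) (nat_lit 63810869472) (nat_lit 228) (nat_lit 5638485717) (nat_lit 76) (nat_lit 10021737923) (nat_lit 23) (nat_lit 5) (nat_lit 26) (nat_lit 5) (nat_lit 24) (nat_lit 5) (nat_lit 286) (nat_lit 268) (nat_lit 166)) (XT.nd (nat_lit 78) (nat_lit 76) (nat_lit 0) (XT.lf (nat_lit 0) (nat_lit 31893792402) (nat_lit 152) (nat_lit 47154699188) (nat_lit 228) (nat_lit 4615312390) (nat_lit 21) (nat_lit 5) (nat_lit 23) (nat_lit 5) (nat_lit 24) (nat_lit 5) (nat_lit 287) (nat_lit 268) (nat_lit 165)) (XT.lf (nat_lit 0) (nat_lit 7103989757) (nat_lit 228) (nat_lit 15612330817) (nat_lit 76) (nat_lit 65449014679) (nat_lit 20) (nat_lit 5) (nat_lit 23) (nat_lit 5) (nat_lit 21) (nat_lit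 5) (nat_lit 288) (nat_lit 268) (nat_lit 164)))) (XT.nd (nat_lit 78) (nat_lit 152) (nat_lit 0) (XT.lf (nat_lit 0) (nat_lit 20207213453) (nat_lit 228) (nat_lit 68533295424) (nat_lit 76) (nat_lit 4221236413) (nat_lit 18) (nat_lit 5) (nat_lit 21) (nat_lit 5) (nat_lit 19) (nat_lit 5) (nat_lit 289) (nat_lit 268) (nat_lit 163)) (XT.nd (nat_lit 78) (nat_lit 152) (nat_lit 0) (XT.lf (nat_lit 0) (nat_lit 35385306753) (nat_lit 228) (nat_lit 30150512548) (nat_lit 76) (nat_lit 32523924016) (nat_lit 18) (nat_lit 5) (nat_lit 21) (nat_lit 5) (nat_lit 19) (nat_lit 5) (nat_lit 290) (nat_lit 268) (nat_lit 162)) (XT.lf (nat_lit 0) (nat_lit 11896083012) (nat_lit 152) (nat_lit 40166388839) (nat_lit 228) (nat_lit 51480327204) (nat_lit 16) (nat_lit 5) (nat_lit 18) (nat_lit 5) (nat_lit 19) (nat_lit 5) (nat_lit 291) (nat_lit 268) (nat_lit 161))))) (XT.nd (nat_lit 234) (nat_lit 228) (nat_lit 0) (XT.nd (nat_lit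 78) (nat_lit 76) (nat_lit 0) (XT.lf (nat_lit 0) (nat_lit 59019240494) (nat_lit 152) (nat_lit 11877711395) (nat_lit 228) (nat_lit 38501699561) (nat_lit 16) (nat_lit 5) (nat_lit 18) (nat_lit 5) (nat_lit 19) (nat_lit 5) (nat_lit 292) (nat_lit 268) (nat_lit 160)) (XT.nd (nat_lit 78) (nat_lit 76) (nat_lit 0) (XT.lf (nat_lit 0) (nat_lit 91686152153) (nat_lit 228) (nat_lit 6261628172) (nat_lit 76) (nat_lit 17739358037) (nat_lit 16) (nat_lit 5) (nat_lit 19) (nat_lit 5) (nat_lit 17) (nat_lit 4) (nat_lit 293) (nat_lit 268) (nat_lit 159)) (XT.lf (nat_lit 0) (nat_lit 43238361045) (nat_lit 76) (nat_lit 72247458395) (nat_lit 152) (nat_lit 6885101337) (nat_lit 15) (nat_lit 5) (nat_lit 16) (nat_lit 5) (nat_lit 17) (nat_lit 4) (nat_lit 294) (nat_lit 268) (nat_lit 158)))) (XT.nd (nat_lit 156) (nat_lit 0) (nat_lit 0) (XT.nd (nat_lit 78) (nat_lit 152) (nat_lit 0) (XT.lf (nat_lit 0) (nat_lit 11194369505)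 (nat_lit 152) (nat_lit 32806362325) (nat_lit 76) (nat_lit 85552390276) (nat_lit 14) (nat_lit 5) (nat_lit 16) (nat_lit 5) (nat_lit 15) (nat_lit 5) (nat_lit 295) (nat_lit 268) (nat_lit 157)) (XT.lf (nat_lit 0) (nat_lit 17943131320) (nat_lit 152) (nat_lit 12835649213) (nat_lit 228) (nat_lit 106482370163) (nat_lit 12) (nat_lit 5) (nat_lit 14) (nat_lit 5) (nat_lit 15) (nat_lit 5) (nat_lit 296) (nat_lit 268) (nat_lit 156))) (XT.nd (nat_lit 78) (nat_lit 0) (nat_lit 0) (XT.lf (nat_lit 0) (nat_lit 53350057944) (nat_lit 228) (nat_lit 71421412906) (nat_lit 76) (nat_lit 20700743872) (nat_lit 12) (nat_lit 5) (nat_lit 15) (nat_lit 5) (nat_lit 13) (nat_lit 4) (nat_lit 297) (nat_lit 268) (nat_lit 155)) (XT.lf (nat_lit 0) (nat_lit 78059547824) (nat_lit 228) (nat_lit 20027932635) (nat_lit 76) (nat_lit 56226084651) (nat_lit 12) (nat_lit 5) (nat_lit 15) (nat_lit 5) (nat_lit 13) (nat_lit 4) (nat_lit 298)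 (nat_lit 268) (nat_lit 154))))))) (XT.nd (nat_lit 1014) (nat_lit 152) (nat_lit 0) (XT.nd (nat_lit 468) (nat_lit 228) (nat_lit 0) (XT.nd (nat_lit 234) (nat_lit 152) (nat_lit 0) (XT.nd (nat_lit 78) (nat_lit 0) (nat_lit 0) (XT.lf (nat_lit 0) (nat_lit 37343759141) (nat_lit 76) (nat_lit 68299338271) (nat_lit 152) (nat_lit 58147343983) (nat_lit 11) (nat_lit 5) (nat_lit 12) (nat_lit 5) (nat_lit 13) (nat_lit 4) (nat_lit 299) (nat_lit 268) (nat_lit 153)) (XT.nd (nat_lit 78) (nat_lit 0) (nat_lit 0) (XT.lf (nat_lit 0) (nat_lit 100442873797) (nat_lit 76) (nat_lit 35537267417) (nat_lit 152) (nat_lit 38001583518) (nat_lit 11) (nat_lit 5) (nat_lit 12) (nat_lit 5) (nat_lit 13) (nat_lit 4) (nat_lit 300) (nat_lit 268) (nat_lit 152)) (XT.lf (nat_lit 0) (nat_lit 168588696571) (nat_lit 76) (nat_lit 154721464) (nat_lit 152) (nat_lit 16244952779) (nat_lit 11) (nat_lit 5) (nat_lit 12) (nat_lit 5) (nat_lit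 13) (nat_lit 4) (nat_lit 301) (nat_lit 268) (nat_lit 151)))) (XT.nd (nat_lit 78) (nat_lit 0) (nat_lit 0) (XT.lf (nat_lit 0) (nat_lit 8980892227) (nat_lit 152) (nat_lit 150207960036) (nat_lit 76) (nat_lit 37505426967) (nat_lit 9) (nat_lit 5) (nat_lit 11) (nat_lit 5) (nat_lit 10) (nat_lit 4) (nat_lit 302) (nat_lit 268) (nat_lit 150)) (XT.nd (nat_lit 78) (nat_lit 0) (nat_lit 0) (XT.lf (nat_lit 0) (nat_lit 35810534467) (nat_lit 152) (nat_lit 94403727525) (nat_lit 76) (nat_lit 79051573556) (nat_lit 9) (nat_lit 5) (nat_lit 11) (nat_lit 5) (nat_lit 10) (nat_lit 4) (nat_lit 303) (nat_lit 268) (nat_lit 149)) (XT.lf (nat_lit 0) (nat_lit 64785916126) (nat_lit 152) (nat_lit 34136251592) (nat_lit 76) (nat_lit 123921000417) (nat_lit 9) (nat_lit 5) (nat_lit 11) (nat_lit 5) (nat_lit 10) (nat_lit 4) (nat_lit 304) (nat_lit 268) (nat_lit 148))))) (XT.nd (nat_lit 234) (nat_lit 152) (nat_lit 0) (XT.nd (nat_lit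 78) (nat_lit 0) (nat_lit 0) (XT.lf (nat_lit 0) (nat_lit 32581465206) (nat_lit 76) (nat_lit 64280862983) (nat_lit 152) (nat_lit 140581720263) (nat_lit 8) (nat_lit 5) (nat_lit 9) (nat_lit 5) (nat_lit 10) (nat_lit 4) (nat_lit 305) (nat_lit 268) (nat_lit 147)) (XT.nd (nat_lit 78) (nat_lit 0) (nat_lit 0) (XT.lf (nat_lit 0) (nat_lit 106576969843) (nat_lit 76) (nat_lit 25860663413) (nat_lit 152) (nat_lit 120700744568) (nat_lit 8) (nat_lit 5) (nat_lit 9) (nat_lit 5) (nat_lit 10) (nat_lit 4) (nat_lit 306) (nat_lit 268) (nat_lit 146)) (XT.lf (nat_lit 0) (nat_lit 171234407316) (nat_lit 152) (nat_lit 83973064982) (nat_lit 0) (nat_lit 14850746634) (nat_lit 8) (nat_lit 5) (nat_lit 10) (nat_lit 4) (nat_lit 8) (nat_lit 4) (nat_lit 307) (nat_lit 268) (nat_lit 145)))) (XT.nd (nat_lit 156) (nat_lit 76) (nat_lit 0) (XT.nd (nat_lit 78) (nat_lit 76) (nat_lit 0) (XT.lf (nat_lit 0) (nat_lit 213806135236) (nat_lit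 152) (nat_lit 17050238422) (nat_lit 0) (nat_lit 57421577602) (nat_lit 8) (nat_lit 5) (nat_lit 10) (nat_lit 4) (nat_lit 8) (nat_lit 4) (nat_lit 308) (nat_lit 268) (nat_lit 144)) (XT.lf (nat_lit 0) (nat_lit 58133683268) (nat_lit 76) (nat_lit 203047577558) (nat_lit 76) (nat_lit 46662189413) (nat_lit 7) (nat_lit 4) (nat_lit 8) (nat_lit 5) (nat_lit 8) (nat_lit 4) (nat_lit 309) (nat_lit 268) (nat_lit 143))) (XT.nd (nat_lit 78) (nat_lit 76) (nat_lit 0) (XT.lf (nat_lit 0) (nat_lit 140301188176) (nat_lit 76) (nat_lit 172510949768) (nat_lit 76) (nat_lit 16124792630) (nat_lit 7) (nat_lit 4) (nat_lit 8) (nat_lit 5) (nat_lit 8) (nat_lit 4) (nat_lit 310) (nat_lit 268) (nat_lit 142)) (XT.lf (nat_lit 0) (nat_lit 16011989924) (nat_lit 152) (nat_lit 123081930123) (nat_lit 76) (nat_lit 212591573404) (nat_lit 6) (nat_lit 5) (nat_lit 8) (nat_lit 5) (nat_lit 7) (nat_lit 4) (nat_lit 311) (nat_lit 268) (nat_lit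 141)))))) (XT.nd (nat_lit 546) (nat_lit 76) (nat_lit 0) (XT.nd (nat_lit 234) (nat_lit 0) (nat_lit 0) (XT.nd (nat_lit 78) (nat_lit 76) (nat_lit 0) (XT.lf (nat_lit 0) (nat_lit 49848167830) (nat_lit 152) (nat_lit 52703339366) (nat_lit 76) (nat_lit 273668959873) (nat_lit 6) (nat_lit 5) (nat_lit 8) (nat_lit 5) (nat_lit 7) (nat_lit 4) (nat_lit 312) (nat_lit 268) (nat_lit 140)) (XT.nd (nat_lit 78) (nat_lit 0) (nat_lit 0) (XT.lf (nat_lit 0) (nat_lit 24532084036) (nat_lit 76) (nat_lit 62448792377) (nat_lit 152) (nat_lit 315690191805) (nat_lit 5) (nat_lit 5) (nat_lit 6) (nat_lit 5) (nat_lit 7) (nat_lit 4) (nat_lit 313) (nat_lit 268) (nat_lit 139)) (XT.lf (nat_lit 0) (nat_lit 110942994532) (nat_lit 76) (nat_lit 17581860596) (nat_lit 152) (nat_lit 302597610570) (nat_lit 5) (nat_lit 5) (nat_lit 6) (nat_lit 5) (nat_lit 7) (nat_lit 4) (nat_lit 314) (nat_lit 268) (nat_lit 138)))) (XT.nd (nat_lit 156)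 (nat_lit 0) (nat_lit 0) (XT.nd (nat_lit 78) (nat_lit 0) (nat_lit 0) (XT.lf (nat_lit 0) (nat_lit 174134553137) (nat_lit 152) (nat_lit 258326333378) (nat_lit 0) (nat_lit 29329712860) (nat_lit 5) (nat_lit 5) (nat_lit 7) (nat_lit 4) (nat_lit 5) (nat_lit 4) (nat_lit 315) (nat_lit 268) (nat_lit 137)) (XT.lf (nat_lit 0) (nat_lit 223849393425) (nat_lit 152) (nat_lit 191982177000) (nat_lit 0) (nat_lit 79044104449) (nat_lit 5) (nat_lit 5) (nat_lit 7) (nat_lit 4) (nat_lit 5) (nat_lit 4) (nat_lit 316) (nat_lit 268) (nat_lit 136))) (XT.nd (nat_lit 78) (nat_lit 0) (nat_lit 0) (XT.lf (nat_lit 0) (nat_lit 277541138284) (nat_lit 152) (nat_lit 120331007305) (nat_lit 0) (nat_lit 132735433846) (nat_lit 5) (nat_lit 5) (nat_lit 7) (nat_lit 4) (nat_lit 5) (nat_lit 4) (nat_lit 317) (nat_lit 268) (nat_lit 135)) (XT.lf (nat_lit 0) (nat_lit 335527961017) (nat_lit 152) (nat_lit 42948224769) (nat_lit 0) (nat_lit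 190721871891) (nat_lit 5) (nat_lit 5) (nat_lit 7) (nat_lit 4) (nat_lit 5) (nat_lit 4) (nat_lit 318) (nat_lit 268) (nat_lit 134))))) (XT.nd (nat_lit 234) (nat_lit 0) (nat_lit 0) (XT.nd (nat_lit 78) (nat_lit 0) (nat_lit 0) (XT.lf (nat_lit 0) (nat_lit 42763961808) (nat_lit 76) (nat_lit 356417999741) (nat_lit 76) (nat_lit 211611554422) (nat_lit 4) (nat_lit 4) (nat_lit 5) (nat_lit 5) (nat_lit 5) (nat_lit 4) (nat_lit 319) (nat_lit 268) (nat_lit 133)) (XT.nd (nat_lit 78) (nat_lit 0) (nat_lit 0) (XT.lf (nat_lit 0) (nat_lit 137775193055) (nat_lit 76) (nat_lit 331327134832) (nat_lit 76) (nat_lit 186520359706) (nat_lit 4) (nat_lit 4) (nat_lit 5) (nat_lit 5) (nat_lit 5) (nat_lit 4) (nat_lit 320) (nat_lit 268) (nat_lit 132)) (XT.lf (nat_lit 0) (nat_lit 240386921084) (nat_lit 76) (nat_lit 304229185029) (nat_lit 76) (nat_lit 159422104526) (nat_lit 4) (nat_lit 4) (nat_lit 5) (nat_lit 5) (nat_lit 5)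 (nat_lit 4) (nat_lit 321) (nat_lit 268) (nat_lit 131)))) (XT.nd (nat_lit 156) (nat_lit 0) (nat_lit 0) (XT.nd (nat_lit 78) (nat_lit 0) (nat_lit 0) (XT.lf (nat_lit 0) (nat_lit 351207215393) (nat_lit 76) (nat_lit 274963569890) (nat_lit 76) (nat_lit 130156206630) (nat_lit 4) (nat_lit 4) (nat_lit 5) (nat_lit 5) (nat_lit 5) (nat_lit 4) (nat_lit 322) (nat_lit 268) (nat_lit 130)) (XT.lf (nat_lit 0) (nat_lit 470892788838) (nat_lit 76) (nat_lit 243356863546) (nat_lit 76) (nat_lit 98549238475) (nat_lit 4) (nat_lit 4) (nat_lit 5) (nat_lit 5) (nat_lit 5) (nat_lit 4) (nat_lit 323) (nat_lit 268) (nat_lit 129))) (XT.nd (nat_lit 78) (nat_lit 0) (nat_lit 0) (XT.lf (nat_lit 0) (nat_lit 600152889262) (nat_lit 76) (nat_lit 209221766998) (nat_lit 76) (nat_lit 64413899508) (nat_lit 4) (nat_lit 4) (nat_lit 5) (nat_lit 5) (nat_lit 5) (nat_lit 4) (nat_lit 324) (nat_lit 268) (nat_lit 128)) (XT.lf (nat_lit 0)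 (nat_lit 739753502445) (nat_lit 76) (nat_lit 172355998191) (nat_lit 76) (nat_lit 27547906240) (nat_lit 4) (nat_lit 4) (nat_lit 5) (nat_lit 5) (nat_lit 5) (nat_lit 4) (nat_lit 325) (nat_lit 268) (nat_lit 127))))))))
noncomputable def xc97 : XT := (XT.nd (nat_lit 34164) (nat_lit 0) (nat_lit 456) (XT.nd (nat_lit 33150) (nat_lit 0) (nat_lit 1976) (XT.nd (nat_lit 468) (nat_lit 0) (nat_lit 0) (XT.nd (nat_lit 234) (nat_lit 0) (nat_lit 0) (XT.nd (nat_lit 78) (nat_lit 76) (nat_lit 0) (XT.lf (nat_lit 0) (nat_lit 11653551124) (nat_lit 152) (nat_lit 120568913446) (nat_lit 76) (nat_lit 878549711415) (nat_lit 3) (nat_lit 5) (nat_lit 5) (nat_lit 5) (nat_lit 4) (nat_lit 4) (nat_lit 326) (nat_lit 268) (nat_lit 126)) (XT.nd (nat_lit 78) (nat_lit 76) (nat_lit 0) (XT.lf (nat_lit 0) (nat_lit 52502681862) (nat_lit 152) (nat_lit 35602913952) (nat_lit 76) (nat_lit 999413299843) (nat_lit 3) (nat_lit 5) (nat_lit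 5) (nat_lit 5) (nat_lit 4) (nat_lit 4) (nat_lit 327) (nat_lit 268) (nat_lit 125)) (XT.lf (nat_lit 0) (nat_lit 59117416686) (nat_lit 76) (nat_lit 38923971340) (nat_lit 152) (nat_lit 1072250233440) (nat_lit 2) (nat_lit 5) (nat_lit 3) (nat_lit 5) (nat_lit 4) (nat_lit 4) (nat_lit 328) (nat_lit 268) (nat_lit 124)))) (XT.nd (nat_lit 78) (nat_lit 0) (nat_lit 0) (XT.lf (nat_lit 0) (nat_lit 148563115172) (nat_lit 152) (nat_lit 1096534996186) (nat_lit 0) (nat_lit 14480860176) (nat_lit 2) (nat_lit 5) (nat_lit 4) (nat_lit 4) (nat_lit 2) (nat_lit 4) (nat_lit 329) (nat_lit 268) (nat_lit 123)) (XT.nd (nat_lit 78) (nat_lit 0) (nat_lit 0) (XT.lf (nat_lit 0) (nat_lit 204137473332) (nat_lit 152) (nat_lit 1081735888098) (nat_lit 0) (nat_lit 70055076887) (nat_lit 2) (nat_lit 5) (nat_lit 4) (nat_lit 4) (nat_lit 2) (nat_lit 4) (nat_lit 330) (nat_lit 268) (nat_lit 122)) (XT.lf (nat_lit 0) (nat_lit 264157669591)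 (nat_lit 152) (nat_lit 1065753059652) (nat_lit 0) (nat_lit 130075142175) (nat_lit 2) (nat_lit 5) (nat_lit 4) (nat_lit 4) (nat_lit 2) (nat_lit 4) (nat_lit 331) (nat_lit 268) (nat_lit 121))))) (XT.nd (nat_lit 234) (nat_lit 0) (nat_lit 0) (XT.nd (nat_lit 78) (nat_lit 0) (nat_lit 0) (XT.lf (nat_lit 0) (nat_lit 328979379185) (nat_lit 152) (nat_lit 1048491797791) (nat_lit 0) (nat_lit 194896730499) (nat_lit 2) (nat_lit 5) (nat_lit 4) (nat_lit 4) (nat_lit 2) (nat_lit 4) (nat_lit 332) (nat_lit 268) (nat_lit 120)) (XT.nd (nat_lit 78) (nat_lit 0) (nat_lit 0) (XT.lf (nat_lit 0) (nat_lit 398986730764) (nat_lit 152) (nat_lit 1029849813555) (nat_lit 0) (nat_lit 264903969792) (nat_lit 2) (nat_lit 5) (nat_lit 4) (nat_lit 4) (nat_lit 2) (nat_lit 4) (nat_lit 333) (nat_lit 268) (nat_lit 119)) (XT.lf (nat_lit 0) (nat_lit 474594582708) (nat_lit 152) (nat_lit 1009716635926) (nat_lit 0) (nat_lit 340511717767)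 (nat_lit 2) (nat_lit 5) (nat_lit 4) (nat_lit 4) (nat_lit 2) (nat_lit 4) (nat_lit 334) (nat_lit 268) (nat_lit 118)))) (XT.nd (nat_lit 156) (nat_lit 0) (nat_lit 0) (XT.nd (nat_lit 78) (nat_lit 0) (nat_lit 0) (XT.lf (nat_lit 0) (nat_lit 556250981546) (nat_lit 152) (nat_lit 987972957185) (nat_lit 0) (nat_lit 422168020337) (nat_lit 2) (nat_lit 5) (nat_lit 4) (nat_lit 4) (nat_lit 2) (nat_lit 4) (nat_lit 335) (nat_lit 268) (nat_lit 117)) (XT.lf (nat_lit 0) (nat_lit 644439817050) (nat_lit 152) (nat_lit 964489925903) (nat_lit 0) (nat_lit 510356766705) (nat_lit 2) (nat_lit 5) (nat_lit 4) (nat_lit 4) (nat_lit 2) (nat_lit 4) (nat_lit 336) (nat_lit 268) (nat_lit 116))) (XT.nd (nat_lit 32214) (nat_lit 0) (nat_lit 2660) (XT.lf (nat_lit 0) (nat_lit 739683689727) (nat_lit 152) (nat_lit 939128383376) (nat_lit 0) (nat_lit 605600556847) (nat_lit 2) (nat_lit 5) (nat_lit 4) (nat_lit 4) (nat_lit 2) (nat_lit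 4) (nat_lit 337) (nat_lit 268) (nat_lit 115)) (XT.lf (nat_lit 0) (nat_lit 7951067231) (nat_lit 532) (nat_lit 5579591497) (nat_lit 532) (nat_lit 5579591497) (nat_lit 37) (nat_lit 3) (nat_lit 44) (nat_lit 3) (nat_lit 44) (nat_lit 5) (nat_lit 269) (nat_lit 269) (nat_lit 182)))))) (XT.nd (nat_lit 468) (nat_lit 684) (nat_lit 0) (XT.nd (nat_lit 234) (nat_lit 0) (nat_lit 76) (XT.nd (nat_lit 78) (nat_lit 0) (nat_lit 76) (XT.lf (nat_lit 76) (nat_lit 5715690398) (nat_lit 0) (nat_lit 11000208387) (nat_lit 532) (nat_lit 23019015316) (nat_lit 38) (nat_lit 5) (nat_lit 37) (nat_lit 3) (nat_lit 44) (nat_lit 5) (nat_lit 270) (nat_lit 269) (nat_lit 181)) (XT.nd (nat_lit 78) (nat_lit 0) (nat_lit 0) (XT.lf (nat_lit 0) (nat_lit 18056381483) (nat_lit 456) (nat_lit 16934112605) (nat_lit 532) (nat_lit 6343076592) (nat_lit 38) (nat_lit 5) (nat_lit 44) (nat_lit 5) (nat_lit 45) (nat_lit 5) (nat_lit 271) (nat_lit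 269) (nat_lit 180)) (XT.lf (nat_lit 76) (nat_lit 1294349601) (nat_lit 0) (nat_lit 18522865012) (nat_lit 532) (nat_lit 23217874018) (nat_lit 39) (nat_lit 5) (nat_lit 38) (nat_lit 5) (nat_lit 45) (nat_lit 5) (nat_lit 272) (nat_lit 269) (nat_lit 179)))) (XT.nd (nat_lit 78) (nat_lit 0) (nat_lit 76) (XT.lf (nat_lit 76) (nat_lit 21941723036) (nat_lit 0) (nat_lit 236681510) (nat_lit 532) (nat_lit 22657580732) (nat_lit 39) (nat_lit 5) (nat_lit 38) (nat_lit 5) (nat_lit 45) (nat_lit 5) (nat_lit 273) (nat_lit 269) (nat_lit 178)) (XT.nd (nat_lit 78) (nat_lit 0) (nat_lit 0) (XT.lf (nat_lit 0) (nat_lit 25194529796) (nat_lit 456) (nat_lit 3011885382) (nat_lit 532) (nat_lit 18537270521) (nat_lit 39) (nat_lit 5) (nat_lit 45) (nat_lit 5) (nat_lit 46) (nat_lit 5) (nat_lit 274) (nat_lit 269) (nat_lit 177)) (XT.lf (nat_lit 76) (nat_lit 19424258131) (nat_lit 0) (nat_lit 9497994412) (nat_lit 532) (nat_lit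 19844139138) (nat_lit 40) (nat_lit 5) (nat_lit 39) (nat_lit 5) (nat_lit 46) (nat_lit 5) (nat_lit 275) (nat_lit 269) (nat_lit 176))))) (XT.nd (nat_lit 234) (nat_lit 456) (nat_lit 0) (XT.nd (nat_lit 78) (nat_lit 456) (nat_lit 0) (XT.lf (nat_lit 0) (nat_lit 33287373728) (nat_lit 456) (nat_lit 7379937764) (nat_lit 76) (nat_lit 10256481277) (nat_lit 40) (nat_lit 5) (nat_lit 46) (nat_lit 5) (nat_lit 41) (nat_lit 5) (nat_lit 276) (nat_lit 269) (nat_lit 175)) (XT.nd (nat_lit 78) (nat_lit 0) (nat_lit 0) (XT.lf (nat_lit 0) (nat_lit 16937452910) (nat_lit 456) (nat_lit 21715692844) (nat_lit 532) (nat_lit 14548537006) (nat_lit 34) (nat_lit 5) (nat_lit 40) (nat_lit 5) (nat_lit 41) (nat_lit 5) (nat_lit 277) (nat_lit 269) (nat_lit 174)) (XT.lf (nat_lit 0) (nat_lit 43617638565) (nat_lit 456) (nat_lit 1029853135) (nat_lit 532) (nat_lit 10998378490) (nat_lit 34) (nat_lit 5) (nat_lit 40) (nat_lit 5) (nat_lit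 41) (nat_lit 5) (nat_lit 278) (nat_lit 269) (nat_lit 173)))) (XT.nd (nat_lit 156) (nat_lit 228) (nat_lit 0) (XT.nd (nat_lit 78) (nat_lit 0) (nat_lit 0) (XT.lf (nat_lit 0) (nat_lit 14349619501) (nat_lit 228) (nat_lit 37627119240) (nat_lit 304) (nat_lit 6240435980) (nat_lit 31) (nat_lit 5) (nat_lit 34) (nat_lit 5) (nat_lit 35) (nat_lit 5) (nat_lit 279) (nat_lit 269) (nat_lit 172)) (XT.lf (nat_lit 0) (nat_lit 43491329303) (nat_lit 228) (nat_lit 16753774308) (nat_lit 304) (nat_lit 720867369) (nat_lit 31) (nat_lit 5) (nat_lit 34) (nat_lit 5) (nat_lit 35) (nat_lit 5) (nat_lit 280) (nat_lit 269) (nat_lit 171))) (XT.nd (nat_lit 78) (nat_lit 0) (nat_lit 0) (XT.lf (nat_lit 0) (nat_lit 5401720798) (nat_lit 228) (nat_lit 52576846642) (nat_lit 76) (nat_lit 5912141985) (nat_lit 28) (nat_lit 5) (nat_lit 31) (nat_lit 5) (nat_lit 29) (nat_lit 5) (nat_lit 281) (nat_lit 269) (nat_lit 170)) (XT.lf (nat_lit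 0) (nat_lit 12898560299) (nat_lit 228) (nat_lit 24080575698) (nat_lit 76) (nat_lit 29994929484) (nat_lit 28) (nat_lit 5) (nat_lit 31) (nat_lit 5) (nat_lit 29) (nat_lit 5) (nat_lit 282) (nat_lit 269) (nat_lit 169))))))) (XT.nd (nat_lit 1014) (nat_lit 532) (nat_lit 0) (XT.nd (nat_lit 468) (nat_lit 456) (nat_lit 0) (XT.nd (nat_lit 234) (nat_lit 152) (nat_lit 0) (XT.nd (nat_lit 78) (nat_lit 152) (nat_lit 0) (XT.lf (nat_lit 0) (nat_lit 7045702552) (nat_lit 228) (nat_lit 14117068845) (nat_lit 304) (nat_lit 49127915735) (nat_lit 25) (nat_lit 5) (nat_lit 28) (nat_lit 5) (nat_lit 29) (nat_lit 5) (nat_lit 283) (nat_lit 269) (nat_lit 168)) (XT.nd (nat_lit 78) (nat_lit 152) (nat_lit 0) (XT.lf (nat_lit 0) (nat_lit 31016181923) (nat_lit 304) (nat_lit 32062036616) (nat_lit 76) (nat_lit 10720181515) (nat_lit 25) (nat_lit 5) (nat_lit 29) (nat_lit 5) (nat_lit 26) (nat_lit 5) (nat_lit 284) (nat_lit 269)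 (nat_lit 167)) (XT.lf (nat_lit 0) (nat_lit 1312458093) (nat_lit 152) (nat_lit 40742029883) (nat_lit 228) (nat_lit 35500518275) (nat_lit 23) (nat_lit 5) (nat_lit 25) (nat_lit 5) (nat_lit 26) (nat_lit 5) (nat_lit 285) (nat_lit 269) (nat_lit 166)))) (XT.nd (nat_lit 78) (nat_lit 152) (nat_lit 0) (XT.lf (nat_lit 0) (nat_lit 39178294679) (nat_lit 152) (nat_lit 15672649152) (nat_lit 228) (nat_lit 26691195897) (nat_lit 23) (nat_lit 5) (nat_lit 25) (nat_lit 5) (nat_lit 26) (nat_lit 5) (nat_lit 286) (nat_lit 269) (nat_lit 165)) (XT.nd (nat_lit 78) (nat_lit 152) (nat_lit 0) (XT.lf (nat_lit 0) (nat_lit 68943897975) (nat_lit 228) (nat_lit 6051045227) (nat_lit 76) (nat_lit 10831483328) (nat_lit 23) (nat_lit 5) (nat_lit 26) (nat_lit 5) (nat_lit 24) (nat_lit 5) (nat_lit 287) (nat_lit 269) (nat_lit 164)) (XT.lf (nat_lit 0) (nat_lit 34482839969) (nat_lit 152) (nat_lit 50916506985) (nat_lit 228) (nat_lit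 4955309451) (nat_lit 21) (nat_lit 5) (nat_lit 23) (nat_lit 5) (nat_lit 24) (nat_lit 5) (nat_lit 288) (nat_lit 269) (nat_lit 163))))) (XT.nd (nat_lit 234) (nat_lit 228) (nat_lit 0) (XT.nd (nat_lit 78) (nat_lit 152) (nat_lit 0) (XT.lf (nat_lit 0) (nat_lit 7698018040) (nat_lit 228) (nat_lit 16825119935) (nat_lit 76) (nat_lit 70693286944) (nat_lit 20) (nat_lit 5) (nat_lit 23) (nat_lit 5) (nat_lit 21) (nat_lit 5) (nat_lit 289) (nat_lit 269) (nat_lit 162)) (XT.nd (nat_lit 78) (nat_lit 0) (nat_lit 0) (XT.lf (nat_lit 0) (nat_lit 21848699359) (nat_lit 228) (nat_lit 73978886968) (nat_lit 76) (nat_lit 4569031411) (nat_lit 18) (nat_lit 5) (nat_lit 21) (nat_lit 5) (nat_lit 19) (nat_lit 5) (nat_lit 290) (nat_lit 269) (nat_lit 161)) (XT.lf (nat_lit 0) (nat_lit 38239195024) (nat_lit 228) (nat_lit 32528227543) (nat_lit 76) (nat_lit 35135186164) (nat_lit 18) (nat_lit 5) (nat_lit 21) (nat_lit 5) (nat_lit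 19) (nat_lit 5) (nat_lit 291) (nat_lit 269) (nat_lit 160)))) (XT.nd (nat_lit 156) (nat_lit 76) (nat_lit 0) (XT.nd (nat_lit 78) (nat_lit 0) (nat_lit 0) (XT.lf (nat_lit 0) (nat_lit 12881226650) (nat_lit 152) (nat_lit 43368402898) (nat_lit 228) (nat_lit 55574756791) (nat_lit 16) (nat_lit 5) (nat_lit 18) (nat_lit 5) (nat_lit 19) (nat_lit 5) (nat_lit 292) (nat_lit 269) (nat_lit 159)) (XT.lf (nat_lit 0) (nat_lit 63771758434) (nat_lit 152) (nat_lit 12817468076) (nat_lit 228) (nat_lit 41559616462) (nat_lit 16) (nat_lit 5) (nat_lit 18) (nat_lit 5) (nat_lit 19) (nat_lit 5) (nat_lit 293) (nat_lit 269) (nat_lit 158))) (XT.nd (nat_lit 78) (nat_lit 76) (nat_lit 0) (XT.lf (nat_lit 0) (nat_lit 99040275843) (nat_lit 228) (nat_lit 6732532754) (nat_lit 76) (nat_lit 19167707575) (nat_lit 16) (nat_lit 5) (nat_lit 19) (nat_lit 5) (nat_lit 17) (nat_lit 4) (nat_lit 294) (nat_lit 269) (nat_lit 157)) (XT.lf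 (nat_lit 0) (nat_lit 46726695457) (nat_lit 76) (nat_lit 78016500336) (nat_lit 152) (nat_lit 7415867100) (nat_lit 15) (nat_lit 5) (nat_lit 16) (nat_lit 5) (nat_lit 17) (nat_lit 4) (nat_lit 295) (nat_lit 269) (nat_lit 156)))))) (XT.nd (nat_lit 546) (nat_lit 228) (nat_lit 0) (XT.nd (nat_lit 234) (nat_lit 76) (nat_lit 0) (XT.nd (nat_lit 78) (nat_lit 152) (nat_lit 0) (XT.lf (nat_lit 0) (nat_lit 12107548459) (nat_lit 152) (nat_lit 35402801815) (nat_lit 76) (nat_lit 92405567797) (nat_lit 14) (nat_lit 5) (nat_lit 16) (nat_lit 5) (nat_lit 15) (nat_lit 5) (nat_lit 296) (nat_lit 269) (nat_lit 155)) (XT.nd (nat_lit 78) (nat_lit 0) (nat_lit 0) (XT.lf (nat_lit 0) (nat_lit 19405940702) (nat_lit 152) (nat_lit 13852123768) (nat_lit 228) (nat_lit 114982579529) (nat_lit 12) (nat_lit 5) (nat_lit 14) (nat_lit 5) (nat_lit 15) (nat_lit 5) (nat_lit 297) (nat_lit 269) (nat_lit 154)) (XT.lf (nat_lit 0) (nat_lit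 57634017274) (nat_lit 228) (nat_lit 77108729593) (nat_lit 76) (nat_lit 22365931403) (nat_lit 12) (nat_lit 5) (nat_lit 15) (nat_lit 5) (nat_lit 13) (nat_lit 4) (nat_lit 298) (nat_lit 269) (nat_lit 153)))) (XT.nd (nat_lit 156) (nat_lit 0) (nat_lit 0) (XT.nd (nat_lit 78) (nat_lit 76) (nat_lit 0) (XT.lf (nat_lit 0) (nat_lit 84319084515) (nat_lit 228) (nat_lit 21605726185) (nat_lit 76) (nat_lit 60732623295) (nat_lit 12) (nat_lit 5) (nat_lit 15) (nat_lit 5) (nat_lit 13) (nat_lit 4) (nat_lit 299) (nat_lit 269) (nat_lit 152)) (XT.lf (nat_lit 0) (nat_lit 40355082172) (nat_lit 76) (nat_lit 73753714539) (nat_lit 152) (nat_lit 62783707936) (nat_lit 11) (nat_lit 5) (nat_lit 12) (nat_lit 5) (nat_lit 13) (nat_lit 4) (nat_lit 300) (nat_lit 269) (nat_lit 151))) (XT.nd (nat_lit 78) (nat_lit 0) (nat_lit 0) (XT.lf (nat_lit 0) (nat_lit 108500361385) (nat_lit 76) (nat_lit 38371386965) (nat_lit 152) (nat_lit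 41027429121) (nat_lit 11) (nat_lit 5) (nat_lit 12) (nat_lit 5) (nat_lit 13) (nat_lit 4) (nat_lit 301) (nat_lit 269) (nat_lit 150)) (XT.lf (nat_lit 0) (nat_lit 182096216078) (nat_lit 76) (nat_lit 158893768) (nat_lit 152) (nat_lit 17531325780) (nat_lit 11) (nat_lit 5) (nat_lit 12) (nat_lit 5) (nat_lit 13) (nat_lit 4) (nat_lit 302) (nat_lit 269) (nat_lit 149))))) (XT.nd (nat_lit 234) (nat_lit 76) (nat_lit 0) (XT.nd (nat_lit 78) (nat_lit 0) (nat_lit 0) (XT.lf (nat_lit 0) (nat_lit 9711692929) (nat_lit 152) (nat_lit 162203230330) (nat_lit 76) (nat_lit 40513888486) (nat_lit 9) (nat_lit 5) (nat_lit 11) (nat_lit 5) (nat_lit 10) (nat_lit 4) (nat_lit 303) (nat_lit 269) (nat_lit 148)) (XT.nd (nat_lit 78) (nat_lit 0) (nat_lit 0) (XT.lf (nat_lit 0) (nat_lit 38686793266) (nat_lit 152) (nat_lit 101936241923) (nat_lit 76) (nat_lit 85383132184) (nat_lit 9) (nat_lit 5) (nat_lit 11) (nat_lit 5) (nat_lit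 10) (nat_lit 4) (nat_lit 304) (nat_lit 269) (nat_lit 147)) (XT.lf (nat_lit 0) (nat_lit 69979359825) (nat_lit 152) (nat_lit 36848833382) (nat_lit 76) (nat_lit 133841562620) (nat_lit 9) (nat_lit 5) (nat_lit 11) (nat_lit 5) (nat_lit 10) (nat_lit 4) (nat_lit 305) (nat_lit 269) (nat_lit 146)))) (XT.nd (nat_lit 156) (nat_lit 0) (nat_lit 0) (XT.nd (nat_lit 78) (nat_lit 0) (nat_lit 0) (XT.lf (nat_lit 0) (nat_lit 35205837005) (nat_lit 76) (nat_lit 69415694258) (nat_lit 152) (nat_lit 151817205084) (nat_lit 8) (nat_lit 5) (nat_lit 9) (nat_lit 5) (nat_lit 10) (nat_lit 4) (nat_lit 306) (nat_lit 269) (nat_lit 145)) (XT.lf (nat_lit 0) (nat_lit 115119659451) (nat_lit 76) (nat_lit 27922444483) (nat_lit 152) (nat_lit 130346570059) (nat_lit 8) (nat_lit 5) (nat_lit 9) (nat_lit 5) (nat_lit 10) (nat_lit 4) (nat_lit 307) (nat_lit 269) (nat_lit 144))) (XT.nd (nat_lit 78) (nat_lit 0) (nat_lit 0) (XT.lf (nat_lit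 0) (nat_lit 184942076660) (nat_lit 152) (nat_lit 90675043518) (nat_lit 0) (nat_lit 16045026952) (nat_lit 8) (nat_lit 5) (nat_lit 10) (nat_lit 4) (nat_lit 8) (nat_lit 4) (nat_lit 308) (nat_lit 269) (nat_lit 143)) (XT.lf (nat_lit 0) (nat_lit 230918882313) (nat_lit 152) (nat_lit 18399566142) (nat_lit 0) (nat_lit 62021063612) (nat_lit 8) (nat_lit 5) (nat_lit 10) (nat_lit 4) (nat_lit 8) (nat_lit 4) (nat_lit 309) (nat_lit 269) (nat_lit 142))))))))
noncomputable def xc98 : XT := (XT.nd (nat_lit 2028) (nat_lit 0) (nat_lit 0) (XT.nd (nat_lit 1014) (nat_lit 152) (nat_lit 0) (XT.nd (nat_lit 468) (nat_lit 76) (nat_lit 0) (XT.nd (nat_lit 234) (nat_lit 76) (nat_lit 0) (XT.nd (nat_lit 78) (nat_lit 76) (nat_lit 0) (XT.lf (nat_lit 0) (nat_lit 62798697350) (nat_lit 76) (nat_lit 219285053407) (nat_lit 76) (nat_lit 50386522677) (nat_lit 7) (nat_lit 4) (nat_lit 8) (nat_lit 5) (nat_lit 8) (nat_lit 4) (nat_lit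 310) (nat_lit 269) (nat_lit 141)) (XT.nd (nat_lit 78) (nat_lit 76) (nat_lit 0) (XT.lf (nat_lit 0) (nat_lit 151538541953) (nat_lit 76) (nat_lit 186305964309) (nat_lit 76) (nat_lit 17406774292) (nat_lit 7) (nat_lit 4) (nat_lit 8) (nat_lit 5) (nat_lit 8) (nat_lit 4) (nat_lit 311) (nat_lit 269) (nat_lit 140)) (XT.lf (nat_lit 0) (nat_lit 17299987515) (nat_lit 152) (nat_lit 132915826434) (nat_lit 76) (nat_lit 229603945033) (nat_lit 6) (nat_lit 5) (nat_lit 8) (nat_lit 5) (nat_lit 7) (nat_lit 4) (nat_lit 312) (nat_lit 269) (nat_lit 139)))) (XT.nd (nat_lit 78) (nat_lit 76) (nat_lit 0) (XT.lf (nat_lit 0) (nat_lit 53842538290) (nat_lit 152) (nat_lit 56907886054) (nat_lit 76) (nat_lit 295567148659) (nat_lit 6) (nat_lit 5) (nat_lit 8) (nat_lit 5) (nat_lit 7) (nat_lit 4) (nat_lit 313) (nat_lit 269) (nat_lit 138)) (XT.nd (nat_lit 78) (nat_lit 0) (nat_lit 0) (XT.lf (nat_lit 0) (nat_lit 26506074500)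 (nat_lit 76) (nat_lit 67439581058) (nat_lit 152) (nat_lit 340938584072) (nat_lit 5) (nat_lit 5) (nat_lit 6) (nat_lit 5) (nat_lit 7) (nat_lit 4) (nat_lit 314) (nat_lit 269) (nat_lit 137)) (XT.lf (nat_lit 0) (nat_lit 119829011633) (nat_lit 76) (nat_lit 18983673602) (nat_lit 152) (nat_lit 326799101751) (nat_lit 5) (nat_lit 5) (nat_lit 6) (nat_lit 5) (nat_lit 7) (nat_lit 4) (nat_lit 315) (nat_lit 269) (nat_lit 136))))) (XT.nd (nat_lit 234) (nat_lit 76) (nat_lit 0) (XT.nd (nat_lit 78) (nat_lit 0) (nat_lit 0) (XT.lf (nat_lit 0) (nat_lit 188070831827) (nat_lit 152) (nat_lit 278982310781) (nat_lit 0) (nat_lit 31680255570) (nat_lit 5) (nat_lit 5) (nat_lit 7) (nat_lit 4) (nat_lit 5) (nat_lit 4) (nat_lit 316) (nat_lit 269) (nat_lit 135)) (XT.nd (nat_lit 78) (nat_lit 0) (nat_lit 0) (XT.lf (nat_lit 0) (nat_lit 241762450861) (nat_lit 152) (nat_lit 207331372209) (nat_lit 0) (nat_lit 85371489917) (nat_lit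 5) (nat_lit 5) (nat_lit 7) (nat_lit 4) (nat_lit 5) (nat_lit 4) (nat_lit 317) (nat_lit 269) (nat_lit 134)) (XT.lf (nat_lit 0) (nat_lit 299749157089) (nat_lit 152) (nat_lit 129948803675) (nat_lit 0) (nat_lit 143357839954) (nat_lit 5) (nat_lit 5) (nat_lit 7) (nat_lit 4) (nat_lit 5) (nat_lit 4) (nat_lit 318) (nat_lit 269) (nat_lit 133)))) (XT.nd (nat_lit 156) (nat_lit 0) (nat_lit 0) (XT.nd (nat_lit 78) (nat_lit 76) (nat_lit 0) (XT.lf (nat_lit 0) (nat_lit 362374575437) (nat_lit 152) (nat_lit 46376041812) (nat_lit 0) (nat_lit 205982928494) (nat_lit 5) (nat_lit 5) (nat_lit 7) (nat_lit 4) (nat_lit 5) (nat_lit 4) (nat_lit 319) (nat_lit 269) (nat_lit 132)) (XT.lf (nat_lit 0) (nat_lit 46192916124) (nat_lit 76) (nat_lit 384927844115) (nat_lit 76) (nat_lit 228535891794) (nat_lit 4) (nat_lit 4) (nat_lit 5) (nat_lit 5) (nat_lit 5) (nat_lit 4) (nat_lit 320) (nat_lit 269) (nat_lit 131))) (XT.nd (nat_lit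 78) (nat_lit 0) (nat_lit 0) (XT.lf (nat_lit 0) (nat_lit 148804465325) (nat_lit 76) (nat_lit 357829976354) (nat_lit 76) (nat_lit 201437741277) (nat_lit 4) (nat_lit 4) (nat_lit 5) (nat_lit 5) (nat_lit 5) (nat_lit 4) (nat_lit 321) (nat_lit 269) (nat_lit 130)) (XT.lf (nat_lit 0) (nat_lit 259624594053) (nat_lit 76) (nat_lit 328564437180) (nat_lit 76) (nat_lit 172171940291) (nat_lit 4) (nat_lit 4) (nat_lit 5) (nat_lit 5) (nat_lit 5) (nat_lit 4) (nat_lit 322) (nat_lit 269) (nat_lit 129)))))) (XT.nd (nat_lit 468) (nat_lit 76) (nat_lit 0) (XT.nd (nat_lit 234) (nat_lit 76) (nat_lit 0) (XT.nd (nat_lit 78) (nat_lit 0) (nat_lit 0) (XT.lf (nat_lit 0) (nat_lit 379310014182) (nat_lit 76) (nat_lit 296957801174) (nat_lit 76) (nat_lit 140565061867) (nat_lit 4) (nat_lit 4) (nat_lit 5) (nat_lit 5) (nat_lit 5) (nat_lit 4) (nat_lit 323) (nat_lit 269) (nat_lit 128)) (XT.nd (nat_lit 78) (nat_lit 0) (nat_lit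 0) (XT.lf (nat_lit 0) (nat_lit 508569972647) (nat_lit 76) (nat_lit 262822769753) (nat_lit 76) (nat_lit 106429805984) (nat_lit 4) (nat_lit 4) (nat_lit 5) (nat_lit 5) (nat_lit 5) (nat_lit 4) (nat_lit 324) (nat_lit 269) (nat_lit 127)) (XT.lf (nat_lit 0) (nat_lit 648170454386) (nat_lit 76) (nat_lit 225957061249) (nat_lit 76) (nat_lit 69563889646) (nat_lit 4) (nat_lit 4) (nat_lit 5) (nat_lit 5) (nat_lit 5) (nat_lit 4) (nat_lit 325) (nat_lit 269) (nat_lit 126)))) (XT.nd (nat_lit 78) (nat_lit 76) (nat_lit 0) (XT.lf (nat_lit 0) (nat_lit 798938721513) (nat_lit 76) (nat_lit 186142212205) (nat_lit 76) (nat_lit 29748848162) (nat_lit 4) (nat_lit 4) (nat_lit 5) (nat_lit 5) (nat_lit 5) (nat_lit 4) (nat_lit 326) (nat_lit 269) (nat_lit 125)) (XT.nd (nat_lit 78) (nat_lit 0) (nat_lit 0) (XT.lf (nat_lit 0) (nat_lit 12588377787) (nat_lit 152) (nat_lit 130209716429) (nat_lit 76) (nat_lit 948835649268) (nat_lit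 3) (nat_lit 5) (nat_lit 5) (nat_lit 5) (nat_lit 4) (nat_lit 4) (nat_lit 327) (nat_lit 269) (nat_lit 124)) (XT.lf (nat_lit 0) (nat_lit 56705250645) (nat_lit 152) (nat_lit 38446785871) (nat_lit 76) (nat_lit 1079368179515) (nat_lit 3) (nat_lit 5) (nat_lit 5) (nat_lit 5) (nat_lit 4) (nat_lit 4) (nat_lit 328) (nat_lit 269) (nat_lit 123))))) (XT.nd (nat_lit 234) (nat_lit 0) (nat_lit 0) (XT.nd (nat_lit 78) (nat_lit 0) (nat_lit 0) (XT.lf (nat_lit 0) (nat_lit 63851060807) (nat_lit 76) (nat_lit 42035920339) (nat_lit 152) (nat_lit 1158027784750) (nat_lit 2) (nat_lit 5) (nat_lit 3) (nat_lit 5) (nat_lit 4) (nat_lit 4) (nat_lit 329) (nat_lit 269) (nat_lit 122)) (XT.nd (nat_lit 78) (nat_lit 0) (nat_lit 0) (XT.lf (nat_lit 0) (nat_lit 160450321261) (nat_lit 152) (nat_lit 1184253732246) (nat_lit 0) (nat_lit 15641060680) (nat_lit 2) (nat_lit 5) (nat_lit 4) (nat_lit 4) (nat_lit 2) (nat_lit 4) (nat_lit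 330) (nat_lit 269) (nat_lit 121)) (XT.lf (nat_lit 0) (nat_lit 220470468305) (nat_lit 152) (nat_lit 1168270996521) (nat_lit 0) (nat_lit 75661086455) (nat_lit 2) (nat_lit 5) (nat_lit 4) (nat_lit 4) (nat_lit 2) (nat_lit 4) (nat_lit 331) (nat_lit 269) (nat_lit 120)))) (XT.nd (nat_lit 156) (nat_lit 0) (nat_lit 0) (XT.nd (nat_lit 78) (nat_lit 0) (nat_lit 0) (XT.lf (nat_lit 0) (nat_lit 285292132331) (nat_lit 152) (nat_lit 1151009820512) (nat_lit 0) (nat_lit 140482638194) (nat_lit 2) (nat_lit 5) (nat_lit 4) (nat_lit 4) (nat_lit 2) (nat_lit 4) (nat_lit 332) (nat_lit 269) (nat_lit 119)) (XT.lf (nat_lit 0) (nat_lit 355299441717) (nat_lit 152) (nat_lit 1132367915769) (nat_lit 0) (nat_lit 210489843611) (nat_lit 2) (nat_lit 5) (nat_lit 4) (nat_lit 4) (nat_lit 2) (nat_lit 4) (nat_lit 333) (nat_lit 269) (nat_lit 118))) (XT.nd (nat_lit 78) (nat_lit 0) (nat_lit 0) (XT.lf (nat_lit 0) (nat_lit 430907254593)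 (nat_lit 152) (nat_lit 1112234811746) (nat_lit 0) (nat_lit 286097560220) (nat_lit 2) (nat_lit 5) (nat_lit 4) (nat_lit 4) (nat_lit 2) (nat_lit 4) (nat_lit 334) (nat_lit 269) (nat_lit 117)) (XT.lf (nat_lit 0) (nat_lit 512563617258) (nat_lit 152) (nat_lit 1090491201158) (nat_lit 0) (nat_lit 367753833748) (nat_lit 2) (nat_lit 5) (nat_lit 4) (nat_lit 4) (nat_lit 2) (nat_lit 4) (nat_lit 335) (nat_lit 269) (nat_lit 116))))))) (XT.nd (nat_lit 33228) (nat_lit 0) (nat_lit 1064) (XT.nd (nat_lit 32682) (nat_lit 0) (nat_lit 2204) (XT.nd (nat_lit 32448) (nat_lit 0) (nat_lit 2660) (XT.nd (nat_lit 78) (nat_lit 0) (nat_lit 0) (XT.lf (nat_lit 0) (nat_lit 600752419267) (nat_lit 152) (nat_lit 1067008232980) (nat_lit 0) (nat_lit 455942553223) (nat_lit 2) (nat_lit 5) (nat_lit 4) (nat_lit 4) (nat_lit 2) (nat_lit 4) (nat_lit 336) (nat_lit 269) (nat_lit 115)) (XT.nd (nat_lit 32292) (nat_lit 0) (nat_lit 2660)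 (XT.lf (nat_lit 0) (nat_lit 695996260930) (nat_lit 152) (nat_lit 1041646748883) (nat_lit 0) (nat_lit 551186318466) (nat_lit 2) (nat_lit 5) (nat_lit 4) (nat_lit 4) (nat_lit 2) (nat_lit 4) (nat_lit 337) (nat_lit 269) (nat_lit 114)) (XT.lf (nat_lit 0) (nat_lit 8626401856) (nat_lit 532) (nat_lit 6004670507) (nat_lit 532) (nat_lit 6004670507) (nat_lit 37) (nat_lit 3) (nat_lit 44) (nat_lit 3) (nat_lit 44) (nat_lit 5) (nat_lit 270) (nat_lit 270) (nat_lit 180)))) (XT.nd (nat_lit 78) (nat_lit 0) (nat_lit 76) (XT.lf (nat_lit 76) (nat_lit 6214444361) (nat_lit 0) (nat_lit 11912408163) (nat_lit 532) (nat_lit 24780613059) (nat_lit 38) (nat_lit 5) (nat_lit 37) (nat_lit 3) (nat_lit 44) (nat_lit 5) (nat_lit 271) (nat_lit 270) (nat_lit 179)) (XT.nd (nat_lit 78) (nat_lit 0) (nat_lit 0) (XT.lf (nat_lit 0) (nat_lit 19568399253) (nat_lit 456) (nat_lit 18243920889) (nat_lit 532) (nat_lit 6822214223) (nat_lit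 38) (nat_lit 5) (nat_lit 44) (nat_lit 5) (nat_lit 45) (nat_lit 5) (nat_lit 272) (nat_lit 270) (nat_lit 178)) (XT.lf (nat_lit 76) (nat_lit 1441681059) (nat_lit 0) (nat_lit 20024470430) (nat_lit 532) (nat_lit 25006361873) (nat_lit 39) (nat_lit 5) (nat_lit 38) (nat_lit 5) (nat_lit 45) (nat_lit 5) (nat_lit 273) (nat_lit 270) (nat_lit 177))))) (XT.nd (nat_lit 234) (nat_lit 532) (nat_lit 0) (XT.nd (nat_lit 78) (nat_lit 0) (nat_lit 76) (XT.lf (nat_lit 76) (nat_lit 23737601148) (nat_lit 0) (nat_lit 273927343) (nat_lit 532) (nat_lit 24406351944) (nat_lit 39) (nat_lit 5) (nat_lit 38) (nat_lit 5) (nat_lit 45) (nat_lit 5) (nat_lit 274) (nat_lit 270) (nat_lit 176)) (XT.nd (nat_lit 78) (nat_lit 0) (nat_lit 0) (XT.lf (nat_lit 0) (nat_lit 27264176619) (nat_lit 456) (nat_lit 3210276656) (nat_lit 532) (nat_lit 20004145398) (nat_lit 39) (nat_lit 5) (nat_lit 45) (nat_lit 5) (nat_lit 46) (nat_lit 5) (nat_lit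 275) (nat_lit 270) (nat_lit 175)) (XT.lf (nat_lit 76) (nat_lit 21019680882) (nat_lit 0) (nat_lit 10267427695) (nat_lit 532) (nat_lit 21376272143) (nat_lit 40) (nat_lit 5) (nat_lit 39) (nat_lit 5) (nat_lit 46) (nat_lit 5) (nat_lit 276) (nat_lit 270) (nat_lit 174)))) (XT.nd (nat_lit 156) (nat_lit 228) (nat_lit 0) (XT.nd (nat_lit 78) (nat_lit 456) (nat_lit 0) (XT.lf (nat_lit 0) (nat_lit 35997442423) (nat_lit 456) (nat_lit 7927707669) (nat_lit 76) (nat_lit 11068561064) (nat_lit 40) (nat_lit 5) (nat_lit 46) (nat_lit 5) (nat_lit 41) (nat_lit 5) (nat_lit 277) (nat_lit 270) (nat_lit 173)) (XT.lf (nat_lit 0) (nat_lit 18333995143) (nat_lit 456) (nat_lit 23455992932) (nat_lit 532) (nat_lit 15664059524) (nat_lit 34) (nat_lit 5) (nat_lit 40) (nat_lit 5) (nat_lit 41) (nat_lit 5) (nat_lit 278) (nat_lit 270) (nat_lit 172))) (XT.nd (nat_lit 78) (nat_lit 228) (nat_lit 0) (XT.lf (nat_lit 0) (nat_lit 47145518168)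 (nat_lit 456) (nat_lit 1115060517) (nat_lit 532) (nat_lit 11833470581) (nat_lit 34) (nat_lit 5) (nat_lit 40) (nat_lit 5) (nat_lit 41) (nat_lit 5) (nat_lit 279) (nat_lit 270) (nat_lit 171)) (XT.lf (nat_lit 0) (nat_lit 15538551947) (nat_lit 228) (nat_lit 40635477577) (nat_lit 304) (nat_lit 6697213403) (nat_lit 31) (nat_lit 5) (nat_lit 34) (nat_lit 5) (nat_lit 35) (nat_lit 5) (nat_lit 280) (nat_lit 270) (nat_lit 170)))))) (XT.nd (nat_lit 546) (nat_lit 532) (nat_lit 0) (XT.nd (nat_lit 234) (nat_lit 380) (nat_lit 0) (XT.nd (nat_lit 78) (nat_lit 228) (nat_lit 0) (XT.lf (nat_lit 0) (nat_lit 47008564246) (nat_lit 228) (nat_lit 18092399215) (nat_lit 304) (nat_lit 739224300) (nat_lit 31) (nat_lit 5) (nat_lit 34) (nat_lit 5) (nat_lit 35) (nat_lit 5) (nat_lit 281) (nat_lit 270) (nat_lit 169)) (XT.nd (nat_lit 78) (nat_lit 0) (nat_lit 0) (XT.lf (nat_lit 0) (nat_lit 5869461134) (nat_lit 228) (nat_lit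 56741069284) (nat_lit 76) (nat_lit 6388449709) (nat_lit 28) (nat_lit 5) (nat_lit 31) (nat_lit 5) (nat_lit 29) (nat_lit 5) (nat_lit 282) (nat_lit 270) (nat_lit 168)) (XT.lf (nat_lit 0) (nat_lit 13963410560) (nat_lit 228) (nat_lit 25968202227) (nat_lit 76) (nat_lit 32397613070) (nat_lit 28) (nat_lit 5) (nat_lit 31) (nat_lit 5) (nat_lit 29) (nat_lit 5) (nat_lit 283) (nat_lit 270) (nat_lit 167)))) (XT.nd (nat_lit 156) (nat_lit 152) (nat_lit 0) (XT.nd (nat_lit 78) (nat_lit 0) (nat_lit 0) (XT.lf (nat_lit 0) (nat_lit 7647195510) (nat_lit 228) (nat_lit 15240031127) (nat_lit 304) (nat_lit 53024082610) (nat_lit 25) (nat_lit 5) (nat_lit 28) (nat_lit 5) (nat_lit 29) (nat_lit 5) (nat_lit 284) (nat_lit 270) (nat_lit 166)) (XT.lf (nat_lit 0) (nat_lit 33526724185) (nat_lit 304) (nat_lit 34589670275) (nat_lit 76) (nat_lit 11583428361) (nat_lit 25) (nat_lit 5) (nat_lit 29) (nat_lit 5) (nat_lit 26) (nat_lit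 5) (nat_lit 285) (nat_lit 270) (nat_lit 165))) (XT.nd (nat_lit 78) (nat_lit 0) (nat_lit 0) (XT.lf (nat_lit 0) (nat_lit 1453838967) (nat_lit 152) (nat_lit 43992964301) (nat_lit 228) (nat_lit 38310265669) (nat_lit 23) (nat_lit 5) (nat_lit 25) (nat_lit 5) (nat_lit 26) (nat_lit 5) (nat_lit 286) (nat_lit 270) (nat_lit 164)) (XT.lf (nat_lit 0) (nat_lit 42346247351) (nat_lit 152) (nat_lit 16918657406) (nat_lit 228) (nat_lit 28798441505) (nat_lit 23) (nat_lit 5) (nat_lit 25) (nat_lit 5) (nat_lit 26) (nat_lit 5) (nat_lit 287) (nat_lit 270) (nat_lit 163))))) (XT.nd (nat_lit 234) (nat_lit 304) (nat_lit 0) (XT.nd (nat_lit 78) (nat_lit 228) (nat_lit 0) (XT.lf (nat_lit 0) (nat_lit 74483551571) (nat_lit 228) (nat_lit 6502104713) (nat_lit 76) (nat_lit 11704866167) (nat_lit 23) (nat_lit 5) (nat_lit 26) (nat_lit 5) (nat_lit 24) (nat_lit 5) (nat_lit 288) (nat_lit 270) (nat_lit 162)) (XT.nd (nat_lit 78)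 (nat_lit 76) (nat_lit 0) (XT.lf (nat_lit 0) (nat_lit 37273655245) (nat_lit 152) (nat_lit 54980767069) (nat_lit 228) (nat_lit 5326675969) (nat_lit 21) (nat_lit 5) (nat_lit 23) (nat_lit 5) (nat_lit 24) (nat_lit 5) (nat_lit 289) (nat_lit 270) (nat_lit 161)) (XT.lf (nat_lit 0) (nat_lit 8335900894) (nat_lit 228) (nat_lit 18140096138) (nat_lit 76) (nat_lit 76355909613) (nat_lit 20) (nat_lit 5) (nat_lit 23) (nat_lit 5) (nat_lit 21) (nat_lit 5) (nat_lit 290) (nat_lit 270) (nat_lit 160)))) (XT.nd (nat_lit 156) (nat_lit 152) (nat_lit 0) (XT.nd (nat_lit 78) (nat_lit 0) (nat_lit 0) (XT.lf (nat_lit 0) (nat_lit 23617950614) (nat_lit 228) (nat_lit 79865414584) (nat_lit 76) (nat_lit 4943209690) (nat_lit 18) (nat_lit 5) (nat_lit 21) (nat_lit 5) (nat_lit 19) (nat_lit 5) (nat_lit 291) (nat_lit 270) (nat_lit 159)) (XT.lf (nat_lit 0) (nat_lit 41318104057) (nat_lit 228) (nat_lit 35101056726) (nat_lit 76)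 (nat_lit 37954015655) (nat_lit 18) (nat_lit 5) (nat_lit 21) (nat_lit 5) (nat_lit 19) (nat_lit 5) (nat_lit 292) (nat_lit 270) (nat_lit 158))) (XT.nd (nat_lit 78) (nat_lit 0) (nat_lit 0) (XT.lf (nat_lit 0) (nat_lit 13940408764) (nat_lit 152) (nat_lit 46828189732) (nat_lit 228) (nat_lit 60000164127) (nat_lit 16) (nat_lit 5) (nat_lit 18) (nat_lit 5) (nat_lit 19) (nat_lit 5) (nat_lit 293) (nat_lit 270) (nat_lit 157)) (XT.lf (nat_lit 0) (nat_lit 68900058351) (nat_lit 152) (nat_lit 13833897561) (nat_lit 228) (nat_lit 44865336513) (nat_lit 16) (nat_lit 5) (nat_lit 18) (nat_lit 5) (nat_lit 19) (nat_lit 5) (nat_lit 294) (nat_lit 270) (nat_lit 156))))))))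
noncomputable def xc99 : XT := (XT.nd (nat_lit 2028) (nat_lit 228) (nat_lit 0) (XT.nd (nat_lit 1014) (nat_lit 228) (nat_lit 0) (XT.nd (nat_lit 468) (nat_lit 304) (nat_lit 0) (XT.nd (nat_lit 234) (nat_lit 152) (nat_lit 0) (XT.nd (nat_lit 78) (nat_lit 152) (nat_lit 0) (XT.lf (nat_lit 0) (nat_lit 106979985837) (nat_lit 228) (nat_lit 7245393200) (nat_lit 76) (nat_lit 20709012466) (nat_lit 16) (nat_lit 5) (nat_lit 19) (nat_lit 5) (nat_lit 17) (nat_lit 4) (nat_lit 295) (nat_lit 270) (nat_lit 155)) (XT.nd (nat_lit 78) (nat_lit 76) (nat_lit 0) (XT.lf (nat_lit 0) (nat_lit 50489921567) (nat_lit 76) (nat_lit 84248599915) (nat_lit 152) (nat_lit 7991953389) (nat_lit 15) (nat_lit 5) (nat_lit 16) (nat_lit 5) (nat_lit 17) (nat_lit 4) (nat_lit 296) (nat_lit 270) (nat_lit 154)) (XT.lf (nat_lit 0) (nat_lit 13091266699) (nat_lit 152) (nat_lit 38210960891) (nat_lit 76) (nat_lit 99805717524) (nat_lit 14)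 (nat_lit 5) (nat_lit 16) (nat_lit 5) (nat_lit 15) (nat_lit 5) (nat_lit 297) (nat_lit 270) (nat_lit 153)))) (XT.nd (nat_lit 78) (nat_lit 0) (nat_lit 0) (XT.lf (nat_lit 0) (nat_lit 20981871785) (nat_lit 152) (nat_lit 14951396737) (nat_lit 228) (nat_lit 124165427792) (nat_lit 12) (nat_lit 5) (nat_lit 14) (nat_lit 5) (nat_lit 15) (nat_lit 5) (nat_lit 298) (nat_lit 270) (nat_lit 152)) (XT.nd (nat_lit 78) (nat_lit 0) (nat_lit 0) (XT.lf (nat_lit 0) (nat_lit 62258417235) (nat_lit 228) (nat_lit 83254797349) (nat_lit 76) (nat_lit 24163031723) (nat_lit 12) (nat_lit 5) (nat_lit 15) (nat_lit 5) (nat_lit 13) (nat_lit 4) (nat_lit 299) (nat_lit 270) (nat_lit 151)) (XT.lf (nat_lit 0) (nat_lit 91077276627) (nat_lit 228) (nat_lit 23313230010) (nat_lit 76) (nat_lit 65598479276) (nat_lit 12) (nat_lit 5) (nat_lit 15) (nat_lit 5) (nat_lit 13) (nat_lit 4) (nat_lit 300) (nat_lit 270) (nat_lit 150))))) (XT.nd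 (nat_lit 234) (nat_lit 228) (nat_lit 0) (XT.nd (nat_lit 78) (nat_lit 0) (nat_lit 0) (XT.lf (nat_lit 0) (nat_lit 43603912528) (nat_lit 76) (nat_lit 79645806290) (nat_lit 152) (nat_lit 67793181350) (nat_lit 11) (nat_lit 5) (nat_lit 12) (nat_lit 5) (nat_lit 13) (nat_lit 4) (nat_lit 301) (nat_lit 270) (nat_lit 149)) (XT.nd (nat_lit 78) (nat_lit 0) (nat_lit 0) (XT.lf (nat_lit 0) (nat_lit 117199301205) (nat_lit 76) (nat_lit 41433500318) (nat_lit 152) (nat_lit 44297379727) (nat_lit 11) (nat_lit 5) (nat_lit 12) (nat_lit 5) (nat_lit 13) (nat_lit 4) (nat_lit 302) (nat_lit 270) (nat_lit 148)) (XT.lf (nat_lit 0) (nat_lit 196681423466) (nat_lit 76) (nat_lit 164570451) (nat_lit 152) (nat_lit 18922495062) (nat_lit 11) (nat_lit 5) (nat_lit 12) (nat_lit 5) (nat_lit 13) (nat_lit 4) (nat_lit 303) (nat_lit 270) (nat_lit 147)))) (XT.nd (nat_lit 156) (nat_lit 76) (nat_lit 0) (XT.nd (nat_lit 78) (nat_lit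 0) (nat_lit 0) (XT.lf (nat_lit 0) (nat_lit 10499198772) (nat_lit 152) (nat_lit 175161170419) (nat_lit 76) (nat_lit 43761881735) (nat_lit 9) (nat_lit 5) (nat_lit 11) (nat_lit 5) (nat_lit 10) (nat_lit 4) (nat_lit 304) (nat_lit 270) (nat_lit 146)) (XT.lf (nat_lit 0) (nat_lit 41791524143) (nat_lit 152) (nat_lit 110074179853) (nat_lit 76) (nat_lit 92220155138) (nat_lit 9) (nat_lit 5) (nat_lit 11) (nat_lit 5) (nat_lit 10) (nat_lit 4) (nat_lit 305) (nat_lit 270) (nat_lit 145))) (XT.nd (nat_lit 78) (nat_lit 76) (nat_lit 0) (XT.lf (nat_lit 0) (nat_lit 75586771032) (nat_lit 152) (nat_lit 39781035031) (nat_lit 76) (nat_lit 144554787980) (nat_lit 9) (nat_lit 5) (nat_lit 11) (nat_lit 5) (nat_lit 10) (nat_lit 4) (nat_lit 306) (nat_lit 270) (nat_lit 144)) (XT.lf (nat_lit 0) (nat_lit 38037611391) (nat_lit 76) (nat_lit 74962401648) (nat_lit 152) (nat_lit 163953105497) (nat_lit 8) (nat_lit 5) (nat_lit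 9) (nat_lit 5) (nat_lit 10) (nat_lit 4) (nat_lit 307) (nat_lit 270) (nat_lit 143)))))) (XT.nd (nat_lit 468) (nat_lit 76) (nat_lit 0) (XT.nd (nat_lit 234) (nat_lit 152) (nat_lit 0) (XT.nd (nat_lit 78) (nat_lit 0) (nat_lit 0) (XT.lf (nat_lit 0) (nat_lit 124343405749) (nat_lit 76) (nat_lit 30150176939) (nat_lit 152) (nat_lit 140765521595) (nat_lit 8) (nat_lit 5) (nat_lit 9) (nat_lit 5) (nat_lit 10) (nat_lit 4) (nat_lit 308) (nat_lit 270) (nat_lit 142)) (XT.nd (nat_lit 78) (nat_lit 0) (nat_lit 0) (XT.lf (nat_lit 0) (nat_lit 199745087475) (nat_lit 152) (nat_lit 97915443894) (nat_lit 0) (nat_lit 17333962258) (nat_lit 8) (nat_lit 5) (nat_lit 10) (nat_lit 4) (nat_lit 8) (nat_lit 4) (nat_lit 309) (nat_lit 270) (nat_lit 141)) (XT.lf (nat_lit 0) (nat_lit 249399471308) (nat_lit 152) (nat_lit 19858935965) (nat_lit 0) (nat_lit 66987686803) (nat_lit 8) (nat_lit 5) (nat_lit 10) (nat_lit 4) (nat_lit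 8) (nat_lit 4) (nat_lit 310) (nat_lit 270) (nat_lit 140)))) (XT.nd (nat_lit 78) (nat_lit 76) (nat_lit 0) (XT.lf (nat_lit 0) (nat_lit 67834869734) (nat_lit 76) (nat_lit 236822430420) (nat_lit 76) (nat_lit 54410035465) (nat_lit 7) (nat_lit 4) (nat_lit 8) (nat_lit 5) (nat_lit 8) (nat_lit 4) (nat_lit 311) (nat_lit 270) (nat_lit 139)) (XT.nd (nat_lit 78) (nat_lit 76) (nat_lit 0) (XT.lf (nat_lit 0) (nat_lit 163672992528) (nat_lit 76) (nat_lit 201205416213) (nat_lit 76) (nat_lit 18792456026) (nat_lit 7) (nat_lit 4) (nat_lit 8) (nat_lit 5) (nat_lit 8) (nat_lit 4) (nat_lit 312) (nat_lit 270) (nat_lit 138)) (XT.lf (nat_lit 0) (nat_lit 18690020807) (nat_lit 152) (nat_lit 143538240269) (nat_lit 76) (nat_lit 247976586559) (nat_lit 6) (nat_lit 5) (nat_lit 8) (nat_lit 5) (nat_lit 7) (nat_lit 4) (nat_lit 313) (nat_lit 270) (nat_lit 137))))) (XT.nd (nat_lit 234) (nat_lit 0) (nat_lit 0) (XT.nd (nat_lit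 78) (nat_lit 76) (nat_lit 0) (XT.lf (nat_lit 0) (nat_lit 58155528660) (nat_lit 152) (nat_lit 61450468531) (nat_lit 76) (nat_lit 319216526036) (nat_lit 6) (nat_lit 5) (nat_lit 8) (nat_lit 5) (nat_lit 7) (nat_lit 4) (nat_lit 314) (nat_lit 270) (nat_lit 136)) (XT.nd (nat_lit 78) (nat_lit 0) (nat_lit 0) (XT.lf (nat_lit 0) (nat_lit 28636354477) (nat_lit 76) (nat_lit 72830362504) (nat_lit 152) (nat_lit 368207821108) (nat_lit 5) (nat_lit 5) (nat_lit 6) (nat_lit 5) (nat_lit 7) (nat_lit 4) (nat_lit 315) (nat_lit 270) (nat_lit 135)) (XT.lf (nat_lit 0) (nat_lit 129424401098) (nat_lit 76) (nat_lit 20498307269) (nat_lit 152) (nat_lit 352937613513) (nat_lit 5) (nat_lit 5) (nat_lit 6) (nat_lit 5) (nat_lit 7) (nat_lit 4) (nat_lit 316) (nat_lit 270) (nat_lit 134)))) (XT.nd (nat_lit 156) (nat_lit 0) (nat_lit 0) (XT.nd (nat_lit 78) (nat_lit 0) (nat_lit 0) (XT.lf (nat_lit 0) (nat_lit 203121226115) (nat_lit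 152) (nat_lit 301292211429) (nat_lit 0) (nat_lit 34218247416) (nat_lit 5) (nat_lit 5) (nat_lit 7) (nat_lit 4) (nat_lit 5) (nat_lit 4) (nat_lit 317) (nat_lit 270) (nat_lit 133)) (XT.lf (nat_lit 0) (nat_lit 261107824469) (nat_lit 152) (nat_lit 223909841046) (nat_lit 0) (nat_lit 92204515963) (nat_lit 5) (nat_lit 5) (nat_lit 7) (nat_lit 4) (nat_lit 5) (nat_lit 4) (nat_lit 318) (nat_lit 270) (nat_lit 132))) (XT.nd (nat_lit 78) (nat_lit 0) (nat_lit 0) (XT.lf (nat_lit 0) (nat_lit 323733142933) (nat_lit 152) (nat_lit 140337262655) (nat_lit 0) (nat_lit 154829529050) (nat_lit 5) (nat_lit 5) (nat_lit 7) (nat_lit 4) (nat_lit 5) (nat_lit 4) (nat_lit 319) (nat_lit 270) (nat_lit 131)) (XT.lf (nat_lit 0) (nat_lit 391368294507) (nat_lit 152) (nat_lit 50079231347) (nat_lit 0) (nat_lit 222464397866) (nat_lit 5) (nat_lit 5) (nat_lit 7) (nat_lit 4) (nat_lit 5) (nat_lit 4) (nat_lit 320) (nat_lit 270) (nat_lit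 130))))))) (XT.nd (nat_lit 1014) (nat_lit 0) (nat_lit 0) (XT.nd (nat_lit 468) (nat_lit 152) (nat_lit 0) (XT.nd (nat_lit 234) (nat_lit 0) (nat_lit 0) (XT.nd (nat_lit 78) (nat_lit 0) (nat_lit 0) (XT.lf (nat_lit 0) (nat_lit 49895068697) (nat_lit 76) (nat_lit 415718988992) (nat_lit 76) (nat_lit 246814830540) (nat_lit 4) (nat_lit 4) (nat_lit 5) (nat_lit 5) (nat_lit 5) (nat_lit 4) (nat_lit 321) (nat_lit 270) (nat_lit 129)) (XT.nd (nat_lit 78) (nat_lit 0) (nat_lit 0) (XT.lf (nat_lit 0) (nat_lit 160715044109) (nat_lit 76) (nat_lit 386453520155) (nat_lit 76) (nat_lit 217549119285) (nat_lit 4) (nat_lit 4) (nat_lit 5) (nat_lit 5) (nat_lit 5) (nat_lit 4) (nat_lit 322) (nat_lit 270) (nat_lit 128)) (XT.lf (nat_lit 0) (nat_lit 280400322279) (nat_lit 76) (nat_lit 354846949277) (nat_lit 76) (nat_lit 185942323945) (nat_lit 4) (nat_lit 4) (nat_lit 5) (nat_lit 5) (nat_lit 5) (nat_lit 4) (nat_lit 323) (nat_lit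 270) (nat_lit 127)))) (XT.nd (nat_lit 78) (nat_lit 0) (nat_lit 0) (XT.lf (nat_lit 0) (nat_lit 409660149300) (nat_lit 76) (nat_lit 320711978159) (nat_lit 76) (nat_lit 151807144993) (nat_lit 4) (nat_lit 4) (nat_lit 5) (nat_lit 5) (nat_lit 5) (nat_lit 4) (nat_lit 324) (nat_lit 270) (nat_lit 126)) (XT.nd (nat_lit 78) (nat_lit 0) (nat_lit 0) (XT.lf (nat_lit 0) (nat_lit 549260509332) (nat_lit 76) (nat_lit 283846325492) (nat_lit 76) (nat_lit 114941299886) (nat_lit 4) (nat_lit 4) (nat_lit 5) (nat_lit 5) (nat_lit 5) (nat_lit 4) (nat_lit 325) (nat_lit 270) (nat_lit 125)) (XT.lf (nat_lit 0) (nat_lit 700028663768) (nat_lit 76) (nat_lit 244031528148) (nat_lit 76) (nat_lit 75126324358) (nat_lit 4) (nat_lit 4) (nat_lit 5) (nat_lit 5) (nat_lit 5) (nat_lit 4) (nat_lit 326) (nat_lit 270) (nat_lit 124))))) (XT.nd (nat_lit 234) (nat_lit 76) (nat_lit 0) (XT.nd (nat_lit 78) (nat_lit 76) (nat_lit 0) (XT.lf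 (nat_lit 0) (nat_lit 862858053522) (nat_lit 76) (nat_lit 201031646588) (nat_lit 76) (nat_lit 32126277811) (nat_lit 4) (nat_lit 4) (nat_lit 5) (nat_lit 5) (nat_lit 5) (nat_lit 4) (nat_lit 327) (nat_lit 270) (nat_lit 123)) (XT.nd (nat_lit 78) (nat_lit 0) (nat_lit 0) (XT.lf (nat_lit 0) (nat_lit 13597627856) (nat_lit 152) (nat_lit 140622455599) (nat_lit 76) (nat_lit 1024744182399) (nat_lit 3) (nat_lit 5) (nat_lit 5) (nat_lit 5) (nat_lit 4) (nat_lit 4) (nat_lit 328) (nat_lit 270) (nat_lit 122)) (XT.lf (nat_lit 0) (nat_lit 61243689072) (nat_lit 152) (nat_lit 41518789718) (nat_lit 76) (nat_lit 1165719190534) (nat_lit 3) (nat_lit 5) (nat_lit 5) (nat_lit 5) (nat_lit 4) (nat_lit 4) (nat_lit 329) (nat_lit 270) (nat_lit 121)))) (XT.nd (nat_lit 156) (nat_lit 0) (nat_lit 0) (XT.nd (nat_lit 78) (nat_lit 0) (nat_lit 0) (XT.lf (nat_lit 0) (nat_lit 68962790036) (nat_lit 76) (nat_lit 45397106115) (nat_lit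 152) (nat_lit 1250667892162) (nat_lit 2) (nat_lit 5) (nat_lit 3) (nat_lit 5) (nat_lit 4) (nat_lit 4) (nat_lit 330) (nat_lit 270) (nat_lit 120)) (XT.lf (nat_lit 0) (nat_lit 173288196135) (nat_lit 152) (nat_lit 1278990546913) (nat_lit 0) (nat_lit 16893830180) (nat_lit 2) (nat_lit 5) (nat_lit 4) (nat_lit 4) (nat_lit 2) (nat_lit 4) (nat_lit 331) (nat_lit 270) (nat_lit 119))) (XT.nd (nat_lit 78) (nat_lit 0) (nat_lit 0) (XT.lf (nat_lit 0) (nat_lit 238109817967) (nat_lit 152) (nat_lit 1261729450398) (nat_lit 0) (nat_lit 81715348044) (nat_lit 2) (nat_lit 5) (nat_lit 4) (nat_lit 4) (nat_lit 2) (nat_lit 4) (nat_lit 332) (nat_lit 270) (nat_lit 118)) (XT.lf (nat_lit 0) (nat_lit 308117088285) (nat_lit 152) (nat_lit 1243087619260) (nat_lit 0) (nat_lit 151722522094) (nat_lit 2) (nat_lit 5) (nat_lit 4) (nat_lit 4) (nat_lit 2) (nat_lit 4) (nat_lit 333) (nat_lit 270) (nat_lit 117)))))) (XT.nd (nat_lit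 32838) (nat_lit 0) (nat_lit 2432) (XT.nd (nat_lit 234) (nat_lit 0) (nat_lit 0) (XT.nd (nat_lit 78) (nat_lit 0) (nat_lit 0) (XT.lf (nat_lit 0) (nat_lit 383724864988) (nat_lit 152) (nat_lit 1222954583389) (nat_lit 0) (nat_lit 227330209660) (nat_lit 2) (nat_lit 5) (nat_lit 4) (nat_lit 4) (nat_lit 2) (nat_lit 4) (nat_lit 334) (nat_lit 270) (nat_lit 116)) (XT.nd (nat_lit 78) (nat_lit 0) (nat_lit 0) (XT.lf (nat_lit 0) (nat_lit 465381194158) (nat_lit 152) (nat_lit 1201211035906) (nat_lit 0) (nat_lit 308986456296) (nat_lit 2) (nat_lit 5) (nat_lit 4) (nat_lit 4) (nat_lit 2) (nat_lit 4) (nat_lit 335) (nat_lit 270) (nat_lit 115)) (XT.lf (nat_lit 0) (nat_lit 553569965154) (nat_lit 152) (nat_lit 1177728126158) (nat_lit 0) (nat_lit 397175150872) (nat_lit 2) (nat_lit 5) (nat_lit 4) (nat_lit 4) (nat_lit 2) (nat_lit 4) (nat_lit 336) (nat_lit 270) (nat_lit 114)))) (XT.nd (nat_lit 32448) (nat_lit 0) (nat_lit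 2660) (XT.nd (nat_lit 32370) (nat_lit 0) (nat_lit 2660) (XT.lf (nat_lit 0) (nat_lit 648813778101) (nat_lit 152) (nat_lit 1152366696163) (nat_lit 0) (nat_lit 492418893060) (nat_lit 2) (nat_lit 5) (nat_lit 4) (nat_lit 4) (nat_lit 2) (nat_lit 4) (nat_lit 337) (nat_lit 270) (nat_lit 113)) (XT.lf (nat_lit 0) (nat_lit 9350163908) (nat_lit 532) (nat_lit 6466792853) (nat_lit 532) (nat_lit 6466792853) (nat_lit 37) (nat_lit 3) (nat_lit 44) (nat_lit 3) (nat_lit 44) (nat_lit 5) (nat_lit 271) (nat_lit 271) (nat_lit 178))) (XT.nd (nat_lit 78) (nat_lit 0) (nat_lit 76) (XT.lf (nat_lit 76) (nat_lit 6747178384) (nat_lit 0) (nat_lit 12892992641) (nat_lit 532) (nat_lit 26694540600) (nat_lit 38) (nat_lit 5) (nat_lit 37) (nat_lit 3) (nat_lit 44) (nat_lit 5) (nat_lit 272) (nat_lit 271) (nat_lit 177)) (XT.lf (nat_lit 0) (nat_lit 21191747780) (nat_lit 456) (nat_lit 19664922280) (nat_lit 532) (nat_lit 7343721389)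 (nat_lit 38) (nat_lit 5) (nat_lit 44) (nat_lit 5) (nat_lit 45) (nat_lit 5) (nat_lit 273) (nat_lit 271) (nat_lit 176))))) (XT.nd (nat_lit 234) (nat_lit 304) (nat_lit 0) (XT.nd (nat_lit 78) (nat_lit 0) (nat_lit 0) (XT.lf (nat_lit 76) (nat_lit 1594552830) (nat_lit 0) (nat_lit 21643382984) (nat_lit 532) (nat_lit 26947764113) (nat_lit 39) (nat_lit 5) (nat_lit 38) (nat_lit 5) (nat_lit 45) (nat_lit 5) (nat_lit 274) (nat_lit 271) (nat_lit 175)) (XT.nd (nat_lit 78) (nat_lit 0) (nat_lit 76) (XT.lf (nat_lit 76) (nat_lit 25671365986) (nat_lit 0) (nat_lit 311540530) (nat_lit 532) (nat_lit 26304131664) (nat_lit 39) (nat_lit 5) (nat_lit 38) (nat_lit 5) (nat_lit 45) (nat_lit 5) (nat_lit 275) (nat_lit 271) (nat_lit 174)) (XT.lf (nat_lit 0) (nat_lit 29491679438) (nat_lit 456) (nat_lit 3430610828) (nat_lit 532) (nat_lit 21590668074) (nat_lit 39) (nat_lit 5) (nat_lit 45) (nat_lit 5) (nat_lit 46) (nat_lit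 5) (nat_lit 276) (nat_lit 271) (nat_lit 173)))) (XT.nd (nat_lit 156) (nat_lit 380) (nat_lit 0) (XT.nd (nat_lit 78) (nat_lit 0) (nat_lit 76) (XT.lf (nat_lit 76) (nat_lit 22736819567) (nat_lit 0) (nat_lit 11097046987) (nat_lit 532) (nat_lit 23038878950) (nat_lit 40) (nat_lit 5) (nat_lit 39) (nat_lit 5) (nat_lit 46) (nat_lit 5) (nat_lit 277) (nat_lit 271) (nat_lit 172)) (XT.lf (nat_lit 0) (nat_lit 38917600297) (nat_lit 456) (nat_lit 8525380115) (nat_lit 76) (nat_lit 11946811111) (nat_lit 40) (nat_lit 5) (nat_lit 46) (nat_lit 5) (nat_lit 41) (nat_lit 5) (nat_lit 278) (nat_lit 271) (nat_lit 171))) (XT.nd (nat_lit 78) (nat_lit 0) (nat_lit 0) (XT.lf (nat_lit 0) (nat_lit 19836333753) (nat_lit 456) (nat_lit 25335082672) (nat_lit 532) (nat_lit 16875723001) (nat_lit 34) (nat_lit 5) (nat_lit 40) (nat_lit 5) (nat_lit 41) (nat_lit 5) (nat_lit 279) (nat_lit 271) (nat_lit 170)) (XT.lf (nat_lit 0) (nat_lit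 50950140176) (nat_lit 456) (nat_lit 1206682308) (nat_lit 532) (nat_lit 12741758149) (nat_lit 34) (nat_lit 5) (nat_lit 40) (nat_lit 5) (nat_lit 41) (nat_lit 5) (nat_lit 280) (nat_lit 271) (nat_lit 169))))))))
noncomputable def xc100 : XT := (XT.nd (nat_lit 2028) (nat_lit 532) (nat_lit 0) (XT.nd (nat_lit 1014) (nat_lit 684) (nat_lit 0) (XT.nd (nat_lit 468) (nat_lit 532) (nat_lit 0) (XT.nd (nat_lit 234) (nat_lit 228) (nat_lit 0) (XT.nd (nat_lit 78) (nat_lit 228) (nat_lit 0) (XT.lf (nat_lit 0) (nat_lit 16816755176) (nat_lit 228) (nat_lit 43884762970) (nat_lit 304) (nat_lit 7196590050) (nat_lit 31) (nat_lit 5) (nat_lit 34) (nat_lit 5) (nat_lit 35) (nat_lit 5) (nat_lit 281) (nat_lit 271) (nat_lit 168)) (XT.nd (nat_lit 78) (nat_lit 228) (nat_lit 0) (XT.lf (nat_lit 0) (nat_lit 50801767046) (nat_lit 228) (nat_lit 19538353362) (nat_lit 304) (nat_lit 764658146) (nat_lit 31) (nat_lit 5) (nat_lit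 34) (nat_lit 5) (nat_lit 35) (nat_lit 5) (nat_lit 282) (nat_lit 271) (nat_lit 167)) (XT.lf (nat_lit 0) (nat_lit 6369541577) (nat_lit 228) (nat_lit 61244410821) (nat_lit 76) (nat_lit 6902386081) (nat_lit 28) (nat_lit 5) (nat_lit 31) (nat_lit 5) (nat_lit 29) (nat_lit 5) (nat_lit 283) (nat_lit 271) (nat_lit 166)))) (XT.nd (nat_lit 78) (nat_lit 228) (nat_lit 0) (XT.lf (nat_lit 0) (nat_lit 15108745954) (nat_lit 228) (nat_lit 28012376919) (nat_lit 76) (nat_lit 34992070629) (nat_lit 28) (nat_lit 5) (nat_lit 31) (nat_lit 5) (nat_lit 29) (nat_lit 5) (nat_lit 284) (nat_lit 271) (nat_lit 165)) (XT.nd (nat_lit 78) (nat_lit 0) (nat_lit 0) (XT.lf (nat_lit 0) (nat_lit 8291410068) (nat_lit 228) (nat_lit 16453743883) (nat_lit 304) (nat_lit 57236802786) (nat_lit 25) (nat_lit 5) (nat_lit 28) (nat_lit 5) (nat_lit 29) (nat_lit 5) (nat_lit 285) (nat_lit 271) (nat_lit 164)) (XT.lf (nat_lit 0) (nat_lit 36233937316)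 (nat_lit 304) (nat_lit 37324840064) (nat_lit 76) (nat_lit 12514931441) (nat_lit 25) (nat_lit 5) (nat_lit 29) (nat_lit 5) (nat_lit 26) (nat_lit 5) (nat_lit 286) (nat_lit 271) (nat_lit 163))))) (XT.nd (nat_lit 234) (nat_lit 380) (nat_lit 0) (XT.nd (nat_lit 78) (nat_lit 0) (nat_lit 0) (XT.lf (nat_lit 0) (nat_lit 1601339693) (nat_lit 152) (nat_lit 47505175817) (nat_lit 228) (nat_lit 41349114641) (nat_lit 23) (nat_lit 5) (nat_lit 25) (nat_lit 5) (nat_lit 26) (nat_lit 5) (nat_lit 287) (nat_lit 271) (nat_lit 162)) (XT.nd (nat_lit 78) (nat_lit 0) (nat_lit 0) (XT.lf (nat_lit 0) (nat_lit 45762830111) (nat_lit 152) (nat_lit 18265459603) (nat_lit 228) (nat_lit 31078268418) (nat_lit 23) (nat_lit 5) (nat_lit 25) (nat_lit 5) (nat_lit 26) (nat_lit 5) (nat_lit 288) (nat_lit 271) (nat_lit 161)) (XT.lf (nat_lit 0) (nat_lit 80462933363) (nat_lit 228) (nat_lit 6993960219) (nat_lit 76) (nat_lit 12647140382)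 (nat_lit 23) (nat_lit 5) (nat_lit 26) (nat_lit 5) (nat_lit 24) (nat_lit 5) (nat_lit 289) (nat_lit 271) (nat_lit 160)))) (XT.nd (nat_lit 156) (nat_lit 152) (nat_lit 0) (XT.nd (nat_lit 78) (nat_lit 76) (nat_lit 0) (XT.lf (nat_lit 0) (nat_lit 40283143753) (nat_lit 152) (nat_lit 59371460538) (nat_lit 228) (nat_lit 5731326645) (nat_lit 21) (nat_lit 5) (nat_lit 23) (nat_lit 5) (nat_lit 24) (nat_lit 5) (nat_lit 290) (nat_lit 271) (nat_lit 159)) (XT.lf (nat_lit 0) (nat_lit 9021669923) (nat_lit 228) (nat_lit 19564697698) (nat_lit 76) (nat_lit 82470520683) (nat_lit 20) (nat_lit 5) (nat_lit 23) (nat_lit 5) (nat_lit 21) (nat_lit 5) (nat_lit 291) (nat_lit 271) (nat_lit 158))) (XT.nd (nat_lit 78) (nat_lit 0) (nat_lit 0) (XT.lf (nat_lit 0) (nat_lit 25525695396) (nat_lit 228) (nat_lit 86227398658) (nat_lit 76) (nat_lit 5346087389) (nat_lit 18) (nat_lit 5) (nat_lit 21) (nat_lit 5) (nat_lit 19) (nat_lit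 5) (nat_lit 292) (nat_lit 271) (nat_lit 157)) (XT.lf (nat_lit 0) (nat_lit 44640504913) (nat_lit 228) (nat_lit 37883910623) (nat_lit 76) (nat_lit 40997208133) (nat_lit 18) (nat_lit 5) (nat_lit 21) (nat_lit 5) (nat_lit 19) (nat_lit 5) (nat_lit 293) (nat_lit 271) (nat_lit 156)))))) (XT.nd (nat_lit 468) (nat_lit 228) (nat_lit 0) (XT.nd (nat_lit 234) (nat_lit 304) (nat_lit 0) (XT.nd (nat_lit 78) (nat_lit 0) (nat_lit 0) (XT.lf (nat_lit 0) (nat_lit 15080233356) (nat_lit 152) (nat_lit 50566141242) (nat_lit 228) (nat_lit 64782539048) (nat_lit 16) (nat_lit 5) (nat_lit 18) (nat_lit 5) (nat_lit 19) (nat_lit 5) (nat_lit 294) (nat_lit 271) (nat_lit 155)) (XT.nd (nat_lit 78) (nat_lit 0) (nat_lit 0) (XT.lf (nat_lit 0) (nat_lit 74434833289) (nat_lit 152) (nat_lit 14932920785) (nat_lit 228) (nat_lit 48438231758) (nat_lit 16) (nat_lit 5) (nat_lit 18) (nat_lit 5) (nat_lit 19) (nat_lit 5) (nat_lit 295)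 (nat_lit 271) (nat_lit 154)) (XT.lf (nat_lit 0) (nat_lit 115552520444) (nat_lit 228) (nat_lit 7802954891) (nat_lit 76) (nat_lit 22372496396) (nat_lit 16) (nat_lit 5) (nat_lit 19) (nat_lit 5) (nat_lit 17) (nat_lit 4) (nat_lit 296) (nat_lit 271) (nat_lit 153)))) (XT.nd (nat_lit 78) (nat_lit 228) (nat_lit 0) (XT.lf (nat_lit 0) (nat_lit 54550626329) (nat_lit 76) (nat_lit 90980582860) (nat_lit 152) (nat_lit 8616577939) (nat_lit 15) (nat_lit 5) (nat_lit 16) (nat_lit 5) (nat_lit 17) (nat_lit 4) (nat_lit 297) (nat_lit 271) (nat_lit 152)) (XT.nd (nat_lit 78) (nat_lit 152) (nat_lit 0) (XT.lf (nat_lit 0) (nat_lit 14151526165) (nat_lit 152) (nat_lit 41247205845) (nat_lit 76) (nat_lit 107796780124) (nat_lit 14) (nat_lit 5) (nat_lit 16) (nat_lit 5) (nat_lit 15) (nat_lit 5) (nat_lit 298) (nat_lit 271) (nat_lit 151)) (XT.lf (nat_lit 0) (nat_lit 22680531118) (nat_lit 152) (nat_lit 16139880790) (nat_lit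 228) (nat_lit 134085151985) (nat_lit 12) (nat_lit 5) (nat_lit 14) (nat_lit 5) (nat_lit 15) (nat_lit 5) (nat_lit 299) (nat_lit 271) (nat_lit 150))))) (XT.nd (nat_lit 234) (nat_lit 152) (nat_lit 0) (XT.nd (nat_lit 78) (nat_lit 76) (nat_lit 0) (XT.lf (nat_lit 0) (nat_lit 67250817791) (nat_lit 228) (nat_lit 89895779036) (nat_lit 76) (nat_lit 26102783629) (nat_lit 12) (nat_lit 5) (nat_lit 15) (nat_lit 5) (nat_lit 13) (nat_lit 4) (nat_lit 300) (nat_lit 271) (nat_lit 149)) (XT.nd (nat_lit 78) (nat_lit 76) (nat_lit 0) (XT.lf (nat_lit 0) (nat_lit 98374317254) (nat_lit 228) (nat_lit 25160323502) (nat_lit 76) (nat_lit 70852569997) (nat_lit 12) (nat_lit 5) (nat_lit 15) (nat_lit 5) (nat_lit 13) (nat_lit 4) (nat_lit 301) (nat_lit 271) (nat_lit 148)) (XT.lf (nat_lit 0) (nat_lit 47109735631) (nat_lit 76) (nat_lit 86010435974) (nat_lit 152) (nat_lit 73205299077) (nat_lit 11) (nat_lit 5) (nat_lit 12)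 (nat_lit 5) (nat_lit 13) (nat_lit 4) (nat_lit 302) (nat_lit 271) (nat_lit 147)))) (XT.nd (nat_lit 156) (nat_lit 152) (nat_lit 0) (XT.nd (nat_lit 78) (nat_lit 0) (nat_lit 0) (XT.lf (nat_lit 0) (nat_lit 126591458359) (nat_lit 76) (nat_lit 44741666622) (nat_lit 152) (nat_lit 47830673086) (nat_lit 11) (nat_lit 5) (nat_lit 12) (nat_lit 5) (nat_lit 13) (nat_lit 4) (nat_lit 303) (nat_lit 271) (nat_lit 146)) (XT.lf (nat_lit 0) (nat_lit 212430949433) (nat_lit 76) (nat_lit 171704863) (nat_lit 152) (nat_lit 20426575204) (nat_lit 11) (nat_lit 5) (nat_lit 12) (nat_lit 5) (nat_lit 13) (nat_lit 4) (nat_lit 304) (nat_lit 271) (nat_lit 145))) (XT.nd (nat_lit 78) (nat_lit 0) (nat_lit 0) (XT.lf (nat_lit 0) (nat_lit 11348197095) (nat_lit 152) (nat_lit 189158359031) (nat_lit 76) (nat_lit 47268732625) (nat_lit 9) (nat_lit 5) (nat_lit 11) (nat_lit 5) (nat_lit 10) (nat_lit 4) (nat_lit 305) (nat_lit 271) (nat_lit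 144)) (XT.lf (nat_lit 0) (nat_lit 45143237205) (nat_lit 152) (nat_lit 118865572555) (nat_lit 76) (nat_lit 99603230837) (nat_lit 9) (nat_lit 5) (nat_lit 11) (nat_lit 5) (nat_lit 10) (nat_lit 4) (nat_lit 306) (nat_lit 271) (nat_lit 143))))))) (XT.nd (nat_lit 1014) (nat_lit 228) (nat_lit 0) (XT.nd (nat_lit 468) (nat_lit 152) (nat_lit 0) (XT.nd (nat_lit 234) (nat_lit 76) (nat_lit 0) (XT.nd (nat_lit 78) (nat_lit 76) (nat_lit 0) (XT.lf (nat_lit 0) (nat_lit 81641482281) (nat_lit 152) (nat_lit 42950053309) (nat_lit 76) (nat_lit 156124229619) (nat_lit 9) (nat_lit 5) (nat_lit 11) (nat_lit 5) (nat_lit 10) (nat_lit 4) (nat_lit 307) (nat_lit 271) (nat_lit 142)) (XT.nd (nat_lit 78) (nat_lit 0) (nat_lit 0) (XT.lf (nat_lit 0) (nat_lit 41093743953) (nat_lit 76) (nat_lit 80953779795) (nat_lit 152) (nat_lit 177061229799) (nat_lit 8) (nat_lit 5) (nat_lit 9) (nat_lit 5) (nat_lit 10) (nat_lit 4) (nat_lit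 308) (nat_lit 271) (nat_lit 141)) (XT.lf (nat_lit 0) (nat_lit 134303029738) (nat_lit 76) (nat_lit 32556992960) (nat_lit 152) (nat_lit 152019240973) (nat_lit 8) (nat_lit 5) (nat_lit 9) (nat_lit 5) (nat_lit 10) (nat_lit 4) (nat_lit 309) (nat_lit 271) (nat_lit 140)))) (XT.nd (nat_lit 78) (nat_lit 76) (nat_lit 0) (XT.lf (nat_lit 0) (nat_lit 215731248557) (nat_lit 152) (nat_lit 105737016935) (nat_lit 0) (nat_lit 18725251555) (nat_lit 8) (nat_lit 5) (nat_lit 10) (nat_lit 4) (nat_lit 8) (nat_lit 4) (nat_lit 310) (nat_lit 271) (nat_lit 139)) (XT.nd (nat_lit 78) (nat_lit 76) (nat_lit 0) (XT.lf (nat_lit 0) (nat_lit 269357497608) (nat_lit 152) (nat_lit 21436852259) (nat_lit 0) (nat_lit 72350935374) (nat_lit 8) (nat_lit 5) (nat_lit 10) (nat_lit 4) (nat_lit 8) (nat_lit 4) (nat_lit 311) (nat_lit 271) (nat_lit 138)) (XT.lf (nat_lit 0) (nat_lit 73272184514) (nat_lit 76) (nat_lit 255763571853) (nat_lit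 76) (nat_lit 58756486256) (nat_lit 7) (nat_lit 4) (nat_lit 8) (nat_lit 5) (nat_lit 8) (nat_lit 4) (nat_lit 312) (nat_lit 271) (nat_lit 137))))) (XT.nd (nat_lit 234) (nat_lit 76) (nat_lit 0) (XT.nd (nat_lit 78) (nat_lit 76) (nat_lit 0) (XT.lf (nat_lit 0) (nat_lit 176776577487) (nat_lit 76) (nat_lit 217297541176) (nat_lit 76) (nat_lit 20289970984) (nat_lit 7) (nat_lit 4) (nat_lit 8) (nat_lit 5) (nat_lit 8) (nat_lit 4) (nat_lit 313) (nat_lit 271) (nat_lit 136)) (XT.nd (nat_lit 78) (nat_lit 0) (nat_lit 0) (XT.lf (nat_lit 0) (nat_lit 20190395904) (nat_lit 152) (nat_lit 155011995410) (nat_lit 76) (nat_lit 267818422265) (nat_lit 6) (nat_lit 5) (nat_lit 8) (nat_lit 5) (nat_lit 7) (nat_lit 4) (nat_lit 314) (nat_lit 271) (nat_lit 135)) (XT.lf (nat_lit 0) (nat_lit 62812761168) (nat_lit 152) (nat_lit 66357891124) (nat_lit 76) (nat_lit 344757282176) (nat_lit 6) (nat_lit 5) (nat_lit 8) (nat_lit 5)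 (nat_lit 7) (nat_lit 4) (nat_lit 315) (nat_lit 271) (nat_lit 134)))) (XT.nd (nat_lit 156) (nat_lit 0) (nat_lit 0) (XT.nd (nat_lit 78) (nat_lit 0) (nat_lit 0) (XT.lf (nat_lit 0) (nat_lit 30935659626) (nat_lit 76) (nat_lit 78653032040) (nat_lit 152) (nat_lit 397659431632) (nat_lit 5) (nat_lit 5) (nat_lit 6) (nat_lit 5) (nat_lit 7) (nat_lit 4) (nat_lit 316) (nat_lit 271) (nat_lit 133)) (XT.lf (nat_lit 0) (nat_lit 139786127992) (nat_lit 76) (nat_lit 22134690866) (nat_lit 152) (nat_lit 381167978922) (nat_lit 5) (nat_lit 5) (nat_lit 6) (nat_lit 5) (nat_lit 7) (nat_lit 4) (nat_lit 317) (nat_lit 271) (nat_lit 132))) (XT.nd (nat_lit 78) (nat_lit 0) (nat_lit 0) (XT.lf (nat_lit 0) (nat_lit 219374977481) (nat_lit 152) (nat_lit 325388143030) (nat_lit 0) (nat_lit 36958769110) (nat_lit 5) (nat_lit 5) (nat_lit 7) (nat_lit 4) (nat_lit 5) (nat_lit 4) (nat_lit 318) (nat_lit 271) (nat_lit 131)) (XT.lf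 (nat_lit 0) (nat_lit 282000203461) (nat_lit 152) (nat_lit 241815734521) (nat_lit 0) (nat_lit 99583712333) (nat_lit 5) (nat_lit 5) (nat_lit 7) (nat_lit 4) (nat_lit 5) (nat_lit 4) (nat_lit 319) (nat_lit 271) (nat_lit 130)))))) (XT.nd (nat_lit 546) (nat_lit 152) (nat_lit 0) (XT.nd (nat_lit 234) (nat_lit 0) (nat_lit 0) (XT.nd (nat_lit 78) (nat_lit 76) (nat_lit 0) (XT.lf (nat_lit 0) (nat_lit 349635269400) (nat_lit 152) (nat_lit 151557860511) (nat_lit 0) (nat_lit 167218516460) (nat_lit 5) (nat_lit 5) (nat_lit 7) (nat_lit 4) (nat_lit 5) (nat_lit 4) (nat_lit 320) (nat_lit 271) (nat_lit 129)) (XT.nd (nat_lit 78) (nat_lit 76) (nat_lit 0) (XT.lf (nat_lit 0) (nat_lit 422680975689) (nat_lit 152) (nat_lit 54079659525) (nat_lit 0) (nat_lit 240263980331) (nat_lit 5) (nat_lit 5) (nat_lit 7) (nat_lit 4) (nat_lit 5) (nat_lit 4) (nat_lit 321) (nat_lit 271) (nat_lit 128)) (XT.lf (nat_lit 0) (nat_lit 53892434894)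 (nat_lit 76) (nat_lit 448973865234) (nat_lit 76) (nat_lit 266556645414) (nat_lit 4) (nat_lit 4) (nat_lit 5) (nat_lit 5) (nat_lit 5) (nat_lit 4) (nat_lit 322) (nat_lit 271) (nat_lit 127)))) (XT.nd (nat_lit 156) (nat_lit 0) (nat_lit 0) (XT.nd (nat_lit 78) (nat_lit 0) (nat_lit 0) (XT.lf (nat_lit 0) (nat_lit 173577581621) (nat_lit 76) (nat_lit 417367354659) (nat_lit 76) (nat_lit 234949927005) (nat_lit 4) (nat_lit 4) (nat_lit 5) (nat_lit 5) (nat_lit 5) (nat_lit 4) (nat_lit 323) (nat_lit 271) (nat_lit 126)) (XT.lf (nat_lit 0) (nat_lit 302837286935) (nat_lit 76) (nat_lit 383232439378) (nat_lit 76) (nat_lit 200814819284) (nat_lit 4) (nat_lit 4) (nat_lit 5) (nat_lit 5) (nat_lit 5) (nat_lit 4) (nat_lit 324) (nat_lit 271) (nat_lit 125))) (XT.nd (nat_lit 78) (nat_lit 0) (nat_lit 0) (XT.lf (nat_lit 0) (nat_lit 442437534275) (nat_lit 76) (nat_lit 346366838411) (nat_lit 76) (nat_lit 163949040132)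 (nat_lit 4) (nat_lit 4) (nat_lit 5) (nat_lit 5) (nat_lit 5) (nat_lit 4) (nat_lit 325) (nat_lit 271) (nat_lit 124)) (XT.lf (nat_lit 0) (nat_lit 593205584366) (nat_lit 76) (nat_lit 306552088938) (nat_lit 76) (nat_lit 124134125673) (nat_lit 4) (nat_lit 4) (nat_lit 5) (nat_lit 5) (nat_lit 5) (nat_lit 4) (nat_lit 326) (nat_lit 271) (nat_lit 123))))) (XT.nd (nat_lit 234) (nat_lit 76) (nat_lit 0) (XT.nd (nat_lit 78) (nat_lit 76) (nat_lit 0) (XT.lf (nat_lit 0) (nat_lit 756034877506) (nat_lit 76) (nat_lit 263552251702) (nat_lit 76) (nat_lit 81134135673) (nat_lit 4) (nat_lit 4) (nat_lit 5) (nat_lit 5) (nat_lit 5) (nat_lit 4) (nat_lit 327) (nat_lit 271) (nat_lit 122)) (XT.nd (nat_lit 78) (nat_lit 76) (nat_lit 0) (XT.lf (nat_lit 0) (nat_lit 931890328023) (nat_lit 76) (nat_lit 217112512854) (nat_lit 76) (nat_lit 34694255376) (nat_lit 4) (nat_lit 4) (nat_lit 5) (nat_lit 5) (nat_lit 5) (nat_lit 4)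 (nat_lit 328) (nat_lit 271) (nat_lit 121)) (XT.lf (nat_lit 0) (nat_lit 14687306952) (nat_lit 152) (nat_lit 151868789988) (nat_lit 76) (nat_lit 1106725158340) (nat_lit 3) (nat_lit 5) (nat_lit 5) (nat_lit 5) (nat_lit 4) (nat_lit 4) (nat_lit 329) (nat_lit 271) (nat_lit 120)))) (XT.nd (nat_lit 156) (nat_lit 0) (nat_lit 0) (XT.nd (nat_lit 78) (nat_lit 76) (nat_lit 0) (XT.lf (nat_lit 0) (nat_lit 66144914630) (nat_lit 152) (nat_lit 44837087286) (nat_lit 76) (nat_lit 1258978060359) (nat_lit 3) (nat_lit 5) (nat_lit 5) (nat_lit 5) (nat_lit 4) (nat_lit 4) (nat_lit 330) (nat_lit 271) (nat_lit 119)) (XT.lf (nat_lit 0) (nat_lit 74482937694) (nat_lit 76) (nat_lit 49027427545) (nat_lit 152) (nat_lit 1350719509949) (nat_lit 2) (nat_lit 5) (nat_lit 3) (nat_lit 5) (nat_lit 4) (nat_lit 4) (nat_lit 331) (nat_lit 271) (nat_lit 118))) (XT.nd (nat_lit 78) (nat_lit 0) (nat_lit 0) (XT.lf (nat_lit 0) (nat_lit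 187152837193) (nat_lit 152) (nat_lit 1381306803772) (nat_lit 0) (nat_lit 18246609439) (nat_lit 2) (nat_lit 5) (nat_lit 4) (nat_lit 4) (nat_lit 2) (nat_lit 4) (nat_lit 332) (nat_lit 271) (nat_lit 117)) (XT.lf (nat_lit 0) (nat_lit 257160071337) (nat_lit 152) (nat_lit 1362665040788) (nat_lit 0) (nat_lit 88253754447) (nat_lit 2) (nat_lit 5) (nat_lit 4) (nat_lit 4) (nat_lit 2) (nat_lit 4) (nat_lit 333) (nat_lit 271) (nat_lit 116))))))))
noncomputable def xc101 : XT := (XT.nd (nat_lit 34476) (nat_lit 0) (nat_lit 228) (XT.nd (nat_lit 33462) (nat_lit 0) (nat_lit 1216) (XT.nd (nat_lit 32916) (nat_lit 0) (nat_lit 2432) (XT.nd (nat_lit 32682) (nat_lit 0) (nat_lit 2660) (XT.nd (nat_lit 78) (nat_lit 0) (nat_lit 0) (XT.lf (nat_lit 0) (nat_lit 332767814545) (nat_lit 152) (nat_lit 1342532068021) (nat_lit 0) (nat_lit 163861415121) (nat_lit 2) (nat_lit 5) (nat_lit 4) (nat_lit 4) (nat_lit 2) (nat_lit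 4) (nat_lit 334) (nat_lit 271) (nat_lit 115)) (XT.nd (nat_lit 78) (nat_lit 0) (nat_lit 0) (XT.lf (nat_lit 0) (nat_lit 414424112703) (nat_lit 152) (nat_lit 1320788578968) (nat_lit 0) (nat_lit 245517636858) (nat_lit 2) (nat_lit 5) (nat_lit 4) (nat_lit 4) (nat_lit 2) (nat_lit 4) (nat_lit 335) (nat_lit 271) (nat_lit 114)) (XT.lf (nat_lit 0) (nat_lit 502612854983) (nat_lit 152) (nat_lit 1297305723322) (nat_lit 0) (nat_lit 333706308378) (nat_lit 2) (nat_lit 5) (nat_lit 4) (nat_lit 4) (nat_lit 2) (nat_lit 4) (nat_lit 336) (nat_lit 271) (nat_lit 113)))) (XT.nd (nat_lit 78) (nat_lit 0) (nat_lit 0) (XT.lf (nat_lit 0) (nat_lit 10127026389) (nat_lit 532) (nat_lit 6968488737) (nat_lit 532) (nat_lit 6968488737) (nat_lit 37) (nat_lit 3) (nat_lit 44) (nat_lit 3) (nat_lit 44) (nat_lit 5) (nat_lit 272) (nat_lit 272) (nat_lit 176)) (XT.nd (nat_lit 78) (nat_lit 0) (nat_lit 76) (XT.lf (nat_lit 76) (nat_lit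 7317455461) (nat_lit 0) (nat_lit 13948087595) (nat_lit 532) (nat_lit 28771357703) (nat_lit 38) (nat_lit 5) (nat_lit 37) (nat_lit 3) (nat_lit 44) (nat_lit 5) (nat_lit 273) (nat_lit 272) (nat_lit 175)) (XT.lf (nat_lit 0) (nat_lit 22936707448) (nat_lit 456) (nat_lit 21205097989) (nat_lit 532) (nat_lit 7910411511) (nat_lit 38) (nat_lit 5) (nat_lit 44) (nat_lit 5) (nat_lit 45) (nat_lit 5) (nat_lit 274) (nat_lit 272) (nat_lit 174))))) (XT.nd (nat_lit 234) (nat_lit 304) (nat_lit 0) (XT.nd (nat_lit 78) (nat_lit 0) (nat_lit 0) (XT.lf (nat_lit 76) (nat_lit 1754299229) (nat_lit 0) (nat_lit 23389389733) (nat_lit 532) (nat_lit 29052910764) (nat_lit 39) (nat_lit 5) (nat_lit 38) (nat_lit 5) (nat_lit 45) (nat_lit 5) (nat_lit 275) (nat_lit 272) (nat_lit 173)) (XT.nd (nat_lit 78) (nat_lit 0) (nat_lit 76) (XT.lf (nat_lit 76) (nat_lit 27754873573) (nat_lit 0) (nat_lit 349923134) (nat_lit 532) (nat_lit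 28361541385) (nat_lit 39) (nat_lit 5) (nat_lit 38) (nat_lit 5) (nat_lit 45) (nat_lit 5) (nat_lit 276) (nat_lit 272) (nat_lit 172)) (XT.lf (nat_lit 0) (nat_lit 31890767470) (nat_lit 456) (nat_lit 3673777149) (nat_lit 532) (nat_lit 23306082567) (nat_lit 39) (nat_lit 5) (nat_lit 45) (nat_lit 5) (nat_lit 46) (nat_lit 5) (nat_lit 277) (nat_lit 272) (nat_lit 171)))) (XT.nd (nat_lit 156) (nat_lit 380) (nat_lit 0) (XT.nd (nat_lit 78) (nat_lit 0) (nat_lit 76) (XT.lf (nat_lit 76) (nat_lit 24586255714) (nat_lit 0) (nat_lit 11991862424) (nat_lit 532) (nat_lit 24841269990) (nat_lit 40) (nat_lit 5) (nat_lit 39) (nat_lit 5) (nat_lit 46) (nat_lit 5) (nat_lit 278) (nat_lit 272) (nat_lit 170)) (XT.lf (nat_lit 0) (nat_lit 42065612641) (nat_lit 456) (nat_lit 9176079791) (nat_lit 76) (nat_lit 12896353292) (nat_lit 40) (nat_lit 5) (nat_lit 46) (nat_lit 5) (nat_lit 41) (nat_lit 5) (nat_lit 279) (nat_lit 272)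 (nat_lit 169))) (XT.nd (nat_lit 78) (nat_lit 0) (nat_lit 0) (XT.lf (nat_lit 0) (nat_lit 21453778003) (nat_lit 456) (nat_lit 27364127203) (nat_lit 532) (nat_lit 18190234472) (nat_lit 34) (nat_lit 5) (nat_lit 40) (nat_lit 5) (nat_lit 41) (nat_lit 5) (nat_lit 280) (nat_lit 272) (nat_lit 168)) (XT.lf (nat_lit 0) (nat_lit 55054426899) (nat_lit 456) (nat_lit 1305289038) (nat_lit 532) (nat_lit 13728185496) (nat_lit 34) (nat_lit 5) (nat_lit 40) (nat_lit 5) (nat_lit 41) (nat_lit 5) (nat_lit 281) (nat_lit 272) (nat_lit 167)))))) (XT.nd (nat_lit 468) (nat_lit 532) (nat_lit 0) (XT.nd (nat_lit 234) (nat_lit 228) (nat_lit 0) (XT.nd (nat_lit 78) (nat_lit 228) (nat_lit 0) (XT.lf (nat_lit 0) (nat_lit 18192204534) (nat_lit 228) (nat_lit 47394212721) (nat_lit 304) (nat_lit 7741109756) (nat_lit 31) (nat_lit 5) (nat_lit 34) (nat_lit 5) (nat_lit 35) (nat_lit 5) (nat_lit 282) (nat_lit 272) (nat_lit 166))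 (XT.nd (nat_lit 78) (nat_lit 228) (nat_lit 0) (XT.lf (nat_lit 0) (nat_lit 54893787062) (nat_lit 228) (nat_lit 21100188957) (nat_lit 304) (nat_lit 796934967) (nat_lit 31) (nat_lit 5) (nat_lit 34) (nat_lit 5) (nat_lit 35) (nat_lit 5) (nat_lit 283) (nat_lit 272) (nat_lit 165)) (XT.lf (nat_lit 0) (nat_lit 6905273930) (nat_lit 228) (nat_lit 66113147495) (nat_lit 76) (nat_lit 7457029295) (nat_lit 28) (nat_lit 5) (nat_lit 31) (nat_lit 5) (nat_lit 29) (nat_lit 5) (nat_lit 284) (nat_lit 272) (nat_lit 164)))) (XT.nd (nat_lit 78) (nat_lit 228) (nat_lit 0) (XT.lf (nat_lit 0) (nat_lit 16341676210) (nat_lit 228) (nat_lit 30224833561) (nat_lit 76) (nat_lit 37793706954) (nat_lit 28) (nat_lit 5) (nat_lit 31) (nat_lit 5) (nat_lit 29) (nat_lit 5) (nat_lit 285) (nat_lit 272) (nat_lit 163)) (XT.nd (nat_lit 78) (nat_lit 0) (nat_lit 0) (XT.lf (nat_lit 0) (nat_lit 8982534017) (nat_lit 228) (nat_lit 17765336831)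 (nat_lit 304) (nat_lit 61790707200) (nat_lit 25) (nat_lit 5) (nat_lit 28) (nat_lit 5) (nat_lit 29) (nat_lit 5) (nat_lit 286) (nat_lit 272) (nat_lit 162)) (XT.lf (nat_lit 0) (nat_lit 39154150240) (nat_lit 304) (nat_lit 40283389141) (nat_lit 76) (nat_lit 13520265883) (nat_lit 25) (nat_lit 5) (nat_lit 29) (nat_lit 5) (nat_lit 26) (nat_lit 5) (nat_lit 287) (nat_lit 272) (nat_lit 161))))) (XT.nd (nat_lit 234) (nat_lit 380) (nat_lit 0) (XT.nd (nat_lit 78) (nat_lit 0) (nat_lit 0) (XT.lf (nat_lit 0) (nat_lit 1756190360) (nat_lit 152) (nat_lit 51299395071) (nat_lit 228) (nat_lit 44634776768) (nat_lit 23) (nat_lit 5) (nat_lit 25) (nat_lit 5) (nat_lit 26) (nat_lit 5) (nat_lit 288) (nat_lit 272) (nat_lit 160)) (XT.nd (nat_lit 78) (nat_lit 0) (nat_lit 0) (XT.lf (nat_lit 0) (nat_lit 49448619012) (nat_lit 152) (nat_lit 19720960434) (nat_lit 228) (nat_lit 33543912257) (nat_lit 23) (nat_lit 5) (nat_lit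 25) (nat_lit 5) (nat_lit 26) (nat_lit 5) (nat_lit 289) (nat_lit 272) (nat_lit 159)) (XT.lf (nat_lit 0) (nat_lit 86917712945) (nat_lit 228) (nat_lit 7529203314) (nat_lit 76) (nat_lit 13663956985) (nat_lit 23) (nat_lit 5) (nat_lit 26) (nat_lit 5) (nat_lit 24) (nat_lit 5) (nat_lit 290) (nat_lit 272) (nat_lit 158)))) (XT.nd (nat_lit 156) (nat_lit 152) (nat_lit 0) (XT.nd (nat_lit 78) (nat_lit 76) (nat_lit 0) (XT.lf (nat_lit 0) (nat_lit 43529454452) (nat_lit 152) (nat_lit 64114517661) (nat_lit 228) (nat_lit 6171414223) (nat_lit 21) (nat_lit 5) (nat_lit 23) (nat_lit 5) (nat_lit 24) (nat_lit 5) (nat_lit 291) (nat_lit 272) (nat_lit 157)) (XT.lf (nat_lit 0) (nat_lit 9759604613) (nat_lit 228) (nat_lit 21107063045) (nat_lit 76) (nat_lit 89073424941) (nat_lit 20) (nat_lit 5) (nat_lit 23) (nat_lit 5) (nat_lit 21) (nat_lit 5) (nat_lit 292) (nat_lit 272) (nat_lit 156))) (XT.nd (nat_lit 78) (nat_lit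 0) (nat_lit 0) (XT.lf (nat_lit 0) (nat_lit 27583447815) (nat_lit 228) (nat_lit 93102228845) (nat_lit 76) (nat_lit 5780136626) (nat_lit 18) (nat_lit 5) (nat_lit 21) (nat_lit 5) (nat_lit 19) (nat_lit 5) (nat_lit 293) (nat_lit 272) (nat_lit 155)) (XT.lf (nat_lit 0) (nat_lit 48226279368) (nat_lit 228) (nat_lit 40892992264) (nat_lit 76) (nat_lit 44282875753) (nat_lit 18) (nat_lit 5) (nat_lit 21) (nat_lit 5) (nat_lit 19) (nat_lit 5) (nat_lit 294) (nat_lit 272) (nat_lit 154))))))) (XT.nd (nat_lit 1014) (nat_lit 304) (nat_lit 0) (XT.nd (nat_lit 468) (nat_lit 228) (nat_lit 0) (XT.nd (nat_lit 234) (nat_lit 304) (nat_lit 0) (XT.nd (nat_lit 78) (nat_lit 0) (nat_lit 0) (XT.lf (nat_lit 0) (nat_lit 16307735607) (nat_lit 152) (nat_lit 54604313485) (nat_lit 228) (nat_lit 69950020250) (nat_lit 16) (nat_lit 5) (nat_lit 18) (nat_lit 5) (nat_lit 19) (nat_lit 5) (nat_lit 295) (nat_lit 272) (nat_lit 153))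 (XT.nd (nat_lit 78) (nat_lit 0) (nat_lit 0) (XT.lf (nat_lit 0) (nat_lit 80409141788) (nat_lit 152) (nat_lit 16120962728) (nat_lit 228) (nat_lit 52299288520) (nat_lit 16) (nat_lit 5) (nat_lit 18) (nat_lit 5) (nat_lit 19) (nat_lit 5) (nat_lit 296) (nat_lit 272) (nat_lit 152)) (XT.lf (nat_lit 0) (nat_lit 124808841198) (nat_lit 228) (nat_lit 8408270016) (nat_lit 76) (nat_lit 24168094233) (nat_lit 16) (nat_lit 5) (nat_lit 19) (nat_lit 5) (nat_lit 17) (nat_lit 4) (nat_lit 297) (nat_lit 272) (nat_lit 151)))) (XT.nd (nat_lit 78) (nat_lit 228) (nat_lit 0) (XT.lf (nat_lit 0) (nat_lit 58933118683) (nat_lit 76) (nat_lit 98252252184) (nat_lit 152) (nat_lit 9293274097) (nat_lit 15) (nat_lit 5) (nat_lit 16) (nat_lit 5) (nat_lit 17) (nat_lit 4) (nat_lit 298) (nat_lit 272) (nat_lit 150)) (XT.nd (nat_lit 78) (nat_lit 152) (nat_lit 0) (XT.lf (nat_lit 0) (nat_lit 15294757767) (nat_lit 152) (nat_lit 44529293768)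 (nat_lit 76) (nat_lit 116426185427) (nat_lit 14) (nat_lit 5) (nat_lit 16) (nat_lit 5) (nat_lit 15) (nat_lit 5) (nat_lit 299) (nat_lit 272) (nat_lit 149)) (XT.lf (nat_lit 0) (nat_lit 24512214340) (nat_lit 152) (nat_lit 17424531743) (nat_lit 228) (nat_lit 144800381471) (nat_lit 12) (nat_lit 5) (nat_lit 14) (nat_lit 5) (nat_lit 15) (nat_lit 5) (nat_lit 300) (nat_lit 272) (nat_lit 148))))) (XT.nd (nat_lit 234) (nat_lit 152) (nat_lit 0) (XT.nd (nat_lit 78) (nat_lit 76) (nat_lit 0) (XT.lf (nat_lit 0) (nat_lit 72640937378) (nat_lit 228) (nat_lit 97070807183) (nat_lit 76) (nat_lit 28196758522) (nat_lit 12) (nat_lit 5) (nat_lit 15) (nat_lit 5) (nat_lit 13) (nat_lit 4) (nat_lit 301) (nat_lit 272) (nat_lit 147)) (XT.nd (nat_lit 78) (nat_lit 76) (nat_lit 0) (XT.lf (nat_lit 0) (nat_lit 106253572046) (nat_lit 228) (nat_lit 27157747368) (nat_lit 76) (nat_lit 76526101710) (nat_lit 12) (nat_lit 5) (nat_lit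 15) (nat_lit 5) (nat_lit 13) (nat_lit 4) (nat_lit 302) (nat_lit 272) (nat_lit 146)) (XT.lf (nat_lit 0) (nat_lit 50893526571) (nat_lit 76) (nat_lit 92885239629) (nat_lit 152) (nat_lit 79052003541) (nat_lit 11) (nat_lit 5) (nat_lit 12) (nat_lit 5) (nat_lit 13) (nat_lit 4) (nat_lit 303) (nat_lit 272) (nat_lit 145)))) (XT.nd (nat_lit 156) (nat_lit 152) (nat_lit 0) (XT.nd (nat_lit 78) (nat_lit 0) (nat_lit 0) (XT.lf (nat_lit 0) (nat_lit 136732675110) (nat_lit 76) (nat_lit 48315415486) (nat_lit 152) (nat_lit 51648127431) (nat_lit 11) (nat_lit 5) (nat_lit 12) (nat_lit 5) (nat_lit 13) (nat_lit 4) (nat_lit 304) (nat_lit 272) (nat_lit 144)) (XT.lf (nat_lit 0) (nat_lit 229438295834) (nat_lit 76) (nat_lit 180270450) (nat_lit 152) (nat_lit 22052368348) (nat_lit 11) (nat_lit 5) (nat_lit 12) (nat_lit 5) (nat_lit 13) (nat_lit 4) (nat_lit 305) (nat_lit 272) (nat_lit 143))) (XT.nd (nat_lit 78) (nat_lit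 0) (nat_lit 0) (XT.lf (nat_lit 0) (nat_lit 12263822429) (nat_lit 152) (nat_lit 204277563228) (nat_lit 76) (nat_lit 51055289835) (nat_lit 9) (nat_lit 5) (nat_lit 11) (nat_lit 5) (nat_lit 10) (nat_lit 4) (nat_lit 306) (nat_lit 272) (nat_lit 142)) (XT.lf (nat_lit 0) (nat_lit 48761890224) (nat_lit 152) (nat_lit 128362351206) (nat_lit 76) (nat_lit 107576173193) (nat_lit 9) (nat_lit 5) (nat_lit 11) (nat_lit 5) (nat_lit 10) (nat_lit 4) (nat_lit 307) (nat_lit 272) (nat_lit 141)))))) (XT.nd (nat_lit 546) (nat_lit 152) (nat_lit 0) (XT.nd (nat_lit 234) (nat_lit 76) (nat_lit 0) (XT.nd (nat_lit 78) (nat_lit 76) (nat_lit 0) (XT.lf (nat_lit 0) (nat_lit 88179462014) (nat_lit 152) (nat_lit 46374513913) (nat_lit 76) (nat_lit 168618504923) (nat_lit 9) (nat_lit 5) (nat_lit 11) (nat_lit 5) (nat_lit 10) (nat_lit 4) (nat_lit 308) (nat_lit 272) (nat_lit 140)) (XT.nd (nat_lit 78) (nat_lit 0) (nat_lit 0) (XT.lf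 (nat_lit 0) (nat_lit 44392494885) (nat_lit 76) (nat_lit 87425269092) (nat_lit 152) (nat_lit 191219163044) (nat_lit 8) (nat_lit 5) (nat_lit 9) (nat_lit 5) (nat_lit 10) (nat_lit 4) (nat_lit 309) (nat_lit 272) (nat_lit 139)) (XT.lf (nat_lit 0) (nat_lit 145057690094) (nat_lit 76) (nat_lit 35157095835) (nat_lit 152) (nat_lit 164174331049) (nat_lit 8) (nat_lit 5) (nat_lit 9) (nat_lit 5) (nat_lit 10) (nat_lit 4) (nat_lit 310) (nat_lit 272) (nat_lit 138)))) (XT.nd (nat_lit 156) (nat_lit 76) (nat_lit 0) (XT.nd (nat_lit 78) (nat_lit 0) (nat_lit 0) (XT.lf (nat_lit 0) (nat_lit 232995367512) (nat_lit 152) (nat_lit 114185979602) (nat_lit 0) (nat_lit 20227191704) (nat_lit 8) (nat_lit 5) (nat_lit 10) (nat_lit 4) (nat_lit 8) (nat_lit 4) (nat_lit 311) (nat_lit 272) (nat_lit 137)) (XT.lf (nat_lit 0) (nat_lit 290911300260) (nat_lit 152) (nat_lit 23142542394) (nat_lit 0) (nat_lit 78142639857) (nat_lit 8)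 (nat_lit 5) (nat_lit 10) (nat_lit 4) (nat_lit 8) (nat_lit 4) (nat_lit 312) (nat_lit 272) (nat_lit 136))) (XT.nd (nat_lit 78) (nat_lit 0) (nat_lit 0) (XT.lf (nat_lit 0) (nat_lit 79142982940) (nat_lit 76) (nat_lit 276220668403) (nat_lit 76) (nat_lit 63451559301) (nat_lit 7) (nat_lit 4) (nat_lit 8) (nat_lit 5) (nat_lit 8) (nat_lit 4) (nat_lit 313) (nat_lit 272) (nat_lit 135)) (XT.lf (nat_lit 0) (nat_lit 190927058931) (nat_lit 76) (nat_lit 234677650769) (nat_lit 76) (nat_lit 21908126204) (nat_lit 7) (nat_lit 4) (nat_lit 8) (nat_lit 5) (nat_lit 8) (nat_lit 4) (nat_lit 314) (nat_lit 272) (nat_lit 134))))) (XT.nd (nat_lit 234) (nat_lit 0) (nat_lit 0) (XT.nd (nat_lit 78) (nat_lit 76) (nat_lit 0) (XT.lf (nat_lit 0) (nat_lit 21810062960) (nat_lit 152) (nat_lit 167404978293) (nat_lit 76) (nat_lit 289247075728) (nat_lit 6) (nat_lit 5) (nat_lit 8) (nat_lit 5) (nat_lit 7) (nat_lit 4) (nat_lit 315)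 (nat_lit 272) (nat_lit 133)) (XT.nd (nat_lit 78) (nat_lit 76) (nat_lit 0) (XT.lf (nat_lit 0) (nat_lit 67841888898) (nat_lit 152) (nat_lit 71659136535) (nat_lit 76) (nat_lit 372340808901) (nat_lit 6) (nat_lit 5) (nat_lit 8) (nat_lit 5) (nat_lit 7) (nat_lit 4) (nat_lit 316) (nat_lit 272) (nat_lit 132)) (XT.lf (nat_lit 0) (nat_lit 33417711291) (nat_lit 76) (nat_lit 84942051469) (nat_lit 152) (nat_lit 429467886466) (nat_lit 5) (nat_lit 5) (nat_lit 6) (nat_lit 5) (nat_lit 7) (nat_lit 4) (nat_lit 317) (nat_lit 272) (nat_lit 131)))) (XT.nd (nat_lit 156) (nat_lit 0) (nat_lit 0) (XT.nd (nat_lit 78) (nat_lit 0) (nat_lit 0) (XT.lf (nat_lit 0) (nat_lit 150975683875) (nat_lit 76) (nat_lit 23902481751) (nat_lit 152) (nat_lit 411657436035) (nat_lit 5) (nat_lit 5) (nat_lit 6) (nat_lit 5) (nat_lit 7) (nat_lit 4) (nat_lit 318) (nat_lit 272) (nat_lit 130)) (XT.lf (nat_lit 0) (nat_lit 236928450711) (nat_lit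 152) (nat_lit 351412811315) (nat_lit 0) (nat_lit 39918095724) (nat_lit 5) (nat_lit 5) (nat_lit 7) (nat_lit 4) (nat_lit 5) (nat_lit 4) (nat_lit 319) (nat_lit 272) (nat_lit 129))) (XT.nd (nat_lit 78) (nat_lit 0) (nat_lit 0) (XT.lf (nat_lit 0) (nat_lit 304563437360) (nat_lit 152) (nat_lit 261155082952) (nat_lit 0) (nat_lit 107552839954) (nat_lit 5) (nat_lit 5) (nat_lit 7) (nat_lit 4) (nat_lit 5) (nat_lit 4) (nat_lit 320) (nat_lit 272) (nat_lit 128)) (XT.lf (nat_lit 0) (nat_lit 377609070232) (nat_lit 152) (nat_lit 163677016824) (nat_lit 0) (nat_lit 180598248365) (nat_lit 5) (nat_lit 5) (nat_lit 7) (nat_lit 4) (nat_lit 5) (nat_lit 4) (nat_lit 321) (nat_lit 272) (nat_lit 127))))))))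
noncomputable def xc102 : XT := (XT.nd (nat_lit 34554) (nat_lit 0) (nat_lit 456) (XT.nd (nat_lit 1014) (nat_lit 0) (nat_lit 0) (XT.nd (nat_lit 468) (nat_lit 152) (nat_lit 0) (XT.nd (nat_lit 234) (nat_lit 0) (nat_lit 0) (XT.nd (nat_lit 78) (nat_lit 76) (nat_lit 0) (XT.lf (nat_lit 0) (nat_lit 456498212337) (nat_lit 152) (nat_lit 58400965131) (nat_lit 0) (nat_lit 259487182635) (nat_lit 5) (nat_lit 5) (nat_lit 7) (nat_lit 4) (nat_lit 5) (nat_lit 4) (nat_lit 322) (nat_lit 272) (nat_lit 126)) (XT.nd (nat_lit 78) (nat_lit 0) (nat_lit 0) (XT.lf (nat_lit 0) (nat_lit 58208768559) (nat_lit 76) (nat_lit 484889508612) (nat_lit 76) (nat_lit 287878286471) (nat_lit 4) (nat_lit 4) (nat_lit 5) (nat_lit 5) (nat_lit 5) (nat_lit 4) (nat_lit 323) (nat_lit 272) (nat_lit 125)) (XT.lf (nat_lit 0) (nat_lit 187468361181) (nat_lit 76) (nat_lit 450754645031) (nat_lit 76) (nat_lit 253743244705) (nat_lit 4) (nat_lit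 4) (nat_lit 5) (nat_lit 5) (nat_lit 5) (nat_lit 4) (nat_lit 324) (nat_lit 272) (nat_lit 124)))) (XT.nd (nat_lit 78) (nat_lit 0) (nat_lit 0) (XT.lf (nat_lit 0) (nat_lit 327068504177) (nat_lit 76) (nat_lit 413889091935) (nat_lit 76) (nat_lit 216877526623) (nat_lit 4) (nat_lit 4) (nat_lit 5) (nat_lit 5) (nat_lit 5) (nat_lit 4) (nat_lit 325) (nat_lit 272) (nat_lit 123)) (XT.nd (nat_lit 78) (nat_lit 0) (nat_lit 0) (XT.lf (nat_lit 0) (nat_lit 477836457654) (nat_lit 76) (nat_lit 374074386786) (nat_lit 76) (nat_lit 177062668710) (nat_lit 4) (nat_lit 4) (nat_lit 5) (nat_lit 5) (nat_lit 5) (nat_lit 4) (nat_lit 326) (nat_lit 272) (nat_lit 122)) (XT.lf (nat_lit 0) (nat_lit 640665661335) (nat_lit 76) (nat_lit 331074590592) (nat_lit 76) (nat_lit 134062731067) (nat_lit 4) (nat_lit 4) (nat_lit 5) (nat_lit 5) (nat_lit 5) (nat_lit 4) (nat_lit 327) (nat_lit 272) (nat_lit 121))))) (XT.nd (nat_lit 234)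 (nat_lit 76) (nat_lit 0) (XT.nd (nat_lit 78) (nat_lit 76) (nat_lit 0) (XT.lf (nat_lit 0) (nat_lit 816521029021) (nat_lit 76) (nat_lit 284634889745) (nat_lit 76) (nat_lit 87622899249) (nat_lit 4) (nat_lit 4) (nat_lit 5) (nat_lit 5) (nat_lit 5) (nat_lit 4) (nat_lit 328) (nat_lit 272) (nat_lit 120)) (XT.nd (nat_lit 78) (nat_lit 76) (nat_lit 0) (XT.lf (nat_lit 0) (nat_lit 1006444666593) (nat_lit 76) (nat_lit 234480086018) (nat_lit 76) (nat_lit 37467974252) (nat_lit 4) (nat_lit 4) (nat_lit 5) (nat_lit 5) (nat_lit 5) (nat_lit 4) (nat_lit 329) (nat_lit 272) (nat_lit 119)) (XT.lf (nat_lit 0) (nat_lit 15863893760) (nat_lit 152) (nat_lit 164015325030) (nat_lit 76) (nat_lit 1195264406732) (nat_lit 3) (nat_lit 5) (nat_lit 5) (nat_lit 5) (nat_lit 4) (nat_lit 4) (nat_lit 330) (nat_lit 272) (nat_lit 118)))) (XT.nd (nat_lit 156) (nat_lit 0) (nat_lit 0) (XT.nd (nat_lit 78) (nat_lit 76) (nat_lit 0) (XT.lf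 (nat_lit 0) (nat_lit 71437991367) (nat_lit 152) (nat_lit 48421305976) (nat_lit 76) (nat_lit 1359697449377) (nat_lit 3) (nat_lit 5) (nat_lit 5) (nat_lit 5) (nat_lit 4) (nat_lit 4) (nat_lit 331) (nat_lit 272) (nat_lit 117)) (XT.lf (nat_lit 0) (nat_lit 80444251426) (nat_lit 76) (nat_lit 52948381128) (nat_lit 152) (nat_lit 1458775515886) (nat_lit 2) (nat_lit 5) (nat_lit 3) (nat_lit 5) (nat_lit 4) (nat_lit 4) (nat_lit 332) (nat_lit 272) (nat_lit 116))) (XT.nd (nat_lit 78) (nat_lit 0) (nat_lit 0) (XT.lf (nat_lit 0) (nat_lit 202126423366) (nat_lit 152) (nat_lit 1491808787295) (nat_lit 0) (nat_lit 19707429453) (nat_lit 2) (nat_lit 5) (nat_lit 4) (nat_lit 4) (nat_lit 2) (nat_lit 4) (nat_lit 333) (nat_lit 272) (nat_lit 115)) (XT.lf (nat_lit 0) (nat_lit 277734135560) (nat_lit 152) (nat_lit 1471675872958) (nat_lit 0) (nat_lit 95315065228) (nat_lit 2) (nat_lit 5) (nat_lit 4) (nat_lit 4) (nat_lit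 2) (nat_lit 4) (nat_lit 334) (nat_lit 272) (nat_lit 114)))))) (XT.nd (nat_lit 32994) (nat_lit 0) (nat_lit 2204) (XT.nd (nat_lit 32760) (nat_lit 0) (nat_lit 2660) (XT.nd (nat_lit 78) (nat_lit 0) (nat_lit 0) (XT.lf (nat_lit 0) (nat_lit 359390405002) (nat_lit 152) (nat_lit 1449932438007) (nat_lit 0) (nat_lit 176971263909) (nat_lit 2) (nat_lit 5) (nat_lit 4) (nat_lit 4) (nat_lit 2) (nat_lit 4) (nat_lit 335) (nat_lit 272) (nat_lit 113)) (XT.nd (nat_lit 32604) (nat_lit 0) (nat_lit 2660) (XT.lf (nat_lit 0) (nat_lit 447579120693) (nat_lit 152) (nat_lit 1426449632456) (nat_lit 0) (nat_lit 265159914083) (nat_lit 2) (nat_lit 5) (nat_lit 4) (nat_lit 4) (nat_lit 2) (nat_lit 4) (nat_lit 336) (nat_lit 272) (nat_lit 112)) (XT.lf (nat_lit 0) (nat_lit 10961922183) (nat_lit 532) (nat_lit 7512552590) (nat_lit 532) (nat_lit 7512552590) (nat_lit 37) (nat_lit 3) (nat_lit 44) (nat_lit 3) (nat_lit 44) (nat_lit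 5) (nat_lit 273) (nat_lit 273) (nat_lit 174)))) (XT.nd (nat_lit 78) (nat_lit 0) (nat_lit 76) (XT.lf (nat_lit 76) (nat_lit 7929003137) (nat_lit 0) (nat_lit 15084215418) (nat_lit 532) (nat_lit 31022700968) (nat_lit 38) (nat_lit 5) (nat_lit 37) (nat_lit 3) (nat_lit 44) (nat_lit 5) (nat_lit 274) (nat_lit 273) (nat_lit 173)) (XT.nd (nat_lit 78) (nat_lit 0) (nat_lit 0) (XT.lf (nat_lit 0) (nat_lit 24814185063) (nat_lit 456) (nat_lit 22873198153) (nat_lit 532) (nat_lit 8525405277) (nat_lit 38) (nat_lit 5) (nat_lit 44) (nat_lit 5) (nat_lit 45) (nat_lit 5) (nat_lit 275) (nat_lit 273) (nat_lit 172)) (XT.lf (nat_lit 76) (nat_lit 1922234193) (nat_lit 0) (nat_lit 25273003283) (nat_lit 532) (nat_lit 31333698429) (nat_lit 39) (nat_lit 5) (nat_lit 38) (nat_lit 5) (nat_lit 45) (nat_lit 5) (nat_lit 276) (nat_lit 273) (nat_lit 171))))) (XT.nd (nat_lit 234) (nat_lit 532) (nat_lit 0) (XT.nd (nat_lit 78)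 (nat_lit 0) (nat_lit 76) (XT.lf (nat_lit 76) (nat_lit 30000810705) (nat_lit 0) (nat_lit 389456218) (nat_lit 532) (nat_lit 30590237662) (nat_lit 39) (nat_lit 5) (nat_lit 38) (nat_lit 5) (nat_lit 45) (nat_lit 5) (nat_lit 277) (nat_lit 273) (nat_lit 170)) (XT.nd (nat_lit 78) (nat_lit 0) (nat_lit 0) (XT.lf (nat_lit 0) (nat_lit 34476111238) (nat_lit 456) (nat_lit 3940859580) (nat_lit 532) (nat_lit 25160419178) (nat_lit 39) (nat_lit 5) (nat_lit 45) (nat_lit 5) (nat_lit 46) (nat_lit 5) (nat_lit 278) (nat_lit 273) (nat_lit 169)) (XT.lf (nat_lit 76) (nat_lit 26579296931) (nat_lit 0) (nat_lit 12957257095) (nat_lit 532) (nat_lit 26793661372) (nat_lit 40) (nat_lit 5) (nat_lit 39) (nat_lit 5) (nat_lit 46) (nat_lit 5) (nat_lit 279) (nat_lit 273) (nat_lit 168)))) (XT.nd (nat_lit 156) (nat_lit 228) (nat_lit 0) (XT.nd (nat_lit 78) (nat_lit 456) (nat_lit 0) (XT.lf (nat_lit 0) (nat_lit 45460529280) (nat_lit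 456) (nat_lit 9883305120) (nat_lit 76) (nat_lit 13922743733) (nat_lit 40) (nat_lit 5) (nat_lit 46) (nat_lit 5) (nat_lit 41) (nat_lit 5) (nat_lit 280) (nat_lit 273) (nat_lit 167)) (XT.lf (nat_lit 0) (nat_lit 23196261271) (nat_lit 456) (nat_lit 29555176032) (nat_lit 532) (nat_lit 19614977948) (nat_lit 34) (nat_lit 5) (nat_lit 40) (nat_lit 5) (nat_lit 41) (nat_lit 5) (nat_lit 281) (nat_lit 273) (nat_lit 166))) (XT.nd (nat_lit 78) (nat_lit 228) (nat_lit 0) (XT.lf (nat_lit 0) (nat_lit 59483022743) (nat_lit 456) (nat_lit 1411488691) (nat_lit 532) (nat_lit 14798222482) (nat_lit 34) (nat_lit 5) (nat_lit 40) (nat_lit 5) (nat_lit 41) (nat_lit 5) (nat_lit 282) (nat_lit 273) (nat_lit 165)) (XT.lf (nat_lit 0) (nat_lit 19673394464) (nat_lit 228) (nat_lit 51184608374) (nat_lit 304) (nat_lit 8333643138) (nat_lit 31) (nat_lit 5) (nat_lit 34) (nat_lit 5) (nat_lit 35) (nat_lit 5) (nat_lit 283) (nat_lit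 273) (nat_lit 164))))))) (XT.nd (nat_lit 1014) (nat_lit 608) (nat_lit 0) (XT.nd (nat_lit 468) (nat_lit 532) (nat_lit 0) (XT.nd (nat_lit 234) (nat_lit 380) (nat_lit 0) (XT.nd (nat_lit 78) (nat_lit 228) (nat_lit 0) (XT.lf (nat_lit 0) (nat_lit 59309191477) (nat_lit 228) (nat_lit 22787147255) (nat_lit 304) (nat_lit 835916247) (nat_lit 31) (nat_lit 5) (nat_lit 34) (nat_lit 5) (nat_lit 35) (nat_lit 5) (nat_lit 284) (nat_lit 273) (nat_lit 163)) (XT.nd (nat_lit 78) (nat_lit 0) (nat_lit 0) (XT.lf (nat_lit 0) (nat_lit 7480131567) (nat_lit 228) (nat_lit 71375779377) (nat_lit 76) (nat_lit 8055694115) (nat_lit 28) (nat_lit 5) (nat_lit 31) (nat_lit 5) (nat_lit 29) (nat_lit 5) (nat_lit 285) (nat_lit 273) (nat_lit 162)) (XT.lf (nat_lit 0) (nat_lit 17669784124) (nat_lit 228) (nat_lit 32618357360) (nat_lit 76) (nat_lit 40819150247) (nat_lit 28) (nat_lit 5) (nat_lit 31) (nat_lit 5) (nat_lit 29) (nat_lit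 5) (nat_lit 286) (nat_lit 273) (nat_lit 161)))) (XT.nd (nat_lit 78) (nat_lit 152) (nat_lit 0) (XT.lf (nat_lit 0) (nat_lit 9724980312) (nat_lit 228) (nat_lit 19182528659) (nat_lit 304) (nat_lit 66712496175) (nat_lit 25) (nat_lit 5) (nat_lit 28) (nat_lit 5) (nat_lit 29) (nat_lit 5) (nat_lit 287) (nat_lit 273) (nat_lit 160)) (XT.nd (nat_lit 78) (nat_lit 152) (nat_lit 0) (XT.lf (nat_lit 0) (nat_lit 42304913277) (nat_lit 304) (nat_lit 43482536500) (nat_lit 76) (nat_lit 14605436474) (nat_lit 25) (nat_lit 5) (nat_lit 29) (nat_lit 5) (nat_lit 26) (nat_lit 5) (nat_lit 288) (nat_lit 273) (nat_lit 159)) (XT.lf (nat_lit 0) (nat_lit 1919613823) (nat_lit 152) (nat_lit 55398035625) (nat_lit 228) (nat_lit 48186468508) (nat_lit 23) (nat_lit 5) (nat_lit 25) (nat_lit 5) (nat_lit 26) (nat_lit 5) (nat_lit 289) (nat_lit 273) (nat_lit 158))))) (XT.nd (nat_lit 234) (nat_lit 380) (nat_lit 0) (XT.nd (nat_lit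 78) (nat_lit 152) (nat_lit 0) (XT.lf (nat_lit 0) (nat_lit 53425738379) (nat_lit 152) (nat_lit 21293719628) (nat_lit 228) (nat_lit 36209748940) (nat_lit 23) (nat_lit 5) (nat_lit 25) (nat_lit 5) (nat_lit 26) (nat_lit 5) (nat_lit 290) (nat_lit 273) (nat_lit 157)) (XT.nd (nat_lit 78) (nat_lit 152) (nat_lit 0) (XT.lf (nat_lit 0) (nat_lit 93886343383) (nat_lit 228) (nat_lit 8110728774) (nat_lit 76) (nat_lit 14761399137) (nat_lit 23) (nat_lit 5) (nat_lit 26) (nat_lit 5) (nat_lit 24) (nat_lit 5) (nat_lit 291) (nat_lit 273) (nat_lit 156)) (XT.lf (nat_lit 0) (nat_lit 47032094758) (nat_lit 152) (nat_lit 69237969438) (nat_lit 228) (nat_lit 6649336420) (nat_lit 21) (nat_lit 5) (nat_lit 23) (nat_lit 5) (nat_lit 24) (nat_lit 5) (nat_lit 292) (nat_lit 273) (nat_lit 155)))) (XT.nd (nat_lit 156) (nat_lit 152) (nat_lit 0) (XT.nd (nat_lit 78) (nat_lit 152) (nat_lit 0) (XT.lf (nat_lit 0) (nat_lit 10554262810)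 (nat_lit 228) (nat_lit 22776071788) (nat_lit 76) (nat_lit 96203810770) (nat_lit 20) (nat_lit 5) (nat_lit 23) (nat_lit 5) (nat_lit 21) (nat_lit 5) (nat_lit 293) (nat_lit 273) (nat_lit 154)) (XT.lf (nat_lit 0) (nat_lit 29803581106) (nat_lit 228) (nat_lit 100530378256) (nat_lit 76) (nat_lit 6248002157) (nat_lit 18) (nat_lit 5) (nat_lit 21) (nat_lit 5) (nat_lit 19) (nat_lit 5) (nat_lit 294) (nat_lit 273) (nat_lit 153))) (XT.nd (nat_lit 78) (nat_lit 152) (nat_lit 0) (XT.lf (nat_lit 0) (nat_lit 52096842334) (nat_lit 228) (nat_lit 44145886371) (nat_lit 76) (nat_lit 47830556369) (nat_lit 18) (nat_lit 5) (nat_lit 21) (nat_lit 5) (nat_lit 19) (nat_lit 5) (nat_lit 295) (nat_lit 273) (nat_lit 152)) (XT.lf (nat_lit 0) (nat_lit 17630430230) (nat_lit 152) (nat_lit 58966555120) (nat_lit 228) (nat_lit 75533057259) (nat_lit 16) (nat_lit 5) (nat_lit 18) (nat_lit 5) (nat_lit 19) (nat_lit 5) (nat_lit 296)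 (nat_lit 273) (nat_lit 151)))))) (XT.nd (nat_lit 546) (nat_lit 304) (nat_lit 0) (XT.nd (nat_lit 234) (nat_lit 228) (nat_lit 0) (XT.nd (nat_lit 78) (nat_lit 76) (nat_lit 0) (XT.lf (nat_lit 0) (nat_lit 86858609959) (nat_lit 152) (nat_lit 17404988409) (nat_lit 228) (nat_lit 56471227332) (nat_lit 16) (nat_lit 5) (nat_lit 18) (nat_lit 5) (nat_lit 19) (nat_lit 5) (nat_lit 297) (nat_lit 273) (nat_lit 150)) (XT.nd (nat_lit 78) (nat_lit 76) (nat_lit 0) (XT.lf (nat_lit 0) (nat_lit 134803938684) (nat_lit 228) (nat_lit 9064709681) (nat_lit 76) (nat_lit 26106512729) (nat_lit 16) (nat_lit 5) (nat_lit 19) (nat_lit 5) (nat_lit 17) (nat_lit 4) (nat_lit 298) (nat_lit 273) (nat_lit 149)) (XT.lf (nat_lit 0) (nat_lit 63663579432) (nat_lit 76) (nat_lit 106106621912) (nat_lit 152) (nat_lit 10025907770) (nat_lit 15) (nat_lit 5) (nat_lit 16) (nat_lit 5) (nat_lit 17) (nat_lit 4) (nat_lit 299) (nat_lit 273) (nat_lit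 148)))) (XT.nd (nat_lit 156) (nat_lit 0) (nat_lit 0) (XT.nd (nat_lit 78) (nat_lit 152) (nat_lit 0) (XT.lf (nat_lit 0) (nat_lit 16527863001) (nat_lit 152) (nat_lit 48076472194) (nat_lit 76) (nat_lit 125745135279) (nat_lit 14) (nat_lit 5) (nat_lit 16) (nat_lit 5) (nat_lit 15) (nat_lit 5) (nat_lit 300) (nat_lit 273) (nat_lit 147)) (XT.lf (nat_lit 0) (nat_lit 26487972637) (nat_lit 152) (nat_lit 18812887705) (nat_lit 228) (nat_lit 156374481713) (nat_lit 12) (nat_lit 5) (nat_lit 14) (nat_lit 5) (nat_lit 15) (nat_lit 5) (nat_lit 301) (nat_lit 273) (nat_lit 146))) (XT.nd (nat_lit 78) (nat_lit 0) (nat_lit 0) (XT.lf (nat_lit 0) (nat_lit 78460832193) (nat_lit 228) (nat_lit 104822210634) (nat_lit 76) (nat_lit 30457430790) (nat_lit 12) (nat_lit 5) (nat_lit 15) (nat_lit 5) (nat_lit 13) (nat_lit 4) (nat_lit 302) (nat_lit 273) (nat_lit 145)) (XT.lf (nat_lit 0) (nat_lit 114761839129) (nat_lit 228) (nat_lit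 29317162413) (nat_lit 76) (nat_lit 82652756130) (nat_lit 12) (nat_lit 5) (nat_lit 15) (nat_lit 5) (nat_lit 13) (nat_lit 4) (nat_lit 303) (nat_lit 273) (nat_lit 144))))) (XT.nd (nat_lit 234) (nat_lit 228) (nat_lit 0) (XT.nd (nat_lit 78) (nat_lit 0) (nat_lit 0) (XT.lf (nat_lit 0) (nat_lit 54977879144) (nat_lit 76) (nat_lit 100310887997) (nat_lit 152) (nat_lit 85367830952) (nat_lit 11) (nat_lit 5) (nat_lit 12) (nat_lit 5) (nat_lit 13) (nat_lit 4) (nat_lit 304) (nat_lit 273) (nat_lit 143)) (XT.nd (nat_lit 78) (nat_lit 0) (nat_lit 0) (XT.lf (nat_lit 0) (nat_lit 147683206200) (nat_lit 76) (nat_lit 52175860945) (nat_lit 152) (nat_lit 55772262003) (nat_lit 11) (nat_lit 5) (nat_lit 12) (nat_lit 5) (nat_lit 13) (nat_lit 4) (nat_lit 305) (nat_lit 273) (nat_lit 142)) (XT.lf (nat_lit 0) (nat_lit 247804393835) (nat_lit 76) (nat_lit 190258957) (nat_lit 152) (nat_lit 23809413721) (nat_lit 11) (nat_lit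 5) (nat_lit 12) (nat_lit 5) (nat_lit 13) (nat_lit 4) (nat_lit 306) (nat_lit 273) (nat_lit 141)))) (XT.nd (nat_lit 156) (nat_lit 76) (nat_lit 0) (XT.nd (nat_lit 78) (nat_lit 0) (nat_lit 0) (XT.lf (nat_lit 0) (nat_lit 13251589373) (nat_lit 152) (nat_lit 220608224627) (nat_lit 76) (nat_lit 55144049956) (nat_lit 9) (nat_lit 5) (nat_lit 11) (nat_lit 5) (nat_lit 10) (nat_lit 4) (nat_lit 307) (nat_lit 273) (nat_lit 140)) (XT.lf (nat_lit 0) (nat_lit 52669009174) (nat_lit 152) (nat_lit 138620650729) (nat_lit 76) (nat_lit 116186282728) (nat_lit 9) (nat_lit 5) (nat_lit 11) (nat_lit 5) (nat_lit 10) (nat_lit 4) (nat_lit 308) (nat_lit 273) (nat_lit 139))) (XT.nd (nat_lit 78) (nat_lit 76) (nat_lit 0) (XT.lf (nat_lit 0) (nat_lit 95239529837) (nat_lit 152) (nat_lit 50074578199) (nat_lit 76) (nat_lit 182111703538) (nat_lit 9) (nat_lit 5) (nat_lit 11) (nat_lit 5) (nat_lit 10) (nat_lit 4) (nat_lit 309)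 (nat_lit 273) (nat_lit 138)) (XT.lf (nat_lit 0) (nat_lit 47953540751) (nat_lit 76) (nat_lit 94415164174) (nat_lit 152) (nat_lit 206510724604) (nat_lit 8) (nat_lit 5) (nat_lit 9) (nat_lit 5) (nat_lit 10) (nat_lit 4) (nat_lit 310) (nat_lit 273) (nat_lit 137))))))))
noncomputable def xc103 : XT := (XT.nd (nat_lit 34710) (nat_lit 0) (nat_lit 912) (XT.nd (nat_lit 1014) (nat_lit 228) (nat_lit 0) (XT.nd (nat_lit 468) (nat_lit 76) (nat_lit 0) (XT.nd (nat_lit 234) (nat_lit 152) (nat_lit 0) (XT.nd (nat_lit 78) (nat_lit 0) (nat_lit 0) (XT.lf (nat_lit 0) (nat_lit 156671237038) (nat_lit 76) (nat_lit 37965842719) (nat_lit 152) (nat_lit 177302748381) (nat_lit 8) (nat_lit 5) (nat_lit 9) (nat_lit 5) (nat_lit 10) (nat_lit 4) (nat_lit 311) (nat_lit 273) (nat_lit 136)) (XT.nd (nat_lit 78) (nat_lit 0) (nat_lit 0) (XT.lf (nat_lit 0) (nat_lit 251639814360) (nat_lit 152) (nat_lit 123312285706) (nat_lit 0)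 (nat_lit 21848727829) (nat_lit 8) (nat_lit 5) (nat_lit 10) (nat_lit 4) (nat_lit 8) (nat_lit 4) (nat_lit 312) (nat_lit 273) (nat_lit 135)) (XT.lf (nat_lit 0) (nat_lit 314188664880) (nat_lit 152) (nat_lit 24986008504) (nat_lit 0) (nat_lit 84397162887) (nat_lit 8) (nat_lit 5) (nat_lit 10) (nat_lit 4) (nat_lit 8) (nat_lit 4) (nat_lit 313) (nat_lit 273) (nat_lit 134)))) (XT.nd (nat_lit 78) (nat_lit 76) (nat_lit 0) (XT.lf (nat_lit 0) (nat_lit 85482157913) (nat_lit 76) (nat_lit 298314901781) (nat_lit 76) (nat_lit 68523015101) (nat_lit 7) (nat_lit 4) (nat_lit 8) (nat_lit 5) (nat_lit 8) (nat_lit 4) (nat_lit 314) (nat_lit 273) (nat_lit 133)) (XT.nd (nat_lit 78) (nat_lit 76) (nat_lit 0) (XT.lf (nat_lit 0) (nat_lit 206208386921) (nat_lit 76) (nat_lit 253448696076) (nat_lit 76) (nat_lit 23656453204) (nat_lit 7) (nat_lit 4) (nat_lit 8) (nat_lit 5) (nat_lit 8) (nat_lit 4) (nat_lit 315) (nat_lit 273)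 (nat_lit 132)) (XT.lf (nat_lit 0) (nat_lit 23558670624) (nat_lit 152) (nat_lit 180790537780) (nat_lit 76) (nat_lit 312389567852) (nat_lit 6) (nat_lit 5) (nat_lit 8) (nat_lit 5) (nat_lit 7) (nat_lit 4) (nat_lit 316) (nat_lit 273) (nat_lit 131))))) (XT.nd (nat_lit 234) (nat_lit 0) (nat_lit 0) (XT.nd (nat_lit 78) (nat_lit 76) (nat_lit 0) (XT.lf (nat_lit 0) (nat_lit 73272760961) (nat_lit 152) (nat_lit 77385535257) (nat_lit 76) (nat_lit 402130597747) (nat_lit 6) (nat_lit 5) (nat_lit 8) (nat_lit 5) (nat_lit 7) (nat_lit 4) (nat_lit 317) (nat_lit 273) (nat_lit 130)) (XT.nd (nat_lit 78) (nat_lit 0) (nat_lit 0) (XT.lf (nat_lit 0) (nat_lit 36097300086) (nat_lit 76) (nat_lit 91734652269) (nat_lit 152) (nat_lit 463821631087) (nat_lit 5) (nat_lit 5) (nat_lit 6) (nat_lit 5) (nat_lit 7) (nat_lit 4) (nat_lit 318) (nat_lit 273) (nat_lit 129)) (XT.lf (nat_lit 0) (nat_lit 163059453300) (nat_lit 76) (nat_lit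 25812121663) (nat_lit 152) (nat_lit 444586617681) (nat_lit 5) (nat_lit 5) (nat_lit 6) (nat_lit 5) (nat_lit 7) (nat_lit 4) (nat_lit 319) (nat_lit 273) (nat_lit 128)))) (XT.nd (nat_lit 156) (nat_lit 0) (nat_lit 0) (XT.nd (nat_lit 78) (nat_lit 0) (nat_lit 0) (XT.lf (nat_lit 0) (nat_lit 255885706048) (nat_lit 152) (nat_lit 379520363692) (nat_lit 0) (nat_lit 43113793970) (nat_lit 5) (nat_lit 5) (nat_lit 7) (nat_lit 4) (nat_lit 5) (nat_lit 4) (nat_lit 320) (nat_lit 273) (nat_lit 127)) (XT.lf (nat_lit 0) (nat_lit 328931270941) (nat_lit 152) (nat_lit 282042422432) (nat_lit 0) (nat_lit 116159151028) (nat_lit 5) (nat_lit 5) (nat_lit 7) (nat_lit 4) (nat_lit 5) (nat_lit 4) (nat_lit 321) (nat_lit 273) (nat_lit 126))) (XT.nd (nat_lit 78) (nat_lit 0) (nat_lit 0) (XT.lf (nat_lit 0) (nat_lit 407820350102) (nat_lit 152) (nat_lit 176766486359) (nat_lit 0) (nat_lit 195048037750) (nat_lit 5) (nat_lit 5)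 (nat_lit 7) (nat_lit 4) (nat_lit 5) (nat_lit 4) (nat_lit 322) (nat_lit 273) (nat_lit 125)) (XT.lf (nat_lit 0) (nat_lit 493020434372) (nat_lit 152) (nat_lit 63068698072) (nat_lit 0) (nat_lit 280247943835) (nat_lit 5) (nat_lit 5) (nat_lit 7) (nat_lit 4) (nat_lit 5) (nat_lit 4) (nat_lit 323) (nat_lit 273) (nat_lit 124)))))) (XT.nd (nat_lit 546) (nat_lit 152) (nat_lit 0) (XT.nd (nat_lit 234) (nat_lit 0) (nat_lit 0) (XT.nd (nat_lit 78) (nat_lit 0) (nat_lit 0) (XT.lf (nat_lit 0) (nat_lit 62869704331) (nat_lit 76) (nat_lit 523678726707) (nat_lit 76) (nat_lit 310906071185) (nat_lit 4) (nat_lit 4) (nat_lit 5) (nat_lit 5) (nat_lit 5) (nat_lit 4) (nat_lit 324) (nat_lit 273) (nat_lit 123)) (XT.nd (nat_lit 78) (nat_lit 0) (nat_lit 0) (XT.lf (nat_lit 0) (nat_lit 202469750712) (nat_lit 76) (nat_lit 486813217936) (nat_lit 76) (nat_lit 274040409649) (nat_lit 4) (nat_lit 4) (nat_lit 5) (nat_lit 5) (nat_lit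 5) (nat_lit 4) (nat_lit 325) (nat_lit 273) (nat_lit 122)) (XT.lf (nat_lit 0) (nat_lit 353237614731) (nat_lit 76) (nat_lit 446998553829) (nat_lit 76) (nat_lit 234225604093) (nat_lit 4) (nat_lit 4) (nat_lit 5) (nat_lit 5) (nat_lit 5) (nat_lit 4) (nat_lit 326) (nat_lit 273) (nat_lit 121)))) (XT.nd (nat_lit 156) (nat_lit 0) (nat_lit 0) (XT.nd (nat_lit 78) (nat_lit 0) (nat_lit 0) (XT.lf (nat_lit 0) (nat_lit 516066735580) (nat_lit 76) (nat_lit 403998795636) (nat_lit 76) (nat_lit 191225714929) (nat_lit 4) (nat_lit 4) (nat_lit 5) (nat_lit 5) (nat_lit 5) (nat_lit 4) (nat_lit 327) (nat_lit 273) (nat_lit 120)) (XT.lf (nat_lit 0) (nat_lit 691922026570) (nat_lit 76) (nat_lit 357559129975) (nat_lit 76) (nat_lit 144785927999) (nat_lit 4) (nat_lit 4) (nat_lit 5) (nat_lit 5) (nat_lit 5) (nat_lit 4) (nat_lit 328) (nat_lit 273) (nat_lit 119))) (XT.nd (nat_lit 78) (nat_lit 0) (nat_lit 0) (XT.lf (nat_lit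 0) (nat_lit 881845593127) (nat_lit 76) (nat_lit 307404358828) (nat_lit 76) (nat_lit 94631044565) (nat_lit 4) (nat_lit 4) (nat_lit 5) (nat_lit 5) (nat_lit 5) (nat_lit 4) (nat_lit 329) (nat_lit 273) (nat_lit 118)) (XT.lf (nat_lit 0) (nat_lit 1086962908240) (nat_lit 76) (nat_lit 253237268736) (nat_lit 76) (nat_lit 40463850504) (nat_lit 4) (nat_lit 4) (nat_lit 5) (nat_lit 5) (nat_lit 5) (nat_lit 4) (nat_lit 330) (nat_lit 273) (nat_lit 117))))) (XT.nd (nat_lit 234) (nat_lit 0) (nat_lit 0) (XT.nd (nat_lit 78) (nat_lit 76) (nat_lit 0) (XT.lf (nat_lit 0) (nat_lit 17134378933) (nat_lit 152) (nat_lit 177134006317) (nat_lit 76) (nat_lit 1290886618705) (nat_lit 3) (nat_lit 5) (nat_lit 5) (nat_lit 5) (nat_lit 4) (nat_lit 4) (nat_lit 331) (nat_lit 273) (nat_lit 116)) (XT.nd (nat_lit 78) (nat_lit 76) (nat_lit 0) (XT.lf (nat_lit 0) (nat_lit 77154302596) (nat_lit 152) (nat_lit 52292654235) (nat_lit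 76) (nat_lit 1468474226286) (nat_lit 3) (nat_lit 5) (nat_lit 5) (nat_lit 5) (nat_lit 4) (nat_lit 4) (nat_lit 332) (nat_lit 273) (nat_lit 115)) (XT.lf (nat_lit 0) (nat_lit 86882088108) (nat_lit 76) (nat_lit 57183187987) (nat_lit 152) (nat_lit 1575476224116) (nat_lit 2) (nat_lit 5) (nat_lit 3) (nat_lit 5) (nat_lit 4) (nat_lit 4) (nat_lit 333) (nat_lit 273) (nat_lit 114)))) (XT.nd (nat_lit 156) (nat_lit 0) (nat_lit 0) (XT.nd (nat_lit 78) (nat_lit 0) (nat_lit 0) (XT.lf (nat_lit 0) (nat_lit 218297702528) (nat_lit 152) (nat_lit 1611151294823) (nat_lit 0) (nat_lit 21284959388) (nat_lit 2) (nat_lit 5) (nat_lit 4) (nat_lit 4) (nat_lit 2) (nat_lit 4) (nat_lit 334) (nat_lit 273) (nat_lit 113)) (XT.lf (nat_lit 0) (nat_lit 299953945380) (nat_lit 152) (nat_lit 1589407909966) (nat_lit 0) (nat_lit 102941136722) (nat_lit 2) (nat_lit 5) (nat_lit 4) (nat_lit 4) (nat_lit 2) (nat_lit 4) (nat_lit 335) (nat_lit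 273) (nat_lit 112))) (XT.nd (nat_lit 32682) (nat_lit 0) (nat_lit 2660) (XT.lf (nat_lit 0) (nat_lit 388142636452) (nat_lit 152) (nat_lit 1565925150798) (nat_lit 0) (nat_lit 191129767130) (nat_lit 2) (nat_lit 5) (nat_lit 4) (nat_lit 4) (nat_lit 2) (nat_lit 4) (nat_lit 336) (nat_lit 273) (nat_lit 111)) (XT.lf (nat_lit 0) (nat_lit 11860081104) (nat_lit 532) (nat_lit 8102055386) (nat_lit 532) (nat_lit 8102055386) (nat_lit 37) (nat_lit 3) (nat_lit 44) (nat_lit 3) (nat_lit 44) (nat_lit 5) (nat_lit 274) (nat_lit 274) (nat_lit 172))))))) (XT.nd (nat_lit 1014) (nat_lit 1064) (nat_lit 0) (XT.nd (nat_lit 468) (nat_lit 684) (nat_lit 0) (XT.nd (nat_lit 234) (nat_lit 0) (nat_lit 76) (XT.nd (nat_lit 78) (nat_lit 0) (nat_lit 76) (XT.lf (nat_lit 76) (nat_lit 8585743862) (nat_lit 0) (nat_lit 16308340181) (nat_lit 532) (nat_lit 33461336875) (nat_lit 38) (nat_lit 5) (nat_lit 37) (nat_lit 3) (nat_lit 44)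 (nat_lit 5) (nat_lit 275) (nat_lit 274) (nat_lit 171)) (XT.nd (nat_lit 78) (nat_lit 0) (nat_lit 0) (XT.lf (nat_lit 0) (nat_lit 26835791935) (nat_lit 456) (nat_lit 24678784735) (nat_lit 532) (nat_lit 9192143500) (nat_lit 38) (nat_lit 5) (nat_lit 44) (nat_lit 5) (nat_lit 45) (nat_lit 5) (nat_lit 276) (nat_lit 274) (nat_lit 170)) (XT.lf (nat_lit 76) (nat_lit 2099667786) (nat_lit 0) (nat_lit 27305528021) (nat_lit 532) (nat_lit 33803147050) (nat_lit 39) (nat_lit 5) (nat_lit 38) (nat_lit 5) (nat_lit 45) (nat_lit 5) (nat_lit 277) (nat_lit 274) (nat_lit 169)))) (XT.nd (nat_lit 78) (nat_lit 0) (nat_lit 76) (XT.lf (nat_lit 76) (nat_lit 32422778207) (nat_lit 0) (nat_lit 430505747) (nat_lit 532) (nat_lit 33002968477) (nat_lit 39) (nat_lit 5) (nat_lit 38) (nat_lit 5) (nat_lit 45) (nat_lit 5) (nat_lit 278) (nat_lit 274) (nat_lit 168)) (XT.nd (nat_lit 78) (nat_lit 0) (nat_lit 0) (XT.lf (nat_lit 0)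 (nat_lit 37263420277) (nat_lit 456) (nat_lit 4233134742) (nat_lit 532) (nat_lit 27164550728) (nat_lit 39) (nat_lit 5) (nat_lit 45) (nat_lit 5) (nat_lit 46) (nat_lit 5) (nat_lit 279) (nat_lit 274) (nat_lit 167)) (XT.lf (nat_lit 76) (nat_lit 28728052174) (nat_lit 0) (nat_lit 13999020856) (nat_lit 532) (nat_lit 28907224398) (nat_lit 40) (nat_lit 5) (nat_lit 39) (nat_lit 5) (nat_lit 46) (nat_lit 5) (nat_lit 280) (nat_lit 274) (nat_lit 166))))) (XT.nd (nat_lit 234) (nat_lit 456) (nat_lit 0) (XT.nd (nat_lit 78) (nat_lit 456) (nat_lit 0) (XT.lf (nat_lit 0) (nat_lit 49122806832) (nat_lit 456) (nat_lit 10650940506) (nat_lit 76) (nat_lit 15032004057) (nat_lit 40) (nat_lit 5) (nat_lit 46) (nat_lit 5) (nat_lit 41) (nat_lit 5) (nat_lit 281) (nat_lit 274) (nat_lit 165)) (XT.nd (nat_lit 78) (nat_lit 0) (nat_lit 0) (XT.lf (nat_lit 0) (nat_lit 25074408183) (nat_lit 456) (nat_lit 31921235050) (nat_lit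 532) (nat_lit 21158048541) (nat_lit 34) (nat_lit 5) (nat_lit 40) (nat_lit 5) (nat_lit 41) (nat_lit 5) (nat_lit 282) (nat_lit 274) (nat_lit 164)) (XT.lf (nat_lit 0) (nat_lit 64262447906) (nat_lit 456) (nat_lit 1525930875) (nat_lit 532) (nat_lit 15957888019) (nat_lit 34) (nat_lit 5) (nat_lit 40) (nat_lit 5) (nat_lit 41) (nat_lit 5) (nat_lit 283) (nat_lit 274) (nat_lit 163)))) (XT.nd (nat_lit 156) (nat_lit 228) (nat_lit 0) (XT.nd (nat_lit 78) (nat_lit 0) (nat_lit 0) (XT.lf (nat_lit 0) (nat_lit 21269396994) (nat_lit 228) (nat_lit 55278398508) (nat_lit 304) (nat_lit 8977396147) (nat_lit 31) (nat_lit 5) (nat_lit 34) (nat_lit 5) (nat_lit 35) (nat_lit 5) (nat_lit 284) (nat_lit 274) (nat_lit 162)) (XT.lf (nat_lit 0) (nat_lit 64074418437) (nat_lit 228) (nat_lit 24609212984) (nat_lit 304) (nat_lit 881550248) (nat_lit 31) (nat_lit 5) (nat_lit 34) (nat_lit 5) (nat_lit 35) (nat_lit 5) (nat_lit 285)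 (nat_lit 274) (nat_lit 161))) (XT.nd (nat_lit 78) (nat_lit 0) (nat_lit 0) (XT.lf (nat_lit 0) (nat_lit 8097777109) (nat_lit 228) (nat_lit 77063190907) (nat_lit 76) (nat_lit 8701952178) (nat_lit 28) (nat_lit 5) (nat_lit 31) (nat_lit 5) (nat_lit 29) (nat_lit 5) (nat_lit 286) (nat_lit 274) (nat_lit 160)) (XT.lf (nat_lit 0) (nat_lit 19101177054) (nat_lit 228) (nat_lit 35206852966) (nat_lit 76) (nat_lit 44086351280) (nat_lit 28) (nat_lit 5) (nat_lit 31) (nat_lit 5) (nat_lit 29) (nat_lit 5) (nat_lit 287) (nat_lit 274) (nat_lit 159)))))) (XT.nd (nat_lit 546) (nat_lit 456) (nat_lit 0) (XT.nd (nat_lit 234) (nat_lit 228) (nat_lit 0) (XT.nd (nat_lit 78) (nat_lit 152) (nat_lit 0) (XT.lf (nat_lit 0) (nat_lit 10523420758) (nat_lit 228) (nat_lit 20713671488) (nat_lit 304) (nat_lit 72031090862) (nat_lit 25) (nat_lit 5) (nat_lit 28) (nat_lit 5) (nat_lit 29) (nat_lit 5) (nat_lit 288) (nat_lit 274) (nat_lit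 158)) (XT.nd (nat_lit 78) (nat_lit 152) (nat_lit 0) (XT.lf (nat_lit 0) (nat_lit 45705107967) (nat_lit 304) (nat_lit 46940971577) (nat_lit 76) (nat_lit 15776914362) (nat_lit 25) (nat_lit 5) (nat_lit 29) (nat_lit 5) (nat_lit 26) (nat_lit 5) (nat_lit 289) (nat_lit 274) (nat_lit 157)) (XT.lf (nat_lit 0) (nat_lit 2092840194) (nat_lit 152) (nat_lit 59825325104) (nat_lit 228) (nat_lit 52025019046) (nat_lit 23) (nat_lit 5) (nat_lit 25) (nat_lit 5) (nat_lit 26) (nat_lit 5) (nat_lit 290) (nat_lit 274) (nat_lit 156)))) (XT.nd (nat_lit 156) (nat_lit 228) (nat_lit 0) (XT.nd (nat_lit 78) (nat_lit 0) (nat_lit 0) (XT.lf (nat_lit 0) (nat_lit 57717998621) (nat_lit 152) (nat_lit 22993001114) (nat_lit 228) (nat_lit 39091374278) (nat_lit 23) (nat_lit 5) (nat_lit 25) (nat_lit 5) (nat_lit 26) (nat_lit 5) (nat_lit 291) (nat_lit 274) (nat_lit 155)) (XT.lf (nat_lit 0) (nat_lit 101410293894) (nat_lit 228) (nat_lit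 8741745164) (nat_lit 76) (nat_lit 15946019567) (nat_lit 23) (nat_lit 5) (nat_lit 26) (nat_lit 5) (nat_lit 24) (nat_lit 5) (nat_lit 292) (nat_lit 274) (nat_lit 154))) (XT.nd (nat_lit 78) (nat_lit 76) (nat_lit 0) (XT.lf (nat_lit 0) (nat_lit 50812052556) (nat_lit 152) (nat_lit 74772111901) (nat_lit 228) (nat_lit 7167745147) (nat_lit 21) (nat_lit 5) (nat_lit 23) (nat_lit 5) (nat_lit 24) (nat_lit 5) (nat_lit 293) (nat_lit 274) (nat_lit 153)) (XT.lf (nat_lit 0) (nat_lit 11410512123) (nat_lit 228) (nat_lit 24581391156) (nat_lit 76) (nat_lit 103903983802) (nat_lit 20) (nat_lit 5) (nat_lit 23) (nat_lit 5) (nat_lit 21) (nat_lit 5) (nat_lit 294) (nat_lit 274) (nat_lit 152))))) (XT.nd (nat_lit 234) (nat_lit 152) (nat_lit 0) (XT.nd (nat_lit 78) (nat_lit 152) (nat_lit 0) (XT.lf (nat_lit 0) (nat_lit 32199405202) (nat_lit 228) (nat_lit 108555636966) (nat_lit 76) (nat_lit 6752518770) (nat_lit 18) (nat_lit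 5) (nat_lit 21) (nat_lit 5) (nat_lit 19) (nat_lit 5) (nat_lit 295) (nat_lit 274) (nat_lit 151)) (XT.nd (nat_lit 78) (nat_lit 152) (nat_lit 0) (XT.lf (nat_lit 0) (nat_lit 56275272690) (nat_lit 228) (nat_lit 47661657696) (nat_lit 76) (nat_lit 51661330916) (nat_lit 18) (nat_lit 5) (nat_lit 21) (nat_lit 5) (nat_lit 19) (nat_lit 5) (nat_lit 296) (nat_lit 274) (nat_lit 150)) (XT.lf (nat_lit 0) (nat_lit 19056361711) (nat_lit 152) (nat_lit 63678646810) (nat_lit 228) (nat_lit 81564586776) (nat_lit 16) (nat_lit 5) (nat_lit 18) (nat_lit 5) (nat_lit 19) (nat_lit 5) (nat_lit 297) (nat_lit 274) (nat_lit 149)))) (XT.nd (nat_lit 156) (nat_lit 152) (nat_lit 0) (XT.nd (nat_lit 78) (nat_lit 0) (nat_lit 0) (XT.lf (nat_lit 0) (nat_lit 93821647888) (nat_lit 152) (nat_lit 18792542372) (nat_lit 228) (nat_lit 60978633793) (nat_lit 16) (nat_lit 5) (nat_lit 18) (nat_lit 5) (nat_lit 19) (nat_lit 5) (nat_lit 298)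 (nat_lit 274) (nat_lit 148)) (XT.lf (nat_lit 0) (nat_lit 145597161693) (nat_lit 228) (nat_lit 9775978760) (nat_lit 76) (nat_lit 28199295542) (nat_lit 16) (nat_lit 5) (nat_lit 19) (nat_lit 5) (nat_lit 17) (nat_lit 4) (nat_lit 299) (nat_lit 274) (nat_lit 147))) (XT.nd (nat_lit 78) (nat_lit 76) (nat_lit 0) (XT.lf (nat_lit 0) (nat_lit 68770221388) (nat_lit 76) (nat_lit 114590170144) (nat_lit 152) (nat_lit 10818696909) (nat_lit 15) (nat_lit 5) (nat_lit 16) (nat_lit 5) (nat_lit 17) (nat_lit 4) (nat_lit 300) (nat_lit 274) (nat_lit 146)) (XT.lf (nat_lit 0) (nat_lit 17858257861) (nat_lit 152) (nat_lit 51909588362) (nat_lit 76) (nat_lit 135808908497) (nat_lit 14) (nat_lit 5) (nat_lit 16) (nat_lit 5) (nat_lit 15) (nat_lit 5) (nat_lit 301) (nat_lit 274) (nat_lit 145))))))))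
noncomputable def xc104 : XT := (XT.nd (nat_lit 2028) (nat_lit 152) (nat_lit 0) (XT.nd (nat_lit 1014) (nat_lit 304) (nat_lit 0) (XT.nd (nat_lit 468) (nat_lit 228) (nat_lit 0) (XT.nd (nat_lit 234) (nat_lit 76) (nat_lit 0) (XT.nd (nat_lit 78) (nat_lit 0) (nat_lit 0) (XT.lf (nat_lit 0) (nat_lit 28619682901) (nat_lit 152) (nat_lit 20313111986) (nat_lit 228) (nat_lit 168875926639) (nat_lit 12) (nat_lit 5) (nat_lit 14) (nat_lit 5) (nat_lit 15) (nat_lit 5) (nat_lit 302) (nat_lit 274) (nat_lit 144)) (XT.nd (nat_lit 78) (nat_lit 0) (nat_lit 0) (XT.lf (nat_lit 0) (nat_lit 84745088880) (nat_lit 228) (nat_lit 113195760870) (nat_lit 76) (nat_lit 32898253293) (nat_lit 12) (nat_lit 5) (nat_lit 15) (nat_lit 5) (nat_lit 13) (nat_lit 4) (nat_lit 303) (nat_lit 274) (nat_lit 143)) (XT.lf (nat_lit 0) (nat_lit 123949628954) (nat_lit 228) (nat_lit 31651214466) (nat_lit 76) (nat_lit 89268891472) (nat_lit 12)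 (nat_lit 5) (nat_lit 15) (nat_lit 5) (nat_lit 13) (nat_lit 4) (nat_lit 304) (nat_lit 274) (nat_lit 142)))) (XT.nd (nat_lit 78) (nat_lit 0) (nat_lit 0) (XT.lf (nat_lit 0) (nat_lit 59387143810) (nat_lit 76) (nat_lit 108331325908) (nat_lit 152) (nat_lit 92190113334) (nat_lit 11) (nat_lit 5) (nat_lit 12) (nat_lit 5) (nat_lit 13) (nat_lit 4) (nat_lit 305) (nat_lit 274) (nat_lit 141)) (XT.nd (nat_lit 78) (nat_lit 0) (nat_lit 0) (XT.lf (nat_lit 0) (nat_lit 159508079672) (nat_lit 76) (nat_lit 56345825072) (nat_lit 152) (nat_lit 60227428061) (nat_lit 11) (nat_lit 5) (nat_lit 12) (nat_lit 5) (nat_lit 13) (nat_lit 4) (nat_lit 306) (nat_lit 274) (nat_lit 140)) (XT.lf (nat_lit 0) (nat_lit 267638205505) (nat_lit 76) (nat_lit 201678980) (nat_lit 152) (nat_lit 25708041909) (nat_lit 11) (nat_lit 5) (nat_lit 12) (nat_lit 5) (nat_lit 13) (nat_lit 4) (nat_lit 307) (nat_lit 274) (nat_lit 139))))) (XT.nd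 (nat_lit 234) (nat_lit 76) (nat_lit 0) (XT.nd (nat_lit 78) (nat_lit 0) (nat_lit 0) (XT.lf (nat_lit 0) (nat_lit 14317427386) (nat_lit 152) (nat_lit 238246985769) (nat_lit 76) (nat_lit 59559292174) (nat_lit 9) (nat_lit 5) (nat_lit 11) (nat_lit 5) (nat_lit 10) (nat_lit 4) (nat_lit 308) (nat_lit 274) (nat_lit 138)) (XT.nd (nat_lit 78) (nat_lit 0) (nat_lit 0) (XT.lf (nat_lit 0) (nat_lit 56887817743) (nat_lit 152) (nat_lit 149701139058) (nat_lit 76) (nat_lit 125484628145) (nat_lit 9) (nat_lit 5) (nat_lit 11) (nat_lit 5) (nat_lit 10) (nat_lit 4) (nat_lit 309) (nat_lit 274) (nat_lit 137)) (XT.lf (nat_lit 0) (nat_lit 102863588369) (nat_lit 152) (nat_lit 54072059520) (nat_lit 76) (nat_lit 196683827598) (nat_lit 9) (nat_lit 5) (nat_lit 11) (nat_lit 5) (nat_lit 10) (nat_lit 4) (nat_lit 310) (nat_lit 274) (nat_lit 136)))) (XT.nd (nat_lit 156) (nat_lit 0) (nat_lit 0) (XT.nd (nat_lit 78) (nat_lit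 0) (nat_lit 0) (XT.lf (nat_lit 0) (nat_lit 51798094137) (nat_lit 76) (nat_lit 101964839545) (nat_lit 152) (nat_lit 223026462987) (nat_lit 8) (nat_lit 5) (nat_lit 9) (nat_lit 5) (nat_lit 10) (nat_lit 4) (nat_lit 311) (nat_lit 274) (nat_lit 135)) (XT.lf (nat_lit 0) (nat_lit 169212593525) (nat_lit 76) (nat_lit 40999834430) (nat_lit 152) (nat_lit 191482227895) (nat_lit 8) (nat_lit 5) (nat_lit 9) (nat_lit 5) (nat_lit 10) (nat_lit 4) (nat_lit 312) (nat_lit 274) (nat_lit 134))) (XT.nd (nat_lit 78) (nat_lit 0) (nat_lit 0) (XT.lf (nat_lit 0) (nat_lit 271775129693) (nat_lit 152) (nat_lit 133169919228) (nat_lit 0) (nat_lit 23599507391) (nat_lit 8) (nat_lit 5) (nat_lit 10) (nat_lit 4) (nat_lit 8) (nat_lit 4) (nat_lit 313) (nat_lit 274) (nat_lit 133)) (XT.lf (nat_lit 0) (nat_lit 339327582315) (nat_lit 152) (nat_lit 26978084245) (nat_lit 0) (nat_lit 91151603821) (nat_lit 8) (nat_lit 5) (nat_lit 10)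 (nat_lit 4) (nat_lit 8) (nat_lit 4) (nat_lit 314) (nat_lit 274) (nat_lit 132)))))) (XT.nd (nat_lit 468) (nat_lit 76) (nat_lit 0) (XT.nd (nat_lit 234) (nat_lit 76) (nat_lit 0) (XT.nd (nat_lit 78) (nat_lit 76) (nat_lit 0) (XT.lf (nat_lit 0) (nat_lit 92327363208) (nat_lit 76) (nat_lit 322177161744) (nat_lit 76) (nat_lit 74000853443) (nat_lit 7) (nat_lit 4) (nat_lit 8) (nat_lit 5) (nat_lit 8) (nat_lit 4) (nat_lit 315) (nat_lit 274) (nat_lit 131)) (XT.nd (nat_lit 78) (nat_lit 76) (nat_lit 0) (XT.lf (nat_lit 0) (nat_lit 222711199229) (nat_lit 76) (nat_lit 273721876781) (nat_lit 76) (nat_lit 25545263103) (nat_lit 7) (nat_lit 4) (nat_lit 8) (nat_lit 5) (nat_lit 8) (nat_lit 4) (nat_lit 316) (nat_lit 274) (nat_lit 130)) (XT.lf (nat_lit 0) (nat_lit 25446624414) (nat_lit 152) (nat_lit 195247917653) (nat_lit 76) (nat_lit 337383070441) (nat_lit 6) (nat_lit 5) (nat_lit 8) (nat_lit 5) (nat_lit 7) (nat_lit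 4) (nat_lit 317) (nat_lit 274) (nat_lit 129)))) (XT.nd (nat_lit 78) (nat_lit 76) (nat_lit 0) (XT.lf (nat_lit 0) (nat_lit 79137600486) (nat_lit 152) (nat_lit 83570949236) (nat_lit 76) (nat_lit 434303209605) (nat_lit 6) (nat_lit 5) (nat_lit 8) (nat_lit 5) (nat_lit 7) (nat_lit 4) (nat_lit 318) (nat_lit 274) (nat_lit 128)) (XT.nd (nat_lit 78) (nat_lit 0) (nat_lit 0) (XT.lf (nat_lit 0) (nat_lit 38990375496) (nat_lit 76) (nat_lit 99071055350) (nat_lit 152) (nat_lit 500924201169) (nat_lit 5) (nat_lit 5) (nat_lit 6) (nat_lit 5) (nat_lit 7) (nat_lit 4) (nat_lit 319) (nat_lit 274) (nat_lit 127)) (XT.lf (nat_lit 0) (nat_lit 176109109011) (nat_lit 76) (nat_lit 27874897785) (nat_lit 152) (nat_lit 480150620794) (nat_lit 5) (nat_lit 5) (nat_lit 6) (nat_lit 5) (nat_lit 7) (nat_lit 4) (nat_lit 320) (nat_lit 274) (nat_lit 126))))) (XT.nd (nat_lit 234) (nat_lit 76) (nat_lit 0) (XT.nd (nat_lit 78) (nat_lit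 0) (nat_lit 0) (XT.lf (nat_lit 0) (nat_lit 276359116784) (nat_lit 152) (nat_lit 409877300977) (nat_lit 0) (nat_lit 46564827004) (nat_lit 5) (nat_lit 5) (nat_lit 7) (nat_lit 4) (nat_lit 5) (nat_lit 4) (nat_lit 321) (nat_lit 274) (nat_lit 125)) (XT.nd (nat_lit 78) (nat_lit 0) (nat_lit 0) (XT.lf (nat_lit 0) (nat_lit 355248137664) (nat_lit 152) (nat_lit 304601471958) (nat_lit 0) (nat_lit 125453669700) (nat_lit 5) (nat_lit 5) (nat_lit 7) (nat_lit 4) (nat_lit 5) (nat_lit 4) (nat_lit 322) (nat_lit 274) (nat_lit 124)) (XT.lf (nat_lit 0) (nat_lit 440448167970) (nat_lit 152) (nat_lit 190903782796) (nat_lit 0) (nat_lit 210653535020) (nat_lit 5) (nat_lit 5) (nat_lit 7) (nat_lit 4) (nat_lit 5) (nat_lit 4) (nat_lit 323) (nat_lit 274) (nat_lit 123)))) (XT.nd (nat_lit 156) (nat_lit 0) (nat_lit 0) (XT.nd (nat_lit 78) (nat_lit 76) (nat_lit 0) (XT.lf (nat_lit 0) (nat_lit 532464096769) (nat_lit 152) (nat_lit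 68110469408) (nat_lit 0) (nat_lit 302669311055) (nat_lit 5) (nat_lit 5) (nat_lit 7) (nat_lit 4) (nat_lit 5) (nat_lit 4) (nat_lit 324) (nat_lit 274) (nat_lit 122)) (XT.lf (nat_lit 0) (nat_lit 67902910897) (nat_lit 76) (nat_lit 565571359383) (nat_lit 76) (nat_lit 335776432220) (nat_lit 4) (nat_lit 4) (nat_lit 5) (nat_lit 5) (nat_lit 5) (nat_lit 4) (nat_lit 325) (nat_lit 274) (nat_lit 121))) (XT.nd (nat_lit 78) (nat_lit 0) (nat_lit 0) (XT.lf (nat_lit 0) (nat_lit 218670692084) (nat_lit 76) (nat_lit 525756733277) (nat_lit 76) (nat_lit 295961675143) (nat_lit 4) (nat_lit 4) (nat_lit 5) (nat_lit 5) (nat_lit 5) (nat_lit 4) (nat_lit 326) (nat_lit 274) (nat_lit 120)) (XT.lf (nat_lit 0) (nat_lit 381499736237) (nat_lit 76) (nat_lit 482757010271) (nat_lit 76) (nat_lit 252961830867) (nat_lit 4) (nat_lit 4) (nat_lit 5) (nat_lit 5) (nat_lit 5) (nat_lit 4) (nat_lit 327) (nat_lit 274) (nat_lit 119)))))))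 (XT.nd (nat_lit 33696) (nat_lit 0) (nat_lit 1596) (XT.nd (nat_lit 468) (nat_lit 76) (nat_lit 0) (XT.nd (nat_lit 234) (nat_lit 76) (nat_lit 0) (XT.nd (nat_lit 78) (nat_lit 0) (nat_lit 0) (XT.lf (nat_lit 0) (nat_lit 557354956212) (nat_lit 76) (nat_lit 436317377190) (nat_lit 76) (nat_lit 206522085500) (nat_lit 4) (nat_lit 4) (nat_lit 5) (nat_lit 5) (nat_lit 5) (nat_lit 4) (nat_lit 328) (nat_lit 274) (nat_lit 118)) (XT.nd (nat_lit 78) (nat_lit 0) (nat_lit 0) (XT.lf (nat_lit 0) (nat_lit 747278457015) (nat_lit 76) (nat_lit 386162636210) (nat_lit 76) (nat_lit 156367240550) (nat_lit 4) (nat_lit 4) (nat_lit 5) (nat_lit 5) (nat_lit 5) (nat_lit 4) (nat_lit 329) (nat_lit 274) (nat_lit 117)) (XT.lf (nat_lit 0) (nat_lit 952395711244) (nat_lit 76) (nat_lit 331995574050) (nat_lit 76) (nat_lit 102200082122) (nat_lit 4) (nat_lit 4) (nat_lit 5) (nat_lit 5) (nat_lit 5) (nat_lit 4) (nat_lit 330) (nat_lit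 274) (nat_lit 116)))) (XT.nd (nat_lit 78) (nat_lit 76) (nat_lit 0) (XT.lf (nat_lit 0) (nat_lit 1173922228553) (nat_lit 76) (nat_lit 273495200712) (nat_lit 76) (nat_lit 43699619648) (nat_lit 4) (nat_lit 4) (nat_lit 5) (nat_lit 5) (nat_lit 5) (nat_lit 4) (nat_lit 331) (nat_lit 274) (nat_lit 115)) (XT.nd (nat_lit 78) (nat_lit 0) (nat_lit 0) (XT.lf (nat_lit 0) (nat_lit 18506306951) (nat_lit 152) (nat_lit 191302545138) (nat_lit 76) (nat_lit 1394158456496) (nat_lit 3) (nat_lit 5) (nat_lit 5) (nat_lit 5) (nat_lit 4) (nat_lit 4) (nat_lit 332) (nat_lit 274) (nat_lit 114)) (XT.lf (nat_lit 0) (nat_lit 83327737270) (nat_lit 152) (nat_lit 56474046496) (nat_lit 76) (nat_lit 1585953005402) (nat_lit 3) (nat_lit 5) (nat_lit 5) (nat_lit 5) (nat_lit 4) (nat_lit 4) (nat_lit 333) (nat_lit 274) (nat_lit 113))))) (XT.nd (nat_lit 32916) (nat_lit 0) (nat_lit 2660) (XT.nd (nat_lit 78) (nat_lit 0) (nat_lit 0)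 (XT.lf (nat_lit 0) (nat_lit 93834624093) (nat_lit 76) (nat_lit 61756931133) (nat_lit 152) (nat_lit 1701513179178) (nat_lit 2) (nat_lit 5) (nat_lit 3) (nat_lit 5) (nat_lit 4) (nat_lit 4) (nat_lit 334) (nat_lit 274) (nat_lit 112)) (XT.nd (nat_lit 78) (nat_lit 0) (nat_lit 0) (XT.lf (nat_lit 0) (nat_lit 235762517780) (nat_lit 152) (nat_lit 1740041516159) (nat_lit 0) (nat_lit 22988558247) (nat_lit 2) (nat_lit 5) (nat_lit 4) (nat_lit 4) (nat_lit 2) (nat_lit 4) (nat_lit 335) (nat_lit 274) (nat_lit 111)) (XT.lf (nat_lit 0) (nat_lit 323951186057) (nat_lit 152) (nat_lit 1716558799939) (nat_lit 0) (nat_lit 111177170352) (nat_lit 2) (nat_lit 5) (nat_lit 4) (nat_lit 4) (nat_lit 2) (nat_lit 4) (nat_lit 336) (nat_lit 274) (nat_lit 110)))) (XT.nd (nat_lit 156) (nat_lit 0) (nat_lit 76) (XT.nd (nat_lit 78) (nat_lit 0) (nat_lit 0) (XT.lf (nat_lit 0) (nat_lit 12827067588) (nat_lit 532) (nat_lit 8740359210)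 (nat_lit 532) (nat_lit 8740359210) (nat_lit 37) (nat_lit 3) (nat_lit 44) (nat_lit 3) (nat_lit 44) (nat_lit 5) (nat_lit 275) (nat_lit 275) (nat_lit 170)) (XT.lf (nat_lit 76) (nat_lit 9291825313) (nat_lit 0) (nat_lit 17627914400) (nat_lit 532) (nat_lit 36101223788) (nat_lit 38) (nat_lit 5) (nat_lit 37) (nat_lit 3) (nat_lit 44) (nat_lit 5) (nat_lit 276) (nat_lit 275) (nat_lit 169))) (XT.nd (nat_lit 78) (nat_lit 0) (nat_lit 0) (XT.lf (nat_lit 0) (nat_lit 29013924209) (nat_lit 456) (nat_lit 26632280527) (nat_lit 532) (nat_lit 9914402669) (nat_lit 38) (nat_lit 5) (nat_lit 44) (nat_lit 5) (nat_lit 45) (nat_lit 5) (nat_lit 277) (nat_lit 275) (nat_lit 168)) (XT.lf (nat_lit 76) (nat_lit 2287921437) (nat_lit 0) (nat_lit 29499130478) (nat_lit 532) (nat_lit 36475465298) (nat_lit 39) (nat_lit 5) (nat_lit 38) (nat_lit 5) (nat_lit 45) (nat_lit 5) (nat_lit 278) (nat_lit 275) (nat_lit 167)))))) (XT.nd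 (nat_lit 546) (nat_lit 608) (nat_lit 0) (XT.nd (nat_lit 234) (nat_lit 532) (nat_lit 0) (XT.nd (nat_lit 78) (nat_lit 0) (nat_lit 76) (XT.lf (nat_lit 76) (nat_lit 35035378452) (nat_lit 0) (nat_lit 473427888) (nat_lit 532) (nat_lit 35613637885) (nat_lit 39) (nat_lit 5) (nat_lit 38) (nat_lit 5) (nat_lit 45) (nat_lit 5) (nat_lit 279) (nat_lit 275) (nat_lit 166)) (XT.nd (nat_lit 78) (nat_lit 0) (nat_lit 0) (XT.lf (nat_lit 0) (nat_lit 40269545459) (nat_lit 456) (nat_lit 4552072212) (nat_lit 532) (nat_lit 29330254238) (nat_lit 39) (nat_lit 5) (nat_lit 45) (nat_lit 5) (nat_lit 46) (nat_lit 5) (nat_lit 280) (nat_lit 275) (nat_lit 165)) (XT.lf (nat_lit 76) (nat_lit 31045510586) (nat_lit 0) (nat_lit 15123386278) (nat_lit 532) (nat_lit 31194142299) (nat_lit 40) (nat_lit 5) (nat_lit 39) (nat_lit 5) (nat_lit 46) (nat_lit 5) (nat_lit 281) (nat_lit 275) (nat_lit 164)))) (XT.nd (nat_lit 156) (nat_lit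 228) (nat_lit 0) (XT.nd (nat_lit 78) (nat_lit 456) (nat_lit 0) (XT.lf (nat_lit 0) (nat_lit 53074437970) (nat_lit 456) (nat_lit 11483272070) (nat_lit 76) (nat_lit 16230655624) (nat_lit 40) (nat_lit 5) (nat_lit 46) (nat_lit 5) (nat_lit 41) (nat_lit 5) (nat_lit 282) (nat_lit 275) (nat_lit 163)) (XT.lf (nat_lit 0) (nat_lit 27099604675) (nat_lit 456) (nat_lit 34476344121) (nat_lit 532) (nat_lit 22828292182) (nat_lit 34) (nat_lit 5) (nat_lit 40) (nat_lit 5) (nat_lit 41) (nat_lit 5) (nat_lit 283) (nat_lit 275) (nat_lit 162))) (XT.nd (nat_lit 78) (nat_lit 228) (nat_lit 0) (XT.lf (nat_lit 0) (nat_lit 69421262106) (nat_lit 456) (nat_lit 1649311148) (nat_lit 532) (nat_lit 17213778096) (nat_lit 34) (nat_lit 5) (nat_lit 40) (nat_lit 5) (nat_lit 41) (nat_lit 5) (nat_lit 284) (nat_lit 275) (nat_lit 161)) (XT.lf (nat_lit 0) (nat_lit 22989922496) (nat_lit 228) (nat_lit 59699831452) (nat_lit 304) (nat_lit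 9675921821) (nat_lit 31) (nat_lit 5) (nat_lit 34) (nat_lit 5) (nat_lit 35) (nat_lit 5) (nat_lit 285) (nat_lit 275) (nat_lit 160))))) (XT.nd (nat_lit 234) (nat_lit 380) (nat_lit 0) (XT.nd (nat_lit 78) (nat_lit 228) (nat_lit 0) (XT.lf (nat_lit 0) (nat_lit 69217940192) (nat_lit 228) (nat_lit 26577173230) (nat_lit 304) (nat_lit 933864993) (nat_lit 31) (nat_lit 5) (nat_lit 34) (nat_lit 5) (nat_lit 35) (nat_lit 5) (nat_lit 286) (nat_lit 275) (nat_lit 159)) (XT.nd (nat_lit 78) (nat_lit 0) (nat_lit 0) (XT.lf (nat_lit 0) (nat_lit 8762090203) (nat_lit 228) (nat_lit 83208826751) (nat_lit 76) (nat_lit 9399653735) (nat_lit 28) (nat_lit 5) (nat_lit 31) (nat_lit 5) (nat_lit 29) (nat_lit 5) (nat_lit 287) (nat_lit 275) (nat_lit 158)) (XT.lf (nat_lit 0) (nat_lit 20644540594) (nat_lit 228) (nat_lit 38005420252) (nat_lit 76) (nat_lit 47614690292) (nat_lit 28) (nat_lit 5) (nat_lit 31) (nat_lit 5) (nat_lit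 29) (nat_lit 5) (nat_lit 288) (nat_lit 275) (nat_lit 157)))) (XT.nd (nat_lit 156) (nat_lit 152) (nat_lit 0) (XT.nd (nat_lit 78) (nat_lit 0) (nat_lit 0) (XT.lf (nat_lit 0) (nat_lit 11382820156) (nat_lit 228) (nat_lit 22367799274) (nat_lit 304) (nat_lit 77777798804) (nat_lit 25) (nat_lit 5) (nat_lit 28) (nat_lit 5) (nat_lit 29) (nat_lit 5) (nat_lit 289) (nat_lit 275) (nat_lit 156)) (XT.lf (nat_lit 0) (nat_lit 49375063952) (nat_lit 304) (nat_lit 50678958628) (nat_lit 76) (nat_lit 17041676367) (nat_lit 25) (nat_lit 5) (nat_lit 29) (nat_lit 5) (nat_lit 26) (nat_lit 5) (nat_lit 290) (nat_lit 275) (nat_lit 155))) (XT.nd (nat_lit 78) (nat_lit 0) (nat_lit 0) (XT.lf (nat_lit 0) (nat_lit 2277120346) (nat_lit 152) (nat_lit 64607447330) (nat_lit 228) (nat_lit 56172988554) (nat_lit 23) (nat_lit 5) (nat_lit 25) (nat_lit 5) (nat_lit 26) (nat_lit 5) (nat_lit 291) (nat_lit 275) (nat_lit 154)) (XT.lf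 (nat_lit 0) (nat_lit 62351043081) (nat_lit 152) (nat_lit 24828826591) (nat_lit 228) (nat_lit 42205691614) (nat_lit 23) (nat_lit 5) (nat_lit 25) (nat_lit 5) (nat_lit 26) (nat_lit 5) (nat_lit 292) (nat_lit 275) (nat_lit 153))))))))
noncomputable def xc105 : XT := (XT.nd (nat_lit 2028) (nat_lit 304) (nat_lit 0) (XT.nd (nat_lit 1014) (nat_lit 456) (nat_lit 0) (XT.nd (nat_lit 468) (nat_lit 304) (nat_lit 0) (XT.nd (nat_lit 234) (nat_lit 304) (nat_lit 0) (XT.nd (nat_lit 78) (nat_lit 228) (nat_lit 0) (XT.lf (nat_lit 0) (nat_lit 109534299710) (nat_lit 228) (nat_lit 9425788215) (nat_lit 76) (nat_lit 17224880572) (nat_lit 23) (nat_lit 5) (nat_lit 26) (nat_lit 5) (nat_lit 24) (nat_lit 5) (nat_lit 293) (nat_lit 275) (nat_lit 152)) (XT.nd (nat_lit 78) (nat_lit 76) (nat_lit 0) (XT.lf (nat_lit 0) (nat_lit 54891926068) (nat_lit 152) (nat_lit 80749684100) (nat_lit 228) (nat_lit 7729557946) (nat_lit 21)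 (nat_lit 5) (nat_lit 23) (nat_lit 5) (nat_lit 24) (nat_lit 5) (nat_lit 294) (nat_lit 275) (nat_lit 151)) (XT.lf (nat_lit 0) (nat_lit 12333562531) (nat_lit 228) (nat_lit 26533527983) (nat_lit 76) (nat_lit 112219618839) (nat_lit 20) (nat_lit 5) (nat_lit 23) (nat_lit 5) (nat_lit 21) (nat_lit 5) (nat_lit 295) (nat_lit 275) (nat_lit 150)))) (XT.nd (nat_lit 78) (nat_lit 152) (nat_lit 0) (XT.lf (nat_lit 0) (nat_lit 34785249257) (nat_lit 228) (nat_lit 117225366086) (nat_lit 76) (nat_lit 7296729566) (nat_lit 18) (nat_lit 5) (nat_lit 21) (nat_lit 5) (nat_lit 19) (nat_lit 5) (nat_lit 296) (nat_lit 275) (nat_lit 149)) (XT.nd (nat_lit 78) (nat_lit 152) (nat_lit 0) (XT.lf (nat_lit 0) (nat_lit 60786453430) (nat_lit 228) (nat_lit 51460958982) (nat_lit 76) (nat_lit 55797949699) (nat_lit 18) (nat_lit 5) (nat_lit 21) (nat_lit 5) (nat_lit 19) (nat_lit 5) (nat_lit 297) (nat_lit 275) (nat_lit 148)) (XT.lf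 (nat_lit 0) (nat_lit 20594156882) (nat_lit 152) (nat_lit 68768452342) (nat_lit 228) (nat_lit 88080224343) (nat_lit 16) (nat_lit 5) (nat_lit 18) (nat_lit 5) (nat_lit 19) (nat_lit 5) (nat_lit 298) (nat_lit 275) (nat_lit 147))))) (XT.nd (nat_lit 234) (nat_lit 228) (nat_lit 0) (XT.nd (nat_lit 78) (nat_lit 76) (nat_lit 0) (XT.lf (nat_lit 0) (nat_lit 101339681787) (nat_lit 152) (nat_lit 20291791860) (nat_lit 228) (nat_lit 65848101001) (nat_lit 16) (nat_lit 5) (nat_lit 18) (nat_lit 5) (nat_lit 19) (nat_lit 5) (nat_lit 299) (nat_lit 275) (nat_lit 146)) (XT.nd (nat_lit 78) (nat_lit 76) (nat_lit 0) (XT.lf (nat_lit 0) (nat_lit 157252571728) (nat_lit 228) (nat_lit 10546133454) (nat_lit 76) (nat_lit 30458892988) (nat_lit 16) (nat_lit 5) (nat_lit 19) (nat_lit 5) (nat_lit 17) (nat_lit 4) (nat_lit 300) (nat_lit 275) (nat_lit 145)) (XT.lf (nat_lit 0) (nat_lit 74283460843) (nat_lit 76) (nat_lit 123753112904)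 (nat_lit 152) (nat_lit 11676233571) (nat_lit 15) (nat_lit 5) (nat_lit 16) (nat_lit 5) (nat_lit 17) (nat_lit 4) (nat_lit 301) (nat_lit 275) (nat_lit 144)))) (XT.nd (nat_lit 156) (nat_lit 0) (nat_lit 0) (XT.nd (nat_lit 78) (nat_lit 152) (nat_lit 0) (XT.lf (nat_lit 0) (nat_lit 19293919365) (nat_lit 152) (nat_lit 56051208648) (nat_lit 76) (nat_lit 146677189760) (nat_lit 14) (nat_lit 5) (nat_lit 16) (nat_lit 5) (nat_lit 15) (nat_lit 5) (nat_lit 302) (nat_lit 275) (nat_lit 143)) (XT.lf (nat_lit 0) (nat_lit 30920122120) (nat_lit 152) (nat_lit 21934039944) (nat_lit 228) (nat_lit 182378701722) (nat_lit 12) (nat_lit 5) (nat_lit 14) (nat_lit 5) (nat_lit 15) (nat_lit 5) (nat_lit 303) (nat_lit 275) (nat_lit 142))) (XT.nd (nat_lit 78) (nat_lit 0) (nat_lit 0) (XT.lf (nat_lit 0) (nat_lit 91531031819) (nat_lit 228) (nat_lit 122240939387) (nat_lit 76) (nat_lit 35533738420) (nat_lit 12) (nat_lit 5) (nat_lit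 15) (nat_lit 5) (nat_lit 13) (nat_lit 4) (nat_lit 304) (nat_lit 275) (nat_lit 141)) (XT.lf (nat_lit 0) (nat_lit 133871465779) (nat_lit 228) (nat_lit 34173605742) (nat_lit 76) (nat_lit 96413759145) (nat_lit 12) (nat_lit 5) (nat_lit 15) (nat_lit 5) (nat_lit 13) (nat_lit 4) (nat_lit 305) (nat_lit 275) (nat_lit 140)))))) (XT.nd (nat_lit 468) (nat_lit 228) (nat_lit 0) (XT.nd (nat_lit 234) (nat_lit 152) (nat_lit 0) (XT.nd (nat_lit 78) (nat_lit 0) (nat_lit 0) (XT.lf (nat_lit 0) (nat_lit 64147575477) (nat_lit 76) (nat_lit 116994031287) (nat_lit 152) (nat_lit 99559197491) (nat_lit 11) (nat_lit 5) (nat_lit 12) (nat_lit 5) (nat_lit 13) (nat_lit 4) (nat_lit 306) (nat_lit 275) (nat_lit 139)) (XT.nd (nat_lit 78) (nat_lit 0) (nat_lit 0) (XT.lf (nat_lit 0) (nat_lit 172277485455) (nat_lit 76) (nat_lit 60849971917) (nat_lit 152) (nat_lit 65039951093) (nat_lit 11) (nat_lit 5) (nat_lit 12) (nat_lit 5)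 (nat_lit 13) (nat_lit 4) (nat_lit 307) (nat_lit 275) (nat_lit 138)) (XT.lf (nat_lit 0) (nat_lit 289057372510) (nat_lit 76) (nat_lit 214554816) (nat_lit 152) (nat_lit 27759434139) (nat_lit 11) (nat_lit 5) (nat_lit 12) (nat_lit 5) (nat_lit 13) (nat_lit 4) (nat_lit 308) (nat_lit 275) (nat_lit 137)))) (XT.nd (nat_lit 78) (nat_lit 0) (nat_lit 0) (XT.lf (nat_lit 0) (nat_lit 15467717721) (nat_lit 152) (nat_lit 257298259696) (nat_lit 76) (nat_lit 64327223324) (nat_lit 9) (nat_lit 5) (nat_lit 11) (nat_lit 5) (nat_lit 10) (nat_lit 4) (nat_lit 309) (nat_lit 275) (nat_lit 136)) (XT.nd (nat_lit 78) (nat_lit 0) (nat_lit 0) (XT.lf (nat_lit 0) (nat_lit 61443376630) (nat_lit 152) (nat_lit 161669373762) (nat_lit 76) (nat_lit 135526350041) (nat_lit 9) (nat_lit 5) (nat_lit 11) (nat_lit 5) (nat_lit 10) (nat_lit 4) (nat_lit 310) (nat_lit 275) (nat_lit 135)) (XT.lf (nat_lit 0) (nat_lit 111096873093) (nat_lit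 152) (nat_lit 58390549818) (nat_lit 76) (nat_lit 212421266810) (nat_lit 9) (nat_lit 5) (nat_lit 11) (nat_lit 5) (nat_lit 10) (nat_lit 4) (nat_lit 311) (nat_lit 275) (nat_lit 134))))) (XT.nd (nat_lit 234) (nat_lit 152) (nat_lit 0) (XT.nd (nat_lit 78) (nat_lit 0) (nat_lit 0) (XT.lf (nat_lit 0) (nat_lit 55949031968) (nat_lit 76) (nat_lit 110118993648) (nat_lit 152) (nat_lit 240864190807) (nat_lit 8) (nat_lit 5) (nat_lit 9) (nat_lit 5) (nat_lit 10) (nat_lit 4) (nat_lit 312) (nat_lit 275) (nat_lit 133)) (XT.nd (nat_lit 78) (nat_lit 0) (nat_lit 0) (XT.lf (nat_lit 0) (nat_lit 182756166100) (nat_lit 76) (nat_lit 44277012795) (nat_lit 152) (nat_lit 206796742035) (nat_lit 8) (nat_lit 5) (nat_lit 9) (nat_lit 5) (nat_lit 10) (nat_lit 4) (nat_lit 313) (nat_lit 275) (nat_lit 132)) (XT.lf (nat_lit 0) (nat_lit 293520681036) (nat_lit 152) (nat_lit 143817211896) (nat_lit 0) (nat_lit 25489938263) (nat_lit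 8) (nat_lit 5) (nat_lit 10) (nat_lit 4) (nat_lit 8) (nat_lit 4) (nat_lit 314) (nat_lit 275) (nat_lit 131)))) (XT.nd (nat_lit 156) (nat_lit 76) (nat_lit 0) (XT.nd (nat_lit 78) (nat_lit 76) (nat_lit 0) (XT.lf (nat_lit 0) (nat_lit 366477067573) (nat_lit 152) (nat_lit 29130496846) (nat_lit 0) (nat_lit 98446019423) (nat_lit 8) (nat_lit 5) (nat_lit 10) (nat_lit 4) (nat_lit 8) (nat_lit 4) (nat_lit 315) (nat_lit 275) (nat_lit 130)) (XT.lf (nat_lit 0) (nat_lit 99719238704) (nat_lit 76) (nat_lit 347948820813) (nat_lit 76) (nat_lit 79917489906) (nat_lit 7) (nat_lit 4) (nat_lit 8) (nat_lit 5) (nat_lit 8) (nat_lit 4) (nat_lit 316) (nat_lit 275) (nat_lit 129))) (XT.nd (nat_lit 78) (nat_lit 76) (nat_lit 0) (XT.lf (nat_lit 0) (nat_lit 240533360389) (nat_lit 76) (nat_lit 295617299265) (nat_lit 76) (nat_lit 27585706547) (nat_lit 7) (nat_lit 4) (nat_lit 8) (nat_lit 5) (nat_lit 8) (nat_lit 4) (nat_lit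 317) (nat_lit 275) (nat_lit 128)) (XT.lf (nat_lit 0) (nat_lit 27485149411) (nat_lit 152) (nat_lit 210862724360) (nat_lit 76) (nat_lit 364375719816) (nat_lit 6) (nat_lit 5) (nat_lit 8) (nat_lit 5) (nat_lit 7) (nat_lit 4) (nat_lit 318) (nat_lit 275) (nat_lit 127))))))) (XT.nd (nat_lit 1014) (nat_lit 152) (nat_lit 0) (XT.nd (nat_lit 468) (nat_lit 76) (nat_lit 0) (XT.nd (nat_lit 234) (nat_lit 0) (nat_lit 0) (XT.nd (nat_lit 78) (nat_lit 76) (nat_lit 0) (XT.lf (nat_lit 0) (nat_lit 85471196528) (nat_lit 152) (nat_lit 90251970818) (nat_lit 76) (nat_lit 469049321688) (nat_lit 6) (nat_lit 5) (nat_lit 8) (nat_lit 5) (nat_lit 7) (nat_lit 4) (nat_lit 319) (nat_lit 275) (nat_lit 126)) (XT.nd (nat_lit 78) (nat_lit 0) (nat_lit 0) (XT.lf (nat_lit 0) (nat_lit 42114142061) (nat_lit 76) (nat_lit 106994708657) (nat_lit 152) (nat_lit 540995427724) (nat_lit 5) (nat_lit 5) (nat_lit 6) (nat_lit 5) (nat_lit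 7) (nat_lit 4) (nat_lit 320) (nat_lit 275) (nat_lit 125)) (XT.lf (nat_lit 0) (nat_lit 190202038218) (nat_lit 76) (nat_lit 30103008940) (nat_lit 152) (nat_lit 518560161627) (nat_lit 5) (nat_lit 5) (nat_lit 6) (nat_lit 5) (nat_lit 7) (nat_lit 4) (nat_lit 321) (nat_lit 275) (nat_lit 124)))) (XT.nd (nat_lit 78) (nat_lit 0) (nat_lit 0) (XT.lf (nat_lit 0) (nat_lit 298470035986) (nat_lit 152) (nat_lit 442663462584) (nat_lit 0) (nat_lit 50291667414) (nat_lit 5) (nat_lit 5) (nat_lit 7) (nat_lit 4) (nat_lit 5) (nat_lit 4) (nat_lit 322) (nat_lit 275) (nat_lit 123)) (XT.nd (nat_lit 78) (nat_lit 0) (nat_lit 0) (XT.lf (nat_lit 0) (nat_lit 383670016325) (nat_lit 152) (nat_lit 328965865204) (nat_lit 0) (nat_lit 135491494989) (nat_lit 5) (nat_lit 5) (nat_lit 7) (nat_lit 4) (nat_lit 5) (nat_lit 4) (nat_lit 323) (nat_lit 275) (nat_lit 122)) (XT.lf (nat_lit 0) (nat_lit 475685898859) (nat_lit 152) (nat_lit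 206172636799) (nat_lit 0) (nat_lit 227507236074) (nat_lit 5) (nat_lit 5) (nat_lit 7) (nat_lit 4) (nat_lit 5) (nat_lit 4) (nat_lit 324) (nat_lit 275) (nat_lit 121))))) (XT.nd (nat_lit 234) (nat_lit 0) (nat_lit 0) (XT.nd (nat_lit 78) (nat_lit 76) (nat_lit 0) (XT.lf (nat_lit 0) (nat_lit 575062962892) (nat_lit 152) (nat_lit 73556113793) (nat_lit 0) (nat_lit 326884169136) (nat_lit 5) (nat_lit 5) (nat_lit 7) (nat_lit 4) (nat_lit 5) (nat_lit 4) (nat_lit 325) (nat_lit 275) (nat_lit 120)) (XT.nd (nat_lit 78) (nat_lit 0) (nat_lit 0) (XT.lf (nat_lit 0) (nat_lit 73338256097) (nat_lit 76) (nat_lit 610815640269) (nat_lit 76) (nat_lit 362636725244) (nat_lit 4) (nat_lit 4) (nat_lit 5) (nat_lit 5) (nat_lit 5) (nat_lit 4) (nat_lit 326) (nat_lit 275) (nat_lit 119)) (XT.lf (nat_lit 0) (nat_lit 236167229235) (nat_lit 76) (nat_lit 567815949843) (nat_lit 76) (nat_lit 319636922530) (nat_lit 4) (nat_lit 4)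 (nat_lit 5) (nat_lit 5) (nat_lit 5) (nat_lit 4) (nat_lit 327) (nat_lit 275) (nat_lit 118)))) (XT.nd (nat_lit 156) (nat_lit 0) (nat_lit 0) (XT.nd (nat_lit 78) (nat_lit 0) (nat_lit 0) (XT.lf (nat_lit 0) (nat_lit 412022383455) (nat_lit 76) (nat_lit 521376346929) (nat_lit 76) (nat_lit 273197215647) (nat_lit 4) (nat_lit 4) (nat_lit 5) (nat_lit 5) (nat_lit 5) (nat_lit 4) (nat_lit 328) (nat_lit 275) (nat_lit 117)) (XT.lf (nat_lit 0) (nat_lit 601945823375) (nat_lit 76) (nat_lit 471221633881) (nat_lit 76) (nat_lit 223042406332) (nat_lit 4) (nat_lit 4) (nat_lit 5) (nat_lit 5) (nat_lit 5) (nat_lit 4) (nat_lit 329) (nat_lit 275) (nat_lit 116))) (XT.nd (nat_lit 78) (nat_lit 0) (nat_lit 0) (XT.lf (nat_lit 0) (nat_lit 807063021230) (nat_lit 76) (nat_lit 417054597584) (nat_lit 76) (nat_lit 168875280898) (nat_lit 4) (nat_lit 4) (nat_lit 5) (nat_lit 5) (nat_lit 5) (nat_lit 4) (nat_lit 330) (nat_lit 275)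 (nat_lit 115)) (XT.lf (nat_lit 0) (nat_lit 1028589486341) (nat_lit 76) (nat_lit 358554248193) (nat_lit 76) (nat_lit 110374848973) (nat_lit 4) (nat_lit 4) (nat_lit 5) (nat_lit 5) (nat_lit 5) (nat_lit 4) (nat_lit 331) (nat_lit 275) (nat_lit 114)))))) (XT.nd (nat_lit 33384) (nat_lit 0) (nat_lit 2432) (XT.nd (nat_lit 234) (nat_lit 76) (nat_lit 0) (XT.nd (nat_lit 78) (nat_lit 76) (nat_lit 0) (XT.lf (nat_lit 0) (nat_lit 1267837968132) (nat_lit 76) (nat_lit 295373916972) (nat_lit 76) (nat_lit 47194441332) (nat_lit 4) (nat_lit 4) (nat_lit 5) (nat_lit 5) (nat_lit 5) (nat_lit 4) (nat_lit 332) (nat_lit 275) (nat_lit 113)) (XT.nd (nat_lit 78) (nat_lit 0) (nat_lit 0) (XT.lf (nat_lit 0) (nat_lit 19987821198) (nat_lit 152) (nat_lit 206604878307) (nat_lit 76) (nat_lit 1505691911732) (nat_lit 3) (nat_lit 5) (nat_lit 5) (nat_lit 5) (nat_lit 4) (nat_lit 4) (nat_lit 333) (nat_lit 275) (nat_lit 112)) (XT.lf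 (nat_lit 0) (nat_lit 89994891150) (nat_lit 152) (nat_lit 60990238325) (nat_lit 76) (nat_lit 1712829966868) (nat_lit 3) (nat_lit 5) (nat_lit 5) (nat_lit 5) (nat_lit 4) (nat_lit 4) (nat_lit 334) (nat_lit 275) (nat_lit 111)))) (XT.nd (nat_lit 32994) (nat_lit 0) (nat_lit 2660) (XT.nd (nat_lit 32916) (nat_lit 0) (nat_lit 2660) (XT.lf (nat_lit 0) (nat_lit 101343082066) (nat_lit 76) (nat_lit 66696703822) (nat_lit 152) (nat_lit 1837633253688) (nat_lit 2) (nat_lit 5) (nat_lit 3) (nat_lit 5) (nat_lit 4) (nat_lit 4) (nat_lit 335) (nat_lit 275) (nat_lit 110)) (XT.lf (nat_lit 0) (nat_lit 13868819411) (nat_lit 532) (nat_lit 9431134066) (nat_lit 532) (nat_lit 9431134066) (nat_lit 37) (nat_lit 3) (nat_lit 44) (nat_lit 3) (nat_lit 44) (nat_lit 5) (nat_lit 276) (nat_lit 276) (nat_lit 168))) (XT.nd (nat_lit 78) (nat_lit 0) (nat_lit 76) (XT.lf (nat_lit 76) (nat_lit 10051651055) (nat_lit 0) (nat_lit 19050927906)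 (nat_lit 532) (nat_lit 38957582977) (nat_lit 38) (nat_lit 5) (nat_lit 37) (nat_lit 3) (nat_lit 44) (nat_lit 5) (nat_lit 277) (nat_lit 276) (nat_lit 167)) (XT.lf (nat_lit 0) (nat_lit 31361846204) (nat_lit 456) (nat_lit 28745024332) (nat_lit 532) (nat_lit 10696313190) (nat_lit 38) (nat_lit 5) (nat_lit 44) (nat_lit 5) (nat_lit 45) (nat_lit 5) (nat_lit 278) (nat_lit 276) (nat_lit 166))))) (XT.nd (nat_lit 234) (nat_lit 304) (nat_lit 0) (XT.nd (nat_lit 78) (nat_lit 0) (nat_lit 0) (XT.lf (nat_lit 76) (nat_lit 2488342178) (nat_lit 0) (nat_lit 31866914324) (nat_lit 532) (nat_lit 39366124679) (nat_lit 39) (nat_lit 5) (nat_lit 38) (nat_lit 5) (nat_lit 45) (nat_lit 5) (nat_lit 279) (nat_lit 276) (nat_lit 165)) (XT.nd (nat_lit 78) (nat_lit 0) (nat_lit 76) (XT.lf (nat_lit 76) (nat_lit 37854307827) (nat_lit 0) (nat_lit 518573793) (nat_lit 532) (nat_lit 38437379061) (nat_lit 39) (nat_lit 5) (nat_lit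 38) (nat_lit 5) (nat_lit 45) (nat_lit 5) (nat_lit 280) (nat_lit 276) (nat_lit 164)) (XT.lf (nat_lit 0) (nat_lit 43512586771) (nat_lit 456) (nat_lit 4899337003) (nat_lit 532) (nat_lit 31670278359) (nat_lit 39) (nat_lit 5) (nat_lit 45) (nat_lit 5) (nat_lit 46) (nat_lit 5) (nat_lit 281) (nat_lit 276) (nat_lit 163)))) (XT.nd (nat_lit 156) (nat_lit 380) (nat_lit 0) (XT.nd (nat_lit 78) (nat_lit 0) (nat_lit 76) (XT.lf (nat_lit 76) (nat_lit 33545624546) (nat_lit 0) (nat_lit 16337066982) (nat_lit 532) (nat_lit 33667674325) (nat_lit 40) (nat_lit 5) (nat_lit 39) (nat_lit 5) (nat_lit 46) (nat_lit 5) (nat_lit 282) (nat_lit 276) (nat_lit 162)) (XT.lf (nat_lit 0) (nat_lit 57339088646) (nat_lit 456) (nat_lit 12385006815) (nat_lit 76) (nat_lit 17525756944) (nat_lit 40) (nat_lit 5) (nat_lit 46) (nat_lit 5) (nat_lit 41) (nat_lit 5) (nat_lit 283) (nat_lit 276) (nat_lit 161))) (XT.nd (nat_lit 78) (nat_lit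 0) (nat_lit 0) (XT.lf (nat_lit 0) (nat_lit 29284071537) (nat_lit 456) (nat_lit 37235660728) (nat_lit 532) (nat_lit 24635350960) (nat_lit 34) (nat_lit 5) (nat_lit 40) (nat_lit 5) (nat_lit 41) (nat_lit 5) (nat_lit 284) (nat_lit 276) (nat_lit 160)) (XT.lf (nat_lit 0) (nat_lit 74990239452) (nat_lit 456) (nat_lit 1782375555) (nat_lit 532) (nat_lit 18573098309) (nat_lit 34) (nat_lit 5) (nat_lit 40) (nat_lit 5) (nat_lit 41) (nat_lit 5) (nat_lit 285) (nat_lit 276) (nat_lit 159))))))))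
noncomputable def xc106 : XT := (XT.nd (nat_lit 2028) (nat_lit 456) (nat_lit 0) (XT.nd (nat_lit 1014) (nat_lit 684) (nat_lit 0) (XT.nd (nat_lit 468) (nat_lit 532) (nat_lit 0) (XT.nd (nat_lit 234) (nat_lit 228) (nat_lit 0) (XT.nd (nat_lit 78) (nat_lit 228) (nat_lit 0) (XT.lf (nat_lit 0) (nat_lit 24845383221) (nat_lit 228) (nat_lit 64475098715) (nat_lit 304) (nat_lit 10433135127) (nat_lit 31) (nat_lit 5) (nat_lit 34) (nat_lit 5) (nat_lit 35) (nat_lit 5) (nat_lit 286) (nat_lit 276) (nat_lit 158)) (XT.nd (nat_lit 78) (nat_lit 228) (nat_lit 0) (XT.lf (nat_lit 0) (nat_lit 74770437376) (nat_lit 228) (nat_lit 28702681113) (nat_lit 304) (nat_lit 992962674) (nat_lit 31) (nat_lit 5) (nat_lit 34) (nat_lit 5) (nat_lit 35) (nat_lit 5) (nat_lit 287) (nat_lit 276) (nat_lit 157)) (XT.lf (nat_lit 0) (nat_lit 9477195731) (nat_lit 228) (nat_lit 89848883862) (nat_lit 76) (nat_lit 10152950950) (nat_lit 28)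 (nat_lit 5) (nat_lit 31) (nat_lit 5) (nat_lit 29) (nat_lit 5) (nat_lit 288) (nat_lit 276) (nat_lit 156)))) (XT.nd (nat_lit 78) (nat_lit 228) (nat_lit 0) (XT.lf (nat_lit 0) (nat_lit 22309194871) (nat_lit 228) (nat_lit 41030438104) (nat_lit 76) (nat_lit 51425092290) (nat_lit 28) (nat_lit 5) (nat_lit 31) (nat_lit 5) (nat_lit 29) (nat_lit 5) (nat_lit 289) (nat_lit 276) (nat_lit 155)) (XT.nd (nat_lit 78) (nat_lit 0) (nat_lit 0) (XT.lf (nat_lit 0) (nat_lit 12308471264) (nat_lit 228) (nat_lit 24154680407) (nat_lit 304) (nat_lit 83986494479) (nat_lit 25) (nat_lit 5) (nat_lit 28) (nat_lit 5) (nat_lit 29) (nat_lit 5) (nat_lit 290) (nat_lit 276) (nat_lit 154)) (XT.lf (nat_lit 0) (nat_lit 53336683736) (nat_lit 304) (nat_lit 54718451351) (nat_lit 76) (nat_lit 18407247150) (nat_lit 25) (nat_lit 5) (nat_lit 29) (nat_lit 5) (nat_lit 26) (nat_lit 5) (nat_lit 291) (nat_lit 276) (nat_lit 153))))) (XT.nd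 (nat_lit 234) (nat_lit 380) (nat_lit 0) (XT.nd (nat_lit 78) (nat_lit 0) (nat_lit 0) (XT.lf (nat_lit 0) (nat_lit 2473738650) (nat_lit 152) (nat_lit 69772696253) (nat_lit 228) (nat_lit 60654797447) (nat_lit 23) (nat_lit 5) (nat_lit 25) (nat_lit 5) (nat_lit 26) (nat_lit 5) (nat_lit 292) (nat_lit 276) (nat_lit 152)) (XT.nd (nat_lit 78) (nat_lit 0) (nat_lit 0) (XT.lf (nat_lit 0) (nat_lit 67352504932) (nat_lit 152) (nat_lit 26812033770) (nat_lit 228) (nat_lit 45571007877) (nat_lit 23) (nat_lit 5) (nat_lit 25) (nat_lit 5) (nat_lit 26) (nat_lit 5) (nat_lit 293) (nat_lit 276) (nat_lit 151)) (XT.lf (nat_lit 0) (nat_lit 118306630711) (nat_lit 228) (nat_lit 10166736934) (nat_lit 76) (nat_lit 18605596875) (nat_lit 23) (nat_lit 5) (nat_lit 26) (nat_lit 5) (nat_lit 24) (nat_lit 5) (nat_lit 294) (nat_lit 276) (nat_lit 150)))) (XT.nd (nat_lit 156) (nat_lit 152) (nat_lit 0) (XT.nd (nat_lit 78) (nat_lit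 76) (nat_lit 0) (XT.lf (nat_lit 0) (nat_lit 59296062483) (nat_lit 152) (nat_lit 87206060788) (nat_lit 228) (nat_lit 8337971610) (nat_lit 21) (nat_lit 5) (nat_lit 23) (nat_lit 5) (nat_lit 24) (nat_lit 5) (nat_lit 295) (nat_lit 276) (nat_lit 149)) (XT.lf (nat_lit 0) (nat_lit 13329000481) (nat_lit 228) (nat_lit 28643886436) (nat_lit 76) (nat_lit 121200031567) (nat_lit 20) (nat_lit 5) (nat_lit 23) (nat_lit 5) (nat_lit 21) (nat_lit 5) (nat_lit 296) (nat_lit 276) (nat_lit 148))) (XT.nd (nat_lit 78) (nat_lit 0) (nat_lit 0) (XT.lf (nat_lit 0) (nat_lit 37576549683) (nat_lit 228) (nat_lit 126590773771) (nat_lit 76) (nat_lit 7883905255) (nat_lit 18) (nat_lit 5) (nat_lit 21) (nat_lit 5) (nat_lit 19) (nat_lit 5) (nat_lit 297) (nat_lit 276) (nat_lit 147)) (XT.lf (nat_lit 0) (nat_lit 65657222007) (nat_lit 228) (nat_lit 55566149031) (nat_lit 76) (nat_lit 60264968382) (nat_lit 18) (nat_lit 5) (nat_lit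 21) (nat_lit 5) (nat_lit 19) (nat_lit 5) (nat_lit 298) (nat_lit 276) (nat_lit 146)))))) (XT.nd (nat_lit 468) (nat_lit 228) (nat_lit 0) (XT.nd (nat_lit 234) (nat_lit 304) (nat_lit 0) (XT.nd (nat_lit 78) (nat_lit 0) (nat_lit 0) (XT.lf (nat_lit 0) (nat_lit 22253080236) (nat_lit 152) (nat_lit 74266082324) (nat_lit 228) (nat_lit 95118472386) (nat_lit 16) (nat_lit 5) (nat_lit 18) (nat_lit 5) (nat_lit 19) (nat_lit 5) (nat_lit 299) (nat_lit 276) (nat_lit 145)) (XT.nd (nat_lit 78) (nat_lit 0) (nat_lit 0) (XT.lf (nat_lit 0) (nat_lit 109457403371) (nat_lit 152) (nat_lit 21911573908) (nat_lit 228) (nat_lit 71108384355) (nat_lit 16) (nat_lit 5) (nat_lit 18) (nat_lit 5) (nat_lit 19) (nat_lit 5) (nat_lit 300) (nat_lit 276) (nat_lit 144)) (XT.lf (nat_lit 0) (nat_lit 169839325049) (nat_lit 228) (nat_lit 11379601559) (nat_lit 76) (nat_lit 32898736973) (nat_lit 16) (nat_lit 5) (nat_lit 19) (nat_lit 5)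 (nat_lit 17) (nat_lit 4) (nat_lit 301) (nat_lit 276) (nat_lit 143)))) (XT.nd (nat_lit 78) (nat_lit 228) (nat_lit 0) (XT.lf (nat_lit 0) (nat_lit 80236101483) (nat_lit 76) (nat_lit 133649700369) (nat_lit 152) (nat_lit 12603508619) (nat_lit 15) (nat_lit 5) (nat_lit 16) (nat_lit 5) (nat_lit 17) (nat_lit 4) (nat_lit 302) (nat_lit 276) (nat_lit 142)) (XT.nd (nat_lit 78) (nat_lit 152) (nat_lit 0) (XT.lf (nat_lit 0) (nat_lit 20843435035) (nat_lit 152) (nat_lit 60525748770) (nat_lit 76) (nat_lit 158414424425) (nat_lit 14) (nat_lit 5) (nat_lit 16) (nat_lit 5) (nat_lit 15) (nat_lit 5) (nat_lit 303) (nat_lit 276) (nat_lit 141)) (XT.lf (nat_lit 0) (nat_lit 33403046521) (nat_lit 152) (nat_lit 23685230045) (nat_lit 228) (nat_lit 196962740101) (nat_lit 12) (nat_lit 5) (nat_lit 14) (nat_lit 5) (nat_lit 15) (nat_lit 5) (nat_lit 304) (nat_lit 276) (nat_lit 140))))) (XT.nd (nat_lit 234) (nat_lit 152) (nat_lit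 0) (XT.nd (nat_lit 78) (nat_lit 76) (nat_lit 0) (XT.lf (nat_lit 0) (nat_lit 98858946316) (nat_lit 228) (nat_lit 132011227611) (nat_lit 76) (nat_lit 38379545229) (nat_lit 12) (nat_lit 5) (nat_lit 15) (nat_lit 5) (nat_lit 13) (nat_lit 4) (nat_lit 305) (nat_lit 276) (nat_lit 139)) (XT.nd (nat_lit 78) (nat_lit 76) (nat_lit 0) (XT.lf (nat_lit 0) (nat_lit 144586212626) (nat_lit 228) (nat_lit 36899172973) (nat_lit 76) (nat_lit 104129737409) (nat_lit 12) (nat_lit 5) (nat_lit 15) (nat_lit 5) (nat_lit 13) (nat_lit 4) (nat_lit 306) (nat_lit 276) (nat_lit 138)) (XT.lf (nat_lit 0) (nat_lit 69287492080) (nat_lit 76) (nat_lit 126350295307) (nat_lit 152) (nat_lit 107518682167) (nat_lit 11) (nat_lit 5) (nat_lit 12) (nat_lit 5) (nat_lit 13) (nat_lit 4) (nat_lit 307) (nat_lit 276) (nat_lit 137)))) (XT.nd (nat_lit 156) (nat_lit 152) (nat_lit 0) (XT.nd (nat_lit 78) (nat_lit 0) (nat_lit 0) (XT.lf (nat_lit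 0) (nat_lit 186067194074) (nat_lit 76) (nat_lit 65714952557) (nat_lit 152) (nat_lit 70238285029) (nat_lit 11) (nat_lit 5) (nat_lit 12) (nat_lit 5) (nat_lit 13) (nat_lit 4) (nat_lit 308) (nat_lit 276) (nat_lit 136)) (XT.lf (nat_lit 0) (nat_lit 312188915813) (nat_lit 76) (nat_lit 228925578) (nat_lit 152) (nat_lit 29975686878) (nat_lit 11) (nat_lit 5) (nat_lit 12) (nat_lit 5) (nat_lit 13) (nat_lit 4) (nat_lit 309) (nat_lit 276) (nat_lit 135))) (XT.nd (nat_lit 78) (nat_lit 0) (nat_lit 0) (XT.lf (nat_lit 0) (nat_lit 16709332794) (nat_lit 152) (nat_lit 277874846008) (nat_lit 76) (nat_lit 69476134194) (nat_lit 9) (nat_lit 5) (nat_lit 11) (nat_lit 5) (nat_lit 10) (nat_lit 4) (nat_lit 310) (nat_lit 276) (nat_lit 134)) (XT.lf (nat_lit 0) (nat_lit 66362733478) (nat_lit 152) (nat_lit 174596188048) (nat_lit 76) (nat_lit 146370988604) (nat_lit 9) (nat_lit 5) (nat_lit 11) (nat_lit 5) (nat_lit 10)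 (nat_lit 4) (nat_lit 311) (nat_lit 276) (nat_lit 133))))))) (XT.nd (nat_lit 1014) (nat_lit 152) (nat_lit 0) (XT.nd (nat_lit 468) (nat_lit 152) (nat_lit 0) (XT.nd (nat_lit 234) (nat_lit 76) (nat_lit 0) (XT.nd (nat_lit 78) (nat_lit 76) (nat_lit 0) (XT.lf (nat_lit 0) (nat_lit 119988221753) (nat_lit 152) (nat_lit 63055557123) (nat_lit 76) (nat_lit 229417311265) (nat_lit 9) (nat_lit 5) (nat_lit 11) (nat_lit 5) (nat_lit 10) (nat_lit 4) (nat_lit 312) (nat_lit 276) (nat_lit 132)) (XT.nd (nat_lit 78) (nat_lit 0) (nat_lit 0) (XT.lf (nat_lit 0) (nat_lit 60431033315) (nat_lit 76) (nat_lit 118925912779) (nat_lit 152) (nat_lit 260129563024) (nat_lit 8) (nat_lit 5) (nat_lit 9) (nat_lit 5) (nat_lit 10) (nat_lit 4) (nat_lit 313) (nat_lit 276) (nat_lit 131)) (XT.lf (nat_lit 0) (nat_lit 197382287897) (nat_lit 76) (nat_lit 47816766077) (nat_lit 152) (nat_lit 223336997095) (nat_lit 8) (nat_lit 5) (nat_lit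 9) (nat_lit 5) (nat_lit 10) (nat_lit 4) (nat_lit 314) (nat_lit 276) (nat_lit 130)))) (XT.nd (nat_lit 78) (nat_lit 76) (nat_lit 0) (XT.lf (nat_lit 0) (nat_lit 317005371327) (nat_lit 152) (nat_lit 155317186867) (nat_lit 0) (nat_lit 27531251191) (nat_lit 8) (nat_lit 5) (nat_lit 10) (nat_lit 4) (nat_lit 8) (nat_lit 4) (nat_lit 315) (nat_lit 276) (nat_lit 129)) (XT.nd (nat_lit 78) (nat_lit 76) (nat_lit 0) (XT.lf (nat_lit 0) (nat_lit 395798043913) (nat_lit 152) (nat_lit 31455934760) (nat_lit 0) (nat_lit 106323661965) (nat_lit 8) (nat_lit 5) (nat_lit 10) (nat_lit 4) (nat_lit 8) (nat_lit 4) (nat_lit 316) (nat_lit 276) (nat_lit 128)) (XT.lf (nat_lit 0) (nat_lit 107701653006) (nat_lit 76) (nat_lit 375782571238) (nat_lit 76) (nat_lit 86307946872) (nat_lit 7) (nat_lit 4) (nat_lit 8) (nat_lit 5) (nat_lit 8) (nat_lit 4) (nat_lit 317) (nat_lit 276) (nat_lit 127))))) (XT.nd (nat_lit 234) (nat_lit 76)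 (nat_lit 0) (XT.nd (nat_lit 78) (nat_lit 76) (nat_lit 0) (XT.lf (nat_lit 0) (nat_lit 259780543298) (nat_lit 76) (nat_lit 319264687615) (nat_lit 76) (nat_lit 29789838787) (nat_lit 7) (nat_lit 4) (nat_lit 8) (nat_lit 5) (nat_lit 8) (nat_lit 4) (nat_lit 318) (nat_lit 276) (nat_lit 126)) (XT.nd (nat_lit 78) (nat_lit 0) (nat_lit 0) (XT.lf (nat_lit 0) (nat_lit 29686357664) (nat_lit 152) (nat_lit 227727432720) (nat_lit 76) (nat_lit 393527495285) (nat_lit 6) (nat_lit 5) (nat_lit 8) (nat_lit 5) (nat_lit 7) (nat_lit 4) (nat_lit 319) (nat_lit 276) (nat_lit 125)) (XT.lf (nat_lit 0) (nat_lit 92311111047) (nat_lit 152) (nat_lit 97468138123) (nat_lit 76) (nat_lit 506574858056) (nat_lit 6) (nat_lit 5) (nat_lit 8) (nat_lit 5) (nat_lit 7) (nat_lit 4) (nat_lit 320) (nat_lit 276) (nat_lit 124)))) (XT.nd (nat_lit 156) (nat_lit 0) (nat_lit 0) (XT.nd (nat_lit 78) (nat_lit 0) (nat_lit 0) (XT.lf (nat_lit 0)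 (nat_lit 45487162764) (nat_lit 76) (nat_lit 115552543990) (nat_lit 152) (nat_lit 584272738950) (nat_lit 5) (nat_lit 5) (nat_lit 6) (nat_lit 5) (nat_lit 7) (nat_lit 4) (nat_lit 321) (nat_lit 276) (nat_lit 123)) (XT.lf (nat_lit 0) (nat_lit 205421802515) (nat_lit 76) (nat_lit 32509637286) (nat_lit 152) (nat_lit 560042823638) (nat_lit 5) (nat_lit 5) (nat_lit 6) (nat_lit 5) (nat_lit 7) (nat_lit 4) (nat_lit 322) (nat_lit 276) (nat_lit 122))) (XT.nd (nat_lit 78) (nat_lit 0) (nat_lit 0) (XT.lf (nat_lit 0) (nat_lit 322349516316) (nat_lit 152) (nat_lit 478073090969) (nat_lit 0) (nat_lit 54316419060) (nat_lit 5) (nat_lit 5) (nat_lit 7) (nat_lit 4) (nat_lit 5) (nat_lit 4) (nat_lit 323) (nat_lit 276) (nat_lit 121)) (XT.lf (nat_lit 0) (nat_lit 414365356012) (nat_lit 152) (nat_lit 355279941253) (nat_lit 0) (nat_lit 146332127784) (nat_lit 5) (nat_lit 5) (nat_lit 7) (nat_lit 4) (nat_lit 5) (nat_lit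 4) (nat_lit 324) (nat_lit 276) (nat_lit 120)))))) (XT.nd (nat_lit 546) (nat_lit 76) (nat_lit 0) (XT.nd (nat_lit 234) (nat_lit 0) (nat_lit 0) (XT.nd (nat_lit 78) (nat_lit 76) (nat_lit 0) (XT.lf (nat_lit 0) (nat_lit 513742380380) (nat_lit 152) (nat_lit 222663491106) (nat_lit 0) (nat_lit 245709030882) (nat_lit 5) (nat_lit 5) (nat_lit 7) (nat_lit 4) (nat_lit 5) (nat_lit 4) (nat_lit 325) (nat_lit 276) (nat_lit 119)) (XT.nd (nat_lit 78) (nat_lit 76) (nat_lit 0) (XT.lf (nat_lit 0) (nat_lit 621069490305) (nat_lit 152) (nat_lit 79437865270) (nat_lit 0) (nat_lit 353036028521) (nat_lit 5) (nat_lit 5) (nat_lit 7) (nat_lit 4) (nat_lit 5) (nat_lit 4) (nat_lit 326) (nat_lit 276) (nat_lit 118)) (XT.lf (nat_lit 0) (nat_lit 79207984904) (nat_lit 76) (nat_lit 659679667327) (nat_lit 76) (nat_lit 391646101574) (nat_lit 4) (nat_lit 4) (nat_lit 5) (nat_lit 5) (nat_lit 5) (nat_lit 4) (nat_lit 327) (nat_lit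 276) (nat_lit 117)))) (XT.nd (nat_lit 156) (nat_lit 0) (nat_lit 0) (XT.nd (nat_lit 78) (nat_lit 0) (nat_lit 0) (XT.lf (nat_lit 0) (nat_lit 255063078240) (nat_lit 76) (nat_lit 613240092346) (nat_lit 76) (nat_lit 345206430325) (nat_lit 4) (nat_lit 4) (nat_lit 5) (nat_lit 5) (nat_lit 5) (nat_lit 4) (nat_lit 328) (nat_lit 276) (nat_lit 116)) (XT.lf (nat_lit 0) (nat_lit 444986461786) (nat_lit 76) (nat_lit 563085405160) (nat_lit 76) (nat_lit 295051654003) (nat_lit 4) (nat_lit 4) (nat_lit 5) (nat_lit 5) (nat_lit 5) (nat_lit 4) (nat_lit 329) (nat_lit 276) (nat_lit 115))) (XT.nd (nat_lit 78) (nat_lit 0) (nat_lit 0) (XT.lf (nat_lit 0) (nat_lit 650103607443) (nat_lit 76) (nat_lit 508918392811) (nat_lit 76) (nat_lit 240884559119) (nat_lit 4) (nat_lit 4) (nat_lit 5) (nat_lit 5) (nat_lit 5) (nat_lit 4) (nat_lit 330) (nat_lit 276) (nat_lit 114)) (XT.lf (nat_lit 0) (nat_lit 871630024223) (nat_lit 76)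 (nat_lit 450418065594) (nat_lit 76) (nat_lit 182384155482) (nat_lit 4) (nat_lit 4) (nat_lit 5) (nat_lit 5) (nat_lit 5) (nat_lit 4) (nat_lit 331) (nat_lit 276) (nat_lit 113))))) (XT.nd (nat_lit 234) (nat_lit 0) (nat_lit 0) (XT.nd (nat_lit 78) (nat_lit 76) (nat_lit 0) (XT.lf (nat_lit 0) (nat_lit 1110878461262) (nat_lit 76) (nat_lit 387237754904) (nat_lit 76) (nat_lit 119203774032) (nat_lit 4) (nat_lit 4) (nat_lit 5) (nat_lit 5) (nat_lit 5) (nat_lit 4) (nat_lit 332) (nat_lit 276) (nat_lit 112)) (XT.nd (nat_lit 78) (nat_lit 76) (nat_lit 0) (XT.lf (nat_lit 0) (nat_lit 1369266687077) (nat_lit 76) (nat_lit 319003058899) (nat_lit 76) (nat_lit 50969012510) (nat_lit 4) (nat_lit 4) (nat_lit 5) (nat_lit 5) (nat_lit 5) (nat_lit 4) (nat_lit 333) (nat_lit 276) (nat_lit 111)) (XT.lf (nat_lit 0) (nat_lit 21587712541) (nat_lit 152) (nat_lit 223131664968) (nat_lit 76) (nat_lit 1626147932294) (nat_lit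 3) (nat_lit 5) (nat_lit 5) (nat_lit 5) (nat_lit 4) (nat_lit 4) (nat_lit 334) (nat_lit 276) (nat_lit 110)))) (XT.nd (nat_lit 33072) (nat_lit 0) (nat_lit 2584) (XT.nd (nat_lit 32994) (nat_lit 0) (nat_lit 2584) (XT.lf (nat_lit 0) (nat_lit 97195283967) (nat_lit 152) (nat_lit 65867972573) (nat_lit 76) (nat_lit 1849856982387) (nat_lit 3) (nat_lit 5) (nat_lit 5) (nat_lit 5) (nat_lit 4) (nat_lit 4) (nat_lit 335) (nat_lit 276) (nat_lit 109)) (XT.lf (nat_lit 0) (nat_lit 14991687804) (nat_lit 532) (nat_lit 10178376951) (nat_lit 532) (nat_lit 10178376951) (nat_lit 37) (nat_lit 3) (nat_lit 44) (nat_lit 3) (nat_lit 44) (nat_lit 5) (nat_lit 277) (nat_lit 277) (nat_lit 166))) (XT.nd (nat_lit 78) (nat_lit 0) (nat_lit 76) (XT.lf (nat_lit 76) (nat_lit 10869911840) (nat_lit 0) (nat_lit 20585959232) (nat_lit 532) (nat_lit 42046978783) (nat_lit 38) (nat_lit 5) (nat_lit 37) (nat_lit 3) (nat_lit 44) (nat_lit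 5) (nat_lit 278) (nat_lit 277) (nat_lit 165)) (XT.lf (nat_lit 0) (nat_lit 33893777490) (nat_lit 456) (nat_lit 31029332522) (nat_lit 532) (nat_lit 11542380305) (nat_lit 38) (nat_lit 5) (nat_lit 44) (nat_lit 5) (nat_lit 45) (nat_lit 5) (nat_lit 279) (nat_lit 277) (nat_lit 164))))))))
noncomputable def xc107 : XT := (XT.nd (nat_lit 2106) (nat_lit 608) (nat_lit 0) (XT.nd (nat_lit 1014) (nat_lit 988) (nat_lit 0) (XT.nd (nat_lit 468) (nat_lit 684) (nat_lit 0) (XT.nd (nat_lit 234) (nat_lit 304) (nat_lit 0) (XT.nd (nat_lit 78) (nat_lit 0) (nat_lit 0) (XT.lf (nat_lit 76) (nat_lit 2702316125) (nat_lit 0) (nat_lit 34423000502) (nat_lit 532) (nat_lit 42491942565) (nat_lit 39) (nat_lit 5) (nat_lit 38) (nat_lit 5) (nat_lit 45) (nat_lit 5) (nat_lit 280) (nat_lit 277) (nat_lit 163)) (XT.nd (nat_lit 78) (nat_lit 0) (nat_lit 76) (XT.lf (nat_lit 76) (nat_lit 40896454835) (nat_lit 0) (nat_lit 566293985)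 (nat_lit 532) (nat_lit 41490635971) (nat_lit 39) (nat_lit 5) (nat_lit 38) (nat_lit 5) (nat_lit 45) (nat_lit 5) (nat_lit 281) (nat_lit 277) (nat_lit 162)) (XT.lf (nat_lit 0) (nat_lit 47012007357) (nat_lit 456) (nat_lit 5276794093) (nat_lit 532) (nat_lit 34198416901) (nat_lit 39) (nat_lit 5) (nat_lit 45) (nat_lit 5) (nat_lit 46) (nat_lit 5) (nat_lit 282) (nat_lit 277) (nat_lit 161)))) (XT.nd (nat_lit 78) (nat_lit 380) (nat_lit 0) (XT.lf (nat_lit 76) (nat_lit 36243397549) (nat_lit 0) (nat_lit 17647298632) (nat_lit 532) (nat_lit 36342227367) (nat_lit 40) (nat_lit 5) (nat_lit 39) (nat_lit 5) (nat_lit 46) (nat_lit 5) (nat_lit 283) (nat_lit 277) (nat_lit 160)) (XT.nd (nat_lit 78) (nat_lit 456) (nat_lit 0) (XT.lf (nat_lit 0) (nat_lit 61942244234) (nat_lit 456) (nat_lit 13361295169) (nat_lit 76) (nat_lit 18924944445) (nat_lit 40) (nat_lit 5) (nat_lit 46) (nat_lit 5) (nat_lit 41) (nat_lit 5)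 (nat_lit 284) (nat_lit 277) (nat_lit 159)) (XT.lf (nat_lit 0) (nat_lit 31640942054) (nat_lit 456) (nat_lit 40215550174) (nat_lit 532) (nat_lit 26589714190) (nat_lit 34) (nat_lit 5) (nat_lit 40) (nat_lit 5) (nat_lit 41) (nat_lit 5) (nat_lit 285) (nat_lit 277) (nat_lit 158))))) (XT.nd (nat_lit 234) (nat_lit 456) (nat_lit 0) (XT.nd (nat_lit 78) (nat_lit 228) (nat_lit 0) (XT.lf (nat_lit 0) (nat_lit 81002555640) (nat_lit 456) (nat_lit 1925925403) (nat_lit 532) (nat_lit 20043700946) (nat_lit 34) (nat_lit 5) (nat_lit 40) (nat_lit 5) (nat_lit 41) (nat_lit 5) (nat_lit 286) (nat_lit 277) (nat_lit 157)) (XT.nd (nat_lit 78) (nat_lit 0) (nat_lit 0) (XT.lf (nat_lit 0) (nat_lit 26846960146) (nat_lit 228) (nat_lit 69632489969) (nat_lit 304) (nat_lit 11253330828) (nat_lit 31) (nat_lit 5) (nat_lit 34) (nat_lit 5) (nat_lit 35) (nat_lit 5) (nat_lit 287) (nat_lit 277) (nat_lit 156)) (XT.lf (nat_lit 0) (nat_lit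 80764985576) (nat_lit 228) (nat_lit 30998324636) (nat_lit 304) (nat_lit 1059015327) (nat_lit 31) (nat_lit 5) (nat_lit 34) (nat_lit 5) (nat_lit 35) (nat_lit 5) (nat_lit 288) (nat_lit 277) (nat_lit 155)))) (XT.nd (nat_lit 156) (nat_lit 228) (nat_lit 0) (XT.nd (nat_lit 78) (nat_lit 0) (nat_lit 0) (XT.lf (nat_lit 0) (nat_lit 10247492712) (nat_lit 228) (nat_lit 97022520711) (nat_lit 76) (nat_lit 10966322928) (nat_lit 28) (nat_lit 5) (nat_lit 31) (nat_lit 5) (nat_lit 29) (nat_lit 5) (nat_lit 289) (nat_lit 277) (nat_lit 154)) (XT.lf (nat_lit 0) (nat_lit 24105153907) (nat_lit 228) (nat_lit 44299656616) (nat_lit 76) (nat_lit 55540151434) (nat_lit 28) (nat_lit 5) (nat_lit 31) (nat_lit 5) (nat_lit 29) (nat_lit 5) (nat_lit 290) (nat_lit 277) (nat_lit 153))) (XT.nd (nat_lit 78) (nat_lit 0) (nat_lit 0) (XT.lf (nat_lit 0) (nat_lit 13306030906) (nat_lit 228) (nat_lit 26084874791) (nat_lit 304) (nat_lit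 90693815761) (nat_lit 25) (nat_lit 5) (nat_lit 28) (nat_lit 5) (nat_lit 29) (nat_lit 5) (nat_lit 291) (nat_lit 277) (nat_lit 152)) (XT.lf (nat_lit 0) (nat_lit 57613576140) (nat_lit 304) (nat_lit 59083218297) (nat_lit 76) (nat_lit 19881744509) (nat_lit 25) (nat_lit 5) (nat_lit 29) (nat_lit 5) (nat_lit 26) (nat_lit 5) (nat_lit 292) (nat_lit 277) (nat_lit 151)))))) (XT.nd (nat_lit 546) (nat_lit 456) (nat_lit 0) (XT.nd (nat_lit 234) (nat_lit 380) (nat_lit 0) (XT.nd (nat_lit 78) (nat_lit 0) (nat_lit 0) (XT.lf (nat_lit 0) (nat_lit 2684025154) (nat_lit 152) (nat_lit 75351642557) (nat_lit 228) (nat_lit 65496867293) (nat_lit 23) (nat_lit 5) (nat_lit 25) (nat_lit 5) (nat_lit 26) (nat_lit 5) (nat_lit 293) (nat_lit 277) (nat_lit 150)) (XT.nd (nat_lit 78) (nat_lit 0) (nat_lit 0) (XT.lf (nat_lit 0) (nat_lit 72752175152) (nat_lit 152) (nat_lit 28954339623) (nat_lit 228) (nat_lit 49207138553) (nat_lit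 23) (nat_lit 5) (nat_lit 25) (nat_lit 5) (nat_lit 26) (nat_lit 5) (nat_lit 294) (nat_lit 277) (nat_lit 149)) (XT.lf (nat_lit 0) (nat_lit 127779380496) (nat_lit 228) (nat_lit 10968832459) (nat_lit 76) (nat_lit 20096381609) (nat_lit 23) (nat_lit 5) (nat_lit 26) (nat_lit 5) (nat_lit 24) (nat_lit 5) (nat_lit 295) (nat_lit 277) (nat_lit 148)))) (XT.nd (nat_lit 156) (nat_lit 152) (nat_lit 0) (XT.nd (nat_lit 78) (nat_lit 76) (nat_lit 0) (XT.lf (nat_lit 0) (nat_lit 64050706268) (nat_lit 152) (nat_lit 94179460913) (nat_lit 228) (nat_lit 8996477985) (nat_lit 21) (nat_lit 5) (nat_lit 23) (nat_lit 5) (nat_lit 24) (nat_lit 5) (nat_lit 296) (nat_lit 277) (nat_lit 147)) (XT.lf (nat_lit 0) (nat_lit 14402824762) (nat_lit 228) (nat_lit 30924831690) (nat_lit 76) (nat_lit 130898471696) (nat_lit 20) (nat_lit 5) (nat_lit 23) (nat_lit 5) (nat_lit 21) (nat_lit 5) (nat_lit 297) (nat_lit 277) (nat_lit 146)))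 (XT.nd (nat_lit 78) (nat_lit 0) (nat_lit 0) (XT.lf (nat_lit 0) (nat_lit 40589944308) (nat_lit 228) (nat_lit 136707214683) (nat_lit 76) (nat_lit 8517564626) (nat_lit 18) (nat_lit 5) (nat_lit 21) (nat_lit 5) (nat_lit 19) (nat_lit 5) (nat_lit 298) (nat_lit 277) (nat_lit 145)) (XT.lf (nat_lit 0) (nat_lit 70916531851) (nat_lit 228) (nat_lit 60001421519) (nat_lit 76) (nat_lit 65088894511) (nat_lit 18) (nat_lit 5) (nat_lit 21) (nat_lit 5) (nat_lit 19) (nat_lit 5) (nat_lit 299) (nat_lit 277) (nat_lit 144))))) (XT.nd (nat_lit 234) (nat_lit 304) (nat_lit 0) (XT.nd (nat_lit 78) (nat_lit 0) (nat_lit 0) (XT.lf (nat_lit 0) (nat_lit 24043092434) (nat_lit 152) (nat_lit 80204071409) (nat_lit 228) (nat_lit 102720945801) (nat_lit 16) (nat_lit 5) (nat_lit 18) (nat_lit 5) (nat_lit 19) (nat_lit 5) (nat_lit 300) (nat_lit 277) (nat_lit 143)) (XT.nd (nat_lit 78) (nat_lit 0) (nat_lit 0) (XT.lf (nat_lit 0) (nat_lit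 118223038028) (nat_lit 152) (nat_lit 23661446580) (nat_lit 228) (nat_lit 76790569570) (nat_lit 16) (nat_lit 5) (nat_lit 18) (nat_lit 5) (nat_lit 19) (nat_lit 5) (nat_lit 301) (nat_lit 277) (nat_lit 142)) (XT.lf (nat_lit 0) (nat_lit 183432084550) (nat_lit 228) (nat_lit 12281205476) (nat_lit 76) (nat_lit 35533321585) (nat_lit 16) (nat_lit 5) (nat_lit 19) (nat_lit 5) (nat_lit 17) (nat_lit 4) (nat_lit 302) (nat_lit 277) (nat_lit 141)))) (XT.nd (nat_lit 156) (nat_lit 152) (nat_lit 0) (XT.nd (nat_lit 78) (nat_lit 76) (nat_lit 0) (XT.lf (nat_lit 0) (nat_lit 86663531931) (nat_lit 76) (nat_lit 144338537195) (nat_lit 152) (nat_lit 13605939140) (nat_lit 15) (nat_lit 5) (nat_lit 16) (nat_lit 5) (nat_lit 17) (nat_lit 4) (nat_lit 303) (nat_lit 277) (nat_lit 140)) (XT.lf (nat_lit 0) (nat_lit 22516055690) (nat_lit 152) (nat_lit 65359615453) (nat_lit 76) (nat_lit 171090201394) (nat_lit 14) (nat_lit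 5) (nat_lit 16) (nat_lit 5) (nat_lit 15) (nat_lit 5) (nat_lit 304) (nat_lit 277) (nat_lit 139))) (XT.nd (nat_lit 78) (nat_lit 0) (nat_lit 0) (XT.lf (nat_lit 0) (nat_lit 36083276038) (nat_lit 152) (nat_lit 25577019390) (nat_lit 228) (nat_lit 212714394291) (nat_lit 12) (nat_lit 5) (nat_lit 14) (nat_lit 5) (nat_lit 15) (nat_lit 5) (nat_lit 305) (nat_lit 277) (nat_lit 138)) (XT.lf (nat_lit 0) (nat_lit 106772319045) (nat_lit 228) (nat_lit 142564420979) (nat_lit 76) (nat_lit 41452573230) (nat_lit 12) (nat_lit 5) (nat_lit 15) (nat_lit 5) (nat_lit 13) (nat_lit 4) (nat_lit 306) (nat_lit 277) (nat_lit 137))))))) (XT.nd (nat_lit 1014) (nat_lit 228) (nat_lit 0) (XT.nd (nat_lit 468) (nat_lit 152) (nat_lit 0) (XT.nd (nat_lit 234) (nat_lit 152) (nat_lit 0) (XT.nd (nat_lit 78) (nat_lit 76) (nat_lit 0) (XT.lf (nat_lit 0) (nat_lit 156157421695) (nat_lit 228) (nat_lit 39843972698) (nat_lit 76) (nat_lit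 112462583423) (nat_lit 12) (nat_lit 5) (nat_lit 15) (nat_lit 5) (nat_lit 13) (nat_lit 4) (nat_lit 307) (nat_lit 277) (nat_lit 136)) (XT.nd (nat_lit 78) (nat_lit 0) (nat_lit 0) (XT.lf (nat_lit 0) (nat_lit 74837444949) (nat_lit 76) (nat_lit 136455525309) (nat_lit 152) (nat_lit 116115674748) (nat_lit 11) (nat_lit 5) (nat_lit 12) (nat_lit 5) (nat_lit 13) (nat_lit 4) (nat_lit 308) (nat_lit 277) (nat_lit 135)) (XT.lf (nat_lit 0) (nat_lit 200959008028) (nat_lit 76) (nat_lit 70969562073) (nat_lit 152) (nat_lit 75853179321) (nat_lit 11) (nat_lit 5) (nat_lit 12) (nat_lit 5) (nat_lit 13) (nat_lit 4) (nat_lit 309) (nat_lit 277) (nat_lit 134)))) (XT.nd (nat_lit 78) (nat_lit 152) (nat_lit 0) (XT.lf (nat_lit 0) (nat_lit 337169990586) (nat_lit 76) (nat_lit 244844543) (nat_lit 152) (nat_lit 32369882096) (nat_lit 11) (nat_lit 5) (nat_lit 12) (nat_lit 5) (nat_lit 13) (nat_lit 4) (nat_lit 310) (nat_lit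 277) (nat_lit 133)) (XT.nd (nat_lit 78) (nat_lit 0) (nat_lit 0) (XT.lf (nat_lit 0) (nat_lit 18049678229) (nat_lit 152) (nat_lit 300098597009) (nat_lit 76) (nat_lit 75036568041) (nat_lit 9) (nat_lit 5) (nat_lit 11) (nat_lit 5) (nat_lit 10) (nat_lit 4) (nat_lit 311) (nat_lit 277) (nat_lit 132)) (XT.lf (nat_lit 0) (nat_lit 71675084389) (nat_lit 152) (nat_lit 188558108388) (nat_lit 76) (nat_lit 158082837239) (nat_lit 9) (nat_lit 5) (nat_lit 11) (nat_lit 5) (nat_lit 10) (nat_lit 4) (nat_lit 312) (nat_lit 277) (nat_lit 131))))) (XT.nd (nat_lit 234) (nat_lit 76) (nat_lit 0) (XT.nd (nat_lit 78) (nat_lit 76) (nat_lit 0) (XT.lf (nat_lit 0) (nat_lit 129590364894) (nat_lit 152) (nat_lit 68094654745) (nat_lit 76) (nat_lit 247772705006) (nat_lit 9) (nat_lit 5) (nat_lit 11) (nat_lit 5) (nat_lit 10) (nat_lit 4) (nat_lit 313) (nat_lit 277) (nat_lit 130)) (XT.nd (nat_lit 78) (nat_lit 0) (nat_lit 0) (XT.lf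 (nat_lit 0) (nat_lit 65270727563) (nat_lit 76) (nat_lit 128437756411) (nat_lit 152) (nat_lit 280936701859) (nat_lit 8) (nat_lit 5) (nat_lit 9) (nat_lit 5) (nat_lit 10) (nat_lit 4) (nat_lit 314) (nat_lit 277) (nat_lit 129)) (XT.lf (nat_lit 0) (nat_lit 213177696468) (nat_lit 76) (nat_lit 51640043113) (nat_lit 152) (nat_lit 241200969634) (nat_lit 8) (nat_lit 5) (nat_lit 9) (nat_lit 5) (nat_lit 10) (nat_lit 4) (nat_lit 315) (nat_lit 277) (nat_lit 128)))) (XT.nd (nat_lit 156) (nat_lit 76) (nat_lit 0) (XT.nd (nat_lit 78) (nat_lit 0) (nat_lit 0) (XT.lf (nat_lit 0) (nat_lit 342368403750) (nat_lit 152) (nat_lit 167737930489) (nat_lit 0) (nat_lit 29735567016) (nat_lit 8) (nat_lit 5) (nat_lit 10) (nat_lit 4) (nat_lit 8) (nat_lit 4) (nat_lit 316) (nat_lit 277) (nat_lit 127)) (XT.lf (nat_lit 0) (nat_lit 427464297349) (nat_lit 152) (nat_lit 33968121275) (nat_lit 0) (nat_lit 114831236154) (nat_lit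 8) (nat_lit 5) (nat_lit 10) (nat_lit 4) (nat_lit 8) (nat_lit 4) (nat_lit 317) (nat_lit 277) (nat_lit 126))) (XT.nd (nat_lit 78) (nat_lit 0) (nat_lit 0) (XT.lf (nat_lit 0) (nat_lit 116321964949) (nat_lit 76) (nat_lit 405843329167) (nat_lit 76) (nat_lit 93210060137) (nat_lit 7) (nat_lit 4) (nat_lit 8) (nat_lit 5) (nat_lit 8) (nat_lit 4) (nat_lit 318) (nat_lit 277) (nat_lit 125)) (XT.lf (nat_lit 0) (nat_lit 280566856857) (nat_lit 76) (nat_lit 344804151725) (nat_lit 76) (nat_lit 32170690255) (nat_lit 7) (nat_lit 4) (nat_lit 8) (nat_lit 5) (nat_lit 8) (nat_lit 4) (nat_lit 319) (nat_lit 277) (nat_lit 124)))))) (XT.nd (nat_lit 546) (nat_lit 76) (nat_lit 0) (XT.nd (nat_lit 234) (nat_lit 0) (nat_lit 0) (XT.nd (nat_lit 78) (nat_lit 76) (nat_lit 0) (XT.lf (nat_lit 0) (nat_lit 32063320718) (nat_lit 152) (nat_lit 245941932559) (nat_lit 76) (nat_lit 425011167716) (nat_lit 6) (nat_lit 5) (nat_lit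 8) (nat_lit 5) (nat_lit 7) (nat_lit 4) (nat_lit 320) (nat_lit 277) (nat_lit 123)) (XT.nd (nat_lit 78) (nat_lit 76) (nat_lit 0) (XT.lf (nat_lit 0) (nat_lit 99697902191) (nat_lit 152) (nat_lit 105262168081) (nat_lit 76) (nat_lit 547102210411) (nat_lit 6) (nat_lit 5) (nat_lit 8) (nat_lit 5) (nat_lit 7) (nat_lit 4) (nat_lit 321) (nat_lit 277) (nat_lit 122)) (XT.lf (nat_lit 0) (nat_lit 49129470267) (nat_lit 76) (nat_lit 124795254575) (nat_lit 152) (nat_lit 631012566475) (nat_lit 5) (nat_lit 5) (nat_lit 6) (nat_lit 5) (nat_lit 7) (nat_lit 4) (nat_lit 322) (nat_lit 277) (nat_lit 121)))) (XT.nd (nat_lit 156) (nat_lit 0) (nat_lit 0) (XT.nd (nat_lit 78) (nat_lit 0) (nat_lit 0) (XT.lf (nat_lit 0) (nat_lit 221858634199) (nat_lit 76) (nat_lit 35109025922) (nat_lit 152) (nat_lit 604844405463) (nat_lit 5) (nat_lit 5) (nat_lit 6) (nat_lit 5) (nat_lit 7) (nat_lit 4) (nat_lit 323) (nat_lit 277) (nat_lit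 120)) (XT.lf (nat_lit 0) (nat_lit 348139087234) (nat_lit 152) (nat_lit 516315981610) (nat_lit 0) (nat_lit 58662948507) (nat_lit 5) (nat_lit 5) (nat_lit 7) (nat_lit 4) (nat_lit 5) (nat_lit 4) (nat_lit 324) (nat_lit 277) (nat_lit 119))) (XT.nd (nat_lit 78) (nat_lit 0) (nat_lit 0) (XT.lf (nat_lit 0) (nat_lit 447516074874) (nat_lit 152) (nat_lit 383699598926) (nat_lit 0) (nat_lit 158039823861) (nat_lit 5) (nat_lit 5) (nat_lit 7) (nat_lit 4) (nat_lit 5) (nat_lit 4) (nat_lit 325) (nat_lit 277) (nat_lit 118)) (XT.lf (nat_lit 0) (nat_lit 554843150793) (nat_lit 152) (nat_lit 240474035555) (nat_lit 0) (nat_lit 265366795811) (nat_lit 5) (nat_lit 5) (nat_lit 7) (nat_lit 4) (nat_lit 5) (nat_lit 4) (nat_lit 326) (nat_lit 277) (nat_lit 117))))) (XT.nd (nat_lit 234) (nat_lit 0) (nat_lit 0) (XT.nd (nat_lit 78) (nat_lit 76) (nat_lit 0) (XT.lf (nat_lit 0) (nat_lit 670756327291) (nat_lit 152) (nat_lit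 85790547418) (nat_lit 0) (nat_lit 381279876041) (nat_lit 5) (nat_lit 5) (nat_lit 7) (nat_lit 4) (nat_lit 5) (nat_lit 4) (nat_lit 327) (nat_lit 277) (nat_lit 116)) (XT.nd (nat_lit 78) (nat_lit 0) (nat_lit 0) (XT.lf (nat_lit 0) (nat_lit 85546911350) (nat_lit 76) (nat_lit 712452991191) (nat_lit 76) (nat_lit 422976450804) (nat_lit 4) (nat_lit 4) (nat_lit 5) (nat_lit 5) (nat_lit 5) (nat_lit 4) (nat_lit 328) (nat_lit 277) (nat_lit 115)) (XT.lf (nat_lit 0) (nat_lit 275470242698) (nat_lit 76) (nat_lit 662298327953) (nat_lit 76) (nat_lit 372821705032) (nat_lit 4) (nat_lit 4) (nat_lit 5) (nat_lit 5) (nat_lit 5) (nat_lit 4) (nat_lit 329) (nat_lit 277) (nat_lit 114)))) (XT.nd (nat_lit 156) (nat_lit 0) (nat_lit 0) (XT.nd (nat_lit 78) (nat_lit 0) (nat_lit 0) (XT.lf (nat_lit 0) (nat_lit 480587340023) (nat_lit 76) (nat_lit 608131337776) (nat_lit 76) (nat_lit 318654638435) (nat_lit 4) (nat_lit 4) (nat_lit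 5) (nat_lit 5) (nat_lit 5) (nat_lit 4) (nat_lit 330) (nat_lit 277) (nat_lit 113)) (XT.lf (nat_lit 0) (nat_lit 702113712052) (nat_lit 76) (nat_lit 549631031090) (nat_lit 76) (nat_lit 260154260990) (nat_lit 4) (nat_lit 4) (nat_lit 5) (nat_lit 5) (nat_lit 5) (nat_lit 4) (nat_lit 331) (nat_lit 277) (nat_lit 112))) (XT.nd (nat_lit 78) (nat_lit 0) (nat_lit 0) (XT.lf (nat_lit 0) (nat_lit 941362107655) (nat_lit 76) (nat_lit 486450739411) (nat_lit 76) (nat_lit 196973903792) (nat_lit 4) (nat_lit 4) (nat_lit 5) (nat_lit 5) (nat_lit 5) (nat_lit 4) (nat_lit 332) (nat_lit 277) (nat_lit 111)) (XT.lf (nat_lit 0) (nat_lit 1199750295102) (nat_lit 76) (nat_lit 418216061008) (nat_lit 76) (nat_lit 128739164725) (nat_lit 4) (nat_lit 4) (nat_lit 5) (nat_lit 5) (nat_lit 5) (nat_lit 4) (nat_lit 333) (nat_lit 277) (nat_lit 110))))))))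
noncomputable def xc108 : XT := (XT.nd (nat_lit 35022) (nat_lit 0) (nat_lit 152) (XT.nd (nat_lit 34008) (nat_lit 0) (nat_lit 988) (XT.nd (nat_lit 33462) (nat_lit 0) (nat_lit 2128) (XT.nd (nat_lit 33228) (nat_lit 0) (nat_lit 2584) (XT.nd (nat_lit 78) (nat_lit 76) (nat_lit 0) (XT.lf (nat_lit 0) (nat_lit 1478809463653) (nat_lit 76) (nat_lit 344522642234) (nat_lit 76) (nat_lit 55045689779) (nat_lit 4) (nat_lit 4) (nat_lit 5) (nat_lit 5) (nat_lit 5) (nat_lit 4) (nat_lit 334) (nat_lit 277) (nat_lit 109)) (XT.nd (nat_lit 33072) (nat_lit 0) (nat_lit 2584) (XT.lf (nat_lit 0) (nat_lit 23315471697) (nat_lit 152) (nat_lit 240980823335) (nat_lit 76) (nat_lit 1756240339257) (nat_lit 3) (nat_lit 5) (nat_lit 5) (nat_lit 5) (nat_lit 4) (nat_lit 4) (nat_lit 335) (nat_lit 277) (nat_lit 108)) (XT.lf (nat_lit 0) (nat_lit 16202479309) (nat_lit 532) (nat_lit 10986433252) (nat_lit 532) (nat_lit 10986433252)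 (nat_lit 37) (nat_lit 3) (nat_lit 44) (nat_lit 3) (nat_lit 44) (nat_lit 5) (nat_lit 278) (nat_lit 278) (nat_lit 164)))) (XT.nd (nat_lit 78) (nat_lit 0) (nat_lit 76) (XT.lf (nat_lit 76) (nat_lit 11751617872) (nat_lit 0) (nat_lit 22242229912) (nat_lit 532) (nat_lit 45387408184) (nat_lit 38) (nat_lit 5) (nat_lit 37) (nat_lit 3) (nat_lit 44) (nat_lit 5) (nat_lit 279) (nat_lit 278) (nat_lit 163)) (XT.nd (nat_lit 78) (nat_lit 0) (nat_lit 0) (XT.lf (nat_lit 0) (nat_lit 36624984412) (nat_lit 456) (nat_lit 33498567193) (nat_lit 532) (nat_lit 12457507749) (nat_lit 38) (nat_lit 5) (nat_lit 44) (nat_lit 5) (nat_lit 45) (nat_lit 5) (nat_lit 280) (nat_lit 278) (nat_lit 162)) (XT.lf (nat_lit 76) (nat_lit 2931281399) (nat_lit 0) (nat_lit 37182613031) (nat_lit 532) (nat_lit 45871174438) (nat_lit 39) (nat_lit 5) (nat_lit 38) (nat_lit 5) (nat_lit 45) (nat_lit 5) (nat_lit 281) (nat_lit 278) (nat_lit 161)))))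 (XT.nd (nat_lit 234) (nat_lit 532) (nat_lit 0) (XT.nd (nat_lit 78) (nat_lit 0) (nat_lit 76) (XT.lf (nat_lit 76) (nat_lit 44180004540) (nat_lit 0) (nat_lit 616942402) (nat_lit 532) (nat_lit 44791253949) (nat_lit 39) (nat_lit 5) (nat_lit 38) (nat_lit 5) (nat_lit 45) (nat_lit 5) (nat_lit 282) (nat_lit 278) (nat_lit 160)) (XT.nd (nat_lit 78) (nat_lit 0) (nat_lit 0) (XT.lf (nat_lit 0) (nat_lit 50788754677) (nat_lit 456) (nat_lit 5686514891) (nat_lit 532) (nat_lit 36929588842) (nat_lit 39) (nat_lit 5) (nat_lit 45) (nat_lit 5) (nat_lit 46) (nat_lit 5) (nat_lit 283) (nat_lit 278) (nat_lit 159)) (XT.lf (nat_lit 76) (nat_lit 39154977582) (nat_lit 0) (nat_lit 19061882841) (nat_lit 532) (nat_lit 39233435371) (nat_lit 40) (nat_lit 5) (nat_lit 39) (nat_lit 5) (nat_lit 46) (nat_lit 5) (nat_lit 284) (nat_lit 278) (nat_lit 158)))) (XT.nd (nat_lit 156) (nat_lit 228) (nat_lit 0) (XT.nd (nat_lit 78) (nat_lit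 456) (nat_lit 0) (XT.lf (nat_lit 0) (nat_lit 66911365624) (nat_lit 456) (nat_lit 14417756917) (nat_lit 76) (nat_lit 20436476820) (nat_lit 40) (nat_lit 5) (nat_lit 46) (nat_lit 5) (nat_lit 41) (nat_lit 5) (nat_lit 285) (nat_lit 278) (nat_lit 157)) (XT.lf (nat_lit 0) (nat_lit 34184344300) (nat_lit 456) (nat_lit 43433682896) (nat_lit 532) (nat_lit 28702775373) (nat_lit 34) (nat_lit 5) (nat_lit 40) (nat_lit 5) (nat_lit 41) (nat_lit 5) (nat_lit 286) (nat_lit 278) (nat_lit 156))) (XT.nd (nat_lit 78) (nat_lit 228) (nat_lit 0) (XT.lf (nat_lit 0) (nat_lit 87493988685) (nat_lit 456) (nat_lit 2080822313) (nat_lit 532) (nat_lit 21634126695) (nat_lit 34) (nat_lit 5) (nat_lit 40) (nat_lit 5) (nat_lit 41) (nat_lit 5) (nat_lit 287) (nat_lit 278) (nat_lit 155)) (XT.lf (nat_lit 0) (nat_lit 29006673634) (nat_lit 228) (nat_lit 75202560494) (nat_lit 304) (nat_lit 12141204368) (nat_lit 31) (nat_lit 5) (nat_lit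 34) (nat_lit 5) (nat_lit 35) (nat_lit 5) (nat_lit 288) (nat_lit 278) (nat_lit 154)))))) (XT.nd (nat_lit 468) (nat_lit 532) (nat_lit 0) (XT.nd (nat_lit 234) (nat_lit 380) (nat_lit 0) (XT.nd (nat_lit 78) (nat_lit 228) (nat_lit 0) (XT.lf (nat_lit 0) (nat_lit 87237255419) (nat_lit 228) (nat_lit 33477701095) (nat_lit 304) (nat_lit 1132261621) (nat_lit 31) (nat_lit 5) (nat_lit 34) (nat_lit 5) (nat_lit 35) (nat_lit 5) (nat_lit 289) (nat_lit 278) (nat_lit 153)) (XT.nd (nat_lit 78) (nat_lit 0) (nat_lit 0) (XT.lf (nat_lit 0) (nat_lit 11077684209) (nat_lit 228) (nat_lit 104772084835) (nat_lit 76) (nat_lit 11844602616) (nat_lit 28) (nat_lit 5) (nat_lit 31) (nat_lit 5) (nat_lit 29) (nat_lit 5) (nat_lit 290) (nat_lit 278) (nat_lit 152)) (XT.lf (nat_lit 0) (nat_lit 26043188517) (nat_lit 228) (nat_lit 47832298095) (nat_lit 76) (nat_lit 59984265265) (nat_lit 28) (nat_lit 5) (nat_lit 31) (nat_lit 5)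 (nat_lit 29) (nat_lit 5) (nat_lit 291) (nat_lit 278) (nat_lit 151)))) (XT.nd (nat_lit 78) (nat_lit 152) (nat_lit 0) (XT.lf (nat_lit 0) (nat_lit 14381557566) (nat_lit 228) (nat_lit 28169795733) (nat_lit 304) (nat_lit 97939377369) (nat_lit 25) (nat_lit 5) (nat_lit 28) (nat_lit 5) (nat_lit 29) (nat_lit 5) (nat_lit 292) (nat_lit 278) (nat_lit 150)) (XT.nd (nat_lit 78) (nat_lit 152) (nat_lit 0) (XT.lf (nat_lit 0) (nat_lit 62231199359) (nat_lit 304) (nat_lit 63798979703) (nat_lit 76) (nat_lit 21473928092) (nat_lit 25) (nat_lit 5) (nat_lit 29) (nat_lit 5) (nat_lit 26) (nat_lit 5) (nat_lit 293) (nat_lit 278) (nat_lit 149)) (XT.lf (nat_lit 0) (nat_lit 2909367374) (nat_lit 152) (nat_lit 81377313917) (nat_lit 228) (nat_lit 70727774126) (nat_lit 23) (nat_lit 5) (nat_lit 25) (nat_lit 5) (nat_lit 26) (nat_lit 5) (nat_lit 294) (nat_lit 278) (nat_lit 148))))) (XT.nd (nat_lit 234) (nat_lit 380) (nat_lit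 0) (XT.nd (nat_lit 78) (nat_lit 152) (nat_lit 0) (XT.lf (nat_lit 0) (nat_lit 78582182691) (nat_lit 152) (nat_lit 31268408974) (nat_lit 228) (nat_lit 53135522091) (nat_lit 23) (nat_lit 5) (nat_lit 25) (nat_lit 5) (nat_lit 26) (nat_lit 5) (nat_lit 295) (nat_lit 278) (nat_lit 147)) (XT.nd (nat_lit 78) (nat_lit 152) (nat_lit 0) (XT.lf (nat_lit 0) (nat_lit 138008777685) (nat_lit 228) (nat_lit 11836699626) (nat_lit 76) (nat_lit 21706095724) (nat_lit 23) (nat_lit 5) (nat_lit 26) (nat_lit 5) (nat_lit 24) (nat_lit 5) (nat_lit 296) (nat_lit 278) (nat_lit 146)) (XT.lf (nat_lit 0) (nat_lit 69184158163) (nat_lit 152) (nat_lit 101711173120) (nat_lit 228) (nat_lit 9708881963) (nat_lit 21) (nat_lit 5) (nat_lit 23) (nat_lit 5) (nat_lit 24) (nat_lit 5) (nat_lit 297) (nat_lit 278) (nat_lit 145)))) (XT.nd (nat_lit 156) (nat_lit 152) (nat_lit 0) (XT.nd (nat_lit 78) (nat_lit 152) (nat_lit 0) (XT.lf (nat_lit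 0) (nat_lit 15561484421) (nat_lit 228) (nat_lit 33389759874) (nat_lit 76) (nat_lit 141372439284) (nat_lit 20) (nat_lit 5) (nat_lit 23) (nat_lit 5) (nat_lit 21) (nat_lit 5) (nat_lit 298) (nat_lit 278) (nat_lit 144)) (XT.lf (nat_lit 0) (nat_lit 43843373263) (nat_lit 228) (nat_lit 147634514603) (nat_lit 76) (nat_lit 9201496331) (nat_lit 18) (nat_lit 5) (nat_lit 21) (nat_lit 5) (nat_lit 19) (nat_lit 5) (nat_lit 299) (nat_lit 278) (nat_lit 143))) (XT.nd (nat_lit 78) (nat_lit 152) (nat_lit 0) (XT.lf (nat_lit 0) (nat_lit 76595626075) (nat_lit 228) (nat_lit 64792945190) (nat_lit 76) (nat_lit 70298345456) (nat_lit 18) (nat_lit 5) (nat_lit 21) (nat_lit 5) (nat_lit 19) (nat_lit 5) (nat_lit 300) (nat_lit 278) (nat_lit 142)) (XT.lf (nat_lit 0) (nat_lit 25974912409) (nat_lit 152) (nat_lit 86617570047) (nat_lit 228) (nat_lit 110932616342) (nat_lit 16) (nat_lit 5) (nat_lit 18) (nat_lit 5) (nat_lit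 19) (nat_lit 5) (nat_lit 301) (nat_lit 278) (nat_lit 141))))))) (XT.nd (nat_lit 1014) (nat_lit 304) (nat_lit 0) (XT.nd (nat_lit 468) (nat_lit 228) (nat_lit 0) (XT.nd (nat_lit 234) (nat_lit 228) (nat_lit 0) (XT.nd (nat_lit 78) (nat_lit 76) (nat_lit 0) (XT.lf (nat_lit 0) (nat_lit 127688633460) (nat_lit 152) (nat_lit 25551744643) (nat_lit 228) (nat_lit 82928254837) (nat_lit 16) (nat_lit 5) (nat_lit 18) (nat_lit 5) (nat_lit 19) (nat_lit 5) (nat_lit 302) (nat_lit 278) (nat_lit 140)) (XT.nd (nat_lit 78) (nat_lit 76) (nat_lit 0) (XT.lf (nat_lit 0) (nat_lit 198111463983) (nat_lit 228) (nat_lit 13256188019) (nat_lit 76) (nat_lit 38378289827) (nat_lit 16) (nat_lit 5) (nat_lit 19) (nat_lit 5) (nat_lit 17) (nat_lit 4) (nat_lit 303) (nat_lit 278) (nat_lit 139)) (XT.lf (nat_lit 0) (nat_lit 93603938155) (nat_lit 76) (nat_lit 155882928810) (nat_lit 152) (nat_lit 14689398694) (nat_lit 15) (nat_lit 5)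 (nat_lit 16) (nat_lit 5) (nat_lit 17) (nat_lit 4) (nat_lit 304) (nat_lit 278) (nat_lit 138)))) (XT.nd (nat_lit 78) (nat_lit 152) (nat_lit 0) (XT.lf (nat_lit 0) (nat_lit 24321751884) (nat_lit 152) (nat_lit 70581360325) (nat_lit 76) (nat_lit 184779666319) (nat_lit 14) (nat_lit 5) (nat_lit 16) (nat_lit 5) (nat_lit 15) (nat_lit 5) (nat_lit 305) (nat_lit 278) (nat_lit 137)) (XT.nd (nat_lit 78) (nat_lit 0) (nat_lit 0) (XT.lf (nat_lit 0) (nat_lit 38976784653) (nat_lit 152) (nat_lit 27620584011) (nat_lit 228) (nat_lit 229726946195) (nat_lit 12) (nat_lit 5) (nat_lit 14) (nat_lit 5) (nat_lit 15) (nat_lit 5) (nat_lit 306) (nat_lit 278) (nat_lit 136)) (XT.lf (nat_lit 0) (nat_lit 115318097215) (nat_lit 228) (nat_lit 153962968997) (nat_lit 76) (nat_lit 44771063367) (nat_lit 12) (nat_lit 5) (nat_lit 15) (nat_lit 5) (nat_lit 13) (nat_lit 4) (nat_lit 307) (nat_lit 278) (nat_lit 135))))) (XT.nd (nat_lit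 234) (nat_lit 152) (nat_lit 0) (XT.nd (nat_lit 78) (nat_lit 76) (nat_lit 0) (XT.lf (nat_lit 0) (nat_lit 168653712326) (nat_lit 228) (nat_lit 43025374162) (nat_lit 76) (nat_lit 121461705170) (nat_lit 12) (nat_lit 5) (nat_lit 15) (nat_lit 5) (nat_lit 13) (nat_lit 4) (nat_lit 308) (nat_lit 278) (nat_lit 134)) (XT.nd (nat_lit 78) (nat_lit 0) (nat_lit 0) (XT.lf (nat_lit 0) (nat_lit 80830402052) (nat_lit 76) (nat_lit 147369572252) (nat_lit 152) (nat_lit 125401068996) (nat_lit 11) (nat_lit 5) (nat_lit 12) (nat_lit 5) (nat_lit 13) (nat_lit 4) (nat_lit 309) (nat_lit 278) (nat_lit 133)) (XT.lf (nat_lit 0) (nat_lit 217041248584) (nat_lit 76) (nat_lit 76644909371) (nat_lit 152) (nat_lit 81917859840) (nat_lit 11) (nat_lit 5) (nat_lit 12) (nat_lit 5) (nat_lit 13) (nat_lit 4) (nat_lit 310) (nat_lit 278) (nat_lit 132)))) (XT.nd (nat_lit 156) (nat_lit 0) (nat_lit 0) (XT.nd (nat_lit 78) (nat_lit 152)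 (nat_lit 0) (XT.lf (nat_lit 0) (nat_lit 364148700864) (nat_lit 76) (nat_lit 262378710) (nat_lit 152) (nat_lit 34956163566) (nat_lit 11) (nat_lit 5) (nat_lit 12) (nat_lit 5) (nat_lit 13) (nat_lit 4) (nat_lit 311) (nat_lit 278) (nat_lit 131)) (XT.lf (nat_lit 0) (nat_lit 19496737889) (nat_lit 152) (nat_lit 324101137822) (nat_lit 76) (nat_lit 81041502324) (nat_lit 9) (nat_lit 5) (nat_lit 11) (nat_lit 5) (nat_lit 10) (nat_lit 4) (nat_lit 312) (nat_lit 278) (nat_lit 130))) (XT.nd (nat_lit 78) (nat_lit 0) (nat_lit 0) (XT.lf (nat_lit 0) (nat_lit 77411947994) (nat_lit 152) (nat_lit 203637806181) (nat_lit 76) (nat_lit 170731324255) (nat_lit 9) (nat_lit 5) (nat_lit 11) (nat_lit 5) (nat_lit 10) (nat_lit 4) (nat_lit 313) (nat_lit 278) (nat_lit 129)) (XT.lf (nat_lit 0) (nat_lit 139960239320) (nat_lit 152) (nat_lit 73537642979) (nat_lit 76) (nat_lit 267596243663) (nat_lit 9) (nat_lit 5) (nat_lit 11)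 (nat_lit 5) (nat_lit 10) (nat_lit 4) (nat_lit 314) (nat_lit 278) (nat_lit 128)))))) (XT.nd (nat_lit 546) (nat_lit 76) (nat_lit 0) (XT.nd (nat_lit 234) (nat_lit 152) (nat_lit 0) (XT.nd (nat_lit 78) (nat_lit 0) (nat_lit 0) (XT.lf (nat_lit 0) (nat_lit 70496853860) (nat_lit 76) (nat_lit 138710865581) (nat_lit 152) (nat_lit 303408872056) (nat_lit 8) (nat_lit 5) (nat_lit 9) (nat_lit 5) (nat_lit 10) (nat_lit 4) (nat_lit 315) (nat_lit 278) (nat_lit 127)) (XT.nd (nat_lit 78) (nat_lit 0) (nat_lit 0) (XT.lf (nat_lit 0) (nat_lit 230236049307) (nat_lit 76) (nat_lit 55769476800) (nat_lit 152) (nat_lit 260494486137) (nat_lit 8) (nat_lit 5) (nat_lit 9) (nat_lit 5) (nat_lit 10) (nat_lit 4) (nat_lit 316) (nat_lit 278) (nat_lit 126)) (XT.lf (nat_lit 0) (nat_lit 369760107460) (nat_lit 152) (nat_lit 181152994311) (nat_lit 0) (nat_lit 32115969073) (nat_lit 8) (nat_lit 5) (nat_lit 10) (nat_lit 4) (nat_lit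 8) (nat_lit 4) (nat_lit 317) (nat_lit 278) (nat_lit 125)))) (XT.nd (nat_lit 156) (nat_lit 76) (nat_lit 0) (XT.nd (nat_lit 78) (nat_lit 76) (nat_lit 0) (XT.lf (nat_lit 0) (nat_lit 461663507258) (nat_lit 152) (nat_lit 36681894480) (nat_lit 0) (nat_lit 124019176431) (nat_lit 8) (nat_lit 5) (nat_lit 10) (nat_lit 4) (nat_lit 8) (nat_lit 4) (nat_lit 318) (nat_lit 278) (nat_lit 124)) (XT.lf (nat_lit 0) (nat_lit 125631305566) (nat_lit 76) (nat_lit 438309211335) (nat_lit 76) (nat_lit 100664702324) (nat_lit 7) (nat_lit 4) (nat_lit 8) (nat_lit 5) (nat_lit 8) (nat_lit 4) (nat_lit 319) (nat_lit 278) (nat_lit 123))) (XT.nd (nat_lit 78) (nat_lit 76) (nat_lit 0) (XT.lf (nat_lit 0) (nat_lit 303015523388) (nat_lit 76) (nat_lit 372387017043) (nat_lit 76) (nat_lit 34742343046) (nat_lit 7) (nat_lit 4) (nat_lit 8) (nat_lit 5) (nat_lit 8) (nat_lit 4) (nat_lit 320) (nat_lit 278) (nat_lit 122)) (XT.lf (nat_lit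 0) (nat_lit 34630147728) (nat_lit 152) (nat_lit 265614119487) (nat_lit 76) (nat_lit 459013323829) (nat_lit 6) (nat_lit 5) (nat_lit 8) (nat_lit 5) (nat_lit 7) (nat_lit 4) (nat_lit 321) (nat_lit 278) (nat_lit 121))))) (XT.nd (nat_lit 234) (nat_lit 0) (nat_lit 0) (XT.nd (nat_lit 78) (nat_lit 76) (nat_lit 0) (XT.lf (nat_lit 0) (nat_lit 107675365248) (nat_lit 152) (nat_lit 113680208494) (nat_lit 76) (nat_lit 590871556407) (nat_lit 6) (nat_lit 5) (nat_lit 8) (nat_lit 5) (nat_lit 7) (nat_lit 4) (nat_lit 322) (nat_lit 278) (nat_lit 120)) (XT.nd (nat_lit 78) (nat_lit 0) (nat_lit 0) (XT.lf (nat_lit 0) (nat_lit 53062686668) (nat_lit 76) (nat_lit 134777594990) (nat_lit 152) (nat_lit 681491864325) (nat_lit 5) (nat_lit 5) (nat_lit 6) (nat_lit 5) (nat_lit 7) (nat_lit 4) (nat_lit 323) (nat_lit 278) (nat_lit 119)) (XT.lf (nat_lit 0) (nat_lit 239609971953) (nat_lit 76) (nat_lit 37916562856) (nat_lit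 152) (nat_lit 653230376911) (nat_lit 5) (nat_lit 5) (nat_lit 6) (nat_lit 5) (nat_lit 7) (nat_lit 4) (nat_lit 324) (nat_lit 278) (nat_lit 118)))) (XT.nd (nat_lit 156) (nat_lit 0) (nat_lit 0) (XT.nd (nat_lit 78) (nat_lit 0) (nat_lit 0) (XT.lf (nat_lit 0) (nat_lit 375991594195) (nat_lit 152) (nat_lit 557618725300) (nat_lit 0) (nat_lit 63357026845) (nat_lit 5) (nat_lit 5) (nat_lit 7) (nat_lit 4) (nat_lit 5) (nat_lit 4) (nat_lit 325) (nat_lit 278) (nat_lit 117)) (XT.lf (nat_lit 0) (nat_lit 483318638626) (nat_lit 152) (nat_lit 414393219767) (nat_lit 0) (nat_lit 170683975009) (nat_lit 5) (nat_lit 5) (nat_lit 7) (nat_lit 4) (nat_lit 5) (nat_lit 4) (nat_lit 326) (nat_lit 278) (nat_lit 116))) (XT.nd (nat_lit 78) (nat_lit 0) (nat_lit 0) (XT.lf (nat_lit 0) (nat_lit 599231785969) (nat_lit 152) (nat_lit 259709785183) (nat_lit 0) (nat_lit 286597033215) (nat_lit 5) (nat_lit 5) (nat_lit 7) (nat_lit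 4) (nat_lit 5) (nat_lit 4) (nat_lit 327) (nat_lit 278) (nat_lit 115)) (XT.lf (nat_lit 0) (nat_lit 724417928949) (nat_lit 152) (nat_lit 92651778974) (nat_lit 0) (nat_lit 411783093661) (nat_lit 5) (nat_lit 5) (nat_lit 7) (nat_lit 4) (nat_lit 5) (nat_lit 4) (nat_lit 328) (nat_lit 278) (nat_lit 114))))))))
noncomputable def xc109 : XT := (XT.nd (nat_lit 35100) (nat_lit 0) (nat_lit 76) (XT.nd (nat_lit 34086) (nat_lit 0) (nat_lit 1444) (XT.nd (nat_lit 468) (nat_lit 0) (nat_lit 0) (XT.nd (nat_lit 234) (nat_lit 0) (nat_lit 0) (XT.nd (nat_lit 78) (nat_lit 0) (nat_lit 0) (XT.lf (nat_lit 0) (nat_lit 92392625553) (nat_lit 76) (nat_lit 769448330689) (nat_lit 76) (nat_lit 456813418981) (nat_lit 4) (nat_lit 4) (nat_lit 5) (nat_lit 5) (nat_lit 5) (nat_lit 4) (nat_lit 329) (nat_lit 278) (nat_lit 113)) (XT.nd (nat_lit 78) (nat_lit 0) (nat_lit 0) (XT.lf (nat_lit 0) (nat_lit 297509678127) (nat_lit 76)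 (nat_lit 715281361044) (nat_lit 76) (nat_lit 402646378576) (nat_lit 4) (nat_lit 4) (nat_lit 5) (nat_lit 5) (nat_lit 5) (nat_lit 4) (nat_lit 330) (nat_lit 278) (nat_lit 112)) (XT.lf (nat_lit 0) (nat_lit 519036008719) (nat_lit 76) (nat_lit 656781073368) (nat_lit 76) (nat_lit 344146025382) (nat_lit 4) (nat_lit 4) (nat_lit 5) (nat_lit 5) (nat_lit 5) (nat_lit 4) (nat_lit 331) (nat_lit 278) (nat_lit 111)))) (XT.nd (nat_lit 78) (nat_lit 0) (nat_lit 0) (XT.lf (nat_lit 0) (nat_lit 758284365955) (nat_lit 76) (nat_lit 593600799290) (nat_lit 76) (nat_lit 280965690639) (nat_lit 4) (nat_lit 4) (nat_lit 5) (nat_lit 5) (nat_lit 5) (nat_lit 4) (nat_lit 332) (nat_lit 278) (nat_lit 110)) (XT.nd (nat_lit 78) (nat_lit 0) (nat_lit 0) (XT.lf (nat_lit 0) (nat_lit 1016672517877) (nat_lit 76) (nat_lit 525366137186) (nat_lit 76) (nat_lit 212730972363) (nat_lit 4) (nat_lit 4) (nat_lit 5) (nat_lit 5) (nat_lit 5)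 (nat_lit 4) (nat_lit 333) (nat_lit 278) (nat_lit 109)) (XT.lf (nat_lit 0) (nat_lit 1295731653534) (nat_lit 76) (nat_lit 451672733503) (nat_lit 76) (nat_lit 139037516669) (nat_lit 4) (nat_lit 4) (nat_lit 5) (nat_lit 5) (nat_lit 5) (nat_lit 4) (nat_lit 334) (nat_lit 278) (nat_lit 108))))) (XT.nd (nat_lit 33306) (nat_lit 0) (nat_lit 2584) (XT.nd (nat_lit 33150) (nat_lit 0) (nat_lit 2508) (XT.lf (nat_lit 0) (nat_lit 1597115456694) (nat_lit 76) (nat_lit 372083886588) (nat_lit 76) (nat_lit 59448621597) (nat_lit 4) (nat_lit 4) (nat_lit 5) (nat_lit 5) (nat_lit 5) (nat_lit 4) (nat_lit 335) (nat_lit 278) (nat_lit 107)) (XT.nd (nat_lit 78) (nat_lit 0) (nat_lit 0) (XT.lf (nat_lit 0) (nat_lit 17508499739) (nat_lit 532) (nat_lit 11860020534) (nat_lit 532) (nat_lit 11860020534) (nat_lit 37) (nat_lit 3) (nat_lit 44) (nat_lit 3) (nat_lit 44) (nat_lit 5) (nat_lit 279) (nat_lit 279) (nat_lit 162)) (XT.lf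 (nat_lit 76) (nat_lit 12702132319) (nat_lit 0) (nat_lit 24029662095) (nat_lit 532) (nat_lit 48998400064) (nat_lit 38) (nat_lit 5) (nat_lit 37) (nat_lit 3) (nat_lit 44) (nat_lit 5) (nat_lit 280) (nat_lit 279) (nat_lit 161)))) (XT.nd (nat_lit 156) (nat_lit 0) (nat_lit 0) (XT.nd (nat_lit 78) (nat_lit 0) (nat_lit 0) (XT.lf (nat_lit 0) (nat_lit 39571876789) (nat_lit 456) (nat_lit 36167211201) (nat_lit 532) (nat_lit 13447024196) (nat_lit 38) (nat_lit 5) (nat_lit 44) (nat_lit 5) (nat_lit 45) (nat_lit 5) (nat_lit 281) (nat_lit 279) (nat_lit 160)) (XT.lf (nat_lit 76) (nat_lit 3176740687) (nat_lit 0) (nat_lit 40162171053) (nat_lit 532) (nat_lit 49523615708) (nat_lit 39) (nat_lit 5) (nat_lit 38) (nat_lit 5) (nat_lit 45) (nat_lit 5) (nat_lit 282) (nat_lit 279) (nat_lit 159))) (XT.nd (nat_lit 78) (nat_lit 0) (nat_lit 76) (XT.lf (nat_lit 76) (nat_lit 47724550067) (nat_lit 0) (nat_lit 670880182) (nat_lit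 532) (nat_lit 48358579556) (nat_lit 39) (nat_lit 5) (nat_lit 38) (nat_lit 5) (nat_lit 45) (nat_lit 5) (nat_lit 283) (nat_lit 279) (nat_lit 158)) (XT.lf (nat_lit 0) (nat_lit 54865389630) (nat_lit 456) (nat_lit 6130785594) (nat_lit 532) (nat_lit 39879925247) (nat_lit 39) (nat_lit 5) (nat_lit 45) (nat_lit 5) (nat_lit 46) (nat_lit 5) (nat_lit 284) (nat_lit 279) (nat_lit 157)))))) (XT.nd (nat_lit 468) (nat_lit 608) (nat_lit 0) (XT.nd (nat_lit 234) (nat_lit 228) (nat_lit 0) (XT.nd (nat_lit 78) (nat_lit 380) (nat_lit 0) (XT.lf (nat_lit 76) (nat_lit 42297756644) (nat_lit 0) (nat_lit 20589234290) (nat_lit 532) (nat_lit 42358246874) (nat_lit 40) (nat_lit 5) (nat_lit 39) (nat_lit 5) (nat_lit 46) (nat_lit 5) (nat_lit 285) (nat_lit 279) (nat_lit 156)) (XT.nd (nat_lit 78) (nat_lit 456) (nat_lit 0) (XT.lf (nat_lit 0) (nat_lit 72276056298) (nat_lit 456) (nat_lit 15560510576) (nat_lit 76) (nat_lit 22069283186)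 (nat_lit 40) (nat_lit 5) (nat_lit 46) (nat_lit 5) (nat_lit 41) (nat_lit 5) (nat_lit 286) (nat_lit 279) (nat_lit 155)) (XT.lf (nat_lit 0) (nat_lit 36929488690) (nat_lit 456) (nat_lit 46909139451) (nat_lit 532) (nat_lit 30986895249) (nat_lit 34) (nat_lit 5) (nat_lit 40) (nat_lit 5) (nat_lit 41) (nat_lit 5) (nat_lit 287) (nat_lit 279) (nat_lit 154)))) (XT.nd (nat_lit 78) (nat_lit 228) (nat_lit 0) (XT.lf (nat_lit 0) (nat_lit 94503134489) (nat_lit 456) (nat_lit 2247993583) (nat_lit 532) (nat_lit 23353651133) (nat_lit 34) (nat_lit 5) (nat_lit 40) (nat_lit 5) (nat_lit 41) (nat_lit 5) (nat_lit 288) (nat_lit 279) (nat_lit 153)) (XT.nd (nat_lit 78) (nat_lit 0) (nat_lit 0) (XT.lf (nat_lit 0) (nat_lit 31337458447) (nat_lit 228) (nat_lit 81218312082) (nat_lit 304) (nat_lit 13101875780) (nat_lit 31) (nat_lit 5) (nat_lit 34) (nat_lit 5) (nat_lit 35) (nat_lit 5) (nat_lit 289) (nat_lit 279) (nat_lit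 152)) (XT.lf (nat_lit 0) (nat_lit 94225727447) (nat_lit 228) (nat_lit 36155497506) (nat_lit 304) (nat_lit 1213004646) (nat_lit 31) (nat_lit 5) (nat_lit 34) (nat_lit 5) (nat_lit 35) (nat_lit 5) (nat_lit 290) (nat_lit 279) (nat_lit 151))))) (XT.nd (nat_lit 234) (nat_lit 152) (nat_lit 0) (XT.nd (nat_lit 78) (nat_lit 228) (nat_lit 0) (XT.lf (nat_lit 0) (nat_lit 11972808480) (nat_lit 228) (nat_lit 113143359909) (nat_lit 76) (nat_lit 12793005747) (nat_lit 28) (nat_lit 5) (nat_lit 31) (nat_lit 5) (nat_lit 29) (nat_lit 5) (nat_lit 291) (nat_lit 279) (nat_lit 150)) (XT.nd (nat_lit 78) (nat_lit 228) (nat_lit 0) (XT.lf (nat_lit 0) (nat_lit 28134893167) (nat_lit 228) (nat_lit 51649167394) (nat_lit 76) (nat_lit 64783779562) (nat_lit 28) (nat_lit 5) (nat_lit 31) (nat_lit 5) (nat_lit 29) (nat_lit 5) (nat_lit 292) (nat_lit 279) (nat_lit 149)) (XT.lf (nat_lit 0) (nat_lit 15541550782) (nat_lit 228) (nat_lit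 30421776991) (nat_lit 304) (nat_lit 105766002479) (nat_lit 25) (nat_lit 5) (nat_lit 28) (nat_lit 5) (nat_lit 29) (nat_lit 5) (nat_lit 293) (nat_lit 279) (nat_lit 148)))) (XT.nd (nat_lit 156) (nat_lit 0) (nat_lit 0) (XT.nd (nat_lit 78) (nat_lit 152) (nat_lit 0) (XT.lf (nat_lit 0) (nat_lit 67217014518) (nat_lit 304) (nat_lit 68893556466) (nat_lit 76) (nat_lit 23193251823) (nat_lit 25) (nat_lit 5) (nat_lit 29) (nat_lit 5) (nat_lit 26) (nat_lit 5) (nat_lit 294) (nat_lit 279) (nat_lit 147)) (XT.lf (nat_lit 0) (nat_lit 3151221882) (nat_lit 152) (nat_lit 87885389938) (nat_lit 228) (nat_lit 76378414995) (nat_lit 23) (nat_lit 5) (nat_lit 25) (nat_lit 5) (nat_lit 26) (nat_lit 5) (nat_lit 295) (nat_lit 279) (nat_lit 146))) (XT.nd (nat_lit 78) (nat_lit 0) (nat_lit 0) (XT.lf (nat_lit 0) (nat_lit 84877187970) (nat_lit 152) (nat_lit 33767928829) (nat_lit 228) (nat_lit 57379344358) (nat_lit 23) (nat_lit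 5) (nat_lit 25) (nat_lit 5) (nat_lit 26) (nat_lit 5) (nat_lit 296) (nat_lit 279) (nat_lit 145)) (XT.lf (nat_lit 0) (nat_lit 149055521351) (nat_lit 228) (nat_lit 12775371339) (nat_lit 76) (nat_lit 23444301135) (nat_lit 23) (nat_lit 5) (nat_lit 26) (nat_lit 5) (nat_lit 24) (nat_lit 5) (nat_lit 297) (nat_lit 279) (nat_lit 144))))))) (XT.nd (nat_lit 1014) (nat_lit 456) (nat_lit 0) (XT.nd (nat_lit 468) (nat_lit 380) (nat_lit 0) (XT.nd (nat_lit 234) (nat_lit 152) (nat_lit 0) (XT.nd (nat_lit 78) (nat_lit 228) (nat_lit 0) (XT.lf (nat_lit 0) (nat_lit 74726945851) (nat_lit 152) (nat_lit 109845799594) (nat_lit 228) (nat_lit 10479321720) (nat_lit 21) (nat_lit 5) (nat_lit 23) (nat_lit 5) (nat_lit 24) (nat_lit 5) (nat_lit 298) (nat_lit 279) (nat_lit 143)) (XT.nd (nat_lit 78) (nat_lit 152) (nat_lit 0) (XT.lf (nat_lit 0) (nat_lit 16811919016) (nat_lit 228) (nat_lit 36053174588) (nat_lit 76) (nat_lit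 152684026138) (nat_lit 20) (nat_lit 5) (nat_lit 23) (nat_lit 5) (nat_lit 21) (nat_lit 5) (nat_lit 299) (nat_lit 279) (nat_lit 142)) (XT.lf (nat_lit 0) (nat_lit 47356187268) (nat_lit 228) (nat_lit 159437322021) (nat_lit 76) (nat_lit 9939782135) (nat_lit 18) (nat_lit 5) (nat_lit 21) (nat_lit 5) (nat_lit 19) (nat_lit 5) (nat_lit 300) (nat_lit 279) (nat_lit 141)))) (XT.nd (nat_lit 78) (nat_lit 152) (nat_lit 0) (XT.lf (nat_lit 0) (nat_lit 82728224443) (nat_lit 228) (nat_lit 69969016221) (nat_lit 76) (nat_lit 75924218738) (nat_lit 18) (nat_lit 5) (nat_lit 21) (nat_lit 5) (nat_lit 19) (nat_lit 5) (nat_lit 301) (nat_lit 279) (nat_lit 140)) (XT.nd (nat_lit 78) (nat_lit 0) (nat_lit 0) (XT.lf (nat_lit 0) (nat_lit 28060083541) (nat_lit 152) (nat_lit 93544551889) (nat_lit 228) (nat_lit 119802077225) (nat_lit 16) (nat_lit 5) (nat_lit 18) (nat_lit 5) (nat_lit 19) (nat_lit 5) (nat_lit 302) (nat_lit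 279) (nat_lit 139)) (XT.lf (nat_lit 0) (nat_lit 137910370561) (nat_lit 152) (nat_lit 27593639991) (nat_lit 228) (nat_lit 89557748163) (nat_lit 16) (nat_lit 5) (nat_lit 18) (nat_lit 5) (nat_lit 19) (nat_lit 5) (nat_lit 303) (nat_lit 279) (nat_lit 138))))) (XT.nd (nat_lit 234) (nat_lit 228) (nat_lit 0) (XT.nd (nat_lit 78) (nat_lit 152) (nat_lit 0) (XT.lf (nat_lit 0) (nat_lit 213964507189) (nat_lit 228) (nat_lit 14310241106) (nat_lit 76) (nat_lit 41450527048) (nat_lit 16) (nat_lit 5) (nat_lit 19) (nat_lit 5) (nat_lit 17) (nat_lit 4) (nat_lit 304) (nat_lit 279) (nat_lit 137)) (XT.nd (nat_lit 78) (nat_lit 76) (nat_lit 0) (XT.lf (nat_lit 0) (nat_lit 101098532074) (nat_lit 76) (nat_lit 168351255707) (nat_lit 152) (nat_lit 15860250541) (nat_lit 15) (nat_lit 5) (nat_lit 16) (nat_lit 5) (nat_lit 17) (nat_lit 4) (nat_lit 305) (nat_lit 279) (nat_lit 136)) (XT.lf (nat_lit 0) (nat_lit 26271274389)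 (nat_lit 152) (nat_lit 76221846891) (nat_lit 76) (nat_lit 199563967619) (nat_lit 14) (nat_lit 5) (nat_lit 16) (nat_lit 5) (nat_lit 15) (nat_lit 5) (nat_lit 306) (nat_lit 279) (nat_lit 135)))) (XT.nd (nat_lit 156) (nat_lit 76) (nat_lit 0) (XT.nd (nat_lit 78) (nat_lit 0) (nat_lit 0) (XT.lf (nat_lit 0) (nat_lit 42100797223) (nat_lit 152) (nat_lit 29828004283) (nat_lit 228) (nat_lit 248101158442) (nat_lit 12) (nat_lit 5) (nat_lit 14) (nat_lit 5) (nat_lit 15) (nat_lit 5) (nat_lit 307) (nat_lit 279) (nat_lit 134)) (XT.lf (nat_lit 0) (nat_lit 124546968044) (nat_lit 228) (nat_lit 166274343229) (nat_lit 76) (nat_lit 48354706837) (nat_lit 12) (nat_lit 5) (nat_lit 15) (nat_lit 5) (nat_lit 13) (nat_lit 4) (nat_lit 308) (nat_lit 279) (nat_lit 133))) (XT.nd (nat_lit 78) (nat_lit 76) (nat_lit 0) (XT.lf (nat_lit 0) (nat_lit 182149178804) (nat_lit 228) (nat_lit 46462160310) (nat_lit 76) (nat_lit 131180454917)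 (nat_lit 12) (nat_lit 5) (nat_lit 15) (nat_lit 5) (nat_lit 13) (nat_lit 4) (nat_lit 309) (nat_lit 279) (nat_lit 132)) (XT.lf (nat_lit 0) (nat_lit 87301945248) (nat_lit 76) (nat_lit 159157084635) (nat_lit 152) (nat_lit 135429845418) (nat_lit 11) (nat_lit 5) (nat_lit 12) (nat_lit 5) (nat_lit 13) (nat_lit 4) (nat_lit 310) (nat_lit 279) (nat_lit 131)))))) (XT.nd (nat_lit 546) (nat_lit 228) (nat_lit 0) (XT.nd (nat_lit 234) (nat_lit 76) (nat_lit 0) (XT.nd (nat_lit 78) (nat_lit 152) (nat_lit 0) (XT.lf (nat_lit 0) (nat_lit 234409280908) (nat_lit 76) (nat_lit 82774600827) (nat_lit 152) (nat_lit 88468224648) (nat_lit 11) (nat_lit 5) (nat_lit 12) (nat_lit 5) (nat_lit 13) (nat_lit 4) (nat_lit 311) (nat_lit 279) (nat_lit 130)) (XT.nd (nat_lit 78) (nat_lit 152) (nat_lit 0) (XT.lf (nat_lit 0) (nat_lit 393284978819) (nat_lit 76) (nat_lit 281608550) (nat_lit 152) (nat_lit 37749819633) (nat_lit 11) (nat_lit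 5) (nat_lit 12) (nat_lit 5) (nat_lit 13) (nat_lit 4) (nat_lit 312) (nat_lit 279) (nat_lit 129)) (XT.lf (nat_lit 0) (nat_lit 21059122155) (nat_lit 152) (nat_lit 350024644701) (nat_lit 76) (nat_lit 87526544766) (nat_lit 9) (nat_lit 5) (nat_lit 11) (nat_lit 5) (nat_lit 10) (nat_lit 4) (nat_lit 313) (nat_lit 279) (nat_lit 128)))) (XT.nd (nat_lit 156) (nat_lit 76) (nat_lit 0) (XT.nd (nat_lit 78) (nat_lit 0) (nat_lit 0) (XT.lf (nat_lit 0) (nat_lit 83607353124) (nat_lit 152) (nat_lit 219924586096) (nat_lit 76) (nat_lit 184391424877) (nat_lit 9) (nat_lit 5) (nat_lit 11) (nat_lit 5) (nat_lit 10) (nat_lit 4) (nat_lit 314) (nat_lit 279) (nat_lit 127)) (XT.lf (nat_lit 0) (nat_lit 151159326328) (nat_lit 152) (nat_lit 79416724251) (nat_lit 76) (nat_lit 289005419713) (nat_lit 9) (nat_lit 5) (nat_lit 11) (nat_lit 5) (nat_lit 10) (nat_lit 4) (nat_lit 315) (nat_lit 279) (nat_lit 126))) (XT.nd (nat_lit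 78) (nat_lit 0) (nat_lit 0) (XT.lf (nat_lit 0) (nat_lit 76140432837) (nat_lit 76) (nat_lit 149806096159) (nat_lit 152) (nat_lit 327679210462) (nat_lit 8) (nat_lit 5) (nat_lit 9) (nat_lit 5) (nat_lit 10) (nat_lit 4) (nat_lit 316) (nat_lit 279) (nat_lit 125)) (XT.lf (nat_lit 0) (nat_lit 248658480167) (nat_lit 76) (nat_lit 60229517658) (nat_lit 152) (nat_lit 281331849326) (nat_lit 8) (nat_lit 5) (nat_lit 9) (nat_lit 5) (nat_lit 10) (nat_lit 4) (nat_lit 317) (nat_lit 279) (nat_lit 124))))) (XT.nd (nat_lit 234) (nat_lit 152) (nat_lit 0) (XT.nd (nat_lit 78) (nat_lit 76) (nat_lit 0) (XT.lf (nat_lit 0) (nat_lit 399342829132) (nat_lit 152) (nat_lit 195641829692) (nat_lit 0) (nat_lit 34686581215) (nat_lit 8) (nat_lit 5) (nat_lit 10) (nat_lit 4) (nat_lit 8) (nat_lit 4) (nat_lit 318) (nat_lit 279) (nat_lit 123)) (XT.nd (nat_lit 78) (nat_lit 76) (nat_lit 0) (XT.lf (nat_lit 0) (nat_lit 498598359204)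 (nat_lit 152) (nat_lit 39613294034) (nat_lit 0) (nat_lit 133941946301) (nat_lit 8) (nat_lit 5) (nat_lit 10) (nat_lit 4) (nat_lit 8) (nat_lit 4) (nat_lit 319) (nat_lit 279) (nat_lit 122)) (XT.lf (nat_lit 0) (nat_lit 135684882217) (nat_lit 76) (nat_lit 473372590075) (nat_lit 76) (nat_lit 108716024408) (nat_lit 7) (nat_lit 4) (nat_lit 8) (nat_lit 5) (nat_lit 8) (nat_lit 4) (nat_lit 320) (nat_lit 279) (nat_lit 121)))) (XT.nd (nat_lit 156) (nat_lit 76) (nat_lit 0) (XT.nd (nat_lit 78) (nat_lit 76) (nat_lit 0) (XT.lf (nat_lit 0) (nat_lit 327259609895) (nat_lit 76) (nat_lit 402176720845) (nat_lit 76) (nat_lit 37520013729) (nat_lit 7) (nat_lit 4) (nat_lit 8) (nat_lit 5) (nat_lit 8) (nat_lit 4) (nat_lit 321) (nat_lit 279) (nat_lit 120)) (XT.lf (nat_lit 0) (nat_lit 37402069622) (nat_lit 152) (nat_lit 286860533273) (nat_lit 76) (nat_lit 495735472293) (nat_lit 6) (nat_lit 5) (nat_lit 8) (nat_lit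 5) (nat_lit 7) (nat_lit 4) (nat_lit 322) (nat_lit 279) (nat_lit 119))) (XT.nd (nat_lit 78) (nat_lit 76) (nat_lit 0) (XT.lf (nat_lit 0) (nat_lit 116290792686) (nat_lit 152) (nat_lit 122772110569) (nat_lit 76) (nat_lit 638142283288) (nat_lit 6) (nat_lit 5) (nat_lit 8) (nat_lit 5) (nat_lit 7) (nat_lit 4) (nat_lit 323) (nat_lit 279) (nat_lit 118)) (XT.lf (nat_lit 0) (nat_lit 57310152545) (nat_lit 76) (nat_lit 145558705237) (nat_lit 152) (nat_lit 736009749592) (nat_lit 5) (nat_lit 5) (nat_lit 6) (nat_lit 5) (nat_lit 7) (nat_lit 4) (nat_lit 324) (nat_lit 279) (nat_lit 117))))))))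
noncomputable def xc110 : XT := (XT.nd (nat_lit 35256) (nat_lit 0) (nat_lit 228) (XT.nd (nat_lit 34242) (nat_lit 0) (nat_lit 1596) (XT.nd (nat_lit 468) (nat_lit 0) (nat_lit 0) (XT.nd (nat_lit 234) (nat_lit 76) (nat_lit 0) (XT.nd (nat_lit 78) (nat_lit 0) (nat_lit 0) (XT.lf (nat_lit 0) (nat_lit 258781039102) (nat_lit 76) (nat_lit 40948871818) (nat_lit 152) (nat_lit 705487451620) (nat_lit 5) (nat_lit 5) (nat_lit 6) (nat_lit 5) (nat_lit 7) (nat_lit 4) (nat_lit 325) (nat_lit 279) (nat_lit 116)) (XT.nd (nat_lit 78) (nat_lit 0) (nat_lit 0) (XT.lf (nat_lit 0) (nat_lit 406072104844) (nat_lit 152) (nat_lit 602226050108) (nat_lit 0) (nat_lit 68426482733) (nat_lit 5) (nat_lit 5) (nat_lit 7) (nat_lit 4) (nat_lit 5) (nat_lit 4) (nat_lit 326) (nat_lit 279) (nat_lit 115)) (XT.lf (nat_lit 0) (nat_lit 521985225191) (nat_lit 152) (nat_lit 447542665111) (nat_lit 0) (nat_lit 184339520546) (nat_lit 5) (nat_lit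 5) (nat_lit 7) (nat_lit 4) (nat_lit 5) (nat_lit 4) (nat_lit 327) (nat_lit 279) (nat_lit 114)))) (XT.nd (nat_lit 78) (nat_lit 76) (nat_lit 0) (XT.lf (nat_lit 0) (nat_lit 647171343176) (nat_lit 152) (nat_lit 280484704815) (nat_lit 0) (nat_lit 309525562110) (nat_lit 5) (nat_lit 5) (nat_lit 7) (nat_lit 4) (nat_lit 5) (nat_lit 4) (nat_lit 328) (nat_lit 279) (nat_lit 113)) (XT.nd (nat_lit 78) (nat_lit 76) (nat_lit 0) (XT.lf (nat_lit 0) (nat_lit 782372302458) (nat_lit 152) (nat_lit 100062196123) (nat_lit 0) (nat_lit 444726450633) (nat_lit 5) (nat_lit 5) (nat_lit 7) (nat_lit 4) (nat_lit 5) (nat_lit 4) (nat_lit 329) (nat_lit 279) (nat_lit 112)) (XT.lf (nat_lit 0) (nat_lit 99785717091) (nat_lit 76) (nat_lit 831003425714) (nat_lit 76) (nat_lit 493357508370) (nat_lit 4) (nat_lit 4) (nat_lit 5) (nat_lit 5) (nat_lit 5) (nat_lit 4) (nat_lit 330) (nat_lit 279) (nat_lit 111))))) (XT.nd (nat_lit 234)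 (nat_lit 0) (nat_lit 0) (XT.nd (nat_lit 78) (nat_lit 0) (nat_lit 0) (XT.lf (nat_lit 0) (nat_lit 321312009316) (nat_lit 76) (nat_lit 772503155640) (nat_lit 76) (nat_lit 434857177631) (nat_lit 4) (nat_lit 4) (nat_lit 5) (nat_lit 5) (nat_lit 5) (nat_lit 4) (nat_lit 331) (nat_lit 279) (nat_lit 110)) (XT.nd (nat_lit 78) (nat_lit 0) (nat_lit 0) (XT.lf (nat_lit 0) (nat_lit 560560331027) (nat_lit 76) (nat_lit 709322897860) (nat_lit 76) (nat_lit 371676863680) (nat_lit 4) (nat_lit 4) (nat_lit 5) (nat_lit 5) (nat_lit 5) (nat_lit 4) (nat_lit 332) (nat_lit 279) (nat_lit 109)) (XT.lf (nat_lit 0) (nat_lit 818948450055) (nat_lit 76) (nat_lit 641088250847) (nat_lit 76) (nat_lit 303442164657) (nat_lit 4) (nat_lit 4) (nat_lit 5) (nat_lit 5) (nat_lit 5) (nat_lit 4) (nat_lit 333) (nat_lit 279) (nat_lit 108)))) (XT.nd (nat_lit 33384) (nat_lit 0) (nat_lit 2508) (XT.nd (nat_lit 33306) (nat_lit 0) (nat_lit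 2508) (XT.lf (nat_lit 0) (nat_lit 1098007555256) (nat_lit 76) (nat_lit 567394861136) (nat_lit 76) (nat_lit 229748726788) (nat_lit 4) (nat_lit 4) (nat_lit 5) (nat_lit 5) (nat_lit 5) (nat_lit 4) (nat_lit 334) (nat_lit 279) (nat_lit 107)) (XT.lf (nat_lit 0) (nat_lit 18917600574) (nat_lit 532) (nat_lit 12804254808) (nat_lit 532) (nat_lit 12804254808) (nat_lit 37) (nat_lit 3) (nat_lit 44) (nat_lit 3) (nat_lit 44) (nat_lit 5) (nat_lit 280) (nat_lit 280) (nat_lit 160))) (XT.nd (nat_lit 78) (nat_lit 0) (nat_lit 76) (XT.lf (nat_lit 76) (nat_lit 13727206382) (nat_lit 0) (nat_lit 25958939890) (nat_lit 532) (nat_lit 52901124630) (nat_lit 38) (nat_lit 5) (nat_lit 37) (nat_lit 3) (nat_lit 44) (nat_lit 5) (nat_lit 281) (nat_lit 280) (nat_lit 159)) (XT.lf (nat_lit 0) (nat_lit 42752110492) (nat_lit 456) (nat_lit 39050950436) (nat_lit 532) (nat_lit 14516712594) (nat_lit 38) (nat_lit 5) (nat_lit 44) (nat_lit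 5) (nat_lit 45) (nat_lit 5) (nat_lit 282) (nat_lit 280) (nat_lit 158)))))) (XT.nd (nat_lit 468) (nat_lit 684) (nat_lit 0) (XT.nd (nat_lit 234) (nat_lit 304) (nat_lit 0) (XT.nd (nat_lit 78) (nat_lit 0) (nat_lit 0) (XT.lf (nat_lit 76) (nat_lit 3440273611) (nat_lit 0) (nat_lit 43379387689) (nat_lit 532) (nat_lit 53470713568) (nat_lit 39) (nat_lit 5) (nat_lit 38) (nat_lit 5) (nat_lit 45) (nat_lit 5) (nat_lit 283) (nat_lit 280) (nat_lit 157)) (XT.nd (nat_lit 78) (nat_lit 0) (nat_lit 76) (XT.lf (nat_lit 76) (nat_lit 51551211914) (nat_lit 0) (nat_lit 728479256) (nat_lit 532) (nat_lit 52213570183) (nat_lit 39) (nat_lit 5) (nat_lit 38) (nat_lit 5) (nat_lit 45) (nat_lit 5) (nat_lit 284) (nat_lit 280) (nat_lit 156)) (XT.lf (nat_lit 0) (nat_lit 59266224520) (nat_lit 456) (nat_lit 6612117365) (nat_lit 532) (nat_lit 43066863589) (nat_lit 39) (nat_lit 5) (nat_lit 45) (nat_lit 5) (nat_lit 46) (nat_lit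 5) (nat_lit 285) (nat_lit 280) (nat_lit 155)))) (XT.nd (nat_lit 78) (nat_lit 380) (nat_lit 0) (XT.lf (nat_lit 76) (nat_lit 45690477086) (nat_lit 0) (nat_lit 22238431350) (nat_lit 532) (nat_lit 45735021055) (nat_lit 40) (nat_lit 5) (nat_lit 39) (nat_lit 5) (nat_lit 46) (nat_lit 5) (nat_lit 286) (nat_lit 280) (nat_lit 154)) (XT.nd (nat_lit 78) (nat_lit 456) (nat_lit 0) (XT.lf (nat_lit 0) (nat_lit 78068241473) (nat_lit 456) (nat_lit 16796206280) (nat_lit 76) (nat_lit 23833015329) (nat_lit 40) (nat_lit 5) (nat_lit 46) (nat_lit 5) (nat_lit 41) (nat_lit 5) (nat_lit 287) (nat_lit 280) (nat_lit 153)) (XT.lf (nat_lit 0) (nat_lit 39892761405) (nat_lit 456) (nat_lit 50662523833) (nat_lit 532) (nat_lit 33455471223) (nat_lit 34) (nat_lit 5) (nat_lit 40) (nat_lit 5) (nat_lit 41) (nat_lit 5) (nat_lit 288) (nat_lit 280) (nat_lit 152))))) (XT.nd (nat_lit 234) (nat_lit 456) (nat_lit 0) (XT.nd (nat_lit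 78) (nat_lit 228) (nat_lit 0) (XT.lf (nat_lit 0) (nat_lit 102071638600) (nat_lit 456) (nat_lit 2428437909) (nat_lit 532) (nat_lit 25212336144) (nat_lit 34) (nat_lit 5) (nat_lit 40) (nat_lit 5) (nat_lit 41) (nat_lit 5) (nat_lit 289) (nat_lit 280) (nat_lit 151)) (XT.nd (nat_lit 78) (nat_lit 0) (nat_lit 0) (XT.lf (nat_lit 0) (nat_lit 33853243637) (nat_lit 228) (nat_lit 87715388459) (nat_lit 304) (nat_lit 14140916671) (nat_lit 31) (nat_lit 5) (nat_lit 34) (nat_lit 5) (nat_lit 35) (nat_lit 5) (nat_lit 290) (nat_lit 280) (nat_lit 150)) (XT.lf (nat_lit 0) (nat_lit 101771923156) (nat_lit 228) (nat_lit 39047577500) (nat_lit 304) (nat_lit 1301610600) (nat_lit 31) (nat_lit 5) (nat_lit 34) (nat_lit 5) (nat_lit 35) (nat_lit 5) (nat_lit 291) (nat_lit 280) (nat_lit 149)))) (XT.nd (nat_lit 156) (nat_lit 228) (nat_lit 0) (XT.nd (nat_lit 78) (nat_lit 0) (nat_lit 0) (XT.lf (nat_lit 0) (nat_lit 12938271648)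 (nat_lit 228) (nat_lit 122185833749) (nat_lit 76) (nat_lit 13817162018) (nat_lit 28) (nat_lit 5) (nat_lit 31) (nat_lit 5) (nat_lit 29) (nat_lit 5) (nat_lit 292) (nat_lit 280) (nat_lit 148)) (XT.lf (nat_lit 0) (nat_lit 30392757295) (nat_lit 228) (nat_lit 55772772126) (nat_lit 76) (nat_lit 69967144715) (nat_lit 28) (nat_lit 5) (nat_lit 31) (nat_lit 5) (nat_lit 29) (nat_lit 5) (nat_lit 293) (nat_lit 280) (nat_lit 147))) (XT.nd (nat_lit 78) (nat_lit 0) (nat_lit 0) (XT.lf (nat_lit 0) (nat_lit 16792992652) (nat_lit 228) (nat_lit 32854145350) (nat_lit 304) (nat_lit 114219973796) (nat_lit 25) (nat_lit 5) (nat_lit 28) (nat_lit 5) (nat_lit 29) (nat_lit 5) (nat_lit 294) (nat_lit 280) (nat_lit 146)) (XT.lf (nat_lit 0) (nat_lit 72600650723) (nat_lit 304) (nat_lit 74397032055) (nat_lit 76) (nat_lit 25049920374) (nat_lit 25) (nat_lit 5) (nat_lit 29) (nat_lit 5) (nat_lit 26) (nat_lit 5) (nat_lit 295)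 (nat_lit 280) (nat_lit 145))))))) (XT.nd (nat_lit 1014) (nat_lit 380) (nat_lit 0) (XT.nd (nat_lit 468) (nat_lit 456) (nat_lit 0) (XT.nd (nat_lit 234) (nat_lit 380) (nat_lit 0) (XT.nd (nat_lit 78) (nat_lit 0) (nat_lit 0) (XT.lf (nat_lit 0) (nat_lit 3411125802) (nat_lit 152) (nat_lit 94914412927) (nat_lit 228) (nat_lit 82482188657) (nat_lit 23) (nat_lit 5) (nat_lit 25) (nat_lit 5) (nat_lit 26) (nat_lit 5) (nat_lit 296) (nat_lit 280) (nat_lit 144)) (XT.nd (nat_lit 78) (nat_lit 0) (nat_lit 0) (XT.lf (nat_lit 0) (nat_lit 91674590943) (nat_lit 152) (nat_lit 36467688870) (nat_lit 228) (nat_lit 61963673815) (nat_lit 23) (nat_lit 5) (nat_lit 25) (nat_lit 5) (nat_lit 26) (nat_lit 5) (nat_lit 297) (nat_lit 280) (nat_lit 143)) (XT.lf (nat_lit 0) (nat_lit 160985142630) (nat_lit 228) (nat_lit 13790315778) (nat_lit 76) (nat_lit 25321317922) (nat_lit 23) (nat_lit 5) (nat_lit 26) (nat_lit 5) (nat_lit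 24) (nat_lit 5) (nat_lit 298) (nat_lit 280) (nat_lit 142)))) (XT.nd (nat_lit 78) (nat_lit 228) (nat_lit 0) (XT.lf (nat_lit 0) (nat_lit 80712007414) (nat_lit 152) (nat_lit 118631519653) (nat_lit 228) (nat_lit 11312291257) (nat_lit 21) (nat_lit 5) (nat_lit 23) (nat_lit 5) (nat_lit 24) (nat_lit 5) (nat_lit 299) (nat_lit 280) (nat_lit 141)) (XT.nd (nat_lit 78) (nat_lit 152) (nat_lit 0) (XT.lf (nat_lit 0) (nat_lit 18161601483) (nat_lit 228) (nat_lit 38930770396) (nat_lit 76) (nat_lit 164900284333) (nat_lit 20) (nat_lit 5) (nat_lit 23) (nat_lit 5) (nat_lit 21) (nat_lit 5) (nat_lit 300) (nat_lit 280) (nat_lit 140)) (XT.lf (nat_lit 0) (nat_lit 51149263993) (nat_lit 228) (nat_lit 172185488724) (nat_lit 76) (nat_lit 10736821785) (nat_lit 18) (nat_lit 5) (nat_lit 21) (nat_lit 5) (nat_lit 19) (nat_lit 5) (nat_lit 301) (nat_lit 280) (nat_lit 139))))) (XT.nd (nat_lit 234) (nat_lit 304) (nat_lit 0)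 (XT.nd (nat_lit 78) (nat_lit 152) (nat_lit 0) (XT.lf (nat_lit 0) (nat_lit 89350724753) (nat_lit 228) (nat_lit 75560223576) (nat_lit 76) (nat_lit 81999875755) (nat_lit 18) (nat_lit 5) (nat_lit 21) (nat_lit 5) (nat_lit 19) (nat_lit 5) (nat_lit 302) (nat_lit 280) (nat_lit 138)) (XT.nd (nat_lit 78) (nat_lit 0) (nat_lit 0) (XT.lf (nat_lit 0) (nat_lit 30311044321) (nat_lit 152) (nat_lit 101026038055) (nat_lit 228) (nat_lit 129381829458) (nat_lit 16) (nat_lit 5) (nat_lit 18) (nat_lit 5) (nat_lit 19) (nat_lit 5) (nat_lit 303) (nat_lit 280) (nat_lit 137)) (XT.lf (nat_lit 0) (nat_lit 148948898444) (nat_lit 152) (nat_lit 29799207131) (nat_lit 228) (nat_lit 96718281030) (nat_lit 16) (nat_lit 5) (nat_lit 18) (nat_lit 5) (nat_lit 19) (nat_lit 5) (nat_lit 304) (nat_lit 280) (nat_lit 136)))) (XT.nd (nat_lit 156) (nat_lit 228) (nat_lit 0) (XT.nd (nat_lit 78) (nat_lit 76) (nat_lit 0) (XT.lf (nat_lit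 0) (nat_lit 231085205219) (nat_lit 228) (nat_lit 15449537458) (nat_lit 76) (nat_lit 44768261630) (nat_lit 16) (nat_lit 5) (nat_lit 19) (nat_lit 5) (nat_lit 17) (nat_lit 4) (nat_lit 305) (nat_lit 280) (nat_lit 135)) (XT.lf (nat_lit 0) (nat_lit 109191797756) (nat_lit 76) (nat_lit 181817377933) (nat_lit 152) (nat_lit 17125383985) (nat_lit 15) (nat_lit 5) (nat_lit 16) (nat_lit 5) (nat_lit 17) (nat_lit 4) (nat_lit 306) (nat_lit 280) (nat_lit 134))) (XT.nd (nat_lit 78) (nat_lit 152) (nat_lit 0) (XT.lf (nat_lit 0) (nat_lit 28376219100) (nat_lit 152) (nat_lit 82314431525) (nat_lit 76) (nat_lit 215530737972) (nat_lit 14) (nat_lit 5) (nat_lit 16) (nat_lit 5) (nat_lit 15) (nat_lit 5) (nat_lit 307) (nat_lit 280) (nat_lit 133)) (XT.lf (nat_lit 0) (nat_lit 45473893406) (nat_lit 152) (nat_lit 32212335805) (nat_lit 228) (nat_lit 267945870245) (nat_lit 12) (nat_lit 5) (nat_lit 14) (nat_lit 5) (nat_lit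 15) (nat_lit 5) (nat_lit 308) (nat_lit 280) (nat_lit 132)))))) (XT.nd (nat_lit 546) (nat_lit 152) (nat_lit 0) (XT.nd (nat_lit 234) (nat_lit 152) (nat_lit 0) (XT.nd (nat_lit 78) (nat_lit 76) (nat_lit 0) (XT.lf (nat_lit 0) (nat_lit 134513660202) (nat_lit 228) (nat_lit 179571435330) (nat_lit 76) (nat_lit 52224762397) (nat_lit 12) (nat_lit 5) (nat_lit 15) (nat_lit 5) (nat_lit 13) (nat_lit 4) (nat_lit 309) (nat_lit 280) (nat_lit 131)) (XT.nd (nat_lit 78) (nat_lit 76) (nat_lit 0) (XT.lf (nat_lit 0) (nat_lit 196723830437) (nat_lit 228) (nat_lit 50174637433) (nat_lit 76) (nat_lit 141676445952) (nat_lit 12) (nat_lit 5) (nat_lit 15) (nat_lit 5) (nat_lit 13) (nat_lit 4) (nat_lit 310) (nat_lit 280) (nat_lit 130)) (XT.lf (nat_lit 0) (nat_lit 94290482754) (nat_lit 76) (nat_lit 171887890949) (nat_lit 152) (nat_lit 146261396033) (nat_lit 11) (nat_lit 5) (nat_lit 12) (nat_lit 5) (nat_lit 13) (nat_lit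 4) (nat_lit 311) (nat_lit 280) (nat_lit 129)))) (XT.nd (nat_lit 156) (nat_lit 152) (nat_lit 0) (XT.nd (nat_lit 78) (nat_lit 0) (nat_lit 0) (XT.lf (nat_lit 0) (nat_lit 253166080682) (nat_lit 76) (nat_lit 89394938841) (nat_lit 152) (nat_lit 95543055751) (nat_lit 11) (nat_lit 5) (nat_lit 12) (nat_lit 5) (nat_lit 13) (nat_lit 4) (nat_lit 312) (nat_lit 280) (nat_lit 128)) (XT.lf (nat_lit 0) (nat_lit 424751533885) (nat_lit 76) (nat_lit 302627926) (nat_lit 152) (nat_lit 40767372918) (nat_lit 11) (nat_lit 5) (nat_lit 12) (nat_lit 5) (nat_lit 13) (nat_lit 4) (nat_lit 313) (nat_lit 280) (nat_lit 127))) (XT.nd (nat_lit 78) (nat_lit 0) (nat_lit 0) (XT.lf (nat_lit 0) (nat_lit 22746119789) (nat_lit 152) (nat_lit 378022686111) (nat_lit 76) (nat_lit 94530144904) (nat_lit 9) (nat_lit 5) (nat_lit 11) (nat_lit 5) (nat_lit 10) (nat_lit 4) (nat_lit 314) (nat_lit 280) (nat_lit 126)) (XT.lf (nat_lit 0) (nat_lit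 90298041247) (nat_lit 152) (nat_lit 237514913941) (nat_lit 76) (nat_lit 199144106049) (nat_lit 9) (nat_lit 5) (nat_lit 11) (nat_lit 5) (nat_lit 10) (nat_lit 4) (nat_lit 315) (nat_lit 280) (nat_lit 125))))) (XT.nd (nat_lit 234) (nat_lit 76) (nat_lit 0) (XT.nd (nat_lit 78) (nat_lit 76) (nat_lit 0) (XT.lf (nat_lit 0) (nat_lit 163254016761) (nat_lit 152) (nat_lit 85766692706) (nat_lit 76) (nat_lit 312127119200) (nat_lit 9) (nat_lit 5) (nat_lit 11) (nat_lit 5) (nat_lit 10) (nat_lit 4) (nat_lit 316) (nat_lit 280) (nat_lit 124)) (XT.nd (nat_lit 78) (nat_lit 0) (nat_lit 0) (XT.lf (nat_lit 0) (nat_lit 82234951645) (nat_lit 76) (nat_lit 161789178957) (nat_lit 152) (nat_lit 353891514241) (nat_lit 8) (nat_lit 5) (nat_lit 9) (nat_lit 5) (nat_lit 10) (nat_lit 4) (nat_lit 317) (nat_lit 280) (nat_lit 123)) (XT.lf (nat_lit 0) (nat_lit 268554199489) (nat_lit 76) (nat_lit 65046578243) (nat_lit 152) (nat_lit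 303836514812) (nat_lit 8) (nat_lit 5) (nat_lit 9) (nat_lit 5) (nat_lit 10) (nat_lit 4) (nat_lit 318) (nat_lit 280) (nat_lit 122)))) (XT.nd (nat_lit 156) (nat_lit 76) (nat_lit 0) (XT.nd (nat_lit 78) (nat_lit 0) (nat_lit 0) (XT.lf (nat_lit 0) (nat_lit 431291895615) (nat_lit 152) (nat_lit 211290257546) (nat_lit 0) (nat_lit 37462651930) (nat_lit 8) (nat_lit 5) (nat_lit 10) (nat_lit 4) (nat_lit 8) (nat_lit 4) (nat_lit 319) (nat_lit 280) (nat_lit 121)) (XT.lf (nat_lit 0) (nat_lit 538487746600) (nat_lit 152) (nat_lit 42779655222) (nat_lit 0) (nat_lit 144658361466) (nat_lit 8) (nat_lit 5) (nat_lit 10) (nat_lit 4) (nat_lit 8) (nat_lit 4) (nat_lit 320) (nat_lit 280) (nat_lit 120))) (XT.nd (nat_lit 78) (nat_lit 0) (nat_lit 0) (XT.lf (nat_lit 0) (nat_lit 146542306716) (nat_lit 76) (nat_lit 511241232873) (nat_lit 76) (nat_lit 117411716767) (nat_lit 7) (nat_lit 4) (nat_lit 8) (nat_lit 5) (nat_lit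 8) (nat_lit 4) (nat_lit 321) (nat_lit 280) (nat_lit 119)) (XT.lf (nat_lit 0) (nat_lit 353442817503) (nat_lit 76) (nat_lit 434349780357) (nat_lit 76) (nat_lit 40520142982) (nat_lit 7) (nat_lit 4) (nat_lit 8) (nat_lit 5) (nat_lit 8) (nat_lit 4) (nat_lit 322) (nat_lit 280) (nat_lit 118))))))))
noncomputable def xc111 : XT := (XT.nd (nat_lit 35412) (nat_lit 0) (nat_lit 228) (XT.nd (nat_lit 34320) (nat_lit 0) (nat_lit 1596) (XT.nd (nat_lit 468) (nat_lit 76) (nat_lit 0) (XT.nd (nat_lit 234) (nat_lit 0) (nat_lit 0) (XT.nd (nat_lit 78) (nat_lit 76) (nat_lit 0) (XT.lf (nat_lit 0) (nat_lit 40395529838) (nat_lit 152) (nat_lit 309807047598) (nat_lit 76) (nat_lit 535395238195) (nat_lit 6) (nat_lit 5) (nat_lit 8) (nat_lit 5) (nat_lit 7) (nat_lit 4) (nat_lit 323) (nat_lit 280) (nat_lit 117)) (XT.nd (nat_lit 78) (nat_lit 76) (nat_lit 0) (XT.lf (nat_lit 0) (nat_lit 125595254847) (nat_lit 152) (nat_lit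 132591723547) (nat_lit 76) (nat_lit 689194525321) (nat_lit 6) (nat_lit 5) (nat_lit 8) (nat_lit 5) (nat_lit 7) (nat_lit 4) (nat_lit 324) (nat_lit 280) (nat_lit 116)) (XT.lf (nat_lit 0) (nat_lit 61897066038) (nat_lit 76) (nat_lit 157202460854) (nat_lit 152) (nat_lit 794889274519) (nat_lit 5) (nat_lit 5) (nat_lit 6) (nat_lit 5) (nat_lit 7) (nat_lit 4) (nat_lit 325) (nat_lit 280) (nat_lit 115)))) (XT.nd (nat_lit 78) (nat_lit 0) (nat_lit 0) (XT.lf (nat_lit 0) (nat_lit 279485467867) (nat_lit 76) (nat_lit 44223910450) (nat_lit 152) (nat_lit 761925285676) (nat_lit 5) (nat_lit 5) (nat_lit 6) (nat_lit 5) (nat_lit 7) (nat_lit 4) (nat_lit 326) (nat_lit 280) (nat_lit 114)) (XT.nd (nat_lit 78) (nat_lit 0) (nat_lit 0) (XT.lf (nat_lit 0) (nat_lit 438558887560) (nat_lit 152) (nat_lit 650402270934) (nat_lit 0) (nat_lit 73901367589) (nat_lit 5) (nat_lit 5) (nat_lit 7) (nat_lit 4) (nat_lit 5) (nat_lit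 4) (nat_lit 327) (nat_lit 280) (nat_lit 113)) (XT.lf (nat_lit 0) (nat_lit 563744982400) (nat_lit 152) (nat_lit 483344353151) (nat_lit 0) (nat_lit 199087391669) (nat_lit 5) (nat_lit 5) (nat_lit 7) (nat_lit 4) (nat_lit 5) (nat_lit 4) (nat_lit 328) (nat_lit 280) (nat_lit 112))))) (XT.nd (nat_lit 234) (nat_lit 0) (nat_lit 0) (XT.nd (nat_lit 78) (nat_lit 76) (nat_lit 0) (XT.lf (nat_lit 0) (nat_lit 698945920253) (nat_lit 152) (nat_lit 302921883822) (nat_lit 0) (nat_lit 334288264004) (nat_lit 5) (nat_lit 5) (nat_lit 7) (nat_lit 4) (nat_lit 5) (nat_lit 4) (nat_lit 329) (nat_lit 280) (nat_lit 111)) (XT.nd (nat_lit 78) (nat_lit 76) (nat_lit 0) (XT.lf (nat_lit 0) (nat_lit 844962891862) (nat_lit 152) (nat_lit 108065692758) (nat_lit 0) (nat_lit 480305174948) (nat_lit 5) (nat_lit 5) (nat_lit 7) (nat_lit 4) (nat_lit 5) (nat_lit 4) (nat_lit 330) (nat_lit 280) (nat_lit 110)) (XT.lf (nat_lit 0) (nat_lit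 107770016069) (nat_lit 76) (nat_lit 897483038394) (nat_lit 76) (nat_lit 532825265308) (nat_lit 4) (nat_lit 4) (nat_lit 5) (nat_lit 5) (nat_lit 5) (nat_lit 4) (nat_lit 331) (nat_lit 280) (nat_lit 109)))) (XT.nd (nat_lit 156) (nat_lit 0) (nat_lit 0) (XT.nd (nat_lit 78) (nat_lit 0) (nat_lit 0) (XT.lf (nat_lit 0) (nat_lit 347018304886) (nat_lit 76) (nat_lit 834302795705) (nat_lit 76) (nat_lit 469644970609) (nat_lit 4) (nat_lit 4) (nat_lit 5) (nat_lit 5) (nat_lit 5) (nat_lit 4) (nat_lit 332) (nat_lit 280) (nat_lit 108)) (XT.lf (nat_lit 0) (nat_lit 605406393457) (nat_lit 76) (nat_lit 766068162664) (nat_lit 76) (nat_lit 401410289411) (nat_lit 4) (nat_lit 4) (nat_lit 5) (nat_lit 5) (nat_lit 5) (nat_lit 4) (nat_lit 333) (nat_lit 280) (nat_lit 107))) (XT.nd (nat_lit 33384) (nat_lit 0) (nat_lit 2508) (XT.lf (nat_lit 0) (nat_lit 884465470456) (nat_lit 76) (nat_lit 692374785892) (nat_lit 76) (nat_lit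 327716868048) (nat_lit 4) (nat_lit 4) (nat_lit 5) (nat_lit 5) (nat_lit 5) (nat_lit 4) (nat_lit 334) (nat_lit 280) (nat_lit 106)) (XT.lf (nat_lit 0) (nat_lit 20438228147) (nat_lit 532) (nat_lit 13824679410) (nat_lit 532) (nat_lit 13824679410) (nat_lit 37) (nat_lit 3) (nat_lit 44) (nat_lit 3) (nat_lit 44) (nat_lit 5) (nat_lit 281) (nat_lit 281) (nat_lit 158)))))) (XT.nd (nat_lit 546) (nat_lit 912) (nat_lit 0) (XT.nd (nat_lit 234) (nat_lit 0) (nat_lit 76) (XT.nd (nat_lit 78) (nat_lit 0) (nat_lit 76) (XT.lf (nat_lit 76) (nat_lit 14833016191) (nat_lit 0) (nat_lit 28041574858) (nat_lit 532) (nat_lit 57118513434) (nat_lit 38) (nat_lit 5) (nat_lit 37) (nat_lit 3) (nat_lit 44) (nat_lit 5) (nat_lit 282) (nat_lit 281) (nat_lit 157)) (XT.nd (nat_lit 78) (nat_lit 0) (nat_lit 0) (XT.lf (nat_lit 0) (nat_lit 46184696650) (nat_lit 456) (nat_lit 42166763730) (nat_lit 532) (nat_lit 15672842523) (nat_lit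 38) (nat_lit 5) (nat_lit 44) (nat_lit 5) (nat_lit 45) (nat_lit 5) (nat_lit 283) (nat_lit 281) (nat_lit 156)) (XT.lf (nat_lit 76) (nat_lit 3723549058) (nat_lit 0) (nat_lit 46853376352) (nat_lit 532) (nat_lit 57735689415) (nat_lit 39) (nat_lit 5) (nat_lit 38) (nat_lit 5) (nat_lit 45) (nat_lit 5) (nat_lit 284) (nat_lit 281) (nat_lit 155)))) (XT.nd (nat_lit 156) (nat_lit 0) (nat_lit 76) (XT.nd (nat_lit 78) (nat_lit 0) (nat_lit 76) (XT.lf (nat_lit 76) (nat_lit 55682765865) (nat_lit 0) (nat_lit 790125789) (nat_lit 532) (nat_lit 56378913910) (nat_lit 39) (nat_lit 5) (nat_lit 38) (nat_lit 5) (nat_lit 45) (nat_lit 5) (nat_lit 285) (nat_lit 281) (nat_lit 154)) (XT.lf (nat_lit 0) (nat_lit 64017470801) (nat_lit 456) (nat_lit 7133258328) (nat_lit 532) (nat_lit 46509249990) (nat_lit 39) (nat_lit 5) (nat_lit 45) (nat_lit 5) (nat_lit 46) (nat_lit 5) (nat_lit 286) (nat_lit 281) (nat_lit 153))) (XT.nd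 (nat_lit 78) (nat_lit 0) (nat_lit 76) (XT.lf (nat_lit 76) (nat_lit 49353345491) (nat_lit 0) (nat_lit 24019270534) (nat_lit 532) (nat_lit 49383632780) (nat_lit 40) (nat_lit 5) (nat_lit 39) (nat_lit 5) (nat_lit 46) (nat_lit 5) (nat_lit 287) (nat_lit 281) (nat_lit 152)) (XT.lf (nat_lit 0) (nat_lit 84322360488) (nat_lit 456) (nat_lit 18132062297) (nat_lit 76) (nat_lit 25738104334) (nat_lit 40) (nat_lit 5) (nat_lit 46) (nat_lit 5) (nat_lit 41) (nat_lit 5) (nat_lit 288) (nat_lit 281) (nat_lit 151))))) (XT.nd (nat_lit 234) (nat_lit 456) (nat_lit 0) (XT.nd (nat_lit 78) (nat_lit 228) (nat_lit 0) (XT.lf (nat_lit 0) (nat_lit 43091824310) (nat_lit 456) (nat_lit 54716085776) (nat_lit 532) (nat_lit 36123013476) (nat_lit 34) (nat_lit 5) (nat_lit 40) (nat_lit 5) (nat_lit 41) (nat_lit 5) (nat_lit 289) (nat_lit 281) (nat_lit 150)) (XT.nd (nat_lit 78) (nat_lit 228) (nat_lit 0) (XT.lf (nat_lit 0) (nat_lit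 110244445607) (nat_lit 456) (nat_lit 2623231494) (nat_lit 532) (nat_lit 27221086513) (nat_lit 34) (nat_lit 5) (nat_lit 40) (nat_lit 5) (nat_lit 41) (nat_lit 5) (nat_lit 290) (nat_lit 281) (nat_lit 149)) (XT.lf (nat_lit 0) (nat_lit 36569037862) (nat_lit 228) (nat_lit 94732286382) (nat_lit 304) (nat_lit 15264380359) (nat_lit 31) (nat_lit 5) (nat_lit 34) (nat_lit 5) (nat_lit 35) (nat_lit 5) (nat_lit 291) (nat_lit 281) (nat_lit 148)))) (XT.nd (nat_lit 156) (nat_lit 228) (nat_lit 0) (XT.nd (nat_lit 78) (nat_lit 228) (nat_lit 0) (XT.lf (nat_lit 0) (nat_lit 109920653614) (nat_lit 228) (nat_lit 42171075225) (nat_lit 304) (nat_lit 1398508295) (nat_lit 31) (nat_lit 5) (nat_lit 34) (nat_lit 5) (nat_lit 35) (nat_lit 5) (nat_lit 292) (nat_lit 281) (nat_lit 147)) (XT.lf (nat_lit 0) (nat_lit 13979882154) (nat_lit 228) (nat_lit 131952988727) (nat_lit 76) (nat_lit 14923148672) (nat_lit 28) (nat_lit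 5) (nat_lit 31) (nat_lit 5) (nat_lit 29) (nat_lit 5) (nat_lit 293) (nat_lit 281) (nat_lit 146))) (XT.nd (nat_lit 78) (nat_lit 228) (nat_lit 0) (XT.lf (nat_lit 0) (nat_lit 32830241558) (nat_lit 228) (nat_lit 60227453413) (nat_lit 76) (nat_lit 75565084526) (nat_lit 28) (nat_lit 5) (nat_lit 31) (nat_lit 5) (nat_lit 29) (nat_lit 5) (nat_lit 294) (nat_lit 281) (nat_lit 145)) (XT.lf (nat_lit 0) (nat_lit 18143391776) (nat_lit 228) (nat_lit 35481299165) (nat_lit 304) (nat_lit 123351305512) (nat_lit 25) (nat_lit 5) (nat_lit 28) (nat_lit 5) (nat_lit 29) (nat_lit 5) (nat_lit 295) (nat_lit 281) (nat_lit 144))))))) (XT.nd (nat_lit 1014) (nat_lit 532) (nat_lit 0) (XT.nd (nat_lit 468) (nat_lit 456) (nat_lit 0) (XT.nd (nat_lit 234) (nat_lit 228) (nat_lit 0) (XT.nd (nat_lit 78) (nat_lit 152) (nat_lit 0) (XT.lf (nat_lit 0) (nat_lit 78414082619) (nat_lit 304) (nat_lit 80341928254) (nat_lit 76) (nat_lit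 27054950017) (nat_lit 25) (nat_lit 5) (nat_lit 29) (nat_lit 5) (nat_lit 26) (nat_lit 5) (nat_lit 296) (nat_lit 281) (nat_lit 143)) (XT.nd (nat_lit 78) (nat_lit 0) (nat_lit 0) (XT.lf (nat_lit 0) (nat_lit 3690708400) (nat_lit 152) (nat_lit 102506015716) (nat_lit 228) (nat_lit 89075191443) (nat_lit 23) (nat_lit 5) (nat_lit 25) (nat_lit 5) (nat_lit 26) (nat_lit 5) (nat_lit 297) (nat_lit 281) (nat_lit 142)) (XT.lf (nat_lit 0) (nat_lit 99014755008) (nat_lit 152) (nat_lit 39383668567) (nat_lit 228) (nat_lit 66915608178) (nat_lit 23) (nat_lit 5) (nat_lit 25) (nat_lit 5) (nat_lit 26) (nat_lit 5) (nat_lit 298) (nat_lit 281) (nat_lit 141)))) (XT.nd (nat_lit 78) (nat_lit 228) (nat_lit 0) (XT.lf (nat_lit 0) (nat_lit 173868394688) (nat_lit 228) (nat_lit 14887466565) (nat_lit 76) (nat_lit 27348285955) (nat_lit 23) (nat_lit 5) (nat_lit 26) (nat_lit 5) (nat_lit 24) (nat_lit 5) (nat_lit 299) (nat_lit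 281) (nat_lit 140)) (XT.nd (nat_lit 78) (nat_lit 76) (nat_lit 0) (XT.lf (nat_lit 0) (nat_lit 87174888698) (nat_lit 152) (nat_lit 128120374637) (nat_lit 228) (nat_lit 12212665332) (nat_lit 21) (nat_lit 5) (nat_lit 23) (nat_lit 5) (nat_lit 24) (nat_lit 5) (nat_lit 300) (nat_lit 281) (nat_lit 139)) (XT.lf (nat_lit 0) (nat_lit 19618583910) (nat_lit 228) (nat_lit 42039523730) (nat_lit 76) (nat_lit 178093624041) (nat_lit 20) (nat_lit 5) (nat_lit 23) (nat_lit 5) (nat_lit 21) (nat_lit 5) (nat_lit 301) (nat_lit 281) (nat_lit 138))))) (XT.nd (nat_lit 234) (nat_lit 152) (nat_lit 0) (XT.nd (nat_lit 78) (nat_lit 152) (nat_lit 0) (XT.lf (nat_lit 0) (nat_lit 55245133218) (nat_lit 228) (nat_lit 185954481578) (nat_lit 76) (nat_lit 11597359673) (nat_lit 18) (nat_lit 5) (nat_lit 21) (nat_lit 5) (nat_lit 19) (nat_lit 5) (nat_lit 302) (nat_lit 281) (nat_lit 137)) (XT.nd (nat_lit 78) (nat_lit 152) (nat_lit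 0) (XT.lf (nat_lit 0) (nat_lit 96502419868) (nat_lit 228) (nat_lit 81599628273) (nat_lit 76) (nat_lit 88561340024) (nat_lit 18) (nat_lit 5) (nat_lit 21) (nat_lit 5) (nat_lit 19) (nat_lit 5) (nat_lit 303) (nat_lit 281) (nat_lit 136)) (XT.lf (nat_lit 0) (nat_lit 32741204013) (nat_lit 152) (nat_lit 109106339563) (nat_lit 228) (nat_lit 139728591568) (nat_lit 16) (nat_lit 5) (nat_lit 18) (nat_lit 5) (nat_lit 19) (nat_lit 5) (nat_lit 304) (nat_lit 281) (nat_lit 135)))) (XT.nd (nat_lit 156) (nat_lit 152) (nat_lit 0) (XT.nd (nat_lit 78) (nat_lit 0) (nat_lit 0) (XT.lf (nat_lit 0) (nat_lit 160869695640) (nat_lit 152) (nat_lit 32181494130) (nat_lit 228) (nat_lit 104452239581) (nat_lit 16) (nat_lit 5) (nat_lit 18) (nat_lit 5) (nat_lit 19) (nat_lit 5) (nat_lit 305) (nat_lit 281) (nat_lit 134)) (XT.lf (nat_lit 0) (nat_lit 249575054434) (nat_lit 228) (nat_lit 16680765426) (nat_lit 76) (nat_lit 48351173535)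 (nat_lit 16) (nat_lit 5) (nat_lit 19) (nat_lit 5) (nat_lit 17) (nat_lit 4) (nat_lit 306) (nat_lit 281) (nat_lit 133))) (XT.nd (nat_lit 78) (nat_lit 76) (nat_lit 0) (XT.lf (nat_lit 0) (nat_lit 117931756731) (nat_lit 76) (nat_lit 196361072153) (nat_lit 152) (nat_lit 18492254039) (nat_lit 15) (nat_lit 5) (nat_lit 16) (nat_lit 5) (nat_lit 17) (nat_lit 4) (nat_lit 307) (nat_lit 281) (nat_lit 132)) (XT.lf (nat_lit 0) (nat_lit 30649096772) (nat_lit 152) (nat_lit 88895159507) (nat_lit 76) (nat_lit 232774614144) (nat_lit 14) (nat_lit 5) (nat_lit 16) (nat_lit 5) (nat_lit 15) (nat_lit 5) (nat_lit 308) (nat_lit 281) (nat_lit 131)))))) (XT.nd (nat_lit 546) (nat_lit 152) (nat_lit 0) (XT.nd (nat_lit 234) (nat_lit 228) (nat_lit 0) (XT.nd (nat_lit 78) (nat_lit 0) (nat_lit 0) (XT.lf (nat_lit 0) (nat_lit 49116119355) (nat_lit 152) (nat_lit 34787686163) (nat_lit 228) (nat_lit 289378641312) (nat_lit 12)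 (nat_lit 5) (nat_lit 14) (nat_lit 5) (nat_lit 15) (nat_lit 5) (nat_lit 309) (nat_lit 281) (nat_lit 130)) (XT.nd (nat_lit 78) (nat_lit 0) (nat_lit 0) (XT.lf (nat_lit 0) (nat_lit 145277269063) (nat_lit 228) (nat_lit 193932987470) (nat_lit 76) (nat_lit 56404182872) (nat_lit 12) (nat_lit 5) (nat_lit 15) (nat_lit 5) (nat_lit 13) (nat_lit 4) (nat_lit 310) (nat_lit 281) (nat_lit 129)) (XT.lf (nat_lit 0) (nat_lit 212464066543) (nat_lit 228) (nat_lit 54184754089) (nat_lit 76) (nat_lit 153011894483) (nat_lit 12) (nat_lit 5) (nat_lit 15) (nat_lit 5) (nat_lit 13) (nat_lit 4) (nat_lit 311) (nat_lit 281) (nat_lit 128)))) (XT.nd (nat_lit 156) (nat_lit 152) (nat_lit 0) (XT.nd (nat_lit 78) (nat_lit 0) (nat_lit 0) (XT.lf (nat_lit 0) (nat_lit 101837478135) (nat_lit 76) (nat_lit 185637412918) (nat_lit 152) (nat_lit 157959875429) (nat_lit 11) (nat_lit 5) (nat_lit 12) (nat_lit 5) (nat_lit 13) (nat_lit 4)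 (nat_lit 312) (nat_lit 281) (nat_lit 127)) (XT.lf (nat_lit 0) (nat_lit 273422845619) (nat_lit 76) (nat_lit 96545136441) (nat_lit 152) (nat_lit 103184248094) (nat_lit 11) (nat_lit 5) (nat_lit 12) (nat_lit 5) (nat_lit 13) (nat_lit 4) (nat_lit 313) (nat_lit 281) (nat_lit 126))) (XT.nd (nat_lit 78) (nat_lit 152) (nat_lit 0) (XT.lf (nat_lit 0) (nat_lit 458734877413) (nat_lit 76) (nat_lit 325544172) (nat_lit 152) (nat_lit 44026677458) (nat_lit 11) (nat_lit 5) (nat_lit 12) (nat_lit 5) (nat_lit 13) (nat_lit 4) (nat_lit 314) (nat_lit 281) (nat_lit 125)) (XT.lf (nat_lit 0) (nat_lit 24567753699) (nat_lit 152) (nat_lit 408261131516) (nat_lit 76) (nat_lit 102093822406) (nat_lit 9) (nat_lit 5) (nat_lit 11) (nat_lit 5) (nat_lit 10) (nat_lit 4) (nat_lit 315) (nat_lit 281) (nat_lit 124))))) (XT.nd (nat_lit 234) (nat_lit 76) (nat_lit 0) (XT.nd (nat_lit 78) (nat_lit 76) (nat_lit 0) (XT.lf (nat_lit 0)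 (nat_lit 97523684849) (nat_lit 152) (nat_lit 256512987163) (nat_lit 76) (nat_lit 215076806672) (nat_lit 9) (nat_lit 5) (nat_lit 11) (nat_lit 5) (nat_lit 10) (nat_lit 4) (nat_lit 316) (nat_lit 281) (nat_lit 123)) (XT.nd (nat_lit 78) (nat_lit 76) (nat_lit 0) (XT.lf (nat_lit 0) (nat_lit 176316005048) (nat_lit 152) (nat_lit 92625139333) (nat_lit 76) (nat_lit 337098374049) (nat_lit 9) (nat_lit 5) (nat_lit 11) (nat_lit 5) (nat_lit 10) (nat_lit 4) (nat_lit 317) (nat_lit 281) (nat_lit 122)) (XT.lf (nat_lit 0) (nat_lit 88816563433) (nat_lit 76) (nat_lit 174731108804) (nat_lit 152) (nat_lit 382201092361) (nat_lit 8) (nat_lit 5) (nat_lit 9) (nat_lit 5) (nat_lit 10) (nat_lit 4) (nat_lit 318) (nat_lit 281) (nat_lit 121)))) (XT.nd (nat_lit 156) (nat_lit 76) (nat_lit 0) (XT.nd (nat_lit 78) (nat_lit 0) (nat_lit 0) (XT.lf (nat_lit 0) (nat_lit 290041142537) (nat_lit 76) (nat_lit 70249189252) (nat_lit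 152) (nat_lit 328141822090) (nat_lit 8) (nat_lit 5) (nat_lit 9) (nat_lit 5) (nat_lit 10) (nat_lit 4) (nat_lit 319) (nat_lit 281) (nat_lit 120)) (XT.lf (nat_lit 0) (nat_lit 465796653431) (nat_lit 152) (nat_lit 228190975987) (nat_lit 0) (nat_lit 40460645066) (nat_lit 8) (nat_lit 5) (nat_lit 10) (nat_lit 4) (nat_lit 8) (nat_lit 4) (nat_lit 320) (nat_lit 281) (nat_lit 119))) (XT.nd (nat_lit 78) (nat_lit 76) (nat_lit 0) (XT.lf (nat_lit 0) (nat_lit 581568068335) (nat_lit 152) (nat_lit 46199710823) (nat_lit 0) (nat_lit 156231938700) (nat_lit 8) (nat_lit 5) (nat_lit 10) (nat_lit 4) (nat_lit 8) (nat_lit 4) (nat_lit 321) (nat_lit 281) (nat_lit 118)) (XT.lf (nat_lit 0) (nat_lit 158267949417) (nat_lit 76) (nat_lit 552139533210) (nat_lit 76) (nat_lit 126803291288) (nat_lit 7) (nat_lit 4) (nat_lit 8) (nat_lit 5) (nat_lit 8) (nat_lit 4) (nat_lit 322) (nat_lit 281) (nat_lit 117))))))))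
noncomputable def xc112 : XT := (XT.nd (nat_lit 35490) (nat_lit 0) (nat_lit 228) (XT.nd (nat_lit 34476) (nat_lit 0) (nat_lit 1596) (XT.nd (nat_lit 468) (nat_lit 76) (nat_lit 0) (XT.nd (nat_lit 234) (nat_lit 76) (nat_lit 0) (XT.nd (nat_lit 78) (nat_lit 76) (nat_lit 0) (XT.lf (nat_lit 0) (nat_lit 381720333795) (nat_lit 76) (nat_lit 469096838440) (nat_lit 76) (nat_lit 43760492550) (nat_lit 7) (nat_lit 4) (nat_lit 8) (nat_lit 5) (nat_lit 8) (nat_lit 4) (nat_lit 323) (nat_lit 281) (nat_lit 116)) (XT.nd (nat_lit 78) (nat_lit 0) (nat_lit 0) (XT.lf (nat_lit 0) (nat_lit 43628282175) (nat_lit 152) (nat_lit 334589615232) (nat_lit 76) (nat_lit 578227652964) (nat_lit 6) (nat_lit 5) (nat_lit 8) (nat_lit 5) (nat_lit 7) (nat_lit 4) (nat_lit 324) (nat_lit 281) (nat_lit 115)) (XT.lf (nat_lit 0) (nat_lit 135643902967) (nat_lit 152) (nat_lit 143197213122) (nat_lit 76) (nat_lit 744330824117) (nat_lit 6)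 (nat_lit 5) (nat_lit 8) (nat_lit 5) (nat_lit 7) (nat_lit 4) (nat_lit 325) (nat_lit 281) (nat_lit 114)))) (XT.nd (nat_lit 78) (nat_lit 0) (nat_lit 0) (XT.lf (nat_lit 0) (nat_lit 66850632837) (nat_lit 76) (nat_lit 169777851136) (nat_lit 152) (nat_lit 858479340485) (nat_lit 5) (nat_lit 5) (nat_lit 6) (nat_lit 5) (nat_lit 7) (nat_lit 4) (nat_lit 326) (nat_lit 281) (nat_lit 113)) (XT.nd (nat_lit 78) (nat_lit 0) (nat_lit 0) (XT.lf (nat_lit 0) (nat_lit 301845973368) (nat_lit 76) (nat_lit 47761076447) (nat_lit 152) (nat_lit 822878312238) (nat_lit 5) (nat_lit 5) (nat_lit 6) (nat_lit 5) (nat_lit 7) (nat_lit 4) (nat_lit 327) (nat_lit 281) (nat_lit 112)) (XT.lf (nat_lit 0) (nat_lit 473644468188) (nat_lit 152) (nat_lit 702432855230) (nat_lit 0) (nat_lit 79814133921) (nat_lit 5) (nat_lit 5) (nat_lit 7) (nat_lit 4) (nat_lit 5) (nat_lit 4) (nat_lit 328) (nat_lit 281) (nat_lit 111))))) (XT.nd (nat_lit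 234) (nat_lit 76) (nat_lit 0) (XT.nd (nat_lit 78) (nat_lit 0) (nat_lit 0) (XT.lf (nat_lit 0) (nat_lit 608845386199) (nat_lit 152) (nat_lit 522010422349) (nat_lit 0) (nat_lit 215014991267) (nat_lit 5) (nat_lit 5) (nat_lit 7) (nat_lit 4) (nat_lit 5) (nat_lit 4) (nat_lit 329) (nat_lit 281) (nat_lit 110)) (XT.nd (nat_lit 78) (nat_lit 0) (nat_lit 0) (XT.lf (nat_lit 0) (nat_lit 754862339435) (nat_lit 152) (nat_lit 327154265033) (nat_lit 0) (nat_lit 361031888332) (nat_lit 5) (nat_lit 5) (nat_lit 7) (nat_lit 4) (nat_lit 5) (nat_lit 4) (nat_lit 330) (nat_lit 281) (nat_lit 109)) (XT.lf (nat_lit 0) (nat_lit 912560613546) (nat_lit 152) (nat_lit 116709680128) (nat_lit 0) (nat_lit 518730110432) (nat_lit 5) (nat_lit 5) (nat_lit 7) (nat_lit 4) (nat_lit 5) (nat_lit 4) (nat_lit 331) (nat_lit 281) (nat_lit 108)))) (XT.nd (nat_lit 33618) (nat_lit 0) (nat_lit 2508) (XT.nd (nat_lit 78) (nat_lit 0) (nat_lit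 0) (XT.lf (nat_lit 0) (nat_lit 116392853302) (nat_lit 76) (nat_lit 969281114441) (nat_lit 76) (nat_lit 575450563169) (nat_lit 4) (nat_lit 4) (nat_lit 5) (nat_lit 5) (nat_lit 5) (nat_lit 4) (nat_lit 332) (nat_lit 281) (nat_lit 107)) (XT.lf (nat_lit 0) (nat_lit 374780913673) (nat_lit 76) (nat_lit 901046494338) (nat_lit 76) (nat_lit 507215898476) (nat_lit 4) (nat_lit 4) (nat_lit 5) (nat_lit 5) (nat_lit 5) (nat_lit 4) (nat_lit 333) (nat_lit 281) (nat_lit 106))) (XT.nd (nat_lit 78) (nat_lit 0) (nat_lit 0) (XT.lf (nat_lit 0) (nat_lit 22079475978) (nat_lit 532) (nat_lit 14927296610) (nat_lit 532) (nat_lit 14927296610) (nat_lit 37) (nat_lit 3) (nat_lit 44) (nat_lit 3) (nat_lit 44) (nat_lit 5) (nat_lit 282) (nat_lit 282) (nat_lit 156)) (XT.lf (nat_lit 76) (nat_lit 16026201808) (nat_lit 0) (nat_lit 30289976101) (nat_lit 532) (nat_lit 61675390629) (nat_lit 38) (nat_lit 5) (nat_lit 37) (nat_lit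 3) (nat_lit 44) (nat_lit 5) (nat_lit 283) (nat_lit 282) (nat_lit 155)))))) (XT.nd (nat_lit 468) (nat_lit 988) (nat_lit 0) (XT.nd (nat_lit 234) (nat_lit 0) (nat_lit 76) (XT.nd (nat_lit 78) (nat_lit 0) (nat_lit 0) (XT.lf (nat_lit 0) (nat_lit 49890118230) (nat_lit 456) (nat_lit 45533020860) (nat_lit 532) (nat_lit 16922205694) (nat_lit 38) (nat_lit 5) (nat_lit 44) (nat_lit 5) (nat_lit 45) (nat_lit 5) (nat_lit 284) (nat_lit 282) (nat_lit 154)) (XT.nd (nat_lit 78) (nat_lit 0) (nat_lit 0) (XT.lf (nat_lit 76) (nat_lit 4028337610) (nat_lit 0) (nat_lit 50604765157) (nat_lit 532) (nat_lit 62343672450) (nat_lit 39) (nat_lit 5) (nat_lit 38) (nat_lit 5) (nat_lit 45) (nat_lit 5) (nat_lit 285) (nat_lit 282) (nat_lit 153)) (XT.lf (nat_lit 76) (nat_lit 60143780307) (nat_lit 0) (nat_lit 856223534) (nat_lit 532) (nat_lit 60879160247) (nat_lit 39) (nat_lit 5) (nat_lit 38) (nat_lit 5) (nat_lit 45) (nat_lit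 5) (nat_lit 286) (nat_lit 282) (nat_lit 152)))) (XT.nd (nat_lit 78) (nat_lit 0) (nat_lit 0) (XT.lf (nat_lit 0) (nat_lit 69147397545) (nat_lit 456) (nat_lit 7697207380) (nat_lit 532) (nat_lit 50227449963) (nat_lit 39) (nat_lit 5) (nat_lit 45) (nat_lit 5) (nat_lit 46) (nat_lit 5) (nat_lit 287) (nat_lit 282) (nat_lit 151)) (XT.nd (nat_lit 78) (nat_lit 0) (nat_lit 76) (XT.lf (nat_lit 76) (nat_lit 53308154830) (nat_lit 0) (nat_lit 25942325102) (nat_lit 532) (nat_lit 53325587155) (nat_lit 40) (nat_lit 5) (nat_lit 39) (nat_lit 5) (nat_lit 46) (nat_lit 5) (nat_lit 288) (nat_lit 282) (nat_lit 150)) (XT.lf (nat_lit 0) (nat_lit 91075573622) (nat_lit 456) (nat_lit 19575905328) (nat_lit 76) (nat_lit 27795821901) (nat_lit 40) (nat_lit 5) (nat_lit 46) (nat_lit 5) (nat_lit 41) (nat_lit 5) (nat_lit 289) (nat_lit 282) (nat_lit 149))))) (XT.nd (nat_lit 234) (nat_lit 456) (nat_lit 0) (XT.nd (nat_lit 78)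 (nat_lit 228) (nat_lit 0) (XT.lf (nat_lit 0) (nat_lit 46545722031) (nat_lit 456) (nat_lit 59093852780) (nat_lit 532) (nat_lit 39005228145) (nat_lit 34) (nat_lit 5) (nat_lit 40) (nat_lit 5) (nat_lit 41) (nat_lit 5) (nat_lit 290) (nat_lit 282) (nat_lit 148)) (XT.nd (nat_lit 78) (nat_lit 228) (nat_lit 0) (XT.lf (nat_lit 0) (nat_lit 119070067715) (nat_lit 456) (nat_lit 2833534588) (nat_lit 532) (nat_lit 29391711943) (nat_lit 34) (nat_lit 5) (nat_lit 40) (nat_lit 5) (nat_lit 41) (nat_lit 5) (nat_lit 291) (nat_lit 282) (nat_lit 147)) (XT.lf (nat_lit 0) (nat_lit 39501020711) (nat_lit 228) (nat_lit 102310583668) (nat_lit 304) (nat_lit 16478835275) (nat_lit 31) (nat_lit 5) (nat_lit 34) (nat_lit 5) (nat_lit 35) (nat_lit 5) (nat_lit 292) (nat_lit 282) (nat_lit 146)))) (XT.nd (nat_lit 156) (nat_lit 228) (nat_lit 0) (XT.nd (nat_lit 78) (nat_lit 228) (nat_lit 0) (XT.lf (nat_lit 0) (nat_lit 118720287218)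 (nat_lit 228) (nat_lit 45544496775) (nat_lit 304) (nat_lit 1504189410) (nat_lit 31) (nat_lit 5) (nat_lit 34) (nat_lit 5) (nat_lit 35) (nat_lit 5) (nat_lit 293) (nat_lit 282) (nat_lit 145)) (XT.lf (nat_lit 0) (nat_lit 15103887244) (nat_lit 228) (nat_lit 142502616266) (nat_lit 76) (nat_lit 16117526709) (nat_lit 28) (nat_lit 5) (nat_lit 31) (nat_lit 5) (nat_lit 29) (nat_lit 5) (nat_lit 294) (nat_lit 282) (nat_lit 144))) (XT.nd (nat_lit 78) (nat_lit 228) (nat_lit 0) (XT.lf (nat_lit 0) (nat_lit 35461859511) (nat_lit 228) (nat_lit 65039527872) (nat_lit 76) (nat_lit 81610778457) (nat_lit 28) (nat_lit 5) (nat_lit 31) (nat_lit 5) (nat_lit 29) (nat_lit 5) (nat_lit 295) (nat_lit 282) (nat_lit 143)) (XT.lf (nat_lit 0) (nat_lit 19600829949) (nat_lit 228) (nat_lit 38318793314) (nat_lit 304) (nat_lit 133214037707) (nat_lit 25) (nat_lit 5) (nat_lit 28) (nat_lit 5) (nat_lit 29) (nat_lit 5) (nat_lit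 296) (nat_lit 282) (nat_lit 142))))))) (XT.nd (nat_lit 1014) (nat_lit 532) (nat_lit 0) (XT.nd (nat_lit 468) (nat_lit 456) (nat_lit 0) (XT.nd (nat_lit 234) (nat_lit 228) (nat_lit 0) (XT.nd (nat_lit 78) (nat_lit 152) (nat_lit 0) (XT.lf (nat_lit 0) (nat_lit 84691821573) (nat_lit 304) (nat_lit 86763395714) (nat_lit 76) (nat_lit 29220234232) (nat_lit 25) (nat_lit 5) (nat_lit 29) (nat_lit 5) (nat_lit 26) (nat_lit 5) (nat_lit 297) (nat_lit 282) (nat_lit 141)) (XT.nd (nat_lit 78) (nat_lit 0) (nat_lit 0) (XT.lf (nat_lit 0) (nat_lit 3991702840) (nat_lit 152) (nat_lit 110705167888) (nat_lit 228) (nat_lit 96196429404) (nat_lit 23) (nat_lit 5) (nat_lit 25) (nat_lit 5) (nat_lit 26) (nat_lit 5) (nat_lit 298) (nat_lit 282) (nat_lit 140)) (XT.lf (nat_lit 0) (nat_lit 106941248158) (nat_lit 152) (nat_lit 42533131418) (nat_lit 228) (nat_lit 72264433356) (nat_lit 23) (nat_lit 5) (nat_lit 25) (nat_lit 5)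 (nat_lit 26) (nat_lit 5) (nat_lit 299) (nat_lit 282) (nat_lit 139)))) (XT.nd (nat_lit 78) (nat_lit 228) (nat_lit 0) (XT.lf (nat_lit 0) (nat_lit 187781673402) (nat_lit 228) (nat_lit 16073256006) (nat_lit 76) (nat_lit 29537231307) (nat_lit 23) (nat_lit 5) (nat_lit 26) (nat_lit 5) (nat_lit 24) (nat_lit 5) (nat_lit 300) (nat_lit 282) (nat_lit 138)) (XT.nd (nat_lit 78) (nat_lit 76) (nat_lit 0) (XT.lf (nat_lit 0) (nat_lit 94153955833) (nat_lit 152) (nat_lit 138368575777) (nat_lit 228) (nat_lit 13185726891) (nat_lit 21) (nat_lit 5) (nat_lit 23) (nat_lit 5) (nat_lit 24) (nat_lit 5) (nat_lit 301) (nat_lit 282) (nat_lit 137)) (XT.lf (nat_lit 0) (nat_lit 21191546538) (nat_lit 228) (nat_lit 45397791684) (nat_lit 76) (nat_lit 192342243046) (nat_lit 20) (nat_lit 5) (nat_lit 23) (nat_lit 5) (nat_lit 21) (nat_lit 5) (nat_lit 302) (nat_lit 282) (nat_lit 136))))) (XT.nd (nat_lit 234) (nat_lit 152) (nat_lit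 0) (XT.nd (nat_lit 78) (nat_lit 152) (nat_lit 0) (XT.lf (nat_lit 0) (nat_lit 59668111593) (nat_lit 228) (nat_lit 200825827892) (nat_lit 76) (nat_lit 12526513456) (nat_lit 18) (nat_lit 5) (nat_lit 21) (nat_lit 5) (nat_lit 19) (nat_lit 5) (nat_lit 303) (nat_lit 282) (nat_lit 135)) (XT.nd (nat_lit 78) (nat_lit 152) (nat_lit 0) (XT.lf (nat_lit 0) (nat_lit 104225731715) (nat_lit 228) (nat_lit 88122957598) (nat_lit 76) (nat_lit 95647511123) (nat_lit 18) (nat_lit 5) (nat_lit 21) (nat_lit 5) (nat_lit 19) (nat_lit 5) (nat_lit 304) (nat_lit 282) (nat_lit 134)) (XT.lf (nat_lit 0) (nat_lit 35365023779) (nat_lit 152) (nat_lit 117833319347) (nat_lit 228) (nat_lit 150903634513) (nat_lit 16) (nat_lit 5) (nat_lit 18) (nat_lit 5) (nat_lit 19) (nat_lit 5) (nat_lit 305) (nat_lit 282) (nat_lit 133)))) (XT.nd (nat_lit 156) (nat_lit 152) (nat_lit 0) (XT.nd (nat_lit 78) (nat_lit 0) (nat_lit 0) (XT.lf (nat_lit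 0) (nat_lit 173743459666) (nat_lit 152) (nat_lit 34754599419) (nat_lit 228) (nat_lit 112805414691) (nat_lit 16) (nat_lit 5) (nat_lit 18) (nat_lit 5) (nat_lit 19) (nat_lit 5) (nat_lit 306) (nat_lit 282) (nat_lit 132)) (XT.lf (nat_lit 0) (nat_lit 269543658924) (nat_lit 228) (nat_lit 18011167136) (nat_lit 76) (nat_lit 52220511395) (nat_lit 16) (nat_lit 5) (nat_lit 19) (nat_lit 5) (nat_lit 17) (nat_lit 4) (nat_lit 307) (nat_lit 282) (nat_lit 131))) (XT.nd (nat_lit 78) (nat_lit 76) (nat_lit 0) (XT.lf (nat_lit 0) (nat_lit 127370254021) (nat_lit 76) (nat_lit 212068503867) (nat_lit 152) (nat_lit 19968924602) (nat_lit 15) (nat_lit 5) (nat_lit 16) (nat_lit 5) (nat_lit 17) (nat_lit 4) (nat_lit 308) (nat_lit 282) (nat_lit 130)) (XT.lf (nat_lit 0) (nat_lit 33103408039) (nat_lit 152) (nat_lit 96002977222) (nat_lit 76) (nat_lit 251397798239) (nat_lit 14) (nat_lit 5) (nat_lit 16) (nat_lit 5) (nat_lit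 15) (nat_lit 5) (nat_lit 309) (nat_lit 282) (nat_lit 129)))))) (XT.nd (nat_lit 546) (nat_lit 152) (nat_lit 0) (XT.nd (nat_lit 234) (nat_lit 228) (nat_lit 0) (XT.nd (nat_lit 78) (nat_lit 0) (nat_lit 0) (XT.lf (nat_lit 0) (nat_lit 53049107872) (nat_lit 152) (nat_lit 37569298016) (nat_lit 228) (nat_lit 312526447575) (nat_lit 12) (nat_lit 5) (nat_lit 14) (nat_lit 5) (nat_lit 15) (nat_lit 5) (nat_lit 310) (nat_lit 282) (nat_lit 128)) (XT.nd (nat_lit 78) (nat_lit 0) (nat_lit 0) (XT.lf (nat_lit 0) (nat_lit 156901607691) (nat_lit 228) (nat_lit 209444057635) (nat_lit 76) (nat_lit 60917751626) (nat_lit 12) (nat_lit 5) (nat_lit 15) (nat_lit 5) (nat_lit 13) (nat_lit 4) (nat_lit 311) (nat_lit 282) (nat_lit 127)) (XT.lf (nat_lit 0) (nat_lit 229463189184) (nat_lit 228) (nat_lit 58516229942) (nat_lit 76) (nat_lit 165253988750) (nat_lit 12) (nat_lit 5) (nat_lit 15) (nat_lit 5) (nat_lit 13) (nat_lit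 4) (nat_lit 312) (nat_lit 282) (nat_lit 126)))) (XT.nd (nat_lit 156) (nat_lit 152) (nat_lit 0) (XT.nd (nat_lit 78) (nat_lit 0) (nat_lit 0) (XT.lf (nat_lit 0) (nat_lit 109987697203) (nat_lit 76) (nat_lit 200487111963) (nat_lit 152) (nat_lit 170594580171) (nat_lit 11) (nat_lit 5) (nat_lit 12) (nat_lit 5) (nat_lit 13) (nat_lit 4) (nat_lit 313) (nat_lit 282) (nat_lit 125)) (XT.lf (nat_lit 0) (nat_lit 295299655506) (nat_lit 76) (nat_lit 104267549219) (nat_lit 152) (nat_lit 111437057115) (nat_lit 11) (nat_lit 5) (nat_lit 12) (nat_lit 5) (nat_lit 13) (nat_lit 4) (nat_lit 314) (nat_lit 282) (nat_lit 124))) (XT.nd (nat_lit 78) (nat_lit 152) (nat_lit 0) (XT.lf (nat_lit 0) (nat_lit 495436428938) (nat_lit 76) (nat_lit 350478320) (nat_lit 152) (nat_lit 47547023852) (nat_lit 11) (nat_lit 5) (nat_lit 12) (nat_lit 5) (nat_lit 13) (nat_lit 4) (nat_lit 315) (nat_lit 282) (nat_lit 123)) (XT.lf (nat_lit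 0) (nat_lit 26534840941) (nat_lit 152) (nat_lit 440919133247) (nat_lit 76) (nat_lit 110262413512) (nat_lit 9) (nat_lit 5) (nat_lit 11) (nat_lit 5) (nat_lit 10) (nat_lit 4) (nat_lit 316) (nat_lit 282) (nat_lit 122))))) (XT.nd (nat_lit 234) (nat_lit 76) (nat_lit 0) (XT.nd (nat_lit 78) (nat_lit 76) (nat_lit 0) (XT.lf (nat_lit 0) (nat_lit 105327123106) (nat_lit 152) (nat_lit 277031351331) (nat_lit 76) (nat_lit 232283956126) (nat_lit 9) (nat_lit 5) (nat_lit 11) (nat_lit 5) (nat_lit 10) (nat_lit 4) (nat_lit 317) (nat_lit 282) (nat_lit 121)) (XT.nd (nat_lit 78) (nat_lit 76) (nat_lit 0) (XT.lf (nat_lit 0) (nat_lit 190422714590) (nat_lit 152) (nat_lit 100032673808) (nat_lit 76) (nat_lit 364067174455) (nat_lit 9) (nat_lit 5) (nat_lit 11) (nat_lit 5) (nat_lit 10) (nat_lit 4) (nat_lit 318) (nat_lit 282) (nat_lit 120)) (XT.lf (nat_lit 0) (nat_lit 95924302478) (nat_lit 76) (nat_lit 188708564869)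 (nat_lit 152) (nat_lit 412775685392) (nat_lit 8) (nat_lit 5) (nat_lit 9) (nat_lit 5) (nat_lit 10) (nat_lit 4) (nat_lit 319) (nat_lit 282) (nat_lit 119)))) (XT.nd (nat_lit 156) (nat_lit 76) (nat_lit 0) (XT.nd (nat_lit 78) (nat_lit 0) (nat_lit 0) (XT.lf (nat_lit 0) (nat_lit 313246669098) (nat_lit 76) (nat_lit 75868168245) (nat_lit 152) (nat_lit 354391784192) (nat_lit 8) (nat_lit 5) (nat_lit 9) (nat_lit 5) (nat_lit 10) (nat_lit 4) (nat_lit 320) (nat_lit 282) (nat_lit 118)) (XT.lf (nat_lit 0) (nat_lit 503061591267) (nat_lit 152) (nat_lit 246444108866) (nat_lit 0) (nat_lit 43698337706) (nat_lit 8) (nat_lit 5) (nat_lit 10) (nat_lit 4) (nat_lit 8) (nat_lit 4) (nat_lit 321) (nat_lit 282) (nat_lit 117))) (XT.nd (nat_lit 78) (nat_lit 76) (nat_lit 0) (XT.lf (nat_lit 0) (nat_lit 628094630062) (nat_lit 152) (nat_lit 49893701392) (nat_lit 0) (nat_lit 168731272531) (nat_lit 8) (nat_lit 5) (nat_lit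 10) (nat_lit 4) (nat_lit 8) (nat_lit 4) (nat_lit 322) (nat_lit 282) (nat_lit 116)) (XT.lf (nat_lit 0) (nat_lit 170931321381) (nat_lit 76) (nat_lit 596309839991) (nat_lit 76) (nat_lit 136946386193) (nat_lit 7) (nat_lit 4) (nat_lit 8) (nat_lit 5) (nat_lit 8) (nat_lit 4) (nat_lit 323) (nat_lit 282) (nat_lit 115))))))))
noncomputable def xc113 : XT := (XT.nd (nat_lit 35568) (nat_lit 0) (nat_lit 228) (XT.nd (nat_lit 34554) (nat_lit 0) (nat_lit 1596) (XT.nd (nat_lit 468) (nat_lit 76) (nat_lit 0) (XT.nd (nat_lit 234) (nat_lit 76) (nat_lit 0) (XT.nd (nat_lit 78) (nat_lit 76) (nat_lit 0) (XT.lf (nat_lit 0) (nat_lit 412259753101) (nat_lit 76) (nat_lit 506623793038) (nat_lit 76) (nat_lit 47260250103) (nat_lit 7) (nat_lit 4) (nat_lit 8) (nat_lit 5) (nat_lit 8) (nat_lit 4) (nat_lit 324) (nat_lit 282) (nat_lit 114)) (XT.nd (nat_lit 78) (nat_lit 0) (nat_lit 0) (XT.lf (nat_lit 0) (nat_lit 47119496353)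 (nat_lit 152) (nat_lit 361355073053) (nat_lit 76) (nat_lit 624486547396) (nat_lit 6) (nat_lit 5) (nat_lit 8) (nat_lit 5) (nat_lit 7) (nat_lit 4) (nat_lit 325) (nat_lit 282) (nat_lit 113)) (XT.lf (nat_lit 0) (nat_lit 146496296319) (nat_lit 152) (nat_lit 154651405544) (nat_lit 76) (nat_lit 803877921709) (nat_lit 6) (nat_lit 5) (nat_lit 8) (nat_lit 5) (nat_lit 7) (nat_lit 4) (nat_lit 326) (nat_lit 282) (nat_lit 112)))) (XT.nd (nat_lit 78) (nat_lit 0) (nat_lit 0) (XT.lf (nat_lit 0) (nat_lit 72200227974) (nat_lit 76) (nat_lit 183359387709) (nat_lit 152) (nat_lit 927156765232) (nat_lit 5) (nat_lit 5) (nat_lit 6) (nat_lit 5) (nat_lit 7) (nat_lit 4) (nat_lit 327) (nat_lit 282) (nat_lit 111)) (XT.nd (nat_lit 78) (nat_lit 0) (nat_lit 0) (XT.lf (nat_lit 0) (nat_lit 325995081339) (nat_lit 76) (nat_lit 51581322269) (nat_lit 152) (nat_lit 888707723058) (nat_lit 5) (nat_lit 5) (nat_lit 6) (nat_lit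 5) (nat_lit 7) (nat_lit 4) (nat_lit 328) (nat_lit 282) (nat_lit 110)) (XT.lf (nat_lit 0) (nat_lit 511536771205) (nat_lit 152) (nat_lit 758626114153) (nat_lit 0) (nat_lit 86199827842) (nat_lit 5) (nat_lit 5) (nat_lit 7) (nat_lit 4) (nat_lit 5) (nat_lit 4) (nat_lit 329) (nat_lit 282) (nat_lit 109))))) (XT.nd (nat_lit 234) (nat_lit 76) (nat_lit 0) (XT.nd (nat_lit 78) (nat_lit 0) (nat_lit 0) (XT.lf (nat_lit 0) (nat_lit 657553707430) (nat_lit 152) (nat_lit 563769988086) (nat_lit 0) (nat_lit 232216712056) (nat_lit 5) (nat_lit 5) (nat_lit 7) (nat_lit 4) (nat_lit 5) (nat_lit 4) (nat_lit 330) (nat_lit 282) (nat_lit 108)) (XT.nd (nat_lit 78) (nat_lit 0) (nat_lit 0) (XT.lf (nat_lit 0) (nat_lit 815251965789) (nat_lit 152) (nat_lit 353325432114) (nat_lit 0) (nat_lit 389914922258) (nat_lit 5) (nat_lit 5) (nat_lit 7) (nat_lit 4) (nat_lit 5) (nat_lit 4) (nat_lit 331) (nat_lit 282) (nat_lit 107)) (XT.lf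 (nat_lit 0) (nat_lit 985566054481) (nat_lit 152) (nat_lit 126045367389) (nat_lit 0) (nat_lit 560228966359) (nat_lit 5) (nat_lit 5) (nat_lit 7) (nat_lit 4) (nat_lit 5) (nat_lit 4) (nat_lit 332) (nat_lit 282) (nat_lit 106)))) (XT.nd (nat_lit 33696) (nat_lit 0) (nat_lit 2508) (XT.nd (nat_lit 33618) (nat_lit 0) (nat_lit 2508) (XT.lf (nat_lit 0) (nat_lit 125705341193) (nat_lit 76) (nat_lit 1046823117464) (nat_lit 76) (nat_lit 621485988054) (nat_lit 4) (nat_lit 4) (nat_lit 5) (nat_lit 5) (nat_lit 5) (nat_lit 4) (nat_lit 333) (nat_lit 282) (nat_lit 105)) (XT.lf (nat_lit 0) (nat_lit 23851140624) (nat_lit 532) (nat_lit 16118602122) (nat_lit 532) (nat_lit 16118602122) (nat_lit 37) (nat_lit 3) (nat_lit 44) (nat_lit 3) (nat_lit 44) (nat_lit 5) (nat_lit 283) (nat_lit 283) (nat_lit 154))) (XT.nd (nat_lit 78) (nat_lit 0) (nat_lit 76) (XT.lf (nat_lit 76) (nat_lit 17313908655) (nat_lit 0) (nat_lit 32717525402)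 (nat_lit 532) (nat_lit 66598616084) (nat_lit 38) (nat_lit 5) (nat_lit 37) (nat_lit 3) (nat_lit 44) (nat_lit 5) (nat_lit 284) (nat_lit 283) (nat_lit 153)) (XT.lf (nat_lit 0) (nat_lit 53890454788) (nat_lit 456) (nat_lit 49169589168) (nat_lit 532) (nat_lit 18272154791) (nat_lit 38) (nat_lit 5) (nat_lit 44) (nat_lit 5) (nat_lit 45) (nat_lit 5) (nat_lit 285) (nat_lit 283) (nat_lit 152)))))) (XT.nd (nat_lit 468) (nat_lit 684) (nat_lit 0) (XT.nd (nat_lit 234) (nat_lit 304) (nat_lit 0) (XT.nd (nat_lit 78) (nat_lit 0) (nat_lit 0) (XT.lf (nat_lit 76) (nat_lit 4356524224) (nat_lit 0) (nat_lit 54655820149) (nat_lit 532) (nat_lit 67321845157) (nat_lit 39) (nat_lit 5) (nat_lit 38) (nat_lit 5) (nat_lit 45) (nat_lit 5) (nat_lit 286) (nat_lit 283) (nat_lit 151)) (XT.nd (nat_lit 78) (nat_lit 0) (nat_lit 76) (XT.lf (nat_lit 76) (nat_lit 64960763848) (nat_lit 0) (nat_lit 927197138) (nat_lit 532) (nat_lit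 65740862429) (nat_lit 39) (nat_lit 5) (nat_lit 38) (nat_lit 5) (nat_lit 45) (nat_lit 5) (nat_lit 287) (nat_lit 283) (nat_lit 150)) (XT.lf (nat_lit 0) (nat_lit 74686501660) (nat_lit 456) (nat_lit 8307229843) (nat_lit 532) (nat_lit 54243468297) (nat_lit 39) (nat_lit 5) (nat_lit 45) (nat_lit 5) (nat_lit 46) (nat_lit 5) (nat_lit 288) (nat_lit 283) (nat_lit 149)))) (XT.nd (nat_lit 78) (nat_lit 380) (nat_lit 0) (XT.lf (nat_lit 76) (nat_lit 57578415670) (nat_lit 0) (nat_lit 28019008199) (nat_lit 532) (nat_lit 57584144203) (nat_lit 40) (nat_lit 5) (nat_lit 39) (nat_lit 5) (nat_lit 46) (nat_lit 5) (nat_lit 289) (nat_lit 283) (nat_lit 148)) (XT.nd (nat_lit 78) (nat_lit 456) (nat_lit 0) (XT.lf (nat_lit 0) (nat_lit 98367984649) (nat_lit 456) (nat_lit 21136214764) (nat_lit 76) (nat_lit 30018346724) (nat_lit 40) (nat_lit 5) (nat_lit 46) (nat_lit 5) (nat_lit 41) (nat_lit 5) (nat_lit 290) (nat_lit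 283) (nat_lit 147)) (XT.lf (nat_lit 0) (nat_lit 50274996886) (nat_lit 456) (nat_lit 63821772646) (nat_lit 532) (nat_lit 42119107979) (nat_lit 34) (nat_lit 5) (nat_lit 40) (nat_lit 5) (nat_lit 41) (nat_lit 5) (nat_lit 291) (nat_lit 283) (nat_lit 146))))) (XT.nd (nat_lit 234) (nat_lit 456) (nat_lit 0) (XT.nd (nat_lit 78) (nat_lit 228) (nat_lit 0) (XT.lf (nat_lit 0) (nat_lit 128600874144) (nat_lit 456) (nat_lit 3060598507) (nat_lit 532) (nat_lit 31736994809) (nat_lit 34) (nat_lit 5) (nat_lit 40) (nat_lit 5) (nat_lit 41) (nat_lit 5) (nat_lit 292) (nat_lit 283) (nat_lit 145)) (XT.nd (nat_lit 78) (nat_lit 0) (nat_lit 0) (XT.lf (nat_lit 0) (nat_lit 42666640622) (nat_lit 228) (nat_lit 110495185484) (nat_lit 304) (nat_lit 17791401774) (nat_lit 31) (nat_lit 5) (nat_lit 34) (nat_lit 5) (nat_lit 35) (nat_lit 5) (nat_lit 293) (nat_lit 283) (nat_lit 144)) (XT.lf (nat_lit 0) (nat_lit 128223038209)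 (nat_lit 228) (nat_lit 49187829779) (nat_lit 304) (nat_lit 1619209449) (nat_lit 31) (nat_lit 5) (nat_lit 34) (nat_lit 5) (nat_lit 35) (nat_lit 5) (nat_lit 294) (nat_lit 283) (nat_lit 143)))) (XT.nd (nat_lit 156) (nat_lit 228) (nat_lit 0) (XT.nd (nat_lit 78) (nat_lit 0) (nat_lit 0) (XT.lf (nat_lit 0) (nat_lit 16317011767) (nat_lit 228) (nat_lit 153897157222) (nat_lit 76) (nat_lit 17407379928) (nat_lit 28) (nat_lit 5) (nat_lit 31) (nat_lit 5) (nat_lit 29) (nat_lit 5) (nat_lit 295) (nat_lit 283) (nat_lit 142)) (XT.lf (nat_lit 0) (nat_lit 38303265257) (nat_lit 228) (nat_lit 70237441633) (nat_lit 76) (nat_lit 88140058403) (nat_lit 28) (nat_lit 5) (nat_lit 31) (nat_lit 5) (nat_lit 29) (nat_lit 5) (nat_lit 296) (nat_lit 283) (nat_lit 141))) (XT.nd (nat_lit 78) (nat_lit 0) (nat_lit 0) (XT.lf (nat_lit 0) (nat_lit 21174011941) (nat_lit 228) (nat_lit 41383431052) (nat_lit 304) (nat_lit 143866554888)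 (nat_lit 25) (nat_lit 5) (nat_lit 28) (nat_lit 5) (nat_lit 29) (nat_lit 5) (nat_lit 297) (nat_lit 283) (nat_lit 140)) (XT.lf (nat_lit 0) (nat_lit 91471121641) (nat_lit 304) (nat_lit 93699420387) (nat_lit 76) (nat_lit 31558614471) (nat_lit 25) (nat_lit 5) (nat_lit 29) (nat_lit 5) (nat_lit 26) (nat_lit 5) (nat_lit 298) (nat_lit 283) (nat_lit 139))))))) (XT.nd (nat_lit 1014) (nat_lit 380) (nat_lit 0) (XT.nd (nat_lit 468) (nat_lit 456) (nat_lit 0) (XT.nd (nat_lit 234) (nat_lit 380) (nat_lit 0) (XT.nd (nat_lit 78) (nat_lit 0) (nat_lit 0) (XT.lf (nat_lit 0) (nat_lit 4315958279) (nat_lit 152) (nat_lit 119560441842) (nat_lit 228) (nat_lit 103888047945) (nat_lit 23) (nat_lit 5) (nat_lit 25) (nat_lit 5) (nat_lit 26) (nat_lit 5) (nat_lit 299) (nat_lit 283) (nat_lit 138)) (XT.nd (nat_lit 78) (nat_lit 0) (nat_lit 0) (XT.lf (nat_lit 0) (nat_lit 115501102836) (nat_lit 152) (nat_lit 45934726860) (nat_lit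 228) (nat_lit 78041795606) (nat_lit 23) (nat_lit 5) (nat_lit 25) (nat_lit 5) (nat_lit 26) (nat_lit 5) (nat_lit 300) (nat_lit 283) (nat_lit 137)) (XT.lf (nat_lit 0) (nat_lit 202807471283) (nat_lit 228) (nat_lit 17354651566) (nat_lit 76) (nat_lit 31901137859) (nat_lit 23) (nat_lit 5) (nat_lit 26) (nat_lit 5) (nat_lit 24) (nat_lit 5) (nat_lit 301) (nat_lit 283) (nat_lit 136)))) (XT.nd (nat_lit 78) (nat_lit 228) (nat_lit 0) (XT.lf (nat_lit 0) (nat_lit 101690624184) (nat_lit 152) (nat_lit 149436836847) (nat_lit 228) (nat_lit 14237197125) (nat_lit 21) (nat_lit 5) (nat_lit 23) (nat_lit 5) (nat_lit 24) (nat_lit 5) (nat_lit 302) (nat_lit 283) (nat_lit 135)) (XT.nd (nat_lit 78) (nat_lit 152) (nat_lit 0) (XT.lf (nat_lit 0) (nat_lit 22889850299) (nat_lit 228) (nat_lit 49025419249) (nat_lit 76) (nat_lit 207730590496) (nat_lit 20) (nat_lit 5) (nat_lit 23) (nat_lit 5) (nat_lit 21) (nat_lit 5) (nat_lit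 303) (nat_lit 283) (nat_lit 134)) (XT.lf (nat_lit 0) (nat_lit 64444447796) (nat_lit 228) (nat_lit 216887596959) (nat_lit 76) (nat_lit 13529804807) (nat_lit 18) (nat_lit 5) (nat_lit 21) (nat_lit 5) (nat_lit 19) (nat_lit 5) (nat_lit 304) (nat_lit 283) (nat_lit 133))))) (XT.nd (nat_lit 234) (nat_lit 304) (nat_lit 0) (XT.nd (nat_lit 78) (nat_lit 152) (nat_lit 0) (XT.lf (nat_lit 0) (nat_lit 112566463655) (nat_lit 228) (nat_lit 95168815350) (nat_lit 76) (nat_lit 103300395601) (nat_lit 18) (nat_lit 5) (nat_lit 21) (nat_lit 5) (nat_lit 19) (nat_lit 5) (nat_lit 305) (nat_lit 283) (nat_lit 132)) (XT.nd (nat_lit 78) (nat_lit 0) (nat_lit 0) (XT.lf (nat_lit 0) (nat_lit 38198103806) (nat_lit 152) (nat_lit 127258675412) (nat_lit 228) (nat_lit 162973143740) (nat_lit 16) (nat_lit 5) (nat_lit 18) (nat_lit 5) (nat_lit 19) (nat_lit 5) (nat_lit 306) (nat_lit 283) (nat_lit 131)) (XT.lf (nat_lit 0) (nat_lit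 187646527296) (nat_lit 152) (nat_lit 37533754888) (nat_lit 228) (nat_lit 121827272372) (nat_lit 16) (nat_lit 5) (nat_lit 18) (nat_lit 5) (nat_lit 19) (nat_lit 5) (nat_lit 307) (nat_lit 283) (nat_lit 130)))) (XT.nd (nat_lit 156) (nat_lit 228) (nat_lit 0) (XT.nd (nat_lit 78) (nat_lit 76) (nat_lit 0) (XT.lf (nat_lit 0) (nat_lit 291109380835) (nat_lit 228) (nat_lit 19448580120) (nat_lit 76) (nat_lit 56399218817) (nat_lit 16) (nat_lit 5) (nat_lit 19) (nat_lit 5) (nat_lit 17) (nat_lit 4) (nat_lit 308) (nat_lit 283) (nat_lit 129)) (XT.lf (nat_lit 0) (nat_lit 137563266619) (nat_lit 76) (nat_lit 229032737556) (nat_lit 152) (nat_lit 21564115388) (nat_lit 15) (nat_lit 5) (nat_lit 16) (nat_lit 5) (nat_lit 17) (nat_lit 4) (nat_lit 309) (nat_lit 283) (nat_lit 128))) (XT.nd (nat_lit 78) (nat_lit 152) (nat_lit 0) (XT.lf (nat_lit 0) (nat_lit 35753724170) (nat_lit 152) (nat_lit 103679961760) (nat_lit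 76) (nat_lit 271510663733) (nat_lit 14) (nat_lit 5) (nat_lit 16) (nat_lit 5) (nat_lit 15) (nat_lit 5) (nat_lit 310) (nat_lit 283) (nat_lit 127)) (XT.lf (nat_lit 0) (nat_lit 57296207771) (nat_lit 152) (nat_lit 40573638976) (nat_lit 228) (nat_lit 337526432858) (nat_lit 12) (nat_lit 5) (nat_lit 14) (nat_lit 5) (nat_lit 15) (nat_lit 5) (nat_lit 311) (nat_lit 283) (nat_lit 126)))))) (XT.nd (nat_lit 546) (nat_lit 152) (nat_lit 0) (XT.nd (nat_lit 234) (nat_lit 152) (nat_lit 0) (XT.nd (nat_lit 78) (nat_lit 76) (nat_lit 0) (XT.lf (nat_lit 0) (nat_lit 169455585674) (nat_lit 228) (nat_lit 226196522547) (nat_lit 76) (nat_lit 65792229819) (nat_lit 12) (nat_lit 5) (nat_lit 15) (nat_lit 5) (nat_lit 13) (nat_lit 4) (nat_lit 312) (nat_lit 283) (nat_lit 125)) (XT.nd (nat_lit 78) (nat_lit 76) (nat_lit 0) (XT.lf (nat_lit 0) (nat_lit 247821956696) (nat_lit 228) (nat_lit 63194695283) (nat_lit 76) (nat_lit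 178475287538) (nat_lit 12) (nat_lit 5) (nat_lit 15) (nat_lit 5) (nat_lit 13) (nat_lit 4) (nat_lit 313) (nat_lit 283) (nat_lit 124)) (XT.lf (nat_lit 0) (nat_lit 118789474310) (nat_lit 76) (nat_lit 216524971534) (nat_lit 152) (nat_lit 184240358781) (nat_lit 11) (nat_lit 5) (nat_lit 12) (nat_lit 5) (nat_lit 13) (nat_lit 4) (nat_lit 314) (nat_lit 283) (nat_lit 123)))) (XT.nd (nat_lit 156) (nat_lit 152) (nat_lit 0) (XT.nd (nat_lit 78) (nat_lit 0) (nat_lit 0) (XT.lf (nat_lit 0) (nat_lit 318926184735) (nat_lit 76) (nat_lit 112607925947) (nat_lit 152) (nat_lit 120350366311) (nat_lit 11) (nat_lit 5) (nat_lit 12) (nat_lit 5) (nat_lit 13) (nat_lit 4) (nat_lit 315) (nat_lit 283) (nat_lit 122)) (XT.lf (nat_lit 0) (nat_lit 535073710649) (nat_lit 76) (nat_lit 377565466) (nat_lit 152) (nat_lit 51349253007) (nat_lit 11) (nat_lit 5) (nat_lit 12) (nat_lit 5) (nat_lit 13) (nat_lit 4) (nat_lit 316) (nat_lit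 283) (nat_lit 121))) (XT.nd (nat_lit 78) (nat_lit 0) (nat_lit 0) (XT.lf (nat_lit 0) (nat_lit 28659057354) (nat_lit 152) (nat_lit 476190187235) (nat_lit 76) (nat_lit 119084337075) (nat_lit 9) (nat_lit 5) (nat_lit 11) (nat_lit 5) (nat_lit 10) (nat_lit 4) (nat_lit 317) (nat_lit 283) (nat_lit 120)) (XT.lf (nat_lit 0) (nat_lit 113754616230) (nat_lit 152) (nat_lit 299191566223) (nat_lit 76) (nat_lit 250867534173) (nat_lit 9) (nat_lit 5) (nat_lit 11) (nat_lit 5) (nat_lit 10) (nat_lit 4) (nat_lit 318) (nat_lit 283) (nat_lit 119))))) (XT.nd (nat_lit 234) (nat_lit 76) (nat_lit 0) (XT.nd (nat_lit 78) (nat_lit 76) (nat_lit 0) (XT.lf (nat_lit 0) (nat_lit 205657757013) (nat_lit 152) (nat_lit 108033164366) (nat_lit 76) (nat_lit 393193346149) (nat_lit 9) (nat_lit 5) (nat_lit 11) (nat_lit 5) (nat_lit 10) (nat_lit 4) (nat_lit 319) (nat_lit 283) (nat_lit 118)) (XT.nd (nat_lit 78) (nat_lit 0) (nat_lit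 0) (XT.lf (nat_lit 0) (nat_lit 103600316268) (nat_lit 76) (nat_lit 203804364737) (nat_lit 152) (nat_lit 445796459053) (nat_lit 8) (nat_lit 5) (nat_lit 9) (nat_lit 5) (nat_lit 10) (nat_lit 4) (nat_lit 320) (nat_lit 283) (nat_lit 117)) (XT.lf (nat_lit 0) (nat_lit 338308318914) (nat_lit 76) (nat_lit 81936801962) (nat_lit 152) (nat_lit 382741940658) (nat_lit 8) (nat_lit 5) (nat_lit 9) (nat_lit 5) (nat_lit 10) (nat_lit 4) (nat_lit 321) (nat_lit 283) (nat_lit 116)))) (XT.nd (nat_lit 156) (nat_lit 76) (nat_lit 0) (XT.nd (nat_lit 78) (nat_lit 0) (nat_lit 0) (XT.lf (nat_lit 0) (nat_lit 543307552143) (nat_lit 152) (nat_lit 266157798411) (nat_lit 0) (nat_lit 47194925774) (nat_lit 8) (nat_lit 5) (nat_lit 10) (nat_lit 4) (nat_lit 8) (nat_lit 4) (nat_lit 322) (nat_lit 283) (nat_lit 115)) (XT.lf (nat_lit 0) (nat_lit 678343157480) (nat_lit 152) (nat_lit 53883494574) (nat_lit 0) (nat_lit 182230441974)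 (nat_lit 8) (nat_lit 5) (nat_lit 10) (nat_lit 4) (nat_lit 8) (nat_lit 4) (nat_lit 323) (nat_lit 283) (nat_lit 114))) (XT.nd (nat_lit 78) (nat_lit 0) (nat_lit 0) (XT.lf (nat_lit 0) (nat_lit 184607486909) (nat_lit 76) (nat_lit 644013893415) (nat_lit 76) (nat_lit 147901095375) (nat_lit 7) (nat_lit 4) (nat_lit 8) (nat_lit 5) (nat_lit 8) (nat_lit 4) (nat_lit 324) (nat_lit 283) (nat_lit 113)) (XT.lf (nat_lit 0) (nat_lit 445242070217) (nat_lit 76) (nat_lit 547153017060) (nat_lit 76) (nat_lit 51040142599) (nat_lit 7) (nat_lit 4) (nat_lit 8) (nat_lit 5) (nat_lit 8) (nat_lit 4) (nat_lit 325) (nat_lit 283) (nat_lit 112))))))))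
noncomputable def xc114 : XT := (XT.nd (nat_lit 35646) (nat_lit 0) (nat_lit 76) (XT.nd (nat_lit 34632) (nat_lit 0) (nat_lit 1368) (XT.nd (nat_lit 468) (nat_lit 0) (nat_lit 0) (XT.nd (nat_lit 234) (nat_lit 0) (nat_lit 0) (XT.nd (nat_lit 78) (nat_lit 76) (nat_lit 0) (XT.lf (nat_lit 0) (nat_lit 50889871908) (nat_lit 152) (nat_lit 390262011650) (nat_lit 76) (nat_lit 674446056060) (nat_lit 6) (nat_lit 5) (nat_lit 8) (nat_lit 5) (nat_lit 7) (nat_lit 4) (nat_lit 326) (nat_lit 283) (nat_lit 111)) (XT.nd (nat_lit 78) (nat_lit 76) (nat_lit 0) (XT.lf (nat_lit 0) (nat_lit 158216755438) (nat_lit 152) (nat_lit 167022159425) (nat_lit 76) (nat_lit 868188696994) (nat_lit 6) (nat_lit 5) (nat_lit 8) (nat_lit 5) (nat_lit 7) (nat_lit 4) (nat_lit 327) (nat_lit 283) (nat_lit 110)) (XT.lf (nat_lit 0) (nat_lit 77977570381) (nat_lit 76) (nat_lit 198027545861) (nat_lit 152) (nat_lit 1001328515563) (nat_lit 5)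 (nat_lit 5) (nat_lit 6) (nat_lit 5) (nat_lit 7) (nat_lit 4) (nat_lit 328) (nat_lit 283) (nat_lit 109)))) (XT.nd (nat_lit 78) (nat_lit 0) (nat_lit 0) (XT.lf (nat_lit 0) (nat_lit 352075913928) (nat_lit 76) (nat_lit 55707279101) (nat_lit 152) (nat_lit 959803608599) (nat_lit 5) (nat_lit 5) (nat_lit 6) (nat_lit 5) (nat_lit 7) (nat_lit 4) (nat_lit 329) (nat_lit 283) (nat_lit 108)) (XT.nd (nat_lit 78) (nat_lit 0) (nat_lit 0) (XT.lf (nat_lit 0) (nat_lit 552460352101) (nat_lit 152) (nat_lit 819315029165) (nat_lit 0) (nat_lit 93096296929) (nat_lit 5) (nat_lit 5) (nat_lit 7) (nat_lit 4) (nat_lit 5) (nat_lit 4) (nat_lit 330) (nat_lit 283) (nat_lit 107)) (XT.lf (nat_lit 0) (nat_lit 710158595875) (nat_lit 152) (nat_lit 608870499984) (nat_lit 0) (nat_lit 250794496113) (nat_lit 5) (nat_lit 5) (nat_lit 7) (nat_lit 4) (nat_lit 5) (nat_lit 4) (nat_lit 331) (nat_lit 283) (nat_lit 106))))) (XT.nd (nat_lit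 33852) (nat_lit 0) (nat_lit 2432) (XT.nd (nat_lit 78) (nat_lit 0) (nat_lit 0) (XT.lf (nat_lit 0) (nat_lit 880472671062) (nat_lit 152) (nat_lit 381590460064) (nat_lit 0) (nat_lit 421108530013) (nat_lit 5) (nat_lit 5) (nat_lit 7) (nat_lit 4) (nat_lit 5) (nat_lit 4) (nat_lit 332) (nat_lit 283) (nat_lit 105)) (XT.nd (nat_lit 33696) (nat_lit 0) (nat_lit 2432) (XT.lf (nat_lit 0) (nat_lit 1064411846256) (nat_lit 152) (nat_lit 136128064725) (nat_lit 0) (nat_lit 605047666977) (nat_lit 5) (nat_lit 5) (nat_lit 7) (nat_lit 4) (nat_lit 5) (nat_lit 4) (nat_lit 333) (nat_lit 283) (nat_lit 104)) (XT.lf (nat_lit 0) (nat_lit 25763781400) (nat_lit 532) (nat_lit 17405622684) (nat_lit 532) (nat_lit 17405622684) (nat_lit 37) (nat_lit 3) (nat_lit 44) (nat_lit 3) (nat_lit 44) (nat_lit 5) (nat_lit 284) (nat_lit 284) (nat_lit 152)))) (XT.nd (nat_lit 156) (nat_lit 0) (nat_lit 76) (XT.nd (nat_lit 78) (nat_lit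 0) (nat_lit 76) (XT.lf (nat_lit 76) (nat_lit 18703831619) (nat_lit 0) (nat_lit 35338657898) (nat_lit 532) (nat_lit 71917241142) (nat_lit 38) (nat_lit 5) (nat_lit 37) (nat_lit 3) (nat_lit 44) (nat_lit 5) (nat_lit 285) (nat_lit 284) (nat_lit 151)) (XT.lf (nat_lit 0) (nat_lit 58209516188) (nat_lit 456) (nat_lit 53097949373) (nat_lit 532) (nat_lit 19730645831) (nat_lit 38) (nat_lit 5) (nat_lit 44) (nat_lit 5) (nat_lit 45) (nat_lit 5) (nat_lit 286) (nat_lit 284) (nat_lit 150))) (XT.nd (nat_lit 78) (nat_lit 0) (nat_lit 0) (XT.lf (nat_lit 76) (nat_lit 4710121269) (nat_lit 0) (nat_lit 59030578096) (nat_lit 532) (nat_lit 72699601438) (nat_lit 39) (nat_lit 5) (nat_lit 38) (nat_lit 5) (nat_lit 45) (nat_lit 5) (nat_lit 287) (nat_lit 284) (nat_lit 149)) (XT.lf (nat_lit 76) (nat_lit 70162324129) (nat_lit 0) (nat_lit 1003495442) (nat_lit 532) (nat_lit 70992732042) (nat_lit 39) (nat_lit 5) (nat_lit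 38) (nat_lit 5) (nat_lit 45) (nat_lit 5) (nat_lit 288) (nat_lit 284) (nat_lit 148)))))) (XT.nd (nat_lit 468) (nat_lit 608) (nat_lit 0) (XT.nd (nat_lit 234) (nat_lit 608) (nat_lit 0) (XT.nd (nat_lit 78) (nat_lit 0) (nat_lit 0) (XT.lf (nat_lit 0) (nat_lit 80667690921) (nat_lit 456) (nat_lit 8966874994) (nat_lit 532) (nat_lit 58581078766) (nat_lit 39) (nat_lit 5) (nat_lit 45) (nat_lit 5) (nat_lit 46) (nat_lit 5) (nat_lit 289) (nat_lit 284) (nat_lit 147)) (XT.nd (nat_lit 78) (nat_lit 0) (nat_lit 76) (XT.lf (nat_lit 76) (nat_lit 62189497268) (nat_lit 0) (nat_lit 30261640900) (nat_lit 532) (nat_lit 62184454336) (nat_lit 40) (nat_lit 5) (nat_lit 39) (nat_lit 5) (nat_lit 46) (nat_lit 5) (nat_lit 290) (nat_lit 284) (nat_lit 146)) (XT.lf (nat_lit 0) (nat_lit 106242880499) (nat_lit 456) (nat_lit 22822171109) (nat_lit 76) (nat_lit 32418836299) (nat_lit 40) (nat_lit 5) (nat_lit 46) (nat_lit 5) (nat_lit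 41) (nat_lit 5) (nat_lit 291) (nat_lit 284) (nat_lit 145)))) (XT.nd (nat_lit 78) (nat_lit 228) (nat_lit 0) (XT.lf (nat_lit 0) (nat_lit 54301812389) (nat_lit 456) (nat_lit 68927867375) (nat_lit 532) (nat_lit 45483030979) (nat_lit 34) (nat_lit 5) (nat_lit 40) (nat_lit 5) (nat_lit 41) (nat_lit 5) (nat_lit 292) (nat_lit 284) (nat_lit 144)) (XT.nd (nat_lit 78) (nat_lit 228) (nat_lit 0) (XT.lf (nat_lit 0) (nat_lit 138893403105) (nat_lit 456) (nat_lit 3305773163) (nat_lit 532) (nat_lit 34270763987) (nat_lit 34) (nat_lit 5) (nat_lit 40) (nat_lit 5) (nat_lit 41) (nat_lit 5) (nat_lit 293) (nat_lit 284) (nat_lit 143)) (XT.lf (nat_lit 0) (nat_lit 46084720032) (nat_lit 228) (nat_lit 119334590379) (nat_lit 304) (nat_lit 19209792515) (nat_lit 31) (nat_lit 5) (nat_lit 34) (nat_lit 5) (nat_lit 35) (nat_lit 5) (nat_lit 294) (nat_lit 284) (nat_lit 142))))) (XT.nd (nat_lit 234) (nat_lit 380) (nat_lit 0)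 (XT.nd (nat_lit 78) (nat_lit 228) (nat_lit 0) (XT.lf (nat_lit 0) (nat_lit 138485277710) (nat_lit 228) (nat_lit 53122661770) (nat_lit 304) (nat_lit 1744189351) (nat_lit 31) (nat_lit 5) (nat_lit 34) (nat_lit 5) (nat_lit 35) (nat_lit 5) (nat_lit 295) (nat_lit 284) (nat_lit 141)) (XT.nd (nat_lit 78) (nat_lit 0) (nat_lit 0) (XT.lf (nat_lit 0) (nat_lit 17626499547) (nat_lit 228) (nat_lit 166204070106) (nat_lit 76) (nat_lit 18800357052) (nat_lit 28) (nat_lit 5) (nat_lit 31) (nat_lit 5) (nat_lit 29) (nat_lit 5) (nat_lit 296) (nat_lit 284) (nat_lit 140)) (XT.lf (nat_lit 0) (nat_lit 41371347624) (nat_lit 228) (nat_lit 75851937248) (nat_lit 76) (nat_lit 95191621159) (nat_lit 28) (nat_lit 5) (nat_lit 31) (nat_lit 5) (nat_lit 29) (nat_lit 5) (nat_lit 297) (nat_lit 284) (nat_lit 139)))) (XT.nd (nat_lit 156) (nat_lit 152) (nat_lit 0) (XT.nd (nat_lit 78) (nat_lit 0) (nat_lit 0) (XT.lf (nat_lit 0) (nat_lit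 22872318696) (nat_lit 228) (nat_lit 44693363314) (nat_lit 304) (nat_lit 155371930518) (nat_lit 25) (nat_lit 5) (nat_lit 28) (nat_lit 5) (nat_lit 29) (nat_lit 5) (nat_lit 298) (nat_lit 284) (nat_lit 138)) (XT.lf (nat_lit 0) (nat_lit 98792201583) (nat_lit 304) (nat_lit 101191047044) (nat_lit 76) (nat_lit 34083956492) (nat_lit 25) (nat_lit 5) (nat_lit 29) (nat_lit 5) (nat_lit 26) (nat_lit 5) (nat_lit 299) (nat_lit 284) (nat_lit 137))) (XT.nd (nat_lit 78) (nat_lit 0) (nat_lit 0) (XT.lf (nat_lit 0) (nat_lit 4665452372) (nat_lit 152) (nat_lit 129124300272) (nat_lit 228) (nat_lit 112195580282) (nat_lit 23) (nat_lit 5) (nat_lit 25) (nat_lit 5) (nat_lit 26) (nat_lit 5) (nat_lit 300) (nat_lit 284) (nat_lit 136)) (XT.lf (nat_lit 0) (nat_lit 124745096091) (nat_lit 152) (nat_lit 49608600456) (nat_lit 228) (nat_lit 84281887867) (nat_lit 23) (nat_lit 5) (nat_lit 25) (nat_lit 5) (nat_lit 26) (nat_lit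 5) (nat_lit 301) (nat_lit 284) (nat_lit 135))))))) (XT.nd (nat_lit 1014) (nat_lit 456) (nat_lit 0) (XT.nd (nat_lit 468) (nat_lit 304) (nat_lit 0) (XT.nd (nat_lit 234) (nat_lit 304) (nat_lit 0) (XT.nd (nat_lit 78) (nat_lit 228) (nat_lit 0) (XT.lf (nat_lit 0) (nat_lit 219034867346) (nat_lit 228) (nat_lit 18739195741) (nat_lit 76) (nat_lit 34454024540) (nat_lit 23) (nat_lit 5) (nat_lit 26) (nat_lit 5) (nat_lit 24) (nat_lit 5) (nat_lit 302) (nat_lit 284) (nat_lit 134)) (XT.nd (nat_lit 78) (nat_lit 76) (nat_lit 0) (XT.lf (nat_lit 0) (nat_lit 109829605159) (nat_lit 152) (nat_lit 161390733562) (nat_lit 228) (nat_lit 15373268301) (nat_lit 21) (nat_lit 5) (nat_lit 23) (nat_lit 5) (nat_lit 24) (nat_lit 5) (nat_lit 303) (nat_lit 284) (nat_lit 133)) (XT.lf (nat_lit 0) (nat_lit 24723593225) (nat_lit 228) (nat_lit 52943855593) (nat_lit 76) (nat_lit 224349867645) (nat_lit 20) (nat_lit 5) (nat_lit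 23) (nat_lit 5) (nat_lit 21) (nat_lit 5) (nat_lit 304) (nat_lit 284) (nat_lit 132)))) (XT.nd (nat_lit 78) (nat_lit 152) (nat_lit 0) (XT.lf (nat_lit 0) (nat_lit 69602478992) (nat_lit 228) (nat_lit 234234920591) (nat_lit 76) (nat_lit 14613192514) (nat_lit 18) (nat_lit 5) (nat_lit 21) (nat_lit 5) (nat_lit 19) (nat_lit 5) (nat_lit 305) (nat_lit 284) (nat_lit 131)) (XT.nd (nat_lit 78) (nat_lit 152) (nat_lit 0) (XT.lf (nat_lit 0) (nat_lit 121574072759) (nat_lit 228) (nat_lit 102778909351) (nat_lit 76) (nat_lit 111565356251) (nat_lit 18) (nat_lit 5) (nat_lit 21) (nat_lit 5) (nat_lit 19) (nat_lit 5) (nat_lit 306) (nat_lit 284) (nat_lit 130)) (XT.lf (nat_lit 0) (nat_lit 41257276978) (nat_lit 152) (nat_lit 137438246774) (nat_lit 228) (nat_lit 176008610522) (nat_lit 16) (nat_lit 5) (nat_lit 18) (nat_lit 5) (nat_lit 19) (nat_lit 5) (nat_lit 307) (nat_lit 284) (nat_lit 129))))) (XT.nd (nat_lit 234)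 (nat_lit 228) (nat_lit 0) (XT.nd (nat_lit 78) (nat_lit 76) (nat_lit 0) (XT.lf (nat_lit 0) (nat_lit 202661328060) (nat_lit 152) (nat_lit 40535415769) (nat_lit 228) (nat_lit 131571246090) (nat_lit 16) (nat_lit 5) (nat_lit 18) (nat_lit 5) (nat_lit 19) (nat_lit 5) (nat_lit 308) (nat_lit 284) (nat_lit 128)) (XT.nd (nat_lit 78) (nat_lit 76) (nat_lit 0) (XT.lf (nat_lit 0) (nat_lit 314400042479) (nat_lit 228) (nat_lit 21001482658) (nat_lit 76) (nat_lit 60912070683) (nat_lit 16) (nat_lit 5) (nat_lit 19) (nat_lit 5) (nat_lit 17) (nat_lit 4) (nat_lit 309) (nat_lit 284) (nat_lit 127)) (XT.lf (nat_lit 0) (nat_lit 148571236278) (nat_lit 76) (nat_lit 247354287784) (nat_lit 152) (nat_lit 23287252864) (nat_lit 15) (nat_lit 5) (nat_lit 16) (nat_lit 5) (nat_lit 17) (nat_lit 4) (nat_lit 310) (nat_lit 284) (nat_lit 126)))) (XT.nd (nat_lit 156) (nat_lit 0) (nat_lit 0) (XT.nd (nat_lit 78) (nat_lit 152) (nat_lit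 0) (XT.lf (nat_lit 0) (nat_lit 38615774066) (nat_lit 152) (nat_lit 111971569229) (nat_lit 76) (nat_lit 293232409866) (nat_lit 14) (nat_lit 5) (nat_lit 16) (nat_lit 5) (nat_lit 15) (nat_lit 5) (nat_lit 311) (nat_lit 284) (nat_lit 125)) (XT.lf (nat_lit 0) (nat_lit 61882623245) (nat_lit 152) (nat_lit 43818498818) (nat_lit 228) (nat_lit 364526720907) (nat_lit 12) (nat_lit 5) (nat_lit 14) (nat_lit 5) (nat_lit 15) (nat_lit 5) (nat_lit 312) (nat_lit 284) (nat_lit 124))) (XT.nd (nat_lit 78) (nat_lit 0) (nat_lit 0) (XT.lf (nat_lit 0) (nat_lit 183013618063) (nat_lit 228) (nat_lit 244289621153) (nat_lit 76) (nat_lit 71056515323) (nat_lit 12) (nat_lit 5) (nat_lit 15) (nat_lit 5) (nat_lit 13) (nat_lit 4) (nat_lit 313) (nat_lit 284) (nat_lit 123)) (XT.lf (nat_lit 0) (nat_lit 267649181320) (nat_lit 228) (nat_lit 68247842018) (nat_lit 76) (nat_lit 192754150465) (nat_lit 12) (nat_lit 5) (nat_lit 15)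 (nat_lit 5) (nat_lit 13) (nat_lit 4) (nat_lit 314) (nat_lit 284) (nat_lit 122)))))) (XT.nd (nat_lit 546) (nat_lit 152) (nat_lit 0) (XT.nd (nat_lit 234) (nat_lit 228) (nat_lit 0) (XT.nd (nat_lit 78) (nat_lit 0) (nat_lit 0) (XT.lf (nat_lit 0) (nat_lit 128294999652) (nat_lit 76) (nat_lit 233846018137) (nat_lit 152) (nat_lit 198978054731) (nat_lit 11) (nat_lit 5) (nat_lit 12) (nat_lit 5) (nat_lit 13) (nat_lit 4) (nat_lit 315) (nat_lit 284) (nat_lit 121)) (XT.nd (nat_lit 78) (nat_lit 0) (nat_lit 0) (XT.lf (nat_lit 0) (nat_lit 344442471548) (nat_lit 76) (nat_lit 121615679357) (nat_lit 152) (nat_lit 129976976400) (nat_lit 11) (nat_lit 5) (nat_lit 12) (nat_lit 5) (nat_lit 13) (nat_lit 4) (nat_lit 316) (nat_lit 284) (nat_lit 120)) (XT.lf (nat_lit 0) (nat_lit 577881637162) (nat_lit 76) (nat_lit 406955271) (nat_lit 152) (nat_lit 55455879159) (nat_lit 11) (nat_lit 5) (nat_lit 12) (nat_lit 5) (nat_lit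 13) (nat_lit 4) (nat_lit 317) (nat_lit 284) (nat_lit 119)))) (XT.nd (nat_lit 156) (nat_lit 76) (nat_lit 0) (XT.nd (nat_lit 78) (nat_lit 0) (nat_lit 0) (XT.lf (nat_lit 0) (nat_lit 30953007198) (nat_lit 152) (nat_lit 514283278868) (nat_lit 76) (nat_lit 128611881779) (nat_lit 9) (nat_lit 5) (nat_lit 11) (nat_lit 5) (nat_lit 10) (nat_lit 4) (nat_lit 318) (nat_lit 284) (nat_lit 118)) (XT.lf (nat_lit 0) (nat_lit 122856120024) (nat_lit 152) (nat_lit 323124925460) (nat_lit 76) (nat_lit 270937675553) (nat_lit 9) (nat_lit 5) (nat_lit 11) (nat_lit 5) (nat_lit 10) (nat_lit 4) (nat_lit 319) (nat_lit 284) (nat_lit 117))) (XT.nd (nat_lit 78) (nat_lit 76) (nat_lit 0) (XT.lf (nat_lit 0) (nat_lit 222111428033) (nat_lit 152) (nat_lit 116673997088) (nat_lit 76) (nat_lit 424649497773) (nat_lit 9) (nat_lit 5) (nat_lit 11) (nat_lit 5) (nat_lit 10) (nat_lit 4) (nat_lit 320) (nat_lit 284) (nat_lit 116)) (XT.lf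 (nat_lit 0) (nat_lit 111890115910) (nat_lit 76) (nat_lit 220107954895) (nat_lit 152) (nat_lit 481459077379) (nat_lit 8) (nat_lit 5) (nat_lit 9) (nat_lit 5) (nat_lit 10) (nat_lit 4) (nat_lit 321) (nat_lit 284) (nat_lit 115))))) (XT.nd (nat_lit 234) (nat_lit 152) (nat_lit 0) (XT.nd (nat_lit 78) (nat_lit 0) (nat_lit 0) (XT.lf (nat_lit 0) (nat_lit 365374627335) (nat_lit 76) (nat_lit 88491043322) (nat_lit 152) (nat_lit 413360278876) (nat_lit 8) (nat_lit 5) (nat_lit 9) (nat_lit 5) (nat_lit 10) (nat_lit 4) (nat_lit 322) (nat_lit 284) (nat_lit 114)) (XT.nd (nat_lit 78) (nat_lit 0) (nat_lit 0) (XT.lf (nat_lit 0) (nat_lit 586773042439) (nat_lit 152) (nat_lit 287448845498) (nat_lit 0) (nat_lit 50971138021) (nat_lit 8) (nat_lit 5) (nat_lit 10) (nat_lit 4) (nat_lit 8) (nat_lit 4) (nat_lit 323) (nat_lit 284) (nat_lit 113)) (XT.lf (nat_lit 0) (nat_lit 732611430564) (nat_lit 152) (nat_lit 58192714152)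 (nat_lit 0) (nat_lit 196809449726) (nat_lit 8) (nat_lit 5) (nat_lit 10) (nat_lit 4) (nat_lit 8) (nat_lit 4) (nat_lit 324) (nat_lit 284) (nat_lit 112)))) (XT.nd (nat_lit 156) (nat_lit 76) (nat_lit 0) (XT.nd (nat_lit 78) (nat_lit 0) (nat_lit 0) (XT.lf (nat_lit 0) (nat_lit 199377508887) (nat_lit 76) (nat_lit 695534375795) (nat_lit 76) (nat_lit 159732324197) (nat_lit 7) (nat_lit 4) (nat_lit 8) (nat_lit 5) (nat_lit 8) (nat_lit 4) (nat_lit 325) (nat_lit 284) (nat_lit 111)) (XT.lf (nat_lit 0) (nat_lit 480862753451) (nat_lit 76) (nat_lit 590924675930) (nat_lit 76) (nat_lit 55122558815) (nat_lit 7) (nat_lit 4) (nat_lit 8) (nat_lit 5) (nat_lit 8) (nat_lit 4) (nat_lit 326) (nat_lit 284) (nat_lit 110))) (XT.nd (nat_lit 78) (nat_lit 0) (nat_lit 0) (XT.lf (nat_lit 0) (nat_lit 54961761118) (nat_lit 152) (nat_lit 421481714654) (nat_lit 76) (nat_lit 728402241978) (nat_lit 6) (nat_lit 5) (nat_lit 8)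 (nat_lit 5) (nat_lit 7) (nat_lit 4) (nat_lit 327) (nat_lit 284) (nat_lit 109)) (XT.lf (nat_lit 0) (nat_lit 170874743519) (nat_lit 152) (nat_lit 180382767431) (nat_lit 76) (nat_lit 937644257044) (nat_lit 6) (nat_lit 5) (nat_lit 8) (nat_lit 5) (nat_lit 7) (nat_lit 4) (nat_lit 328) (nat_lit 284) (nat_lit 108))))))))
noncomputable def xc115 : XT := (XT.nd (nat_lit 35802) (nat_lit 0) (nat_lit 0) (XT.nd (nat_lit 34788) (nat_lit 0) (nat_lit 988) (XT.nd (nat_lit 34242) (nat_lit 0) (nat_lit 2204) (XT.nd (nat_lit 234) (nat_lit 0) (nat_lit 0) (XT.nd (nat_lit 78) (nat_lit 0) (nat_lit 0) (XT.lf (nat_lit 0) (nat_lit 84216911272) (nat_lit 76) (nat_lit 213869241244) (nat_lit 152) (nat_lit 1081434118748) (nat_lit 5) (nat_lit 5) (nat_lit 6) (nat_lit 5) (nat_lit 7) (nat_lit 4) (nat_lit 329) (nat_lit 284) (nat_lit 107)) (XT.nd (nat_lit 78) (nat_lit 0) (nat_lit 0) (XT.lf (nat_lit 0) (nat_lit 380243038210)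 (nat_lit 76) (nat_lit 60163390794) (nat_lit 152) (nat_lit 1036587269454) (nat_lit 5) (nat_lit 5) (nat_lit 6) (nat_lit 5) (nat_lit 7) (nat_lit 4) (nat_lit 330) (nat_lit 284) (nat_lit 106)) (XT.lf (nat_lit 0) (nat_lit 596657728279) (nat_lit 152) (nat_lit 884859224878) (nat_lit 0) (nat_lit 100544414658) (nat_lit 5) (nat_lit 5) (nat_lit 7) (nat_lit 4) (nat_lit 5) (nat_lit 4) (nat_lit 331) (nat_lit 284) (nat_lit 105)))) (XT.nd (nat_lit 33852) (nat_lit 0) (nat_lit 2432) (XT.lf (nat_lit 0) (nat_lit 766971790962) (nat_lit 152) (nat_lit 657579207927) (nat_lit 0) (nat_lit 270858439112) (nat_lit 5) (nat_lit 5) (nat_lit 7) (nat_lit 4) (nat_lit 5) (nat_lit 4) (nat_lit 332) (nat_lit 284) (nat_lit 104)) (XT.nd (nat_lit 78) (nat_lit 0) (nat_lit 0) (XT.lf (nat_lit 0) (nat_lit 27828784398) (nat_lit 532) (nat_lit 18795956924) (nat_lit 532) (nat_lit 18795956924) (nat_lit 37) (nat_lit 3) (nat_lit 44) (nat_lit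 3) (nat_lit 44) (nat_lit 5) (nat_lit 285) (nat_lit 285) (nat_lit 150)) (XT.lf (nat_lit 76) (nat_lit 20204262182) (nat_lit 0) (nat_lit 38168948800) (nat_lit 532) (nat_lit 77662677851) (nat_lit 38) (nat_lit 5) (nat_lit 37) (nat_lit 3) (nat_lit 44) (nat_lit 5) (nat_lit 286) (nat_lit 285) (nat_lit 149))))) (XT.nd (nat_lit 234) (nat_lit 304) (nat_lit 0) (XT.nd (nat_lit 78) (nat_lit 0) (nat_lit 0) (XT.lf (nat_lit 0) (nat_lit 62872986174) (nat_lit 456) (nat_lit 57341321221) (nat_lit 532) (nat_lit 21306284275) (nat_lit 38) (nat_lit 5) (nat_lit 44) (nat_lit 5) (nat_lit 45) (nat_lit 5) (nat_lit 287) (nat_lit 285) (nat_lit 148)) (XT.nd (nat_lit 78) (nat_lit 0) (nat_lit 0) (XT.lf (nat_lit 76) (nat_lit 5091282057) (nat_lit 0) (nat_lit 63754989651) (nat_lit 532) (nat_lit 78508718274) (nat_lit 39) (nat_lit 5) (nat_lit 38) (nat_lit 5) (nat_lit 45) (nat_lit 5) (nat_lit 288) (nat_lit 285) (nat_lit 147))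 (XT.lf (nat_lit 76) (nat_lit 75779338843) (nat_lit 0) (nat_lit 1085594806) (nat_lit 532) (nat_lit 76665806829) (nat_lit 39) (nat_lit 5) (nat_lit 38) (nat_lit 5) (nat_lit 45) (nat_lit 5) (nat_lit 289) (nat_lit 285) (nat_lit 146)))) (XT.nd (nat_lit 156) (nat_lit 380) (nat_lit 0) (XT.nd (nat_lit 78) (nat_lit 0) (nat_lit 0) (XT.lf (nat_lit 0) (nat_lit 87126480962) (nat_lit 456) (nat_lit 9679995539) (nat_lit 532) (nat_lit 63265964420) (nat_lit 39) (nat_lit 5) (nat_lit 45) (nat_lit 5) (nat_lit 46) (nat_lit 5) (nat_lit 290) (nat_lit 285) (nat_lit 145)) (XT.lf (nat_lit 76) (nat_lit 67168779430) (nat_lit 0) (nat_lit 32683525571) (nat_lit 532) (nat_lit 67153705365) (nat_lit 40) (nat_lit 5) (nat_lit 39) (nat_lit 5) (nat_lit 46) (nat_lit 5) (nat_lit 291) (nat_lit 285) (nat_lit 144))) (XT.nd (nat_lit 78) (nat_lit 456) (nat_lit 0) (XT.lf (nat_lit 0) (nat_lit 114746989504) (nat_lit 456) (nat_lit 24643708827)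 (nat_lit 76) (nat_lit 35011504586) (nat_lit 40) (nat_lit 5) (nat_lit 46) (nat_lit 5) (nat_lit 41) (nat_lit 5) (nat_lit 292) (nat_lit 285) (nat_lit 143)) (XT.lf (nat_lit 0) (nat_lit 58650086110) (nat_lit 456) (nat_lit 74442399335) (nat_lit 532) (nat_lit 49116867525) (nat_lit 34) (nat_lit 5) (nat_lit 40) (nat_lit 5) (nat_lit 41) (nat_lit 5) (nat_lit 293) (nat_lit 285) (nat_lit 142)))))) (XT.nd (nat_lit 468) (nat_lit 532) (nat_lit 0) (XT.nd (nat_lit 234) (nat_lit 456) (nat_lit 0) (XT.nd (nat_lit 78) (nat_lit 228) (nat_lit 0) (XT.lf (nat_lit 0) (nat_lit 150008698252) (nat_lit 456) (nat_lit 3570515174) (nat_lit 532) (nat_lit 37007975169) (nat_lit 34) (nat_lit 5) (nat_lit 40) (nat_lit 5) (nat_lit 41) (nat_lit 5) (nat_lit 294) (nat_lit 285) (nat_lit 141)) (XT.nd (nat_lit 78) (nat_lit 0) (nat_lit 0) (XT.lf (nat_lit 0) (nat_lit 49775568417) (nat_lit 228) (nat_lit 128881177617) (nat_lit 304)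 (nat_lit 20742356607) (nat_lit 31) (nat_lit 5) (nat_lit 34) (nat_lit 5) (nat_lit 35) (nat_lit 5) (nat_lit 295) (nat_lit 285) (nat_lit 140)) (XT.lf (nat_lit 0) (nat_lit 149567869170) (nat_lit 228) (nat_lit 57372308052) (nat_lit 304) (nat_lit 1879817732) (nat_lit 31) (nat_lit 5) (nat_lit 34) (nat_lit 5) (nat_lit 35) (nat_lit 5) (nat_lit 296) (nat_lit 285) (nat_lit 139)))) (XT.nd (nat_lit 78) (nat_lit 228) (nat_lit 0) (XT.lf (nat_lit 0) (nat_lit 19040157609) (nat_lit 228) (nat_lit 179496229311) (nat_lit 76) (nat_lit 20304717176) (nat_lit 28) (nat_lit 5) (nat_lit 31) (nat_lit 5) (nat_lit 29) (nat_lit 5) (nat_lit 297) (nat_lit 285) (nat_lit 138)) (XT.nd (nat_lit 78) (nat_lit 228) (nat_lit 0) (XT.lf (nat_lit 0) (nat_lit 44684331451) (nat_lit 228) (nat_lit 81916234447) (nat_lit 76) (nat_lit 102807257851) (nat_lit 28) (nat_lit 5) (nat_lit 31) (nat_lit 5) (nat_lit 29) (nat_lit 5) (nat_lit 298)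 (nat_lit 285) (nat_lit 137)) (XT.lf (nat_lit 0) (nat_lit 24705864307) (nat_lit 228) (nat_lit 48268196044) (nat_lit 304) (nat_lit 167798299533) (nat_lit 25) (nat_lit 5) (nat_lit 28) (nat_lit 5) (nat_lit 29) (nat_lit 5) (nat_lit 299) (nat_lit 285) (nat_lit 136))))) (XT.nd (nat_lit 234) (nat_lit 380) (nat_lit 0) (XT.nd (nat_lit 78) (nat_lit 152) (nat_lit 0) (XT.lf (nat_lit 0) (nat_lit 106698484269) (nat_lit 304) (nat_lit 109282621124) (nat_lit 76) (nat_lit 36811232737) (nat_lit 25) (nat_lit 5) (nat_lit 29) (nat_lit 5) (nat_lit 26) (nat_lit 5) (nat_lit 300) (nat_lit 285) (nat_lit 135)) (XT.nd (nat_lit 78) (nat_lit 0) (nat_lit 0) (XT.lf (nat_lit 0) (nat_lit 5042304329) (nat_lit 152) (nat_lit 139453406744) (nat_lit 228) (nat_lit 121168216161) (nat_lit 23) (nat_lit 5) (nat_lit 25) (nat_lit 5) (nat_lit 26) (nat_lit 5) (nat_lit 301) (nat_lit 285) (nat_lit 134)) (XT.lf (nat_lit 0) (nat_lit 134728051711)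 (nat_lit 152) (nat_lit 53576512983) (nat_lit 228) (nat_lit 91021651356) (nat_lit 23) (nat_lit 5) (nat_lit 25) (nat_lit 5) (nat_lit 26) (nat_lit 5) (nat_lit 302) (nat_lit 285) (nat_lit 133)))) (XT.nd (nat_lit 156) (nat_lit 228) (nat_lit 0) (XT.nd (nat_lit 78) (nat_lit 152) (nat_lit 0) (XT.lf (nat_lit 0) (nat_lit 236560055877) (nat_lit 228) (nat_lit 20235049550) (nat_lit 76) (nat_lit 37211028646) (nat_lit 23) (nat_lit 5) (nat_lit 26) (nat_lit 5) (nat_lit 24) (nat_lit 5) (nat_lit 303) (nat_lit 285) (nat_lit 132)) (XT.lf (nat_lit 0) (nat_lit 118619172337) (nat_lit 152) (nat_lit 174301091841) (nat_lit 228) (nat_lit 16600639544) (nat_lit 21) (nat_lit 5) (nat_lit 23) (nat_lit 5) (nat_lit 24) (nat_lit 5) (nat_lit 304) (nat_lit 285) (nat_lit 131))) (XT.nd (nat_lit 78) (nat_lit 152) (nat_lit 0) (XT.lf (nat_lit 0) (nat_lit 26703671100) (nat_lit 228) (nat_lit 57176280025) (nat_lit 76) (nat_lit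 242298568569) (nat_lit 20) (nat_lit 5) (nat_lit 23) (nat_lit 5) (nat_lit 21) (nat_lit 5) (nat_lit 305) (nat_lit 285) (nat_lit 130)) (XT.lf (nat_lit 0) (nat_lit 75172799545) (nat_lit 228) (nat_lit 252970555694) (nat_lit 76) (nat_lit 15783108102) (nat_lit 18) (nat_lit 5) (nat_lit 21) (nat_lit 5) (nat_lit 19) (nat_lit 5) (nat_lit 306) (nat_lit 285) (nat_lit 129))))))) (XT.nd (nat_lit 1014) (nat_lit 304) (nat_lit 0) (XT.nd (nat_lit 468) (nat_lit 380) (nat_lit 0) (XT.nd (nat_lit 234) (nat_lit 152) (nat_lit 0) (XT.nd (nat_lit 78) (nat_lit 152) (nat_lit 0) (XT.lf (nat_lit 0) (nat_lit 131301963611) (nat_lit 228) (nat_lit 110998297522) (nat_lit 76) (nat_lit 120491381220) (nat_lit 18) (nat_lit 5) (nat_lit 21) (nat_lit 5) (nat_lit 19) (nat_lit 5) (nat_lit 307) (nat_lit 285) (nat_lit 128)) (XT.nd (nat_lit 78) (nat_lit 0) (nat_lit 0) (XT.lf (nat_lit 0) (nat_lit 44560709673) (nat_lit 152) (nat_lit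 148432344007) (nat_lit 228) (nat_lit 190087254853) (nat_lit 16) (nat_lit 5) (nat_lit 18) (nat_lit 5) (nat_lit 19) (nat_lit 5) (nat_lit 308) (nat_lit 285) (nat_lit 127)) (XT.lf (nat_lit 0) (nat_lit 218876873692) (nat_lit 152) (nat_lit 43777357819) (nat_lit 228) (nat_lit 142095052712) (nat_lit 16) (nat_lit 5) (nat_lit 18) (nat_lit 5) (nat_lit 19) (nat_lit 5) (nat_lit 309) (nat_lit 285) (nat_lit 126)))) (XT.nd (nat_lit 78) (nat_lit 152) (nat_lit 0) (XT.lf (nat_lit 0) (nat_lit 339553684403) (nat_lit 228) (nat_lit 22679043082) (nat_lit 76) (nat_lit 65785820254) (nat_lit 16) (nat_lit 5) (nat_lit 19) (nat_lit 5) (nat_lit 17) (nat_lit 4) (nat_lit 310) (nat_lit 285) (nat_lit 125)) (XT.nd (nat_lit 78) (nat_lit 76) (nat_lit 0) (XT.lf (nat_lit 0) (nat_lit 160459428605) (nat_lit 76) (nat_lit 267141714503) (nat_lit 152) (nat_lit 25148525485) (nat_lit 15) (nat_lit 5) (nat_lit 16) (nat_lit 5) (nat_lit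 17) (nat_lit 4) (nat_lit 311) (nat_lit 285) (nat_lit 124)) (XT.lf (nat_lit 0) (nat_lit 41706538017) (nat_lit 152) (nat_lit 120926903245) (nat_lit 76) (nat_lit 316691768289) (nat_lit 14) (nat_lit 5) (nat_lit 16) (nat_lit 5) (nat_lit 15) (nat_lit 5) (nat_lit 312) (nat_lit 285) (nat_lit 123))))) (XT.nd (nat_lit 234) (nat_lit 228) (nat_lit 0) (XT.nd (nat_lit 78) (nat_lit 0) (nat_lit 0) (XT.lf (nat_lit 0) (nat_lit 66835564082) (nat_lit 152) (nat_lit 47323094570) (nat_lit 228) (nat_lit 393687292582) (nat_lit 12) (nat_lit 5) (nat_lit 14) (nat_lit 5) (nat_lit 15) (nat_lit 5) (nat_lit 313) (nat_lit 285) (nat_lit 122)) (XT.nd (nat_lit 78) (nat_lit 0) (nat_lit 0) (XT.lf (nat_lit 0) (nat_lit 197656066849) (nat_lit 228) (nat_lit 263830541875) (nat_lit 76) (nat_lit 76741814257) (nat_lit 12) (nat_lit 5) (nat_lit 15) (nat_lit 5) (nat_lit 13) (nat_lit 4) (nat_lit 314) (nat_lit 285) (nat_lit 121)) (XT.lf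 (nat_lit 0) (nat_lit 289062374474) (nat_lit 228) (nat_lit 73705587000) (nat_lit 76) (nat_lit 208175202603) (nat_lit 12) (nat_lit 5) (nat_lit 15) (nat_lit 5) (nat_lit 13) (nat_lit 4) (nat_lit 315) (nat_lit 285) (nat_lit 120)))) (XT.nd (nat_lit 156) (nat_lit 152) (nat_lit 0) (XT.nd (nat_lit 78) (nat_lit 0) (nat_lit 0) (XT.lf (nat_lit 0) (nat_lit 138560629285) (nat_lit 76) (nat_lit 252552884156) (nat_lit 152) (nat_lit 214894985021) (nat_lit 11) (nat_lit 5) (nat_lit 12) (nat_lit 5) (nat_lit 13) (nat_lit 4) (nat_lit 316) (nat_lit 285) (nat_lit 119)) (XT.lf (nat_lit 0) (nat_lit 371999748588) (nat_lit 76) (nat_lit 131344178676) (nat_lit 152) (nat_lit 140373917764) (nat_lit 11) (nat_lit 5) (nat_lit 12) (nat_lit 5) (nat_lit 13) (nat_lit 4) (nat_lit 317) (nat_lit 285) (nat_lit 118))) (XT.nd (nat_lit 78) (nat_lit 152) (nat_lit 0) (XT.lf (nat_lit 0) (nat_lit 624113908242) (nat_lit 76) (nat_lit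 438812591) (nat_lit 152) (nat_lit 59891222873) (nat_lit 11) (nat_lit 5) (nat_lit 12) (nat_lit 5) (nat_lit 13) (nat_lit 4) (nat_lit 318) (nat_lit 285) (nat_lit 117)) (XT.lf (nat_lit 0) (nat_lit 33430298233) (nat_lit 152) (nat_lit 555424120750) (nat_lit 76) (nat_lit 138901516253) (nat_lit 9) (nat_lit 5) (nat_lit 11) (nat_lit 5) (nat_lit 10) (nat_lit 4) (nat_lit 319) (nat_lit 285) (nat_lit 116)))))) (XT.nd (nat_lit 546) (nat_lit 152) (nat_lit 0) (XT.nd (nat_lit 234) (nat_lit 76) (nat_lit 0) (XT.nd (nat_lit 78) (nat_lit 76) (nat_lit 0) (XT.lf (nat_lit 0) (nat_lit 132685582273) (nat_lit 152) (nat_lit 348973233915) (nat_lit 76) (nat_lit 292613322867) (nat_lit 9) (nat_lit 5) (nat_lit 11) (nat_lit 5) (nat_lit 10) (nat_lit 4) (nat_lit 320) (nat_lit 285) (nat_lit 115)) (XT.nd (nat_lit 78) (nat_lit 76) (nat_lit 0) (XT.lf (nat_lit 0) (nat_lit 239881242875) (nat_lit 152) (nat_lit 126006356132) (nat_lit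 76) (nat_lit 458622043956) (nat_lit 9) (nat_lit 5) (nat_lit 11) (nat_lit 5) (nat_lit 10) (nat_lit 4) (nat_lit 321) (nat_lit 285) (nat_lit 114)) (XT.lf (nat_lit 0) (nat_lit 120842846394) (nat_lit 76) (nat_lit 237715940549) (nat_lit 152) (nat_lit 519974861870) (nat_lit 8) (nat_lit 5) (nat_lit 9) (nat_lit 5) (nat_lit 10) (nat_lit 4) (nat_lit 322) (nat_lit 285) (nat_lit 113)))) (XT.nd (nat_lit 156) (nat_lit 76) (nat_lit 0) (XT.nd (nat_lit 78) (nat_lit 0) (nat_lit 0) (XT.lf (nat_lit 0) (nat_lit 394606006051) (nat_lit 76) (nat_lit 95569724253) (nat_lit 152) (nat_lit 446428229243) (nat_lit 8) (nat_lit 5) (nat_lit 9) (nat_lit 5) (nat_lit 10) (nat_lit 4) (nat_lit 323) (nat_lit 285) (nat_lit 112)) (XT.lf (nat_lit 0) (nat_lit 633715645542) (nat_lit 152) (nat_lit 310443401297) (nat_lit 0) (nat_lit 55049359057) (nat_lit 8) (nat_lit 5) (nat_lit 10) (nat_lit 4) (nat_lit 8) (nat_lit 4) (nat_lit 324)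 (nat_lit 285) (nat_lit 111))) (XT.nd (nat_lit 78) (nat_lit 76) (nat_lit 0) (XT.lf (nat_lit 0) (nat_lit 791221048442) (nat_lit 152) (nat_lit 62846879580) (nat_lit 0) (nat_lit 212554696439) (nat_lit 8) (nat_lit 5) (nat_lit 10) (nat_lit 4) (nat_lit 8) (nat_lit 4) (nat_lit 325) (nat_lit 285) (nat_lit 110)) (XT.lf (nat_lit 0) (nat_lit 215328929614) (nat_lit 76) (nat_lit 751176586512) (nat_lit 76) (nat_lit 172510173844) (nat_lit 7) (nat_lit 4) (nat_lit 8) (nat_lit 5) (nat_lit 8) (nat_lit 4) (nat_lit 326) (nat_lit 285) (nat_lit 109))))) (XT.nd (nat_lit 234) (nat_lit 76) (nat_lit 0) (XT.nd (nat_lit 78) (nat_lit 76) (nat_lit 0) (XT.lf (nat_lit 0) (nat_lit 519332903371) (nat_lit 76) (nat_lit 638198150610) (nat_lit 76) (nat_lit 59531681770) (nat_lit 7) (nat_lit 4) (nat_lit 8) (nat_lit 5) (nat_lit 8) (nat_lit 4) (nat_lit 327) (nat_lit 285) (nat_lit 108)) (XT.nd (nat_lit 78) (nat_lit 0) (nat_lit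 0) (XT.lf (nat_lit 0) (nat_lit 59359301679) (nat_lit 152) (nat_lit 455199173356) (nat_lit 76) (nat_lit 786674851235) (nat_lit 6) (nat_lit 5) (nat_lit 8) (nat_lit 5) (nat_lit 7) (nat_lit 4) (nat_lit 328) (nat_lit 285) (nat_lit 107)) (XT.lf (nat_lit 0) (nat_lit 184545278252) (nat_lit 152) (nat_lit 194812390242) (nat_lit 76) (nat_lit 1012656195662) (nat_lit 6) (nat_lit 5) (nat_lit 8) (nat_lit 5) (nat_lit 7) (nat_lit 4) (nat_lit 329) (nat_lit 285) (nat_lit 106)))) (XT.nd (nat_lit 156) (nat_lit 0) (nat_lit 0) (XT.nd (nat_lit 78) (nat_lit 0) (nat_lit 0) (XT.lf (nat_lit 0) (nat_lit 90955237477) (nat_lit 76) (nat_lit 230978344770) (nat_lit 152) (nat_lit 1167948266922) (nat_lit 5) (nat_lit 5) (nat_lit 6) (nat_lit 5) (nat_lit 7) (nat_lit 4) (nat_lit 330) (nat_lit 285) (nat_lit 105)) (XT.lf (nat_lit 0) (nat_lit 410663382473) (nat_lit 76) (nat_lit 64976058564) (nat_lit 152) (nat_lit 1119513712745)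 (nat_lit 5) (nat_lit 5) (nat_lit 6) (nat_lit 5) (nat_lit 7) (nat_lit 4) (nat_lit 331) (nat_lit 285) (nat_lit 104))) (XT.nd (nat_lit 33930) (nat_lit 0) (nat_lit 2432) (XT.lf (nat_lit 0) (nat_lit 644390816372) (nat_lit 152) (nat_lit 955647099854) (nat_lit 0) (nat_lit 108588322747) (nat_lit 5) (nat_lit 5) (nat_lit 7) (nat_lit 4) (nat_lit 5) (nat_lit 4) (nat_lit 332) (nat_lit 285) (nat_lit 103)) (XT.lf (nat_lit 0) (nat_lit 30058431187) (nat_lit 532) (nat_lit 20297819713) (nat_lit 532) (nat_lit 20297819713) (nat_lit 37) (nat_lit 3) (nat_lit 44) (nat_lit 3) (nat_lit 44) (nat_lit 5) (nat_lit 286) (nat_lit 286) (nat_lit 148))))))))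
noncomputable def xc116 : XT := (XT.nd (nat_lit 2028) (nat_lit 760) (nat_lit 0) (XT.nd (nat_lit 1014) (nat_lit 988) (nat_lit 0) (XT.nd (nat_lit 468) (nat_lit 684) (nat_lit 0) (XT.nd (nat_lit 234) (nat_lit 0) (nat_lit 76) (XT.nd (nat_lit 78) (nat_lit 0) (nat_lit 76) (XT.lf (nat_lit 76) (nat_lit 21824138851) (nat_lit 0) (nat_lit 41225206706) (nat_lit 532) (nat_lit 83868882595) (nat_lit 38) (nat_lit 5) (nat_lit 37) (nat_lit 3) (nat_lit 44) (nat_lit 5) (nat_lit 287) (nat_lit 286) (nat_lit 147)) (XT.nd (nat_lit 78) (nat_lit 0) (nat_lit 0) (XT.lf (nat_lit 0) (nat_lit 67908576689) (nat_lit 456) (nat_lit 61924799672) (nat_lit 532) (nat_lit 23008375132) (nat_lit 38) (nat_lit 5) (nat_lit 44) (nat_lit 5) (nat_lit 45) (nat_lit 5) (nat_lit 288) (nat_lit 286) (nat_lit 146)) (XT.lf (nat_lit 76) (nat_lit 5502314977) (nat_lit 0) (nat_lit 68857073758) (nat_lit 532) (nat_lit 84783541869) (nat_lit 39)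 (nat_lit 5) (nat_lit 38) (nat_lit 5) (nat_lit 45) (nat_lit 5) (nat_lit 289) (nat_lit 286) (nat_lit 145)))) (XT.nd (nat_lit 78) (nat_lit 0) (nat_lit 76) (XT.lf (nat_lit 76) (nat_lit 81845139984) (nat_lit 0) (nat_lit 1174002516) (nat_lit 532) (nat_lit 82793632609) (nat_lit 39) (nat_lit 5) (nat_lit 38) (nat_lit 5) (nat_lit 45) (nat_lit 5) (nat_lit 290) (nat_lit 286) (nat_lit 144)) (XT.nd (nat_lit 78) (nat_lit 0) (nat_lit 0) (XT.lf (nat_lit 0) (nat_lit 94101207436) (nat_lit 456) (nat_lit 10450769106) (nat_lit 532) (nat_lit 68325869276) (nat_lit 39) (nat_lit 5) (nat_lit 45) (nat_lit 5) (nat_lit 46) (nat_lit 5) (nat_lit 291) (nat_lit 286) (nat_lit 143)) (XT.lf (nat_lit 76) (nat_lit 72545816061) (nat_lit 0) (nat_lit 35299025003) (nat_lit 532) (nat_lit 72521281871) (nat_lit 40) (nat_lit 5) (nat_lit 39) (nat_lit 5) (nat_lit 46) (nat_lit 5) (nat_lit 292) (nat_lit 286) (nat_lit 142))))) (XT.nd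 (nat_lit 234) (nat_lit 456) (nat_lit 0) (XT.nd (nat_lit 78) (nat_lit 456) (nat_lit 0) (XT.lf (nat_lit 0) (nat_lit 123930759780) (nat_lit 456) (nat_lit 26611573872) (nat_lit 76) (nat_lit 37811705974) (nat_lit 40) (nat_lit 5) (nat_lit 46) (nat_lit 5) (nat_lit 41) (nat_lit 5) (nat_lit 293) (nat_lit 286) (nat_lit 141)) (XT.nd (nat_lit 78) (nat_lit 0) (nat_lit 0) (XT.lf (nat_lit 0) (nat_lit 63345632720) (nat_lit 456) (nat_lit 80398050688) (nat_lit 532) (nat_lit 53042096615) (nat_lit 34) (nat_lit 5) (nat_lit 40) (nat_lit 5) (nat_lit 41) (nat_lit 5) (nat_lit 294) (nat_lit 286) (nat_lit 140)) (XT.lf (nat_lit 0) (nat_lit 162012671632) (nat_lit 456) (nat_lit 3856396578) (nat_lit 532) (nat_lit 39964798079) (nat_lit 34) (nat_lit 5) (nat_lit 40) (nat_lit 5) (nat_lit 41) (nat_lit 5) (nat_lit 295) (nat_lit 286) (nat_lit 139)))) (XT.nd (nat_lit 156) (nat_lit 228) (nat_lit 0) (XT.nd (nat_lit 78) (nat_lit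 0) (nat_lit 0) (XT.lf (nat_lit 0) (nat_lit 53761103931) (nat_lit 228) (nat_lit 139191517512) (nat_lit 304) (nat_lit 22398127759) (nat_lit 31) (nat_lit 5) (nat_lit 34) (nat_lit 5) (nat_lit 35) (nat_lit 5) (nat_lit 296) (nat_lit 286) (nat_lit 138)) (XT.lf (nat_lit 0) (nat_lit 161536530222) (nat_lit 228) (nat_lit 61961949812) (nat_lit 304) (nat_lit 2026853728) (nat_lit 31) (nat_lit 5) (nat_lit 34) (nat_lit 5) (nat_lit 35) (nat_lit 5) (nat_lit 297) (nat_lit 286) (nat_lit 137))) (XT.nd (nat_lit 78) (nat_lit 0) (nat_lit 0) (XT.lf (nat_lit 0) (nat_lit 20566403567) (nat_lit 228) (nat_lit 193852355637) (nat_lit 76) (nat_lit 21929378808) (nat_lit 28) (nat_lit 5) (nat_lit 31) (nat_lit 5) (nat_lit 29) (nat_lit 5) (nat_lit 298) (nat_lit 286) (nat_lit 136)) (XT.lf (nat_lit 0) (nat_lit 48261886624) (nat_lit 228) (nat_lit 88466225778) (nat_lit 76) (nat_lit 111032101681) (nat_lit 28) (nat_lit 5) (nat_lit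 31) (nat_lit 5) (nat_lit 29) (nat_lit 5) (nat_lit 299) (nat_lit 286) (nat_lit 135)))))) (XT.nd (nat_lit 468) (nat_lit 456) (nat_lit 0) (XT.nd (nat_lit 234) (nat_lit 152) (nat_lit 0) (XT.nd (nat_lit 78) (nat_lit 152) (nat_lit 0) (XT.lf (nat_lit 0) (nat_lit 26685557145) (nat_lit 228) (nat_lit 52129106172) (nat_lit 304) (nat_lit 181219261038) (nat_lit 25) (nat_lit 5) (nat_lit 28) (nat_lit 5) (nat_lit 29) (nat_lit 5) (nat_lit 300) (nat_lit 286) (nat_lit 134)) (XT.nd (nat_lit 78) (nat_lit 152) (nat_lit 0) (XT.lf (nat_lit 0) (nat_lit 115236854917) (nat_lit 304) (nat_lit 118022050359) (nat_lit 76) (nat_lit 39756611230) (nat_lit 25) (nat_lit 5) (nat_lit 29) (nat_lit 5) (nat_lit 26) (nat_lit 5) (nat_lit 301) (nat_lit 286) (nat_lit 133)) (XT.lf (nat_lit 0) (nat_lit 5448788613) (nat_lit 152) (nat_lit 150608961220) (nat_lit 228) (nat_lit 130859092398) (nat_lit 23) (nat_lit 5) (nat_lit 25) (nat_lit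 5) (nat_lit 26) (nat_lit 5) (nat_lit 302) (nat_lit 286) (nat_lit 132)))) (XT.nd (nat_lit 78) (nat_lit 152) (nat_lit 0) (XT.lf (nat_lit 0) (nat_lit 145509166161) (nat_lit 152) (nat_lit 57861969148) (nat_lit 228) (nat_lit 98300993598) (nat_lit 23) (nat_lit 5) (nat_lit 25) (nat_lit 5) (nat_lit 26) (nat_lit 5) (nat_lit 303) (nat_lit 286) (nat_lit 131)) (XT.nd (nat_lit 78) (nat_lit 152) (nat_lit 0) (XT.lf (nat_lit 0) (nat_lit 255486917227) (nat_lit 228) (nat_lit 21851039856) (nat_lit 76) (nat_lit 40188495766) (nat_lit 23) (nat_lit 5) (nat_lit 26) (nat_lit 5) (nat_lit 24) (nat_lit 5) (nat_lit 304) (nat_lit 286) (nat_lit 130)) (XT.lf (nat_lit 0) (nat_lit 128111448550) (nat_lit 152) (nat_lit 188244407235) (nat_lit 228) (nat_lit 17926555745) (nat_lit 21) (nat_lit 5) (nat_lit 23) (nat_lit 5) (nat_lit 24) (nat_lit 5) (nat_lit 305) (nat_lit 286) (nat_lit 129))))) (XT.nd (nat_lit 234) (nat_lit 228)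 (nat_lit 0) (XT.nd (nat_lit 78) (nat_lit 152) (nat_lit 0) (XT.lf (nat_lit 0) (nat_lit 28841842717) (nat_lit 228) (nat_lit 61747738381) (nat_lit 76) (nat_lit 261683064063) (nat_lit 20) (nat_lit 5) (nat_lit 23) (nat_lit 5) (nat_lit 21) (nat_lit 5) (nat_lit 306) (nat_lit 286) (nat_lit 128)) (XT.nd (nat_lit 78) (nat_lit 0) (nat_lit 0) (XT.lf (nat_lit 0) (nat_lit 81188442982) (nat_lit 228) (nat_lit 273205492208) (nat_lit 76) (nat_lit 17046494222) (nat_lit 18) (nat_lit 5) (nat_lit 21) (nat_lit 5) (nat_lit 19) (nat_lit 5) (nat_lit 307) (nat_lit 286) (nat_lit 127)) (XT.lf (nat_lit 0) (nat_lit 141807805397) (nat_lit 228) (nat_lit 119875653969) (nat_lit 76) (nat_lit 130131374562) (nat_lit 18) (nat_lit 5) (nat_lit 21) (nat_lit 5) (nat_lit 19) (nat_lit 5) (nat_lit 308) (nat_lit 286) (nat_lit 126)))) (XT.nd (nat_lit 156) (nat_lit 76) (nat_lit 0) (XT.nd (nat_lit 78) (nat_lit 0) (nat_lit 0) (XT.lf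 (nat_lit 0) (nat_lit 48128010324) (nat_lit 152) (nat_lit 160306106331) (nat_lit 228) (nat_lit 205292482403) (nat_lit 16) (nat_lit 5) (nat_lit 18) (nat_lit 5) (nat_lit 19) (nat_lit 5) (nat_lit 309) (nat_lit 286) (nat_lit 125)) (XT.lf (nat_lit 0) (nat_lit 236389286436) (nat_lit 152) (nat_lit 47278782374) (nat_lit 228) (nat_lit 153461033931) (nat_lit 16) (nat_lit 5) (nat_lit 18) (nat_lit 5) (nat_lit 19) (nat_lit 5) (nat_lit 310) (nat_lit 286) (nat_lit 124))) (XT.nd (nat_lit 78) (nat_lit 76) (nat_lit 0) (XT.lf (nat_lit 0) (nat_lit 366719383927) (nat_lit 228) (nat_lit 24491173295) (nat_lit 76) (nat_lit 71049357957) (nat_lit 16) (nat_lit 5) (nat_lit 19) (nat_lit 5) (nat_lit 17) (nat_lit 4) (nat_lit 311) (nat_lit 286) (nat_lit 123)) (XT.lf (nat_lit 0) (nat_lit 173298320603) (nat_lit 76) (nat_lit 288512266080) (nat_lit 152) (nat_lit 27158943525) (nat_lit 15) (nat_lit 5) (nat_lit 16) (nat_lit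 5) (nat_lit 17) (nat_lit 4) (nat_lit 312) (nat_lit 286) (nat_lit 122))))))) (XT.nd (nat_lit 1014) (nat_lit 228) (nat_lit 0) (XT.nd (nat_lit 468) (nat_lit 228) (nat_lit 0) (XT.nd (nat_lit 234) (nat_lit 76) (nat_lit 0) (XT.nd (nat_lit 78) (nat_lit 152) (nat_lit 0) (XT.lf (nat_lit 0) (nat_lit 45044348802) (nat_lit 152) (nat_lit 130599005160) (nat_lit 76) (nat_lit 342027766159) (nat_lit 14) (nat_lit 5) (nat_lit 16) (nat_lit 5) (nat_lit 15) (nat_lit 5) (nat_lit 313) (nat_lit 286) (nat_lit 121)) (XT.nd (nat_lit 78) (nat_lit 0) (nat_lit 0) (XT.lf (nat_lit 0) (nat_lit 72184407646) (nat_lit 152) (nat_lit 51108184116) (nat_lit 228) (nat_lit 425180933397) (nat_lit 12) (nat_lit 5) (nat_lit 14) (nat_lit 5) (nat_lit 15) (nat_lit 5) (nat_lit 314) (nat_lit 286) (nat_lit 120)) (XT.lf (nat_lit 0) (nat_lit 213469717612) (nat_lit 228) (nat_lit 284935057096) (nat_lit 76) (nat_lit 82881826157) (nat_lit 12)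 (nat_lit 5) (nat_lit 15) (nat_lit 5) (nat_lit 13) (nat_lit 4) (nat_lit 315) (nat_lit 286) (nat_lit 119)))) (XT.nd (nat_lit 78) (nat_lit 76) (nat_lit 0) (XT.lf (nat_lit 0) (nat_lit 312188443521) (nat_lit 228) (nat_lit 79600248656) (nat_lit 76) (nat_lit 224829836180) (nat_lit 12) (nat_lit 5) (nat_lit 15) (nat_lit 5) (nat_lit 13) (nat_lit 4) (nat_lit 316) (nat_lit 286) (nat_lit 118)) (XT.nd (nat_lit 78) (nat_lit 0) (nat_lit 0) (XT.lf (nat_lit 0) (nat_lit 149647219735) (nat_lit 76) (nat_lit 272756415787) (nat_lit 152) (nat_lit 232085457204) (nat_lit 11) (nat_lit 5) (nat_lit 12) (nat_lit 5) (nat_lit 13) (nat_lit 4) (nat_lit 317) (nat_lit 286) (nat_lit 117)) (XT.lf (nat_lit 0) (nat_lit 401761339685) (nat_lit 76) (nat_lit 141851065653) (nat_lit 152) (nat_lit 151602788019) (nat_lit 11) (nat_lit 5) (nat_lit 12) (nat_lit 5) (nat_lit 13) (nat_lit 4) (nat_lit 318) (nat_lit 286) (nat_lit 116)))))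 (XT.nd (nat_lit 234) (nat_lit 76) (nat_lit 0) (XT.nd (nat_lit 78) (nat_lit 152) (nat_lit 0) (XT.lf (nat_lit 0) (nat_lit 674044512763) (nat_lit 76) (nat_lit 473318231) (nat_lit 152) (nat_lit 64681554809) (nat_lit 11) (nat_lit 5) (nat_lit 12) (nat_lit 5) (nat_lit 13) (nat_lit 4) (nat_lit 319) (nat_lit 286) (nat_lit 115)) (XT.nd (nat_lit 78) (nat_lit 0) (nat_lit 0) (XT.lf (nat_lit 0) (nat_lit 36105622691) (nat_lit 152) (nat_lit 599856489686) (nat_lit 76) (nat_lit 150014223914) (nat_lit 9) (nat_lit 5) (nat_lit 11) (nat_lit 5) (nat_lit 10) (nat_lit 4) (nat_lit 320) (nat_lit 286) (nat_lit 114)) (XT.lf (nat_lit 0) (nat_lit 143301262743) (nat_lit 152) (nat_lit 376889647515) (nat_lit 76) (nat_lit 316022931623) (nat_lit 9) (nat_lit 5) (nat_lit 11) (nat_lit 5) (nat_lit 10) (nat_lit 4) (nat_lit 321) (nat_lit 286) (nat_lit 113)))) (XT.nd (nat_lit 156) (nat_lit 0) (nat_lit 0) (XT.nd (nat_lit 78)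 (nat_lit 76) (nat_lit 0) (XT.lf (nat_lit 0) (nat_lit 259072514423) (nat_lit 152) (nat_lit 136085526554) (nat_lit 76) (nat_lit 495312310182) (nat_lit 9) (nat_lit 5) (nat_lit 11) (nat_lit 5) (nat_lit 10) (nat_lit 4) (nat_lit 322) (nat_lit 286) (nat_lit 112)) (XT.lf (nat_lit 0) (nat_lit 130511578299) (nat_lit 76) (nat_lit 256732657891) (nat_lit 152) (nat_lit 561572043465) (nat_lit 8) (nat_lit 5) (nat_lit 9) (nat_lit 5) (nat_lit 10) (nat_lit 4) (nat_lit 323) (nat_lit 286) (nat_lit 111))) (XT.nd (nat_lit 78) (nat_lit 0) (nat_lit 0) (XT.lf (nat_lit 0) (nat_lit 426175694121) (nat_lit 76) (nat_lit 103214785617) (nat_lit 152) (nat_lit 482141740031) (nat_lit 8) (nat_lit 5) (nat_lit 9) (nat_lit 5) (nat_lit 10) (nat_lit 4) (nat_lit 324) (nat_lit 286) (nat_lit 110)) (XT.lf (nat_lit 0) (nat_lit 684413548513) (nat_lit 152) (nat_lit 335277714416) (nat_lit 0) (nat_lit 59453762166) (nat_lit 8) (nat_lit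 5) (nat_lit 10) (nat_lit 4) (nat_lit 8) (nat_lit 4) (nat_lit 325) (nat_lit 286) (nat_lit 109)))))) (XT.nd (nat_lit 34554) (nat_lit 0) (nat_lit 2432) (XT.nd (nat_lit 234) (nat_lit 152) (nat_lit 0) (XT.nd (nat_lit 78) (nat_lit 76) (nat_lit 0) (XT.lf (nat_lit 0) (nat_lit 854519335399) (nat_lit 152) (nat_lit 67873556812) (nat_lit 0) (nat_lit 229559492881) (nat_lit 8) (nat_lit 5) (nat_lit 10) (nat_lit 4) (nat_lit 8) (nat_lit 4) (nat_lit 326) (nat_lit 286) (nat_lit 108)) (XT.nd (nat_lit 78) (nat_lit 0) (nat_lit 0) (XT.lf (nat_lit 0) (nat_lit 232556289949) (nat_lit 76) (nat_lit 811270251030) (nat_lit 76) (nat_lit 186310356502) (nat_lit 7) (nat_lit 4) (nat_lit 8) (nat_lit 5) (nat_lit 8) (nat_lit 4) (nat_lit 327) (nat_lit 286) (nat_lit 107)) (XT.lf (nat_lit 0) (nat_lit 560880504129) (nat_lit 76) (nat_lit 689253574508) (nat_lit 76) (nat_lit 64293631822) (nat_lit 7) (nat_lit 4) (nat_lit 8) (nat_lit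 5) (nat_lit 8) (nat_lit 4) (nat_lit 328) (nat_lit 286) (nat_lit 106)))) (XT.nd (nat_lit 156) (nat_lit 76) (nat_lit 0) (XT.nd (nat_lit 78) (nat_lit 0) (nat_lit 0) (XT.lf (nat_lit 0) (nat_lit 64108559935) (nat_lit 152) (nat_lit 491614182610) (nat_lit 76) (nat_lit 849609207903) (nat_lit 6) (nat_lit 5) (nat_lit 8) (nat_lit 5) (nat_lit 7) (nat_lit 4) (nat_lit 329) (nat_lit 286) (nat_lit 105)) (XT.lf (nat_lit 0) (nat_lit 199309376551) (nat_lit 152) (nat_lit 210396525337) (nat_lit 76) (nat_lit 1093669032582) (nat_lit 6) (nat_lit 5) (nat_lit 8) (nat_lit 5) (nat_lit 7) (nat_lit 4) (nat_lit 330) (nat_lit 286) (nat_lit 104))) (XT.nd (nat_lit 34086) (nat_lit 0) (nat_lit 2432) (XT.lf (nat_lit 0) (nat_lit 98232490926) (nat_lit 76) (nat_lit 249456238746) (nat_lit 152) (nat_lit 1261383629882) (nat_lit 5) (nat_lit 5) (nat_lit 6) (nat_lit 5) (nat_lit 7) (nat_lit 4) (nat_lit 331) (nat_lit 286) (nat_lit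 103)) (XT.lf (nat_lit 0) (nat_lit 32465972656) (nat_lit 532) (nat_lit 21920090278) (nat_lit 532) (nat_lit 21920090278) (nat_lit 37) (nat_lit 3) (nat_lit 44) (nat_lit 3) (nat_lit 44) (nat_lit 5) (nat_lit 287) (nat_lit 287) (nat_lit 146))))) (XT.nd (nat_lit 234) (nat_lit 0) (nat_lit 76) (XT.nd (nat_lit 78) (nat_lit 0) (nat_lit 76) (XT.lf (nat_lit 76) (nat_lit 23573101246) (nat_lit 0) (nat_lit 44525574068) (nat_lit 532) (nat_lit 90572555167) (nat_lit 38) (nat_lit 5) (nat_lit 37) (nat_lit 3) (nat_lit 44) (nat_lit 5) (nat_lit 288) (nat_lit 287) (nat_lit 145)) (XT.nd (nat_lit 78) (nat_lit 0) (nat_lit 0) (XT.lf (nat_lit 0) (nat_lit 73346193912) (nat_lit 456) (nat_lit 66875502397) (nat_lit 532) (nat_lit 24846977340) (nat_lit 38) (nat_lit 5) (nat_lit 44) (nat_lit 5) (nat_lit 45) (nat_lit 5) (nat_lit 289) (nat_lit 287) (nat_lit 144)) (XT.lf (nat_lit 76) (nat_lit 5945698354) (nat_lit 0) (nat_lit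 74367084218) (nat_lit 532) (nat_lit 91561189324) (nat_lit 39) (nat_lit 5) (nat_lit 38) (nat_lit 5) (nat_lit 45) (nat_lit 5) (nat_lit 290) (nat_lit 287) (nat_lit 143)))) (XT.nd (nat_lit 156) (nat_lit 0) (nat_lit 76) (XT.nd (nat_lit 78) (nat_lit 0) (nat_lit 76) (XT.lf (nat_lit 76) (nat_lit 88395712459) (nat_lit 0) (nat_lit 1269260272) (nat_lit 532) (nat_lit 89412460353) (nat_lit 39) (nat_lit 5) (nat_lit 38) (nat_lit 5) (nat_lit 45) (nat_lit 5) (nat_lit 291) (nat_lit 287) (nat_lit 142)) (XT.lf (nat_lit 0) (nat_lit 101633254645) (nat_lit 456) (nat_lit 11283721858) (nat_lit 532) (nat_lit 73790762295) (nat_lit 39) (nat_lit 5) (nat_lit 45) (nat_lit 5) (nat_lit 46) (nat_lit 5) (nat_lit 292) (nat_lit 287) (nat_lit 141))) (XT.nd (nat_lit 78) (nat_lit 0) (nat_lit 76) (XT.lf (nat_lit 76) (nat_lit 78352511419) (nat_lit 0) (nat_lit 38123647780) (nat_lit 532) (nat_lit 78318937848) (nat_lit 40) (nat_lit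 5) (nat_lit 39) (nat_lit 5) (nat_lit 46) (nat_lit 5) (nat_lit 293) (nat_lit 287) (nat_lit 140)) (XT.lf (nat_lit 0) (nat_lit 133848659448) (nat_lit 456) (nat_lit 28737386217) (nat_lit 76) (nat_lit 40836026044) (nat_lit 40) (nat_lit 5) (nat_lit 46) (nat_lit 5) (nat_lit 41) (nat_lit 5) (nat_lit 294) (nat_lit 287) (nat_lit 139))))))))
noncomputable def xc117 : XT := (XT.nd (nat_lit 2028) (nat_lit 380) (nat_lit 0) (XT.nd (nat_lit 1014) (nat_lit 684) (nat_lit 0) (XT.nd (nat_lit 468) (nat_lit 608) (nat_lit 0) (XT.nd (nat_lit 234) (nat_lit 228) (nat_lit 0) (XT.nd (nat_lit 78) (nat_lit 228) (nat_lit 0) (XT.lf (nat_lit 0) (nat_lit 68416318078) (nat_lit 456) (nat_lit 86830117141) (nat_lit 532) (nat_lit 57281931841) (nat_lit 34) (nat_lit 5) (nat_lit 40) (nat_lit 5) (nat_lit 41) (nat_lit 5) (nat_lit 295) (nat_lit 287) (nat_lit 138)) (XT.nd (nat_lit 78) (nat_lit 228) (nat_lit 0) (XT.lf (nat_lit 0)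 (nat_lit 174976495307) (nat_lit 456) (nat_lit 4165114228) (nat_lit 532) (nat_lit 43158711089) (nat_lit 34) (nat_lit 5) (nat_lit 40) (nat_lit 5) (nat_lit 41) (nat_lit 5) (nat_lit 296) (nat_lit 287) (nat_lit 137)) (XT.lf (nat_lit 0) (nat_lit 58064984392) (nat_lit 228) (nat_lit 150326706613) (nat_lit 304) (nat_lit 24186876662) (nat_lit 31) (nat_lit 5) (nat_lit 34) (nat_lit 5) (nat_lit 35) (nat_lit 5) (nat_lit 297) (nat_lit 287) (nat_lit 136)))) (XT.nd (nat_lit 78) (nat_lit 228) (nat_lit 0) (XT.lf (nat_lit 0) (nat_lit 174462223146) (nat_lit 228) (nat_lit 66918783297) (nat_lit 304) (nat_lit 2186130435) (nat_lit 31) (nat_lit 5) (nat_lit 34) (nat_lit 5) (nat_lit 35) (nat_lit 5) (nat_lit 298) (nat_lit 287) (nat_lit 135)) (XT.nd (nat_lit 78) (nat_lit 0) (nat_lit 0) (XT.lf (nat_lit 0) (nat_lit 22214316461) (nat_lit 228) (nat_lit 209357481657) (nat_lit 76) (nat_lit 23683972819) (nat_lit 28) (nat_lit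 5) (nat_lit 31) (nat_lit 5) (nat_lit 29) (nat_lit 5) (nat_lit 299) (nat_lit 287) (nat_lit 134)) (XT.lf (nat_lit 0) (nat_lit 52125245524) (nat_lit 228) (nat_lit 95540688256) (nat_lit 76) (nat_lit 119914895469) (nat_lit 28) (nat_lit 5) (nat_lit 31) (nat_lit 5) (nat_lit 29) (nat_lit 5) (nat_lit 300) (nat_lit 287) (nat_lit 133))))) (XT.nd (nat_lit 234) (nat_lit 228) (nat_lit 0) (XT.nd (nat_lit 78) (nat_lit 152) (nat_lit 0) (XT.lf (nat_lit 0) (nat_lit 28823165513) (nat_lit 228) (nat_lit 56298966940) (nat_lit 304) (nat_lit 195714313532) (nat_lit 25) (nat_lit 5) (nat_lit 28) (nat_lit 5) (nat_lit 29) (nat_lit 5) (nat_lit 301) (nat_lit 287) (nat_lit 132)) (XT.nd (nat_lit 78) (nat_lit 152) (nat_lit 0) (XT.lf (nat_lit 0) (nat_lit 124457939718) (nat_lit 304) (nat_lit 127461087659) (nat_lit 76) (nat_lit 42937551543) (nat_lit 25) (nat_lit 5) (nat_lit 29) (nat_lit 5) (nat_lit 26) (nat_lit 5) (nat_lit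 302) (nat_lit 287) (nat_lit 131)) (XT.lf (nat_lit 0) (nat_lit 5887349399) (nat_lit 152) (nat_lit 162657062494) (nat_lit 228) (nat_lit 141325606951) (nat_lit 23) (nat_lit 5) (nat_lit 25) (nat_lit 5) (nat_lit 26) (nat_lit 5) (nat_lit 303) (nat_lit 287) (nat_lit 130)))) (XT.nd (nat_lit 156) (nat_lit 228) (nat_lit 0) (XT.nd (nat_lit 78) (nat_lit 0) (nat_lit 0) (XT.lf (nat_lit 0) (nat_lit 157152360284) (nat_lit 152) (nat_lit 62490356658) (nat_lit 228) (nat_lit 106163024161) (nat_lit 23) (nat_lit 5) (nat_lit 25) (nat_lit 5) (nat_lit 26) (nat_lit 5) (nat_lit 304) (nat_lit 287) (nat_lit 129)) (XT.lf (nat_lit 0) (nat_lit 275927634047) (nat_lit 228) (nat_lit 23596710787) (nat_lit 76) (nat_lit 43404076823) (nat_lit 23) (nat_lit 5) (nat_lit 26) (nat_lit 5) (nat_lit 24) (nat_lit 5) (nat_lit 305) (nat_lit 287) (nat_lit 128))) (XT.nd (nat_lit 78) (nat_lit 76) (nat_lit 0) (XT.lf (nat_lit 0) (nat_lit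 138362715622) (nat_lit 152) (nat_lit 203303297989) (nat_lit 228) (nat_lit 19358849818) (nat_lit 21) (nat_lit 5) (nat_lit 23) (nat_lit 5) (nat_lit 24) (nat_lit 5) (nat_lit 306) (nat_lit 287) (nat_lit 127)) (XT.lf (nat_lit 0) (nat_lit 31150800156) (nat_lit 228) (nat_lit 66685290608) (nat_lit 76) (nat_lit 282618232171) (nat_lit 20) (nat_lit 5) (nat_lit 23) (nat_lit 5) (nat_lit 21) (nat_lit 5) (nat_lit 307) (nat_lit 287) (nat_lit 126)))))) (XT.nd (nat_lit 468) (nat_lit 304) (nat_lit 0) (XT.nd (nat_lit 234) (nat_lit 76) (nat_lit 0) (XT.nd (nat_lit 78) (nat_lit 152) (nat_lit 0) (XT.lf (nat_lit 0) (nat_lit 87685078325) (nat_lit 228) (nat_lit 295059609960) (nat_lit 76) (nat_lit 18410846022) (nat_lit 18) (nat_lit 5) (nat_lit 21) (nat_lit 5) (nat_lit 19) (nat_lit 5) (nat_lit 308) (nat_lit 287) (nat_lit 125)) (XT.nd (nat_lit 78) (nat_lit 152) (nat_lit 0) (XT.lf (nat_lit 0) (nat_lit 153153874185)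 (nat_lit 228) (nat_lit 129463556635) (nat_lit 76) (nat_lit 140542469956) (nat_lit 18) (nat_lit 5) (nat_lit 21) (nat_lit 5) (nat_lit 19) (nat_lit 5) (nat_lit 309) (nat_lit 287) (nat_lit 124)) (XT.lf (nat_lit 0) (nat_lit 51980346380) (nat_lit 152) (nat_lit 173129887365) (nat_lit 228) (nat_lit 221714378219) (nat_lit 16) (nat_lit 5) (nat_lit 18) (nat_lit 5) (nat_lit 19) (nat_lit 5) (nat_lit 310) (nat_lit 287) (nat_lit 123)))) (XT.nd (nat_lit 78) (nat_lit 76) (nat_lit 0) (XT.lf (nat_lit 0) (nat_lit 255302369379) (nat_lit 152) (nat_lit 51060429896) (nat_lit 228) (nat_lit 165736525186) (nat_lit 16) (nat_lit 5) (nat_lit 18) (nat_lit 5) (nat_lit 19) (nat_lit 5) (nat_lit 311) (nat_lit 287) (nat_lit 122)) (XT.nd (nat_lit 78) (nat_lit 76) (nat_lit 0) (XT.lf (nat_lit 0) (nat_lit 396058139007) (nat_lit 228) (nat_lit 26448586813) (nat_lit 76) (nat_lit 76733882796) (nat_lit 16) (nat_lit 5) (nat_lit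 19) (nat_lit 5) (nat_lit 17) (nat_lit 4) (nat_lit 312) (nat_lit 287) (nat_lit 121)) (XT.lf (nat_lit 0) (nat_lit 187164018992) (nat_lit 76) (nat_lit 311592573856) (nat_lit 152) (nat_lit 29330403863) (nat_lit 15) (nat_lit 5) (nat_lit 16) (nat_lit 5) (nat_lit 17) (nat_lit 4) (nat_lit 313) (nat_lit 287) (nat_lit 120))))) (XT.nd (nat_lit 234) (nat_lit 76) (nat_lit 0) (XT.nd (nat_lit 78) (nat_lit 152) (nat_lit 0) (XT.lf (nat_lit 0) (nat_lit 48649000740) (nat_lit 152) (nat_lit 141045167732) (nat_lit 76) (nat_lit 369390550215) (nat_lit 14) (nat_lit 5) (nat_lit 16) (nat_lit 5) (nat_lit 15) (nat_lit 5) (nat_lit 314) (nat_lit 287) (nat_lit 119)) (XT.nd (nat_lit 78) (nat_lit 0) (nat_lit 0) (XT.lf (nat_lit 0) (nat_lit 77960873596) (nat_lit 152) (nat_lit 55196188967) (nat_lit 228) (nat_lit 459194257014) (nat_lit 12) (nat_lit 5) (nat_lit 14) (nat_lit 5) (nat_lit 15) (nat_lit 5) (nat_lit 315) (nat_lit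 287) (nat_lit 118)) (XT.lf (nat_lit 0) (nat_lit 230548294177) (nat_lit 228) (nat_lit 307728208604) (nat_lit 76) (nat_lit 89512943888) (nat_lit 12) (nat_lit 5) (nat_lit 15) (nat_lit 5) (nat_lit 13) (nat_lit 4) (nat_lit 316) (nat_lit 287) (nat_lit 117)))) (XT.nd (nat_lit 156) (nat_lit 0) (nat_lit 0) (XT.nd (nat_lit 78) (nat_lit 76) (nat_lit 0) (XT.lf (nat_lit 0) (nat_lit 337164444147) (nat_lit 228) (nat_lit 85966737937) (nat_lit 76) (nat_lit 242816752370) (nat_lit 12) (nat_lit 5) (nat_lit 15) (nat_lit 5) (nat_lit 13) (nat_lit 4) (nat_lit 317) (nat_lit 287) (nat_lit 116)) (XT.lf (nat_lit 0) (nat_lit 161620489175) (nat_lit 76) (nat_lit 294576329683) (nat_lit 152) (nat_lit 250651327886) (nat_lit 11) (nat_lit 5) (nat_lit 12) (nat_lit 5) (nat_lit 13) (nat_lit 4) (nat_lit 318) (nat_lit 287) (nat_lit 115))) (XT.nd (nat_lit 78) (nat_lit 0) (nat_lit 0) (XT.lf (nat_lit 0) (nat_lit 433903628213)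 (nat_lit 76) (nat_lit 153198595936) (nat_lit 152) (nat_lit 163730116714) (nat_lit 11) (nat_lit 5) (nat_lit 12) (nat_lit 5) (nat_lit 13) (nat_lit 4) (nat_lit 319) (nat_lit 287) (nat_lit 114)) (XT.lf (nat_lit 0) (nat_lit 727969352815) (nat_lit 76) (nat_lit 510669829) (nat_lit 152) (nat_lit 69855251095) (nat_lit 11) (nat_lit 5) (nat_lit 12) (nat_lit 5) (nat_lit 13) (nat_lit 4) (nat_lit 320) (nat_lit 287) (nat_lit 113))))))) (XT.nd (nat_lit 35100) (nat_lit 0) (nat_lit 1444) (XT.nd (nat_lit 468) (nat_lit 152) (nat_lit 0) (XT.nd (nat_lit 234) (nat_lit 76) (nat_lit 0) (XT.nd (nat_lit 78) (nat_lit 0) (nat_lit 0) (XT.lf (nat_lit 0) (nat_lit 38994844625) (nat_lit 152) (nat_lit 647843670793) (nat_lit 76) (nat_lit 162015864537) (nat_lit 9) (nat_lit 5) (nat_lit 11) (nat_lit 5) (nat_lit 10) (nat_lit 4) (nat_lit 321) (nat_lit 287) (nat_lit 112)) (XT.nd (nat_lit 78) (nat_lit 0) (nat_lit 0) (XT.lf (nat_lit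 0) (nat_lit 154766078687) (nat_lit 152) (nat_lit 407039580364) (nat_lit 76) (nat_lit 341305231626) (nat_lit 9) (nat_lit 5) (nat_lit 11) (nat_lit 5) (nat_lit 10) (nat_lit 4) (nat_lit 322) (nat_lit 287) (nat_lit 111)) (XT.lf (nat_lit 0) (nat_lit 279798977544) (nat_lit 152) (nat_lit 146971221501) (nat_lit 76) (nat_lit 534937725990) (nat_lit 9) (nat_lit 5) (nat_lit 11) (nat_lit 5) (nat_lit 10) (nat_lit 4) (nat_lit 323) (nat_lit 287) (nat_lit 110)))) (XT.nd (nat_lit 78) (nat_lit 0) (nat_lit 0) (XT.lf (nat_lit 0) (nat_lit 140953622698) (nat_lit 76) (nat_lit 277270792210) (nat_lit 152) (nat_lit 606497114765) (nat_lit 8) (nat_lit 5) (nat_lit 9) (nat_lit 5) (nat_lit 10) (nat_lit 4) (nat_lit 324) (nat_lit 287) (nat_lit 109)) (XT.nd (nat_lit 78) (nat_lit 0) (nat_lit 0) (XT.lf (nat_lit 0) (nat_lit 460270784962) (nat_lit 76) (nat_lit 111471525585) (nat_lit 152) (nat_lit 520712438329) (nat_lit 8)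 (nat_lit 5) (nat_lit 9) (nat_lit 5) (nat_lit 10) (nat_lit 4) (nat_lit 325) (nat_lit 287) (nat_lit 108)) (XT.lf (nat_lit 0) (nat_lit 739167190802) (nat_lit 152) (nat_lit 362098937926) (nat_lit 0) (nat_lit 64210452701) (nat_lit 8) (nat_lit 5) (nat_lit 10) (nat_lit 4) (nat_lit 8) (nat_lit 4) (nat_lit 326) (nat_lit 287) (nat_lit 107))))) (XT.nd (nat_lit 234) (nat_lit 76) (nat_lit 0) (XT.nd (nat_lit 78) (nat_lit 76) (nat_lit 0) (XT.lf (nat_lit 0) (nat_lit 922881399275) (nat_lit 152) (nat_lit 73302521317) (nat_lit 0) (nat_lit 247924613017) (nat_lit 8) (nat_lit 5) (nat_lit 10) (nat_lit 4) (nat_lit 8) (nat_lit 4) (nat_lit 327) (nat_lit 287) (nat_lit 106)) (XT.nd (nat_lit 78) (nat_lit 0) (nat_lit 0) (XT.lf (nat_lit 0) (nat_lit 251161689893) (nat_lit 76) (nat_lit 876171474677) (nat_lit 76) (nat_lit 201214643827) (nat_lit 7) (nat_lit 4) (nat_lit 8) (nat_lit 5) (nat_lit 8) (nat_lit 4) (nat_lit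 328) (nat_lit 287) (nat_lit 105)) (XT.lf (nat_lit 0) (nat_lit 605751774781) (nat_lit 76) (nat_lit 744393493398) (nat_lit 76) (nat_lit 69436621262) (nat_lit 7) (nat_lit 4) (nat_lit 8) (nat_lit 5) (nat_lit 8) (nat_lit 4) (nat_lit 329) (nat_lit 287) (nat_lit 104)))) (XT.nd (nat_lit 34242) (nat_lit 0) (nat_lit 2356) (XT.nd (nat_lit 78) (nat_lit 0) (nat_lit 0) (XT.lf (nat_lit 0) (nat_lit 69237685507) (nat_lit 152) (nat_lit 530942524510) (nat_lit 76) (nat_lit 917578260524) (nat_lit 6) (nat_lit 5) (nat_lit 8) (nat_lit 5) (nat_lit 7) (nat_lit 4) (nat_lit 330) (nat_lit 287) (nat_lit 103)) (XT.lf (nat_lit 0) (nat_lit 215254534802) (nat_lit 152) (nat_lit 227227513374) (nat_lit 76) (nat_lit 1181162847771) (nat_lit 6) (nat_lit 5) (nat_lit 8) (nat_lit 5) (nat_lit 7) (nat_lit 4) (nat_lit 331) (nat_lit 287) (nat_lit 102))) (XT.nd (nat_lit 78) (nat_lit 0) (nat_lit 0) (XT.lf (nat_lit 0) (nat_lit 35065708436)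 (nat_lit 532) (nat_lit 23672364329) (nat_lit 532) (nat_lit 23672364329) (nat_lit 37) (nat_lit 3) (nat_lit 44) (nat_lit 3) (nat_lit 44) (nat_lit 5) (nat_lit 288) (nat_lit 288) (nat_lit 144)) (XT.lf (nat_lit 76) (nat_lit 25461548186) (nat_lit 0) (nat_lit 48089635447) (nat_lit 532) (nat_lit 97813354407) (nat_lit 38) (nat_lit 5) (nat_lit 37) (nat_lit 3) (nat_lit 44) (nat_lit 5) (nat_lit 289) (nat_lit 288) (nat_lit 143)))))) (XT.nd (nat_lit 546) (nat_lit 684) (nat_lit 0) (XT.nd (nat_lit 234) (nat_lit 304) (nat_lit 0) (XT.nd (nat_lit 78) (nat_lit 0) (nat_lit 0) (XT.lf (nat_lit 0) (nat_lit 79218117038) (nat_lit 456) (nat_lit 72222729448) (nat_lit 532) (nat_lit 26832962719) (nat_lit 38) (nat_lit 5) (nat_lit 44) (nat_lit 5) (nat_lit 45) (nat_lit 5) (nat_lit 290) (nat_lit 288) (nat_lit 142)) (XT.nd (nat_lit 78) (nat_lit 0) (nat_lit 0) (XT.lf (nat_lit 76) (nat_lit 6424096145) (nat_lit 0) (nat_lit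 80317689433) (nat_lit 532) (nat_lit 98881767003) (nat_lit 39) (nat_lit 5) (nat_lit 38) (nat_lit 5) (nat_lit 45) (nat_lit 5) (nat_lit 291) (nat_lit 288) (nat_lit 141)) (XT.lf (nat_lit 76) (nat_lit 95469908273) (nat_lit 0) (nat_lit 1371947832) (nat_lit 532) (nat_lit 96561459526) (nat_lit 39) (nat_lit 5) (nat_lit 38) (nat_lit 5) (nat_lit 45) (nat_lit 5) (nat_lit 292) (nat_lit 288) (nat_lit 140)))) (XT.nd (nat_lit 156) (nat_lit 380) (nat_lit 0) (XT.nd (nat_lit 78) (nat_lit 0) (nat_lit 0) (XT.lf (nat_lit 0) (nat_lit 109767302032) (nat_lit 456) (nat_lit 12183754333) (nat_lit 532) (nat_lit 79693014599) (nat_lit 39) (nat_lit 5) (nat_lit 45) (nat_lit 5) (nat_lit 46) (nat_lit 5) (nat_lit 293) (nat_lit 288) (nat_lit 139)) (XT.lf (nat_lit 76) (nat_lit 84623310131) (nat_lit 0) (nat_lit 41174140406) (nat_lit 532) (nat_lit 84580983592) (nat_lit 40) (nat_lit 5) (nat_lit 39) (nat_lit 5) (nat_lit 46)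 (nat_lit 5) (nat_lit 294) (nat_lit 288) (nat_lit 138))) (XT.nd (nat_lit 78) (nat_lit 456) (nat_lit 0) (XT.lf (nat_lit 0) (nat_lit 144559500493) (nat_lit 456) (nat_lit 31033707734) (nat_lit 76) (nat_lit 44102379656) (nat_lit 40) (nat_lit 5) (nat_lit 46) (nat_lit 5) (nat_lit 41) (nat_lit 5) (nat_lit 295) (nat_lit 288) (nat_lit 137)) (XT.lf (nat_lit 0) (nat_lit 73892225325) (nat_lit 456) (nat_lit 93776717183) (nat_lit 532) (nat_lit 61861457836) (nat_lit 34) (nat_lit 5) (nat_lit 40) (nat_lit 5) (nat_lit 41) (nat_lit 5) (nat_lit 296) (nat_lit 288) (nat_lit 136))))) (XT.nd (nat_lit 234) (nat_lit 456) (nat_lit 0) (XT.nd (nat_lit 78) (nat_lit 228) (nat_lit 0) (XT.lf (nat_lit 0) (nat_lit 188977024006) (nat_lit 456) (nat_lit 4498499913) (nat_lit 532) (nat_lit 46608603761) (nat_lit 34) (nat_lit 5) (nat_lit 40) (nat_lit 5) (nat_lit 41) (nat_lit 5) (nat_lit 297) (nat_lit 288) (nat_lit 135)) (XT.nd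 (nat_lit 78) (nat_lit 0) (nat_lit 0) (XT.lf (nat_lit 0) (nat_lit 62712748426) (nat_lit 228) (nat_lit 162352729717) (nat_lit 304) (nat_lit 26119167914) (nat_lit 31) (nat_lit 5) (nat_lit 34) (nat_lit 5) (nat_lit 35) (nat_lit 5) (nat_lit 298) (nat_lit 288) (nat_lit 134)) (XT.lf (nat_lit 0) (nat_lit 188421576260) (nat_lit 228) (nat_lit 72272180937) (nat_lit 304) (nat_lit 2358558944) (nat_lit 31) (nat_lit 5) (nat_lit 34) (nat_lit 5) (nat_lit 35) (nat_lit 5) (nat_lit 299) (nat_lit 288) (nat_lit 133)))) (XT.nd (nat_lit 156) (nat_lit 228) (nat_lit 0) (XT.nd (nat_lit 78) (nat_lit 0) (nat_lit 0) (XT.lf (nat_lit 0) (nat_lit 23993691380) (nat_lit 228) (nat_lit 226103454649) (nat_lit 76) (nat_lit 25578899583) (nat_lit 28) (nat_lit 5) (nat_lit 31) (nat_lit 5) (nat_lit 29) (nat_lit 5) (nat_lit 300) (nat_lit 288) (nat_lit 132)) (XT.lf (nat_lit 0) (nat_lit 56297329613) (nat_lit 228) (nat_lit 103181512260)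 (nat_lit 76) (nat_lit 129508280568) (nat_lit 28) (nat_lit 5) (nat_lit 31) (nat_lit 5) (nat_lit 29) (nat_lit 5) (nat_lit 301) (nat_lit 288) (nat_lit 131))) (XT.nd (nat_lit 78) (nat_lit 0) (nat_lit 0) (XT.lf (nat_lit 0) (nat_lit 31131388265) (nat_lit 228) (nat_lit 60802483296) (nat_lit 304) (nat_lit 211369325222) (nat_lit 25) (nat_lit 5) (nat_lit 28) (nat_lit 5) (nat_lit 29) (nat_lit 5) (nat_lit 302) (nat_lit 288) (nat_lit 130)) (XT.lf (nat_lit 0) (nat_lit 134416406521) (nat_lit 304) (nat_lit 137655636942) (nat_lit 76) (nat_lit 46372908389) (nat_lit 25) (nat_lit 5) (nat_lit 29) (nat_lit 5) (nat_lit 26) (nat_lit 5) (nat_lit 303) (nat_lit 288) (nat_lit 129))))))))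
noncomputable def xc118 : XT := (XT.nd (nat_lit 2028) (nat_lit 0) (nat_lit 0) (XT.nd (nat_lit 1014) (nat_lit 380) (nat_lit 0) (XT.nd (nat_lit 468) (nat_lit 456) (nat_lit 0) (XT.nd (nat_lit 234) (nat_lit 380) (nat_lit 0) (XT.nd (nat_lit 78) (nat_lit 0) (nat_lit 0) (XT.lf (nat_lit 0) (nat_lit 6360615898) (nat_lit 152) (nat_lit 175669099695) (nat_lit 228) (nat_lit 152629758353) (nat_lit 23) (nat_lit 5) (nat_lit 25) (nat_lit 5) (nat_lit 26) (nat_lit 5) (nat_lit 304) (nat_lit 288) (nat_lit 128)) (XT.nd (nat_lit 78) (nat_lit 0) (nat_lit 0) (XT.lf (nat_lit 0) (nat_lit 169726658872) (nat_lit 152) (nat_lit 67489096489) (nat_lit 228) (nat_lit 114654309470) (nat_lit 23) (nat_lit 5) (nat_lit 25) (nat_lit 5) (nat_lit 26) (nat_lit 5) (nat_lit 305) (nat_lit 288) (nat_lit 127)) (XT.lf (nat_lit 0) (nat_lit 298003356638) (nat_lit 228) (nat_lit 25482379528) (nat_lit 76) (nat_lit 46876832835) (nat_lit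 23) (nat_lit 5) (nat_lit 26) (nat_lit 5) (nat_lit 24) (nat_lit 5) (nat_lit 306) (nat_lit 288) (nat_lit 126)))) (XT.nd (nat_lit 78) (nat_lit 228) (nat_lit 0) (XT.lf (nat_lit 0) (nat_lit 149433748637) (nat_lit 152) (nat_lit 219566994420) (nat_lit 228) (nat_lit 20905988542) (nat_lit 21) (nat_lit 5) (nat_lit 23) (nat_lit 5) (nat_lit 24) (nat_lit 5) (nat_lit 307) (nat_lit 288) (nat_lit 125)) (XT.nd (nat_lit 78) (nat_lit 152) (nat_lit 0) (XT.lf (nat_lit 0) (nat_lit 33644244503) (nat_lit 228) (nat_lit 72018170404) (nat_lit 76) (nat_lit 305228139119) (nat_lit 20) (nat_lit 5) (nat_lit 23) (nat_lit 5) (nat_lit 21) (nat_lit 5) (nat_lit 308) (nat_lit 288) (nat_lit 124)) (XT.lf (nat_lit 0) (nat_lit 94701221958) (nat_lit 228) (nat_lit 318662388339) (nat_lit 76) (nat_lit 19884255768) (nat_lit 18) (nat_lit 5) (nat_lit 21) (nat_lit 5) (nat_lit 19) (nat_lit 5) (nat_lit 309) (nat_lit 288) (nat_lit 123)))))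 (XT.nd (nat_lit 234) (nat_lit 304) (nat_lit 0) (XT.nd (nat_lit 78) (nat_lit 152) (nat_lit 0) (XT.lf (nat_lit 0) (nat_lit 165407422423) (nat_lit 228) (nat_lit 139818798186) (nat_lit 76) (nat_lit 151786369463) (nat_lit 18) (nat_lit 5) (nat_lit 21) (nat_lit 5) (nat_lit 19) (nat_lit 5) (nat_lit 310) (nat_lit 288) (nat_lit 122)) (XT.nd (nat_lit 78) (nat_lit 0) (nat_lit 0) (XT.lf (nat_lit 0) (nat_lit 56140570413) (nat_lit 152) (nat_lit 186979671810) (nat_lit 228) (nat_lit 239450240088) (nat_lit 16) (nat_lit 5) (nat_lit 18) (nat_lit 5) (nat_lit 19) (nat_lit 5) (nat_lit 311) (nat_lit 288) (nat_lit 121)) (XT.lf (nat_lit 0) (nat_lit 275728222190) (nat_lit 152) (nat_lit 55144702673) (nat_lit 228) (nat_lit 178994254249) (nat_lit 16) (nat_lit 5) (nat_lit 18) (nat_lit 5) (nat_lit 19) (nat_lit 5) (nat_lit 312) (nat_lit 288) (nat_lit 120)))) (XT.nd (nat_lit 156) (nat_lit 228) (nat_lit 0) (XT.nd (nat_lit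 78) (nat_lit 76) (nat_lit 0) (XT.lf (nat_lit 0) (nat_lit 427743822677) (nat_lit 228) (nat_lit 28562861666) (nat_lit 76) (nat_lit 82873087420) (nat_lit 16) (nat_lit 5) (nat_lit 19) (nat_lit 5) (nat_lit 17) (nat_lit 4) (nat_lit 313) (nat_lit 288) (nat_lit 119)) (XT.lf (nat_lit 0) (nat_lit 202138711792) (nat_lit 76) (nat_lit 336519402338) (nat_lit 152) (nat_lit 31675760089) (nat_lit 15) (nat_lit 5) (nat_lit 16) (nat_lit 5) (nat_lit 17) (nat_lit 4) (nat_lit 314) (nat_lit 288) (nat_lit 118))) (XT.nd (nat_lit 78) (nat_lit 152) (nat_lit 0) (XT.lf (nat_lit 0) (nat_lit 52541867330) (nat_lit 152) (nat_lit 152327274086) (nat_lit 76) (nat_lit 398942276711) (nat_lit 14) (nat_lit 5) (nat_lit 16) (nat_lit 5) (nat_lit 15) (nat_lit 5) (nat_lit 315) (nat_lit 288) (nat_lit 117)) (XT.lf (nat_lit 0) (nat_lit 84199212395) (nat_lit 152) (nat_lit 59611326917) (nat_lit 228) (nat_lit 495928810731) (nat_lit 12)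 (nat_lit 5) (nat_lit 14) (nat_lit 5) (nat_lit 15) (nat_lit 5) (nat_lit 316) (nat_lit 288) (nat_lit 116)))))) (XT.nd (nat_lit 468) (nat_lit 152) (nat_lit 0) (XT.nd (nat_lit 234) (nat_lit 152) (nat_lit 0) (XT.nd (nat_lit 78) (nat_lit 76) (nat_lit 0) (XT.lf (nat_lit 0) (nat_lit 248993014327) (nat_lit 228) (nat_lit 332345048060) (nat_lit 76) (nat_lit 96674469487) (nat_lit 12) (nat_lit 5) (nat_lit 15) (nat_lit 5) (nat_lit 13) (nat_lit 4) (nat_lit 317) (nat_lit 288) (nat_lit 115)) (XT.nd (nat_lit 78) (nat_lit 76) (nat_lit 0) (XT.lf (nat_lit 0) (nat_lit 364138392841) (nat_lit 228) (nat_lit 92842764720) (nat_lit 76) (nat_lit 262242546344) (nat_lit 12) (nat_lit 5) (nat_lit 15) (nat_lit 5) (nat_lit 13) (nat_lit 4) (nat_lit 318) (nat_lit 288) (nat_lit 114)) (XT.lf (nat_lit 0) (nat_lit 174551407340) (nat_lit 76) (nat_lit 318141922197) (nat_lit 152) (nat_lit 270702606018) (nat_lit 11) (nat_lit 5)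 (nat_lit 12) (nat_lit 5) (nat_lit 13) (nat_lit 4) (nat_lit 319) (nat_lit 288) (nat_lit 113)))) (XT.nd (nat_lit 78) (nat_lit 152) (nat_lit 0) (XT.lf (nat_lit 0) (nat_lit 468617102758) (nat_lit 76) (nat_lit 165454007815) (nat_lit 152) (nat_lit 176827759294) (nat_lit 11) (nat_lit 5) (nat_lit 12) (nat_lit 5) (nat_lit 13) (nat_lit 4) (nat_lit 320) (nat_lit 288) (nat_lit 112)) (XT.nd (nat_lit 78) (nat_lit 152) (nat_lit 0) (XT.lf (nat_lit 0) (nat_lit 786207997603) (nat_lit 76) (nat_lit 551082863) (nat_lit 152) (nat_lit 75442961221) (nat_lit 11) (nat_lit 5) (nat_lit 12) (nat_lit 5) (nat_lit 13) (nat_lit 4) (nat_lit 321) (nat_lit 288) (nat_lit 111)) (XT.lf (nat_lit 0) (nat_lit 42115094163) (nat_lit 152) (nat_lit 699670017278) (nat_lit 76) (nat_lit 174977564693) (nat_lit 9) (nat_lit 5) (nat_lit 11) (nat_lit 5) (nat_lit 10) (nat_lit 4) (nat_lit 322) (nat_lit 288) (nat_lit 110))))) (XT.nd (nat_lit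 234) (nat_lit 76) (nat_lit 0) (XT.nd (nat_lit 78) (nat_lit 76) (nat_lit 0) (XT.lf (nat_lit 0) (nat_lit 167147977915) (nat_lit 152) (nat_lit 439601684591) (nat_lit 76) (nat_lit 368610049223) (nat_lit 9) (nat_lit 5) (nat_lit 11) (nat_lit 5) (nat_lit 10) (nat_lit 4) (nat_lit 323) (nat_lit 288) (nat_lit 109)) (XT.nd (nat_lit 78) (nat_lit 76) (nat_lit 0) (XT.lf (nat_lit 0) (nat_lit 302183463278) (nat_lit 152) (nat_lit 158727935700) (nat_lit 76) (nat_lit 577733113576) (nat_lit 9) (nat_lit 5) (nat_lit 11) (nat_lit 5) (nat_lit 10) (nat_lit 4) (nat_lit 324) (nat_lit 288) (nat_lit 108)) (XT.lf (nat_lit 0) (nat_lit 152230871135) (nat_lit 76) (nat_lit 299452045512) (nat_lit 152) (nat_lit 655016290516) (nat_lit 8) (nat_lit 5) (nat_lit 9) (nat_lit 5) (nat_lit 10) (nat_lit 4) (nat_lit 325) (nat_lit 288) (nat_lit 107)))) (XT.nd (nat_lit 156) (nat_lit 76) (nat_lit 0) (XT.nd (nat_lit 78) (nat_lit 0)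 (nat_lit 0) (XT.lf (nat_lit 0) (nat_lit 497093335371) (nat_lit 76) (nat_lit 120388867933) (nat_lit 152) (nat_lit 562368883923) (nat_lit 8) (nat_lit 5) (nat_lit 9) (nat_lit 5) (nat_lit 10) (nat_lit 4) (nat_lit 326) (nat_lit 288) (nat_lit 106)) (XT.lf (nat_lit 0) (nat_lit 798301044811) (nat_lit 152) (nat_lit 391066001071) (nat_lit 0) (nat_lit 69347622903) (nat_lit 8) (nat_lit 5) (nat_lit 10) (nat_lit 4) (nat_lit 8) (nat_lit 4) (nat_lit 327) (nat_lit 288) (nat_lit 105))) (XT.nd (nat_lit 78) (nat_lit 76) (nat_lit 0) (XT.lf (nat_lit 0) (nat_lit 996712354500) (nat_lit 152) (nat_lit 79165934237) (nat_lit 0) (nat_lit 267758891305) (nat_lit 8) (nat_lit 5) (nat_lit 10) (nat_lit 4) (nat_lit 8) (nat_lit 4) (nat_lit 328) (nat_lit 288) (nat_lit 104)) (XT.lf (nat_lit 0) (nat_lit 271255393901) (nat_lit 76) (nat_lit 946264852771) (nat_lit 76) (nat_lit 217311351346) (nat_lit 7) (nat_lit 4) (nat_lit 8)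 (nat_lit 5) (nat_lit 8) (nat_lit 4) (nat_lit 329) (nat_lit 288) (nat_lit 103))))))) (XT.nd (nat_lit 35256) (nat_lit 0) (nat_lit 684) (XT.nd (nat_lit 34710) (nat_lit 0) (nat_lit 1824) (XT.nd (nat_lit 34476) (nat_lit 0) (nat_lit 2356) (XT.nd (nat_lit 34320) (nat_lit 0) (nat_lit 2280) (XT.lf (nat_lit 0) (nat_lit 654212628631) (nat_lit 76) (nat_lit 803944658167) (nat_lit 76) (nat_lit 74991121345) (nat_lit 7) (nat_lit 4) (nat_lit 8) (nat_lit 5) (nat_lit 8) (nat_lit 4) (nat_lit 330) (nat_lit 288) (nat_lit 102)) (XT.nd (nat_lit 78) (nat_lit 0) (nat_lit 0) (XT.lf (nat_lit 0) (nat_lit 37873072421) (nat_lit 532) (nat_lit 25565010496) (nat_lit 532) (nat_lit 25565010496) (nat_lit 37) (nat_lit 3) (nat_lit 44) (nat_lit 3) (nat_lit 44) (nat_lit 5) (nat_lit 289) (nat_lit 289) (nat_lit 142)) (XT.lf (nat_lit 76) (nat_lit 27500700128) (nat_lit 0) (nat_lit 51938534209) (nat_lit 532) (nat_lit 105634131629)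 (nat_lit 38) (nat_lit 5) (nat_lit 37) (nat_lit 3) (nat_lit 44) (nat_lit 5) (nat_lit 290) (nat_lit 289) (nat_lit 141)))) (XT.nd (nat_lit 78) (nat_lit 0) (nat_lit 0) (XT.lf (nat_lit 0) (nat_lit 85559190897) (nat_lit 456) (nat_lit 77998135988) (nat_lit 532) (nat_lit 28978079840) (nat_lit 38) (nat_lit 5) (nat_lit 44) (nat_lit 5) (nat_lit 45) (nat_lit 5) (nat_lit 291) (nat_lit 289) (nat_lit 140)) (XT.nd (nat_lit 78) (nat_lit 0) (nat_lit 0) (XT.lf (nat_lit 76) (nat_lit 6940374593) (nat_lit 0) (nat_lit 86744166382) (nat_lit 532) (nat_lit 106788606830) (nat_lit 39) (nat_lit 5) (nat_lit 38) (nat_lit 5) (nat_lit 45) (nat_lit 5) (nat_lit 292) (nat_lit 289) (nat_lit 139)) (XT.lf (nat_lit 76) (nat_lit 103109677561) (nat_lit 0) (nat_lit 1482686802) (nat_lit 532) (nat_lit 104282948943) (nat_lit 39) (nat_lit 5) (nat_lit 38) (nat_lit 5) (nat_lit 45) (nat_lit 5) (nat_lit 293) (nat_lit 289) (nat_lit 138)))))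 (XT.nd (nat_lit 234) (nat_lit 608) (nat_lit 0) (XT.nd (nat_lit 78) (nat_lit 0) (nat_lit 0) (XT.lf (nat_lit 0) (nat_lit 118551590014) (nat_lit 456) (nat_lit 13156169636) (nat_lit 532) (nat_lit 86067590987) (nat_lit 39) (nat_lit 5) (nat_lit 45) (nat_lit 5) (nat_lit 46) (nat_lit 5) (nat_lit 294) (nat_lit 289) (nat_lit 137)) (XT.nd (nat_lit 78) (nat_lit 0) (nat_lit 76) (XT.lf (nat_lit 76) (nat_lit 91395402136) (nat_lit 0) (nat_lit 44468586730) (nat_lit 532) (nat_lit 91344487927) (nat_lit 40) (nat_lit 5) (nat_lit 39) (nat_lit 5) (nat_lit 46) (nat_lit 5) (nat_lit 295) (nat_lit 289) (nat_lit 136)) (XT.lf (nat_lit 0) (nat_lit 156126788216) (nat_lit 456) (nat_lit 33514115790) (nat_lit 76) (nat_lit 47630116950) (nat_lit 40) (nat_lit 5) (nat_lit 46) (nat_lit 5) (nat_lit 41) (nat_lit 5) (nat_lit 296) (nat_lit 289) (nat_lit 135)))) (XT.nd (nat_lit 156) (nat_lit 228) (nat_lit 0) (XT.nd (nat_lit 78)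 (nat_lit 0) (nat_lit 0) (XT.lf (nat_lit 0) (nat_lit 79805833976) (nat_lit 456) (nat_lit 101279018027) (nat_lit 532) (nat_lit 66807777968) (nat_lit 34) (nat_lit 5) (nat_lit 40) (nat_lit 5) (nat_lit 41) (nat_lit 5) (nat_lit 297) (nat_lit 289) (nat_lit 134)) (XT.lf (nat_lit 0) (nat_lit 204097251320) (nat_lit 456) (nat_lit 4858531267) (nat_lit 532) (nat_lit 50334887900) (nat_lit 34) (nat_lit 5) (nat_lit 40) (nat_lit 5) (nat_lit 41) (nat_lit 5) (nat_lit 298) (nat_lit 289) (nat_lit 133))) (XT.nd (nat_lit 78) (nat_lit 0) (nat_lit 0) (XT.lf (nat_lit 0) (nat_lit 67731967618) (nat_lit 228) (nat_lit 175340850850) (nat_lit 304) (nat_lit 28206421786) (nat_lit 31) (nat_lit 5) (nat_lit 34) (nat_lit 5) (nat_lit 35) (nat_lit 5) (nat_lit 299) (nat_lit 289) (nat_lit 132)) (XT.lf (nat_lit 0) (nat_lit 203497338766) (nat_lit 228) (nat_lit 78053865371) (nat_lit 304) (nat_lit 2545132955) (nat_lit 31) (nat_lit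 5) (nat_lit 34) (nat_lit 5) (nat_lit 35) (nat_lit 5) (nat_lit 300) (nat_lit 289) (nat_lit 131)))))) (XT.nd (nat_lit 546) (nat_lit 532) (nat_lit 0) (XT.nd (nat_lit 234) (nat_lit 152) (nat_lit 0) (XT.nd (nat_lit 78) (nat_lit 228) (nat_lit 0) (XT.lf (nat_lit 0) (nat_lit 25915098215) (nat_lit 228) (nat_lit 244189480042) (nat_lit 76) (nat_lit 27625390680) (nat_lit 28) (nat_lit 5) (nat_lit 31) (nat_lit 5) (nat_lit 29) (nat_lit 5) (nat_lit 301) (nat_lit 289) (nat_lit 130)) (XT.nd (nat_lit 78) (nat_lit 228) (nat_lit 0) (XT.lf (nat_lit 0) (nat_lit 60802885912) (nat_lit 228) (nat_lit 111433949002) (nat_lit 76) (nat_lit 139869108876) (nat_lit 28) (nat_lit 5) (nat_lit 31) (nat_lit 5) (nat_lit 29) (nat_lit 5) (nat_lit 302) (nat_lit 289) (nat_lit 129)) (XT.lf (nat_lit 0) (nat_lit 33623930800) (nat_lit 228) (nat_lit 65666338168) (nat_lit 304) (nat_lit 228277042199) (nat_lit 25) (nat_lit 5) (nat_lit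 28) (nat_lit 5) (nat_lit 29) (nat_lit 5) (nat_lit 303) (nat_lit 289) (nat_lit 128)))) (XT.nd (nat_lit 156) (nat_lit 0) (nat_lit 0) (XT.nd (nat_lit 78) (nat_lit 152) (nat_lit 0) (XT.lf (nat_lit 0) (nat_lit 145171289366) (nat_lit 304) (nat_lit 148666083671) (nat_lit 76) (nat_lit 50083043462) (nat_lit 25) (nat_lit 5) (nat_lit 29) (nat_lit 5) (nat_lit 26) (nat_lit 5) (nat_lit 304) (nat_lit 289) (nat_lit 127)) (XT.lf (nat_lit 0) (nat_lit 6871418656) (nat_lit 152) (nat_lit 189722175169) (nat_lit 228) (nat_lit 164838512519) (nat_lit 23) (nat_lit 5) (nat_lit 25) (nat_lit 5) (nat_lit 26) (nat_lit 5) (nat_lit 305) (nat_lit 289) (nat_lit 126))) (XT.nd (nat_lit 78) (nat_lit 0) (nat_lit 0) (XT.lf (nat_lit 0) (nat_lit 183306600366) (nat_lit 152) (nat_lit 72887805225) (nat_lit 228) (nat_lit 123825148206) (nat_lit 23) (nat_lit 5) (nat_lit 25) (nat_lit 5) (nat_lit 26) (nat_lit 5) (nat_lit 306) (nat_lit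 289) (nat_lit 125)) (XT.lf (nat_lit 0) (nat_lit 321844921352) (nat_lit 228) (nat_lit 27519196809) (nat_lit 76) (nat_lit 50627348002) (nat_lit 23) (nat_lit 5) (nat_lit 26) (nat_lit 5) (nat_lit 24) (nat_lit 5) (nat_lit 307) (nat_lit 289) (nat_lit 124))))) (XT.nd (nat_lit 234) (nat_lit 152) (nat_lit 0) (XT.nd (nat_lit 78) (nat_lit 228) (nat_lit 0) (XT.lf (nat_lit 0) (nat_lit 161390176721) (nat_lit 152) (nat_lit 237131867512) (nat_lit 228) (nat_lit 22577122236) (nat_lit 21) (nat_lit 5) (nat_lit 23) (nat_lit 5) (nat_lit 24) (nat_lit 5) (nat_lit 308) (nat_lit 289) (nat_lit 123)) (XT.nd (nat_lit 78) (nat_lit 152) (nat_lit 0) (XT.lf (nat_lit 0) (nat_lit 36336967477) (nat_lit 228) (nat_lit 77777957838) (nat_lit 76) (nat_lit 329646774657) (nat_lit 20) (nat_lit 5) (nat_lit 23) (nat_lit 5) (nat_lit 21) (nat_lit 5) (nat_lit 309) (nat_lit 289) (nat_lit 122)) (XT.lf (nat_lit 0) (nat_lit 102278466292)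 (nat_lit 228) (nat_lit 344153672943) (nat_lit 76) (nat_lit 21475460961) (nat_lit 18) (nat_lit 5) (nat_lit 21) (nat_lit 5) (nat_lit 19) (nat_lit 5) (nat_lit 310) (nat_lit 289) (nat_lit 121)))) (XT.nd (nat_lit 156) (nat_lit 0) (nat_lit 0) (XT.nd (nat_lit 78) (nat_lit 152) (nat_lit 0) (XT.lf (nat_lit 0) (nat_lit 178641077862) (nat_lit 228) (nat_lit 151002721983) (nat_lit 76) (nat_lit 163929709328) (nat_lit 18) (nat_lit 5) (nat_lit 21) (nat_lit 5) (nat_lit 19) (nat_lit 5) (nat_lit 311) (nat_lit 289) (nat_lit 120)) (XT.lf (nat_lit 0) (nat_lit 60633356103) (nat_lit 152) (nat_lit 201937525541) (nat_lit 228) (nat_lit 258605154710) (nat_lit 16) (nat_lit 5) (nat_lit 18) (nat_lit 5) (nat_lit 19) (nat_lit 5) (nat_lit 312) (nat_lit 289) (nat_lit 119))) (XT.nd (nat_lit 78) (nat_lit 0) (nat_lit 0) (XT.lf (nat_lit 0) (nat_lit 297787905944) (nat_lit 152) (nat_lit 59555797393) (nat_lit 228) (nat_lit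 193312771825) (nat_lit 16) (nat_lit 5) (nat_lit 18) (nat_lit 5) (nat_lit 19) (nat_lit 5) (nat_lit 313) (nat_lit 289) (nat_lit 118)) (XT.lf (nat_lit 0) (nat_lit 461964213736) (nat_lit 228) (nat_lit 30846508489) (nat_lit 76) (nat_lit 89503357939) (nat_lit 16) (nat_lit 5) (nat_lit 19) (nat_lit 5) (nat_lit 17) (nat_lit 4) (nat_lit 314) (nat_lit 289) (nat_lit 117))))))))
noncomputable def xc119 : XT := (XT.nd (nat_lit 36504) (nat_lit 0) (nat_lit 76) (XT.nd (nat_lit 1014) (nat_lit 76) (nat_lit 0) (XT.nd (nat_lit 468) (nat_lit 228) (nat_lit 0) (XT.nd (nat_lit 234) (nat_lit 76) (nat_lit 0) (XT.nd (nat_lit 78) (nat_lit 228) (nat_lit 0) (XT.lf (nat_lit 0) (nat_lit 218311155855) (nat_lit 76) (nat_lit 363440459475) (nat_lit 152) (nat_lit 34208898329) (nat_lit 15) (nat_lit 5) (nat_lit 16) (nat_lit 5) (nat_lit 17) (nat_lit 4) (nat_lit 315) (nat_lit 289) (nat_lit 116)) (XT.nd (nat_lit 78) (nat_lit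 152) (nat_lit 0) (XT.lf (nat_lit 0) (nat_lit 56746028214) (nat_lit 152) (nat_lit 164512163948) (nat_lit 76) (nat_lit 430858072496) (nat_lit 14) (nat_lit 5) (nat_lit 16) (nat_lit 5) (nat_lit 15) (nat_lit 5) (nat_lit 316) (nat_lit 289) (nat_lit 115)) (XT.lf (nat_lit 0) (nat_lit 90936408741) (nat_lit 152) (nat_lit 64379755390) (nat_lit 228) (nat_lit 535602269530) (nat_lit 12) (nat_lit 5) (nat_lit 14) (nat_lit 5) (nat_lit 15) (nat_lit 5) (nat_lit 317) (nat_lit 289) (nat_lit 114)))) (XT.nd (nat_lit 78) (nat_lit 76) (nat_lit 0) (XT.lf (nat_lit 0) (nat_lit 268913189882) (nat_lit 228) (nat_lit 358931436857) (nat_lit 76) (nat_lit 104408847217) (nat_lit 12) (nat_lit 5) (nat_lit 15) (nat_lit 5) (nat_lit 13) (nat_lit 4) (nat_lit 318) (nat_lit 289) (nat_lit 113)) (XT.nd (nat_lit 78) (nat_lit 76) (nat_lit 0) (XT.lf (nat_lit 0) (nat_lit 393270144277) (nat_lit 228) (nat_lit 100269060853) (nat_lit 76)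 (nat_lit 283222339100) (nat_lit 12) (nat_lit 5) (nat_lit 15) (nat_lit 5) (nat_lit 13) (nat_lit 4) (nat_lit 319) (nat_lit 289) (nat_lit 112)) (XT.lf (nat_lit 0) (nat_lit 188516616490) (nat_lit 76) (nat_lit 343592835420) (nat_lit 152) (nat_lit 292358104539) (nat_lit 11) (nat_lit 5) (nat_lit 12) (nat_lit 5) (nat_lit 13) (nat_lit 4) (nat_lit 320) (nat_lit 289) (nat_lit 111))))) (XT.nd (nat_lit 234) (nat_lit 76) (nat_lit 0) (XT.nd (nat_lit 78) (nat_lit 152) (nat_lit 0) (XT.lf (nat_lit 0) (nat_lit 506107486314) (nat_lit 76) (nat_lit 178689920521) (nat_lit 152) (nat_lit 190973322666) (nat_lit 11) (nat_lit 5) (nat_lit 12) (nat_lit 5) (nat_lit 13) (nat_lit 4) (nat_lit 321) (nat_lit 289) (nat_lit 110)) (XT.nd (nat_lit 78) (nat_lit 152) (nat_lit 0) (XT.lf (nat_lit 0) (nat_lit 849105577537) (nat_lit 76) (nat_lit 594791790) (nat_lit 152) (nat_lit 81477789442) (nat_lit 11) (nat_lit 5) (nat_lit 12)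 (nat_lit 5) (nat_lit 13) (nat_lit 4) (nat_lit 322) (nat_lit 289) (nat_lit 109)) (XT.lf (nat_lit 0) (nat_lit 45484869226) (nat_lit 152) (nat_lit 755642635140) (nat_lit 76) (nat_lit 188976139376) (nat_lit 9) (nat_lit 5) (nat_lit 11) (nat_lit 5) (nat_lit 10) (nat_lit 4) (nat_lit 323) (nat_lit 289) (nat_lit 108)))) (XT.nd (nat_lit 156) (nat_lit 76) (nat_lit 0) (XT.nd (nat_lit 78) (nat_lit 0) (nat_lit 0) (XT.lf (nat_lit 0) (nat_lit 180520341640) (nat_lit 152) (nat_lit 474768908691) (nat_lit 76) (nat_lit 398099195297) (nat_lit 9) (nat_lit 5) (nat_lit 11) (nat_lit 5) (nat_lit 10) (nat_lit 4) (nat_lit 324) (nat_lit 289) (nat_lit 107)) (XT.lf (nat_lit 0) (nat_lit 326358626906) (nat_lit 152) (nat_lit 171425327346) (nat_lit 76) (nat_lit 623952079455) (nat_lit 9) (nat_lit 5) (nat_lit 11) (nat_lit 5) (nat_lit 10) (nat_lit 4) (nat_lit 325) (nat_lit 289) (nat_lit 106))) (XT.nd (nat_lit 78) (nat_lit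 0) (nat_lit 0) (XT.lf (nat_lit 0) (nat_lit 164410162689) (nat_lit 76) (nat_lit 323407857579) (nat_lit 152) (nat_lit 707417084987) (nat_lit 8) (nat_lit 5) (nat_lit 9) (nat_lit 5) (nat_lit 10) (nat_lit 4) (nat_lit 326) (nat_lit 289) (nat_lit 105)) (XT.lf (nat_lit 0) (nat_lit 536861563185) (nat_lit 76) (nat_lit 130019651837) (nat_lit 152) (nat_lit 607357923553) (nat_lit 8) (nat_lit 5) (nat_lit 9) (nat_lit 5) (nat_lit 10) (nat_lit 4) (nat_lit 327) (nat_lit 289) (nat_lit 104)))))) (XT.nd (nat_lit 34944) (nat_lit 0) (nat_lit 1824) (XT.nd (nat_lit 34632) (nat_lit 0) (nat_lit 2280) (XT.nd (nat_lit 156) (nat_lit 76) (nat_lit 0) (XT.lf (nat_lit 0) (nat_lit 862165538843) (nat_lit 152) (nat_lit 422350550800) (nat_lit 0) (nat_lit 74895719075) (nat_lit 8) (nat_lit 5) (nat_lit 10) (nat_lit 4) (nat_lit 8) (nat_lit 4) (nat_lit 328) (nat_lit 289) (nat_lit 103)) (XT.nd (nat_lit 34398) (nat_lit 0) (nat_lit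 2280) (XT.lf (nat_lit 0) (nat_lit 292956484550) (nat_lit 76) (nat_lit 1021965749600) (nat_lit 76) (nat_lit 234695861660) (nat_lit 7) (nat_lit 4) (nat_lit 8) (nat_lit 5) (nat_lit 8) (nat_lit 4) (nat_lit 330) (nat_lit 289) (nat_lit 101)) (XT.lf (nat_lit 0) (nat_lit 40904724895) (nat_lit 532) (nat_lit 27609231415) (nat_lit 532) (nat_lit 27609231415) (nat_lit 37) (nat_lit 3) (nat_lit 44) (nat_lit 3) (nat_lit 44) (nat_lit 5) (nat_lit 290) (nat_lit 290) (nat_lit 140)))) (XT.nd (nat_lit 156) (nat_lit 0) (nat_lit 76) (XT.nd (nat_lit 78) (nat_lit 0) (nat_lit 76) (XT.lf (nat_lit 76) (nat_lit 29702666364) (nat_lit 0) (nat_lit 56095098364) (nat_lit 532) (nat_lit 114081183207) (nat_lit 38) (nat_lit 5) (nat_lit 37) (nat_lit 3) (nat_lit 44) (nat_lit 5) (nat_lit 291) (nat_lit 290) (nat_lit 139)) (XT.lf (nat_lit 0) (nat_lit 92407033591) (nat_lit 456) (nat_lit 84235919125) (nat_lit 532) (nat_lit 31295023161)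 (nat_lit 38) (nat_lit 5) (nat_lit 44) (nat_lit 5) (nat_lit 45) (nat_lit 5) (nat_lit 292) (nat_lit 290) (nat_lit 138))) (XT.nd (nat_lit 78) (nat_lit 0) (nat_lit 0) (XT.lf (nat_lit 76) (nat_lit 7497619955) (nat_lit 0) (nat_lit 93684610011) (nat_lit 532) (nat_lit 115328521909) (nat_lit 39) (nat_lit 5) (nat_lit 38) (nat_lit 5) (nat_lit 45) (nat_lit 5) (nat_lit 293) (nat_lit 290) (nat_lit 137)) (XT.lf (nat_lit 76) (nat_lit 111360317872) (nat_lit 0) (nat_lit 1602144633) (nat_lit 532) (nat_lit 112622646462) (nat_lit 39) (nat_lit 5) (nat_lit 38) (nat_lit 5) (nat_lit 45) (nat_lit 5) (nat_lit 294) (nat_lit 290) (nat_lit 136))))) (XT.nd (nat_lit 234) (nat_lit 608) (nat_lit 0) (XT.nd (nat_lit 78) (nat_lit 0) (nat_lit 0) (XT.lf (nat_lit 0) (nat_lit 128038206773) (nat_lit 456) (nat_lit 14206704151) (nat_lit 532) (nat_lit 92952256856) (nat_lit 39) (nat_lit 5) (nat_lit 45) (nat_lit 5) (nat_lit 46)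 (nat_lit 5) (nat_lit 295) (nat_lit 290) (nat_lit 135)) (XT.nd (nat_lit 78) (nat_lit 0) (nat_lit 76) (XT.lf (nat_lit 76) (nat_lit 98708943766) (nat_lit 0) (nat_lit 48026515277) (nat_lit 532) (nat_lit 98649496934) (nat_lit 40) (nat_lit 5) (nat_lit 39) (nat_lit 5) (nat_lit 46) (nat_lit 5) (nat_lit 296) (nat_lit 290) (nat_lit 134)) (XT.lf (nat_lit 0) (nat_lit 168619098354) (nat_lit 456) (nat_lit 36193282979) (nat_lit 76) (nat_lit 51440137864) (nat_lit 40) (nat_lit 5) (nat_lit 46) (nat_lit 5) (nat_lit 41) (nat_lit 5) (nat_lit 297) (nat_lit 290) (nat_lit 133)))) (XT.nd (nat_lit 156) (nat_lit 228) (nat_lit 0) (XT.nd (nat_lit 78) (nat_lit 0) (nat_lit 0) (XT.lf (nat_lit 0) (nat_lit 86192213095) (nat_lit 456) (nat_lit 109381479617) (nat_lit 532) (nat_lit 72150174129) (nat_lit 34) (nat_lit 5) (nat_lit 40) (nat_lit 5) (nat_lit 41) (nat_lit 5) (nat_lit 298) (nat_lit 290) (nat_lit 132)) (XT.lf (nat_lit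 0) (nat_lit 220426802167) (nat_lit 456) (nat_lit 5247343536) (nat_lit 532) (nat_lit 54359617750) (nat_lit 34) (nat_lit 5) (nat_lit 40) (nat_lit 5) (nat_lit 41) (nat_lit 5) (nat_lit 299) (nat_lit 290) (nat_lit 131))) (XT.nd (nat_lit 78) (nat_lit 0) (nat_lit 0) (XT.lf (nat_lit 0) (nat_lit 73152410587) (nat_lit 228) (nat_lit 189368035547) (nat_lit 304) (nat_lit 30460981173) (nat_lit 31) (nat_lit 5) (nat_lit 34) (nat_lit 5) (nat_lit 35) (nat_lit 5) (nat_lit 300) (nat_lit 290) (nat_lit 130)) (XT.lf (nat_lit 0) (nat_lit 219778871756) (nat_lit 228) (nat_lit 84298097405) (nat_lit 304) (nat_lit 2746934002) (nat_lit 31) (nat_lit 5) (nat_lit 34) (nat_lit 5) (nat_lit 35) (nat_lit 5) (nat_lit 301) (nat_lit 290) (nat_lit 129))))))) (XT.nd (nat_lit 1014) (nat_lit 608) (nat_lit 0) (XT.nd (nat_lit 468) (nat_lit 532) (nat_lit 0) (XT.nd (nat_lit 234) (nat_lit 152) (nat_lit 0) (XT.nd (nat_lit 78) (nat_lit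 228) (nat_lit 0) (XT.lf (nat_lit 0) (nat_lit 27989944896) (nat_lit 228) (nat_lit 263722708595) (nat_lit 76) (nat_lit 29835575511) (nat_lit 28) (nat_lit 5) (nat_lit 31) (nat_lit 5) (nat_lit 29) (nat_lit 5) (nat_lit 302) (nat_lit 290) (nat_lit 128)) (XT.nd (nat_lit 78) (nat_lit 228) (nat_lit 0) (XT.lf (nat_lit 0) (nat_lit 65668634215) (nat_lit 228) (nat_lit 120346878023) (nat_lit 76) (nat_lit 151058779786) (nat_lit 28) (nat_lit 5) (nat_lit 31) (nat_lit 5) (nat_lit 29) (nat_lit 5) (nat_lit 303) (nat_lit 290) (nat_lit 127)) (XT.lf (nat_lit 0) (nat_lit 36315586925) (nat_lit 228) (nat_lit 70919350474) (nat_lit 304) (nat_lit 246537637468) (nat_lit 25) (nat_lit 5) (nat_lit 28) (nat_lit 5) (nat_lit 29) (nat_lit 5) (nat_lit 304) (nat_lit 290) (nat_lit 126)))) (XT.nd (nat_lit 78) (nat_lit 152) (nat_lit 0) (XT.lf (nat_lit 0) (nat_lit 156786338815) (nat_lit 304) (nat_lit 160557652064) (nat_lit 76)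 (nat_lit 54089946200) (nat_lit 25) (nat_lit 5) (nat_lit 29) (nat_lit 5) (nat_lit 26) (nat_lit 5) (nat_lit 305) (nat_lit 290) (nat_lit 125)) (XT.nd (nat_lit 78) (nat_lit 0) (nat_lit 0) (XT.lf (nat_lit 0) (nat_lit 7422806948) (nat_lit 152) (nat_lit 204899561235) (nat_lit 228) (nat_lit 178024199056) (nat_lit 23) (nat_lit 5) (nat_lit 25) (nat_lit 5) (nat_lit 26) (nat_lit 5) (nat_lit 306) (nat_lit 290) (nat_lit 124)) (XT.lf (nat_lit 0) (nat_lit 197972679136) (nat_lit 152) (nat_lit 78718470432) (nat_lit 228) (nat_lit 133729868892) (nat_lit 23) (nat_lit 5) (nat_lit 25) (nat_lit 5) (nat_lit 26) (nat_lit 5) (nat_lit 307) (nat_lit 290) (nat_lit 123))))) (XT.nd (nat_lit 234) (nat_lit 304) (nat_lit 0) (XT.nd (nat_lit 78) (nat_lit 228) (nat_lit 0) (XT.lf (nat_lit 0) (nat_lit 347593626327) (nat_lit 228) (nat_lit 29719212422) (nat_lit 76) (nat_lit 54677851807) (nat_lit 23) (nat_lit 5) (nat_lit 26)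 (nat_lit 5) (nat_lit 24) (nat_lit 5) (nat_lit 308) (nat_lit 290) (nat_lit 122)) (XT.nd (nat_lit 78) (nat_lit 76) (nat_lit 0) (XT.lf (nat_lit 0) (nat_lit 174302872506) (nat_lit 152) (nat_lit 256101999851) (nat_lit 228) (nat_lit 24382138561) (nat_lit 21) (nat_lit 5) (nat_lit 23) (nat_lit 5) (nat_lit 24) (nat_lit 5) (nat_lit 309) (nat_lit 290) (nat_lit 121)) (XT.lf (nat_lit 0) (nat_lit 39244939462) (nat_lit 228) (nat_lit 83998765969) (nat_lit 76) (nat_lit 356018846198) (nat_lit 20) (nat_lit 5) (nat_lit 23) (nat_lit 5) (nat_lit 21) (nat_lit 5) (nat_lit 310) (nat_lit 290) (nat_lit 120)))) (XT.nd (nat_lit 156) (nat_lit 152) (nat_lit 0) (XT.nd (nat_lit 78) (nat_lit 0) (nat_lit 0) (XT.lf (nat_lit 0) (nat_lit 110461726600) (nat_lit 228) (nat_lit 371684503762) (nat_lit 76) (nat_lit 23193896271) (nat_lit 18) (nat_lit 5) (nat_lit 21) (nat_lit 5) (nat_lit 19) (nat_lit 5) (nat_lit 311) (nat_lit 290)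 (nat_lit 119)) (XT.lf (nat_lit 0) (nat_lit 192933274280) (nat_lit 228) (nat_lit 163081585096) (nat_lit 76) (nat_lit 177044454993) (nat_lit 18) (nat_lit 5) (nat_lit 21) (nat_lit 5) (nat_lit 19) (nat_lit 5) (nat_lit 312) (nat_lit 290) (nat_lit 118))) (XT.nd (nat_lit 78) (nat_lit 0) (nat_lit 0) (XT.lf (nat_lit 0) (nat_lit 65485344941) (nat_lit 152) (nat_lit 218092081757) (nat_lit 228) (nat_lit 279292620083) (nat_lit 16) (nat_lit 5) (nat_lit 18) (nat_lit 5) (nat_lit 19) (nat_lit 5) (nat_lit 313) (nat_lit 290) (nat_lit 117)) (XT.lf (nat_lit 0) (nat_lit 321612160966) (nat_lit 152) (nat_lit 64319848381) (nat_lit 228) (nat_lit 208776916715) (nat_lit 16) (nat_lit 5) (nat_lit 18) (nat_lit 5) (nat_lit 19) (nat_lit 5) (nat_lit 314) (nat_lit 290) (nat_lit 116)))))) (XT.nd (nat_lit 546) (nat_lit 228) (nat_lit 0) (XT.nd (nat_lit 234) (nat_lit 228) (nat_lit 0) (XT.nd (nat_lit 78) (nat_lit 152) (nat_lit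 0) (XT.lf (nat_lit 0) (nat_lit 498922109790) (nat_lit 228) (nat_lit 33313044232) (nat_lit 76) (nat_lit 96663989680) (nat_lit 16) (nat_lit 5) (nat_lit 19) (nat_lit 5) (nat_lit 17) (nat_lit 4) (nat_lit 315) (nat_lit 290) (nat_lit 115)) (XT.nd (nat_lit 78) (nat_lit 76) (nat_lit 0) (XT.lf (nat_lit 0) (nat_lit 235777203261) (nat_lit 76) (nat_lit 392515271807) (nat_lit 152) (nat_lit 36944819242) (nat_lit 15) (nat_lit 5) (nat_lit 16) (nat_lit 5) (nat_lit 17) (nat_lit 4) (nat_lit 316) (nat_lit 290) (nat_lit 114)) (XT.lf (nat_lit 0) (nat_lit 61286406199) (nat_lit 152) (nat_lit 177672029326) (nat_lit 76) (nat_lit 465327072931) (nat_lit 14) (nat_lit 5) (nat_lit 16) (nat_lit 5) (nat_lit 15) (nat_lit 5) (nat_lit 317) (nat_lit 290) (nat_lit 113)))) (XT.nd (nat_lit 156) (nat_lit 76) (nat_lit 0) (XT.nd (nat_lit 78) (nat_lit 0) (nat_lit 0) (XT.lf (nat_lit 0) (nat_lit 98212401134) (nat_lit 152) (nat_lit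 69529726287) (nat_lit 228) (nat_lit 578449725732) (nat_lit 12) (nat_lit 5) (nat_lit 14) (nat_lit 5) (nat_lit 15) (nat_lit 5) (nat_lit 318) (nat_lit 290) (nat_lit 112)) (XT.lf (nat_lit 0) (nat_lit 290426874711) (nat_lit 228) (nat_lit 387644910097) (nat_lit 76) (nat_lit 112761915223) (nat_lit 12) (nat_lit 5) (nat_lit 15) (nat_lit 5) (nat_lit 13) (nat_lit 4) (nat_lit 319) (nat_lit 290) (nat_lit 111))) (XT.nd (nat_lit 78) (nat_lit 76) (nat_lit 0) (XT.lf (nat_lit 0) (nat_lit 424732338817) (nat_lit 228) (nat_lit 108289621176) (nat_lit 76) (nat_lit 305880459773) (nat_lit 12) (nat_lit 5) (nat_lit 15) (nat_lit 5) (nat_lit 13) (nat_lit 4) (nat_lit 320) (nat_lit 290) (nat_lit 110)) (XT.lf (nat_lit 0) (nat_lit 203598885935) (nat_lit 76) (nat_lit 371079884551) (nat_lit 152) (nat_lit 315746144225) (nat_lit 11) (nat_lit 5) (nat_lit 12) (nat_lit 5) (nat_lit 13) (nat_lit 4) (nat_lit 321) (nat_lit 290)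 (nat_lit 109))))) (XT.nd (nat_lit 234) (nat_lit 76) (nat_lit 0) (XT.nd (nat_lit 78) (nat_lit 152) (nat_lit 0) (XT.lf (nat_lit 0) (nat_lit 546596955706) (nat_lit 76) (nat_lit 192984764438) (nat_lit 152) (nat_lit 206250624889) (nat_lit 11) (nat_lit 5) (nat_lit 12) (nat_lit 5) (nat_lit 13) (nat_lit 4) (nat_lit 322) (nat_lit 290) (nat_lit 108)) (XT.nd (nat_lit 78) (nat_lit 152) (nat_lit 0) (XT.lf (nat_lit 0) (nat_lit 917034829746) (nat_lit 76) (nat_lit 642051313) (nat_lit 152) (nat_lit 87995490755) (nat_lit 11) (nat_lit 5) (nat_lit 12) (nat_lit 5) (nat_lit 13) (nat_lit 4) (nat_lit 323) (nat_lit 290) (nat_lit 107)) (XT.lf (nat_lit 0) (nat_lit 49124145330) (nat_lit 152) (nat_lit 816093202741) (nat_lit 76) (nat_lit 204094547319) (nat_lit 9) (nat_lit 5) (nat_lit 11) (nat_lit 5) (nat_lit 10) (nat_lit 4) (nat_lit 324) (nat_lit 290) (nat_lit 106)))) (XT.nd (nat_lit 156) (nat_lit 76) (nat_lit 0)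 (XT.nd (nat_lit 78) (nat_lit 0) (nat_lit 0) (XT.lf (nat_lit 0) (nat_lit 194962419495) (nat_lit 152) (nat_lit 512749640636) (nat_lit 76) (nat_lit 429947424248) (nat_lit 9) (nat_lit 5) (nat_lit 11) (nat_lit 5) (nat_lit 10) (nat_lit 4) (nat_lit 325) (nat_lit 290) (nat_lit 105)) (XT.lf (nat_lit 0) (nat_lit 352467734211) (nat_lit 152) (nat_lit 185138630617) (nat_lit 76) (nat_lit 673868517410) (nat_lit 9) (nat_lit 5) (nat_lit 11) (nat_lit 5) (nat_lit 10) (nat_lit 4) (nat_lit 326) (nat_lit 290) (nat_lit 104))) (XT.nd (nat_lit 78) (nat_lit 0) (nat_lit 0) (XT.lf (nat_lit 0) (nat_lit 177563680320) (nat_lit 76) (nat_lit 349280184768) (nat_lit 152) (nat_lit 764010015597) (nat_lit 8) (nat_lit 5) (nat_lit 9) (nat_lit 5) (nat_lit 10) (nat_lit 4) (nat_lit 327) (nat_lit 290) (nat_lit 103)) (XT.lf (nat_lit 0) (nat_lit 579811140661) (nat_lit 76) (nat_lit 140420944893) (nat_lit 152) (nat_lit 655946153559)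 (nat_lit 8) (nat_lit 5) (nat_lit 9) (nat_lit 5) (nat_lit 10) (nat_lit 4) (nat_lit 328) (nat_lit 290) (nat_lit 102))))))))
noncomputable def xc120 : XT := (XT.nd (nat_lit 36504) (nat_lit 0) (nat_lit 0) (XT.nd (nat_lit 35490) (nat_lit 0) (nat_lit 608) (XT.nd (nat_lit 34944) (nat_lit 0) (nat_lit 1748) (XT.nd (nat_lit 34710) (nat_lit 0) (nat_lit 2280) (XT.nd (nat_lit 34554) (nat_lit 0) (nat_lit 2204) (XT.lf (nat_lit 0) (nat_lit 931139133842) (nat_lit 152) (nat_lit 456137968700) (nat_lit 0) (nat_lit 80887622091) (nat_lit 8) (nat_lit 5) (nat_lit 10) (nat_lit 4) (nat_lit 8) (nat_lit 4) (nat_lit 329) (nat_lit 290) (nat_lit 101)) (XT.nd (nat_lit 78) (nat_lit 0) (nat_lit 0) (XT.lf (nat_lit 0) (nat_lit 44178651823) (nat_lit 532) (nat_lit 29817129804) (nat_lit 532) (nat_lit 29817129804) (nat_lit 37) (nat_lit 3) (nat_lit 44) (nat_lit 3) (nat_lit 44) (nat_lit 5) (nat_lit 291) (nat_lit 291) (nat_lit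 138)) (XT.lf (nat_lit 76) (nat_lit 32080517383) (nat_lit 0) (nat_lit 60583976310) (nat_lit 532) (nat_lit 123204523755) (nat_lit 38) (nat_lit 5) (nat_lit 37) (nat_lit 3) (nat_lit 44) (nat_lit 5) (nat_lit 292) (nat_lit 291) (nat_lit 137)))) (XT.nd (nat_lit 78) (nat_lit 0) (nat_lit 0) (XT.lf (nat_lit 0) (nat_lit 99802260392) (nat_lit 456) (nat_lit 90973019898) (nat_lit 532) (nat_lit 33797507844) (nat_lit 38) (nat_lit 5) (nat_lit 44) (nat_lit 5) (nat_lit 45) (nat_lit 5) (nat_lit 293) (nat_lit 291) (nat_lit 136)) (XT.nd (nat_lit 78) (nat_lit 0) (nat_lit 0) (XT.lf (nat_lit 76) (nat_lit 8099157428) (nat_lit 0) (nat_lit 101180159263) (nat_lit 532) (nat_lit 124552082925) (nat_lit 39) (nat_lit 5) (nat_lit 38) (nat_lit 5) (nat_lit 45) (nat_lit 5) (nat_lit 294) (nat_lit 291) (nat_lit 135)) (XT.lf (nat_lit 76) (nat_lit 120270743188) (nat_lit 0) (nat_lit 1731038844) (nat_lit 532) (nat_lit 121629938978)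 (nat_lit 39) (nat_lit 5) (nat_lit 38) (nat_lit 5) (nat_lit 45) (nat_lit 5) (nat_lit 295) (nat_lit 291) (nat_lit 134))))) (XT.nd (nat_lit 234) (nat_lit 608) (nat_lit 0) (XT.nd (nat_lit 78) (nat_lit 0) (nat_lit 0) (XT.lf (nat_lit 0) (nat_lit 138283397708) (nat_lit 456) (nat_lit 15341560908) (nat_lit 532) (nat_lit 100387801766) (nat_lit 39) (nat_lit 5) (nat_lit 45) (nat_lit 5) (nat_lit 46) (nat_lit 5) (nat_lit 296) (nat_lit 291) (nat_lit 133)) (XT.nd (nat_lit 78) (nat_lit 0) (nat_lit 76) (XT.lf (nat_lit 76) (nat_lit 106607296322) (nat_lit 0) (nat_lit 51869015107) (nat_lit 532) (nat_lit 106539270451) (nat_lit 40) (nat_lit 5) (nat_lit 39) (nat_lit 5) (nat_lit 46) (nat_lit 5) (nat_lit 297) (nat_lit 291) (nat_lit 132)) (XT.lf (nat_lit 0) (nat_lit 182110484145) (nat_lit 456) (nat_lit 39087063455) (nat_lit 76) (nat_lit 55555015867) (nat_lit 40) (nat_lit 5) (nat_lit 46) (nat_lit 5) (nat_lit 41)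 (nat_lit 5) (nat_lit 298) (nat_lit 291) (nat_lit 131)))) (XT.nd (nat_lit 156) (nat_lit 228) (nat_lit 0) (XT.nd (nat_lit 78) (nat_lit 0) (nat_lit 0) (XT.lf (nat_lit 0) (nat_lit 93089229719) (nat_lit 456) (nat_lit 118132118142) (nat_lit 532) (nat_lit 77920279558) (nat_lit 34) (nat_lit 5) (nat_lit 40) (nat_lit 5) (nat_lit 41) (nat_lit 5) (nat_lit 299) (nat_lit 291) (nat_lit 130)) (XT.lf (nat_lit 0) (nat_lit 238062464466) (nat_lit 456) (nat_lit 5667242273) (nat_lit 532) (nat_lit 58706620039) (nat_lit 34) (nat_lit 5) (nat_lit 40) (nat_lit 5) (nat_lit 41) (nat_lit 5) (nat_lit 300) (nat_lit 291) (nat_lit 129))) (XT.nd (nat_lit 78) (nat_lit 0) (nat_lit 0) (XT.lf (nat_lit 0) (nat_lit 79006219998) (nat_lit 228) (nat_lit 204517406913) (nat_lit 304) (nat_lit 32896184121) (nat_lit 31) (nat_lit 5) (nat_lit 34) (nat_lit 5) (nat_lit 35) (nat_lit 5) (nat_lit 301) (nat_lit 291) (nat_lit 128)) (XT.lf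 (nat_lit 0) (nat_lit 237362678314) (nat_lit 228) (nat_lit 91041879015) (nat_lit 304) (nat_lit 2965137291) (nat_lit 31) (nat_lit 5) (nat_lit 34) (nat_lit 5) (nat_lit 35) (nat_lit 5) (nat_lit 302) (nat_lit 291) (nat_lit 127)))))) (XT.nd (nat_lit 468) (nat_lit 532) (nat_lit 0) (XT.nd (nat_lit 234) (nat_lit 152) (nat_lit 0) (XT.nd (nat_lit 78) (nat_lit 228) (nat_lit 0) (XT.lf (nat_lit 0) (nat_lit 30230545516) (nat_lit 228) (nat_lit 284818870746) (nat_lit 76) (nat_lit 32222553218) (nat_lit 28) (nat_lit 5) (nat_lit 31) (nat_lit 5) (nat_lit 29) (nat_lit 5) (nat_lit 303) (nat_lit 291) (nat_lit 126)) (XT.nd (nat_lit 78) (nat_lit 228) (nat_lit 0) (XT.lf (nat_lit 0) (nat_lit 70923425903) (nat_lit 228) (nat_lit 129973096287) (nat_lit 76) (nat_lit 163143604082) (nat_lit 28) (nat_lit 5) (nat_lit 31) (nat_lit 5) (nat_lit 29) (nat_lit 5) (nat_lit 304) (nat_lit 291) (nat_lit 125)) (XT.lf (nat_lit 0)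 (nat_lit 39222327073) (nat_lit 228) (nat_lit 76592645815) (nat_lit 304) (nat_lit 266259304066) (nat_lit 25) (nat_lit 5) (nat_lit 28) (nat_lit 5) (nat_lit 29) (nat_lit 5) (nat_lit 305) (nat_lit 291) (nat_lit 124)))) (XT.nd (nat_lit 78) (nat_lit 152) (nat_lit 0) (XT.lf (nat_lit 0) (nat_lit 169330400155) (nat_lit 304) (nat_lit 173400791063) (nat_lit 76) (nat_lit 58417364171) (nat_lit 25) (nat_lit 5) (nat_lit 29) (nat_lit 5) (nat_lit 26) (nat_lit 5) (nat_lit 306) (nat_lit 291) (nat_lit 123)) (XT.nd (nat_lit 78) (nat_lit 0) (nat_lit 0) (XT.lf (nat_lit 0) (nat_lit 8018067375) (nat_lit 152) (nat_lit 221291193532) (nat_lit 228) (nat_lit 192264939452) (nat_lit 23) (nat_lit 5) (nat_lit 25) (nat_lit 5) (nat_lit 26) (nat_lit 5) (nat_lit 307) (nat_lit 291) (nat_lit 122)) (XT.lf (nat_lit 0) (nat_lit 213811822977) (nat_lit 152) (nat_lit 85015640102) (nat_lit 228) (nat_lit 144427151433) (nat_lit 23)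 (nat_lit 5) (nat_lit 25) (nat_lit 5) (nat_lit 26) (nat_lit 5) (nat_lit 308) (nat_lit 291) (nat_lit 121))))) (XT.nd (nat_lit 234) (nat_lit 304) (nat_lit 0) (XT.nd (nat_lit 78) (nat_lit 228) (nat_lit 0) (XT.lf (nat_lit 0) (nat_lit 375402069167) (nat_lit 228) (nat_lit 32095446148) (nat_lit 76) (nat_lit 59052350840) (nat_lit 23) (nat_lit 5) (nat_lit 26) (nat_lit 5) (nat_lit 24) (nat_lit 5) (nat_lit 309) (nat_lit 291) (nat_lit 120)) (XT.nd (nat_lit 78) (nat_lit 76) (nat_lit 0) (XT.lf (nat_lit 0) (nat_lit 188248372580) (nat_lit 152) (nat_lit 276589802276) (nat_lit 228) (nat_lit 26331720745) (nat_lit 21) (nat_lit 5) (nat_lit 23) (nat_lit 5) (nat_lit 24) (nat_lit 5) (nat_lit 310) (nat_lit 291) (nat_lit 119)) (XT.lf (nat_lit 0) (nat_lit 42385404464) (nat_lit 228) (nat_lit 90717442542) (nat_lit 76) (nat_lit 384500636446) (nat_lit 20) (nat_lit 5) (nat_lit 23) (nat_lit 5) (nat_lit 21) (nat_lit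 5) (nat_lit 311) (nat_lit 291) (nat_lit 118)))) (XT.nd (nat_lit 156) (nat_lit 152) (nat_lit 0) (XT.nd (nat_lit 78) (nat_lit 0) (nat_lit 0) (XT.lf (nat_lit 0) (nat_lit 119299507496) (nat_lit 228) (nat_lit 401418009762) (nat_lit 76) (nat_lit 25049749565) (nat_lit 18) (nat_lit 5) (nat_lit 21) (nat_lit 5) (nat_lit 19) (nat_lit 5) (nat_lit 312) (nat_lit 291) (nat_lit 117)) (XT.lf (nat_lit 0) (nat_lit 208368716563) (nat_lit 228) (nat_lit 176126950514) (nat_lit 76) (nat_lit 191208327682) (nat_lit 18) (nat_lit 5) (nat_lit 21) (nat_lit 5) (nat_lit 19) (nat_lit 5) (nat_lit 313) (nat_lit 291) (nat_lit 116))) (XT.nd (nat_lit 78) (nat_lit 0) (nat_lit 0) (XT.lf (nat_lit 0) (nat_lit 70725304524) (nat_lit 152) (nat_lit 235539066072) (nat_lit 228) (nat_lit 301635217787) (nat_lit 16) (nat_lit 5) (nat_lit 18) (nat_lit 5) (nat_lit 19) (nat_lit 5) (nat_lit 314) (nat_lit 291) (nat_lit 115)) (XT.lf (nat_lit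 0) (nat_lit 347342181980) (nat_lit 152) (nat_lit 69465082339) (nat_lit 228) (nat_lit 225478318290) (nat_lit 16) (nat_lit 5) (nat_lit 18) (nat_lit 5) (nat_lit 19) (nat_lit 5) (nat_lit 315) (nat_lit 291) (nat_lit 114))))))) (XT.nd (nat_lit 35646) (nat_lit 0) (nat_lit 1520) (XT.nd (nat_lit 468) (nat_lit 304) (nat_lit 0) (XT.nd (nat_lit 234) (nat_lit 152) (nat_lit 0) (XT.nd (nat_lit 78) (nat_lit 152) (nat_lit 0) (XT.lf (nat_lit 0) (nat_lit 538836529254) (nat_lit 228) (nat_lit 35977071879) (nat_lit 76) (nat_lit 104397420158) (nat_lit 16) (nat_lit 5) (nat_lit 19) (nat_lit 5) (nat_lit 17) (nat_lit 4) (nat_lit 316) (nat_lit 291) (nat_lit 113)) (XT.nd (nat_lit 78) (nat_lit 76) (nat_lit 0) (XT.lf (nat_lit 0) (nat_lit 254640369695) (nat_lit 76) (nat_lit 423916129675) (nat_lit 152) (nat_lit 39899726666) (nat_lit 15) (nat_lit 5) (nat_lit 16) (nat_lit 5) (nat_lit 17) (nat_lit 4) (nat_lit 317) (nat_lit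 291) (nat_lit 112)) (XT.lf (nat_lit 0) (nat_lit 66189915170) (nat_lit 152) (nat_lit 191884841966) (nat_lit 76) (nat_lit 502553542809) (nat_lit 14) (nat_lit 5) (nat_lit 16) (nat_lit 5) (nat_lit 15) (nat_lit 5) (nat_lit 318) (nat_lit 291) (nat_lit 111)))) (XT.nd (nat_lit 78) (nat_lit 0) (nat_lit 0) (XT.lf (nat_lit 0) (nat_lit 106070318888) (nat_lit 152) (nat_lit 75091753281) (nat_lit 228) (nat_lit 624725081911) (nat_lit 12) (nat_lit 5) (nat_lit 14) (nat_lit 5) (nat_lit 15) (nat_lit 5) (nat_lit 319) (nat_lit 291) (nat_lit 110)) (XT.nd (nat_lit 78) (nat_lit 0) (nat_lit 0) (XT.lf (nat_lit 0) (nat_lit 313661564500) (nat_lit 228) (nat_lit 418655609808) (nat_lit 76) (nat_lit 121783177280) (nat_lit 12) (nat_lit 5) (nat_lit 15) (nat_lit 5) (nat_lit 13) (nat_lit 4) (nat_lit 320) (nat_lit 291) (nat_lit 109)) (XT.lf (nat_lit 0) (nat_lit 458711425749) (nat_lit 228) (nat_lit 116951963929) (nat_lit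 76) (nat_lit 330351182517) (nat_lit 12) (nat_lit 5) (nat_lit 15) (nat_lit 5) (nat_lit 13) (nat_lit 4) (nat_lit 321) (nat_lit 291) (nat_lit 108))))) (XT.nd (nat_lit 234) (nat_lit 228) (nat_lit 0) (XT.nd (nat_lit 78) (nat_lit 0) (nat_lit 0) (XT.lf (nat_lit 0) (nat_lit 219887602816) (nat_lit 76) (nat_lit 400765951496) (nat_lit 152) (nat_lit 341005313920) (nat_lit 11) (nat_lit 5) (nat_lit 12) (nat_lit 5) (nat_lit 13) (nat_lit 4) (nat_lit 322) (nat_lit 291) (nat_lit 107)) (XT.nd (nat_lit 78) (nat_lit 0) (nat_lit 0) (XT.lf (nat_lit 0) (nat_lit 590325458465) (nat_lit 76) (nat_lit 208423245760) (nat_lit 152) (nat_lit 222750191693) (nat_lit 11) (nat_lit 5) (nat_lit 12) (nat_lit 5) (nat_lit 13) (nat_lit 4) (nat_lit 323) (nat_lit 291) (nat_lit 106)) (XT.lf (nat_lit 0) (nat_lit 990398307147) (nat_lit 76) (nat_lit 693137796) (nat_lit 152) (nat_lit 95034682619) (nat_lit 11) (nat_lit 5) (nat_lit 12)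 (nat_lit 5) (nat_lit 13) (nat_lit 4) (nat_lit 324) (nat_lit 291) (nat_lit 105)))) (XT.nd (nat_lit 156) (nat_lit 76) (nat_lit 0) (XT.nd (nat_lit 78) (nat_lit 0) (nat_lit 0) (XT.lf (nat_lit 0) (nat_lit 53054494108) (nat_lit 152) (nat_lit 881379936044) (nat_lit 76) (nat_lit 220422382703) (nat_lit 9) (nat_lit 5) (nat_lit 11) (nat_lit 5) (nat_lit 10) (nat_lit 4) (nat_lit 325) (nat_lit 291) (nat_lit 104)) (XT.lf (nat_lit 0) (nat_lit 210559799306) (nat_lit 152) (nat_lit 553768942520) (nat_lit 76) (nat_lit 464343469668) (nat_lit 9) (nat_lit 5) (nat_lit 11) (nat_lit 5) (nat_lit 10) (nat_lit 4) (nat_lit 326) (nat_lit 291) (nat_lit 103))) (XT.nd (nat_lit 156) (nat_lit 76) (nat_lit 0) (XT.lf (nat_lit 0) (nat_lit 380665510588) (nat_lit 152) (nat_lit 199949101282) (nat_lit 76) (nat_lit 727778231655) (nat_lit 9) (nat_lit 5) (nat_lit 11) (nat_lit 5) (nat_lit 10) (nat_lit 4) (nat_lit 327) (nat_lit 291)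 (nat_lit 102)) (XT.lf (nat_lit 0) (nat_lit 626196591261) (nat_lit 76) (nat_lit 151654381210) (nat_lit 152) (nat_lit 708421499582) (nat_lit 8) (nat_lit 5) (nat_lit 9) (nat_lit 5) (nat_lit 10) (nat_lit 4) (nat_lit 329) (nat_lit 291) (nat_lit 100)))))) (XT.nd (nat_lit 546) (nat_lit 684) (nat_lit 0) (XT.nd (nat_lit 234) (nat_lit 0) (nat_lit 76) (XT.nd (nat_lit 78) (nat_lit 0) (nat_lit 0) (XT.lf (nat_lit 0) (nat_lit 47714271932) (nat_lit 532) (nat_lit 32201779918) (nat_lit 532) (nat_lit 32201779918) (nat_lit 37) (nat_lit 3) (nat_lit 44) (nat_lit 3) (nat_lit 44) (nat_lit 5) (nat_lit 292) (nat_lit 292) (nat_lit 136)) (XT.nd (nat_lit 78) (nat_lit 0) (nat_lit 76) (XT.lf (nat_lit 76) (nat_lit 34648362847) (nat_lit 0) (nat_lit 65431783302) (nat_lit 532) (nat_lit 133058181515) (nat_lit 38) (nat_lit 5) (nat_lit 37) (nat_lit 3) (nat_lit 44) (nat_lit 5) (nat_lit 293) (nat_lit 292) (nat_lit 135)) (XT.lf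 (nat_lit 0) (nat_lit 107788725271) (nat_lit 456) (nat_lit 98249341638) (nat_lit 532) (nat_lit 36500350679) (nat_lit 38) (nat_lit 5) (nat_lit 44) (nat_lit 5) (nat_lit 45) (nat_lit 5) (nat_lit 294) (nat_lit 292) (nat_lit 134)))) (XT.nd (nat_lit 156) (nat_lit 0) (nat_lit 76) (XT.nd (nat_lit 78) (nat_lit 0) (nat_lit 0) (XT.lf (nat_lit 76) (nat_lit 8748571398) (nat_lit 0) (nat_lit 109275241114) (nat_lit 532) (nat_lit 134513916965) (nat_lit 39) (nat_lit 5) (nat_lit 38) (nat_lit 5) (nat_lit 45) (nat_lit 5) (nat_lit 295) (nat_lit 292) (nat_lit 133)) (XT.lf (nat_lit 76) (nat_lit 129893774287) (nat_lit 0) (nat_lit 1870141498) (nat_lit 532) (nat_lit 131358174288) (nat_lit 39) (nat_lit 5) (nat_lit 38) (nat_lit 5) (nat_lit 45) (nat_lit 5) (nat_lit 296) (nat_lit 292) (nat_lit 132))) (XT.nd (nat_lit 78) (nat_lit 0) (nat_lit 0) (XT.lf (nat_lit 0) (nat_lit 149347899424) (nat_lit 456) (nat_lit 16567445816)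 (nat_lit 532) (nat_lit 108418280949) (nat_lit 39) (nat_lit 5) (nat_lit 45) (nat_lit 5) (nat_lit 46) (nat_lit 5) (nat_lit 297) (nat_lit 292) (nat_lit 131)) (XT.lf (nat_lit 76) (nat_lit 115137283537) (nat_lit 0) (nat_lit 56018860911) (nat_lit 532) (nat_lit 115060537741) (nat_lit 40) (nat_lit 5) (nat_lit 39) (nat_lit 5) (nat_lit 46) (nat_lit 5) (nat_lit 298) (nat_lit 292) (nat_lit 130))))) (XT.nd (nat_lit 234) (nat_lit 456) (nat_lit 0) (XT.nd (nat_lit 78) (nat_lit 456) (nat_lit 0) (XT.lf (nat_lit 0) (nat_lit 196680915746) (nat_lit 456) (nat_lit 42212586349) (nat_lit 76) (nat_lit 59999131620) (nat_lit 40) (nat_lit 5) (nat_lit 46) (nat_lit 5) (nat_lit 41) (nat_lit 5) (nat_lit 299) (nat_lit 292) (nat_lit 129)) (XT.nd (nat_lit 78) (nat_lit 0) (nat_lit 0) (XT.lf (nat_lit 0) (nat_lit 100537773768) (nat_lit 456) (nat_lit 127582790606) (nat_lit 532) (nat_lit 84152265690) (nat_lit 34) (nat_lit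 5) (nat_lit 40) (nat_lit 5) (nat_lit 41) (nat_lit 5) (nat_lit 300) (nat_lit 292) (nat_lit 128)) (XT.lf (nat_lit 0) (nat_lit 257108763172) (nat_lit 456) (nat_lit 6120717038) (nat_lit 532) (nat_lit 63401634612) (nat_lit 34) (nat_lit 5) (nat_lit 40) (nat_lit 5) (nat_lit 41) (nat_lit 5) (nat_lit 301) (nat_lit 292) (nat_lit 127)))) (XT.nd (nat_lit 156) (nat_lit 228) (nat_lit 0) (XT.nd (nat_lit 78) (nat_lit 0) (nat_lit 0) (XT.lf (nat_lit 0) (nat_lit 85328103540) (nat_lit 228) (nat_lit 220878738186) (nat_lit 304) (nat_lit 35526442341) (nat_lit 31) (nat_lit 5) (nat_lit 34) (nat_lit 5) (nat_lit 35) (nat_lit 5) (nat_lit 302) (nat_lit 292) (nat_lit 126)) (XT.lf (nat_lit 0) (nat_lit 256352975860) (nat_lit 228) (nat_lit 98325172595) (nat_lit 304) (nat_lit 3201018172) (nat_lit 31) (nat_lit 5) (nat_lit 34) (nat_lit 5) (nat_lit 35) (nat_lit 5) (nat_lit 303) (nat_lit 292) (nat_lit 125))) (XT.nd (nat_lit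 78) (nat_lit 0) (nat_lit 0) (XT.lf (nat_lit 0) (nat_lit 32650193742) (nat_lit 228) (nat_lit 307602961908) (nat_lit 76) (nat_lit 34800470359) (nat_lit 28) (nat_lit 5) (nat_lit 31) (nat_lit 5) (nat_lit 29) (nat_lit 5) (nat_lit 304) (nat_lit 292) (nat_lit 124)) (XT.lf (nat_lit 0) (nat_lit 76598415332) (nat_lit 228) (nat_lit 140369630565) (nat_lit 76) (nat_lit 176195196930) (nat_lit 28) (nat_lit 5) (nat_lit 31) (nat_lit 5) (nat_lit 29) (nat_lit 5) (nat_lit 305) (nat_lit 292) (nat_lit 123))))))))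
noncomputable def xc121 : XT := (XT.nd (nat_lit 36816) (nat_lit 0) (nat_lit 228) (XT.nd (nat_lit 1014) (nat_lit 456) (nat_lit 0) (XT.nd (nat_lit 468) (nat_lit 456) (nat_lit 0) (XT.nd (nat_lit 234) (nat_lit 152) (nat_lit 0) (XT.nd (nat_lit 78) (nat_lit 152) (nat_lit 0) (XT.lf (nat_lit 0) (nat_lit 42361393412) (nat_lit 228) (nat_lit 82719840833) (nat_lit 304) (nat_lit 287558895785) (nat_lit 25) (nat_lit 5) (nat_lit 28) (nat_lit 5) (nat_lit 29) (nat_lit 5) (nat_lit 306) (nat_lit 292) (nat_lit 122)) (XT.nd (nat_lit 78) (nat_lit 152) (nat_lit 0) (XT.lf (nat_lit 0) (nat_lit 182877821737) (nat_lit 304) (nat_lit 187271591345) (nat_lit 76) (nat_lit 63090943870) (nat_lit 25) (nat_lit 5) (nat_lit 29) (nat_lit 5) (nat_lit 26) (nat_lit 5) (nat_lit 307) (nat_lit 292) (nat_lit 121)) (XT.lf (nat_lit 0) (nat_lit 8660743793) (nat_lit 152) (nat_lit 238994203861) (nat_lit 228) (nat_lit 207645109636) (nat_lit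 23) (nat_lit 5) (nat_lit 25) (nat_lit 5) (nat_lit 26) (nat_lit 5) (nat_lit 308) (nat_lit 292) (nat_lit 120)))) (XT.nd (nat_lit 78) (nat_lit 152) (nat_lit 0) (XT.lf (nat_lit 0) (nat_lit 230917908656) (nat_lit 152) (nat_lit 91816627280) (nat_lit 228) (nat_lit 155980374499) (nat_lit 23) (nat_lit 5) (nat_lit 25) (nat_lit 5) (nat_lit 26) (nat_lit 5) (nat_lit 309) (nat_lit 292) (nat_lit 119)) (XT.nd (nat_lit 78) (nat_lit 152) (nat_lit 0) (XT.lf (nat_lit 0) (nat_lit 405435051515) (nat_lit 228) (nat_lit 34661964497) (nat_lit 76) (nat_lit 63776771150) (nat_lit 23) (nat_lit 5) (nat_lit 26) (nat_lit 5) (nat_lit 24) (nat_lit 5) (nat_lit 310) (nat_lit 292) (nat_lit 118)) (XT.lf (nat_lit 0) (nat_lit 203309331442) (nat_lit 152) (nat_lit 298716679904) (nat_lit 228) (nat_lit 28437410581) (nat_lit 21) (nat_lit 5) (nat_lit 23) (nat_lit 5) (nat_lit 24) (nat_lit 5) (nat_lit 311) (nat_lit 292) (nat_lit 117)))))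 (XT.nd (nat_lit 234) (nat_lit 228) (nat_lit 0) (XT.nd (nat_lit 78) (nat_lit 152) (nat_lit 0) (XT.lf (nat_lit 0) (nat_lit 45776982572) (nat_lit 228) (nat_lit 97973787958) (nat_lit 76) (nat_lit 415260929604) (nat_lit 20) (nat_lit 5) (nat_lit 23) (nat_lit 5) (nat_lit 21) (nat_lit 5) (nat_lit 312) (nat_lit 292) (nat_lit 116)) (XT.nd (nat_lit 78) (nat_lit 0) (nat_lit 0) (XT.lf (nat_lit 0) (nat_lit 128844190633) (nat_lit 228) (nat_lit 433530375181) (nat_lit 76) (nat_lit 27054022391) (nat_lit 18) (nat_lit 5) (nat_lit 21) (nat_lit 5) (nat_lit 19) (nat_lit 5) (nat_lit 313) (nat_lit 292) (nat_lit 115)) (XT.lf (nat_lit 0) (nat_lit 225038882905) (nat_lit 228) (nat_lit 190216110850) (nat_lit 76) (nat_lit 206505265063) (nat_lit 18) (nat_lit 5) (nat_lit 21) (nat_lit 5) (nat_lit 19) (nat_lit 5) (nat_lit 314) (nat_lit 292) (nat_lit 114)))) (XT.nd (nat_lit 156) (nat_lit 76) (nat_lit 0) (XT.nd (nat_lit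 78) (nat_lit 0) (nat_lit 0) (XT.lf (nat_lit 0) (nat_lit 76384299383) (nat_lit 152) (nat_lit 254381863661) (nat_lit 228) (nat_lit 325765339133) (nat_lit 16) (nat_lit 5) (nat_lit 18) (nat_lit 5) (nat_lit 19) (nat_lit 5) (nat_lit 315) (nat_lit 292) (nat_lit 113)) (XT.lf (nat_lit 0) (nat_lit 375130455147) (nat_lit 152) (nat_lit 75021985503) (nat_lit 228) (nat_lit 243515939238) (nat_lit 16) (nat_lit 5) (nat_lit 18) (nat_lit 5) (nat_lit 19) (nat_lit 5) (nat_lit 316) (nat_lit 292) (nat_lit 112))) (XT.nd (nat_lit 78) (nat_lit 76) (nat_lit 0) (XT.lf (nat_lit 0) (nat_lit 581944009449) (nat_lit 228) (nat_lit 38854366665) (nat_lit 76) (nat_lit 112749480664) (nat_lit 16) (nat_lit 5) (nat_lit 19) (nat_lit 5) (nat_lit 17) (nat_lit 4) (nat_lit 317) (nat_lit 292) (nat_lit 111)) (XT.lf (nat_lit 0) (nat_lit 275012448185) (nat_lit 76) (nat_lit 457829108083) (nat_lit 152) (nat_lit 43091123426) (nat_lit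 15) (nat_lit 5) (nat_lit 16) (nat_lit 5) (nat_lit 17) (nat_lit 4) (nat_lit 318) (nat_lit 292) (nat_lit 110)))))) (XT.nd (nat_lit 468) (nat_lit 152) (nat_lit 0) (XT.nd (nat_lit 234) (nat_lit 76) (nat_lit 0) (XT.nd (nat_lit 78) (nat_lit 152) (nat_lit 0) (XT.lf (nat_lit 0) (nat_lit 71485619764) (nat_lit 152) (nat_lit 207234815103) (nat_lit 76) (nat_lit 542758086903) (nat_lit 14) (nat_lit 5) (nat_lit 16) (nat_lit 5) (nat_lit 15) (nat_lit 5) (nat_lit 319) (nat_lit 292) (nat_lit 109)) (XT.nd (nat_lit 78) (nat_lit 0) (nat_lit 0) (XT.lf (nat_lit 0) (nat_lit 114556738006) (nat_lit 152) (nat_lit 81098792523) (nat_lit 228) (nat_lit 674702555303) (nat_lit 12) (nat_lit 5) (nat_lit 14) (nat_lit 5) (nat_lit 15) (nat_lit 5) (nat_lit 320) (nat_lit 292) (nat_lit 108)) (XT.lf (nat_lit 0) (nat_lit 338754952463) (nat_lit 228) (nat_lit 452147292906) (nat_lit 76) (nat_lit 131526096242) (nat_lit 12) (nat_lit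 5) (nat_lit 15) (nat_lit 5) (nat_lit 13) (nat_lit 4) (nat_lit 321) (nat_lit 292) (nat_lit 107)))) (XT.nd (nat_lit 78) (nat_lit 76) (nat_lit 0) (XT.lf (nat_lit 0) (nat_lit 495408768330) (nat_lit 228) (nat_lit 126307412074) (nat_lit 76) (nat_lit 356779522284) (nat_lit 12) (nat_lit 5) (nat_lit 15) (nat_lit 5) (nat_lit 13) (nat_lit 4) (nat_lit 322) (nat_lit 292) (nat_lit 106)) (XT.nd (nat_lit 78) (nat_lit 0) (nat_lit 0) (XT.lf (nat_lit 0) (nat_lit 237479302062) (nat_lit 76) (nat_lit 432826949992) (nat_lit 152) (nat_lit 368285291638) (nat_lit 11) (nat_lit 5) (nat_lit 12) (nat_lit 5) (nat_lit 13) (nat_lit 4) (nat_lit 323) (nat_lit 292) (nat_lit 105)) (XT.lf (nat_lit 0) (nat_lit 637552134976) (nat_lit 76) (nat_lit 225096848363) (nat_lit 152) (nat_lit 240569792773) (nat_lit 11) (nat_lit 5) (nat_lit 12) (nat_lit 5) (nat_lit 13) (nat_lit 4) (nat_lit 324) (nat_lit 292) (nat_lit 104))))) (XT.nd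 (nat_lit 35022) (nat_lit 0) (nat_lit 2128) (XT.nd (nat_lit 78) (nat_lit 152) (nat_lit 0) (XT.lf (nat_lit 0) (nat_lit 1069630764157) (nat_lit 76) (nat_lit 748350803) (nat_lit 152) (nat_lit 102637073659) (nat_lit 11) (nat_lit 5) (nat_lit 12) (nat_lit 5) (nat_lit 13) (nat_lit 4) (nat_lit 325) (nat_lit 292) (nat_lit 103)) (XT.nd (nat_lit 78) (nat_lit 0) (nat_lit 0) (XT.lf (nat_lit 0) (nat_lit 57299211277) (nat_lit 152) (nat_lit 951889711143) (nat_lit 76) (nat_lit 238056406171) (nat_lit 9) (nat_lit 5) (nat_lit 11) (nat_lit 5) (nat_lit 10) (nat_lit 4) (nat_lit 326) (nat_lit 292) (nat_lit 102)) (XT.lf (nat_lit 0) (nat_lit 227404914399) (nat_lit 152) (nat_lit 598069884047) (nat_lit 76) (nat_lit 501491162845) (nat_lit 9) (nat_lit 5) (nat_lit 11) (nat_lit 5) (nat_lit 10) (nat_lit 4) (nat_lit 327) (nat_lit 292) (nat_lit 101)))) (XT.nd (nat_lit 156) (nat_lit 0) (nat_lit 76) (XT.nd (nat_lit 78)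 (nat_lit 0) (nat_lit 0) (XT.lf (nat_lit 0) (nat_lit 51532552201) (nat_lit 532) (nat_lit 34777304795) (nat_lit 532) (nat_lit 34777304795) (nat_lit 37) (nat_lit 3) (nat_lit 44) (nat_lit 3) (nat_lit 44) (nat_lit 5) (nat_lit 293) (nat_lit 293) (nat_lit 134)) (XT.lf (nat_lit 76) (nat_lit 37421435640) (nat_lit 0) (nat_lit 70667259511) (nat_lit 532) (nat_lit 143700517672) (nat_lit 38) (nat_lit 5) (nat_lit 37) (nat_lit 3) (nat_lit 44) (nat_lit 5) (nat_lit 294) (nat_lit 293) (nat_lit 133))) (XT.nd (nat_lit 78) (nat_lit 0) (nat_lit 0) (XT.lf (nat_lit 0) (nat_lit 116413781495) (nat_lit 456) (nat_lit 106107985940) (nat_lit 532) (nat_lit 39419557580) (nat_lit 38) (nat_lit 5) (nat_lit 44) (nat_lit 5) (nat_lit 45) (nat_lit 5) (nat_lit 295) (nat_lit 293) (nat_lit 132)) (XT.lf (nat_lit 76) (nat_lit 9449727151) (nat_lit 0) (nat_lit 118017834058) (nat_lit 532) (nat_lit 145273030499) (nat_lit 39) (nat_lit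 5) (nat_lit 38) (nat_lit 5) (nat_lit 45) (nat_lit 5) (nat_lit 296) (nat_lit 293) (nat_lit 131))))))) (XT.nd (nat_lit 1014) (nat_lit 836) (nat_lit 0) (XT.nd (nat_lit 468) (nat_lit 836) (nat_lit 0) (XT.nd (nat_lit 234) (nat_lit 304) (nat_lit 0) (XT.nd (nat_lit 78) (nat_lit 0) (nat_lit 76) (XT.lf (nat_lit 76) (nat_lit 140286452193) (nat_lit 0) (nat_lit 2020283980) (nat_lit 532) (nat_lit 141864976543) (nat_lit 39) (nat_lit 5) (nat_lit 38) (nat_lit 5) (nat_lit 45) (nat_lit 5) (nat_lit 297) (nat_lit 293) (nat_lit 130)) (XT.nd (nat_lit 78) (nat_lit 0) (nat_lit 0) (XT.lf (nat_lit 0) (nat_lit 161297300221) (nat_lit 456) (nat_lit 17891606944) (nat_lit 532) (nat_lit 117091276211) (nat_lit 39) (nat_lit 5) (nat_lit 45) (nat_lit 5) (nat_lit 46) (nat_lit 5) (nat_lit 298) (nat_lit 293) (nat_lit 129)) (XT.lf (nat_lit 76) (nat_lit 124349469504) (nat_lit 0) (nat_lit 60500648072) (nat_lit 532) (nat_lit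 124263773811) (nat_lit 40) (nat_lit 5) (nat_lit 39) (nat_lit 5) (nat_lit 46) (nat_lit 5) (nat_lit 299) (nat_lit 293) (nat_lit 128)))) (XT.nd (nat_lit 78) (nat_lit 456) (nat_lit 0) (XT.lf (nat_lit 0) (nat_lit 212416754635) (nat_lit 456) (nat_lit 45588356818) (nat_lit 76) (nat_lit 64798817366) (nat_lit 40) (nat_lit 5) (nat_lit 46) (nat_lit 5) (nat_lit 41) (nat_lit 5) (nat_lit 300) (nat_lit 293) (nat_lit 127)) (XT.nd (nat_lit 78) (nat_lit 0) (nat_lit 0) (XT.lf (nat_lit 0) (nat_lit 108582000807) (nat_lit 456) (nat_lit 137789502172) (nat_lit 532) (nat_lit 90883044139) (nat_lit 34) (nat_lit 5) (nat_lit 40) (nat_lit 5) (nat_lit 41) (nat_lit 5) (nat_lit 301) (nat_lit 293) (nat_lit 126)) (XT.lf (nat_lit 0) (nat_lit 277678580093) (nat_lit 456) (nat_lit 6610456176) (nat_lit 532) (nat_lit 68472466487) (nat_lit 34) (nat_lit 5) (nat_lit 40) (nat_lit 5) (nat_lit 41) (nat_lit 5) (nat_lit 302) (nat_lit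 293) (nat_lit 125))))) (XT.nd (nat_lit 234) (nat_lit 380) (nat_lit 0) (XT.nd (nat_lit 78) (nat_lit 228) (nat_lit 0) (XT.lf (nat_lit 0) (nat_lit 92155540046) (nat_lit 228) (nat_lit 238548984702) (nat_lit 304) (nat_lit 38367326152) (nat_lit 31) (nat_lit 5) (nat_lit 34) (nat_lit 5) (nat_lit 35) (nat_lit 5) (nat_lit 303) (nat_lit 293) (nat_lit 124)) (XT.nd (nat_lit 78) (nat_lit 228) (nat_lit 0) (XT.lf (nat_lit 0) (nat_lit 276862314135) (nat_lit 228) (nat_lit 106191137756) (nat_lit 304) (nat_lit 3455959278) (nat_lit 31) (nat_lit 5) (nat_lit 34) (nat_lit 5) (nat_lit 35) (nat_lit 5) (nat_lit 304) (nat_lit 293) (nat_lit 123)) (XT.lf (nat_lit 0) (nat_lit 35263241978) (nat_lit 228) (nat_lit 332209982727) (nat_lit 76) (nat_lit 37584604766) (nat_lit 28) (nat_lit 5) (nat_lit 31) (nat_lit 5) (nat_lit 29) (nat_lit 5) (nat_lit 305) (nat_lit 293) (nat_lit 122)))) (XT.nd (nat_lit 156) (nat_lit 152) (nat_lit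 0) (XT.nd (nat_lit 78) (nat_lit 228) (nat_lit 0) (XT.lf (nat_lit 0) (nat_lit 82727244797) (nat_lit 228) (nat_lit 151598074961) (nat_lit 76) (nat_lit 190290902295) (nat_lit 28) (nat_lit 5) (nat_lit 31) (nat_lit 5) (nat_lit 29) (nat_lit 5) (nat_lit 306) (nat_lit 293) (nat_lit 121)) (XT.lf (nat_lit 0) (nat_lit 45751402427) (nat_lit 228) (nat_lit 89337242359) (nat_lit 304) (nat_lit 310562619274) (nat_lit 25) (nat_lit 5) (nat_lit 28) (nat_lit 5) (nat_lit 29) (nat_lit 5) (nat_lit 307) (nat_lit 293) (nat_lit 120))) (XT.nd (nat_lit 78) (nat_lit 152) (nat_lit 0) (XT.lf (nat_lit 0) (nat_lit 197508895873) (nat_lit 304) (nat_lit 202252235832) (nat_lit 76) (nat_lit 68138382758) (nat_lit 25) (nat_lit 5) (nat_lit 29) (nat_lit 5) (nat_lit 26) (nat_lit 5) (nat_lit 308) (nat_lit 293) (nat_lit 119)) (XT.lf (nat_lit 0) (nat_lit 9354658705) (nat_lit 152) (nat_lit 258113495697) (nat_lit 228) (nat_lit 224255839657)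 (nat_lit 23) (nat_lit 5) (nat_lit 25) (nat_lit 5) (nat_lit 26) (nat_lit 5) (nat_lit 309) (nat_lit 293) (nat_lit 118)))))) (XT.nd (nat_lit 546) (nat_lit 304) (nat_lit 0) (XT.nd (nat_lit 234) (nat_lit 380) (nat_lit 0) (XT.nd (nat_lit 78) (nat_lit 152) (nat_lit 0) (XT.lf (nat_lit 0) (nat_lit 249392318578) (nat_lit 152) (nat_lit 99161731098) (nat_lit 228) (nat_lit 168457990802) (nat_lit 23) (nat_lit 5) (nat_lit 25) (nat_lit 5) (nat_lit 26) (nat_lit 5) (nat_lit 310) (nat_lit 293) (nat_lit 117)) (XT.nd (nat_lit 78) (nat_lit 152) (nat_lit 0) (XT.lf (nat_lit 0) (nat_lit 437870555923) (nat_lit 228) (nat_lit 37433963716) (nat_lit 76) (nat_lit 68879111953) (nat_lit 23) (nat_lit 5) (nat_lit 26) (nat_lit 5) (nat_lit 24) (nat_lit 5) (nat_lit 311) (nat_lit 293) (nat_lit 116)) (XT.lf (nat_lit 0) (nat_lit 219575011646) (nat_lit 152) (nat_lit 322613751477) (nat_lit 228) (nat_lit 30711676556) (nat_lit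 21) (nat_lit 5) (nat_lit 23) (nat_lit 5) (nat_lit 24) (nat_lit 5) (nat_lit 312) (nat_lit 293) (nat_lit 115)))) (XT.nd (nat_lit 156) (nat_lit 152) (nat_lit 0) (XT.nd (nat_lit 78) (nat_lit 152) (nat_lit 0) (XT.lf (nat_lit 0) (nat_lit 49439780540) (nat_lit 228) (nat_lit 105810790800) (nat_lit 76) (nat_lit 448482011656) (nat_lit 20) (nat_lit 5) (nat_lit 23) (nat_lit 5) (nat_lit 21) (nat_lit 5) (nat_lit 313) (nat_lit 293) (nat_lit 114)) (XT.lf (nat_lit 0) (nat_lit 139152345344) (nat_lit 228) (nat_lit 468211883247) (nat_lit 76) (nat_lit 29218595262) (nat_lit 18) (nat_lit 5) (nat_lit 21) (nat_lit 5) (nat_lit 19) (nat_lit 5) (nat_lit 314) (nat_lit 293) (nat_lit 113))) (XT.nd (nat_lit 78) (nat_lit 152) (nat_lit 0) (XT.lf (nat_lit 0) (nat_lit 243042567111) (nat_lit 228) (nat_lit 205432546062) (nat_lit 76) (nat_lit 223025918750) (nat_lit 18) (nat_lit 5) (nat_lit 21) (nat_lit 5) (nat_lit 19) (nat_lit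 5) (nat_lit 315) (nat_lit 293) (nat_lit 112)) (XT.lf (nat_lit 0) (nat_lit 82495875379) (nat_lit 152) (nat_lit 274732131806) (nat_lit 228) (nat_lit 351825969491) (nat_lit 16) (nat_lit 5) (nat_lit 18) (nat_lit 5) (nat_lit 19) (nat_lit 5) (nat_lit 316) (nat_lit 293) (nat_lit 111))))) (XT.nd (nat_lit 234) (nat_lit 228) (nat_lit 0) (XT.nd (nat_lit 78) (nat_lit 76) (nat_lit 0) (XT.lf (nat_lit 0) (nat_lit 405141661971) (nat_lit 152) (nat_lit 81023484207) (nat_lit 228) (nat_lit 262996661810) (nat_lit 16) (nat_lit 5) (nat_lit 18) (nat_lit 5) (nat_lit 19) (nat_lit 5) (nat_lit 317) (nat_lit 293) (nat_lit 110)) (XT.nd (nat_lit 78) (nat_lit 76) (nat_lit 0) (XT.lf (nat_lit 0) (nat_lit 628500008475) (nat_lit 228) (nat_lit 41961969288) (nat_lit 76) (nat_lit 121769667935) (nat_lit 16) (nat_lit 5) (nat_lit 19) (nat_lit 5) (nat_lit 17) (nat_lit 4) (nat_lit 318) (nat_lit 293) (nat_lit 109)) (XT.lf (nat_lit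 0) (nat_lit 297014171847) (nat_lit 76) (nat_lit 494455169270) (nat_lit 152) (nat_lit 46537914865) (nat_lit 15) (nat_lit 5) (nat_lit 16) (nat_lit 5) (nat_lit 17) (nat_lit 4) (nat_lit 319) (nat_lit 293) (nat_lit 108)))) (XT.nd (nat_lit 156) (nat_lit 0) (nat_lit 0) (XT.nd (nat_lit 78) (nat_lit 152) (nat_lit 0) (XT.lf (nat_lit 0) (nat_lit 77204907772) (nat_lit 152) (nat_lit 223812902249) (nat_lit 76) (nat_lit 586178957336) (nat_lit 14) (nat_lit 5) (nat_lit 16) (nat_lit 5) (nat_lit 15) (nat_lit 5) (nat_lit 320) (nat_lit 293) (nat_lit 107)) (XT.lf (nat_lit 0) (nat_lit 123721957436) (nat_lit 152) (nat_lit 87586437849) (nat_lit 228) (nat_lit 728678302627) (nat_lit 12) (nat_lit 5) (nat_lit 14) (nat_lit 5) (nat_lit 15) (nat_lit 5) (nat_lit 321) (nat_lit 293) (nat_lit 106))) (XT.nd (nat_lit 78) (nat_lit 0) (nat_lit 0) (XT.lf (nat_lit 0) (nat_lit 365855745439) (nat_lit 228) (nat_lit 488318419886)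 (nat_lit 76) (nat_lit 142048410946) (nat_lit 12) (nat_lit 5) (nat_lit 15) (nat_lit 5) (nat_lit 13) (nat_lit 4) (nat_lit 322) (nat_lit 293) (nat_lit 105)) (XT.lf (nat_lit 0) (nat_lit 535041837184) (nat_lit 228) (nat_lit 136411397213) (nat_lit 76) (nat_lit 385322094257) (nat_lit 12) (nat_lit 5) (nat_lit 15) (nat_lit 5) (nat_lit 13) (nat_lit 4) (nat_lit 323) (nat_lit 293) (nat_lit 104))))))))
noncomputable def xc122 : XT := (XT.nd (nat_lit 36972) (nat_lit 0) (nat_lit 0) (XT.nd (nat_lit 35958) (nat_lit 0) (nat_lit 532) (XT.nd (nat_lit 35412) (nat_lit 0) (nat_lit 1748) (XT.nd (nat_lit 35178) (nat_lit 0) (nat_lit 1976) (XT.nd (nat_lit 78) (nat_lit 0) (nat_lit 0) (XT.lf (nat_lit 0) (nat_lit 256478238665) (nat_lit 76) (nat_lit 467452867975) (nat_lit 152) (nat_lit 397747731399) (nat_lit 11) (nat_lit 5) (nat_lit 12) (nat_lit 5) (nat_lit 13) (nat_lit 4) (nat_lit 324) (nat_lit 293) (nat_lit 103))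 (XT.nd (nat_lit 78) (nat_lit 0) (nat_lit 0) (XT.lf (nat_lit 0) (nat_lit 688556854328) (nat_lit 76) (nat_lit 243104375846) (nat_lit 152) (nat_lit 259815021037) (nat_lit 11) (nat_lit 5) (nat_lit 12) (nat_lit 5) (nat_lit 13) (nat_lit 4) (nat_lit 325) (nat_lit 293) (nat_lit 102)) (XT.lf (nat_lit 0) (nat_lit 1155201733210) (nat_lit 76) (nat_lit 808014806) (nat_lit 152) (nat_lit 110847710702) (nat_lit 11) (nat_lit 5) (nat_lit 12) (nat_lit 5) (nat_lit 13) (nat_lit 4) (nat_lit 326) (nat_lit 293) (nat_lit 101)))) (XT.nd (nat_lit 78) (nat_lit 0) (nat_lit 0) (XT.lf (nat_lit 0) (nat_lit 55656132470) (nat_lit 532) (nat_lit 37558959758) (nat_lit 532) (nat_lit 37558959758) (nat_lit 37) (nat_lit 3) (nat_lit 44) (nat_lit 3) (nat_lit 44) (nat_lit 5) (nat_lit 294) (nat_lit 294) (nat_lit 132)) (XT.nd (nat_lit 78) (nat_lit 0) (nat_lit 76) (XT.lf (nat_lit 76) (nat_lit 40416182527) (nat_lit 0) (nat_lit 76321440636)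 (nat_lit 532) (nat_lit 155194571463) (nat_lit 38) (nat_lit 5) (nat_lit 37) (nat_lit 3) (nat_lit 44) (nat_lit 5) (nat_lit 295) (nat_lit 294) (nat_lit 131)) (XT.lf (nat_lit 0) (nat_lit 125728562858) (nat_lit 456) (nat_lit 114595507678) (nat_lit 532) (nat_lit 42572418181) (nat_lit 38) (nat_lit 5) (nat_lit 44) (nat_lit 5) (nat_lit 45) (nat_lit 5) (nat_lit 296) (nat_lit 294) (nat_lit 130))))) (XT.nd (nat_lit 234) (nat_lit 304) (nat_lit 0) (XT.nd (nat_lit 78) (nat_lit 0) (nat_lit 0) (XT.lf (nat_lit 76) (nat_lit 10206794178) (nat_lit 0) (nat_lit 127459752599) (nat_lit 532) (nat_lit 156893158414) (nat_lit 39) (nat_lit 5) (nat_lit 38) (nat_lit 5) (nat_lit 45) (nat_lit 5) (nat_lit 297) (nat_lit 294) (nat_lit 129)) (XT.nd (nat_lit 78) (nat_lit 0) (nat_lit 76) (XT.lf (nat_lit 76) (nat_lit 151510376568) (nat_lit 0) (nat_lit 2182362084) (nat_lit 532) (nat_lit 153212587142) (nat_lit 39) (nat_lit 5)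 (nat_lit 38) (nat_lit 5) (nat_lit 45) (nat_lit 5) (nat_lit 298) (nat_lit 294) (nat_lit 128)) (XT.lf (nat_lit 0) (nat_lit 174202429269) (nat_lit 456) (nat_lit 19321877082) (nat_lit 532) (nat_lit 126458177748) (nat_lit 39) (nat_lit 5) (nat_lit 45) (nat_lit 5) (nat_lit 46) (nat_lit 5) (nat_lit 299) (nat_lit 294) (nat_lit 127)))) (XT.nd (nat_lit 156) (nat_lit 380) (nat_lit 0) (XT.nd (nat_lit 78) (nat_lit 0) (nat_lit 76) (XT.lf (nat_lit 76) (nat_lit 134298458686) (nat_lit 0) (nat_lit 65340938505) (nat_lit 532) (nat_lit 134203498015) (nat_lit 40) (nat_lit 5) (nat_lit 39) (nat_lit 5) (nat_lit 46) (nat_lit 5) (nat_lit 300) (nat_lit 294) (nat_lit 126)) (XT.lf (nat_lit 0) (nat_lit 229411265812) (nat_lit 456) (nat_lit 49234365316) (nat_lit 76) (nat_lit 69982512892) (nat_lit 40) (nat_lit 5) (nat_lit 46) (nat_lit 5) (nat_lit 41) (nat_lit 5) (nat_lit 301) (nat_lit 294) (nat_lit 125))) (XT.nd (nat_lit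 78) (nat_lit 0) (nat_lit 0) (XT.lf (nat_lit 0) (nat_lit 117269594082) (nat_lit 456) (nat_lit 148812738064) (nat_lit 532) (nat_lit 98152484991) (nat_lit 34) (nat_lit 5) (nat_lit 40) (nat_lit 5) (nat_lit 41) (nat_lit 5) (nat_lit 302) (nat_lit 294) (nat_lit 124)) (XT.lf (nat_lit 0) (nat_lit 299893823177) (nat_lit 456) (nat_lit 7139362779) (nat_lit 532) (nat_lit 73949150213) (nat_lit 34) (nat_lit 5) (nat_lit 40) (nat_lit 5) (nat_lit 41) (nat_lit 5) (nat_lit 303) (nat_lit 294) (nat_lit 123)))))) (XT.nd (nat_lit 468) (nat_lit 532) (nat_lit 0) (XT.nd (nat_lit 234) (nat_lit 228) (nat_lit 0) (XT.nd (nat_lit 78) (nat_lit 228) (nat_lit 0) (XT.lf (nat_lit 0) (nat_lit 99529001959) (nat_lit 228) (nat_lit 257632858436) (nat_lit 304) (nat_lit 41435656367) (nat_lit 31) (nat_lit 5) (nat_lit 34) (nat_lit 5) (nat_lit 35) (nat_lit 5) (nat_lit 304) (nat_lit 294) (nat_lit 122)) (XT.nd (nat_lit 78) (nat_lit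 228) (nat_lit 0) (XT.lf (nat_lit 0) (nat_lit 299012242515) (nat_lit 228) (nat_lit 114686387070) (nat_lit 304) (nat_lit 3731458356) (nat_lit 31) (nat_lit 5) (nat_lit 34) (nat_lit 5) (nat_lit 35) (nat_lit 5) (nat_lit 305) (nat_lit 294) (nat_lit 121)) (XT.lf (nat_lit 0) (nat_lit 38085186742) (nat_lit 228) (nat_lit 358785738707) (nat_lit 76) (nat_lit 40591456120) (nat_lit 28) (nat_lit 5) (nat_lit 31) (nat_lit 5) (nat_lit 29) (nat_lit 5) (nat_lit 306) (nat_lit 294) (nat_lit 120)))) (XT.nd (nat_lit 78) (nat_lit 228) (nat_lit 0) (XT.lf (nat_lit 0) (nat_lit 89346244201) (nat_lit 228) (nat_lit 163724955552) (nat_lit 76) (nat_lit 205514251305) (nat_lit 28) (nat_lit 5) (nat_lit 31) (nat_lit 5) (nat_lit 29) (nat_lit 5) (nat_lit 307) (nat_lit 294) (nat_lit 119)) (XT.nd (nat_lit 78) (nat_lit 0) (nat_lit 0) (XT.lf (nat_lit 0) (nat_lit 49412455586) (nat_lit 228) (nat_lit 96484062505) (nat_lit 304)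 (nat_lit 335406781617) (nat_lit 25) (nat_lit 5) (nat_lit 28) (nat_lit 5) (nat_lit 29) (nat_lit 5) (nat_lit 308) (nat_lit 294) (nat_lit 118)) (XT.lf (nat_lit 0) (nat_lit 213310334907) (nat_lit 304) (nat_lit 218431486354) (nat_lit 76) (nat_lit 73589593449) (nat_lit 25) (nat_lit 5) (nat_lit 29) (nat_lit 5) (nat_lit 26) (nat_lit 5) (nat_lit 309) (nat_lit 294) (nat_lit 117))))) (XT.nd (nat_lit 234) (nat_lit 380) (nat_lit 0) (XT.nd (nat_lit 78) (nat_lit 0) (nat_lit 0) (XT.lf (nat_lit 0) (nat_lit 10103936243) (nat_lit 152) (nat_lit 278762365757) (nat_lit 228) (nat_lit 242195553444) (nat_lit 23) (nat_lit 5) (nat_lit 25) (nat_lit 5) (nat_lit 26) (nat_lit 5) (nat_lit 310) (nat_lit 294) (nat_lit 116)) (XT.nd (nat_lit 78) (nat_lit 0) (nat_lit 0) (XT.lf (nat_lit 0) (nat_lit 269344541881) (nat_lit 152) (nat_lit 107094475516) (nat_lit 228) (nat_lit 181933932487) (nat_lit 23) (nat_lit 5) (nat_lit 25)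 (nat_lit 5) (nat_lit 26) (nat_lit 5) (nat_lit 311) (nat_lit 294) (nat_lit 115)) (XT.lf (nat_lit 0) (nat_lit 472900800780) (nat_lit 228) (nat_lit 40427859534) (nat_lit 76) (nat_lit 74389611615) (nat_lit 23) (nat_lit 5) (nat_lit 26) (nat_lit 5) (nat_lit 24) (nat_lit 5) (nat_lit 312) (nat_lit 294) (nat_lit 114)))) (XT.nd (nat_lit 156) (nat_lit 152) (nat_lit 0) (XT.nd (nat_lit 78) (nat_lit 76) (nat_lit 0) (XT.lf (nat_lit 0) (nat_lit 237141813066) (nat_lit 152) (nat_lit 348422626270) (nat_lit 228) (nat_lit 33167987505) (nat_lit 21) (nat_lit 5) (nat_lit 23) (nat_lit 5) (nat_lit 24) (nat_lit 5) (nat_lit 313) (nat_lit 294) (nat_lit 113)) (XT.lf (nat_lit 0) (nat_lit 53395511133) (nat_lit 228) (nat_lit 114274882292) (nat_lit 76) (nat_lit 484360750644) (nat_lit 20) (nat_lit 5) (nat_lit 23) (nat_lit 5) (nat_lit 21) (nat_lit 5) (nat_lit 314) (nat_lit 294) (nat_lit 112))) (XT.nd (nat_lit 78) (nat_lit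 0) (nat_lit 0) (XT.lf (nat_lit 0) (nat_lit 150285064058) (nat_lit 228) (nat_lit 505668043484) (nat_lit 76) (nat_lit 31556298144) (nat_lit 18) (nat_lit 5) (nat_lit 21) (nat_lit 5) (nat_lit 19) (nat_lit 5) (nat_lit 315) (nat_lit 294) (nat_lit 111)) (XT.lf (nat_lit 0) (nat_lit 262486464227) (nat_lit 228) (nat_lit 221866417875) (nat_lit 76) (nat_lit 240868191566) (nat_lit 18) (nat_lit 5) (nat_lit 21) (nat_lit 5) (nat_lit 19) (nat_lit 5) (nat_lit 316) (nat_lit 294) (nat_lit 110))))))) (XT.nd (nat_lit 36036) (nat_lit 0) (nat_lit 912) (XT.nd (nat_lit 468) (nat_lit 76) (nat_lit 0) (XT.nd (nat_lit 234) (nat_lit 304) (nat_lit 0) (XT.nd (nat_lit 78) (nat_lit 0) (nat_lit 0) (XT.lf (nat_lit 0) (nat_lit 89096258753) (nat_lit 152) (nat_lit 296710461484) (nat_lit 228) (nat_lit 379971535413) (nat_lit 16) (nat_lit 5) (nat_lit 18) (nat_lit 5) (nat_lit 19) (nat_lit 5) (nat_lit 317) (nat_lit 294) (nat_lit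 109)) (XT.nd (nat_lit 78) (nat_lit 0) (nat_lit 0) (XT.lf (nat_lit 0) (nat_lit 437553655432) (nat_lit 152) (nat_lit 87505139918) (nat_lit 228) (nat_lit 284035921017) (nat_lit 16) (nat_lit 5) (nat_lit 18) (nat_lit 5) (nat_lit 19) (nat_lit 5) (nat_lit 318) (nat_lit 294) (nat_lit 108)) (XT.lf (nat_lit 0) (nat_lit 678780419193) (nat_lit 228) (nat_lit 45318286647) (nat_lit 76) (nat_lit 131511437544) (nat_lit 16) (nat_lit 5) (nat_lit 19) (nat_lit 5) (nat_lit 17) (nat_lit 4) (nat_lit 319) (nat_lit 294) (nat_lit 107)))) (XT.nd (nat_lit 78) (nat_lit 228) (nat_lit 0) (XT.lf (nat_lit 0) (nat_lit 320775929571) (nat_lit 76) (nat_lit 534011353508) (nat_lit 152) (nat_lit 50260520727) (nat_lit 15) (nat_lit 5) (nat_lit 16) (nat_lit 5) (nat_lit 17) (nat_lit 4) (nat_lit 320) (nat_lit 294) (nat_lit 106)) (XT.nd (nat_lit 78) (nat_lit 152) (nat_lit 0) (XT.lf (nat_lit 0) (nat_lit 83381676275) (nat_lit 152)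 (nat_lit 241717335952) (nat_lit 76) (nat_lit 633073465522) (nat_lit 14) (nat_lit 5) (nat_lit 16) (nat_lit 5) (nat_lit 15) (nat_lit 5) (nat_lit 321) (nat_lit 294) (nat_lit 105)) (XT.lf (nat_lit 0) (nat_lit 133620297356) (nat_lit 152) (nat_lit 94593131619) (nat_lit 228) (nat_lit 786972174948) (nat_lit 12) (nat_lit 5) (nat_lit 14) (nat_lit 5) (nat_lit 15) (nat_lit 5) (nat_lit 322) (nat_lit 294) (nat_lit 104))))) (XT.nd (nat_lit 234) (nat_lit 0) (nat_lit 0) (XT.nd (nat_lit 78) (nat_lit 76) (nat_lit 0) (XT.lf (nat_lit 0) (nat_lit 395124545248) (nat_lit 228) (nat_lit 527383330674) (nat_lit 76) (nat_lit 153412478443) (nat_lit 12) (nat_lit 5) (nat_lit 15) (nat_lit 5) (nat_lit 13) (nat_lit 4) (nat_lit 323) (nat_lit 294) (nat_lit 103)) (XT.nd (nat_lit 78) (nat_lit 76) (nat_lit 0) (XT.lf (nat_lit 0) (nat_lit 577845499134) (nat_lit 228) (nat_lit 147323787877) (nat_lit 76) (nat_lit 416148042002)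 (nat_lit 12) (nat_lit 5) (nat_lit 15) (nat_lit 5) (nat_lit 13) (nat_lit 4) (nat_lit 324) (nat_lit 294) (nat_lit 102)) (XT.lf (nat_lit 0) (nat_lit 276997005679) (nat_lit 76) (nat_lit 504848893352) (nat_lit 152) (nat_lit 429567221062) (nat_lit 11) (nat_lit 5) (nat_lit 12) (nat_lit 5) (nat_lit 13) (nat_lit 4) (nat_lit 325) (nat_lit 294) (nat_lit 101)))) (XT.nd (nat_lit 35178) (nat_lit 0) (nat_lit 1976) (XT.nd (nat_lit 35100) (nat_lit 0) (nat_lit 1976) (XT.lf (nat_lit 0) (nat_lit 743641872972) (nat_lit 76) (nat_lit 262552536968) (nat_lit 152) (nat_lit 280599918230) (nat_lit 11) (nat_lit 5) (nat_lit 12) (nat_lit 5) (nat_lit 13) (nat_lit 4) (nat_lit 326) (nat_lit 294) (nat_lit 100)) (XT.lf (nat_lit 0) (nat_lit 60109459910) (nat_lit 532) (nat_lit 40563222645) (nat_lit 532) (nat_lit 40563222645) (nat_lit 37) (nat_lit 3) (nat_lit 44) (nat_lit 3) (nat_lit 44) (nat_lit 5) (nat_lit 295) (nat_lit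 295) (nat_lit 130))) (XT.nd (nat_lit 78) (nat_lit 0) (nat_lit 76) (XT.lf (nat_lit 76) (nat_lit 43650361933) (nat_lit 0) (nat_lit 82427842070) (nat_lit 532) (nat_lit 167608433113) (nat_lit 38) (nat_lit 5) (nat_lit 37) (nat_lit 3) (nat_lit 44) (nat_lit 5) (nat_lit 296) (nat_lit 295) (nat_lit 129)) (XT.lf (nat_lit 0) (nat_lit 135788287224) (nat_lit 456) (nat_lit 123762190527) (nat_lit 532) (nat_lit 45977608063) (nat_lit 38) (nat_lit 5) (nat_lit 44) (nat_lit 5) (nat_lit 45) (nat_lit 5) (nat_lit 297) (nat_lit 295) (nat_lit 128)))))) (XT.nd (nat_lit 546) (nat_lit 836) (nat_lit 0) (XT.nd (nat_lit 234) (nat_lit 304) (nat_lit 0) (XT.nd (nat_lit 78) (nat_lit 0) (nat_lit 0) (XT.lf (nat_lit 76) (nat_lit 11024271230) (nat_lit 0) (nat_lit 137656954460) (nat_lit 532) (nat_lit 169443141157) (nat_lit 39) (nat_lit 5) (nat_lit 38) (nat_lit 5) (nat_lit 45) (nat_lit 5) (nat_lit 298) (nat_lit 295) (nat_lit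 127)) (XT.nd (nat_lit 78) (nat_lit 0) (nat_lit 76) (XT.lf (nat_lit 76) (nat_lit 163632071062) (nat_lit 0) (nat_lit 2357341470) (nat_lit 532) (nat_lit 165468233068) (nat_lit 39) (nat_lit 5) (nat_lit 38) (nat_lit 5) (nat_lit 45) (nat_lit 5) (nat_lit 299) (nat_lit 295) (nat_lit 126)) (XT.lf (nat_lit 0) (nat_lit 188139776758) (nat_lit 456) (nat_lit 20866719827) (nat_lit 532) (nat_lit 136574488552) (nat_lit 39) (nat_lit 5) (nat_lit 45) (nat_lit 5) (nat_lit 46) (nat_lit 5) (nat_lit 300) (nat_lit 295) (nat_lit 125)))) (XT.nd (nat_lit 156) (nat_lit 380) (nat_lit 0) (XT.nd (nat_lit 78) (nat_lit 0) (nat_lit 76) (XT.lf (nat_lit 76) (nat_lit 145043219830) (nat_lit 0) (nat_lit 70568418136) (nat_lit 532) (nat_lit 144938596700) (nat_lit 40) (nat_lit 5) (nat_lit 39) (nat_lit 5) (nat_lit 46) (nat_lit 5) (nat_lit 301) (nat_lit 295) (nat_lit 124)) (XT.lf (nat_lit 0) (nat_lit 247765170854) (nat_lit 456)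 (nat_lit 53172205721) (nat_lit 76) (nat_lit 75580933999) (nat_lit 40) (nat_lit 5) (nat_lit 46) (nat_lit 5) (nat_lit 41) (nat_lit 5) (nat_lit 302) (nat_lit 295) (nat_lit 123))) (XT.nd (nat_lit 78) (nat_lit 0) (nat_lit 0) (XT.lf (nat_lit 0) (nat_lit 126652047421) (nat_lit 456) (nat_lit 160717822025) (nat_lit 532) (nat_lit 106003652686) (nat_lit 34) (nat_lit 5) (nat_lit 40) (nat_lit 5) (nat_lit 41) (nat_lit 5) (nat_lit 303) (nat_lit 295) (nat_lit 122)) (XT.lf (nat_lit 0) (nat_lit 323886149228) (nat_lit 456) (nat_lit 7710571909) (nat_lit 532) (nat_lit 79864127504) (nat_lit 34) (nat_lit 5) (nat_lit 40) (nat_lit 5) (nat_lit 41) (nat_lit 5) (nat_lit 304) (nat_lit 295) (nat_lit 121))))) (XT.nd (nat_lit 234) (nat_lit 380) (nat_lit 0) (XT.nd (nat_lit 78) (nat_lit 228) (nat_lit 0) (XT.lf (nat_lit 0) (nat_lit 107492195495) (nat_lit 228) (nat_lit 278243448493) (nat_lit 304) (nat_lit 44749603631)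 (nat_lit 31) (nat_lit 5) (nat_lit 34) (nat_lit 5) (nat_lit 35) (nat_lit 5) (nat_lit 305) (nat_lit 295) (nat_lit 120)) (XT.nd (nat_lit 78) (nat_lit 228) (nat_lit 0) (XT.lf (nat_lit 0) (nat_lit 322934030601) (nat_lit 228) (nat_lit 123861262280) (nat_lit 304) (nat_lit 4029136834) (nat_lit 31) (nat_lit 5) (nat_lit 34) (nat_lit 5) (nat_lit 35) (nat_lit 5) (nat_lit 306) (nat_lit 295) (nat_lit 119)) (XT.lf (nat_lit 0) (nat_lit 41132760774) (nat_lit 228) (nat_lit 387487703909) (nat_lit 76) (nat_lit 43838843745) (nat_lit 28) (nat_lit 5) (nat_lit 31) (nat_lit 5) (nat_lit 29) (nat_lit 5) (nat_lit 307) (nat_lit 295) (nat_lit 118)))) (XT.nd (nat_lit 156) (nat_lit 152) (nat_lit 0) (XT.nd (nat_lit 78) (nat_lit 228) (nat_lit 0) (XT.lf (nat_lit 0) (nat_lit 96494646600) (nat_lit 228) (nat_lit 176822124316) (nat_lit 76) (nat_lit 221955457275) (nat_lit 28) (nat_lit 5) (nat_lit 31) (nat_lit 5) (nat_lit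 29) (nat_lit 5) (nat_lit 308) (nat_lit 295) (nat_lit 117)) (XT.lf (nat_lit 0) (nat_lit 53366258759) (nat_lit 228) (nat_lit 104202650981) (nat_lit 304) (nat_lit 362238597809) (nat_lit 25) (nat_lit 5) (nat_lit 28) (nat_lit 5) (nat_lit 29) (nat_lit 5) (nat_lit 309) (nat_lit 295) (nat_lit 116))) (XT.nd (nat_lit 78) (nat_lit 152) (nat_lit 0) (XT.lf (nat_lit 0) (nat_lit 230375785296) (nat_lit 304) (nat_lit 235905209356) (nat_lit 76) (nat_lit 79476881013) (nat_lit 25) (nat_lit 5) (nat_lit 29) (nat_lit 5) (nat_lit 26) (nat_lit 5) (nat_lit 310) (nat_lit 295) (nat_lit 115)) (XT.lf (nat_lit 0) (nat_lit 10913026899) (nat_lit 152) (nat_lit 301063175323) (nat_lit 228) (nat_lit 261570551813) (nat_lit 23) (nat_lit 5) (nat_lit 25) (nat_lit 5) (nat_lit 26) (nat_lit 5) (nat_lit 311) (nat_lit 295) (nat_lit 114))))))))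
noncomputable def xc123 : XT := (XT.nd (nat_lit 37284) (nat_lit 0) (nat_lit 0) (XT.nd (nat_lit 1014) (nat_lit 0) (nat_lit 0) (XT.nd (nat_lit 468) (nat_lit 456) (nat_lit 0) (XT.nd (nat_lit 234) (nat_lit 228) (nat_lit 0) (XT.nd (nat_lit 78) (nat_lit 152) (nat_lit 0) (XT.lf (nat_lit 0) (nat_lit 290892823525) (nat_lit 152) (nat_lit 115661867173) (nat_lit 228) (nat_lit 196488049025) (nat_lit 23) (nat_lit 5) (nat_lit 25) (nat_lit 5) (nat_lit 26) (nat_lit 5) (nat_lit 312) (nat_lit 295) (nat_lit 113)) (XT.nd (nat_lit 78) (nat_lit 152) (nat_lit 0) (XT.lf (nat_lit 0) (nat_lit 510733379575) (nat_lit 228) (nat_lit 43661384181) (nat_lit 76) (nat_lit 80340926897) (nat_lit 23) (nat_lit 5) (nat_lit 26) (nat_lit 5) (nat_lit 24) (nat_lit 5) (nat_lit 313) (nat_lit 295) (nat_lit 112)) (XT.lf (nat_lit 0) (nat_lit 256113844400) (nat_lit 152) (nat_lit 376296243191) (nat_lit 228) (nat_lit 35820892233) (nat_lit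 21) (nat_lit 5) (nat_lit 23) (nat_lit 5) (nat_lit 24) (nat_lit 5) (nat_lit 314) (nat_lit 295) (nat_lit 111)))) (XT.nd (nat_lit 78) (nat_lit 152) (nat_lit 0) (XT.lf (nat_lit 0) (nat_lit 57667621973) (nat_lit 228) (nat_lit 123416211206) (nat_lit 76) (nat_lit 523109763350) (nat_lit 20) (nat_lit 5) (nat_lit 23) (nat_lit 5) (nat_lit 21) (nat_lit 5) (nat_lit 315) (nat_lit 295) (nat_lit 110)) (XT.nd (nat_lit 78) (nat_lit 0) (nat_lit 0) (XT.lf (nat_lit 0) (nat_lit 162308324504) (nat_lit 228) (nat_lit 546120809303) (nat_lit 76) (nat_lit 34080986547) (nat_lit 18) (nat_lit 5) (nat_lit 21) (nat_lit 5) (nat_lit 19) (nat_lit 5) (nat_lit 316) (nat_lit 295) (nat_lit 109)) (XT.lf (nat_lit 0) (nat_lit 283485802959) (nat_lit 228) (nat_lit 239615103842) (nat_lit 76) (nat_lit 260137817772) (nat_lit 18) (nat_lit 5) (nat_lit 21) (nat_lit 5) (nat_lit 19) (nat_lit 5) (nat_lit 317) (nat_lit 295) (nat_lit 108)))))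 (XT.nd (nat_lit 234) (nat_lit 304) (nat_lit 0) (XT.nd (nat_lit 78) (nat_lit 0) (nat_lit 0) (XT.lf (nat_lit 0) (nat_lit 96224571031) (nat_lit 152) (nat_lit 320447091898) (nat_lit 228) (nat_lit 410368819601) (nat_lit 16) (nat_lit 5) (nat_lit 18) (nat_lit 5) (nat_lit 19) (nat_lit 5) (nat_lit 318) (nat_lit 295) (nat_lit 107)) (XT.nd (nat_lit 78) (nat_lit 0) (nat_lit 0) (XT.lf (nat_lit 0) (nat_lit 472558514143) (nat_lit 152) (nat_lit 94505359904) (nat_lit 228) (nat_lit 306758388545) (nat_lit 16) (nat_lit 5) (nat_lit 18) (nat_lit 5) (nat_lit 19) (nat_lit 5) (nat_lit 319) (nat_lit 295) (nat_lit 106)) (XT.lf (nat_lit 0) (nat_lit 733083204271) (nat_lit 228) (nat_lit 48943200724) (nat_lit 76) (nat_lit 142032520736) (nat_lit 16) (nat_lit 5) (nat_lit 19) (nat_lit 5) (nat_lit 17) (nat_lit 4) (nat_lit 320) (nat_lit 295) (nat_lit 105)))) (XT.nd (nat_lit 156) (nat_lit 152) (nat_lit 0) (XT.nd (nat_lit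 78) (nat_lit 76) (nat_lit 0) (XT.lf (nat_lit 0) (nat_lit 346438538897) (nat_lit 76) (nat_lit 576732065197) (nat_lit 152) (nat_lit 54280996021) (nat_lit 15) (nat_lit 5) (nat_lit 16) (nat_lit 5) (nat_lit 17) (nat_lit 4) (nat_lit 321) (nat_lit 295) (nat_lit 104)) (XT.lf (nat_lit 0) (nat_lit 90052532633) (nat_lit 152) (nat_lit 261054209732) (nat_lit 76) (nat_lit 683719507029) (nat_lit 14) (nat_lit 5) (nat_lit 16) (nat_lit 5) (nat_lit 15) (nat_lit 5) (nat_lit 322) (nat_lit 295) (nat_lit 103))) (XT.nd (nat_lit 78) (nat_lit 0) (nat_lit 0) (XT.lf (nat_lit 0) (nat_lit 144310421252) (nat_lit 152) (nat_lit 102160392455) (nat_lit 228) (nat_lit 849929612962) (nat_lit 12) (nat_lit 5) (nat_lit 14) (nat_lit 5) (nat_lit 15) (nat_lit 5) (nat_lit 323) (nat_lit 295) (nat_lit 102)) (XT.lf (nat_lit 0) (nat_lit 426734800512) (nat_lit 228) (nat_lit 569573514615) (nat_lit 76) (nat_lit 165685643574) (nat_lit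 12) (nat_lit 5) (nat_lit 15) (nat_lit 5) (nat_lit 13) (nat_lit 4) (nat_lit 324) (nat_lit 295) (nat_lit 101)))))) (XT.nd (nat_lit 35724) (nat_lit 0) (nat_lit 1216) (XT.nd (nat_lit 35412) (nat_lit 0) (nat_lit 1976) (XT.nd (nat_lit 35256) (nat_lit 0) (nat_lit 1900) (XT.lf (nat_lit 0) (nat_lit 624073409106) (nat_lit 228) (nat_lit 159109244137) (nat_lit 76) (nat_lit 449440039858) (nat_lit 12) (nat_lit 5) (nat_lit 15) (nat_lit 5) (nat_lit 13) (nat_lit 4) (nat_lit 325) (nat_lit 295) (nat_lit 100)) (XT.nd (nat_lit 78) (nat_lit 0) (nat_lit 0) (XT.lf (nat_lit 0) (nat_lit 64918934160) (nat_lit 532) (nat_lit 43807891317) (nat_lit 532) (nat_lit 43807891317) (nat_lit 37) (nat_lit 3) (nat_lit 44) (nat_lit 3) (nat_lit 44) (nat_lit 5) (nat_lit 296) (nat_lit 296) (nat_lit 128)) (XT.lf (nat_lit 76) (nat_lit 47143149465) (nat_lit 0) (nat_lit 89022657728) (nat_lit 532) (nat_lit 181015646799) (nat_lit 38)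 (nat_lit 5) (nat_lit 37) (nat_lit 3) (nat_lit 44) (nat_lit 5) (nat_lit 297) (nat_lit 296) (nat_lit 127)))) (XT.nd (nat_lit 156) (nat_lit 0) (nat_lit 0) (XT.nd (nat_lit 78) (nat_lit 0) (nat_lit 0) (XT.lf (nat_lit 0) (nat_lit 146652584202) (nat_lit 456) (nat_lit 133662344640) (nat_lit 532) (nat_lit 49655299243) (nat_lit 38) (nat_lit 5) (nat_lit 44) (nat_lit 5) (nat_lit 45) (nat_lit 5) (nat_lit 298) (nat_lit 296) (nat_lit 126)) (XT.lf (nat_lit 76) (nat_lit 11907013269) (nat_lit 0) (nat_lit 148669872317) (nat_lit 532) (nat_lit 182997332222) (nat_lit 39) (nat_lit 5) (nat_lit 38) (nat_lit 5) (nat_lit 45) (nat_lit 5) (nat_lit 299) (nat_lit 296) (nat_lit 125))) (XT.nd (nat_lit 78) (nat_lit 0) (nat_lit 76) (XT.lf (nat_lit 76) (nat_lit 176723377803) (nat_lit 0) (nat_lit 2546263509) (nat_lit 532) (nat_lit 178704524836) (nat_lit 39) (nat_lit 5) (nat_lit 38) (nat_lit 5) (nat_lit 45) (nat_lit 5)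 (nat_lit 300) (nat_lit 296) (nat_lit 124)) (XT.lf (nat_lit 0) (nat_lit 203191947536) (nat_lit 456) (nat_lit 22535279445) (nat_lit 532) (nat_lit 147500153212) (nat_lit 39) (nat_lit 5) (nat_lit 45) (nat_lit 5) (nat_lit 46) (nat_lit 5) (nat_lit 301) (nat_lit 296) (nat_lit 123))))) (XT.nd (nat_lit 234) (nat_lit 456) (nat_lit 0) (XT.nd (nat_lit 78) (nat_lit 380) (nat_lit 0) (XT.lf (nat_lit 76) (nat_lit 156647435689) (nat_lit 0) (nat_lit 76214066956) (nat_lit 532) (nat_lit 156532671785) (nat_lit 40) (nat_lit 5) (nat_lit 39) (nat_lit 5) (nat_lit 46) (nat_lit 5) (nat_lit 302) (nat_lit 296) (nat_lit 122)) (XT.nd (nat_lit 78) (nat_lit 456) (nat_lit 0) (XT.lf (nat_lit 0) (nat_lit 267587245101) (nat_lit 456) (nat_lit 57425203012) (nat_lit 76) (nat_lit 81627254464) (nat_lit 40) (nat_lit 5) (nat_lit 46) (nat_lit 5) (nat_lit 41) (nat_lit 5) (nat_lit 303) (nat_lit 296) (nat_lit 121)) (XT.lf (nat_lit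 0) (nat_lit 136784970655) (nat_lit 456) (nat_lit 173575303442) (nat_lit 532) (nat_lit 114483060896) (nat_lit 34) (nat_lit 5) (nat_lit 40) (nat_lit 5) (nat_lit 41) (nat_lit 5) (nat_lit 304) (nat_lit 296) (nat_lit 120)))) (XT.nd (nat_lit 156) (nat_lit 228) (nat_lit 0) (XT.nd (nat_lit 78) (nat_lit 228) (nat_lit 0) (XT.lf (nat_lit 0) (nat_lit 349797744352) (nat_lit 456) (nat_lit 8327469194) (nat_lit 532) (nat_lit 86252439181) (nat_lit 34) (nat_lit 5) (nat_lit 40) (nat_lit 5) (nat_lit 41) (nat_lit 5) (nat_lit 305) (nat_lit 296) (nat_lit 119)) (XT.lf (nat_lit 0) (nat_lit 116092319916) (nat_lit 228) (nat_lit 300502891265) (nat_lit 304) (nat_lit 48328795820) (nat_lit 31) (nat_lit 5) (nat_lit 34) (nat_lit 5) (nat_lit 35) (nat_lit 5) (nat_lit 306) (nat_lit 296) (nat_lit 118))) (XT.nd (nat_lit 78) (nat_lit 228) (nat_lit 0) (XT.lf (nat_lit 0) (nat_lit 348769446365) (nat_lit 228) (nat_lit 133770132607)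 (nat_lit 304) (nat_lit 4350749168) (nat_lit 31) (nat_lit 5) (nat_lit 34) (nat_lit 5) (nat_lit 35) (nat_lit 5) (nat_lit 307) (nat_lit 296) (nat_lit 117)) (XT.lf (nat_lit 0) (nat_lit 44424032436) (nat_lit 228) (nat_lit 418485953852) (nat_lit 76) (nat_lit 47346012232) (nat_lit 28) (nat_lit 5) (nat_lit 31) (nat_lit 5) (nat_lit 29) (nat_lit 5) (nat_lit 308) (nat_lit 296) (nat_lit 116))))))) (XT.nd (nat_lit 1014) (nat_lit 304) (nat_lit 0) (XT.nd (nat_lit 468) (nat_lit 532) (nat_lit 0) (XT.nd (nat_lit 234) (nat_lit 152) (nat_lit 0) (XT.nd (nat_lit 78) (nat_lit 228) (nat_lit 0) (XT.lf (nat_lit 0) (nat_lit 104214820921) (nat_lit 228) (nat_lit 190967184660) (nat_lit 76) (nat_lit 239711950327) (nat_lit 28) (nat_lit 5) (nat_lit 31) (nat_lit 5) (nat_lit 29) (nat_lit 5) (nat_lit 309) (nat_lit 296) (nat_lit 115)) (XT.nd (nat_lit 78) (nat_lit 0) (nat_lit 0) (XT.lf (nat_lit 0) (nat_lit 57636251097)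 (nat_lit 228) (nat_lit 112538746012) (nat_lit 304) (nat_lit 391217062917) (nat_lit 25) (nat_lit 5) (nat_lit 28) (nat_lit 5) (nat_lit 29) (nat_lit 5) (nat_lit 310) (nat_lit 296) (nat_lit 114)) (XT.lf (nat_lit 0) (nat_lit 248806382754) (nat_lit 304) (nat_lit 254776943743) (nat_lit 76) (nat_lit 85835134450) (nat_lit 25) (nat_lit 5) (nat_lit 29) (nat_lit 5) (nat_lit 26) (nat_lit 5) (nat_lit 311) (nat_lit 296) (nat_lit 113)))) (XT.nd (nat_lit 78) (nat_lit 0) (nat_lit 0) (XT.lf (nat_lit 0) (nat_lit 11786734137) (nat_lit 152) (nat_lit 325148075290) (nat_lit 228) (nat_lit 282495642197) (nat_lit 23) (nat_lit 5) (nat_lit 25) (nat_lit 5) (nat_lit 26) (nat_lit 5) (nat_lit 312) (nat_lit 296) (nat_lit 112)) (XT.nd (nat_lit 78) (nat_lit 0) (nat_lit 0) (XT.lf (nat_lit 0) (nat_lit 314164865227) (nat_lit 152) (nat_lit 124914673900) (nat_lit 228) (nat_lit 212206580205) (nat_lit 23) (nat_lit 5) (nat_lit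 25) (nat_lit 5) (nat_lit 26) (nat_lit 5) (nat_lit 313) (nat_lit 296) (nat_lit 111)) (XT.lf (nat_lit 0) (nat_lit 551592491240) (nat_lit 228) (nat_lit 47153691251) (nat_lit 76) (nat_lit 86768326523) (nat_lit 23) (nat_lit 5) (nat_lit 26) (nat_lit 5) (nat_lit 24) (nat_lit 5) (nat_lit 314) (nat_lit 296) (nat_lit 110))))) (XT.nd (nat_lit 234) (nat_lit 152) (nat_lit 0) (XT.nd (nat_lit 78) (nat_lit 228) (nat_lit 0) (XT.lf (nat_lit 0) (nat_lit 276603540335) (nat_lit 152) (nat_lit 406399777025) (nat_lit 228) (nat_lit 38686105559) (nat_lit 21) (nat_lit 5) (nat_lit 23) (nat_lit 5) (nat_lit 24) (nat_lit 5) (nat_lit 315) (nat_lit 296) (nat_lit 109)) (XT.nd (nat_lit 78) (nat_lit 152) (nat_lit 0) (XT.lf (nat_lit 0) (nat_lit 62281434638) (nat_lit 228) (nat_lit 133288940827) (nat_lit 76) (nat_lit 564958675294) (nat_lit 20) (nat_lit 5) (nat_lit 23) (nat_lit 5) (nat_lit 21) (nat_lit 5) (nat_lit 316) (nat_lit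 296) (nat_lit 108)) (XT.lf (nat_lit 0) (nat_lit 175293380829) (nat_lit 228) (nat_lit 589809893064) (nat_lit 76) (nat_lit 36807623694) (nat_lit 18) (nat_lit 5) (nat_lit 21) (nat_lit 5) (nat_lit 19) (nat_lit 5) (nat_lit 317) (nat_lit 296) (nat_lit 107)))) (XT.nd (nat_lit 156) (nat_lit 0) (nat_lit 0) (XT.nd (nat_lit 78) (nat_lit 152) (nat_lit 0) (XT.lf (nat_lit 0) (nat_lit 306165028645) (nat_lit 228) (nat_lit 258783774201) (nat_lit 76) (nat_lit 280948989697) (nat_lit 18) (nat_lit 5) (nat_lit 21) (nat_lit 5) (nat_lit 19) (nat_lit 5) (nat_lit 318) (nat_lit 296) (nat_lit 106)) (XT.lf (nat_lit 0) (nat_lit 103923061043) (nat_lit 152) (nat_lit 346082682206) (nat_lit 228) (nat_lit 443197949100) (nat_lit 16) (nat_lit 5) (nat_lit 18) (nat_lit 5) (nat_lit 19) (nat_lit 5) (nat_lit 319) (nat_lit 296) (nat_lit 105))) (XT.nd (nat_lit 78) (nat_lit 0) (nat_lit 0) (XT.lf (nat_lit 0) (nat_lit 510363680764)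 (nat_lit 152) (nat_lit 102065624766) (nat_lit 228) (nat_lit 331298711417) (nat_lit 16) (nat_lit 5) (nat_lit 18) (nat_lit 5) (nat_lit 19) (nat_lit 5) (nat_lit 320) (nat_lit 296) (nat_lit 104)) (XT.lf (nat_lit 0) (nat_lit 791730162004) (nat_lit 228) (nat_lit 52858186227) (nat_lit 76) (nat_lit 153395266589) (nat_lit 16) (nat_lit 5) (nat_lit 19) (nat_lit 5) (nat_lit 17) (nat_lit 4) (nat_lit 321) (nat_lit 296) (nat_lit 103)))))) (XT.nd (nat_lit 35880) (nat_lit 0) (nat_lit 1444) (XT.nd (nat_lit 35568) (nat_lit 0) (nat_lit 1900) (XT.nd (nat_lit 78) (nat_lit 228) (nat_lit 0) (XT.lf (nat_lit 0) (nat_lit 374154080650) (nat_lit 76) (nat_lit 622870461867) (nat_lit 152) (nat_lit 58623161604) (nat_lit 15) (nat_lit 5) (nat_lit 16) (nat_lit 5) (nat_lit 17) (nat_lit 4) (nat_lit 322) (nat_lit 296) (nat_lit 102)) (XT.nd (nat_lit 78) (nat_lit 152) (nat_lit 0) (XT.lf (nat_lit 0) (nat_lit 97257011527) (nat_lit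 152) (nat_lit 281938106613) (nat_lit 76) (nat_lit 738417208422) (nat_lit 14) (nat_lit 5) (nat_lit 16) (nat_lit 5) (nat_lit 15) (nat_lit 5) (nat_lit 323) (nat_lit 296) (nat_lit 101)) (XT.lf (nat_lit 0) (nat_lit 155855683713) (nat_lit 152) (nat_lit 110333061220) (nat_lit 228) (nat_lit 917923693949) (nat_lit 12) (nat_lit 5) (nat_lit 14) (nat_lit 5) (nat_lit 15) (nat_lit 5) (nat_lit 324) (nat_lit 296) (nat_lit 100)))) (XT.nd (nat_lit 156) (nat_lit 0) (nat_lit 76) (XT.nd (nat_lit 78) (nat_lit 0) (nat_lit 0) (XT.lf (nat_lit 0) (nat_lit 70113063996) (nat_lit 532) (nat_lit 47312188998) (nat_lit 532) (nat_lit 47312188998) (nat_lit 37) (nat_lit 3) (nat_lit 44) (nat_lit 3) (nat_lit 44) (nat_lit 5) (nat_lit 297) (nat_lit 297) (nat_lit 126)) (XT.lf (nat_lit 76) (nat_lit 50915251779) (nat_lit 0) (nat_lit 96144974711) (nat_lit 532) (nat_lit 195495646003) (nat_lit 38) (nat_lit 5) (nat_lit 37) (nat_lit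 3) (nat_lit 44) (nat_lit 5) (nat_lit 298) (nat_lit 297) (nat_lit 125))) (XT.nd (nat_lit 78) (nat_lit 0) (nat_lit 0) (XT.lf (nat_lit 0) (nat_lit 158385848895) (nat_lit 456) (nat_lit 144354628226) (nat_lit 532) (nat_lit 53627279539) (nat_lit 38) (nat_lit 5) (nat_lit 44) (nat_lit 5) (nat_lit 45) (nat_lit 5) (nat_lit 299) (nat_lit 297) (nat_lit 124)) (XT.lf (nat_lit 76) (nat_lit 12860260494) (nat_lit 0) (nat_lit 160563772030) (nat_lit 532) (nat_lit 197636038358) (nat_lit 39) (nat_lit 5) (nat_lit 38) (nat_lit 5) (nat_lit 45) (nat_lit 5) (nat_lit 300) (nat_lit 297) (nat_lit 123))))) (XT.nd (nat_lit 234) (nat_lit 532) (nat_lit 0) (XT.nd (nat_lit 78) (nat_lit 0) (nat_lit 76) (XT.lf (nat_lit 76) (nat_lit 190861883364) (nat_lit 0) (nat_lit 2750251560) (nat_lit 532) (nat_lit 192999886414) (nat_lit 39) (nat_lit 5) (nat_lit 38) (nat_lit 5) (nat_lit 45) (nat_lit 5) (nat_lit 301) (nat_lit 297) (nat_lit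 122)) (XT.nd (nat_lit 78) (nat_lit 0) (nat_lit 0) (XT.lf (nat_lit 0) (nat_lit 219448150936) (nat_lit 456) (nat_lit 24337434818) (nat_lit 532) (nat_lit 159299913048) (nat_lit 39) (nat_lit 5) (nat_lit 45) (nat_lit 5) (nat_lit 46) (nat_lit 5) (nat_lit 302) (nat_lit 297) (nat_lit 121)) (XT.lf (nat_lit 76) (nat_lit 169179880641) (nat_lit 0) (nat_lit 82311342663) (nat_lit 532) (nat_lit 169054417343) (nat_lit 40) (nat_lit 5) (nat_lit 39) (nat_lit 5) (nat_lit 46) (nat_lit 5) (nat_lit 303) (nat_lit 297) (nat_lit 120)))) (XT.nd (nat_lit 156) (nat_lit 228) (nat_lit 0) (XT.nd (nat_lit 78) (nat_lit 456) (nat_lit 0) (XT.lf (nat_lit 0) (nat_lit 288994962515) (nat_lit 456) (nat_lit 62018551243) (nat_lit 76) (nat_lit 88157302572) (nat_lit 40) (nat_lit 5) (nat_lit 46) (nat_lit 5) (nat_lit 41) (nat_lit 5) (nat_lit 304) (nat_lit 297) (nat_lit 119)) (XT.lf (nat_lit 0) (nat_lit 147728419406) (nat_lit 456)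 (nat_lit 187461375433) (nat_lit 532) (nat_lit 123640947875) (nat_lit 34) (nat_lit 5) (nat_lit 40) (nat_lit 5) (nat_lit 41) (nat_lit 5) (nat_lit 305) (nat_lit 297) (nat_lit 118))) (XT.nd (nat_lit 78) (nat_lit 228) (nat_lit 0) (XT.lf (nat_lit 0) (nat_lit 377782166769) (nat_lit 456) (nat_lit 8993710910) (nat_lit 532) (nat_lit 93151932564) (nat_lit 34) (nat_lit 5) (nat_lit 40) (nat_lit 5) (nat_lit 41) (nat_lit 5) (nat_lit 306) (nat_lit 297) (nat_lit 117)) (XT.lf (nat_lit 0) (nat_lit 125380347470) (nat_lit 228) (nat_lit 324543094182) (nat_lit 304) (nat_lit 52194434103) (nat_lit 31) (nat_lit 5) (nat_lit 34) (nat_lit 5) (nat_lit 35) (nat_lit 5) (nat_lit 307) (nat_lit 297) (nat_lit 116))))))))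
noncomputable def xc124 : XT := (XT.nd (nat_lit 37440) (nat_lit 0) (nat_lit 152) (XT.nd (nat_lit 1014) (nat_lit 152) (nat_lit 0) (XT.nd (nat_lit 468) (nat_lit 532) (nat_lit 0) (XT.nd (nat_lit 234) (nat_lit 380) (nat_lit 0) (XT.nd (nat_lit 78) (nat_lit 228) (nat_lit 0) (XT.lf (nat_lit 0) (nat_lit 376671596482) (nat_lit 228) (nat_lit 144471716933) (nat_lit 304) (nat_lit 4698193007) (nat_lit 31) (nat_lit 5) (nat_lit 34) (nat_lit 5) (nat_lit 35) (nat_lit 5) (nat_lit 308) (nat_lit 297) (nat_lit 115)) (XT.nd (nat_lit 78) (nat_lit 0) (nat_lit 0) (XT.lf (nat_lit 0) (nat_lit 47978512987) (nat_lit 228) (nat_lit 451964173121) (nat_lit 76) (nat_lit 51133745497) (nat_lit 28) (nat_lit 5) (nat_lit 31) (nat_lit 5) (nat_lit 29) (nat_lit 5) (nat_lit 309) (nat_lit 297) (nat_lit 114)) (XT.lf (nat_lit 0) (nat_lit 112552523220) (nat_lit 228) (nat_lit 206243951063) (nat_lit 76) (nat_lit 258888954767) (nat_lit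 28) (nat_lit 5) (nat_lit 31) (nat_lit 5) (nat_lit 29) (nat_lit 5) (nat_lit 310) (nat_lit 297) (nat_lit 113)))) (XT.nd (nat_lit 78) (nat_lit 152) (nat_lit 0) (XT.lf (nat_lit 0) (nat_lit 62247744153) (nat_lit 228) (nat_lit 121541745343) (nat_lit 304) (nat_lit 422513894071) (nat_lit 25) (nat_lit 5) (nat_lit 28) (nat_lit 5) (nat_lit 29) (nat_lit 5) (nat_lit 311) (nat_lit 297) (nat_lit 112)) (XT.nd (nat_lit 78) (nat_lit 152) (nat_lit 0) (XT.lf (nat_lit 0) (nat_lit 268711351737) (nat_lit 304) (nat_lit 275158514228) (nat_lit 76) (nat_lit 92702033475) (nat_lit 25) (nat_lit 5) (nat_lit 29) (nat_lit 5) (nat_lit 26) (nat_lit 5) (nat_lit 312) (nat_lit 297) (nat_lit 111)) (XT.lf (nat_lit 0) (nat_lit 12730243072) (nat_lit 152) (nat_lit 351159789232) (nat_lit 228) (nat_lit 305094818812) (nat_lit 23) (nat_lit 5) (nat_lit 25) (nat_lit 5) (nat_lit 26) (nat_lit 5) (nat_lit 313) (nat_lit 297) (nat_lit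 110))))) (XT.nd (nat_lit 234) (nat_lit 380) (nat_lit 0) (XT.nd (nat_lit 78) (nat_lit 152) (nat_lit 0) (XT.lf (nat_lit 0) (nat_lit 339298582412) (nat_lit 152) (nat_lit 134907725515) (nat_lit 228) (nat_lit 229182667028) (nat_lit 23) (nat_lit 5) (nat_lit 25) (nat_lit 5) (nat_lit 26) (nat_lit 5) (nat_lit 314) (nat_lit 297) (nat_lit 109)) (XT.nd (nat_lit 78) (nat_lit 152) (nat_lit 0) (XT.lf (nat_lit 0) (nat_lit 595720268883) (nat_lit 228) (nat_lit 50925469005) (nat_lit 76) (nat_lit 93709900218) (nat_lit 23) (nat_lit 5) (nat_lit 26) (nat_lit 5) (nat_lit 24) (nat_lit 5) (nat_lit 315) (nat_lit 297) (nat_lit 108)) (XT.lf (nat_lit 0) (nat_lit 298732328005) (nat_lit 152) (nat_lit 438911617193) (nat_lit 228) (nat_lit 41780601298) (nat_lit 21) (nat_lit 5) (nat_lit 23) (nat_lit 5) (nat_lit 24) (nat_lit 5) (nat_lit 316) (nat_lit 297) (nat_lit 107)))) (XT.nd (nat_lit 156) (nat_lit 152) (nat_lit 0)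 (XT.nd (nat_lit 78) (nat_lit 152) (nat_lit 0) (XT.lf (nat_lit 0) (nat_lit 67264294836) (nat_lit 228) (nat_lit 143951569746) (nat_lit 76) (nat_lit 610155481523) (nat_lit 20) (nat_lit 5) (nat_lit 23) (nat_lit 5) (nat_lit 21) (nat_lit 5) (nat_lit 317) (nat_lit 297) (nat_lit 106)) (XT.lf (nat_lit 0) (nat_lit 189317185970) (nat_lit 228) (nat_lit 636994186408) (nat_lit 76) (nat_lit 39752369241) (nat_lit 18) (nat_lit 5) (nat_lit 21) (nat_lit 5) (nat_lit 19) (nat_lit 5) (nat_lit 318) (nat_lit 297) (nat_lit 105))) (XT.nd (nat_lit 78) (nat_lit 152) (nat_lit 0) (XT.lf (nat_lit 0) (nat_lit 330658540821) (nat_lit 228) (nat_lit 279486014933) (nat_lit 76) (nat_lit 303425034475) (nat_lit 18) (nat_lit 5) (nat_lit 21) (nat_lit 5) (nat_lit 19) (nat_lit 5) (nat_lit 319) (nat_lit 297) (nat_lit 104)) (XT.lf (nat_lit 0) (nat_lit 112237355455) (nat_lit 152) (nat_lit 373769144995) (nat_lit 228) (nat_lit 478653462610)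 (nat_lit 16) (nat_lit 5) (nat_lit 18) (nat_lit 5) (nat_lit 19) (nat_lit 5) (nat_lit 320) (nat_lit 297) (nat_lit 103)))))) (XT.nd (nat_lit 35880) (nat_lit 0) (nat_lit 1520) (XT.nd (nat_lit 234) (nat_lit 76) (nat_lit 0) (XT.nd (nat_lit 78) (nat_lit 76) (nat_lit 0) (XT.lf (nat_lit 0) (nat_lit 551193191455) (nat_lit 152) (nat_lit 110230734204) (nat_lit 228) (nat_lit 357802309795) (nat_lit 16) (nat_lit 5) (nat_lit 18) (nat_lit 5) (nat_lit 19) (nat_lit 5) (nat_lit 321) (nat_lit 297) (nat_lit 102)) (XT.nd (nat_lit 78) (nat_lit 76) (nat_lit 0) (XT.lf (nat_lit 0) (nat_lit 855068833359) (nat_lit 228) (nat_lit 57086437701) (nat_lit 76) (nat_lit 165667011539) (nat_lit 16) (nat_lit 5) (nat_lit 19) (nat_lit 5) (nat_lit 17) (nat_lit 4) (nat_lit 322) (nat_lit 297) (nat_lit 101)) (XT.lf (nat_lit 0) (nat_lit 404086800314) (nat_lit 76) (nat_lit 672699954316) (nat_lit 152) (nat_lit 63312745244) (nat_lit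 15) (nat_lit 5) (nat_lit 16) (nat_lit 5) (nat_lit 17) (nat_lit 4) (nat_lit 323) (nat_lit 297) (nat_lit 100)))) (XT.nd (nat_lit 35490) (nat_lit 0) (nat_lit 1748) (XT.lf (nat_lit 0) (nat_lit 105037809318) (nat_lit 152) (nat_lit 304492778000) (nat_lit 76) (nat_lit 797490705835) (nat_lit 14) (nat_lit 5) (nat_lit 16) (nat_lit 5) (nat_lit 15) (nat_lit 5) (nat_lit 324) (nat_lit 297) (nat_lit 99)) (XT.nd (nat_lit 78) (nat_lit 0) (nat_lit 0) (XT.lf (nat_lit 0) (nat_lit 75722636469) (nat_lit 532) (nat_lit 51096878088) (nat_lit 532) (nat_lit 51096878088) (nat_lit 37) (nat_lit 3) (nat_lit 44) (nat_lit 3) (nat_lit 44) (nat_lit 5) (nat_lit 298) (nat_lit 298) (nat_lit 124)) (XT.lf (nat_lit 76) (nat_lit 54989029498) (nat_lit 0) (nat_lit 103837005100) (nat_lit 532) (nat_lit 211134223832) (nat_lit 38) (nat_lit 5) (nat_lit 37) (nat_lit 3) (nat_lit 44) (nat_lit 5) (nat_lit 299) (nat_lit 298) (nat_lit 123)))))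 (XT.nd (nat_lit 234) (nat_lit 304) (nat_lit 0) (XT.nd (nat_lit 78) (nat_lit 0) (nat_lit 0) (XT.lf (nat_lit 0) (nat_lit 171057623833) (nat_lit 456) (nat_lit 155902394929) (nat_lit 532) (nat_lit 57917081549) (nat_lit 38) (nat_lit 5) (nat_lit 44) (nat_lit 5) (nat_lit 45) (nat_lit 5) (nat_lit 300) (nat_lit 298) (nat_lit 122)) (XT.nd (nat_lit 78) (nat_lit 0) (nat_lit 0) (XT.lf (nat_lit 76) (nat_lit 13889669609) (nat_lit 0) (nat_lit 173409139506) (nat_lit 532) (nat_lit 213445995122) (nat_lit 39) (nat_lit 5) (nat_lit 38) (nat_lit 5) (nat_lit 45) (nat_lit 5) (nat_lit 301) (nat_lit 298) (nat_lit 121)) (XT.lf (nat_lit 76) (nat_lit 206131378732) (nat_lit 0) (nat_lit 2970517716) (nat_lit 532) (nat_lit 208439019637) (nat_lit 39) (nat_lit 5) (nat_lit 38) (nat_lit 5) (nat_lit 45) (nat_lit 5) (nat_lit 302) (nat_lit 298) (nat_lit 120)))) (XT.nd (nat_lit 156) (nat_lit 380) (nat_lit 0) (XT.nd (nat_lit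 78) (nat_lit 0) (nat_lit 0) (XT.lf (nat_lit 0) (nat_lit 237004729689) (nat_lit 456) (nat_lit 26283857774) (nat_lit 532) (nat_lit 172043689681) (nat_lit 39) (nat_lit 5) (nat_lit 45) (nat_lit 5) (nat_lit 46) (nat_lit 5) (nat_lit 303) (nat_lit 298) (nat_lit 119)) (XT.lf (nat_lit 76) (nat_lit 182714828446) (nat_lit 0) (nat_lit 88896378977) (nat_lit 532) (nat_lit 182578026402) (nat_lit 40) (nat_lit 5) (nat_lit 39) (nat_lit 5) (nat_lit 46) (nat_lit 5) (nat_lit 304) (nat_lit 298) (nat_lit 118))) (XT.nd (nat_lit 78) (nat_lit 456) (nat_lit 0) (XT.lf (nat_lit 0) (nat_lit 312115192067) (nat_lit 456) (nat_lit 66979462632) (nat_lit 76) (nat_lit 95209773395) (nat_lit 40) (nat_lit 5) (nat_lit 46) (nat_lit 5) (nat_lit 41) (nat_lit 5) (nat_lit 305) (nat_lit 298) (nat_lit 117)) (XT.lf (nat_lit 0) (nat_lit 159547251170) (nat_lit 456) (nat_lit 202458326375) (nat_lit 532) (nat_lit 133531573935) (nat_lit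 34) (nat_lit 5) (nat_lit 40) (nat_lit 5) (nat_lit 41) (nat_lit 5) (nat_lit 306) (nat_lit 298) (nat_lit 116))))))) (XT.nd (nat_lit 1014) (nat_lit 152) (nat_lit 0) (XT.nd (nat_lit 468) (nat_lit 532) (nat_lit 0) (XT.nd (nat_lit 234) (nat_lit 456) (nat_lit 0) (XT.nd (nat_lit 78) (nat_lit 228) (nat_lit 0) (XT.lf (nat_lit 0) (nat_lit 408005256973) (nat_lit 456) (nat_lit 9713245661) (nat_lit 532) (nat_lit 100603485530) (nat_lit 34) (nat_lit 5) (nat_lit 40) (nat_lit 5) (nat_lit 41) (nat_lit 5) (nat_lit 307) (nat_lit 298) (nat_lit 115)) (XT.nd (nat_lit 78) (nat_lit 0) (nat_lit 0) (XT.lf (nat_lit 0) (nat_lit 135411325644) (nat_lit 228) (nat_lit 350506517381) (nat_lit 304) (nat_lit 56369418373) (nat_lit 31) (nat_lit 5) (nat_lit 34) (nat_lit 5) (nat_lit 35) (nat_lit 5) (nat_lit 308) (nat_lit 298) (nat_lit 114)) (XT.lf (nat_lit 0) (nat_lit 406805833809) (nat_lit 228) (nat_lit 156029431755) (nat_lit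 304) (nat_lit 5073520246) (nat_lit 31) (nat_lit 5) (nat_lit 34) (nat_lit 5) (nat_lit 35) (nat_lit 5) (nat_lit 309) (nat_lit 298) (nat_lit 113)))) (XT.nd (nat_lit 78) (nat_lit 228) (nat_lit 0) (XT.lf (nat_lit 0) (nat_lit 51817272383) (nat_lit 228) (nat_lit 488120743666) (nat_lit 76) (nat_lit 55224489964) (nat_lit 28) (nat_lit 5) (nat_lit 31) (nat_lit 5) (nat_lit 29) (nat_lit 5) (nat_lit 310) (nat_lit 298) (nat_lit 112)) (XT.nd (nat_lit 78) (nat_lit 228) (nat_lit 0) (XT.lf (nat_lit 0) (nat_lit 121557168001) (nat_lit 228) (nat_lit 222742945569) (nat_lit 76) (nat_lit 279600112655) (nat_lit 28) (nat_lit 5) (nat_lit 31) (nat_lit 5) (nat_lit 29) (nat_lit 5) (nat_lit 311) (nat_lit 298) (nat_lit 111)) (XT.lf (nat_lit 0) (nat_lit 67228072059) (nat_lit 228) (nat_lit 131264998937) (nat_lit 304) (nat_lit 456314547881) (nat_lit 25) (nat_lit 5) (nat_lit 28) (nat_lit 5) (nat_lit 29) (nat_lit 5) (nat_lit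 312) (nat_lit 298) (nat_lit 110))))) (XT.nd (nat_lit 234) (nat_lit 380) (nat_lit 0) (XT.nd (nat_lit 78) (nat_lit 152) (nat_lit 0) (XT.lf (nat_lit 0) (nat_lit 290208652848) (nat_lit 304) (nat_lit 297170693811) (nat_lit 76) (nat_lit 100118271829) (nat_lit 25) (nat_lit 5) (nat_lit 29) (nat_lit 5) (nat_lit 26) (nat_lit 5) (nat_lit 313) (nat_lit 298) (nat_lit 109)) (XT.nd (nat_lit 78) (nat_lit 0) (nat_lit 0) (XT.lf (nat_lit 0) (nat_lit 13749151376) (nat_lit 152) (nat_lit 379252459133) (nat_lit 228) (nat_lit 329501997287) (nat_lit 23) (nat_lit 5) (nat_lit 25) (nat_lit 5) (nat_lit 26) (nat_lit 5) (nat_lit 314) (nat_lit 298) (nat_lit 108)) (XT.lf (nat_lit 0) (nat_lit 366442921652) (nat_lit 152) (nat_lit 145700238706) (nat_lit 228) (nat_lit 247516903510) (nat_lit 23) (nat_lit 5) (nat_lit 25) (nat_lit 5) (nat_lit 26) (nat_lit 5) (nat_lit 315) (nat_lit 298) (nat_lit 107)))) (XT.nd (nat_lit 156)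 (nat_lit 228) (nat_lit 0) (XT.nd (nat_lit 78) (nat_lit 152) (nat_lit 0) (XT.lf (nat_lit 0) (nat_lit 643378214762) (nat_lit 228) (nat_lit 54999062814) (nat_lit 76) (nat_lit 101206784462) (nat_lit 23) (nat_lit 5) (nat_lit 26) (nat_lit 5) (nat_lit 24) (nat_lit 5) (nat_lit 316) (nat_lit 298) (nat_lit 106)) (XT.lf (nat_lit 0) (nat_lit 322631346724) (nat_lit 152) (nat_lit 474024424833) (nat_lit 228) (nat_lit 45122712719) (nat_lit 21) (nat_lit 5) (nat_lit 23) (nat_lit 5) (nat_lit 24) (nat_lit 5) (nat_lit 317) (nat_lit 298) (nat_lit 105))) (XT.nd (nat_lit 78) (nat_lit 152) (nat_lit 0) (XT.lf (nat_lit 0) (nat_lit 72645734571) (nat_lit 228) (nat_lit 155467278361) (nat_lit 76) (nat_lit 658968016242) (nat_lit 20) (nat_lit 5) (nat_lit 23) (nat_lit 5) (nat_lit 21) (nat_lit 5) (nat_lit 318) (nat_lit 298) (nat_lit 104)) (XT.lf (nat_lit 0) (nat_lit 204462847777) (nat_lit 228) (nat_lit 687953294280)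 (nat_lit 76) (nat_lit 42932675079) (nat_lit 18) (nat_lit 5) (nat_lit 21) (nat_lit 5) (nat_lit 19) (nat_lit 5) (nat_lit 319) (nat_lit 298) (nat_lit 103)))))) (XT.nd (nat_lit 36114) (nat_lit 0) (nat_lit 1368) (XT.nd (nat_lit 234) (nat_lit 0) (nat_lit 0) (XT.nd (nat_lit 78) (nat_lit 152) (nat_lit 0) (XT.lf (nat_lit 0) (nat_lit 357111489762) (nat_lit 228) (nat_lit 301844500720) (nat_lit 76) (nat_lit 327699144918) (nat_lit 18) (nat_lit 5) (nat_lit 21) (nat_lit 5) (nat_lit 19) (nat_lit 5) (nat_lit 320) (nat_lit 298) (nat_lit 102)) (XT.nd (nat_lit 78) (nat_lit 0) (nat_lit 0) (XT.lf (nat_lit 0) (nat_lit 121216729289) (nat_lit 152) (nat_lit 403670546462) (nat_lit 228) (nat_lit 516945463198) (nat_lit 16) (nat_lit 5) (nat_lit 18) (nat_lit 5) (nat_lit 19) (nat_lit 5) (nat_lit 321) (nat_lit 298) (nat_lit 101)) (XT.lf (nat_lit 0) (nat_lit 595289003621) (nat_lit 152) (nat_lit 119049072447) (nat_lit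 228) (nat_lit 386426238633) (nat_lit 16) (nat_lit 5) (nat_lit 18) (nat_lit 5) (nat_lit 19) (nat_lit 5) (nat_lit 322) (nat_lit 298) (nat_lit 100)))) (XT.nd (nat_lit 35724) (nat_lit 0) (nat_lit 1596) (XT.nd (nat_lit 35646) (nat_lit 0) (nat_lit 1596) (XT.lf (nat_lit 0) (nat_lit 923474561559) (nat_lit 228) (nat_lit 61653006845) (nat_lit 76) (nat_lit 178920478449) (nat_lit 16) (nat_lit 5) (nat_lit 19) (nat_lit 5) (nat_lit 17) (nat_lit 4) (nat_lit 323) (nat_lit 298) (nat_lit 99)) (XT.lf (nat_lit 0) (nat_lit 81780899506) (nat_lit 532) (nat_lit 55184383111) (nat_lit 532) (nat_lit 55184383111) (nat_lit 37) (nat_lit 3) (nat_lit 44) (nat_lit 3) (nat_lit 44) (nat_lit 5) (nat_lit 299) (nat_lit 299) (nat_lit 122))) (XT.nd (nat_lit 78) (nat_lit 0) (nat_lit 76) (XT.lf (nat_lit 76) (nat_lit 59388629890) (nat_lit 0) (nat_lit 112144336231) (nat_lit 532) (nat_lit 228024041085) (nat_lit 38) (nat_lit 5)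 (nat_lit 37) (nat_lit 3) (nat_lit 44) (nat_lit 5) (nat_lit 300) (nat_lit 299) (nat_lit 121)) (XT.lf (nat_lit 0) (nat_lit 184743011369) (nat_lit 456) (nat_lit 168374069073) (nat_lit 532) (nat_lit 62550121982) (nat_lit 38) (nat_lit 5) (nat_lit 44) (nat_lit 5) (nat_lit 45) (nat_lit 5) (nat_lit 301) (nat_lit 299) (nat_lit 120))))) (XT.nd (nat_lit 234) (nat_lit 304) (nat_lit 0) (XT.nd (nat_lit 78) (nat_lit 0) (nat_lit 0) (XT.lf (nat_lit 76) (nat_lit 15001347528) (nat_lit 0) (nat_lit 187282098472) (nat_lit 532) (nat_lit 230520880574) (nat_lit 39) (nat_lit 5) (nat_lit 38) (nat_lit 5) (nat_lit 45) (nat_lit 5) (nat_lit 302) (nat_lit 299) (nat_lit 119)) (XT.nd (nat_lit 78) (nat_lit 0) (nat_lit 76) (XT.lf (nat_lit 76) (nat_lit 222622356022) (nat_lit 0) (nat_lit 3208370065) (nat_lit 532) (nat_lit 225113405877) (nat_lit 39) (nat_lit 5) (nat_lit 38) (nat_lit 5) (nat_lit 45) (nat_lit 5) (nat_lit 303)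 (nat_lit 299) (nat_lit 118)) (XT.lf (nat_lit 0) (nat_lit 255965731073) (nat_lit 456) (nat_lit 28386076144) (nat_lit 532) (nat_lit 185806999319) (nat_lit 39) (nat_lit 5) (nat_lit 45) (nat_lit 5) (nat_lit 46) (nat_lit 5) (nat_lit 304) (nat_lit 299) (nat_lit 117)))) (XT.nd (nat_lit 156) (nat_lit 380) (nat_lit 0) (XT.nd (nat_lit 78) (nat_lit 0) (nat_lit 76) (XT.lf (nat_lit 76) (nat_lit 197332492562) (nat_lit 0) (nat_lit 96008199807) (nat_lit 532) (nat_lit 197183630372) (nat_lit 40) (nat_lit 5) (nat_lit 39) (nat_lit 5) (nat_lit 46) (nat_lit 5) (nat_lit 305) (nat_lit 299) (nat_lit 116)) (XT.lf (nat_lit 0) (nat_lit 337084949742) (nat_lit 456) (nat_lit 72337328636) (nat_lit 76) (nat_lit 102826458059) (nat_lit 40) (nat_lit 5) (nat_lit 46) (nat_lit 5) (nat_lit 41) (nat_lit 5) (nat_lit 306) (nat_lit 299) (nat_lit 115))) (XT.nd (nat_lit 78) (nat_lit 0) (nat_lit 0) (XT.lf (nat_lit 0) (nat_lit 172311509840)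 (nat_lit 456) (nat_lit 218655027558) (nat_lit 532) (nat_lit 144213542776) (nat_lit 34) (nat_lit 5) (nat_lit 40) (nat_lit 5) (nat_lit 41) (nat_lit 5) (nat_lit 307) (nat_lit 299) (nat_lit 114)) (XT.lf (nat_lit 0) (nat_lit 440646120657) (nat_lit 456) (nat_lit 10490337788) (nat_lit 532) (nat_lit 108651248563) (nat_lit 34) (nat_lit 5) (nat_lit 40) (nat_lit 5) (nat_lit 41) (nat_lit 5) (nat_lit 308) (nat_lit 299) (nat_lit 113))))))))
noncomputable def xc125 : XT := (XT.nd (nat_lit 37752) (nat_lit 0) (nat_lit 152) (XT.nd (nat_lit 1014) (nat_lit 152) (nat_lit 0) (XT.nd (nat_lit 468) (nat_lit 532) (nat_lit 0) (XT.nd (nat_lit 234) (nat_lit 228) (nat_lit 0) (XT.nd (nat_lit 78) (nat_lit 228) (nat_lit 0) (XT.lf (nat_lit 0) (nat_lit 146244703555) (nat_lit 228) (nat_lit 378547017908) (nat_lit 304) (nat_lit 60878482767) (nat_lit 31) (nat_lit 5) (nat_lit 34) (nat_lit 5) (nat_lit 35) (nat_lit 5) (nat_lit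 309) (nat_lit 299) (nat_lit 112)) (XT.nd (nat_lit 78) (nat_lit 228) (nat_lit 0) (XT.lf (nat_lit 0) (nat_lit 439350737420) (nat_lit 228) (nat_lit 168511766977) (nat_lit 304) (nat_lit 5478949017) (nat_lit 31) (nat_lit 5) (nat_lit 34) (nat_lit 5) (nat_lit 35) (nat_lit 5) (nat_lit 310) (nat_lit 299) (nat_lit 111)) (XT.lf (nat_lit 0) (nat_lit 55963064288) (nat_lit 228) (nat_lit 527169920216) (nat_lit 76) (nat_lit 59642487594) (nat_lit 28) (nat_lit 5) (nat_lit 31) (nat_lit 5) (nat_lit 29) (nat_lit 5) (nat_lit 311) (nat_lit 299) (nat_lit 110)))) (XT.nd (nat_lit 78) (nat_lit 228) (nat_lit 0) (XT.lf (nat_lit 0) (nat_lit 131282121176) (nat_lit 228) (nat_lit 240561934045) (nat_lit 76) (nat_lit 301968157253) (nat_lit 28) (nat_lit 5) (nat_lit 31) (nat_lit 5) (nat_lit 29) (nat_lit 5) (nat_lit 312) (nat_lit 299) (nat_lit 109)) (XT.nd (nat_lit 78) (nat_lit 0) (nat_lit 0) (XT.lf (nat_lit 0) (nat_lit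 72606753673) (nat_lit 228) (nat_lit 141766125092) (nat_lit 304) (nat_lit 492819319294) (nat_lit 25) (nat_lit 5) (nat_lit 28) (nat_lit 5) (nat_lit 29) (nat_lit 5) (nat_lit 313) (nat_lit 299) (nat_lit 108)) (XT.lf (nat_lit 0) (nat_lit 313425681986) (nat_lit 304) (nat_lit 320943919313) (nat_lit 76) (nat_lit 108127798455) (nat_lit 25) (nat_lit 5) (nat_lit 29) (nat_lit 5) (nat_lit 26) (nat_lit 5) (nat_lit 314) (nat_lit 299) (nat_lit 107))))) (XT.nd (nat_lit 234) (nat_lit 380) (nat_lit 0) (XT.nd (nat_lit 78) (nat_lit 0) (nat_lit 0) (XT.lf (nat_lit 0) (nat_lit 14849502604) (nat_lit 152) (nat_lit 409592558780) (nat_lit 228) (nat_lit 355861808106) (nat_lit 23) (nat_lit 5) (nat_lit 25) (nat_lit 5) (nat_lit 26) (nat_lit 5) (nat_lit 315) (nat_lit 299) (nat_lit 106)) (XT.nd (nat_lit 78) (nat_lit 0) (nat_lit 0) (XT.lf (nat_lit 0) (nat_lit 395758743455) (nat_lit 152) (nat_lit 157356167910) (nat_lit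 228) (nat_lit 267317932677) (nat_lit 23) (nat_lit 5) (nat_lit 25) (nat_lit 5) (nat_lit 26) (nat_lit 5) (nat_lit 316) (nat_lit 299) (nat_lit 105)) (XT.lf (nat_lit 0) (nat_lit 694848750037) (nat_lit 228) (nat_lit 59398607428) (nat_lit 76) (nat_lit 109303406289) (nat_lit 23) (nat_lit 5) (nat_lit 26) (nat_lit 5) (nat_lit 24) (nat_lit 5) (nat_lit 317) (nat_lit 299) (nat_lit 104)))) (XT.nd (nat_lit 156) (nat_lit 152) (nat_lit 0) (XT.nd (nat_lit 78) (nat_lit 76) (nat_lit 0) (XT.lf (nat_lit 0) (nat_lit 348442225243) (nat_lit 152) (nat_lit 511946274450) (nat_lit 228) (nat_lit 48732241086) (nat_lit 21) (nat_lit 5) (nat_lit 23) (nat_lit 5) (nat_lit 24) (nat_lit 5) (nat_lit 318) (nat_lit 299) (nat_lit 103)) (XT.lf (nat_lit 0) (nat_lit 78457647236) (nat_lit 228) (nat_lit 167904303150) (nat_lit 76) (nat_lit 711685540016) (nat_lit 20) (nat_lit 5) (nat_lit 23) (nat_lit 5) (nat_lit 21) (nat_lit 5) (nat_lit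 319) (nat_lit 299) (nat_lit 102))) (XT.nd (nat_lit 78) (nat_lit 0) (nat_lit 0) (XT.lf (nat_lit 0) (nat_lit 220820121596) (nat_lit 228) (nat_lit 742989191704) (nat_lit 76) (nat_lit 46367388793) (nat_lit 18) (nat_lit 5) (nat_lit 21) (nat_lit 5) (nat_lit 19) (nat_lit 5) (nat_lit 320) (nat_lit 299) (nat_lit 101)) (XT.lf (nat_lit 0) (nat_lit 385680636717) (nat_lit 228) (nat_lit 325991721778) (nat_lit 76) (nat_lit 353915168833) (nat_lit 18) (nat_lit 5) (nat_lit 21) (nat_lit 5) (nat_lit 19) (nat_lit 5) (nat_lit 321) (nat_lit 299) (nat_lit 100)))))) (XT.nd (nat_lit 36192) (nat_lit 0) (nat_lit 1140) (XT.nd (nat_lit 35958) (nat_lit 0) (nat_lit 1672) (XT.nd (nat_lit 35802) (nat_lit 0) (nat_lit 1596) (XT.lf (nat_lit 0) (nat_lit 130914398048) (nat_lit 152) (nat_lit 435964078611) (nat_lit 228) (nat_lit 558300863267) (nat_lit 16) (nat_lit 5) (nat_lit 18) (nat_lit 5) (nat_lit 19) (nat_lit 5) (nat_lit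 322) (nat_lit 299) (nat_lit 99)) (XT.nd (nat_lit 78) (nat_lit 0) (nat_lit 0) (XT.lf (nat_lit 0) (nat_lit 88323759086) (nat_lit 532) (nat_lit 59598923519) (nat_lit 532) (nat_lit 59598923519) (nat_lit 37) (nat_lit 3) (nat_lit 44) (nat_lit 3) (nat_lit 44) (nat_lit 5) (nat_lit 300) (nat_lit 300) (nat_lit 120)) (XT.lf (nat_lit 76) (nat_lit 64140130117) (nat_lit 0) (nat_lit 121116200966) (nat_lit 532) (nat_lit 246265175059) (nat_lit 38) (nat_lit 5) (nat_lit 37) (nat_lit 3) (nat_lit 44) (nat_lit 5) (nat_lit 301) (nat_lit 300) (nat_lit 119)))) (XT.nd (nat_lit 78) (nat_lit 0) (nat_lit 0) (XT.lf (nat_lit 0) (nat_lit 199523118970) (nat_lit 456) (nat_lit 181843550968) (nat_lit 532) (nat_lit 67553852170) (nat_lit 38) (nat_lit 5) (nat_lit 44) (nat_lit 5) (nat_lit 45) (nat_lit 5) (nat_lit 302) (nat_lit 300) (nat_lit 118)) (XT.nd (nat_lit 78) (nat_lit 0) (nat_lit 0) (XT.lf (nat_lit 76) (nat_lit 16201887730)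 (nat_lit 0) (nat_lit 202264861657) (nat_lit 532) (nat_lit 248961870158) (nat_lit 39) (nat_lit 5) (nat_lit 38) (nat_lit 5) (nat_lit 45) (nat_lit 5) (nat_lit 303) (nat_lit 300) (nat_lit 117)) (XT.lf (nat_lit 76) (nat_lit 240432544874) (nat_lit 0) (nat_lit 3465220510) (nat_lit 532) (nat_lit 243121847920) (nat_lit 39) (nat_lit 5) (nat_lit 38) (nat_lit 5) (nat_lit 45) (nat_lit 5) (nat_lit 304) (nat_lit 300) (nat_lit 116))))) (XT.nd (nat_lit 234) (nat_lit 608) (nat_lit 0) (XT.nd (nat_lit 78) (nat_lit 0) (nat_lit 0) (XT.lf (nat_lit 0) (nat_lit 276443523689) (nat_lit 456) (nat_lit 30656541924) (nat_lit 532) (nat_lit 200671400196) (nat_lit 39) (nat_lit 5) (nat_lit 45) (nat_lit 5) (nat_lit 46) (nat_lit 5) (nat_lit 305) (nat_lit 300) (nat_lit 115)) (XT.nd (nat_lit 78) (nat_lit 0) (nat_lit 76) (XT.lf (nat_lit 76) (nat_lit 213119501638) (nat_lit 0) (nat_lit 103688950538) (nat_lit 532) (nat_lit 212957773698)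 (nat_lit 40) (nat_lit 5) (nat_lit 39) (nat_lit 5) (nat_lit 46) (nat_lit 5) (nat_lit 306) (nat_lit 300) (nat_lit 114)) (XT.lf (nat_lit 0) (nat_lit 364052210665) (nat_lit 456) (nat_lit 78123893967) (nat_lit 76) (nat_lit 111052491365) (nat_lit 40) (nat_lit 5) (nat_lit 46) (nat_lit 5) (nat_lit 41) (nat_lit 5) (nat_lit 307) (nat_lit 300) (nat_lit 113)))) (XT.nd (nat_lit 156) (nat_lit 228) (nat_lit 0) (XT.nd (nat_lit 78) (nat_lit 0) (nat_lit 0) (XT.lf (nat_lit 0) (nat_lit 186096840929) (nat_lit 456) (nat_lit 236147459831) (nat_lit 532) (nat_lit 155750148597) (nat_lit 34) (nat_lit 5) (nat_lit 40) (nat_lit 5) (nat_lit 41) (nat_lit 5) (nat_lit 308) (nat_lit 300) (nat_lit 112)) (XT.lf (nat_lit 0) (nat_lit 475898190219) (nat_lit 456) (nat_lit 11329592653) (nat_lit 532) (nat_lit 117342906225) (nat_lit 34) (nat_lit 5) (nat_lit 40) (nat_lit 5) (nat_lit 41) (nat_lit 5) (nat_lit 309) (nat_lit 300)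 (nat_lit 111))) (XT.nd (nat_lit 78) (nat_lit 0) (nat_lit 0) (XT.lf (nat_lit 0) (nat_lit 157944684383) (nat_lit 228) (nat_lit 408830761453) (nat_lit 304) (nat_lit 65748342085) (nat_lit 31) (nat_lit 5) (nat_lit 34) (nat_lit 5) (nat_lit 35) (nat_lit 5) (nat_lit 310) (nat_lit 300) (nat_lit 110)) (XT.lf (nat_lit 0) (nat_lit 474499170991) (nat_lit 228) (nat_lit 181992691773) (nat_lit 304) (nat_lit 5916876695) (nat_lit 31) (nat_lit 5) (nat_lit 34) (nat_lit 5) (nat_lit 35) (nat_lit 5) (nat_lit 311) (nat_lit 300) (nat_lit 109))))))) (XT.nd (nat_lit 36894) (nat_lit 0) (nat_lit 380) (XT.nd (nat_lit 468) (nat_lit 380) (nat_lit 0) (XT.nd (nat_lit 234) (nat_lit 152) (nat_lit 0) (XT.nd (nat_lit 78) (nat_lit 228) (nat_lit 0) (XT.lf (nat_lit 0) (nat_lit 60440461038) (nat_lit 228) (nat_lit 569343099787) (nat_lit 76) (nat_lit 64413919551) (nat_lit 28) (nat_lit 5) (nat_lit 31) (nat_lit 5) (nat_lit 29)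 (nat_lit 5) (nat_lit 312) (nat_lit 300) (nat_lit 108)) (XT.nd (nat_lit 78) (nat_lit 228) (nat_lit 0) (XT.lf (nat_lit 0) (nat_lit 141785016432) (nat_lit 228) (nat_lit 259806505393) (nat_lit 76) (nat_lit 326125640342) (nat_lit 28) (nat_lit 5) (nat_lit 31) (nat_lit 5) (nat_lit 29) (nat_lit 5) (nat_lit 313) (nat_lit 300) (nat_lit 107)) (XT.lf (nat_lit 0) (nat_lit 78415667637) (nat_lit 228) (nat_lit 153107351862) (nat_lit 304) (nat_lit 532244528403) (nat_lit 25) (nat_lit 5) (nat_lit 28) (nat_lit 5) (nat_lit 29) (nat_lit 5) (nat_lit 314) (nat_lit 300) (nat_lit 106)))) (XT.nd (nat_lit 78) (nat_lit 152) (nat_lit 0) (XT.lf (nat_lit 0) (nat_lit 338500025391) (nat_lit 304) (nat_lit 346619064199) (nat_lit 76) (nat_lit 116778077955) (nat_lit 25) (nat_lit 5) (nat_lit 29) (nat_lit 5) (nat_lit 26) (nat_lit 5) (nat_lit 315) (nat_lit 300) (nat_lit 105)) (XT.nd (nat_lit 78) (nat_lit 0) (nat_lit 0) (XT.lf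 (nat_lit 0) (nat_lit 16037822137) (nat_lit 152) (nat_lit 442359880249) (nat_lit 228) (nat_lit 384330453575) (nat_lit 23) (nat_lit 5) (nat_lit 25) (nat_lit 5) (nat_lit 26) (nat_lit 5) (nat_lit 316) (nat_lit 300) (nat_lit 104)) (XT.lf (nat_lit 0) (nat_lit 427419775640) (nat_lit 152) (nat_lit 169944584275) (nat_lit 228) (nat_lit 288703090272) (nat_lit 23) (nat_lit 5) (nat_lit 25) (nat_lit 5) (nat_lit 26) (nat_lit 5) (nat_lit 317) (nat_lit 300) (nat_lit 103))))) (XT.nd (nat_lit 234) (nat_lit 152) (nat_lit 0) (XT.nd (nat_lit 78) (nat_lit 228) (nat_lit 0) (XT.lf (nat_lit 0) (nat_lit 750436888460) (nat_lit 228) (nat_lit 64150169880) (nat_lit 76) (nat_lit 118047746582) (nat_lit 23) (nat_lit 5) (nat_lit 26) (nat_lit 5) (nat_lit 24) (nat_lit 5) (nat_lit 318) (nat_lit 300) (nat_lit 102)) (XT.nd (nat_lit 78) (nat_lit 76) (nat_lit 0) (XT.lf (nat_lit 0) (nat_lit 376317921147) (nat_lit 152) (nat_lit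 552901886926) (nat_lit 228) (nat_lit 52630572902) (nat_lit 21) (nat_lit 5) (nat_lit 23) (nat_lit 5) (nat_lit 24) (nat_lit 5) (nat_lit 319) (nat_lit 300) (nat_lit 101)) (XT.lf (nat_lit 0) (nat_lit 84734476693) (nat_lit 228) (nat_lit 181336340921) (nat_lit 76) (nat_lit 768620453926) (nat_lit 20) (nat_lit 5) (nat_lit 23) (nat_lit 5) (nat_lit 21) (nat_lit 5) (nat_lit 320) (nat_lit 300) (nat_lit 100)))) (XT.nd (nat_lit 36036) (nat_lit 0) (nat_lit 1444) (XT.nd (nat_lit 35958) (nat_lit 0) (nat_lit 1444) (XT.lf (nat_lit 0) (nat_lit 238485942225) (nat_lit 228) (nat_lit 802428013153) (nat_lit 76) (nat_lit 50076865379) (nat_lit 18) (nat_lit 5) (nat_lit 21) (nat_lit 5) (nat_lit 19) (nat_lit 5) (nat_lit 321) (nat_lit 300) (nat_lit 99)) (XT.lf (nat_lit 0) (nat_lit 95389992135) (nat_lit 532) (nat_lit 64366657154) (nat_lit 532) (nat_lit 64366657154) (nat_lit 37) (nat_lit 3) (nat_lit 44) (nat_lit 3)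 (nat_lit 44) (nat_lit 5) (nat_lit 301) (nat_lit 301) (nat_lit 118))) (XT.nd (nat_lit 78) (nat_lit 0) (nat_lit 76) (XT.lf (nat_lit 76) (nat_lit 69271691894) (nat_lit 0) (nat_lit 130805769536) (nat_lit 532) (nat_lit 265965712355) (nat_lit 38) (nat_lit 5) (nat_lit 37) (nat_lit 3) (nat_lit 44) (nat_lit 5) (nat_lit 302) (nat_lit 301) (nat_lit 117)) (XT.lf (nat_lit 0) (nat_lit 215485540069) (nat_lit 456) (nat_lit 196390654704) (nat_lit 532) (nat_lit 72957920657) (nat_lit 38) (nat_lit 5) (nat_lit 44) (nat_lit 5) (nat_lit 45) (nat_lit 5) (nat_lit 303) (nat_lit 301) (nat_lit 116)))))) (XT.nd (nat_lit 546) (nat_lit 836) (nat_lit 0) (XT.nd (nat_lit 234) (nat_lit 304) (nat_lit 0) (XT.nd (nat_lit 78) (nat_lit 0) (nat_lit 0) (XT.lf (nat_lit 76) (nat_lit 17498409461) (nat_lit 0) (nat_lit 218446218034) (nat_lit 532) (nat_lit 268878236042) (nat_lit 39) (nat_lit 5) (nat_lit 38) (nat_lit 5) (nat_lit 45)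 (nat_lit 5) (nat_lit 304) (nat_lit 301) (nat_lit 115)) (XT.nd (nat_lit 78) (nat_lit 0) (nat_lit 76) (XT.lf (nat_lit 76) (nat_lit 259667491716) (nat_lit 0) (nat_lit 3742593192) (nat_lit 532) (nat_lit 262571055263) (nat_lit 39) (nat_lit 5) (nat_lit 38) (nat_lit 5) (nat_lit 45) (nat_lit 5) (nat_lit 305) (nat_lit 301) (nat_lit 114)) (XT.lf (nat_lit 0) (nat_lit 298559463515) (nat_lit 456) (nat_lit 33108704928) (nat_lit 532) (nat_lit 216724975837) (nat_lit 39) (nat_lit 5) (nat_lit 45) (nat_lit 5) (nat_lit 46) (nat_lit 5) (nat_lit 306) (nat_lit 301) (nat_lit 113)))) (XT.nd (nat_lit 156) (nat_lit 380) (nat_lit 0) (XT.nd (nat_lit 78) (nat_lit 0) (nat_lit 76) (XT.lf (nat_lit 76) (nat_lit 230169412996) (nat_lit 0) (nat_lit 111984147811) (nat_lit 532) (nat_lit 229993926541) (nat_lit 40) (nat_lit 5) (nat_lit 39) (nat_lit 5) (nat_lit 46) (nat_lit 5) (nat_lit 307) (nat_lit 301) (nat_lit 112)) (XT.lf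 (nat_lit 0) (nat_lit 393176786132) (nat_lit 456) (nat_lit 84373444580) (nat_lit 76) (nat_lit 119936619224) (nat_lit 40) (nat_lit 5) (nat_lit 46) (nat_lit 5) (nat_lit 41) (nat_lit 5) (nat_lit 308) (nat_lit 301) (nat_lit 111))) (XT.nd (nat_lit 78) (nat_lit 0) (nat_lit 0) (XT.lf (nat_lit 0) (nat_lit 200984939972) (nat_lit 456) (nat_lit 255039282396) (nat_lit 532) (nat_lit 168209751020) (nat_lit 34) (nat_lit 5) (nat_lit 40) (nat_lit 5) (nat_lit 41) (nat_lit 5) (nat_lit 309) (nat_lit 301) (nat_lit 110)) (XT.lf (nat_lit 0) (nat_lit 513970371148) (nat_lit 456) (nat_lit 12235983934) (nat_lit 532) (nat_lit 126729959589) (nat_lit 34) (nat_lit 5) (nat_lit 40) (nat_lit 5) (nat_lit 41) (nat_lit 5) (nat_lit 310) (nat_lit 301) (nat_lit 109))))) (XT.nd (nat_lit 234) (nat_lit 380) (nat_lit 0) (XT.nd (nat_lit 78) (nat_lit 228) (nat_lit 0) (XT.lf (nat_lit 0) (nat_lit 170580605965) (nat_lit 228) (nat_lit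 441537207034) (nat_lit 304) (nat_lit 71007849967) (nat_lit 31) (nat_lit 5) (nat_lit 34) (nat_lit 5) (nat_lit 35) (nat_lit 5) (nat_lit 311) (nat_lit 301) (nat_lit 108)) (XT.nd (nat_lit 78) (nat_lit 228) (nat_lit 0) (XT.lf (nat_lit 0) (nat_lit 512459425810) (nat_lit 228) (nat_lit 196552092916) (nat_lit 304) (nat_lit 6389893974) (nat_lit 31) (nat_lit 5) (nat_lit 34) (nat_lit 5) (nat_lit 35) (nat_lit 5) (nat_lit 312) (nat_lit 301) (nat_lit 107)) (XT.lf (nat_lit 0) (nat_lit 65275999367) (nat_lit 228) (nat_lit 614890192792) (nat_lit 76) (nat_lit 69567061364) (nat_lit 28) (nat_lit 5) (nat_lit 31) (nat_lit 5) (nat_lit 29) (nat_lit 5) (nat_lit 313) (nat_lit 301) (nat_lit 106)))) (XT.nd (nat_lit 156) (nat_lit 152) (nat_lit 0) (XT.nd (nat_lit 78) (nat_lit 228) (nat_lit 0) (XT.lf (nat_lit 0) (nat_lit 153128096864) (nat_lit 228) (nat_lit 280590697141) (nat_lit 76) (nat_lit 352215717725) (nat_lit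 28) (nat_lit 5) (nat_lit 31) (nat_lit 5) (nat_lit 29) (nat_lit 5) (nat_lit 314) (nat_lit 301) (nat_lit 105)) (XT.lf (nat_lit 0) (nat_lit 84689241410) (nat_lit 228) (nat_lit 165355885795) (nat_lit 304) (nat_lit 574823802236) (nat_lit 25) (nat_lit 5) (nat_lit 28) (nat_lit 5) (nat_lit 29) (nat_lit 5) (nat_lit 315) (nat_lit 301) (nat_lit 104))) (XT.nd (nat_lit 78) (nat_lit 152) (nat_lit 0) (XT.lf (nat_lit 0) (nat_lit 365580275061) (nat_lit 304) (nat_lit 374348273270) (nat_lit 76) (nat_lit 126120371881) (nat_lit 25) (nat_lit 5) (nat_lit 29) (nat_lit 5) (nat_lit 26) (nat_lit 5) (nat_lit 316) (nat_lit 301) (nat_lit 103)) (XT.lf (nat_lit 0) (nat_lit 17321155972) (nat_lit 152) (nat_lit 477748599309) (nat_lit 228) (nat_lit 415076633363) (nat_lit 23) (nat_lit 5) (nat_lit 25) (nat_lit 5) (nat_lit 26) (nat_lit 5) (nat_lit 317) (nat_lit 301) (nat_lit 102))))))))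
noncomputable def xc126 : XT := (XT.nd (nat_lit 74100) (nat_lit 0) (nat_lit 228) (XT.nd (nat_lit 36972) (nat_lit 0) (nat_lit 228) (XT.nd (nat_lit 36426) (nat_lit 0) (nat_lit 1064) (XT.nd (nat_lit 234) (nat_lit 76) (nat_lit 0) (XT.nd (nat_lit 78) (nat_lit 152) (nat_lit 0) (XT.lf (nat_lit 0) (nat_lit 461613642935) (nat_lit 152) (nat_lit 183540084943) (nat_lit 228) (nat_lit 311799099996) (nat_lit 23) (nat_lit 5) (nat_lit 25) (nat_lit 5) (nat_lit 26) (nat_lit 5) (nat_lit 318) (nat_lit 301) (nat_lit 101)) (XT.nd (nat_lit 78) (nat_lit 152) (nat_lit 0) (XT.lf (nat_lit 0) (nat_lit 810472043944) (nat_lit 228) (nat_lit 69281903857) (nat_lit 76) (nat_lit 127491624427) (nat_lit 23) (nat_lit 5) (nat_lit 26) (nat_lit 5) (nat_lit 24) (nat_lit 5) (nat_lit 319) (nat_lit 301) (nat_lit 100)) (XT.lf (nat_lit 0) (nat_lit 406423627374) (nat_lit 152) (nat_lit 597133961165) (nat_lit 228) (nat_lit 56840806567)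 (nat_lit 21) (nat_lit 5) (nat_lit 23) (nat_lit 5) (nat_lit 24) (nat_lit 5) (nat_lit 320) (nat_lit 301) (nat_lit 99)))) (XT.nd (nat_lit 36036) (nat_lit 0) (nat_lit 1292) (XT.lf (nat_lit 0) (nat_lit 91513421452) (nat_lit 228) (nat_lit 195842985436) (nat_lit 76) (nat_lit 830110150861) (nat_lit 20) (nat_lit 5) (nat_lit 23) (nat_lit 5) (nat_lit 21) (nat_lit 5) (nat_lit 321) (nat_lit 301) (nat_lit 98)) (XT.nd (nat_lit 78) (nat_lit 0) (nat_lit 0) (XT.lf (nat_lit 0) (nat_lit 103021476418) (nat_lit 532) (nat_lit 69515835193) (nat_lit 532) (nat_lit 69515835193) (nat_lit 37) (nat_lit 3) (nat_lit 44) (nat_lit 3) (nat_lit 44) (nat_lit 5) (nat_lit 302) (nat_lit 302) (nat_lit 116)) (XT.lf (nat_lit 76) (nat_lit 74813728487) (nat_lit 0) (nat_lit 141270464717) (nat_lit 532) (nat_lit 287242389175) (nat_lit 38) (nat_lit 5) (nat_lit 37) (nat_lit 3) (nat_lit 44) (nat_lit 5) (nat_lit 303) (nat_lit 302) (nat_lit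 115))))) (XT.nd (nat_lit 234) (nat_lit 304) (nat_lit 0) (XT.nd (nat_lit 78) (nat_lit 0) (nat_lit 0) (XT.lf (nat_lit 0) (nat_lit 232724873313) (nat_lit 456) (nat_lit 212101580999) (nat_lit 532) (nat_lit 78794348817) (nat_lit 38) (nat_lit 5) (nat_lit 44) (nat_lit 5) (nat_lit 45) (nat_lit 5) (nat_lit 304) (nat_lit 302) (nat_lit 114)) (XT.nd (nat_lit 78) (nat_lit 0) (nat_lit 0) (XT.lf (nat_lit 76) (nat_lit 18898600044) (nat_lit 0) (nat_lit 235922059033) (nat_lit 532) (nat_lit 290387994471) (nat_lit 39) (nat_lit 5) (nat_lit 38) (nat_lit 5) (nat_lit 45) (nat_lit 5) (nat_lit 305) (nat_lit 302) (nat_lit 113)) (XT.lf (nat_lit 76) (nat_lit 280441185337) (nat_lit 0) (nat_lit 4042133570) (nat_lit 532) (nat_lit 283576276301) (nat_lit 39) (nat_lit 5) (nat_lit 38) (nat_lit 5) (nat_lit 45) (nat_lit 5) (nat_lit 306) (nat_lit 302) (nat_lit 112)))) (XT.nd (nat_lit 156) (nat_lit 380) (nat_lit 0) (XT.nd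 (nat_lit 78) (nat_lit 0) (nat_lit 0) (XT.lf (nat_lit 0) (nat_lit 322444613198) (nat_lit 456) (nat_lit 35757092380) (nat_lit 532) (nat_lit 234062856984) (nat_lit 39) (nat_lit 5) (nat_lit 45) (nat_lit 5) (nat_lit 46) (nat_lit 5) (nat_lit 307) (nat_lit 302) (nat_lit 111)) (XT.lf (nat_lit 76) (nat_lit 248583267156) (nat_lit 0) (nat_lit 120942949277) (nat_lit 532) (nat_lit 248393038526) (nat_lit 40) (nat_lit 5) (nat_lit 39) (nat_lit 5) (nat_lit 46) (nat_lit 5) (nat_lit 308) (nat_lit 302) (nat_lit 110))) (XT.nd (nat_lit 78) (nat_lit 456) (nat_lit 0) (XT.lf (nat_lit 0) (nat_lit 424631270770) (nat_lit 456) (nat_lit 91123010728) (nat_lit 76) (nat_lit 129531487505) (nat_lit 40) (nat_lit 5) (nat_lit 46) (nat_lit 5) (nat_lit 41) (nat_lit 5) (nat_lit 309) (nat_lit 302) (nat_lit 109)) (XT.lf (nat_lit 0) (nat_lit 217064036754) (nat_lit 456) (nat_lit 275442447089) (nat_lit 532) (nat_lit 181666180051)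 (nat_lit 34) (nat_lit 5) (nat_lit 40) (nat_lit 5) (nat_lit 41) (nat_lit 5) (nat_lit 310) (nat_lit 302) (nat_lit 108)))))) (XT.nd (nat_lit 468) (nat_lit 152) (nat_lit 0) (XT.nd (nat_lit 234) (nat_lit 456) (nat_lit 0) (XT.nd (nat_lit 78) (nat_lit 228) (nat_lit 0) (XT.lf (nat_lit 0) (nat_lit 555088280085) (nat_lit 456) (nat_lit 13214883113) (nat_lit 532) (nat_lit 136868031309) (nat_lit 34) (nat_lit 5) (nat_lit 40) (nat_lit 5) (nat_lit 41) (nat_lit 5) (nat_lit 311) (nat_lit 302) (nat_lit 107)) (XT.nd (nat_lit 78) (nat_lit 0) (nat_lit 0) (XT.lf (nat_lit 0) (nat_lit 184227351793) (nat_lit 228) (nat_lit 476860170450) (nat_lit 304) (nat_lit 76688169764) (nat_lit 31) (nat_lit 5) (nat_lit 34) (nat_lit 5) (nat_lit 35) (nat_lit 5) (nat_lit 312) (nat_lit 302) (nat_lit 106)) (XT.lf (nat_lit 0) (nat_lit 553456455201) (nat_lit 228) (nat_lit 212276248175) (nat_lit 304) (nat_lit 6900800121) (nat_lit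 31) (nat_lit 5) (nat_lit 34) (nat_lit 5) (nat_lit 35) (nat_lit 5) (nat_lit 313) (nat_lit 302) (nat_lit 105)))) (XT.nd (nat_lit 78) (nat_lit 228) (nat_lit 0) (XT.lf (nat_lit 0) (nat_lit 70498337758) (nat_lit 228) (nat_lit 664081103879) (nat_lit 76) (nat_lit 75132450492) (nat_lit 28) (nat_lit 5) (nat_lit 31) (nat_lit 5) (nat_lit 29) (nat_lit 5) (nat_lit 314) (nat_lit 302) (nat_lit 104)) (XT.nd (nat_lit 78) (nat_lit 228) (nat_lit 0) (XT.lf (nat_lit 0) (nat_lit 165378583911) (nat_lit 228) (nat_lit 303037671120) (nat_lit 76) (nat_lit 380392997568) (nat_lit 28) (nat_lit 5) (nat_lit 31) (nat_lit 5) (nat_lit 29) (nat_lit 5) (nat_lit 315) (nat_lit 302) (nat_lit 103)) (XT.lf (nat_lit 0) (nat_lit 91464655382) (nat_lit 228) (nat_lit 178584310178) (nat_lit 304) (nat_lit 620809459126) (nat_lit 25) (nat_lit 5) (nat_lit 28) (nat_lit 5) (nat_lit 29) (nat_lit 5) (nat_lit 316) (nat_lit 302) (nat_lit 102)))))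 (XT.nd (nat_lit 234) (nat_lit 0) (nat_lit 0) (XT.nd (nat_lit 78) (nat_lit 152) (nat_lit 0) (XT.lf (nat_lit 0) (nat_lit 394826909377) (nat_lit 304) (nat_lit 404295864157) (nat_lit 76) (nat_lit 136210042516) (nat_lit 25) (nat_lit 5) (nat_lit 29) (nat_lit 5) (nat_lit 26) (nat_lit 5) (nat_lit 317) (nat_lit 302) (nat_lit 101)) (XT.nd (nat_lit 78) (nat_lit 0) (nat_lit 0) (XT.lf (nat_lit 0) (nat_lit 18707112564) (nat_lit 152) (nat_lit 515968426075) (nat_lit 228) (nat_lit 448282544126) (nat_lit 23) (nat_lit 5) (nat_lit 25) (nat_lit 5) (nat_lit 26) (nat_lit 5) (nat_lit 318) (nat_lit 302) (nat_lit 100)) (XT.lf (nat_lit 0) (nat_lit 498542978921) (nat_lit 152) (nat_lit 198223235092) (nat_lit 228) (nat_lit 336742824379) (nat_lit 23) (nat_lit 5) (nat_lit 25) (nat_lit 5) (nat_lit 26) (nat_lit 5) (nat_lit 319) (nat_lit 302) (nat_lit 99)))) (XT.nd (nat_lit 36270) (nat_lit 0) (nat_lit 1064) (XT.nd (nat_lit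 36192) (nat_lit 0) (nat_lit 1064) (XT.lf (nat_lit 0) (nat_lit 875309982706) (nat_lit 228) (nat_lit 74824216442) (nat_lit 76) (nat_lit 137691004209) (nat_lit 23) (nat_lit 5) (nat_lit 26) (nat_lit 5) (nat_lit 24) (nat_lit 5) (nat_lit 320) (nat_lit 302) (nat_lit 98)) (XT.lf (nat_lit 0) (nat_lit 111263438798) (nat_lit 532) (nat_lit 75076969522) (nat_lit 532) (nat_lit 75076969522) (nat_lit 37) (nat_lit 3) (nat_lit 44) (nat_lit 3) (nat_lit 44) (nat_lit 5) (nat_lit 303) (nat_lit 303) (nat_lit 114))) (XT.nd (nat_lit 78) (nat_lit 0) (nat_lit 76) (XT.lf (nat_lit 76) (nat_lit 80799085032) (nat_lit 0) (nat_lit 152572302185) (nat_lit 532) (nat_lit 310221282909) (nat_lit 38) (nat_lit 5) (nat_lit 37) (nat_lit 3) (nat_lit 44) (nat_lit 5) (nat_lit 304) (nat_lit 303) (nat_lit 113)) (XT.lf (nat_lit 0) (nat_lit 251343283307) (nat_lit 456) (nat_lit 229069427916) (nat_lit 532) (nat_lit 85097720545) (nat_lit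 38) (nat_lit 5) (nat_lit 44) (nat_lit 5) (nat_lit 45) (nat_lit 5) (nat_lit 305) (nat_lit 303) (nat_lit 112))))))) (XT.nd (nat_lit 1014) (nat_lit 152) (nat_lit 0) (XT.nd (nat_lit 468) (nat_lit 684) (nat_lit 0) (XT.nd (nat_lit 234) (nat_lit 304) (nat_lit 0) (XT.nd (nat_lit 78) (nat_lit 0) (nat_lit 0) (XT.lf (nat_lit 76) (nat_lit 20410760533) (nat_lit 0) (nat_lit 254795946832) (nat_lit 532) (nat_lit 313618604971) (nat_lit 39) (nat_lit 5) (nat_lit 38) (nat_lit 5) (nat_lit 45) (nat_lit 5) (nat_lit 306) (nat_lit 303) (nat_lit 111)) (XT.nd (nat_lit 78) (nat_lit 0) (nat_lit 76) (XT.lf (nat_lit 76) (nat_lit 302876732465) (nat_lit 0) (nat_lit 4365618215) (nat_lit 532) (nat_lit 306261981129) (nat_lit 39) (nat_lit 5) (nat_lit 38) (nat_lit 5) (nat_lit 45) (nat_lit 5) (nat_lit 307) (nat_lit 303) (nat_lit 110)) (XT.lf (nat_lit 0) (nat_lit 348240518846) (nat_lit 456) (nat_lit 38617394903) (nat_lit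 532) (nat_lit 252787785303) (nat_lit 39) (nat_lit 5) (nat_lit 45) (nat_lit 5) (nat_lit 46) (nat_lit 5) (nat_lit 308) (nat_lit 303) (nat_lit 109)))) (XT.nd (nat_lit 78) (nat_lit 380) (nat_lit 0) (XT.lf (nat_lit 76) (nat_lit 268470186691) (nat_lit 0) (nat_lit 130618444925) (nat_lit 532) (nat_lit 268264136840) (nat_lit 40) (nat_lit 5) (nat_lit 39) (nat_lit 5) (nat_lit 46) (nat_lit 5) (nat_lit 309) (nat_lit 303) (nat_lit 108)) (XT.nd (nat_lit 78) (nat_lit 456) (nat_lit 0) (XT.lf (nat_lit 0) (nat_lit 458602065425) (nat_lit 456) (nat_lit 98412586311) (nat_lit 76) (nat_lit 139893953987) (nat_lit 40) (nat_lit 5) (nat_lit 46) (nat_lit 5) (nat_lit 41) (nat_lit 5) (nat_lit 310) (nat_lit 303) (nat_lit 107)) (XT.lf (nat_lit 0) (nat_lit 234429418254) (nat_lit 456) (nat_lit 297477861805) (nat_lit 532) (nat_lit 196199173485) (nat_lit 34) (nat_lit 5) (nat_lit 40) (nat_lit 5) (nat_lit 41) (nat_lit 5)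 (nat_lit 311) (nat_lit 303) (nat_lit 106))))) (XT.nd (nat_lit 234) (nat_lit 456) (nat_lit 0) (XT.nd (nat_lit 78) (nat_lit 228) (nat_lit 0) (XT.lf (nat_lit 0) (nat_lit 599495581899) (nat_lit 456) (nat_lit 14272091307) (nat_lit 532) (nat_lit 147817195138) (nat_lit 34) (nat_lit 5) (nat_lit 40) (nat_lit 5) (nat_lit 41) (nat_lit 5) (nat_lit 312) (nat_lit 303) (nat_lit 105)) (XT.nd (nat_lit 78) (nat_lit 0) (nat_lit 0) (XT.lf (nat_lit 0) (nat_lit 198965794868) (nat_lit 228) (nat_lit 515008972814) (nat_lit 304) (nat_lit 82822959112) (nat_lit 31) (nat_lit 5) (nat_lit 34) (nat_lit 5) (nat_lit 35) (nat_lit 5) (nat_lit 313) (nat_lit 303) (nat_lit 104)) (XT.lf (nat_lit 0) (nat_lit 597733207664) (nat_lit 228) (nat_lit 229258337593) (nat_lit 304) (nat_lit 7452619471) (nat_lit 31) (nat_lit 5) (nat_lit 34) (nat_lit 5) (nat_lit 35) (nat_lit 5) (nat_lit 314) (nat_lit 303) (nat_lit 103)))) (XT.nd (nat_lit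 156) (nat_lit 228) (nat_lit 0) (XT.nd (nat_lit 78) (nat_lit 0) (nat_lit 0) (XT.lf (nat_lit 0) (nat_lit 76138426350) (nat_lit 228) (nat_lit 717207331270) (nat_lit 76) (nat_lit 81143067295) (nat_lit 28) (nat_lit 5) (nat_lit 31) (nat_lit 5) (nat_lit 29) (nat_lit 5) (nat_lit 315) (nat_lit 303) (nat_lit 102)) (XT.lf (nat_lit 0) (nat_lit 178609075783) (nat_lit 228) (nat_lit 327280443217) (nat_lit 76) (nat_lit 410824456600) (nat_lit 28) (nat_lit 5) (nat_lit 31) (nat_lit 5) (nat_lit 29) (nat_lit 5) (nat_lit 316) (nat_lit 303) (nat_lit 101))) (XT.nd (nat_lit 78) (nat_lit 0) (nat_lit 0) (XT.lf (nat_lit 0) (nat_lit 98782063288) (nat_lit 228) (nat_lit 192871015142) (nat_lit 304) (nat_lit 670474003845) (nat_lit 25) (nat_lit 5) (nat_lit 28) (nat_lit 5) (nat_lit 29) (nat_lit 5) (nat_lit 317) (nat_lit 303) (nat_lit 100)) (XT.lf (nat_lit 0) (nat_lit 426413244149) (nat_lit 304) (nat_lit 436639300972)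 (nat_lit 76) (nat_lit 147106880970) (nat_lit 25) (nat_lit 5) (nat_lit 29) (nat_lit 5) (nat_lit 26) (nat_lit 5) (nat_lit 318) (nat_lit 303) (nat_lit 99)))))) (XT.nd (nat_lit 36816) (nat_lit 0) (nat_lit 380) (XT.nd (nat_lit 36504) (nat_lit 0) (nat_lit 1140) (XT.nd (nat_lit 36348) (nat_lit 0) (nat_lit 1064) (XT.lf (nat_lit 0) (nat_lit 20203908005) (nat_lit 152) (nat_lit 557245847710) (nat_lit 228) (nat_lit 484144959122) (nat_lit 23) (nat_lit 5) (nat_lit 25) (nat_lit 5) (nat_lit 26) (nat_lit 5) (nat_lit 319) (nat_lit 303) (nat_lit 98)) (XT.nd (nat_lit 78) (nat_lit 0) (nat_lit 0) (XT.lf (nat_lit 0) (nat_lit 120164723320) (nat_lit 532) (nat_lit 81083013497) (nat_lit 532) (nat_lit 81083013497) (nat_lit 37) (nat_lit 3) (nat_lit 44) (nat_lit 3) (nat_lit 44) (nat_lit 5) (nat_lit 304) (nat_lit 304) (nat_lit 112)) (XT.lf (nat_lit 76) (nat_lit 87263233255) (nat_lit 0) (nat_lit 164778258077) (nat_lit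 532) (nat_lit 335038559100) (nat_lit 38) (nat_lit 5) (nat_lit 37) (nat_lit 3) (nat_lit 44) (nat_lit 5) (nat_lit 305) (nat_lit 304) (nat_lit 111)))) (XT.nd (nat_lit 156) (nat_lit 0) (nat_lit 0) (XT.nd (nat_lit 78) (nat_lit 0) (nat_lit 0) (XT.lf (nat_lit 0) (nat_lit 271451106164) (nat_lit 456) (nat_lit 247394742470) (nat_lit 532) (nat_lit 91905387146) (nat_lit 38) (nat_lit 5) (nat_lit 44) (nat_lit 5) (nat_lit 45) (nat_lit 5) (nat_lit 306) (nat_lit 304) (nat_lit 110)) (XT.lf (nat_lit 76) (nat_lit 22043854987) (nat_lit 0) (nat_lit 275179728097) (nat_lit 532) (nat_lit 338707725520) (nat_lit 39) (nat_lit 5) (nat_lit 38) (nat_lit 5) (nat_lit 45) (nat_lit 5) (nat_lit 307) (nat_lit 304) (nat_lit 109))) (XT.nd (nat_lit 78) (nat_lit 0) (nat_lit 76) (XT.lf (nat_lit 76) (nat_lit 327107087370) (nat_lit 0) (nat_lit 4714965375) (nat_lit 532) (nat_lit 330762599019) (nat_lit 39) (nat_lit 5) (nat_lit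 38) (nat_lit 5) (nat_lit 45) (nat_lit 5) (nat_lit 308) (nat_lit 304) (nat_lit 108)) (XT.lf (nat_lit 0) (nat_lit 376100048927) (nat_lit 456) (nat_lit 41706559414) (nat_lit 532) (nat_lit 273010722188) (nat_lit 39) (nat_lit 5) (nat_lit 45) (nat_lit 5) (nat_lit 46) (nat_lit 5) (nat_lit 309) (nat_lit 304) (nat_lit 107))))) (XT.nd (nat_lit 234) (nat_lit 456) (nat_lit 0) (XT.nd (nat_lit 78) (nat_lit 380) (nat_lit 0) (XT.lf (nat_lit 76) (nat_lit 289948022959) (nat_lit 0) (nat_lit 141067971708) (nat_lit 532) (nat_lit 289724972204) (nat_lit 40) (nat_lit 5) (nat_lit 39) (nat_lit 5) (nat_lit 46) (nat_lit 5) (nat_lit 310) (nat_lit 304) (nat_lit 106)) (XT.nd (nat_lit 78) (nat_lit 456) (nat_lit 0) (XT.lf (nat_lit 0) (nat_lit 495290481853) (nat_lit 456) (nat_lit 106285365785) (nat_lit 76) (nat_lit 151085425280) (nat_lit 40) (nat_lit 5) (nat_lit 46) (nat_lit 5) (nat_lit 41) (nat_lit 5) (nat_lit 311)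 (nat_lit 304) (nat_lit 105)) (XT.lf (nat_lit 0) (nat_lit 253183993388) (nat_lit 456) (nat_lit 321276106994) (nat_lit 532) (nat_lit 211894849331) (nat_lit 34) (nat_lit 5) (nat_lit 40) (nat_lit 5) (nat_lit 41) (nat_lit 5) (nat_lit 312) (nat_lit 304) (nat_lit 104)))) (XT.nd (nat_lit 156) (nat_lit 228) (nat_lit 0) (XT.nd (nat_lit 78) (nat_lit 228) (nat_lit 0) (XT.lf (nat_lit 0) (nat_lit 647455433704) (nat_lit 456) (nat_lit 15413873654) (nat_lit 532) (nat_lit 159642331830) (nat_lit 34) (nat_lit 5) (nat_lit 40) (nat_lit 5) (nat_lit 41) (nat_lit 5) (nat_lit 313) (nat_lit 304) (nat_lit 103)) (XT.lf (nat_lit 0) (nat_lit 214883277020) (nat_lit 228) (nat_lit 556209680975) (nat_lit 304) (nat_lit 89448569305) (nat_lit 31) (nat_lit 5) (nat_lit 34) (nat_lit 5) (nat_lit 35) (nat_lit 5) (nat_lit 314) (nat_lit 304) (nat_lit 102))) (XT.nd (nat_lit 78) (nat_lit 228) (nat_lit 0) (XT.lf (nat_lit 0) (nat_lit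 645552066650) (nat_lit 228) (nat_lit 247598995652) (nat_lit 304) (nat_lit 8048619272) (nat_lit 31) (nat_lit 5) (nat_lit 34) (nat_lit 5) (nat_lit 35) (nat_lit 5) (nat_lit 315) (nat_lit 304) (nat_lit 101)) (XT.lf (nat_lit 0) (nat_lit 82229690421) (nat_lit 228) (nat_lit 774583694076) (nat_lit 76) (nat_lit 87634530480) (nat_lit 28) (nat_lit 5) (nat_lit 31) (nat_lit 5) (nat_lit 29) (nat_lit 5) (nat_lit 316) (nat_lit 304) (nat_lit 100))))))))
noncomputable def xc127 : XT := (XT.nd (nat_lit 111852) (nat_lit 0) (nat_lit 684) (XT.nd (nat_lit 37440) (nat_lit 0) (nat_lit 228) (XT.nd (nat_lit 36894) (nat_lit 0) (nat_lit 456) (XT.nd (nat_lit 36660) (nat_lit 0) (nat_lit 912) (XT.nd (nat_lit 78) (nat_lit 228) (nat_lit 0) (XT.lf (nat_lit 0) (nat_lit 192897977736) (nat_lit 228) (nat_lit 353462671549) (nat_lit 76) (nat_lit 443690429611) (nat_lit 28) (nat_lit 5) (nat_lit 31) (nat_lit 5) (nat_lit 29) (nat_lit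 5) (nat_lit 317) (nat_lit 304) (nat_lit 99)) (XT.nd (nat_lit 36504) (nat_lit 0) (nat_lit 912) (XT.lf (nat_lit 0) (nat_lit 106684830234) (nat_lit 228) (nat_lit 208300662188) (nat_lit 304) (nat_lit 724111742388) (nat_lit 25) (nat_lit 5) (nat_lit 28) (nat_lit 5) (nat_lit 29) (nat_lit 5) (nat_lit 318) (nat_lit 304) (nat_lit 98)) (XT.lf (nat_lit 0) (nat_lit 129778080729) (nat_lit 532) (nat_lit 87569557195) (nat_lit 532) (nat_lit 87569557195) (nat_lit 37) (nat_lit 3) (nat_lit 44) (nat_lit 3) (nat_lit 44) (nat_lit 5) (nat_lit 305) (nat_lit 305) (nat_lit 110)))) (XT.nd (nat_lit 78) (nat_lit 0) (nat_lit 76) (XT.lf (nat_lit 76) (nat_lit 94244481749) (nat_lit 0) (nat_lit 177960665942) (nat_lit 532) (nat_lit 361841278224) (nat_lit 38) (nat_lit 5) (nat_lit 37) (nat_lit 3) (nat_lit 44) (nat_lit 5) (nat_lit 306) (nat_lit 305) (nat_lit 109)) (XT.nd (nat_lit 78) (nat_lit 0) (nat_lit 0) (XT.lf (nat_lit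 0) (nat_lit 293167503465) (nat_lit 456) (nat_lit 267186116381) (nat_lit 532) (nat_lit 99257688622) (nat_lit 38) (nat_lit 5) (nat_lit 44) (nat_lit 5) (nat_lit 45) (nat_lit 5) (nat_lit 307) (nat_lit 305) (nat_lit 108)) (XT.lf (nat_lit 76) (nat_lit 23807563671) (nat_lit 0) (nat_lit 297194196810) (nat_lit 532) (nat_lit 365804028191) (nat_lit 39) (nat_lit 5) (nat_lit 38) (nat_lit 5) (nat_lit 45) (nat_lit 5) (nat_lit 308) (nat_lit 305) (nat_lit 107))))) (XT.nd (nat_lit 234) (nat_lit 532) (nat_lit 0) (XT.nd (nat_lit 78) (nat_lit 0) (nat_lit 76) (XT.lf (nat_lit 76) (nat_lit 353275839808) (nat_lit 0) (nat_lit 5092246369) (nat_lit 532) (nat_lit 357223314931) (nat_lit 39) (nat_lit 5) (nat_lit 38) (nat_lit 5) (nat_lit 45) (nat_lit 5) (nat_lit 309) (nat_lit 305) (nat_lit 106)) (XT.nd (nat_lit 78) (nat_lit 0) (nat_lit 0) (XT.lf (nat_lit 0) (nat_lit 406188300247) (nat_lit 456) (nat_lit 45042889481)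 (nat_lit 532) (nat_lit 294851506284) (nat_lit 39) (nat_lit 5) (nat_lit 45) (nat_lit 5) (nat_lit 46) (nat_lit 5) (nat_lit 310) (nat_lit 305) (nat_lit 105)) (XT.lf (nat_lit 76) (nat_lit 313144054553) (nat_lit 0) (nat_lit 152353453330) (nat_lit 532) (nat_lit 312902716566) (nat_lit 40) (nat_lit 5) (nat_lit 39) (nat_lit 5) (nat_lit 46) (nat_lit 5) (nat_lit 311) (nat_lit 305) (nat_lit 104)))) (XT.nd (nat_lit 156) (nat_lit 228) (nat_lit 0) (XT.nd (nat_lit 78) (nat_lit 456) (nat_lit 0) (XT.lf (nat_lit 0) (nat_lit 534913935760) (nat_lit 456) (nat_lit 114788000062) (nat_lit 76) (nat_lit 163172220700) (nat_lit 40) (nat_lit 5) (nat_lit 46) (nat_lit 5) (nat_lit 41) (nat_lit 5) (nat_lit 312) (nat_lit 305) (nat_lit 103)) (XT.lf (nat_lit 0) (nat_lit 273438902909) (nat_lit 456) (nat_lit 346978209482) (nat_lit 532) (nat_lit 228846216056) (nat_lit 34) (nat_lit 5) (nat_lit 40) (nat_lit 5) (nat_lit 41)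 (nat_lit 5) (nat_lit 313) (nat_lit 305) (nat_lit 102))) (XT.nd (nat_lit 78) (nat_lit 228) (nat_lit 0) (XT.lf (nat_lit 0) (nat_lit 699252044372) (nat_lit 456) (nat_lit 16646996442) (nat_lit 532) (nat_lit 172413513542) (nat_lit 34) (nat_lit 5) (nat_lit 40) (nat_lit 5) (nat_lit 41) (nat_lit 5) (nat_lit 314) (nat_lit 305) (nat_lit 101)) (XT.lf (nat_lit 0) (nat_lit 232074126563) (nat_lit 228) (nat_lit 600706447168) (nat_lit 304) (nat_lit 96604260630) (nat_lit 31) (nat_lit 5) (nat_lit 34) (nat_lit 5) (nat_lit 35) (nat_lit 5) (nat_lit 315) (nat_lit 305) (nat_lit 100)))))) (XT.nd (nat_lit 37128) (nat_lit 0) (nat_lit 228) (XT.nd (nat_lit 36816) (nat_lit 0) (nat_lit 684) (XT.nd (nat_lit 78) (nat_lit 228) (nat_lit 0) (XT.lf (nat_lit 0) (nat_lit 697196405483) (nat_lit 228) (nat_lit 267406907633) (nat_lit 304) (nat_lit 8692328982) (nat_lit 31) (nat_lit 5) (nat_lit 34) (nat_lit 5) (nat_lit 35) (nat_lit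 5) (nat_lit 316) (nat_lit 305) (nat_lit 99)) (XT.nd (nat_lit 36660) (nat_lit 0) (nat_lit 684) (XT.lf (nat_lit 0) (nat_lit 88808228516) (nat_lit 228) (nat_lit 836550197818) (nat_lit 76) (nat_lit 94645308181) (nat_lit 28) (nat_lit 5) (nat_lit 31) (nat_lit 5) (nat_lit 29) (nat_lit 5) (nat_lit 317) (nat_lit 305) (nat_lit 98)) (XT.lf (nat_lit 0) (nat_lit 140160481116) (nat_lit 532) (nat_lit 94575038282) (nat_lit 532) (nat_lit 94575038282) (nat_lit 37) (nat_lit 3) (nat_lit 44) (nat_lit 3) (nat_lit 44) (nat_lit 5) (nat_lit 306) (nat_lit 306) (nat_lit 108)))) (XT.nd (nat_lit 156) (nat_lit 0) (nat_lit 76) (XT.nd (nat_lit 78) (nat_lit 0) (nat_lit 76) (XT.lf (nat_lit 76) (nat_lit 101784203040) (nat_lit 0) (nat_lit 192197645435) (nat_lit 532) (nat_lit 390788267035) (nat_lit 38) (nat_lit 5) (nat_lit 37) (nat_lit 3) (nat_lit 44) (nat_lit 5) (nat_lit 307) (nat_lit 306) (nat_lit 107)) (XT.lf (nat_lit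 0) (nat_lit 316621168494) (nat_lit 456) (nat_lit 288560829520) (nat_lit 532) (nat_lit 107198192691) (nat_lit 38) (nat_lit 5) (nat_lit 44) (nat_lit 5) (nat_lit 45) (nat_lit 5) (nat_lit 308) (nat_lit 306) (nat_lit 106))) (XT.nd (nat_lit 78) (nat_lit 0) (nat_lit 0) (XT.lf (nat_lit 76) (nat_lit 25712340476) (nat_lit 0) (nat_lit 320969810114) (nat_lit 532) (nat_lit 395068080066) (nat_lit 39) (nat_lit 5) (nat_lit 38) (nat_lit 5) (nat_lit 45) (nat_lit 5) (nat_lit 309) (nat_lit 306) (nat_lit 105)) (XT.lf (nat_lit 76) (nat_lit 381538065985) (nat_lit 0) (nat_lit 5499697892) (nat_lit 532) (nat_lit 385800929774) (nat_lit 39) (nat_lit 5) (nat_lit 38) (nat_lit 5) (nat_lit 45) (nat_lit 5) (nat_lit 310) (nat_lit 306) (nat_lit 104))))) (XT.nd (nat_lit 234) (nat_lit 608) (nat_lit 0) (XT.nd (nat_lit 78) (nat_lit 0) (nat_lit 0) (XT.lf (nat_lit 0) (nat_lit 438683576377) (nat_lit 456) (nat_lit 48646153728)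 (nat_lit 532) (nat_lit 318439563618) (nat_lit 39) (nat_lit 5) (nat_lit 45) (nat_lit 5) (nat_lit 46) (nat_lit 5) (nat_lit 311) (nat_lit 306) (nat_lit 103)) (XT.nd (nat_lit 78) (nat_lit 0) (nat_lit 76) (XT.lf (nat_lit 76) (nat_lit 338195741603) (nat_lit 0) (nat_lit 164541767222) (nat_lit 532) (nat_lit 337934716628) (nat_lit 40) (nat_lit 5) (nat_lit 39) (nat_lit 5) (nat_lit 46) (nat_lit 5) (nat_lit 312) (nat_lit 306) (nat_lit 102)) (XT.lf (nat_lit 0) (nat_lit 577707235256) (nat_lit 456) (nat_lit 123970872898) (nat_lit 76) (nat_lit 176225965261) (nat_lit 40) (nat_lit 5) (nat_lit 46) (nat_lit 5) (nat_lit 41) (nat_lit 5) (nat_lit 313) (nat_lit 306) (nat_lit 101)))) (XT.nd (nat_lit 156) (nat_lit 228) (nat_lit 0) (XT.nd (nat_lit 78) (nat_lit 0) (nat_lit 0) (XT.lf (nat_lit 0) (nat_lit 295314178078) (nat_lit 456) (nat_lit 374736478181) (nat_lit 532) (nat_lit 247153723679) (nat_lit 34) (nat_lit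 5) (nat_lit 40) (nat_lit 5) (nat_lit 41) (nat_lit 5) (nat_lit 314) (nat_lit 306) (nat_lit 100)) (XT.lf (nat_lit 0) (nat_lit 755192358789) (nat_lit 456) (nat_lit 17978767213) (nat_lit 532) (nat_lit 186206419012) (nat_lit 34) (nat_lit 5) (nat_lit 40) (nat_lit 5) (nat_lit 41) (nat_lit 5) (nat_lit 315) (nat_lit 306) (nat_lit 99))) (XT.nd (nat_lit 36816) (nat_lit 0) (nat_lit 456) (XT.lf (nat_lit 0) (nat_lit 250640217338) (nat_lit 228) (nat_lit 648762955838) (nat_lit 304) (nat_lit 104332434969) (nat_lit 31) (nat_lit 5) (nat_lit 34) (nat_lit 5) (nat_lit 35) (nat_lit 5) (nat_lit 316) (nat_lit 306) (nat_lit 98)) (XT.lf (nat_lit 0) (nat_lit 151373451575) (nat_lit 532) (nat_lit 102140969766) (nat_lit 532) (nat_lit 102140969766) (nat_lit 37) (nat_lit 3) (nat_lit 44) (nat_lit 3) (nat_lit 44) (nat_lit 5) (nat_lit 307) (nat_lit 307) (nat_lit 106))))))) (XT.nd (nat_lit 37908) (nat_lit 0) (nat_lit 228)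 (XT.nd (nat_lit 468) (nat_lit 228) (nat_lit 0) (XT.nd (nat_lit 234) (nat_lit 0) (nat_lit 76) (XT.nd (nat_lit 78) (nat_lit 0) (nat_lit 76) (XT.lf (nat_lit 76) (nat_lit 109927078816) (nat_lit 0) (nat_lit 207573565280) (nat_lit 532) (nat_lit 422051059668) (nat_lit 38) (nat_lit 5) (nat_lit 37) (nat_lit 3) (nat_lit 44) (nat_lit 5) (nat_lit 308) (nat_lit 307) (nat_lit 105)) (XT.nd (nat_lit 78) (nat_lit 0) (nat_lit 0) (XT.lf (nat_lit 0) (nat_lit 341951088956) (nat_lit 456) (nat_lit 311645544842) (nat_lit 532) (nat_lit 115773952923) (nat_lit 38) (nat_lit 5) (nat_lit 44) (nat_lit 5) (nat_lit 45) (nat_lit 5) (nat_lit 309) (nat_lit 307) (nat_lit 104)) (XT.lf (nat_lit 76) (nat_lit 27769474929) (nat_lit 0) (nat_lit 346647461418) (nat_lit 532) (nat_lit 426673294665) (nat_lit 39) (nat_lit 5) (nat_lit 38) (nat_lit 5) (nat_lit 45) (nat_lit 5) (nat_lit 310) (nat_lit 307) (nat_lit 103)))) (XT.nd (nat_lit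 78) (nat_lit 0) (nat_lit 76) (XT.lf (nat_lit 76) (nat_lit 412061247574) (nat_lit 0) (nat_lit 5939735292) (nat_lit 532) (nat_lit 416664789520) (nat_lit 39) (nat_lit 5) (nat_lit 38) (nat_lit 5) (nat_lit 45) (nat_lit 5) (nat_lit 311) (nat_lit 307) (nat_lit 102)) (XT.nd (nat_lit 78) (nat_lit 0) (nat_lit 0) (XT.lf (nat_lit 0) (nat_lit 473778444338) (nat_lit 456) (nat_lit 52537702926) (nat_lit 532) (nat_lit 343914674551) (nat_lit 39) (nat_lit 5) (nat_lit 45) (nat_lit 5) (nat_lit 46) (nat_lit 5) (nat_lit 312) (nat_lit 307) (nat_lit 101)) (XT.lf (nat_lit 76) (nat_lit 365251540409) (nat_lit 0) (nat_lit 177705140857) (nat_lit 532) (nat_lit 364969307691) (nat_lit 40) (nat_lit 5) (nat_lit 39) (nat_lit 5) (nat_lit 46) (nat_lit 5) (nat_lit 313) (nat_lit 307) (nat_lit 100))))) (XT.nd (nat_lit 37128) (nat_lit 0) (nat_lit 228) (XT.nd (nat_lit 78) (nat_lit 456) (nat_lit 0) (XT.lf (nat_lit 0) (nat_lit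 623923972372) (nat_lit 456) (nat_lit 133888399409) (nat_lit 76) (nat_lit 190324014108) (nat_lit 40) (nat_lit 5) (nat_lit 46) (nat_lit 5) (nat_lit 41) (nat_lit 5) (nat_lit 314) (nat_lit 307) (nat_lit 99)) (XT.nd (nat_lit 36972) (nat_lit 0) (nat_lit 228) (XT.lf (nat_lit 0) (nat_lit 318939452016) (nat_lit 456) (nat_lit 404715406673) (nat_lit 532) (nat_lit 266925858969) (nat_lit 34) (nat_lit 5) (nat_lit 40) (nat_lit 5) (nat_lit 41) (nat_lit 5) (nat_lit 315) (nat_lit 307) (nat_lit 98)) (XT.lf (nat_lit 0) (nat_lit 163483440844) (nat_lit 532) (nat_lit 110312185980) (nat_lit 532) (nat_lit 110312185980) (nat_lit 37) (nat_lit 3) (nat_lit 44) (nat_lit 3) (nat_lit 44) (nat_lit 5) (nat_lit 308) (nat_lit 308) (nat_lit 104)))) (XT.nd (nat_lit 156) (nat_lit 0) (nat_lit 76) (XT.nd (nat_lit 78) (nat_lit 0) (nat_lit 76) (XT.lf (nat_lit 76) (nat_lit 118721364749) (nat_lit 0) (nat_lit 224179543276) (nat_lit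 532) (nat_lit 455814914048) (nat_lit 38) (nat_lit 5) (nat_lit 37) (nat_lit 3) (nat_lit 44) (nat_lit 5) (nat_lit 309) (nat_lit 308) (nat_lit 103)) (XT.lf (nat_lit 0) (nat_lit 369307370674) (nat_lit 456) (nat_lit 336577058938) (nat_lit 532) (nat_lit 125035787553) (nat_lit 38) (nat_lit 5) (nat_lit 44) (nat_lit 5) (nat_lit 45) (nat_lit 5) (nat_lit 310) (nat_lit 308) (nat_lit 102))) (XT.nd (nat_lit 78) (nat_lit 0) (nat_lit 0) (XT.lf (nat_lit 76) (nat_lit 29991159137) (nat_lit 0) (nat_lit 374379315339) (nat_lit 532) (nat_lit 460806959501) (nat_lit 39) (nat_lit 5) (nat_lit 38) (nat_lit 5) (nat_lit 45) (nat_lit 5) (nat_lit 311) (nat_lit 308) (nat_lit 101)) (XT.lf (nat_lit 76) (nat_lit 445026264244) (nat_lit 0) (nat_lit 6414966901) (nat_lit 532) (nat_lit 449997788665) (nat_lit 39) (nat_lit 5) (nat_lit 38) (nat_lit 5) (nat_lit 45) (nat_lit 5) (nat_lit 312) (nat_lit 308) (nat_lit 100)))))) (XT.nd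 (nat_lit 37518) (nat_lit 0) (nat_lit 0) (XT.nd (nat_lit 37206) (nat_lit 152) (nat_lit 0) (XT.nd (nat_lit 78) (nat_lit 0) (nat_lit 0) (XT.lf (nat_lit 0) (nat_lit 511680875793) (nat_lit 456) (nat_lit 56740596475) (nat_lit 532) (nat_lit 371427802085) (nat_lit 39) (nat_lit 5) (nat_lit 45) (nat_lit 5) (nat_lit 46) (nat_lit 5) (nat_lit 313) (nat_lit 308) (nat_lit 99)) (XT.nd (nat_lit 78) (nat_lit 0) (nat_lit 76) (XT.lf (nat_lit 76) (nat_lit 394471783220) (nat_lit 0) (nat_lit 191921579781) (nat_lit 532) (nat_lit 394166692612) (nat_lit 40) (nat_lit 5) (nat_lit 39) (nat_lit 5) (nat_lit 46) (nat_lit 5) (nat_lit 314) (nat_lit 308) (nat_lit 98)) (XT.lf (nat_lit 0) (nat_lit 673838025874) (nat_lit 456) (nat_lit 144599348488) (nat_lit 76) (nat_lit 205549910911) (nat_lit 40) (nat_lit 5) (nat_lit 46) (nat_lit 5) (nat_lit 41) (nat_lit 5) (nat_lit 315) (nat_lit 308) (nat_lit 97)))) (XT.nd (nat_lit 156)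 (nat_lit 0) (nat_lit 76) (XT.nd (nat_lit 78) (nat_lit 0) (nat_lit 0) (XT.lf (nat_lit 0) (nat_lit 176562213113) (nat_lit 532) (nat_lit 119137108246) (nat_lit 532) (nat_lit 119137108246) (nat_lit 37) (nat_lit 3) (nat_lit 44) (nat_lit 3) (nat_lit 44) (nat_lit 5) (nat_lit 309) (nat_lit 309) (nat_lit 102)) (XT.lf (nat_lit 76) (nat_lit 128219176490) (nat_lit 0) (nat_lit 242113986276) (nat_lit 532) (nat_lit 492279909647) (nat_lit 38) (nat_lit 5) (nat_lit 37) (nat_lit 3) (nat_lit 44) (nat_lit 5) (nat_lit 310) (nat_lit 309) (nat_lit 101))) (XT.nd (nat_lit 78) (nat_lit 0) (nat_lit 0) (XT.lf (nat_lit 0) (nat_lit 398852127167) (nat_lit 456) (nat_lit 363503112635) (nat_lit 532) (nat_lit 135038580595) (nat_lit 38) (nat_lit 5) (nat_lit 44) (nat_lit 5) (nat_lit 45) (nat_lit 5) (nat_lit 311) (nat_lit 309) (nat_lit 100)) (XT.lf (nat_lit 76) (nat_lit 32390560076) (nat_lit 0) (nat_lit 404329709442) (nat_lit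 532) (nat_lit 497671345876) (nat_lit 39) (nat_lit 5) (nat_lit 38) (nat_lit 5) (nat_lit 45) (nat_lit 5) (nat_lit 312) (nat_lit 309) (nat_lit 99))))) (XT.nd (nat_lit 37362) (nat_lit 0) (nat_lit 0) (XT.nd (nat_lit 78) (nat_lit 76) (nat_lit 0) (XT.lf (nat_lit 76) (nat_lit 480628465576) (nat_lit 0) (nat_lit 6928209508) (nat_lit 532) (nat_lit 485997453995) (nat_lit 39) (nat_lit 5) (nat_lit 38) (nat_lit 5) (nat_lit 45) (nat_lit 5) (nat_lit 313) (nat_lit 309) (nat_lit 98)) (XT.nd (nat_lit 37206) (nat_lit 152) (nat_lit 0) (XT.lf (nat_lit 0) (nat_lit 552615479522) (nat_lit 456) (nat_lit 61279739011) (nat_lit 532) (nat_lit 401141986445) (nat_lit 39) (nat_lit 5) (nat_lit 45) (nat_lit 5) (nat_lit 46) (nat_lit 5) (nat_lit 314) (nat_lit 309) (nat_lit 97)) (XT.lf (nat_lit 0) (nat_lit 190687273325) (nat_lit 532) (nat_lit 128668031799) (nat_lit 532) (nat_lit 128668031799) (nat_lit 37) (nat_lit 3) (nat_lit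 44) (nat_lit 3) (nat_lit 44) (nat_lit 5) (nat_lit 310) (nat_lit 310) (nat_lit 100)))) (XT.nd (nat_lit 37518) (nat_lit 0) (nat_lit 0) (XT.nd (nat_lit 78) (nat_lit 0) (nat_lit 76) (XT.lf (nat_lit 76) (nat_lit 138476798538) (nat_lit 0) (nat_lit 261483173369) (nat_lit 532) (nat_lit 531662133074) (nat_lit 38) (nat_lit 5) (nat_lit 37) (nat_lit 3) (nat_lit 44) (nat_lit 5) (nat_lit 311) (nat_lit 310) (nat_lit 99)) (XT.lf (nat_lit 0) (nat_lit 430760440378) (nat_lit 456) (nat_lit 392583266466) (nat_lit 532) (nat_lit 145841607061) (nat_lit 38) (nat_lit 5) (nat_lit 44) (nat_lit 5) (nat_lit 45) (nat_lit 5) (nat_lit 312) (nat_lit 310) (nat_lit 98))) (XT.nd (nat_lit 78) (nat_lit 0) (nat_lit 0) (XT.lf (nat_lit 0) (nat_lit 205942326490) (nat_lit 532) (nat_lit 138961435671) (nat_lit 532) (nat_lit 138961435671) (nat_lit 37) (nat_lit 3) (nat_lit 44) (nat_lit 3) (nat_lit 44) (nat_lit 5) (nat_lit 311) (nat_lit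 311) (nat_lit 98)) (XT.lf (nat_lit 76) (nat_lit 149555017807) (nat_lit 0) (nat_lit 282401885702) (nat_lit 532) (nat_lit 574194958533) (nat_lit 38) (nat_lit 5) (nat_lit 37) (nat_lit 3) (nat_lit 44) (nat_lit 5) (nat_lit 312) (nat_lit 311) (nat_lit 97))))))))

set_option maxRecDepth 10000000 in
noncomputable def Tp : PT := (PT.nd (nat_lit 4586712) (PT.nd (nat_lit 4361370) (PT.nd (nat_lit 4099290) pc0 pc1) (PT.nd (nat_lit 113022) pc2 pc3)) (PT.nd (nat_lit 149682) (PT.nd (nat_lit 75114) pc4 pc5) (PT.nd (nat_lit 75816) pc6 pc7)))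

set_option maxRecDepth 10000000 in
noncomputable def Tx : XT := (XT.nd (nat_lit 7080216) (nat_lit 0) (nat_lit 76) XT.nil (XT.nd (nat_lit 4612296) (nat_lit 0) (nat_lit 0) (XT.nd (nat_lit 2209506) (nat_lit 0) (nat_lit 0) (XT.nd (nat_lit 1534806) (nat_lit 0) (nat_lit 0) (XT.nd (nat_lit 1084668) (nat_lit 0) (nat_lit 0) (XT.nd (nat_lit 749190) (nat_lit 0) (nat_lit 0) (XT.nd (nat_lit 524316) (nat_lit 0) (nat_lit 0) (XT.nd (nat_lit 374088) (nat_lit 0) (nat_lit 0) (XT.nd (nat_lit 261846) (nat_lit 0) (nat_lit 0) xc0 xc1) (XT.nd (nat_lit 75426) (nat_lit 0) (nat_lit 0) xc2 xc3)) (XT.nd (nat_lit 113100) (nat_lit 0) (nat_lit 0) (XT.nd (nat_lit 74178) (nat_lit 0) (nat_lit 0) xc4 xc5) (XT.nd (nat_lit 73242) (nat_lit 0) (nat_lit 0) xc6 xc7))) (XT.nd (nat_lit 185952) (nat_lit 0) (nat_lit 0) (XT.nd (nat_lit 110292) (nat_lit 0) (nat_lit 0) (XT.nd (nat_lit 38298) (nat_lit 0) (nat_lit 0) xc8 xc9) (XT.nd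 (nat_lit 37830) (nat_lit 0) (nat_lit 0) xc10 xc11)) (XT.nd (nat_lit 75036) (nat_lit 0) (nat_lit 0) (XT.nd (nat_lit 37596) (nat_lit 0) (nat_lit 0) xc12 xc13) (XT.nd (nat_lit 37284) (nat_lit 0) (nat_lit 0) xc14 xc15)))) (XT.nd (nat_lit 227838) (nat_lit 0) (nat_lit 0) (XT.nd (nat_lit 114582) (nat_lit 0) (nat_lit 0) (XT.nd (nat_lit 73788) (nat_lit 0) (nat_lit 0) (XT.nd (nat_lit 36972) (nat_lit 0) (nat_lit 0) xc16 xc17) (XT.nd (nat_lit 4134) (nat_lit 0) (nat_lit 0) xc18 xc19)) (XT.nd (nat_lit 72852) (nat_lit 0) (nat_lit 0) (XT.nd (nat_lit 36504) (nat_lit 0) (nat_lit 0) xc20 xc21) (XT.nd (nat_lit 36192) (nat_lit 0) (nat_lit 0) xc22 xc23))) (XT.nd (nat_lit 111852) (nat_lit 0) (nat_lit 0) (XT.nd (nat_lit 71916) (nat_lit 0) (nat_lit 0) (XT.nd (nat_lit 36036) (nat_lit 0) (nat_lit 0) xc24 xc25) (XT.nd (nat_lit 35724) (nat_lit 0) (nat_lit 0) xc26 xc27)) (XT.nd (nat_lit 70980) (nat_lit 0) (nat_lit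 0) (XT.nd (nat_lit 35568) (nat_lit 0) (nat_lit 0) xc28 xc29) (XT.nd (nat_lit 4134) (nat_lit 0) (nat_lit 0) xc30 xc31))))) (XT.nd (nat_lit 340080) (nat_lit 0) (nat_lit 0) (XT.nd (nat_lit 186732) (nat_lit 0) (nat_lit 0) (XT.nd (nat_lit 109122) (nat_lit 0) (nat_lit 0) (XT.nd (nat_lit 39234) (nat_lit 0) (nat_lit 0) (XT.nd (nat_lit 35100) (nat_lit 0) (nat_lit 0) xc32 xc33) (XT.nd (nat_lit 35022) (nat_lit 0) (nat_lit 0) xc34 xc35)) (XT.nd (nat_lit 38844) (nat_lit 0) (nat_lit 0) (XT.nd (nat_lit 4134) (nat_lit 76) (nat_lit 0) xc36 xc37) (XT.nd (nat_lit 4134) (nat_lit 0) (nat_lit 0) xc38 xc39))) (XT.nd (nat_lit 76986) (nat_lit 0) (nat_lit 0) (XT.nd (nat_lit 38532) (nat_lit 0) (nat_lit 0) (XT.nd (nat_lit 4134) (nat_lit 0) (nat_lit 0) xc40 xc41) (XT.nd (nat_lit 34242) (nat_lit 0) (nat_lit 76) xc42 xc43)) (XT.nd (nat_lit 38220) (nat_lit 0) (nat_lit 0) (XT.nd (nat_lit 34086) (nat_lit 0) (nat_lit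 76) xc44 xc45) (XT.nd (nat_lit 33930) (nat_lit 0) (nat_lit 0) xc46 xc47)))) (XT.nd (nat_lit 181428) (nat_lit 0) (nat_lit 0) (XT.nd (nat_lit 75660) (nat_lit 0) (nat_lit 0) (XT.nd (nat_lit 37908) (nat_lit 0) (nat_lit 0) (XT.nd (nat_lit 33774) (nat_lit 0) (nat_lit 0) xc48 xc49) (XT.nd (nat_lit 33618) (nat_lit 0) (nat_lit 0) xc50 xc51)) (XT.nd (nat_lit 67626) (nat_lit 0) (nat_lit 0) (XT.nd (nat_lit 33774) (nat_lit 0) (nat_lit 0) xc52 xc53) (XT.nd (nat_lit 4134) (nat_lit 228) (nat_lit 0) xc54 xc55))) (XT.nd (nat_lit 76440) (nat_lit 0) (nat_lit 0) (XT.nd (nat_lit 38142) (nat_lit 0) (nat_lit 0) (XT.nd (nat_lit 4134) (nat_lit 76) (nat_lit 0) xc56 xc57) (XT.nd (nat_lit 4134) (nat_lit 76) (nat_lit 0) xc58 xc59)) (XT.nd (nat_lit 38298) (nat_lit 0) (nat_lit 0) (XT.nd (nat_lit 4134) (nat_lit 76) (nat_lit 0) xc60 xc61) (XT.nd (nat_lit 4134) (nat_lit 76) (nat_lit 0) xc62 xc63)))))) (XT.nd (nat_lit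 786396) (nat_lit 0) (nat_lit 76) (XT.nd (nat_lit 372606) (nat_lit 0) (nat_lit 76) (XT.nd (nat_lit 185094) (nat_lit 0) (nat_lit 0) (XT.nd (nat_lit 76986) (nat_lit 0) (nat_lit 0) (XT.nd (nat_lit 38454) (nat_lit 0) (nat_lit 0) (XT.nd (nat_lit 34320) (nat_lit 0) (nat_lit 228) xc64 xc65) (XT.nd (nat_lit 34398) (nat_lit 0) (nat_lit 76) xc66 xc67)) (XT.nd (nat_lit 38688) (nat_lit 0) (nat_lit 0) (XT.nd (nat_lit 34554) (nat_lit 0) (nat_lit 76) xc68 xc69) (XT.nd (nat_lit 34632) (nat_lit 0) (nat_lit 0) xc70 xc71))) (XT.nd (nat_lit 78000) (nat_lit 0) (nat_lit 76) (XT.nd (nat_lit 38922) (nat_lit 0) (nat_lit 0) (XT.nd (nat_lit 4134) (nat_lit 76) (nat_lit 0) xc72 xc73) (XT.nd (nat_lit 4134) (nat_lit 76) (nat_lit 0) xc74 xc75)) (XT.nd (nat_lit 39156) (nat_lit 0) (nat_lit 0) (XT.nd (nat_lit 35022) (nat_lit 0) (nat_lit 0) xc76 xc77) (XT.nd (nat_lit 35100) (nat_lit 0) (nat_lit 0) xc78 xc79)))) (XT.nd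 (nat_lit 189696) (nat_lit 0) (nat_lit 0) (XT.nd (nat_lit 78858) (nat_lit 0) (nat_lit 0) (XT.nd (nat_lit 39390) (nat_lit 0) (nat_lit 0) (XT.nd (nat_lit 4134) (nat_lit 152) (nat_lit 0) xc80 xc81) (XT.nd (nat_lit 4134) (nat_lit 0) (nat_lit 0) xc82 xc83)) (XT.nd (nat_lit 39546) (nat_lit 0) (nat_lit 0) (XT.nd (nat_lit 35412) (nat_lit 0) (nat_lit 0) xc84 xc85) (XT.nd (nat_lit 35568) (nat_lit 0) (nat_lit 0) xc86 xc87))) (XT.nd (nat_lit 111618) (nat_lit 0) (nat_lit 0) (XT.nd (nat_lit 39858) (nat_lit 0) (nat_lit 0) (XT.nd (nat_lit 35724) (nat_lit 0) (nat_lit 152) xc88 xc89) (XT.nd (nat_lit 35802) (nat_lit 0) (nat_lit 0) xc90 xc91)) (XT.nd (nat_lit 40092) (nat_lit 0) (nat_lit 0) (XT.nd (nat_lit 4134) (nat_lit 0) (nat_lit 0) xc92 xc93) (XT.nd (nat_lit 36114) (nat_lit 0) (nat_lit 0) xc94 xc95))))) (XT.nd (nat_lit 491634) (nat_lit 0) (nat_lit 152) (XT.nd (nat_lit 227370) (nat_lit 0) (nat_lit 0)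 (XT.nd (nat_lit 113178) (nat_lit 0) (nat_lit 0) (XT.nd (nat_lit 40404) (nat_lit 0) (nat_lit 0) (XT.nd (nat_lit 4134) (nat_lit 152) (nat_lit 0) xc96 xc97) (XT.nd (nat_lit 36348) (nat_lit 0) (nat_lit 0) xc98 xc99)) (XT.nd (nat_lit 40716) (nat_lit 0) (nat_lit 0) (XT.nd (nat_lit 4134) (nat_lit 0) (nat_lit 0) xc100 xc101) (XT.nd (nat_lit 36660) (nat_lit 0) (nat_lit 0) xc102 xc103))) (XT.nd (nat_lit 115050) (nat_lit 0) (nat_lit 76) (XT.nd (nat_lit 73788) (nat_lit 0) (nat_lit 76) (XT.nd (nat_lit 36816) (nat_lit 0) (nat_lit 0) xc104 xc105) (XT.nd (nat_lit 37050) (nat_lit 0) (nat_lit 76) xc106 xc107)) (XT.nd (nat_lit 74334) (nat_lit 0) (nat_lit 76) (XT.nd (nat_lit 37128) (nat_lit 0) (nat_lit 76) xc108 xc109) (XT.nd (nat_lit 37362) (nat_lit 0) (nat_lit 0) xc110 xc111)))) (XT.nd (nat_lit 338130) (nat_lit 0) (nat_lit 304) (XT.nd (nat_lit 184782) (nat_lit 0) (nat_lit 76) (XT.nd (nat_lit 75270) (nat_lit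 0) (nat_lit 76) (XT.nd (nat_lit 37596) (nat_lit 0) (nat_lit 0) xc112 xc113) (XT.nd (nat_lit 37752) (nat_lit 0) (nat_lit 0) xc114 xc115)) (XT.nd (nat_lit 76362) (nat_lit 0) (nat_lit 152) (XT.nd (nat_lit 38142) (nat_lit 0) (nat_lit 76) xc116 xc117) (XT.nd (nat_lit 38376) (nat_lit 0) (nat_lit 0) xc118 xc119))) (XT.nd (nat_lit 260988) (nat_lit 0) (nat_lit 456) (XT.nd (nat_lit 112164) (nat_lit 0) (nat_lit 228) (XT.nd (nat_lit 73242) (nat_lit 0) (nat_lit 76) xc120 xc121) (XT.nd (nat_lit 74100) (nat_lit 0) (nat_lit 76) xc122 xc123)) (XT.nd (nat_lit 150852) (nat_lit 0) (nat_lit 456) (XT.nd (nat_lit 75114) (nat_lit 0) (nat_lit 152) xc124 xc125) (XT.nd (nat_lit 112476) (nat_lit 0) (nat_lit 380) xc126 xc127))))))) XT.nil))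

set_option maxRecDepth 10000000 in
noncomputable def Te : XT := XT.nil

set_option maxRecDepth 10000000 in
noncomputable def Tz : ZL := (ZL.cons (nat_lit 76) (nat_lit 3) (nat_lit 95813118673922355828) (ZL.cons (nat_lit 152) (nat_lit 6) (nat_lit 185209899982233382782) (ZL.cons (nat_lit 228) (nat_lit 6) (nat_lit 179340560072172794198) (ZL.cons (nat_lit 304) (nat_lit 3) (nat_lit 89415399159932635897) (ZL.cons (nat_lit 380) (nat_lit 6) (nat_lit 173001672969307358530) (ZL.cons (nat_lit 456) (nat_lit 6) (nat_lit 167687980965519299798) (ZL.cons (nat_lit 532) (nat_lit 3) (nat_lit 83607989671506167304) (ZL.cons (nat_lit 608) (nat_lit 6) (nat_lit 161949193601428196370) (ZL.cons (nat_lit 684) (nat_lit 6) (nat_lit 157170105162382593364) (ZL.cons (nat_lit 760) (nat_lit 3) (nat_lit 78366533311512146131) (ZL.cons (nat_lit 836) (nat_lit 6) (nat_lit 152008689648213342118) (ZL.cons (nat_lit 912) (nat_lit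 6) (nat_lit 147748066368996466234) (ZL.cons (nat_lit 988) (nat_lit 3) (nat_lit 73671700527387908532) (ZL.cons (nat_lit 1064) (nat_lit 6) (nat_lit 143925948647422749786) (ZL.cons (nat_lit 1140) (nat_lit 6) (nat_lit 143146593227442240276) (ZL.cons (nat_lit 1216) (nat_lit 6) (nat_lit 139393396193902486856) (ZL.cons (nat_lit 1292) (nat_lit 3) (nat_lit 69509353044071313258) (ZL.cons (nat_lit 1368) (nat_lit 6) (nat_lit 136061568786550395298) (ZL.cons (nat_lit 1444) (nat_lit 6) (nat_lit 135339943397679553162) (ZL.cons (nat_lit 1520) (nat_lit 6) (nat_lit 133131366842972027286) (ZL.cons (nat_lit 1596) (nat_lit 6) (nat_lit 132088505080850276076) (ZL.cons (nat_lit 1672) (nat_lit 3) (nat_lit 65870784898869647140) (ZL.cons (nat_lit 1748) (nat_lit 6) (nat_lit 129245123355036547696) (ZL.cons (nat_lit 1824) (nat_lit 6) (nat_lit 128576951698674656826) (ZL.cons (nat_lit 1900) (nat_lit 6) (nat_lit 126792948550752064442)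 (ZL.cons (nat_lit 1976) (nat_lit 6) (nat_lit 125827335808046739248) (ZL.cons (nat_lit 2052) (nat_lit 3) (nat_lit 62753049717397915087) (ZL.cons (nat_lit 2128) (nat_lit 6) (nat_lit 124717449261749214560) (ZL.cons (nat_lit 2204) (nat_lit 6) (nat_lit 123476428105762931658) (ZL.cons (nat_lit 2280) (nat_lit 6) (nat_lit 122857750646168588260) (ZL.cons (nat_lit 2356) (nat_lit 6) (nat_lit 121510297286920811494) (ZL.cons (nat_lit 2432) (nat_lit 6) (nat_lit 120616211414045510388) (ZL.cons (nat_lit 2508) (nat_lit 3) (nat_lit 60159385163851038032) (ZL.cons (nat_lit 2584) (nat_lit 6) (nat_lit 119917292205927240270) (ZL.cons (nat_lit 2660) (nat_lit 6) (nat_lit 118768198542976978320) (ZL.cons (nat_lit 2736) (nat_lit 6) (nat_lit 118195349043352586288) (ZL.cons (nat_lit 2812) (nat_lit 3) (nat_lit 58559904887605864442) (ZL.cons (nat_lit 2888) (nat_lit 6) (nat_lit 117293363792249457920) (ZL.cons (nat_lit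 2964) (nat_lit 6) (nat_lit 117815054311611757506) (ZL.cons (nat_lit 3040) (nat_lit 6) (nat_lit 118687972832672626450) (ZL.cons (nat_lit 3116) (nat_lit 6) (nat_lit 117302760845578882240) (ZL.cons (nat_lit 3192) (nat_lit 6) (nat_lit 116474903555879529364) (ZL.cons (nat_lit 3268) (nat_lit 3) (nat_lit 58099747571299285828) (ZL.cons (nat_lit 3344) (nat_lit 6) (nat_lit 115126097966333798438) (ZL.cons (nat_lit 3420) (nat_lit 6) (nat_lit 115487090321772274838) (ZL.cons (nat_lit 3496) (nat_lit 6) (nat_lit 116211214246607381574) (ZL.cons (nat_lit 3572) (nat_lit 6) (nat_lit 115147238632764546438) (ZL.cons (nat_lit 3648) (nat_lit 6) (nat_lit 114616822429408627886) (ZL.cons (nat_lit 3724) (nat_lit 3) (nat_lit 56726811265353388533) (ZL.cons (nat_lit 3800) (nat_lit 6) (nat_lit 113641060869107524430) (ZL.cons (nat_lit 3876) (nat_lit 6) (nat_lit 114204486630018807980) (ZL.cons (nat_lit 3952) (nat_lit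 6) (nat_lit 113437952102519407168) (ZL.cons (nat_lit 4028) (nat_lit 3) (nat_lit 56591472156222223162) (ZL.cons (nat_lit 4104) (nat_lit 6) (nat_lit 112266026519823937382) (ZL.cons (nat_lit 4180) (nat_lit 6) (nat_lit 112655898263697491896) (ZL.cons (nat_lit 4256) (nat_lit 6) (nat_lit 112164772149479048792) (ZL.cons (nat_lit 4332) (nat_lit 3) (nat_lit 55676919461111027703) (ZL.cons (nat_lit 4408) (nat_lit 6) (nat_lit 111556272327694862556) (ZL.cons (nat_lit 4484) (nat_lit 3) (nat_lit 55660077001775690148) (ZL.cons (nat_lit 4560) (nat_lit 6) (nat_lit 110899092520167941424) (ZL.cons (nat_lit 4636) (nat_lit 1) (nat_lit 18446744073709551617) ZL.nil)))))))))))))))))))))))))))))))))))))))))))))))))))))))))))))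

noncomputable def vl : XL := ⟨(nat_lit 0), (nat_lit 76), (nat_lit 103192714), (nat_lit 152), (nat_lit 267447399), (nat_lit 152), (nat_lit 267447399), (nat_lit 1), (nat_lit 4), (nat_lit 2), (nat_lit 5), (nat_lit 2), (nat_lit 4), (nat_lit 0), (nat_lit 0), (nat_lit 0)⟩

noncomputable def cp0 : Nat := (nat_lit 926084519631108483839503107500821104997434286465714828072521414795537990240077749918458477327500471329375437714229613595899471108352061652935777465472595778643618576235038259516954564308469699199095612730006512415696830169228429376622421132667003382795466658055744256565296319713517684383784972098830167967430282336919928895280358485894512415283059917866239970986989756155925310969850609999878754140377730389757741026885945878185594332540725648860316094426008488447940034383507350158591562923478849111559692096184786536802689386280517276611105645567523460792379089489493581496289772309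9289805839816323190587038676779003587252175877067174986844807644873444809627529348557657334028442170794261844668597512969297785970831390325815077229409505359380605432192190435976926470475515301190204250718768293239097152454001621393183515611641238872686245226537401889320177234840494592586701210915297554682979492711642003081728889932822239093921504381979221691020321149140910441200160526098112027550641165530939178676387595711674391726886764262709434620357262086803623743142979992254022293926254516605782175662897745159597610084506749941822389144333847898378804025104143887494198273602256565532341282900791543382470138277913476948107401413264562028815851573317677429850554183864153532192602821052247751205354700844207597179286733281122131339683161136226039663019193484068243266280354671573329295632238028183951879689196047171584)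

noncomputable def cp1 : Nat := (nat_lit 1130097775388022825454664410486366518275569636260010793432979203026600202833214761936466195626987062039139920923440615968008633010402999571899906597521507048146656329979723990769780560254749238510710613268003801960793631030778010165553867356221827663465663983346074946600199530957855072883070025896260497291379088563520352281108322907984013254250860197642746042506361169985236663868981777429180919949587248404810409375911754049156992943275419220842349870165046842999973651352911519062743267236335591178628069994121276876344481481957872508484702659946011662410229036573053064121069401831538628796939124958160850066544642937641278680734753052033711744296838494108444677731663305147616344048469105565051246090361506081151240509050074925635032499867571810194136611547070624399186647055954099326097513103731048998826726528869355128670670966246794424378331921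7518908694279931015052679816932713440564877580920695449515667051902849354383199546690506305883518999927613526901335307627407347868119880254367475075312609688719639302198024407511026934889396853845241856931307857077010139352142257635595062465946174621488686603510075065891729885232994313039287873551931033597819720594096826886473100193370475369331306417521765201506845288357378603673898176795952283663361725177849620457028347560702640934315627334386422793009430645205105756388574057614644766885305820254998608019414066044118112352538143722458486919746629587173376)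

noncomputable def rc0 : Nat := (nat_lit 1130097775388022825454664410486366518275569636260010793432979203026600202833214761936466195626987062039139920923440615968008633010402999571899906597521507048146656329979723990769780560254749238510710613268003801960793631030778010165553867356221827663465663983346074946600199530957855072883070025896260497291379088563520352281108322907984013254250860197642746042506361169985236663868981777429180919949587248404810409375911754049156992943275419220842349870165046842999973651352911519062743267236335591178628069994121276876344481481957872508484702659946011662410229036573053064121069401831538628796939124958160850066544642937641278680734753052033711744296838494108444677731663305147616344048469105565051246090361506081151240509050074925635032499867571810194136611547070624399186647055954099326097513103731048998826726528869355128670670966246794424378331921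7518908694279931015052679816932713440564877580920695449515667051902849354383199546690506305883518999927613526901335307627407347868119880254367475075312609688719639302198024407511026934889396853845241856931307857077010139352142257635595062465946174621488686603510075065891729885232994313039287873551931033597819720594096826886473100193370475369331306417521765201506845288357378603673898176795952283663361725177849620457028347560702640934315627334386422793009430645205105756388574057614644766885305820254998608019414066044118112352538143722458486919746629587173376)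

end Vale.Agent.Lib.P154.PChain.BR.S2
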