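import Vale.Agent.Lib.P154.PChain.BR.R2_0

set_option linter.all false

namespace Vale.Agent.Lib.P154.PChain.BR.S3

open Vale.Agent.Lib.P154.Chain

noncomputable def pc0 : PT := (PT.nd (nat_lit 3911856) (PT.nd (nat_lit 3761940) (PT.nd (nat_lit 3686982) (PT.nd (nat_lit 3649542) (PT.nd (nat_lit 3649464) (PT.nd (nat_lit 3612024) PT.nil (PT.lf (nat_lit 76) (nat_lit 3) (nat_lit 1) (nat_lit 1) (nat_lit 132) (nat_lit 96) (nat_lit 132))) (PT.lf (nat_lit 152) (nat_lit 6) (nat_lit 2) (nat_lit 3) (nat_lit 131) (nat_lit 97) (nat_lit 132))) (PT.nd (nat_lit 37362) (PT.lf (nat_lit 152) (nat_lit 6) (nat_lit 2) (nat_lit 1) (nat_lit 132) (nat_lit 97) (nat_lit 131)) (PT.lf (nat_lit 228) (nat_lit 6) (nat_lit 3) (nat_lit 3) (nat_lit 130) (nat_lit 98) (nat_lit 132)))) (PT.nd (nat_lit 37440) (PT.nd (nat_lit 78) (PT.lf (nat_lit 304) (nat_lit 3) (nat_lit 4) (nat_lit 1) (nat_lit 131) (nat_lit 98) (nat_lit 131))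 (PT.lf (nat_lit 228) (nat_lit 6) (nat_lit 3) (nat_lit 1) (nat_lit 132) (nat_lit 98) (nat_lit 130))) (PT.nd (nat_lit 78) (PT.lf (nat_lit 380) (nat_lit 6) (nat_lit 5) (nat_lit 3) (nat_lit 130) (nat_lit 99) (nat_lit 131)) (PT.nd (nat_lit 37362) (PT.lf (nat_lit 380) (nat_lit 6) (nat_lit 5) (nat_lit 1) (nat_lit 131) (nat_lit 99) (nat_lit 130)) (PT.lf (nat_lit 456) (nat_lit 6) (nat_lit 6) (nat_lit 3) (nat_lit 129) (nat_lit 100) (nat_lit 131)))))) (PT.nd (nat_lit 74958) (PT.nd (nat_lit 37440) (PT.nd (nat_lit 78) (PT.lf (nat_lit 532) (nat_lit 3) (nat_lit 7) (nat_lit 1) (nat_lit 130) (nat_lit 100) (nat_lit 130)) (PT.lf (nat_lit 456) (nat_lit 6) (nat_lit 6) (nat_lit 1) (nat_lit 131) (nat_lit 100) (nat_lit 129))) (PT.nd (nat_lit 78) (PT.lf (nat_lit 608) (nat_lit 6) (nat_lit 8) (nat_lit 3) (nat_lit 129) (nat_lit 101) (nat_lit 130)) (PT.nd (nat_lit 37362) (PT.lf (nat_lit 608) (nat_lit 6) (nat_lit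 8) (nat_lit 1) (nat_lit 130) (nat_lit 101) (nat_lit 129)) (PT.lf (nat_lit 684) (nat_lit 6) (nat_lit 9) (nat_lit 3) (nat_lit 128) (nat_lit 102) (nat_lit 130))))) (PT.nd (nat_lit 37440) (PT.nd (nat_lit 78) (PT.lf (nat_lit 760) (nat_lit 3) (nat_lit 10) (nat_lit 1) (nat_lit 129) (nat_lit 102) (nat_lit 129)) (PT.lf (nat_lit 684) (nat_lit 6) (nat_lit 9) (nat_lit 1) (nat_lit 130) (nat_lit 102) (nat_lit 128))) (PT.nd (nat_lit 78) (PT.lf (nat_lit 836) (nat_lit 6) (nat_lit 11) (nat_lit 3) (nat_lit 128) (nat_lit 103) (nat_lit 129)) (PT.nd (nat_lit 37362) (PT.lf (nat_lit 836) (nat_lit 6) (nat_lit 11) (nat_lit 1) (nat_lit 129) (nat_lit 103) (nat_lit 128)) (PT.lf (nat_lit 912) (nat_lit 6) (nat_lit 12) (nat_lit 3) (nat_lit 127) (nat_lit 104) (nat_lit 129))))))) (PT.nd (nat_lit 112398) (PT.nd (nat_lit 37596) (PT.nd (nat_lit 37362) (PT.nd (nat_lit 78) (PT.lf (nat_lit 988) (nat_lit 3) (nat_lit 13) (nat_lit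 1) (nat_lit 128) (nat_lit 104) (nat_lit 128)) (PT.lf (nat_lit 912) (nat_lit 6) (nat_lit 12) (nat_lit 1) (nat_lit 129) (nat_lit 104) (nat_lit 127))) (PT.nd (nat_lit 78) (PT.lf (nat_lit 1064) (nat_lit 6) (nat_lit 14) (nat_lit 3) (nat_lit 126) (nat_lit 105) (nat_lit 129)) (PT.nd (nat_lit 78) (PT.lf (nat_lit 1140) (nat_lit 6) (nat_lit 15) (nat_lit 3) (nat_lit 127) (nat_lit 105) (nat_lit 128)) (PT.lf (nat_lit 1140) (nat_lit 6) (nat_lit 15) (nat_lit 1) (nat_lit 128) (nat_lit 105) (nat_lit 127))))) (PT.nd (nat_lit 37362) (PT.nd (nat_lit 37284) (PT.lf (nat_lit 1064) (nat_lit 6) (nat_lit 14) (nat_lit 1) (nat_lit 129) (nat_lit 105) (nat_lit 126)) (PT.lf (nat_lit 1216) (nat_lit 6) (nat_lit 16) (nat_lit 3) (nat_lit 126) (nat_lit 106) (nat_lit 128))) (PT.nd (nat_lit 78) (PT.lf (nat_lit 1292) (nat_lit 3) (nat_lit 17) (nat_lit 1) (nat_lit 127) (nat_lit 106) (nat_lit 127)) (PT.nd (nat_lit 37284) (PT.lf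 (nat_lit 1216) (nat_lit 6) (nat_lit 16) (nat_lit 1) (nat_lit 128) (nat_lit 106) (nat_lit 126)) (PT.lf (nat_lit 1368) (nat_lit 6) (nat_lit 18) (nat_lit 3) (nat_lit 125) (nat_lit 107) (nat_lit 128)))))) (PT.nd (nat_lit 37518) (PT.nd (nat_lit 156) (PT.nd (nat_lit 78) (PT.lf (nat_lit 1444) (nat_lit 6) (nat_lit 19) (nat_lit 3) (nat_lit 126) (nat_lit 107) (nat_lit 127)) (PT.lf (nat_lit 1444) (nat_lit 6) (nat_lit 19) (nat_lit 1) (nat_lit 127) (nat_lit 107) (nat_lit 126))) (PT.nd (nat_lit 37206) (PT.lf (nat_lit 1368) (nat_lit 6) (nat_lit 18) (nat_lit 1) (nat_lit 128) (nat_lit 107) (nat_lit 125)) (PT.nd (nat_lit 78) (PT.lf (nat_lit 1520) (nat_lit 6) (nat_lit 20) (nat_lit 3) (nat_lit 124) (nat_lit 108) (nat_lit 128)) (PT.lf (nat_lit 1596) (nat_lit 6) (nat_lit 21) (nat_lit 3) (nat_lit 125) (nat_lit 108) (nat_lit 127))))) (PT.nd (nat_lit 156) (PT.nd (nat_lit 78) (PT.lf (nat_lit 1672) (nat_lit 3)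 (nat_lit 22) (nat_lit 1) (nat_lit 126) (nat_lit 108) (nat_lit 126)) (PT.lf (nat_lit 1596) (nat_lit 6) (nat_lit 21) (nat_lit 1) (nat_lit 127) (nat_lit 108) (nat_lit 125))) (PT.nd (nat_lit 37206) (PT.lf (nat_lit 1520) (nat_lit 6) (nat_lit 20) (nat_lit 1) (nat_lit 128) (nat_lit 108) (nat_lit 124)) (PT.nd (nat_lit 78) (PT.lf (nat_lit 1748) (nat_lit 6) (nat_lit 23) (nat_lit 3) (nat_lit 124) (nat_lit 109) (nat_lit 127)) (PT.lf (nat_lit 1824) (nat_lit 6) (nat_lit 24) (nat_lit 3) (nat_lit 125) (nat_lit 109) (nat_lit 126))))))))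
noncomputable def pc1 : PT := (PT.nd (nat_lit 149838) (PT.nd (nat_lit 74958) (PT.nd (nat_lit 37518) (PT.nd (nat_lit 37284) (PT.nd (nat_lit 78) (PT.lf (nat_lit 1824) (nat_lit 6) (nat_lit 24) (nat_lit 1) (nat_lit 126) (nat_lit 109) (nat_lit 125)) (PT.lf (nat_lit 1748) (nat_lit 6) (nat_lit 23) (nat_lit 1) (nat_lit 127) (nat_lit 109) (nat_lit 124))) (PT.nd (nat_lit 78) (PT.lf (nat_lit 1900) (nat_lit 6) (nat_lit 25) (nat_lit 3) (nat_lit 123) (nat_lit 110) (nat_lit 127)) (PT.nd (nat_lit 78) (PT.lf (nat_lit 1976) (nat_lit 6) (nat_lit 26) (nat_lit 3) (nat_lit 124) (nat_lit 110) (nat_lit 126)) (PT.lf (nat_lit 2052) (nat_lit 3) (nat_lit 27) (nat_lit 1) (nat_lit 125) (nat_lit 110) (nat_lit 125))))) (PT.nd (nat_lit 37206) (PT.nd (nat_lit 78) (PT.lf (nat_lit 1976) (nat_lit 6) (nat_lit 26) (nat_lit 1) (nat_lit 126) (nat_lit 110) (nat_lit 124)) (PT.lf (nat_lit 1900) (nat_lit 6) (nat_lit 25) (nat_lit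 1) (nat_lit 127) (nat_lit 110) (nat_lit 123))) (PT.nd (nat_lit 78) (PT.lf (nat_lit 2128) (nat_lit 6) (nat_lit 28) (nat_lit 3) (nat_lit 122) (nat_lit 111) (nat_lit 127)) (PT.nd (nat_lit 78) (PT.lf (nat_lit 2204) (nat_lit 6) (nat_lit 29) (nat_lit 3) (nat_lit 123) (nat_lit 111) (nat_lit 126)) (PT.lf (nat_lit 2280) (nat_lit 6) (nat_lit 30) (nat_lit 3) (nat_lit 124) (nat_lit 111) (nat_lit 125)))))) (PT.nd (nat_lit 37440) (PT.nd (nat_lit 156) (PT.nd (nat_lit 78) (PT.lf (nat_lit 2280) (nat_lit 6) (nat_lit 30) (nat_lit 1) (nat_lit 125) (nat_lit 111) (nat_lit 124)) (PT.lf (nat_lit 2204) (nat_lit 6) (nat_lit 29) (nat_lit 1) (nat_lit 126) (nat_lit 111) (nat_lit 123))) (PT.nd (nat_lit 37128) (PT.lf (nat_lit 2128) (nat_lit 6) (nat_lit 28) (nat_lit 1) (nat_lit 127) (nat_lit 111) (nat_lit 122)) (PT.nd (nat_lit 78) (PT.lf (nat_lit 2356) (nat_lit 6) (nat_lit 31) (nat_lit 3) (nat_lit 122) (nat_lit 112)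 (nat_lit 126)) (PT.lf (nat_lit 2432) (nat_lit 6) (nat_lit 32) (nat_lit 3) (nat_lit 123) (nat_lit 112) (nat_lit 125))))) (PT.nd (nat_lit 156) (PT.nd (nat_lit 78) (PT.lf (nat_lit 2508) (nat_lit 3) (nat_lit 33) (nat_lit 1) (nat_lit 124) (nat_lit 112) (nat_lit 124)) (PT.lf (nat_lit 2432) (nat_lit 6) (nat_lit 32) (nat_lit 1) (nat_lit 125) (nat_lit 112) (nat_lit 123))) (PT.nd (nat_lit 37128) (PT.lf (nat_lit 2356) (nat_lit 6) (nat_lit 31) (nat_lit 1) (nat_lit 126) (nat_lit 112) (nat_lit 122)) (PT.nd (nat_lit 78) (PT.lf (nat_lit 2584) (nat_lit 6) (nat_lit 34) (nat_lit 3) (nat_lit 121) (nat_lit 113) (nat_lit 126)) (PT.lf (nat_lit 2660) (nat_lit 6) (nat_lit 35) (nat_lit 3) (nat_lit 122) (nat_lit 113) (nat_lit 125))))))) (PT.nd (nat_lit 37752) (PT.nd (nat_lit 37362) (PT.nd (nat_lit 156) (PT.nd (nat_lit 78) (PT.lf (nat_lit 2736) (nat_lit 6) (nat_lit 36) (nat_lit 3) (nat_lit 123) (nat_lit 113) (nat_lit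 124)) (PT.lf (nat_lit 2736) (nat_lit 6) (nat_lit 36) (nat_lit 1) (nat_lit 124) (nat_lit 113) (nat_lit 123))) (PT.nd (nat_lit 78) (PT.lf (nat_lit 2660) (nat_lit 6) (nat_lit 35) (nat_lit 1) (nat_lit 125) (nat_lit 113) (nat_lit 122)) (PT.nd (nat_lit 37050) (PT.lf (nat_lit 2584) (nat_lit 6) (nat_lit 34) (nat_lit 1) (nat_lit 126) (nat_lit 113) (nat_lit 121)) (PT.lf (nat_lit 3040) (nat_lit 6) (nat_lit 40) (nat_lit 3) (nat_lit 120) (nat_lit 114) (nat_lit 126))))) (PT.nd (nat_lit 156) (PT.nd (nat_lit 78) (PT.lf (nat_lit 3116) (nat_lit 6) (nat_lit 41) (nat_lit 3) (nat_lit 121) (nat_lit 114) (nat_lit 125)) (PT.lf (nat_lit 3192) (nat_lit 6) (nat_lit 42) (nat_lit 3) (nat_lit 122) (nat_lit 114) (nat_lit 124))) (PT.nd (nat_lit 78) (PT.lf (nat_lit 3268) (nat_lit 3) (nat_lit 43) (nat_lit 1) (nat_lit 123) (nat_lit 114) (nat_lit 123)) (PT.nd (nat_lit 78) (PT.lf (nat_lit 3192) (nat_lit 6) (nat_lit 42) (nat_lit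 1) (nat_lit 124) (nat_lit 114) (nat_lit 122)) (PT.lf (nat_lit 3116) (nat_lit 6) (nat_lit 41) (nat_lit 1) (nat_lit 125) (nat_lit 114) (nat_lit 121)))))) (PT.nd (nat_lit 37284) (PT.nd (nat_lit 37050) (PT.nd (nat_lit 36972) (PT.lf (nat_lit 3040) (nat_lit 6) (nat_lit 40) (nat_lit 1) (nat_lit 126) (nat_lit 114) (nat_lit 120)) (PT.lf (nat_lit 2964) (nat_lit 6) (nat_lit 39) (nat_lit 3) (nat_lit 119) (nat_lit 115) (nat_lit 126))) (PT.nd (nat_lit 78) (PT.lf (nat_lit 3496) (nat_lit 6) (nat_lit 46) (nat_lit 3) (nat_lit 120) (nat_lit 115) (nat_lit 125)) (PT.nd (nat_lit 78) (PT.lf (nat_lit 3572) (nat_lit 6) (nat_lit 47) (nat_lit 3) (nat_lit 121) (nat_lit 115) (nat_lit 124)) (PT.lf (nat_lit 3648) (nat_lit 6) (nat_lit 48) (nat_lit 3) (nat_lit 122) (nat_lit 115) (nat_lit 123))))) (PT.nd (nat_lit 156) (PT.nd (nat_lit 78) (PT.lf (nat_lit 3648) (nat_lit 6) (nat_lit 48) (nat_lit 1) (nat_lit 123) (nat_lit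 115) (nat_lit 122)) (PT.lf (nat_lit 3572) (nat_lit 6) (nat_lit 47) (nat_lit 1) (nat_lit 124) (nat_lit 115) (nat_lit 121))) (PT.nd (nat_lit 78) (PT.lf (nat_lit 3496) (nat_lit 6) (nat_lit 46) (nat_lit 1) (nat_lit 125) (nat_lit 115) (nat_lit 120)) (PT.nd (nat_lit 36894) (PT.lf (nat_lit 2964) (nat_lit 6) (nat_lit 39) (nat_lit 1) (nat_lit 126) (nat_lit 115) (nat_lit 119)) (PT.lf (nat_lit 2888) (nat_lit 6) (nat_lit 38) (nat_lit 3) (nat_lit 118) (nat_lit 116) (nat_lit 126))))))))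
noncomputable def pc2 : PT := (PT.nd (nat_lit 74880) (PT.nd (nat_lit 37440) (PT.nd (nat_lit 312) (PT.nd (nat_lit 156) (PT.nd (nat_lit 78) (PT.lf (nat_lit 3420) (nat_lit 6) (nat_lit 45) (nat_lit 3) (nat_lit 119) (nat_lit 116) (nat_lit 125)) (PT.lf (nat_lit 3876) (nat_lit 6) (nat_lit 51) (nat_lit 3) (nat_lit 120) (nat_lit 116) (nat_lit 124))) (PT.nd (nat_lit 78) (PT.lf (nat_lit 3952) (nat_lit 6) (nat_lit 52) (nat_lit 3) (nat_lit 121) (nat_lit 116) (nat_lit 123)) (PT.lf (nat_lit 4028) (nat_lit 3) (nat_lit 53) (nat_lit 1) (nat_lit 122) (nat_lit 116) (nat_lit 122)))) (PT.nd (nat_lit 156) (PT.nd (nat_lit 78) (PT.lf (nat_lit 3952) (nat_lit 6) (nat_lit 52) (nat_lit 1) (nat_lit 123) (nat_lit 116) (nat_lit 121)) (PT.lf (nat_lit 3876) (nat_lit 6) (nat_lit 51) (nat_lit 1) (nat_lit 124) (nat_lit 116) (nat_lit 120))) (PT.nd (nat_lit 78) (PT.lf (nat_lit 3420) (nat_lit 6) (nat_lit 45) (nat_lit 1) (nat_lit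 125) (nat_lit 116) (nat_lit 119)) (PT.nd (nat_lit 36816) (PT.lf (nat_lit 2888) (nat_lit 6) (nat_lit 38) (nat_lit 1) (nat_lit 126) (nat_lit 116) (nat_lit 118)) (PT.lf (nat_lit 2812) (nat_lit 3) (nat_lit 37) (nat_lit 3) (nat_lit 117) (nat_lit 117) (nat_lit 126)))))) (PT.nd (nat_lit 390) (PT.nd (nat_lit 156) (PT.nd (nat_lit 78) (PT.lf (nat_lit 3344) (nat_lit 6) (nat_lit 44) (nat_lit 3) (nat_lit 118) (nat_lit 117) (nat_lit 125)) (PT.lf (nat_lit 3800) (nat_lit 6) (nat_lit 50) (nat_lit 3) (nat_lit 119) (nat_lit 117) (nat_lit 124))) (PT.nd (nat_lit 78) (PT.lf (nat_lit 4180) (nat_lit 6) (nat_lit 55) (nat_lit 3) (nat_lit 120) (nat_lit 117) (nat_lit 123)) (PT.nd (nat_lit 78) (PT.lf (nat_lit 4256) (nat_lit 6) (nat_lit 56) (nat_lit 3) (nat_lit 121) (nat_lit 117) (nat_lit 122)) (PT.lf (nat_lit 4256) (nat_lit 6) (nat_lit 56) (nat_lit 1) (nat_lit 122) (nat_lit 117) (nat_lit 121))))) (PT.nd (nat_lit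 156) (PT.nd (nat_lit 78) (PT.lf (nat_lit 4180) (nat_lit 6) (nat_lit 55) (nat_lit 1) (nat_lit 123) (nat_lit 117) (nat_lit 120)) (PT.lf (nat_lit 3800) (nat_lit 6) (nat_lit 50) (nat_lit 1) (nat_lit 124) (nat_lit 117) (nat_lit 119))) (PT.nd (nat_lit 78) (PT.lf (nat_lit 3344) (nat_lit 6) (nat_lit 44) (nat_lit 1) (nat_lit 125) (nat_lit 117) (nat_lit 118)) (PT.nd (nat_lit 36738) (PT.lf (nat_lit 2812) (nat_lit 3) (nat_lit 37) (nat_lit 0) (nat_lit 126) (nat_lit 117) (nat_lit 117)) (PT.lf (nat_lit 2888) (nat_lit 6) (nat_lit 38) (nat_lit 5) (nat_lit 116) (nat_lit 118) (nat_lit 126))))))) (PT.nd (nat_lit 37362) (PT.nd (nat_lit 390) (PT.nd (nat_lit 156) (PT.nd (nat_lit 78) (PT.lf (nat_lit 3344) (nat_lit 6) (nat_lit 44) (nat_lit 5) (nat_lit 117) (nat_lit 118) (nat_lit 125)) (PT.lf (nat_lit 3724) (nat_lit 3) (nat_lit 49) (nat_lit 3) (nat_lit 118) (nat_lit 118) (nat_lit 124))) (PT.nd (nat_lit 78) (PT.lf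 (nat_lit 4104) (nat_lit 6) (nat_lit 54) (nat_lit 3) (nat_lit 119) (nat_lit 118) (nat_lit 123)) (PT.nd (nat_lit 78) (PT.lf (nat_lit 4408) (nat_lit 6) (nat_lit 58) (nat_lit 3) (nat_lit 120) (nat_lit 118) (nat_lit 122)) (PT.lf (nat_lit 4484) (nat_lit 3) (nat_lit 59) (nat_lit 1) (nat_lit 121) (nat_lit 118) (nat_lit 121))))) (PT.nd (nat_lit 156) (PT.nd (nat_lit 78) (PT.lf (nat_lit 4408) (nat_lit 6) (nat_lit 58) (nat_lit 1) (nat_lit 122) (nat_lit 118) (nat_lit 120)) (PT.lf (nat_lit 4104) (nat_lit 6) (nat_lit 54) (nat_lit 1) (nat_lit 123) (nat_lit 118) (nat_lit 119))) (PT.nd (nat_lit 78) (PT.lf (nat_lit 3724) (nat_lit 3) (nat_lit 49) (nat_lit 0) (nat_lit 124) (nat_lit 118) (nat_lit 118)) (PT.nd (nat_lit 78) (PT.lf (nat_lit 3344) (nat_lit 6) (nat_lit 44) (nat_lit 0) (nat_lit 125) (nat_lit 118) (nat_lit 117)) (PT.lf (nat_lit 2888) (nat_lit 6) (nat_lit 38) (nat_lit 0) (nat_lit 126) (nat_lit 118)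 (nat_lit 116)))))) (PT.nd (nat_lit 390) (PT.nd (nat_lit 156) (PT.nd (nat_lit 78) (PT.lf (nat_lit 2964) (nat_lit 6) (nat_lit 39) (nat_lit 5) (nat_lit 115) (nat_lit 119) (nat_lit 126)) (PT.lf (nat_lit 3420) (nat_lit 6) (nat_lit 45) (nat_lit 5) (nat_lit 116) (nat_lit 119) (nat_lit 125))) (PT.nd (nat_lit 78) (PT.lf (nat_lit 3800) (nat_lit 6) (nat_lit 50) (nat_lit 5) (nat_lit 117) (nat_lit 119) (nat_lit 124)) (PT.nd (nat_lit 78) (PT.lf (nat_lit 4104) (nat_lit 6) (nat_lit 54) (nat_lit 5) (nat_lit 118) (nat_lit 119) (nat_lit 123)) (PT.lf (nat_lit 4332) (nat_lit 3) (nat_lit 57) (nat_lit 3) (nat_lit 119) (nat_lit 119) (nat_lit 122))))) (PT.nd (nat_lit 156) (PT.nd (nat_lit 78) (PT.lf (nat_lit 4560) (nat_lit 6) (nat_lit 60) (nat_lit 3) (nat_lit 120) (nat_lit 119) (nat_lit 121)) (PT.lf (nat_lit 4560) (nat_lit 6) (nat_lit 60) (nat_lit 1) (nat_lit 121) (nat_lit 119) (nat_lit 120))) (PT.nd (nat_lit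 78) (PT.lf (nat_lit 4332) (nat_lit 3) (nat_lit 57) (nat_lit 0) (nat_lit 122) (nat_lit 119) (nat_lit 119)) (PT.nd (nat_lit 78) (PT.lf (nat_lit 4104) (nat_lit 6) (nat_lit 54) (nat_lit 0) (nat_lit 123) (nat_lit 119) (nat_lit 118)) (PT.lf (nat_lit 3800) (nat_lit 6) (nat_lit 50) (nat_lit 0) (nat_lit 124) (nat_lit 119) (nat_lit 117))))))))
noncomputable def pc3 : PT := (PT.nd (nat_lit 74490) (PT.nd (nat_lit 37284) (PT.nd (nat_lit 36894) (PT.nd (nat_lit 36660) (PT.nd (nat_lit 78) (PT.lf (nat_lit 3420) (nat_lit 6) (nat_lit 45) (nat_lit 0) (nat_lit 125) (nat_lit 119) (nat_lit 116)) (PT.lf (nat_lit 2964) (nat_lit 6) (nat_lit 39) (nat_lit 0) (nat_lit 126) (nat_lit 119) (nat_lit 115))) (PT.nd (nat_lit 78) (PT.lf (nat_lit 3040) (nat_lit 6) (nat_lit 40) (nat_lit 5) (nat_lit 114) (nat_lit 120) (nat_lit 126)) (PT.nd (nat_lit 78) (PT.lf (nat_lit 3496) (nat_lit 6) (nat_lit 46) (nat_lit 5) (nat_lit 115)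 (nat_lit 120) (nat_lit 125)) (PT.lf (nat_lit 3876) (nat_lit 6) (nat_lit 51) (nat_lit 5) (nat_lit 116) (nat_lit 120) (nat_lit 124))))) (PT.nd (nat_lit 156) (PT.nd (nat_lit 78) (PT.lf (nat_lit 4180) (nat_lit 6) (nat_lit 55) (nat_lit 5) (nat_lit 117) (nat_lit 120) (nat_lit 123)) (PT.lf (nat_lit 4408) (nat_lit 6) (nat_lit 58) (nat_lit 5) (nat_lit 118) (nat_lit 120) (nat_lit 122))) (PT.nd (nat_lit 78) (PT.lf (nat_lit 4560) (nat_lit 6) (nat_lit 60) (nat_lit 5) (nat_lit 119) (nat_lit 120) (nat_lit 121)) (PT.nd (nat_lit 78) (PT.lf (nat_lit 4636) (nat_lit 1) (nat_lit 61) (nat_lit 0) (nat_lit 120) (nat_lit 120) (nat_lit 120)) (PT.lf (nat_lit 4560) (nat_lit 6) (nat_lit 60) (nat_lit 0) (nat_lit 121) (nat_lit 120) (nat_lit 119)))))) (PT.nd (nat_lit 36816) (PT.nd (nat_lit 156) (PT.nd (nat_lit 78) (PT.lf (nat_lit 4408) (nat_lit 6) (nat_lit 58) (nat_lit 0) (nat_lit 122) (nat_lit 120) (nat_lit 118)) (PT.lf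 (nat_lit 4180) (nat_lit 6) (nat_lit 55) (nat_lit 0) (nat_lit 123) (nat_lit 120) (nat_lit 117))) (PT.nd (nat_lit 78) (PT.lf (nat_lit 3876) (nat_lit 6) (nat_lit 51) (nat_lit 0) (nat_lit 124) (nat_lit 120) (nat_lit 116)) (PT.nd (nat_lit 78) (PT.lf (nat_lit 3496) (nat_lit 6) (nat_lit 46) (nat_lit 0) (nat_lit 125) (nat_lit 120) (nat_lit 115)) (PT.lf (nat_lit 3040) (nat_lit 6) (nat_lit 40) (nat_lit 0) (nat_lit 126) (nat_lit 120) (nat_lit 114))))) (PT.nd (nat_lit 156) (PT.nd (nat_lit 78) (PT.lf (nat_lit 2584) (nat_lit 6) (nat_lit 34) (nat_lit 5) (nat_lit 113) (nat_lit 121) (nat_lit 126)) (PT.lf (nat_lit 3116) (nat_lit 6) (nat_lit 41) (nat_lit 5) (nat_lit 114) (nat_lit 121) (nat_lit 125))) (PT.nd (nat_lit 78) (PT.lf (nat_lit 3572) (nat_lit 6) (nat_lit 47) (nat_lit 5) (nat_lit 115) (nat_lit 121) (nat_lit 124)) (PT.nd (nat_lit 78) (PT.lf (nat_lit 3952) (nat_lit 6) (nat_lit 52) (nat_lit 5) (nat_lit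 116) (nat_lit 121) (nat_lit 123)) (PT.lf (nat_lit 4256) (nat_lit 6) (nat_lit 56) (nat_lit 5) (nat_lit 117) (nat_lit 121) (nat_lit 122))))))) (PT.nd (nat_lit 37050) (PT.nd (nat_lit 390) (PT.nd (nat_lit 156) (PT.nd (nat_lit 78) (PT.lf (nat_lit 4484) (nat_lit 3) (nat_lit 59) (nat_lit 4) (nat_lit 118) (nat_lit 121) (nat_lit 121)) (PT.lf (nat_lit 4560) (nat_lit 6) (nat_lit 60) (nat_lit 4) (nat_lit 119) (nat_lit 121) (nat_lit 120))) (PT.nd (nat_lit 78) (PT.lf (nat_lit 4560) (nat_lit 6) (nat_lit 60) (nat_lit 2) (nat_lit 120) (nat_lit 121) (nat_lit 119)) (PT.nd (nat_lit 78) (PT.lf (nat_lit 4484) (nat_lit 3) (nat_lit 59) (nat_lit 0) (nat_lit 121) (nat_lit 121) (nat_lit 118)) (PT.lf (nat_lit 4256) (nat_lit 6) (nat_lit 56) (nat_lit 0) (nat_lit 122) (nat_lit 121) (nat_lit 117))))) (PT.nd (nat_lit 156) (PT.nd (nat_lit 78) (PT.lf (nat_lit 3952) (nat_lit 6) (nat_lit 52) (nat_lit 0) (nat_lit 123) (nat_lit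 121) (nat_lit 116)) (PT.lf (nat_lit 3572) (nat_lit 6) (nat_lit 47) (nat_lit 0) (nat_lit 124) (nat_lit 121) (nat_lit 115))) (PT.nd (nat_lit 78) (PT.lf (nat_lit 3116) (nat_lit 6) (nat_lit 41) (nat_lit 0) (nat_lit 125) (nat_lit 121) (nat_lit 114)) (PT.nd (nat_lit 36348) (PT.lf (nat_lit 2584) (nat_lit 6) (nat_lit 34) (nat_lit 0) (nat_lit 126) (nat_lit 121) (nat_lit 113)) (PT.lf (nat_lit 2128) (nat_lit 6) (nat_lit 28) (nat_lit 5) (nat_lit 111) (nat_lit 122) (nat_lit 127)))))) (PT.nd (nat_lit 390) (PT.nd (nat_lit 156) (PT.nd (nat_lit 78) (PT.lf (nat_lit 2356) (nat_lit 6) (nat_lit 31) (nat_lit 5) (nat_lit 112) (nat_lit 122) (nat_lit 126)) (PT.lf (nat_lit 2660) (nat_lit 6) (nat_lit 35) (nat_lit 5) (nat_lit 113) (nat_lit 122) (nat_lit 125))) (PT.nd (nat_lit 78) (PT.lf (nat_lit 3192) (nat_lit 6) (nat_lit 42) (nat_lit 5) (nat_lit 114) (nat_lit 122) (nat_lit 124)) (PT.nd (nat_lit 78) (PT.lf (nat_lit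 3648) (nat_lit 6) (nat_lit 48) (nat_lit 5) (nat_lit 115) (nat_lit 122) (nat_lit 123)) (PT.lf (nat_lit 4028) (nat_lit 3) (nat_lit 53) (nat_lit 4) (nat_lit 116) (nat_lit 122) (nat_lit 122))))) (PT.nd (nat_lit 156) (PT.nd (nat_lit 78) (PT.lf (nat_lit 4256) (nat_lit 6) (nat_lit 56) (nat_lit 4) (nat_lit 117) (nat_lit 122) (nat_lit 121)) (PT.lf (nat_lit 4408) (nat_lit 6) (nat_lit 58) (nat_lit 4) (nat_lit 118) (nat_lit 122) (nat_lit 120))) (PT.nd (nat_lit 78) (PT.lf (nat_lit 4332) (nat_lit 3) (nat_lit 57) (nat_lit 2) (nat_lit 119) (nat_lit 122) (nat_lit 119)) (PT.nd (nat_lit 78) (PT.lf (nat_lit 4408) (nat_lit 6) (nat_lit 58) (nat_lit 2) (nat_lit 120) (nat_lit 122) (nat_lit 118)) (PT.lf (nat_lit 4256) (nat_lit 6) (nat_lit 56) (nat_lit 2) (nat_lit 121) (nat_lit 122) (nat_lit 117))))))))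
noncomputable def pc4 : PT := (PT.nd (nat_lit 37596) (PT.nd (nat_lit 36816) (PT.nd (nat_lit 312) (PT.nd (nat_lit 156) (PT.nd (nat_lit 78) (PT.lf (nat_lit 4028) (nat_lit 3) (nat_lit 53) (nat_lit 0) (nat_lit 122) (nat_lit 122) (nat_lit 116)) (PT.lf (nat_lit 3648) (nat_lit 6) (nat_lit 48) (nat_lit 0) (nat_lit 123) (nat_lit 122) (nat_lit 115))) (PT.nd (nat_lit 78) (PT.lf (nat_lit 3192) (nat_lit 6) (nat_lit 42) (nat_lit 0) (nat_lit 124) (nat_lit 122) (nat_lit 114)) (PT.lf (nat_lit 2660) (nat_lit 6) (nat_lit 35) (nat_lit 0) (nat_lit 125) (nat_lit 122) (nat_lit 113)))) (PT.nd (nat_lit 36270) (PT.nd (nat_lit 78) (PT.lf (nat_lit 2356) (nat_lit 6) (nat_lit 31) (nat_lit 0) (nat_lit 126) (nat_lit 122) (nat_lit 112)) (PT.lf (nat_lit 2128) (nat_lit 6) (nat_lit 28) (nat_lit 0) (nat_lit 127) (nat_lit 122) (nat_lit 111))) (PT.nd (nat_lit 78) (PT.lf (nat_lit 1900) (nat_lit 6) (nat_lit 25) (nat_lit 5) (nat_lit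 110) (nat_lit 123) (nat_lit 127)) (PT.nd (nat_lit 78) (PT.lf (nat_lit 2204) (nat_lit 6) (nat_lit 29) (nat_lit 5) (nat_lit 111) (nat_lit 123) (nat_lit 126)) (PT.lf (nat_lit 2432) (nat_lit 6) (nat_lit 32) (nat_lit 5) (nat_lit 112) (nat_lit 123) (nat_lit 125)))))) (PT.nd (nat_lit 390) (PT.nd (nat_lit 156) (PT.nd (nat_lit 78) (PT.lf (nat_lit 2736) (nat_lit 6) (nat_lit 36) (nat_lit 5) (nat_lit 113) (nat_lit 123) (nat_lit 124)) (PT.lf (nat_lit 3268) (nat_lit 3) (nat_lit 43) (nat_lit 4) (nat_lit 114) (nat_lit 123) (nat_lit 123))) (PT.nd (nat_lit 78) (PT.lf (nat_lit 3648) (nat_lit 6) (nat_lit 48) (nat_lit 4) (nat_lit 115) (nat_lit 123) (nat_lit 122)) (PT.nd (nat_lit 78) (PT.lf (nat_lit 3952) (nat_lit 6) (nat_lit 52) (nat_lit 4) (nat_lit 116) (nat_lit 123) (nat_lit 121)) (PT.lf (nat_lit 4180) (nat_lit 6) (nat_lit 55) (nat_lit 4) (nat_lit 117) (nat_lit 123) (nat_lit 120))))) (PT.nd (nat_lit 156)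 (PT.nd (nat_lit 78) (PT.lf (nat_lit 4104) (nat_lit 6) (nat_lit 54) (nat_lit 4) (nat_lit 118) (nat_lit 123) (nat_lit 119)) (PT.lf (nat_lit 4104) (nat_lit 6) (nat_lit 54) (nat_lit 2) (nat_lit 119) (nat_lit 123) (nat_lit 118))) (PT.nd (nat_lit 78) (PT.lf (nat_lit 4180) (nat_lit 6) (nat_lit 55) (nat_lit 2) (nat_lit 120) (nat_lit 123) (nat_lit 117)) (PT.nd (nat_lit 78) (PT.lf (nat_lit 3952) (nat_lit 6) (nat_lit 52) (nat_lit 2) (nat_lit 121) (nat_lit 123) (nat_lit 116)) (PT.lf (nat_lit 3648) (nat_lit 6) (nat_lit 48) (nat_lit 2) (nat_lit 122) (nat_lit 123) (nat_lit 115))))))) (PT.nd (nat_lit 36738) (PT.nd (nat_lit 36348) (PT.nd (nat_lit 156) (PT.nd (nat_lit 78) (PT.lf (nat_lit 3268) (nat_lit 3) (nat_lit 43) (nat_lit 0) (nat_lit 123) (nat_lit 123) (nat_lit 114)) (PT.lf (nat_lit 2736) (nat_lit 6) (nat_lit 36) (nat_lit 0) (nat_lit 124) (nat_lit 123) (nat_lit 113))) (PT.nd (nat_lit 78) (PT.lf (nat_lit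 2432) (nat_lit 6) (nat_lit 32) (nat_lit 0) (nat_lit 125) (nat_lit 123) (nat_lit 112)) (PT.nd (nat_lit 78) (PT.lf (nat_lit 2204) (nat_lit 6) (nat_lit 29) (nat_lit 0) (nat_lit 126) (nat_lit 123) (nat_lit 111)) (PT.lf (nat_lit 1900) (nat_lit 6) (nat_lit 25) (nat_lit 0) (nat_lit 127) (nat_lit 123) (nat_lit 110))))) (PT.nd (nat_lit 156) (PT.nd (nat_lit 78) (PT.lf (nat_lit 1520) (nat_lit 6) (nat_lit 20) (nat_lit 5) (nat_lit 108) (nat_lit 124) (nat_lit 128)) (PT.lf (nat_lit 1748) (nat_lit 6) (nat_lit 23) (nat_lit 5) (nat_lit 109) (nat_lit 124) (nat_lit 127))) (PT.nd (nat_lit 78) (PT.lf (nat_lit 1976) (nat_lit 6) (nat_lit 26) (nat_lit 5) (nat_lit 110) (nat_lit 124) (nat_lit 126)) (PT.nd (nat_lit 78) (PT.lf (nat_lit 2280) (nat_lit 6) (nat_lit 30) (nat_lit 5) (nat_lit 111) (nat_lit 124) (nat_lit 125)) (PT.lf (nat_lit 2508) (nat_lit 3) (nat_lit 33) (nat_lit 4) (nat_lit 112) (nat_lit 124) (nat_lit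 124)))))) (PT.nd (nat_lit 390) (PT.nd (nat_lit 156) (PT.nd (nat_lit 78) (PT.lf (nat_lit 2736) (nat_lit 6) (nat_lit 36) (nat_lit 4) (nat_lit 113) (nat_lit 124) (nat_lit 123)) (PT.lf (nat_lit 3192) (nat_lit 6) (nat_lit 42) (nat_lit 4) (nat_lit 114) (nat_lit 124) (nat_lit 122))) (PT.nd (nat_lit 78) (PT.lf (nat_lit 3572) (nat_lit 6) (nat_lit 47) (nat_lit 4) (nat_lit 115) (nat_lit 124) (nat_lit 121)) (PT.nd (nat_lit 78) (PT.lf (nat_lit 3876) (nat_lit 6) (nat_lit 51) (nat_lit 4) (nat_lit 116) (nat_lit 124) (nat_lit 120)) (PT.lf (nat_lit 3800) (nat_lit 6) (nat_lit 50) (nat_lit 4) (nat_lit 117) (nat_lit 124) (nat_lit 119))))) (PT.nd (nat_lit 156) (PT.nd (nat_lit 78) (PT.lf (nat_lit 3724) (nat_lit 3) (nat_lit 49) (nat_lit 2) (nat_lit 118) (nat_lit 124) (nat_lit 118)) (PT.lf (nat_lit 3800) (nat_lit 6) (nat_lit 50) (nat_lit 2) (nat_lit 119) (nat_lit 124) (nat_lit 117))) (PT.nd (nat_lit 78) (PT.lf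 (nat_lit 3876) (nat_lit 6) (nat_lit 51) (nat_lit 2) (nat_lit 120) (nat_lit 124) (nat_lit 116)) (PT.nd (nat_lit 78) (PT.lf (nat_lit 3572) (nat_lit 6) (nat_lit 47) (nat_lit 2) (nat_lit 121) (nat_lit 124) (nat_lit 115)) (PT.lf (nat_lit 3192) (nat_lit 6) (nat_lit 42) (nat_lit 2) (nat_lit 122) (nat_lit 124) (nat_lit 114))))))))
noncomputable def pc5 : PT := (PT.nd (nat_lit 37362) (PT.nd (nat_lit 36582) (PT.nd (nat_lit 390) (PT.nd (nat_lit 156) (PT.nd (nat_lit 78) (PT.lf (nat_lit 2736) (nat_lit 6) (nat_lit 36) (nat_lit 2) (nat_lit 123) (nat_lit 124) (nat_lit 113)) (PT.lf (nat_lit 2508) (nat_lit 3) (nat_lit 33) (nat_lit 0) (nat_lit 124) (nat_lit 124) (nat_lit 112))) (PT.nd (nat_lit 78) (PT.lf (nat_lit 2280) (nat_lit 6) (nat_lit 30) (nat_lit 0) (nat_lit 125) (nat_lit 124) (nat_lit 111)) (PT.nd (nat_lit 78) (PT.lf (nat_lit 1976) (nat_lit 6) (nat_lit 26) (nat_lit 0) (nat_lit 126) (nat_lit 124)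 (nat_lit 110)) (PT.lf (nat_lit 1748) (nat_lit 6) (nat_lit 23) (nat_lit 0) (nat_lit 127) (nat_lit 124) (nat_lit 109))))) (PT.nd (nat_lit 35958) (PT.nd (nat_lit 35880) (PT.lf (nat_lit 1520) (nat_lit 6) (nat_lit 20) (nat_lit 0) (nat_lit 128) (nat_lit 124) (nat_lit 108)) (PT.lf (nat_lit 1368) (nat_lit 6) (nat_lit 18) (nat_lit 5) (nat_lit 107) (nat_lit 125) (nat_lit 128))) (PT.nd (nat_lit 78) (PT.lf (nat_lit 1596) (nat_lit 6) (nat_lit 21) (nat_lit 5) (nat_lit 108) (nat_lit 125) (nat_lit 127)) (PT.nd (nat_lit 78) (PT.lf (nat_lit 1824) (nat_lit 6) (nat_lit 24) (nat_lit 5) (nat_lit 109) (nat_lit 125) (nat_lit 126)) (PT.lf (nat_lit 2052) (nat_lit 3) (nat_lit 27) (nat_lit 4) (nat_lit 110) (nat_lit 125) (nat_lit 125)))))) (PT.nd (nat_lit 390) (PT.nd (nat_lit 156) (PT.nd (nat_lit 78) (PT.lf (nat_lit 2280) (nat_lit 6) (nat_lit 30) (nat_lit 4) (nat_lit 111) (nat_lit 125) (nat_lit 124)) (PT.lf (nat_lit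 2432) (nat_lit 6) (nat_lit 32) (nat_lit 4) (nat_lit 112) (nat_lit 125) (nat_lit 123))) (PT.nd (nat_lit 78) (PT.lf (nat_lit 2660) (nat_lit 6) (nat_lit 35) (nat_lit 4) (nat_lit 113) (nat_lit 125) (nat_lit 122)) (PT.nd (nat_lit 78) (PT.lf (nat_lit 3116) (nat_lit 6) (nat_lit 41) (nat_lit 4) (nat_lit 114) (nat_lit 125) (nat_lit 121)) (PT.lf (nat_lit 3496) (nat_lit 6) (nat_lit 46) (nat_lit 4) (nat_lit 115) (nat_lit 125) (nat_lit 120))))) (PT.nd (nat_lit 156) (PT.nd (nat_lit 78) (PT.lf (nat_lit 3420) (nat_lit 6) (nat_lit 45) (nat_lit 4) (nat_lit 116) (nat_lit 125) (nat_lit 119)) (PT.lf (nat_lit 3344) (nat_lit 6) (nat_lit 44) (nat_lit 4) (nat_lit 117) (nat_lit 125) (nat_lit 118))) (PT.nd (nat_lit 78) (PT.lf (nat_lit 3344) (nat_lit 6) (nat_lit 44) (nat_lit 2) (nat_lit 118) (nat_lit 125) (nat_lit 117)) (PT.nd (nat_lit 78) (PT.lf (nat_lit 3420) (nat_lit 6) (nat_lit 45) (nat_lit 2) (nat_lit 119)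 (nat_lit 125) (nat_lit 116)) (PT.lf (nat_lit 3496) (nat_lit 6) (nat_lit 46) (nat_lit 2) (nat_lit 120) (nat_lit 125) (nat_lit 115))))))) (PT.nd (nat_lit 36426) (PT.nd (nat_lit 390) (PT.nd (nat_lit 156) (PT.nd (nat_lit 78) (PT.lf (nat_lit 3116) (nat_lit 6) (nat_lit 41) (nat_lit 2) (nat_lit 121) (nat_lit 125) (nat_lit 114)) (PT.lf (nat_lit 2660) (nat_lit 6) (nat_lit 35) (nat_lit 2) (nat_lit 122) (nat_lit 125) (nat_lit 113))) (PT.nd (nat_lit 78) (PT.lf (nat_lit 2432) (nat_lit 6) (nat_lit 32) (nat_lit 2) (nat_lit 123) (nat_lit 125) (nat_lit 112)) (PT.nd (nat_lit 78) (PT.lf (nat_lit 2280) (nat_lit 6) (nat_lit 30) (nat_lit 2) (nat_lit 124) (nat_lit 125) (nat_lit 111)) (PT.lf (nat_lit 2052) (nat_lit 3) (nat_lit 27) (nat_lit 0) (nat_lit 125) (nat_lit 125) (nat_lit 110))))) (PT.nd (nat_lit 156) (PT.nd (nat_lit 78) (PT.lf (nat_lit 1824) (nat_lit 6) (nat_lit 24) (nat_lit 0) (nat_lit 126) (nat_lit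 125) (nat_lit 109)) (PT.lf (nat_lit 1596) (nat_lit 6) (nat_lit 21) (nat_lit 0) (nat_lit 127) (nat_lit 125) (nat_lit 108))) (PT.nd (nat_lit 35724) (PT.lf (nat_lit 1368) (nat_lit 6) (nat_lit 18) (nat_lit 0) (nat_lit 128) (nat_lit 125) (nat_lit 107)) (PT.nd (nat_lit 78) (PT.lf (nat_lit 1064) (nat_lit 6) (nat_lit 14) (nat_lit 5) (nat_lit 105) (nat_lit 126) (nat_lit 129)) (PT.lf (nat_lit 1216) (nat_lit 6) (nat_lit 16) (nat_lit 5) (nat_lit 106) (nat_lit 126) (nat_lit 128)))))) (PT.nd (nat_lit 390) (PT.nd (nat_lit 156) (PT.nd (nat_lit 78) (PT.lf (nat_lit 1444) (nat_lit 6) (nat_lit 19) (nat_lit 5) (nat_lit 107) (nat_lit 126) (nat_lit 127)) (PT.lf (nat_lit 1672) (nat_lit 3) (nat_lit 22) (nat_lit 4) (nat_lit 108) (nat_lit 126) (nat_lit 126))) (PT.nd (nat_lit 78) (PT.lf (nat_lit 1824) (nat_lit 6) (nat_lit 24) (nat_lit 4) (nat_lit 109) (nat_lit 126) (nat_lit 125)) (PT.nd (nat_lit 78) (PT.lf (nat_lit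 1976) (nat_lit 6) (nat_lit 26) (nat_lit 4) (nat_lit 110) (nat_lit 126) (nat_lit 124)) (PT.lf (nat_lit 2204) (nat_lit 6) (nat_lit 29) (nat_lit 4) (nat_lit 111) (nat_lit 126) (nat_lit 123))))) (PT.nd (nat_lit 156) (PT.nd (nat_lit 78) (PT.lf (nat_lit 2356) (nat_lit 6) (nat_lit 31) (nat_lit 4) (nat_lit 112) (nat_lit 126) (nat_lit 122)) (PT.lf (nat_lit 2584) (nat_lit 6) (nat_lit 34) (nat_lit 4) (nat_lit 113) (nat_lit 126) (nat_lit 121))) (PT.nd (nat_lit 78) (PT.lf (nat_lit 3040) (nat_lit 6) (nat_lit 40) (nat_lit 4) (nat_lit 114) (nat_lit 126) (nat_lit 120)) (PT.nd (nat_lit 78) (PT.lf (nat_lit 2964) (nat_lit 6) (nat_lit 39) (nat_lit 4) (nat_lit 115) (nat_lit 126) (nat_lit 119)) (PT.lf (nat_lit 2888) (nat_lit 6) (nat_lit 38) (nat_lit 4) (nat_lit 116) (nat_lit 126) (nat_lit 118))))))))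
noncomputable def pc6 : PT := (PT.nd (nat_lit 36972) (PT.nd (nat_lit 702) (PT.nd (nat_lit 312) (PT.nd (nat_lit 156) (PT.nd (nat_lit 78) (PT.lf (nat_lit 2812) (nat_lit 3) (nat_lit 37) (nat_lit 2) (nat_lit 117) (nat_lit 126) (nat_lit 117)) (PT.lf (nat_lit 2888) (nat_lit 6) (nat_lit 38) (nat_lit 2) (nat_lit 118) (nat_lit 126) (nat_lit 116))) (PT.nd (nat_lit 78) (PT.lf (nat_lit 2964) (nat_lit 6) (nat_lit 39) (nat_lit 2) (nat_lit 119) (nat_lit 126) (nat_lit 115)) (PT.lf (nat_lit 3040) (nat_lit 6) (nat_lit 40) (nat_lit 2) (nat_lit 120) (nat_lit 126) (nat_lit 114)))) (PT.nd (nat_lit 156) (PT.nd (nat_lit 78) (PT.lf (nat_lit 2584) (nat_lit 6) (nat_lit 34) (nat_lit 2) (nat_lit 121) (nat_lit 126) (nat_lit 113)) (PT.lf (nat_lit 2356) (nat_lit 6) (nat_lit 31) (nat_lit 2) (nat_lit 122) (nat_lit 126) (nat_lit 112))) (PT.nd (nat_lit 78) (PT.lf (nat_lit 2204) (nat_lit 6) (nat_lit 29) (nat_lit 2) (nat_lit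 123) (nat_lit 126) (nat_lit 111)) (PT.nd (nat_lit 78) (PT.lf (nat_lit 1976) (nat_lit 6) (nat_lit 26) (nat_lit 2) (nat_lit 124) (nat_lit 126) (nat_lit 110)) (PT.lf (nat_lit 1824) (nat_lit 6) (nat_lit 24) (nat_lit 2) (nat_lit 125) (nat_lit 126) (nat_lit 109)))))) (PT.nd (nat_lit 35880) (PT.nd (nat_lit 156) (PT.nd (nat_lit 78) (PT.lf (nat_lit 1672) (nat_lit 3) (nat_lit 22) (nat_lit 0) (nat_lit 126) (nat_lit 126) (nat_lit 108)) (PT.lf (nat_lit 1444) (nat_lit 6) (nat_lit 19) (nat_lit 0) (nat_lit 127) (nat_lit 126) (nat_lit 107))) (PT.nd (nat_lit 78) (PT.lf (nat_lit 1216) (nat_lit 6) (nat_lit 16) (nat_lit 0) (nat_lit 128) (nat_lit 126) (nat_lit 106)) (PT.nd (nat_lit 35568) (PT.lf (nat_lit 1064) (nat_lit 6) (nat_lit 14) (nat_lit 0) (nat_lit 129) (nat_lit 126) (nat_lit 105)) (PT.lf (nat_lit 912) (nat_lit 6) (nat_lit 12) (nat_lit 5) (nat_lit 104) (nat_lit 127) (nat_lit 129))))) (PT.nd (nat_lit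 156) (PT.nd (nat_lit 78) (PT.lf (nat_lit 1140) (nat_lit 6) (nat_lit 15) (nat_lit 5) (nat_lit 105) (nat_lit 127) (nat_lit 128)) (PT.lf (nat_lit 1292) (nat_lit 3) (nat_lit 17) (nat_lit 4) (nat_lit 106) (nat_lit 127) (nat_lit 127))) (PT.nd (nat_lit 78) (PT.lf (nat_lit 1444) (nat_lit 6) (nat_lit 19) (nat_lit 4) (nat_lit 107) (nat_lit 127) (nat_lit 126)) (PT.nd (nat_lit 78) (PT.lf (nat_lit 1596) (nat_lit 6) (nat_lit 21) (nat_lit 4) (nat_lit 108) (nat_lit 127) (nat_lit 125)) (PT.lf (nat_lit 1748) (nat_lit 6) (nat_lit 23) (nat_lit 4) (nat_lit 109) (nat_lit 127) (nat_lit 124))))))) (PT.nd (nat_lit 36894) (PT.nd (nat_lit 1170) (PT.nd (nat_lit 936) (PT.nd (nat_lit 78) (PT.lf (nat_lit 1900) (nat_lit 6) (nat_lit 25) (nat_lit 4) (nat_lit 110) (nat_lit 127) (nat_lit 123)) (PT.lf (nat_lit 2128) (nat_lit 6) (nat_lit 28) (nat_lit 4) (nat_lit 111) (nat_lit 127) (nat_lit 122))) (PT.nd (nat_lit 78) (PT.lf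 (nat_lit 2128) (nat_lit 6) (nat_lit 28) (nat_lit 2) (nat_lit 122) (nat_lit 127) (nat_lit 111)) (PT.nd (nat_lit 78) (PT.lf (nat_lit 1900) (nat_lit 6) (nat_lit 25) (nat_lit 2) (nat_lit 123) (nat_lit 127) (nat_lit 110)) (PT.lf (nat_lit 1748) (nat_lit 6) (nat_lit 23) (nat_lit 2) (nat_lit 124) (nat_lit 127) (nat_lit 109))))) (PT.nd (nat_lit 156) (PT.nd (nat_lit 78) (PT.lf (nat_lit 1596) (nat_lit 6) (nat_lit 21) (nat_lit 2) (nat_lit 125) (nat_lit 127) (nat_lit 108)) (PT.lf (nat_lit 1444) (nat_lit 6) (nat_lit 19) (nat_lit 2) (nat_lit 126) (nat_lit 127) (nat_lit 107))) (PT.nd (nat_lit 78) (PT.lf (nat_lit 1292) (nat_lit 3) (nat_lit 17) (nat_lit 0) (nat_lit 127) (nat_lit 127) (nat_lit 106)) (PT.nd (nat_lit 78) (PT.lf (nat_lit 1140) (nat_lit 6) (nat_lit 15) (nat_lit 0) (nat_lit 128) (nat_lit 127) (nat_lit 105)) (PT.lf (nat_lit 912) (nat_lit 6) (nat_lit 12) (nat_lit 0) (nat_lit 129) (nat_lit 127)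 (nat_lit 104)))))) (PT.nd (nat_lit 390) (PT.nd (nat_lit 156) (PT.nd (nat_lit 78) (PT.lf (nat_lit 684) (nat_lit 6) (nat_lit 9) (nat_lit 5) (nat_lit 102) (nat_lit 128) (nat_lit 130)) (PT.lf (nat_lit 836) (nat_lit 6) (nat_lit 11) (nat_lit 5) (nat_lit 103) (nat_lit 128) (nat_lit 129))) (PT.nd (nat_lit 78) (PT.lf (nat_lit 988) (nat_lit 3) (nat_lit 13) (nat_lit 4) (nat_lit 104) (nat_lit 128) (nat_lit 128)) (PT.nd (nat_lit 78) (PT.lf (nat_lit 1140) (nat_lit 6) (nat_lit 15) (nat_lit 4) (nat_lit 105) (nat_lit 128) (nat_lit 127)) (PT.lf (nat_lit 1216) (nat_lit 6) (nat_lit 16) (nat_lit 4) (nat_lit 106) (nat_lit 128) (nat_lit 126))))) (PT.nd (nat_lit 1326) (PT.nd (nat_lit 78) (PT.lf (nat_lit 1368) (nat_lit 6) (nat_lit 18) (nat_lit 4) (nat_lit 107) (nat_lit 128) (nat_lit 125)) (PT.lf (nat_lit 1520) (nat_lit 6) (nat_lit 20) (nat_lit 4) (nat_lit 108) (nat_lit 128) (nat_lit 124))) (PT.nd (nat_lit 78)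 (PT.lf (nat_lit 1520) (nat_lit 6) (nat_lit 20) (nat_lit 2) (nat_lit 124) (nat_lit 128) (nat_lit 108)) (PT.nd (nat_lit 78) (PT.lf (nat_lit 1368) (nat_lit 6) (nat_lit 18) (nat_lit 2) (nat_lit 125) (nat_lit 128) (nat_lit 107)) (PT.lf (nat_lit 1216) (nat_lit 6) (nat_lit 16) (nat_lit 2) (nat_lit 126) (nat_lit 128) (nat_lit 106))))))))
noncomputable def pc7 : PT := (PT.nd (nat_lit 73086) (PT.nd (nat_lit 37440) (PT.nd (nat_lit 35490) (PT.nd (nat_lit 156) (PT.nd (nat_lit 78) (PT.lf (nat_lit 1140) (nat_lit 6) (nat_lit 15) (nat_lit 2) (nat_lit 127) (nat_lit 128) (nat_lit 105)) (PT.lf (nat_lit 988) (nat_lit 3) (nat_lit 13) (nat_lit 0) (nat_lit 128) (nat_lit 128) (nat_lit 104))) (PT.nd (nat_lit 78) (PT.lf (nat_lit 836) (nat_lit 6) (nat_lit 11) (nat_lit 0) (nat_lit 129) (nat_lit 128) (nat_lit 103)) (PT.nd (nat_lit 35178) (PT.lf (nat_lit 684) (nat_lit 6) (nat_lit 9) (nat_lit 0) (nat_lit 130) (nat_lit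 128) (nat_lit 102)) (PT.lf (nat_lit 456) (nat_lit 6) (nat_lit 6) (nat_lit 5) (nat_lit 100) (nat_lit 129) (nat_lit 131))))) (PT.nd (nat_lit 156) (PT.nd (nat_lit 78) (PT.lf (nat_lit 608) (nat_lit 6) (nat_lit 8) (nat_lit 5) (nat_lit 101) (nat_lit 129) (nat_lit 130)) (PT.lf (nat_lit 760) (nat_lit 3) (nat_lit 10) (nat_lit 4) (nat_lit 102) (nat_lit 129) (nat_lit 129))) (PT.nd (nat_lit 78) (PT.lf (nat_lit 836) (nat_lit 6) (nat_lit 11) (nat_lit 4) (nat_lit 103) (nat_lit 129) (nat_lit 128)) (PT.nd (nat_lit 78) (PT.lf (nat_lit 912) (nat_lit 6) (nat_lit 12) (nat_lit 4) (nat_lit 104) (nat_lit 129) (nat_lit 127)) (PT.lf (nat_lit 1064) (nat_lit 6) (nat_lit 14) (nat_lit 4) (nat_lit 105) (nat_lit 129) (nat_lit 126)))))) (PT.nd (nat_lit 390) (PT.nd (nat_lit 156) (PT.nd (nat_lit 78) (PT.lf (nat_lit 1064) (nat_lit 6) (nat_lit 14) (nat_lit 2) (nat_lit 126) (nat_lit 129) (nat_lit 105)) (PT.lf (nat_lit 912)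 (nat_lit 6) (nat_lit 12) (nat_lit 2) (nat_lit 127) (nat_lit 129) (nat_lit 104))) (PT.nd (nat_lit 78) (PT.lf (nat_lit 836) (nat_lit 6) (nat_lit 11) (nat_lit 2) (nat_lit 128) (nat_lit 129) (nat_lit 103)) (PT.nd (nat_lit 78) (PT.lf (nat_lit 760) (nat_lit 3) (nat_lit 10) (nat_lit 0) (nat_lit 129) (nat_lit 129) (nat_lit 102)) (PT.lf (nat_lit 608) (nat_lit 6) (nat_lit 8) (nat_lit 0) (nat_lit 130) (nat_lit 129) (nat_lit 101))))) (PT.nd (nat_lit 35022) (PT.nd (nat_lit 34944) (PT.lf (nat_lit 456) (nat_lit 6) (nat_lit 6) (nat_lit 0) (nat_lit 131) (nat_lit 129) (nat_lit 100)) (PT.lf (nat_lit 228) (nat_lit 6) (nat_lit 3) (nat_lit 5) (nat_lit 98) (nat_lit 130) (nat_lit 132))) (PT.nd (nat_lit 78) (PT.lf (nat_lit 380) (nat_lit 6) (nat_lit 5) (nat_lit 5) (nat_lit 99) (nat_lit 130) (nat_lit 131)) (PT.nd (nat_lit 78) (PT.lf (nat_lit 532) (nat_lit 3) (nat_lit 7) (nat_lit 4) (nat_lit 100) (nat_lit 130) (nat_lit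 130)) (PT.lf (nat_lit 608) (nat_lit 6) (nat_lit 8) (nat_lit 4) (nat_lit 101) (nat_lit 130) (nat_lit 129))))))) (PT.nd (nat_lit 39624) (PT.nd (nat_lit 2340) (PT.nd (nat_lit 2106) (PT.nd (nat_lit 2028) (PT.lf (nat_lit 684) (nat_lit 6) (nat_lit 9) (nat_lit 4) (nat_lit 102) (nat_lit 130) (nat_lit 128)) (PT.lf (nat_lit 684) (nat_lit 6) (nat_lit 9) (nat_lit 2) (nat_lit 128) (nat_lit 130) (nat_lit 102))) (PT.nd (nat_lit 78) (PT.lf (nat_lit 608) (nat_lit 6) (nat_lit 8) (nat_lit 2) (nat_lit 129) (nat_lit 130) (nat_lit 101)) (PT.nd (nat_lit 78) (PT.lf (nat_lit 532) (nat_lit 3) (nat_lit 7) (nat_lit 0) (nat_lit 130) (nat_lit 130) (nat_lit 100)) (PT.lf (nat_lit 380) (nat_lit 6) (nat_lit 5) (nat_lit 0) (nat_lit 131) (nat_lit 130) (nat_lit 99))))) (PT.nd (nat_lit 34866) (PT.nd (nat_lit 34788) (PT.lf (nat_lit 228) (nat_lit 6) (nat_lit 3) (nat_lit 0) (nat_lit 132) (nat_lit 130) (nat_lit 98)) (PT.lf (nat_lit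 152) (nat_lit 6) (nat_lit 2) (nat_lit 5) (nat_lit 97) (nat_lit 131) (nat_lit 132))) (PT.nd (nat_lit 78) (PT.lf (nat_lit 304) (nat_lit 3) (nat_lit 4) (nat_lit 4) (nat_lit 98) (nat_lit 131) (nat_lit 131)) (PT.nd (nat_lit 78) (PT.lf (nat_lit 380) (nat_lit 6) (nat_lit 5) (nat_lit 4) (nat_lit 99) (nat_lit 131) (nat_lit 130)) (PT.lf (nat_lit 456) (nat_lit 6) (nat_lit 6) (nat_lit 4) (nat_lit 100) (nat_lit 131) (nat_lit 129)))))) (PT.nd (nat_lit 35022) (PT.nd (nat_lit 156) (PT.nd (nat_lit 78) (PT.lf (nat_lit 456) (nat_lit 6) (nat_lit 6) (nat_lit 2) (nat_lit 129) (nat_lit 131) (nat_lit 100)) (PT.lf (nat_lit 380) (nat_lit 6) (nat_lit 5) (nat_lit 2) (nat_lit 130) (nat_lit 131) (nat_lit 99))) (PT.nd (nat_lit 78) (PT.lf (nat_lit 304) (nat_lit 3) (nat_lit 4) (nat_lit 0) (nat_lit 131) (nat_lit 131) (nat_lit 98)) (PT.nd (nat_lit 34710) (PT.lf (nat_lit 152) (nat_lit 6) (nat_lit 2) (nat_lit 0) (nat_lit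 132) (nat_lit 131) (nat_lit 97)) (PT.lf (nat_lit 76) (nat_lit 3) (nat_lit 1) (nat_lit 4) (nat_lit 96) (nat_lit 132) (nat_lit 132))))) (PT.nd (nat_lit 2574) (PT.nd (nat_lit 78) (PT.lf (nat_lit 152) (nat_lit 6) (nat_lit 2) (nat_lit 4) (nat_lit 97) (nat_lit 132) (nat_lit 131)) (PT.lf (nat_lit 228) (nat_lit 6) (nat_lit 3) (nat_lit 4) (nat_lit 98) (nat_lit 132) (nat_lit 130))) (PT.nd (nat_lit 78) (PT.lf (nat_lit 228) (nat_lit 6) (nat_lit 3) (nat_lit 2) (nat_lit 130) (nat_lit 132) (nat_lit 98)) (PT.nd (nat_lit 78) (PT.lf (nat_lit 152) (nat_lit 6) (nat_lit 2) (nat_lit 2) (nat_lit 131) (nat_lit 132) (nat_lit 97)) (PT.lf (nat_lit 76) (nat_lit 3) (nat_lit 1) (nat_lit 0) (nat_lit 132) (nat_lit 132) (nat_lit 96))))))))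
noncomputable def xc0 : XT := (XT.nd (nat_lit 149370) (nat_lit 0) (nat_lit 0) (XT.nd (nat_lit 74958) (nat_lit 0) (nat_lit 0) (XT.nd (nat_lit 37518) (nat_lit 0) (nat_lit 0) (XT.nd (nat_lit 37362) (nat_lit 0) (nat_lit 0) (XT.nd (nat_lit 37284) (nat_lit 0) (nat_lit 0) (XT.lf (nat_lit 0) (nat_lit 270566308417) (nat_lit 152) (nat_lit 491997903121) (nat_lit 0) (nat_lit 270501095896) (nat_lit 1) (nat_lit 5) (nat_lit 3) (nat_lit 4) (nat_lit 1) (nat_lit 4) (nat_lit 327) (nat_lit 197) (nat_lit 196)) (XT.lf (nat_lit 0) (nat_lit 106002218870) (nat_lit 152) (nat_lit 198112659133) (nat_lit 0) (nat_lit 106002218870) (nat_lit 1) (nat_lit 5) (nat_lit 3) (nat_lit 4) (nat_lit 1) (nat_lit 4) (nat_lit 324) (nat_lit 198) (nat_lit 198))) (XT.nd (nat_lit 78) (nat_lit 0) (nat_lit 0) (XT.lf (nat_lit 0) (nat_lit 230103087127) (nat_lit 152) (nat_lit 425655642317) (nat_lit 0) (nat_lit 230032657604) (nat_lit 1) (nat_lit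 5) (nat_lit 3) (nat_lit 4) (nat_lit 1) (nat_lit 4) (nat_lit 325) (nat_lit 198) (nat_lit 197)) (XT.lf (nat_lit 0) (nat_lit 249590419249) (nat_lit 152) (nat_lit 457550960011) (nat_lit 0) (nat_lit 249454777204) (nat_lit 1) (nat_lit 5) (nat_lit 3) (nat_lit 4) (nat_lit 1) (nat_lit 4) (nat_lit 326) (nat_lit 198) (nat_lit 196)))) (XT.nd (nat_lit 37206) (nat_lit 0) (nat_lit 0) (XT.nd (nat_lit 37128) (nat_lit 0) (nat_lit 0) (XT.lf (nat_lit 0) (nat_lit 270581914592) (nat_lit 152) (nat_lit 492100280639) (nat_lit 0) (nat_lit 270385890583) (nat_lit 1) (nat_lit 5) (nat_lit 3) (nat_lit 4) (nat_lit 1) (nat_lit 4) (nat_lit 327) (nat_lit 198) (nat_lit 195)) (XT.lf (nat_lit 0) (nat_lit 89830521203) (nat_lit 152) (nat_lit 172006807159) (nat_lit 0) (nat_lit 89830521203) (nat_lit 1) (nat_lit 5) (nat_lit 3) (nat_lit 4) (nat_lit 1) (nat_lit 4) (nat_lit 322) (nat_lit 199) (nat_lit 199))) (XT.nd (nat_lit 78) (nat_lit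 0) (nat_lit 0) (XT.lf (nat_lit 0) (nat_lit 195263283717) (nat_lit 152) (nat_lit 369085585941) (nat_lit 0) (nat_lit 195187219832) (nat_lit 1) (nat_lit 5) (nat_lit 3) (nat_lit 4) (nat_lit 1) (nat_lit 4) (nat_lit 323) (nat_lit 199) (nat_lit 198)) (XT.nd (nat_lit 78) (nat_lit 0) (nat_lit 0) (XT.lf (nat_lit 0) (nat_lit 212049758378) (nat_lit 152) (nat_lit 396282728429) (nat_lit 0) (nat_lit 211903264970) (nat_lit 1) (nat_lit 5) (nat_lit 3) (nat_lit 4) (nat_lit 1) (nat_lit 4) (nat_lit 324) (nat_lit 199) (nat_lit 197)) (XT.lf (nat_lit 0) (nat_lit 230119941796) (nat_lit 152) (nat_lit 425766210037) (nat_lit 0) (nat_lit 229908235866) (nat_lit 1) (nat_lit 5) (nat_lit 3) (nat_lit 4) (nat_lit 1) (nat_lit 4) (nat_lit 325) (nat_lit 199) (nat_lit 196)))))) (XT.nd (nat_lit 37284) (nat_lit 0) (nat_lit 0) (XT.nd (nat_lit 37050) (nat_lit 0) (nat_lit 0) (XT.nd (nat_lit 78) (nat_lit 0) (nat_lit 0) (XT.lf (nat_lit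 0) (nat_lit 249580916538) (nat_lit 152) (nat_lit 457710747692) (nat_lit 0) (nat_lit 249308828645) (nat_lit 1) (nat_lit 5) (nat_lit 3) (nat_lit 4) (nat_lit 1) (nat_lit 4) (nat_lit 326) (nat_lit 199) (nat_lit 195)) (XT.lf (nat_lit 0) (nat_lit 270548006901) (nat_lit 152) (nat_lit 492305642358) (nat_lit 0) (nat_lit 270220009781) (nat_lit 1) (nat_lit 5) (nat_lit 3) (nat_lit 4) (nat_lit 1) (nat_lit 4) (nat_lit 327) (nat_lit 199) (nat_lit 194))) (XT.nd (nat_lit 78) (nat_lit 0) (nat_lit 0) (XT.lf (nat_lit 0) (nat_lit 75881953318) (nat_lit 152) (nat_lit 149797817521) (nat_lit 0) (nat_lit 75881953318) (nat_lit 1) (nat_lit 5) (nat_lit 3) (nat_lit 4) (nat_lit 1) (nat_lit 4) (nat_lit 320) (nat_lit 200) (nat_lit 200)) (XT.nd (nat_lit 78) (nat_lit 0) (nat_lit 0) (XT.lf (nat_lit 0) (nat_lit 165232725718) (nat_lit 152) (nat_lit 320918238919) (nat_lit 0) (nat_lit 165150576722) (nat_lit 1) (nat_lit 5) (nat_lit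 3) (nat_lit 4) (nat_lit 1) (nat_lit 4) (nat_lit 321) (nat_lit 200) (nat_lit 199)) (XT.lf (nat_lit 0) (nat_lit 179709988696) (nat_lit 152) (nat_lit 344075617295) (nat_lit 0) (nat_lit 179551775816) (nat_lit 1) (nat_lit 5) (nat_lit 3) (nat_lit 4) (nat_lit 1) (nat_lit 4) (nat_lit 322) (nat_lit 200) (nat_lit 198))))) (XT.nd (nat_lit 156) (nat_lit 0) (nat_lit 0) (XT.nd (nat_lit 78) (nat_lit 0) (nat_lit 0) (XT.lf (nat_lit 0) (nat_lit 195281486759) (nat_lit 152) (nat_lit 369204999078) (nat_lit 0) (nat_lit 195052844356) (nat_lit 1) (nat_lit 5) (nat_lit 3) (nat_lit 4) (nat_lit 1) (nat_lit 4) (nat_lit 323) (nat_lit 200) (nat_lit 197)) (XT.lf (nat_lit 0) (nat_lit 212039495451) (nat_lit 152) (nat_lit 396455299125) (nat_lit 0) (nat_lit 211745640526) (nat_lit 1) (nat_lit 5) (nat_lit 3) (nat_lit 4) (nat_lit 1) (nat_lit 4) (nat_lit 324) (nat_lit 200) (nat_lit 196))) (XT.nd (nat_lit 78) (nat_lit 0) (nat_lit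 0) (XT.lf (nat_lit 0) (nat_lit 230083321490) (nat_lit 152) (nat_lit 425988000693) (nat_lit 0) (nat_lit 229729084600) (nat_lit 1) (nat_lit 5) (nat_lit 3) (nat_lit 4) (nat_lit 1) (nat_lit 4) (nat_lit 325) (nat_lit 200) (nat_lit 195)) (XT.nd (nat_lit 78) (nat_lit 0) (nat_lit 0) (XT.lf (nat_lit 0) (nat_lit 249519891252) (nat_lit 152) (nat_lit 457978112386) (nat_lit 0) (nat_lit 249109745136) (nat_lit 1) (nat_lit 5) (nat_lit 3) (nat_lit 4) (nat_lit 1) (nat_lit 4) (nat_lit 326) (nat_lit 200) (nat_lit 194)) (XT.lf (nat_lit 0) (nat_lit 270464384410) (nat_lit 152) (nat_lit 492615205235) (nat_lit 0) (nat_lit 270002470492) (nat_lit 1) (nat_lit 5) (nat_lit 3) (nat_lit 4) (nat_lit 1) (nat_lit 4) (nat_lit 327) (nat_lit 200) (nat_lit 193))))))) (XT.nd (nat_lit 37362) (nat_lit 0) (nat_lit 0) (XT.nd (nat_lit 312) (nat_lit 0) (nat_lit 0) (XT.nd (nat_lit 156) (nat_lit 0) (nat_lit 0) (XT.nd (nat_lit 78) (nat_lit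 0) (nat_lit 0) (XT.lf (nat_lit 0) (nat_lit 63832645402) (nat_lit 152) (nat_lit 130943564894) (nat_lit 0) (nat_lit 63832645402) (nat_lit 1) (nat_lit 5) (nat_lit 3) (nat_lit 4) (nat_lit 1) (nat_lit 4) (nat_lit 318) (nat_lit 201) (nat_lit 201)) (XT.lf (nat_lit 0) (nat_lit 139312437143) (nat_lit 152) (nat_lit 279981449492) (nat_lit 0) (nat_lit 139223716228) (nat_lit 1) (nat_lit 5) (nat_lit 3) (nat_lit 4) (nat_lit 1) (nat_lit 4) (nat_lit 319) (nat_lit 201) (nat_lit 200))) (XT.nd (nat_lit 78) (nat_lit 0) (nat_lit 0) (XT.lf (nat_lit 0) (nat_lit 151816768629) (nat_lit 152) (nat_lit 299662598255) (nat_lit 0) (nat_lit 151645898718) (nat_lit 1) (nat_lit 5) (nat_lit 3) (nat_lit 4) (nat_lit 1) (nat_lit 4) (nat_lit 320) (nat_lit 201) (nat_lit 199)) (XT.lf (nat_lit 0) (nat_lit 165252385004) (nat_lit 152) (nat_lit 321047205107) (nat_lit 0) (nat_lit 165005451208) (nat_lit 1) (nat_lit 5) (nat_lit 3) (nat_lit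 4) (nat_lit 1) (nat_lit 4) (nat_lit 321) (nat_lit 201) (nat_lit 198)))) (XT.nd (nat_lit 156) (nat_lit 0) (nat_lit 0) (XT.nd (nat_lit 78) (nat_lit 0) (nat_lit 0) (XT.lf (nat_lit 0) (nat_lit 179698904735) (nat_lit 152) (nat_lit 344261993646) (nat_lit 0) (nat_lit 179381541416) (nat_lit 1) (nat_lit 5) (nat_lit 3) (nat_lit 4) (nat_lit 1) (nat_lit 4) (nat_lit 322) (nat_lit 201) (nat_lit 197)) (XT.lf (nat_lit 0) (nat_lit 195241936829) (nat_lit 152) (nat_lit 369444532987) (nat_lit 0) (nat_lit 194859360988) (nat_lit 1) (nat_lit 5) (nat_lit 3) (nat_lit 4) (nat_lit 1) (nat_lit 4) (nat_lit 323) (nat_lit 201) (nat_lit 196))) (XT.nd (nat_lit 78) (nat_lit 0) (nat_lit 0) (XT.lf (nat_lit 0) (nat_lit 211973588141) (nat_lit 152) (nat_lit 396744052994) (nat_lit 0) (nat_lit 211530630336) (nat_lit 1) (nat_lit 5) (nat_lit 3) (nat_lit 4) (nat_lit 1) (nat_lit 4) (nat_lit 324) (nat_lit 201) (nat_lit 195)) (XT.nd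 (nat_lit 78) (nat_lit 0) (nat_lit 0) (XT.lf (nat_lit 0) (nat_lit 229993009199) (nat_lit 152) (nat_lit 426322328601) (nat_lit 0) (nat_lit 229494142168) (nat_lit 1) (nat_lit 5) (nat_lit 3) (nat_lit 4) (nat_lit 1) (nat_lit 4) (nat_lit 325) (nat_lit 201) (nat_lit 194)) (XT.lf (nat_lit 0) (nat_lit 249406981757) (nat_lit 152) (nat_lit 458354638476) (nat_lit 0) (nat_lit 248856346924) (nat_lit 1) (nat_lit 5) (nat_lit 3) (nat_lit 4) (nat_lit 1) (nat_lit 4) (nat_lit 326) (nat_lit 201) (nat_lit 193)))))) (XT.nd (nat_lit 390) (nat_lit 0) (nat_lit 0) (XT.nd (nat_lit 156) (nat_lit 0) (nat_lit 0) (XT.nd (nat_lit 78) (nat_lit 0) (nat_lit 0) (XT.lf (nat_lit 0) (nat_lit 53404394052) (nat_lit 152) (nat_lit 114980368649) (nat_lit 0) (nat_lit 53404394052) (nat_lit 1) (nat_lit 5) (nat_lit 3) (nat_lit 4) (nat_lit 1) (nat_lit 4) (nat_lit 316) (nat_lit 202) (nat_lit 202)) (XT.lf (nat_lit 0) (nat_lit 116902128074)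 (nat_lit 152) (nat_lit 245272413548) (nat_lit 0) (nat_lit 116806309485) (nat_lit 1) (nat_lit 5) (nat_lit 3) (nat_lit 4) (nat_lit 1) (nat_lit 4) (nat_lit 317) (nat_lit 202) (nat_lit 201))) (XT.nd (nat_lit 78) (nat_lit 0) (nat_lit 0) (XT.lf (nat_lit 0) (nat_lit 127722381756) (nat_lit 152) (nat_lit 261959450060) (nat_lit 0) (nat_lit 127537842252) (nat_lit 1) (nat_lit 5) (nat_lit 3) (nat_lit 4) (nat_lit 1) (nat_lit 4) (nat_lit 318) (nat_lit 202) (nat_lit 200)) (XT.nd (nat_lit 78) (nat_lit 0) (nat_lit 0) (XT.lf (nat_lit 0) (nat_lit 139333669171) (nat_lit 152) (nat_lit 280120732976) (nat_lit 0) (nat_lit 139066980672) (nat_lit 1) (nat_lit 5) (nat_lit 3) (nat_lit 4) (nat_lit 1) (nat_lit 4) (nat_lit 319) (nat_lit 202) (nat_lit 199)) (XT.lf (nat_lit 0) (nat_lit 151804797951) (nat_lit 152) (nat_lit 299863884714) (nat_lit 0) (nat_lit 151462045566) (nat_lit 1) (nat_lit 5) (nat_lit 3) (nat_lit 4) (nat_lit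 1) (nat_lit 4) (nat_lit 320) (nat_lit 202) (nat_lit 198))))) (XT.nd (nat_lit 156) (nat_lit 0) (nat_lit 0) (XT.nd (nat_lit 78) (nat_lit 0) (nat_lit 0) (XT.lf (nat_lit 0) (nat_lit 165209671078) (nat_lit 152) (nat_lit 321305901729) (nat_lit 0) (nat_lit 164796489171) (nat_lit 1) (nat_lit 5) (nat_lit 3) (nat_lit 4) (nat_lit 1) (nat_lit 4) (nat_lit 321) (nat_lit 202) (nat_lit 197)) (XT.lf (nat_lit 0) (nat_lit 179627724840) (nat_lit 152) (nat_lit 344573847825) (nat_lit 0) (nat_lit 179149330411) (nat_lit 1) (nat_lit 5) (nat_lit 3) (nat_lit 4) (nat_lit 1) (nat_lit 4) (nat_lit 322) (nat_lit 202) (nat_lit 196))) (XT.nd (nat_lit 78) (nat_lit 0) (nat_lit 0) (XT.lf (nat_lit 0) (nat_lit 195144399555) (nat_lit 152) (nat_lit 369805607127) (nat_lit 0) (nat_lit 194605623162) (nat_lit 1) (nat_lit 5) (nat_lit 3) (nat_lit 4) (nat_lit 1) (nat_lit 4) (nat_lit 323) (nat_lit 202) (nat_lit 195)) (XT.nd (nat_lit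 78) (nat_lit 0) (nat_lit 0) (XT.lf (nat_lit 0) (nat_lit 211851645887) (nat_lit 152) (nat_lit 397150701172) (nat_lit 0) (nat_lit 211256960268) (nat_lit 1) (nat_lit 5) (nat_lit 3) (nat_lit 4) (nat_lit 1) (nat_lit 4) (nat_lit 324) (nat_lit 202) (nat_lit 194)) (XT.lf (nat_lit 0) (nat_lit 229848469741) (nat_lit 152) (nat_lit 426771174961) (nat_lit 0) (nat_lit 229202016319) (nat_lit 1) (nat_lit 5) (nat_lit 3) (nat_lit 4) (nat_lit 1) (nat_lit 4) (nat_lit 325) (nat_lit 202) (nat_lit 193))))))))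
noncomputable def xc1 : XT := (XT.nd (nat_lit 74334) (nat_lit 0) (nat_lit 0) (XT.nd (nat_lit 37206) (nat_lit 0) (nat_lit 0) (XT.nd (nat_lit 36816) (nat_lit 0) (nat_lit 0) (XT.nd (nat_lit 36660) (nat_lit 0) (nat_lit 0) (XT.nd (nat_lit 36582) (nat_lit 0) (nat_lit 0) (XT.lf (nat_lit 0) (nat_lit 249241518961) (nat_lit 152) (nat_lit 458842557229) (nat_lit 0) (nat_lit 248547132390) (nat_lit 1) (nat_lit 5) (nat_lit 3) (nat_lit 4) (nat_lit 1) (nat_lit 4) (nat_lit 326) (nat_lit 202) (nat_lit 192)) (XT.lf (nat_lit 0) (nat_lit 44358104474) (nat_lit 152) (nat_lit 101511890188) (nat_lit 0) (nat_lit 44358104474) (nat_lit 1) (nat_lit 5) (nat_lit 3) (nat_lit 4) (nat_lit 1) (nat_lit 4) (nat_lit 314) (nat_lit 203) (nat_lit 203))) (XT.nd (nat_lit 78) (nat_lit 0) (nat_lit 0) (XT.lf (nat_lit 0) (nat_lit 97486033539) (nat_lit 152) (nat_lit 215933685453) (nat_lit 0) (nat_lit 97382549463) (nat_lit 1) (nat_lit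 5) (nat_lit 3) (nat_lit 4) (nat_lit 1) (nat_lit 4) (nat_lit 315) (nat_lit 203) (nat_lit 202)) (XT.lf (nat_lit 0) (nat_lit 106870446333) (nat_lit 152) (nat_lit 230038843191) (nat_lit 0) (nat_lit 106671143668) (nat_lit 1) (nat_lit 5) (nat_lit 3) (nat_lit 4) (nat_lit 1) (nat_lit 4) (nat_lit 316) (nat_lit 203) (nat_lit 201)))) (XT.nd (nat_lit 156) (nat_lit 0) (nat_lit 0) (XT.nd (nat_lit 78) (nat_lit 0) (nat_lit 0) (XT.lf (nat_lit 0) (nat_lit 116925058665) (nat_lit 152) (nat_lit 245422839710) (nat_lit 0) (nat_lit 116637035085) (nat_lit 1) (nat_lit 5) (nat_lit 3) (nat_lit 4) (nat_lit 1) (nat_lit 4) (nat_lit 317) (nat_lit 203) (nat_lit 200)) (XT.lf (nat_lit 0) (nat_lit 127709453423) (nat_lit 152) (nat_lit 262176839435) (nat_lit 0) (nat_lit 127339280848) (nat_lit 1) (nat_lit 5) (nat_lit 3) (nat_lit 4) (nat_lit 1) (nat_lit 4) (nat_lit 318) (nat_lit 203) (nat_lit 199))) (XT.nd (nat_lit 78) (nat_lit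 0) (nat_lit 0) (XT.lf (nat_lit 0) (nat_lit 139287538132) (nat_lit 152) (nat_lit 280400125327) (nat_lit 0) (nat_lit 138841301672) (nat_lit 1) (nat_lit 5) (nat_lit 3) (nat_lit 4) (nat_lit 1) (nat_lit 4) (nat_lit 319) (nat_lit 203) (nat_lit 198)) (XT.nd (nat_lit 78) (nat_lit 0) (nat_lit 0) (XT.lf (nat_lit 0) (nat_lit 151727923664) (nat_lit 152) (nat_lit 300200687227) (nat_lit 0) (nat_lit 151211257681) (nat_lit 1) (nat_lit 5) (nat_lit 3) (nat_lit 4) (nat_lit 1) (nat_lit 4) (nat_lit 320) (nat_lit 203) (nat_lit 197)) (XT.lf (nat_lit 0) (nat_lit 165104330823) (nat_lit 152) (nat_lit 321695861800) (nat_lit 0) (nat_lit 164522452318) (nat_lit 1) (nat_lit 5) (nat_lit 3) (nat_lit 4) (nat_lit 1) (nat_lit 4) (nat_lit 321) (nat_lit 203) (nat_lit 196)))))) (XT.nd (nat_lit 36738) (nat_lit 0) (nat_lit 0) (XT.nd (nat_lit 156) (nat_lit 0) (nat_lit 0) (XT.nd (nat_lit 78) (nat_lit 0) (nat_lit 0) (XT.lf (nat_lit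 0) (nat_lit 179496027206) (nat_lit 152) (nat_lit 345013027857) (nat_lit 0) (nat_lit 178853766737) (nat_lit 1) (nat_lit 5) (nat_lit 3) (nat_lit 4) (nat_lit 1) (nat_lit 4) (nat_lit 322) (nat_lit 203) (nat_lit 195)) (XT.lf (nat_lit 0) (nat_lit 194988296940) (nat_lit 152) (nat_lit 370290361197) (nat_lit 0) (nat_lit 194290127245) (nat_lit 1) (nat_lit 5) (nat_lit 3) (nat_lit 4) (nat_lit 1) (nat_lit 4) (nat_lit 323) (nat_lit 203) (nat_lit 194))) (XT.nd (nat_lit 78) (nat_lit 0) (nat_lit 0) (XT.lf (nat_lit 0) (nat_lit 211672946068) (nat_lit 152) (nat_lit 397677653425) (nat_lit 0) (nat_lit 210923008571) (nat_lit 1) (nat_lit 5) (nat_lit 3) (nat_lit 4) (nat_lit 1) (nat_lit 4) (nat_lit 324) (nat_lit 203) (nat_lit 193)) (XT.nd (nat_lit 78) (nat_lit 0) (nat_lit 0) (XT.lf (nat_lit 0) (nat_lit 229648846584) (nat_lit 152) (nat_lit 427337199606) (nat_lit 0) (nat_lit 228850975937) (nat_lit 1) (nat_lit 5)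 (nat_lit 3) (nat_lit 4) (nat_lit 1) (nat_lit 4) (nat_lit 325) (nat_lit 203) (nat_lit 192)) (XT.lf (nat_lit 0) (nat_lit 249022522344) (nat_lit 152) (nat_lit 459444760014) (nat_lit 0) (nat_lit 248180269151) (nat_lit 1) (nat_lit 5) (nat_lit 3) (nat_lit 4) (nat_lit 1) (nat_lit 4) (nat_lit 326) (nat_lit 203) (nat_lit 191))))) (XT.nd (nat_lit 156) (nat_lit 0) (nat_lit 0) (XT.nd (nat_lit 78) (nat_lit 0) (nat_lit 0) (XT.lf (nat_lit 0) (nat_lit 36488164782) (nat_lit 152) (nat_lit 90199621278) (nat_lit 0) (nat_lit 36488164782) (nat_lit 1) (nat_lit 5) (nat_lit 3) (nat_lit 4) (nat_lit 1) (nat_lit 4) (nat_lit 312) (nat_lit 204) (nat_lit 204)) (XT.lf (nat_lit 0) (nat_lit 80620766033) (nat_lit 152) (nat_lit 191232624820) (nat_lit 0) (nat_lit 80509003231) (nat_lit 1) (nat_lit 5) (nat_lit 3) (nat_lit 4) (nat_lit 1) (nat_lit 4) (nat_lit 313) (nat_lit 204) (nat_lit 203))) (XT.nd (nat_lit 78) (nat_lit 0)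 (nat_lit 0) (XT.lf (nat_lit 0) (nat_lit 88782799835) (nat_lit 152) (nat_lit 203108134739) (nat_lit 0) (nat_lit 88567552957) (nat_lit 1) (nat_lit 5) (nat_lit 3) (nat_lit 4) (nat_lit 1) (nat_lit 4) (nat_lit 314) (nat_lit 204) (nat_lit 202)) (XT.nd (nat_lit 78) (nat_lit 0) (nat_lit 0) (XT.lf (nat_lit 0) (nat_lit 97510798577) (nat_lit 152) (nat_lit 216096145708) (nat_lit 0) (nat_lit 97199733111) (nat_lit 1) (nat_lit 5) (nat_lit 3) (nat_lit 4) (nat_lit 1) (nat_lit 4) (nat_lit 315) (nat_lit 204) (nat_lit 201)) (XT.lf (nat_lit 0) (nat_lit 106856483734) (nat_lit 152) (nat_lit 230273623717) (nat_lit 0) (nat_lit 106456697352) (nat_lit 1) (nat_lit 5) (nat_lit 3) (nat_lit 4) (nat_lit 1) (nat_lit 4) (nat_lit 316) (nat_lit 204) (nat_lit 200))))))) (XT.nd (nat_lit 702) (nat_lit 0) (nat_lit 0) (XT.nd (nat_lit 312) (nat_lit 0) (nat_lit 0) (XT.nd (nat_lit 156) (nat_lit 0) (nat_lit 0) (XT.nd (nat_lit 78)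 (nat_lit 0) (nat_lit 0) (XT.lf (nat_lit 0) (nat_lit 116875237142) (nat_lit 152) (nat_lit 245724583450) (nat_lit 0) (nat_lit 116393301765) (nat_lit 1) (nat_lit 5) (nat_lit 3) (nat_lit 4) (nat_lit 1) (nat_lit 4) (nat_lit 317) (nat_lit 204) (nat_lit 199)) (XT.lf (nat_lit 0) (nat_lit 127626429194) (nat_lit 152) (nat_lit 262540586150) (nat_lit 0) (nat_lit 127068429932) (nat_lit 1) (nat_lit 5) (nat_lit 3) (nat_lit 4) (nat_lit 1) (nat_lit 4) (nat_lit 318) (nat_lit 204) (nat_lit 198))) (XT.nd (nat_lit 78) (nat_lit 0) (nat_lit 0) (XT.lf (nat_lit 0) (nat_lit 139173770656) (nat_lit 152) (nat_lit 280821282204) (nat_lit 0) (nat_lit 138545341871) (nat_lit 1) (nat_lit 5) (nat_lit 3) (nat_lit 4) (nat_lit 1) (nat_lit 4) (nat_lit 319) (nat_lit 204) (nat_lit 197)) (XT.lf (nat_lit 0) (nat_lit 151585690219) (nat_lit 152) (nat_lit 300675001662) (nat_lit 0) (nat_lit 150892048913) (nat_lit 1) (nat_lit 5) (nat_lit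 3) (nat_lit 4) (nat_lit 1) (nat_lit 4) (nat_lit 320) (nat_lit 204) (nat_lit 196)))) (XT.nd (nat_lit 156) (nat_lit 0) (nat_lit 0) (XT.nd (nat_lit 78) (nat_lit 0) (nat_lit 0) (XT.lf (nat_lit 0) (nat_lit 164935739999) (nat_lit 152) (nat_lit 322219396195) (nat_lit 0) (nat_lit 164181716728) (nat_lit 1) (nat_lit 5) (nat_lit 3) (nat_lit 4) (nat_lit 1) (nat_lit 4) (nat_lit 321) (nat_lit 204) (nat_lit 195)) (XT.lf (nat_lit 0) (nat_lit 179303031401) (nat_lit 152) (nat_lit 345582136290) (nat_lit 0) (nat_lit 178493098904) (nat_lit 1) (nat_lit 5) (nat_lit 3) (nat_lit 4) (nat_lit 1) (nat_lit 4) (nat_lit 322) (nat_lit 204) (nat_lit 194))) (XT.nd (nat_lit 78) (nat_lit 0) (nat_lit 0) (XT.lf (nat_lit 0) (nat_lit 194772703931) (nat_lit 152) (nat_lit 370901667813) (nat_lit 0) (nat_lit 193911003632) (nat_lit 1) (nat_lit 5) (nat_lit 3) (nat_lit 4) (nat_lit 1) (nat_lit 4) (nat_lit 323) (nat_lit 204) (nat_lit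 193)) (XT.nd (nat_lit 78) (nat_lit 0) (nat_lit 0) (XT.lf (nat_lit 0) (nat_lit 211436429721) (nat_lit 152) (nat_lit 398328032433) (nat_lit 0) (nat_lit 210526796272) (nat_lit 1) (nat_lit 5) (nat_lit 3) (nat_lit 4) (nat_lit 1) (nat_lit 4) (nat_lit 324) (nat_lit 204) (nat_lit 192)) (XT.lf (nat_lit 0) (nat_lit 229392956777) (nat_lit 152) (nat_lit 428023756755) (nat_lit 0) (nat_lit 228438940782) (nat_lit 1) (nat_lit 5) (nat_lit 3) (nat_lit 4) (nat_lit 1) (nat_lit 4) (nat_lit 325) (nat_lit 204) (nat_lit 191)))))) (XT.nd (nat_lit 36582) (nat_lit 0) (nat_lit 0) (XT.nd (nat_lit 36348) (nat_lit 0) (nat_lit 0) (XT.nd (nat_lit 36270) (nat_lit 0) (nat_lit 0) (XT.lf (nat_lit 0) (nat_lit 248748694148) (nat_lit 152) (nat_lit 460164815441) (nat_lit 0) (nat_lit 247753583203) (nat_lit 1) (nat_lit 5) (nat_lit 3) (nat_lit 4) (nat_lit 1) (nat_lit 4) (nat_lit 326) (nat_lit 204) (nat_lit 190)) (XT.lf (nat_lit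 0) (nat_lit 29617619155) (nat_lit 152) (nat_lit 80754736964) (nat_lit 0) (nat_lit 29617619155) (nat_lit 1) (nat_lit 5) (nat_lit 3) (nat_lit 4) (nat_lit 1) (nat_lit 4) (nat_lit 310) (nat_lit 205) (nat_lit 205))) (XT.nd (nat_lit 78) (nat_lit 0) (nat_lit 0) (XT.lf (nat_lit 0) (nat_lit 65924893889) (nat_lit 152) (nat_lit 170543790130) (nat_lit 0) (nat_lit 65804190063) (nat_lit 1) (nat_lit 5) (nat_lit 3) (nat_lit 4) (nat_lit 1) (nat_lit 4) (nat_lit 311) (nat_lit 205) (nat_lit 204)) (XT.nd (nat_lit 78) (nat_lit 0) (nat_lit 0) (XT.lf (nat_lit 0) (nat_lit 73048247720) (nat_lit 152) (nat_lit 180490345269) (nat_lit 0) (nat_lit 72815781093) (nat_lit 1) (nat_lit 5) (nat_lit 3) (nat_lit 4) (nat_lit 1) (nat_lit 4) (nat_lit 312) (nat_lit 205) (nat_lit 203)) (XT.lf (nat_lit 0) (nat_lit 80647512274) (nat_lit 152) (nat_lit 191408081896) (nat_lit 0) (nat_lit 80311561571) (nat_lit 1) (nat_lit 5) (nat_lit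 3) (nat_lit 4) (nat_lit 1) (nat_lit 4) (nat_lit 313) (nat_lit 205) (nat_lit 202))))) (XT.nd (nat_lit 156) (nat_lit 0) (nat_lit 0) (XT.nd (nat_lit 78) (nat_lit 0) (nat_lit 0) (XT.lf (nat_lit 0) (nat_lit 88767720228) (nat_lit 152) (nat_lit 203361697707) (nat_lit 0) (nat_lit 88335950936) (nat_lit 1) (nat_lit 5) (nat_lit 3) (nat_lit 4) (nat_lit 1) (nat_lit 4) (nat_lit 314) (nat_lit 205) (nat_lit 201)) (XT.lf (nat_lit 0) (nat_lit 97456991333) (nat_lit 152) (nat_lit 216422028946) (nat_lit 0) (nat_lit 96936501126) (nat_lit 1) (nat_lit 5) (nat_lit 3) (nat_lit 4) (nat_lit 1) (nat_lit 4) (nat_lit 315) (nat_lit 205) (nat_lit 200))) (XT.nd (nat_lit 78) (nat_lit 0) (nat_lit 0) (XT.lf (nat_lit 0) (nat_lit 106766817566) (nat_lit 152) (nat_lit 230666470168) (nat_lit 0) (nat_lit 106164178363) (nat_lit 1) (nat_lit 5) (nat_lit 3) (nat_lit 4) (nat_lit 1) (nat_lit 4) (nat_lit 316) (nat_lit 205) (nat_lit 199))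 (XT.nd (nat_lit 78) (nat_lit 0) (nat_lit 0) (XT.lf (nat_lit 0) (nat_lit 116752368268) (nat_lit 152) (nat_lit 246179432876) (nat_lit 0) (nat_lit 116073665180) (nat_lit 1) (nat_lit 5) (nat_lit 3) (nat_lit 4) (nat_lit 1) (nat_lit 4) (nat_lit 317) (nat_lit 205) (nat_lit 198)) (XT.lf (nat_lit 0) (nat_lit 127472817073) (nat_lit 152) (nat_lit 263052845739) (nat_lit 0) (nat_lit 126723684462) (nat_lit 1) (nat_lit 5) (nat_lit 3) (nat_lit 4) (nat_lit 1) (nat_lit 4) (nat_lit 318) (nat_lit 205) (nat_lit 197))))))))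
noncomputable def xc2 : XT := (XT.nd (nat_lit 37518) (nat_lit 0) (nat_lit 0) (XT.nd (nat_lit 36738) (nat_lit 0) (nat_lit 0) (XT.nd (nat_lit 312) (nat_lit 0) (nat_lit 0) (XT.nd (nat_lit 156) (nat_lit 0) (nat_lit 0) (XT.nd (nat_lit 78) (nat_lit 0) (nat_lit 0) (XT.lf (nat_lit 0) (nat_lit 138991692566) (nat_lit 152) (nat_lit 281386699350) (nat_lit 0) (nat_lit 138177347434) (nat_lit 1) (nat_lit 5) (nat_lit 3) (nat_lit 4) (nat_lit 1) (nat_lit 4) (nat_lit 319) (nat_lit 205) (nat_lit 196)) (XT.lf (nat_lit 0) (nat_lit 151377254750) (nat_lit 152) (nat_lit 301289638769) (nat_lit 0) (nat_lit 150502527653) (nat_lit 1) (nat_lit 5) (nat_lit 3) (nat_lit 4) (nat_lit 1) (nat_lit 4) (nat_lit 320) (nat_lit 205) (nat_lit 195))) (XT.nd (nat_lit 78) (nat_lit 0) (nat_lit 0) (XT.lf (nat_lit 0) (nat_lit 164702899549) (nat_lit 152) (nat_lit 322879607340) (nat_lit 0) (nat_lit 163772263226) (nat_lit 1) (nat_lit 5)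 (nat_lit 3) (nat_lit 4) (nat_lit 1) (nat_lit 4) (nat_lit 321) (nat_lit 205) (nat_lit 194)) (XT.lf (nat_lit 0) (nat_lit 179047593747) (nat_lit 152) (nat_lit 346284545618) (nat_lit 0) (nat_lit 178065189622) (nat_lit 1) (nat_lit 5) (nat_lit 3) (nat_lit 4) (nat_lit 1) (nat_lit 4) (nat_lit 322) (nat_lit 205) (nat_lit 193)))) (XT.nd (nat_lit 156) (nat_lit 0) (nat_lit 0) (XT.nd (nat_lit 78) (nat_lit 0) (nat_lit 0) (XT.lf (nat_lit 0) (nat_lit 194496342939) (nat_lit 152) (nat_lit 371643149533) (nat_lit 0) (nat_lit 193466005665) (nat_lit 1) (nat_lit 5) (nat_lit 3) (nat_lit 4) (nat_lit 1) (nat_lit 4) (nat_lit 323) (nat_lit 205) (nat_lit 192)) (XT.lf (nat_lit 0) (nat_lit 211140695270) (nat_lit 152) (nat_lit 399105692294) (nat_lit 0) (nat_lit 210065975448) (nat_lit 1) (nat_lit 5) (nat_lit 3) (nat_lit 4) (nat_lit 1) (nat_lit 4) (nat_lit 324) (nat_lit 205) (nat_lit 191))) (XT.nd (nat_lit 78) (nat_lit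 0) (nat_lit 0) (XT.lf (nat_lit 0) (nat_lit 229079283936) (nat_lit 152) (nat_lit 428834914894) (nat_lit 0) (nat_lit 227963469165) (nat_lit 1) (nat_lit 5) (nat_lit 3) (nat_lit 4) (nat_lit 1) (nat_lit 4) (nat_lit 325) (nat_lit 205) (nat_lit 190)) (XT.nd (nat_lit 36114) (nat_lit 0) (nat_lit 0) (XT.lf (nat_lit 0) (nat_lit 248418411687) (nat_lit 152) (nat_lit 461006990505) (nat_lit 0) (nat_lit 247264546036) (nat_lit 1) (nat_lit 5) (nat_lit 3) (nat_lit 4) (nat_lit 1) (nat_lit 4) (nat_lit 326) (nat_lit 205) (nat_lit 189)) (XT.lf (nat_lit 0) (nat_lit 23594025594) (nat_lit 152) (nat_lit 72931118994) (nat_lit 0) (nat_lit 23594025594) (nat_lit 1) (nat_lit 5) (nat_lit 3) (nat_lit 4) (nat_lit 1) (nat_lit 4) (nat_lit 308) (nat_lit 206) (nat_lit 206)))))) (XT.nd (nat_lit 390) (nat_lit 0) (nat_lit 0) (XT.nd (nat_lit 156) (nat_lit 0) (nat_lit 0) (XT.nd (nat_lit 78) (nat_lit 0) (nat_lit 0) (XT.lf (nat_lit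 0) (nat_lit 53069998717) (nat_lit 152) (nat_lit 153333859977) (nat_lit 0) (nat_lit 52939638585) (nat_lit 1) (nat_lit 5) (nat_lit 3) (nat_lit 4) (nat_lit 1) (nat_lit 4) (nat_lit 309) (nat_lit 206) (nat_lit 205)) (XT.lf (nat_lit 0) (nat_lit 59312909921) (nat_lit 152) (nat_lit 161607864858) (nat_lit 0) (nat_lit 59061845963) (nat_lit 1) (nat_lit 5) (nat_lit 3) (nat_lit 4) (nat_lit 1) (nat_lit 4) (nat_lit 310) (nat_lit 206) (nat_lit 204))) (XT.nd (nat_lit 78) (nat_lit 0) (nat_lit 0) (XT.lf (nat_lit 0) (nat_lit 65953779829) (nat_lit 152) (nat_lit 170733283772) (nat_lit 0) (nat_lit 65590953069) (nat_lit 1) (nat_lit 5) (nat_lit 3) (nat_lit 4) (nat_lit 1) (nat_lit 4) (nat_lit 311) (nat_lit 206) (nat_lit 203)) (XT.nd (nat_lit 78) (nat_lit 0) (nat_lit 0) (XT.lf (nat_lit 0) (nat_lit 73031961745) (nat_lit 152) (nat_lit 180764193275) (nat_lit 0) (nat_lit 72565650910) (nat_lit 1) (nat_lit 5) (nat_lit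 3) (nat_lit 4) (nat_lit 1) (nat_lit 4) (nat_lit 312) (nat_lit 206) (nat_lit 202)) (XT.lf (nat_lit 0) (nat_lit 80589400450) (nat_lit 152) (nat_lit 191760035793) (nat_lit 0) (nat_lit 80027271026) (nat_lit 1) (nat_lit 5) (nat_lit 3) (nat_lit 4) (nat_lit 1) (nat_lit 4) (nat_lit 313) (nat_lit 206) (nat_lit 201))))) (XT.nd (nat_lit 156) (nat_lit 0) (nat_lit 0) (XT.nd (nat_lit 78) (nat_lit 0) (nat_lit 0) (XT.lf (nat_lit 0) (nat_lit 88670880767) (nat_lit 152) (nat_lit 203785971875) (nat_lit 0) (nat_lit 88020030428) (nat_lit 1) (nat_lit 5) (nat_lit 3) (nat_lit 4) (nat_lit 1) (nat_lit 4) (nat_lit 314) (nat_lit 206) (nat_lit 200)) (XT.lf (nat_lit 0) (nat_lit 97324292949) (nat_lit 152) (nat_lit 216913266327) (nat_lit 0) (nat_lit 96591293614) (nat_lit 1) (nat_lit 5) (nat_lit 3) (nat_lit 4) (nat_lit 1) (nat_lit 4) (nat_lit 315) (nat_lit 206) (nat_lit 199))) (XT.nd (nat_lit 78) (nat_lit 0) (nat_lit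 0) (XT.lf (nat_lit 0) (nat_lit 106600916476) (nat_lit 152) (nat_lit 231219710525) (nat_lit 0) (nat_lit 105791853256) (nat_lit 1) (nat_lit 5) (nat_lit 3) (nat_lit 4) (nat_lit 1) (nat_lit 4) (nat_lit 316) (nat_lit 206) (nat_lit 198)) (XT.nd (nat_lit 78) (nat_lit 0) (nat_lit 0) (XT.lf (nat_lit 0) (nat_lit 116555723931) (nat_lit 152) (nat_lit 246790083395) (nat_lit 0) (nat_lit 115676231188) (nat_lit 1) (nat_lit 5) (nat_lit 3) (nat_lit 4) (nat_lit 1) (nat_lit 4) (nat_lit 317) (nat_lit 206) (nat_lit 197)) (XT.lf (nat_lit 0) (nat_lit 127247706766) (nat_lit 152) (nat_lit 263716653815) (nat_lit 0) (nat_lit 126303001502) (nat_lit 1) (nat_lit 5) (nat_lit 3) (nat_lit 4) (nat_lit 1) (nat_lit 4) (nat_lit 318) (nat_lit 206) (nat_lit 196))))))) (XT.nd (nat_lit 36582) (nat_lit 0) (nat_lit 0) (XT.nd (nat_lit 312) (nat_lit 0) (nat_lit 0) (XT.nd (nat_lit 156) (nat_lit 0) (nat_lit 0) (XT.nd (nat_lit 78) (nat_lit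 0) (nat_lit 0) (XT.lf (nat_lit 0) (nat_lit 138740224880) (nat_lit 152) (nat_lit 282099727388) (nat_lit 0) (nat_lit 137735137652) (nat_lit 1) (nat_lit 5) (nat_lit 3) (nat_lit 4) (nat_lit 1) (nat_lit 4) (nat_lit 319) (nat_lit 206) (nat_lit 195)) (XT.lf (nat_lit 0) (nat_lit 151101382083) (nat_lit 152) (nat_lit 302048240844) (nat_lit 0) (nat_lit 150040385629) (nat_lit 1) (nat_lit 5) (nat_lit 3) (nat_lit 4) (nat_lit 1) (nat_lit 4) (nat_lit 320) (nat_lit 206) (nat_lit 194))) (XT.nd (nat_lit 78) (nat_lit 0) (nat_lit 0) (XT.lf (nat_lit 0) (nat_lit 164404429678) (nat_lit 152) (nat_lit 323680407599) (nat_lit 0) (nat_lit 163291665421) (nat_lit 1) (nat_lit 5) (nat_lit 3) (nat_lit 4) (nat_lit 1) (nat_lit 4) (nat_lit 321) (nat_lit 206) (nat_lit 193)) (XT.lf (nat_lit 0) (nat_lit 178728200539) (nat_lit 152) (nat_lit 347124418268) (nat_lit 0) (nat_lit 177567503132) (nat_lit 1) (nat_lit 5) (nat_lit 3)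 (nat_lit 4) (nat_lit 1) (nat_lit 4) (nat_lit 322) (nat_lit 206) (nat_lit 192)))) (XT.nd (nat_lit 156) (nat_lit 0) (nat_lit 0) (XT.nd (nat_lit 78) (nat_lit 0) (nat_lit 0) (XT.lf (nat_lit 0) (nat_lit 194157576271) (nat_lit 152) (nat_lit 372519200324) (nat_lit 0) (nat_lit 192952496318) (nat_lit 1) (nat_lit 5) (nat_lit 3) (nat_lit 4) (nat_lit 1) (nat_lit 4) (nat_lit 323) (nat_lit 206) (nat_lit 191)) (XT.lf (nat_lit 0) (nat_lit 210783990212) (nat_lit 152) (nat_lit 400015241362) (nat_lit 0) (nat_lit 209537815309) (nat_lit 1) (nat_lit 5) (nat_lit 3) (nat_lit 4) (nat_lit 1) (nat_lit 4) (nat_lit 324) (nat_lit 206) (nat_lit 190))) (XT.nd (nat_lit 78) (nat_lit 0) (nat_lit 0) (XT.lf (nat_lit 0) (nat_lit 228705969259) (nat_lit 152) (nat_lit 429775480887) (nat_lit 0) (nat_lit 227421743476) (nat_lit 1) (nat_lit 5) (nat_lit 3) (nat_lit 4) (nat_lit 1) (nat_lit 4) (nat_lit 325) (nat_lit 206) (nat_lit 189))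 (XT.nd (nat_lit 35958) (nat_lit 0) (nat_lit 0) (XT.lf (nat_lit 0) (nat_lit 248029717733) (nat_lit 152) (nat_lit 461976275872) (nat_lit 0) (nat_lit 246710259653) (nat_lit 1) (nat_lit 5) (nat_lit 3) (nat_lit 4) (nat_lit 1) (nat_lit 4) (nat_lit 326) (nat_lit 206) (nat_lit 188)) (XT.lf (nat_lit 0) (nat_lit 18285900270) (nat_lit 152) (nat_lit 66519383438) (nat_lit 0) (nat_lit 18285900270) (nat_lit 1) (nat_lit 5) (nat_lit 3) (nat_lit 4) (nat_lit 1) (nat_lit 4) (nat_lit 306) (nat_lit 207) (nat_lit 207)))))) (XT.nd (nat_lit 390) (nat_lit 0) (nat_lit 0) (XT.nd (nat_lit 156) (nat_lit 0) (nat_lit 0) (XT.nd (nat_lit 78) (nat_lit 0) (nat_lit 0) (XT.lf (nat_lit 0) (nat_lit 41773000292) (nat_lit 152) (nat_lit 139148722613) (nat_lit 0) (nat_lit 41632211349) (nat_lit 1) (nat_lit 5) (nat_lit 3) (nat_lit 4) (nat_lit 1) (nat_lit 4) (nat_lit 307) (nat_lit 207) (nat_lit 206)) (XT.lf (nat_lit 0) (nat_lit 47271936526)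 (nat_lit 152) (nat_lit 145968500192) (nat_lit 0) (nat_lit 47000787452) (nat_lit 1) (nat_lit 5) (nat_lit 3) (nat_lit 4) (nat_lit 1) (nat_lit 4) (nat_lit 308) (nat_lit 207) (nat_lit 205))) (XT.nd (nat_lit 78) (nat_lit 0) (nat_lit 0) (XT.lf (nat_lit 0) (nat_lit 53101195532) (nat_lit 152) (nat_lit 153538513110) (nat_lit 0) (nat_lit 52709342632) (nat_lit 1) (nat_lit 5) (nat_lit 3) (nat_lit 4) (nat_lit 1) (nat_lit 4) (nat_lit 309) (nat_lit 207) (nat_lit 204)) (XT.nd (nat_lit 78) (nat_lit 0) (nat_lit 0) (XT.lf (nat_lit 0) (nat_lit 59295321067) (nat_lit 152) (nat_lit 161903620704) (nat_lit 0) (nat_lit 58791705365) (nat_lit 1) (nat_lit 5) (nat_lit 3) (nat_lit 4) (nat_lit 1) (nat_lit 4) (nat_lit 310) (nat_lit 207) (nat_lit 203)) (XT.lf (nat_lit 0) (nat_lit 65891019059) (nat_lit 152) (nat_lit 171113393981) (nat_lit 0) (nat_lit 65283919281) (nat_lit 1) (nat_lit 5) (nat_lit 3) (nat_lit 4) (nat_lit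 1) (nat_lit 4) (nat_lit 311) (nat_lit 207) (nat_lit 202))))) (XT.nd (nat_lit 156) (nat_lit 0) (nat_lit 0) (XT.nd (nat_lit 78) (nat_lit 0) (nat_lit 0) (XT.lf (nat_lit 0) (nat_lit 72927375127) (nat_lit 152) (nat_lit 181222409376) (nat_lit 0) (nat_lit 72224456761) (nat_lit 1) (nat_lit 5) (nat_lit 3) (nat_lit 4) (nat_lit 1) (nat_lit 4) (nat_lit 312) (nat_lit 207) (nat_lit 201)) (XT.lf (nat_lit 0) (nat_lit 80446086196) (nat_lit 152) (nat_lit 192290572164) (nat_lit 0) (nat_lit 79654446914) (nat_lit 1) (nat_lit 5) (nat_lit 3) (nat_lit 4) (nat_lit 1) (nat_lit 4) (nat_lit 313) (nat_lit 207) (nat_lit 200))) (XT.nd (nat_lit 78) (nat_lit 0) (nat_lit 0) (XT.lf (nat_lit 0) (nat_lit 88491707589) (nat_lit 152) (nat_lit 204383471460) (nat_lit 0) (nat_lit 87617919312) (nat_lit 1) (nat_lit 5) (nat_lit 3) (nat_lit 4) (nat_lit 1) (nat_lit 4) (nat_lit 314) (nat_lit 207) (nat_lit 199)) (XT.nd (nat_lit 78) (nat_lit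 0) (nat_lit 0) (XT.lf (nat_lit 0) (nat_lit 97111917065) (nat_lit 152) (nat_lit 217572768887) (nat_lit 0) (nat_lit 96162064902) (nat_lit 1) (nat_lit 5) (nat_lit 3) (nat_lit 4) (nat_lit 1) (nat_lit 4) (nat_lit 315) (nat_lit 207) (nat_lit 198)) (XT.lf (nat_lit 0) (nat_lit 106357797344) (nat_lit 152) (nat_lit 231936623247) (nat_lit 0) (nat_lit 105337515659) (nat_lit 1) (nat_lit 5) (nat_lit 3) (nat_lit 4) (nat_lit 1) (nat_lit 4) (nat_lit 316) (nat_lit 207) (nat_lit 197))))))))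
noncomputable def xc3 : XT := (XT.nd (nat_lit 37206) (nat_lit 0) (nat_lit 0) (XT.nd (nat_lit 702) (nat_lit 0) (nat_lit 0) (XT.nd (nat_lit 312) (nat_lit 0) (nat_lit 0) (XT.nd (nat_lit 156) (nat_lit 0) (nat_lit 0) (XT.nd (nat_lit 78) (nat_lit 0) (nat_lit 0) (XT.lf (nat_lit 0) (nat_lit 116284138830) (nat_lit 152) (nat_lit 247560153675) (nat_lit 0) (nat_lit 115198644623) (nat_lit 1) (nat_lit 5) (nat_lit 3) (nat_lit 4) (nat_lit 1) (nat_lit 4) (nat_lit 317) (nat_lit 207) (nat_lit 196)) (XT.lf (nat_lit 0) (nat_lit 126949764287) (nat_lit 152) (nat_lit 264535944056) (nat_lit 0) (nat_lit 125803888115) (nat_lit 1) (nat_lit 5) (nat_lit 3) (nat_lit 4) (nat_lit 1) (nat_lit 4) (nat_lit 318) (nat_lit 207) (nat_lit 195))) (XT.nd (nat_lit 78) (nat_lit 0) (nat_lit 0) (XT.lf (nat_lit 0) (nat_lit 138417877420) (nat_lit 152) (nat_lit 282964591666) (nat_lit 0) (nat_lit 137216092023) (nat_lit 1) (nat_lit 5)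 (nat_lit 3) (nat_lit 4) (nat_lit 1) (nat_lit 4) (nat_lit 319) (nat_lit 207) (nat_lit 194)) (XT.lf (nat_lit 0) (nat_lit 150756437419) (nat_lit 152) (nat_lit 302955303306) (nat_lit 0) (nat_lit 149502884220) (nat_lit 1) (nat_lit 5) (nat_lit 3) (nat_lit 4) (nat_lit 1) (nat_lit 4) (nat_lit 320) (nat_lit 207) (nat_lit 193)))) (XT.nd (nat_lit 156) (nat_lit 0) (nat_lit 0) (XT.nd (nat_lit 78) (nat_lit 0) (nat_lit 0) (XT.lf (nat_lit 0) (nat_lit 164038561676) (nat_lit 152) (nat_lit 324626542452) (nat_lit 0) (nat_lit 162737075327) (nat_lit 1) (nat_lit 5) (nat_lit 3) (nat_lit 4) (nat_lit 1) (nat_lit 4) (nat_lit 321) (nat_lit 207) (nat_lit 192)) (XT.lf (nat_lit 0) (nat_lit 178342959077) (nat_lit 152) (nat_lit 348106731262) (nat_lit 0) (nat_lit 176997090181) (nat_lit 1) (nat_lit 5) (nat_lit 3) (nat_lit 4) (nat_lit 1) (nat_lit 4) (nat_lit 322) (nat_lit 207) (nat_lit 191))) (XT.nd (nat_lit 78) (nat_lit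 0) (nat_lit 0) (XT.lf (nat_lit 0) (nat_lit 193754396419) (nat_lit 152) (nat_lit 373535011596) (nat_lit 0) (nat_lit 192367432574) (nat_lit 1) (nat_lit 5) (nat_lit 3) (nat_lit 4) (nat_lit 1) (nat_lit 4) (nat_lit 323) (nat_lit 207) (nat_lit 190)) (XT.nd (nat_lit 78) (nat_lit 0) (nat_lit 0) (XT.lf (nat_lit 0) (nat_lit 210364200741) (nat_lit 152) (nat_lit 401062069559) (nat_lit 0) (nat_lit 208939186015) (nat_lit 1) (nat_lit 5) (nat_lit 3) (nat_lit 4) (nat_lit 1) (nat_lit 4) (nat_lit 324) (nat_lit 207) (nat_lit 189)) (XT.lf (nat_lit 0) (nat_lit 228270800510) (nat_lit 152) (nat_lit 430851028458) (nat_lit 0) (nat_lit 226810553488) (nat_lit 1) (nat_lit 5) (nat_lit 3) (nat_lit 4) (nat_lit 1) (nat_lit 4) (nat_lit 325) (nat_lit 207) (nat_lit 188)))))) (XT.nd (nat_lit 36114) (nat_lit 0) (nat_lit 0) (XT.nd (nat_lit 35880) (nat_lit 0) (nat_lit 0) (XT.nd (nat_lit 35802) (nat_lit 0) (nat_lit 0) (XT.lf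 (nat_lit 0) (nat_lit 247580308912) (nat_lit 152) (nat_lit 463078415457) (nat_lit 0) (nat_lit 246087439394) (nat_lit 1) (nat_lit 5) (nat_lit 3) (nat_lit 4) (nat_lit 1) (nat_lit 4) (nat_lit 326) (nat_lit 207) (nat_lit 187)) (XT.lf (nat_lit 0) (nat_lit 13579664463) (nat_lit 152) (nat_lit 61341769954) (nat_lit 0) (nat_lit 13579664463) (nat_lit 1) (nat_lit 5) (nat_lit 3) (nat_lit 4) (nat_lit 1) (nat_lit 4) (nat_lit 304) (nat_lit 208) (nat_lit 208))) (XT.nd (nat_lit 78) (nat_lit 0) (nat_lit 0) (XT.lf (nat_lit 0) (nat_lit 31789567405) (nat_lit 152) (nat_lit 127602425839) (nat_lit 0) (nat_lit 31637515347) (nat_lit 1) (nat_lit 5) (nat_lit 3) (nat_lit 4) (nat_lit 1) (nat_lit 4) (nat_lit 305) (nat_lit 208) (nat_lit 207)) (XT.nd (nat_lit 78) (nat_lit 0) (nat_lit 0) (XT.lf (nat_lit 0) (nat_lit 36662396706) (nat_lit 152) (nat_lit 133153530057) (nat_lit 0) (nat_lit 36369555705) (nat_lit 1) (nat_lit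 5) (nat_lit 3) (nat_lit 4) (nat_lit 1) (nat_lit 4) (nat_lit 306) (nat_lit 208) (nat_lit 206)) (XT.lf (nat_lit 0) (nat_lit 41806692853) (nat_lit 152) (nat_lit 139369747997) (nat_lit 0) (nat_lit 41383491720) (nat_lit 1) (nat_lit 5) (nat_lit 3) (nat_lit 4) (nat_lit 1) (nat_lit 4) (nat_lit 307) (nat_lit 208) (nat_lit 205))))) (XT.nd (nat_lit 156) (nat_lit 0) (nat_lit 0) (XT.nd (nat_lit 78) (nat_lit 0) (nat_lit 0) (XT.lf (nat_lit 0) (nat_lit 47252940564) (nat_lit 152) (nat_lit 146287916505) (nat_lit 0) (nat_lit 46709035606) (nat_lit 1) (nat_lit 5) (nat_lit 3) (nat_lit 4) (nat_lit 1) (nat_lit 4) (nat_lit 308) (nat_lit 208) (nat_lit 204)) (XT.lf (nat_lit 0) (nat_lit 53033413901) (nat_lit 152) (nat_lit 153949032136) (nat_lit 0) (nat_lit 52377746141) (nat_lit 1) (nat_lit 5) (nat_lit 3) (nat_lit 4) (nat_lit 1) (nat_lit 4) (nat_lit 309) (nat_lit 208) (nat_lit 203))) (XT.nd (nat_lit 78) (nat_lit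 0) (nat_lit 0) (XT.lf (nat_lit 0) (nat_lit 59182367520) (nat_lit 152) (nat_lit 162398494093) (nat_lit 0) (nat_lit 58423215684) (nat_lit 1) (nat_lit 5) (nat_lit 3) (nat_lit 4) (nat_lit 1) (nat_lit 4) (nat_lit 310) (nat_lit 208) (nat_lit 202)) (XT.nd (nat_lit 78) (nat_lit 0) (nat_lit 0) (XT.lf (nat_lit 0) (nat_lit 65736239664) (nat_lit 152) (nat_lit 171686373262) (nat_lit 0) (nat_lit 64881269240) (nat_lit 1) (nat_lit 5) (nat_lit 3) (nat_lit 4) (nat_lit 1) (nat_lit 4) (nat_lit 311) (nat_lit 208) (nat_lit 201)) (XT.lf (nat_lit 0) (nat_lit 72733868095) (nat_lit 152) (nat_lit 181867708927) (nat_lit 0) (nat_lit 71790176756) (nat_lit 1) (nat_lit 5) (nat_lit 3) (nat_lit 4) (nat_lit 1) (nat_lit 4) (nat_lit 312) (nat_lit 208) (nat_lit 200))))))) (XT.nd (nat_lit 780) (nat_lit 0) (nat_lit 0) (XT.nd (nat_lit 390) (nat_lit 0) (nat_lit 0) (XT.nd (nat_lit 156) (nat_lit 0) (nat_lit 0) (XT.nd (nat_lit 78)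 (nat_lit 0) (nat_lit 0) (XT.lf (nat_lit 0) (nat_lit 80216720241) (nat_lit 152) (nat_lit 193002834929) (nat_lit 0) (nat_lit 79190879905) (nat_lit 1) (nat_lit 5) (nat_lit 3) (nat_lit 4) (nat_lit 1) (nat_lit 4) (nat_lit 313) (nat_lit 208) (nat_lit 199)) (XT.lf (nat_lit 0) (nat_lit 88229138927) (nat_lit 152) (nat_lit 205157737200) (nat_lit 0) (nat_lit 87127234707) (nat_lit 1) (nat_lit 5) (nat_lit 3) (nat_lit 4) (nat_lit 1) (nat_lit 4) (nat_lit 314) (nat_lit 208) (nat_lit 198))) (XT.nd (nat_lit 78) (nat_lit 0) (nat_lit 0) (XT.lf (nat_lit 0) (nat_lit 96818605156) (nat_lit 152) (nat_lit 218404444790) (nat_lit 0) (nat_lit 95646271412) (nat_lit 1) (nat_lit 5) (nat_lit 3) (nat_lit 4) (nat_lit 1) (nat_lit 4) (nat_lit 315) (nat_lit 208) (nat_lit 197)) (XT.nd (nat_lit 78) (nat_lit 0) (nat_lit 0) (XT.lf (nat_lit 0) (nat_lit 106036019466) (nat_lit 152) (nat_lit 232821456707) (nat_lit 0) (nat_lit 104798473201)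 (nat_lit 1) (nat_lit 5) (nat_lit 3) (nat_lit 4) (nat_lit 1) (nat_lit 4) (nat_lit 316) (nat_lit 208) (nat_lit 196)) (XT.lf (nat_lit 0) (nat_lit 115936003573) (nat_lit 152) (nat_lit 248494207096) (nat_lit 0) (nat_lit 114638075344) (nat_lit 1) (nat_lit 5) (nat_lit 3) (nat_lit 4) (nat_lit 1) (nat_lit 4) (nat_lit 317) (nat_lit 208) (nat_lit 195))))) (XT.nd (nat_lit 156) (nat_lit 0) (nat_lit 0) (XT.nd (nat_lit 78) (nat_lit 0) (nat_lit 0) (XT.lf (nat_lit 0) (nat_lit 126577224049) (nat_lit 152) (nat_lit 265515571515) (nat_lit 0) (nat_lit 125223386594) (nat_lit 1) (nat_lit 5) (nat_lit 3) (nat_lit 4) (nat_lit 1) (nat_lit 4) (nat_lit 318) (nat_lit 208) (nat_lit 194)) (XT.lf (nat_lit 0) (nat_lit 138022739978) (nat_lit 152) (nat_lit 283986417308) (nat_lit 0) (nat_lit 136617134721) (nat_lit 1) (nat_lit 5) (nat_lit 3) (nat_lit 4) (nat_lit 1) (nat_lit 4) (nat_lit 319) (nat_lit 208) (nat_lit 193))) (XT.nd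 (nat_lit 78) (nat_lit 0) (nat_lit 0) (XT.lf (nat_lit 0) (nat_lit 150340376640) (nat_lit 152) (nat_lit 304016201340) (nat_lit 0) (nat_lit 148886838233) (nat_lit 1) (nat_lit 5) (nat_lit 3) (nat_lit 4) (nat_lit 1) (nat_lit 4) (nat_lit 320) (nat_lit 208) (nat_lit 192)) (XT.nd (nat_lit 78) (nat_lit 0) (nat_lit 0) (XT.lf (nat_lit 0) (nat_lit 163603127437) (nat_lit 152) (nat_lit 325723618627) (nat_lit 0) (nat_lit 162105206483) (nat_lit 1) (nat_lit 5) (nat_lit 3) (nat_lit 4) (nat_lit 1) (nat_lit 4) (nat_lit 321) (nat_lit 208) (nat_lit 191)) (XT.lf (nat_lit 0) (nat_lit 177889586448) (nat_lit 152) (nat_lit 349237305715) (nat_lit 0) (nat_lit 176350570544) (nat_lit 1) (nat_lit 5) (nat_lit 3) (nat_lit 4) (nat_lit 1) (nat_lit 4) (nat_lit 322) (nat_lit 208) (nat_lit 190)))))) (XT.nd (nat_lit 35958) (nat_lit 0) (nat_lit 0) (XT.nd (nat_lit 156) (nat_lit 0) (nat_lit 0) (XT.nd (nat_lit 78) (nat_lit 0) (nat_lit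 0) (XT.lf (nat_lit 0) (nat_lit 193284414171) (nat_lit 152) (nat_lit 374696602973) (nat_lit 0) (nat_lit 191707347387) (nat_lit 1) (nat_lit 5) (nat_lit 3) (nat_lit 4) (nat_lit 1) (nat_lit 4) (nat_lit 323) (nat_lit 208) (nat_lit 189)) (XT.lf (nat_lit 0) (nat_lit 209878839214) (nat_lit 152) (nat_lit 402252380311) (nat_lit 0) (nat_lit 208266540135) (nat_lit 1) (nat_lit 5) (nat_lit 3) (nat_lit 4) (nat_lit 1) (nat_lit 4) (nat_lit 324) (nat_lit 208) (nat_lit 188))) (XT.nd (nat_lit 78) (nat_lit 0) (nat_lit 0) (XT.lf (nat_lit 0) (nat_lit 227771198912) (nat_lit 152) (nat_lit 432067931223) (nat_lit 0) (nat_lit 226126277336) (nat_lit 1) (nat_lit 5) (nat_lit 3) (nat_lit 4) (nat_lit 1) (nat_lit 4) (nat_lit 325) (nat_lit 208) (nat_lit 187)) (XT.nd (nat_lit 35646) (nat_lit 0) (nat_lit 0) (XT.lf (nat_lit 0) (nat_lit 247067522063) (nat_lit 152) (nat_lit 464319940456) (nat_lit 0) (nat_lit 245392394471) (nat_lit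 1) (nat_lit 5) (nat_lit 3) (nat_lit 4) (nat_lit 1) (nat_lit 4) (nat_lit 326) (nat_lit 208) (nat_lit 186)) (XT.lf (nat_lit 0) (nat_lit 9377021992) (nat_lit 152) (nat_lit 57247770537) (nat_lit 0) (nat_lit 9377021992) (nat_lit 1) (nat_lit 5) (nat_lit 3) (nat_lit 4) (nat_lit 1) (nat_lit 4) (nat_lit 302) (nat_lit 209) (nat_lit 209))))) (XT.nd (nat_lit 156) (nat_lit 0) (nat_lit 0) (XT.nd (nat_lit 78) (nat_lit 0) (nat_lit 0) (XT.lf (nat_lit 0) (nat_lit 22908459041) (nat_lit 152) (nat_lit 118367723315) (nat_lit 0) (nat_lit 22744242818) (nat_lit 1) (nat_lit 5) (nat_lit 3) (nat_lit 4) (nat_lit 1) (nat_lit 4) (nat_lit 303) (nat_lit 209) (nat_lit 208)) (XT.lf (nat_lit 0) (nat_lit 27257172785) (nat_lit 152) (nat_lit 122807484144) (nat_lit 0) (nat_lit 26940904504) (nat_lit 1) (nat_lit 5) (nat_lit 3) (nat_lit 4) (nat_lit 1) (nat_lit 4) (nat_lit 304) (nat_lit 209) (nat_lit 207))) (XT.nd (nat_lit 78)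 (nat_lit 0) (nat_lit 0) (XT.lf (nat_lit 0) (nat_lit 31825955371) (nat_lit 152) (nat_lit 127841133253) (nat_lit 0) (nat_lit 31368898148) (nat_lit 1) (nat_lit 5) (nat_lit 3) (nat_lit 4) (nat_lit 1) (nat_lit 4) (nat_lit 305) (nat_lit 209) (nat_lit 206)) (XT.nd (nat_lit 78) (nat_lit 0) (nat_lit 0) (XT.lf (nat_lit 0) (nat_lit 36641881067) (nat_lit 152) (nat_lit 133498499676) (nat_lit 0) (nat_lit 36054463712) (nat_lit 1) (nat_lit 5) (nat_lit 3) (nat_lit 4) (nat_lit 1) (nat_lit 4) (nat_lit 306) (nat_lit 209) (nat_lit 205)) (XT.lf (nat_lit 0) (nat_lit 41733488691) (nat_lit 152) (nat_lit 139813108545) (nat_lit 0) (nat_lit 41025367510) (nat_lit 1) (nat_lit 5) (nat_lit 3) (nat_lit 4) (nat_lit 1) (nat_lit 4) (nat_lit 307) (nat_lit 209) (nat_lit 204))))))))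
noncomputable def xc4 : XT := (XT.nd (nat_lit 36894) (nat_lit 0) (nat_lit 0) (XT.nd (nat_lit 702) (nat_lit 0) (nat_lit 0) (XT.nd (nat_lit 312) (nat_lit 0) (nat_lit 0) (XT.nd (nat_lit 156) (nat_lit 0) (nat_lit 0) (XT.nd (nat_lit 78) (nat_lit 0) (nat_lit 0) (XT.lf (nat_lit 0) (nat_lit 47130950734) (nat_lit 152) (nat_lit 146822379766) (nat_lit 0) (nat_lit 46311066751) (nat_lit 1) (nat_lit 5) (nat_lit 3) (nat_lit 4) (nat_lit 1) (nat_lit 4) (nat_lit 308) (nat_lit 209) (nat_lit 203)) (XT.lf (nat_lit 0) (nat_lit 52866252155) (nat_lit 152) (nat_lit 154567849760) (nat_lit 0) (nat_lit 51942884096) (nat_lit 1) (nat_lit 5) (nat_lit 3) (nat_lit 4) (nat_lit 1) (nat_lit 4) (nat_lit 309) (nat_lit 209) (nat_lit 202))) (XT.nd (nat_lit 78) (nat_lit 0) (nat_lit 0) (XT.lf (nat_lit 0) (nat_lit 58973379925) (nat_lit 152) (nat_lit 163095417609) (nat_lit 0) (nat_lit 57954193278) (nat_lit 1) (nat_lit 5) (nat_lit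 3) (nat_lit 4) (nat_lit 1) (nat_lit 4) (nat_lit 310) (nat_lit 209) (nat_lit 201)) (XT.lf (nat_lit 0) (nat_lit 65488524433) (nat_lit 152) (nat_lit 172455617049) (nat_lit 0) (nat_lit 64380616870) (nat_lit 1) (nat_lit 5) (nat_lit 3) (nat_lit 4) (nat_lit 1) (nat_lit 4) (nat_lit 311) (nat_lit 209) (nat_lit 200)))) (XT.nd (nat_lit 156) (nat_lit 0) (nat_lit 0) (XT.nd (nat_lit 78) (nat_lit 0) (nat_lit 0) (XT.lf (nat_lit 0) (nat_lit 72450293941) (nat_lit 152) (nat_lit 182703915927) (nat_lit 0) (nat_lit 71260237383) (nat_lit 1) (nat_lit 5) (nat_lit 3) (nat_lit 4) (nat_lit 1) (nat_lit 4) (nat_lit 312) (nat_lit 209) (nat_lit 199)) (XT.lf (nat_lit 0) (nat_lit 79899943379) (nat_lit 152) (nat_lit 193901044904) (nat_lit 0) (nat_lit 78633822936) (nat_lit 1) (nat_lit 5) (nat_lit 3) (nat_lit 4) (nat_lit 1) (nat_lit 4) (nat_lit 313) (nat_lit 209) (nat_lit 198))) (XT.nd (nat_lit 78) (nat_lit 0) (nat_lit 0)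 (XT.lf (nat_lit 0) (nat_lit 87881618819) (nat_lit 152) (nat_lit 206113357337) (nat_lit 0) (nat_lit 86545068853) (nat_lit 1) (nat_lit 5) (nat_lit 3) (nat_lit 4) (nat_lit 1) (nat_lit 4) (nat_lit 314) (nat_lit 209) (nat_lit 197)) (XT.nd (nat_lit 78) (nat_lit 0) (nat_lit 0) (XT.lf (nat_lit 0) (nat_lit 96442619078) (nat_lit 152) (nat_lit 219413222485) (nat_lit 0) (nat_lit 95040856591) (nat_lit 1) (nat_lit 5) (nat_lit 3) (nat_lit 4) (nat_lit 1) (nat_lit 4) (nat_lit 315) (nat_lit 209) (nat_lit 196)) (XT.lf (nat_lit 0) (nat_lit 105633676010) (nat_lit 152) (nat_lit 233879454363) (nat_lit 0) (nat_lit 104171531558) (nat_lit 1) (nat_lit 5) (nat_lit 3) (nat_lit 4) (nat_lit 1) (nat_lit 4) (nat_lit 316) (nat_lit 209) (nat_lit 195)))))) (XT.nd (nat_lit 390) (nat_lit 0) (nat_lit 0) (XT.nd (nat_lit 156) (nat_lit 0) (nat_lit 0) (XT.nd (nat_lit 78) (nat_lit 0) (nat_lit 0) (XT.lf (nat_lit 0) (nat_lit 115509255136)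 (nat_lit 152) (nat_lit 249597778790) (nat_lit 0) (nat_lit 113991201458) (nat_lit 1) (nat_lit 5) (nat_lit 3) (nat_lit 4) (nat_lit 1) (nat_lit 4) (nat_lit 317) (nat_lit 209) (nat_lit 194)) (XT.lf (nat_lit 0) (nat_lit 126127878407) (nat_lit 152) (nat_lit 266661341392) (nat_lit 0) (nat_lit 124558056928) (nat_lit 1) (nat_lit 5) (nat_lit 3) (nat_lit 4) (nat_lit 1) (nat_lit 4) (nat_lit 318) (nat_lit 209) (nat_lit 193))) (XT.nd (nat_lit 78) (nat_lit 0) (nat_lit 0) (XT.lf (nat_lit 0) (nat_lit 137552470999) (nat_lit 152) (nat_lit 285171259577) (nat_lit 0) (nat_lit 135934716369) (nat_lit 1) (nat_lit 5) (nat_lit 3) (nat_lit 4) (nat_lit 1) (nat_lit 4) (nat_lit 319) (nat_lit 209) (nat_lit 192)) (XT.nd (nat_lit 78) (nat_lit 0) (nat_lit 0) (XT.lf (nat_lit 0) (nat_lit 149850734200) (nat_lit 152) (nat_lit 305237221749) (nat_lit 0) (nat_lit 148188597024) (nat_lit 1) (nat_lit 5) (nat_lit 3) (nat_lit 4) (nat_lit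 1) (nat_lit 4) (nat_lit 320) (nat_lit 209) (nat_lit 191)) (XT.lf (nat_lit 0) (nat_lit 163095546608) (nat_lit 152) (nat_lit 326978137314) (nat_lit 0) (nat_lit 161392314482) (nat_lit 1) (nat_lit 5) (nat_lit 3) (nat_lit 4) (nat_lit 1) (nat_lit 4) (nat_lit 321) (nat_lit 209) (nat_lit 190))))) (XT.nd (nat_lit 156) (nat_lit 0) (nat_lit 0) (XT.nd (nat_lit 78) (nat_lit 0) (nat_lit 0) (XT.lf (nat_lit 0) (nat_lit 177365396000) (nat_lit 152) (nat_lit 350522841327) (nat_lit 0) (nat_lit 175624112993) (nat_lit 1) (nat_lit 5) (nat_lit 3) (nat_lit 4) (nat_lit 1) (nat_lit 4) (nat_lit 322) (nat_lit 209) (nat_lit 189)) (XT.lf (nat_lit 0) (nat_lit 192744844445) (nat_lit 152) (nat_lit 376010857959) (nat_lit 0) (nat_lit 190968329143) (nat_lit 1) (nat_lit 5) (nat_lit 3) (nat_lit 4) (nat_lit 1) (nat_lit 4) (nat_lit 323) (nat_lit 209) (nat_lit 188))) (XT.nd (nat_lit 78) (nat_lit 0) (nat_lit 0) (XT.lf (nat_lit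 0) (nat_lit 209325029417) (nat_lit 152) (nat_lit 403593227310) (nat_lit 0) (nat_lit 207515891618) (nat_lit 1) (nat_lit 5) (nat_lit 3) (nat_lit 4) (nat_lit 1) (nat_lit 4) (nat_lit 324) (nat_lit 209) (nat_lit 187)) (XT.nd (nat_lit 78) (nat_lit 0) (nat_lit 0) (XT.lf (nat_lit 0) (nat_lit 227204203863) (nat_lit 152) (nat_lit 433433400457) (nat_lit 0) (nat_lit 225364860049) (nat_lit 1) (nat_lit 5) (nat_lit 3) (nat_lit 4) (nat_lit 1) (nat_lit 4) (nat_lit 325) (nat_lit 209) (nat_lit 186)) (XT.lf (nat_lit 0) (nat_lit 246488318447) (nat_lit 152) (nat_lit 465708208056) (nat_lit 0) (nat_lit 244621006100) (nat_lit 1) (nat_lit 5) (nat_lit 3) (nat_lit 4) (nat_lit 1) (nat_lit 4) (nat_lit 326) (nat_lit 209) (nat_lit 185))))))) (XT.nd (nat_lit 702) (nat_lit 0) (nat_lit 0) (XT.nd (nat_lit 312) (nat_lit 0) (nat_lit 0) (XT.nd (nat_lit 156) (nat_lit 0) (nat_lit 0) (XT.nd (nat_lit 78) (nat_lit 0) (nat_lit 0)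 (XT.lf (nat_lit 0) (nat_lit 5592705332) (nat_lit 152) (nat_lit 54110393093) (nat_lit 0) (nat_lit 5592705332) (nat_lit 1) (nat_lit 5) (nat_lit 3) (nat_lit 4) (nat_lit 1) (nat_lit 4) (nat_lit 300) (nat_lit 210) (nat_lit 210)) (XT.lf (nat_lit 0) (nat_lit 14946662379) (nat_lit 152) (nat_lit 111167991154) (nat_lit 0) (nat_lit 14769308858) (nat_lit 1) (nat_lit 5) (nat_lit 3) (nat_lit 4) (nat_lit 1) (nat_lit 4) (nat_lit 301) (nat_lit 210) (nat_lit 209))) (XT.nd (nat_lit 78) (nat_lit 0) (nat_lit 0) (XT.lf (nat_lit 0) (nat_lit 18859715351) (nat_lit 152) (nat_lit 114629400847) (nat_lit 0) (nat_lit 18518145608) (nat_lit 1) (nat_lit 5) (nat_lit 3) (nat_lit 4) (nat_lit 1) (nat_lit 4) (nat_lit 302) (nat_lit 210) (nat_lit 208)) (XT.lf (nat_lit 0) (nat_lit 22947758044) (nat_lit 152) (nat_lit 118625527323) (nat_lit 0) (nat_lit 22454136243) (nat_lit 1) (nat_lit 5) (nat_lit 3) (nat_lit 4) (nat_lit 1) (nat_lit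 4) (nat_lit 303) (nat_lit 210) (nat_lit 207)))) (XT.nd (nat_lit 156) (nat_lit 0) (nat_lit 0) (XT.nd (nat_lit 78) (nat_lit 0) (nat_lit 0) (XT.lf (nat_lit 0) (nat_lit 27235015895) (nat_lit 152) (nat_lit 123180051332) (nat_lit 0) (nat_lit 26600605151) (nat_lit 1) (nat_lit 5) (nat_lit 3) (nat_lit 4) (nat_lit 1) (nat_lit 4) (nat_lit 304) (nat_lit 210) (nat_lit 206)) (XT.lf (nat_lit 0) (nat_lit 31746894876) (nat_lit 152) (nat_lit 128319962645) (nat_lit 0) (nat_lit 30982124001) (nat_lit 1) (nat_lit 5) (nat_lit 3) (nat_lit 4) (nat_lit 1) (nat_lit 4) (nat_lit 305) (nat_lit 210) (nat_lit 205))) (XT.nd (nat_lit 78) (nat_lit 0) (nat_lit 0) (XT.lf (nat_lit 0) (nat_lit 36510132049) (nat_lit 152) (nat_lit 134075719997) (nat_lit 0) (nat_lit 35624657348) (nat_lit 1) (nat_lit 5) (nat_lit 3) (nat_lit 4) (nat_lit 1) (nat_lit 4) (nat_lit 306) (nat_lit 210) (nat_lit 204)) (XT.nd (nat_lit 78) (nat_lit 0) (nat_lit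 0) (XT.lf (nat_lit 0) (nat_lit 41552954005) (nat_lit 152) (nat_lit 140481431579) (nat_lit 0) (nat_lit 40555716502) (nat_lit 1) (nat_lit 5) (nat_lit 3) (nat_lit 4) (nat_lit 1) (nat_lit 4) (nat_lit 307) (nat_lit 210) (nat_lit 203)) (XT.lf (nat_lit 0) (nat_lit 46905244131) (nat_lit 152) (nat_lit 147575057163) (nat_lit 0) (nat_lit 45804522553) (nat_lit 1) (nat_lit 5) (nat_lit 3) (nat_lit 4) (nat_lit 1) (nat_lit 4) (nat_lit 308) (nat_lit 210) (nat_lit 202)))))) (XT.nd (nat_lit 390) (nat_lit 0) (nat_lit 0) (XT.nd (nat_lit 156) (nat_lit 0) (nat_lit 0) (XT.nd (nat_lit 78) (nat_lit 0) (nat_lit 0) (XT.lf (nat_lit 0) (nat_lit 52598719704) (nat_lit 152) (nat_lit 155398633049) (nat_lit 0) (nat_lit 51402179537) (nat_lit 1) (nat_lit 5) (nat_lit 3) (nat_lit 4) (nat_lit 1) (nat_lit 4) (nat_lit 309) (nat_lit 210) (nat_lit 201)) (XT.lf (nat_lit 0) (nat_lit 58667119838) (nat_lit 152) (nat_lit 163998521168)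 (nat_lit 0) (nat_lit 57381858755) (nat_lit 1) (nat_lit 5) (nat_lit 3) (nat_lit 4) (nat_lit 1) (nat_lit 4) (nat_lit 310) (nat_lit 210) (nat_lit 200))) (XT.nd (nat_lit 78) (nat_lit 0) (nat_lit 0) (XT.lf (nat_lit 0) (nat_lit 65146405422) (nat_lit 152) (nat_lit 173425683821) (nat_lit 0) (nat_lit 63778995344) (nat_lit 1) (nat_lit 5) (nat_lit 3) (nat_lit 4) (nat_lit 1) (nat_lit 4) (nat_lit 311) (nat_lit 210) (nat_lit 199)) (XT.nd (nat_lit 78) (nat_lit 0) (nat_lit 0) (XT.lf (nat_lit 0) (nat_lit 72074972223) (nat_lit 152) (nat_lit 183735985675) (nat_lit 0) (nat_lit 70631498260) (nat_lit 1) (nat_lit 5) (nat_lit 3) (nat_lit 4) (nat_lit 1) (nat_lit 4) (nat_lit 312) (nat_lit 210) (nat_lit 198)) (XT.lf (nat_lit 0) (nat_lit 79493878415) (nat_lit 152) (nat_lit 194990524814) (nat_lit 0) (nat_lit 77979974929) (nat_lit 1) (nat_lit 5) (nat_lit 3) (nat_lit 4) (nat_lit 1) (nat_lit 4) (nat_lit 313) (nat_lit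 210) (nat_lit 197))))) (XT.nd (nat_lit 156) (nat_lit 0) (nat_lit 0) (XT.nd (nat_lit 78) (nat_lit 0) (nat_lit 0) (XT.lf (nat_lit 0) (nat_lit 87447087886) (nat_lit 152) (nat_lit 207255994805) (nat_lit 0) (nat_lit 85867971878) (nat_lit 1) (nat_lit 5) (nat_lit 3) (nat_lit 4) (nat_lit 1) (nat_lit 4) (nat_lit 314) (nat_lit 210) (nat_lit 196)) (XT.lf (nat_lit 0) (nat_lit 95981730766) (nat_lit 152) (nat_lit 220605079914) (nat_lit 0) (nat_lit 94342232794) (nat_lit 1) (nat_lit 5) (nat_lit 3) (nat_lit 4) (nat_lit 1) (nat_lit 4) (nat_lit 315) (nat_lit 210) (nat_lit 195))) (XT.nd (nat_lit 78) (nat_lit 0) (nat_lit 0) (XT.lf (nat_lit 0) (nat_lit 105148382717) (nat_lit 152) (nat_lit 235116885829) (nat_lit 0) (nat_lit 103452975519) (nat_lit 1) (nat_lit 5) (nat_lit 3) (nat_lit 4) (nat_lit 1) (nat_lit 4) (nat_lit 316) (nat_lit 210) (nat_lit 194)) (XT.nd (nat_lit 78) (nat_lit 0) (nat_lit 0) (XT.lf (nat_lit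 0) (nat_lit 115001364639) (nat_lit 152) (nat_lit 250877408439) (nat_lit 0) (nat_lit 113254189639) (nat_lit 1) (nat_lit 5) (nat_lit 3) (nat_lit 4) (nat_lit 1) (nat_lit 4) (nat_lit 317) (nat_lit 210) (nat_lit 193)) (XT.lf (nat_lit 0) (nat_lit 125599064573) (nat_lit 152) (nat_lit 267980043433) (nat_lit 0) (nat_lit 123803956423) (nat_lit 1) (nat_lit 5) (nat_lit 3) (nat_lit 4) (nat_lit 1) (nat_lit 4) (nat_lit 318) (nat_lit 210) (nat_lit 192))))))))
noncomputable def xc5 : XT := (XT.nd (nat_lit 36738) (nat_lit 0) (nat_lit 0) (XT.nd (nat_lit 35958) (nat_lit 0) (nat_lit 0) (XT.nd (nat_lit 312) (nat_lit 0) (nat_lit 0) (XT.nd (nat_lit 156) (nat_lit 0) (nat_lit 0) (XT.nd (nat_lit 78) (nat_lit 0) (nat_lit 0) (XT.lf (nat_lit 0) (nat_lit 137004283704) (nat_lit 152) (nat_lit 286526139759) (nat_lit 0) (nat_lit 135164793008) (nat_lit 1) (nat_lit 5) (nat_lit 3) (nat_lit 4) (nat_lit 1) (nat_lit 4) (nat_lit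 319) (nat_lit 210) (nat_lit 191)) (XT.lf (nat_lit 0) (nat_lit 149284608516) (nat_lit 152) (nat_lit 306625600209) (nat_lit 0) (nat_lit 147404022870) (nat_lit 1) (nat_lit 5) (nat_lit 3) (nat_lit 4) (nat_lit 1) (nat_lit 4) (nat_lit 320) (nat_lit 210) (nat_lit 190))) (XT.nd (nat_lit 78) (nat_lit 0) (nat_lit 0) (XT.lf (nat_lit 0) (nat_lit 162512811304) (nat_lit 152) (nat_lit 328397532699) (nat_lit 0) (nat_lit 160594174778) (nat_lit 1) (nat_lit 5) (nat_lit 3) (nat_lit 4) (nat_lit 1) (nat_lit 4) (nat_lit 321) (nat_lit 210) (nat_lit 189)) (XT.lf (nat_lit 0) (nat_lit 176767281418) (nat_lit 152) (nat_lit 351970956086) (nat_lit 0) (nat_lit 174813412596) (nat_lit 1) (nat_lit 5) (nat_lit 3) (nat_lit 4) (nat_lit 1) (nat_lit 4) (nat_lit 322) (nat_lit 210) (nat_lit 188)))) (XT.nd (nat_lit 156) (nat_lit 0) (nat_lit 0) (XT.nd (nat_lit 78) (nat_lit 0) (nat_lit 0) (XT.lf (nat_lit 0) (nat_lit 192132489792)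 (nat_lit 152) (nat_lit 377485564732) (nat_lit 0) (nat_lit 190145998473) (nat_lit 1) (nat_lit 5) (nat_lit 3) (nat_lit 4) (nat_lit 1) (nat_lit 4) (nat_lit 323) (nat_lit 210) (nat_lit 187)) (XT.lf (nat_lit 0) (nat_lit 208699489512) (nat_lit 152) (nat_lit 405092556317) (nat_lit 0) (nat_lit 206682792178) (nat_lit 1) (nat_lit 5) (nat_lit 3) (nat_lit 4) (nat_lit 1) (nat_lit 4) (nat_lit 324) (nat_lit 210) (nat_lit 186))) (XT.nd (nat_lit 78) (nat_lit 0) (nat_lit 0) (XT.lf (nat_lit 0) (nat_lit 226566455392) (nat_lit 152) (nat_lit 434955527829) (nat_lit 0) (nat_lit 224521789525) (nat_lit 1) (nat_lit 5) (nat_lit 3) (nat_lit 4) (nat_lit 1) (nat_lit 4) (nat_lit 325) (nat_lit 210) (nat_lit 185)) (XT.nd (nat_lit 35334) (nat_lit 0) (nat_lit 0) (XT.lf (nat_lit 0) (nat_lit 245839265748) (nat_lit 152) (nat_lit 467251445026) (nat_lit 0) (nat_lit 243768703091) (nat_lit 1) (nat_lit 5) (nat_lit 3) (nat_lit 4)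 (nat_lit 1) (nat_lit 4) (nat_lit 326) (nat_lit 210) (nat_lit 184)) (XT.lf (nat_lit 0) (nat_lit 2152537380) (nat_lit 152) (nat_lit 51822970180) (nat_lit 0) (nat_lit 2152537380) (nat_lit 1) (nat_lit 5) (nat_lit 3) (nat_lit 4) (nat_lit 1) (nat_lit 4) (nat_lit 298) (nat_lit 211) (nat_lit 211)))))) (XT.nd (nat_lit 390) (nat_lit 0) (nat_lit 0) (XT.nd (nat_lit 156) (nat_lit 0) (nat_lit 0) (XT.nd (nat_lit 78) (nat_lit 0) (nat_lit 0) (XT.lf (nat_lit 0) (nat_lit 7745213111) (nat_lit 152) (nat_lit 105770321027) (nat_lit 0) (nat_lit 7553671309) (nat_lit 1) (nat_lit 5) (nat_lit 3) (nat_lit 4) (nat_lit 1) (nat_lit 4) (nat_lit 299) (nat_lit 211) (nat_lit 210)) (XT.lf (nat_lit 0) (nat_lit 11299535741) (nat_lit 152) (nat_lit 108365354742) (nat_lit 0) (nat_lit 10930640419) (nat_lit 1) (nat_lit 5) (nat_lit 3) (nat_lit 4) (nat_lit 1) (nat_lit 4) (nat_lit 300) (nat_lit 211) (nat_lit 209))) (XT.nd (nat_lit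 78) (nat_lit 0) (nat_lit 0) (XT.lf (nat_lit 0) (nat_lit 14989105302) (nat_lit 152) (nat_lit 111446419483) (nat_lit 0) (nat_lit 14455993757) (nat_lit 1) (nat_lit 5) (nat_lit 3) (nat_lit 4) (nat_lit 1) (nat_lit 4) (nat_lit 301) (nat_lit 211) (nat_lit 208)) (XT.nd (nat_lit 78) (nat_lit 0) (nat_lit 0) (XT.lf (nat_lit 0) (nat_lit 18835785910) (nat_lit 152) (nat_lit 115031773410) (nat_lit 0) (nat_lit 18150622307) (nat_lit 1) (nat_lit 5) (nat_lit 3) (nat_lit 4) (nat_lit 1) (nat_lit 4) (nat_lit 302) (nat_lit 211) (nat_lit 207)) (XT.lf (nat_lit 0) (nat_lit 22862372710) (nat_lit 152) (nat_lit 119142663066) (nat_lit 0) (nat_lit 22036420164) (nat_lit 1) (nat_lit 5) (nat_lit 3) (nat_lit 4) (nat_lit 1) (nat_lit 4) (nat_lit 303) (nat_lit 211) (nat_lit 206))))) (XT.nd (nat_lit 156) (nat_lit 0) (nat_lit 0) (XT.nd (nat_lit 78) (nat_lit 0) (nat_lit 0) (XT.lf (nat_lit 0) (nat_lit 27092726956) (nat_lit 152)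 (nat_lit 123803449279) (nat_lit 0) (nat_lit 26136414279) (nat_lit 1) (nat_lit 5) (nat_lit 3) (nat_lit 4) (nat_lit 1) (nat_lit 4) (nat_lit 304) (nat_lit 211) (nat_lit 205)) (XT.lf (nat_lit 0) (nat_lit 31551917415) (nat_lit 152) (nat_lit 129041751521) (nat_lit 0) (nat_lit 30474900912) (nat_lit 1) (nat_lit 5) (nat_lit 3) (nat_lit 4) (nat_lit 1) (nat_lit 4) (nat_lit 305) (nat_lit 211) (nat_lit 204))) (XT.nd (nat_lit 78) (nat_lit 0) (nat_lit 0) (XT.lf (nat_lit 0) (nat_lit 36266368919) (nat_lit 152) (nat_lit 134888611586) (nat_lit 0) (nat_lit 35077589614) (nat_lit 1) (nat_lit 5) (nat_lit 3) (nat_lit 4) (nat_lit 1) (nat_lit 4) (nat_lit 306) (nat_lit 211) (nat_lit 203)) (XT.nd (nat_lit 78) (nat_lit 0) (nat_lit 0) (XT.lf (nat_lit 0) (nat_lit 41264018959) (nat_lit 152) (nat_lit 141378677531) (nat_lit 0) (nat_lit 39971755578) (nat_lit 1) (nat_lit 5) (nat_lit 3) (nat_lit 4) (nat_lit 1) (nat_lit 4)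 (nat_lit 307) (nat_lit 211) (nat_lit 202)) (XT.lf (nat_lit 0) (nat_lit 46574483237) (nat_lit 152) (nat_lit 148550409007) (nat_lit 0) (nat_lit 45186401268) (nat_lit 1) (nat_lit 5) (nat_lit 3) (nat_lit 4) (nat_lit 1) (nat_lit 4) (nat_lit 308) (nat_lit 211) (nat_lit 201))))))) (XT.nd (nat_lit 780) (nat_lit 0) (nat_lit 0) (XT.nd (nat_lit 390) (nat_lit 0) (nat_lit 0) (XT.nd (nat_lit 156) (nat_lit 0) (nat_lit 0) (XT.nd (nat_lit 78) (nat_lit 0) (nat_lit 0) (XT.lf (nat_lit 0) (nat_lit 52229231173) (nat_lit 152) (nat_lit 156446305163) (nat_lit 0) (nat_lit 50752428289) (nat_lit 1) (nat_lit 5) (nat_lit 3) (nat_lit 4) (nat_lit 1) (nat_lit 4) (nat_lit 309) (nat_lit 211) (nat_lit 200)) (XT.lf (nat_lit 0) (nat_lit 58261772384) (nat_lit 152) (nat_lit 165113156496) (nat_lit 0) (nat_lit 56702820503) (nat_lit 1) (nat_lit 5) (nat_lit 3) (nat_lit 4) (nat_lit 1) (nat_lit 4) (nat_lit 310) (nat_lit 211) (nat_lit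 199))) (XT.nd (nat_lit 78) (nat_lit 0) (nat_lit 0) (XT.lf (nat_lit 0) (nat_lit 64707855261) (nat_lit 152) (nat_lit 174602322124) (nat_lit 0) (nat_lit 63072839496) (nat_lit 1) (nat_lit 5) (nat_lit 3) (nat_lit 4) (nat_lit 1) (nat_lit 4) (nat_lit 311) (nat_lit 211) (nat_lit 198)) (XT.nd (nat_lit 78) (nat_lit 0) (nat_lit 0) (XT.lf (nat_lit 0) (nat_lit 71605678816) (nat_lit 152) (nat_lit 184970034140) (nat_lit 0) (nat_lit 69900233527) (nat_lit 1) (nat_lit 5) (nat_lit 3) (nat_lit 4) (nat_lit 1) (nat_lit 4) (nat_lit 312) (nat_lit 211) (nat_lit 197)) (XT.lf (nat_lit 0) (nat_lit 78996119038) (nat_lit 152) (nat_lit 196277730838) (nat_lit 0) (nat_lit 77225461228) (nat_lit 1) (nat_lit 5) (nat_lit 3) (nat_lit 4) (nat_lit 1) (nat_lit 4) (nat_lit 313) (nat_lit 211) (nat_lit 196))))) (XT.nd (nat_lit 156) (nat_lit 0) (nat_lit 0) (XT.nd (nat_lit 78) (nat_lit 0) (nat_lit 0) (XT.lf (nat_lit 0) (nat_lit 86922971130)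 (nat_lit 152) (nat_lit 208592420789) (nat_lit 0) (nat_lit 85091931356) (nat_lit 1) (nat_lit 5) (nat_lit 3) (nat_lit 4) (nat_lit 1) (nat_lit 4) (nat_lit 314) (nat_lit 211) (nat_lit 195)) (XT.lf (nat_lit 0) (nat_lit 95433209029) (nat_lit 152) (nat_lit 221987079935) (nat_lit 0) (nat_lit 93546260029) (nat_lit 1) (nat_lit 5) (nat_lit 3) (nat_lit 4) (nat_lit 1) (nat_lit 4) (nat_lit 315) (nat_lit 211) (nat_lit 194))) (XT.nd (nat_lit 78) (nat_lit 0) (nat_lit 0) (XT.lf (nat_lit 0) (nat_lit 104577263775) (nat_lit 152) (nat_lit 236541084034) (nat_lit 0) (nat_lit 102638546973) (nat_lit 1) (nat_lit 5) (nat_lit 3) (nat_lit 4) (nat_lit 1) (nat_lit 4) (nat_lit 316) (nat_lit 211) (nat_lit 193)) (XT.nd (nat_lit 78) (nat_lit 0) (nat_lit 0) (XT.lf (nat_lit 0) (nat_lit 114409322360) (nat_lit 152) (nat_lit 252340679036) (nat_lit 0) (nat_lit 112422672408) (nat_lit 1) (nat_lit 5) (nat_lit 3) (nat_lit 4) (nat_lit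 1) (nat_lit 4) (nat_lit 317) (nat_lit 211) (nat_lit 192)) (XT.lf (nat_lit 0) (nat_lit 124987648834) (nat_lit 152) (nat_lit 269479492170) (nat_lit 0) (nat_lit 122956616336) (nat_lit 1) (nat_lit 5) (nat_lit 3) (nat_lit 4) (nat_lit 1) (nat_lit 4) (nat_lit 318) (nat_lit 211) (nat_lit 191)))))) (XT.nd (nat_lit 390) (nat_lit 0) (nat_lit 0) (XT.nd (nat_lit 156) (nat_lit 0) (nat_lit 0) (XT.nd (nat_lit 78) (nat_lit 0) (nat_lit 0) (XT.lf (nat_lit 0) (nat_lit 136374929576) (nat_lit 152) (nat_lit 288059086774) (nat_lit 0) (nat_lit 134302802127) (nat_lit 1) (nat_lit 5) (nat_lit 3) (nat_lit 4) (nat_lit 1) (nat_lit 4) (nat_lit 319) (nat_lit 211) (nat_lit 190)) (XT.lf (nat_lit 0) (nat_lit 148638644768) (nat_lit 152) (nat_lit 308189564149) (nat_lit 0) (nat_lit 146528466440) (nat_lit 1) (nat_lit 5) (nat_lit 3) (nat_lit 4) (nat_lit 1) (nat_lit 4) (nat_lit 320) (nat_lit 211) (nat_lit 189))) (XT.nd (nat_lit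 78) (nat_lit 0) (nat_lit 0) (XT.lf (nat_lit 0) (nat_lit 161851468279) (nat_lit 152) (nat_lit 329990216013) (nat_lit 0) (nat_lit 159706057654) (nat_lit 1) (nat_lit 5) (nat_lit 3) (nat_lit 4) (nat_lit 1) (nat_lit 4) (nat_lit 321) (nat_lit 211) (nat_lit 188)) (XT.nd (nat_lit 78) (nat_lit 0) (nat_lit 0) (XT.lf (nat_lit 0) (nat_lit 176091698321) (nat_lit 152) (nat_lit 353590231414) (nat_lit 0) (nat_lit 173913665200) (nat_lit 1) (nat_lit 5) (nat_lit 3) (nat_lit 4) (nat_lit 1) (nat_lit 4) (nat_lit 322) (nat_lit 211) (nat_lit 187)) (XT.lf (nat_lit 0) (nat_lit 191443721443) (nat_lit 152) (nat_lit 379129462294) (nat_lit 0) (nat_lit 189235482307) (nat_lit 1) (nat_lit 5) (nat_lit 3) (nat_lit 4) (nat_lit 1) (nat_lit 4) (nat_lit 323) (nat_lit 211) (nat_lit 186))))) (XT.nd (nat_lit 156) (nat_lit 0) (nat_lit 0) (XT.nd (nat_lit 78) (nat_lit 0) (nat_lit 0) (XT.lf (nat_lit 0) (nat_lit 207998512597) (nat_lit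 152) (nat_lit 406759252245) (nat_lit 0) (nat_lit 205762304928) (nat_lit 1) (nat_lit 5) (nat_lit 3) (nat_lit 4) (nat_lit 1) (nat_lit 4) (nat_lit 324) (nat_lit 211) (nat_lit 185)) (XT.lf (nat_lit 0) (nat_lit 225854174249) (nat_lit 152) (nat_lit 436643333355) (nat_lit 0) (nat_lit 223592069790) (nat_lit 1) (nat_lit 5) (nat_lit 3) (nat_lit 4) (nat_lit 1) (nat_lit 4) (nat_lit 325) (nat_lit 211) (nat_lit 184))) (XT.nd (nat_lit 35178) (nat_lit 0) (nat_lit 0) (XT.lf (nat_lit 0) (nat_lit 245116517727) (nat_lit 152) (nat_lit 468958796474) (nat_lit 0) (nat_lit 242830434760) (nat_lit 1) (nat_lit 5) (nat_lit 3) (nat_lit 4) (nat_lit 1) (nat_lit 4) (nat_lit 326) (nat_lit 211) (nat_lit 183)) (XT.nd (nat_lit 78) (nat_lit 152) (nat_lit 0) (XT.lf (nat_lit 0) (nat_lit 46292838374) (nat_lit 76) (nat_lit 991974752) (nat_lit 76) (nat_lit 991974752) (nat_lit 3) (nat_lit 4) (nat_lit 4) (nat_lit 5) (nat_lit 4)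 (nat_lit 4) (nat_lit 296) (nat_lit 212) (nat_lit 212)) (XT.lf (nat_lit 0) (nat_lit 1165599830) (nat_lit 152) (nat_lit 101979623820) (nat_lit 0) (nat_lit 958734683) (nat_lit 1) (nat_lit 5) (nat_lit 3) (nat_lit 4) (nat_lit 1) (nat_lit 4) (nat_lit 297) (nat_lit 212) (nat_lit 211))))))))
noncomputable def xc6 : XT := (XT.nd (nat_lit 1482) (nat_lit 0) (nat_lit 0) (XT.nd (nat_lit 702) (nat_lit 0) (nat_lit 0) (XT.nd (nat_lit 312) (nat_lit 0) (nat_lit 0) (XT.nd (nat_lit 156) (nat_lit 0) (nat_lit 0) (XT.nd (nat_lit 78) (nat_lit 0) (nat_lit 0) (XT.lf (nat_lit 0) (nat_lit 4428329843) (nat_lit 152) (nat_lit 103802074400) (nat_lit 0) (nat_lit 4029922895) (nat_lit 1) (nat_lit 5) (nat_lit 3) (nat_lit 4) (nat_lit 1) (nat_lit 4) (nat_lit 298) (nat_lit 212) (nat_lit 210)) (XT.lf (nat_lit 0) (nat_lit 7791051468) (nat_lit 152) (nat_lit 106071023622) (nat_lit 0) (nat_lit 7215291000) (nat_lit 1) (nat_lit 5)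 (nat_lit 3) (nat_lit 4) (nat_lit 1) (nat_lit 4) (nat_lit 299) (nat_lit 212) (nat_lit 209))) (XT.nd (nat_lit 78) (nat_lit 0) (nat_lit 0) (XT.lf (nat_lit 0) (nat_lit 11273691944) (nat_lit 152) (nat_lit 108799917110) (nat_lit 0) (nat_lit 10533715253) (nat_lit 1) (nat_lit 5) (nat_lit 3) (nat_lit 4) (nat_lit 1) (nat_lit 4) (nat_lit 300) (nat_lit 212) (nat_lit 208)) (XT.lf (nat_lit 0) (nat_lit 14896889141) (nat_lit 152) (nat_lit 112004926085) (nat_lit 0) (nat_lit 14004860392) (nat_lit 1) (nat_lit 5) (nat_lit 3) (nat_lit 4) (nat_lit 1) (nat_lit 4) (nat_lit 301) (nat_lit 212) (nat_lit 207)))) (XT.nd (nat_lit 156) (nat_lit 0) (nat_lit 0) (XT.nd (nat_lit 78) (nat_lit 0) (nat_lit 0) (XT.lf (nat_lit 0) (nat_lit 18682113856) (nat_lit 152) (nat_lit 115705043193) (nat_lit 0) (nat_lit 17649296165) (nat_lit 1) (nat_lit 5) (nat_lit 3) (nat_lit 4) (nat_lit 1) (nat_lit 4) (nat_lit 302) (nat_lit 212) (nat_lit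 206)) (XT.lf (nat_lit 0) (nat_lit 22651797052) (nat_lit 152) (nat_lit 119922195052) (nat_lit 0) (nat_lit 21488619228) (nat_lit 1) (nat_lit 5) (nat_lit 3) (nat_lit 4) (nat_lit 1) (nat_lit 4) (nat_lit 303) (nat_lit 212) (nat_lit 205))) (XT.nd (nat_lit 78) (nat_lit 0) (nat_lit 0) (XT.lf (nat_lit 0) (nat_lit 26829462775) (nat_lit 152) (nat_lit 124681372194) (nat_lit 0) (nat_lit 25545581126) (nat_lit 1) (nat_lit 5) (nat_lit 3) (nat_lit 4) (nat_lit 1) (nat_lit 4) (nat_lit 304) (nat_lit 212) (nat_lit 204)) (XT.nd (nat_lit 78) (nat_lit 0) (nat_lit 0) (XT.lf (nat_lit 0) (nat_lit 31239867565) (nat_lit 152) (nat_lit 130010777150) (nat_lit 0) (nat_lit 29844223114) (nat_lit 1) (nat_lit 5) (nat_lit 3) (nat_lit 4) (nat_lit 1) (nat_lit 4) (nat_lit 305) (nat_lit 212) (nat_lit 203)) (XT.lf (nat_lit 0) (nat_lit 35909147153) (nat_lit 152) (nat_lit 135941991577) (nat_lit 0) (nat_lit 34410018627) (nat_lit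 1) (nat_lit 5) (nat_lit 3) (nat_lit 4) (nat_lit 1) (nat_lit 4) (nat_lit 306) (nat_lit 212) (nat_lit 202)))))) (XT.nd (nat_lit 390) (nat_lit 0) (nat_lit 0) (XT.nd (nat_lit 156) (nat_lit 0) (nat_lit 0) (XT.nd (nat_lit 78) (nat_lit 0) (nat_lit 0) (XT.lf (nat_lit 0) (nat_lit 40864971345) (nat_lit 152) (nat_lit 142510163414) (nat_lit 0) (nat_lit 39270024229) (nat_lit 1) (nat_lit 5) (nat_lit 3) (nat_lit 4) (nat_lit 1) (nat_lit 4) (nat_lit 307) (nat_lit 212) (nat_lit 201)) (XT.lf (nat_lit 0) (nat_lit 46136707987) (nat_lit 152) (nat_lit 149754215161) (nat_lit 0) (nat_lit 44453039956) (nat_lit 1) (nat_lit 5) (nat_lit 3) (nat_lit 4) (nat_lit 1) (nat_lit 4) (nat_lit 308) (nat_lit 212) (nat_lit 200))) (XT.nd (nat_lit 78) (nat_lit 0) (nat_lit 0) (XT.lf (nat_lit 0) (nat_lit 51755596999) (nat_lit 152) (nat_lit 157717074531) (nat_lit 0) (nat_lit 49989779973) (nat_lit 1) (nat_lit 5) (nat_lit 3) (nat_lit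 4) (nat_lit 1) (nat_lit 4) (nat_lit 309) (nat_lit 212) (nat_lit 199)) (XT.nd (nat_lit 78) (nat_lit 0) (nat_lit 0) (XT.lf (nat_lit 0) (nat_lit 57754935503) (nat_lit 152) (nat_lit 166445928839) (nat_lit 0) (nat_lit 55913054592) (nat_lit 1) (nat_lit 5) (nat_lit 3) (nat_lit 4) (nat_lit 1) (nat_lit 4) (nat_lit 310) (nat_lit 212) (nat_lit 198)) (XT.lf (nat_lit 0) (nat_lit 64170275134) (nat_lit 152) (nat_lit 175992504629) (nat_lit 0) (nat_lit 62257964699) (nat_lit 1) (nat_lit 5) (nat_lit 3) (nat_lit 4) (nat_lit 1) (nat_lit 4) (nat_lit 311) (nat_lit 212) (nat_lit 197))))) (XT.nd (nat_lit 156) (nat_lit 0) (nat_lit 0) (XT.nd (nat_lit 78) (nat_lit 0) (nat_lit 0) (XT.lf (nat_lit 0) (nat_lit 71039632719) (nat_lit 152) (nat_lit 186413374203) (nat_lit 0) (nat_lit 69062109763) (nat_lit 1) (nat_lit 5) (nat_lit 3) (nat_lit 4) (nat_lit 1) (nat_lit 4) (nat_lit 312) (nat_lit 212) (nat_lit 196)) (XT.lf (nat_lit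 0) (nat_lit 78403715562) (nat_lit 152) (nat_lit 197770290861) (nat_lit 0) (nat_lit 76365810642) (nat_lit 1) (nat_lit 5) (nat_lit 3) (nat_lit 4) (nat_lit 1) (nat_lit 4) (nat_lit 313) (nat_lit 212) (nat_lit 195))) (XT.nd (nat_lit 78) (nat_lit 0) (nat_lit 0) (XT.lf (nat_lit 0) (nat_lit 86306162673) (nat_lit 152) (nat_lit 210130554850) (nat_lit 0) (nat_lit 84212348527) (nat_lit 1) (nat_lit 5) (nat_lit 3) (nat_lit 4) (nat_lit 1) (nat_lit 4) (nat_lit 314) (nat_lit 212) (nat_lit 194)) (XT.nd (nat_lit 78) (nat_lit 0) (nat_lit 0) (XT.lf (nat_lit 0) (nat_lit 94793803368) (nat_lit 152) (nat_lit 223567412180) (nat_lit 0) (nat_lit 92648221420) (nat_lit 1) (nat_lit 5) (nat_lit 3) (nat_lit 4) (nat_lit 1) (nat_lit 4) (nat_lit 315) (nat_lit 212) (nat_lit 193)) (XT.lf (nat_lit 0) (nat_lit 103916934777) (nat_lit 152) (nat_lit 238160488671) (nat_lit 0) (nat_lit 101723419679) (nat_lit 1) (nat_lit 5) (nat_lit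 3) (nat_lit 4) (nat_lit 1) (nat_lit 4) (nat_lit 316) (nat_lit 212) (nat_lit 192))))))) (XT.nd (nat_lit 702) (nat_lit 0) (nat_lit 0) (XT.nd (nat_lit 312) (nat_lit 0) (nat_lit 0) (XT.nd (nat_lit 156) (nat_lit 0) (nat_lit 0) (XT.nd (nat_lit 78) (nat_lit 0) (nat_lit 0) (XT.lf (nat_lit 0) (nat_lit 113729619902) (nat_lit 152) (nat_lit 253996261813) (nat_lit 0) (nat_lit 111491722257) (nat_lit 1) (nat_lit 5) (nat_lit 3) (nat_lit 4) (nat_lit 1) (nat_lit 4) (nat_lit 317) (nat_lit 212) (nat_lit 191)) (XT.lf (nat_lit 0) (nat_lit 124290007986) (nat_lit 152) (nat_lit 271168573226) (nat_lit 0) (nat_lit 122011015392) (nat_lit 1) (nat_lit 5) (nat_lit 3) (nat_lit 4) (nat_lit 1) (nat_lit 4) (nat_lit 318) (nat_lit 212) (nat_lit 190))) (XT.nd (nat_lit 78) (nat_lit 0) (nat_lit 0) (XT.lf (nat_lit 0) (nat_lit 135660679109) (nat_lit 152) (nat_lit 289779184754) (nat_lit 0) (nat_lit 133343635634) (nat_lit 1) (nat_lit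 5) (nat_lit 3) (nat_lit 4) (nat_lit 1) (nat_lit 4) (nat_lit 319) (nat_lit 212) (nat_lit 189)) (XT.lf (nat_lit 0) (nat_lit 147909015024) (nat_lit 152) (nat_lit 309938381503) (nat_lit 0) (nat_lit 145556739253) (nat_lit 1) (nat_lit 5) (nat_lit 3) (nat_lit 4) (nat_lit 1) (nat_lit 4) (nat_lit 320) (nat_lit 212) (nat_lit 188)))) (XT.nd (nat_lit 156) (nat_lit 0) (nat_lit 0) (XT.nd (nat_lit 78) (nat_lit 0) (nat_lit 0) (XT.lf (nat_lit 0) (nat_lit 161107598462) (nat_lit 152) (nat_lit 331765625380) (nat_lit 0) (nat_lit 158722700195) (nat_lit 1) (nat_lit 5) (nat_lit 3) (nat_lit 4) (nat_lit 1) (nat_lit 4) (nat_lit 321) (nat_lit 212) (nat_lit 187)) (XT.lf (nat_lit 0) (nat_lit 175334643253) (nat_lit 152) (nat_lit 355390263015) (nat_lit 0) (nat_lit 172919538970) (nat_lit 1) (nat_lit 5) (nat_lit 3) (nat_lit 4) (nat_lit 1) (nat_lit 4) (nat_lit 322) (nat_lit 212) (nat_lit 186))) (XT.nd (nat_lit 78) (nat_lit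 0) (nat_lit 0) (XT.lf (nat_lit 0) (nat_lit 190674457809) (nat_lit 152) (nat_lit 380952292261) (nat_lit 0) (nat_lit 188231384993) (nat_lit 1) (nat_lit 5) (nat_lit 3) (nat_lit 4) (nat_lit 1) (nat_lit 4) (nat_lit 323) (nat_lit 212) (nat_lit 185)) (XT.nd (nat_lit 78) (nat_lit 0) (nat_lit 0) (XT.lf (nat_lit 0) (nat_lit 207217944734) (nat_lit 152) (nat_lit 408603191810) (nat_lit 0) (nat_lit 204748975130) (nat_lit 1) (nat_lit 5) (nat_lit 3) (nat_lit 4) (nat_lit 1) (nat_lit 4) (nat_lit 324) (nat_lit 212) (nat_lit 184)) (XT.lf (nat_lit 0) (nat_lit 225063139508) (nat_lit 152) (nat_lit 438506818843) (nat_lit 0) (nat_lit 222570191395) (nat_lit 1) (nat_lit 5) (nat_lit 3) (nat_lit 4) (nat_lit 1) (nat_lit 4) (nat_lit 325) (nat_lit 212) (nat_lit 183)))))) (XT.nd (nat_lit 35334) (nat_lit 0) (nat_lit 0) (XT.nd (nat_lit 35100) (nat_lit 0) (nat_lit 0) (XT.nd (nat_lit 35022) (nat_lit 0) (nat_lit 152) (XT.lf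 (nat_lit 0) (nat_lit 244315791433) (nat_lit 152) (nat_lit 470840380040) (nat_lit 0) (nat_lit 241800640996) (nat_lit 1) (nat_lit 5) (nat_lit 3) (nat_lit 4) (nat_lit 1) (nat_lit 4) (nat_lit 326) (nat_lit 212) (nat_lit 182)) (XT.lf (nat_lit 0) (nat_lit 33786337554) (nat_lit 76) (nat_lit 3882734748) (nat_lit 76) (nat_lit 3882734748) (nat_lit 3) (nat_lit 4) (nat_lit 4) (nat_lit 5) (nat_lit 4) (nat_lit 4) (nat_lit 294) (nat_lit 213) (nat_lit 213))) (XT.nd (nat_lit 78) (nat_lit 152) (nat_lit 0) (XT.lf (nat_lit 0) (nat_lit 79679719844) (nat_lit 76) (nat_lit 5061282523) (nat_lit 76) (nat_lit 4826697447) (nat_lit 3) (nat_lit 4) (nat_lit 4) (nat_lit 5) (nat_lit 4) (nat_lit 4) (nat_lit 295) (nat_lit 213) (nat_lit 212)) (XT.nd (nat_lit 78) (nat_lit 152) (nat_lit 0) (XT.lf (nat_lit 0) (nat_lit 92428592108) (nat_lit 76) (nat_lit 2290547536) (nat_lit 76) (nat_lit 1838754057) (nat_lit 3) (nat_lit 4) (nat_lit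 4) (nat_lit 5) (nat_lit 4) (nat_lit 4) (nat_lit 296) (nat_lit 213) (nat_lit 211)) (XT.lf (nat_lit 0) (nat_lit 1215105255) (nat_lit 152) (nat_lit 102304382622) (nat_lit 0) (nat_lit 593283949) (nat_lit 1) (nat_lit 5) (nat_lit 3) (nat_lit 4) (nat_lit 1) (nat_lit 4) (nat_lit 297) (nat_lit 213) (nat_lit 210))))) (XT.nd (nat_lit 156) (nat_lit 0) (nat_lit 0) (XT.nd (nat_lit 78) (nat_lit 0) (nat_lit 0) (XT.lf (nat_lit 0) (nat_lit 4400418543) (nat_lit 152) (nat_lit 104271401758) (nat_lit 0) (nat_lit 3601243716) (nat_lit 1) (nat_lit 5) (nat_lit 3) (nat_lit 4) (nat_lit 1) (nat_lit 4) (nat_lit 298) (nat_lit 213) (nat_lit 209)) (XT.lf (nat_lit 0) (nat_lit 7691458014) (nat_lit 152) (nat_lit 106674210753) (nat_lit 0) (nat_lit 6728066966) (nat_lit 1) (nat_lit 5) (nat_lit 3) (nat_lit 4) (nat_lit 1) (nat_lit 4) (nat_lit 299) (nat_lit 213) (nat_lit 208))) (XT.nd (nat_lit 78) (nat_lit 0) (nat_lit 0) (XT.lf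 (nat_lit 0) (nat_lit 11107726126) (nat_lit 152) (nat_lit 109527048475) (nat_lit 0) (nat_lit 9992283020) (nat_lit 1) (nat_lit 5) (nat_lit 3) (nat_lit 4) (nat_lit 1) (nat_lit 4) (nat_lit 300) (nat_lit 213) (nat_lit 207)) (XT.nd (nat_lit 78) (nat_lit 0) (nat_lit 0) (XT.lf (nat_lit 0) (nat_lit 14669467430) (nat_lit 152) (nat_lit 112846820630) (nat_lit 0) (nat_lit 13413235381) (nat_lit 1) (nat_lit 5) (nat_lit 3) (nat_lit 4) (nat_lit 1) (nat_lit 4) (nat_lit 301) (nat_lit 213) (nat_lit 206)) (XT.lf (nat_lit 0) (nat_lit 18397788541) (nat_lit 152) (nat_lit 116653199942) (nat_lit 0) (nat_lit 17011196360) (nat_lit 1) (nat_lit 5) (nat_lit 3) (nat_lit 4) (nat_lit 1) (nat_lit 4) (nat_lit 302) (nat_lit 213) (nat_lit 205))))))))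
noncomputable def xc7 : XT := (XT.nd (nat_lit 1482) (nat_lit 0) (nat_lit 0) (XT.nd (nat_lit 702) (nat_lit 0) (nat_lit 0) (XT.nd (nat_lit 312) (nat_lit 0) (nat_lit 0) (XT.nd (nat_lit 156) (nat_lit 0) (nat_lit 0) (XT.nd (nat_lit 78) (nat_lit 0) (nat_lit 0) (XT.lf (nat_lit 0) (nat_lit 22314783214) (nat_lit 152) (nat_lit 120968742731) (nat_lit 0) (nat_lit 20807487207) (nat_lit 1) (nat_lit 5) (nat_lit 3) (nat_lit 4) (nat_lit 1) (nat_lit 4) (nat_lit 303) (nat_lit 213) (nat_lit 204)) (XT.lf (nat_lit 0) (nat_lit 26443663268) (nat_lit 152) (nat_lit 125819022585) (nat_lit 0) (nat_lit 24824604459) (nat_lit 1) (nat_lit 5) (nat_lit 3) (nat_lit 4) (nat_lit 1) (nat_lit 4) (nat_lit 304) (nat_lit 213) (nat_lit 203))) (XT.nd (nat_lit 78) (nat_lit 0) (nat_lit 0) (XT.lf (nat_lit 0) (nat_lit 30808896143) (nat_lit 152) (nat_lit 131232781904) (nat_lit 0) (nat_lit 29086353258) (nat_lit 1) (nat_lit 5) (nat_lit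 3) (nat_lit 4) (nat_lit 1) (nat_lit 4) (nat_lit 305) (nat_lit 213) (nat_lit 202)) (XT.lf (nat_lit 0) (nat_lit 35436349883) (nat_lit 152) (nat_lit 137242102224) (nat_lit 0) (nat_lit 33617988409) (nat_lit 1) (nat_lit 5) (nat_lit 3) (nat_lit 4) (nat_lit 1) (nat_lit 4) (nat_lit 306) (nat_lit 213) (nat_lit 201)))) (XT.nd (nat_lit 156) (nat_lit 0) (nat_lit 0) (XT.nd (nat_lit 78) (nat_lit 0) (nat_lit 0) (XT.lf (nat_lit 0) (nat_lit 40353446437) (nat_lit 152) (nat_lit 143882594331) (nat_lit 0) (nat_lit 38446364048) (nat_lit 1) (nat_lit 5) (nat_lit 3) (nat_lit 4) (nat_lit 1) (nat_lit 4) (nat_lit 307) (nat_lit 213) (nat_lit 200)) (XT.lf (nat_lit 0) (nat_lit 45589324155) (nat_lit 152) (nat_lit 151193609291) (nat_lit 0) (nat_lit 43600092771) (nat_lit 1) (nat_lit 5) (nat_lit 3) (nat_lit 4) (nat_lit 1) (nat_lit 4) (nat_lit 308) (nat_lit 213) (nat_lit 199))) (XT.nd (nat_lit 78) (nat_lit 0) (nat_lit 0)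 (XT.lf (nat_lit 0) (nat_lit 51175010462) (nat_lit 152) (nat_lit 159218471636) (nat_lit 0) (nat_lit 49109715192) (nat_lit 1) (nat_lit 5) (nat_lit 3) (nat_lit 4) (nat_lit 1) (nat_lit 4) (nat_lit 309) (nat_lit 213) (nat_lit 198)) (XT.nd (nat_lit 78) (nat_lit 0) (nat_lit 0) (XT.lf (nat_lit 0) (nat_lit 57143605719) (nat_lit 152) (nat_lit 168004736107) (nat_lit 0) (nat_lit 55007880926) (nat_lit 1) (nat_lit 5) (nat_lit 3) (nat_lit 4) (nat_lit 1) (nat_lit 4) (nat_lit 310) (nat_lit 213) (nat_lit 197)) (XT.lf (nat_lit 0) (nat_lit 63530479380) (nat_lit 152) (nat_lit 177604469455) (nat_lit 0) (nat_lit 61329542066) (nat_lit 1) (nat_lit 5) (nat_lit 3) (nat_lit 4) (nat_lit 1) (nat_lit 4) (nat_lit 311) (nat_lit 213) (nat_lit 196)))))) (XT.nd (nat_lit 390) (nat_lit 0) (nat_lit 0) (XT.nd (nat_lit 156) (nat_lit 0) (nat_lit 0) (XT.nd (nat_lit 78) (nat_lit 0) (nat_lit 0) (XT.lf (nat_lit 0) (nat_lit 70373479586)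 (nat_lit 152) (nat_lit 188074558989) (nat_lit 0) (nat_lit 68112160308) (nat_lit 1) (nat_lit 5) (nat_lit 3) (nat_lit 4) (nat_lit 1) (nat_lit 4) (nat_lit 312) (nat_lit 213) (nat_lit 195)) (XT.lf (nat_lit 0) (nat_lit 77713157448) (nat_lit 152) (nat_lit 199477049685) (nat_lit 0) (nat_lit 75395928944) (nat_lit 1) (nat_lit 5) (nat_lit 3) (nat_lit 4) (nat_lit 1) (nat_lit 4) (nat_lit 313) (nat_lit 213) (nat_lit 194))) (XT.nd (nat_lit 78) (nat_lit 0) (nat_lit 0) (XT.lf (nat_lit 0) (nat_lit 85593007355) (nat_lit 152) (nat_lit 211879511858) (nat_lit 0) (nat_lit 83224011049) (nat_lit 1) (nat_lit 5) (nat_lit 3) (nat_lit 4) (nat_lit 1) (nat_lit 4) (nat_lit 314) (nat_lit 213) (nat_lit 193)) (XT.nd (nat_lit 78) (nat_lit 0) (nat_lit 0) (XT.lf (nat_lit 0) (nat_lit 94059724713) (nat_lit 152) (nat_lit 225355441579) (nat_lit 0) (nat_lit 91642795257) (nat_lit 1) (nat_lit 5) (nat_lit 3) (nat_lit 4) (nat_lit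 1) (nat_lit 4) (nat_lit 315) (nat_lit 213) (nat_lit 192)) (XT.lf (nat_lit 0) (nat_lit 103163482662) (nat_lit 152) (nat_lit 239984696210) (nat_lit 0) (nat_lit 100702170660) (nat_lit 1) (nat_lit 5) (nat_lit 3) (nat_lit 4) (nat_lit 1) (nat_lit 4) (nat_lit 316) (nat_lit 213) (nat_lit 191))))) (XT.nd (nat_lit 156) (nat_lit 0) (nat_lit 0) (XT.nd (nat_lit 78) (nat_lit 0) (nat_lit 0) (XT.lf (nat_lit 0) (nat_lit 112958229397) (nat_lit 152) (nat_lit 255853967631) (nat_lit 0) (nat_lit 110455822444) (nat_lit 1) (nat_lit 5) (nat_lit 3) (nat_lit 4) (nat_lit 1) (nat_lit 4) (nat_lit 317) (nat_lit 213) (nat_lit 190)) (XT.lf (nat_lit 0) (nat_lit 123502007862) (nat_lit 152) (nat_lit 273057295968) (nat_lit 0) (nat_lit 120961550029) (nat_lit 1) (nat_lit 5) (nat_lit 3) (nat_lit 4) (nat_lit 1) (nat_lit 4) (nat_lit 318) (nat_lit 213) (nat_lit 189))) (XT.nd (nat_lit 78) (nat_lit 0) (nat_lit 0) (XT.lf (nat_lit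 0) (nat_lit 134857299707) (nat_lit 152) (nat_lit 291696626871) (nat_lit 0) (nat_lit 132281609578) (nat_lit 1) (nat_lit 5) (nat_lit 3) (nat_lit 4) (nat_lit 1) (nat_lit 4) (nat_lit 319) (nat_lit 213) (nat_lit 188)) (XT.nd (nat_lit 78) (nat_lit 0) (nat_lit 0) (XT.lf (nat_lit 0) (nat_lit 147091395550) (nat_lit 152) (nat_lit 311882415633) (nat_lit 0) (nat_lit 144483082925) (nat_lit 1) (nat_lit 5) (nat_lit 3) (nat_lit 4) (nat_lit 1) (nat_lit 4) (nat_lit 320) (nat_lit 213) (nat_lit 187)) (XT.lf (nat_lit 0) (nat_lit 160276793737) (nat_lit 152) (nat_lit 333734281745) (nat_lit 0) (nat_lit 157638275097) (nat_lit 1) (nat_lit 5) (nat_lit 3) (nat_lit 4) (nat_lit 1) (nat_lit 4) (nat_lit 321) (nat_lit 213) (nat_lit 186))))))) (XT.nd (nat_lit 35568) (nat_lit 0) (nat_lit 0) (XT.nd (nat_lit 35178) (nat_lit 0) (nat_lit 152) (XT.nd (nat_lit 156) (nat_lit 0) (nat_lit 0) (XT.nd (nat_lit 78) (nat_lit 0) (nat_lit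 0) (XT.lf (nat_lit 0) (nat_lit 174491629961) (nat_lit 152) (nat_lit 357381717745) (nat_lit 0) (nat_lit 171825142788) (nat_lit 1) (nat_lit 5) (nat_lit 3) (nat_lit 4) (nat_lit 1) (nat_lit 4) (nat_lit 322) (nat_lit 213) (nat_lit 185)) (XT.lf (nat_lit 0) (nat_lit 189820140289) (nat_lit 152) (nat_lit 382964856589) (nat_lit 0) (nat_lit 187127756326) (nat_lit 1) (nat_lit 5) (nat_lit 3) (nat_lit 4) (nat_lit 1) (nat_lit 4) (nat_lit 323) (nat_lit 213) (nat_lit 184))) (XT.nd (nat_lit 78) (nat_lit 0) (nat_lit 0) (XT.lf (nat_lit 0) (nat_lit 206353160337) (nat_lit 152) (nat_lit 410635302061) (nat_lit 0) (nat_lit 203636797865) (nat_lit 1) (nat_lit 5) (nat_lit 3) (nat_lit 4) (nat_lit 1) (nat_lit 4) (nat_lit 324) (nat_lit 213) (nat_lit 183)) (XT.nd (nat_lit 78) (nat_lit 0) (nat_lit 0) (XT.lf (nat_lit 0) (nat_lit 224188663557) (nat_lit 152) (nat_lit 440557027171) (nat_lit 0) (nat_lit 221450098763) (nat_lit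 1) (nat_lit 5) (nat_lit 3) (nat_lit 4) (nat_lit 1) (nat_lit 4) (nat_lit 325) (nat_lit 213) (nat_lit 182)) (XT.lf (nat_lit 0) (nat_lit 243432341821) (nat_lit 152) (nat_lit 472907345848) (nat_lit 0) (nat_lit 240673219320) (nat_lit 1) (nat_lit 5) (nat_lit 3) (nat_lit 4) (nat_lit 1) (nat_lit 4) (nat_lit 326) (nat_lit 213) (nat_lit 181))))) (XT.nd (nat_lit 156) (nat_lit 0) (nat_lit 0) (XT.nd (nat_lit 78) (nat_lit 0) (nat_lit 0) (XT.lf (nat_lit 0) (nat_lit 22591844104) (nat_lit 76) (nat_lit 6603677616) (nat_lit 76) (nat_lit 6603677616) (nat_lit 3) (nat_lit 4) (nat_lit 4) (nat_lit 5) (nat_lit 4) (nat_lit 4) (nat_lit 292) (nat_lit 214) (nat_lit 214)) (XT.lf (nat_lit 0) (nat_lit 56035712450) (nat_lit 76) (nat_lit 10672485154) (nat_lit 76) (nat_lit 10419133272) (nat_lit 3) (nat_lit 4) (nat_lit 4) (nat_lit 5) (nat_lit 4) (nat_lit 4) (nat_lit 293) (nat_lit 214) (nat_lit 213))) (XT.nd (nat_lit 78)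 (nat_lit 0) (nat_lit 0) (XT.lf (nat_lit 0) (nat_lit 67403023697) (nat_lit 76) (nat_lit 8096595370) (nat_lit 76) (nat_lit 7608658413) (nat_lit 3) (nat_lit 4) (nat_lit 4) (nat_lit 5) (nat_lit 4) (nat_lit 4) (nat_lit 294) (nat_lit 214) (nat_lit 212)) (XT.nd (nat_lit 78) (nat_lit 0) (nat_lit 0) (XT.lf (nat_lit 0) (nat_lit 79352983794) (nat_lit 76) (nat_lit 5464421350) (nat_lit 76) (nat_lit 4759275989) (nat_lit 3) (nat_lit 4) (nat_lit 4) (nat_lit 5) (nat_lit 4) (nat_lit 4) (nat_lit 295) (nat_lit 214) (nat_lit 211)) (XT.lf (nat_lit 0) (nat_lit 91956407318) (nat_lit 76) (nat_lit 2760365025) (nat_lit 76) (nat_lit 1854100772) (nat_lit 3) (nat_lit 4) (nat_lit 4) (nat_lit 5) (nat_lit 4) (nat_lit 4) (nat_lit 296) (nat_lit 214) (nat_lit 210)))))) (XT.nd (nat_lit 390) (nat_lit 0) (nat_lit 0) (XT.nd (nat_lit 156) (nat_lit 0) (nat_lit 0) (XT.nd (nat_lit 78) (nat_lit 0) (nat_lit 0) (XT.lf (nat_lit 0)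 (nat_lit 1107544325) (nat_lit 152) (nat_lit 102955824723) (nat_lit 0) (nat_lit 67081992) (nat_lit 1) (nat_lit 5) (nat_lit 3) (nat_lit 4) (nat_lit 1) (nat_lit 4) (nat_lit 297) (nat_lit 214) (nat_lit 209)) (XT.lf (nat_lit 0) (nat_lit 4221175459) (nat_lit 152) (nat_lit 105056703632) (nat_lit 0) (nat_lit 3016496904) (nat_lit 1) (nat_lit 5) (nat_lit 3) (nat_lit 4) (nat_lit 1) (nat_lit 4) (nat_lit 298) (nat_lit 214) (nat_lit 208))) (XT.nd (nat_lit 78) (nat_lit 0) (nat_lit 0) (XT.lf (nat_lit 0) (nat_lit 7445842567) (nat_lit 152) (nat_lit 107583456862) (nat_lit 0) (nat_lit 6089111954) (nat_lit 1) (nat_lit 5) (nat_lit 3) (nat_lit 4) (nat_lit 1) (nat_lit 4) (nat_lit 299) (nat_lit 214) (nat_lit 207)) (XT.nd (nat_lit 78) (nat_lit 0) (nat_lit 0) (XT.lf (nat_lit 0) (nat_lit 10800654786) (nat_lit 152) (nat_lit 110551057764) (nat_lit 0) (nat_lit 9303135230) (nat_lit 1) (nat_lit 5) (nat_lit 3) (nat_lit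 4) (nat_lit 1) (nat_lit 4) (nat_lit 300) (nat_lit 214) (nat_lit 206)) (XT.lf (nat_lit 0) (nat_lit 14305492485) (nat_lit 152) (nat_lit 113977092123) (nat_lit 0) (nat_lit 12677612798) (nat_lit 1) (nat_lit 5) (nat_lit 3) (nat_lit 4) (nat_lit 1) (nat_lit 4) (nat_lit 301) (nat_lit 214) (nat_lit 205))))) (XT.nd (nat_lit 156) (nat_lit 0) (nat_lit 0) (XT.nd (nat_lit 78) (nat_lit 0) (nat_lit 0) (XT.lf (nat_lit 0) (nat_lit 17981125074) (nat_lit 152) (nat_lit 117881862364) (nat_lit 0) (nat_lit 16232541560) (nat_lit 1) (nat_lit 5) (nat_lit 3) (nat_lit 4) (nat_lit 1) (nat_lit 4) (nat_lit 302) (nat_lit 214) (nat_lit 204)) (XT.lf (nat_lit 0) (nat_lit 21849334077) (nat_lit 152) (nat_lit 122288507866) (nat_lit 0) (nat_lit 19988987762) (nat_lit 1) (nat_lit 5) (nat_lit 3) (nat_lit 4) (nat_lit 1) (nat_lit 4) (nat_lit 303) (nat_lit 214) (nat_lit 203))) (XT.nd (nat_lit 78) (nat_lit 0) (nat_lit 0) (XT.lf (nat_lit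 0) (nat_lit 25933042216) (nat_lit 152) (nat_lit 127223142084) (nat_lit 0) (nat_lit 23969211825) (nat_lit 1) (nat_lit 5) (nat_lit 3) (nat_lit 4) (nat_lit 1) (nat_lit 4) (nat_lit 304) (nat_lit 214) (nat_lit 202)) (XT.nd (nat_lit 78) (nat_lit 0) (nat_lit 0) (XT.lf (nat_lit 0) (nat_lit 30256449242) (nat_lit 152) (nat_lit 132715007294) (nat_lit 0) (nat_lit 28196800262) (nat_lit 1) (nat_lit 5) (nat_lit 3) (nat_lit 4) (nat_lit 1) (nat_lit 4) (nat_lit 305) (nat_lit 214) (nat_lit 201)) (XT.lf (nat_lit 0) (nat_lit 34845175345) (nat_lit 152) (nat_lit 138796647884) (nat_lit 0) (nat_lit 32696805450) (nat_lit 1) (nat_lit 5) (nat_lit 3) (nat_lit 4) (nat_lit 1) (nat_lit 4) (nat_lit 306) (nat_lit 214) (nat_lit 200))))))))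
noncomputable def xc8 : XT := (XT.nd (nat_lit 1482) (nat_lit 0) (nat_lit 0) (XT.nd (nat_lit 702) (nat_lit 0) (nat_lit 0) (XT.nd (nat_lit 312) (nat_lit 0) (nat_lit 0) (XT.nd (nat_lit 156) (nat_lit 0) (nat_lit 0) (XT.nd (nat_lit 78) (nat_lit 0) (nat_lit 0) (XT.lf (nat_lit 0) (nat_lit 39726412976) (nat_lit 152) (nat_lit 145504103205) (nat_lit 0) (nat_lit 37495894086) (nat_lit 1) (nat_lit 5) (nat_lit 3) (nat_lit 4) (nat_lit 1) (nat_lit 4) (nat_lit 307) (nat_lit 214) (nat_lit 199)) (XT.lf (nat_lit 0) (nat_lit 44929087988) (nat_lit 152) (nat_lit 152877121140) (nat_lit 0) (nat_lit 42622505212) (nat_lit 1) (nat_lit 5) (nat_lit 3) (nat_lit 4) (nat_lit 1) (nat_lit 4) (nat_lit 308) (nat_lit 214) (nat_lit 198))) (XT.nd (nat_lit 78) (nat_lit 0) (nat_lit 0) (XT.lf (nat_lit 0) (nat_lit 50484031047) (nat_lit 152) (nat_lit 160959393648) (nat_lit 0) (nat_lit 48107018748) (nat_lit 1) (nat_lit 5) (nat_lit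 3) (nat_lit 4) (nat_lit 1) (nat_lit 4) (nat_lit 309) (nat_lit 214) (nat_lit 197)) (XT.lf (nat_lit 0) (nat_lit 56424160335) (nat_lit 152) (nat_lit 169798815676) (nat_lit 0) (nat_lit 53981935515) (nat_lit 1) (nat_lit 5) (nat_lit 3) (nat_lit 4) (nat_lit 1) (nat_lit 4) (nat_lit 310) (nat_lit 214) (nat_lit 196)))) (XT.nd (nat_lit 156) (nat_lit 0) (nat_lit 0) (XT.nd (nat_lit 78) (nat_lit 0) (nat_lit 0) (XT.lf (nat_lit 0) (nat_lit 62784676617) (nat_lit 152) (nat_lit 179447768985) (nat_lit 0) (nat_lit 60282069833) (nat_lit 1) (nat_lit 5) (nat_lit 3) (nat_lit 4) (nat_lit 1) (nat_lit 4) (nat_lit 311) (nat_lit 214) (nat_lit 195)) (XT.lf (nat_lit 0) (nat_lit 69603271842) (nat_lit 152) (nat_lit 189963432557) (nat_lit 0) (nat_lit 67044755832) (nat_lit 1) (nat_lit 5) (nat_lit 3) (nat_lit 4) (nat_lit 1) (nat_lit 4) (nat_lit 312) (nat_lit 214) (nat_lit 194))) (XT.nd (nat_lit 78) (nat_lit 0) (nat_lit 0)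 (XT.lf (nat_lit 0) (nat_lit 76920352501) (nat_lit 152) (nat_lit 201408121436) (nat_lit 0) (nat_lit 74310068688) (nat_lit 1) (nat_lit 5) (nat_lit 3) (nat_lit 4) (nat_lit 1) (nat_lit 4) (nat_lit 313) (nat_lit 214) (nat_lit 193)) (XT.nd (nat_lit 78) (nat_lit 0) (nat_lit 0) (XT.lf (nat_lit 0) (nat_lit 84779279071) (nat_lit 152) (nat_lit 213849656000) (nat_lit 0) (nat_lit 82121062108) (nat_lit 1) (nat_lit 5) (nat_lit 3) (nat_lit 4) (nat_lit 1) (nat_lit 4) (nat_lit 314) (nat_lit 214) (nat_lit 192)) (XT.lf (nat_lit 0) (nat_lit 93226622968) (nat_lit 152) (nat_lit 227361763862) (nat_lit 0) (nat_lit 90524023459) (nat_lit 1) (nat_lit 5) (nat_lit 3) (nat_lit 4) (nat_lit 1) (nat_lit 4) (nat_lit 315) (nat_lit 214) (nat_lit 191)))))) (XT.nd (nat_lit 390) (nat_lit 0) (nat_lit 0) (XT.nd (nat_lit 156) (nat_lit 0) (nat_lit 0) (XT.nd (nat_lit 78) (nat_lit 0) (nat_lit 0) (XT.lf (nat_lit 0) (nat_lit 102312442528)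 (nat_lit 152) (nat_lit 242024516772) (nat_lit 0) (nat_lit 99568748068) (nat_lit 1) (nat_lit 5) (nat_lit 3) (nat_lit 4) (nat_lit 1) (nat_lit 4) (nat_lit 316) (nat_lit 214) (nat_lit 190)) (XT.lf (nat_lit 0) (nat_lit 112090579643) (nat_lit 152) (nat_lit 257924805117) (nat_lit 0) (nat_lit 109308834304) (nat_lit 1) (nat_lit 5) (nat_lit 3) (nat_lit 4) (nat_lit 1) (nat_lit 4) (nat_lit 317) (nat_lit 214) (nat_lit 189))) (XT.nd (nat_lit 78) (nat_lit 0) (nat_lit 0) (XT.lf (nat_lit 0) (nat_lit 122618978830) (nat_lit 152) (nat_lit 275156852828) (nat_lit 0) (nat_lit 119802001195) (nat_lit 1) (nat_lit 5) (nat_lit 3) (nat_lit 4) (nat_lit 1) (nat_lit 4) (nat_lit 318) (nat_lit 214) (nat_lit 188)) (XT.nd (nat_lit 78) (nat_lit 0) (nat_lit 0) (XT.lf (nat_lit 0) (nat_lit 133960030603) (nat_lit 152) (nat_lit 293822775744) (nat_lit 0) (nat_lit 131110430472) (nat_lit 1) (nat_lit 5) (nat_lit 3) (nat_lit 4) (nat_lit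 1) (nat_lit 4) (nat_lit 319) (nat_lit 214) (nat_lit 187)) (XT.lf (nat_lit 0) (nat_lit 146180941195) (nat_lit 152) (nat_lit 314033186742) (nat_lit 0) (nat_lit 143301135048) (nat_lit 1) (nat_lit 5) (nat_lit 3) (nat_lit 4) (nat_lit 1) (nat_lit 4) (nat_lit 320) (nat_lit 214) (nat_lit 186))))) (XT.nd (nat_lit 156) (nat_lit 0) (nat_lit 0) (XT.nd (nat_lit 78) (nat_lit 0) (nat_lit 0) (XT.lf (nat_lit 0) (nat_lit 159354130815) (nat_lit 152) (nat_lit 335907851218) (nat_lit 0) (nat_lit 156446356136) (nat_lit 1) (nat_lit 5) (nat_lit 3) (nat_lit 4) (nat_lit 1) (nat_lit 4) (nat_lit 321) (nat_lit 214) (nat_lit 185)) (XT.lf (nat_lit 0) (nat_lit 173557662812) (nat_lit 152) (nat_lit 359576396816) (nat_lit 0) (nat_lit 170623991343) (nat_lit 1) (nat_lit 5) (nat_lit 3) (nat_lit 4) (nat_lit 1) (nat_lit 4) (nat_lit 322) (nat_lit 214) (nat_lit 184))) (XT.nd (nat_lit 78) (nat_lit 0) (nat_lit 0) (XT.lf (nat_lit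 0) (nat_lit 188875706261) (nat_lit 152) (nat_lit 385179081583) (nat_lit 0) (nat_lit 185918056284) (nat_lit 1) (nat_lit 5) (nat_lit 3) (nat_lit 4) (nat_lit 1) (nat_lit 4) (nat_lit 323) (nat_lit 214) (nat_lit 183)) (XT.nd (nat_lit 78) (nat_lit 0) (nat_lit 0) (XT.lf (nat_lit 0) (nat_lit 205399034756) (nat_lit 152) (nat_lit 412867625133) (nat_lit 0) (nat_lit 202419182455) (nat_lit 1) (nat_lit 5) (nat_lit 3) (nat_lit 4) (nat_lit 1) (nat_lit 4) (nat_lit 324) (nat_lit 214) (nat_lit 182)) (XT.lf (nat_lit 0) (nat_lit 223225564315) (nat_lit 152) (nat_lit 442806107723) (nat_lit 0) (nat_lit 220225154308) (nat_lit 1) (nat_lit 5) (nat_lit 3) (nat_lit 4) (nat_lit 1) (nat_lit 4) (nat_lit 325) (nat_lit 214) (nat_lit 181))))))) (XT.nd (nat_lit 35334) (nat_lit 0) (nat_lit 0) (XT.nd (nat_lit 34944) (nat_lit 0) (nat_lit 0) (XT.nd (nat_lit 34788) (nat_lit 0) (nat_lit 152) (XT.nd (nat_lit 34710) (nat_lit 0)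 (nat_lit 152) (XT.lf (nat_lit 0) (nat_lit 242460933634) (nat_lit 152) (nat_lit 475171942583) (nat_lit 0) (nat_lit 239441488714) (nat_lit 1) (nat_lit 5) (nat_lit 3) (nat_lit 4) (nat_lit 1) (nat_lit 4) (nat_lit 326) (nat_lit 214) (nat_lit 180)) (XT.lf (nat_lit 0) (nat_lit 12484410722) (nat_lit 76) (nat_lit 9198436235) (nat_lit 76) (nat_lit 9198436235) (nat_lit 3) (nat_lit 4) (nat_lit 4) (nat_lit 5) (nat_lit 4) (nat_lit 4) (nat_lit 290) (nat_lit 215) (nat_lit 215))) (XT.nd (nat_lit 78) (nat_lit 0) (nat_lit 0) (XT.lf (nat_lit 0) (nat_lit 34782642679) (nat_lit 76) (nat_lit 15989847092) (nat_lit 76) (nat_lit 15716227059) (nat_lit 3) (nat_lit 4) (nat_lit 4) (nat_lit 5) (nat_lit 4) (nat_lit 4) (nat_lit 291) (nat_lit 215) (nat_lit 214)) (XT.lf (nat_lit 0) (nat_lit 45000464685) (nat_lit 76) (nat_lit 13564971176) (nat_lit 76) (nat_lit 13037999261) (nat_lit 3) (nat_lit 4) (nat_lit 4) (nat_lit 5)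 (nat_lit 4) (nat_lit 4) (nat_lit 292) (nat_lit 215) (nat_lit 213)))) (XT.nd (nat_lit 156) (nat_lit 152) (nat_lit 0) (XT.nd (nat_lit 78) (nat_lit 0) (nat_lit 0) (XT.lf (nat_lit 0) (nat_lit 55682837516) (nat_lit 76) (nat_lit 11107875088) (nat_lit 76) (nat_lit 10346318098) (nat_lit 3) (nat_lit 4) (nat_lit 4) (nat_lit 5) (nat_lit 4) (nat_lit 4) (nat_lit 293) (nat_lit 215) (nat_lit 212)) (XT.lf (nat_lit 0) (nat_lit 66893064123) (nat_lit 76) (nat_lit 8603998259) (nat_lit 76) (nat_lit 7625232866) (nat_lit 3) (nat_lit 4) (nat_lit 4) (nat_lit 5) (nat_lit 4) (nat_lit 4) (nat_lit 294) (nat_lit 215) (nat_lit 211))) (XT.nd (nat_lit 78) (nat_lit 152) (nat_lit 0) (XT.lf (nat_lit 0) (nat_lit 78697575479) (nat_lit 76) (nat_lit 6038502901) (nat_lit 76) (nat_lit 4858618616) (nat_lit 3) (nat_lit 4) (nat_lit 4) (nat_lit 5) (nat_lit 4) (nat_lit 4) (nat_lit 295) (nat_lit 215) (nat_lit 210)) (XT.nd (nat_lit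 78) (nat_lit 152) (nat_lit 0) (XT.lf (nat_lit 0) (nat_lit 91166324243) (nat_lit 76) (nat_lit 3396186078) (nat_lit 76) (nat_lit 2030080596) (nat_lit 3) (nat_lit 4) (nat_lit 4) (nat_lit 5) (nat_lit 4) (nat_lit 4) (nat_lit 296) (nat_lit 215) (nat_lit 209)) (XT.lf (nat_lit 0) (nat_lit 208739594) (nat_lit 76) (nat_lit 643588264) (nat_lit 152) (nat_lit 103304270473) (nat_lit 1) (nat_lit 5) (nat_lit 2) (nat_lit 5) (nat_lit 3) (nat_lit 4) (nat_lit 297) (nat_lit 215) (nat_lit 208)))))) (XT.nd (nat_lit 390) (nat_lit 0) (nat_lit 0) (XT.nd (nat_lit 156) (nat_lit 0) (nat_lit 0) (XT.nd (nat_lit 78) (nat_lit 0) (nat_lit 0) (XT.lf (nat_lit 0) (nat_lit 3889538412) (nat_lit 152) (nat_lit 106162633664) (nat_lit 0) (nat_lit 2272217291) (nat_lit 1) (nat_lit 5) (nat_lit 3) (nat_lit 4) (nat_lit 1) (nat_lit 4) (nat_lit 298) (nat_lit 215) (nat_lit 207)) (XT.lf (nat_lit 0) (nat_lit 7052749626) (nat_lit 152) (nat_lit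 108804150074) (nat_lit 0) (nat_lit 5294639564) (nat_lit 1) (nat_lit 5) (nat_lit 3) (nat_lit 4) (nat_lit 1) (nat_lit 4) (nat_lit 299) (nat_lit 215) (nat_lit 206))) (XT.nd (nat_lit 78) (nat_lit 0) (nat_lit 0) (XT.lf (nat_lit 0) (nat_lit 10350658241) (nat_lit 152) (nat_lit 111878013180) (nat_lit 0) (nat_lit 8462188046) (nat_lit 1) (nat_lit 5) (nat_lit 3) (nat_lit 4) (nat_lit 1) (nat_lit 4) (nat_lit 300) (nat_lit 215) (nat_lit 205)) (XT.nd (nat_lit 78) (nat_lit 0) (nat_lit 0) (XT.lf (nat_lit 0) (nat_lit 13802807418) (nat_lit 152) (nat_lit 115402438469) (nat_lit 0) (nat_lit 11793633397) (nat_lit 1) (nat_lit 5) (nat_lit 3) (nat_lit 4) (nat_lit 1) (nat_lit 4) (nat_lit 301) (nat_lit 215) (nat_lit 204)) (XT.lf (nat_lit 0) (nat_lit 17429654337) (nat_lit 152) (nat_lit 119398311422) (nat_lit 0) (nat_lit 15308717515) (nat_lit 1) (nat_lit 5) (nat_lit 3) (nat_lit 4) (nat_lit 1) (nat_lit 4) (nat_lit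 302) (nat_lit 215) (nat_lit 203))))) (XT.nd (nat_lit 156) (nat_lit 0) (nat_lit 0) (XT.nd (nat_lit 78) (nat_lit 0) (nat_lit 0) (XT.lf (nat_lit 0) (nat_lit 21252691425) (nat_lit 152) (nat_lit 123889311287) (nat_lit 0) (nat_lit 19028270527) (nat_lit 1) (nat_lit 5) (nat_lit 3) (nat_lit 4) (nat_lit 1) (nat_lit 4) (nat_lit 303) (nat_lit 215) (nat_lit 202)) (XT.lf (nat_lit 0) (nat_lit 25294573715) (nat_lit 152) (nat_lit 128902051397) (nat_lit 0) (nat_lit 22974334229) (nat_lit 1) (nat_lit 5) (nat_lit 3) (nat_lit 4) (nat_lit 1) (nat_lit 4) (nat_lit 304) (nat_lit 215) (nat_lit 201))) (XT.nd (nat_lit 78) (nat_lit 0) (nat_lit 0) (XT.lf (nat_lit 0) (nat_lit 29579253105) (nat_lit 152) (nat_lit 134466236878) (nat_lit 0) (nat_lit 27170292702) (nat_lit 1) (nat_lit 5) (nat_lit 3) (nat_lit 4) (nat_lit 1) (nat_lit 4) (nat_lit 305) (nat_lit 215) (nat_lit 200)) (XT.nd (nat_lit 78) (nat_lit 0) (nat_lit 0) (XT.lf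 (nat_lit 0) (nat_lit 34132120284) (nat_lit 152) (nat_lit 140614840681) (nat_lit 0) (nat_lit 31641010887) (nat_lit 1) (nat_lit 5) (nat_lit 3) (nat_lit 4) (nat_lit 1) (nat_lit 4) (nat_lit 306) (nat_lit 215) (nat_lit 199)) (XT.lf (nat_lit 0) (nat_lit 38980155209) (nat_lit 152) (nat_lit 147384298977) (nat_lit 0) (nat_lit 36412981926) (nat_lit 1) (nat_lit 5) (nat_lit 3) (nat_lit 4) (nat_lit 1) (nat_lit 4) (nat_lit 307) (nat_lit 215) (nat_lit 198))))))))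
noncomputable def xc9 : XT := (XT.nd (nat_lit 35958) (nat_lit 0) (nat_lit 0) (XT.nd (nat_lit 702) (nat_lit 0) (nat_lit 0) (XT.nd (nat_lit 312) (nat_lit 0) (nat_lit 0) (XT.nd (nat_lit 156) (nat_lit 0) (nat_lit 0) (XT.nd (nat_lit 78) (nat_lit 0) (nat_lit 0) (XT.lf (nat_lit 0) (nat_lit 44152086974) (nat_lit 152) (nat_lit 154814727075) (nat_lit 0) (nat_lit 41514484168) (nat_lit 1) (nat_lit 5) (nat_lit 3) (nat_lit 4) (nat_lit 1) (nat_lit 4) (nat_lit 308) (nat_lit 215) (nat_lit 197)) (XT.lf (nat_lit 0) (nat_lit 49678564064) (nat_lit 152) (nat_lit 162950157140) (nat_lit 0) (nat_lit 46975748736) (nat_lit 1) (nat_lit 5) (nat_lit 3) (nat_lit 4) (nat_lit 1) (nat_lit 4) (nat_lit 309) (nat_lit 215) (nat_lit 196))) (XT.nd (nat_lit 78) (nat_lit 0) (nat_lit 0) (XT.lf (nat_lit 0) (nat_lit 55592335972) (nat_lit 152) (nat_lit 171838799129) (nat_lit 0) (nat_lit 52829138681) (nat_lit 1) (nat_lit 5) (nat_lit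 3) (nat_lit 4) (nat_lit 1) (nat_lit 4) (nat_lit 310) (nat_lit 215) (nat_lit 195)) (XT.lf (nat_lit 0) (nat_lit 61928447274) (nat_lit 152) (nat_lit 181533326476) (nat_lit 0) (nat_lit 59109340756) (nat_lit 1) (nat_lit 5) (nat_lit 3) (nat_lit 4) (nat_lit 1) (nat_lit 4) (nat_lit 311) (nat_lit 215) (nat_lit 194)))) (XT.nd (nat_lit 156) (nat_lit 0) (nat_lit 0) (XT.nd (nat_lit 78) (nat_lit 0) (nat_lit 0) (XT.lf (nat_lit 0) (nat_lit 68724445295) (nat_lit 152) (nat_lit 192091188231) (nat_lit 0) (nat_lit 65853570975) (nat_lit 1) (nat_lit 5) (nat_lit 3) (nat_lit 4) (nat_lit 1) (nat_lit 4) (nat_lit 312) (nat_lit 215) (nat_lit 193)) (XT.lf (nat_lit 0) (nat_lit 76020602616) (nat_lit 152) (nat_lit 203574949502) (nat_lit 0) (nat_lit 73101795147) (nat_lit 1) (nat_lit 5) (nat_lit 3) (nat_lit 4) (nat_lit 1) (nat_lit 4) (nat_lit 313) (nat_lit 215) (nat_lit 192))) (XT.nd (nat_lit 78) (nat_lit 0) (nat_lit 0)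 (XT.lf (nat_lit 0) (nat_lit 83860155725) (nat_lit 152) (nat_lit 216052662207) (nat_lit 0) (nat_lit 80896965710) (nat_lit 1) (nat_lit 5) (nat_lit 3) (nat_lit 4) (nat_lit 1) (nat_lit 4) (nat_lit 314) (nat_lit 215) (nat_lit 191)) (XT.nd (nat_lit 78) (nat_lit 0) (nat_lit 0) (XT.lf (nat_lit 0) (nat_lit 92289561233) (nat_lit 152) (nat_lit 229598268347) (nat_lit 0) (nat_lit 89285276267) (nat_lit 1) (nat_lit 5) (nat_lit 3) (nat_lit 4) (nat_lit 1) (nat_lit 4) (nat_lit 315) (nat_lit 215) (nat_lit 190)) (XT.lf (nat_lit 0) (nat_lit 101358771173) (nat_lit 152) (nat_lit 244292038181) (nat_lit 0) (nat_lit 98316435327) (nat_lit 1) (nat_lit 5) (nat_lit 3) (nat_lit 4) (nat_lit 1) (nat_lit 4) (nat_lit 316) (nat_lit 215) (nat_lit 189)))))) (XT.nd (nat_lit 390) (nat_lit 0) (nat_lit 0) (XT.nd (nat_lit 156) (nat_lit 0) (nat_lit 0) (XT.nd (nat_lit 78) (nat_lit 0) (nat_lit 0) (XT.lf (nat_lit 0) (nat_lit 111121529011)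 (nat_lit 152) (nat_lit 260221045900) (nat_lit 0) (nat_lit 108043960869) (nat_lit 1) (nat_lit 5) (nat_lit 3) (nat_lit 4) (nat_lit 1) (nat_lit 4) (nat_lit 317) (nat_lit 215) (nat_lit 188)) (XT.lf (nat_lit 0) (nat_lit 121635688127) (nat_lit 152) (nat_lit 277479685625) (nat_lit 0) (nat_lit 118525497488) (nat_lit 1) (nat_lit 5) (nat_lit 3) (nat_lit 4) (nat_lit 1) (nat_lit 4) (nat_lit 318) (nat_lit 215) (nat_lit 187))) (XT.nd (nat_lit 78) (nat_lit 0) (nat_lit 0) (XT.lf (nat_lit 0) (nat_lit 132963554648) (nat_lit 152) (nat_lit 296170230776) (nat_lit 0) (nat_lit 129823157994) (nat_lit 1) (nat_lit 5) (nat_lit 3) (nat_lit 4) (nat_lit 1) (nat_lit 4) (nat_lit 319) (nat_lit 215) (nat_lit 186)) (XT.nd (nat_lit 78) (nat_lit 0) (nat_lit 0) (XT.lf (nat_lit 0) (nat_lit 145172256673) (nat_lit 152) (nat_lit 316403440138) (nat_lit 0) (nat_lit 142003891487) (nat_lit 1) (nat_lit 5) (nat_lit 3) (nat_lit 4) (nat_lit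 1) (nat_lit 4) (nat_lit 320) (nat_lit 215) (nat_lit 185)) (XT.lf (nat_lit 0) (nat_lit 158334142066) (nat_lit 152) (nat_lit 338299214213) (nat_lit 0) (nat_lit 155139880090) (nat_lit 1) (nat_lit 5) (nat_lit 3) (nat_lit 4) (nat_lit 1) (nat_lit 4) (nat_lit 321) (nat_lit 215) (nat_lit 184))))) (XT.nd (nat_lit 156) (nat_lit 0) (nat_lit 0) (XT.nd (nat_lit 78) (nat_lit 0) (nat_lit 0) (XT.lf (nat_lit 0) (nat_lit 172527207184) (nat_lit 152) (nat_lit 361987305734) (nat_lit 0) (nat_lit 169308966699) (nat_lit 1) (nat_lit 5) (nat_lit 3) (nat_lit 4) (nat_lit 1) (nat_lit 4) (nat_lit 322) (nat_lit 215) (nat_lit 183)) (XT.lf (nat_lit 0) (nat_lit 187835559080) (nat_lit 152) (nat_lit 387608088579) (nat_lit 0) (nat_lit 184595116273) (nat_lit 1) (nat_lit 5) (nat_lit 3) (nat_lit 4) (nat_lit 1) (nat_lit 4) (nat_lit 323) (nat_lit 215) (nat_lit 182))) (XT.nd (nat_lit 78) (nat_lit 0) (nat_lit 0) (XT.lf (nat_lit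 0) (nat_lit 204349913914) (nat_lit 152) (nat_lit 415313389607) (nat_lit 0) (nat_lit 201088913400) (nat_lit 1) (nat_lit 5) (nat_lit 3) (nat_lit 4) (nat_lit 1) (nat_lit 4) (nat_lit 324) (nat_lit 215) (nat_lit 181)) (XT.nd (nat_lit 78) (nat_lit 0) (nat_lit 0) (XT.lf (nat_lit 0) (nat_lit 222168134529) (nat_lit 152) (nat_lit 445267388382) (nat_lit 0) (nat_lit 218888099101) (nat_lit 1) (nat_lit 5) (nat_lit 3) (nat_lit 4) (nat_lit 1) (nat_lit 4) (nat_lit 325) (nat_lit 215) (nat_lit 180)) (XT.lf (nat_lit 0) (nat_lit 241395810379) (nat_lit 152) (nat_lit 477647590080) (nat_lit 0) (nat_lit 238098150032) (nat_lit 1) (nat_lit 5) (nat_lit 3) (nat_lit 4) (nat_lit 1) (nat_lit 4) (nat_lit 326) (nat_lit 215) (nat_lit 179))))))) (XT.nd (nat_lit 702) (nat_lit 152) (nat_lit 0) (XT.nd (nat_lit 312) (nat_lit 0) (nat_lit 0) (XT.nd (nat_lit 156) (nat_lit 0) (nat_lit 0) (XT.nd (nat_lit 78) (nat_lit 0) (nat_lit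 0) (XT.lf (nat_lit 0) (nat_lit 3268159369) (nat_lit 76) (nat_lit 11705971294) (nat_lit 76) (nat_lit 11705971294) (nat_lit 3) (nat_lit 4) (nat_lit 4) (nat_lit 5) (nat_lit 4) (nat_lit 4) (nat_lit 288) (nat_lit 216) (nat_lit 216)) (XT.lf (nat_lit 0) (nat_lit 15500845000) (nat_lit 76) (nat_lit 21095820803) (nat_lit 76) (nat_lit 20800311168) (nat_lit 3) (nat_lit 4) (nat_lit 4) (nat_lit 5) (nat_lit 4) (nat_lit 4) (nat_lit 289) (nat_lit 216) (nat_lit 215))) (XT.nd (nat_lit 78) (nat_lit 0) (nat_lit 0) (XT.lf (nat_lit 0) (nat_lit 24770940038) (nat_lit 76) (nat_lit 18783097689) (nat_lit 76) (nat_lit 18213968022) (nat_lit 3) (nat_lit 4) (nat_lit 4) (nat_lit 5) (nat_lit 4) (nat_lit 4) (nat_lit 290) (nat_lit 216) (nat_lit 214)) (XT.lf (nat_lit 0) (nat_lit 34401537750) (nat_lit 76) (nat_lit 16460068220) (nat_lit 76) (nat_lit 15637586671) (nat_lit 3) (nat_lit 4) (nat_lit 4) (nat_lit 5) (nat_lit 4) (nat_lit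 4) (nat_lit 291) (nat_lit 216) (nat_lit 213)))) (XT.nd (nat_lit 156) (nat_lit 0) (nat_lit 0) (XT.nd (nat_lit 78) (nat_lit 0) (nat_lit 0) (XT.lf (nat_lit 0) (nat_lit 44449708345) (nat_lit 76) (nat_lit 14112966296) (nat_lit 76) (nat_lit 13055899671) (nat_lit 3) (nat_lit 4) (nat_lit 4) (nat_lit 5) (nat_lit 4) (nat_lit 4) (nat_lit 292) (nat_lit 216) (nat_lit 212)) (XT.lf (nat_lit 0) (nat_lit 54974996536) (nat_lit 76) (nat_lit 11727883163) (nat_lit 76) (nat_lit 10453608134) (nat_lit 3) (nat_lit 4) (nat_lit 4) (nat_lit 5) (nat_lit 4) (nat_lit 4) (nat_lit 293) (nat_lit 216) (nat_lit 211))) (XT.nd (nat_lit 78) (nat_lit 0) (nat_lit 0) (XT.lf (nat_lit 0) (nat_lit 66039774403) (nat_lit 76) (nat_lit 9290684996) (nat_lit 76) (nat_lit 7815291076) (nat_lit 3) (nat_lit 4) (nat_lit 4) (nat_lit 5) (nat_lit 4) (nat_lit 4) (nat_lit 294) (nat_lit 216) (nat_lit 210)) (XT.nd (nat_lit 78) (nat_lit 0) (nat_lit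 0) (XT.lf (nat_lit 0) (nat_lit 77709610999) (nat_lit 76) (nat_lit 6786929140) (nat_lit 76) (nat_lit 5125314023) (nat_lit 3) (nat_lit 4) (nat_lit 4) (nat_lit 5) (nat_lit 4) (nat_lit 4) (nat_lit 295) (nat_lit 216) (nat_lit 209)) (XT.lf (nat_lit 0) (nat_lit 90053660912) (nat_lit 76) (nat_lit 4201778522) (nat_lit 76) (nat_lit 2367736371) (nat_lit 3) (nat_lit 4) (nat_lit 4) (nat_lit 5) (nat_lit 4) (nat_lit 4) (nat_lit 296) (nat_lit 216) (nat_lit 208)))))) (XT.nd (nat_lit 390) (nat_lit 0) (nat_lit 0) (XT.nd (nat_lit 156) (nat_lit 0) (nat_lit 0) (XT.nd (nat_lit 78) (nat_lit 76) (nat_lit 0) (XT.lf (nat_lit 0) (nat_lit 458619062) (nat_lit 152) (nat_lit 1053527733) (nat_lit 76) (nat_lit 102678688069) (nat_lit 2) (nat_lit 5) (nat_lit 4) (nat_lit 5) (nat_lit 3) (nat_lit 4) (nat_lit 297) (nat_lit 216) (nat_lit 207)) (XT.lf (nat_lit 0) (nat_lit 3403542143) (nat_lit 152) (nat_lit 107595745514) (nat_lit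 0) (nat_lit 1363994333) (nat_lit 1) (nat_lit 5) (nat_lit 3) (nat_lit 4) (nat_lit 1) (nat_lit 4) (nat_lit 298) (nat_lit 216) (nat_lit 206))) (XT.nd (nat_lit 78) (nat_lit 0) (nat_lit 0) (XT.lf (nat_lit 0) (nat_lit 6509849754) (nat_lit 152) (nat_lit 110343524127) (nat_lit 0) (nat_lit 4339941811) (nat_lit 1) (nat_lit 5) (nat_lit 3) (nat_lit 4) (nat_lit 1) (nat_lit 4) (nat_lit 299) (nat_lit 216) (nat_lit 205)) (XT.nd (nat_lit 78) (nat_lit 0) (nat_lit 0) (XT.lf (nat_lit 0) (nat_lit 9755069846) (nat_lit 152) (nat_lit 113515778163) (nat_lit 0) (nat_lit 7464458077) (nat_lit 1) (nat_lit 5) (nat_lit 3) (nat_lit 4) (nat_lit 1) (nat_lit 4) (nat_lit 300) (nat_lit 216) (nat_lit 204)) (XT.lf (nat_lit 0) (nat_lit 13158433353) (nat_lit 152) (nat_lit 117131306164) (nat_lit 0) (nat_lit 10756058783) (nat_lit 1) (nat_lit 5) (nat_lit 3) (nat_lit 4) (nat_lit 1) (nat_lit 4) (nat_lit 301) (nat_lit 216) (nat_lit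 203))))) (XT.nd (nat_lit 156) (nat_lit 0) (nat_lit 0) (XT.nd (nat_lit 78) (nat_lit 0) (nat_lit 0) (XT.lf (nat_lit 0) (nat_lit 16740108356) (nat_lit 152) (nat_lit 121211533480) (nat_lit 0) (nat_lit 14234249711) (nat_lit 1) (nat_lit 5) (nat_lit 3) (nat_lit 4) (nat_lit 1) (nat_lit 4) (nat_lit 302) (nat_lit 216) (nat_lit 202)) (XT.lf (nat_lit 0) (nat_lit 20521319596) (nat_lit 152) (nat_lit 125780639238) (nat_lit 0) (nat_lit 17919642362) (nat_lit 1) (nat_lit 5) (nat_lit 3) (nat_lit 4) (nat_lit 1) (nat_lit 4) (nat_lit 303) (nat_lit 216) (nat_lit 201))) (XT.nd (nat_lit 78) (nat_lit 0) (nat_lit 0) (XT.lf (nat_lit 0) (nat_lit 24524474250) (nat_lit 152) (nat_lit 130865699618) (nat_lit 0) (nat_lit 21834076100) (nat_lit 1) (nat_lit 5) (nat_lit 3) (nat_lit 4) (nat_lit 1) (nat_lit 4) (nat_lit 304) (nat_lit 216) (nat_lit 200)) (XT.nd (nat_lit 78) (nat_lit 0) (nat_lit 0) (XT.lf (nat_lit 0) (nat_lit 28773294716)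 (nat_lit 152) (nat_lit 136496848312) (nat_lit 0) (nat_lit 26000747570) (nat_lit 1) (nat_lit 5) (nat_lit 3) (nat_lit 4) (nat_lit 1) (nat_lit 4) (nat_lit 305) (nat_lit 216) (nat_lit 199)) (XT.lf (nat_lit 0) (nat_lit 33292959189) (nat_lit 152) (nat_lit 142707455091) (nat_lit 0) (nat_lit 30444348159) (nat_lit 1) (nat_lit 5) (nat_lit 3) (nat_lit 4) (nat_lit 1) (nat_lit 4) (nat_lit 306) (nat_lit 216) (nat_lit 198))))))))
noncomputable def xc10 : XT := (XT.nd (nat_lit 1482) (nat_lit 0) (nat_lit 0) (XT.nd (nat_lit 702) (nat_lit 0) (nat_lit 0) (XT.nd (nat_lit 312) (nat_lit 0) (nat_lit 0) (XT.nd (nat_lit 156) (nat_lit 0) (nat_lit 0) (XT.nd (nat_lit 78) (nat_lit 0) (nat_lit 0) (XT.lf (nat_lit 0) (nat_lit 38110250867) (nat_lit 152) (nat_lit 149534323549) (nat_lit 0) (nat_lit 35191210313) (nat_lit 1) (nat_lit 5) (nat_lit 3) (nat_lit 4) (nat_lit 1) (nat_lit 4) (nat_lit 307) (nat_lit 216) (nat_lit 197))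 (XT.lf (nat_lit 0) (nat_lit 43253716662) (nat_lit 152) (nat_lit 157017909204) (nat_lit 0) (nat_lit 40269463587) (nat_lit 1) (nat_lit 5) (nat_lit 3) (nat_lit 4) (nat_lit 1) (nat_lit 4) (nat_lit 308) (nat_lit 216) (nat_lit 196))) (XT.nd (nat_lit 78) (nat_lit 0) (nat_lit 0) (XT.lf (nat_lit 0) (nat_lit 48753836373) (nat_lit 152) (nat_lit 165202559230) (nat_lit 0) (nat_lit 45709201334) (nat_lit 1) (nat_lit 5) (nat_lit 3) (nat_lit 4) (nat_lit 1) (nat_lit 4) (nat_lit 309) (nat_lit 216) (nat_lit 195)) (XT.lf (nat_lit 0) (nat_lit 54643203301) (nat_lit 152) (nat_lit 174136775257) (nat_lit 0) (nat_lit 51542659036) (nat_lit 1) (nat_lit 5) (nat_lit 3) (nat_lit 4) (nat_lit 1) (nat_lit 4) (nat_lit 310) (nat_lit 216) (nat_lit 194)))) (XT.nd (nat_lit 156) (nat_lit 0) (nat_lit 0) (XT.nd (nat_lit 78) (nat_lit 0) (nat_lit 0) (XT.lf (nat_lit 0) (nat_lit 60956717398) (nat_lit 152) (nat_lit 183873500787) (nat_lit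 0) (nat_lit 57804405331) (nat_lit 1) (nat_lit 5) (nat_lit 3) (nat_lit 4) (nat_lit 1) (nat_lit 4) (nat_lit 311) (nat_lit 216) (nat_lit 193)) (XT.lf (nat_lit 0) (nat_lit 67731792082) (nat_lit 152) (nat_lit 194470434934) (nat_lit 0) (nat_lit 64531546865) (nat_lit 1) (nat_lit 5) (nat_lit 3) (nat_lit 4) (nat_lit 1) (nat_lit 4) (nat_lit 312) (nat_lit 216) (nat_lit 192))) (XT.nd (nat_lit 78) (nat_lit 0) (nat_lit 0) (XT.lf (nat_lit 0) (nat_lit 75008575943) (nat_lit 152) (nat_lit 205990374346) (nat_lit 0) (nat_lit 71763948180) (nat_lit 1) (nat_lit 5) (nat_lit 3) (nat_lit 4) (nat_lit 1) (nat_lit 4) (nat_lit 313) (nat_lit 216) (nat_lit 191)) (XT.nd (nat_lit 78) (nat_lit 0) (nat_lit 0) (XT.lf (nat_lit 0) (nat_lit 82830190663) (nat_lit 152) (nat_lit 218501585329) (nat_lit 0) (nat_lit 79544467949) (nat_lit 1) (nat_lit 5) (nat_lit 3) (nat_lit 4) (nat_lit 1) (nat_lit 4) (nat_lit 314) (nat_lit 216) (nat_lit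 190)) (XT.lf (nat_lit 0) (nat_lit 91242986551) (nat_lit 152) (nat_lit 232078208393) (nat_lit 0) (nat_lit 87919212958) (nat_lit 1) (nat_lit 5) (nat_lit 3) (nat_lit 4) (nat_lit 1) (nat_lit 4) (nat_lit 315) (nat_lit 216) (nat_lit 189)))))) (XT.nd (nat_lit 390) (nat_lit 0) (nat_lit 0) (XT.nd (nat_lit 156) (nat_lit 0) (nat_lit 0) (XT.nd (nat_lit 78) (nat_lit 0) (nat_lit 0) (XT.lf (nat_lit 0) (nat_lit 100296817214) (nat_lit 152) (nat_lit 246800697602) (nat_lit 0) (nat_lit 96937811324) (nat_lit 1) (nat_lit 5) (nat_lit 3) (nat_lit 4) (nat_lit 1) (nat_lit 4) (nat_lit 316) (nat_lit 216) (nat_lit 188)) (XT.lf (nat_lit 0) (nat_lit 110045334980) (nat_lit 152) (nat_lit 262756297334) (nat_lit 0) (nat_lit 106653706593) (nat_lit 1) (nat_lit 5) (nat_lit 3) (nat_lit 4) (nat_lit 1) (nat_lit 4) (nat_lit 317) (nat_lit 216) (nat_lit 187))) (XT.nd (nat_lit 78) (nat_lit 0) (nat_lit 0) (XT.lf (nat_lit 0) (nat_lit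 120546308843) (nat_lit 152) (nat_lit 280039559294) (nat_lit 0) (nat_lit 117124474442) (nat_lit 1) (nat_lit 5) (nat_lit 3) (nat_lit 4) (nat_lit 1) (nat_lit 4) (nat_lit 318) (nat_lit 216) (nat_lit 186)) (XT.nd (nat_lit 78) (nat_lit 0) (nat_lit 0) (XT.lf (nat_lit 0) (nat_lit 131861966799) (nat_lit 152) (nat_lit 298752902810) (nat_lit 0) (nat_lit 128412163865) (nat_lit 1) (nat_lit 5) (nat_lit 3) (nat_lit 4) (nat_lit 1) (nat_lit 4) (nat_lit 319) (nat_lit 216) (nat_lit 185)) (XT.lf (nat_lit 0) (nat_lit 144059364596) (nat_lit 152) (nat_lit 319007221770) (nat_lit 0) (nat_lit 140583664872) (nat_lit 1) (nat_lit 5) (nat_lit 3) (nat_lit 4) (nat_lit 1) (nat_lit 4) (nat_lit 320) (nat_lit 216) (nat_lit 184))))) (XT.nd (nat_lit 156) (nat_lit 0) (nat_lit 0) (XT.nd (nat_lit 78) (nat_lit 0) (nat_lit 0) (XT.lf (nat_lit 0) (nat_lit 157210783110) (nat_lit 152) (nat_lit 340922541768) (nat_lit 0) (nat_lit 153711104878)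 (nat_lit 1) (nat_lit 5) (nat_lit 3) (nat_lit 4) (nat_lit 1) (nat_lit 4) (nat_lit 321) (nat_lit 216) (nat_lit 183)) (XT.lf (nat_lit 0) (nat_lit 171394156675) (nat_lit 152) (nat_lit 364628731367) (nat_lit 0) (nat_lit 167872276120) (nat_lit 1) (nat_lit 5) (nat_lit 3) (nat_lit 4) (nat_lit 1) (nat_lit 4) (nat_lit 322) (nat_lit 216) (nat_lit 182))) (XT.nd (nat_lit 78) (nat_lit 0) (nat_lit 0) (XT.lf (nat_lit 0) (nat_lit 186693534911) (nat_lit 152) (nat_lit 390266271691) (nat_lit 0) (nat_lit 183151096649) (nat_lit 1) (nat_lit 5) (nat_lit 3) (nat_lit 4) (nat_lit 1) (nat_lit 4) (nat_lit 323) (nat_lit 216) (nat_lit 181)) (XT.nd (nat_lit 78) (nat_lit 0) (nat_lit 0) (XT.lf (nat_lit 0) (nat_lit 203199580799) (nat_lit 152) (nat_lit 417987088903) (nat_lit 0) (nat_lit 199638107624) (nat_lit 1) (nat_lit 5) (nat_lit 3) (nat_lit 4) (nat_lit 1) (nat_lit 4) (nat_lit 324) (nat_lit 216) (nat_lit 180)) (XT.lf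 (nat_lit 0) (nat_lit 221010107946) (nat_lit 152) (nat_lit 447955454515) (nat_lit 0) (nat_lit 217431009851) (nat_lit 1) (nat_lit 5) (nat_lit 3) (nat_lit 4) (nat_lit 1) (nat_lit 4) (nat_lit 325) (nat_lit 216) (nat_lit 179))))))) (XT.nd (nat_lit 35022) (nat_lit 0) (nat_lit 0) (XT.nd (nat_lit 34632) (nat_lit 0) (nat_lit 152) (XT.nd (nat_lit 34476) (nat_lit 0) (nat_lit 152) (XT.nd (nat_lit 34398) (nat_lit 0) (nat_lit 228) (XT.lf (nat_lit 0) (nat_lit 240230660216) (nat_lit 152) (nat_lit 480348958840) (nat_lit 0) (nat_lit 236635242751) (nat_lit 1) (nat_lit 5) (nat_lit 3) (nat_lit 4) (nat_lit 1) (nat_lit 4) (nat_lit 326) (nat_lit 216) (nat_lit 178)) (XT.lf (nat_lit 0) (nat_lit 9014879899) (nat_lit 152) (nat_lit 5060775448) (nat_lit 0) (nat_lit 9014879899) (nat_lit 4) (nat_lit 5) (nat_lit 6) (nat_lit 4) (nat_lit 4) (nat_lit 4) (nat_lit 286) (nat_lit 217) (nat_lit 217))) (XT.nd (nat_lit 78) (nat_lit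 76) (nat_lit 0) (XT.lf (nat_lit 0) (nat_lit 23922546492) (nat_lit 152) (nat_lit 2106123895) (nat_lit 0) (nat_lit 23603396086) (nat_lit 4) (nat_lit 5) (nat_lit 6) (nat_lit 4) (nat_lit 4) (nat_lit 4) (nat_lit 287) (nat_lit 217) (nat_lit 216)) (XT.lf (nat_lit 0) (nat_lit 6322606821) (nat_lit 76) (nat_lit 23829065823) (nat_lit 76) (nat_lit 23214405783) (nat_lit 3) (nat_lit 4) (nat_lit 4) (nat_lit 5) (nat_lit 4) (nat_lit 4) (nat_lit 288) (nat_lit 217) (nat_lit 215)))) (XT.nd (nat_lit 156) (nat_lit 0) (nat_lit 0) (XT.nd (nat_lit 78) (nat_lit 0) (nat_lit 0) (XT.lf (nat_lit 0) (nat_lit 15089251676) (nat_lit 76) (nat_lit 21603659622) (nat_lit 76) (nat_lit 20715379549) (nat_lit 3) (nat_lit 4) (nat_lit 4) (nat_lit 5) (nat_lit 4) (nat_lit 4) (nat_lit 289) (nat_lit 217) (nat_lit 214)) (XT.lf (nat_lit 0) (nat_lit 24176123191) (nat_lit 76) (nat_lit 19374932419) (nat_lit 76) (nat_lit 18233300464) (nat_lit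 3) (nat_lit 4) (nat_lit 4) (nat_lit 5) (nat_lit 4) (nat_lit 4) (nat_lit 290) (nat_lit 217) (nat_lit 213))) (XT.nd (nat_lit 78) (nat_lit 0) (nat_lit 0) (XT.lf (nat_lit 0) (nat_lit 33637069492) (nat_lit 76) (nat_lit 17129676941) (nat_lit 76) (nat_lit 15753459911) (nat_lit 3) (nat_lit 4) (nat_lit 4) (nat_lit 5) (nat_lit 4) (nat_lit 4) (nat_lit 291) (nat_lit 217) (nat_lit 212)) (XT.nd (nat_lit 78) (nat_lit 0) (nat_lit 0) (XT.lf (nat_lit 0) (nat_lit 43528155447) (nat_lit 76) (nat_lit 14854587971) (nat_lit 76) (nat_lit 13261162537) (nat_lit 3) (nat_lit 4) (nat_lit 4) (nat_lit 5) (nat_lit 4) (nat_lit 4) (nat_lit 292) (nat_lit 217) (nat_lit 211)) (XT.lf (nat_lit 0) (nat_lit 53907994898) (nat_lit 76) (nat_lit 12536183500) (nat_lit 76) (nat_lit 10741639174) (nat_lit 3) (nat_lit 4) (nat_lit 4) (nat_lit 5) (nat_lit 4) (nat_lit 4) (nat_lit 293) (nat_lit 217) (nat_lit 210)))))) (XT.nd (nat_lit 390)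 (nat_lit 0) (nat_lit 0) (XT.nd (nat_lit 156) (nat_lit 152) (nat_lit 0) (XT.nd (nat_lit 78) (nat_lit 0) (nat_lit 0) (XT.lf (nat_lit 0) (nat_lit 64838098005) (nat_lit 76) (nat_lit 10160724835) (nat_lit 76) (nat_lit 8179959313) (nat_lit 3) (nat_lit 4) (nat_lit 4) (nat_lit 5) (nat_lit 4) (nat_lit 4) (nat_lit 294) (nat_lit 217) (nat_lit 209)) (XT.lf (nat_lit 0) (nat_lit 76383235750) (nat_lit 76) (nat_lit 7714135184) (nat_lit 76) (nat_lit 5560942628) (nat_lit 3) (nat_lit 4) (nat_lit 4) (nat_lit 5) (nat_lit 4) (nat_lit 4) (nat_lit 295) (nat_lit 217) (nat_lit 208))) (XT.nd (nat_lit 78) (nat_lit 152) (nat_lit 0) (XT.lf (nat_lit 0) (nat_lit 88611823763) (nat_lit 76) (nat_lit 5181916238) (nat_lit 76) (nat_lit 2869069021) (nat_lit 3) (nat_lit 4) (nat_lit 4) (nat_lit 5) (nat_lit 4) (nat_lit 4) (nat_lit 296) (nat_lit 217) (nat_lit 207)) (XT.nd (nat_lit 78) (nat_lit 152) (nat_lit 0) (XT.lf (nat_lit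 0) (nat_lit 101596327752) (nat_lit 76) (nat_lit 2549062254) (nat_lit 76) (nat_lit 88386648) (nat_lit 3) (nat_lit 4) (nat_lit 4) (nat_lit 5) (nat_lit 4) (nat_lit 4) (nat_lit 297) (nat_lit 217) (nat_lit 206)) (XT.lf (nat_lit 0) (nat_lit 2760306676) (nat_lit 152) (nat_lit 109364531695) (nat_lit 0) (nat_lit 286445966) (nat_lit 1) (nat_lit 5) (nat_lit 3) (nat_lit 4) (nat_lit 1) (nat_lit 4) (nat_lit 298) (nat_lit 217) (nat_lit 205))))) (XT.nd (nat_lit 156) (nat_lit 0) (nat_lit 0) (XT.nd (nat_lit 78) (nat_lit 0) (nat_lit 0) (XT.lf (nat_lit 0) (nat_lit 5813925764) (nat_lit 152) (nat_lit 112210701238) (nat_lit 0) (nat_lit 3219361228) (nat_lit 1) (nat_lit 5) (nat_lit 3) (nat_lit 4) (nat_lit 1) (nat_lit 4) (nat_lit 299) (nat_lit 217) (nat_lit 204)) (XT.lf (nat_lit 0) (nat_lit 9010360187) (nat_lit 152) (nat_lit 115474057986) (nat_lit 0) (nat_lit 6304032849) (nat_lit 1) (nat_lit 5) (nat_lit 3) (nat_lit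 4) (nat_lit 1) (nat_lit 4) (nat_lit 300) (nat_lit 217) (nat_lit 203))) (XT.nd (nat_lit 78) (nat_lit 0) (nat_lit 0) (XT.lf (nat_lit 0) (nat_lit 12368551778) (nat_lit 152) (nat_lit 119173940350) (nat_lit 0) (nat_lit 9558740365) (nat_lit 1) (nat_lit 5) (nat_lit 3) (nat_lit 4) (nat_lit 1) (nat_lit 4) (nat_lit 301) (nat_lit 217) (nat_lit 202)) (XT.nd (nat_lit 78) (nat_lit 0) (nat_lit 0) (XT.lf (nat_lit 0) (nat_lit 15908400934) (nat_lit 152) (nat_lit 123332273559) (nat_lit 0) (nat_lit 13002770932) (nat_lit 1) (nat_lit 5) (nat_lit 3) (nat_lit 4) (nat_lit 1) (nat_lit 4) (nat_lit 302) (nat_lit 217) (nat_lit 201)) (XT.lf (nat_lit 0) (nat_lit 19650884536) (nat_lit 152) (nat_lit 127973699586) (nat_lit 0) (nat_lit 16656533619) (nat_lit 1) (nat_lit 5) (nat_lit 3) (nat_lit 4) (nat_lit 1) (nat_lit 4) (nat_lit 303) (nat_lit 217) (nat_lit 200))))))))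
noncomputable def xc11 : XT := (XT.nd (nat_lit 1482) (nat_lit 0) (nat_lit 0) (XT.nd (nat_lit 702) (nat_lit 0) (nat_lit 0) (XT.nd (nat_lit 312) (nat_lit 0) (nat_lit 0) (XT.nd (nat_lit 156) (nat_lit 0) (nat_lit 0) (XT.nd (nat_lit 78) (nat_lit 0) (nat_lit 0) (XT.lf (nat_lit 0) (nat_lit 23618180267) (nat_lit 152) (nat_lit 133125723180) (nat_lit 0) (nat_lit 20541680354) (nat_lit 1) (nat_lit 5) (nat_lit 3) (nat_lit 4) (nat_lit 1) (nat_lit 4) (nat_lit 304) (nat_lit 217) (nat_lit 199)) (XT.lf (nat_lit 0) (nat_lit 27833798026) (nat_lit 152) (nat_lit 138818874850) (nat_lit 0) (nat_lit 24681234228) (nat_lit 1) (nat_lit 5) (nat_lit 3) (nat_lit 4) (nat_lit 1) (nat_lit 4) (nat_lit 305) (nat_lit 217) (nat_lit 198))) (XT.nd (nat_lit 78) (nat_lit 0) (nat_lit 0) (XT.lf (nat_lit 0) (nat_lit 32322719252) (nat_lit 152) (nat_lit 145086891790) (nat_lit 0) (nat_lit 29099725932) (nat_lit 1) (nat_lit 5) (nat_lit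 3) (nat_lit 4) (nat_lit 1) (nat_lit 4) (nat_lit 306) (nat_lit 217) (nat_lit 197)) (XT.lf (nat_lit 0) (nat_lit 37111544961) (nat_lit 152) (nat_lit 151966917807) (nat_lit 0) (nat_lit 33823339119) (nat_lit 1) (nat_lit 5) (nat_lit 3) (nat_lit 4) (nat_lit 1) (nat_lit 4) (nat_lit 307) (nat_lit 217) (nat_lit 196)))) (XT.nd (nat_lit 156) (nat_lit 0) (nat_lit 0) (XT.nd (nat_lit 78) (nat_lit 0) (nat_lit 0) (XT.lf (nat_lit 0) (nat_lit 42228653377) (nat_lit 152) (nat_lit 159499723423) (nat_lit 0) (nat_lit 38880065571) (nat_lit 1) (nat_lit 5) (nat_lit 3) (nat_lit 4) (nat_lit 1) (nat_lit 4) (nat_lit 308) (nat_lit 217) (nat_lit 195)) (XT.lf (nat_lit 0) (nat_lit 47704368107) (nat_lit 152) (nat_lit 167729947486) (nat_lit 0) (nat_lit 44299871075) (nat_lit 1) (nat_lit 5) (nat_lit 3) (nat_lit 4) (nat_lit 1) (nat_lit 4) (nat_lit 309) (nat_lit 217) (nat_lit 194))) (XT.nd (nat_lit 78) (nat_lit 0) (nat_lit 0)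 (XT.lf (nat_lit 0) (nat_lit 53571137831) (nat_lit 152) (nat_lit 176706361696) (nat_lit 0) (nat_lit 50114872997) (nat_lit 1) (nat_lit 5) (nat_lit 3) (nat_lit 4) (nat_lit 1) (nat_lit 4) (nat_lit 310) (nat_lit 217) (nat_lit 193)) (XT.nd (nat_lit 78) (nat_lit 0) (nat_lit 0) (XT.lf (nat_lit 0) (nat_lit 59863728591) (nat_lit 152) (nat_lit 186482159618) (nat_lit 0) (nat_lit 56359530607) (nat_lit 1) (nat_lit 5) (nat_lit 3) (nat_lit 4) (nat_lit 1) (nat_lit 4) (nat_lit 311) (nat_lit 217) (nat_lit 192)) (XT.lf (nat_lit 0) (nat_lit 66619429815) (nat_lit 152) (nat_lit 197115271906) (nat_lit 0) (nat_lit 63070849284) (nat_lit 1) (nat_lit 5) (nat_lit 3) (nat_lit 4) (nat_lit 1) (nat_lit 4) (nat_lit 312) (nat_lit 217) (nat_lit 191)))))) (XT.nd (nat_lit 390) (nat_lit 0) (nat_lit 0) (XT.nd (nat_lit 156) (nat_lit 0) (nat_lit 0) (XT.nd (nat_lit 78) (nat_lit 0) (nat_lit 0) (XT.lf (nat_lit 0) (nat_lit 73878275286)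 (nat_lit 152) (nat_lit 208668709596) (nat_lit 0) (nat_lit 70288599805) (nat_lit 1) (nat_lit 5) (nat_lit 3) (nat_lit 4) (nat_lit 1) (nat_lit 4) (nat_lit 313) (nat_lit 217) (nat_lit 190)) (XT.lf (nat_lit 0) (nat_lit 81683280386) (nat_lit 152) (nat_lit 221210937503) (nat_lit 0) (nat_lit 78055554025) (nat_lit 1) (nat_lit 5) (nat_lit 3) (nat_lit 4) (nat_lit 1) (nat_lit 4) (nat_lit 314) (nat_lit 217) (nat_lit 189))) (XT.nd (nat_lit 78) (nat_lit 0) (nat_lit 0) (XT.lf (nat_lit 0) (nat_lit 90080696997) (nat_lit 152) (nat_lit 234816279942) (nat_lit 0) (nat_lit 86417738340) (nat_lit 1) (nat_lit 5) (nat_lit 3) (nat_lit 4) (nat_lit 1) (nat_lit 4) (nat_lit 315) (nat_lit 217) (nat_lit 188)) (XT.nd (nat_lit 78) (nat_lit 0) (nat_lit 0) (XT.lf (nat_lit 0) (nat_lit 99120287588) (nat_lit 152) (nat_lit 249565361164) (nat_lit 0) (nat_lit 95424706434) (nat_lit 1) (nat_lit 5) (nat_lit 3) (nat_lit 4) (nat_lit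 1) (nat_lit 4) (nat_lit 316) (nat_lit 217) (nat_lit 187)) (XT.lf (nat_lit 0) (nat_lit 108855620102) (nat_lit 152) (nat_lit 265545583131) (nat_lit 0) (nat_lit 105129832933) (nat_lit 1) (nat_lit 5) (nat_lit 3) (nat_lit 4) (nat_lit 1) (nat_lit 4) (nat_lit 317) (nat_lit 217) (nat_lit 186))))) (XT.nd (nat_lit 156) (nat_lit 0) (nat_lit 0) (XT.nd (nat_lit 78) (nat_lit 0) (nat_lit 0) (XT.lf (nat_lit 0) (nat_lit 119344385400) (nat_lit 152) (nat_lit 282851643456) (nat_lit 0) (nat_lit 115590629698) (nat_lit 1) (nat_lit 5) (nat_lit 3) (nat_lit 4) (nat_lit 1) (nat_lit 4) (nat_lit 318) (nat_lit 217) (nat_lit 185)) (XT.lf (nat_lit 0) (nat_lit 130648739127) (nat_lit 152) (nat_lit 301586096569) (nat_lit 0) (nat_lit 126869086636) (nat_lit 1) (nat_lit 5) (nat_lit 3) (nat_lit 4) (nat_lit 1) (nat_lit 4) (nat_lit 319) (nat_lit 217) (nat_lit 184))) (XT.nd (nat_lit 78) (nat_lit 0) (nat_lit 0) (XT.lf (nat_lit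 0) (nat_lit 142835670046) (nat_lit 152) (nat_lit 321859961453) (nat_lit 0) (nat_lit 139032039046) (nat_lit 1) (nat_lit 5) (nat_lit 3) (nat_lit 4) (nat_lit 1) (nat_lit 4) (nat_lit 320) (nat_lit 217) (nat_lit 183)) (XT.nd (nat_lit 78) (nat_lit 0) (nat_lit 0) (XT.lf (nat_lit 0) (nat_lit 155977397007) (nat_lit 152) (nat_lit 343793379529) (nat_lit 0) (nat_lit 152151563685) (nat_lit 1) (nat_lit 5) (nat_lit 3) (nat_lit 4) (nat_lit 1) (nat_lit 4) (nat_lit 321) (nat_lit 217) (nat_lit 182)) (XT.lf (nat_lit 0) (nat_lit 170151796911) (nat_lit 152) (nat_lit 367516326607) (nat_lit 0) (nat_lit 166305405882) (nat_lit 1) (nat_lit 5) (nat_lit 3) (nat_lit 4) (nat_lit 1) (nat_lit 4) (nat_lit 322) (nat_lit 217) (nat_lit 181))))))) (XT.nd (nat_lit 34944) (nat_lit 0) (nat_lit 0) (XT.nd (nat_lit 34554) (nat_lit 0) (nat_lit 152) (XT.nd (nat_lit 156) (nat_lit 0) (nat_lit 0) (XT.nd (nat_lit 78) (nat_lit 0) (nat_lit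 0) (XT.lf (nat_lit 0) (nat_lit 185442866202) (nat_lit 152) (nat_lit 393169383115) (nat_lit 0) (nat_lit 181577440259) (nat_lit 1) (nat_lit 5) (nat_lit 3) (nat_lit 4) (nat_lit 1) (nat_lit 4) (nat_lit 323) (nat_lit 217) (nat_lit 180)) (XT.lf (nat_lit 0) (nat_lit 201941218622) (nat_lit 152) (nat_lit 420904567165) (nat_lit 0) (nat_lit 198058167760) (nat_lit 1) (nat_lit 5) (nat_lit 3) (nat_lit 4) (nat_lit 1) (nat_lit 4) (nat_lit 324) (nat_lit 217) (nat_lit 179))) (XT.nd (nat_lit 78) (nat_lit 0) (nat_lit 0) (XT.lf (nat_lit 0) (nat_lit 219744622188) (nat_lit 152) (nat_lit 450886235404) (nat_lit 0) (nat_lit 215845251956) (nat_lit 1) (nat_lit 5) (nat_lit 3) (nat_lit 4) (nat_lit 1) (nat_lit 4) (nat_lit 325) (nat_lit 217) (nat_lit 178)) (XT.nd (nat_lit 34242) (nat_lit 0) (nat_lit 228) (XT.lf (nat_lit 0) (nat_lit 238958578549) (nat_lit 152) (nat_lit 483292056976) (nat_lit 0) (nat_lit 235044097789)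 (nat_lit 1) (nat_lit 5) (nat_lit 3) (nat_lit 4) (nat_lit 1) (nat_lit 4) (nat_lit 326) (nat_lit 217) (nat_lit 177)) (XT.lf (nat_lit 0) (nat_lit 3647186477) (nat_lit 152) (nat_lit 12733656977) (nat_lit 0) (nat_lit 3647186477) (nat_lit 4) (nat_lit 5) (nat_lit 6) (nat_lit 4) (nat_lit 4) (nat_lit 4) (nat_lit 284) (nat_lit 218) (nat_lit 218))))) (XT.nd (nat_lit 156) (nat_lit 76) (nat_lit 0) (XT.nd (nat_lit 78) (nat_lit 0) (nat_lit 0) (XT.lf (nat_lit 0) (nat_lit 12684361173) (nat_lit 152) (nat_lit 17973535912) (nat_lit 0) (nat_lit 12339678735) (nat_lit 4) (nat_lit 5) (nat_lit 6) (nat_lit 4) (nat_lit 4) (nat_lit 4) (nat_lit 285) (nat_lit 218) (nat_lit 217)) (XT.lf (nat_lit 0) (nat_lit 18253047595) (nat_lit 152) (nat_lit 10344972442) (nat_lit 0) (nat_lit 17589214751) (nat_lit 4) (nat_lit 5) (nat_lit 6) (nat_lit 4) (nat_lit 4) (nat_lit 4) (nat_lit 286) (nat_lit 218) (nat_lit 216))) (XT.nd (nat_lit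 78) (nat_lit 76) (nat_lit 0) (XT.lf (nat_lit 0) (nat_lit 24033431842) (nat_lit 152) (nat_lit 2536417243) (nat_lit 0) (nat_lit 23074089363) (nat_lit 4) (nat_lit 5) (nat_lit 6) (nat_lit 4) (nat_lit 4) (nat_lit 4) (nat_lit 287) (nat_lit 218) (nat_lit 215)) (XT.nd (nat_lit 78) (nat_lit 0) (nat_lit 0) (XT.lf (nat_lit 0) (nat_lit 5680204626) (nat_lit 76) (nat_lit 24468247331) (nat_lit 76) (nat_lit 23235284820) (nat_lit 3) (nat_lit 4) (nat_lit 4) (nat_lit 5) (nat_lit 4) (nat_lit 4) (nat_lit 288) (nat_lit 218) (nat_lit 214)) (XT.lf (nat_lit 0) (nat_lit 14263625957) (nat_lit 76) (nat_lit 22326837041) (nat_lit 76) (nat_lit 20840522648) (nat_lit 3) (nat_lit 4) (nat_lit 4) (nat_lit 5) (nat_lit 4) (nat_lit 4) (nat_lit 289) (nat_lit 218) (nat_lit 213)))))) (XT.nd (nat_lit 390) (nat_lit 152) (nat_lit 0) (XT.nd (nat_lit 156) (nat_lit 0) (nat_lit 0) (XT.nd (nat_lit 78) (nat_lit 0) (nat_lit 0) (XT.lf (nat_lit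 0) (nat_lit 23180846061) (nat_lit 76) (nat_lit 20175883829) (nat_lit 76) (nat_lit 18454984360) (nat_lit 3) (nat_lit 4) (nat_lit 4) (nat_lit 5) (nat_lit 4) (nat_lit 4) (nat_lit 290) (nat_lit 218) (nat_lit 212)) (XT.lf (nat_lit 0) (nat_lit 32484707723) (nat_lit 76) (nat_lit 18002641306) (nat_lit 76) (nat_lit 16064533434) (nat_lit 3) (nat_lit 4) (nat_lit 4) (nat_lit 5) (nat_lit 4) (nat_lit 4) (nat_lit 291) (nat_lit 218) (nat_lit 211))) (XT.nd (nat_lit 78) (nat_lit 0) (nat_lit 0) (XT.lf (nat_lit 0) (nat_lit 42230344937) (nat_lit 76) (nat_lit 15794230998) (nat_lit 76) (nat_lit 13655004233) (nat_lit 3) (nat_lit 4) (nat_lit 4) (nat_lit 5) (nat_lit 4) (nat_lit 4) (nat_lit 292) (nat_lit 218) (nat_lit 210)) (XT.nd (nat_lit 78) (nat_lit 0) (nat_lit 0) (XT.lf (nat_lit 0) (nat_lit 52475509629) (nat_lit 76) (nat_lit 13537566028) (nat_lit 76) (nat_lit 11212118068) (nat_lit 3) (nat_lit 4) (nat_lit 4)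 (nat_lit 5) (nat_lit 4) (nat_lit 4) (nat_lit 293) (nat_lit 218) (nat_lit 209)) (XT.lf (nat_lit 0) (nat_lit 63280913885) (nat_lit 76) (nat_lit 11219273569) (nat_lit 76) (nat_lit 8721398574) (nat_lit 3) (nat_lit 4) (nat_lit 4) (nat_lit 5) (nat_lit 4) (nat_lit 4) (nat_lit 294) (nat_lit 218) (nat_lit 208))))) (XT.nd (nat_lit 156) (nat_lit 152) (nat_lit 0) (XT.nd (nat_lit 78) (nat_lit 0) (nat_lit 0) (XT.lf (nat_lit 0) (nat_lit 74710589730) (nat_lit 76) (nat_lit 8825615589) (nat_lit 76) (nat_lit 6168085934) (nat_lit 3) (nat_lit 4) (nat_lit 4) (nat_lit 5) (nat_lit 4) (nat_lit 4) (nat_lit 295) (nat_lit 218) (nat_lit 207)) (XT.lf (nat_lit 0) (nat_lit 86832268577) (nat_lit 76) (nat_lit 6342407450) (nat_lit 76) (nat_lit 3537049405) (nat_lit 3) (nat_lit 4) (nat_lit 4) (nat_lit 5) (nat_lit 4) (nat_lit 4) (nat_lit 296) (nat_lit 218) (nat_lit 206))) (XT.nd (nat_lit 78) (nat_lit 152) (nat_lit 0) (XT.lf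 (nat_lit 0) (nat_lit 99717782596) (nat_lit 76) (nat_lit 3754933843) (nat_lit 76) (nat_lit 812697660) (nat_lit 3) (nat_lit 4) (nat_lit 4) (nat_lit 5) (nat_lit 4) (nat_lit 4) (nat_lit 297) (nat_lit 218) (nat_lit 205)) (XT.nd (nat_lit 78) (nat_lit 0) (nat_lit 0) (XT.lf (nat_lit 0) (nat_lit 972833514) (nat_lit 76) (nat_lit 998780492) (nat_lit 152) (nat_lit 110496287174) (nat_lit 1) (nat_lit 5) (nat_lit 2) (nat_lit 5) (nat_lit 3) (nat_lit 4) (nat_lit 298) (nat_lit 218) (nat_lit 204)) (XT.lf (nat_lit 0) (nat_lit 4960853663) (nat_lit 152) (nat_lit 114416746159) (nat_lit 0) (nat_lit 1926257337) (nat_lit 1) (nat_lit 5) (nat_lit 3) (nat_lit 4) (nat_lit 1) (nat_lit 4) (nat_lit 299) (nat_lit 218) (nat_lit 203))))))))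
noncomputable def xc12 : XT := (XT.nd (nat_lit 1482) (nat_lit 0) (nat_lit 0) (XT.nd (nat_lit 702) (nat_lit 0) (nat_lit 0) (XT.nd (nat_lit 312) (nat_lit 0) (nat_lit 0) (XT.nd (nat_lit 156) (nat_lit 0) (nat_lit 0) (XT.nd (nat_lit 78) (nat_lit 0) (nat_lit 0) (XT.lf (nat_lit 0) (nat_lit 8112116170) (nat_lit 152) (nat_lit 117764457271) (nat_lit 0) (nat_lit 4974035768) (nat_lit 1) (nat_lit 5) (nat_lit 3) (nat_lit 4) (nat_lit 1) (nat_lit 4) (nat_lit 300) (nat_lit 218) (nat_lit 202)) (XT.lf (nat_lit 0) (nat_lit 11428481914) (nat_lit 152) (nat_lit 121542445527) (nat_lit 0) (nat_lit 8194582923) (nat_lit 1) (nat_lit 5) (nat_lit 3) (nat_lit 4) (nat_lit 1) (nat_lit 4) (nat_lit 301) (nat_lit 218) (nat_lit 201))) (XT.nd (nat_lit 78) (nat_lit 0) (nat_lit 0) (XT.lf (nat_lit 0) (nat_lit 14929603432) (nat_lit 152) (nat_lit 125773099006) (nat_lit 0) (nat_lit 11606983526) (nat_lit 1) (nat_lit 5) (nat_lit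 3) (nat_lit 4) (nat_lit 1) (nat_lit 4) (nat_lit 302) (nat_lit 218) (nat_lit 200)) (XT.lf (nat_lit 0) (nat_lit 18636228111) (nat_lit 152) (nat_lit 130481488247) (nat_lit 0) (nat_lit 15231459210) (nat_lit 1) (nat_lit 5) (nat_lit 3) (nat_lit 4) (nat_lit 1) (nat_lit 4) (nat_lit 303) (nat_lit 218) (nat_lit 199)))) (XT.nd (nat_lit 156) (nat_lit 0) (nat_lit 0) (XT.nd (nat_lit 78) (nat_lit 0) (nat_lit 0) (XT.lf (nat_lit 0) (nat_lit 22570321135) (nat_lit 152) (nat_lit 135695514816) (nat_lit 0) (nat_lit 19089488349) (nat_lit 1) (nat_lit 5) (nat_lit 3) (nat_lit 4) (nat_lit 1) (nat_lit 4) (nat_lit 304) (nat_lit 218) (nat_lit 198)) (XT.lf (nat_lit 0) (nat_lit 26755195647) (nat_lit 152) (nat_lit 141446076648) (nat_lit 0) (nat_lit 23203933338) (nat_lit 1) (nat_lit 5) (nat_lit 3) (nat_lit 4) (nat_lit 1) (nat_lit 4) (nat_lit 305) (nat_lit 218) (nat_lit 197))) (XT.nd (nat_lit 78) (nat_lit 0) (nat_lit 0)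 (XT.lf (nat_lit 0) (nat_lit 31215650905) (nat_lit 152) (nat_lit 147767251146) (nat_lit 0) (nat_lit 27599176074) (nat_lit 1) (nat_lit 5) (nat_lit 3) (nat_lit 4) (nat_lit 1) (nat_lit 4) (nat_lit 306) (nat_lit 218) (nat_lit 196)) (XT.nd (nat_lit 78) (nat_lit 0) (nat_lit 0) (XT.lf (nat_lit 0) (nat_lit 35978119234) (nat_lit 152) (nat_lit 154696497123) (nat_lit 0) (nat_lit 32301262439) (nat_lit 1) (nat_lit 5) (nat_lit 3) (nat_lit 4) (nat_lit 1) (nat_lit 4) (nat_lit 307) (nat_lit 218) (nat_lit 195)) (XT.lf (nat_lit 0) (nat_lit 41070822670) (nat_lit 152) (nat_lit 162274876777) (nat_lit 0) (nat_lit 37338056648) (nat_lit 1) (nat_lit 5) (nat_lit 3) (nat_lit 4) (nat_lit 1) (nat_lit 4) (nat_lit 308) (nat_lit 218) (nat_lit 194)))))) (XT.nd (nat_lit 390) (nat_lit 0) (nat_lit 0) (XT.nd (nat_lit 156) (nat_lit 0) (nat_lit 0) (XT.nd (nat_lit 78) (nat_lit 0) (nat_lit 0) (XT.lf (nat_lit 0) (nat_lit 46523940196)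 (nat_lit 152) (nat_lit 170547299024) (nat_lit 0) (nat_lit 42739406372) (nat_lit 1) (nat_lit 5) (nat_lit 3) (nat_lit 4) (nat_lit 1) (nat_lit 4) (nat_lit 309) (nat_lit 218) (nat_lit 193)) (XT.lf (nat_lit 0) (nat_lit 52369786582) (nat_lit 152) (nat_lit 179562785626) (nat_lit 0) (nat_lit 48537319609) (nat_lit 1) (nat_lit 5) (nat_lit 3) (nat_lit 4) (nat_lit 1) (nat_lit 4) (nat_lit 310) (nat_lit 218) (nat_lit 192))) (XT.nd (nat_lit 78) (nat_lit 0) (nat_lit 0) (XT.lf (nat_lit 0) (nat_lit 58643003882) (nat_lit 152) (nat_lit 189374761688) (nat_lit 0) (nat_lit 54766154362) (nat_lit 1) (nat_lit 5) (nat_lit 3) (nat_lit 4) (nat_lit 1) (nat_lit 4) (nat_lit 311) (nat_lit 218) (nat_lit 191)) (XT.nd (nat_lit 78) (nat_lit 0) (nat_lit 0) (XT.lf (nat_lit 0) (nat_lit 65380766716) (nat_lit 152) (nat_lit 200041372254) (nat_lit 0) (nat_lit 61462822246) (nat_lit 1) (nat_lit 5) (nat_lit 3) (nat_lit 4) (nat_lit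 1) (nat_lit 4) (nat_lit 312) (nat_lit 218) (nat_lit 190)) (XT.lf (nat_lit 0) (nat_lit 72623002568) (nat_lit 152) (nat_lit 211625826868) (nat_lit 0) (nat_lit 68667007218) (nat_lit 1) (nat_lit 5) (nat_lit 3) (nat_lit 4) (nat_lit 1) (nat_lit 4) (nat_lit 313) (nat_lit 218) (nat_lit 189))))) (XT.nd (nat_lit 156) (nat_lit 0) (nat_lit 0) (XT.nd (nat_lit 78) (nat_lit 0) (nat_lit 0) (XT.lf (nat_lit 0) (nat_lit 80412628390) (nat_lit 152) (nat_lit 224196774150) (nat_lit 0) (nat_lit 76421400745) (nat_lit 1) (nat_lit 5) (nat_lit 3) (nat_lit 4) (nat_lit 1) (nat_lit 4) (nat_lit 314) (nat_lit 218) (nat_lit 188)) (XT.lf (nat_lit 0) (nat_lit 88795804929) (nat_lit 152) (nat_lit 237828708602) (nat_lit 0) (nat_lit 84771954787) (nat_lit 1) (nat_lit 5) (nat_lit 3) (nat_lit 4) (nat_lit 1) (nat_lit 4) (nat_lit 315) (nat_lit 218) (nat_lit 187))) (XT.nd (nat_lit 78) (nat_lit 0) (nat_lit 0) (XT.lf (nat_lit 0) (nat_lit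 97822210268) (nat_lit 152) (nat_lit 252602412059) (nat_lit 0) (nat_lit 93768154111) (nat_lit 1) (nat_lit 5) (nat_lit 3) (nat_lit 4) (nat_lit 1) (nat_lit 4) (nat_lit 316) (nat_lit 218) (nat_lit 186)) (XT.nd (nat_lit 78) (nat_lit 0) (nat_lit 0) (XT.lf (nat_lit 0) (nat_lit 107545334216) (nat_lit 152) (nat_lit 268605432391) (nat_lit 0) (nat_lit 103463309526) (nat_lit 1) (nat_lit 5) (nat_lit 3) (nat_lit 4) (nat_lit 1) (nat_lit 4) (nat_lit 317) (nat_lit 218) (nat_lit 185)) (XT.lf (nat_lit 0) (nat_lit 118022795286) (nat_lit 152) (nat_lit 285932602313) (nat_lit 0) (nat_lit 113914873806) (nat_lit 1) (nat_lit 5) (nat_lit 3) (nat_lit 4) (nat_lit 1) (nat_lit 4) (nat_lit 318) (nat_lit 218) (nat_lit 184))))))) (XT.nd (nat_lit 34710) (nat_lit 0) (nat_lit 152) (XT.nd (nat_lit 312) (nat_lit 0) (nat_lit 0) (XT.nd (nat_lit 156) (nat_lit 0) (nat_lit 0) (XT.nd (nat_lit 78) (nat_lit 0) (nat_lit 0) (XT.lf (nat_lit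 0) (nat_lit 129316682135) (nat_lit 152) (nat_lit 304686601351) (nat_lit 0) (nat_lit 125184782147) (nat_lit 1) (nat_lit 5) (nat_lit 3) (nat_lit 4) (nat_lit 1) (nat_lit 4) (nat_lit 319) (nat_lit 218) (nat_lit 183)) (XT.lf (nat_lit 0) (nat_lit 141493921501) (nat_lit 152) (nat_lit 324978564312) (nat_lit 0) (nat_lit 137339819190) (nat_lit 1) (nat_lit 5) (nat_lit 3) (nat_lit 4) (nat_lit 1) (nat_lit 4) (nat_lit 320) (nat_lit 218) (nat_lit 182))) (XT.nd (nat_lit 78) (nat_lit 0) (nat_lit 0) (XT.lf (nat_lit 0) (nat_lit 154626674801) (nat_lit 152) (nat_lit 346928739867) (nat_lit 0) (nat_lit 150452014784) (nat_lit 1) (nat_lit 5) (nat_lit 3) (nat_lit 4) (nat_lit 1) (nat_lit 4) (nat_lit 321) (nat_lit 218) (nat_lit 181)) (XT.lf (nat_lit 0) (nat_lit 168792765760) (nat_lit 152) (nat_lit 370667203129) (nat_lit 0) (nat_lit 164599070829) (nat_lit 1) (nat_lit 5) (nat_lit 3) (nat_lit 4) (nat_lit 1) (nat_lit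 4) (nat_lit 322) (nat_lit 218) (nat_lit 180)))) (XT.nd (nat_lit 156) (nat_lit 0) (nat_lit 0) (XT.nd (nat_lit 78) (nat_lit 0) (nat_lit 0) (XT.lf (nat_lit 0) (nat_lit 184076141583) (nat_lit 152) (nat_lit 396334626474) (nat_lit 0) (nat_lit 179864821732) (nat_lit 1) (nat_lit 5) (nat_lit 3) (nat_lit 4) (nat_lit 1) (nat_lit 4) (nat_lit 323) (nat_lit 218) (nat_lit 179)) (XT.lf (nat_lit 0) (nat_lit 200567370423) (nat_lit 152) (nat_lit 424083113152) (nat_lit 0) (nat_lit 196339731202) (nat_lit 1) (nat_lit 5) (nat_lit 3) (nat_lit 4) (nat_lit 1) (nat_lit 4) (nat_lit 324) (nat_lit 218) (nat_lit 178))) (XT.nd (nat_lit 78) (nat_lit 0) (nat_lit 0) (XT.lf (nat_lit 0) (nat_lit 218364178080) (nat_lit 152) (nat_lit 454077098638) (nat_lit 0) (nat_lit 214121428331) (nat_lit 1) (nat_lit 5) (nat_lit 3) (nat_lit 4) (nat_lit 1) (nat_lit 4) (nat_lit 325) (nat_lit 218) (nat_lit 177)) (XT.nd (nat_lit 34086) (nat_lit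 0) (nat_lit 380) (XT.lf (nat_lit 0) (nat_lit 237572027118) (nat_lit 152) (nat_lit 486494325070) (nat_lit 0) (nat_lit 233315286140) (nat_lit 1) (nat_lit 5) (nat_lit 3) (nat_lit 4) (nat_lit 1) (nat_lit 4) (nat_lit 326) (nat_lit 218) (nat_lit 176)) (XT.lf (nat_lit 0) (nat_lit 14895701228) (nat_lit 76) (nat_lit 1260609343) (nat_lit 76) (nat_lit 1260609343) (nat_lit 6) (nat_lit 4) (nat_lit 7) (nat_lit 5) (nat_lit 7) (nat_lit 4) (nat_lit 282) (nat_lit 219) (nat_lit 219)))))) (XT.nd (nat_lit 390) (nat_lit 76) (nat_lit 0) (XT.nd (nat_lit 156) (nat_lit 0) (nat_lit 0) (XT.nd (nat_lit 78) (nat_lit 0) (nat_lit 0) (XT.lf (nat_lit 0) (nat_lit 2423399300) (nat_lit 152) (nat_lit 32870714143) (nat_lit 0) (nat_lit 2051142267) (nat_lit 4) (nat_lit 5) (nat_lit 6) (nat_lit 4) (nat_lit 4) (nat_lit 4) (nat_lit 283) (nat_lit 219) (nat_lit 218)) (XT.lf (nat_lit 0) (nat_lit 7535523774) (nat_lit 152) (nat_lit 25708609224)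 (nat_lit 0) (nat_lit 6818584303) (nat_lit 4) (nat_lit 5) (nat_lit 6) (nat_lit 4) (nat_lit 4) (nat_lit 4) (nat_lit 284) (nat_lit 219) (nat_lit 217))) (XT.nd (nat_lit 78) (nat_lit 0) (nat_lit 0) (XT.lf (nat_lit 0) (nat_lit 12804117351) (nat_lit 152) (nat_lit 18438252728) (nat_lit 0) (nat_lit 11768027474) (nat_lit 4) (nat_lit 5) (nat_lit 6) (nat_lit 4) (nat_lit 4) (nat_lit 4) (nat_lit 285) (nat_lit 219) (nat_lit 216)) (XT.nd (nat_lit 78) (nat_lit 0) (nat_lit 0) (XT.lf (nat_lit 0) (nat_lit 18260401327) (nat_lit 152) (nat_lit 11016561060) (nat_lit 0) (nat_lit 16928801815) (nat_lit 4) (nat_lit 5) (nat_lit 6) (nat_lit 4) (nat_lit 4) (nat_lit 4) (nat_lit 286) (nat_lit 219) (nat_lit 215)) (XT.lf (nat_lit 0) (nat_lit 23936709236) (nat_lit 152) (nat_lit 3399553826) (nat_lit 0) (nat_lit 22331489691) (nat_lit 4) (nat_lit 5) (nat_lit 6) (nat_lit 4) (nat_lit 4) (nat_lit 4) (nat_lit 287) (nat_lit 219)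 (nat_lit 214))))) (XT.nd (nat_lit 156) (nat_lit 0) (nat_lit 0) (XT.nd (nat_lit 78) (nat_lit 0) (nat_lit 0) (XT.lf (nat_lit 0) (nat_lit 4605305326) (nat_lit 76) (nat_lit 25333274854) (nat_lit 76) (nat_lit 23474703428) (nat_lit 3) (nat_lit 4) (nat_lit 4) (nat_lit 5) (nat_lit 4) (nat_lit 4) (nat_lit 288) (nat_lit 219) (nat_lit 213)) (XT.lf (nat_lit 0) (nat_lit 13019075247) (nat_lit 76) (nat_lit 23269638554) (nat_lit 76) (nat_lit 21176482053) (nat_lit 3) (nat_lit 4) (nat_lit 4) (nat_lit 5) (nat_lit 4) (nat_lit 4) (nat_lit 289) (nat_lit 219) (nat_lit 212))) (XT.nd (nat_lit 78) (nat_lit 0) (nat_lit 0) (XT.lf (nat_lit 0) (nat_lit 21779210711) (nat_lit 76) (nat_lit 21190698297) (nat_lit 76) (nat_lit 18880333392) (nat_lit 3) (nat_lit 4) (nat_lit 4) (nat_lit 5) (nat_lit 4) (nat_lit 4) (nat_lit 290) (nat_lit 219) (nat_lit 211)) (XT.nd (nat_lit 78) (nat_lit 0) (nat_lit 0) (XT.lf (nat_lit 0) (nat_lit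 30937623632) (nat_lit 76) (nat_lit 19084134436) (nat_lit 76) (nat_lit 16572650639) (nat_lit 3) (nat_lit 4) (nat_lit 4) (nat_lit 5) (nat_lit 4) (nat_lit 4) (nat_lit 291) (nat_lit 219) (nat_lit 210)) (XT.lf (nat_lit 0) (nat_lit 40548586087) (nat_lit 76) (nat_lit 16937463630) (nat_lit 76) (nat_lit 14239758636) (nat_lit 3) (nat_lit 4) (nat_lit 4) (nat_lit 5) (nat_lit 4) (nat_lit 4) (nat_lit 292) (nat_lit 219) (nat_lit 209))))))))
noncomputable def xc13 : XT := (XT.nd (nat_lit 1482) (nat_lit 0) (nat_lit 0) (XT.nd (nat_lit 702) (nat_lit 0) (nat_lit 0) (XT.nd (nat_lit 312) (nat_lit 152) (nat_lit 0) (XT.nd (nat_lit 156) (nat_lit 0) (nat_lit 0) (XT.nd (nat_lit 78) (nat_lit 0) (nat_lit 0) (XT.lf (nat_lit 0) (nat_lit 50669051927) (nat_lit 76) (nat_lit 14737964866) (nat_lit 76) (nat_lit 11867832838) (nat_lit 3) (nat_lit 4) (nat_lit 4) (nat_lit 5) (nat_lit 4) (nat_lit 4) (nat_lit 293) (nat_lit 219)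 (nat_lit 208)) (XT.lf (nat_lit 0) (nat_lit 61358994283) (nat_lit 76) (nat_lit 12472604078) (nat_lit 76) (nat_lit 9442817389) (nat_lit 3) (nat_lit 4) (nat_lit 4) (nat_lit 5) (nat_lit 4) (nat_lit 4) (nat_lit 294) (nat_lit 219) (nat_lit 207))) (XT.nd (nat_lit 78) (nat_lit 0) (nat_lit 0) (XT.lf (nat_lit 0) (nat_lit 72681760962) (nat_lit 76) (nat_lit 10127956905) (nat_lit 76) (nat_lit 6950341827) (nat_lit 3) (nat_lit 4) (nat_lit 4) (nat_lit 5) (nat_lit 4) (nat_lit 4) (nat_lit 295) (nat_lit 219) (nat_lit 206)) (XT.lf (nat_lit 0) (nat_lit 84704449840) (nat_lit 76) (nat_lit 7690129143) (nat_lit 76) (nat_lit 4375635926) (nat_lit 3) (nat_lit 4) (nat_lit 4) (nat_lit 5) (nat_lit 4) (nat_lit 4) (nat_lit 296) (nat_lit 219) (nat_lit 205)))) (XT.nd (nat_lit 156) (nat_lit 76) (nat_lit 0) (XT.nd (nat_lit 78) (nat_lit 76) (nat_lit 0) (XT.lf (nat_lit 0) (nat_lit 97498306481) (nat_lit 76) (nat_lit 5144674404)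 (nat_lit 76) (nat_lit 1703442170) (nat_lit 3) (nat_lit 4) (nat_lit 4) (nat_lit 5) (nat_lit 4) (nat_lit 4) (nat_lit 297) (nat_lit 219) (nat_lit 204)) (XT.lf (nat_lit 0) (nat_lit 1047441516) (nat_lit 152) (nat_lit 1411328067) (nat_lit 76) (nat_lit 110073965887) (nat_lit 2) (nat_lit 5) (nat_lit 4) (nat_lit 5) (nat_lit 3) (nat_lit 4) (nat_lit 298) (nat_lit 219) (nat_lit 203))) (XT.nd (nat_lit 78) (nat_lit 0) (nat_lit 0) (XT.lf (nat_lit 0) (nat_lit 3945578209) (nat_lit 152) (nat_lit 116974731750) (nat_lit 0) (nat_lit 452967299) (nat_lit 1) (nat_lit 5) (nat_lit 3) (nat_lit 4) (nat_lit 1) (nat_lit 4) (nat_lit 299) (nat_lit 219) (nat_lit 202)) (XT.nd (nat_lit 78) (nat_lit 0) (nat_lit 0) (XT.lf (nat_lit 0) (nat_lit 7055014868) (nat_lit 152) (nat_lit 120400548754) (nat_lit 0) (nat_lit 3466585370) (nat_lit 1) (nat_lit 5) (nat_lit 3) (nat_lit 4) (nat_lit 1) (nat_lit 4) (nat_lit 300) (nat_lit 219)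 (nat_lit 201)) (XT.lf (nat_lit 0) (nat_lit 10332652975) (nat_lit 152) (nat_lit 124250857280) (nat_lit 0) (nat_lit 6655502561) (nat_lit 1) (nat_lit 5) (nat_lit 3) (nat_lit 4) (nat_lit 1) (nat_lit 4) (nat_lit 301) (nat_lit 219) (nat_lit 200)))))) (XT.nd (nat_lit 390) (nat_lit 0) (nat_lit 0) (XT.nd (nat_lit 156) (nat_lit 0) (nat_lit 0) (XT.nd (nat_lit 78) (nat_lit 0) (nat_lit 0) (XT.lf (nat_lit 0) (nat_lit 13797915570) (nat_lit 152) (nat_lit 128548473973) (nat_lit 0) (nat_lit 10038616160) (nat_lit 1) (nat_lit 5) (nat_lit 3) (nat_lit 4) (nat_lit 1) (nat_lit 4) (nat_lit 302) (nat_lit 219) (nat_lit 199)) (XT.lf (nat_lit 0) (nat_lit 17471337542) (nat_lit 152) (nat_lit 133318866189) (nat_lit 0) (nat_lit 13635974248) (nat_lit 1) (nat_lit 5) (nat_lit 3) (nat_lit 4) (nat_lit 1) (nat_lit 4) (nat_lit 303) (nat_lit 219) (nat_lit 198))) (XT.nd (nat_lit 78) (nat_lit 0) (nat_lit 0) (XT.lf (nat_lit 0)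 (nat_lit 21374687320) (nat_lit 152) (nat_lit 138590302920) (nat_lit 0) (nat_lit 17468894502) (nat_lit 1) (nat_lit 5) (nat_lit 3) (nat_lit 4) (nat_lit 1) (nat_lit 4) (nat_lit 304) (nat_lit 219) (nat_lit 197)) (XT.nd (nat_lit 78) (nat_lit 0) (nat_lit 0) (XT.lf (nat_lit 0) (nat_lit 25531095862) (nat_lit 152) (nat_lit 144394022310) (nat_lit 0) (nat_lit 21560090524) (nat_lit 1) (nat_lit 5) (nat_lit 3) (nat_lit 4) (nat_lit 1) (nat_lit 4) (nat_lit 305) (nat_lit 219) (nat_lit 196)) (XT.lf (nat_lit 0) (nat_lit 29965193740) (nat_lit 152) (nat_lit 150764416769) (nat_lit 0) (nat_lit 25933806438) (nat_lit 1) (nat_lit 5) (nat_lit 3) (nat_lit 4) (nat_lit 1) (nat_lit 4) (nat_lit 306) (nat_lit 219) (nat_lit 195))))) (XT.nd (nat_lit 156) (nat_lit 0) (nat_lit 0) (XT.nd (nat_lit 78) (nat_lit 0) (nat_lit 0) (XT.lf (nat_lit 0) (nat_lit 34703257089) (nat_lit 152) (nat_lit 157739236784) (nat_lit 0) (nat_lit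 30615960560) (nat_lit 1) (nat_lit 5) (nat_lit 3) (nat_lit 4) (nat_lit 1) (nat_lit 4) (nat_lit 307) (nat_lit 219) (nat_lit 194)) (XT.lf (nat_lit 0) (nat_lit 39773363321) (nat_lit 152) (nat_lit 165359814621) (nat_lit 0) (nat_lit 35634298990) (nat_lit 1) (nat_lit 5) (nat_lit 3) (nat_lit 4) (nat_lit 1) (nat_lit 4) (nat_lit 308) (nat_lit 219) (nat_lit 193))) (XT.nd (nat_lit 78) (nat_lit 0) (nat_lit 0) (XT.lf (nat_lit 0) (nat_lit 45205557509) (nat_lit 152) (nat_lit 173671309260) (nat_lit 0) (nat_lit 41018560029) (nat_lit 1) (nat_lit 5) (nat_lit 3) (nat_lit 4) (nat_lit 1) (nat_lit 4) (nat_lit 309) (nat_lit 219) (nat_lit 192)) (XT.nd (nat_lit 78) (nat_lit 0) (nat_lit 0) (XT.lf (nat_lit 0) (nat_lit 51032030436) (nat_lit 152) (nat_lit 182722974002) (nat_lit 0) (nat_lit 46800650408) (nat_lit 1) (nat_lit 5) (nat_lit 3) (nat_lit 4) (nat_lit 1) (nat_lit 4) (nat_lit 310) (nat_lit 219) (nat_lit 191))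 (XT.lf (nat_lit 0) (nat_lit 57287309346) (nat_lit 152) (nat_lit 192568448342) (nat_lit 0) (nat_lit 53014834369) (nat_lit 1) (nat_lit 5) (nat_lit 3) (nat_lit 4) (nat_lit 1) (nat_lit 4) (nat_lit 311) (nat_lit 219) (nat_lit 190))))))) (XT.nd (nat_lit 780) (nat_lit 0) (nat_lit 0) (XT.nd (nat_lit 390) (nat_lit 0) (nat_lit 0) (XT.nd (nat_lit 156) (nat_lit 0) (nat_lit 0) (XT.nd (nat_lit 78) (nat_lit 0) (nat_lit 0) (XT.lf (nat_lit 0) (nat_lit 64008462560) (nat_lit 152) (nat_lit 203266075833) (nat_lit 0) (nat_lit 59697936703) (nat_lit 1) (nat_lit 5) (nat_lit 3) (nat_lit 4) (nat_lit 1) (nat_lit 4) (nat_lit 312) (nat_lit 219) (nat_lit 189)) (XT.lf (nat_lit 0) (nat_lit 71235319135) (nat_lit 152) (nat_lit 214879249821) (nat_lit 0) (nat_lit 66889560981) (nat_lit 1) (nat_lit 5) (nat_lit 3) (nat_lit 4) (nat_lit 1) (nat_lit 4) (nat_lit 313) (nat_lit 219) (nat_lit 188))) (XT.nd (nat_lit 78) (nat_lit 0)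 (nat_lit 0) (XT.lf (nat_lit 0) (nat_lit 79010704885) (nat_lit 152) (nat_lit 227476789117) (nat_lit 0) (nat_lit 74632324235) (nat_lit 1) (nat_lit 5) (nat_lit 3) (nat_lit 4) (nat_lit 1) (nat_lit 4) (nat_lit 314) (nat_lit 219) (nat_lit 187)) (XT.nd (nat_lit 78) (nat_lit 0) (nat_lit 0) (XT.lf (nat_lit 0) (nat_lit 87380696173) (nat_lit 152) (nat_lit 241133345803) (nat_lit 0) (nat_lit 82972109508) (nat_lit 1) (nat_lit 5) (nat_lit 3) (nat_lit 4) (nat_lit 1) (nat_lit 4) (nat_lit 315) (nat_lit 219) (nat_lit 186)) (XT.lf (nat_lit 0) (nat_lit 96394892946) (nat_lit 152) (nat_lit 255929847625) (nat_lit 0) (nat_lit 91958337748) (nat_lit 1) (nat_lit 5) (nat_lit 3) (nat_lit 4) (nat_lit 1) (nat_lit 4) (nat_lit 316) (nat_lit 219) (nat_lit 185))))) (XT.nd (nat_lit 156) (nat_lit 0) (nat_lit 0) (XT.nd (nat_lit 78) (nat_lit 0) (nat_lit 0) (XT.lf (nat_lit 0) (nat_lit 106106712666) (nat_lit 152) (nat_lit 271953977555)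 (nat_lit 0) (nat_lit 101644260678) (nat_lit 1) (nat_lit 5) (nat_lit 3) (nat_lit 4) (nat_lit 1) (nat_lit 4) (nat_lit 317) (nat_lit 219) (nat_lit 184)) (XT.lf (nat_lit 0) (nat_lit 116573706857) (nat_lit 152) (nat_lit 289300693401) (nat_lit 0) (nat_lit 112087276361) (nat_lit 1) (nat_lit 5) (nat_lit 3) (nat_lit 4) (nat_lit 1) (nat_lit 4) (nat_lit 318) (nat_lit 219) (nat_lit 183))) (XT.nd (nat_lit 78) (nat_lit 0) (nat_lit 0) (XT.lf (nat_lit 0) (nat_lit 127857902153) (nat_lit 152) (nat_lit 308072790516) (nat_lit 0) (nat_lit 123349269334) (nat_lit 1) (nat_lit 5) (nat_lit 3) (nat_lit 4) (nat_lit 1) (nat_lit 4) (nat_lit 319) (nat_lit 219) (nat_lit 182)) (XT.nd (nat_lit 78) (nat_lit 0) (nat_lit 0) (XT.lf (nat_lit 0) (nat_lit 140026167858) (nat_lit 152) (nat_lit 328381510956) (nat_lit 0) (nat_lit 135496977332) (nat_lit 1) (nat_lit 5) (nat_lit 3) (nat_lit 4) (nat_lit 1) (nat_lit 4) (nat_lit 320)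 (nat_lit 219) (nat_lit 181)) (XT.lf (nat_lit 0) (nat_lit 153150612213) (nat_lit 152) (nat_lit 350347202695) (nat_lit 0) (nat_lit 148602386774) (nat_lit 1) (nat_lit 5) (nat_lit 3) (nat_lit 4) (nat_lit 1) (nat_lit 4) (nat_lit 321) (nat_lit 219) (nat_lit 180)))))) (XT.nd (nat_lit 34242) (nat_lit 0) (nat_lit 228) (XT.nd (nat_lit 156) (nat_lit 0) (nat_lit 0) (XT.nd (nat_lit 78) (nat_lit 0) (nat_lit 0) (XT.lf (nat_lit 0) (nat_lit 167309009704) (nat_lit 152) (nat_lit 374100032795) (nat_lit 0) (nat_lit 162743159346) (nat_lit 1) (nat_lit 5) (nat_lit 3) (nat_lit 4) (nat_lit 1) (nat_lit 4) (nat_lit 322) (nat_lit 219) (nat_lit 179)) (XT.lf (nat_lit 0) (nat_lit 182585261946) (nat_lit 152) (nat_lit 399780758768) (nat_lit 0) (nat_lit 178003092217) (nat_lit 1) (nat_lit 5) (nat_lit 3) (nat_lit 4) (nat_lit 1) (nat_lit 4) (nat_lit 323) (nat_lit 219) (nat_lit 178))) (XT.nd (nat_lit 78) (nat_lit 0) (nat_lit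 0) (XT.lf (nat_lit 0) (nat_lit 199069894877) (nat_lit 152) (nat_lit 427541562692) (nat_lit 0) (nat_lit 194472614620) (nat_lit 1) (nat_lit 5) (nat_lit 3) (nat_lit 4) (nat_lit 1) (nat_lit 4) (nat_lit 324) (nat_lit 219) (nat_lit 177)) (XT.nd (nat_lit 78) (nat_lit 0) (nat_lit 0) (XT.lf (nat_lit 0) (nat_lit 216860595211) (nat_lit 152) (nat_lit 457546953037) (nat_lit 0) (nat_lit 212249323725) (nat_lit 1) (nat_lit 5) (nat_lit 3) (nat_lit 4) (nat_lit 1) (nat_lit 4) (nat_lit 325) (nat_lit 219) (nat_lit 176)) (XT.lf (nat_lit 0) (nat_lit 236062789321) (nat_lit 152) (nat_lit 489974739523) (nat_lit 0) (nat_lit 231438562993) (nat_lit 1) (nat_lit 5) (nat_lit 3) (nat_lit 4) (nat_lit 1) (nat_lit 4) (nat_lit 326) (nat_lit 219) (nat_lit 175))))) (XT.nd (nat_lit 156) (nat_lit 152) (nat_lit 0) (XT.nd (nat_lit 78) (nat_lit 0) (nat_lit 0) (XT.lf (nat_lit 0) (nat_lit 3657801073) (nat_lit 76) (nat_lit 5764783797)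 (nat_lit 76) (nat_lit 5764783797) (nat_lit 6) (nat_lit 4) (nat_lit 7) (nat_lit 5) (nat_lit 7) (nat_lit 4) (nat_lit 280) (nat_lit 220) (nat_lit 220)) (XT.lf (nat_lit 0) (nat_lit 18247204711) (nat_lit 76) (nat_lit 7344972629) (nat_lit 76) (nat_lit 6922833153) (nat_lit 6) (nat_lit 4) (nat_lit 7) (nat_lit 5) (nat_lit 7) (nat_lit 4) (nat_lit 281) (nat_lit 220) (nat_lit 219))) (XT.nd (nat_lit 78) (nat_lit 152) (nat_lit 0) (XT.lf (nat_lit 0) (nat_lit 29548871880) (nat_lit 76) (nat_lit 3052384176) (nat_lit 76) (nat_lit 2239374815) (nat_lit 6) (nat_lit 4) (nat_lit 7) (nat_lit 5) (nat_lit 7) (nat_lit 4) (nat_lit 282) (nat_lit 220) (nat_lit 218)) (XT.nd (nat_lit 78) (nat_lit 0) (nat_lit 0) (XT.lf (nat_lit 0) (nat_lit 2552735973) (nat_lit 152) (nat_lit 33372608304) (nat_lit 0) (nat_lit 1433758906) (nat_lit 4) (nat_lit 5) (nat_lit 6) (nat_lit 4) (nat_lit 4) (nat_lit 4) (nat_lit 283) (nat_lit 220)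 (nat_lit 217)) (XT.lf (nat_lit 0) (nat_lit 7543465805) (nat_lit 152) (nat_lit 26433924931) (nat_lit 0) (nat_lit 6105338332) (nat_lit 4) (nat_lit 5) (nat_lit 6) (nat_lit 4) (nat_lit 4) (nat_lit 4) (nat_lit 284) (nat_lit 220) (nat_lit 216))))))))
noncomputable def xc14 : XT := (XT.nd (nat_lit 1482) (nat_lit 0) (nat_lit 0) (XT.nd (nat_lit 702) (nat_lit 152) (nat_lit 0) (XT.nd (nat_lit 312) (nat_lit 0) (nat_lit 0) (XT.nd (nat_lit 156) (nat_lit 76) (nat_lit 0) (XT.nd (nat_lit 78) (nat_lit 0) (nat_lit 0) (XT.lf (nat_lit 0) (nat_lit 12699656936) (nat_lit 152) (nat_lit 19370440237) (nat_lit 0) (nat_lit 10966019829) (nat_lit 4) (nat_lit 5) (nat_lit 6) (nat_lit 4) (nat_lit 4) (nat_lit 4) (nat_lit 285) (nat_lit 220) (nat_lit 215)) (XT.lf (nat_lit 0) (nat_lit 18051864573) (nat_lit 152) (nat_lit 12140296534) (nat_lit 0) (nat_lit 16044607433) (nat_lit 4) (nat_lit 5) (nat_lit 6) (nat_lit 4) (nat_lit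 4) (nat_lit 4) (nat_lit 286) (nat_lit 220) (nat_lit 214))) (XT.nd (nat_lit 78) (nat_lit 76) (nat_lit 0) (XT.lf (nat_lit 0) (nat_lit 23631805501) (nat_lit 152) (nat_lit 4700648527) (nat_lit 0) (nat_lit 21371196479) (nat_lit 4) (nat_lit 5) (nat_lit 6) (nat_lit 4) (nat_lit 4) (nat_lit 4) (nat_lit 287) (nat_lit 220) (nat_lit 213)) (XT.lf (nat_lit 0) (nat_lit 3091539147) (nat_lit 76) (nat_lit 26429274480) (nat_lit 76) (nat_lit 23934080382) (nat_lit 3) (nat_lit 4) (nat_lit 4) (nat_lit 5) (nat_lit 4) (nat_lit 4) (nat_lit 288) (nat_lit 220) (nat_lit 212)))) (XT.nd (nat_lit 156) (nat_lit 0) (nat_lit 0) (XT.nd (nat_lit 78) (nat_lit 0) (nat_lit 0) (XT.lf (nat_lit 0) (nat_lit 11348224429) (nat_lit 76) (nat_lit 24437651135) (nat_lit 76) (nat_lit 21725248634) (nat_lit 3) (nat_lit 4) (nat_lit 4) (nat_lit 5) (nat_lit 4) (nat_lit 4) (nat_lit 289) (nat_lit 220) (nat_lit 211)) (XT.lf (nat_lit 0) (nat_lit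 19962911152) (nat_lit 76) (nat_lit 22425389540) (nat_lit 76) (nat_lit 19511868147) (nat_lit 3) (nat_lit 4) (nat_lit 4) (nat_lit 5) (nat_lit 4) (nat_lit 4) (nat_lit 290) (nat_lit 220) (nat_lit 210))) (XT.nd (nat_lit 78) (nat_lit 0) (nat_lit 0) (XT.lf (nat_lit 0) (nat_lit 28986649314) (nat_lit 76) (nat_lit 20380565180) (nat_lit 76) (nat_lit 17280822591) (nat_lit 3) (nat_lit 4) (nat_lit 4) (nat_lit 5) (nat_lit 4) (nat_lit 4) (nat_lit 291) (nat_lit 220) (nat_lit 209)) (XT.nd (nat_lit 78) (nat_lit 0) (nat_lit 0) (XT.lf (nat_lit 0) (nat_lit 38472912917) (nat_lit 76) (nat_lit 18291060579) (nat_lit 76) (nat_lit 15018890956) (nat_lit 3) (nat_lit 4) (nat_lit 4) (nat_lit 5) (nat_lit 4) (nat_lit 4) (nat_lit 292) (nat_lit 220) (nat_lit 208)) (XT.lf (nat_lit 0) (nat_lit 48477916858) (nat_lit 76) (nat_lit 16144493487) (nat_lit 76) (nat_lit 12712669203) (nat_lit 3) (nat_lit 4) (nat_lit 4) (nat_lit 5)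 (nat_lit 4) (nat_lit 4) (nat_lit 293) (nat_lit 220) (nat_lit 207)))))) (XT.nd (nat_lit 390) (nat_lit 152) (nat_lit 0) (XT.nd (nat_lit 156) (nat_lit 0) (nat_lit 0) (XT.nd (nat_lit 78) (nat_lit 0) (nat_lit 0) (XT.lf (nat_lit 0) (nat_lit 59060950048) (nat_lit 76) (nat_lit 13928143506) (nat_lit 76) (nat_lit 10348490832) (nat_lit 3) (nat_lit 4) (nat_lit 4) (nat_lit 5) (nat_lit 4) (nat_lit 4) (nat_lit 294) (nat_lit 220) (nat_lit 206)) (XT.lf (nat_lit 0) (nat_lit 70284726758) (nat_lit 76) (nat_lit 11628876710) (nat_lit 76) (nat_lit 7912345898) (nat_lit 3) (nat_lit 4) (nat_lit 4) (nat_lit 5) (nat_lit 4) (nat_lit 4) (nat_lit 295) (nat_lit 220) (nat_lit 205))) (XT.nd (nat_lit 78) (nat_lit 0) (nat_lit 0) (XT.lf (nat_lit 0) (nat_lit 82215758257) (nat_lit 76) (nat_lit 9233067815) (nat_lit 76) (nat_lit 5389797986) (nat_lit 3) (nat_lit 4) (nat_lit 4) (nat_lit 5) (nat_lit 4) (nat_lit 4) (nat_lit 296)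 (nat_lit 220) (nat_lit 204)) (XT.nd (nat_lit 78) (nat_lit 0) (nat_lit 0) (XT.lf (nat_lit 0) (nat_lit 94924746956) (nat_lit 76) (nat_lit 6726519435) (nat_lit 76) (nat_lit 2765898664) (nat_lit 3) (nat_lit 4) (nat_lit 4) (nat_lit 5) (nat_lit 4) (nat_lit 4) (nat_lit 297) (nat_lit 220) (nat_lit 203)) (XT.lf (nat_lit 0) (nat_lit 108487005378) (nat_lit 76) (nat_lit 4094377950) (nat_lit 76) (nat_lit 25098899) (nat_lit 3) (nat_lit 4) (nat_lit 4) (nat_lit 5) (nat_lit 4) (nat_lit 4) (nat_lit 298) (nat_lit 220) (nat_lit 202))))) (XT.nd (nat_lit 156) (nat_lit 0) (nat_lit 0) (XT.nd (nat_lit 78) (nat_lit 0) (nat_lit 0) (XT.lf (nat_lit 0) (nat_lit 1532364408) (nat_lit 76) (nat_lit 1249222409) (nat_lit 152) (nat_lit 118670097897) (nat_lit 1) (nat_lit 5) (nat_lit 2) (nat_lit 5) (nat_lit 3) (nat_lit 4) (nat_lit 299) (nat_lit 220) (nat_lit 201)) (XT.lf (nat_lit 0) (nat_lit 5832791977) (nat_lit 152) (nat_lit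 123397953718) (nat_lit 0) (nat_lit 1772748615) (nat_lit 1) (nat_lit 5) (nat_lit 3) (nat_lit 4) (nat_lit 1) (nat_lit 4) (nat_lit 300) (nat_lit 220) (nat_lit 200))) (XT.nd (nat_lit 78) (nat_lit 0) (nat_lit 0) (XT.lf (nat_lit 0) (nat_lit 9074571160) (nat_lit 152) (nat_lit 127315225458) (nat_lit 0) (nat_lit 4932378803) (nat_lit 1) (nat_lit 5) (nat_lit 3) (nat_lit 4) (nat_lit 1) (nat_lit 4) (nat_lit 301) (nat_lit 220) (nat_lit 199)) (XT.nd (nat_lit 78) (nat_lit 0) (nat_lit 0) (XT.lf (nat_lit 0) (nat_lit 12506631049) (nat_lit 152) (nat_lit 131674845125) (nat_lit 0) (nat_lit 8288374806) (nat_lit 1) (nat_lit 5) (nat_lit 3) (nat_lit 4) (nat_lit 1) (nat_lit 4) (nat_lit 302) (nat_lit 220) (nat_lit 198)) (XT.lf (nat_lit 0) (nat_lit 16149309775) (nat_lit 152) (nat_lit 136502647504) (nat_lit 0) (nat_lit 11860624009) (nat_lit 1) (nat_lit 5) (nat_lit 3) (nat_lit 4) (nat_lit 1) (nat_lit 4) (nat_lit 303)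 (nat_lit 220) (nat_lit 197))))))) (XT.nd (nat_lit 702) (nat_lit 0) (nat_lit 0) (XT.nd (nat_lit 312) (nat_lit 0) (nat_lit 0) (XT.nd (nat_lit 156) (nat_lit 0) (nat_lit 0) (XT.nd (nat_lit 78) (nat_lit 0) (nat_lit 0) (XT.lf (nat_lit 0) (nat_lit 20024193582) (nat_lit 152) (nat_lit 141827241793) (nat_lit 0) (nat_lit 15670295295) (nat_lit 1) (nat_lit 5) (nat_lit 3) (nat_lit 4) (nat_lit 1) (nat_lit 4) (nat_lit 304) (nat_lit 220) (nat_lit 196)) (XT.lf (nat_lit 0) (nat_lit 24154244746) (nat_lit 152) (nat_lit 147680181143) (nat_lit 0) (nat_lit 19739964495) (nat_lit 1) (nat_lit 5) (nat_lit 3) (nat_lit 4) (nat_lit 1) (nat_lit 4) (nat_lit 305) (nat_lit 220) (nat_lit 195))) (XT.nd (nat_lit 78) (nat_lit 0) (nat_lit 0) (XT.lf (nat_lit 0) (nat_lit 28563937644) (nat_lit 152) (nat_lit 154096149640) (nat_lit 0) (nat_lit 24093748166) (nat_lit 1) (nat_lit 5) (nat_lit 3) (nat_lit 4) (nat_lit 1) (nat_lit 4) (nat_lit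 306) (nat_lit 220) (nat_lit 194)) (XT.lf (nat_lit 0) (nat_lit 33279403788) (nat_lit 152) (nat_lit 161113167838) (nat_lit 0) (nat_lit 28757446509) (nat_lit 1) (nat_lit 5) (nat_lit 3) (nat_lit 4) (nat_lit 1) (nat_lit 4) (nat_lit 307) (nat_lit 220) (nat_lit 193)))) (XT.nd (nat_lit 156) (nat_lit 0) (nat_lit 0) (XT.nd (nat_lit 78) (nat_lit 0) (nat_lit 0) (XT.lf (nat_lit 0) (nat_lit 38328586682) (nat_lit 152) (nat_lit 168772818067) (nat_lit 0) (nat_lit 33758696253) (nat_lit 1) (nat_lit 5) (nat_lit 3) (nat_lit 4) (nat_lit 1) (nat_lit 4) (nat_lit 308) (nat_lit 220) (nat_lit 192)) (XT.lf (nat_lit 0) (nat_lit 43741407411) (nat_lit 152) (nat_lit 177120490846) (nat_lit 0) (nat_lit 39127134435) (nat_lit 1) (nat_lit 5) (nat_lit 3) (nat_lit 4) (nat_lit 1) (nat_lit 4) (nat_lit 309) (nat_lit 220) (nat_lit 191))) (XT.nd (nat_lit 78) (nat_lit 0) (nat_lit 0) (XT.lf (nat_lit 0) (nat_lit 49549941948) (nat_lit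 152) (nat_lit 186205653867) (nat_lit 0) (nat_lit 44894574022) (nat_lit 1) (nat_lit 5) (nat_lit 3) (nat_lit 4) (nat_lit 1) (nat_lit 4) (nat_lit 310) (nat_lit 220) (nat_lit 190)) (XT.nd (nat_lit 78) (nat_lit 0) (nat_lit 0) (XT.lf (nat_lit 0) (nat_lit 55788611238) (nat_lit 152) (nat_lit 196082145132) (nat_lit 0) (nat_lit 51095192432) (nat_lit 1) (nat_lit 5) (nat_lit 3) (nat_lit 4) (nat_lit 1) (nat_lit 4) (nat_lit 311) (nat_lit 220) (nat_lit 189)) (XT.lf (nat_lit 0) (nat_lit 62494385175) (nat_lit 152) (nat_lit 206808491997) (nat_lit 0) (nat_lit 57765734073) (nat_lit 1) (nat_lit 5) (nat_lit 3) (nat_lit 4) (nat_lit 1) (nat_lit 4) (nat_lit 312) (nat_lit 220) (nat_lit 188)))))) (XT.nd (nat_lit 390) (nat_lit 0) (nat_lit 0) (XT.nd (nat_lit 156) (nat_lit 0) (nat_lit 0) (XT.nd (nat_lit 78) (nat_lit 0) (nat_lit 0) (XT.lf (nat_lit 0) (nat_lit 69707001678) (nat_lit 152) (nat_lit 218448257999) (nat_lit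 0) (nat_lit 64945728079) (nat_lit 1) (nat_lit 5) (nat_lit 3) (nat_lit 4) (nat_lit 1) (nat_lit 4) (nat_lit 313) (nat_lit 220) (nat_lit 187)) (XT.lf (nat_lit 0) (nat_lit 77469202177) (nat_lit 152) (nat_lit 231070419528) (nat_lit 0) (nat_lit 72677722563) (nat_lit 1) (nat_lit 5) (nat_lit 3) (nat_lit 4) (nat_lit 1) (nat_lit 4) (nat_lit 314) (nat_lit 220) (nat_lit 186))) (XT.nd (nat_lit 78) (nat_lit 0) (nat_lit 0) (XT.lf (nat_lit 0) (nat_lit 85826984898) (nat_lit 152) (nat_lit 244749774580) (nat_lit 0) (nat_lit 81007536752) (nat_lit 1) (nat_lit 5) (nat_lit 3) (nat_lit 4) (nat_lit 1) (nat_lit 4) (nat_lit 315) (nat_lit 220) (nat_lit 185)) (XT.nd (nat_lit 78) (nat_lit 0) (nat_lit 0) (XT.lf (nat_lit 0) (nat_lit 94829877443) (nat_lit 152) (nat_lit 259567386000) (nat_lit 0) (nat_lit 89984532507) (nat_lit 1) (nat_lit 5) (nat_lit 3) (nat_lit 4) (nat_lit 1) (nat_lit 4) (nat_lit 316) (nat_lit 220) (nat_lit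 184)) (XT.lf (nat_lit 0) (nat_lit 104531230285) (nat_lit 152) (nat_lit 275611061854) (nat_lit 0) (nat_lit 99661906840) (nat_lit 1) (nat_lit 5) (nat_lit 3) (nat_lit 4) (nat_lit 1) (nat_lit 4) (nat_lit 317) (nat_lit 220) (nat_lit 183))))) (XT.nd (nat_lit 156) (nat_lit 0) (nat_lit 0) (XT.nd (nat_lit 78) (nat_lit 0) (nat_lit 0) (XT.lf (nat_lit 0) (nat_lit 114988532923) (nat_lit 152) (nat_lit 292975875777) (nat_lit 0) (nat_lit 110097007155) (nat_lit 1) (nat_lit 5) (nat_lit 3) (nat_lit 4) (nat_lit 1) (nat_lit 4) (nat_lit 318) (nat_lit 220) (nat_lit 182)) (XT.lf (nat_lit 0) (nat_lit 126263754558) (nat_lit 152) (nat_lit 311764730371) (nat_lit 0) (nat_lit 121351671084) (nat_lit 1) (nat_lit 5) (nat_lit 3) (nat_lit 4) (nat_lit 1) (nat_lit 4) (nat_lit 319) (nat_lit 220) (nat_lit 181))) (XT.nd (nat_lit 78) (nat_lit 0) (nat_lit 0) (XT.lf (nat_lit 0) (nat_lit 138423711317) (nat_lit 152) (nat_lit 332088966995)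 (nat_lit 0) (nat_lit 133492592930) (nat_lit 1) (nat_lit 5) (nat_lit 3) (nat_lit 4) (nat_lit 1) (nat_lit 4) (nat_lit 320) (nat_lit 220) (nat_lit 180)) (XT.nd (nat_lit 78) (nat_lit 0) (nat_lit 0) (XT.lf (nat_lit 0) (nat_lit 151540462205) (nat_lit 152) (nat_lit 354069025572) (nat_lit 0) (nat_lit 146591718898) (nat_lit 1) (nat_lit 5) (nat_lit 3) (nat_lit 4) (nat_lit 1) (nat_lit 4) (nat_lit 321) (nat_lit 220) (nat_lit 179)) (XT.lf (nat_lit 0) (nat_lit 165691736115) (nat_lit 152) (nat_lit 377835158299) (nat_lit 0) (nat_lit 160726673438) (nat_lit 1) (nat_lit 5) (nat_lit 3) (nat_lit 4) (nat_lit 1) (nat_lit 4) (nat_lit 322) (nat_lit 220) (nat_lit 178))))))))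
noncomputable def xc15 : XT := (XT.nd (nat_lit 35178) (nat_lit 0) (nat_lit 0) (XT.nd (nat_lit 34398) (nat_lit 0) (nat_lit 152) (XT.nd (nat_lit 34008) (nat_lit 0) (nat_lit 380) (XT.nd (nat_lit 156) (nat_lit 0) (nat_lit 0) (XT.nd (nat_lit 78) (nat_lit 0) (nat_lit 0) (XT.lf (nat_lit 0) (nat_lit 180961392448) (nat_lit 152) (nat_lit 403528201519) (nat_lit 0) (nat_lit 175981219243) (nat_lit 1) (nat_lit 5) (nat_lit 3) (nat_lit 4) (nat_lit 1) (nat_lit 4) (nat_lit 323) (nat_lit 220) (nat_lit 177)) (XT.lf (nat_lit 0) (nat_lit 197439918057) (nat_lit 152) (nat_lit 431300410302) (nat_lit 0) (nat_lit 192445753622) (nat_lit 1) (nat_lit 5) (nat_lit 3) (nat_lit 4) (nat_lit 1) (nat_lit 4) (nat_lit 324) (nat_lit 220) (nat_lit 176))) (XT.nd (nat_lit 78) (nat_lit 0) (nat_lit 0) (XT.lf (nat_lit 0) (nat_lit 215224963463) (nat_lit 152) (nat_lit 461316360702) (nat_lit 0) (nat_lit 210217844186) (nat_lit 1) (nat_lit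 5) (nat_lit 3) (nat_lit 4) (nat_lit 1) (nat_lit 4) (nat_lit 325) (nat_lit 220) (nat_lit 175)) (XT.lf (nat_lit 0) (nat_lit 234421921528) (nat_lit 152) (nat_lit 493753925016) (nat_lit 0) (nat_lit 229402807027) (nat_lit 1) (nat_lit 5) (nat_lit 3) (nat_lit 4) (nat_lit 1) (nat_lit 4) (nat_lit 326) (nat_lit 220) (nat_lit 174)))) (XT.nd (nat_lit 156) (nat_lit 76) (nat_lit 0) (XT.nd (nat_lit 78) (nat_lit 0) (nat_lit 0) (XT.lf (nat_lit 0) (nat_lit 3399890773) (nat_lit 152) (nat_lit 6491284745) (nat_lit 0) (nat_lit 3399890773) (nat_lit 7) (nat_lit 5) (nat_lit 9) (nat_lit 4) (nat_lit 7) (nat_lit 4) (nat_lit 278) (nat_lit 221) (nat_lit 221)) (XT.lf (nat_lit 0) (nat_lit 12827851176) (nat_lit 152) (nat_lit 3204752099) (nat_lit 0) (nat_lit 12371940542) (nat_lit 7) (nat_lit 5) (nat_lit 9) (nat_lit 4) (nat_lit 7) (nat_lit 4) (nat_lit 279) (nat_lit 221) (nat_lit 220))) (XT.nd (nat_lit 78) (nat_lit 0) (nat_lit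 0) (XT.lf (nat_lit 0) (nat_lit 7053669125) (nat_lit 76) (nat_lit 12103226322) (nat_lit 76) (nat_lit 11225176213) (nat_lit 6) (nat_lit 4) (nat_lit 7) (nat_lit 5) (nat_lit 7) (nat_lit 4) (nat_lit 280) (nat_lit 221) (nat_lit 219)) (XT.nd (nat_lit 78) (nat_lit 0) (nat_lit 0) (XT.lf (nat_lit 0) (nat_lit 17742741112) (nat_lit 76) (nat_lit 8027657371) (nat_lit 76) (nat_lit 6758737377) (nat_lit 6) (nat_lit 4) (nat_lit 7) (nat_lit 5) (nat_lit 7) (nat_lit 4) (nat_lit 281) (nat_lit 221) (nat_lit 218)) (XT.lf (nat_lit 0) (nat_lit 28819842933) (nat_lit 76) (nat_lit 3836018930) (nat_lit 76) (nat_lit 2205182376) (nat_lit 6) (nat_lit 4) (nat_lit 7) (nat_lit 5) (nat_lit 7) (nat_lit 4) (nat_lit 282) (nat_lit 221) (nat_lit 217)))))) (XT.nd (nat_lit 390) (nat_lit 76) (nat_lit 0) (XT.nd (nat_lit 156) (nat_lit 0) (nat_lit 0) (XT.nd (nat_lit 78) (nat_lit 0) (nat_lit 0) (XT.lf (nat_lit 0) (nat_lit 2439918725)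 (nat_lit 152) (nat_lit 34379370814) (nat_lit 0) (nat_lit 567590648) (nat_lit 4) (nat_lit 5) (nat_lit 6) (nat_lit 4) (nat_lit 4) (nat_lit 4) (nat_lit 283) (nat_lit 221) (nat_lit 216)) (XT.lf (nat_lit 0) (nat_lit 7318246111) (nat_lit 152) (nat_lit 27647559244) (nat_lit 0) (nat_lit 5150408400) (nat_lit 4) (nat_lit 5) (nat_lit 6) (nat_lit 4) (nat_lit 4) (nat_lit 4) (nat_lit 284) (nat_lit 221) (nat_lit 215))) (XT.nd (nat_lit 78) (nat_lit 0) (nat_lit 0) (XT.lf (nat_lit 0) (nat_lit 12370360903) (nat_lit 152) (nat_lit 20775622514) (nat_lit 0) (nat_lit 9928903159) (nat_lit 4) (nat_lit 5) (nat_lit 6) (nat_lit 4) (nat_lit 4) (nat_lit 4) (nat_lit 285) (nat_lit 221) (nat_lit 214)) (XT.nd (nat_lit 78) (nat_lit 0) (nat_lit 0) (XT.lf (nat_lit 0) (nat_lit 17626201559) (nat_lit 152) (nat_lit 13722838038) (nat_lit 0) (nat_lit 14931391934) (nat_lit 4) (nat_lit 5) (nat_lit 6) (nat_lit 4) (nat_lit 4) (nat_lit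 4) (nat_lit 286) (nat_lit 221) (nat_lit 213)) (XT.lf (nat_lit 0) (nat_lit 23116913802) (nat_lit 152) (nat_lit 6447411537) (nat_lit 0) (nat_lit 20187519101) (nat_lit 4) (nat_lit 5) (nat_lit 6) (nat_lit 4) (nat_lit 4) (nat_lit 4) (nat_lit 287) (nat_lit 221) (nat_lit 212))))) (XT.nd (nat_lit 156) (nat_lit 0) (nat_lit 0) (XT.nd (nat_lit 78) (nat_lit 0) (nat_lit 0) (XT.lf (nat_lit 0) (nat_lit 1129935624) (nat_lit 76) (nat_lit 27762741022) (nat_lit 76) (nat_lit 24616137917) (nat_lit 3) (nat_lit 4) (nat_lit 4) (nat_lit 5) (nat_lit 4) (nat_lit 4) (nat_lit 288) (nat_lit 221) (nat_lit 211)) (XT.lf (nat_lit 0) (nat_lit 9241172165) (nat_lit 76) (nat_lit 25837796339) (nat_lit 76) (nat_lit 22490074342) (nat_lit 3) (nat_lit 4) (nat_lit 4) (nat_lit 5) (nat_lit 4) (nat_lit 4) (nat_lit 289) (nat_lit 221) (nat_lit 210))) (XT.nd (nat_lit 78) (nat_lit 0) (nat_lit 0) (XT.lf (nat_lit 0) (nat_lit 17721184129)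 (nat_lit 76) (nat_lit 23887274246) (nat_lit 76) (nat_lit 20353331052) (nat_lit 3) (nat_lit 4) (nat_lit 4) (nat_lit 5) (nat_lit 4) (nat_lit 4) (nat_lit 290) (nat_lit 221) (nat_lit 209)) (XT.nd (nat_lit 78) (nat_lit 0) (nat_lit 0) (XT.lf (nat_lit 0) (nat_lit 26620223439) (nat_lit 76) (nat_lit 21899616091) (nat_lit 76) (nat_lit 18193245865) (nat_lit 3) (nat_lit 4) (nat_lit 4) (nat_lit 5) (nat_lit 4) (nat_lit 4) (nat_lit 291) (nat_lit 221) (nat_lit 208)) (XT.lf (nat_lit 0) (nat_lit 35991025143) (nat_lit 76) (nat_lit 19863043162) (nat_lit 76) (nat_lit 15997018274) (nat_lit 3) (nat_lit 4) (nat_lit 4) (nat_lit 5) (nat_lit 4) (nat_lit 4) (nat_lit 292) (nat_lit 221) (nat_lit 207))))))) (XT.nd (nat_lit 780) (nat_lit 0) (nat_lit 0) (XT.nd (nat_lit 390) (nat_lit 152) (nat_lit 0) (XT.nd (nat_lit 156) (nat_lit 0) (nat_lit 0) (XT.nd (nat_lit 78) (nat_lit 0) (nat_lit 0) (XT.lf (nat_lit 0) (nat_lit 45889119917)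 (nat_lit 76) (nat_lit 17765486877) (nat_lit 76) (nat_lit 13751633599) (nat_lit 3) (nat_lit 4) (nat_lit 4) (nat_lit 5) (nat_lit 4) (nat_lit 4) (nat_lit 293) (nat_lit 221) (nat_lit 206)) (XT.lf (nat_lit 0) (nat_lit 56373163138) (nat_lit 76) (nat_lit 15594517273) (nat_lit 76) (nat_lit 11443785857) (nat_lit 3) (nat_lit 4) (nat_lit 4) (nat_lit 5) (nat_lit 4) (nat_lit 4) (nat_lit 294) (nat_lit 221) (nat_lit 205))) (XT.nd (nat_lit 78) (nat_lit 0) (nat_lit 0) (XT.lf (nat_lit 0) (nat_lit 67505282470) (nat_lit 76) (nat_lit 13337269344) (nat_lit 76) (nat_lit 9059798911) (nat_lit 3) (nat_lit 4) (nat_lit 4) (nat_lit 5) (nat_lit 4) (nat_lit 4) (nat_lit 295) (nat_lit 221) (nat_lit 204)) (XT.nd (nat_lit 78) (nat_lit 0) (nat_lit 0) (XT.lf (nat_lit 0) (nat_lit 79351446027) (nat_lit 76) (nat_lit 10980366808) (nat_lit 76) (nat_lit 6585545433) (nat_lit 3) (nat_lit 4) (nat_lit 4) (nat_lit 5) (nat_lit 4) (nat_lit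 4) (nat_lit 296) (nat_lit 221) (nat_lit 203)) (XT.lf (nat_lit 0) (nat_lit 91981853296) (nat_lit 76) (nat_lit 8509842834) (nat_lit 76) (nat_lit 4006363180) (nat_lit 3) (nat_lit 4) (nat_lit 4) (nat_lit 5) (nat_lit 4) (nat_lit 4) (nat_lit 297) (nat_lit 221) (nat_lit 202))))) (XT.nd (nat_lit 156) (nat_lit 76) (nat_lit 0) (XT.nd (nat_lit 78) (nat_lit 76) (nat_lit 0) (XT.lf (nat_lit 0) (nat_lit 105471351136) (nat_lit 76) (nat_lit 5911057280) (nat_lit 76) (nat_lit 1306968108) (nat_lit 3) (nat_lit 4) (nat_lit 4) (nat_lit 5) (nat_lit 4) (nat_lit 4) (nat_lit 298) (nat_lit 221) (nat_lit 201)) (XT.lf (nat_lit 0) (nat_lit 1479710292) (nat_lit 152) (nat_lit 1663840033) (nat_lit 76) (nat_lit 118395107410) (nat_lit 2) (nat_lit 5) (nat_lit 4) (nat_lit 5) (nat_lit 3) (nat_lit 4) (nat_lit 299) (nat_lit 221) (nat_lit 200))) (XT.nd (nat_lit 78) (nat_lit 0) (nat_lit 0) (XT.lf (nat_lit 0) (nat_lit 4318702524)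 (nat_lit 76) (nat_lit 121397526) (nat_lit 152) (nat_lit 126654932392) (nat_lit 1) (nat_lit 5) (nat_lit 2) (nat_lit 5) (nat_lit 3) (nat_lit 4) (nat_lit 300) (nat_lit 221) (nat_lit 199)) (XT.nd (nat_lit 78) (nat_lit 0) (nat_lit 0) (XT.lf (nat_lit 0) (nat_lit 7646781171) (nat_lit 152) (nat_lit 130753709278) (nat_lit 0) (nat_lit 3015000544) (nat_lit 1) (nat_lit 5) (nat_lit 3) (nat_lit 4) (nat_lit 1) (nat_lit 4) (nat_lit 301) (nat_lit 221) (nat_lit 198)) (XT.lf (nat_lit 0) (nat_lit 11048097813) (nat_lit 152) (nat_lit 135170739108) (nat_lit 0) (nat_lit 6345887663) (nat_lit 1) (nat_lit 5) (nat_lit 3) (nat_lit 4) (nat_lit 1) (nat_lit 4) (nat_lit 302) (nat_lit 221) (nat_lit 197)))))) (XT.nd (nat_lit 390) (nat_lit 0) (nat_lit 0) (XT.nd (nat_lit 156) (nat_lit 0) (nat_lit 0) (XT.nd (nat_lit 78) (nat_lit 0) (nat_lit 0) (XT.lf (nat_lit 0) (nat_lit 14662310569) (nat_lit 152) (nat_lit 140051699044) (nat_lit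 0) (nat_lit 9894887898) (nat_lit 1) (nat_lit 5) (nat_lit 3) (nat_lit 4) (nat_lit 1) (nat_lit 4) (nat_lit 303) (nat_lit 221) (nat_lit 196)) (XT.lf (nat_lit 0) (nat_lit 18510836998) (nat_lit 152) (nat_lit 145425513294) (nat_lit 0) (nat_lit 13683032362) (nat_lit 1) (nat_lit 5) (nat_lit 3) (nat_lit 4) (nat_lit 1) (nat_lit 4) (nat_lit 304) (nat_lit 221) (nat_lit 195))) (XT.nd (nat_lit 78) (nat_lit 0) (nat_lit 0) (XT.lf (nat_lit 0) (nat_lit 22616483181) (nat_lit 152) (nat_lit 151324026682) (nat_lit 0) (nat_lit 17732769319) (nat_lit 1) (nat_lit 5) (nat_lit 3) (nat_lit 4) (nat_lit 1) (nat_lit 4) (nat_lit 305) (nat_lit 221) (nat_lit 194)) (XT.nd (nat_lit 78) (nat_lit 0) (nat_lit 0) (XT.lf (nat_lit 0) (nat_lit 27003578874) (nat_lit 152) (nat_lit 157782193362) (nat_lit 0) (nat_lit 22068097211) (nat_lit 1) (nat_lit 5) (nat_lit 3) (nat_lit 4) (nat_lit 1) (nat_lit 4) (nat_lit 306) (nat_lit 221) (nat_lit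 193)) (XT.lf (nat_lit 0) (nat_lit 31698121681) (nat_lit 152) (nat_lit 164838283952) (nat_lit 0) (nat_lit 26714706868) (nat_lit 1) (nat_lit 5) (nat_lit 3) (nat_lit 4) (nat_lit 1) (nat_lit 4) (nat_lit 307) (nat_lit 221) (nat_lit 192))))) (XT.nd (nat_lit 156) (nat_lit 0) (nat_lit 0) (XT.nd (nat_lit 78) (nat_lit 0) (nat_lit 0) (XT.lf (nat_lit 0) (nat_lit 36727931115) (nat_lit 152) (nat_lit 172534112321) (nat_lit 0) (nat_lit 31700133755) (nat_lit 1) (nat_lit 5) (nat_lit 3) (nat_lit 4) (nat_lit 1) (nat_lit 4) (nat_lit 308) (nat_lit 221) (nat_lit 191)) (XT.lf (nat_lit 0) (nat_lit 42122813454) (nat_lit 152) (nat_lit 180915283379) (nat_lit 0) (nat_lit 37053921144) (nat_lit 1) (nat_lit 5) (nat_lit 3) (nat_lit 4) (nat_lit 1) (nat_lit 4) (nat_lit 309) (nat_lit 221) (nat_lit 190))) (XT.nd (nat_lit 78) (nat_lit 0) (nat_lit 0) (XT.lf (nat_lit 0) (nat_lit 47914738371) (nat_lit 152) (nat_lit 190031463324)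 (nat_lit 0) (nat_lit 42807795181) (nat_lit 1) (nat_lit 5) (nat_lit 3) (nat_lit 4) (nat_lit 1) (nat_lit 4) (nat_lit 310) (nat_lit 221) (nat_lit 189)) (XT.nd (nat_lit 78) (nat_lit 0) (nat_lit 0) (XT.lf (nat_lit 0) (nat_lit 54138028385) (nat_lit 152) (nat_lit 199936673963) (nat_lit 0) (nat_lit 48995852898) (nat_lit 1) (nat_lit 5) (nat_lit 3) (nat_lit 4) (nat_lit 1) (nat_lit 4) (nat_lit 311) (nat_lit 221) (nat_lit 188)) (XT.lf (nat_lit 0) (nat_lit 60829562250) (nat_lit 152) (nat_lit 210689612841) (nat_lit 0) (nat_lit 55654764267) (nat_lit 1) (nat_lit 5) (nat_lit 3) (nat_lit 4) (nat_lit 1) (nat_lit 4) (nat_lit 312) (nat_lit 221) (nat_lit 187))))))))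
noncomputable def xc16 : XT := (XT.nd (nat_lit 35022) (nat_lit 0) (nat_lit 76) (XT.nd (nat_lit 702) (nat_lit 0) (nat_lit 0) (XT.nd (nat_lit 312) (nat_lit 0) (nat_lit 0) (XT.nd (nat_lit 156) (nat_lit 0) (nat_lit 0) (XT.nd (nat_lit 78) (nat_lit 0) (nat_lit 0) (XT.lf (nat_lit 0) (nat_lit 68028993501) (nat_lit 152) (nat_lit 222354001078) (nat_lit 0) (nat_lit 62823989503) (nat_lit 1) (nat_lit 5) (nat_lit 3) (nat_lit 4) (nat_lit 1) (nat_lit 4) (nat_lit 313) (nat_lit 221) (nat_lit 186)) (XT.lf (nat_lit 0) (nat_lit 75778985434) (nat_lit 152) (nat_lit 234998960973) (nat_lit 0) (nat_lit 70546012903) (nat_lit 1) (nat_lit 5) (nat_lit 3) (nat_lit 4) (nat_lit 1) (nat_lit 4) (nat_lit 314) (nat_lit 221) (nat_lit 185))) (XT.nd (nat_lit 78) (nat_lit 0) (nat_lit 0) (XT.lf (nat_lit 0) (nat_lit 84125463927) (nat_lit 152) (nat_lit 248699425623) (nat_lit 0) (nat_lit 78866594607) (nat_lit 1) (nat_lit 5) (nat_lit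 3) (nat_lit 4) (nat_lit 1) (nat_lit 4) (nat_lit 315) (nat_lit 221) (nat_lit 184)) (XT.lf (nat_lit 0) (nat_lit 93117889593) (nat_lit 152) (nat_lit 263536582965) (nat_lit 0) (nat_lit 87835041764) (nat_lit 1) (nat_lit 5) (nat_lit 3) (nat_lit 4) (nat_lit 1) (nat_lit 4) (nat_lit 316) (nat_lit 221) (nat_lit 183)))) (XT.nd (nat_lit 156) (nat_lit 0) (nat_lit 0) (XT.nd (nat_lit 78) (nat_lit 0) (nat_lit 0) (XT.lf (nat_lit 0) (nat_lit 102809550882) (nat_lit 152) (nat_lit 279598356897) (nat_lit 0) (nat_lit 97504500730) (nat_lit 1) (nat_lit 5) (nat_lit 3) (nat_lit 4) (nat_lit 1) (nat_lit 4) (nat_lit 317) (nat_lit 221) (nat_lit 182)) (XT.lf (nat_lit 0) (nat_lit 113257879859) (nat_lit 152) (nat_lit 296979928299) (nat_lit 0) (nat_lit 107932272001) (nat_lit 1) (nat_lit 5) (nat_lit 3) (nat_lit 4) (nat_lit 1) (nat_lit 4) (nat_lit 318) (nat_lit 221) (nat_lit 181))) (XT.nd (nat_lit 78) (nat_lit 0) (nat_lit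 0) (XT.lf (nat_lit 0) (nat_lit 124524792549) (nat_lit 152) (nat_lit 315784299077) (nat_lit 0) (nat_lit 119180149777) (nat_lit 1) (nat_lit 5) (nat_lit 3) (nat_lit 4) (nat_lit 1) (nat_lit 4) (nat_lit 319) (nat_lit 221) (nat_lit 180)) (XT.nd (nat_lit 78) (nat_lit 0) (nat_lit 0) (XT.lf (nat_lit 0) (nat_lit 136677055841) (nat_lit 152) (nat_lit 336122902539) (nat_lit 0) (nat_lit 131314788150) (nat_lit 1) (nat_lit 5) (nat_lit 3) (nat_lit 4) (nat_lit 1) (nat_lit 4) (nat_lit 320) (nat_lit 221) (nat_lit 179)) (XT.lf (nat_lit 0) (nat_lit 149786683148) (nat_lit 152) (nat_lit 358116263743) (nat_lit 0) (nat_lit 144408096086) (nat_lit 1) (nat_lit 5) (nat_lit 3) (nat_lit 4) (nat_lit 1) (nat_lit 4) (nat_lit 321) (nat_lit 221) (nat_lit 178)))))) (XT.nd (nat_lit 33930) (nat_lit 0) (nat_lit 380) (XT.nd (nat_lit 156) (nat_lit 0) (nat_lit 0) (XT.nd (nat_lit 78) (nat_lit 0) (nat_lit 0) (XT.lf (nat_lit 0) (nat_lit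 163931361149) (nat_lit 152) (nat_lit 381894713717) (nat_lit 0) (nat_lit 158537663560) (nat_lit 1) (nat_lit 5) (nat_lit 3) (nat_lit 4) (nat_lit 1) (nat_lit 4) (nat_lit 322) (nat_lit 221) (nat_lit 177)) (XT.lf (nat_lit 0) (nat_lit 179194910159) (nat_lit 152) (nat_lit 407599161796) (nat_lit 0) (nat_lit 173787221340) (nat_lit 1) (nat_lit 5) (nat_lit 3) (nat_lit 4) (nat_lit 1) (nat_lit 4) (nat_lit 323) (nat_lit 221) (nat_lit 176))) (XT.nd (nat_lit 78) (nat_lit 0) (nat_lit 0) (XT.lf (nat_lit 0) (nat_lit 195667780839) (nat_lit 152) (nat_lit 435381930634) (nat_lit 0) (nat_lit 190247137178) (nat_lit 1) (nat_lit 5) (nat_lit 3) (nat_lit 4) (nat_lit 1) (nat_lit 4) (nat_lit 324) (nat_lit 221) (nat_lit 175)) (XT.nd (nat_lit 78) (nat_lit 0) (nat_lit 0) (XT.lf (nat_lit 0) (nat_lit 213447590201) (nat_lit 152) (nat_lit 465407658862) (nat_lit 0) (nat_lit 208014951315) (nat_lit 1) (nat_lit 5) (nat_lit 3)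 (nat_lit 4) (nat_lit 1) (nat_lit 4) (nat_lit 325) (nat_lit 221) (nat_lit 174)) (XT.lf (nat_lit 0) (nat_lit 232639700076) (nat_lit 152) (nat_lit 497854276720) (nat_lit 0) (nat_lit 227195954502) (nat_lit 1) (nat_lit 5) (nat_lit 3) (nat_lit 4) (nat_lit 1) (nat_lit 4) (nat_lit 326) (nat_lit 221) (nat_lit 173))))) (XT.nd (nat_lit 156) (nat_lit 76) (nat_lit 0) (XT.nd (nat_lit 78) (nat_lit 152) (nat_lit 0) (XT.lf (nat_lit 0) (nat_lit 7574974735) (nat_lit 76) (nat_lit 2051367993) (nat_lit 76) (nat_lit 2051367993) (nat_lit 9) (nat_lit 4) (nat_lit 10) (nat_lit 5) (nat_lit 10) (nat_lit 4) (nat_lit 276) (nat_lit 222) (nat_lit 222)) (XT.lf (nat_lit 0) (nat_lit 1419220604) (nat_lit 152) (nat_lit 22563487137) (nat_lit 0) (nat_lit 926837119) (nat_lit 7) (nat_lit 5) (nat_lit 9) (nat_lit 4) (nat_lit 7) (nat_lit 4) (nat_lit 277) (nat_lit 222) (nat_lit 221))) (XT.nd (nat_lit 78) (nat_lit 76) (nat_lit 0)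 (XT.lf (nat_lit 0) (nat_lit 7140861977) (nat_lit 152) (nat_lit 13256402984) (nat_lit 0) (nat_lit 6192567859) (nat_lit 7) (nat_lit 5) (nat_lit 9) (nat_lit 4) (nat_lit 7) (nat_lit 4) (nat_lit 278) (nat_lit 222) (nat_lit 220)) (XT.nd (nat_lit 78) (nat_lit 76) (nat_lit 0) (XT.lf (nat_lit 0) (nat_lit 13028836188) (nat_lit 152) (nat_lit 3732135121) (nat_lit 0) (nat_lit 11658402594) (nat_lit 7) (nat_lit 5) (nat_lit 9) (nat_lit 4) (nat_lit 7) (nat_lit 4) (nat_lit 279) (nat_lit 222) (nat_lit 219)) (XT.lf (nat_lit 0) (nat_lit 6266317861) (nat_lit 76) (nat_lit 12949551857) (nat_lit 76) (nat_lit 11188248378) (nat_lit 6) (nat_lit 4) (nat_lit 7) (nat_lit 5) (nat_lit 7) (nat_lit 4) (nat_lit 280) (nat_lit 222) (nat_lit 218))))))) (XT.nd (nat_lit 702) (nat_lit 76) (nat_lit 0) (XT.nd (nat_lit 312) (nat_lit 76) (nat_lit 0) (XT.nd (nat_lit 156) (nat_lit 152) (nat_lit 0) (XT.nd (nat_lit 78) (nat_lit 0) (nat_lit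 0) (XT.lf (nat_lit 0) (nat_lit 16730824500) (nat_lit 76) (nat_lit 8974932918) (nat_lit 76) (nat_lit 6851712880) (nat_lit 6) (nat_lit 4) (nat_lit 7) (nat_lit 5) (nat_lit 7) (nat_lit 4) (nat_lit 281) (nat_lit 222) (nat_lit 217)) (XT.lf (nat_lit 0) (nat_lit 27599995443) (nat_lit 76) (nat_lit 4876766711) (nat_lit 76) (nat_lit 2418438747) (nat_lit 6) (nat_lit 4) (nat_lit 7) (nat_lit 5) (nat_lit 7) (nat_lit 4) (nat_lit 282) (nat_lit 222) (nat_lit 216))) (XT.nd (nat_lit 78) (nat_lit 0) (nat_lit 0) (XT.lf (nat_lit 0) (nat_lit 1522426879) (nat_lit 76) (nat_lit 570763345) (nat_lit 152) (nat_lit 35335115543) (nat_lit 4) (nat_lit 5) (nat_lit 5) (nat_lit 5) (nat_lit 6) (nat_lit 4) (nat_lit 283) (nat_lit 222) (nat_lit 215)) (XT.lf (nat_lit 0) (nat_lit 6858530056) (nat_lit 152) (nat_lit 29356704067) (nat_lit 0) (nat_lit 3948135661) (nat_lit 4) (nat_lit 5) (nat_lit 6) (nat_lit 4) (nat_lit 4) (nat_lit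 4) (nat_lit 284) (nat_lit 222) (nat_lit 214)))) (XT.nd (nat_lit 156) (nat_lit 76) (nat_lit 0) (XT.nd (nat_lit 78) (nat_lit 0) (nat_lit 0) (XT.lf (nat_lit 0) (nat_lit 11814277868) (nat_lit 152) (nat_lit 22662126565) (nat_lit 0) (nat_lit 8650531591) (nat_lit 4) (nat_lit 5) (nat_lit 6) (nat_lit 4) (nat_lit 4) (nat_lit 4) (nat_lit 285) (nat_lit 222) (nat_lit 213)) (XT.lf (nat_lit 0) (nat_lit 16980889839) (nat_lit 152) (nat_lit 15773563595) (nat_lit 0) (nat_lit 13582558485) (nat_lit 4) (nat_lit 5) (nat_lit 6) (nat_lit 4) (nat_lit 4) (nat_lit 4) (nat_lit 286) (nat_lit 222) (nat_lit 212))) (XT.nd (nat_lit 78) (nat_lit 76) (nat_lit 0) (XT.lf (nat_lit 0) (nat_lit 22388982928) (nat_lit 152) (nat_lit 8650194044) (nat_lit 0) (nat_lit 18773443171) (nat_lit 4) (nat_lit 5) (nat_lit 6) (nat_lit 4) (nat_lit 4) (nat_lit 4) (nat_lit 287) (nat_lit 222) (nat_lit 211)) (XT.nd (nat_lit 78) (nat_lit 76) (nat_lit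 0) (XT.lf (nat_lit 0) (nat_lit 28070605094) (nat_lit 152) (nat_lit 1249805351) (nat_lit 0) (nat_lit 24253946446) (nat_lit 4) (nat_lit 5) (nat_lit 6) (nat_lit 4) (nat_lit 4) (nat_lit 4) (nat_lit 288) (nat_lit 222) (nat_lit 210)) (XT.lf (nat_lit 0) (nat_lit 6685432220) (nat_lit 76) (nat_lit 27478371323) (nat_lit 76) (nat_lit 23475491478) (nat_lit 3) (nat_lit 4) (nat_lit 4) (nat_lit 5) (nat_lit 4) (nat_lit 4) (nat_lit 289) (nat_lit 222) (nat_lit 209)))))) (XT.nd (nat_lit 390) (nat_lit 76) (nat_lit 0) (XT.nd (nat_lit 156) (nat_lit 0) (nat_lit 0) (XT.nd (nat_lit 78) (nat_lit 0) (nat_lit 0) (XT.lf (nat_lit 0) (nat_lit 15040745333) (nat_lit 76) (nat_lit 25585015435) (nat_lit 76) (nat_lit 21409708556) (nat_lit 3) (nat_lit 4) (nat_lit 4) (nat_lit 5) (nat_lit 4) (nat_lit 4) (nat_lit 290) (nat_lit 222) (nat_lit 208)) (XT.lf (nat_lit 0) (nat_lit 23824322743) (nat_lit 76) (nat_lit 23650288952) (nat_lit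 76) (nat_lit 19315327413) (nat_lit 3) (nat_lit 4) (nat_lit 4) (nat_lit 5) (nat_lit 4) (nat_lit 4) (nat_lit 291) (nat_lit 222) (nat_lit 207))) (XT.nd (nat_lit 78) (nat_lit 0) (nat_lit 0) (XT.lf (nat_lit 0) (nat_lit 33088215281) (nat_lit 76) (nat_lit 21662726830) (nat_lit 76) (nat_lit 17179936901) (nat_lit 3) (nat_lit 4) (nat_lit 4) (nat_lit 5) (nat_lit 4) (nat_lit 4) (nat_lit 292) (nat_lit 222) (nat_lit 206)) (XT.nd (nat_lit 78) (nat_lit 0) (nat_lit 0) (XT.lf (nat_lit 0) (nat_lit 42887320086) (nat_lit 76) (nat_lit 19610550921) (nat_lit 76) (nat_lit 14990882854) (nat_lit 3) (nat_lit 4) (nat_lit 4) (nat_lit 5) (nat_lit 4) (nat_lit 4) (nat_lit 293) (nat_lit 222) (nat_lit 205)) (XT.lf (nat_lit 0) (nat_lit 53279705929) (nat_lit 76) (nat_lit 17481600185) (nat_lit 76) (nat_lit 12735193100) (nat_lit 3) (nat_lit 4) (nat_lit 4) (nat_lit 5) (nat_lit 4) (nat_lit 4) (nat_lit 294) (nat_lit 222) (nat_lit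 204))))) (XT.nd (nat_lit 156) (nat_lit 76) (nat_lit 0) (XT.nd (nat_lit 78) (nat_lit 0) (nat_lit 0) (XT.lf (nat_lit 0) (nat_lit 64326957318) (nat_lit 76) (nat_lit 15263258615) (nat_lit 76) (nat_lit 10399500589) (nat_lit 3) (nat_lit 4) (nat_lit 4) (nat_lit 5) (nat_lit 4) (nat_lit 4) (nat_lit 295) (nat_lit 222) (nat_lit 203)) (XT.lf (nat_lit 0) (nat_lit 76094539446) (nat_lit 76) (nat_lit 12942380485) (nat_lit 76) (nat_lit 7969964179) (nat_lit 3) (nat_lit 4) (nat_lit 4) (nat_lit 5) (nat_lit 4) (nat_lit 4) (nat_lit 296) (nat_lit 222) (nat_lit 202))) (XT.nd (nat_lit 78) (nat_lit 76) (nat_lit 0) (XT.lf (nat_lit 0) (nat_lit 88652186133) (nat_lit 76) (nat_lit 10505212443) (nat_lit 76) (nat_lit 5432186619) (nat_lit 3) (nat_lit 4) (nat_lit 4) (nat_lit 5) (nat_lit 4) (nat_lit 4) (nat_lit 297) (nat_lit 222) (nat_lit 201)) (XT.nd (nat_lit 78) (nat_lit 76) (nat_lit 0) (XT.lf (nat_lit 0) (nat_lit 102074313064)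 (nat_lit 76) (nat_lit 7937312011) (nat_lit 76) (nat_lit 2771129226) (nat_lit 3) (nat_lit 4) (nat_lit 4) (nat_lit 5) (nat_lit 4) (nat_lit 4) (nat_lit 298) (nat_lit 222) (nat_lit 200)) (XT.lf (nat_lit 0) (nat_lit 28049776) (nat_lit 152) (nat_lit 5194937189) (nat_lit 76) (nat_lit 116411933955) (nat_lit 2) (nat_lit 5) (nat_lit 4) (nat_lit 5) (nat_lit 3) (nat_lit 4) (nat_lit 299) (nat_lit 222) (nat_lit 199))))))))
noncomputable def xc17 : XT := (XT.nd (nat_lit 1482) (nat_lit 0) (nat_lit 0) (XT.nd (nat_lit 702) (nat_lit 0) (nat_lit 0) (XT.nd (nat_lit 312) (nat_lit 0) (nat_lit 0) (XT.nd (nat_lit 156) (nat_lit 0) (nat_lit 0) (XT.nd (nat_lit 78) (nat_lit 0) (nat_lit 0) (XT.lf (nat_lit 0) (nat_lit 610071797) (nat_lit 76) (nat_lit 2288649230) (nat_lit 152) (nat_lit 128297083062) (nat_lit 1) (nat_lit 5) (nat_lit 2) (nat_lit 5) (nat_lit 3) (nat_lit 4) (nat_lit 300) (nat_lit 222) (nat_lit 198)) (XT.lf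 (nat_lit 0) (nat_lit 6040822029) (nat_lit 152) (nat_lit 134586684941) (nat_lit 0) (nat_lit 892005544) (nat_lit 1) (nat_lit 5) (nat_lit 3) (nat_lit 4) (nat_lit 1) (nat_lit 4) (nat_lit 301) (nat_lit 222) (nat_lit 197))) (XT.nd (nat_lit 78) (nat_lit 0) (nat_lit 0) (XT.lf (nat_lit 0) (nat_lit 9413672701) (nat_lit 152) (nat_lit 139056872329) (nat_lit 0) (nat_lit 4199643695) (nat_lit 1) (nat_lit 5) (nat_lit 3) (nat_lit 4) (nat_lit 1) (nat_lit 4) (nat_lit 302) (nat_lit 222) (nat_lit 196)) (XT.lf (nat_lit 0) (nat_lit 13001528079) (nat_lit 152) (nat_lit 143987052226) (nat_lit 0) (nat_lit 7727117108) (nat_lit 1) (nat_lit 5) (nat_lit 3) (nat_lit 4) (nat_lit 1) (nat_lit 4) (nat_lit 303) (nat_lit 222) (nat_lit 195)))) (XT.nd (nat_lit 156) (nat_lit 0) (nat_lit 0) (XT.nd (nat_lit 78) (nat_lit 0) (nat_lit 0) (XT.lf (nat_lit 0) (nat_lit 16825649527) (nat_lit 152) (nat_lit 149406440513) (nat_lit 0) (nat_lit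 11495329330) (nat_lit 1) (nat_lit 5) (nat_lit 3) (nat_lit 4) (nat_lit 1) (nat_lit 4) (nat_lit 304) (nat_lit 222) (nat_lit 194)) (XT.lf (nat_lit 0) (nat_lit 20908698506) (nat_lit 152) (nat_lit 155347152085) (nat_lit 0) (nat_lit 15526610507) (nat_lit 1) (nat_lit 5) (nat_lit 3) (nat_lit 4) (nat_lit 1) (nat_lit 4) (nat_lit 305) (nat_lit 222) (nat_lit 193))) (XT.nd (nat_lit 78) (nat_lit 0) (nat_lit 0) (XT.lf (nat_lit 0) (nat_lit 25274870862) (nat_lit 152) (nat_lit 161844391157) (nat_lit 0) (nat_lit 19844849713) (nat_lit 1) (nat_lit 5) (nat_lit 3) (nat_lit 4) (nat_lit 1) (nat_lit 4) (nat_lit 306) (nat_lit 222) (nat_lit 192)) (XT.nd (nat_lit 78) (nat_lit 0) (nat_lit 0) (XT.lf (nat_lit 0) (nat_lit 29950040209) (nat_lit 152) (nat_lit 168936659887) (nat_lit 0) (nat_lit 24475636513) (nat_lit 1) (nat_lit 5) (nat_lit 3) (nat_lit 4) (nat_lit 1) (nat_lit 4) (nat_lit 307) (nat_lit 222) (nat_lit 191))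 (XT.lf (nat_lit 0) (nat_lit 34961911253) (nat_lit 152) (nat_lit 176665986535) (nat_lit 0) (nat_lit 29446412608) (nat_lit 1) (nat_lit 5) (nat_lit 3) (nat_lit 4) (nat_lit 1) (nat_lit 4) (nat_lit 308) (nat_lit 222) (nat_lit 190)))))) (XT.nd (nat_lit 390) (nat_lit 0) (nat_lit 0) (XT.nd (nat_lit 156) (nat_lit 0) (nat_lit 0) (XT.nd (nat_lit 78) (nat_lit 0) (nat_lit 0) (XT.lf (nat_lit 0) (nat_lit 40340183973) (nat_lit 152) (nat_lit 185078174517) (nat_lit 0) (nat_lit 34786634447) (nat_lit 1) (nat_lit 5) (nat_lit 3) (nat_lit 4) (nat_lit 1) (nat_lit 4) (nat_lit 309) (nat_lit 222) (nat_lit 189)) (XT.lf (nat_lit 0) (nat_lit 46116729612) (nat_lit 152) (nat_lit 194223073836) (nat_lit 0) (nat_lit 40527947791) (nat_lit 1) (nat_lit 5) (nat_lit 3) (nat_lit 4) (nat_lit 1) (nat_lit 4) (nat_lit 310) (nat_lit 222) (nat_lit 188))) (XT.nd (nat_lit 78) (nat_lit 0) (nat_lit 0) (XT.lf (nat_lit 0) (nat_lit 52325779554)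 (nat_lit 152) (nat_lit 204154876489) (nat_lit 0) (nat_lit 46704375236) (nat_lit 1) (nat_lit 5) (nat_lit 3) (nat_lit 4) (nat_lit 1) (nat_lit 4) (nat_lit 311) (nat_lit 222) (nat_lit 187)) (XT.nd (nat_lit 78) (nat_lit 0) (nat_lit 0) (XT.lf (nat_lit 0) (nat_lit 59004128167) (nat_lit 152) (nat_lit 214932437602) (nat_lit 0) (nat_lit 53352517834) (nat_lit 1) (nat_lit 5) (nat_lit 3) (nat_lit 4) (nat_lit 1) (nat_lit 4) (nat_lit 312) (nat_lit 222) (nat_lit 186)) (XT.lf (nat_lit 0) (nat_lit 66191350851) (nat_lit 152) (nat_lit 226619624203) (nat_lit 0) (nat_lit 60511771986) (nat_lit 1) (nat_lit 5) (nat_lit 3) (nat_lit 4) (nat_lit 1) (nat_lit 4) (nat_lit 313) (nat_lit 222) (nat_lit 185))))) (XT.nd (nat_lit 156) (nat_lit 0) (nat_lit 0) (XT.nd (nat_lit 78) (nat_lit 0) (nat_lit 0) (XT.lf (nat_lit 0) (nat_lit 73930038556) (nat_lit 152) (nat_lit 239285693696) (nat_lit 0) (nat_lit 68224562901) (nat_lit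 1) (nat_lit 5) (nat_lit 3) (nat_lit 4) (nat_lit 1) (nat_lit 4) (nat_lit 314) (nat_lit 222) (nat_lit 184)) (XT.lf (nat_lit 0) (nat_lit 82266050172) (nat_lit 152) (nat_lit 253005704269) (nat_lit 0) (nat_lit 76536596008) (nat_lit 1) (nat_lit 5) (nat_lit 3) (nat_lit 4) (nat_lit 1) (nat_lit 4) (nat_lit 315) (nat_lit 222) (nat_lit 183))) (XT.nd (nat_lit 78) (nat_lit 0) (nat_lit 0) (XT.lf (nat_lit 0) (nat_lit 91248784285) (nat_lit 152) (nat_lit 267860959690) (nat_lit 0) (nat_lit 85497127798) (nat_lit 1) (nat_lit 5) (nat_lit 3) (nat_lit 4) (nat_lit 1) (nat_lit 4) (nat_lit 316) (nat_lit 222) (nat_lit 182)) (XT.nd (nat_lit 78) (nat_lit 0) (nat_lit 0) (XT.lf (nat_lit 0) (nat_lit 100931471913) (nat_lit 152) (nat_lit 283939491100) (nat_lit 0) (nat_lit 95159257719) (nat_lit 1) (nat_lit 5) (nat_lit 3) (nat_lit 4) (nat_lit 1) (nat_lit 4) (nat_lit 317) (nat_lit 222) (nat_lit 181)) (XT.lf (nat_lit 0) (nat_lit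 111371491945) (nat_lit 152) (nat_lit 301336578687) (nat_lit 0) (nat_lit 105580242838) (nat_lit 1) (nat_lit 5) (nat_lit 3) (nat_lit 4) (nat_lit 1) (nat_lit 4) (nat_lit 318) (nat_lit 222) (nat_lit 180))))))) (XT.nd (nat_lit 34086) (nat_lit 0) (nat_lit 228) (XT.nd (nat_lit 312) (nat_lit 0) (nat_lit 0) (XT.nd (nat_lit 156) (nat_lit 0) (nat_lit 0) (XT.nd (nat_lit 78) (nat_lit 0) (nat_lit 0) (XT.lf (nat_lit 0) (nat_lit 122630711167) (nat_lit 152) (nat_lit 320155316302) (nat_lit 0) (nat_lit 116821837140) (nat_lit 1) (nat_lit 5) (nat_lit 3) (nat_lit 4) (nat_lit 1) (nat_lit 4) (nat_lit 319) (nat_lit 222) (nat_lit 179)) (XT.lf (nat_lit 0) (nat_lit 134775850878) (nat_lit 152) (nat_lit 340507222392) (nat_lit 0) (nat_lit 128950657481) (nat_lit 1) (nat_lit 5) (nat_lit 3) (nat_lit 4) (nat_lit 1) (nat_lit 4) (nat_lit 320) (nat_lit 222) (nat_lit 178))) (XT.nd (nat_lit 78) (nat_lit 0) (nat_lit 0) (XT.lf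 (nat_lit 0) (nat_lit 147878882276) (nat_lit 152) (nat_lit 362512900843) (nat_lit 0) (nat_lit 142038578351) (nat_lit 1) (nat_lit 5) (nat_lit 3) (nat_lit 4) (nat_lit 1) (nat_lit 4) (nat_lit 321) (nat_lit 222) (nat_lit 177)) (XT.lf (nat_lit 0) (nat_lit 162017452955) (nat_lit 152) (nat_lit 386302755676) (nat_lit 0) (nat_lit 156163157800) (nat_lit 1) (nat_lit 5) (nat_lit 3) (nat_lit 4) (nat_lit 1) (nat_lit 4) (nat_lit 322) (nat_lit 222) (nat_lit 176)))) (XT.nd (nat_lit 156) (nat_lit 0) (nat_lit 0) (XT.nd (nat_lit 78) (nat_lit 0) (nat_lit 0) (XT.lf (nat_lit 0) (nat_lit 177275347036) (nat_lit 152) (nat_lit 412017763809) (nat_lit 0) (nat_lit 171408097040) (nat_lit 1) (nat_lit 5) (nat_lit 3) (nat_lit 4) (nat_lit 1) (nat_lit 4) (nat_lit 323) (nat_lit 222) (nat_lit 175)) (XT.lf (nat_lit 0) (nat_lit 193742981672) (nat_lit 152) (nat_lit 439810310475) (nat_lit 0) (nat_lit 187863736451) (nat_lit 1)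 (nat_lit 5) (nat_lit 3) (nat_lit 4) (nat_lit 1) (nat_lit 4) (nat_lit 324) (nat_lit 222) (nat_lit 174))) (XT.nd (nat_lit 78) (nat_lit 0) (nat_lit 0) (XT.lf (nat_lit 0) (nat_lit 211517942843) (nat_lit 152) (nat_lit 469845092247) (nat_lit 0) (nat_lit 205627590934) (nat_lit 1) (nat_lit 5) (nat_lit 3) (nat_lit 4) (nat_lit 1) (nat_lit 4) (nat_lit 325) (nat_lit 222) (nat_lit 173)) (XT.nd (nat_lit 33462) (nat_lit 0) (nat_lit 684) (XT.lf (nat_lit 0) (nat_lit 230705563654) (nat_lit 152) (nat_lit 502300093017) (nat_lit 0) (nat_lit 224804927773) (nat_lit 1) (nat_lit 5) (nat_lit 3) (nat_lit 4) (nat_lit 1) (nat_lit 4) (nat_lit 326) (nat_lit 222) (nat_lit 172)) (XT.lf (nat_lit 0) (nat_lit 3295645482) (nat_lit 152) (nat_lit 3712940974) (nat_lit 0) (nat_lit 3295645482) (nat_lit 10) (nat_lit 5) (nat_lit 12) (nat_lit 4) (nat_lit 10) (nat_lit 4) (nat_lit 274) (nat_lit 223) (nat_lit 223)))))) (XT.nd (nat_lit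 390) (nat_lit 228) (nat_lit 0) (XT.nd (nat_lit 156) (nat_lit 152) (nat_lit 0) (XT.nd (nat_lit 78) (nat_lit 0) (nat_lit 0) (XT.lf (nat_lit 0) (nat_lit 3443143943) (nat_lit 76) (nat_lit 9521680938) (nat_lit 76) (nat_lit 8963318067) (nat_lit 9) (nat_lit 4) (nat_lit 10) (nat_lit 5) (nat_lit 10) (nat_lit 4) (nat_lit 275) (nat_lit 223) (nat_lit 222)) (XT.lf (nat_lit 0) (nat_lit 14875025131) (nat_lit 76) (nat_lit 4781812775) (nat_lit 76) (nat_lit 3706447245) (nat_lit 9) (nat_lit 4) (nat_lit 10) (nat_lit 5) (nat_lit 10) (nat_lit 4) (nat_lit 276) (nat_lit 223) (nat_lit 221))) (XT.nd (nat_lit 78) (nat_lit 0) (nat_lit 0) (XT.lf (nat_lit 0) (nat_lit 1636284417) (nat_lit 152) (nat_lit 23133060801) (nat_lit 0) (nat_lit 156216136) (nat_lit 7) (nat_lit 5) (nat_lit 9) (nat_lit 4) (nat_lit 7) (nat_lit 4) (nat_lit 277) (nat_lit 223) (nat_lit 220)) (XT.nd (nat_lit 78) (nat_lit 0) (nat_lit 0) (XT.lf (nat_lit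 0) (nat_lit 7217830371) (nat_lit 152) (nat_lit 14079526178) (nat_lit 0) (nat_lit 5315622614) (nat_lit 7) (nat_lit 5) (nat_lit 9) (nat_lit 4) (nat_lit 7) (nat_lit 4) (nat_lit 278) (nat_lit 223) (nat_lit 219)) (XT.lf (nat_lit 0) (nat_lit 12976086601) (nat_lit 152) (nat_lit 4790026399) (nat_lit 0) (nat_lit 10683008959) (nat_lit 7) (nat_lit 5) (nat_lit 9) (nat_lit 4) (nat_lit 7) (nat_lit 4) (nat_lit 279) (nat_lit 223) (nat_lit 218))))) (XT.nd (nat_lit 156) (nat_lit 152) (nat_lit 0) (XT.nd (nat_lit 78) (nat_lit 0) (nat_lit 0) (XT.lf (nat_lit 0) (nat_lit 4948882572) (nat_lit 76) (nat_lit 14073559461) (nat_lit 76) (nat_lit 11418565259) (nat_lit 6) (nat_lit 4) (nat_lit 7) (nat_lit 5) (nat_lit 7) (nat_lit 4) (nat_lit 280) (nat_lit 223) (nat_lit 217)) (XT.lf (nat_lit 0) (nat_lit 15205458332) (nat_lit 76) (nat_lit 10192412756) (nat_lit 76) (nat_lit 7202310628) (nat_lit 6) (nat_lit 4) (nat_lit 7)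 (nat_lit 5) (nat_lit 7) (nat_lit 4) (nat_lit 281) (nat_lit 223) (nat_lit 216))) (XT.nd (nat_lit 78) (nat_lit 152) (nat_lit 0) (XT.lf (nat_lit 0) (nat_lit 25882100684) (nat_lit 76) (nat_lit 6180794914) (nat_lit 76) (nat_lit 2880407669) (nat_lit 6) (nat_lit 4) (nat_lit 7) (nat_lit 5) (nat_lit 7) (nat_lit 4) (nat_lit 282) (nat_lit 223) (nat_lit 215)) (XT.nd (nat_lit 78) (nat_lit 76) (nat_lit 0) (XT.lf (nat_lit 0) (nat_lit 1522416916) (nat_lit 152) (nat_lit 466733600) (nat_lit 76) (nat_lit 35493878835) (nat_lit 5) (nat_lit 5) (nat_lit 7) (nat_lit 5) (nat_lit 6) (nat_lit 4) (nat_lit 283) (nat_lit 223) (nat_lit 214)) (XT.lf (nat_lit 0) (nat_lit 6161593398) (nat_lit 152) (nat_lit 31571487669) (nat_lit 0) (nat_lit 2491395536) (nat_lit 4) (nat_lit 5) (nat_lit 6) (nat_lit 4) (nat_lit 4) (nat_lit 4) (nat_lit 284) (nat_lit 223) (nat_lit 213))))))))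
noncomputable def xc18 : XT := (XT.nd (nat_lit 1482) (nat_lit 0) (nat_lit 0) (XT.nd (nat_lit 702) (nat_lit 152) (nat_lit 0) (XT.nd (nat_lit 312) (nat_lit 76) (nat_lit 0) (XT.nd (nat_lit 156) (nat_lit 0) (nat_lit 0) (XT.nd (nat_lit 78) (nat_lit 0) (nat_lit 0) (XT.lf (nat_lit 0) (nat_lit 11028112524) (nat_lit 152) (nat_lit 25041131672) (nat_lit 0) (nat_lit 7123329587) (nat_lit 4) (nat_lit 5) (nat_lit 6) (nat_lit 4) (nat_lit 4) (nat_lit 4) (nat_lit 285) (nat_lit 223) (nat_lit 212)) (XT.lf (nat_lit 0) (nat_lit 16112105341) (nat_lit 152) (nat_lit 18304625652) (nat_lit 0) (nat_lit 11990114000) (nat_lit 4) (nat_lit 5) (nat_lit 6) (nat_lit 4) (nat_lit 4) (nat_lit 4) (nat_lit 286) (nat_lit 223) (nat_lit 211))) (XT.nd (nat_lit 78) (nat_lit 0) (nat_lit 0) (XT.lf (nat_lit 0) (nat_lit 21443699214) (nat_lit 152) (nat_lit 11322049574) (nat_lit 0) (nat_lit 17120588981) (nat_lit 4) (nat_lit 5) (nat_lit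 6) (nat_lit 4) (nat_lit 4) (nat_lit 4) (nat_lit 287) (nat_lit 223) (nat_lit 210)) (XT.lf (nat_lit 0) (nat_lit 27054488773) (nat_lit 152) (nat_lit 4052025207) (nat_lit 0) (nat_lit 22545157344) (nat_lit 4) (nat_lit 5) (nat_lit 6) (nat_lit 4) (nat_lit 4) (nat_lit 4) (nat_lit 288) (nat_lit 223) (nat_lit 209)))) (XT.nd (nat_lit 156) (nat_lit 0) (nat_lit 0) (XT.nd (nat_lit 78) (nat_lit 0) (nat_lit 0) (XT.lf (nat_lit 0) (nat_lit 3665859469) (nat_lit 76) (nat_lit 29369098013) (nat_lit 76) (nat_lit 24687339550) (nat_lit 3) (nat_lit 4) (nat_lit 4) (nat_lit 5) (nat_lit 4) (nat_lit 4) (nat_lit 289) (nat_lit 223) (nat_lit 208)) (XT.lf (nat_lit 0) (nat_lit 11905710682) (nat_lit 76) (nat_lit 27528673796) (nat_lit 76) (nat_lit 22687260672) (nat_lit 3) (nat_lit 4) (nat_lit 4) (nat_lit 5) (nat_lit 4) (nat_lit 4) (nat_lit 290) (nat_lit 223) (nat_lit 207))) (XT.nd (nat_lit 78) (nat_lit 0) (nat_lit 0) (XT.lf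 (nat_lit 0) (nat_lit 20582378926) (nat_lit 76) (nat_lit 25642958121) (nat_lit 76) (nat_lit 20653716607) (nat_lit 3) (nat_lit 4) (nat_lit 4) (nat_lit 5) (nat_lit 4) (nat_lit 4) (nat_lit 291) (nat_lit 223) (nat_lit 206)) (XT.nd (nat_lit 78) (nat_lit 0) (nat_lit 0) (XT.lf (nat_lit 0) (nat_lit 29747281495) (nat_lit 76) (nat_lit 23700776375) (nat_lit 76) (nat_lit 18574656723) (nat_lit 3) (nat_lit 4) (nat_lit 4) (nat_lit 5) (nat_lit 4) (nat_lit 4) (nat_lit 292) (nat_lit 223) (nat_lit 205)) (XT.lf (nat_lit 0) (nat_lit 39454728922) (nat_lit 76) (nat_lit 21690619334) (nat_lit 76) (nat_lit 16437760665) (nat_lit 3) (nat_lit 4) (nat_lit 4) (nat_lit 5) (nat_lit 4) (nat_lit 4) (nat_lit 293) (nat_lit 223) (nat_lit 204)))))) (XT.nd (nat_lit 390) (nat_lit 152) (nat_lit 0) (XT.nd (nat_lit 156) (nat_lit 0) (nat_lit 0) (XT.nd (nat_lit 78) (nat_lit 0) (nat_lit 0) (XT.lf (nat_lit 0) (nat_lit 49762246822) (nat_lit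 76) (nat_lit 19600574956) (nat_lit 76) (nat_lit 14230365345) (nat_lit 3) (nat_lit 4) (nat_lit 4) (nat_lit 5) (nat_lit 4) (nat_lit 4) (nat_lit 294) (nat_lit 223) (nat_lit 203)) (XT.lf (nat_lit 0) (nat_lit 60730916781) (nat_lit 76) (nat_lit 17418257793) (nat_lit 76) (nat_lit 11939389903) (nat_lit 3) (nat_lit 4) (nat_lit 4) (nat_lit 5) (nat_lit 4) (nat_lit 4) (nat_lit 295) (nat_lit 223) (nat_lit 202))) (XT.nd (nat_lit 78) (nat_lit 0) (nat_lit 0) (XT.lf (nat_lit 0) (nat_lit 72425738327) (nat_lit 76) (nat_lit 15130735595) (nat_lit 76) (nat_lit 9551258187) (nat_lit 3) (nat_lit 4) (nat_lit 4) (nat_lit 5) (nat_lit 4) (nat_lit 4) (nat_lit 296) (nat_lit 223) (nat_lit 201)) (XT.nd (nat_lit 78) (nat_lit 0) (nat_lit 0) (XT.lf (nat_lit 0) (nat_lit 84916014105) (nat_lit 76) (nat_lit 12724452675) (nat_lit 76) (nat_lit 7051818305) (nat_lit 3) (nat_lit 4) (nat_lit 4) (nat_lit 5) (nat_lit 4) (nat_lit 4)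 (nat_lit 297) (nat_lit 223) (nat_lit 200)) (XT.lf (nat_lit 0) (nat_lit 98275760564) (nat_lit 76) (nat_lit 10185149578) (nat_lit 76) (nat_lit 4426258763) (nat_lit 3) (nat_lit 4) (nat_lit 4) (nat_lit 5) (nat_lit 4) (nat_lit 4) (nat_lit 298) (nat_lit 223) (nat_lit 199))))) (XT.nd (nat_lit 156) (nat_lit 76) (nat_lit 0) (XT.nd (nat_lit 78) (nat_lit 76) (nat_lit 0) (XT.lf (nat_lit 0) (nat_lit 112584146572) (nat_lit 76) (nat_lit 7497778582) (nat_lit 76) (nat_lit 1659020688) (nat_lit 3) (nat_lit 4) (nat_lit 4) (nat_lit 5) (nat_lit 4) (nat_lit 4) (nat_lit 299) (nat_lit 223) (nat_lit 198)) (XT.lf (nat_lit 0) (nat_lit 1225765037) (nat_lit 152) (nat_lit 3399890565) (nat_lit 76) (nat_lit 126679438603) (nat_lit 2) (nat_lit 5) (nat_lit 4) (nat_lit 5) (nat_lit 3) (nat_lit 4) (nat_lit 300) (nat_lit 223) (nat_lit 197))) (XT.nd (nat_lit 78) (nat_lit 0) (nat_lit 0) (XT.lf (nat_lit 0) (nat_lit 2773447350)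 (nat_lit 76) (nat_lit 1497103572) (nat_lit 152) (nat_lit 137363136788) (nat_lit 1) (nat_lit 5) (nat_lit 2) (nat_lit 5) (nat_lit 3) (nat_lit 4) (nat_lit 301) (nat_lit 223) (nat_lit 196)) (XT.nd (nat_lit 78) (nat_lit 0) (nat_lit 0) (XT.lf (nat_lit 0) (nat_lit 7593670233) (nat_lit 152) (nat_lit 143356273726) (nat_lit 0) (nat_lit 1836924420) (nat_lit 1) (nat_lit 5) (nat_lit 3) (nat_lit 4) (nat_lit 1) (nat_lit 4) (nat_lit 302) (nat_lit 223) (nat_lit 195)) (XT.lf (nat_lit 0) (nat_lit 11157120630) (nat_lit 152) (nat_lit 148332027661) (nat_lit 0) (nat_lit 5344465591) (nat_lit 1) (nat_lit 5) (nat_lit 3) (nat_lit 4) (nat_lit 1) (nat_lit 4) (nat_lit 303) (nat_lit 223) (nat_lit 194))))))) (XT.nd (nat_lit 702) (nat_lit 0) (nat_lit 0) (XT.nd (nat_lit 312) (nat_lit 0) (nat_lit 0) (XT.nd (nat_lit 156) (nat_lit 0) (nat_lit 0) (XT.nd (nat_lit 78) (nat_lit 0) (nat_lit 0) (XT.lf (nat_lit 0) (nat_lit 14958644874)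 (nat_lit 152) (nat_lit 153793614131) (nat_lit 0) (nat_lit 9094222033) (nat_lit 1) (nat_lit 5) (nat_lit 3) (nat_lit 4) (nat_lit 1) (nat_lit 4) (nat_lit 304) (nat_lit 223) (nat_lit 193)) (XT.lf (nat_lit 0) (nat_lit 19020770515) (nat_lit 152) (nat_lit 159773398095) (nat_lit 0) (nat_lit 13108414525) (nat_lit 1) (nat_lit 5) (nat_lit 3) (nat_lit 4) (nat_lit 1) (nat_lit 4) (nat_lit 305) (nat_lit 223) (nat_lit 192))) (XT.nd (nat_lit 78) (nat_lit 0) (nat_lit 0) (XT.lf (nat_lit 0) (nat_lit 23367569411) (nat_lit 152) (nat_lit 166306815307) (nat_lit 0) (nat_lit 17410830874) (nat_lit 1) (nat_lit 5) (nat_lit 3) (nat_lit 4) (nat_lit 1) (nat_lit 4) (nat_lit 306) (nat_lit 223) (nat_lit 191)) (XT.lf (nat_lit 0) (nat_lit 28024800368) (nat_lit 152) (nat_lit 173432582316) (nat_lit 0) (nat_lit 22026966881) (nat_lit 1) (nat_lit 5) (nat_lit 3) (nat_lit 4) (nat_lit 1) (nat_lit 4) (nat_lit 307) (nat_lit 223) (nat_lit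 190)))) (XT.nd (nat_lit 156) (nat_lit 0) (nat_lit 0) (XT.nd (nat_lit 78) (nat_lit 0) (nat_lit 0) (XT.lf (nat_lit 0) (nat_lit 33020061793) (nat_lit 152) (nat_lit 181192925888) (nat_lit 0) (nat_lit 26984177426) (nat_lit 1) (nat_lit 5) (nat_lit 3) (nat_lit 4) (nat_lit 1) (nat_lit 4) (nat_lit 308) (nat_lit 223) (nat_lit 189)) (XT.lf (nat_lit 0) (nat_lit 38382955235) (nat_lit 152) (nat_lit 189633833244) (nat_lit 0) (nat_lit 32311838572) (nat_lit 1) (nat_lit 5) (nat_lit 3) (nat_lit 4) (nat_lit 1) (nat_lit 4) (nat_lit 309) (nat_lit 223) (nat_lit 188))) (XT.nd (nat_lit 78) (nat_lit 0) (nat_lit 0) (XT.lf (nat_lit 0) (nat_lit 44145260803) (nat_lit 152) (nat_lit 198805324577) (nat_lit 0) (nat_lit 38041521643) (nat_lit 1) (nat_lit 5) (nat_lit 3) (nat_lit 4) (nat_lit 1) (nat_lit 4) (nat_lit 310) (nat_lit 223) (nat_lit 187)) (XT.nd (nat_lit 78) (nat_lit 0) (nat_lit 0) (XT.lf (nat_lit 0) (nat_lit 50341125493)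 (nat_lit 152) (nat_lit 208761749464) (nat_lit 0) (nat_lit 44207180318) (nat_lit 1) (nat_lit 5) (nat_lit 3) (nat_lit 4) (nat_lit 1) (nat_lit 4) (nat_lit 311) (nat_lit 223) (nat_lit 186)) (XT.lf (nat_lit 0) (nat_lit 57007265540) (nat_lit 152) (nat_lit 219562108942) (nat_lit 0) (nat_lit 50845351832) (nat_lit 1) (nat_lit 5) (nat_lit 3) (nat_lit 4) (nat_lit 1) (nat_lit 4) (nat_lit 312) (nat_lit 223) (nat_lit 185)))))) (XT.nd (nat_lit 390) (nat_lit 0) (nat_lit 0) (XT.nd (nat_lit 156) (nat_lit 0) (nat_lit 0) (XT.nd (nat_lit 78) (nat_lit 0) (nat_lit 0) (XT.lf (nat_lit 0) (nat_lit 64183183996) (nat_lit 152) (nat_lit 231270405142) (nat_lit 0) (nat_lit 57995373499) (nat_lit 1) (nat_lit 5) (nat_lit 3) (nat_lit 4) (nat_lit 1) (nat_lit 4) (nat_lit 313) (nat_lit 223) (nat_lit 184)) (XT.lf (nat_lit 0) (nat_lit 71911404823) (nat_lit 152) (nat_lit 243956020558) (nat_lit 0) (nat_lit 65699615817) (nat_lit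 1) (nat_lit 5) (nat_lit 3) (nat_lit 4) (nat_lit 1) (nat_lit 4) (nat_lit 314) (nat_lit 223) (nat_lit 183))) (XT.nd (nat_lit 78) (nat_lit 0) (nat_lit 0) (XT.lf (nat_lit 0) (nat_lit 80237724885) (nat_lit 152) (nat_lit 257694129209) (nat_lit 0) (nat_lit 74003733556) (nat_lit 1) (nat_lit 5) (nat_lit 3) (nat_lit 4) (nat_lit 1) (nat_lit 4) (nat_lit 315) (nat_lit 223) (nat_lit 182)) (XT.nd (nat_lit 78) (nat_lit 0) (nat_lit 0) (XT.lf (nat_lit 0) (nat_lit 89211485337) (nat_lit 152) (nat_lit 272566142108) (nat_lit 0) (nat_lit 82956936302) (nat_lit 1) (nat_lit 5) (nat_lit 3) (nat_lit 4) (nat_lit 1) (nat_lit 4) (nat_lit 316) (nat_lit 223) (nat_lit 181)) (XT.lf (nat_lit 0) (nat_lit 98885864020) (nat_lit 152) (nat_lit 288660189703) (nat_lit 0) (nat_lit 92612280071) (nat_lit 1) (nat_lit 5) (nat_lit 3) (nat_lit 4) (nat_lit 1) (nat_lit 4) (nat_lit 317) (nat_lit 223) (nat_lit 180))))) (XT.nd (nat_lit 156)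 (nat_lit 0) (nat_lit 0) (XT.nd (nat_lit 78) (nat_lit 0) (nat_lit 0) (XT.lf (nat_lit 0) (nat_lit 109318190584) (nat_lit 152) (nat_lit 306071644127) (nat_lit 0) (nat_lit 103026981716) (nat_lit 1) (nat_lit 5) (nat_lit 3) (nat_lit 4) (nat_lit 1) (nat_lit 4) (nat_lit 318) (nat_lit 223) (nat_lit 179)) (XT.lf (nat_lit 0) (nat_lit 120570286225) (nat_lit 152) (nat_lit 324903684370) (nat_lit 0) (nat_lit 114262757987) (nat_lit 1) (nat_lit 5) (nat_lit 3) (nat_lit 4) (nat_lit 1) (nat_lit 4) (nat_lit 319) (nat_lit 223) (nat_lit 178))) (XT.nd (nat_lit 78) (nat_lit 0) (nat_lit 0) (XT.lf (nat_lit 0) (nat_lit 132708830028) (nat_lit 152) (nat_lit 345267907707) (nat_lit 0) (nat_lit 126386191261) (nat_lit 1) (nat_lit 5) (nat_lit 3) (nat_lit 4) (nat_lit 1) (nat_lit 4) (nat_lit 320) (nat_lit 223) (nat_lit 177)) (XT.nd (nat_lit 78) (nat_lit 0) (nat_lit 0) (XT.lf (nat_lit 0) (nat_lit 145805754103) (nat_lit 152)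 (nat_lit 367284991016) (nat_lit 0) (nat_lit 139469124107) (nat_lit 1) (nat_lit 5) (nat_lit 3) (nat_lit 4) (nat_lit 1) (nat_lit 4) (nat_lit 321) (nat_lit 223) (nat_lit 176)) (XT.lf (nat_lit 0) (nat_lit 159938669853) (nat_lit 152) (nat_lit 391085405904) (nat_lit 0) (nat_lit 153589085015) (nat_lit 1) (nat_lit 5) (nat_lit 3) (nat_lit 4) (nat_lit 1) (nat_lit 4) (nat_lit 322) (nat_lit 223) (nat_lit 175))))))))
noncomputable def xc19 : XT := (XT.nd (nat_lit 34710) (nat_lit 0) (nat_lit 0) (XT.nd (nat_lit 33930) (nat_lit 0) (nat_lit 228) (XT.nd (nat_lit 33540) (nat_lit 0) (nat_lit 608) (XT.nd (nat_lit 156) (nat_lit 0) (nat_lit 0) (XT.nd (nat_lit 78) (nat_lit 0) (nat_lit 0) (XT.lf (nat_lit 0) (nat_lit 175191327890) (nat_lit 152) (nat_lit 416810191865) (nat_lit 0) (nat_lit 168829747828) (nat_lit 1) (nat_lit 5) (nat_lit 3) (nat_lit 4) (nat_lit 1) (nat_lit 4) (nat_lit 323) (nat_lit 223) (nat_lit 174))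 (XT.lf (nat_lit 0) (nat_lit 191654114336) (nat_lit 152) (nat_lit 444611792076) (nat_lit 0) (nat_lit 185281427584) (nat_lit 1) (nat_lit 5) (nat_lit 3) (nat_lit 4) (nat_lit 1) (nat_lit 4) (nat_lit 324) (nat_lit 223) (nat_lit 173))) (XT.nd (nat_lit 78) (nat_lit 0) (nat_lit 0) (XT.lf (nat_lit 0) (nat_lit 209424586443) (nat_lit 152) (nat_lit 474654956759) (nat_lit 0) (nat_lit 203041615720) (nat_lit 1) (nat_lit 5) (nat_lit 3) (nat_lit 4) (nat_lit 1) (nat_lit 4) (nat_lit 325) (nat_lit 223) (nat_lit 172)) (XT.lf (nat_lit 0) (nat_lit 228608050713) (nat_lit 152) (nat_lit 507117719485) (nat_lit 0) (nat_lit 222215557794) (nat_lit 1) (nat_lit 5) (nat_lit 3) (nat_lit 4) (nat_lit 1) (nat_lit 4) (nat_lit 326) (nat_lit 223) (nat_lit 171)))) (XT.nd (nat_lit 156) (nat_lit 76) (nat_lit 0) (XT.nd (nat_lit 78) (nat_lit 152) (nat_lit 0) (XT.lf (nat_lit 0) (nat_lit 4377048179) (nat_lit 76) (nat_lit 2379976271)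 (nat_lit 76) (nat_lit 2379976271) (nat_lit 12) (nat_lit 4) (nat_lit 13) (nat_lit 5) (nat_lit 13) (nat_lit 4) (nat_lit 272) (nat_lit 224) (nat_lit 224)) (XT.lf (nat_lit 0) (nat_lit 1030848078) (nat_lit 152) (nat_lit 17941295911) (nat_lit 0) (nat_lit 427816177) (nat_lit 10) (nat_lit 5) (nat_lit 12) (nat_lit 4) (nat_lit 10) (nat_lit 4) (nat_lit 273) (nat_lit 224) (nat_lit 223))) (XT.nd (nat_lit 78) (nat_lit 76) (nat_lit 0) (XT.lf (nat_lit 0) (nat_lit 7032411337) (nat_lit 152) (nat_lit 7713296995) (nat_lit 0) (nat_lit 5871016564) (nat_lit 10) (nat_lit 5) (nat_lit 12) (nat_lit 4) (nat_lit 10) (nat_lit 4) (nat_lit 274) (nat_lit 224) (nat_lit 222)) (XT.nd (nat_lit 78) (nat_lit 0) (nat_lit 0) (XT.lf (nat_lit 0) (nat_lit 2871301319) (nat_lit 76) (nat_lit 10375797786) (nat_lit 76) (nat_lit 8697400355) (nat_lit 9) (nat_lit 4) (nat_lit 10) (nat_lit 5) (nat_lit 10) (nat_lit 4) (nat_lit 275) (nat_lit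 224) (nat_lit 221)) (XT.lf (nat_lit 0) (nat_lit 14048622933) (nat_lit 76) (nat_lit 5747701768) (nat_lit 76) (nat_lit 3590598171) (nat_lit 9) (nat_lit 4) (nat_lit 10) (nat_lit 5) (nat_lit 10) (nat_lit 4) (nat_lit 276) (nat_lit 224) (nat_lit 220)))))) (XT.nd (nat_lit 390) (nat_lit 152) (nat_lit 0) (XT.nd (nat_lit 156) (nat_lit 76) (nat_lit 0) (XT.nd (nat_lit 78) (nat_lit 0) (nat_lit 0) (XT.lf (nat_lit 0) (nat_lit 666911204) (nat_lit 76) (nat_lit 926874771) (nat_lit 152) (nat_lit 23363179722) (nat_lit 7) (nat_lit 5) (nat_lit 8) (nat_lit 5) (nat_lit 9) (nat_lit 4) (nat_lit 277) (nat_lit 224) (nat_lit 219)) (XT.lf (nat_lit 0) (nat_lit 7031142836) (nat_lit 152) (nat_lit 15456816841) (nat_lit 0) (nat_lit 4163749098) (nat_lit 7) (nat_lit 5) (nat_lit 9) (nat_lit 4) (nat_lit 7) (nat_lit 4) (nat_lit 278) (nat_lit 224) (nat_lit 218))) (XT.nd (nat_lit 78) (nat_lit 76) (nat_lit 0) (XT.lf (nat_lit 0)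 (nat_lit 12669289824) (nat_lit 152) (nat_lit 6384694917) (nat_lit 0) (nat_lit 9439979526) (nat_lit 7) (nat_lit 5) (nat_lit 9) (nat_lit 4) (nat_lit 7) (nat_lit 4) (nat_lit 279) (nat_lit 224) (nat_lit 217)) (XT.nd (nat_lit 78) (nat_lit 0) (nat_lit 0) (XT.lf (nat_lit 0) (nat_lit 3093556232) (nat_lit 76) (nat_lit 15481909919) (nat_lit 76) (nat_lit 11917491695) (nat_lit 6) (nat_lit 4) (nat_lit 7) (nat_lit 5) (nat_lit 7) (nat_lit 4) (nat_lit 280) (nat_lit 224) (nat_lit 216)) (XT.lf (nat_lit 0) (nat_lit 13157603401) (nat_lit 76) (nat_lit 11687311579) (nat_lit 76) (nat_lit 7812608238) (nat_lit 6) (nat_lit 4) (nat_lit 7) (nat_lit 5) (nat_lit 7) (nat_lit 4) (nat_lit 281) (nat_lit 224) (nat_lit 215))))) (XT.nd (nat_lit 156) (nat_lit 76) (nat_lit 0) (XT.nd (nat_lit 78) (nat_lit 76) (nat_lit 0) (XT.lf (nat_lit 0) (nat_lit 23655978539) (nat_lit 76) (nat_lit 7755831111) (nat_lit 76) (nat_lit 3593826737)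 (nat_lit 6) (nat_lit 4) (nat_lit 7) (nat_lit 5) (nat_lit 7) (nat_lit 4) (nat_lit 282) (nat_lit 224) (nat_lit 214)) (XT.lf (nat_lit 0) (nat_lit 739404930) (nat_lit 152) (nat_lit 2912243744) (nat_lit 76) (nat_lit 33898967129) (nat_lit 5) (nat_lit 5) (nat_lit 7) (nat_lit 5) (nat_lit 6) (nat_lit 4) (nat_lit 283) (nat_lit 224) (nat_lit 213))) (XT.nd (nat_lit 78) (nat_lit 0) (nat_lit 0) (XT.lf (nat_lit 0) (nat_lit 5223306140) (nat_lit 152) (nat_lit 34305034691) (nat_lit 0) (nat_lit 771555493) (nat_lit 4) (nat_lit 5) (nat_lit 6) (nat_lit 4) (nat_lit 4) (nat_lit 4) (nat_lit 284) (nat_lit 224) (nat_lit 212)) (XT.nd (nat_lit 78) (nat_lit 0) (nat_lit 0) (XT.lf (nat_lit 0) (nat_lit 10007206113) (nat_lit 152) (nat_lit 27926735645) (nat_lit 0) (nat_lit 5338247062) (nat_lit 4) (nat_lit 5) (nat_lit 6) (nat_lit 4) (nat_lit 4) (nat_lit 4) (nat_lit 285) (nat_lit 224) (nat_lit 211)) (XT.lf (nat_lit 0) (nat_lit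 15014699714) (nat_lit 152) (nat_lit 21331023097) (nat_lit 0) (nat_lit 10144621771) (nat_lit 4) (nat_lit 5) (nat_lit 6) (nat_lit 4) (nat_lit 4) (nat_lit 4) (nat_lit 286) (nat_lit 224) (nat_lit 210))))))) (XT.nd (nat_lit 780) (nat_lit 152) (nat_lit 0) (XT.nd (nat_lit 390) (nat_lit 0) (nat_lit 0) (XT.nd (nat_lit 156) (nat_lit 76) (nat_lit 0) (XT.nd (nat_lit 78) (nat_lit 0) (nat_lit 0) (XT.lf (nat_lit 0) (nat_lit 20275460980) (nat_lit 152) (nat_lit 14478811345) (nat_lit 0) (nat_lit 15219161840) (nat_lit 4) (nat_lit 5) (nat_lit 6) (nat_lit 4) (nat_lit 4) (nat_lit 4) (nat_lit 287) (nat_lit 224) (nat_lit 209)) (XT.lf (nat_lit 0) (nat_lit 25820664791) (nat_lit 152) (nat_lit 7329494688) (nat_lit 0) (nat_lit 20591938618) (nat_lit 4) (nat_lit 5) (nat_lit 6) (nat_lit 4) (nat_lit 4) (nat_lit 4) (nat_lit 288) (nat_lit 224) (nat_lit 208))) (XT.nd (nat_lit 78) (nat_lit 0) (nat_lit 0) (XT.lf (nat_lit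 0) (nat_lit 164560146) (nat_lit 76) (nat_lit 31521180715) (nat_lit 76) (nat_lit 26132799880) (nat_lit 3) (nat_lit 4) (nat_lit 4) (nat_lit 5) (nat_lit 4) (nat_lit 4) (nat_lit 289) (nat_lit 224) (nat_lit 207)) (XT.nd (nat_lit 78) (nat_lit 0) (nat_lit 0) (XT.lf (nat_lit 0) (nat_lit 8297502193) (nat_lit 76) (nat_lit 29729767305) (nat_lit 76) (nat_lit 24193558081) (nat_lit 3) (nat_lit 4) (nat_lit 4) (nat_lit 5) (nat_lit 4) (nat_lit 4) (nat_lit 290) (nat_lit 224) (nat_lit 206)) (XT.lf (nat_lit 0) (nat_lit 16875180468) (nat_lit 76) (nat_lit 27889432006) (nat_lit 76) (nat_lit 22216344644) (nat_lit 3) (nat_lit 4) (nat_lit 4) (nat_lit 5) (nat_lit 4) (nat_lit 4) (nat_lit 291) (nat_lit 224) (nat_lit 205))))) (XT.nd (nat_lit 156) (nat_lit 0) (nat_lit 0) (XT.nd (nat_lit 78) (nat_lit 0) (nat_lit 0) (XT.lf (nat_lit 0) (nat_lit 25948425659) (nat_lit 76) (nat_lit 25989269128) (nat_lit 76) (nat_lit 20189442748)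 (nat_lit 3) (nat_lit 4) (nat_lit 4) (nat_lit 5) (nat_lit 4) (nat_lit 4) (nat_lit 292) (nat_lit 224) (nat_lit 204)) (XT.lf (nat_lit 0) (nat_lit 35571005143) (nat_lit 76) (nat_lit 24018018446) (nat_lit 76) (nat_lit 18100841124) (nat_lit 3) (nat_lit 4) (nat_lit 4) (nat_lit 5) (nat_lit 4) (nat_lit 4) (nat_lit 293) (nat_lit 224) (nat_lit 203))) (XT.nd (nat_lit 78) (nat_lit 0) (nat_lit 0) (XT.lf (nat_lit 0) (nat_lit 45799941614) (nat_lit 76) (nat_lit 21963998474) (nat_lit 76) (nat_lit 15938162873) (nat_lit 3) (nat_lit 4) (nat_lit 4) (nat_lit 5) (nat_lit 4) (nat_lit 4) (nat_lit 294) (nat_lit 224) (nat_lit 202)) (XT.nd (nat_lit 78) (nat_lit 0) (nat_lit 0) (XT.lf (nat_lit 0) (nat_lit 56695850991) (nat_lit 76) (nat_lit 19815037243) (nat_lit 76) (nat_lit 13688592124) (nat_lit 3) (nat_lit 4) (nat_lit 4) (nat_lit 5) (nat_lit 4) (nat_lit 4) (nat_lit 295) (nat_lit 224) (nat_lit 201)) (XT.lf (nat_lit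 0) (nat_lit 68323301628) (nat_lit 76) (nat_lit 17558400167) (nat_lit 76) (nat_lit 11338798087) (nat_lit 3) (nat_lit 4) (nat_lit 4) (nat_lit 5) (nat_lit 4) (nat_lit 4) (nat_lit 296) (nat_lit 224) (nat_lit 200)))))) (XT.nd (nat_lit 390) (nat_lit 76) (nat_lit 0) (XT.nd (nat_lit 156) (nat_lit 76) (nat_lit 0) (XT.nd (nat_lit 78) (nat_lit 0) (nat_lit 0) (XT.lf (nat_lit 0) (nat_lit 80751196934) (nat_lit 76) (nat_lit 15180714582) (nat_lit 76) (nat_lit 8874856056) (nat_lit 3) (nat_lit 4) (nat_lit 4) (nat_lit 5) (nat_lit 4) (nat_lit 4) (nat_lit 297) (nat_lit 224) (nat_lit 199)) (XT.lf (nat_lit 0) (nat_lit 94053183697) (nat_lit 76) (nat_lit 12667890499) (nat_lit 76) (nat_lit 6282164894) (nat_lit 3) (nat_lit 4) (nat_lit 4) (nat_lit 5) (nat_lit 4) (nat_lit 4) (nat_lit 298) (nat_lit 224) (nat_lit 198))) (XT.nd (nat_lit 78) (nat_lit 76) (nat_lit 0) (XT.lf (nat_lit 0) (nat_lit 108308088505) (nat_lit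 76) (nat_lit 10005037109) (nat_lit 76) (nat_lit 3545360505) (nat_lit 3) (nat_lit 4) (nat_lit 4) (nat_lit 5) (nat_lit 4) (nat_lit 4) (nat_lit 299) (nat_lit 224) (nat_lit 197)) (XT.nd (nat_lit 78) (nat_lit 76) (nat_lit 0) (XT.lf (nat_lit 0) (nat_lit 123600384868) (nat_lit 76) (nat_lit 7176374540) (nat_lit 76) (nat_lit 648224789) (nat_lit 3) (nat_lit 4) (nat_lit 4) (nat_lit 5) (nat_lit 4) (nat_lit 4) (nat_lit 300) (nat_lit 224) (nat_lit 196)) (XT.lf (nat_lit 0) (nat_lit 2348750177) (nat_lit 152) (nat_lit 1776612950) (nat_lit 76) (nat_lit 137632166404) (nat_lit 2) (nat_lit 5) (nat_lit 4) (nat_lit 5) (nat_lit 3) (nat_lit 4) (nat_lit 301) (nat_lit 224) (nat_lit 195))))) (XT.nd (nat_lit 156) (nat_lit 0) (nat_lit 0) (XT.nd (nat_lit 78) (nat_lit 0) (nat_lit 0) (XT.lf (nat_lit 0) (nat_lit 4808225924) (nat_lit 76) (nat_lit 781277210) (nat_lit 152) (nat_lit 147325341950) (nat_lit 1) (nat_lit 5) (nat_lit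 2) (nat_lit 5) (nat_lit 3) (nat_lit 4) (nat_lit 302) (nat_lit 224) (nat_lit 194)) (XT.lf (nat_lit 0) (nat_lit 9118158400) (nat_lit 152) (nat_lit 153112373352) (nat_lit 0) (nat_lit 2732813930) (nat_lit 1) (nat_lit 5) (nat_lit 3) (nat_lit 4) (nat_lit 1) (nat_lit 4) (nat_lit 303) (nat_lit 224) (nat_lit 193))) (XT.nd (nat_lit 78) (nat_lit 0) (nat_lit 0) (XT.lf (nat_lit 0) (nat_lit 12898759306) (nat_lit 152) (nat_lit 158613032214) (nat_lit 0) (nat_lit 6465481686) (nat_lit 1) (nat_lit 5) (nat_lit 3) (nat_lit 4) (nat_lit 1) (nat_lit 4) (nat_lit 304) (nat_lit 224) (nat_lit 192)) (XT.nd (nat_lit 78) (nat_lit 0) (nat_lit 0) (XT.lf (nat_lit 0) (nat_lit 16941511488) (nat_lit 152) (nat_lit 164628994318) (nat_lit 0) (nat_lit 10463851321) (nat_lit 1) (nat_lit 5) (nat_lit 3) (nat_lit 4) (nat_lit 1) (nat_lit 4) (nat_lit 305) (nat_lit 224) (nat_lit 191)) (XT.lf (nat_lit 0) (nat_lit 21270371994) (nat_lit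 152) (nat_lit 171195909809) (nat_lit 0) (nat_lit 14751616877) (nat_lit 1) (nat_lit 5) (nat_lit 3) (nat_lit 4) (nat_lit 1) (nat_lit 4) (nat_lit 306) (nat_lit 224) (nat_lit 190))))))))
noncomputable def xc20 : XT := (XT.nd (nat_lit 1482) (nat_lit 0) (nat_lit 0) (XT.nd (nat_lit 702) (nat_lit 0) (nat_lit 0) (XT.nd (nat_lit 312) (nat_lit 0) (nat_lit 0) (XT.nd (nat_lit 156) (nat_lit 0) (nat_lit 0) (XT.nd (nat_lit 78) (nat_lit 0) (nat_lit 0) (XT.lf (nat_lit 0) (nat_lit 25910993332) (nat_lit 152) (nat_lit 178352693742) (nat_lit 0) (nat_lit 19354187335) (nat_lit 1) (nat_lit 5) (nat_lit 3) (nat_lit 4) (nat_lit 1) (nat_lit 4) (nat_lit 307) (nat_lit 224) (nat_lit 189)) (XT.lf (nat_lit 0) (nat_lit 30890875479) (nat_lit 152) (nat_lit 186141756688) (nat_lit 0) (nat_lit 24298837186) (nat_lit 1) (nat_lit 5) (nat_lit 3) (nat_lit 4) (nat_lit 1) (nat_lit 4) (nat_lit 308) (nat_lit 224) (nat_lit 188))) (XT.nd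 (nat_lit 78) (nat_lit 0) (nat_lit 0) (XT.lf (nat_lit 0) (nat_lit 36239528849) (nat_lit 152) (nat_lit 194609256058) (nat_lit 0) (nat_lit 29614868060) (nat_lit 1) (nat_lit 5) (nat_lit 3) (nat_lit 4) (nat_lit 1) (nat_lit 4) (nat_lit 309) (nat_lit 224) (nat_lit 187)) (XT.lf (nat_lit 0) (nat_lit 41988649165) (nat_lit 152) (nat_lit 203805369625) (nat_lit 0) (nat_lit 35333782361) (nat_lit 1) (nat_lit 5) (nat_lit 3) (nat_lit 4) (nat_lit 1) (nat_lit 4) (nat_lit 310) (nat_lit 224) (nat_lit 186)))) (XT.nd (nat_lit 156) (nat_lit 0) (nat_lit 0) (XT.nd (nat_lit 78) (nat_lit 0) (nat_lit 0) (XT.lf (nat_lit 0) (nat_lit 48172305289) (nat_lit 152) (nat_lit 213784592878) (nat_lit 0) (nat_lit 41489469952) (nat_lit 1) (nat_lit 5) (nat_lit 3) (nat_lit 4) (nat_lit 1) (nat_lit 4) (nat_lit 311) (nat_lit 224) (nat_lit 185)) (XT.lf (nat_lit 0) (nat_lit 54827141108) (nat_lit 152) (nat_lit 224606061954) (nat_lit 0)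 (nat_lit 48118408981) (nat_lit 1) (nat_lit 5) (nat_lit 3) (nat_lit 4) (nat_lit 1) (nat_lit 4) (nat_lit 312) (nat_lit 224) (nat_lit 184))) (XT.nd (nat_lit 78) (nat_lit 0) (nat_lit 0) (XT.lf (nat_lit 0) (nat_lit 61992592686) (nat_lit 152) (nat_lit 236333904076) (nat_lit 0) (nat_lit 55259882051) (nat_lit 1) (nat_lit 5) (nat_lit 3) (nat_lit 4) (nat_lit 1) (nat_lit 4) (nat_lit 313) (nat_lit 224) (nat_lit 183)) (XT.nd (nat_lit 78) (nat_lit 0) (nat_lit 0) (XT.lf (nat_lit 0) (nat_lit 69711121960) (nat_lit 152) (nat_lit 249037617570) (nat_lit 0) (nat_lit 62956209002) (nat_lit 1) (nat_lit 5) (nat_lit 3) (nat_lit 4) (nat_lit 1) (nat_lit 4) (nat_lit 314) (nat_lit 224) (nat_lit 182)) (XT.lf (nat_lit 0) (nat_lit 78028468361) (nat_lit 152) (nat_lit 262792483700) (nat_lit 0) (nat_lit 71252997696) (nat_lit 1) (nat_lit 5) (nat_lit 3) (nat_lit 4) (nat_lit 1) (nat_lit 4) (nat_lit 315) (nat_lit 224) (nat_lit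 181)))))) (XT.nd (nat_lit 390) (nat_lit 0) (nat_lit 0) (XT.nd (nat_lit 156) (nat_lit 0) (nat_lit 0) (XT.nd (nat_lit 78) (nat_lit 0) (nat_lit 0) (XT.lf (nat_lit 0) (nat_lit 86993919868) (nat_lit 152) (nat_lit 277680012784) (nat_lit 0) (nat_lit 80199414290) (nat_lit 1) (nat_lit 5) (nat_lit 3) (nat_lit 4) (nat_lit 1) (nat_lit 4) (nat_lit 316) (nat_lit 224) (nat_lit 180)) (XT.lf (nat_lit 0) (nat_lit 96660605083) (nat_lit 152) (nat_lit 293788427216) (nat_lit 0) (nat_lit 89848474585) (nat_lit 1) (nat_lit 5) (nat_lit 3) (nat_lit 4) (nat_lit 1) (nat_lit 4) (nat_lit 317) (nat_lit 224) (nat_lit 179))) (XT.nd (nat_lit 78) (nat_lit 0) (nat_lit 0) (XT.lf (nat_lit 0) (nat_lit 107085808066) (nat_lit 152) (nat_lit 311213184267) (nat_lit 0) (nat_lit 100257358199) (nat_lit 1) (nat_lit 5) (nat_lit 3) (nat_lit 4) (nat_lit 1) (nat_lit 4) (nat_lit 318) (nat_lit 224) (nat_lit 178)) (XT.nd (nat_lit 78) (nat_lit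 0) (nat_lit 0) (XT.lf (nat_lit 0) (nat_lit 118331307799) (nat_lit 152) (nat_lit 330057541757) (nat_lit 0) (nat_lit 111487747403) (nat_lit 1) (nat_lit 5) (nat_lit 3) (nat_lit 4) (nat_lit 1) (nat_lit 4) (nat_lit 319) (nat_lit 224) (nat_lit 177)) (XT.lf (nat_lit 0) (nat_lit 130463744278) (nat_lit 152) (nat_lit 350433169953) (nat_lit 0) (nat_lit 123606192653) (nat_lit 1) (nat_lit 5) (nat_lit 3) (nat_lit 4) (nat_lit 1) (nat_lit 4) (nat_lit 320) (nat_lit 224) (nat_lit 176))))) (XT.nd (nat_lit 156) (nat_lit 0) (nat_lit 0) (XT.nd (nat_lit 78) (nat_lit 0) (nat_lit 0) (XT.lf (nat_lit 0) (nat_lit 143555013425) (nat_lit 152) (nat_lit 372460813317) (nat_lit 0) (nat_lit 136684506958) (nat_lit 1) (nat_lit 5) (nat_lit 3) (nat_lit 4) (nat_lit 1) (nat_lit 4) (nat_lit 321) (nat_lit 224) (nat_lit 175)) (XT.lf (nat_lit 0) (nat_lit 157682693131) (nat_lit 152) (nat_lit 396271006033) (nat_lit 0) (nat_lit 150800191439)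 (nat_lit 1) (nat_lit 5) (nat_lit 3) (nat_lit 4) (nat_lit 1) (nat_lit 4) (nat_lit 322) (nat_lit 224) (nat_lit 174))) (XT.nd (nat_lit 78) (nat_lit 0) (nat_lit 0) (XT.lf (nat_lit 0) (nat_lit 172930502978) (nat_lit 152) (nat_lit 422004845538) (nat_lit 0) (nat_lit 166036894597) (nat_lit 1) (nat_lit 5) (nat_lit 3) (nat_lit 4) (nat_lit 1) (nat_lit 4) (nat_lit 323) (nat_lit 224) (nat_lit 173)) (XT.nd (nat_lit 78) (nat_lit 0) (nat_lit 0) (XT.lf (nat_lit 0) (nat_lit 189388800359) (nat_lit 152) (nat_lit 449814828661) (nat_lit 0) (nat_lit 182484908007) (nat_lit 1) (nat_lit 5) (nat_lit 3) (nat_lit 4) (nat_lit 1) (nat_lit 4) (nat_lit 324) (nat_lit 224) (nat_lit 172)) (XT.lf (nat_lit 0) (nat_lit 207155115925) (nat_lit 152) (nat_lit 479865755300) (nat_lit 0) (nat_lit 200241701377) (nat_lit 1) (nat_lit 5) (nat_lit 3) (nat_lit 4) (nat_lit 1) (nat_lit 4) (nat_lit 325) (nat_lit 224) (nat_lit 171))))))) (XT.nd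 (nat_lit 33774) (nat_lit 0) (nat_lit 228) (XT.nd (nat_lit 33384) (nat_lit 0) (nat_lit 532) (XT.nd (nat_lit 33228) (nat_lit 0) (nat_lit 836) (XT.nd (nat_lit 33150) (nat_lit 0) (nat_lit 912) (XT.lf (nat_lit 0) (nat_lit 226334731546) (nat_lit 152) (nat_lit 512335705020) (nat_lit 0) (nat_lit 219412500150) (nat_lit 1) (nat_lit 5) (nat_lit 3) (nat_lit 4) (nat_lit 1) (nat_lit 4) (nat_lit 326) (nat_lit 224) (nat_lit 170)) (XT.lf (nat_lit 0) (nat_lit 648241600) (nat_lit 152) (nat_lit 6848894944) (nat_lit 0) (nat_lit 648241600) (nat_lit 13) (nat_lit 5) (nat_lit 15) (nat_lit 4) (nat_lit 13) (nat_lit 4) (nat_lit 270) (nat_lit 225) (nat_lit 225))) (XT.nd (nat_lit 78) (nat_lit 76) (nat_lit 0) (XT.lf (nat_lit 0) (nat_lit 7516808219) (nat_lit 152) (nat_lit 2893477510) (nat_lit 0) (nat_lit 6832970044) (nat_lit 13) (nat_lit 5) (nat_lit 15) (nat_lit 4) (nat_lit 13) (nat_lit 4) (nat_lit 271) (nat_lit 225)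 (nat_lit 224)) (XT.lf (nat_lit 0) (nat_lit 8465919898) (nat_lit 76) (nat_lit 5566775213) (nat_lit 76) (nat_lit 4249753541) (nat_lit 12) (nat_lit 4) (nat_lit 13) (nat_lit 5) (nat_lit 13) (nat_lit 4) (nat_lit 272) (nat_lit 225) (nat_lit 223)))) (XT.nd (nat_lit 156) (nat_lit 152) (nat_lit 0) (XT.nd (nat_lit 78) (nat_lit 0) (nat_lit 0) (XT.lf (nat_lit 0) (nat_lit 870109538) (nat_lit 76) (nat_lit 482774473) (nat_lit 152) (nat_lit 18063882197) (nat_lit 10) (nat_lit 5) (nat_lit 11) (nat_lit 5) (nat_lit 12) (nat_lit 4) (nat_lit 273) (nat_lit 225) (nat_lit 222)) (XT.lf (nat_lit 0) (nat_lit 7196991726) (nat_lit 152) (nat_lit 8577245335) (nat_lit 0) (nat_lit 4867319842) (nat_lit 10) (nat_lit 5) (nat_lit 12) (nat_lit 4) (nat_lit 10) (nat_lit 4) (nat_lit 274) (nat_lit 225) (nat_lit 221))) (XT.nd (nat_lit 78) (nat_lit 76) (nat_lit 0) (XT.lf (nat_lit 0) (nat_lit 1724227372) (nat_lit 76) (nat_lit 11530730043)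 (nat_lit 76) (nat_lit 8722351993) (nat_lit 9) (nat_lit 4) (nat_lit 10) (nat_lit 5) (nat_lit 10) (nat_lit 4) (nat_lit 275) (nat_lit 225) (nat_lit 220)) (XT.nd (nat_lit 78) (nat_lit 76) (nat_lit 0) (XT.lf (nat_lit 0) (nat_lit 12665845678) (nat_lit 76) (nat_lit 7006126752) (nat_lit 76) (nat_lit 3754502253) (nat_lit 9) (nat_lit 4) (nat_lit 10) (nat_lit 5) (nat_lit 10) (nat_lit 4) (nat_lit 276) (nat_lit 225) (nat_lit 219)) (XT.lf (nat_lit 0) (nat_lit 1300173739) (nat_lit 152) (nat_lit 996681712) (nat_lit 76) (nat_lit 22706653526) (nat_lit 8) (nat_lit 5) (nat_lit 10) (nat_lit 5) (nat_lit 9) (nat_lit 4) (nat_lit 277) (nat_lit 225) (nat_lit 218)))))) (XT.nd (nat_lit 390) (nat_lit 152) (nat_lit 0) (XT.nd (nat_lit 156) (nat_lit 76) (nat_lit 0) (XT.nd (nat_lit 78) (nat_lit 0) (nat_lit 0) (XT.lf (nat_lit 0) (nat_lit 6579693075) (nat_lit 152) (nat_lit 17396436696) (nat_lit 0) (nat_lit 2730121393)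 (nat_lit 7) (nat_lit 5) (nat_lit 9) (nat_lit 4) (nat_lit 7) (nat_lit 4) (nat_lit 278) (nat_lit 225) (nat_lit 217)) (XT.lf (nat_lit 0) (nat_lit 12106627803) (nat_lit 152) (nat_lit 8525590564) (nat_lit 0) (nat_lit 7921948195) (nat_lit 7) (nat_lit 5) (nat_lit 9) (nat_lit 4) (nat_lit 7) (nat_lit 4) (nat_lit 279) (nat_lit 225) (nat_lit 216))) (XT.nd (nat_lit 78) (nat_lit 0) (nat_lit 0) (XT.lf (nat_lit 0) (nat_lit 689344316) (nat_lit 76) (nat_lit 17182949013) (nat_lit 76) (nat_lit 12687984288) (nat_lit 6) (nat_lit 4) (nat_lit 7) (nat_lit 5) (nat_lit 7) (nat_lit 4) (nat_lit 280) (nat_lit 225) (nat_lit 215)) (XT.nd (nat_lit 78) (nat_lit 0) (nat_lit 0) (XT.lf (nat_lit 0) (nat_lit 10575124271) (nat_lit 76) (nat_lit 13468488047) (nat_lit 76) (nat_lit 8686222289) (nat_lit 6) (nat_lit 4) (nat_lit 7) (nat_lit 5) (nat_lit 7) (nat_lit 4) (nat_lit 281) (nat_lit 225) (nat_lit 214)) (XT.lf (nat_lit 0) (nat_lit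 20908437174) (nat_lit 76) (nat_lit 9611208853) (nat_lit 76) (nat_lit 4562923618) (nat_lit 6) (nat_lit 4) (nat_lit 7) (nat_lit 5) (nat_lit 7) (nat_lit 4) (nat_lit 282) (nat_lit 225) (nat_lit 213))))) (XT.nd (nat_lit 156) (nat_lit 0) (nat_lit 0) (XT.nd (nat_lit 78) (nat_lit 152) (nat_lit 0) (XT.lf (nat_lit 0) (nat_lit 31750517471) (nat_lit 76) (nat_lit 5588253477) (nat_lit 76) (nat_lit 293653913) (nat_lit 6) (nat_lit 4) (nat_lit 7) (nat_lit 5) (nat_lit 7) (nat_lit 4) (nat_lit 283) (nat_lit 225) (nat_lit 212)) (XT.lf (nat_lit 0) (nat_lit 2795843966) (nat_lit 76) (nat_lit 1261966937) (nat_lit 152) (nat_lit 36331279834) (nat_lit 4) (nat_lit 5) (nat_lit 5) (nat_lit 5) (nat_lit 6) (nat_lit 4) (nat_lit 284) (nat_lit 225) (nat_lit 211))) (XT.nd (nat_lit 78) (nat_lit 0) (nat_lit 0) (XT.lf (nat_lit 0) (nat_lit 8745508820) (nat_lit 152) (nat_lit 31336038357) (nat_lit 0) (nat_lit 3284705749) (nat_lit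 4) (nat_lit 5) (nat_lit 6) (nat_lit 4) (nat_lit 4) (nat_lit 4) (nat_lit 285) (nat_lit 225) (nat_lit 210)) (XT.nd (nat_lit 78) (nat_lit 0) (nat_lit 0) (XT.lf (nat_lit 0) (nat_lit 13682169814) (nat_lit 152) (nat_lit 24870690136) (nat_lit 0) (nat_lit 8035145546) (nat_lit 4) (nat_lit 5) (nat_lit 6) (nat_lit 4) (nat_lit 4) (nat_lit 4) (nat_lit 286) (nat_lit 225) (nat_lit 209)) (XT.lf (nat_lit 0) (nat_lit 18877345332) (nat_lit 152) (nat_lit 18139186093) (nat_lit 0) (nat_lit 13057894031) (nat_lit 4) (nat_lit 5) (nat_lit 6) (nat_lit 4) (nat_lit 4) (nat_lit 4) (nat_lit 287) (nat_lit 225) (nat_lit 208))))))))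
noncomputable def xc21 : XT := (XT.nd (nat_lit 1482) (nat_lit 0) (nat_lit 0) (XT.nd (nat_lit 702) (nat_lit 152) (nat_lit 0) (XT.nd (nat_lit 312) (nat_lit 0) (nat_lit 0) (XT.nd (nat_lit 156) (nat_lit 76) (nat_lit 0) (XT.nd (nat_lit 78) (nat_lit 0) (nat_lit 0) (XT.lf (nat_lit 0) (nat_lit 24361821599) (nat_lit 152) (nat_lit 11101635834) (nat_lit 0) (nat_lit 18382715637) (nat_lit 4) (nat_lit 5) (nat_lit 6) (nat_lit 4) (nat_lit 4) (nat_lit 4) (nat_lit 288) (nat_lit 225) (nat_lit 207)) (XT.lf (nat_lit 0) (nat_lit 30168099216) (nat_lit 152) (nat_lit 3716335357) (nat_lit 0) (nat_lit 24041164865) (nat_lit 4) (nat_lit 5) (nat_lit 6) (nat_lit 4) (nat_lit 4) (nat_lit 4) (nat_lit 289) (nat_lit 225) (nat_lit 206))) (XT.nd (nat_lit 78) (nat_lit 0) (nat_lit 0) (XT.lf (nat_lit 0) (nat_lit 4194737890) (nat_lit 76) (nat_lit 32201339478) (nat_lit 76) (nat_lit 25937526988) (nat_lit 3) (nat_lit 4) (nat_lit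 4) (nat_lit 5) (nat_lit 4) (nat_lit 4) (nat_lit 290) (nat_lit 225) (nat_lit 205)) (XT.lf (nat_lit 0) (nat_lit 12680758787) (nat_lit 76) (nat_lit 30403023047) (nat_lit 76) (nat_lit 24012471540) (nat_lit 3) (nat_lit 4) (nat_lit 4) (nat_lit 5) (nat_lit 4) (nat_lit 4) (nat_lit 291) (nat_lit 225) (nat_lit 204)))) (XT.nd (nat_lit 156) (nat_lit 0) (nat_lit 0) (XT.nd (nat_lit 78) (nat_lit 0) (nat_lit 0) (XT.lf (nat_lit 0) (nat_lit 21669136034) (nat_lit 76) (nat_lit 28541766528) (nat_lit 76) (nat_lit 22033864079) (nat_lit 3) (nat_lit 4) (nat_lit 4) (nat_lit 5) (nat_lit 4) (nat_lit 4) (nat_lit 292) (nat_lit 225) (nat_lit 203)) (XT.lf (nat_lit 0) (nat_lit 31213134090) (nat_lit 76) (nat_lit 26606540252) (nat_lit 76) (nat_lit 19989979523) (nat_lit 3) (nat_lit 4) (nat_lit 4) (nat_lit 5) (nat_lit 4) (nat_lit 4) (nat_lit 293) (nat_lit 225) (nat_lit 202))) (XT.nd (nat_lit 78) (nat_lit 0) (nat_lit 0) (XT.lf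 (nat_lit 0) (nat_lit 41369309978) (nat_lit 76) (nat_lit 24585876212) (nat_lit 76) (nat_lit 17868705965) (nat_lit 3) (nat_lit 4) (nat_lit 4) (nat_lit 5) (nat_lit 4) (nat_lit 4) (nat_lit 294) (nat_lit 225) (nat_lit 201)) (XT.nd (nat_lit 78) (nat_lit 0) (nat_lit 0) (XT.lf (nat_lit 0) (nat_lit 52197848447) (nat_lit 76) (nat_lit 22467800103) (nat_lit 76) (nat_lit 15657472895) (nat_lit 3) (nat_lit 4) (nat_lit 4) (nat_lit 5) (nat_lit 4) (nat_lit 4) (nat_lit 295) (nat_lit 225) (nat_lit 200)) (XT.lf (nat_lit 0) (nat_lit 63762918611) (nat_lit 76) (nat_lit 20239760362) (nat_lit 76) (nat_lit 13343176708) (nat_lit 3) (nat_lit 4) (nat_lit 4) (nat_lit 5) (nat_lit 4) (nat_lit 4) (nat_lit 296) (nat_lit 225) (nat_lit 199)))))) (XT.nd (nat_lit 390) (nat_lit 76) (nat_lit 0) (XT.nd (nat_lit 156) (nat_lit 76) (nat_lit 0) (XT.nd (nat_lit 78) (nat_lit 0) (nat_lit 0) (XT.lf (nat_lit 0) (nat_lit 76133054222) (nat_lit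 76) (nat_lit 17888553790) (nat_lit 76) (nat_lit 10912103058) (nat_lit 3) (nat_lit 4) (nat_lit 4) (nat_lit 5) (nat_lit 4) (nat_lit 4) (nat_lit 297) (nat_lit 225) (nat_lit 198)) (XT.lf (nat_lit 0) (nat_lit 89381559785) (nat_lit 76) (nat_lit 15400247313) (nat_lit 76) (nat_lit 8349845582) (nat_lit 3) (nat_lit 4) (nat_lit 4) (nat_lit 5) (nat_lit 4) (nat_lit 4) (nat_lit 298) (nat_lit 225) (nat_lit 197))) (XT.nd (nat_lit 78) (nat_lit 76) (nat_lit 0) (XT.lf (nat_lit 0) (nat_lit 103586944963) (nat_lit 76) (nat_lit 12760095410) (nat_lit 76) (nat_lit 5641220531) (nat_lit 3) (nat_lit 4) (nat_lit 4) (nat_lit 5) (nat_lit 4) (nat_lit 4) (nat_lit 299) (nat_lit 225) (nat_lit 196)) (XT.nd (nat_lit 78) (nat_lit 76) (nat_lit 0) (XT.lf (nat_lit 0) (nat_lit 118833389817) (nat_lit 76) (nat_lit 9952452737) (nat_lit 76) (nat_lit 2770176795) (nat_lit 3) (nat_lit 4) (nat_lit 4) (nat_lit 5) (nat_lit 4) (nat_lit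 4) (nat_lit 300) (nat_lit 225) (nat_lit 195)) (XT.lf (nat_lit 0) (nat_lit 271327893) (nat_lit 152) (nat_lit 6684758448) (nat_lit 76) (nat_lit 134935320688) (nat_lit 2) (nat_lit 5) (nat_lit 4) (nat_lit 5) (nat_lit 3) (nat_lit 4) (nat_lit 301) (nat_lit 225) (nat_lit 194))))) (XT.nd (nat_lit 156) (nat_lit 0) (nat_lit 0) (XT.nd (nat_lit 78) (nat_lit 76) (nat_lit 0) (XT.lf (nat_lit 0) (nat_lit 3415357270) (nat_lit 152) (nat_lit 293854417) (nat_lit 76) (nat_lit 149344362412) (nat_lit 2) (nat_lit 5) (nat_lit 4) (nat_lit 5) (nat_lit 3) (nat_lit 4) (nat_lit 302) (nat_lit 225) (nat_lit 193)) (XT.lf (nat_lit 0) (nat_lit 6747155933) (nat_lit 76) (nat_lit 127391657) (nat_lit 152) (nat_lit 158231014556) (nat_lit 1) (nat_lit 5) (nat_lit 2) (nat_lit 5) (nat_lit 3) (nat_lit 4) (nat_lit 303) (nat_lit 225) (nat_lit 192))) (XT.nd (nat_lit 78) (nat_lit 0) (nat_lit 0) (XT.lf (nat_lit 0) (nat_lit 10633786096)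 (nat_lit 152) (nat_lit 163893254276) (nat_lit 0) (nat_lit 3593530570) (nat_lit 1) (nat_lit 5) (nat_lit 3) (nat_lit 4) (nat_lit 1) (nat_lit 4) (nat_lit 304) (nat_lit 225) (nat_lit 191)) (XT.nd (nat_lit 78) (nat_lit 0) (nat_lit 0) (XT.lf (nat_lit 0) (nat_lit 14658599888) (nat_lit 152) (nat_lit 169942714658) (nat_lit 0) (nat_lit 7577249412) (nat_lit 1) (nat_lit 5) (nat_lit 3) (nat_lit 4) (nat_lit 1) (nat_lit 4) (nat_lit 305) (nat_lit 225) (nat_lit 190)) (XT.lf (nat_lit 0) (nat_lit 18970850775) (nat_lit 152) (nat_lit 176540647073) (nat_lit 0) (nat_lit 11851449419) (nat_lit 1) (nat_lit 5) (nat_lit 3) (nat_lit 4) (nat_lit 1) (nat_lit 4) (nat_lit 306) (nat_lit 225) (nat_lit 189))))))) (XT.nd (nat_lit 780) (nat_lit 0) (nat_lit 0) (XT.nd (nat_lit 390) (nat_lit 0) (nat_lit 0) (XT.nd (nat_lit 156) (nat_lit 0) (nat_lit 0) (XT.nd (nat_lit 78) (nat_lit 0) (nat_lit 0) (XT.lf (nat_lit 0) (nat_lit 23596092835)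 (nat_lit 152) (nat_lit 183726150381) (nat_lit 0) (nat_lit 16441459183) (nat_lit 1) (nat_lit 5) (nat_lit 3) (nat_lit 4) (nat_lit 1) (nat_lit 4) (nat_lit 307) (nat_lit 225) (nat_lit 188)) (XT.lf (nat_lit 0) (nat_lit 28561734910) (nat_lit 152) (nat_lit 191541805340) (nat_lit 0) (nat_lit 21374478762) (nat_lit 1) (nat_lit 5) (nat_lit 3) (nat_lit 4) (nat_lit 1) (nat_lit 4) (nat_lit 308) (nat_lit 225) (nat_lit 187))) (XT.nd (nat_lit 78) (nat_lit 0) (nat_lit 0) (XT.lf (nat_lit 0) (nat_lit 33897203029) (nat_lit 152) (nat_lit 200033926945) (nat_lit 0) (nat_lit 26679740865) (nat_lit 1) (nat_lit 5) (nat_lit 3) (nat_lit 4) (nat_lit 1) (nat_lit 4) (nat_lit 309) (nat_lit 225) (nat_lit 186)) (XT.nd (nat_lit 78) (nat_lit 0) (nat_lit 0) (XT.lf (nat_lit 0) (nat_lit 39634114779) (nat_lit 152) (nat_lit 209252838877) (nat_lit 0) (nat_lit 32388684082) (nat_lit 1) (nat_lit 5) (nat_lit 3) (nat_lit 4) (nat_lit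 1) (nat_lit 4) (nat_lit 310) (nat_lit 225) (nat_lit 185)) (XT.lf (nat_lit 0) (nat_lit 45806466674) (nat_lit 152) (nat_lit 219253171727) (nat_lit 0) (nat_lit 38535139188) (nat_lit 1) (nat_lit 5) (nat_lit 3) (nat_lit 4) (nat_lit 1) (nat_lit 4) (nat_lit 311) (nat_lit 225) (nat_lit 184))))) (XT.nd (nat_lit 156) (nat_lit 0) (nat_lit 0) (XT.nd (nat_lit 78) (nat_lit 0) (nat_lit 0) (XT.lf (nat_lit 0) (nat_lit 52450835615) (nat_lit 152) (nat_lit 230094186727) (nat_lit 0) (nat_lit 45155529621) (nat_lit 1) (nat_lit 5) (nat_lit 3) (nat_lit 4) (nat_lit 1) (nat_lit 4) (nat_lit 312) (nat_lit 225) (nat_lit 183)) (XT.lf (nat_lit 0) (nat_lit 59606595640) (nat_lit 152) (nat_lit 241840126927) (nat_lit 0) (nat_lit 52289087323) (nat_lit 1) (nat_lit 5) (nat_lit 3) (nat_lit 4) (nat_lit 1) (nat_lit 4) (nat_lit 313) (nat_lit 225) (nat_lit 182))) (XT.nd (nat_lit 78) (nat_lit 0) (nat_lit 0) (XT.lf (nat_lit 0) (nat_lit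 67316151253) (nat_lit 152) (nat_lit 254560597900) (nat_lit 0) (nat_lit 59978085229) (nat_lit 1) (nat_lit 5) (nat_lit 3) (nat_lit 4) (nat_lit 1) (nat_lit 4) (nat_lit 314) (nat_lit 225) (nat_lit 181)) (XT.nd (nat_lit 78) (nat_lit 0) (nat_lit 0) (XT.lf (nat_lit 0) (nat_lit 75625188709) (nat_lit 152) (nat_lit 268330980214) (nat_lit 0) (nat_lit 68268087771) (nat_lit 1) (nat_lit 5) (nat_lit 3) (nat_lit 4) (nat_lit 1) (nat_lit 4) (nat_lit 315) (nat_lit 225) (nat_lit 180)) (XT.lf (nat_lit 0) (nat_lit 84582946748) (nat_lit 152) (nat_lit 283232876135) (nat_lit 0) (nat_lit 77208220891) (nat_lit 1) (nat_lit 5) (nat_lit 3) (nat_lit 4) (nat_lit 1) (nat_lit 4) (nat_lit 316) (nat_lit 225) (nat_lit 179)))))) (XT.nd (nat_lit 390) (nat_lit 0) (nat_lit 0) (XT.nd (nat_lit 156) (nat_lit 0) (nat_lit 0) (XT.nd (nat_lit 78) (nat_lit 0) (nat_lit 0) (XT.lf (nat_lit 0) (nat_lit 94242508382) (nat_lit 152) (nat_lit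 299354593195) (nat_lit 0) (nat_lit 86851463155) (nat_lit 1) (nat_lit 5) (nat_lit 3) (nat_lit 4) (nat_lit 1) (nat_lit 4) (nat_lit 317) (nat_lit 225) (nat_lit 178)) (XT.lf (nat_lit 0) (nat_lit 104661115457) (nat_lit 152) (nat_lit 316791667493) (nat_lit 0) (nat_lit 97254959702) (nat_lit 1) (nat_lit 5) (nat_lit 3) (nat_lit 4) (nat_lit 1) (nat_lit 4) (nat_lit 318) (nat_lit 225) (nat_lit 177))) (XT.nd (nat_lit 78) (nat_lit 0) (nat_lit 0) (XT.lf (nat_lit 0) (nat_lit 115900507867) (nat_lit 152) (nat_lit 335647429842) (nat_lit 0) (nat_lit 108480360882) (nat_lit 1) (nat_lit 5) (nat_lit 3) (nat_lit 4) (nat_lit 1) (nat_lit 4) (nat_lit 319) (nat_lit 225) (nat_lit 176)) (XT.nd (nat_lit 78) (nat_lit 0) (nat_lit 0) (XT.lf (nat_lit 0) (nat_lit 128027289418) (nat_lit 152) (nat_lit 356033618092) (nat_lit 0) (nat_lit 120594187591) (nat_lit 1) (nat_lit 5) (nat_lit 3) (nat_lit 4) (nat_lit 1) (nat_lit 4) (nat_lit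 320) (nat_lit 225) (nat_lit 175)) (XT.lf (nat_lit 0) (nat_lit 141113322520) (nat_lit 152) (nat_lit 378071039284) (nat_lit 0) (nat_lit 133668225469) (nat_lit 1) (nat_lit 5) (nat_lit 3) (nat_lit 4) (nat_lit 1) (nat_lit 4) (nat_lit 321) (nat_lit 225) (nat_lit 174))))) (XT.nd (nat_lit 156) (nat_lit 0) (nat_lit 0) (XT.nd (nat_lit 78) (nat_lit 0) (nat_lit 0) (XT.lf (nat_lit 0) (nat_lit 155236154036) (nat_lit 152) (nat_lit 401890285544) (nat_lit 0) (nat_lit 147779950296) (nat_lit 1) (nat_lit 5) (nat_lit 3) (nat_lit 4) (nat_lit 1) (nat_lit 4) (nat_lit 322) (nat_lit 225) (nat_lit 173)) (XT.lf (nat_lit 0) (nat_lit 170479474819) (nat_lit 152) (nat_lit 427632507962) (nat_lit 0) (nat_lit 163012987107) (nat_lit 1) (nat_lit 5) (nat_lit 3) (nat_lit 4) (nat_lit 1) (nat_lit 4) (nat_lit 323) (nat_lit 225) (nat_lit 172))) (XT.nd (nat_lit 78) (nat_lit 0) (nat_lit 0) (XT.lf (nat_lit 0) (nat_lit 186933615659)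 (nat_lit 152) (nat_lit 455450253039) (nat_lit 0) (nat_lit 179457605751) (nat_lit 1) (nat_lit 5) (nat_lit 3) (nat_lit 4) (nat_lit 1) (nat_lit 4) (nat_lit 324) (nat_lit 225) (nat_lit 171)) (XT.nd (nat_lit 78) (nat_lit 0) (nat_lit 0) (XT.lf (nat_lit 0) (nat_lit 204696082575) (nat_lit 152) (nat_lit 485508366674) (nat_lit 0) (nat_lit 197211255820) (nat_lit 1) (nat_lit 5) (nat_lit 3) (nat_lit 4) (nat_lit 1) (nat_lit 4) (nat_lit 325) (nat_lit 225) (nat_lit 170)) (XT.lf (nat_lit 0) (nat_lit 223872134632) (nat_lit 152) (nat_lit 517984971020) (nat_lit 0) (nat_lit 216379144128) (nat_lit 1) (nat_lit 5) (nat_lit 3) (nat_lit 4) (nat_lit 1) (nat_lit 4) (nat_lit 326) (nat_lit 225) (nat_lit 169))))))))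
noncomputable def xc22 : XT := (XT.nd (nat_lit 1482) (nat_lit 228) (nat_lit 0) (XT.nd (nat_lit 702) (nat_lit 380) (nat_lit 0) (XT.nd (nat_lit 312) (nat_lit 304) (nat_lit 0) (XT.nd (nat_lit 156) (nat_lit 152) (nat_lit 0) (XT.nd (nat_lit 78) (nat_lit 152) (nat_lit 0) (XT.lf (nat_lit 0) (nat_lit 2481419489) (nat_lit 152) (nat_lit 2336736424) (nat_lit 0) (nat_lit 2481419489) (nat_lit 17) (nat_lit 5) (nat_lit 19) (nat_lit 4) (nat_lit 17) (nat_lit 4) (nat_lit 268) (nat_lit 226) (nat_lit 226)) (XT.lf (nat_lit 0) (nat_lit 6698720336) (nat_lit 152) (nat_lit 4744361414) (nat_lit 152) (nat_lit 3968888923) (nat_lit 15) (nat_lit 4) (nat_lit 17) (nat_lit 5) (nat_lit 17) (nat_lit 4) (nat_lit 269) (nat_lit 226) (nat_lit 225))) (XT.nd (nat_lit 78) (nat_lit 0) (nat_lit 0) (XT.lf (nat_lit 0) (nat_lit 1861480288) (nat_lit 152) (nat_lit 13999059144) (nat_lit 0) (nat_lit 439096882) (nat_lit 13) (nat_lit 5)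 (nat_lit 15) (nat_lit 4) (nat_lit 13) (nat_lit 4) (nat_lit 270) (nat_lit 226) (nat_lit 224)) (XT.lf (nat_lit 0) (nat_lit 7921112584) (nat_lit 152) (nat_lit 3473699779) (nat_lit 0) (nat_lit 5865545682) (nat_lit 13) (nat_lit 5) (nat_lit 15) (nat_lit 4) (nat_lit 13) (nat_lit 4) (nat_lit 271) (nat_lit 226) (nat_lit 223)))) (XT.nd (nat_lit 156) (nat_lit 152) (nat_lit 0) (XT.nd (nat_lit 78) (nat_lit 76) (nat_lit 0) (XT.lf (nat_lit 0) (nat_lit 7599682804) (nat_lit 76) (nat_lit 6675002723) (nat_lit 76) (nat_lit 4033154806) (nat_lit 12) (nat_lit 4) (nat_lit 13) (nat_lit 5) (nat_lit 13) (nat_lit 4) (nat_lit 272) (nat_lit 226) (nat_lit 222)) (XT.lf (nat_lit 0) (nat_lit 1404862475) (nat_lit 152) (nat_lit 304732634) (nat_lit 76) (nat_lit 17740431271) (nat_lit 11) (nat_lit 5) (nat_lit 13) (nat_lit 5) (nat_lit 12) (nat_lit 4) (nat_lit 273) (nat_lit 226) (nat_lit 221))) (XT.nd (nat_lit 78) (nat_lit 76)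 (nat_lit 0) (XT.lf (nat_lit 0) (nat_lit 7086007423) (nat_lit 152) (nat_lit 10022846662) (nat_lit 0) (nat_lit 3574252964) (nat_lit 10) (nat_lit 5) (nat_lit 12) (nat_lit 4) (nat_lit 10) (nat_lit 4) (nat_lit 274) (nat_lit 226) (nat_lit 220)) (XT.nd (nat_lit 78) (nat_lit 76) (nat_lit 0) (XT.lf (nat_lit 0) (nat_lit 12988522499) (nat_lit 152) (nat_lit 4719329) (nat_lit 0) (nat_lit 9033521591) (nat_lit 10) (nat_lit 5) (nat_lit 12) (nat_lit 4) (nat_lit 10) (nat_lit 4) (nat_lit 275) (nat_lit 226) (nat_lit 219)) (XT.lf (nat_lit 0) (nat_lit 10718499130) (nat_lit 76) (nat_lit 8564545060) (nat_lit 76) (nat_lit 4199130773) (nat_lit 9) (nat_lit 4) (nat_lit 10) (nat_lit 5) (nat_lit 10) (nat_lit 4) (nat_lit 276) (nat_lit 226) (nat_lit 218)))))) (XT.nd (nat_lit 390) (nat_lit 152) (nat_lit 0) (XT.nd (nat_lit 156) (nat_lit 76) (nat_lit 0) (XT.nd (nat_lit 78) (nat_lit 76) (nat_lit 0) (XT.lf (nat_lit 0) (nat_lit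 754459667) (nat_lit 152) (nat_lit 3198784357) (nat_lit 76) (nat_lit 21112185385) (nat_lit 8) (nat_lit 5) (nat_lit 10) (nat_lit 5) (nat_lit 9) (nat_lit 4) (nat_lit 277) (nat_lit 226) (nat_lit 217)) (XT.lf (nat_lit 0) (nat_lit 5860805832) (nat_lit 152) (nat_lit 19909879786) (nat_lit 0) (nat_lit 1006243929) (nat_lit 7) (nat_lit 5) (nat_lit 9) (nat_lit 4) (nat_lit 7) (nat_lit 4) (nat_lit 278) (nat_lit 226) (nat_lit 216))) (XT.nd (nat_lit 78) (nat_lit 76) (nat_lit 0) (XT.lf (nat_lit 0) (nat_lit 11284766244) (nat_lit 152) (nat_lit 11225400127) (nat_lit 0) (nat_lit 6119919225) (nat_lit 7) (nat_lit 5) (nat_lit 9) (nat_lit 4) (nat_lit 7) (nat_lit 4) (nat_lit 279) (nat_lit 226) (nat_lit 215)) (XT.nd (nat_lit 78) (nat_lit 76) (nat_lit 0) (XT.lf (nat_lit 0) (nat_lit 16944322585) (nat_lit 152) (nat_lit 2205090119) (nat_lit 0) (nat_lit 11492174532) (nat_lit 7) (nat_lit 5) (nat_lit 9) (nat_lit 4) (nat_lit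 7) (nat_lit 4) (nat_lit 280) (nat_lit 226) (nat_lit 214)) (XT.lf (nat_lit 0) (nat_lit 7442717362) (nat_lit 76) (nat_lit 15546497281) (nat_lit 76) (nat_lit 9828329752) (nat_lit 6) (nat_lit 4) (nat_lit 7) (nat_lit 5) (nat_lit 7) (nat_lit 4) (nat_lit 281) (nat_lit 226) (nat_lit 213))))) (XT.nd (nat_lit 156) (nat_lit 152) (nat_lit 0) (XT.nd (nat_lit 78) (nat_lit 0) (nat_lit 0) (XT.lf (nat_lit 0) (nat_lit 17623194862) (nat_lit 76) (nat_lit 11757922968) (nat_lit 76) (nat_lit 5793441109) (nat_lit 6) (nat_lit 4) (nat_lit 7) (nat_lit 5) (nat_lit 7) (nat_lit 4) (nat_lit 282) (nat_lit 226) (nat_lit 212)) (XT.lf (nat_lit 0) (nat_lit 28323760897) (nat_lit 76) (nat_lit 7798583225) (nat_lit 76) (nat_lit 1606032542) (nat_lit 6) (nat_lit 4) (nat_lit 7) (nat_lit 5) (nat_lit 7) (nat_lit 4) (nat_lit 283) (nat_lit 226) (nat_lit 211))) (XT.nd (nat_lit 78) (nat_lit 76) (nat_lit 0) (XT.lf (nat_lit 0) (nat_lit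 2670414266) (nat_lit 152) (nat_lit 929376272) (nat_lit 76) (nat_lit 36892187204) (nat_lit 5) (nat_lit 5) (nat_lit 7) (nat_lit 5) (nat_lit 6) (nat_lit 4) (nat_lit 284) (nat_lit 226) (nat_lit 210)) (XT.nd (nat_lit 78) (nat_lit 0) (nat_lit 0) (XT.lf (nat_lit 0) (nat_lit 7235543920) (nat_lit 152) (nat_lit 35289243086) (nat_lit 0) (nat_lit 950536515) (nat_lit 4) (nat_lit 5) (nat_lit 6) (nat_lit 4) (nat_lit 4) (nat_lit 4) (nat_lit 285) (nat_lit 226) (nat_lit 209)) (XT.lf (nat_lit 0) (nat_lit 12106619166) (nat_lit 152) (nat_lit 28944602574) (nat_lit 0) (nat_lit 5649184727) (nat_lit 4) (nat_lit 5) (nat_lit 6) (nat_lit 4) (nat_lit 4) (nat_lit 4) (nat_lit 286) (nat_lit 226) (nat_lit 208))))))) (XT.nd (nat_lit 702) (nat_lit 152) (nat_lit 0) (XT.nd (nat_lit 312) (nat_lit 76) (nat_lit 0) (XT.nd (nat_lit 156) (nat_lit 0) (nat_lit 0) (XT.nd (nat_lit 78) (nat_lit 0) (nat_lit 0) (XT.lf (nat_lit 0) (nat_lit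 17241067140) (nat_lit 152) (nat_lit 22324864929) (nat_lit 0) (nat_lit 10623978040) (nat_lit 4) (nat_lit 5) (nat_lit 6) (nat_lit 4) (nat_lit 4) (nat_lit 4) (nat_lit 287) (nat_lit 226) (nat_lit 207)) (XT.lf (nat_lit 0) (nat_lit 22669314200) (nat_lit 152) (nat_lit 15390802075) (nat_lit 0) (nat_lit 15904396711) (nat_lit 4) (nat_lit 5) (nat_lit 6) (nat_lit 4) (nat_lit 4) (nat_lit 4) (nat_lit 288) (nat_lit 226) (nat_lit 206))) (XT.nd (nat_lit 78) (nat_lit 0) (nat_lit 0) (XT.lf (nat_lit 0) (nat_lit 28423527736) (nat_lit 152) (nat_lit 8101323269) (nat_lit 0) (nat_lit 21521732108) (nat_lit 4) (nat_lit 5) (nat_lit 6) (nat_lit 4) (nat_lit 4) (nat_lit 4) (nat_lit 289) (nat_lit 226) (nat_lit 205)) (XT.lf (nat_lit 0) (nat_lit 34537806792) (nat_lit 152) (nat_lit 413231600) (nat_lit 0) (nat_lit 27509272147) (nat_lit 4) (nat_lit 5) (nat_lit 6) (nat_lit 4) (nat_lit 4) (nat_lit 4) (nat_lit 290) (nat_lit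 226) (nat_lit 204)))) (XT.nd (nat_lit 156) (nat_lit 0) (nat_lit 0) (XT.nd (nat_lit 78) (nat_lit 0) (nat_lit 0) (XT.lf (nat_lit 0) (nat_lit 7974258050) (nat_lit 76) (nat_lit 33198626597) (nat_lit 76) (nat_lit 26052741011) (nat_lit 3) (nat_lit 4) (nat_lit 4) (nat_lit 5) (nat_lit 4) (nat_lit 4) (nat_lit 291) (nat_lit 226) (nat_lit 203)) (XT.lf (nat_lit 0) (nat_lit 16884053868) (nat_lit 76) (nat_lit 31373394484) (nat_lit 76) (nat_lit 24118850618) (nat_lit 3) (nat_lit 4) (nat_lit 4) (nat_lit 5) (nat_lit 4) (nat_lit 4) (nat_lit 292) (nat_lit 226) (nat_lit 202))) (XT.nd (nat_lit 78) (nat_lit 0) (nat_lit 0) (XT.lf (nat_lit 0) (nat_lit 26355291341) (nat_lit 76) (nat_lit 29471524140) (nat_lit 76) (nat_lit 22116370756) (nat_lit 3) (nat_lit 4) (nat_lit 4) (nat_lit 5) (nat_lit 4) (nat_lit 4) (nat_lit 293) (nat_lit 226) (nat_lit 201)) (XT.nd (nat_lit 78) (nat_lit 0) (nat_lit 0) (XT.lf (nat_lit 0) (nat_lit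 36444096321) (nat_lit 76) (nat_lit 27481745222) (nat_lit 76) (nat_lit 20033434877) (nat_lit 3) (nat_lit 4) (nat_lit 4) (nat_lit 5) (nat_lit 4) (nat_lit 4) (nat_lit 294) (nat_lit 226) (nat_lit 200)) (XT.lf (nat_lit 0) (nat_lit 47210254317) (nat_lit 76) (nat_lit 25392266448) (nat_lit 76) (nat_lit 17857699657) (nat_lit 3) (nat_lit 4) (nat_lit 4) (nat_lit 5) (nat_lit 4) (nat_lit 4) (nat_lit 295) (nat_lit 226) (nat_lit 199)))))) (XT.nd (nat_lit 390) (nat_lit 152) (nat_lit 0) (XT.nd (nat_lit 156) (nat_lit 0) (nat_lit 0) (XT.nd (nat_lit 78) (nat_lit 0) (nat_lit 0) (XT.lf (nat_lit 0) (nat_lit 58717564786) (nat_lit 76) (nat_lit 23190705721) (nat_lit 76) (nat_lit 15576271851) (nat_lit 3) (nat_lit 4) (nat_lit 4) (nat_lit 5) (nat_lit 4) (nat_lit 4) (nat_lit 296) (nat_lit 226) (nat_lit 198)) (XT.lf (nat_lit 0) (nat_lit 71034219196) (nat_lit 76) (nat_lit 20864016756) (nat_lit 76) (nat_lit 13175631886)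 (nat_lit 3) (nat_lit 4) (nat_lit 4) (nat_lit 5) (nat_lit 4) (nat_lit 4) (nat_lit 297) (nat_lit 226) (nat_lit 197))) (XT.nd (nat_lit 78) (nat_lit 0) (nat_lit 0) (XT.lf (nat_lit 0) (nat_lit 84233205130) (nat_lit 76) (nat_lit 18398411765) (nat_lit 76) (nat_lit 10641553748) (nat_lit 3) (nat_lit 4) (nat_lit 4) (nat_lit 5) (nat_lit 4) (nat_lit 4) (nat_lit 298) (nat_lit 226) (nat_lit 196)) (XT.nd (nat_lit 78) (nat_lit 0) (nat_lit 0) (XT.lf (nat_lit 0) (nat_lit 98392738799) (nat_lit 76) (nat_lit 15779279757) (nat_lit 76) (nat_lit 7959020678) (nat_lit 3) (nat_lit 4) (nat_lit 4) (nat_lit 5) (nat_lit 4) (nat_lit 4) (nat_lit 299) (nat_lit 226) (nat_lit 195)) (XT.lf (nat_lit 0) (nat_lit 113596728552) (nat_lit 76) (nat_lit 12991099949) (nat_lit 76) (nat_lit 5112136182) (nat_lit 3) (nat_lit 4) (nat_lit 4) (nat_lit 5) (nat_lit 4) (nat_lit 4) (nat_lit 300) (nat_lit 226) (nat_lit 194))))) (XT.nd (nat_lit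 156) (nat_lit 76) (nat_lit 0) (XT.nd (nat_lit 78) (nat_lit 76) (nat_lit 0) (XT.lf (nat_lit 0) (nat_lit 129935272107) (nat_lit 76) (nat_lit 10017349795) (nat_lit 76) (nat_lit 2084029836) (nat_lit 3) (nat_lit 4) (nat_lit 4) (nat_lit 5) (nat_lit 4) (nat_lit 4) (nat_lit 301) (nat_lit 226) (nat_lit 193)) (XT.lf (nat_lit 0) (nat_lit 1106651789) (nat_lit 152) (nat_lit 5715013597) (nat_lit 76) (nat_lit 146379796987) (nat_lit 2) (nat_lit 5) (nat_lit 4) (nat_lit 5) (nat_lit 3) (nat_lit 4) (nat_lit 302) (nat_lit 226) (nat_lit 192))) (XT.nd (nat_lit 78) (nat_lit 0) (nat_lit 0) (XT.lf (nat_lit 0) (nat_lit 1111284463) (nat_lit 76) (nat_lit 3348001342) (nat_lit 152) (nat_lit 160799505581) (nat_lit 1) (nat_lit 5) (nat_lit 2) (nat_lit 5) (nat_lit 3) (nat_lit 4) (nat_lit 303) (nat_lit 226) (nat_lit 191)) (XT.nd (nat_lit 78) (nat_lit 0) (nat_lit 0) (XT.lf (nat_lit 0) (nat_lit 8150303179) (nat_lit 152) (nat_lit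 169665570521) (nat_lit 0) (nat_lit 461349715) (nat_lit 1) (nat_lit 5) (nat_lit 3) (nat_lit 4) (nat_lit 1) (nat_lit 4) (nat_lit 304) (nat_lit 226) (nat_lit 190)) (XT.lf (nat_lit 0) (nat_lit 12158507352) (nat_lit 152) (nat_lit 175746047828) (nat_lit 0) (nat_lit 4431503007) (nat_lit 1) (nat_lit 5) (nat_lit 3) (nat_lit 4) (nat_lit 1) (nat_lit 4) (nat_lit 305) (nat_lit 226) (nat_lit 189))))))))
noncomputable def xc23 : XT := (XT.nd (nat_lit 1482) (nat_lit 0) (nat_lit 0) (XT.nd (nat_lit 702) (nat_lit 0) (nat_lit 0) (XT.nd (nat_lit 312) (nat_lit 0) (nat_lit 0) (XT.nd (nat_lit 156) (nat_lit 0) (nat_lit 0) (XT.nd (nat_lit 78) (nat_lit 0) (nat_lit 0) (XT.lf (nat_lit 0) (nat_lit 16455378961) (nat_lit 152) (nat_lit 182372699617) (nat_lit 0) (nat_lit 8693142320) (nat_lit 1) (nat_lit 5) (nat_lit 3) (nat_lit 4) (nat_lit 1) (nat_lit 4) (nat_lit 306) (nat_lit 226) (nat_lit 188)) (XT.lf (nat_lit 0) (nat_lit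 21066380949) (nat_lit 152) (nat_lit 189584794938) (nat_lit 0) (nat_lit 13271521812) (nat_lit 1) (nat_lit 5) (nat_lit 3) (nat_lit 4) (nat_lit 1) (nat_lit 4) (nat_lit 307) (nat_lit 226) (nat_lit 187))) (XT.nd (nat_lit 78) (nat_lit 0) (nat_lit 0) (XT.lf (nat_lit 0) (nat_lit 26018837773) (nat_lit 152) (nat_lit 197425072132) (nat_lit 0) (nat_lit 18193772621) (nat_lit 1) (nat_lit 5) (nat_lit 3) (nat_lit 4) (nat_lit 1) (nat_lit 4) (nat_lit 308) (nat_lit 226) (nat_lit 186)) (XT.lf (nat_lit 0) (nat_lit 31342097325) (nat_lit 152) (nat_lit 205939992102) (nat_lit 0) (nat_lit 23489063640) (nat_lit 1) (nat_lit 5) (nat_lit 3) (nat_lit 4) (nat_lit 1) (nat_lit 4) (nat_lit 309) (nat_lit 226) (nat_lit 185)))) (XT.nd (nat_lit 156) (nat_lit 0) (nat_lit 0) (XT.nd (nat_lit 78) (nat_lit 0) (nat_lit 0) (XT.lf (nat_lit 0) (nat_lit 37067704847) (nat_lit 152) (nat_lit 215180013632) (nat_lit 0) (nat_lit 29188774373)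 (nat_lit 1) (nat_lit 5) (nat_lit 3) (nat_lit 4) (nat_lit 1) (nat_lit 4) (nat_lit 310) (nat_lit 226) (nat_lit 184)) (XT.lf (nat_lit 0) (nat_lit 43229589864) (nat_lit 152) (nat_lit 225199892406) (nat_lit 0) (nat_lit 35326680881) (nat_lit 1) (nat_lit 5) (nat_lit 3) (nat_lit 4) (nat_lit 1) (nat_lit 4) (nat_lit 311) (nat_lit 226) (nat_lit 183))) (XT.nd (nat_lit 78) (nat_lit 0) (nat_lit 0) (XT.lf (nat_lit 0) (nat_lit 49864267252) (nat_lit 152) (nat_lit 236059005483) (nat_lit 0) (nat_lit 41939155946) (nat_lit 1) (nat_lit 5) (nat_lit 3) (nat_lit 4) (nat_lit 1) (nat_lit 4) (nat_lit 312) (nat_lit 226) (nat_lit 182)) (XT.nd (nat_lit 78) (nat_lit 0) (nat_lit 0) (XT.lf (nat_lit 0) (nat_lit 57011053616) (nat_lit 152) (nat_lit 247821703162) (nat_lit 0) (nat_lit 49065384604) (nat_lit 1) (nat_lit 5) (nat_lit 3) (nat_lit 4) (nat_lit 1) (nat_lit 4) (nat_lit 313) (nat_lit 226) (nat_lit 181)) (XT.lf (nat_lit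 0) (nat_lit 64712300284) (nat_lit 152) (nat_lit 260557690319) (nat_lit 0) (nat_lit 56747596358) (nat_lit 1) (nat_lit 5) (nat_lit 3) (nat_lit 4) (nat_lit 1) (nat_lit 4) (nat_lit 314) (nat_lit 226) (nat_lit 180)))))) (XT.nd (nat_lit 390) (nat_lit 0) (nat_lit 0) (XT.nd (nat_lit 156) (nat_lit 0) (nat_lit 0) (XT.nd (nat_lit 78) (nat_lit 0) (nat_lit 0) (XT.lf (nat_lit 0) (nat_lit 73013644272) (nat_lit 152) (nat_lit 274342439471) (nat_lit 0) (nat_lit 65031315426) (nat_lit 1) (nat_lit 5) (nat_lit 3) (nat_lit 4) (nat_lit 1) (nat_lit 4) (nat_lit 315) (nat_lit 226) (nat_lit 179)) (XT.lf (nat_lit 0) (nat_lit 81964278730) (nat_lit 152) (nat_lit 289257638019) (nat_lit 0) (nat_lit 73965630515) (nat_lit 1) (nat_lit 5) (nat_lit 3) (nat_lit 4) (nat_lit 1) (nat_lit 4) (nat_lit 316) (nat_lit 226) (nat_lit 178))) (XT.nd (nat_lit 78) (nat_lit 0) (nat_lit 0) (XT.lf (nat_lit 0) (nat_lit 91617244456) (nat_lit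 152) (nat_lit 305391672326) (nat_lit 0) (nat_lit 83603485712) (nat_lit 1) (nat_lit 5) (nat_lit 3) (nat_lit 4) (nat_lit 1) (nat_lit 4) (nat_lit 317) (nat_lit 226) (nat_lit 177)) (XT.nd (nat_lit 78) (nat_lit 0) (nat_lit 0) (XT.lf (nat_lit 0) (nat_lit 102029744208) (nat_lit 152) (nat_lit 322840151484) (nat_lit 0) (nat_lit 94001994235) (nat_lit 1) (nat_lit 5) (nat_lit 3) (nat_lit 4) (nat_lit 1) (nat_lit 4) (nat_lit 318) (nat_lit 226) (nat_lit 176)) (XT.lf (nat_lit 0) (nat_lit 113263481689) (nat_lit 152) (nat_lit 341706473887) (nat_lit 0) (nat_lit 105222776874) (nat_lit 1) (nat_lit 5) (nat_lit 3) (nat_lit 4) (nat_lit 1) (nat_lit 4) (nat_lit 319) (nat_lit 226) (nat_lit 175))))) (XT.nd (nat_lit 156) (nat_lit 0) (nat_lit 0) (XT.nd (nat_lit 78) (nat_lit 0) (nat_lit 0) (XT.lf (nat_lit 0) (nat_lit 125385027196) (nat_lit 152) (nat_lit 362102439965) (nat_lit 0) (nat_lit 117332327156) (nat_lit 1) (nat_lit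 5) (nat_lit 3) (nat_lit 4) (nat_lit 1) (nat_lit 4) (nat_lit 320) (nat_lit 226) (nat_lit 174)) (XT.lf (nat_lit 0) (nat_lit 138466212108) (nat_lit 152) (nat_lit 384148914701) (nat_lit 0) (nat_lit 130402405379) (nat_lit 1) (nat_lit 5) (nat_lit 3) (nat_lit 4) (nat_lit 1) (nat_lit 4) (nat_lit 321) (nat_lit 226) (nat_lit 173))) (XT.nd (nat_lit 78) (nat_lit 0) (nat_lit 0) (XT.lf (nat_lit 0) (nat_lit 152584554559) (nat_lit 152) (nat_lit 407976543873) (nat_lit 0) (nat_lit 144510463859) (nat_lit 1) (nat_lit 5) (nat_lit 3) (nat_lit 4) (nat_lit 1) (nat_lit 4) (nat_lit 322) (nat_lit 226) (nat_lit 172)) (XT.nd (nat_lit 78) (nat_lit 0) (nat_lit 0) (XT.lf (nat_lit 0) (nat_lit 167823718801) (nat_lit 152) (nat_lit 433726528246) (nat_lit 0) (nat_lit 159740105905) (nat_lit 1) (nat_lit 5) (nat_lit 3) (nat_lit 4) (nat_lit 1) (nat_lit 4) (nat_lit 323) (nat_lit 226) (nat_lit 171)) (XT.lf (nat_lit 0) (nat_lit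 184274010992) (nat_lit 152) (nat_lit 461551460319) (nat_lit 0) (nat_lit 176181581248) (nat_lit 1) (nat_lit 5) (nat_lit 3) (nat_lit 4) (nat_lit 1) (nat_lit 4) (nat_lit 324) (nat_lit 226) (nat_lit 170))))))) (XT.nd (nat_lit 33540) (nat_lit 0) (nat_lit 380) (XT.nd (nat_lit 33150) (nat_lit 0) (nat_lit 760) (XT.nd (nat_lit 32916) (nat_lit 0) (nat_lit 1216) (XT.nd (nat_lit 78) (nat_lit 0) (nat_lit 0) (XT.lf (nat_lit 0) (nat_lit 202032914344) (nat_lit 152) (nat_lit 491616228579) (nat_lit 0) (nat_lit 193932320852) (nat_lit 1) (nat_lit 5) (nat_lit 3) (nat_lit 4) (nat_lit 1) (nat_lit 4) (nat_lit 325) (nat_lit 226) (nat_lit 169)) (XT.lf (nat_lit 0) (nat_lit 221205666804) (nat_lit 152) (nat_lit 524098994615) (nat_lit 0) (nat_lit 213097514286) (nat_lit 1) (nat_lit 5) (nat_lit 3) (nat_lit 4) (nat_lit 1) (nat_lit 4) (nat_lit 326) (nat_lit 226) (nat_lit 168))) (XT.nd (nat_lit 78) (nat_lit 152) (nat_lit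 0) (XT.lf (nat_lit 0) (nat_lit 302160884) (nat_lit 152) (nat_lit 3139411925) (nat_lit 152) (nat_lit 3139411925) (nat_lit 19) (nat_lit 4) (nat_lit 21) (nat_lit 5) (nat_lit 21) (nat_lit 4) (nat_lit 266) (nat_lit 227) (nat_lit 227)) (XT.nd (nat_lit 78) (nat_lit 152) (nat_lit 0) (XT.lf (nat_lit 0) (nat_lit 12175358840) (nat_lit 152) (nat_lit 1280047323) (nat_lit 152) (nat_lit 400661518) (nat_lit 19) (nat_lit 4) (nat_lit 21) (nat_lit 5) (nat_lit 21) (nat_lit 4) (nat_lit 267) (nat_lit 227) (nat_lit 226)) (XT.lf (nat_lit 0) (nat_lit 5627788759) (nat_lit 152) (nat_lit 4965413864) (nat_lit 0) (nat_lit 4014805977) (nat_lit 17) (nat_lit 5) (nat_lit 19) (nat_lit 4) (nat_lit 17) (nat_lit 4) (nat_lit 268) (nat_lit 227) (nat_lit 225))))) (XT.nd (nat_lit 156) (nat_lit 152) (nat_lit 0) (XT.nd (nat_lit 78) (nat_lit 152) (nat_lit 0) (XT.lf (nat_lit 0) (nat_lit 6117872816) (nat_lit 152) (nat_lit 5821311807)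 (nat_lit 152) (nat_lit 3490298940) (nat_lit 15) (nat_lit 4) (nat_lit 17) (nat_lit 5) (nat_lit 17) (nat_lit 4) (nat_lit 269) (nat_lit 227) (nat_lit 224)) (XT.lf (nat_lit 0) (nat_lit 1409555073) (nat_lit 76) (nat_lit 739425712) (nat_lit 152) (nat_lit 14176771004) (nat_lit 13) (nat_lit 5) (nat_lit 14) (nat_lit 5) (nat_lit 15) (nat_lit 4) (nat_lit 270) (nat_lit 227) (nat_lit 223))) (XT.nd (nat_lit 78) (nat_lit 152) (nat_lit 0) (XT.lf (nat_lit 0) (nat_lit 8048279015) (nat_lit 152) (nat_lit 4637582671) (nat_lit 0) (nat_lit 4608802250) (nat_lit 13) (nat_lit 5) (nat_lit 15) (nat_lit 4) (nat_lit 13) (nat_lit 4) (nat_lit 271) (nat_lit 227) (nat_lit 222)) (XT.nd (nat_lit 78) (nat_lit 76) (nat_lit 0) (XT.lf (nat_lit 0) (nat_lit 6150251821) (nat_lit 76) (nat_lit 8091202347) (nat_lit 76) (nat_lit 4108872790) (nat_lit 12) (nat_lit 4) (nat_lit 13) (nat_lit 5) (nat_lit 13) (nat_lit 4) (nat_lit 272) (nat_lit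 227) (nat_lit 221)) (XT.lf (nat_lit 0) (nat_lit 1198139317) (nat_lit 152) (nat_lit 2028785429) (nat_lit 76) (nat_lit 16272460637) (nat_lit 11) (nat_lit 5) (nat_lit 13) (nat_lit 5) (nat_lit 12) (nat_lit 4) (nat_lit 273) (nat_lit 227) (nat_lit 220)))))) (XT.nd (nat_lit 390) (nat_lit 76) (nat_lit 0) (XT.nd (nat_lit 156) (nat_lit 228) (nat_lit 0) (XT.nd (nat_lit 78) (nat_lit 0) (nat_lit 0) (XT.lf (nat_lit 0) (nat_lit 6698800745) (nat_lit 152) (nat_lit 12058667503) (nat_lit 0) (nat_lit 1984153314) (nat_lit 10) (nat_lit 5) (nat_lit 12) (nat_lit 4) (nat_lit 10) (nat_lit 4) (nat_lit 274) (nat_lit 227) (nat_lit 219)) (XT.lf (nat_lit 0) (nat_lit 12482306013) (nat_lit 152) (nat_lit 2251798809) (nat_lit 0) (nat_lit 7357245203) (nat_lit 10) (nat_lit 5) (nat_lit 12) (nat_lit 4) (nat_lit 10) (nat_lit 4) (nat_lit 275) (nat_lit 227) (nat_lit 218))) (XT.nd (nat_lit 78) (nat_lit 152) (nat_lit 0) (XT.lf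 (nat_lit 0) (nat_lit 8195043458) (nat_lit 76) (nat_lit 10432191765) (nat_lit 76) (nat_lit 4927118567) (nat_lit 9) (nat_lit 4) (nat_lit 10) (nat_lit 5) (nat_lit 10) (nat_lit 4) (nat_lit 276) (nat_lit 227) (nat_lit 217)) (XT.nd (nat_lit 78) (nat_lit 152) (nat_lit 0) (XT.lf (nat_lit 0) (nat_lit 19168857634) (nat_lit 76) (nat_lit 5915823732) (nat_lit 76) (nat_lit 58887212) (nat_lit 9) (nat_lit 4) (nat_lit 10) (nat_lit 5) (nat_lit 10) (nat_lit 4) (nat_lit 277) (nat_lit 227) (nat_lit 216)) (XT.lf (nat_lit 0) (nat_lit 3834880171) (nat_lit 76) (nat_lit 1051761810) (nat_lit 152) (nat_lit 21976699727) (nat_lit 7) (nat_lit 5) (nat_lit 8) (nat_lit 5) (nat_lit 9) (nat_lit 4) (nat_lit 278) (nat_lit 227) (nat_lit 215))))) (XT.nd (nat_lit 156) (nat_lit 76) (nat_lit 0) (XT.nd (nat_lit 78) (nat_lit 0) (nat_lit 0) (XT.lf (nat_lit 0) (nat_lit 10198834856) (nat_lit 152) (nat_lit 14500122479) (nat_lit 0) (nat_lit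 4023213925) (nat_lit 7) (nat_lit 5) (nat_lit 9) (nat_lit 4) (nat_lit 7) (nat_lit 4) (nat_lit 279) (nat_lit 227) (nat_lit 214)) (XT.lf (nat_lit 0) (nat_lit 15770107319) (nat_lit 152) (nat_lit 5639591684) (nat_lit 0) (nat_lit 9328466912) (nat_lit 7) (nat_lit 5) (nat_lit 9) (nat_lit 4) (nat_lit 7) (nat_lit 4) (nat_lit 280) (nat_lit 227) (nat_lit 213))) (XT.nd (nat_lit 78) (nat_lit 0) (nat_lit 0) (XT.lf (nat_lit 0) (nat_lit 3741820262) (nat_lit 76) (nat_lit 17933653408) (nat_lit 76) (nat_lit 11245698671) (nat_lit 6) (nat_lit 4) (nat_lit 7) (nat_lit 5) (nat_lit 7) (nat_lit 4) (nat_lit 281) (nat_lit 227) (nat_lit 212)) (XT.nd (nat_lit 78) (nat_lit 0) (nat_lit 0) (XT.lf (nat_lit 0) (nat_lit 13780783500) (nat_lit 76) (nat_lit 14208694727) (nat_lit 76) (nat_lit 7292671166) (nat_lit 6) (nat_lit 4) (nat_lit 7) (nat_lit 5) (nat_lit 7) (nat_lit 4) (nat_lit 282) (nat_lit 227) (nat_lit 211)) (XT.lf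 (nat_lit 0) (nat_lit 24350317811) (nat_lit 76) (nat_lit 10308258346) (nat_lit 76) (nat_lit 3181059949) (nat_lit 6) (nat_lit 4) (nat_lit 7) (nat_lit 5) (nat_lit 7) (nat_lit 4) (nat_lit 283) (nat_lit 227) (nat_lit 210))))))))
noncomputable def xc24 : XT := (XT.nd (nat_lit 1482) (nat_lit 152) (nat_lit 0) (XT.nd (nat_lit 702) (nat_lit 0) (nat_lit 0) (XT.nd (nat_lit 312) (nat_lit 76) (nat_lit 0) (XT.nd (nat_lit 156) (nat_lit 0) (nat_lit 0) (XT.nd (nat_lit 78) (nat_lit 76) (nat_lit 0) (XT.lf (nat_lit 0) (nat_lit 1077861127) (nat_lit 152) (nat_lit 5113115341) (nat_lit 76) (nat_lit 34416942245) (nat_lit 5) (nat_lit 5) (nat_lit 7) (nat_lit 5) (nat_lit 6) (nat_lit 4) (nat_lit 284) (nat_lit 227) (nat_lit 209)) (XT.lf (nat_lit 0) (nat_lit 3761851406) (nat_lit 76) (nat_lit 1733578078) (nat_lit 152) (nat_lit 38103264161) (nat_lit 4) (nat_lit 5) (nat_lit 5) (nat_lit 5) (nat_lit 6) (nat_lit 4) (nat_lit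 285) (nat_lit 227) (nat_lit 208))) (XT.nd (nat_lit 78) (nat_lit 0) (nat_lit 0) (XT.lf (nat_lit 0) (nat_lit 10278711175) (nat_lit 152) (nat_lit 33576902114) (nat_lit 0) (nat_lit 2972600286) (nat_lit 4) (nat_lit 5) (nat_lit 6) (nat_lit 4) (nat_lit 4) (nat_lit 4) (nat_lit 286) (nat_lit 227) (nat_lit 207)) (XT.lf (nat_lit 0) (nat_lit 15356929941) (nat_lit 152) (nat_lit 27060651874) (nat_lit 0) (nat_lit 7902990663) (nat_lit 4) (nat_lit 5) (nat_lit 6) (nat_lit 4) (nat_lit 4) (nat_lit 4) (nat_lit 287) (nat_lit 227) (nat_lit 206)))) (XT.nd (nat_lit 156) (nat_lit 76) (nat_lit 0) (XT.nd (nat_lit 78) (nat_lit 0) (nat_lit 0) (XT.lf (nat_lit 0) (nat_lit 20733112920) (nat_lit 152) (nat_lit 20222410692) (nat_lit 0) (nat_lit 13142295503) (nat_lit 4) (nat_lit 5) (nat_lit 6) (nat_lit 4) (nat_lit 4) (nat_lit 4) (nat_lit 288) (nat_lit 227) (nat_lit 205)) (XT.lf (nat_lit 0) (nat_lit 26439118974) (nat_lit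 152) (nat_lit 13021655656) (nat_lit 0) (nat_lit 18721562540) (nat_lit 4) (nat_lit 5) (nat_lit 6) (nat_lit 4) (nat_lit 4) (nat_lit 4) (nat_lit 289) (nat_lit 227) (nat_lit 204))) (XT.nd (nat_lit 78) (nat_lit 76) (nat_lit 0) (XT.lf (nat_lit 0) (nat_lit 32508761472) (nat_lit 152) (nat_lit 5415715626) (nat_lit 0) (nat_lit 24673854096) (nat_lit 4) (nat_lit 5) (nat_lit 6) (nat_lit 4) (nat_lit 4) (nat_lit 4) (nat_lit 290) (nat_lit 227) (nat_lit 203)) (XT.nd (nat_lit 78) (nat_lit 0) (nat_lit 0) (XT.lf (nat_lit 0) (nat_lit 2727787881) (nat_lit 76) (nat_lit 36292809197) (nat_lit 76) (nat_lit 28349243542) (nat_lit 3) (nat_lit 4) (nat_lit 4) (nat_lit 5) (nat_lit 4) (nat_lit 4) (nat_lit 291) (nat_lit 227) (nat_lit 202)) (XT.lf (nat_lit 0) (nat_lit 11564823118) (nat_lit 76) (nat_lit 34500933016) (nat_lit 76) (nat_lit 26456757842) (nat_lit 3) (nat_lit 4) (nat_lit 4) (nat_lit 5) (nat_lit 4) (nat_lit 4)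 (nat_lit 292) (nat_lit 227) (nat_lit 201)))))) (XT.nd (nat_lit 390) (nat_lit 0) (nat_lit 0) (XT.nd (nat_lit 156) (nat_lit 0) (nat_lit 0) (XT.nd (nat_lit 78) (nat_lit 0) (nat_lit 0) (XT.lf (nat_lit 0) (nat_lit 20968689681) (nat_lit 76) (nat_lit 32629947793) (nat_lit 76) (nat_lit 24492615659) (nat_lit 3) (nat_lit 4) (nat_lit 4) (nat_lit 5) (nat_lit 4) (nat_lit 4) (nat_lit 293) (nat_lit 227) (nat_lit 200)) (XT.lf (nat_lit 0) (nat_lit 30995114189) (nat_lit 76) (nat_lit 30668766211) (nat_lit 76) (nat_lit 22445177631) (nat_lit 3) (nat_lit 4) (nat_lit 4) (nat_lit 5) (nat_lit 4) (nat_lit 4) (nat_lit 294) (nat_lit 227) (nat_lit 199))) (XT.nd (nat_lit 78) (nat_lit 0) (nat_lit 0) (XT.lf (nat_lit 0) (nat_lit 41703512490) (nat_lit 76) (nat_lit 28605766450) (nat_lit 76) (nat_lit 20302310791) (nat_lit 3) (nat_lit 4) (nat_lit 4) (nat_lit 5) (nat_lit 4) (nat_lit 4) (nat_lit 295) (nat_lit 227) (nat_lit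 198)) (XT.nd (nat_lit 78) (nat_lit 0) (nat_lit 0) (XT.lf (nat_lit 0) (nat_lit 53157341758) (nat_lit 76) (nat_lit 26428723329) (nat_lit 76) (nat_lit 18051316671) (nat_lit 3) (nat_lit 4) (nat_lit 4) (nat_lit 5) (nat_lit 4) (nat_lit 4) (nat_lit 296) (nat_lit 227) (nat_lit 197)) (XT.lf (nat_lit 0) (nat_lit 65424476539) (nat_lit 76) (nat_lit 24124735850) (nat_lit 76) (nat_lit 15678856045) (nat_lit 3) (nat_lit 4) (nat_lit 4) (nat_lit 5) (nat_lit 4) (nat_lit 4) (nat_lit 297) (nat_lit 227) (nat_lit 196))))) (XT.nd (nat_lit 156) (nat_lit 0) (nat_lit 0) (XT.nd (nat_lit 78) (nat_lit 0) (nat_lit 0) (XT.lf (nat_lit 0) (nat_lit 78577610964) (nat_lit 76) (nat_lit 21680150755) (nat_lit 76) (nat_lit 13170869887) (nat_lit 3) (nat_lit 4) (nat_lit 4) (nat_lit 5) (nat_lit 4) (nat_lit 4) (nat_lit 298) (nat_lit 227) (nat_lit 195)) (XT.lf (nat_lit 0) (nat_lit 92694689532) (nat_lit 76) (nat_lit 19080481612) (nat_lit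 76) (nat_lit 10512496057) (nat_lit 3) (nat_lit 4) (nat_lit 4) (nat_lit 5) (nat_lit 4) (nat_lit 4) (nat_lit 299) (nat_lit 227) (nat_lit 194))) (XT.nd (nat_lit 78) (nat_lit 0) (nat_lit 0) (XT.lf (nat_lit 0) (nat_lit 107859369007) (nat_lit 76) (nat_lit 16310322977) (nat_lit 76) (nat_lit 7687981229) (nat_lit 3) (nat_lit 4) (nat_lit 4) (nat_lit 5) (nat_lit 4) (nat_lit 4) (nat_lit 300) (nat_lit 227) (nat_lit 193)) (XT.nd (nat_lit 78) (nat_lit 0) (nat_lit 0) (XT.lf (nat_lit 0) (nat_lit 124161514155) (nat_lit 76) (nat_lit 13353259092) (nat_lit 76) (nat_lit 4680587537) (nat_lit 3) (nat_lit 4) (nat_lit 4) (nat_lit 5) (nat_lit 4) (nat_lit 4) (nat_lit 301) (nat_lit 227) (nat_lit 192)) (XT.lf (nat_lit 0) (nat_lit 141697730281) (nat_lit 76) (nat_lit 10191766618) (nat_lit 76) (nat_lit 1472493390) (nat_lit 3) (nat_lit 4) (nat_lit 4) (nat_lit 5) (nat_lit 4) (nat_lit 4) (nat_lit 302) (nat_lit 227) (nat_lit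 191))))))) (XT.nd (nat_lit 702) (nat_lit 0) (nat_lit 0) (XT.nd (nat_lit 312) (nat_lit 0) (nat_lit 0) (XT.nd (nat_lit 156) (nat_lit 0) (nat_lit 0) (XT.nd (nat_lit 78) (nat_lit 76) (nat_lit 0) (XT.lf (nat_lit 0) (nat_lit 1892729942) (nat_lit 152) (nat_lit 4882326544) (nat_lit 76) (nat_lit 158647151463) (nat_lit 2) (nat_lit 5) (nat_lit 4) (nat_lit 5) (nat_lit 3) (nat_lit 4) (nat_lit 303) (nat_lit 227) (nat_lit 190)) (XT.lf (nat_lit 0) (nat_lit 2434018394) (nat_lit 76) (nat_lit 3047149773) (nat_lit 152) (nat_lit 172964612043) (nat_lit 1) (nat_lit 5) (nat_lit 2) (nat_lit 5) (nat_lit 3) (nat_lit 4) (nat_lit 304) (nat_lit 227) (nat_lit 189))) (XT.nd (nat_lit 78) (nat_lit 0) (nat_lit 0) (XT.lf (nat_lit 0) (nat_lit 9426418515) (nat_lit 152) (nat_lit 182073383950) (nat_lit 0) (nat_lit 1007970647) (nat_lit 1) (nat_lit 5) (nat_lit 3) (nat_lit 4) (nat_lit 1) (nat_lit 4) (nat_lit 305) (nat_lit 227)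 (nat_lit 188)) (XT.lf (nat_lit 0) (nat_lit 13709050052) (nat_lit 152) (nat_lit 188726627753) (nat_lit 0) (nat_lit 5257979688) (nat_lit 1) (nat_lit 5) (nat_lit 3) (nat_lit 4) (nat_lit 1) (nat_lit 4) (nat_lit 306) (nat_lit 227) (nat_lit 187)))) (XT.nd (nat_lit 156) (nat_lit 0) (nat_lit 0) (XT.nd (nat_lit 78) (nat_lit 0) (nat_lit 0) (XT.lf (nat_lit 0) (nat_lit 18306866789) (nat_lit 152) (nat_lit 195963345308) (nat_lit 0) (nat_lit 9825590409) (nat_lit 1) (nat_lit 5) (nat_lit 3) (nat_lit 4) (nat_lit 1) (nat_lit 4) (nat_lit 307) (nat_lit 227) (nat_lit 186)) (XT.lf (nat_lit 0) (nat_lit 23247115047) (nat_lit 152) (nat_lit 203826420868) (nat_lit 0) (nat_lit 14737870134) (nat_lit 1) (nat_lit 5) (nat_lit 3) (nat_lit 4) (nat_lit 1) (nat_lit 4) (nat_lit 308) (nat_lit 227) (nat_lit 185))) (XT.nd (nat_lit 78) (nat_lit 0) (nat_lit 0) (XT.lf (nat_lit 0) (nat_lit 28559070371) (nat_lit 152) (nat_lit 212362450435)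 (nat_lit 0) (nat_lit 20023928669) (nat_lit 1) (nat_lit 5) (nat_lit 3) (nat_lit 4) (nat_lit 1) (nat_lit 4) (nat_lit 309) (nat_lit 227) (nat_lit 184)) (XT.nd (nat_lit 78) (nat_lit 0) (nat_lit 0) (XT.lf (nat_lit 0) (nat_lit 34274211014) (nat_lit 152) (nat_lit 221622017889) (nat_lit 0) (nat_lit 25715090804) (nat_lit 1) (nat_lit 5) (nat_lit 3) (nat_lit 4) (nat_lit 1) (nat_lit 4) (nat_lit 310) (nat_lit 227) (nat_lit 183)) (XT.lf (nat_lit 0) (nat_lit 40426404478) (nat_lit 152) (nat_lit 231659994740) (nat_lit 0) (nat_lit 31845081945) (nat_lit 1) (nat_lit 5) (nat_lit 3) (nat_lit 4) (nat_lit 1) (nat_lit 4) (nat_lit 311) (nat_lit 227) (nat_lit 182)))))) (XT.nd (nat_lit 390) (nat_lit 0) (nat_lit 0) (XT.nd (nat_lit 156) (nat_lit 0) (nat_lit 0) (XT.nd (nat_lit 78) (nat_lit 0) (nat_lit 0) (XT.lf (nat_lit 0) (nat_lit 47052108205) (nat_lit 152) (nat_lit 242535865296) (nat_lit 0) (nat_lit 38450227966)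 (nat_lit 1) (nat_lit 5) (nat_lit 3) (nat_lit 4) (nat_lit 1) (nat_lit 4) (nat_lit 312) (nat_lit 227) (nat_lit 181)) (XT.lf (nat_lit 0) (nat_lit 54190585624) (nat_lit 152) (nat_lit 254314079160) (nat_lit 0) (nat_lit 45569670471) (nat_lit 1) (nat_lit 5) (nat_lit 3) (nat_lit 4) (nat_lit 1) (nat_lit 4) (nat_lit 313) (nat_lit 227) (nat_lit 180))) (XT.nd (nat_lit 78) (nat_lit 0) (nat_lit 0) (XT.lf (nat_lit 0) (nat_lit 61884138824) (nat_lit 152) (nat_lit 267064433154) (nat_lit 0) (nat_lit 53245598751) (nat_lit 1) (nat_lit 5) (nat_lit 3) (nat_lit 4) (nat_lit 1) (nat_lit 4) (nat_lit 314) (nat_lit 227) (nat_lit 179)) (XT.nd (nat_lit 78) (nat_lit 0) (nat_lit 0) (XT.lf (nat_lit 0) (nat_lit 70178359231) (nat_lit 152) (nat_lit 280862484933) (nat_lit 0) (nat_lit 61523499788) (nat_lit 1) (nat_lit 5) (nat_lit 3) (nat_lit 4) (nat_lit 1) (nat_lit 4) (nat_lit 315) (nat_lit 227) (nat_lit 178)) (XT.lf (nat_lit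 0) (nat_lit 79122397781) (nat_lit 152) (nat_lit 295790000729) (nat_lit 0) (nat_lit 70452427810) (nat_lit 1) (nat_lit 5) (nat_lit 3) (nat_lit 4) (nat_lit 1) (nat_lit 4) (nat_lit 316) (nat_lit 227) (nat_lit 177))))) (XT.nd (nat_lit 156) (nat_lit 0) (nat_lit 0) (XT.nd (nat_lit 78) (nat_lit 0) (nat_lit 0) (XT.lf (nat_lit 0) (nat_lit 88769256184) (nat_lit 152) (nat_lit 311935439894) (nat_lit 0) (nat_lit 80085294983) (nat_lit 1) (nat_lit 5) (nat_lit 3) (nat_lit 4) (nat_lit 1) (nat_lit 4) (nat_lit 317) (nat_lit 227) (nat_lit 176)) (XT.lf (nat_lit 0) (nat_lit 99176101008) (nat_lit 152) (nat_lit 329394479106) (nat_lit 0) (nat_lit 90479184965) (nat_lit 1) (nat_lit 5) (nat_lit 3) (nat_lit 4) (nat_lit 1) (nat_lit 4) (nat_lit 318) (nat_lit 227) (nat_lit 175))) (XT.nd (nat_lit 78) (nat_lit 0) (nat_lit 0) (XT.lf (nat_lit 0) (nat_lit 110404602444) (nat_lit 152) (nat_lit 348270579337) (nat_lit 0) (nat_lit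 101695691177) (nat_lit 1) (nat_lit 5) (nat_lit 3) (nat_lit 4) (nat_lit 1) (nat_lit 4) (nat_lit 319) (nat_lit 227) (nat_lit 174)) (XT.nd (nat_lit 78) (nat_lit 0) (nat_lit 0) (XT.lf (nat_lit 0) (nat_lit 122521299761) (nat_lit 152) (nat_lit 368675598960) (nat_lit 0) (nat_lit 113801281805) (nat_lit 1) (nat_lit 5) (nat_lit 3) (nat_lit 4) (nat_lit 1) (nat_lit 4) (nat_lit 320) (nat_lit 227) (nat_lit 173)) (XT.lf (nat_lit 0) (nat_lit 135597995609) (nat_lit 152) (nat_lit 390730456608) (nat_lit 0) (nat_lit 126867693681) (nat_lit 1) (nat_lit 5) (nat_lit 3) (nat_lit 4) (nat_lit 1) (nat_lit 4) (nat_lit 321) (nat_lit 227) (nat_lit 172))))))))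
noncomputable def xc25 : XT := (XT.nd (nat_lit 34086) (nat_lit 0) (nat_lit 152) (XT.nd (nat_lit 33306) (nat_lit 0) (nat_lit 608) (XT.nd (nat_lit 312) (nat_lit 0) (nat_lit 0) (XT.nd (nat_lit 156) (nat_lit 0) (nat_lit 0) (XT.nd (nat_lit 78) (nat_lit 0) (nat_lit 0) (XT.lf (nat_lit 0) (nat_lit 149712181519) (nat_lit 152) (nat_lit 414565847735) (nat_lit 0) (nat_lit 140972357396) (nat_lit 1) (nat_lit 5) (nat_lit 3) (nat_lit 4) (nat_lit 1) (nat_lit 4) (nat_lit 322) (nat_lit 227) (nat_lit 171)) (XT.lf (nat_lit 0) (nat_lit 164947497111) (nat_lit 152) (nat_lit 440323019103) (nat_lit 0) (nat_lit 156198856140) (nat_lit 1) (nat_lit 5) (nat_lit 3) (nat_lit 4) (nat_lit 1) (nat_lit 4) (nat_lit 323) (nat_lit 227) (nat_lit 170))) (XT.nd (nat_lit 78) (nat_lit 0) (nat_lit 0) (XT.lf (nat_lit 0) (nat_lit 181394225738) (nat_lit 152) (nat_lit 468154605802) (nat_lit 0) (nat_lit 172637421018) (nat_lit 1) (nat_lit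 5) (nat_lit 3) (nat_lit 4) (nat_lit 1) (nat_lit 4) (nat_lit 324) (nat_lit 227) (nat_lit 169)) (XT.lf (nat_lit 0) (nat_lit 199149829494) (nat_lit 152) (nat_lit 498225535752) (nat_lit 0) (nat_lit 190385465748) (nat_lit 1) (nat_lit 5) (nat_lit 3) (nat_lit 4) (nat_lit 1) (nat_lit 4) (nat_lit 325) (nat_lit 227) (nat_lit 168)))) (XT.nd (nat_lit 32760) (nat_lit 0) (nat_lit 1292) (XT.nd (nat_lit 32682) (nat_lit 0) (nat_lit 1672) (XT.lf (nat_lit 0) (nat_lit 218319526772) (nat_lit 152) (nat_lit 530714007058) (nat_lit 0) (nat_lit 209548163928) (nat_lit 1) (nat_lit 5) (nat_lit 3) (nat_lit 4) (nat_lit 1) (nat_lit 4) (nat_lit 326) (nat_lit 227) (nat_lit 167)) (XT.lf (nat_lit 0) (nat_lit 1654799484) (nat_lit 152) (nat_lit 2156719654) (nat_lit 152) (nat_lit 2156719654) (nat_lit 23) (nat_lit 4) (nat_lit 25) (nat_lit 5) (nat_lit 25) (nat_lit 4) (nat_lit 264) (nat_lit 228) (nat_lit 228))) (XT.nd (nat_lit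 78) (nat_lit 228) (nat_lit 0) (XT.lf (nat_lit 0) (nat_lit 1574160435) (nat_lit 152) (nat_lit 10329868332) (nat_lit 0) (nat_lit 624423766) (nat_lit 21) (nat_lit 5) (nat_lit 23) (nat_lit 4) (nat_lit 21) (nat_lit 4) (nat_lit 265) (nat_lit 228) (nat_lit 227)) (XT.nd (nat_lit 78) (nat_lit 76) (nat_lit 0) (XT.lf (nat_lit 0) (nat_lit 312608065) (nat_lit 152) (nat_lit 7343784464) (nat_lit 152) (nat_lit 5514661990) (nat_lit 19) (nat_lit 4) (nat_lit 21) (nat_lit 5) (nat_lit 21) (nat_lit 4) (nat_lit 266) (nat_lit 228) (nat_lit 226)) (XT.lf (nat_lit 0) (nat_lit 185537122) (nat_lit 228) (nat_lit 2263017489) (nat_lit 76) (nat_lit 11424860570) (nat_lit 18) (nat_lit 5) (nat_lit 21) (nat_lit 5) (nat_lit 19) (nat_lit 4) (nat_lit 267) (nat_lit 228) (nat_lit 225)))))) (XT.nd (nat_lit 390) (nat_lit 228) (nat_lit 0) (XT.nd (nat_lit 156) (nat_lit 228) (nat_lit 0) (XT.nd (nat_lit 78) (nat_lit 152) (nat_lit 0)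 (XT.lf (nat_lit 0) (nat_lit 6013595762) (nat_lit 152) (nat_lit 5842966933) (nat_lit 0) (nat_lit 2778071782) (nat_lit 17) (nat_lit 5) (nat_lit 19) (nat_lit 4) (nat_lit 17) (nat_lit 4) (nat_lit 268) (nat_lit 228) (nat_lit 224)) (XT.lf (nat_lit 0) (nat_lit 4952735718) (nat_lit 152) (nat_lit 7206122028) (nat_lit 152) (nat_lit 3305755377) (nat_lit 15) (nat_lit 4) (nat_lit 17) (nat_lit 5) (nat_lit 17) (nat_lit 4) (nat_lit 269) (nat_lit 228) (nat_lit 223))) (XT.nd (nat_lit 78) (nat_lit 152) (nat_lit 0) (XT.lf (nat_lit 0) (nat_lit 2162405183) (nat_lit 228) (nat_lit 83031091) (nat_lit 76) (nat_lit 14123735358) (nat_lit 14) (nat_lit 5) (nat_lit 17) (nat_lit 5) (nat_lit 15) (nat_lit 4) (nat_lit 270) (nat_lit 228) (nat_lit 222)) (XT.nd (nat_lit 78) (nat_lit 76) (nat_lit 0) (XT.lf (nat_lit 0) (nat_lit 7899061091) (nat_lit 152) (nat_lit 6392023269) (nat_lit 0) (nat_lit 3055292379) (nat_lit 13) (nat_lit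 5) (nat_lit 15) (nat_lit 4) (nat_lit 13) (nat_lit 4) (nat_lit 271) (nat_lit 228) (nat_lit 221)) (XT.lf (nat_lit 0) (nat_lit 4109037728) (nat_lit 76) (nat_lit 9823766379) (nat_lit 76) (nat_lit 4477356193) (nat_lit 12) (nat_lit 4) (nat_lit 13) (nat_lit 5) (nat_lit 13) (nat_lit 4) (nat_lit 272) (nat_lit 228) (nat_lit 220))))) (XT.nd (nat_lit 156) (nat_lit 76) (nat_lit 0) (XT.nd (nat_lit 78) (nat_lit 76) (nat_lit 0) (XT.lf (nat_lit 0) (nat_lit 717904664) (nat_lit 152) (nat_lit 4340114395) (nat_lit 76) (nat_lit 14507795901) (nat_lit 11) (nat_lit 5) (nat_lit 13) (nat_lit 5) (nat_lit 12) (nat_lit 4) (nat_lit 273) (nat_lit 228) (nat_lit 219)) (XT.lf (nat_lit 0) (nat_lit 6033077132) (nat_lit 152) (nat_lit 14696771981) (nat_lit 0) (nat_lit 87598078) (nat_lit 10) (nat_lit 5) (nat_lit 12) (nat_lit 4) (nat_lit 10) (nat_lit 4) (nat_lit 274) (nat_lit 228) (nat_lit 218))) (XT.nd (nat_lit 78) (nat_lit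 76) (nat_lit 0) (XT.lf (nat_lit 0) (nat_lit 11706388134) (nat_lit 152) (nat_lit 5085513139) (nat_lit 0) (nat_lit 5380896692) (nat_lit 10) (nat_lit 5) (nat_lit 12) (nat_lit 4) (nat_lit 10) (nat_lit 4) (nat_lit 275) (nat_lit 228) (nat_lit 217)) (XT.nd (nat_lit 78) (nat_lit 0) (nat_lit 0) (XT.lf (nat_lit 0) (nat_lit 5080524850) (nat_lit 76) (nat_lit 12620134402) (nat_lit 76) (nat_lit 5942779638) (nat_lit 9) (nat_lit 4) (nat_lit 10) (nat_lit 5) (nat_lit 10) (nat_lit 4) (nat_lit 276) (nat_lit 228) (nat_lit 216)) (XT.lf (nat_lit 0) (nat_lit 15881090058) (nat_lit 76) (nat_lit 8179836612) (nat_lit 76) (nat_lit 1176682476) (nat_lit 9) (nat_lit 4) (nat_lit 10) (nat_lit 5) (nat_lit 10) (nat_lit 4) (nat_lit 277) (nat_lit 228) (nat_lit 215))))))) (XT.nd (nat_lit 780) (nat_lit 76) (nat_lit 0) (XT.nd (nat_lit 390) (nat_lit 152) (nat_lit 0) (XT.nd (nat_lit 156) (nat_lit 76) (nat_lit 0) (XT.nd (nat_lit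 78) (nat_lit 0) (nat_lit 0) (XT.lf (nat_lit 0) (nat_lit 190348544) (nat_lit 76) (nat_lit 3465831341) (nat_lit 152) (nat_lit 23309582277) (nat_lit 7) (nat_lit 5) (nat_lit 8) (nat_lit 5) (nat_lit 9) (nat_lit 4) (nat_lit 278) (nat_lit 228) (nat_lit 214)) (XT.lf (nat_lit 0) (nat_lit 8842398491) (nat_lit 152) (nat_lit 18369163382) (nat_lit 0) (nat_lit 1619407375) (nat_lit 7) (nat_lit 5) (nat_lit 9) (nat_lit 4) (nat_lit 7) (nat_lit 4) (nat_lit 279) (nat_lit 228) (nat_lit 213))) (XT.nd (nat_lit 78) (nat_lit 76) (nat_lit 0) (XT.lf (nat_lit 0) (nat_lit 14331926622) (nat_lit 152) (nat_lit 9656576302) (nat_lit 0) (nat_lit 6862621177) (nat_lit 7) (nat_lit 5) (nat_lit 9) (nat_lit 4) (nat_lit 7) (nat_lit 4) (nat_lit 280) (nat_lit 228) (nat_lit 212)) (XT.nd (nat_lit 78) (nat_lit 76) (nat_lit 0) (XT.lf (nat_lit 0) (nat_lit 20103183477) (nat_lit 152) (nat_lit 531910894) (nat_lit 0) (nat_lit 12405809208)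 (nat_lit 7) (nat_lit 5) (nat_lit 9) (nat_lit 4) (nat_lit 7) (nat_lit 4) (nat_lit 281) (nat_lit 228) (nat_lit 211)) (XT.lf (nat_lit 0) (nat_lit 9358433243) (nat_lit 76) (nat_lit 16978047221) (nat_lit 76) (nat_lit 9069498115) (nat_lit 6) (nat_lit 4) (nat_lit 7) (nat_lit 5) (nat_lit 7) (nat_lit 4) (nat_lit 282) (nat_lit 228) (nat_lit 210))))) (XT.nd (nat_lit 156) (nat_lit 152) (nat_lit 0) (XT.nd (nat_lit 78) (nat_lit 0) (nat_lit 0) (XT.lf (nat_lit 0) (nat_lit 19806641884) (nat_lit 76) (nat_lit 13132150991) (nat_lit 76) (nat_lit 5028069629) (nat_lit 6) (nat_lit 4) (nat_lit 7) (nat_lit 5) (nat_lit 7) (nat_lit 4) (nat_lit 283) (nat_lit 228) (nat_lit 209)) (XT.lf (nat_lit 0) (nat_lit 30857042961) (nat_lit 76) (nat_lit 9083623353) (nat_lit 76) (nat_lit 798493605) (nat_lit 6) (nat_lit 4) (nat_lit 7) (nat_lit 5) (nat_lit 7) (nat_lit 4) (nat_lit 284) (nat_lit 228) (nat_lit 208))) (XT.nd (nat_lit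 78) (nat_lit 76) (nat_lit 0) (XT.lf (nat_lit 0) (nat_lit 3527653938) (nat_lit 152) (nat_lit 1221076566) (nat_lit 76) (nat_lit 38987723869) (nat_lit 5) (nat_lit 5) (nat_lit 7) (nat_lit 5) (nat_lit 6) (nat_lit 4) (nat_lit 285) (nat_lit 228) (nat_lit 207)) (XT.nd (nat_lit 78) (nat_lit 0) (nat_lit 0) (XT.lf (nat_lit 0) (nat_lit 8176967478) (nat_lit 76) (nat_lit 10815169) (nat_lit 152) (nat_lit 38784393106) (nat_lit 4) (nat_lit 5) (nat_lit 5) (nat_lit 5) (nat_lit 6) (nat_lit 4) (nat_lit 286) (nat_lit 228) (nat_lit 206)) (XT.lf (nat_lit 0) (nat_lit 13213768478) (nat_lit 152) (nat_lit 32374610852) (nat_lit 0) (nat_lit 4878807529) (nat_lit 4) (nat_lit 5) (nat_lit 6) (nat_lit 4) (nat_lit 4) (nat_lit 4) (nat_lit 287) (nat_lit 228) (nat_lit 205)))))) (XT.nd (nat_lit 390) (nat_lit 0) (nat_lit 0) (XT.nd (nat_lit 156) (nat_lit 76) (nat_lit 0) (XT.nd (nat_lit 78) (nat_lit 0) (nat_lit 0) (XT.lf (nat_lit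 0) (nat_lit 18541743974) (nat_lit 152) (nat_lit 25625093439) (nat_lit 0) (nat_lit 10080044009) (nat_lit 4) (nat_lit 5) (nat_lit 6) (nat_lit 4) (nat_lit 4) (nat_lit 4) (nat_lit 288) (nat_lit 228) (nat_lit 204)) (XT.lf (nat_lit 0) (nat_lit 24203113470) (nat_lit 152) (nat_lit 18506490043) (nat_lit 0) (nat_lit 15624062563) (nat_lit 4) (nat_lit 5) (nat_lit 6) (nat_lit 4) (nat_lit 4) (nat_lit 4) (nat_lit 289) (nat_lit 228) (nat_lit 203))) (XT.nd (nat_lit 78) (nat_lit 76) (nat_lit 0) (XT.lf (nat_lit 0) (nat_lit 30231425822) (nat_lit 152) (nat_lit 10976616345) (nat_lit 0) (nat_lit 21543716635) (nat_lit 4) (nat_lit 5) (nat_lit 6) (nat_lit 4) (nat_lit 4) (nat_lit 4) (nat_lit 290) (nat_lit 228) (nat_lit 202)) (XT.nd (nat_lit 78) (nat_lit 76) (nat_lit 0) (XT.lf (nat_lit 0) (nat_lit 36662404362) (nat_lit 152) (nat_lit 2990850873) (nat_lit 0) (nat_lit 27874085657) (nat_lit 4) (nat_lit 5) (nat_lit 6)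 (nat_lit 4) (nat_lit 4) (nat_lit 4) (nat_lit 291) (nat_lit 228) (nat_lit 201)) (XT.lf (nat_lit 0) (nat_lit 5679922416) (nat_lit 76) (nat_lit 37942915683) (nat_lit 76) (nat_lit 29061440017) (nat_lit 3) (nat_lit 4) (nat_lit 4) (nat_lit 5) (nat_lit 4) (nat_lit 4) (nat_lit 292) (nat_lit 228) (nat_lit 200))))) (XT.nd (nat_lit 156) (nat_lit 0) (nat_lit 0) (XT.nd (nat_lit 78) (nat_lit 0) (nat_lit 0) (XT.lf (nat_lit 0) (nat_lit 15021408508) (nat_lit 76) (nat_lit 36100527796) (nat_lit 76) (nat_lit 27132795684) (nat_lit 3) (nat_lit 4) (nat_lit 4) (nat_lit 5) (nat_lit 4) (nat_lit 4) (nat_lit 293) (nat_lit 228) (nat_lit 199)) (XT.lf (nat_lit 0) (nat_lit 24990073319) (nat_lit 76) (nat_lit 34165825227) (nat_lit 76) (nat_lit 25118226036) (nat_lit 3) (nat_lit 4) (nat_lit 4) (nat_lit 5) (nat_lit 4) (nat_lit 4) (nat_lit 294) (nat_lit 228) (nat_lit 198))) (XT.nd (nat_lit 78) (nat_lit 0) (nat_lit 0) (XT.lf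 (nat_lit 0) (nat_lit 35644990420) (nat_lit 76) (nat_lit 32127343073) (nat_lit 76) (nat_lit 23005792882) (nat_lit 3) (nat_lit 4) (nat_lit 4) (nat_lit 5) (nat_lit 4) (nat_lit 4) (nat_lit 295) (nat_lit 228) (nat_lit 197)) (XT.nd (nat_lit 78) (nat_lit 0) (nat_lit 0) (XT.lf (nat_lit 0) (nat_lit 47049300059) (nat_lit 76) (nat_lit 29973001438) (nat_lit 76) (nat_lit 20782978100) (nat_lit 3) (nat_lit 4) (nat_lit 4) (nat_lit 5) (nat_lit 4) (nat_lit 4) (nat_lit 296) (nat_lit 228) (nat_lit 196)) (XT.lf (nat_lit 0) (nat_lit 59270583331) (nat_lit 76) (nat_lit 27690033854) (nat_lit 76) (nat_lit 18436609454) (nat_lit 3) (nat_lit 4) (nat_lit 4) (nat_lit 5) (nat_lit 4) (nat_lit 4) (nat_lit 297) (nat_lit 228) (nat_lit 195))))))))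
noncomputable def xc26 : XT := (XT.nd (nat_lit 1482) (nat_lit 0) (nat_lit 0) (XT.nd (nat_lit 702) (nat_lit 0) (nat_lit 0) (XT.nd (nat_lit 312) (nat_lit 152) (nat_lit 0) (XT.nd (nat_lit 156) (nat_lit 0) (nat_lit 0) (XT.nd (nat_lit 78) (nat_lit 0) (nat_lit 0) (XT.lf (nat_lit 0) (nat_lit 72381262654) (nat_lit 76) (nat_lit 25264911624) (nat_lit 76) (nat_lit 15952782537) (nat_lit 3) (nat_lit 4) (nat_lit 4) (nat_lit 5) (nat_lit 4) (nat_lit 4) (nat_lit 298) (nat_lit 228) (nat_lit 194)) (XT.lf (nat_lit 0) (nat_lit 86459030945) (nat_lit 76) (nat_lit 22683263654) (nat_lit 76) (nat_lit 13316778375) (nat_lit 3) (nat_lit 4) (nat_lit 4) (nat_lit 5) (nat_lit 4) (nat_lit 4) (nat_lit 299) (nat_lit 228) (nat_lit 193))) (XT.nd (nat_lit 78) (nat_lit 0) (nat_lit 0) (XT.lf (nat_lit 0) (nat_lit 101587312013) (nat_lit 76) (nat_lit 19929791289) (nat_lit 76) (nat_lit 10512976202) (nat_lit 3) (nat_lit 4) (nat_lit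 4) (nat_lit 5) (nat_lit 4) (nat_lit 4) (nat_lit 300) (nat_lit 228) (nat_lit 192)) (XT.lf (nat_lit 0) (nat_lit 117855754934) (nat_lit 76) (nat_lit 16988177655) (nat_lit 76) (nat_lit 7524760894) (nat_lit 3) (nat_lit 4) (nat_lit 4) (nat_lit 5) (nat_lit 4) (nat_lit 4) (nat_lit 301) (nat_lit 228) (nat_lit 191)))) (XT.nd (nat_lit 156) (nat_lit 152) (nat_lit 0) (XT.nd (nat_lit 78) (nat_lit 0) (nat_lit 0) (XT.lf (nat_lit 0) (nat_lit 135360765293) (nat_lit 76) (nat_lit 13840990968) (nat_lit 76) (nat_lit 4334424510) (nat_lit 3) (nat_lit 4) (nat_lit 4) (nat_lit 5) (nat_lit 4) (nat_lit 4) (nat_lit 302) (nat_lit 228) (nat_lit 190)) (XT.lf (nat_lit 0) (nat_lit 154206076487) (nat_lit 76) (nat_lit 10469581233) (nat_lit 76) (nat_lit 923061351) (nat_lit 3) (nat_lit 4) (nat_lit 4) (nat_lit 5) (nat_lit 4) (nat_lit 4) (nat_lit 303) (nat_lit 228) (nat_lit 189))) (XT.nd (nat_lit 78) (nat_lit 76) (nat_lit 0)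 (XT.lf (nat_lit 0) (nat_lit 2642181610) (nat_lit 152) (nat_lit 4167041491) (nat_lit 76) (nat_lit 171816436198) (nat_lit 2) (nat_lit 5) (nat_lit 4) (nat_lit 5) (nat_lit 3) (nat_lit 4) (nat_lit 304) (nat_lit 228) (nat_lit 188)) (XT.nd (nat_lit 78) (nat_lit 0) (nat_lit 0) (XT.lf (nat_lit 0) (nat_lit 3686551228) (nat_lit 76) (nat_lit 2803360304) (nat_lit 152) (nat_lit 186202626356) (nat_lit 1) (nat_lit 5) (nat_lit 2) (nat_lit 5) (nat_lit 3) (nat_lit 4) (nat_lit 305) (nat_lit 228) (nat_lit 187)) (XT.lf (nat_lit 0) (nat_lit 10715589508) (nat_lit 152) (nat_lit 195640084387) (nat_lit 0) (nat_lit 1525605002) (nat_lit 1) (nat_lit 5) (nat_lit 3) (nat_lit 4) (nat_lit 1) (nat_lit 4) (nat_lit 306) (nat_lit 228) (nat_lit 186)))))) (XT.nd (nat_lit 390) (nat_lit 0) (nat_lit 0) (XT.nd (nat_lit 156) (nat_lit 0) (nat_lit 0) (XT.nd (nat_lit 78) (nat_lit 0) (nat_lit 0) (XT.lf (nat_lit 0) (nat_lit 15301197678)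 (nat_lit 152) (nat_lit 202899600308) (nat_lit 0) (nat_lit 6083244640) (nat_lit 1) (nat_lit 5) (nat_lit 3) (nat_lit 4) (nat_lit 1) (nat_lit 4) (nat_lit 307) (nat_lit 228) (nat_lit 185)) (XT.lf (nat_lit 0) (nat_lit 20230141708) (nat_lit 152) (nat_lit 210783785465) (nat_lit 0) (nat_lit 10986291880) (nat_lit 1) (nat_lit 5) (nat_lit 3) (nat_lit 4) (nat_lit 1) (nat_lit 4) (nat_lit 308) (nat_lit 228) (nat_lit 184))) (XT.nd (nat_lit 78) (nat_lit 0) (nat_lit 0) (XT.lf (nat_lit 0) (nat_lit 25531630154) (nat_lit 152) (nat_lit 219339360956) (nat_lit 0) (nat_lit 16263801818) (nat_lit 1) (nat_lit 5) (nat_lit 3) (nat_lit 4) (nat_lit 1) (nat_lit 4) (nat_lit 309) (nat_lit 228) (nat_lit 183)) (XT.nd (nat_lit 78) (nat_lit 0) (nat_lit 0) (XT.lf (nat_lit 0) (nat_lit 31237079244) (nat_lit 152) (nat_lit 228617026487) (nat_lit 0) (nat_lit 21947048585) (nat_lit 1) (nat_lit 5) (nat_lit 3) (nat_lit 4) (nat_lit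 1) (nat_lit 4) (nat_lit 310) (nat_lit 228) (nat_lit 182)) (XT.lf (nat_lit 0) (nat_lit 37380299047) (nat_lit 152) (nat_lit 238671760817) (nat_lit 0) (nat_lit 28069710682) (nat_lit 1) (nat_lit 5) (nat_lit 3) (nat_lit 4) (nat_lit 1) (nat_lit 4) (nat_lit 311) (nat_lit 228) (nat_lit 181))))) (XT.nd (nat_lit 156) (nat_lit 0) (nat_lit 0) (XT.nd (nat_lit 78) (nat_lit 0) (nat_lit 0) (XT.lf (nat_lit 0) (nat_lit 43997693829) (nat_lit 152) (nat_lit 249563147557) (nat_lit 0) (nat_lit 34668070550) (nat_lit 1) (nat_lit 5) (nat_lit 3) (nat_lit 4) (nat_lit 1) (nat_lit 4) (nat_lit 312) (nat_lit 228) (nat_lit 180)) (XT.lf (nat_lit 0) (nat_lit 51128477781) (nat_lit 152) (nat_lit 261355728259) (nat_lit 0) (nat_lit 41781229582) (nat_lit 1) (nat_lit 5) (nat_lit 3) (nat_lit 4) (nat_lit 1) (nat_lit 4) (nat_lit 313) (nat_lit 228) (nat_lit 179))) (XT.nd (nat_lit 78) (nat_lit 0) (nat_lit 0) (XT.lf (nat_lit 0) (nat_lit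 58814907399) (nat_lit 152) (nat_lit 274119384880) (nat_lit 0) (nat_lit 49451339831) (nat_lit 1) (nat_lit 5) (nat_lit 3) (nat_lit 4) (nat_lit 1) (nat_lit 4) (nat_lit 314) (nat_lit 228) (nat_lit 178)) (XT.nd (nat_lit 78) (nat_lit 0) (nat_lit 0) (XT.lf (nat_lit 0) (nat_lit 67102531898) (nat_lit 152) (nat_lit 287929753907) (nat_lit 0) (nat_lit 57723853801) (nat_lit 1) (nat_lit 5) (nat_lit 3) (nat_lit 4) (nat_lit 1) (nat_lit 4) (nat_lit 315) (nat_lit 228) (nat_lit 177)) (XT.lf (nat_lit 0) (nat_lit 76040463125) (nat_lit 152) (nat_lit 302868674561) (nat_lit 0) (nat_lit 66647793799) (nat_lit 1) (nat_lit 5) (nat_lit 3) (nat_lit 4) (nat_lit 1) (nat_lit 4) (nat_lit 316) (nat_lit 228) (nat_lit 176))))))) (XT.nd (nat_lit 33228) (nat_lit 0) (nat_lit 912) (XT.nd (nat_lit 312) (nat_lit 0) (nat_lit 0) (XT.nd (nat_lit 156) (nat_lit 0) (nat_lit 0) (XT.nd (nat_lit 78) (nat_lit 0) (nat_lit 0) (XT.lf (nat_lit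 0) (nat_lit 85681666599) (nat_lit 152) (nat_lit 319024673781) (nat_lit 0) (nat_lit 76276042431) (nat_lit 1) (nat_lit 5) (nat_lit 3) (nat_lit 4) (nat_lit 1) (nat_lit 4) (nat_lit 317) (nat_lit 228) (nat_lit 175)) (XT.lf (nat_lit 0) (nat_lit 96083275378) (nat_lit 152) (nat_lit 336493490821) (nat_lit 0) (nat_lit 86665655986) (nat_lit 1) (nat_lit 5) (nat_lit 3) (nat_lit 4) (nat_lit 1) (nat_lit 4) (nat_lit 318) (nat_lit 228) (nat_lit 174))) (XT.nd (nat_lit 78) (nat_lit 0) (nat_lit 0) (XT.lf (nat_lit 0) (nat_lit 107306928625) (nat_lit 152) (nat_lit 355378644597) (nat_lit 0) (nat_lit 97878202543) (nat_lit 1) (nat_lit 5) (nat_lit 3) (nat_lit 4) (nat_lit 1) (nat_lit 4) (nat_lit 319) (nat_lit 228) (nat_lit 173)) (XT.lf (nat_lit 0) (nat_lit 119419136877) (nat_lit 152) (nat_lit 375792047131) (nat_lit 0) (nat_lit 109980126824) (nat_lit 1) (nat_lit 5) (nat_lit 3) (nat_lit 4) (nat_lit 1) (nat_lit 4)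 (nat_lit 320) (nat_lit 228) (nat_lit 172)))) (XT.nd (nat_lit 156) (nat_lit 0) (nat_lit 0) (XT.nd (nat_lit 78) (nat_lit 0) (nat_lit 0) (XT.lf (nat_lit 0) (nat_lit 132491676184) (nat_lit 152) (nat_lit 397854666734) (nat_lit 0) (nat_lit 123043143935) (nat_lit 1) (nat_lit 5) (nat_lit 3) (nat_lit 4) (nat_lit 1) (nat_lit 4) (nat_lit 321) (nat_lit 228) (nat_lit 171)) (XT.lf (nat_lit 0) (nat_lit 146602013445) (nat_lit 152) (nat_lit 421697244857) (nat_lit 0) (nat_lit 137144664348) (nat_lit 1) (nat_lit 5) (nat_lit 3) (nat_lit 4) (nat_lit 1) (nat_lit 4) (nat_lit 322) (nat_lit 228) (nat_lit 170))) (XT.nd (nat_lit 78) (nat_lit 0) (nat_lit 0) (XT.lf (nat_lit 0) (nat_lit 161833765473) (nat_lit 152) (nat_lit 447461070851) (nat_lit 0) (nat_lit 152368252628) (nat_lit 1) (nat_lit 5) (nat_lit 3) (nat_lit 4) (nat_lit 1) (nat_lit 4) (nat_lit 323) (nat_lit 228) (nat_lit 169)) (XT.nd (nat_lit 78) (nat_lit 0)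 (nat_lit 0) (XT.lf (nat_lit 0) (nat_lit 178277194503) (nat_lit 152) (nat_lit 475298819240) (nat_lit 0) (nat_lit 168804122632) (nat_lit 1) (nat_lit 5) (nat_lit 3) (nat_lit 4) (nat_lit 1) (nat_lit 4) (nat_lit 324) (nat_lit 228) (nat_lit 168)) (XT.lf (nat_lit 0) (nat_lit 196029743077) (nat_lit 152) (nat_lit 505375454459) (nat_lit 0) (nat_lit 186549672108) (nat_lit 1) (nat_lit 5) (nat_lit 3) (nat_lit 4) (nat_lit 1) (nat_lit 4) (nat_lit 325) (nat_lit 228) (nat_lit 167)))))) (XT.nd (nat_lit 390) (nat_lit 608) (nat_lit 0) (XT.nd (nat_lit 156) (nat_lit 304) (nat_lit 0) (XT.nd (nat_lit 78) (nat_lit 228) (nat_lit 0) (XT.lf (nat_lit 0) (nat_lit 2086355308) (nat_lit 152) (nat_lit 1679937160) (nat_lit 152) (nat_lit 1679937160) (nat_lit 28) (nat_lit 4) (nat_lit 30) (nat_lit 5) (nat_lit 30) (nat_lit 4) (nat_lit 262) (nat_lit 229) (nat_lit 229)) (XT.lf (nat_lit 0) (nat_lit 2473877314) (nat_lit 228) (nat_lit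 7525852370) (nat_lit 0) (nat_lit 1396875930) (nat_lit 25) (nat_lit 5) (nat_lit 28) (nat_lit 4) (nat_lit 25) (nat_lit 4) (nat_lit 263) (nat_lit 229) (nat_lit 228))) (XT.nd (nat_lit 78) (nat_lit 152) (nat_lit 0) (XT.lf (nat_lit 0) (nat_lit 3028063006) (nat_lit 152) (nat_lit 5495870133) (nat_lit 152) (nat_lit 3421645247) (nat_lit 23) (nat_lit 4) (nat_lit 25) (nat_lit 5) (nat_lit 25) (nat_lit 4) (nat_lit 264) (nat_lit 229) (nat_lit 227)) (XT.nd (nat_lit 78) (nat_lit 0) (nat_lit 0) (XT.lf (nat_lit 0) (nat_lit 1619288718) (nat_lit 76) (nat_lit 632842355) (nat_lit 152) (nat_lit 10294250672) (nat_lit 21) (nat_lit 5) (nat_lit 22) (nat_lit 5) (nat_lit 23) (nat_lit 4) (nat_lit 265) (nat_lit 229) (nat_lit 226)) (XT.lf (nat_lit 0) (nat_lit 8160402691) (nat_lit 152) (nat_lit 546201823) (nat_lit 0) (nat_lit 4491318497) (nat_lit 21) (nat_lit 5) (nat_lit 23) (nat_lit 4) (nat_lit 21) (nat_lit 4) (nat_lit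 266) (nat_lit 229) (nat_lit 225))))) (XT.nd (nat_lit 156) (nat_lit 304) (nat_lit 0) (XT.nd (nat_lit 78) (nat_lit 76) (nat_lit 0) (XT.lf (nat_lit 0) (nat_lit 484444872) (nat_lit 228) (nat_lit 3429903793) (nat_lit 76) (nat_lit 9993923402) (nat_lit 18) (nat_lit 5) (nat_lit 21) (nat_lit 5) (nat_lit 19) (nat_lit 4) (nat_lit 267) (nat_lit 229) (nat_lit 224)) (XT.lf (nat_lit 0) (nat_lit 6122546251) (nat_lit 152) (nat_lit 7311332368) (nat_lit 0) (nat_lit 1245307597) (nat_lit 17) (nat_lit 5) (nat_lit 19) (nat_lit 4) (nat_lit 17) (nat_lit 4) (nat_lit 268) (nat_lit 229) (nat_lit 223))) (XT.nd (nat_lit 78) (nat_lit 152) (nat_lit 0) (XT.lf (nat_lit 0) (nat_lit 3196404525) (nat_lit 152) (nat_lit 8906998362) (nat_lit 152) (nat_lit 3414164642) (nat_lit 15) (nat_lit 4) (nat_lit 17) (nat_lit 5) (nat_lit 17) (nat_lit 4) (nat_lit 269) (nat_lit 229) (nat_lit 222)) (XT.nd (nat_lit 78) (nat_lit 76) (nat_lit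 0) (XT.lf (nat_lit 0) (nat_lit 1924867993) (nat_lit 228) (nat_lit 2116849764) (nat_lit 76) (nat_lit 12387283639) (nat_lit 14) (nat_lit 5) (nat_lit 17) (nat_lit 5) (nat_lit 15) (nat_lit 4) (nat_lit 270) (nat_lit 229) (nat_lit 221)) (XT.lf (nat_lit 0) (nat_lit 7472574558) (nat_lit 152) (nat_lit 8747418260) (nat_lit 0) (nat_lit 1195810084) (nat_lit 13) (nat_lit 5) (nat_lit 15) (nat_lit 4) (nat_lit 13) (nat_lit 4) (nat_lit 271) (nat_lit 229) (nat_lit 220))))))))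
noncomputable def xc27 : XT := (XT.nd (nat_lit 1482) (nat_lit 228) (nat_lit 0) (XT.nd (nat_lit 702) (nat_lit 228) (nat_lit 0) (XT.nd (nat_lit 312) (nat_lit 228) (nat_lit 0) (XT.nd (nat_lit 156) (nat_lit 152) (nat_lit 0) (XT.nd (nat_lit 78) (nat_lit 0) (nat_lit 0) (XT.lf (nat_lit 0) (nat_lit 1463944441) (nat_lit 76) (nat_lit 11882961865) (nat_lit 76) (nat_lit 5140788618) (nat_lit 12) (nat_lit 4) (nat_lit 13) (nat_lit 5) (nat_lit 13) (nat_lit 4) (nat_lit 272) (nat_lit 229) (nat_lit 219)) (XT.lf (nat_lit 0) (nat_lit 12396637285) (nat_lit 76) (nat_lit 7213073789) (nat_lit 76) (nat_lit 39966494) (nat_lit 12) (nat_lit 4) (nat_lit 13) (nat_lit 5) (nat_lit 13) (nat_lit 4) (nat_lit 273) (nat_lit 229) (nat_lit 218))) (XT.nd (nat_lit 78) (nat_lit 0) (nat_lit 0) (XT.lf (nat_lit 0) (nat_lit 2922224094) (nat_lit 76) (nat_lit 2196968294) (nat_lit 152) (nat_lit 15790125846) (nat_lit 10) (nat_lit 5) (nat_lit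 11) (nat_lit 5) (nat_lit 12) (nat_lit 4) (nat_lit 274) (nat_lit 229) (nat_lit 217)) (XT.lf (nat_lit 0) (nat_lit 10656170830) (nat_lit 152) (nat_lit 8522654698) (nat_lit 0) (nat_lit 3092764362) (nat_lit 10) (nat_lit 5) (nat_lit 12) (nat_lit 4) (nat_lit 10) (nat_lit 4) (nat_lit 275) (nat_lit 229) (nat_lit 216)))) (XT.nd (nat_lit 156) (nat_lit 152) (nat_lit 0) (XT.nd (nat_lit 78) (nat_lit 0) (nat_lit 0) (XT.lf (nat_lit 0) (nat_lit 1356486900) (nat_lit 76) (nat_lit 15141338557) (nat_lit 76) (nat_lit 7252132717) (nat_lit 9) (nat_lit 4) (nat_lit 10) (nat_lit 5) (nat_lit 10) (nat_lit 4) (nat_lit 276) (nat_lit 229) (nat_lit 215)) (XT.lf (nat_lit 0) (nat_lit 11996636397) (nat_lit 76) (nat_lit 10771476178) (nat_lit 76) (nat_lit 2580604253) (nat_lit 9) (nat_lit 4) (nat_lit 10) (nat_lit 5) (nat_lit 10) (nat_lit 4) (nat_lit 277) (nat_lit 229) (nat_lit 214))) (XT.nd (nat_lit 78) (nat_lit 76) (nat_lit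 0) (XT.lf (nat_lit 0) (nat_lit 2209459473) (nat_lit 152) (nat_lit 3940800455) (nat_lit 76) (nat_lit 20932171339) (nat_lit 8) (nat_lit 5) (nat_lit 10) (nat_lit 5) (nat_lit 9) (nat_lit 4) (nat_lit 278) (nat_lit 229) (nat_lit 213)) (XT.nd (nat_lit 78) (nat_lit 0) (nat_lit 0) (XT.lf (nat_lit 0) (nat_lit 6082947473) (nat_lit 76) (nat_lit 1142306133) (nat_lit 152) (nat_lit 21730978952) (nat_lit 7) (nat_lit 5) (nat_lit 8) (nat_lit 5) (nat_lit 9) (nat_lit 4) (nat_lit 279) (nat_lit 229) (nat_lit 212)) (XT.lf (nat_lit 0) (nat_lit 12621257942) (nat_lit 152) (nat_lit 14279848327) (nat_lit 0) (nat_lit 4080024908) (nat_lit 7) (nat_lit 5) (nat_lit 9) (nat_lit 4) (nat_lit 7) (nat_lit 4) (nat_lit 280) (nat_lit 229) (nat_lit 211)))))) (XT.nd (nat_lit 390) (nat_lit 76) (nat_lit 0) (XT.nd (nat_lit 156) (nat_lit 76) (nat_lit 0) (XT.nd (nat_lit 78) (nat_lit 76) (nat_lit 0) (XT.lf (nat_lit 0) (nat_lit 18322432208)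 (nat_lit 152) (nat_lit 5282020809) (nat_lit 0) (nat_lit 9570024337) (nat_lit 7) (nat_lit 5) (nat_lit 9) (nat_lit 4) (nat_lit 7) (nat_lit 4) (nat_lit 281) (nat_lit 229) (nat_lit 210)) (XT.lf (nat_lit 0) (nat_lit 4329937571) (nat_lit 76) (nat_lit 20082391428) (nat_lit 76) (nat_lit 11134451301) (nat_lit 6) (nat_lit 4) (nat_lit 7) (nat_lit 5) (nat_lit 7) (nat_lit 4) (nat_lit 282) (nat_lit 229) (nat_lit 209))) (XT.nd (nat_lit 78) (nat_lit 76) (nat_lit 0) (XT.lf (nat_lit 0) (nat_lit 14665807628) (nat_lit 76) (nat_lit 16286995338) (nat_lit 76) (nat_lit 7158006825) (nat_lit 6) (nat_lit 4) (nat_lit 7) (nat_lit 5) (nat_lit 7) (nat_lit 4) (nat_lit 283) (nat_lit 229) (nat_lit 208)) (XT.nd (nat_lit 78) (nat_lit 76) (nat_lit 0) (XT.lf (nat_lit 0) (nat_lit 25612191499) (nat_lit 76) (nat_lit 12285227088) (nat_lit 76) (nat_lit 2988601181) (nat_lit 6) (nat_lit 4) (nat_lit 7) (nat_lit 5) (nat_lit 7) (nat_lit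 4) (nat_lit 284) (nat_lit 229) (nat_lit 207)) (XT.lf (nat_lit 0) (nat_lit 1353713342) (nat_lit 152) (nat_lit 6676733364) (nat_lit 76) (nat_lit 35857317511) (nat_lit 5) (nat_lit 5) (nat_lit 7) (nat_lit 5) (nat_lit 6) (nat_lit 4) (nat_lit 285) (nat_lit 229) (nat_lit 206))))) (XT.nd (nat_lit 156) (nat_lit 0) (nat_lit 0) (XT.nd (nat_lit 78) (nat_lit 0) (nat_lit 0) (XT.lf (nat_lit 0) (nat_lit 2447047834) (nat_lit 76) (nat_lit 3427398797) (nat_lit 152) (nat_lit 41256049291) (nat_lit 4) (nat_lit 5) (nat_lit 5) (nat_lit 5) (nat_lit 6) (nat_lit 4) (nat_lit 286) (nat_lit 229) (nat_lit 205)) (XT.lf (nat_lit 0) (nat_lit 10798882534) (nat_lit 152) (nat_lit 38298231990) (nat_lit 0) (nat_lit 1533507554) (nat_lit 4) (nat_lit 5) (nat_lit 6) (nat_lit 4) (nat_lit 4) (nat_lit 4) (nat_lit 287) (nat_lit 229) (nat_lit 204))) (XT.nd (nat_lit 78) (nat_lit 0) (nat_lit 0) (XT.lf (nat_lit 0) (nat_lit 16082221473)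 (nat_lit 152) (nat_lit 31630866216) (nat_lit 0) (nat_lit 6699495551) (nat_lit 4) (nat_lit 5) (nat_lit 6) (nat_lit 4) (nat_lit 4) (nat_lit 4) (nat_lit 288) (nat_lit 229) (nat_lit 203)) (XT.nd (nat_lit 78) (nat_lit 0) (nat_lit 0) (XT.lf (nat_lit 0) (nat_lit 21702260822) (nat_lit 152) (nat_lit 24588329151) (nat_lit 0) (nat_lit 12210876621) (nat_lit 4) (nat_lit 5) (nat_lit 6) (nat_lit 4) (nat_lit 4) (nat_lit 4) (nat_lit 289) (nat_lit 229) (nat_lit 202)) (XT.lf (nat_lit 0) (nat_lit 27692304520) (nat_lit 152) (nat_lit 17128887243) (nat_lit 0) (nat_lit 18100310801) (nat_lit 4) (nat_lit 5) (nat_lit 6) (nat_lit 4) (nat_lit 4) (nat_lit 4) (nat_lit 290) (nat_lit 229) (nat_lit 201))))))) (XT.nd (nat_lit 780) (nat_lit 152) (nat_lit 0) (XT.nd (nat_lit 390) (nat_lit 0) (nat_lit 0) (XT.nd (nat_lit 156) (nat_lit 76) (nat_lit 0) (XT.nd (nat_lit 78) (nat_lit 0) (nat_lit 0) (XT.lf (nat_lit 0) (nat_lit 34087849121)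 (nat_lit 152) (nat_lit 9208336391) (nat_lit 0) (nat_lit 24402698441) (nat_lit 4) (nat_lit 5) (nat_lit 6) (nat_lit 4) (nat_lit 4) (nat_lit 4) (nat_lit 291) (nat_lit 229) (nat_lit 200)) (XT.lf (nat_lit 0) (nat_lit 40926794149) (nat_lit 152) (nat_lit 779739997) (nat_lit 0) (nat_lit 31155387023) (nat_lit 4) (nat_lit 5) (nat_lit 6) (nat_lit 4) (nat_lit 4) (nat_lit 4) (nat_lit 292) (nat_lit 229) (nat_lit 199))) (XT.nd (nat_lit 78) (nat_lit 0) (nat_lit 0) (XT.lf (nat_lit 0) (nat_lit 8478204672) (nat_lit 76) (nat_lit 39903830548) (nat_lit 76) (nat_lit 30052556343) (nat_lit 3) (nat_lit 4) (nat_lit 4) (nat_lit 5) (nat_lit 4) (nat_lit 4) (nat_lit 293) (nat_lit 229) (nat_lit 198)) (XT.nd (nat_lit 78) (nat_lit 0) (nat_lit 0) (XT.lf (nat_lit 0) (nat_lit 18393388284) (nat_lit 76) (nat_lit 37993645585) (nat_lit 76) (nat_lit 28068420380) (nat_lit 3) (nat_lit 4) (nat_lit 4) (nat_lit 5) (nat_lit 4) (nat_lit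 4) (nat_lit 294) (nat_lit 229) (nat_lit 197)) (XT.lf (nat_lit 0) (nat_lit 28998785755) (nat_lit 76) (nat_lit 35977864917) (nat_lit 76) (nat_lit 25984166565) (nat_lit 3) (nat_lit 4) (nat_lit 4) (nat_lit 5) (nat_lit 4) (nat_lit 4) (nat_lit 295) (nat_lit 229) (nat_lit 196))))) (XT.nd (nat_lit 156) (nat_lit 0) (nat_lit 0) (XT.nd (nat_lit 78) (nat_lit 0) (nat_lit 0) (XT.lf (nat_lit 0) (nat_lit 40357243885) (nat_lit 76) (nat_lit 33844543177) (nat_lit 76) (nat_lit 23787443763) (nat_lit 3) (nat_lit 4) (nat_lit 4) (nat_lit 5) (nat_lit 4) (nat_lit 4) (nat_lit 296) (nat_lit 229) (nat_lit 195)) (XT.lf (nat_lit 0) (nat_lit 52536072056) (nat_lit 76) (nat_lit 31581038459) (nat_lit 76) (nat_lit 21465234357) (nat_lit 3) (nat_lit 4) (nat_lit 4) (nat_lit 5) (nat_lit 4) (nat_lit 4) (nat_lit 297) (nat_lit 229) (nat_lit 194))) (XT.nd (nat_lit 78) (nat_lit 0) (nat_lit 0) (XT.lf (nat_lit 0) (nat_lit 65607441101)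 (nat_lit 76) (nat_lit 29173937401) (nat_lit 76) (nat_lit 19003777108) (nat_lit 3) (nat_lit 4) (nat_lit 4) (nat_lit 5) (nat_lit 4) (nat_lit 4) (nat_lit 298) (nat_lit 229) (nat_lit 193)) (XT.nd (nat_lit 78) (nat_lit 0) (nat_lit 0) (XT.lf (nat_lit 0) (nat_lit 79648810985) (nat_lit 76) (nat_lit 26608975702) (nat_lit 76) (nat_lit 16388485600) (nat_lit 3) (nat_lit 4) (nat_lit 4) (nat_lit 5) (nat_lit 4) (nat_lit 4) (nat_lit 299) (nat_lit 229) (nat_lit 192)) (XT.lf (nat_lit 0) (nat_lit 94743389826) (nat_lit 76) (nat_lit 23870953587) (nat_lit 76) (nat_lit 13603861812) (nat_lit 3) (nat_lit 4) (nat_lit 4) (nat_lit 5) (nat_lit 4) (nat_lit 4) (nat_lit 300) (nat_lit 229) (nat_lit 191)))))) (XT.nd (nat_lit 390) (nat_lit 76) (nat_lit 0) (XT.nd (nat_lit 156) (nat_lit 76) (nat_lit 0) (XT.nd (nat_lit 78) (nat_lit 0) (nat_lit 0) (XT.lf (nat_lit 0) (nat_lit 110980626980) (nat_lit 76) (nat_lit 20943645740)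 (nat_lit 76) (nat_lit 10633404267) (nat_lit 3) (nat_lit 4) (nat_lit 4) (nat_lit 5) (nat_lit 4) (nat_lit 4) (nat_lit 301) (nat_lit 229) (nat_lit 190)) (XT.lf (nat_lit 0) (nat_lit 128456743111) (nat_lit 76) (nat_lit 17809705153) (nat_lit 76) (nat_lit 7459510256) (nat_lit 3) (nat_lit 4) (nat_lit 4) (nat_lit 5) (nat_lit 4) (nat_lit 4) (nat_lit 302) (nat_lit 229) (nat_lit 189))) (XT.nd (nat_lit 78) (nat_lit 76) (nat_lit 0) (XT.lf (nat_lit 0) (nat_lit 147275300390) (nat_lit 76) (nat_lit 14450560325) (nat_lit 76) (nat_lit 4063371517) (nat_lit 3) (nat_lit 4) (nat_lit 4) (nat_lit 5) (nat_lit 4) (nat_lit 4) (nat_lit 303) (nat_lit 229) (nat_lit 188)) (XT.nd (nat_lit 78) (nat_lit 76) (nat_lit 0) (XT.lf (nat_lit 0) (nat_lit 167547816192) (nat_lit 76) (nat_lit 10846305212) (nat_lit 76) (nat_lit 424862784) (nat_lit 3) (nat_lit 4) (nat_lit 4) (nat_lit 5) (nat_lit 4) (nat_lit 4) (nat_lit 304) (nat_lit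 229) (nat_lit 187)) (XT.lf (nat_lit 0) (nat_lit 3366273279) (nat_lit 152) (nat_lit 3552298520) (nat_lit 76) (nat_lit 185971141198) (nat_lit 2) (nat_lit 5) (nat_lit 4) (nat_lit 5) (nat_lit 3) (nat_lit 4) (nat_lit 305) (nat_lit 229) (nat_lit 186))))) (XT.nd (nat_lit 156) (nat_lit 0) (nat_lit 0) (XT.nd (nat_lit 78) (nat_lit 0) (nat_lit 0) (XT.lf (nat_lit 0) (nat_lit 4888378073) (nat_lit 76) (nat_lit 2609623769) (nat_lit 152) (nat_lit 200585157923) (nat_lit 1) (nat_lit 5) (nat_lit 2) (nat_lit 5) (nat_lit 3) (nat_lit 4) (nat_lit 306) (nat_lit 229) (nat_lit 185)) (XT.lf (nat_lit 0) (nat_lit 12031562244) (nat_lit 152) (nat_lit 210434663670) (nat_lit 0) (nat_lit 2022307641) (nat_lit 1) (nat_lit 5) (nat_lit 3) (nat_lit 4) (nat_lit 1) (nat_lit 4) (nat_lit 307) (nat_lit 229) (nat_lit 184))) (XT.nd (nat_lit 78) (nat_lit 0) (nat_lit 0) (XT.lf (nat_lit 0) (nat_lit 16950039396) (nat_lit 152) (nat_lit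 218338394751) (nat_lit 0) (nat_lit 6916806284) (nat_lit 1) (nat_lit 5) (nat_lit 3) (nat_lit 4) (nat_lit 1) (nat_lit 4) (nat_lit 308) (nat_lit 229) (nat_lit 183)) (XT.nd (nat_lit 78) (nat_lit 0) (nat_lit 0) (XT.lf (nat_lit 0) (nat_lit 22241836288) (nat_lit 152) (nat_lit 226912068319) (nat_lit 0) (nat_lit 12186400854) (nat_lit 1) (nat_lit 5) (nat_lit 3) (nat_lit 4) (nat_lit 1) (nat_lit 4) (nat_lit 309) (nat_lit 229) (nat_lit 182)) (XT.lf (nat_lit 0) (nat_lit 27938311718) (nat_lit 152) (nat_lit 236206491329) (nat_lit 0) (nat_lit 17862318577) (nat_lit 1) (nat_lit 5) (nat_lit 3) (nat_lit 4) (nat_lit 1) (nat_lit 4) (nat_lit 310) (nat_lit 229) (nat_lit 181))))))))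
noncomputable def xc28 : XT := (XT.nd (nat_lit 33852) (nat_lit 0) (nat_lit 456) (XT.nd (nat_lit 702) (nat_lit 0) (nat_lit 0) (XT.nd (nat_lit 312) (nat_lit 0) (nat_lit 0) (XT.nd (nat_lit 156) (nat_lit 0) (nat_lit 0) (XT.nd (nat_lit 78) (nat_lit 0) (nat_lit 0) (XT.lf (nat_lit 0) (nat_lit 34073222576) (nat_lit 152) (nat_lit 246276741844) (nat_lit 0) (nat_lit 23978194522) (nat_lit 1) (nat_lit 5) (nat_lit 3) (nat_lit 4) (nat_lit 1) (nat_lit 4) (nat_lit 311) (nat_lit 229) (nat_lit 180)) (XT.lf (nat_lit 0) (nat_lit 40682923890) (nat_lit 152) (nat_lit 257182495422) (nat_lit 0) (nat_lit 30570270916) (nat_lit 1) (nat_lit 5) (nat_lit 3) (nat_lit 4) (nat_lit 1) (nat_lit 4) (nat_lit 312) (nat_lit 229) (nat_lit 179))) (XT.nd (nat_lit 78) (nat_lit 0) (nat_lit 0) (XT.lf (nat_lit 0) (nat_lit 47806584260) (nat_lit 152) (nat_lit 268988378750) (nat_lit 0) (nat_lit 37677611916) (nat_lit 1) (nat_lit 5) (nat_lit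 3) (nat_lit 4) (nat_lit 1) (nat_lit 4) (nat_lit 313) (nat_lit 229) (nat_lit 178)) (XT.lf (nat_lit 0) (nat_lit 55486417971) (nat_lit 152) (nat_lit 281764352619) (nat_lit 0) (nat_lit 45342335098) (nat_lit 1) (nat_lit 5) (nat_lit 3) (nat_lit 4) (nat_lit 1) (nat_lit 4) (nat_lit 314) (nat_lit 229) (nat_lit 177)))) (XT.nd (nat_lit 156) (nat_lit 0) (nat_lit 0) (XT.nd (nat_lit 78) (nat_lit 0) (nat_lit 0) (XT.lf (nat_lit 0) (nat_lit 63767935146) (nat_lit 152) (nat_lit 295586126504) (nat_lit 0) (nat_lit 53609861045) (nat_lit 1) (nat_lit 5) (nat_lit 3) (nat_lit 4) (nat_lit 1) (nat_lit 4) (nat_lit 315) (nat_lit 229) (nat_lit 176)) (XT.lf (nat_lit 0) (nat_lit 72700211445) (nat_lit 152) (nat_lit 310535607213) (nat_lit 0) (nat_lit 62529182501) (nat_lit 1) (nat_lit 5) (nat_lit 3) (nat_lit 4) (nat_lit 1) (nat_lit 4) (nat_lit 316) (nat_lit 229) (nat_lit 175))) (XT.nd (nat_lit 78) (nat_lit 0) (nat_lit 0)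 (XT.lf (nat_lit 0) (nat_lit 82336178875) (nat_lit 152) (nat_lit 326701384261) (nat_lit 0) (nat_lit 72153154706) (nat_lit 1) (nat_lit 5) (nat_lit 3) (nat_lit 4) (nat_lit 1) (nat_lit 4) (nat_lit 317) (nat_lit 229) (nat_lit 174)) (XT.nd (nat_lit 78) (nat_lit 0) (nat_lit 0) (XT.lf (nat_lit 0) (nat_lit 92732939464) (nat_lit 152) (nat_lit 344179254846) (nat_lit 0) (nat_lit 82538808606) (nat_lit 1) (nat_lit 5) (nat_lit 3) (nat_lit 4) (nat_lit 1) (nat_lit 4) (nat_lit 318) (nat_lit 229) (nat_lit 173)) (XT.lf (nat_lit 0) (nat_lit 103952103646) (nat_lit 152) (nat_lit 363072791533) (nat_lit 0) (nat_lit 93747688817) (nat_lit 1) (nat_lit 5) (nat_lit 3) (nat_lit 4) (nat_lit 1) (nat_lit 4) (nat_lit 319) (nat_lit 229) (nat_lit 172)))))) (XT.nd (nat_lit 390) (nat_lit 0) (nat_lit 0) (XT.nd (nat_lit 156) (nat_lit 0) (nat_lit 0) (XT.nd (nat_lit 78) (nat_lit 0) (nat_lit 0) (XT.lf (nat_lit 0) (nat_lit 116060155357)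 (nat_lit 152) (nat_lit 383493956022) (nat_lit 0) (nat_lit 105846218333) (nat_lit 1) (nat_lit 5) (nat_lit 3) (nat_lit 4) (nat_lit 1) (nat_lit 4) (nat_lit 320) (nat_lit 229) (nat_lit 171)) (XT.lf (nat_lit 0) (nat_lit 129128846015) (nat_lit 152) (nat_lit 405563762621) (nat_lit 0) (nat_lit 118906092142) (nat_lit 1) (nat_lit 5) (nat_lit 3) (nat_lit 4) (nat_lit 1) (nat_lit 4) (nat_lit 321) (nat_lit 229) (nat_lit 170))) (XT.nd (nat_lit 78) (nat_lit 0) (nat_lit 0) (XT.lf (nat_lit 0) (nat_lit 143235619711) (nat_lit 152) (nat_lit 429412995370) (nat_lit 0) (nat_lit 133004702091) (nat_lit 1) (nat_lit 5) (nat_lit 3) (nat_lit 4) (nat_lit 1) (nat_lit 4) (nat_lit 322) (nat_lit 229) (nat_lit 169)) (XT.nd (nat_lit 78) (nat_lit 0) (nat_lit 0) (XT.lf (nat_lit 0) (nat_lit 158464072143) (nat_lit 152) (nat_lit 455182983054) (nat_lit 0) (nat_lit 148225595497) (nat_lit 1) (nat_lit 5) (nat_lit 3) (nat_lit 4) (nat_lit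 1) (nat_lit 4) (nat_lit 323) (nat_lit 229) (nat_lit 168)) (XT.lf (nat_lit 0) (nat_lit 174904445991) (nat_lit 152) (nat_lit 483026436711) (nat_lit 0) (nat_lit 164658970247) (nat_lit 1) (nat_lit 5) (nat_lit 3) (nat_lit 4) (nat_lit 1) (nat_lit 4) (nat_lit 324) (nat_lit 229) (nat_lit 167))))) (XT.nd (nat_lit 32526) (nat_lit 0) (nat_lit 1824) (XT.nd (nat_lit 32448) (nat_lit 0) (nat_lit 2432) (XT.lf (nat_lit 0) (nat_lit 192654165693) (nat_lit 152) (nat_lit 513108354587) (nat_lit 0) (nat_lit 182402209302) (nat_lit 1) (nat_lit 5) (nat_lit 3) (nat_lit 4) (nat_lit 1) (nat_lit 4) (nat_lit 325) (nat_lit 229) (nat_lit 166)) (XT.lf (nat_lit 0) (nat_lit 1932711740) (nat_lit 228) (nat_lit 1534317882) (nat_lit 228) (nat_lit 1534317882) (nat_lit 33) (nat_lit 4) (nat_lit 36) (nat_lit 5) (nat_lit 36) (nat_lit 4) (nat_lit 260) (nat_lit 230) (nat_lit 230))) (XT.nd (nat_lit 78) (nat_lit 380) (nat_lit 0) (XT.lf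 (nat_lit 0) (nat_lit 2647108682) (nat_lit 228) (nat_lit 6359596611) (nat_lit 0) (nat_lit 1425789113) (nat_lit 30) (nat_lit 5) (nat_lit 33) (nat_lit 4) (nat_lit 30) (nat_lit 4) (nat_lit 261) (nat_lit 230) (nat_lit 229)) (XT.nd (nat_lit 78) (nat_lit 228) (nat_lit 0) (XT.lf (nat_lit 0) (nat_lit 3901710758) (nat_lit 152) (nat_lit 4676031353) (nat_lit 152) (nat_lit 2323860332) (nat_lit 28) (nat_lit 4) (nat_lit 30) (nat_lit 5) (nat_lit 30) (nat_lit 4) (nat_lit 262) (nat_lit 230) (nat_lit 228)) (XT.lf (nat_lit 0) (nat_lit 3279880020) (nat_lit 228) (nat_lit 8092704479) (nat_lit 0) (nat_lit 42493639) (nat_lit 25) (nat_lit 5) (nat_lit 28) (nat_lit 4) (nat_lit 25) (nat_lit 4) (nat_lit 263) (nat_lit 230) (nat_lit 227))))))) (XT.nd (nat_lit 702) (nat_lit 456) (nat_lit 0) (XT.nd (nat_lit 312) (nat_lit 380) (nat_lit 0) (XT.nd (nat_lit 156) (nat_lit 228) (nat_lit 0) (XT.nd (nat_lit 78) (nat_lit 152)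 (nat_lit 0) (XT.lf (nat_lit 0) (nat_lit 2181786760) (nat_lit 152) (nat_lit 6975944716) (nat_lit 152) (nat_lit 2815203240) (nat_lit 23) (nat_lit 4) (nat_lit 25) (nat_lit 5) (nat_lit 25) (nat_lit 4) (nat_lit 264) (nat_lit 230) (nat_lit 226)) (XT.lf (nat_lit 0) (nat_lit 452136634) (nat_lit 76) (nat_lit 2215100698) (nat_lit 152) (nat_lit 9914864878) (nat_lit 21) (nat_lit 5) (nat_lit 22) (nat_lit 5) (nat_lit 23) (nat_lit 4) (nat_lit 265) (nat_lit 230) (nat_lit 225))) (XT.nd (nat_lit 78) (nat_lit 228) (nat_lit 0) (XT.lf (nat_lit 0) (nat_lit 8403398663) (nat_lit 152) (nat_lit 1966463687) (nat_lit 0) (nat_lit 2872610028) (nat_lit 21) (nat_lit 5) (nat_lit 23) (nat_lit 4) (nat_lit 21) (nat_lit 4) (nat_lit 266) (nat_lit 230) (nat_lit 224)) (XT.lf (nat_lit 0) (nat_lit 510656707) (nat_lit 228) (nat_lit 5182027187) (nat_lit 76) (nat_lit 8268473777) (nat_lit 18) (nat_lit 5) (nat_lit 21) (nat_lit 5)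 (nat_lit 19) (nat_lit 4) (nat_lit 267) (nat_lit 230) (nat_lit 223)))) (XT.nd (nat_lit 156) (nat_lit 152) (nat_lit 0) (XT.nd (nat_lit 78) (nat_lit 152) (nat_lit 0) (XT.lf (nat_lit 0) (nat_lit 5352680782) (nat_lit 76) (nat_lit 612162651) (nat_lit 152) (nat_lit 8776606519) (nat_lit 17) (nat_lit 5) (nat_lit 18) (nat_lit 5) (nat_lit 19) (nat_lit 4) (nat_lit 268) (nat_lit 230) (nat_lit 222)) (XT.lf (nat_lit 0) (nat_lit 838471348) (nat_lit 152) (nat_lit 10934020075) (nat_lit 152) (nat_lit 3816169161) (nat_lit 15) (nat_lit 4) (nat_lit 17) (nat_lit 5) (nat_lit 17) (nat_lit 4) (nat_lit 269) (nat_lit 230) (nat_lit 221))) (XT.nd (nat_lit 78) (nat_lit 76) (nat_lit 0) (XT.lf (nat_lit 0) (nat_lit 1412954483) (nat_lit 228) (nat_lit 4749067771) (nat_lit 76) (nat_lit 10344673731) (nat_lit 14) (nat_lit 5) (nat_lit 17) (nat_lit 5) (nat_lit 15) (nat_lit 4) (nat_lit 270) (nat_lit 230) (nat_lit 220)) (XT.nd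 (nat_lit 78) (nat_lit 0) (nat_lit 0) (XT.lf (nat_lit 0) (nat_lit 5769020284) (nat_lit 76) (nat_lit 1013088962) (nat_lit 152) (nat_lit 10720453733) (nat_lit 13) (nat_lit 5) (nat_lit 14) (nat_lit 5) (nat_lit 15) (nat_lit 4) (nat_lit 271) (nat_lit 230) (nat_lit 219)) (XT.lf (nat_lit 0) (nat_lit 12508402794) (nat_lit 152) (nat_lit 1743068935) (nat_lit 0) (nat_lit 4330512868) (nat_lit 13) (nat_lit 5) (nat_lit 15) (nat_lit 4) (nat_lit 13) (nat_lit 4) (nat_lit 272) (nat_lit 230) (nat_lit 218)))))) (XT.nd (nat_lit 390) (nat_lit 152) (nat_lit 0) (XT.nd (nat_lit 156) (nat_lit 152) (nat_lit 0) (XT.nd (nat_lit 78) (nat_lit 76) (nat_lit 0) (XT.lf (nat_lit 0) (nat_lit 8950390124) (nat_lit 76) (nat_lit 9688604463) (nat_lit 76) (nat_lit 1111701529) (nat_lit 12) (nat_lit 4) (nat_lit 13) (nat_lit 5) (nat_lit 13) (nat_lit 4) (nat_lit 273) (nat_lit 230) (nat_lit 217)) (XT.lf (nat_lit 0) (nat_lit 3938061440)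 (nat_lit 152) (nat_lit 873333468) (nat_lit 76) (nat_lit 16207067673) (nat_lit 11) (nat_lit 5) (nat_lit 13) (nat_lit 5) (nat_lit 12) (nat_lit 4) (nat_lit 274) (nat_lit 230) (nat_lit 216))) (XT.nd (nat_lit 78) (nat_lit 76) (nat_lit 0) (XT.lf (nat_lit 0) (nat_lit 9325430591) (nat_lit 152) (nat_lit 12583591734) (nat_lit 0) (nat_lit 479288911) (nat_lit 10) (nat_lit 5) (nat_lit 12) (nat_lit 4) (nat_lit 10) (nat_lit 4) (nat_lit 275) (nat_lit 230) (nat_lit 215)) (XT.nd (nat_lit 78) (nat_lit 76) (nat_lit 0) (XT.lf (nat_lit 0) (nat_lit 15058430894) (nat_lit 152) (nat_lit 2903147594) (nat_lit 0) (nat_lit 5910623129) (nat_lit 10) (nat_lit 5) (nat_lit 12) (nat_lit 4) (nat_lit 10) (nat_lit 4) (nat_lit 276) (nat_lit 230) (nat_lit 214)) (XT.lf (nat_lit 0) (nat_lit 7492477666) (nat_lit 76) (nat_lit 13706100293) (nat_lit 76) (nat_lit 4278972078) (nat_lit 9) (nat_lit 4) (nat_lit 10) (nat_lit 5) (nat_lit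 10) (nat_lit 4) (nat_lit 277) (nat_lit 230) (nat_lit 213))))) (XT.nd (nat_lit 156) (nat_lit 0) (nat_lit 0) (XT.nd (nat_lit 78) (nat_lit 76) (nat_lit 0) (XT.lf (nat_lit 0) (nat_lit 486967592) (nat_lit 152) (nat_lit 8687474697) (nat_lit 76) (nat_lit 18042145105) (nat_lit 8) (nat_lit 5) (nat_lit 10) (nat_lit 5) (nat_lit 9) (nat_lit 4) (nat_lit 278) (nat_lit 230) (nat_lit 212)) (XT.lf (nat_lit 0) (nat_lit 1045221022) (nat_lit 76) (nat_lit 4306218757) (nat_lit 152) (nat_lit 23746582580) (nat_lit 7) (nat_lit 5) (nat_lit 8) (nat_lit 5) (nat_lit 9) (nat_lit 4) (nat_lit 279) (nat_lit 230) (nat_lit 211))) (XT.nd (nat_lit 78) (nat_lit 0) (nat_lit 0) (XT.lf (nat_lit 0) (nat_lit 10627963983) (nat_lit 152) (nat_lit 19536804927) (nat_lit 0) (nat_lit 964188645) (nat_lit 7) (nat_lit 5) (nat_lit 9) (nat_lit 4) (nat_lit 7) (nat_lit 4) (nat_lit 280) (nat_lit 230) (nat_lit 210)) (XT.nd (nat_lit 78) (nat_lit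 0) (nat_lit 0) (XT.lf (nat_lit 0) (nat_lit 16264246962) (nat_lit 152) (nat_lit 10656419900) (nat_lit 0) (nat_lit 6404939369) (nat_lit 7) (nat_lit 5) (nat_lit 9) (nat_lit 4) (nat_lit 7) (nat_lit 4) (nat_lit 281) (nat_lit 230) (nat_lit 209)) (XT.lf (nat_lit 0) (nat_lit 22226456770) (nat_lit 152) (nat_lit 1291789609) (nat_lit 0) (nat_lit 12186100791) (nat_lit 7) (nat_lit 5) (nat_lit 9) (nat_lit 4) (nat_lit 7) (nat_lit 4) (nat_lit 282) (nat_lit 230) (nat_lit 208))))))))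
noncomputable def xc29 : XT := (XT.nd (nat_lit 1482) (nat_lit 152) (nat_lit 0) (XT.nd (nat_lit 702) (nat_lit 76) (nat_lit 0) (XT.nd (nat_lit 312) (nat_lit 76) (nat_lit 0) (XT.nd (nat_lit 156) (nat_lit 76) (nat_lit 0) (XT.nd (nat_lit 78) (nat_lit 0) (nat_lit 0) (XT.lf (nat_lit 0) (nat_lit 8897350841) (nat_lit 76) (nat_lit 19791486760) (nat_lit 76) (nat_lit 9583493387) (nat_lit 6) (nat_lit 4) (nat_lit 7) (nat_lit 5) (nat_lit 7) (nat_lit 4) (nat_lit 283) (nat_lit 230) (nat_lit 207)) (XT.lf (nat_lit 0) (nat_lit 19747422483) (nat_lit 76) (nat_lit 15833014240) (nat_lit 76) (nat_lit 5469801058) (nat_lit 6) (nat_lit 4) (nat_lit 7) (nat_lit 5) (nat_lit 7) (nat_lit 4) (nat_lit 284) (nat_lit 230) (nat_lit 206))) (XT.nd (nat_lit 78) (nat_lit 76) (nat_lit 0) (XT.lf (nat_lit 0) (nat_lit 31280009638) (nat_lit 76) (nat_lit 11641248287) (nat_lit 76) (nat_lit 1134313060) (nat_lit 6) (nat_lit 4) (nat_lit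 7) (nat_lit 5) (nat_lit 7) (nat_lit 4) (nat_lit 285) (nat_lit 230) (nat_lit 205)) (XT.lf (nat_lit 0) (nat_lit 3338283653) (nat_lit 152) (nat_lit 3796529705) (nat_lit 76) (nat_lit 40168634460) (nat_lit 5) (nat_lit 5) (nat_lit 7) (nat_lit 5) (nat_lit 6) (nat_lit 4) (nat_lit 286) (nat_lit 230) (nat_lit 204)))) (XT.nd (nat_lit 156) (nat_lit 0) (nat_lit 0) (XT.nd (nat_lit 78) (nat_lit 0) (nat_lit 0) (XT.lf (nat_lit 0) (nat_lit 5908770832) (nat_lit 76) (nat_lit 2223912346) (nat_lit 152) (nat_lit 42677427385) (nat_lit 4) (nat_lit 5) (nat_lit 5) (nat_lit 5) (nat_lit 6) (nat_lit 4) (nat_lit 287) (nat_lit 230) (nat_lit 203)) (XT.lf (nat_lit 0) (nat_lit 13339970467) (nat_lit 152) (nat_lit 38275318786) (nat_lit 0) (nat_lit 2980617250) (nat_lit 4) (nat_lit 5) (nat_lit 6) (nat_lit 4) (nat_lit 4) (nat_lit 4) (nat_lit 288) (nat_lit 230) (nat_lit 202))) (XT.nd (nat_lit 78) (nat_lit 0) (nat_lit 0) (XT.lf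 (nat_lit 0) (nat_lit 18921741163) (nat_lit 152) (nat_lit 31303213510) (nat_lit 0) (nat_lit 8461778428) (nat_lit 4) (nat_lit 5) (nat_lit 6) (nat_lit 4) (nat_lit 4) (nat_lit 4) (nat_lit 289) (nat_lit 230) (nat_lit 201)) (XT.nd (nat_lit 78) (nat_lit 0) (nat_lit 0) (XT.lf (nat_lit 0) (nat_lit 24876350922) (nat_lit 152) (nat_lit 23908986221) (nat_lit 0) (nat_lit 14323231226) (nat_lit 4) (nat_lit 5) (nat_lit 6) (nat_lit 4) (nat_lit 4) (nat_lit 4) (nat_lit 290) (nat_lit 230) (nat_lit 200)) (XT.lf (nat_lit 0) (nat_lit 31239086320) (nat_lit 152) (nat_lit 16048819276) (nat_lit 0) (nat_lit 20599710179) (nat_lit 4) (nat_lit 5) (nat_lit 6) (nat_lit 4) (nat_lit 4) (nat_lit 4) (nat_lit 291) (nat_lit 230) (nat_lit 199)))))) (XT.nd (nat_lit 390) (nat_lit 0) (nat_lit 0) (XT.nd (nat_lit 156) (nat_lit 0) (nat_lit 0) (XT.nd (nat_lit 78) (nat_lit 76) (nat_lit 0) (XT.lf (nat_lit 0) (nat_lit 38047652457) (nat_lit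 152) (nat_lit 7676133907) (nat_lit 0) (nat_lit 27328409236) (nat_lit 4) (nat_lit 5) (nat_lit 6) (nat_lit 4) (nat_lit 4) (nat_lit 4) (nat_lit 292) (nat_lit 230) (nat_lit 198)) (XT.lf (nat_lit 0) (nat_lit 1300303634) (nat_lit 76) (nat_lit 44062394140) (nat_lit 76) (nat_lit 33269199919) (nat_lit 3) (nat_lit 4) (nat_lit 4) (nat_lit 5) (nat_lit 4) (nat_lit 4) (nat_lit 293) (nat_lit 230) (nat_lit 197))) (XT.nd (nat_lit 78) (nat_lit 0) (nat_lit 0) (XT.lf (nat_lit 0) (nat_lit 11165967616) (nat_lit 76) (nat_lit 42174910663) (nat_lit 76) (nat_lit 31313243296) (nat_lit 3) (nat_lit 4) (nat_lit 4) (nat_lit 5) (nat_lit 4) (nat_lit 4) (nat_lit 294) (nat_lit 230) (nat_lit 196)) (XT.nd (nat_lit 78) (nat_lit 0) (nat_lit 0) (XT.lf (nat_lit 0) (nat_lit 21725513579) (nat_lit 76) (nat_lit 40180149890) (nat_lit 76) (nat_lit 29255081460) (nat_lit 3) (nat_lit 4) (nat_lit 4) (nat_lit 5) (nat_lit 4) (nat_lit 4)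 (nat_lit 295) (nat_lit 230) (nat_lit 195)) (XT.lf (nat_lit 0) (nat_lit 33041516608) (nat_lit 76) (nat_lit 38066291016) (nat_lit 76) (nat_lit 27082517899) (nat_lit 3) (nat_lit 4) (nat_lit 4) (nat_lit 5) (nat_lit 4) (nat_lit 4) (nat_lit 296) (nat_lit 230) (nat_lit 194))))) (XT.nd (nat_lit 156) (nat_lit 0) (nat_lit 0) (XT.nd (nat_lit 78) (nat_lit 0) (nat_lit 0) (XT.lf (nat_lit 0) (nat_lit 45181034500) (nat_lit 76) (nat_lit 35820807470) (nat_lit 76) (nat_lit 24782678161) (nat_lit 3) (nat_lit 4) (nat_lit 4) (nat_lit 5) (nat_lit 4) (nat_lit 4) (nat_lit 297) (nat_lit 230) (nat_lit 193)) (XT.lf (nat_lit 0) (nat_lit 58216005139) (nat_lit 76) (nat_lit 33430392683) (nat_lit 76) (nat_lit 22341933566) (nat_lit 3) (nat_lit 4) (nat_lit 4) (nat_lit 5) (nat_lit 4) (nat_lit 4) (nat_lit 298) (nat_lit 230) (nat_lit 192))) (XT.nd (nat_lit 78) (nat_lit 0) (nat_lit 0) (XT.lf (nat_lit 0) (nat_lit 72223672795)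 (nat_lit 76) (nat_lit 30880881234) (nat_lit 76) (nat_lit 19745820443) (nat_lit 3) (nat_lit 4) (nat_lit 4) (nat_lit 5) (nat_lit 4) (nat_lit 4) (nat_lit 299) (nat_lit 230) (nat_lit 191)) (XT.nd (nat_lit 78) (nat_lit 0) (nat_lit 0) (XT.lf (nat_lit 0) (nat_lit 87287045870) (nat_lit 76) (nat_lit 28157164906) (nat_lit 76) (nat_lit 16978954418) (nat_lit 3) (nat_lit 4) (nat_lit 4) (nat_lit 5) (nat_lit 4) (nat_lit 4) (nat_lit 300) (nat_lit 230) (nat_lit 190)) (XT.lf (nat_lit 0) (nat_lit 103495388795) (nat_lit 76) (nat_lit 25243103159) (nat_lit 76) (nat_lit 14024939247) (nat_lit 3) (nat_lit 4) (nat_lit 4) (nat_lit 5) (nat_lit 4) (nat_lit 4) (nat_lit 301) (nat_lit 230) (nat_lit 189))))))) (XT.nd (nat_lit 780) (nat_lit 0) (nat_lit 0) (XT.nd (nat_lit 390) (nat_lit 76) (nat_lit 0) (XT.nd (nat_lit 156) (nat_lit 76) (nat_lit 0) (XT.nd (nat_lit 78) (nat_lit 0) (nat_lit 0) (XT.lf (nat_lit 0) (nat_lit 120944751012)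 (nat_lit 76) (nat_lit 22121427478) (nat_lit 76) (nat_lit 10866269655) (nat_lit 3) (nat_lit 4) (nat_lit 4) (nat_lit 5) (nat_lit 4) (nat_lit 4) (nat_lit 302) (nat_lit 230) (nat_lit 188)) (XT.lf (nat_lit 0) (nat_lit 139738536146) (nat_lit 76) (nat_lit 18773639046) (nat_lit 76) (nat_lit 7484227601) (nat_lit 3) (nat_lit 4) (nat_lit 4) (nat_lit 5) (nat_lit 4) (nat_lit 4) (nat_lit 303) (nat_lit 230) (nat_lit 187))) (XT.nd (nat_lit 78) (nat_lit 76) (nat_lit 0) (XT.lf (nat_lit 0) (nat_lit 159988114779) (nat_lit 76) (nat_lit 15179899114) (nat_lit 76) (nat_lit 3858771354) (nat_lit 3) (nat_lit 4) (nat_lit 4) (nat_lit 5) (nat_lit 4) (nat_lit 4) (nat_lit 304) (nat_lit 230) (nat_lit 186)) (XT.nd (nat_lit 78) (nat_lit 0) (nat_lit 0) (XT.lf (nat_lit 0) (nat_lit 30572409) (nat_lit 152) (nat_lit 11287821279) (nat_lit 76) (nat_lit 181782394243) (nat_lit 2) (nat_lit 5) (nat_lit 4) (nat_lit 5) (nat_lit 3)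 (nat_lit 4) (nat_lit 305) (nat_lit 230) (nat_lit 185)) (XT.lf (nat_lit 0) (nat_lit 4075147450) (nat_lit 152) (nat_lit 3023634074) (nat_lit 76) (nat_lit 201199818523) (nat_lit 2) (nat_lit 5) (nat_lit 4) (nat_lit 5) (nat_lit 3) (nat_lit 4) (nat_lit 306) (nat_lit 230) (nat_lit 184))))) (XT.nd (nat_lit 156) (nat_lit 0) (nat_lit 0) (XT.nd (nat_lit 78) (nat_lit 0) (nat_lit 0) (XT.lf (nat_lit 0) (nat_lit 6056971249) (nat_lit 76) (nat_lit 2460021449) (nat_lit 152) (nat_lit 216191574002) (nat_lit 1) (nat_lit 5) (nat_lit 2) (nat_lit 5) (nat_lit 3) (nat_lit 4) (nat_lit 307) (nat_lit 230) (nat_lit 183)) (XT.lf (nat_lit 0) (nat_lit 13387370467) (nat_lit 152) (nat_lit 226535016781) (nat_lit 0) (nat_lit 2505297875) (nat_lit 1) (nat_lit 5) (nat_lit 3) (nat_lit 4) (nat_lit 1) (nat_lit 4) (nat_lit 308) (nat_lit 230) (nat_lit 182))) (XT.nd (nat_lit 78) (nat_lit 0) (nat_lit 0) (XT.lf (nat_lit 0) (nat_lit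 18670193699) (nat_lit 152) (nat_lit 235125447828) (nat_lit 0) (nat_lit 7767563400) (nat_lit 1) (nat_lit 5) (nat_lit 3) (nat_lit 4) (nat_lit 1) (nat_lit 4) (nat_lit 309) (nat_lit 230) (nat_lit 181)) (XT.nd (nat_lit 78) (nat_lit 0) (nat_lit 0) (XT.lf (nat_lit 0) (nat_lit 24358360184) (nat_lit 152) (nat_lit 244435387023) (nat_lit 0) (nat_lit 13436694972) (nat_lit 1) (nat_lit 5) (nat_lit 3) (nat_lit 4) (nat_lit 1) (nat_lit 4) (nat_lit 310) (nat_lit 230) (nat_lit 180)) (XT.lf (nat_lit 0) (nat_lit 30485577574) (nat_lit 152) (nat_lit 254520004375) (nat_lit 0) (nat_lit 19546287442) (nat_lit 1) (nat_lit 5) (nat_lit 3) (nat_lit 4) (nat_lit 1) (nat_lit 4) (nat_lit 311) (nat_lit 230) (nat_lit 179)))))) (XT.nd (nat_lit 390) (nat_lit 0) (nat_lit 0) (XT.nd (nat_lit 156) (nat_lit 0) (nat_lit 0) (XT.nd (nat_lit 78) (nat_lit 0) (nat_lit 0) (XT.lf (nat_lit 0) (nat_lit 37088155307) (nat_lit 152) (nat_lit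 265439060580) (nat_lit 0) (nat_lit 26132545805) (nat_lit 1) (nat_lit 5) (nat_lit 3) (nat_lit 4) (nat_lit 1) (nat_lit 4) (nat_lit 312) (nat_lit 230) (nat_lit 178)) (XT.lf (nat_lit 0) (nat_lit 44205219769) (nat_lit 152) (nat_lit 277257261155) (nat_lit 0) (nat_lit 33234499739) (nat_lit 1) (nat_lit 5) (nat_lit 3) (nat_lit 4) (nat_lit 1) (nat_lit 4) (nat_lit 313) (nat_lit 230) (nat_lit 177))) (XT.nd (nat_lit 78) (nat_lit 0) (nat_lit 0) (XT.lf (nat_lit 0) (nat_lit 51878946156) (nat_lit 152) (nat_lit 290044639883) (nat_lit 0) (nat_lit 40894234897) (nat_lit 1) (nat_lit 5) (nat_lit 3) (nat_lit 4) (nat_lit 1) (nat_lit 4) (nat_lit 314) (nat_lit 230) (nat_lit 176)) (XT.nd (nat_lit 78) (nat_lit 0) (nat_lit 0) (XT.lf (nat_lit 0) (nat_lit 60154808404) (nat_lit 152) (nat_lit 303876973823) (nat_lit 0) (nat_lit 49157142302) (nat_lit 1) (nat_lit 5) (nat_lit 3) (nat_lit 4) (nat_lit 1) (nat_lit 4) (nat_lit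 315) (nat_lit 230) (nat_lit 175)) (XT.lf (nat_lit 0) (nat_lit 69081848658) (nat_lit 152) (nat_lit 318836232360) (nat_lit 0) (nat_lit 58072187332) (nat_lit 1) (nat_lit 5) (nat_lit 3) (nat_lit 4) (nat_lit 1) (nat_lit 4) (nat_lit 316) (nat_lit 230) (nat_lit 174))))) (XT.nd (nat_lit 156) (nat_lit 0) (nat_lit 0) (XT.nd (nat_lit 78) (nat_lit 0) (nat_lit 0) (XT.lf (nat_lit 0) (nat_lit 78712967897) (nat_lit 152) (nat_lit 335011062952) (nat_lit 0) (nat_lit 67692199882) (nat_lit 1) (nat_lit 5) (nat_lit 3) (nat_lit 4) (nat_lit 1) (nat_lit 4) (nat_lit 317) (nat_lit 230) (nat_lit 173)) (XT.lf (nat_lit 0) (nat_lit 89105239422) (nat_lit 152) (nat_lit 352497316448) (nat_lit 0) (nat_lit 78074187436) (nat_lit 1) (nat_lit 5) (nat_lit 3) (nat_lit 4) (nat_lit 1) (nat_lit 4) (nat_lit 318) (nat_lit 230) (nat_lit 172))) (XT.nd (nat_lit 78) (nat_lit 0) (nat_lit 0) (XT.lf (nat_lit 0) (nat_lit 100320247063) (nat_lit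 152) (nat_lit 371398615091) (nat_lit 0) (nat_lit 89279672881) (nat_lit 1) (nat_lit 5) (nat_lit 3) (nat_lit 4) (nat_lit 1) (nat_lit 4) (nat_lit 319) (nat_lit 230) (nat_lit 171)) (XT.nd (nat_lit 78) (nat_lit 0) (nat_lit 0) (XT.lf (nat_lit 0) (nat_lit 112424450125) (nat_lit 152) (nat_lit 391826966576) (nat_lit 0) (nat_lit 101375059095) (nat_lit 1) (nat_lit 5) (nat_lit 3) (nat_lit 4) (nat_lit 1) (nat_lit 4) (nat_lit 320) (nat_lit 230) (nat_lit 170)) (XT.lf (nat_lit 0) (nat_lit 125489577218) (nat_lit 152) (nat_lit 413903427801) (nat_lit 0) (nat_lit 114432022440) (nat_lit 1) (nat_lit 5) (nat_lit 3) (nat_lit 4) (nat_lit 1) (nat_lit 4) (nat_lit 321) (nat_lit 230) (nat_lit 169))))))))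
noncomputable def xc30 : XT := (XT.nd (nat_lit 33696) (nat_lit 0) (nat_lit 228) (XT.nd (nat_lit 32916) (nat_lit 0) (nat_lit 912) (XT.nd (nat_lit 32526) (nat_lit 0) (nat_lit 2052) (XT.nd (nat_lit 156) (nat_lit 0) (nat_lit 0) (XT.nd (nat_lit 78) (nat_lit 0) (nat_lit 0) (XT.lf (nat_lit 0) (nat_lit 139593051319) (nat_lit 152) (nat_lit 437758822239) (nat_lit 0) (nat_lit 128527937514) (nat_lit 1) (nat_lit 5) (nat_lit 3) (nat_lit 4) (nat_lit 1) (nat_lit 4) (nat_lit 322) (nat_lit 230) (nat_lit 168)) (XT.lf (nat_lit 0) (nat_lit 154818448569) (nat_lit 152) (nat_lit 463534515192) (nat_lit 0) (nat_lit 143746335666) (nat_lit 1) (nat_lit 5) (nat_lit 3) (nat_lit 4) (nat_lit 1) (nat_lit 4) (nat_lit 323) (nat_lit 230) (nat_lit 167))) (XT.nd (nat_lit 78) (nat_lit 0) (nat_lit 0) (XT.lf (nat_lit 0) (nat_lit 171255993545) (nat_lit 152) (nat_lit 491383251506) (nat_lit 0) (nat_lit 160177399996) (nat_lit 1)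 (nat_lit 5) (nat_lit 3) (nat_lit 4) (nat_lit 1) (nat_lit 4) (nat_lit 324) (nat_lit 230) (nat_lit 166)) (XT.lf (nat_lit 0) (nat_lit 189003093921) (nat_lit 152) (nat_lit 521470060729) (nat_lit 0) (nat_lit 177918499773) (nat_lit 1) (nat_lit 5) (nat_lit 3) (nat_lit 4) (nat_lit 1) (nat_lit 4) (nat_lit 325) (nat_lit 230) (nat_lit 165)))) (XT.nd (nat_lit 156) (nat_lit 608) (nat_lit 0) (XT.nd (nat_lit 78) (nat_lit 228) (nat_lit 0) (XT.lf (nat_lit 0) (nat_lit 1448530239) (nat_lit 228) (nat_lit 1587080561) (nat_lit 228) (nat_lit 1587080561) (nat_lit 39) (nat_lit 4) (nat_lit 42) (nat_lit 5) (nat_lit 42) (nat_lit 4) (nat_lit 258) (nat_lit 231) (nat_lit 231)) (XT.lf (nat_lit 0) (nat_lit 2385024653) (nat_lit 228) (nat_lit 6226448545) (nat_lit 0) (nat_lit 1000048262) (nat_lit 36) (nat_lit 5) (nat_lit 39) (nat_lit 4) (nat_lit 36) (nat_lit 4) (nat_lit 259) (nat_lit 231) (nat_lit 230))) (XT.nd (nat_lit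 78) (nat_lit 380) (nat_lit 0) (XT.lf (nat_lit 0) (nat_lit 3605386627) (nat_lit 228) (nat_lit 4536942799) (nat_lit 228) (nat_lit 1869580861) (nat_lit 33) (nat_lit 4) (nat_lit 36) (nat_lit 5) (nat_lit 36) (nat_lit 4) (nat_lit 260) (nat_lit 231) (nat_lit 229)) (XT.nd (nat_lit 78) (nat_lit 152) (nat_lit 0) (XT.lf (nat_lit 0) (nat_lit 3544775651) (nat_lit 152) (nat_lit 64751965) (nat_lit 228) (nat_lit 6841494039) (nat_lit 30) (nat_lit 5) (nat_lit 32) (nat_lit 5) (nat_lit 33) (nat_lit 4) (nat_lit 261) (nat_lit 231) (nat_lit 228)) (XT.lf (nat_lit 0) (nat_lit 3087105258) (nat_lit 152) (nat_lit 6280130880) (nat_lit 152) (nat_lit 1561850046) (nat_lit 28) (nat_lit 4) (nat_lit 30) (nat_lit 5) (nat_lit 30) (nat_lit 4) (nat_lit 262) (nat_lit 231) (nat_lit 227)))))) (XT.nd (nat_lit 390) (nat_lit 380) (nat_lit 0) (XT.nd (nat_lit 156) (nat_lit 380) (nat_lit 0) (XT.nd (nat_lit 78) (nat_lit 152) (nat_lit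 0) (XT.lf (nat_lit 0) (nat_lit 2195313860) (nat_lit 152) (nat_lit 1650109332) (nat_lit 228) (nat_lit 7605421321) (nat_lit 25) (nat_lit 5) (nat_lit 27) (nat_lit 5) (nat_lit 28) (nat_lit 4) (nat_lit 263) (nat_lit 231) (nat_lit 226)) (XT.lf (nat_lit 0) (nat_lit 765755258) (nat_lit 152) (nat_lit 8762433870) (nat_lit 152) (nat_lit 2490519559) (nat_lit 23) (nat_lit 4) (nat_lit 25) (nat_lit 5) (nat_lit 25) (nat_lit 4) (nat_lit 264) (nat_lit 231) (nat_lit 225))) (XT.nd (nat_lit 78) (nat_lit 304) (nat_lit 0) (XT.lf (nat_lit 0) (nat_lit 2832152117) (nat_lit 228) (nat_lit 1257630638) (nat_lit 76) (nat_lit 8545532201) (nat_lit 22) (nat_lit 5) (nat_lit 25) (nat_lit 5) (nat_lit 23) (nat_lit 4) (nat_lit 265) (nat_lit 231) (nat_lit 224)) (XT.nd (nat_lit 78) (nat_lit 228) (nat_lit 0) (XT.lf (nat_lit 0) (nat_lit 8381939732) (nat_lit 152) (nat_lit 3966599305) (nat_lit 0) (nat_lit 956671614) (nat_lit 21)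 (nat_lit 5) (nat_lit 23) (nat_lit 4) (nat_lit 21) (nat_lit 4) (nat_lit 266) (nat_lit 231) (nat_lit 223)) (XT.lf (nat_lit 0) (nat_lit 264327957) (nat_lit 228) (nat_lit 7529770624) (nat_lit 76) (nat_lit 6238286809) (nat_lit 18) (nat_lit 5) (nat_lit 21) (nat_lit 5) (nat_lit 19) (nat_lit 4) (nat_lit 267) (nat_lit 231) (nat_lit 222))))) (XT.nd (nat_lit 156) (nat_lit 304) (nat_lit 0) (XT.nd (nat_lit 78) (nat_lit 0) (nat_lit 0) (XT.lf (nat_lit 0) (nat_lit 2717859931) (nat_lit 76) (nat_lit 2837261079) (nat_lit 152) (nat_lit 9265895232) (nat_lit 17) (nat_lit 5) (nat_lit 18) (nat_lit 5) (nat_lit 19) (nat_lit 4) (nat_lit 268) (nat_lit 231) (nat_lit 221)) (XT.lf (nat_lit 0) (nat_lit 11197496306) (nat_lit 152) (nat_lit 2066702239) (nat_lit 0) (nat_lit 2412448340) (nat_lit 17) (nat_lit 5) (nat_lit 19) (nat_lit 4) (nat_lit 17) (nat_lit 4) (nat_lit 269) (nat_lit 231) (nat_lit 220))) (XT.nd (nat_lit 78)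 (nat_lit 76) (nat_lit 0) (XT.lf (nat_lit 0) (nat_lit 623631091) (nat_lit 228) (nat_lit 7995283439) (nat_lit 76) (nat_lit 7983801281) (nat_lit 14) (nat_lit 5) (nat_lit 17) (nat_lit 5) (nat_lit 15) (nat_lit 4) (nat_lit 270) (nat_lit 231) (nat_lit 219)) (XT.nd (nat_lit 78) (nat_lit 0) (nat_lit 0) (XT.lf (nat_lit 0) (nat_lit 2229946955) (nat_lit 76) (nat_lit 3602323718) (nat_lit 152) (nat_lit 11774465575) (nat_lit 13) (nat_lit 5) (nat_lit 14) (nat_lit 5) (nat_lit 15) (nat_lit 4) (nat_lit 271) (nat_lit 231) (nat_lit 218)) (XT.lf (nat_lit 0) (nat_lit 11416875337) (nat_lit 152) (nat_lit 5521678039) (nat_lit 0) (nat_lit 1754807161) (nat_lit 13) (nat_lit 5) (nat_lit 15) (nat_lit 4) (nat_lit 13) (nat_lit 4) (nat_lit 272) (nat_lit 231) (nat_lit 217))))))) (XT.nd (nat_lit 702) (nat_lit 228) (nat_lit 0) (XT.nd (nat_lit 312) (nat_lit 228) (nat_lit 0) (XT.nd (nat_lit 156) (nat_lit 76) (nat_lit 0) (XT.nd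 (nat_lit 78) (nat_lit 76) (nat_lit 0) (XT.lf (nat_lit 0) (nat_lit 4878694942) (nat_lit 76) (nat_lit 12511438954) (nat_lit 76) (nat_lit 2479914289) (nat_lit 12) (nat_lit 4) (nat_lit 13) (nat_lit 5) (nat_lit 13) (nat_lit 4) (nat_lit 273) (nat_lit 231) (nat_lit 216)) (XT.lf (nat_lit 0) (nat_lit 2522830754) (nat_lit 152) (nat_lit 5201810958) (nat_lit 76) (nat_lit 13418878019) (nat_lit 11) (nat_lit 5) (nat_lit 13) (nat_lit 5) (nat_lit 12) (nat_lit 4) (nat_lit 274) (nat_lit 231) (nat_lit 215))) (XT.nd (nat_lit 78) (nat_lit 0) (nat_lit 0) (XT.lf (nat_lit 0) (nat_lit 5189349018) (nat_lit 76) (nat_lit 2556852159) (nat_lit 152) (nat_lit 14775456528) (nat_lit 10) (nat_lit 5) (nat_lit 11) (nat_lit 5) (nat_lit 12) (nat_lit 4) (nat_lit 275) (nat_lit 231) (nat_lit 214)) (XT.lf (nat_lit 0) (nat_lit 13358285777) (nat_lit 152) (nat_lit 7755723999) (nat_lit 0) (nat_lit 2897666856) (nat_lit 10) (nat_lit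 5) (nat_lit 12) (nat_lit 4) (nat_lit 10) (nat_lit 4) (nat_lit 276) (nat_lit 231) (nat_lit 213)))) (XT.nd (nat_lit 156) (nat_lit 152) (nat_lit 0) (XT.nd (nat_lit 78) (nat_lit 0) (nat_lit 0) (XT.lf (nat_lit 0) (nat_lit 2341922553) (nat_lit 76) (nat_lit 17001099323) (nat_lit 76) (nat_lit 6281850355) (nat_lit 9) (nat_lit 4) (nat_lit 10) (nat_lit 5) (nat_lit 10) (nat_lit 4) (nat_lit 277) (nat_lit 231) (nat_lit 212)) (XT.lf (nat_lit 0) (nat_lit 13259461454) (nat_lit 76) (nat_lit 12533602250) (nat_lit 76) (nat_lit 1574881018) (nat_lit 9) (nat_lit 4) (nat_lit 10) (nat_lit 5) (nat_lit 10) (nat_lit 4) (nat_lit 278) (nat_lit 231) (nat_lit 211))) (XT.nd (nat_lit 78) (nat_lit 76) (nat_lit 0) (XT.lf (nat_lit 0) (nat_lit 3256392332) (nat_lit 152) (nat_lit 4504850530) (nat_lit 76) (nat_lit 21493609054) (nat_lit 8) (nat_lit 5) (nat_lit 10) (nat_lit 5) (nat_lit 9) (nat_lit 4) (nat_lit 279) (nat_lit 231)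 (nat_lit 210)) (XT.nd (nat_lit 78) (nat_lit 0) (nat_lit 0) (XT.lf (nat_lit 0) (nat_lit 5794485332) (nat_lit 76) (nat_lit 2586123941) (nat_lit 152) (nat_lit 22912851136) (nat_lit 7) (nat_lit 5) (nat_lit 8) (nat_lit 5) (nat_lit 9) (nat_lit 4) (nat_lit 280) (nat_lit 231) (nat_lit 209)) (XT.lf (nat_lit 0) (nat_lit 13916431087) (nat_lit 152) (nat_lit 16686956456) (nat_lit 0) (nat_lit 2891798245) (nat_lit 7) (nat_lit 5) (nat_lit 9) (nat_lit 4) (nat_lit 7) (nat_lit 4) (nat_lit 281) (nat_lit 231) (nat_lit 208)))))) (XT.nd (nat_lit 390) (nat_lit 76) (nat_lit 0) (XT.nd (nat_lit 156) (nat_lit 76) (nat_lit 0) (XT.nd (nat_lit 78) (nat_lit 76) (nat_lit 0) (XT.lf (nat_lit 0) (nat_lit 19823007077) (nat_lit 152) (nat_lit 7423014173) (nat_lit 0) (nat_lit 8630736840) (nat_lit 7) (nat_lit 5) (nat_lit 9) (nat_lit 4) (nat_lit 7) (nat_lit 4) (nat_lit 282) (nat_lit 231) (nat_lit 207)) (XT.lf (nat_lit 0) (nat_lit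 2467088076) (nat_lit 76) (nat_lit 23666392614) (nat_lit 76) (nat_lit 12318902569) (nat_lit 6) (nat_lit 4) (nat_lit 7) (nat_lit 5) (nat_lit 7) (nat_lit 4) (nat_lit 283) (nat_lit 231) (nat_lit 206))) (XT.nd (nat_lit 78) (nat_lit 76) (nat_lit 0) (XT.lf (nat_lit 0) (nat_lit 13227981728) (nat_lit 76) (nat_lit 19748008733) (nat_lit 76) (nat_lit 8256796642) (nat_lit 6) (nat_lit 4) (nat_lit 7) (nat_lit 5) (nat_lit 7) (nat_lit 4) (nat_lit 284) (nat_lit 231) (nat_lit 205)) (XT.nd (nat_lit 78) (nat_lit 76) (nat_lit 0) (XT.lf (nat_lit 0) (nat_lit 24677996670) (nat_lit 76) (nat_lit 15593361891) (nat_lit 76) (nat_lit 3969073832) (nat_lit 6) (nat_lit 4) (nat_lit 7) (nat_lit 5) (nat_lit 7) (nat_lit 4) (nat_lit 285) (nat_lit 231) (nat_lit 204)) (XT.lf (nat_lit 0) (nat_lit 551441445) (nat_lit 152) (nat_lit 10617051584) (nat_lit 76) (nat_lit 36324204469) (nat_lit 5) (nat_lit 5) (nat_lit 7) (nat_lit 5) (nat_lit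 6) (nat_lit 4) (nat_lit 286) (nat_lit 231) (nat_lit 203))))) (XT.nd (nat_lit 156) (nat_lit 0) (nat_lit 0) (XT.nd (nat_lit 78) (nat_lit 76) (nat_lit 0) (XT.lf (nat_lit 0) (nat_lit 5213948235) (nat_lit 152) (nat_lit 1173003858) (nat_lit 76) (nat_lit 44619034981) (nat_lit 5) (nat_lit 5) (nat_lit 7) (nat_lit 5) (nat_lit 6) (nat_lit 4) (nat_lit 287) (nat_lit 231) (nat_lit 202)) (XT.lf (nat_lit 0) (nat_lit 9181506081) (nat_lit 76) (nat_lit 1134954316) (nat_lit 152) (nat_lit 44480591183) (nat_lit 4) (nat_lit 5) (nat_lit 5) (nat_lit 5) (nat_lit 6) (nat_lit 4) (nat_lit 288) (nat_lit 231) (nat_lit 201))) (XT.nd (nat_lit 78) (nat_lit 0) (nat_lit 0) (XT.lf (nat_lit 0) (nat_lit 15845077338) (nat_lit 152) (nat_lit 38690935026) (nat_lit 0) (nat_lit 4354551105) (nat_lit 4) (nat_lit 5) (nat_lit 6) (nat_lit 4) (nat_lit 4) (nat_lit 4) (nat_lit 289) (nat_lit 231) (nat_lit 200)) (XT.nd (nat_lit 78) (nat_lit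 0) (nat_lit 0) (XT.lf (nat_lit 0) (nat_lit 21766877894) (nat_lit 152) (nat_lit 31357091645) (nat_lit 0) (nat_lit 10190095216) (nat_lit 4) (nat_lit 5) (nat_lit 6) (nat_lit 4) (nat_lit 4) (nat_lit 4) (nat_lit 290) (nat_lit 231) (nat_lit 199)) (XT.lf (nat_lit 0) (nat_lit 28099234402) (nat_lit 152) (nat_lit 23552835724) (nat_lit 0) (nat_lit 16442584644) (nat_lit 4) (nat_lit 5) (nat_lit 6) (nat_lit 4) (nat_lit 4) (nat_lit 4) (nat_lit 291) (nat_lit 231) (nat_lit 198))))))))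
noncomputable def xc31 : XT := (XT.nd (nat_lit 1482) (nat_lit 0) (nat_lit 0) (XT.nd (nat_lit 702) (nat_lit 152) (nat_lit 0) (XT.nd (nat_lit 312) (nat_lit 0) (nat_lit 0) (XT.nd (nat_lit 156) (nat_lit 76) (nat_lit 0) (XT.nd (nat_lit 78) (nat_lit 0) (nat_lit 0) (XT.lf (nat_lit 0) (nat_lit 34879671936) (nat_lit 152) (nat_lit 15231919823) (nat_lit 0) (nat_lit 23149071179) (nat_lit 4) (nat_lit 5) (nat_lit 6) (nat_lit 4) (nat_lit 4) (nat_lit 4) (nat_lit 292) (nat_lit 231) (nat_lit 197)) (XT.lf (nat_lit 0) (nat_lit 42148370866) (nat_lit 152) (nat_lit 6345034810) (nat_lit 0) (nat_lit 30349296962) (nat_lit 4) (nat_lit 5) (nat_lit 6) (nat_lit 4) (nat_lit 4) (nat_lit 4) (nat_lit 293) (nat_lit 231) (nat_lit 196))) (XT.nd (nat_lit 78) (nat_lit 0) (nat_lit 0) (XT.lf (nat_lit 0) (nat_lit 3264982157) (nat_lit 76) (nat_lit 46734398329) (nat_lit 76) (nat_lit 34871923363) (nat_lit 3) (nat_lit 4) (nat_lit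 4) (nat_lit 5) (nat_lit 4) (nat_lit 4) (nat_lit 294) (nat_lit 231) (nat_lit 195)) (XT.lf (nat_lit 0) (nat_lit 13782073018) (nat_lit 76) (nat_lit 44759100422) (nat_lit 76) (nat_lit 32837920768) (nat_lit 3) (nat_lit 4) (nat_lit 4) (nat_lit 5) (nat_lit 4) (nat_lit 4) (nat_lit 295) (nat_lit 231) (nat_lit 194)))) (XT.nd (nat_lit 156) (nat_lit 0) (nat_lit 0) (XT.nd (nat_lit 78) (nat_lit 0) (nat_lit 0) (XT.lf (nat_lit 0) (nat_lit 25058765769) (nat_lit 76) (nat_lit 42663262720) (nat_lit 76) (nat_lit 30687726874) (nat_lit 3) (nat_lit 4) (nat_lit 4) (nat_lit 5) (nat_lit 4) (nat_lit 4) (nat_lit 296) (nat_lit 231) (nat_lit 193)) (XT.lf (nat_lit 0) (nat_lit 37161885255) (nat_lit 76) (nat_lit 40434465445) (nat_lit 76) (nat_lit 28408599791) (nat_lit 3) (nat_lit 4) (nat_lit 4) (nat_lit 5) (nat_lit 4) (nat_lit 4) (nat_lit 297) (nat_lit 231) (nat_lit 192))) (XT.nd (nat_lit 78) (nat_lit 0) (nat_lit 0) (XT.lf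 (nat_lit 0) (nat_lit 50163153666) (nat_lit 76) (nat_lit 38059500908) (nat_lit 76) (nat_lit 25987033581) (nat_lit 3) (nat_lit 4) (nat_lit 4) (nat_lit 5) (nat_lit 4) (nat_lit 4) (nat_lit 298) (nat_lit 231) (nat_lit 191)) (XT.nd (nat_lit 78) (nat_lit 0) (nat_lit 0) (XT.lf (nat_lit 0) (nat_lit 64139615556) (nat_lit 76) (nat_lit 35524295246) (nat_lit 76) (nat_lit 23408678221) (nat_lit 3) (nat_lit 4) (nat_lit 4) (nat_lit 5) (nat_lit 4) (nat_lit 4) (nat_lit 299) (nat_lit 231) (nat_lit 190)) (XT.lf (nat_lit 0) (nat_lit 79174094402) (nat_lit 76) (nat_lit 32813825018) (nat_lit 76) (nat_lit 20658254569) (nat_lit 3) (nat_lit 4) (nat_lit 4) (nat_lit 5) (nat_lit 4) (nat_lit 4) (nat_lit 300) (nat_lit 231) (nat_lit 189)))))) (XT.nd (nat_lit 390) (nat_lit 152) (nat_lit 0) (XT.nd (nat_lit 156) (nat_lit 0) (nat_lit 0) (XT.nd (nat_lit 78) (nat_lit 0) (nat_lit 0) (XT.lf (nat_lit 0) (nat_lit 95355683413) (nat_lit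 76) (nat_lit 29912028178) (nat_lit 76) (nat_lit 17719463818) (nat_lit 3) (nat_lit 4) (nat_lit 4) (nat_lit 5) (nat_lit 4) (nat_lit 4) (nat_lit 301) (nat_lit 231) (nat_lit 188)) (XT.lf (nat_lit 0) (nat_lit 112780273485) (nat_lit 76) (nat_lit 26801708892) (nat_lit 76) (nat_lit 14574890911) (nat_lit 3) (nat_lit 4) (nat_lit 4) (nat_lit 5) (nat_lit 4) (nat_lit 4) (nat_lit 302) (nat_lit 231) (nat_lit 187))) (XT.nd (nat_lit 78) (nat_lit 0) (nat_lit 0) (XT.lf (nat_lit 0) (nat_lit 131551121450) (nat_lit 76) (nat_lit 23464435640) (nat_lit 76) (nat_lit 11205901343) (nat_lit 3) (nat_lit 4) (nat_lit 4) (nat_lit 5) (nat_lit 4) (nat_lit 4) (nat_lit 303) (nat_lit 231) (nat_lit 186)) (XT.nd (nat_lit 78) (nat_lit 0) (nat_lit 0) (XT.lf (nat_lit 0) (nat_lit 151779461962) (nat_lit 76) (nat_lit 19880431987) (nat_lit 76) (nat_lit 7592530731) (nat_lit 3) (nat_lit 4) (nat_lit 4) (nat_lit 5) (nat_lit 4) (nat_lit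 4) (nat_lit 304) (nat_lit 231) (nat_lit 185)) (XT.lf (nat_lit 0) (nat_lit 173585166668) (nat_lit 76) (nat_lit 16028459393) (nat_lit 76) (nat_lit 3713366508) (nat_lit 3) (nat_lit 4) (nat_lit 4) (nat_lit 5) (nat_lit 4) (nat_lit 4) (nat_lit 305) (nat_lit 231) (nat_lit 184))))) (XT.nd (nat_lit 156) (nat_lit 76) (nat_lit 0) (XT.nd (nat_lit 78) (nat_lit 0) (nat_lit 0) (XT.lf (nat_lit 0) (nat_lit 440029599) (nat_lit 152) (nat_lit 11438209641) (nat_lit 76) (nat_lit 196649972846) (nat_lit 2) (nat_lit 5) (nat_lit 4) (nat_lit 5) (nat_lit 3) (nat_lit 4) (nat_lit 306) (nat_lit 231) (nat_lit 183)) (XT.lf (nat_lit 0) (nat_lit 4778021651) (nat_lit 152) (nat_lit 2568638373) (nat_lit 76) (nat_lit 217596717952) (nat_lit 2) (nat_lit 5) (nat_lit 4) (nat_lit 5) (nat_lit 3) (nat_lit 4) (nat_lit 307) (nat_lit 231) (nat_lit 182))) (XT.nd (nat_lit 78) (nat_lit 0) (nat_lit 0) (XT.lf (nat_lit 0) (nat_lit 7208129541)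 (nat_lit 76) (nat_lit 2349576747) (nat_lit 152) (nat_lit 233109330860) (nat_lit 1) (nat_lit 5) (nat_lit 2) (nat_lit 5) (nat_lit 3) (nat_lit 4) (nat_lit 308) (nat_lit 231) (nat_lit 181)) (XT.nd (nat_lit 78) (nat_lit 0) (nat_lit 0) (XT.lf (nat_lit 0) (nat_lit 14795537097) (nat_lit 152) (nat_lit 244028171361) (nat_lit 0) (nat_lit 2981103755) (nat_lit 1) (nat_lit 5) (nat_lit 3) (nat_lit 4) (nat_lit 1) (nat_lit 4) (nat_lit 309) (nat_lit 231) (nat_lit 180)) (XT.lf (nat_lit 0) (nat_lit 20476010114) (nat_lit 152) (nat_lit 253352477393) (nat_lit 0) (nat_lit 8643951852) (nat_lit 1) (nat_lit 5) (nat_lit 3) (nat_lit 4) (nat_lit 1) (nat_lit 4) (nat_lit 310) (nat_lit 231) (nat_lit 179))))))) (XT.nd (nat_lit 780) (nat_lit 0) (nat_lit 0) (XT.nd (nat_lit 390) (nat_lit 0) (nat_lit 0) (XT.nd (nat_lit 156) (nat_lit 0) (nat_lit 0) (XT.nd (nat_lit 78) (nat_lit 0) (nat_lit 0) (XT.lf (nat_lit 0) (nat_lit 26596103923)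 (nat_lit 152) (nat_lit 263450397373) (nat_lit 0) (nat_lit 14747726291) (nat_lit 1) (nat_lit 5) (nat_lit 3) (nat_lit 4) (nat_lit 1) (nat_lit 4) (nat_lit 311) (nat_lit 231) (nat_lit 178)) (XT.lf (nat_lit 0) (nat_lit 33192085748) (nat_lit 152) (nat_lit 274381770825) (nat_lit 0) (nat_lit 21328597587) (nat_lit 1) (nat_lit 5) (nat_lit 3) (nat_lit 4) (nat_lit 1) (nat_lit 4) (nat_lit 312) (nat_lit 231) (nat_lit 177))) (XT.nd (nat_lit 78) (nat_lit 0) (nat_lit 0) (XT.lf (nat_lit 0) (nat_lit 40303042887) (nat_lit 152) (nat_lit 286211376259) (nat_lit 0) (nat_lit 28425563497) (nat_lit 1) (nat_lit 5) (nat_lit 3) (nat_lit 4) (nat_lit 1) (nat_lit 4) (nat_lit 313) (nat_lit 231) (nat_lit 176)) (XT.nd (nat_lit 78) (nat_lit 0) (nat_lit 0) (XT.lf (nat_lit 0) (nat_lit 47971114346) (nat_lit 152) (nat_lit 299009315042) (nat_lit 0) (nat_lit 36080680114) (nat_lit 1) (nat_lit 5) (nat_lit 3) (nat_lit 4) (nat_lit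 1) (nat_lit 4) (nat_lit 314) (nat_lit 231) (nat_lit 175)) (XT.lf (nat_lit 0) (nat_lit 56241740548) (nat_lit 152) (nat_lit 312851426809) (nat_lit 0) (nat_lit 44339311092) (nat_lit 1) (nat_lit 5) (nat_lit 3) (nat_lit 4) (nat_lit 1) (nat_lit 4) (nat_lit 315) (nat_lit 231) (nat_lit 174))))) (XT.nd (nat_lit 156) (nat_lit 0) (nat_lit 0) (XT.nd (nat_lit 78) (nat_lit 0) (nat_lit 0) (XT.lf (nat_lit 0) (nat_lit 65163932613) (nat_lit 152) (nat_lit 327819738891) (nat_lit 0) (nat_lit 53250396467) (nat_lit 1) (nat_lit 5) (nat_lit 3) (nat_lit 4) (nat_lit 1) (nat_lit 4) (nat_lit 316) (nat_lit 231) (nat_lit 173)) (XT.lf (nat_lit 0) (nat_lit 74790562788) (nat_lit 152) (nat_lit 344002952395) (nat_lit 0) (nat_lit 62866742671) (nat_lit 1) (nat_lit 5) (nat_lit 3) (nat_lit 4) (nat_lit 1) (nat_lit 4) (nat_lit 317) (nat_lit 231) (nat_lit 172))) (XT.nd (nat_lit 78) (nat_lit 0) (nat_lit 0) (XT.lf (nat_lit 0) (nat_lit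 85178677771) (nat_lit 152) (nat_lit 361496967846) (nat_lit 0) (nat_lit 73245335459) (nat_lit 1) (nat_lit 5) (nat_lit 3) (nat_lit 4) (nat_lit 1) (nat_lit 4) (nat_lit 318) (nat_lit 231) (nat_lit 171)) (XT.nd (nat_lit 78) (nat_lit 0) (nat_lit 0) (XT.lf (nat_lit 0) (nat_lit 96389836763) (nat_lit 152) (nat_lit 380405453484) (nat_lit 0) (nat_lit 84447677603) (nat_lit 1) (nat_lit 5) (nat_lit 3) (nat_lit 4) (nat_lit 1) (nat_lit 4) (nat_lit 319) (nat_lit 231) (nat_lit 170)) (XT.lf (nat_lit 0) (nat_lit 108490476261) (nat_lit 152) (nat_lit 400840459595) (nat_lit 0) (nat_lit 96540153352) (nat_lit 1) (nat_lit 5) (nat_lit 3) (nat_lit 4) (nat_lit 1) (nat_lit 4) (nat_lit 320) (nat_lit 231) (nat_lit 169)))))) (XT.nd (nat_lit 32448) (nat_lit 0) (nat_lit 2432) (XT.nd (nat_lit 156) (nat_lit 0) (nat_lit 0) (XT.nd (nat_lit 78) (nat_lit 0) (nat_lit 0) (XT.lf (nat_lit 0) (nat_lit 121552303758) (nat_lit 152)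 (nat_lit 422923082510) (nat_lit 0) (nat_lit 109594421823) (nat_lit 1) (nat_lit 5) (nat_lit 3) (nat_lit 4) (nat_lit 1) (nat_lit 4) (nat_lit 321) (nat_lit 231) (nat_lit 168)) (XT.lf (nat_lit 0) (nat_lit 135652722676) (nat_lit 152) (nat_lit 446784182217) (nat_lit 0) (nat_lit 123687841643) (nat_lit 1) (nat_lit 5) (nat_lit 3) (nat_lit 4) (nat_lit 1) (nat_lit 4) (nat_lit 322) (nat_lit 231) (nat_lit 167))) (XT.nd (nat_lit 78) (nat_lit 0) (nat_lit 0) (XT.lf (nat_lit 0) (nat_lit 150875291054) (nat_lit 152) (nat_lit 472565157826) (nat_lit 0) (nat_lit 138903929375) (nat_lit 1) (nat_lit 5) (nat_lit 3) (nat_lit 4) (nat_lit 1) (nat_lit 4) (nat_lit 323) (nat_lit 231) (nat_lit 166)) (XT.nd (nat_lit 78) (nat_lit 0) (nat_lit 0) (XT.lf (nat_lit 0) (nat_lit 167310216704) (nat_lit 152) (nat_lit 500418785488) (nat_lit 0) (nat_lit 155332854426) (nat_lit 1) (nat_lit 5) (nat_lit 3) (nat_lit 4) (nat_lit 1) (nat_lit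 4) (nat_lit 324) (nat_lit 231) (nat_lit 165)) (XT.lf (nat_lit 0) (nat_lit 185054891778) (nat_lit 152) (nat_lit 530510123738) (nat_lit 0) (nat_lit 173071973391) (nat_lit 1) (nat_lit 5) (nat_lit 3) (nat_lit 4) (nat_lit 1) (nat_lit 4) (nat_lit 325) (nat_lit 231) (nat_lit 164))))) (XT.nd (nat_lit 156) (nat_lit 684) (nat_lit 0) (XT.nd (nat_lit 78) (nat_lit 304) (nat_lit 0) (XT.lf (nat_lit 0) (nat_lit 826896246) (nat_lit 304) (nat_lit 1737322915) (nat_lit 304) (nat_lit 1737322915) (nat_lit 46) (nat_lit 4) (nat_lit 50) (nat_lit 5) (nat_lit 50) (nat_lit 4) (nat_lit 256) (nat_lit 232) (nat_lit 232)) (XT.lf (nat_lit 0) (nat_lit 1908770901) (nat_lit 304) (nat_lit 6667025876) (nat_lit 0) (nat_lit 338207674) (nat_lit 42) (nat_lit 5) (nat_lit 46) (nat_lit 4) (nat_lit 42) (nat_lit 4) (nat_lit 257) (nat_lit 232) (nat_lit 231))) (XT.nd (nat_lit 78) (nat_lit 456) (nat_lit 0) (XT.lf (nat_lit 0) (nat_lit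 2648490835) (nat_lit 228) (nat_lit 4815500443) (nat_lit 228) (nat_lit 1790712006) (nat_lit 39) (nat_lit 4) (nat_lit 42) (nat_lit 5) (nat_lit 42) (nat_lit 4) (nat_lit 258) (nat_lit 232) (nat_lit 230)) (XT.nd (nat_lit 78) (nat_lit 228) (nat_lit 0) (XT.lf (nat_lit 0) (nat_lit 2869390112) (nat_lit 152) (nat_lit 662650558) (nat_lit 228) (nat_lit 6097709044) (nat_lit 36) (nat_lit 5) (nat_lit 38) (nat_lit 5) (nat_lit 39) (nat_lit 4) (nat_lit 259) (nat_lit 232) (nat_lit 229)) (XT.lf (nat_lit 0) (nat_lit 2823735107) (nat_lit 228) (nat_lit 6283203043) (nat_lit 228) (nat_lit 932672577) (nat_lit 33) (nat_lit 4) (nat_lit 36) (nat_lit 5) (nat_lit 36) (nat_lit 4) (nat_lit 260) (nat_lit 232) (nat_lit 228))))))))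
noncomputable def xc32 : XT := (XT.nd (nat_lit 1482) (nat_lit 380) (nat_lit 0) (XT.nd (nat_lit 702) (nat_lit 684) (nat_lit 0) (XT.nd (nat_lit 312) (nat_lit 608) (nat_lit 0) (XT.nd (nat_lit 156) (nat_lit 228) (nat_lit 0) (XT.nd (nat_lit 78) (nat_lit 152) (nat_lit 0) (XT.lf (nat_lit 0) (nat_lit 2457649441) (nat_lit 152) (nat_lit 1887530470) (nat_lit 228) (nat_lit 6141684496) (nat_lit 30) (nat_lit 5) (nat_lit 32) (nat_lit 5) (nat_lit 33) (nat_lit 4) (nat_lit 261) (nat_lit 232) (nat_lit 227)) (XT.lf (nat_lit 0) (nat_lit 1724066826) (nat_lit 152) (nat_lit 8181678676) (nat_lit 152) (nat_lit 1069327847) (nat_lit 28) (nat_lit 4) (nat_lit 30) (nat_lit 5) (nat_lit 30) (nat_lit 4) (nat_lit 262) (nat_lit 232) (nat_lit 226))) (XT.nd (nat_lit 78) (nat_lit 0) (nat_lit 0) (XT.lf (nat_lit 0) (nat_lit 504388527) (nat_lit 152) (nat_lit 3648999618) (nat_lit 228) (nat_lit 7351752044) (nat_lit 25) (nat_lit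 5) (nat_lit 27) (nat_lit 5) (nat_lit 28) (nat_lit 4) (nat_lit 263) (nat_lit 232) (nat_lit 225)) (XT.lf (nat_lit 0) (nat_lit 9656680525) (nat_lit 228) (nat_lit 1189105594) (nat_lit 0) (nat_lit 1236426479) (nat_lit 25) (nat_lit 5) (nat_lit 28) (nat_lit 4) (nat_lit 25) (nat_lit 4) (nat_lit 264) (nat_lit 232) (nat_lit 224)))) (XT.nd (nat_lit 156) (nat_lit 304) (nat_lit 0) (XT.nd (nat_lit 78) (nat_lit 76) (nat_lit 0) (XT.lf (nat_lit 0) (nat_lit 2743790256) (nat_lit 228) (nat_lit 3528473063) (nat_lit 76) (nat_lit 6434275122) (nat_lit 22) (nat_lit 5) (nat_lit 25) (nat_lit 5) (nat_lit 23) (nat_lit 4) (nat_lit 265) (nat_lit 232) (nat_lit 223)) (XT.lf (nat_lit 0) (nat_lit 6806576621) (nat_lit 76) (nat_lit 1309771316) (nat_lit 152) (nat_lit 5269139215) (nat_lit 21) (nat_lit 5) (nat_lit 22) (nat_lit 5) (nat_lit 23) (nat_lit 4) (nat_lit 266) (nat_lit 232) (nat_lit 222))) (XT.nd (nat_lit 78) (nat_lit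 152) (nat_lit 0) (XT.lf (nat_lit 0) (nat_lit 3630995153) (nat_lit 152) (nat_lit 10226710050) (nat_lit 152) (nat_lit 264465656) (nat_lit 19) (nat_lit 4) (nat_lit 21) (nat_lit 5) (nat_lit 21) (nat_lit 4) (nat_lit 267) (nat_lit 232) (nat_lit 221)) (XT.nd (nat_lit 78) (nat_lit 76) (nat_lit 0) (XT.lf (nat_lit 0) (nat_lit 4879157856) (nat_lit 228) (nat_lit 514133012) (nat_lit 76) (nat_lit 9525655377) (nat_lit 18) (nat_lit 5) (nat_lit 21) (nat_lit 5) (nat_lit 19) (nat_lit 4) (nat_lit 268) (nat_lit 232) (nat_lit 220)) (XT.lf (nat_lit 0) (nat_lit 10222238153) (nat_lit 76) (nat_lit 144473038) (nat_lit 152) (nat_lit 5415751591) (nat_lit 17) (nat_lit 5) (nat_lit 18) (nat_lit 5) (nat_lit 19) (nat_lit 4) (nat_lit 269) (nat_lit 232) (nat_lit 219)))))) (XT.nd (nat_lit 390) (nat_lit 228) (nat_lit 0) (XT.nd (nat_lit 156) (nat_lit 228) (nat_lit 0) (XT.nd (nat_lit 78) (nat_lit 76) (nat_lit 0) (XT.lf (nat_lit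 0) (nat_lit 4835312913) (nat_lit 152) (nat_lit 11419370583) (nat_lit 152) (nat_lit 462585271) (nat_lit 15) (nat_lit 4) (nat_lit 17) (nat_lit 5) (nat_lit 17) (nat_lit 4) (nat_lit 270) (nat_lit 232) (nat_lit 218)) (XT.lf (nat_lit 0) (nat_lit 4628580941) (nat_lit 228) (nat_lit 1887158040) (nat_lit 76) (nat_lit 11212643513) (nat_lit 14) (nat_lit 5) (nat_lit 17) (nat_lit 5) (nat_lit 15) (nat_lit 4) (nat_lit 271) (nat_lit 232) (nat_lit 217))) (XT.nd (nat_lit 78) (nat_lit 152) (nat_lit 0) (XT.lf (nat_lit 0) (nat_lit 8862841878) (nat_lit 76) (nat_lit 1198875273) (nat_lit 152) (nat_lit 8760972522) (nat_lit 13) (nat_lit 5) (nat_lit 14) (nat_lit 5) (nat_lit 15) (nat_lit 4) (nat_lit 272) (nat_lit 232) (nat_lit 216)) (XT.nd (nat_lit 78) (nat_lit 76) (nat_lit 0) (XT.lf (nat_lit 0) (nat_lit 157423174) (nat_lit 76) (nat_lit 15698305172) (nat_lit 76) (nat_lit 4152712704) (nat_lit 12) (nat_lit 4) (nat_lit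 13) (nat_lit 5) (nat_lit 13) (nat_lit 4) (nat_lit 273) (nat_lit 232) (nat_lit 215)) (XT.lf (nat_lit 0) (nat_lit 819489671) (nat_lit 152) (nat_lit 10182388031) (nat_lit 76) (nat_lit 10285634263) (nat_lit 11) (nat_lit 5) (nat_lit 13) (nat_lit 5) (nat_lit 12) (nat_lit 4) (nat_lit 274) (nat_lit 232) (nat_lit 214))))) (XT.nd (nat_lit 156) (nat_lit 152) (nat_lit 0) (XT.nd (nat_lit 78) (nat_lit 76) (nat_lit 0) (XT.lf (nat_lit 0) (nat_lit 5883985493) (nat_lit 152) (nat_lit 93458068) (nat_lit 76) (nat_lit 16696232868) (nat_lit 11) (nat_lit 5) (nat_lit 13) (nat_lit 5) (nat_lit 12) (nat_lit 4) (nat_lit 275) (nat_lit 232) (nat_lit 213)) (XT.lf (nat_lit 0) (nat_lit 10888906765) (nat_lit 76) (nat_lit 484798914) (nat_lit 152) (nat_lit 12796184530) (nat_lit 10) (nat_lit 5) (nat_lit 11) (nat_lit 5) (nat_lit 12) (nat_lit 4) (nat_lit 276) (nat_lit 232) (nat_lit 212))) (XT.nd (nat_lit 78) (nat_lit 152) (nat_lit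 0) (XT.lf (nat_lit 0) (nat_lit 17244867655) (nat_lit 152) (nat_lit 3373991355) (nat_lit 0) (nat_lit 5169976459) (nat_lit 10) (nat_lit 5) (nat_lit 12) (nat_lit 4) (nat_lit 10) (nat_lit 4) (nat_lit 277) (nat_lit 232) (nat_lit 211)) (XT.nd (nat_lit 78) (nat_lit 76) (nat_lit 0) (XT.lf (nat_lit 0) (nat_lit 7314077816) (nat_lit 76) (nat_lit 16260274244) (nat_lit 76) (nat_lit 3963649469) (nat_lit 9) (nat_lit 4) (nat_lit 10) (nat_lit 5) (nat_lit 10) (nat_lit 4) (nat_lit 278) (nat_lit 232) (nat_lit 210)) (XT.lf (nat_lit 0) (nat_lit 881777503) (nat_lit 152) (nat_lit 10694289760) (nat_lit 76) (nat_lit 17853879258) (nat_lit 8) (nat_lit 5) (nat_lit 10) (nat_lit 5) (nat_lit 9) (nat_lit 4) (nat_lit 279) (nat_lit 232) (nat_lit 209))))))) (XT.nd (nat_lit 702) (nat_lit 76) (nat_lit 0) (XT.nd (nat_lit 312) (nat_lit 228) (nat_lit 0) (XT.nd (nat_lit 156) (nat_lit 0) (nat_lit 0) (XT.nd (nat_lit 78) (nat_lit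 76) (nat_lit 0) (XT.lf (nat_lit 0) (nat_lit 5857839360) (nat_lit 152) (nat_lit 683463758) (nat_lit 76) (nat_lit 24934713296) (nat_lit 8) (nat_lit 5) (nat_lit 10) (nat_lit 5) (nat_lit 9) (nat_lit 4) (nat_lit 280) (nat_lit 232) (nat_lit 208)) (XT.lf (nat_lit 0) (nat_lit 10258084135) (nat_lit 76) (nat_lit 1022958716) (nat_lit 152) (nat_lit 22402379527) (nat_lit 7) (nat_lit 5) (nat_lit 8) (nat_lit 5) (nat_lit 9) (nat_lit 4) (nat_lit 281) (nat_lit 232) (nat_lit 207))) (XT.nd (nat_lit 78) (nat_lit 0) (nat_lit 0) (XT.lf (nat_lit 0) (nat_lit 17120134794) (nat_lit 152) (nat_lit 14238654344) (nat_lit 0) (nat_lit 4709625735) (nat_lit 7) (nat_lit 5) (nat_lit 9) (nat_lit 4) (nat_lit 7) (nat_lit 4) (nat_lit 282) (nat_lit 232) (nat_lit 206)) (XT.lf (nat_lit 0) (nat_lit 23344393216) (nat_lit 152) (nat_lit 4513838057) (nat_lit 0) (nat_lit 10790162113) (nat_lit 7) (nat_lit 5) (nat_lit 9) (nat_lit 4) (nat_lit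 7) (nat_lit 4) (nat_lit 283) (nat_lit 232) (nat_lit 205)))) (XT.nd (nat_lit 156) (nat_lit 152) (nat_lit 0) (XT.nd (nat_lit 78) (nat_lit 0) (nat_lit 0) (XT.lf (nat_lit 0) (nat_lit 6015235510) (nat_lit 76) (nat_lit 24053410535) (nat_lit 76) (nat_lit 11366103463) (nat_lit 6) (nat_lit 4) (nat_lit 7) (nat_lit 5) (nat_lit 7) (nat_lit 4) (nat_lit 284) (nat_lit 232) (nat_lit 204)) (XT.lf (nat_lit 0) (nat_lit 17388794700) (nat_lit 76) (nat_lit 19933133239) (nat_lit 76) (nat_lit 7122607678) (nat_lit 6) (nat_lit 4) (nat_lit 7) (nat_lit 5) (nat_lit 7) (nat_lit 4) (nat_lit 285) (nat_lit 232) (nat_lit 203))) (XT.nd (nat_lit 78) (nat_lit 152) (nat_lit 0) (XT.lf (nat_lit 0) (nat_lit 29524990509) (nat_lit 76) (nat_lit 15549426960) (nat_lit 76) (nat_lit 2624810206) (nat_lit 6) (nat_lit 4) (nat_lit 7) (nat_lit 5) (nat_lit 7) (nat_lit 4) (nat_lit 286) (nat_lit 232) (nat_lit 202)) (XT.nd (nat_lit 78) (nat_lit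 76) (nat_lit 0) (XT.lf (nat_lit 0) (nat_lit 2085002955) (nat_lit 152) (nat_lit 8756000690) (nat_lit 76) (nat_lit 40375427646) (nat_lit 5) (nat_lit 5) (nat_lit 7) (nat_lit 5) (nat_lit 6) (nat_lit 4) (nat_lit 287) (nat_lit 232) (nat_lit 201)) (XT.lf (nat_lit 0) (nat_lit 1283891930) (nat_lit 76) (nat_lit 5746334161) (nat_lit 152) (nat_lit 47985161758) (nat_lit 4) (nat_lit 5) (nat_lit 5) (nat_lit 5) (nat_lit 6) (nat_lit 4) (nat_lit 288) (nat_lit 232) (nat_lit 200)))))) (XT.nd (nat_lit 390) (nat_lit 76) (nat_lit 0) (XT.nd (nat_lit 156) (nat_lit 0) (nat_lit 0) (XT.nd (nat_lit 78) (nat_lit 0) (nat_lit 0) (XT.lf (nat_lit 0) (nat_lit 12316604057) (nat_lit 76) (nat_lit 139612958) (nat_lit 152) (nat_lit 46657839581) (nat_lit 4) (nat_lit 5) (nat_lit 5) (nat_lit 5) (nat_lit 6) (nat_lit 4) (nat_lit 289) (nat_lit 232) (nat_lit 199)) (XT.lf (nat_lit 0) (nat_lit 18345458931) (nat_lit 152) (nat_lit 39517340434)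 (nat_lit 0) (nat_lit 5676410114) (nat_lit 4) (nat_lit 5) (nat_lit 6) (nat_lit 4) (nat_lit 4) (nat_lit 4) (nat_lit 290) (nat_lit 232) (nat_lit 198))) (XT.nd (nat_lit 78) (nat_lit 0) (nat_lit 0) (XT.lf (nat_lit 0) (nat_lit 24649686835) (nat_lit 152) (nat_lit 31764853981) (nat_lit 0) (nat_lit 11906687019) (nat_lit 4) (nat_lit 5) (nat_lit 6) (nat_lit 4) (nat_lit 4) (nat_lit 4) (nat_lit 291) (nat_lit 232) (nat_lit 197)) (XT.nd (nat_lit 78) (nat_lit 0) (nat_lit 0) (XT.lf (nat_lit 0) (nat_lit 31404079366) (nat_lit 152) (nat_lit 23491872772) (nat_lit 0) (nat_lit 18592606402) (nat_lit 4) (nat_lit 5) (nat_lit 6) (nat_lit 4) (nat_lit 4) (nat_lit 4) (nat_lit 292) (nat_lit 232) (nat_lit 196)) (XT.lf (nat_lit 0) (nat_lit 38648662554) (nat_lit 152) (nat_lit 14649371733) (nat_lit 0) (nat_lit 25773788527) (nat_lit 4) (nat_lit 5) (nat_lit 6) (nat_lit 4) (nat_lit 4) (nat_lit 4) (nat_lit 293) (nat_lit 232)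 (nat_lit 195))))) (XT.nd (nat_lit 156) (nat_lit 0) (nat_lit 0) (XT.nd (nat_lit 78) (nat_lit 76) (nat_lit 0) (XT.lf (nat_lit 0) (nat_lit 46426367261) (nat_lit 152) (nat_lit 5184950857) (nat_lit 0) (nat_lit 33492788547) (nat_lit 4) (nat_lit 5) (nat_lit 6) (nat_lit 4) (nat_lit 4) (nat_lit 4) (nat_lit 294) (nat_lit 232) (nat_lit 194)) (XT.lf (nat_lit 0) (nat_lit 5121391833) (nat_lit 76) (nat_lit 49741851035) (nat_lit 76) (nat_lit 36753916129) (nat_lit 3) (nat_lit 4) (nat_lit 4) (nat_lit 5) (nat_lit 4) (nat_lit 4) (nat_lit 295) (nat_lit 232) (nat_lit 193))) (XT.nd (nat_lit 78) (nat_lit 0) (nat_lit 0) (XT.lf (nat_lit 0) (nat_lit 16361686178) (nat_lit 76) (nat_lit 47662699603) (nat_lit 76) (nat_lit 34624434890) (nat_lit 3) (nat_lit 4) (nat_lit 4) (nat_lit 5) (nat_lit 4) (nat_lit 4) (nat_lit 296) (nat_lit 232) (nat_lit 192)) (XT.nd (nat_lit 78) (nat_lit 0) (nat_lit 0) (XT.lf (nat_lit 0) (nat_lit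 28431103436) (nat_lit 76) (nat_lit 45449352578) (nat_lit 76) (nat_lit 32364486191) (nat_lit 3) (nat_lit 4) (nat_lit 4) (nat_lit 5) (nat_lit 4) (nat_lit 4) (nat_lit 297) (nat_lit 232) (nat_lit 191)) (XT.lf (nat_lit 0) (nat_lit 41401166081) (nat_lit 76) (nat_lit 43088693829) (nat_lit 76) (nat_lit 29960677744) (nat_lit 3) (nat_lit 4) (nat_lit 4) (nat_lit 5) (nat_lit 4) (nat_lit 4) (nat_lit 298) (nat_lit 232) (nat_lit 190))))))))
noncomputable def xc33 : XT := (XT.nd (nat_lit 1482) (nat_lit 0) (nat_lit 0) (XT.nd (nat_lit 702) (nat_lit 76) (nat_lit 0) (XT.nd (nat_lit 312) (nat_lit 76) (nat_lit 0) (XT.nd (nat_lit 156) (nat_lit 0) (nat_lit 0) (XT.nd (nat_lit 78) (nat_lit 0) (nat_lit 0) (XT.lf (nat_lit 0) (nat_lit 55348733743) (nat_lit 76) (nat_lit 40566734266) (nat_lit 76) (nat_lit 27398764757) (nat_lit 3) (nat_lit 4) (nat_lit 4) (nat_lit 5) (nat_lit 4) (nat_lit 4) (nat_lit 299) (nat_lit 232)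 (nat_lit 189)) (XT.lf (nat_lit 0) (nat_lit 70356458674) (nat_lit 76) (nat_lit 37868528945) (nat_lit 76) (nat_lit 24663565525) (nat_lit 3) (nat_lit 4) (nat_lit 4) (nat_lit 5) (nat_lit 4) (nat_lit 4) (nat_lit 300) (nat_lit 232) (nat_lit 188))) (XT.nd (nat_lit 78) (nat_lit 0) (nat_lit 0) (XT.lf (nat_lit 0) (nat_lit 86513275540) (nat_lit 76) (nat_lit 34978088500) (nat_lit 76) (nat_lit 21738871459) (nat_lit 3) (nat_lit 4) (nat_lit 4) (nat_lit 5) (nat_lit 4) (nat_lit 4) (nat_lit 301) (nat_lit 232) (nat_lit 187)) (XT.lf (nat_lit 0) (nat_lit 103914928443) (nat_lit 76) (nat_lit 31878284395) (nat_lit 76) (nat_lit 18607351038) (nat_lit 3) (nat_lit 4) (nat_lit 4) (nat_lit 5) (nat_lit 4) (nat_lit 4) (nat_lit 302) (nat_lit 232) (nat_lit 186)))) (XT.nd (nat_lit 156) (nat_lit 76) (nat_lit 0) (XT.nd (nat_lit 78) (nat_lit 0) (nat_lit 0) (XT.lf (nat_lit 0) (nat_lit 122664538288) (nat_lit 76) (nat_lit 28550747422)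 (nat_lit 76) (nat_lit 15250447105) (nat_lit 3) (nat_lit 4) (nat_lit 4) (nat_lit 5) (nat_lit 4) (nat_lit 4) (nat_lit 303) (nat_lit 232) (nat_lit 185)) (XT.lf (nat_lit 0) (nat_lit 142873213873) (nat_lit 76) (nat_lit 24975758842) (nat_lit 76) (nat_lit 11648266896) (nat_lit 3) (nat_lit 4) (nat_lit 4) (nat_lit 5) (nat_lit 4) (nat_lit 4) (nat_lit 304) (nat_lit 232) (nat_lit 184))) (XT.nd (nat_lit 78) (nat_lit 76) (nat_lit 0) (XT.lf (nat_lit 0) (nat_lit 164660710314) (nat_lit 76) (nat_lit 21132133537) (nat_lit 76) (nat_lit 7779464158) (nat_lit 3) (nat_lit 4) (nat_lit 4) (nat_lit 5) (nat_lit 4) (nat_lit 4) (nat_lit 305) (nat_lit 232) (nat_lit 183)) (XT.nd (nat_lit 78) (nat_lit 76) (nat_lit 0) (XT.lf (nat_lit 0) (nat_lit 188156138701) (nat_lit 76) (nat_lit 16997094470) (nat_lit 76) (nat_lit 3621112651) (nat_lit 3) (nat_lit 4) (nat_lit 4) (nat_lit 5) (nat_lit 4) (nat_lit 4) (nat_lit 306) (nat_lit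 232) (nat_lit 182)) (XT.lf (nat_lit 0) (nat_lit 824178637) (nat_lit 152) (nat_lit 11708001202) (nat_lit 76) (nat_lit 212660594700) (nat_lit 2) (nat_lit 5) (nat_lit 4) (nat_lit 5) (nat_lit 3) (nat_lit 4) (nat_lit 307) (nat_lit 232) (nat_lit 181)))))) (XT.nd (nat_lit 390) (nat_lit 0) (nat_lit 0) (XT.nd (nat_lit 156) (nat_lit 0) (nat_lit 0) (XT.nd (nat_lit 78) (nat_lit 76) (nat_lit 0) (XT.lf (nat_lit 0) (nat_lit 5483362152) (nat_lit 152) (nat_lit 2176661656) (nat_lit 76) (nat_lit 235262440598) (nat_lit 2) (nat_lit 5) (nat_lit 4) (nat_lit 5) (nat_lit 3) (nat_lit 4) (nat_lit 308) (nat_lit 232) (nat_lit 180)) (XT.lf (nat_lit 0) (nat_lit 8356282469) (nat_lit 76) (nat_lit 2274128605) (nat_lit 152) (nat_lit 251434372714) (nat_lit 1) (nat_lit 5) (nat_lit 2) (nat_lit 5) (nat_lit 3) (nat_lit 4) (nat_lit 309) (nat_lit 232) (nat_lit 179))) (XT.nd (nat_lit 78) (nat_lit 0) (nat_lit 0) (XT.lf (nat_lit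 0) (nat_lit 16268254990) (nat_lit 152) (nat_lit 263010604458) (nat_lit 0) (nat_lit 3455687777) (nat_lit 1) (nat_lit 5) (nat_lit 3) (nat_lit 4) (nat_lit 1) (nat_lit 4) (nat_lit 310) (nat_lit 232) (nat_lit 178)) (XT.nd (nat_lit 78) (nat_lit 0) (nat_lit 0) (XT.lf (nat_lit 0) (nat_lit 22381752891) (nat_lit 152) (nat_lit 273120841685) (nat_lit 0) (nat_lit 9554075150) (nat_lit 1) (nat_lit 5) (nat_lit 3) (nat_lit 4) (nat_lit 1) (nat_lit 4) (nat_lit 311) (nat_lit 232) (nat_lit 177)) (XT.lf (nat_lit 0) (nat_lit 28971627392) (nat_lit 152) (nat_lit 284063619996) (nat_lit 0) (nat_lit 16129958422) (nat_lit 1) (nat_lit 5) (nat_lit 3) (nat_lit 4) (nat_lit 1) (nat_lit 4) (nat_lit 312) (nat_lit 232) (nat_lit 176))))) (XT.nd (nat_lit 156) (nat_lit 0) (nat_lit 0) (XT.nd (nat_lit 78) (nat_lit 0) (nat_lit 0) (XT.lf (nat_lit 0) (nat_lit 36076929603) (nat_lit 152) (nat_lit 295903785485) (nat_lit 0) (nat_lit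 23222305790) (nat_lit 1) (nat_lit 5) (nat_lit 3) (nat_lit 4) (nat_lit 1) (nat_lit 4) (nat_lit 313) (nat_lit 232) (nat_lit 175)) (XT.lf (nat_lit 0) (nat_lit 43739765017) (nat_lit 152) (nat_lit 308711502095) (nat_lit 0) (nat_lit 30873145980) (nat_lit 1) (nat_lit 5) (nat_lit 3) (nat_lit 4) (nat_lit 1) (nat_lit 4) (nat_lit 314) (nat_lit 232) (nat_lit 174))) (XT.nd (nat_lit 78) (nat_lit 0) (nat_lit 0) (XT.lf (nat_lit 0) (nat_lit 52005543030) (nat_lit 152) (nat_lit 322562667407) (nat_lit 0) (nat_lit 39127817304) (nat_lit 1) (nat_lit 5) (nat_lit 3) (nat_lit 4) (nat_lit 1) (nat_lit 4) (nat_lit 315) (nat_lit 232) (nat_lit 173)) (XT.nd (nat_lit 78) (nat_lit 0) (nat_lit 0) (XT.lf (nat_lit 0) (nat_lit 60923246030) (nat_lit 152) (nat_lit 337539362400) (nat_lit 0) (nat_lit 48035236332) (nat_lit 1) (nat_lit 5) (nat_lit 3) (nat_lit 4) (nat_lit 1) (nat_lit 4) (nat_lit 316) (nat_lit 232) (nat_lit 172))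 (XT.lf (nat_lit 0) (nat_lit 70545719664) (nat_lit 152) (nat_lit 353730337860) (nat_lit 0) (nat_lit 57648187770) (nat_lit 1) (nat_lit 5) (nat_lit 3) (nat_lit 4) (nat_lit 1) (nat_lit 4) (nat_lit 317) (nat_lit 232) (nat_lit 171))))))) (XT.nd (nat_lit 32604) (nat_lit 0) (nat_lit 1824) (XT.nd (nat_lit 312) (nat_lit 0) (nat_lit 0) (XT.nd (nat_lit 156) (nat_lit 0) (nat_lit 0) (XT.nd (nat_lit 78) (nat_lit 0) (nat_lit 0) (XT.lf (nat_lit 0) (nat_lit 80929985998) (nat_lit 152) (nat_lit 371231540307) (nat_lit 0) (nat_lit 68023637257) (nat_lit 1) (nat_lit 5) (nat_lit 3) (nat_lit 4) (nat_lit 1) (nat_lit 4) (nat_lit 318) (nat_lit 232) (nat_lit 170)) (XT.lf (nat_lit 0) (nat_lit 92137581426) (nat_lit 152) (nat_lit 390146680570) (nat_lit 0) (nat_lit 79223068936) (nat_lit 1) (nat_lit 5) (nat_lit 3) (nat_lit 4) (nat_lit 1) (nat_lit 4) (nat_lit 319) (nat_lit 232) (nat_lit 169))) (XT.nd (nat_lit 78) (nat_lit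 0) (nat_lit 0) (XT.lf (nat_lit 0) (nat_lit 104234921327) (nat_lit 152) (nat_lit 410587848371) (nat_lit 0) (nat_lit 91312849812) (nat_lit 1) (nat_lit 5) (nat_lit 3) (nat_lit 4) (nat_lit 1) (nat_lit 4) (nat_lit 320) (nat_lit 232) (nat_lit 168)) (XT.lf (nat_lit 0) (nat_lit 117293693642) (nat_lit 152) (nat_lit 432676176555) (nat_lit 0) (nat_lit 104364623029) (nat_lit 1) (nat_lit 5) (nat_lit 3) (nat_lit 4) (nat_lit 1) (nat_lit 4) (nat_lit 321) (nat_lit 232) (nat_lit 167)))) (XT.nd (nat_lit 156) (nat_lit 0) (nat_lit 0) (XT.nd (nat_lit 78) (nat_lit 0) (nat_lit 0) (XT.lf (nat_lit 0) (nat_lit 131391283688) (nat_lit 152) (nat_lit 456542558918) (nat_lit 0) (nat_lit 118455732428) (nat_lit 1) (nat_lit 5) (nat_lit 3) (nat_lit 4) (nat_lit 1) (nat_lit 4) (nat_lit 322) (nat_lit 232) (nat_lit 166)) (XT.lf (nat_lit 0) (nat_lit 146611232740) (nat_lit 152) (nat_lit 482328425876) (nat_lit 0) (nat_lit 133669680882)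 (nat_lit 1) (nat_lit 5) (nat_lit 3) (nat_lit 4) (nat_lit 1) (nat_lit 4) (nat_lit 323) (nat_lit 232) (nat_lit 165))) (XT.nd (nat_lit 78) (nat_lit 0) (nat_lit 0) (XT.lf (nat_lit 0) (nat_lit 163043733088) (nat_lit 152) (nat_lit 510186582564) (nat_lit 0) (nat_lit 150096625120) (nat_lit 1) (nat_lit 5) (nat_lit 3) (nat_lit 4) (nat_lit 1) (nat_lit 4) (nat_lit 324) (nat_lit 232) (nat_lit 164)) (XT.nd (nat_lit 31980) (nat_lit 0) (nat_lit 4028) (XT.lf (nat_lit 0) (nat_lit 180786162512) (nat_lit 152) (nat_lit 540282114357) (nat_lit 0) (nat_lit 167833909998) (nat_lit 1) (nat_lit 5) (nat_lit 3) (nat_lit 4) (nat_lit 1) (nat_lit 4) (nat_lit 325) (nat_lit 232) (nat_lit 163)) (XT.lf (nat_lit 0) (nat_lit 214562198) (nat_lit 304) (nat_lit 1908194523) (nat_lit 304) (nat_lit 1908194523) (nat_lit 54) (nat_lit 4) (nat_lit 58) (nat_lit 5) (nat_lit 58) (nat_lit 4) (nat_lit 254) (nat_lit 233) (nat_lit 233))))))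 (XT.nd (nat_lit 390) (nat_lit 836) (nat_lit 0) (XT.nd (nat_lit 156) (nat_lit 760) (nat_lit 0) (XT.nd (nat_lit 78) (nat_lit 304) (nat_lit 0) (XT.lf (nat_lit 0) (nat_lit 985596957) (nat_lit 228) (nat_lit 407411136) (nat_lit 304) (nat_lit 6930905227) (nat_lit 50) (nat_lit 5) (nat_lit 53) (nat_lit 5) (nat_lit 54) (nat_lit 4) (nat_lit 255) (nat_lit 233) (nat_lit 232)) (XT.lf (nat_lit 0) (nat_lit 1417281521) (nat_lit 304) (nat_lit 5312687862) (nat_lit 304) (nat_lit 1882577774) (nat_lit 46) (nat_lit 4) (nat_lit 50) (nat_lit 5) (nat_lit 50) (nat_lit 4) (nat_lit 256) (nat_lit 233) (nat_lit 231))) (XT.nd (nat_lit 78) (nat_lit 456) (nat_lit 0) (XT.lf (nat_lit 0) (nat_lit 1740458383) (nat_lit 228) (nat_lit 1526617198) (nat_lit 304) (nat_lit 5664720284) (nat_lit 42) (nat_lit 5) (nat_lit 45) (nat_lit 5) (nat_lit 46) (nat_lit 4) (nat_lit 257) (nat_lit 233) (nat_lit 230)) (XT.nd (nat_lit 78) (nat_lit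 228) (nat_lit 0) (XT.lf (nat_lit 0) (nat_lit 1901308900) (nat_lit 228) (nat_lit 6724456421) (nat_lit 228) (nat_lit 656954873) (nat_lit 39) (nat_lit 4) (nat_lit 42) (nat_lit 5) (nat_lit 42) (nat_lit 4) (nat_lit 258) (nat_lit 233) (nat_lit 229)) (XT.lf (nat_lit 0) (nat_lit 1824450886) (nat_lit 152) (nat_lit 2633459435) (nat_lit 228) (nat_lit 5207903075) (nat_lit 36) (nat_lit 5) (nat_lit 38) (nat_lit 5) (nat_lit 39) (nat_lit 4) (nat_lit 259) (nat_lit 233) (nat_lit 228))))) (XT.nd (nat_lit 156) (nat_lit 380) (nat_lit 0) (XT.nd (nat_lit 78) (nat_lit 228) (nat_lit 0) (XT.lf (nat_lit 0) (nat_lit 1515836911) (nat_lit 228) (nat_lit 8317764704) (nat_lit 228) (nat_lit 252358864) (nat_lit 33) (nat_lit 4) (nat_lit 36) (nat_lit 5) (nat_lit 36) (nat_lit 4) (nat_lit 260) (nat_lit 233) (nat_lit 227)) (XT.lf (nat_lit 0) (nat_lit 829223364) (nat_lit 152) (nat_lit 4006205024) (nat_lit 228) (nat_lit 5705956504)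 (nat_lit 30) (nat_lit 5) (nat_lit 32) (nat_lit 5) (nat_lit 33) (nat_lit 4) (nat_lit 261) (nat_lit 233) (nat_lit 226))) (XT.nd (nat_lit 78) (nat_lit 380) (nat_lit 0) (XT.lf (nat_lit 0) (nat_lit 10199513387) (nat_lit 228) (nat_lit 189225165) (nat_lit 0) (nat_lit 650945298) (nat_lit 30) (nat_lit 5) (nat_lit 33) (nat_lit 4) (nat_lit 30) (nat_lit 4) (nat_lit 262) (nat_lit 233) (nat_lit 225)) (XT.nd (nat_lit 78) (nat_lit 152) (nat_lit 0) (XT.lf (nat_lit 0) (nat_lit 4232388372) (nat_lit 228) (nat_lit 1703381501) (nat_lit 76) (nat_lit 5641177619) (nat_lit 27) (nat_lit 5) (nat_lit 30) (nat_lit 5) (nat_lit 28) (nat_lit 4) (nat_lit 263) (nat_lit 233) (nat_lit 224)) (XT.lf (nat_lit 0) (nat_lit 8455024346) (nat_lit 152) (nat_lit 1108117364) (nat_lit 228) (nat_lit 2599722324) (nat_lit 25) (nat_lit 5) (nat_lit 27) (nat_lit 5) (nat_lit 28) (nat_lit 4) (nat_lit 264) (nat_lit 233) (nat_lit 223))))))))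
noncomputable def xc34 : XT := (XT.nd (nat_lit 1482) (nat_lit 304) (nat_lit 0) (XT.nd (nat_lit 702) (nat_lit 456) (nat_lit 0) (XT.nd (nat_lit 312) (nat_lit 380) (nat_lit 0) (XT.nd (nat_lit 156) (nat_lit 228) (nat_lit 0) (XT.nd (nat_lit 78) (nat_lit 76) (nat_lit 0) (XT.lf (nat_lit 0) (nat_lit 2394569005) (nat_lit 228) (nat_lit 6388318681) (nat_lit 76) (nat_lit 4013660000) (nat_lit 22) (nat_lit 5) (nat_lit 25) (nat_lit 5) (nat_lit 23) (nat_lit 4) (nat_lit 265) (nat_lit 233) (nat_lit 222)) (XT.lf (nat_lit 0) (nat_lit 3664847803) (nat_lit 76) (nat_lit 3940251176) (nat_lit 152) (nat_lit 5878676134) (nat_lit 21) (nat_lit 5) (nat_lit 22) (nat_lit 5) (nat_lit 23) (nat_lit 4) (nat_lit 266) (nat_lit 233) (nat_lit 221))) (XT.nd (nat_lit 78) (nat_lit 76) (nat_lit 0) (XT.lf (nat_lit 0) (nat_lit 142446765) (nat_lit 152) (nat_lit 13000125902) (nat_lit 152) (nat_lit 1088244529) (nat_lit 19) (nat_lit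 4) (nat_lit 21) (nat_lit 5) (nat_lit 21) (nat_lit 4) (nat_lit 267) (nat_lit 233) (nat_lit 220)) (XT.lf (nat_lit 0) (nat_lit 3976929606) (nat_lit 228) (nat_lit 4272288851) (nat_lit 76) (nat_lit 6784402767) (nat_lit 18) (nat_lit 5) (nat_lit 21) (nat_lit 5) (nat_lit 19) (nat_lit 4) (nat_lit 268) (nat_lit 233) (nat_lit 219)))) (XT.nd (nat_lit 156) (nat_lit 152) (nat_lit 0) (XT.nd (nat_lit 78) (nat_lit 152) (nat_lit 0) (XT.lf (nat_lit 0) (nat_lit 6173552218) (nat_lit 76) (nat_lit 3130668049) (nat_lit 152) (nat_lit 6601064694) (nat_lit 17) (nat_lit 5) (nat_lit 18) (nat_lit 5) (nat_lit 19) (nat_lit 4) (nat_lit 269) (nat_lit 233) (nat_lit 218)) (XT.lf (nat_lit 0) (nat_lit 411098535) (nat_lit 152) (nat_lit 14572167706) (nat_lit 152) (nat_lit 1867395161) (nat_lit 15) (nat_lit 4) (nat_lit 17) (nat_lit 5) (nat_lit 17) (nat_lit 4) (nat_lit 270) (nat_lit 233) (nat_lit 217))) (XT.nd (nat_lit 78) (nat_lit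 76) (nat_lit 0) (XT.lf (nat_lit 0) (nat_lit 3178489975) (nat_lit 228) (nat_lit 6576797407) (nat_lit 76) (nat_lit 8112206053) (nat_lit 14) (nat_lit 5) (nat_lit 17) (nat_lit 5) (nat_lit 15) (nat_lit 4) (nat_lit 271) (nat_lit 233) (nat_lit 216)) (XT.nd (nat_lit 78) (nat_lit 0) (nat_lit 0) (XT.lf (nat_lit 0) (nat_lit 3870867627) (nat_lit 76) (nat_lit 4579260808) (nat_lit 152) (nat_lit 10519848426) (nat_lit 13) (nat_lit 5) (nat_lit 14) (nat_lit 5) (nat_lit 15) (nat_lit 4) (nat_lit 272) (nat_lit 233) (nat_lit 215)) (XT.lf (nat_lit 0) (nat_lit 14108518153) (nat_lit 152) (nat_lit 5073645455) (nat_lit 0) (nat_lit 980439557) (nat_lit 13) (nat_lit 5) (nat_lit 15) (nat_lit 4) (nat_lit 13) (nat_lit 4) (nat_lit 273) (nat_lit 233) (nat_lit 214)))))) (XT.nd (nat_lit 390) (nat_lit 152) (nat_lit 0) (XT.nd (nat_lit 156) (nat_lit 152) (nat_lit 0) (XT.nd (nat_lit 78) (nat_lit 76) (nat_lit 0) (XT.lf (nat_lit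 0) (nat_lit 5586694667) (nat_lit 76) (nat_lit 14642504850) (nat_lit 76) (nat_lit 1221139782) (nat_lit 12) (nat_lit 4) (nat_lit 13) (nat_lit 5) (nat_lit 13) (nat_lit 4) (nat_lit 274) (nat_lit 233) (nat_lit 213)) (XT.lf (nat_lit 0) (nat_lit 3810352805) (nat_lit 152) (nat_lit 5881703364) (nat_lit 76) (nat_lit 13149081863) (nat_lit 11) (nat_lit 5) (nat_lit 13) (nat_lit 5) (nat_lit 12) (nat_lit 4) (nat_lit 275) (nat_lit 233) (nat_lit 212))) (XT.nd (nat_lit 78) (nat_lit 76) (nat_lit 0) (XT.lf (nat_lit 0) (nat_lit 4788699989) (nat_lit 76) (nat_lit 4349384148) (nat_lit 152) (nat_lit 15207438072) (nat_lit 10) (nat_lit 5) (nat_lit 11) (nat_lit 5) (nat_lit 12) (nat_lit 4) (nat_lit 276) (nat_lit 233) (nat_lit 211)) (XT.nd (nat_lit 78) (nat_lit 76) (nat_lit 0) (XT.lf (nat_lit 0) (nat_lit 14884611811) (nat_lit 152) (nat_lit 9703629595) (nat_lit 0) (nat_lit 1382523476) (nat_lit 10) (nat_lit 5) (nat_lit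 12) (nat_lit 4) (nat_lit 10) (nat_lit 4) (nat_lit 277) (nat_lit 233) (nat_lit 210)) (XT.lf (nat_lit 0) (nat_lit 665976912) (nat_lit 76) (nat_lit 20384789284) (nat_lit 76) (nat_lit 6677392080) (nat_lit 9) (nat_lit 4) (nat_lit 10) (nat_lit 5) (nat_lit 10) (nat_lit 4) (nat_lit 278) (nat_lit 233) (nat_lit 209))))) (XT.nd (nat_lit 156) (nat_lit 76) (nat_lit 0) (XT.nd (nat_lit 78) (nat_lit 76) (nat_lit 0) (XT.lf (nat_lit 0) (nat_lit 12001400078) (nat_lit 76) (nat_lit 15759901889) (nat_lit 76) (nat_lit 1862403881) (nat_lit 9) (nat_lit 4) (nat_lit 10) (nat_lit 5) (nat_lit 10) (nat_lit 4) (nat_lit 279) (nat_lit 233) (nat_lit 208)) (XT.lf (nat_lit 0) (nat_lit 3119852706) (nat_lit 152) (nat_lit 7677819224) (nat_lit 76) (nat_lit 20876278040) (nat_lit 8) (nat_lit 5) (nat_lit 10) (nat_lit 5) (nat_lit 9) (nat_lit 4) (nat_lit 280) (nat_lit 233) (nat_lit 207))) (XT.nd (nat_lit 78) (nat_lit 0) (nat_lit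 0) (XT.lf (nat_lit 0) (nat_lit 2941193588) (nat_lit 76) (nat_lit 5438168196) (nat_lit 152) (nat_lit 25510224862) (nat_lit 7) (nat_lit 5) (nat_lit 8) (nat_lit 5) (nat_lit 9) (nat_lit 4) (nat_lit 281) (nat_lit 233) (nat_lit 206)) (XT.nd (nat_lit 78) (nat_lit 0) (nat_lit 0) (XT.lf (nat_lit 0) (nat_lit 14101822901) (nat_lit 152) (nat_lit 21779099102) (nat_lit 0) (nat_lit 399531264) (nat_lit 7) (nat_lit 5) (nat_lit 9) (nat_lit 4) (nat_lit 7) (nat_lit 4) (nat_lit 282) (nat_lit 233) (nat_lit 205)) (XT.lf (nat_lit 0) (nat_lit 20281917405) (nat_lit 152) (nat_lit 12134212202) (nat_lit 0) (nat_lit 6446549799) (nat_lit 7) (nat_lit 5) (nat_lit 9) (nat_lit 4) (nat_lit 7) (nat_lit 4) (nat_lit 283) (nat_lit 233) (nat_lit 204))))))) (XT.nd (nat_lit 702) (nat_lit 76) (nat_lit 0) (XT.nd (nat_lit 312) (nat_lit 152) (nat_lit 0) (XT.nd (nat_lit 156) (nat_lit 0) (nat_lit 0) (XT.nd (nat_lit 78) (nat_lit 76)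 (nat_lit 0) (XT.lf (nat_lit 0) (nat_lit 26871363033) (nat_lit 152) (nat_lit 1871672426) (nat_lit 0) (nat_lit 12912776938) (nat_lit 7) (nat_lit 5) (nat_lit 9) (nat_lit 4) (nat_lit 7) (nat_lit 4) (nat_lit 284) (nat_lit 233) (nat_lit 203)) (XT.lf (nat_lit 0) (nat_lit 9369208456) (nat_lit 76) (nat_lit 24686279496) (nat_lit 76) (nat_lit 10613602208) (nat_lit 6) (nat_lit 4) (nat_lit 7) (nat_lit 5) (nat_lit 7) (nat_lit 4) (nat_lit 285) (nat_lit 233) (nat_lit 202))) (XT.nd (nat_lit 78) (nat_lit 0) (nat_lit 0) (XT.lf (nat_lit 0) (nat_lit 21439855781) (nat_lit 76) (nat_lit 20332039563) (nat_lit 76) (nat_lit 6153722281) (nat_lit 6) (nat_lit 4) (nat_lit 7) (nat_lit 5) (nat_lit 7) (nat_lit 4) (nat_lit 286) (nat_lit 233) (nat_lit 201)) (XT.lf (nat_lit 0) (nat_lit 34349913365) (nat_lit 76) (nat_lit 15686210436) (nat_lit 76) (nat_lit 1410078344) (nat_lit 6) (nat_lit 4) (nat_lit 7) (nat_lit 5) (nat_lit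 7) (nat_lit 4) (nat_lit 287) (nat_lit 233) (nat_lit 200)))) (XT.nd (nat_lit 156) (nat_lit 0) (nat_lit 0) (XT.nd (nat_lit 78) (nat_lit 76) (nat_lit 0) (XT.lf (nat_lit 0) (nat_lit 3528763234) (nat_lit 152) (nat_lit 7132736728) (nat_lit 76) (nat_lit 44587360708) (nat_lit 5) (nat_lit 5) (nat_lit 7) (nat_lit 5) (nat_lit 6) (nat_lit 4) (nat_lit 288) (nat_lit 233) (nat_lit 199)) (XT.lf (nat_lit 0) (nat_lit 3609360219) (nat_lit 76) (nat_lit 5200357835) (nat_lit 152) (nat_lit 50545086832) (nat_lit 4) (nat_lit 5) (nat_lit 5) (nat_lit 5) (nat_lit 6) (nat_lit 4) (nat_lit 289) (nat_lit 233) (nat_lit 198))) (XT.nd (nat_lit 78) (nat_lit 0) (nat_lit 0) (XT.lf (nat_lit 0) (nat_lit 14591818956) (nat_lit 152) (nat_lit 48438089618) (nat_lit 0) (nat_lit 755428155) (nat_lit 4) (nat_lit 5) (nat_lit 6) (nat_lit 4) (nat_lit 4) (nat_lit 4) (nat_lit 290) (nat_lit 233) (nat_lit 197)) (XT.nd (nat_lit 78) (nat_lit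 0) (nat_lit 0) (XT.lf (nat_lit 0) (nat_lit 20870001858) (nat_lit 152) (nat_lit 40733537858) (nat_lit 0) (nat_lit 6965137909) (nat_lit 4) (nat_lit 5) (nat_lit 6) (nat_lit 4) (nat_lit 4) (nat_lit 4) (nat_lit 291) (nat_lit 233) (nat_lit 196)) (XT.lf (nat_lit 0) (nat_lit 27600278646) (nat_lit 152) (nat_lit 32504940623) (nat_lit 0) (nat_lit 13632013634) (nat_lit 4) (nat_lit 5) (nat_lit 6) (nat_lit 4) (nat_lit 4) (nat_lit 4) (nat_lit 292) (nat_lit 233) (nat_lit 195)))))) (XT.nd (nat_lit 390) (nat_lit 0) (nat_lit 0) (XT.nd (nat_lit 156) (nat_lit 76) (nat_lit 0) (XT.nd (nat_lit 78) (nat_lit 0) (nat_lit 0) (XT.lf (nat_lit 0) (nat_lit 34822532441) (nat_lit 152) (nat_lit 23703535857) (nat_lit 0) (nat_lit 20795562742) (nat_lit 4) (nat_lit 5) (nat_lit 6) (nat_lit 4) (nat_lit 4) (nat_lit 4) (nat_lit 293) (nat_lit 233) (nat_lit 194)) (XT.lf (nat_lit 0) (nat_lit 42579561785) (nat_lit 152) (nat_lit 14277167085)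 (nat_lit 0) (nat_lit 28498235894) (nat_lit 4) (nat_lit 5) (nat_lit 6) (nat_lit 4) (nat_lit 4) (nat_lit 4) (nat_lit 294) (nat_lit 233) (nat_lit 193))) (XT.nd (nat_lit 78) (nat_lit 76) (nat_lit 0) (XT.lf (nat_lit 0) (nat_lit 50917334259) (nat_lit 152) (nat_lit 4169974346) (nat_lit 0) (nat_lit 36785678561) (nat_lit 4) (nat_lit 5) (nat_lit 6) (nat_lit 4) (nat_lit 4) (nat_lit 4) (nat_lit 295) (nat_lit 233) (nat_lit 192)) (XT.nd (nat_lit 78) (nat_lit 0) (nat_lit 0) (XT.lf (nat_lit 0) (nat_lit 6898739586) (nat_lit 76) (nat_lit 53094227958) (nat_lit 76) (nat_lit 38915970586) (nat_lit 3) (nat_lit 4) (nat_lit 4) (nat_lit 5) (nat_lit 4) (nat_lit 4) (nat_lit 296) (nat_lit 233) (nat_lit 191)) (XT.lf (nat_lit 0) (nat_lit 18936951078) (nat_lit 76) (nat_lit 50895186720) (nat_lit 76) (nat_lit 36673779650) (nat_lit 3) (nat_lit 4) (nat_lit 4) (nat_lit 5) (nat_lit 4) (nat_lit 4) (nat_lit 297) (nat_lit 233)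 (nat_lit 190))))) (XT.nd (nat_lit 156) (nat_lit 0) (nat_lit 0) (XT.nd (nat_lit 78) (nat_lit 0) (nat_lit 0) (XT.lf (nat_lit 0) (nat_lit 31878119494) (nat_lit 76) (nat_lit 48547774070) (nat_lit 76) (nat_lit 34286413576) (nat_lit 3) (nat_lit 4) (nat_lit 4) (nat_lit 5) (nat_lit 4) (nat_lit 4) (nat_lit 298) (nat_lit 233) (nat_lit 189)) (XT.lf (nat_lit 0) (nat_lit 45798933241) (nat_lit 76) (nat_lit 46038079414) (nat_lit 76) (nat_lit 31739725010) (nat_lit 3) (nat_lit 4) (nat_lit 4) (nat_lit 5) (nat_lit 4) (nat_lit 4) (nat_lit 299) (nat_lit 233) (nat_lit 188))) (XT.nd (nat_lit 78) (nat_lit 0) (nat_lit 0) (XT.lf (nat_lit 0) (nat_lit 60781886028) (nat_lit 76) (nat_lit 43351230488) (nat_lit 76) (nat_lit 29018622462) (nat_lit 3) (nat_lit 4) (nat_lit 4) (nat_lit 5) (nat_lit 4) (nat_lit 4) (nat_lit 300) (nat_lit 233) (nat_lit 187)) (XT.nd (nat_lit 78) (nat_lit 0) (nat_lit 0) (XT.lf (nat_lit 0) (nat_lit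 76915765725) (nat_lit 76) (nat_lit 40471305224) (nat_lit 76) (nat_lit 26106980882) (nat_lit 3) (nat_lit 4) (nat_lit 4) (nat_lit 5) (nat_lit 4) (nat_lit 4) (nat_lit 301) (nat_lit 233) (nat_lit 186)) (XT.lf (nat_lit 0) (nat_lit 94296180507) (nat_lit 76) (nat_lit 37381237398) (nat_lit 76) (nat_lit 22987546097) (nat_lit 3) (nat_lit 4) (nat_lit 4) (nat_lit 5) (nat_lit 4) (nat_lit 4) (nat_lit 302) (nat_lit 233) (nat_lit 185))))))))
noncomputable def xc35 : XT := (XT.nd (nat_lit 1482) (nat_lit 0) (nat_lit 0) (XT.nd (nat_lit 702) (nat_lit 0) (nat_lit 0) (XT.nd (nat_lit 312) (nat_lit 152) (nat_lit 0) (XT.nd (nat_lit 156) (nat_lit 0) (nat_lit 0) (XT.nd (nat_lit 78) (nat_lit 0) (nat_lit 0) (XT.lf (nat_lit 0) (nat_lit 113026125426) (nat_lit 76) (nat_lit 34062715497) (nat_lit 76) (nat_lit 19641832567) (nat_lit 3) (nat_lit 4) (nat_lit 4) (nat_lit 5) (nat_lit 4) (nat_lit 4) (nat_lit 303) (nat_lit 233)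 (nat_lit 184)) (XT.lf (nat_lit 0) (nat_lit 133216592746) (nat_lit 76) (nat_lit 30496074206) (nat_lit 76) (nat_lit 16050013842) (nat_lit 3) (nat_lit 4) (nat_lit 4) (nat_lit 5) (nat_lit 4) (nat_lit 4) (nat_lit 304) (nat_lit 233) (nat_lit 183))) (XT.nd (nat_lit 78) (nat_lit 0) (nat_lit 0) (XT.lf (nat_lit 0) (nat_lit 154987229683) (nat_lit 76) (nat_lit 26660177874) (nat_lit 76) (nat_lit 12190805071) (nat_lit 3) (nat_lit 4) (nat_lit 4) (nat_lit 5) (nat_lit 4) (nat_lit 4) (nat_lit 305) (nat_lit 233) (nat_lit 182)) (XT.lf (nat_lit 0) (nat_lit 178467047417) (nat_lit 76) (nat_lit 22532295262) (nat_lit 76) (nat_lit 8041336867) (nat_lit 3) (nat_lit 4) (nat_lit 4) (nat_lit 5) (nat_lit 4) (nat_lit 4) (nat_lit 306) (nat_lit 233) (nat_lit 181)))) (XT.nd (nat_lit 156) (nat_lit 76) (nat_lit 0) (XT.nd (nat_lit 78) (nat_lit 76) (nat_lit 0) (XT.lf (nat_lit 0) (nat_lit 203795185610) (nat_lit 76) (nat_lit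 18087964844) (nat_lit 76) (nat_lit 3577019790) (nat_lit 3) (nat_lit 4) (nat_lit 4) (nat_lit 5) (nat_lit 4) (nat_lit 4) (nat_lit 307) (nat_lit 233) (nat_lit 180)) (XT.lf (nat_lit 0) (nat_lit 1189278455) (nat_lit 152) (nat_lit 12091430384) (nat_lit 76) (nat_lit 229912317469) (nat_lit 2) (nat_lit 5) (nat_lit 4) (nat_lit 5) (nat_lit 3) (nat_lit 4) (nat_lit 308) (nat_lit 233) (nat_lit 179))) (XT.nd (nat_lit 78) (nat_lit 76) (nat_lit 0) (XT.lf (nat_lit 0) (nat_lit 6199036242) (nat_lit 152) (nat_lit 1838562261) (nat_lit 76) (nat_lit 254304616581) (nat_lit 2) (nat_lit 5) (nat_lit 4) (nat_lit 5) (nat_lit 3) (nat_lit 4) (nat_lit 309) (nat_lit 233) (nat_lit 178)) (XT.nd (nat_lit 78) (nat_lit 0) (nat_lit 0) (XT.lf (nat_lit 0) (nat_lit 9514756402) (nat_lit 76) (nat_lit 2230223605) (nat_lit 152) (nat_lit 271271597999) (nat_lit 1) (nat_lit 5) (nat_lit 2) (nat_lit 5) (nat_lit 3) (nat_lit 4) (nat_lit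 310) (nat_lit 233) (nat_lit 177)) (XT.lf (nat_lit 0) (nat_lit 17817550544) (nat_lit 152) (nat_lit 283588643648) (nat_lit 0) (nat_lit 3934556826) (nat_lit 1) (nat_lit 5) (nat_lit 3) (nat_lit 4) (nat_lit 1) (nat_lit 4) (nat_lit 311) (nat_lit 233) (nat_lit 176)))))) (XT.nd (nat_lit 390) (nat_lit 0) (nat_lit 0) (XT.nd (nat_lit 156) (nat_lit 0) (nat_lit 0) (XT.nd (nat_lit 78) (nat_lit 0) (nat_lit 0) (XT.lf (nat_lit 0) (nat_lit 24401770117) (nat_lit 152) (nat_lit 294541982014) (nat_lit 0) (nat_lit 10505821557) (nat_lit 1) (nat_lit 5) (nat_lit 3) (nat_lit 4) (nat_lit 1) (nat_lit 4) (nat_lit 312) (nat_lit 233) (nat_lit 175)) (XT.lf (nat_lit 0) (nat_lit 31501836283) (nat_lit 152) (nat_lit 306391925331) (nat_lit 0) (nat_lit 17593892499) (nat_lit 1) (nat_lit 5) (nat_lit 3) (nat_lit 4) (nat_lit 1) (nat_lit 4) (nat_lit 313) (nat_lit 233) (nat_lit 174))) (XT.nd (nat_lit 78) (nat_lit 0) (nat_lit 0)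 (XT.lf (nat_lit 0) (nat_lit 39159823508) (nat_lit 152) (nat_lit 319208695486) (nat_lit 0) (nat_lit 25240773034) (nat_lit 1) (nat_lit 5) (nat_lit 3) (nat_lit 4) (nat_lit 1) (nat_lit 4) (nat_lit 314) (nat_lit 233) (nat_lit 173)) (XT.nd (nat_lit 78) (nat_lit 0) (nat_lit 0) (XT.lf (nat_lit 0) (nat_lit 47421112456) (nat_lit 152) (nat_lit 333068243709) (nat_lit 0) (nat_lit 33491778011) (nat_lit 1) (nat_lit 5) (nat_lit 3) (nat_lit 4) (nat_lit 1) (nat_lit 4) (nat_lit 315) (nat_lit 233) (nat_lit 172)) (XT.lf (nat_lit 0) (nat_lit 56334658915) (nat_lit 152) (nat_lit 348052700658) (nat_lit 0) (nat_lit 42395802274) (nat_lit 1) (nat_lit 5) (nat_lit 3) (nat_lit 4) (nat_lit 1) (nat_lit 4) (nat_lit 316) (nat_lit 233) (nat_lit 171))))) (XT.nd (nat_lit 156) (nat_lit 0) (nat_lit 0) (XT.nd (nat_lit 78) (nat_lit 0) (nat_lit 0) (XT.lf (nat_lit 0) (nat_lit 65953283899) (nat_lit 152) (nat_lit 364250863113) (nat_lit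 0) (nat_lit 52005610411) (nat_lit 1) (nat_lit 5) (nat_lit 3) (nat_lit 4) (nat_lit 1) (nat_lit 4) (nat_lit 317) (nat_lit 233) (nat_lit 170)) (XT.lf (nat_lit 0) (nat_lit 76333986669) (nat_lit 152) (nat_lit 381758720185) (nat_lit 0) (nat_lit 62378149433) (nat_lit 1) (nat_lit 5) (nat_lit 3) (nat_lit 4) (nat_lit 1) (nat_lit 4) (nat_lit 318) (nat_lit 233) (nat_lit 169))) (XT.nd (nat_lit 78) (nat_lit 0) (nat_lit 0) (XT.lf (nat_lit 0) (nat_lit 87538282501) (nat_lit 152) (nat_lit 400680022139) (nat_lit 0) (nat_lit 73574886238) (nat_lit 1) (nat_lit 5) (nat_lit 3) (nat_lit 4) (nat_lit 1) (nat_lit 4) (nat_lit 319) (nat_lit 233) (nat_lit 168)) (XT.nd (nat_lit 78) (nat_lit 0) (nat_lit 0) (XT.lf (nat_lit 0) (nat_lit 99632567220) (nat_lit 152) (nat_lit 421126895209) (nat_lit 0) (nat_lit 85662171859) (nat_lit 1) (nat_lit 5) (nat_lit 3) (nat_lit 4) (nat_lit 1) (nat_lit 4) (nat_lit 320) (nat_lit 233) (nat_lit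 167)) (XT.lf (nat_lit 0) (nat_lit 112688510663) (nat_lit 152) (nat_lit 443220506049) (nat_lit 0) (nat_lit 98711634656) (nat_lit 1) (nat_lit 5) (nat_lit 3) (nat_lit 4) (nat_lit 1) (nat_lit 4) (nat_lit 321) (nat_lit 233) (nat_lit 166))))))) (XT.nd (nat_lit 32526) (nat_lit 0) (nat_lit 1520) (XT.nd (nat_lit 32136) (nat_lit 0) (nat_lit 3116) (XT.nd (nat_lit 156) (nat_lit 0) (nat_lit 0) (XT.nd (nat_lit 78) (nat_lit 0) (nat_lit 0) (XT.lf (nat_lit 0) (nat_lit 126783481383) (nat_lit 152) (nat_lit 467091779761) (nat_lit 0) (nat_lit 112800604778) (nat_lit 1) (nat_lit 5) (nat_lit 3) (nat_lit 4) (nat_lit 1) (nat_lit 4) (nat_lit 322) (nat_lit 233) (nat_lit 165)) (XT.lf (nat_lit 0) (nat_lit 142001005133) (nat_lit 152) (nat_lit 492882175744) (nat_lit 0) (nat_lit 128012572418) (nat_lit 1) (nat_lit 5) (nat_lit 3) (nat_lit 4) (nat_lit 1) (nat_lit 4) (nat_lit 323) (nat_lit 233) (nat_lit 164))) (XT.nd (nat_lit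 78) (nat_lit 0) (nat_lit 0) (XT.lf (nat_lit 0) (nat_lit 158431259832) (nat_lit 152) (nat_lit 520744525976) (nat_lit 0) (nat_lit 144437682570) (nat_lit 1) (nat_lit 5) (nat_lit 3) (nat_lit 4) (nat_lit 1) (nat_lit 4) (nat_lit 324) (nat_lit 233) (nat_lit 163)) (XT.nd (nat_lit 31824) (nat_lit 0) (nat_lit 5092) (XT.lf (nat_lit 0) (nat_lit 176171609950) (nat_lit 152) (nat_lit 550843940679) (nat_lit 0) (nat_lit 162173269220) (nat_lit 1) (nat_lit 5) (nat_lit 3) (nat_lit 4) (nat_lit 1) (nat_lit 4) (nat_lit 325) (nat_lit 233) (nat_lit 162)) (XT.lf (nat_lit 0) (nat_lit 1768916176) (nat_lit 456) (nat_lit 267372721) (nat_lit 0) (nat_lit 1768916176) (nat_lit 68) (nat_lit 5) (nat_lit 74) (nat_lit 4) (nat_lit 68) (nat_lit 4) (nat_lit 252) (nat_lit 234) (nat_lit 234))))) (XT.nd (nat_lit 156) (nat_lit 912) (nat_lit 0) (XT.nd (nat_lit 78) (nat_lit 608) (nat_lit 0) (XT.lf (nat_lit 0) (nat_lit 966975231) (nat_lit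 456) (nat_lit 138359741) (nat_lit 76) (nat_lit 6723412228) (nat_lit 62) (nat_lit 5) (nat_lit 68) (nat_lit 5) (nat_lit 63) (nat_lit 4) (nat_lit 253) (nat_lit 234) (nat_lit 233)) (XT.lf (nat_lit 0) (nat_lit 205362099) (nat_lit 304) (nat_lit 5877966171) (nat_lit 304) (nat_lit 1988221331) (nat_lit 54) (nat_lit 4) (nat_lit 58) (nat_lit 5) (nat_lit 58) (nat_lit 4) (nat_lit 254) (nat_lit 234) (nat_lit 232))) (XT.nd (nat_lit 78) (nat_lit 608) (nat_lit 0) (XT.lf (nat_lit 0) (nat_lit 494577708) (nat_lit 228) (nat_lit 2488772782) (nat_lit 304) (nat_lit 5358237049) (nat_lit 50) (nat_lit 5) (nat_lit 53) (nat_lit 5) (nat_lit 54) (nat_lit 4) (nat_lit 255) (nat_lit 234) (nat_lit 231)) (XT.nd (nat_lit 78) (nat_lit 304) (nat_lit 0) (XT.lf (nat_lit 0) (nat_lit 706347057) (nat_lit 304) (nat_lit 7407595969) (nat_lit 304) (nat_lit 527049214) (nat_lit 46) (nat_lit 4) (nat_lit 50) (nat_lit 5) (nat_lit 50) (nat_lit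 4) (nat_lit 256) (nat_lit 234) (nat_lit 230)) (XT.lf (nat_lit 0) (nat_lit 739525281) (nat_lit 228) (nat_lit 3667256231) (nat_lit 304) (nat_lit 4561422081) (nat_lit 42) (nat_lit 5) (nat_lit 45) (nat_lit 5) (nat_lit 46) (nat_lit 4) (nat_lit 257) (nat_lit 234) (nat_lit 229)))))) (XT.nd (nat_lit 390) (nat_lit 684) (nat_lit 0) (XT.nd (nat_lit 156) (nat_lit 456) (nat_lit 0) (XT.nd (nat_lit 78) (nat_lit 152) (nat_lit 0) (XT.lf (nat_lit 0) (nat_lit 226344850) (nat_lit 304) (nat_lit 8682163278) (nat_lit 76) (nat_lit 420908818) (nat_lit 38) (nat_lit 5) (nat_lit 42) (nat_lit 5) (nat_lit 39) (nat_lit 4) (nat_lit 258) (nat_lit 234) (nat_lit 228)) (XT.lf (nat_lit 0) (nat_lit 260999307) (nat_lit 152) (nat_lit 4890991125) (nat_lit 228) (nat_lit 4568742278) (nat_lit 36) (nat_lit 5) (nat_lit 38) (nat_lit 5) (nat_lit 39) (nat_lit 4) (nat_lit 259) (nat_lit 234) (nat_lit 227))) (XT.nd (nat_lit 78) (nat_lit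 380) (nat_lit 0) (XT.lf (nat_lit 0) (nat_lit 183089316) (nat_lit 228) (nat_lit 326581413) (nat_lit 76) (nat_lit 9640761002) (nat_lit 35) (nat_lit 5) (nat_lit 38) (nat_lit 5) (nat_lit 36) (nat_lit 5) (nat_lit 260) (nat_lit 234) (nat_lit 226)) (XT.nd (nat_lit 78) (nat_lit 152) (nat_lit 0) (XT.lf (nat_lit 0) (nat_lit 5104257889) (nat_lit 304) (nat_lit 1306939199) (nat_lit 76) (nat_lit 4202655124) (nat_lit 32) (nat_lit 5) (nat_lit 36) (nat_lit 5) (nat_lit 33) (nat_lit 4) (nat_lit 261) (nat_lit 234) (nat_lit 225)) (XT.lf (nat_lit 0) (nat_lit 8494840273) (nat_lit 152) (nat_lit 1816514946) (nat_lit 228) (nat_lit 808891619) (nat_lit 30) (nat_lit 5) (nat_lit 32) (nat_lit 5) (nat_lit 33) (nat_lit 4) (nat_lit 262) (nat_lit 234) (nat_lit 224))))) (XT.nd (nat_lit 156) (nat_lit 304) (nat_lit 0) (XT.nd (nat_lit 78) (nat_lit 152) (nat_lit 0) (XT.lf (nat_lit 0) (nat_lit 4072288440) (nat_lit 228) (nat_lit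 4462816648) (nat_lit 76) (nat_lit 3132117039) (nat_lit 27) (nat_lit 5) (nat_lit 30) (nat_lit 5) (nat_lit 28) (nat_lit 4) (nat_lit 263) (nat_lit 234) (nat_lit 223)) (XT.lf (nat_lit 0) (nat_lit 5423858493) (nat_lit 152) (nat_lit 3818821839) (nat_lit 228) (nat_lit 3018677504) (nat_lit 25) (nat_lit 5) (nat_lit 27) (nat_lit 5) (nat_lit 28) (nat_lit 4) (nat_lit 264) (nat_lit 234) (nat_lit 222))) (XT.nd (nat_lit 78) (nat_lit 76) (nat_lit 0) (XT.lf (nat_lit 0) (nat_lit 1782418903) (nat_lit 228) (nat_lit 9854114723) (nat_lit 76) (nat_lit 1269342452) (nat_lit 22) (nat_lit 5) (nat_lit 25) (nat_lit 5) (nat_lit 23) (nat_lit 4) (nat_lit 265) (nat_lit 234) (nat_lit 221)) (XT.nd (nat_lit 78) (nat_lit 76) (nat_lit 0) (XT.lf (nat_lit 0) (nat_lit 6831122449) (nat_lit 228) (nat_lit 86142790) (nat_lit 76) (nat_lit 6684093783) (nat_lit 22) (nat_lit 5) (nat_lit 25) (nat_lit 5) (nat_lit 23) (nat_lit 4) (nat_lit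 266) (nat_lit 234) (nat_lit 220)) (XT.lf (nat_lit 0) (nat_lit 10475181845) (nat_lit 76) (nat_lit 1770620343) (nat_lit 152) (nat_lit 2108890649) (nat_lit 21) (nat_lit 5) (nat_lit 22) (nat_lit 5) (nat_lit 23) (nat_lit 4) (nat_lit 267) (nat_lit 234) (nat_lit 219))))))))
noncomputable def xc36 : XT := (XT.nd (nat_lit 1482) (nat_lit 228) (nat_lit 0) (XT.nd (nat_lit 702) (nat_lit 380) (nat_lit 0) (XT.nd (nat_lit 312) (nat_lit 228) (nat_lit 0) (XT.nd (nat_lit 156) (nat_lit 228) (nat_lit 0) (XT.nd (nat_lit 78) (nat_lit 76) (nat_lit 0) (XT.lf (nat_lit 0) (nat_lit 2800656310) (nat_lit 228) (nat_lit 8665866629) (nat_lit 76) (nat_lit 3701319462) (nat_lit 18) (nat_lit 5) (nat_lit 21) (nat_lit 5) (nat_lit 19) (nat_lit 4) (nat_lit 268) (nat_lit 234) (nat_lit 218)) (XT.lf (nat_lit 0) (nat_lit 1480750610) (nat_lit 76) (nat_lit 6484066227) (nat_lit 152) (nat_lit 8082969946) (nat_lit 17) (nat_lit 5) (nat_lit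 18) (nat_lit 5) (nat_lit 19) (nat_lit 4) (nat_lit 269) (nat_lit 234) (nat_lit 217))) (XT.nd (nat_lit 78) (nat_lit 228) (nat_lit 0) (XT.lf (nat_lit 0) (nat_lit 12452051791) (nat_lit 76) (nat_lit 1063314782) (nat_lit 152) (nat_lit 3484336404) (nat_lit 17) (nat_lit 5) (nat_lit 18) (nat_lit 5) (nat_lit 19) (nat_lit 4) (nat_lit 270) (nat_lit 234) (nat_lit 216)) (XT.lf (nat_lit 0) (nat_lit 1438588925) (nat_lit 228) (nat_lit 11938133830) (nat_lit 76) (nat_lit 4649911466) (nat_lit 14) (nat_lit 5) (nat_lit 17) (nat_lit 5) (nat_lit 15) (nat_lit 4) (nat_lit 271) (nat_lit 234) (nat_lit 215)))) (XT.nd (nat_lit 156) (nat_lit 152) (nat_lit 0) (XT.nd (nat_lit 78) (nat_lit 76) (nat_lit 0) (XT.lf (nat_lit 0) (nat_lit 6572422810) (nat_lit 228) (nat_lit 1746361224) (nat_lit 76) (nat_lit 10817317693) (nat_lit 14) (nat_lit 5) (nat_lit 17) (nat_lit 5) (nat_lit 15) (nat_lit 4) (nat_lit 272) (nat_lit 234) (nat_lit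 214)) (XT.lf (nat_lit 0) (nat_lit 9304326575) (nat_lit 76) (nat_lit 2808895550) (nat_lit 152) (nat_lit 8221472325) (nat_lit 13) (nat_lit 5) (nat_lit 14) (nat_lit 5) (nat_lit 15) (nat_lit 4) (nat_lit 273) (nat_lit 234) (nat_lit 213))) (XT.nd (nat_lit 78) (nat_lit 152) (nat_lit 0) (XT.lf (nat_lit 0) (nat_lit 18033906443) (nat_lit 152) (nat_lit 624620307) (nat_lit 0) (nat_lit 2973984150) (nat_lit 13) (nat_lit 5) (nat_lit 15) (nat_lit 4) (nat_lit 13) (nat_lit 4) (nat_lit 274) (nat_lit 234) (nat_lit 212)) (XT.nd (nat_lit 78) (nat_lit 0) (nat_lit 0) (XT.lf (nat_lit 0) (nat_lit 1431994640) (nat_lit 152) (nat_lit 12375779158) (nat_lit 76) (nat_lit 9221312095) (nat_lit 11) (nat_lit 5) (nat_lit 13) (nat_lit 5) (nat_lit 12) (nat_lit 4) (nat_lit 275) (nat_lit 234) (nat_lit 211)) (XT.lf (nat_lit 0) (nat_lit 6623157677) (nat_lit 152) (nat_lit 1966715190) (nat_lit 76) (nat_lit 15950491317) (nat_lit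 11) (nat_lit 5) (nat_lit 13) (nat_lit 5) (nat_lit 12) (nat_lit 4) (nat_lit 276) (nat_lit 234) (nat_lit 210)))))) (XT.nd (nat_lit 390) (nat_lit 152) (nat_lit 0) (XT.nd (nat_lit 156) (nat_lit 152) (nat_lit 0) (XT.nd (nat_lit 78) (nat_lit 0) (nat_lit 0) (XT.lf (nat_lit 0) (nat_lit 9366730883) (nat_lit 76) (nat_lit 2890095275) (nat_lit 152) (nat_lit 13914484491) (nat_lit 10) (nat_lit 5) (nat_lit 11) (nat_lit 5) (nat_lit 12) (nat_lit 4) (nat_lit 277) (nat_lit 234) (nat_lit 209)) (XT.lf (nat_lit 0) (nat_lit 18312335723) (nat_lit 152) (nat_lit 6509019818) (nat_lit 0) (nat_lit 3112937069) (nat_lit 10) (nat_lit 5) (nat_lit 12) (nat_lit 4) (nat_lit 10) (nat_lit 4) (nat_lit 278) (nat_lit 234) (nat_lit 208))) (XT.nd (nat_lit 78) (nat_lit 76) (nat_lit 0) (XT.lf (nat_lit 0) (nat_lit 4517584730) (nat_lit 76) (nat_lit 20347799932) (nat_lit 76) (nat_lit 4972382015) (nat_lit 9) (nat_lit 4) (nat_lit 10)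 (nat_lit 5) (nat_lit 10) (nat_lit 4) (nat_lit 279) (nat_lit 234) (nat_lit 207)) (XT.nd (nat_lit 78) (nat_lit 0) (nat_lit 0) (XT.lf (nat_lit 0) (nat_lit 59956049) (nat_lit 152) (nat_lit 15415488815) (nat_lit 76) (nat_lit 16417512562) (nat_lit 8) (nat_lit 5) (nat_lit 10) (nat_lit 5) (nat_lit 9) (nat_lit 4) (nat_lit 280) (nat_lit 234) (nat_lit 206)) (XT.lf (nat_lit 0) (nat_lit 5227751109) (nat_lit 152) (nat_lit 4972417091) (nat_lit 76) (nat_lit 23913054188) (nat_lit 8) (nat_lit 5) (nat_lit 10) (nat_lit 5) (nat_lit 9) (nat_lit 4) (nat_lit 281) (nat_lit 234) (nat_lit 205))))) (XT.nd (nat_lit 156) (nat_lit 76) (nat_lit 0) (XT.nd (nat_lit 78) (nat_lit 0) (nat_lit 0) (XT.lf (nat_lit 0) (nat_lit 6351849774) (nat_lit 76) (nat_lit 4468094813) (nat_lit 152) (nat_lit 25690697232) (nat_lit 7) (nat_lit 5) (nat_lit 8) (nat_lit 5) (nat_lit 9) (nat_lit 4) (nat_lit 282) (nat_lit 234) (nat_lit 204)) (XT.lf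 (nat_lit 0) (nat_lit 16889387092) (nat_lit 152) (nat_lit 20518154354) (nat_lit 0) (nat_lit 1690895621) (nat_lit 7) (nat_lit 5) (nat_lit 9) (nat_lit 4) (nat_lit 7) (nat_lit 4) (nat_lit 283) (nat_lit 234) (nat_lit 203))) (XT.nd (nat_lit 78) (nat_lit 76) (nat_lit 0) (XT.lf (nat_lit 0) (nat_lit 23440969278) (nat_lit 152) (nat_lit 10324141145) (nat_lit 0) (nat_lit 8128386613) (nat_lit 7) (nat_lit 5) (nat_lit 9) (nat_lit 4) (nat_lit 7) (nat_lit 4) (nat_lit 284) (nat_lit 234) (nat_lit 202)) (XT.nd (nat_lit 78) (nat_lit 0) (nat_lit 0) (XT.lf (nat_lit 0) (nat_lit 571714465) (nat_lit 76) (nat_lit 29880967453) (nat_lit 76) (nat_lit 14462744795) (nat_lit 6) (nat_lit 4) (nat_lit 7) (nat_lit 5) (nat_lit 7) (nat_lit 4) (nat_lit 285) (nat_lit 234) (nat_lit 201)) (XT.lf (nat_lit 0) (nat_lit 12581668748) (nat_lit 76) (nat_lit 25554011174) (nat_lit 76) (nat_lit 10037973707) (nat_lit 6) (nat_lit 4) (nat_lit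 7) (nat_lit 5) (nat_lit 7) (nat_lit 4) (nat_lit 286) (nat_lit 234) (nat_lit 200))))))) (XT.nd (nat_lit 702) (nat_lit 76) (nat_lit 0) (XT.nd (nat_lit 312) (nat_lit 0) (nat_lit 0) (XT.nd (nat_lit 156) (nat_lit 152) (nat_lit 0) (XT.nd (nat_lit 78) (nat_lit 0) (nat_lit 0) (XT.lf (nat_lit 0) (nat_lit 25435529072) (nat_lit 76) (nat_lit 20933444690) (nat_lit 76) (nat_lit 5326837954) (nat_lit 6) (nat_lit 4) (nat_lit 7) (nat_lit 5) (nat_lit 7) (nat_lit 4) (nat_lit 287) (nat_lit 234) (nat_lit 199)) (XT.lf (nat_lit 0) (nat_lit 39209466462) (nat_lit 76) (nat_lit 15991886865) (nat_lit 76) (nat_lit 301419696) (nat_lit 6) (nat_lit 4) (nat_lit 7) (nat_lit 5) (nat_lit 7) (nat_lit 4) (nat_lit 288) (nat_lit 234) (nat_lit 198))) (XT.nd (nat_lit 78) (nat_lit 76) (nat_lit 0) (XT.lf (nat_lit 0) (nat_lit 4905851710) (nat_lit 152) (nat_lit 5711119712) (nat_lit 76) (nat_lit 48996169566) (nat_lit 5) (nat_lit 5)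 (nat_lit 7) (nat_lit 5) (nat_lit 6) (nat_lit 4) (nat_lit 289) (nat_lit 234) (nat_lit 197)) (XT.lf (nat_lit 0) (nat_lit 5803764844) (nat_lit 76) (nat_lit 4754175334) (nat_lit 152) (nat_lit 53492253564) (nat_lit 4) (nat_lit 5) (nat_lit 5) (nat_lit 5) (nat_lit 6) (nat_lit 4) (nat_lit 290) (nat_lit 234) (nat_lit 196)))) (XT.nd (nat_lit 156) (nat_lit 0) (nat_lit 0) (XT.nd (nat_lit 78) (nat_lit 0) (nat_lit 0) (XT.lf (nat_lit 0) (nat_lit 16737781336) (nat_lit 152) (nat_lit 50512035112) (nat_lit 0) (nat_lit 1588654062) (nat_lit 4) (nat_lit 5) (nat_lit 6) (nat_lit 4) (nat_lit 4) (nat_lit 4) (nat_lit 291) (nat_lit 234) (nat_lit 195)) (XT.lf (nat_lit 0) (nat_lit 23445728732) (nat_lit 152) (nat_lit 42324534149) (nat_lit 0) (nat_lit 8237896770) (nat_lit 4) (nat_lit 5) (nat_lit 6) (nat_lit 4) (nat_lit 4) (nat_lit 4) (nat_lit 292) (nat_lit 234) (nat_lit 194))) (XT.nd (nat_lit 78) (nat_lit 0) (nat_lit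 0) (XT.lf (nat_lit 0) (nat_lit 30647307164) (nat_lit 152) (nat_lit 33561181487) (nat_lit 0) (nat_lit 15385119010) (nat_lit 4) (nat_lit 5) (nat_lit 6) (nat_lit 4) (nat_lit 4) (nat_lit 4) (nat_lit 293) (nat_lit 234) (nat_lit 193)) (XT.nd (nat_lit 78) (nat_lit 0) (nat_lit 0) (XT.lf (nat_lit 0) (nat_lit 38385192654) (nat_lit 152) (nat_lit 24170046145) (nat_lit 0) (nat_lit 23072674692) (nat_lit 4) (nat_lit 5) (nat_lit 6) (nat_lit 4) (nat_lit 4) (nat_lit 4) (nat_lit 294) (nat_lit 234) (nat_lit 192)) (XT.lf (nat_lit 0) (nat_lit 46705239337) (nat_lit 152) (nat_lit 14095476952) (nat_lit 0) (nat_lit 31346119702) (nat_lit 4) (nat_lit 5) (nat_lit 6) (nat_lit 4) (nat_lit 4) (nat_lit 4) (nat_lit 295) (nat_lit 234) (nat_lit 191)))))) (XT.nd (nat_lit 390) (nat_lit 0) (nat_lit 0) (XT.nd (nat_lit 156) (nat_lit 0) (nat_lit 0) (XT.nd (nat_lit 78) (nat_lit 76) (nat_lit 0) (XT.lf (nat_lit 0) (nat_lit 55656751194)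 (nat_lit 152) (nat_lit 3277772756) (nat_lit 0) (nat_lit 40254481861) (nat_lit 4) (nat_lit 5) (nat_lit 6) (nat_lit 4) (nat_lit 4) (nat_lit 4) (nat_lit 296) (nat_lit 234) (nat_lit 190)) (XT.lf (nat_lit 0) (nat_lit 8623166536) (nat_lit 76) (nat_lit 56804239480) (nat_lit 76) (nat_lit 41362016723) (nat_lit 3) (nat_lit 4) (nat_lit 4) (nat_lit 5) (nat_lit 4) (nat_lit 4) (nat_lit 297) (nat_lit 234) (nat_lit 189))) (XT.nd (nat_lit 78) (nat_lit 0) (nat_lit 0) (XT.lf (nat_lit 0) (nat_lit 21537581037) (nat_lit 76) (nat_lit 54469091737) (nat_lit 76) (nat_lit 38989875069) (nat_lit 3) (nat_lit 4) (nat_lit 4) (nat_lit 5) (nat_lit 4) (nat_lit 4) (nat_lit 298) (nat_lit 234) (nat_lit 188)) (XT.nd (nat_lit 78) (nat_lit 0) (nat_lit 0) (XT.lf (nat_lit 0) (nat_lit 35433622640) (nat_lit 76) (nat_lit 51970753476) (nat_lit 76) (nat_lit 36457283187) (nat_lit 3) (nat_lit 4) (nat_lit 4) (nat_lit 5) (nat_lit 4) (nat_lit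 4) (nat_lit 299) (nat_lit 234) (nat_lit 187)) (XT.lf (nat_lit 0) (nat_lit 50393638258) (nat_lit 76) (nat_lit 49294419731) (nat_lit 76) (nat_lit 33749233126) (nat_lit 3) (nat_lit 4) (nat_lit 4) (nat_lit 5) (nat_lit 4) (nat_lit 4) (nat_lit 300) (nat_lit 234) (nat_lit 186))))) (XT.nd (nat_lit 156) (nat_lit 0) (nat_lit 0) (XT.nd (nat_lit 78) (nat_lit 0) (nat_lit 0) (XT.lf (nat_lit 0) (nat_lit 66506279834) (nat_lit 76) (nat_lit 46424230745) (nat_lit 76) (nat_lit 30849677181) (nat_lit 3) (nat_lit 4) (nat_lit 4) (nat_lit 5) (nat_lit 4) (nat_lit 4) (nat_lit 301) (nat_lit 234) (nat_lit 185)) (XT.lf (nat_lit 0) (nat_lit 83867029690) (nat_lit 76) (nat_lit 43343177992) (nat_lit 76) (nat_lit 27741432799) (nat_lit 3) (nat_lit 4) (nat_lit 4) (nat_lit 5) (nat_lit 4) (nat_lit 4) (nat_lit 302) (nat_lit 234) (nat_lit 184))) (XT.nd (nat_lit 78) (nat_lit 0) (nat_lit 0) (XT.lf (nat_lit 0) (nat_lit 102578766344)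 (nat_lit 76) (nat_lit 40033003381) (nat_lit 76) (nat_lit 24406080753) (nat_lit 3) (nat_lit 4) (nat_lit 4) (nat_lit 5) (nat_lit 4) (nat_lit 4) (nat_lit 303) (nat_lit 234) (nat_lit 183)) (XT.nd (nat_lit 78) (nat_lit 0) (nat_lit 0) (XT.lf (nat_lit 0) (nat_lit 122752374159) (nat_lit 76) (nat_lit 36474091062) (nat_lit 76) (nat_lit 20823855995) (nat_lit 3) (nat_lit 4) (nat_lit 4) (nat_lit 5) (nat_lit 4) (nat_lit 4) (nat_lit 304) (nat_lit 234) (nat_lit 182)) (XT.lf (nat_lit 0) (nat_lit 144507400443) (nat_lit 76) (nat_lit 32645351184) (nat_lit 76) (nat_lit 16973530526) (nat_lit 3) (nat_lit 4) (nat_lit 4) (nat_lit 5) (nat_lit 4) (nat_lit 4) (nat_lit 305) (nat_lit 234) (nat_lit 181))))))))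
noncomputable def xc37 : XT := (XT.nd (nat_lit 1482) (nat_lit 0) (nat_lit 0) (XT.nd (nat_lit 702) (nat_lit 0) (nat_lit 0) (XT.nd (nat_lit 312) (nat_lit 76) (nat_lit 0) (XT.nd (nat_lit 156) (nat_lit 76) (nat_lit 0) (XT.nd (nat_lit 78) (nat_lit 0) (nat_lit 0) (XT.lf (nat_lit 0) (nat_lit 167972763870) (nat_lit 76) (nat_lit 28524094920) (nat_lit 76) (nat_lit 12832287603) (nat_lit 3) (nat_lit 4) (nat_lit 4) (nat_lit 5) (nat_lit 4) (nat_lit 4) (nat_lit 306) (nat_lit 234) (nat_lit 180)) (XT.lf (nat_lit 0) (nat_lit 193287518444) (nat_lit 76) (nat_lit 24085900009) (nat_lit 76) (nat_lit 8375586526) (nat_lit 3) (nat_lit 4) (nat_lit 4) (nat_lit 5) (nat_lit 4) (nat_lit 4) (nat_lit 307) (nat_lit 234) (nat_lit 179))) (XT.nd (nat_lit 78) (nat_lit 76) (nat_lit 0) (XT.lf (nat_lit 0) (nat_lit 220601677527) (nat_lit 76) (nat_lit 19304466037) (nat_lit 76) (nat_lit 3577017215) (nat_lit 3) (nat_lit 4) (nat_lit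 4) (nat_lit 5) (nat_lit 4) (nat_lit 4) (nat_lit 308) (nat_lit 234) (nat_lit 178)) (XT.lf (nat_lit 0) (nat_lit 1540906952) (nat_lit 152) (nat_lit 12584455623) (nat_lit 76) (nat_lit 248510099844) (nat_lit 2) (nat_lit 5) (nat_lit 4) (nat_lit 5) (nat_lit 3) (nat_lit 4) (nat_lit 309) (nat_lit 234) (nat_lit 177)))) (XT.nd (nat_lit 156) (nat_lit 0) (nat_lit 0) (XT.nd (nat_lit 78) (nat_lit 76) (nat_lit 0) (XT.lf (nat_lit 0) (nat_lit 6932446382) (nat_lit 152) (nat_lit 1546490583) (nat_lit 76) (nat_lit 274838612737) (nat_lit 2) (nat_lit 5) (nat_lit 4) (nat_lit 5) (nat_lit 3) (nat_lit 4) (nat_lit 310) (nat_lit 234) (nat_lit 176)) (XT.lf (nat_lit 0) (nat_lit 10696008360) (nat_lit 76) (nat_lit 2215024133) (nat_lit 152) (nat_lit 292735393283) (nat_lit 1) (nat_lit 5) (nat_lit 2) (nat_lit 5) (nat_lit 3) (nat_lit 4) (nat_lit 311) (nat_lit 234) (nat_lit 175))) (XT.nd (nat_lit 78) (nat_lit 0) (nat_lit 0)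 (XT.lf (nat_lit 0) (nat_lit 19455433287) (nat_lit 152) (nat_lit 305878950875) (nat_lit 0) (nat_lit 4422858776) (nat_lit 1) (nat_lit 5) (nat_lit 3) (nat_lit 4) (nat_lit 1) (nat_lit 4) (nat_lit 312) (nat_lit 234) (nat_lit 174)) (XT.nd (nat_lit 78) (nat_lit 0) (nat_lit 0) (XT.lf (nat_lit 0) (nat_lit 26550651263) (nat_lit 152) (nat_lit 317737947737) (nat_lit 0) (nat_lit 11506970063) (nat_lit 1) (nat_lit 5) (nat_lit 3) (nat_lit 4) (nat_lit 1) (nat_lit 4) (nat_lit 313) (nat_lit 234) (nat_lit 173)) (XT.lf (nat_lit 0) (nat_lit 34204149423) (nat_lit 152) (nat_lit 330563100804) (nat_lit 0) (nat_lit 19150184252) (nat_lit 1) (nat_lit 5) (nat_lit 3) (nat_lit 4) (nat_lit 1) (nat_lit 4) (nat_lit 314) (nat_lit 234) (nat_lit 172)))))) (XT.nd (nat_lit 390) (nat_lit 0) (nat_lit 0) (XT.nd (nat_lit 156) (nat_lit 0) (nat_lit 0) (XT.nd (nat_lit 78) (nat_lit 0) (nat_lit 0) (XT.lf (nat_lit 0) (nat_lit 42461281831)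 (nat_lit 152) (nat_lit 344430410982) (nat_lit 0) (nat_lit 27397794463) (nat_lit 1) (nat_lit 5) (nat_lit 3) (nat_lit 4) (nat_lit 1) (nat_lit 4) (nat_lit 315) (nat_lit 234) (nat_lit 171)) (XT.lf (nat_lit 0) (nat_lit 51370979640) (nat_lit 152) (nat_lit 359422054926) (nat_lit 0) (nat_lit 36298675424) (nat_lit 1) (nat_lit 5) (nat_lit 3) (nat_lit 4) (nat_lit 1) (nat_lit 4) (nat_lit 316) (nat_lit 234) (nat_lit 170))) (XT.nd (nat_lit 78) (nat_lit 0) (nat_lit 0) (XT.lf (nat_lit 0) (nat_lit 60986041060) (nat_lit 152) (nat_lit 375626872007) (nat_lit 0) (nat_lit 45905573097) (nat_lit 1) (nat_lit 5) (nat_lit 3) (nat_lit 4) (nat_lit 1) (nat_lit 4) (nat_lit 317) (nat_lit 234) (nat_lit 169)) (XT.nd (nat_lit 78) (nat_lit 0) (nat_lit 0) (XT.lf (nat_lit 0) (nat_lit 71363444234) (nat_lit 152) (nat_lit 393140890770) (nat_lit 0) (nat_lit 56275417245) (nat_lit 1) (nat_lit 5) (nat_lit 3) (nat_lit 4) (nat_lit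 1) (nat_lit 4) (nat_lit 318) (nat_lit 234) (nat_lit 168)) (XT.lf (nat_lit 0) (nat_lit 82564684883) (nat_lit 152) (nat_lit 412067897992) (nat_lit 0) (nat_lit 67469658796) (nat_lit 1) (nat_lit 5) (nat_lit 3) (nat_lit 4) (nat_lit 1) (nat_lit 4) (nat_lit 319) (nat_lit 234) (nat_lit 167))))) (XT.nd (nat_lit 156) (nat_lit 0) (nat_lit 0) (XT.nd (nat_lit 78) (nat_lit 0) (nat_lit 0) (XT.lf (nat_lit 0) (nat_lit 94656140731) (nat_lit 152) (nat_lit 432520053718) (nat_lit 0) (nat_lit 79554633997) (nat_lit 1) (nat_lit 5) (nat_lit 3) (nat_lit 4) (nat_lit 1) (nat_lit 4) (nat_lit 320) (nat_lit 234) (nat_lit 166)) (XT.lf (nat_lit 0) (nat_lit 107709464848) (nat_lit 152) (nat_lit 454618555907) (nat_lit 0) (nat_lit 92601957515) (nat_lit 1) (nat_lit 5) (nat_lit 3) (nat_lit 4) (nat_lit 1) (nat_lit 4) (nat_lit 321) (nat_lit 234) (nat_lit 165))) (XT.nd (nat_lit 78) (nat_lit 0) (nat_lit 0) (XT.lf (nat_lit 0) (nat_lit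 121802010266) (nat_lit 152) (nat_lit 478494358645) (nat_lit 0) (nat_lit 106688946824) (nat_lit 1) (nat_lit 5) (nat_lit 3) (nat_lit 4) (nat_lit 1) (nat_lit 4) (nat_lit 322) (nat_lit 234) (nat_lit 164)) (XT.nd (nat_lit 78) (nat_lit 0) (nat_lit 0) (XT.lf (nat_lit 0) (nat_lit 137017288366) (nat_lit 152) (nat_lit 504288948171) (nat_lit 0) (nat_lit 121899080378) (nat_lit 1) (nat_lit 5) (nat_lit 3) (nat_lit 4) (nat_lit 1) (nat_lit 4) (nat_lit 323) (nat_lit 234) (nat_lit 163)) (XT.lf (nat_lit 0) (nat_lit 153445463759) (nat_lit 152) (nat_lit 532155181313) (nat_lit 0) (nat_lit 138322492302) (nat_lit 1) (nat_lit 5) (nat_lit 3) (nat_lit 4) (nat_lit 1) (nat_lit 4) (nat_lit 324) (nat_lit 234) (nat_lit 162))))))) (XT.nd (nat_lit 32370) (nat_lit 0) (nat_lit 1292) (XT.nd (nat_lit 31980) (nat_lit 0) (nat_lit 3040) (XT.nd (nat_lit 31746) (nat_lit 0) (nat_lit 4636) (XT.nd (nat_lit 31668) (nat_lit 0) (nat_lit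 6232) (XT.lf (nat_lit 0) (nat_lit 171183888595) (nat_lit 152) (nat_lit 562258191303) (nat_lit 0) (nat_lit 156056506519) (nat_lit 1) (nat_lit 5) (nat_lit 3) (nat_lit 4) (nat_lit 1) (nat_lit 4) (nat_lit 325) (nat_lit 234) (nat_lit 161)) (XT.lf (nat_lit 0) (nat_lit 1539819440) (nat_lit 684) (nat_lit 540578770) (nat_lit 0) (nat_lit 1539819440) (nat_lit 83) (nat_lit 5) (nat_lit 92) (nat_lit 4) (nat_lit 83) (nat_lit 4) (nat_lit 250) (nat_lit 235) (nat_lit 235))) (XT.nd (nat_lit 78) (nat_lit 836) (nat_lit 0) (XT.lf (nat_lit 0) (nat_lit 731256127) (nat_lit 760) (nat_lit 905752206) (nat_lit 76) (nat_lit 5781633212) (nat_lit 73) (nat_lit 5) (nat_lit 83) (nat_lit 5) (nat_lit 74) (nat_lit 4) (nat_lit 251) (nat_lit 235) (nat_lit 234)) (XT.nd (nat_lit 78) (nat_lit 456) (nat_lit 0) (XT.lf (nat_lit 0) (nat_lit 5646432558) (nat_lit 456) (nat_lit 738229599) (nat_lit 0) (nat_lit 1235461909) (nat_lit 68)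 (nat_lit 5) (nat_lit 74) (nat_lit 4) (nat_lit 68) (nat_lit 4) (nat_lit 252) (nat_lit 235) (nat_lit 233)) (XT.lf (nat_lit 0) (nat_lit 2820686769) (nat_lit 456) (nat_lit 592135888) (nat_lit 76) (nat_lit 4433453944) (nat_lit 62) (nat_lit 5) (nat_lit 68) (nat_lit 5) (nat_lit 63) (nat_lit 4) (nat_lit 253) (nat_lit 235) (nat_lit 232))))) (XT.nd (nat_lit 156) (nat_lit 912) (nat_lit 0) (XT.nd (nat_lit 78) (nat_lit 380) (nat_lit 0) (XT.lf (nat_lit 0) (nat_lit 7646577950) (nat_lit 304) (nat_lit 79883011) (nat_lit 380) (nat_lit 373660034) (nat_lit 58) (nat_lit 5) (nat_lit 62) (nat_lit 5) (nat_lit 63) (nat_lit 4) (nat_lit 254) (nat_lit 235) (nat_lit 231)) (XT.lf (nat_lit 0) (nat_lit 4370899866) (nat_lit 380) (nat_lit 445478587) (nat_lit 76) (nat_lit 3561739307) (nat_lit 53) (nat_lit 5) (nat_lit 58) (nat_lit 5) (nat_lit 54) (nat_lit 4) (nat_lit 255) (nat_lit 235) (nat_lit 230))) (XT.nd (nat_lit 78)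 (nat_lit 608) (nat_lit 0) (XT.lf (nat_lit 0) (nat_lit 606071537) (nat_lit 304) (nat_lit 494882235) (nat_lit 76) (nat_lit 7585900741) (nat_lit 49) (nat_lit 5) (nat_lit 53) (nat_lit 5) (nat_lit 50) (nat_lit 5) (nat_lit 256) (nat_lit 235) (nat_lit 229)) (XT.nd (nat_lit 78) (nat_lit 304) (nat_lit 0) (XT.lf (nat_lit 0) (nat_lit 5340991207) (nat_lit 380) (nat_lit 731826968) (nat_lit 76) (nat_lit 2950307777) (nat_lit 45) (nat_lit 5) (nat_lit 50) (nat_lit 5) (nat_lit 46) (nat_lit 4) (nat_lit 257) (nat_lit 235) (nat_lit 228)) (XT.lf (nat_lit 0) (nat_lit 908584173) (nat_lit 304) (nat_lit 1120646999) (nat_lit 76) (nat_lit 7363192751) (nat_lit 41) (nat_lit 5) (nat_lit 45) (nat_lit 5) (nat_lit 42) (nat_lit 5) (nat_lit 258) (nat_lit 235) (nat_lit 227)))))) (XT.nd (nat_lit 390) (nat_lit 684) (nat_lit 0) (XT.nd (nat_lit 156) (nat_lit 608) (nat_lit 0) (XT.nd (nat_lit 78) (nat_lit 228) (nat_lit 0) (XT.lf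 (nat_lit 0) (nat_lit 5646969082) (nat_lit 304) (nat_lit 1771650747) (nat_lit 76) (nat_lit 2374784522) (nat_lit 38) (nat_lit 5) (nat_lit 42) (nat_lit 5) (nat_lit 39) (nat_lit 4) (nat_lit 259) (nat_lit 235) (nat_lit 226)) (XT.lf (nat_lit 0) (nat_lit 434429686) (nat_lit 228) (nat_lit 2681812384) (nat_lit 76) (nat_lit 7114670130) (nat_lit 35) (nat_lit 5) (nat_lit 38) (nat_lit 5) (nat_lit 36) (nat_lit 5) (nat_lit 260) (nat_lit 235) (nat_lit 225))) (XT.nd (nat_lit 78) (nat_lit 380) (nat_lit 0) (XT.lf (nat_lit 0) (nat_lit 5153806902) (nat_lit 304) (nat_lit 3962378866) (nat_lit 76) (nat_lit 1588482762) (nat_lit 32) (nat_lit 5) (nat_lit 36) (nat_lit 5) (nat_lit 33) (nat_lit 4) (nat_lit 261) (nat_lit 235) (nat_lit 224)) (XT.nd (nat_lit 78) (nat_lit 228) (nat_lit 0) (XT.lf (nat_lit 0) (nat_lit 5578204768) (nat_lit 152) (nat_lit 4623750454) (nat_lit 228) (nat_lit 1017283426) (nat_lit 30) (nat_lit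 5) (nat_lit 32) (nat_lit 5) (nat_lit 33) (nat_lit 4) (nat_lit 262) (nat_lit 235) (nat_lit 223)) (XT.lf (nat_lit 0) (nat_lit 3664264692) (nat_lit 228) (nat_lit 7806412702) (nat_lit 76) (nat_lit 306215405) (nat_lit 27) (nat_lit 5) (nat_lit 30) (nat_lit 5) (nat_lit 28) (nat_lit 4) (nat_lit 263) (nat_lit 235) (nat_lit 222))))) (XT.nd (nat_lit 156) (nat_lit 456) (nat_lit 0) (XT.nd (nat_lit 78) (nat_lit 76) (nat_lit 0) (XT.lf (nat_lit 0) (nat_lit 1802586461) (nat_lit 152) (nat_lit 6870868535) (nat_lit 228) (nat_lit 3705819790) (nat_lit 25) (nat_lit 5) (nat_lit 27) (nat_lit 5) (nat_lit 28) (nat_lit 4) (nat_lit 264) (nat_lit 235) (nat_lit 221)) (XT.lf (nat_lit 0) (nat_lit 947692331) (nat_lit 228) (nat_lit 911815889) (nat_lit 76) (nat_lit 11173464272) (nat_lit 24) (nat_lit 5) (nat_lit 27) (nat_lit 5) (nat_lit 25) (nat_lit 5) (nat_lit 265) (nat_lit 235) (nat_lit 220))) (XT.nd (nat_lit 78) (nat_lit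 304) (nat_lit 0) (XT.lf (nat_lit 0) (nat_lit 5855556789) (nat_lit 228) (nat_lit 4333887063) (nat_lit 76) (nat_lit 3546205572) (nat_lit 22) (nat_lit 5) (nat_lit 25) (nat_lit 5) (nat_lit 23) (nat_lit 4) (nat_lit 266) (nat_lit 235) (nat_lit 219)) (XT.nd (nat_lit 78) (nat_lit 228) (nat_lit 0) (XT.lf (nat_lit 0) (nat_lit 5938284300) (nat_lit 76) (nat_lit 5171434144) (nat_lit 152) (nat_lit 3387431472) (nat_lit 21) (nat_lit 5) (nat_lit 22) (nat_lit 5) (nat_lit 23) (nat_lit 4) (nat_lit 267) (nat_lit 235) (nat_lit 218)) (XT.lf (nat_lit 0) (nat_lit 1343367462) (nat_lit 228) (nat_lit 13720902363) (nat_lit 76) (nat_lit 258135338) (nat_lit 18) (nat_lit 5) (nat_lit 21) (nat_lit 5) (nat_lit 19) (nat_lit 4) (nat_lit 268) (nat_lit 235) (nat_lit 217))))))))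
noncomputable def xc38 : XT := (XT.nd (nat_lit 1482) (nat_lit 228) (nat_lit 0) (XT.nd (nat_lit 702) (nat_lit 304) (nat_lit 0) (XT.nd (nat_lit 312) (nat_lit 304) (nat_lit 0) (XT.nd (nat_lit 156) (nat_lit 228) (nat_lit 0) (XT.nd (nat_lit 78) (nat_lit 76) (nat_lit 0) (XT.lf (nat_lit 0) (nat_lit 6401203441) (nat_lit 228) (nat_lit 3759664382) (nat_lit 76) (nat_lit 6046912891) (nat_lit 18) (nat_lit 5) (nat_lit 21) (nat_lit 5) (nat_lit 19) (nat_lit 4) (nat_lit 269) (nat_lit 235) (nat_lit 216)) (XT.lf (nat_lit 0) (nat_lit 6955336024) (nat_lit 76) (nat_lit 4856674200) (nat_lit 152) (nat_lit 5354780259) (nat_lit 17) (nat_lit 5) (nat_lit 18) (nat_lit 5) (nat_lit 19) (nat_lit 4) (nat_lit 270) (nat_lit 235) (nat_lit 215))) (XT.nd (nat_lit 78) (nat_lit 76) (nat_lit 0) (XT.lf (nat_lit 0) (nat_lit 193624164) (nat_lit 152) (nat_lit 17391319901) (nat_lit 152) (nat_lit 621318816) (nat_lit 15) (nat_lit 4)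 (nat_lit 17) (nat_lit 5) (nat_lit 17) (nat_lit 4) (nat_lit 271) (nat_lit 235) (nat_lit 214)) (XT.lf (nat_lit 0) (nat_lit 4460762740) (nat_lit 228) (nat_lit 7933388262) (nat_lit 76) (nat_lit 6925733232) (nat_lit 14) (nat_lit 5) (nat_lit 17) (nat_lit 5) (nat_lit 15) (nat_lit 4) (nat_lit 272) (nat_lit 235) (nat_lit 213)))) (XT.nd (nat_lit 156) (nat_lit 228) (nat_lit 0) (XT.nd (nat_lit 78) (nat_lit 0) (nat_lit 0) (XT.lf (nat_lit 0) (nat_lit 2795817452) (nat_lit 76) (nat_lit 7037796673) (nat_lit 152) (nat_lit 10693340690) (nat_lit 13) (nat_lit 5) (nat_lit 14) (nat_lit 5) (nat_lit 15) (nat_lit 4) (nat_lit 273) (nat_lit 235) (nat_lit 212)) (XT.lf (nat_lit 0) (nat_lit 14441496378) (nat_lit 76) (nat_lit 1201726088) (nat_lit 152) (nat_lit 6187177101) (nat_lit 13) (nat_lit 5) (nat_lit 14) (nat_lit 5) (nat_lit 15) (nat_lit 4) (nat_lit 274) (nat_lit 235) (nat_lit 211))) (XT.nd (nat_lit 78) (nat_lit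 152) (nat_lit 0) (XT.lf (nat_lit 0) (nat_lit 3603038427) (nat_lit 76) (nat_lit 18327559400) (nat_lit 76) (nat_lit 1307015639) (nat_lit 12) (nat_lit 4) (nat_lit 13) (nat_lit 5) (nat_lit 13) (nat_lit 4) (nat_lit 275) (nat_lit 235) (nat_lit 210)) (XT.nd (nat_lit 78) (nat_lit 76) (nat_lit 0) (XT.lf (nat_lit 0) (nat_lit 3868754811) (nat_lit 152) (nat_lit 9305170710) (nat_lit 76) (nat_lit 11578908640) (nat_lit 11) (nat_lit 5) (nat_lit 13) (nat_lit 5) (nat_lit 12) (nat_lit 4) (nat_lit 276) (nat_lit 235) (nat_lit 209)) (XT.lf (nat_lit 0) (nat_lit 1689915805) (nat_lit 76) (nat_lit 7639664547) (nat_lit 152) (nat_lit 17062898748) (nat_lit 10) (nat_lit 5) (nat_lit 11) (nat_lit 5) (nat_lit 12) (nat_lit 4) (nat_lit 277) (nat_lit 235) (nat_lit 208)))))) (XT.nd (nat_lit 390) (nat_lit 152) (nat_lit 0) (XT.nd (nat_lit 156) (nat_lit 152) (nat_lit 0) (XT.nd (nat_lit 78) (nat_lit 0) (nat_lit 0) (XT.lf (nat_lit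 0) (nat_lit 13712549887) (nat_lit 76) (nat_lit 1571886225) (nat_lit 152) (nat_lit 12876109792) (nat_lit 10) (nat_lit 5) (nat_lit 11) (nat_lit 5) (nat_lit 12) (nat_lit 4) (nat_lit 278) (nat_lit 235) (nat_lit 207)) (XT.lf (nat_lit 0) (nat_lit 21695150913) (nat_lit 152) (nat_lit 3625334557) (nat_lit 0) (nat_lit 4750699499) (nat_lit 10) (nat_lit 5) (nat_lit 12) (nat_lit 4) (nat_lit 10) (nat_lit 4) (nat_lit 279) (nat_lit 235) (nat_lit 206))) (XT.nd (nat_lit 78) (nat_lit 76) (nat_lit 0) (XT.lf (nat_lit 0) (nat_lit 8135446982) (nat_lit 76) (nat_lit 20545777824) (nat_lit 76) (nat_lit 3450418262) (nat_lit 9) (nat_lit 4) (nat_lit 10) (nat_lit 5) (nat_lit 10) (nat_lit 4) (nat_lit 280) (nat_lit 235) (nat_lit 205)) (XT.nd (nat_lit 78) (nat_lit 0) (nat_lit 0) (XT.lf (nat_lit 0) (nat_lit 1785410113) (nat_lit 152) (nat_lit 13574998595) (nat_lit 76) (nat_lit 18996352367) (nat_lit 8) (nat_lit 5) (nat_lit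 10) (nat_lit 5) (nat_lit 9) (nat_lit 4) (nat_lit 281) (nat_lit 235) (nat_lit 204)) (XT.lf (nat_lit 0) (nat_lit 7239172661) (nat_lit 152) (nat_lit 2524164786) (nat_lit 76) (nat_lit 26997801116) (nat_lit 8) (nat_lit 5) (nat_lit 10) (nat_lit 5) (nat_lit 9) (nat_lit 4) (nat_lit 282) (nat_lit 235) (nat_lit 203))))) (XT.nd (nat_lit 156) (nat_lit 76) (nat_lit 0) (XT.nd (nat_lit 78) (nat_lit 0) (nat_lit 0) (XT.lf (nat_lit 0) (nat_lit 9582357752) (nat_lit 76) (nat_lit 3620872612) (nat_lit 152) (nat_lit 26151006492) (nat_lit 7) (nat_lit 5) (nat_lit 8) (nat_lit 5) (nat_lit 9) (nat_lit 4) (nat_lit 283) (nat_lit 235) (nat_lit 202)) (XT.lf (nat_lit 0) (nat_lit 19663221838) (nat_lit 152) (nat_lit 19584784450) (nat_lit 0) (nat_lit 2905901373) (nat_lit 7) (nat_lit 5) (nat_lit 9) (nat_lit 4) (nat_lit 7) (nat_lit 4) (nat_lit 284) (nat_lit 235) (nat_lit 201))) (XT.nd (nat_lit 78) (nat_lit 76) (nat_lit 0)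 (XT.lf (nat_lit 0) (nat_lit 26633546615) (nat_lit 152) (nat_lit 8765977758) (nat_lit 0) (nat_lit 9778411340) (nat_lit 7) (nat_lit 5) (nat_lit 9) (nat_lit 4) (nat_lit 7) (nat_lit 4) (nat_lit 285) (nat_lit 235) (nat_lit 200)) (XT.nd (nat_lit 78) (nat_lit 0) (nat_lit 0) (XT.lf (nat_lit 0) (nat_lit 2897936451) (nat_lit 76) (nat_lit 31246286812) (nat_lit 76) (nat_lit 14300582269) (nat_lit 6) (nat_lit 4) (nat_lit 7) (nat_lit 5) (nat_lit 7) (nat_lit 4) (nat_lit 286) (nat_lit 235) (nat_lit 199)) (XT.lf (nat_lit 0) (nat_lit 15699762275) (nat_lit 76) (nat_lit 26649111663) (nat_lit 76) (nat_lit 9619546688) (nat_lit 6) (nat_lit 4) (nat_lit 7) (nat_lit 5) (nat_lit 7) (nat_lit 4) (nat_lit 287) (nat_lit 235) (nat_lit 198))))))) (XT.nd (nat_lit 702) (nat_lit 76) (nat_lit 0) (XT.nd (nat_lit 312) (nat_lit 0) (nat_lit 0) (XT.nd (nat_lit 156) (nat_lit 76) (nat_lit 0) (XT.nd (nat_lit 78) (nat_lit 76) (nat_lit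 0) (XT.lf (nat_lit 0) (nat_lit 29425519571) (nat_lit 76) (nat_lit 21729212482) (nat_lit 76) (nat_lit 4621998958) (nat_lit 6) (nat_lit 4) (nat_lit 7) (nat_lit 5) (nat_lit 7) (nat_lit 4) (nat_lit 288) (nat_lit 235) (nat_lit 197)) (XT.lf (nat_lit 0) (nat_lit 698577877) (nat_lit 152) (nat_lit 15747025680) (nat_lit 76) (nat_lit 43446137529) (nat_lit 5) (nat_lit 5) (nat_lit 7) (nat_lit 5) (nat_lit 6) (nat_lit 4) (nat_lit 289) (nat_lit 235) (nat_lit 196))) (XT.nd (nat_lit 78) (nat_lit 76) (nat_lit 0) (XT.lf (nat_lit 0) (nat_lit 6236923599) (nat_lit 152) (nat_lit 4459988066) (nat_lit 76) (nat_lit 53637588098) (nat_lit 5) (nat_lit 5) (nat_lit 7) (nat_lit 5) (nat_lit 6) (nat_lit 4) (nat_lit 290) (nat_lit 235) (nat_lit 195)) (XT.lf (nat_lit 0) (nat_lit 7901858733) (nat_lit 76) (nat_lit 4395302290) (nat_lit 152) (nat_lit 56831613088) (nat_lit 4) (nat_lit 5) (nat_lit 5) (nat_lit 5) (nat_lit 6) (nat_lit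 4) (nat_lit 291) (nat_lit 235) (nat_lit 194)))) (XT.nd (nat_lit 156) (nat_lit 0) (nat_lit 0) (XT.nd (nat_lit 78) (nat_lit 0) (nat_lit 0) (XT.lf (nat_lit 0) (nat_lit 18915810070) (nat_lit 152) (nat_lit 53008843534) (nat_lit 0) (nat_lit 2378290672) (nat_lit 4) (nat_lit 5) (nat_lit 6) (nat_lit 4) (nat_lit 4) (nat_lit 4) (nat_lit 292) (nat_lit 235) (nat_lit 193)) (XT.lf (nat_lit 0) (nat_lit 26098244648) (nat_lit 152) (nat_lit 44280724302) (nat_lit 0) (nat_lit 9510395442) (nat_lit 4) (nat_lit 5) (nat_lit 6) (nat_lit 4) (nat_lit 4) (nat_lit 4) (nat_lit 293) (nat_lit 235) (nat_lit 192))) (XT.nd (nat_lit 78) (nat_lit 0) (nat_lit 0) (XT.lf (nat_lit 0) (nat_lit 33818404347) (nat_lit 152) (nat_lit 34922212506) (nat_lit 0) (nat_lit 17183953467) (nat_lit 4) (nat_lit 5) (nat_lit 6) (nat_lit 4) (nat_lit 4) (nat_lit 4) (nat_lit 294) (nat_lit 235) (nat_lit 191)) (XT.nd (nat_lit 78) (nat_lit 0) (nat_lit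 0) (XT.lf (nat_lit 0) (nat_lit 42122038260) (nat_lit 152) (nat_lit 24877850300) (nat_lit 0) (nat_lit 25444437683) (nat_lit 4) (nat_lit 5) (nat_lit 6) (nat_lit 4) (nat_lit 4) (nat_lit 4) (nat_lit 295) (nat_lit 235) (nat_lit 190)) (XT.lf (nat_lit 0) (nat_lit 51058353108) (nat_lit 152) (nat_lit 14088115537) (nat_lit 0) (nat_lit 34340799106) (nat_lit 4) (nat_lit 5) (nat_lit 6) (nat_lit 4) (nat_lit 4) (nat_lit 4) (nat_lit 296) (nat_lit 235) (nat_lit 189)))))) (XT.nd (nat_lit 390) (nat_lit 0) (nat_lit 0) (XT.nd (nat_lit 156) (nat_lit 0) (nat_lit 0) (XT.nd (nat_lit 78) (nat_lit 76) (nat_lit 0) (XT.lf (nat_lit 0) (nat_lit 60680304830) (nat_lit 152) (nat_lit 2489069048) (nat_lit 0) (nat_lit 43925756917) (nat_lit 4) (nat_lit 5) (nat_lit 6) (nat_lit 4) (nat_lit 4) (nat_lit 4) (nat_lit 297) (nat_lit 235) (nat_lit 188)) (XT.lf (nat_lit 0) (nat_lit 10318273445) (nat_lit 76) (nat_lit 60887736119) (nat_lit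 76) (nat_lit 44098934585) (nat_lit 3) (nat_lit 4) (nat_lit 4) (nat_lit 5) (nat_lit 4) (nat_lit 4) (nat_lit 298) (nat_lit 235) (nat_lit 187))) (XT.nd (nat_lit 78) (nat_lit 0) (nat_lit 0) (XT.lf (nat_lit 0) (nat_lit 24191377878) (nat_lit 76) (nat_lit 58399913039) (nat_lit 76) (nat_lit 41579395190) (nat_lit 3) (nat_lit 4) (nat_lit 4) (nat_lit 5) (nat_lit 4) (nat_lit 4) (nat_lit 299) (nat_lit 235) (nat_lit 186)) (XT.nd (nat_lit 78) (nat_lit 0) (nat_lit 0) (XT.lf (nat_lit 0) (nat_lit 39130155375) (nat_lit 76) (nat_lit 55733315572) (nat_lit 76) (nat_lit 38883430764) (nat_lit 3) (nat_lit 4) (nat_lit 4) (nat_lit 5) (nat_lit 4) (nat_lit 4) (nat_lit 300) (nat_lit 235) (nat_lit 185)) (XT.lf (nat_lit 0) (nat_lit 55223132025) (nat_lit 76) (nat_lit 52872141659) (nat_lit 76) (nat_lit 35995065222) (nat_lit 3) (nat_lit 4) (nat_lit 4) (nat_lit 5) (nat_lit 4) (nat_lit 4) (nat_lit 301) (nat_lit 235) (nat_lit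 184))))) (XT.nd (nat_lit 156) (nat_lit 0) (nat_lit 0) (XT.nd (nat_lit 78) (nat_lit 0) (nat_lit 0) (XT.lf (nat_lit 0) (nat_lit 72565673616) (nat_lit 76) (nat_lit 49799436196) (nat_lit 76) (nat_lit 32897182324) (nat_lit 3) (nat_lit 4) (nat_lit 4) (nat_lit 5) (nat_lit 4) (nat_lit 4) (nat_lit 302) (nat_lit 235) (nat_lit 183)) (XT.lf (nat_lit 0) (nat_lit 91260550765) (nat_lit 76) (nat_lit 46496990556) (nat_lit 76) (nat_lit 29571424245) (nat_lit 3) (nat_lit 4) (nat_lit 4) (nat_lit 5) (nat_lit 4) (nat_lit 4) (nat_lit 303) (nat_lit 235) (nat_lit 182))) (XT.nd (nat_lit 78) (nat_lit 0) (nat_lit 0) (XT.lf (nat_lit 0) (nat_lit 111418547928) (nat_lit 76) (nat_lit 42945234693) (nat_lit 76) (nat_lit 25998082790) (nat_lit 3) (nat_lit 4) (nat_lit 4) (nat_lit 5) (nat_lit 4) (nat_lit 4) (nat_lit 304) (nat_lit 235) (nat_lit 181)) (XT.nd (nat_lit 78) (nat_lit 0) (nat_lit 0) (XT.lf (nat_lit 0) (nat_lit 133159119904)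 (nat_lit 76) (nat_lit 39123121163) (nat_lit 76) (nat_lit 22155982601) (nat_lit 3) (nat_lit 4) (nat_lit 4) (nat_lit 5) (nat_lit 4) (nat_lit 4) (nat_lit 305) (nat_lit 235) (nat_lit 180)) (XT.lf (nat_lit 0) (nat_lit 156611099712) (nat_lit 76) (nat_lit 35008000405) (nat_lit 76) (nat_lit 18022355678) (nat_lit 3) (nat_lit 4) (nat_lit 4) (nat_lit 5) (nat_lit 4) (nat_lit 4) (nat_lit 306) (nat_lit 235) (nat_lit 179))))))))
noncomputable def xc39 : XT := (XT.nd (nat_lit 32916) (nat_lit 0) (nat_lit 1520) (XT.nd (nat_lit 702) (nat_lit 0) (nat_lit 0) (XT.nd (nat_lit 312) (nat_lit 76) (nat_lit 0) (XT.nd (nat_lit 156) (nat_lit 76) (nat_lit 0) (XT.nd (nat_lit 78) (nat_lit 0) (nat_lit 0) (XT.lf (nat_lit 0) (nat_lit 181913462047) (nat_lit 76) (nat_lit 30575486519) (nat_lit 76) (nat_lit 13572706453) (nat_lit 3) (nat_lit 4) (nat_lit 4) (nat_lit 5) (nat_lit 4) (nat_lit 4) (nat_lit 307) (nat_lit 235) (nat_lit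 178)) (XT.lf (nat_lit 0) (nat_lit 209216146834) (nat_lit 76) (nat_lit 25799312756) (nat_lit 76) (nat_lit 8780666635) (nat_lit 3) (nat_lit 4) (nat_lit 4) (nat_lit 5) (nat_lit 4) (nat_lit 4) (nat_lit 308) (nat_lit 235) (nat_lit 177))) (XT.nd (nat_lit 78) (nat_lit 76) (nat_lit 0) (XT.lf (nat_lit 0) (nat_lit 238680947761) (nat_lit 76) (nat_lit 20651175862) (nat_lit 76) (nat_lit 3617838951) (nat_lit 3) (nat_lit 4) (nat_lit 4) (nat_lit 5) (nat_lit 4) (nat_lit 4) (nat_lit 309) (nat_lit 235) (nat_lit 176)) (XT.lf (nat_lit 0) (nat_lit 1884075101) (nat_lit 152) (nat_lit 13184585536) (nat_lit 76) (nat_lit 268566488230) (nat_lit 2) (nat_lit 5) (nat_lit 4) (nat_lit 5) (nat_lit 3) (nat_lit 4) (nat_lit 310) (nat_lit 235) (nat_lit 175)))) (XT.nd (nat_lit 156) (nat_lit 0) (nat_lit 0) (XT.nd (nat_lit 78) (nat_lit 76) (nat_lit 0) (XT.lf (nat_lit 0) (nat_lit 7690649123) (nat_lit 152) (nat_lit 1293703777)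 (nat_lit 76) (nat_lit 296988276200) (nat_lit 2) (nat_lit 5) (nat_lit 4) (nat_lit 5) (nat_lit 3) (nat_lit 4) (nat_lit 311) (nat_lit 235) (nat_lit 174)) (XT.lf (nat_lit 0) (nat_lit 11911832587) (nat_lit 76) (nat_lit 2226230384) (nat_lit 152) (nat_lit 315950235930) (nat_lit 1) (nat_lit 5) (nat_lit 2) (nat_lit 5) (nat_lit 3) (nat_lit 4) (nat_lit 312) (nat_lit 235) (nat_lit 173))) (XT.nd (nat_lit 78) (nat_lit 0) (nat_lit 0) (XT.lf (nat_lit 0) (nat_lit 21194034188) (nat_lit 152) (nat_lit 330009088392) (nat_lit 0) (nat_lit 4925467831) (nat_lit 1) (nat_lit 5) (nat_lit 3) (nat_lit 4) (nat_lit 1) (nat_lit 4) (nat_lit 313) (nat_lit 235) (nat_lit 172)) (XT.nd (nat_lit 78) (nat_lit 0) (nat_lit 0) (XT.lf (nat_lit 0) (nat_lit 28843375807) (nat_lit 152) (nat_lit 342842003414) (nat_lit 0) (nat_lit 12565287254) (nat_lit 1) (nat_lit 5) (nat_lit 3) (nat_lit 4) (nat_lit 1) (nat_lit 4) (nat_lit 314) (nat_lit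 235) (nat_lit 171)) (XT.lf (nat_lit 0) (nat_lit 37096659564) (nat_lit 152) (nat_lit 356716500588) (nat_lit 0) (nat_lit 20809754164) (nat_lit 1) (nat_lit 5) (nat_lit 3) (nat_lit 4) (nat_lit 1) (nat_lit 4) (nat_lit 315) (nat_lit 235) (nat_lit 170)))))) (XT.nd (nat_lit 390) (nat_lit 0) (nat_lit 0) (XT.nd (nat_lit 156) (nat_lit 0) (nat_lit 0) (XT.nd (nat_lit 78) (nat_lit 0) (nat_lit 0) (XT.lf (nat_lit 0) (nat_lit 46002793810) (nat_lit 152) (nat_lit 371714799158) (nat_lit 0) (nat_lit 29707724661) (nat_lit 1) (nat_lit 5) (nat_lit 3) (nat_lit 4) (nat_lit 1) (nat_lit 4) (nat_lit 316) (nat_lit 235) (nat_lit 169)) (XT.lf (nat_lit 0) (nat_lit 55614555634) (nat_lit 152) (nat_lit 387925777928) (nat_lit 0) (nat_lit 39311927459) (nat_lit 1) (nat_lit 5) (nat_lit 3) (nat_lit 4) (nat_lit 1) (nat_lit 4) (nat_lit 317) (nat_lit 235) (nat_lit 168))) (XT.nd (nat_lit 78) (nat_lit 0) (nat_lit 0) (XT.lf (nat_lit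 0) (nat_lit 65988903626) (nat_lit 152) (nat_lit 405445501960) (nat_lit 0) (nat_lit 49679276353) (nat_lit 1) (nat_lit 5) (nat_lit 3) (nat_lit 4) (nat_lit 1) (nat_lit 4) (nat_lit 318) (nat_lit 235) (nat_lit 167)) (XT.nd (nat_lit 78) (nat_lit 0) (nat_lit 0) (XT.lf (nat_lit 0) (nat_lit 77187315403) (nat_lit 152) (nat_lit 424377791839) (nat_lit 0) (nat_lit 60871207484) (nat_lit 1) (nat_lit 5) (nat_lit 3) (nat_lit 4) (nat_lit 1) (nat_lit 4) (nat_lit 319) (nat_lit 235) (nat_lit 166)) (XT.lf (nat_lit 0) (nat_lit 89276151924) (nat_lit 152) (nat_lit 444834838913) (nat_lit 0) (nat_lit 72954043406) (nat_lit 1) (nat_lit 5) (nat_lit 3) (nat_lit 4) (nat_lit 1) (nat_lit 4) (nat_lit 320) (nat_lit 235) (nat_lit 165))))) (XT.nd (nat_lit 156) (nat_lit 0) (nat_lit 0) (XT.nd (nat_lit 78) (nat_lit 0) (nat_lit 0) (XT.lf (nat_lit 0) (nat_lit 102327050739) (nat_lit 152) (nat_lit 466937870128) (nat_lit 0) (nat_lit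 85999386112) (nat_lit 1) (nat_lit 5) (nat_lit 3) (nat_lit 4) (nat_lit 1) (nat_lit 4) (nat_lit 321) (nat_lit 235) (nat_lit 164)) (XT.lf (nat_lit 0) (nat_lit 116417350508) (nat_lit 152) (nat_lit 490817866409) (nat_lit 0) (nat_lit 100084541334) (nat_lit 1) (nat_lit 5) (nat_lit 3) (nat_lit 4) (nat_lit 1) (nat_lit 4) (nat_lit 322) (nat_lit 235) (nat_lit 163))) (XT.nd (nat_lit 78) (nat_lit 0) (nat_lit 0) (XT.lf (nat_lit 0) (nat_lit 131630549302) (nat_lit 152) (nat_lit 516616338846) (nat_lit 0) (nat_lit 115292976660) (nat_lit 1) (nat_lit 5) (nat_lit 3) (nat_lit 4) (nat_lit 1) (nat_lit 4) (nat_lit 323) (nat_lit 235) (nat_lit 162)) (XT.nd (nat_lit 78) (nat_lit 0) (nat_lit 0) (XT.lf (nat_lit 0) (nat_lit 148056799412) (nat_lit 152) (nat_lit 544486167274) (nat_lit 0) (nat_lit 131714816151) (nat_lit 1) (nat_lit 5) (nat_lit 3) (nat_lit 4) (nat_lit 1) (nat_lit 4) (nat_lit 324) (nat_lit 235) (nat_lit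 161)) (XT.lf (nat_lit 0) (nat_lit 165793441579) (nat_lit 152) (nat_lit 574592506234) (nat_lit 0) (nat_lit 149447374411) (nat_lit 1) (nat_lit 5) (nat_lit 3) (nat_lit 4) (nat_lit 1) (nat_lit 4) (nat_lit 325) (nat_lit 235) (nat_lit 160))))))) (XT.nd (nat_lit 780) (nat_lit 1824) (nat_lit 0) (XT.nd (nat_lit 390) (nat_lit 1748) (nat_lit 0) (XT.nd (nat_lit 156) (nat_lit 1748) (nat_lit 0) (XT.nd (nat_lit 78) (nat_lit 608) (nat_lit 0) (XT.lf (nat_lit 0) (nat_lit 1463840670) (nat_lit 532) (nat_lit 545241099) (nat_lit 0) (nat_lit 1463840670) (nat_lit 99) (nat_lit 5) (nat_lit 106) (nat_lit 4) (nat_lit 99) (nat_lit 4) (nat_lit 248) (nat_lit 236) (nat_lit 236)) (XT.lf (nat_lit 0) (nat_lit 745498824) (nat_lit 608) (nat_lit 1198801530) (nat_lit 76) (nat_lit 5142642221) (nat_lit 91) (nat_lit 5) (nat_lit 99) (nat_lit 5) (nat_lit 92) (nat_lit 4) (nat_lit 249) (nat_lit 236) (nat_lit 235))) (XT.nd (nat_lit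 78) (nat_lit 1140) (nat_lit 0) (XT.lf (nat_lit 0) (nat_lit 5490928490) (nat_lit 684) (nat_lit 1270627772) (nat_lit 0) (nat_lit 488887774) (nat_lit 83) (nat_lit 5) (nat_lit 92) (nat_lit 4) (nat_lit 83) (nat_lit 4) (nat_lit 250) (nat_lit 236) (nat_lit 234)) (XT.nd (nat_lit 78) (nat_lit 380) (nat_lit 0) (XT.lf (nat_lit 0) (nat_lit 2874086451) (nat_lit 760) (nat_lit 1336855403) (nat_lit 76) (nat_lit 3225541960) (nat_lit 73) (nat_lit 5) (nat_lit 83) (nat_lit 5) (nat_lit 74) (nat_lit 4) (nat_lit 251) (nat_lit 236) (nat_lit 233)) (XT.lf (nat_lit 0) (nat_lit 6277854216) (nat_lit 380) (nat_lit 1316457304) (nat_lit 456) (nat_lit 53984182) (nat_lit 68) (nat_lit 5) (nat_lit 73) (nat_lit 5) (nat_lit 74) (nat_lit 4) (nat_lit 252) (nat_lit 236) (nat_lit 232))))) (XT.nd (nat_lit 156) (nat_lit 912) (nat_lit 0) (XT.nd (nat_lit 78) (nat_lit 380) (nat_lit 0) (XT.lf (nat_lit 0) (nat_lit 4486310167) (nat_lit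 456) (nat_lit 1469267796) (nat_lit 76) (nat_lit 1927516790) (nat_lit 62) (nat_lit 5) (nat_lit 68) (nat_lit 5) (nat_lit 63) (nat_lit 4) (nat_lit 253) (nat_lit 236) (nat_lit 231)) (XT.lf (nat_lit 0) (nat_lit 1045110206) (nat_lit 380) (nat_lit 1600156762) (nat_lit 76) (nat_lit 5499637914) (nat_lit 57) (nat_lit 5) (nat_lit 62) (nat_lit 5) (nat_lit 58) (nat_lit 5) (nat_lit 254) (nat_lit 236) (nat_lit 230))) (XT.nd (nat_lit 78) (nat_lit 608) (nat_lit 0) (XT.lf (nat_lit 0) (nat_lit 5571701796) (nat_lit 380) (nat_lit 1824105360) (nat_lit 76) (nat_lit 1037522153) (nat_lit 53) (nat_lit 5) (nat_lit 58) (nat_lit 5) (nat_lit 54) (nat_lit 4) (nat_lit 255) (nat_lit 236) (nat_lit 229)) (XT.nd (nat_lit 78) (nat_lit 304) (nat_lit 0) (XT.lf (nat_lit 0) (nat_lit 1550751339) (nat_lit 304) (nat_lit 2172955282) (nat_lit 76) (nat_lit 5026046784) (nat_lit 49) (nat_lit 5) (nat_lit 53) (nat_lit 5) (nat_lit 50)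 (nat_lit 5) (nat_lit 256) (nat_lit 236) (nat_lit 228)) (XT.lf (nat_lit 0) (nat_lit 6082773897) (nat_lit 380) (nat_lit 2666874484) (nat_lit 76) (nat_lit 346863368) (nat_lit 45) (nat_lit 5) (nat_lit 50) (nat_lit 5) (nat_lit 46) (nat_lit 4) (nat_lit 257) (nat_lit 236) (nat_lit 227)))))) (XT.nd (nat_lit 390) (nat_lit 684) (nat_lit 0) (XT.nd (nat_lit 156) (nat_lit 608) (nat_lit 0) (XT.nd (nat_lit 78) (nat_lit 228) (nat_lit 0) (XT.lf (nat_lit 0) (nat_lit 1394326679) (nat_lit 304) (nat_lit 3379997737) (nat_lit 76) (nat_lit 4699328230) (nat_lit 41) (nat_lit 5) (nat_lit 45) (nat_lit 5) (nat_lit 42) (nat_lit 5) (nat_lit 258) (nat_lit 236) (nat_lit 226)) (XT.lf (nat_lit 0) (nat_lit 5560089972) (nat_lit 228) (nat_lit 375313345) (nat_lit 304) (nat_lit 3949374457) (nat_lit 38) (nat_lit 5) (nat_lit 41) (nat_lit 5) (nat_lit 42) (nat_lit 5) (nat_lit 259) (nat_lit 236) (nat_lit 225))) (XT.nd (nat_lit 78)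 (nat_lit 380) (nat_lit 0) (XT.lf (nat_lit 0) (nat_lit 458575448) (nat_lit 228) (nat_lit 5579402326) (nat_lit 76) (nat_lit 4292730692) (nat_lit 35) (nat_lit 5) (nat_lit 38) (nat_lit 5) (nat_lit 36) (nat_lit 5) (nat_lit 260) (nat_lit 236) (nat_lit 224)) (XT.nd (nat_lit 78) (nat_lit 152) (nat_lit 0) (XT.lf (nat_lit 0) (nat_lit 3613025445) (nat_lit 228) (nat_lit 1379941866) (nat_lit 304) (nat_lit 5820974796) (nat_lit 32) (nat_lit 5) (nat_lit 35) (nat_lit 5) (nat_lit 36) (nat_lit 5) (nat_lit 261) (nat_lit 236) (nat_lit 223)) (XT.lf (nat_lit 0) (nat_lit 2094292479) (nat_lit 152) (nat_lit 7765873503) (nat_lit 228) (nat_lit 1477604875) (nat_lit 30) (nat_lit 5) (nat_lit 32) (nat_lit 5) (nat_lit 33) (nat_lit 4) (nat_lit 262) (nat_lit 236) (nat_lit 222))))) (XT.nd (nat_lit 156) (nat_lit 456) (nat_lit 0) (XT.nd (nat_lit 78) (nat_lit 0) (nat_lit 0) (XT.lf (nat_lit 0) (nat_lit 104304279) (nat_lit 152)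 (nat_lit 2947615467) (nat_lit 228) (nat_lit 8852388638) (nat_lit 27) (nat_lit 5) (nat_lit 29) (nat_lit 5) (nat_lit 30) (nat_lit 5) (nat_lit 263) (nat_lit 236) (nat_lit 221)) (XT.lf (nat_lit 0) (nat_lit 7890035548) (nat_lit 228) (nat_lit 2352467924) (nat_lit 76) (nat_lit 2272913031) (nat_lit 27) (nat_lit 5) (nat_lit 30) (nat_lit 5) (nat_lit 28) (nat_lit 4) (nat_lit 264) (nat_lit 236) (nat_lit 220))) (XT.nd (nat_lit 78) (nat_lit 304) (nat_lit 0) (XT.lf (nat_lit 0) (nat_lit 7761088804) (nat_lit 152) (nat_lit 5338343817) (nat_lit 228) (nat_lit 77101091) (nat_lit 25) (nat_lit 5) (nat_lit 27) (nat_lit 5) (nat_lit 28) (nat_lit 4) (nat_lit 265) (nat_lit 236) (nat_lit 219)) (XT.nd (nat_lit 78) (nat_lit 76) (nat_lit 0) (XT.lf (nat_lit 0) (nat_lit 4615402326) (nat_lit 228) (nat_lit 9220854849) (nat_lit 76) (nat_lit 54045867) (nat_lit 22) (nat_lit 5) (nat_lit 25) (nat_lit 5) (nat_lit 23) (nat_lit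 4) (nat_lit 266) (nat_lit 236) (nat_lit 218)) (XT.lf (nat_lit 0) (nat_lit 752042711) (nat_lit 76) (nat_lit 8953508392) (nat_lit 152) (nat_lit 4954583418) (nat_lit 21) (nat_lit 5) (nat_lit 22) (nat_lit 5) (nat_lit 23) (nat_lit 4) (nat_lit 267) (nat_lit 236) (nat_lit 217))))))))
noncomputable def xc40 : XT := (XT.nd (nat_lit 1482) (nat_lit 304) (nat_lit 0) (XT.nd (nat_lit 702) (nat_lit 304) (nat_lit 0) (XT.nd (nat_lit 312) (nat_lit 456) (nat_lit 0) (XT.nd (nat_lit 156) (nat_lit 76) (nat_lit 0) (XT.nd (nat_lit 78) (nat_lit 228) (nat_lit 0) (XT.lf (nat_lit 0) (nat_lit 11586867830) (nat_lit 76) (nat_lit 3612594095) (nat_lit 152) (nat_lit 292514118) (nat_lit 21) (nat_lit 5) (nat_lit 22) (nat_lit 5) (nat_lit 23) (nat_lit 4) (nat_lit 268) (nat_lit 236) (nat_lit 216)) (XT.lf (nat_lit 0) (nat_lit 4577220772) (nat_lit 228) (nat_lit 9633878647) (nat_lit 76) (nat_lit 2176460121) (nat_lit 18) (nat_lit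 5) (nat_lit 21) (nat_lit 5) (nat_lit 19) (nat_lit 4) (nat_lit 269) (nat_lit 236) (nat_lit 215))) (XT.nd (nat_lit 78) (nat_lit 0) (nat_lit 0) (XT.lf (nat_lit 0) (nat_lit 764681402) (nat_lit 76) (nat_lit 9055357053) (nat_lit 152) (nat_lit 7535028853) (nat_lit 17) (nat_lit 5) (nat_lit 18) (nat_lit 5) (nat_lit 19) (nat_lit 4) (nat_lit 270) (nat_lit 236) (nat_lit 214)) (XT.lf (nat_lit 0) (nat_lit 12103777109) (nat_lit 76) (nat_lit 3405258441) (nat_lit 152) (nat_lit 2889792239) (nat_lit 17) (nat_lit 5) (nat_lit 18) (nat_lit 5) (nat_lit 19) (nat_lit 4) (nat_lit 271) (nat_lit 236) (nat_lit 213)))) (XT.nd (nat_lit 156) (nat_lit 228) (nat_lit 0) (XT.nd (nat_lit 78) (nat_lit 0) (nat_lit 0) (XT.lf (nat_lit 0) (nat_lit 2042199592) (nat_lit 228) (nat_lit 14850769288) (nat_lit 76) (nat_lit 2632466337) (nat_lit 14) (nat_lit 5) (nat_lit 17) (nat_lit 5) (nat_lit 15) (nat_lit 4) (nat_lit 272) (nat_lit 236)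 (nat_lit 212)) (XT.lf (nat_lit 0) (nat_lit 7309982042) (nat_lit 228) (nat_lit 4315833437) (nat_lit 76) (nat_lit 9112018269) (nat_lit 14) (nat_lit 5) (nat_lit 17) (nat_lit 5) (nat_lit 15) (nat_lit 4) (nat_lit 273) (nat_lit 236) (nat_lit 211))) (XT.nd (nat_lit 78) (nat_lit 152) (nat_lit 0) (XT.lf (nat_lit 0) (nat_lit 7086912179) (nat_lit 76) (nat_lit 5904634198) (nat_lit 152) (nat_lit 9056203306) (nat_lit 13) (nat_lit 5) (nat_lit 14) (nat_lit 5) (nat_lit 15) (nat_lit 4) (nat_lit 274) (nat_lit 236) (nat_lit 210)) (XT.nd (nat_lit 78) (nat_lit 152) (nat_lit 0) (XT.lf (nat_lit 0) (nat_lit 19094533024) (nat_lit 152) (nat_lit 4105762676) (nat_lit 0) (nat_lit 263951192) (nat_lit 13) (nat_lit 5) (nat_lit 15) (nat_lit 4) (nat_lit 13) (nat_lit 4) (nat_lit 275) (nat_lit 236) (nat_lit 209)) (XT.lf (nat_lit 0) (nat_lit 783788125) (nat_lit 152) (nat_lit 17423422020) (nat_lit 76) (nat_lit 6780719330)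 (nat_lit 11) (nat_lit 5) (nat_lit 13) (nat_lit 5) (nat_lit 12) (nat_lit 4) (nat_lit 276) (nat_lit 236) (nat_lit 208)))))) (XT.nd (nat_lit 390) (nat_lit 152) (nat_lit 0) (XT.nd (nat_lit 156) (nat_lit 76) (nat_lit 0) (XT.nd (nat_lit 78) (nat_lit 76) (nat_lit 0) (XT.lf (nat_lit 0) (nat_lit 6169167918) (nat_lit 152) (nat_lit 6568213671) (nat_lit 76) (nat_lit 13894017266) (nat_lit 11) (nat_lit 5) (nat_lit 13) (nat_lit 5) (nat_lit 12) (nat_lit 4) (nat_lit 277) (nat_lit 236) (nat_lit 207)) (XT.lf (nat_lit 0) (nat_lit 5155183638) (nat_lit 76) (nat_lit 6816192645) (nat_lit 152) (nat_lit 16435770037) (nat_lit 10) (nat_lit 5) (nat_lit 11) (nat_lit 5) (nat_lit 12) (nat_lit 4) (nat_lit 278) (nat_lit 236) (nat_lit 206))) (XT.nd (nat_lit 78) (nat_lit 76) (nat_lit 0) (XT.lf (nat_lit 0) (nat_lit 17892956257) (nat_lit 76) (nat_lit 369262062) (nat_lit 152) (nat_lit 12061605418) (nat_lit 10) (nat_lit 5)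 (nat_lit 11) (nat_lit 5) (nat_lit 12) (nat_lit 4) (nat_lit 279) (nat_lit 236) (nat_lit 205)) (XT.nd (nat_lit 78) (nat_lit 76) (nat_lit 0) (XT.lf (nat_lit 0) (nat_lit 25074991666) (nat_lit 152) (nat_lit 996631172) (nat_lit 0) (nat_lit 6321365425) (nat_lit 10) (nat_lit 5) (nat_lit 12) (nat_lit 4) (nat_lit 10) (nat_lit 4) (nat_lit 280) (nat_lit 236) (nat_lit 204)) (XT.lf (nat_lit 0) (nat_lit 11578168434) (nat_lit 76) (nat_lit 20963577479) (nat_lit 76) (nat_lit 2080571825) (nat_lit 9) (nat_lit 4) (nat_lit 10) (nat_lit 5) (nat_lit 10) (nat_lit 4) (nat_lit 281) (nat_lit 236) (nat_lit 203))))) (XT.nd (nat_lit 156) (nat_lit 76) (nat_lit 0) (XT.nd (nat_lit 78) (nat_lit 0) (nat_lit 0) (XT.lf (nat_lit 0) (nat_lit 3403429462) (nat_lit 152) (nat_lit 12025771008) (nat_lit 76) (nat_lit 21600970365) (nat_lit 8) (nat_lit 5) (nat_lit 10) (nat_lit 5) (nat_lit 9) (nat_lit 4) (nat_lit 282) (nat_lit 236) (nat_lit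 202)) (XT.lf (nat_lit 0) (nat_lit 9184219936) (nat_lit 152) (nat_lit 286072530) (nat_lit 76) (nat_lit 30162171324) (nat_lit 8) (nat_lit 5) (nat_lit 10) (nat_lit 5) (nat_lit 9) (nat_lit 4) (nat_lit 283) (nat_lit 236) (nat_lit 201))) (XT.nd (nat_lit 78) (nat_lit 0) (nat_lit 0) (XT.lf (nat_lit 0) (nat_lit 12682931279) (nat_lit 76) (nat_lit 2877732247) (nat_lit 152) (nat_lit 26875677446) (nat_lit 7) (nat_lit 5) (nat_lit 8) (nat_lit 5) (nat_lit 9) (nat_lit 4) (nat_lit 284) (nat_lit 236) (nat_lit 200)) (XT.nd (nat_lit 78) (nat_lit 0) (nat_lit 0) (XT.lf (nat_lit 0) (nat_lit 22456001617) (nat_lit 152) (nat_lit 18944072133) (nat_lit 0) (nat_lit 4064071444) (nat_lit 7) (nat_lit 5) (nat_lit 9) (nat_lit 4) (nat_lit 7) (nat_lit 4) (nat_lit 285) (nat_lit 236) (nat_lit 199)) (XT.lf (nat_lit 0) (nat_lit 29893602596) (nat_lit 152) (nat_lit 7423279059) (nat_lit 0) (nat_lit 11417811989) (nat_lit 7) (nat_lit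 5) (nat_lit 9) (nat_lit 4) (nat_lit 7) (nat_lit 4) (nat_lit 286) (nat_lit 236) (nat_lit 198))))))) (XT.nd (nat_lit 702) (nat_lit 76) (nat_lit 0) (XT.nd (nat_lit 312) (nat_lit 76) (nat_lit 0) (XT.nd (nat_lit 156) (nat_lit 76) (nat_lit 0) (XT.nd (nat_lit 78) (nat_lit 0) (nat_lit 0) (XT.lf (nat_lit 0) (nat_lit 5084919541) (nat_lit 76) (nat_lit 32867081974) (nat_lit 76) (nat_lit 14313642818) (nat_lit 6) (nat_lit 4) (nat_lit 7) (nat_lit 5) (nat_lit 7) (nat_lit 4) (nat_lit 287) (nat_lit 236) (nat_lit 197)) (XT.lf (nat_lit 0) (nat_lit 18766065640) (nat_lit 76) (nat_lit 27967237093) (nat_lit 76) (nat_lit 9341901133) (nat_lit 6) (nat_lit 4) (nat_lit 7) (nat_lit 5) (nat_lit 7) (nat_lit 4) (nat_lit 288) (nat_lit 236) (nat_lit 196))) (XT.nd (nat_lit 78) (nat_lit 76) (nat_lit 0) (XT.lf (nat_lit 0) (nat_lit 33455785565) (nat_lit 76) (nat_lit 22714027719) (nat_lit 76) (nat_lit 4022120643) (nat_lit 6)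 (nat_lit 4) (nat_lit 7) (nat_lit 5) (nat_lit 7) (nat_lit 4) (nat_lit 289) (nat_lit 236) (nat_lit 195)) (XT.lf (nat_lit 0) (nat_lit 1623541656) (nat_lit 152) (nat_lit 15425286602) (nat_lit 76) (nat_lit 47590092390) (nat_lit 5) (nat_lit 5) (nat_lit 7) (nat_lit 5) (nat_lit 6) (nat_lit 4) (nat_lit 290) (nat_lit 236) (nat_lit 194)))) (XT.nd (nat_lit 156) (nat_lit 0) (nat_lit 0) (XT.nd (nat_lit 78) (nat_lit 76) (nat_lit 0) (XT.lf (nat_lit 0) (nat_lit 7540578920) (nat_lit 152) (nat_lit 3352434211) (nat_lit 76) (nat_lit 58547357978) (nat_lit 5) (nat_lit 5) (nat_lit 7) (nat_lit 5) (nat_lit 6) (nat_lit 4) (nat_lit 291) (nat_lit 236) (nat_lit 193)) (XT.lf (nat_lit 0) (nat_lit 9934721339) (nat_lit 76) (nat_lit 4113175556) (nat_lit 152) (nat_lit 60572225845) (nat_lit 4) (nat_lit 5) (nat_lit 5) (nat_lit 5) (nat_lit 6) (nat_lit 4) (nat_lit 292) (nat_lit 236) (nat_lit 192))) (XT.nd (nat_lit 78) (nat_lit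 0) (nat_lit 0) (XT.lf (nat_lit 0) (nat_lit 21148387485) (nat_lit 152) (nat_lit 55925687517) (nat_lit 0) (nat_lit 3136578861) (nat_lit 4) (nat_lit 5) (nat_lit 6) (nat_lit 4) (nat_lit 4) (nat_lit 4) (nat_lit 293) (nat_lit 236) (nat_lit 191)) (XT.nd (nat_lit 78) (nat_lit 0) (nat_lit 0) (XT.lf (nat_lit 0) (nat_lit 28852134414) (nat_lit 152) (nat_lit 46597382709) (nat_lit 0) (nat_lit 10797176092) (nat_lit 4) (nat_lit 5) (nat_lit 6) (nat_lit 4) (nat_lit 4) (nat_lit 4) (nat_lit 294) (nat_lit 236) (nat_lit 190)) (XT.lf (nat_lit 0) (nat_lit 37140571318) (nat_lit 152) (nat_lit 36580989935) (nat_lit 0) (nat_lit 19045659573) (nat_lit 4) (nat_lit 5) (nat_lit 6) (nat_lit 4) (nat_lit 4) (nat_lit 4) (nat_lit 295) (nat_lit 236) (nat_lit 189)))))) (XT.nd (nat_lit 390) (nat_lit 0) (nat_lit 0) (XT.nd (nat_lit 156) (nat_lit 76) (nat_lit 0) (XT.nd (nat_lit 78) (nat_lit 0) (nat_lit 0) (XT.lf (nat_lit 0) (nat_lit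 46062814861) (nat_lit 152) (nat_lit 25817152795) (nat_lit 0) (nat_lit 27930909205) (nat_lit 4) (nat_lit 5) (nat_lit 6) (nat_lit 4) (nat_lit 4) (nat_lit 4) (nat_lit 296) (nat_lit 236) (nat_lit 188)) (XT.lf (nat_lit 0) (nat_lit 55671737597) (nat_lit 152) (nat_lit 14242085586) (nat_lit 0) (nat_lit 37505578320) (nat_lit 4) (nat_lit 5) (nat_lit 6) (nat_lit 4) (nat_lit 4) (nat_lit 4) (nat_lit 297) (nat_lit 236) (nat_lit 187))) (XT.nd (nat_lit 78) (nat_lit 76) (nat_lit 0) (XT.lf (nat_lit 0) (nat_lit 66024281291) (nat_lit 152) (nat_lit 1787195319) (nat_lit 0) (nat_lit 47826405698) (nat_lit 4) (nat_lit 5) (nat_lit 6) (nat_lit 4) (nat_lit 4) (nat_lit 4) (nat_lit 298) (nat_lit 236) (nat_lit 186)) (XT.nd (nat_lit 78) (nat_lit 0) (nat_lit 0) (XT.lf (nat_lit 0) (nat_lit 12005578244) (nat_lit 76) (nat_lit 65363656826) (nat_lit 76) (nat_lit 47136414274) (nat_lit 3) (nat_lit 4) (nat_lit 4) (nat_lit 5)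 (nat_lit 4) (nat_lit 4) (nat_lit 299) (nat_lit 236) (nat_lit 185)) (XT.lf (nat_lit 0) (nat_lit 26924690815) (nat_lit 76) (nat_lit 62706074432) (nat_lit 76) (nat_lit 44451640251) (nat_lit 3) (nat_lit 4) (nat_lit 4) (nat_lit 5) (nat_lit 4) (nat_lit 4) (nat_lit 300) (nat_lit 236) (nat_lit 184))))) (XT.nd (nat_lit 156) (nat_lit 0) (nat_lit 0) (XT.nd (nat_lit 78) (nat_lit 0) (nat_lit 0) (XT.lf (nat_lit 0) (nat_lit 42999459201) (nat_lit 76) (nat_lit 59853247809) (nat_lit 76) (nat_lit 41573636193) (nat_lit 3) (nat_lit 4) (nat_lit 4) (nat_lit 5) (nat_lit 4) (nat_lit 4) (nat_lit 301) (nat_lit 236) (nat_lit 183)) (XT.lf (nat_lit 0) (nat_lit 60325141287) (nat_lit 76) (nat_lit 56788271317) (nat_lit 76) (nat_lit 38485347262) (nat_lit 3) (nat_lit 4) (nat_lit 4) (nat_lit 5) (nat_lit 4) (nat_lit 4) (nat_lit 302) (nat_lit 236) (nat_lit 182))) (XT.nd (nat_lit 78) (nat_lit 0) (nat_lit 0) (XT.lf (nat_lit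 0) (nat_lit 79004407783) (nat_lit 76) (nat_lit 53492982133) (nat_lit 76) (nat_lit 35168472486) (nat_lit 3) (nat_lit 4) (nat_lit 4) (nat_lit 5) (nat_lit 4) (nat_lit 4) (nat_lit 303) (nat_lit 236) (nat_lit 181)) (XT.nd (nat_lit 78) (nat_lit 0) (nat_lit 0) (XT.lf (nat_lit 0) (nat_lit 99147950639) (nat_lit 76) (nat_lit 49947852617) (nat_lit 76) (nat_lit 31603356311) (nat_lit 3) (nat_lit 4) (nat_lit 4) (nat_lit 5) (nat_lit 4) (nat_lit 4) (nat_lit 304) (nat_lit 236) (nat_lit 180)) (XT.lf (nat_lit 0) (nat_lit 120875138996) (nat_lit 76) (nat_lit 46131874594) (nat_lit 76) (nat_lit 27768872123) (nat_lit 3) (nat_lit 4) (nat_lit 4) (nat_lit 5) (nat_lit 4) (nat_lit 4) (nat_lit 305) (nat_lit 236) (nat_lit 179))))))))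
noncomputable def xc41 : XT := (XT.nd (nat_lit 1482) (nat_lit 0) (nat_lit 0) (XT.nd (nat_lit 702) (nat_lit 0) (nat_lit 0) (XT.nd (nat_lit 312) (nat_lit 152) (nat_lit 0) (XT.nd (nat_lit 156) (nat_lit 0) (nat_lit 0) (XT.nd (nat_lit 78) (nat_lit 0) (nat_lit 0) (XT.lf (nat_lit 0) (nat_lit 144314726565) (nat_lit 76) (nat_lit 42022434862) (nat_lit 76) (nat_lit 23642297052) (nat_lit 3) (nat_lit 4) (nat_lit 4) (nat_lit 5) (nat_lit 4) (nat_lit 4) (nat_lit 306) (nat_lit 236) (nat_lit 178)) (XT.lf (nat_lit 0) (nat_lit 169605614605) (nat_lit 76) (nat_lit 37595181184) (nat_lit 76) (nat_lit 19199177319) (nat_lit 3) (nat_lit 4) (nat_lit 4) (nat_lit 5) (nat_lit 4) (nat_lit 4) (nat_lit 307) (nat_lit 236) (nat_lit 177))) (XT.nd (nat_lit 78) (nat_lit 0) (nat_lit 0) (XT.lf (nat_lit 0) (nat_lit 196897675044) (nat_lit 76) (nat_lit 32823877983) (nat_lit 76) (nat_lit 14413183328) (nat_lit 3) (nat_lit 4) (nat_lit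 4) (nat_lit 5) (nat_lit 4) (nat_lit 4) (nat_lit 308) (nat_lit 236) (nat_lit 176)) (XT.lf (nat_lit 0) (nat_lit 226352638611) (nat_lit 76) (nat_lit 27680250871) (nat_lit 76) (nat_lit 9255953631) (nat_lit 3) (nat_lit 4) (nat_lit 4) (nat_lit 5) (nat_lit 4) (nat_lit 4) (nat_lit 309) (nat_lit 236) (nat_lit 175)))) (XT.nd (nat_lit 156) (nat_lit 76) (nat_lit 0) (XT.nd (nat_lit 78) (nat_lit 76) (nat_lit 0) (XT.lf (nat_lit 0) (nat_lit 258145053239) (nat_lit 76) (nat_lit 22133819093) (nat_lit 76) (nat_lit 3696926868) (nat_lit 3) (nat_lit 4) (nat_lit 4) (nat_lit 5) (nat_lit 4) (nat_lit 4) (nat_lit 310) (nat_lit 236) (nat_lit 174)) (XT.lf (nat_lit 0) (nat_lit 2223326138) (nat_lit 152) (nat_lit 13890735664) (nat_lit 76) (nat_lit 290202339180) (nat_lit 2) (nat_lit 5) (nat_lit 4) (nat_lit 5) (nat_lit 3) (nat_lit 4) (nat_lit 311) (nat_lit 236) (nat_lit 173))) (XT.nd (nat_lit 78) (nat_lit 76) (nat_lit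 0) (XT.lf (nat_lit 0) (nat_lit 8480461265) (nat_lit 152) (nat_lit 1074406824) (nat_lit 76) (nat_lit 320886719677) (nat_lit 2) (nat_lit 5) (nat_lit 4) (nat_lit 5) (nat_lit 3) (nat_lit 4) (nat_lit 312) (nat_lit 236) (nat_lit 172)) (XT.nd (nat_lit 78) (nat_lit 0) (nat_lit 0) (XT.lf (nat_lit 0) (nat_lit 13173544247) (nat_lit 76) (nat_lit 2262014275) (nat_lit 152) (nat_lit 341051367273) (nat_lit 1) (nat_lit 5) (nat_lit 2) (nat_lit 5) (nat_lit 3) (nat_lit 4) (nat_lit 313) (nat_lit 236) (nat_lit 171)) (XT.lf (nat_lit 0) (nat_lit 23045735110) (nat_lit 152) (nat_lit 356118167183) (nat_lit 0) (nat_lit 5447060429) (nat_lit 1) (nat_lit 5) (nat_lit 3) (nat_lit 4) (nat_lit 1) (nat_lit 4) (nat_lit 314) (nat_lit 236) (nat_lit 170)))))) (XT.nd (nat_lit 390) (nat_lit 0) (nat_lit 0) (XT.nd (nat_lit 156) (nat_lit 0) (nat_lit 0) (XT.nd (nat_lit 78) (nat_lit 0) (nat_lit 0) (XT.lf (nat_lit 0) (nat_lit 31295455304)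 (nat_lit 152) (nat_lit 369999318983) (nat_lit 0) (nat_lit 13688616875) (nat_lit 1) (nat_lit 5) (nat_lit 3) (nat_lit 4) (nat_lit 1) (nat_lit 4) (nat_lit 315) (nat_lit 236) (nat_lit 169)) (XT.lf (nat_lit 0) (nat_lit 40198289952) (nat_lit 152) (nat_lit 385003779243) (nat_lit 0) (nat_lit 22583892498) (nat_lit 1) (nat_lit 5) (nat_lit 3) (nat_lit 4) (nat_lit 1) (nat_lit 4) (nat_lit 316) (nat_lit 236) (nat_lit 168))) (XT.nd (nat_lit 78) (nat_lit 0) (nat_lit 0) (XT.lf (nat_lit 0) (nat_lit 49806996595) (nat_lit 152) (nat_lit 401220463283) (nat_lit 0) (nat_lit 32185600042) (nat_lit 1) (nat_lit 5) (nat_lit 3) (nat_lit 4) (nat_lit 1) (nat_lit 4) (nat_lit 317) (nat_lit 236) (nat_lit 167)) (XT.nd (nat_lit 78) (nat_lit 0) (nat_lit 0) (XT.lf (nat_lit 0) (nat_lit 60178515714) (nat_lit 152) (nat_lit 418745469970) (nat_lit 0) (nat_lit 42550638515) (nat_lit 1) (nat_lit 5) (nat_lit 3) (nat_lit 4) (nat_lit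 1) (nat_lit 4) (nat_lit 318) (nat_lit 236) (nat_lit 166)) (XT.lf (nat_lit 0) (nat_lit 71374308166) (nat_lit 152) (nat_lit 437682651198) (nat_lit 0) (nat_lit 53740430368) (nat_lit 1) (nat_lit 5) (nat_lit 3) (nat_lit 4) (nat_lit 1) (nat_lit 4) (nat_lit 319) (nat_lit 236) (nat_lit 165))))) (XT.nd (nat_lit 156) (nat_lit 0) (nat_lit 0) (XT.nd (nat_lit 78) (nat_lit 0) (nat_lit 0) (XT.lf (nat_lit 0) (nat_lit 83460719385) (nat_lit 152) (nat_lit 458144227298) (nat_lit 0) (nat_lit 65821285478) (nat_lit 1) (nat_lit 5) (nat_lit 3) (nat_lit 4) (nat_lit 1) (nat_lit 4) (nat_lit 320) (nat_lit 236) (nat_lit 164)) (XT.lf (nat_lit 0) (nat_lit 96509372550) (nat_lit 152) (nat_lit 480251452056) (nat_lit 0) (nat_lit 78864794097) (nat_lit 1) (nat_lit 5) (nat_lit 3) (nat_lit 4) (nat_lit 1) (nat_lit 4) (nat_lit 321) (nat_lit 236) (nat_lit 163))) (XT.nd (nat_lit 78) (nat_lit 0) (nat_lit 0) (XT.lf (nat_lit 0) (nat_lit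 110597593013) (nat_lit 152) (nat_lit 504135331247) (nat_lit 0) (nat_lit 92948251091) (nat_lit 1) (nat_lit 5) (nat_lit 3) (nat_lit 4) (nat_lit 1) (nat_lit 4) (nat_lit 322) (nat_lit 236) (nat_lit 162)) (XT.nd (nat_lit 78) (nat_lit 0) (nat_lit 0) (XT.lf (nat_lit 0) (nat_lit 125808866525) (nat_lit 152) (nat_lit 529937398971) (nat_lit 0) (nat_lit 108155113984) (nat_lit 1) (nat_lit 5) (nat_lit 3) (nat_lit 4) (nat_lit 1) (nat_lit 4) (nat_lit 323) (nat_lit 236) (nat_lit 161)) (XT.lf (nat_lit 0) (nat_lit 142233333966) (nat_lit 152) (nat_lit 557810556369) (nat_lit 0) (nat_lit 124575497518) (nat_lit 1) (nat_lit 5) (nat_lit 3) (nat_lit 4) (nat_lit 1) (nat_lit 4) (nat_lit 324) (nat_lit 236) (nat_lit 160))))))) (XT.nd (nat_lit 31980) (nat_lit 0) (nat_lit 2128) (XT.nd (nat_lit 31590) (nat_lit 0) (nat_lit 4636) (XT.nd (nat_lit 31434) (nat_lit 0) (nat_lit 7448) (XT.nd (nat_lit 31356) (nat_lit 0) (nat_lit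 8360) (XT.lf (nat_lit 0) (nat_lit 159968325513) (nat_lit 152) (nat_lit 587919977708) (nat_lit 0) (nat_lit 142306707670) (nat_lit 1) (nat_lit 5) (nat_lit 3) (nat_lit 4) (nat_lit 1) (nat_lit 4) (nat_lit 325) (nat_lit 236) (nat_lit 159)) (XT.lf (nat_lit 0) (nat_lit 1567104089) (nat_lit 380) (nat_lit 226729305) (nat_lit 0) (nat_lit 1567104089) (nat_lit 111) (nat_lit 5) (nat_lit 116) (nat_lit 4) (nat_lit 111) (nat_lit 4) (nat_lit 246) (nat_lit 237) (nat_lit 237))) (XT.nd (nat_lit 78) (nat_lit 456) (nat_lit 0) (XT.lf (nat_lit 0) (nat_lit 1070773670) (nat_lit 456) (nat_lit 897416028) (nat_lit 76) (nat_lit 4859874827) (nat_lit 105) (nat_lit 5) (nat_lit 111) (nat_lit 5) (nat_lit 106) (nat_lit 4) (nat_lit 247) (nat_lit 237) (nat_lit 236)) (XT.lf (nat_lit 0) (nat_lit 5681809774) (nat_lit 532) (nat_lit 1264903106) (nat_lit 0) (nat_lit 9495602) (nat_lit 99) (nat_lit 5) (nat_lit 106) (nat_lit 4) (nat_lit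 99) (nat_lit 4) (nat_lit 248) (nat_lit 237) (nat_lit 235)))) (XT.nd (nat_lit 156) (nat_lit 1520) (nat_lit 0) (XT.nd (nat_lit 78) (nat_lit 684) (nat_lit 0) (XT.lf (nat_lit 0) (nat_lit 3215358803) (nat_lit 608) (nat_lit 1605897254) (nat_lit 76) (nat_lit 2283925131) (nat_lit 91) (nat_lit 5) (nat_lit 99) (nat_lit 5) (nat_lit 92) (nat_lit 4) (nat_lit 249) (nat_lit 237) (nat_lit 234)) (XT.lf (nat_lit 0) (nat_lit 479555256) (nat_lit 684) (nat_lit 1884939201) (nat_lit 76) (nat_lit 4913796194) (nat_lit 82) (nat_lit 5) (nat_lit 91) (nat_lit 5) (nat_lit 83) (nat_lit 5) (nat_lit 250) (nat_lit 237) (nat_lit 233))) (XT.nd (nat_lit 78) (nat_lit 836) (nat_lit 0) (XT.lf (nat_lit 0) (nat_lit 4844587578) (nat_lit 760) (nat_lit 2164070390) (nat_lit 76) (nat_lit 465493421) (nat_lit 73) (nat_lit 5) (nat_lit 83) (nat_lit 5) (nat_lit 74) (nat_lit 4) (nat_lit 251) (nat_lit 237) (nat_lit 232)) (XT.nd (nat_lit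 78) (nat_lit 380) (nat_lit 0) (XT.lf (nat_lit 0) (nat_lit 1646459365) (nat_lit 456) (nat_lit 2464520032) (nat_lit 76) (nat_lit 3582642980) (nat_lit 67) (nat_lit 5) (nat_lit 73) (nat_lit 5) (nat_lit 68) (nat_lit 5) (nat_lit 252) (nat_lit 237) (nat_lit 231)) (XT.lf (nat_lit 0) (nat_lit 5150761526) (nat_lit 380) (nat_lit 836006666) (nat_lit 456) (nat_lit 1951999025) (nat_lit 62) (nat_lit 5) (nat_lit 67) (nat_lit 5) (nat_lit 68) (nat_lit 5) (nat_lit 253) (nat_lit 237) (nat_lit 230)))))) (XT.nd (nat_lit 390) (nat_lit 912) (nat_lit 0) (XT.nd (nat_lit 156) (nat_lit 912) (nat_lit 0) (XT.nd (nat_lit 78) (nat_lit 304) (nat_lit 0) (XT.lf (nat_lit 0) (nat_lit 2265016520) (nat_lit 380) (nat_lit 3198380790) (nat_lit 76) (nat_lit 2745402945) (nat_lit 57) (nat_lit 5) (nat_lit 62) (nat_lit 5) (nat_lit 58) (nat_lit 5) (nat_lit 254) (nat_lit 237) (nat_lit 229)) (XT.lf (nat_lit 0) (nat_lit 4813123261) (nat_lit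 304) (nat_lit 1800132247) (nat_lit 380) (nat_lit 1893274686) (nat_lit 53) (nat_lit 5) (nat_lit 57) (nat_lit 5) (nat_lit 58) (nat_lit 5) (nat_lit 255) (nat_lit 237) (nat_lit 228))) (XT.nd (nat_lit 78) (nat_lit 608) (nat_lit 0) (XT.lf (nat_lit 0) (nat_lit 2298209491) (nat_lit 304) (nat_lit 4331975412) (nat_lit 76) (nat_lit 2201850566) (nat_lit 49) (nat_lit 5) (nat_lit 53) (nat_lit 5) (nat_lit 50) (nat_lit 5) (nat_lit 256) (nat_lit 237) (nat_lit 227)) (XT.nd (nat_lit 78) (nat_lit 304) (nat_lit 0) (XT.lf (nat_lit 0) (nat_lit 4045665043) (nat_lit 304) (nat_lit 2620223253) (nat_lit 380) (nat_lit 2521439416) (nat_lit 45) (nat_lit 5) (nat_lit 49) (nat_lit 5) (nat_lit 50) (nat_lit 5) (nat_lit 257) (nat_lit 237) (nat_lit 226)) (XT.lf (nat_lit 0) (nat_lit 1669445256) (nat_lit 304) (nat_lit 6158003305) (nat_lit 76) (nat_lit 1746986189) (nat_lit 41) (nat_lit 5) (nat_lit 45) (nat_lit 5) (nat_lit 42)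 (nat_lit 5) (nat_lit 258) (nat_lit 237) (nat_lit 225))))) (XT.nd (nat_lit 156) (nat_lit 456) (nat_lit 0) (XT.nd (nat_lit 78) (nat_lit 228) (nat_lit 0) (XT.lf (nat_lit 0) (nat_lit 2534835920) (nat_lit 228) (nat_lit 3517394105) (nat_lit 304) (nat_lit 3941503045) (nat_lit 38) (nat_lit 5) (nat_lit 41) (nat_lit 5) (nat_lit 42) (nat_lit 5) (nat_lit 259) (nat_lit 237) (nat_lit 224)) (XT.lf (nat_lit 0) (nat_lit 255669691) (nat_lit 228) (nat_lit 9036522144) (nat_lit 76) (nat_lit 1158220085) (nat_lit 35) (nat_lit 5) (nat_lit 38) (nat_lit 5) (nat_lit 36) (nat_lit 5) (nat_lit 260) (nat_lit 237) (nat_lit 223))) (XT.nd (nat_lit 78) (nat_lit 456) (nat_lit 0) (XT.lf (nat_lit 0) (nat_lit 4631718705) (nat_lit 228) (nat_lit 105621695) (nat_lit 76) (nat_lit 6204433452) (nat_lit 35) (nat_lit 5) (nat_lit 38) (nat_lit 5) (nat_lit 36) (nat_lit 5) (nat_lit 261) (nat_lit 237) (nat_lit 222)) (XT.nd (nat_lit 78)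 (nat_lit 228) (nat_lit 0) (XT.lf (nat_lit 0) (nat_lit 9314837053) (nat_lit 304) (nat_lit 1914248306) (nat_lit 76) (nat_lit 245916766) (nat_lit 32) (nat_lit 5) (nat_lit 36) (nat_lit 5) (nat_lit 33) (nat_lit 4) (nat_lit 262) (nat_lit 237) (nat_lit 221)) (XT.lf (nat_lit 0) (nat_lit 2264330494) (nat_lit 228) (nat_lit 4239403358) (nat_lit 76) (nat_lit 5544854804) (nat_lit 29) (nat_lit 5) (nat_lit 32) (nat_lit 5) (nat_lit 30) (nat_lit 5) (nat_lit 263) (nat_lit 237) (nat_lit 220))))))))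
noncomputable def xc42 : XT := (XT.nd (nat_lit 1482) (nat_lit 456) (nat_lit 0) (XT.nd (nat_lit 702) (nat_lit 608) (nat_lit 0) (XT.nd (nat_lit 312) (nat_lit 380) (nat_lit 0) (XT.nd (nat_lit 156) (nat_lit 228) (nat_lit 0) (XT.nd (nat_lit 78) (nat_lit 152) (nat_lit 0) (XT.lf (nat_lit 0) (nat_lit 5582761749) (nat_lit 152) (nat_lit 1325629974) (nat_lit 228) (nat_lit 5761167416) (nat_lit 27) (nat_lit 5) (nat_lit 29) (nat_lit 5) (nat_lit 30) (nat_lit 5) (nat_lit 264) (nat_lit 237) (nat_lit 219)) (XT.lf (nat_lit 0) (nat_lit 2758935646) (nat_lit 152) (nat_lit 9176973554) (nat_lit 228) (nat_lit 1404008937) (nat_lit 25) (nat_lit 5) (nat_lit 27) (nat_lit 5) (nat_lit 28) (nat_lit 4) (nat_lit 265) (nat_lit 237) (nat_lit 218))) (XT.nd (nat_lit 78) (nat_lit 152) (nat_lit 0) (XT.lf (nat_lit 0) (nat_lit 3176900989) (nat_lit 228) (nat_lit 749562057) (nat_lit 76) (nat_lit 10136093745) (nat_lit 24) (nat_lit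 5) (nat_lit 27) (nat_lit 5) (nat_lit 25) (nat_lit 5) (nat_lit 266) (nat_lit 237) (nat_lit 217)) (XT.lf (nat_lit 0) (nat_lit 8104827360) (nat_lit 228) (nat_lit 4950587425) (nat_lit 76) (nat_lit 1785205293) (nat_lit 22) (nat_lit 5) (nat_lit 25) (nat_lit 5) (nat_lit 23) (nat_lit 4) (nat_lit 267) (nat_lit 237) (nat_lit 216)))) (XT.nd (nat_lit 156) (nat_lit 76) (nat_lit 0) (XT.nd (nat_lit 78) (nat_lit 228) (nat_lit 0) (XT.lf (nat_lit 0) (nat_lit 5602503153) (nat_lit 76) (nat_lit 7843349452) (nat_lit 152) (nat_lit 2234365025) (nat_lit 21) (nat_lit 5) (nat_lit 22) (nat_lit 5) (nat_lit 23) (nat_lit 4) (nat_lit 268) (nat_lit 237) (nat_lit 215)) (XT.lf (nat_lit 0) (nat_lit 329791246) (nat_lit 152) (nat_lit 2162919361) (nat_lit 228) (nat_lit 14094945480) (nat_lit 18) (nat_lit 5) (nat_lit 20) (nat_lit 5) (nat_lit 21) (nat_lit 5) (nat_lit 269) (nat_lit 237) (nat_lit 214))) (XT.nd (nat_lit 78) (nat_lit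 76) (nat_lit 0) (XT.lf (nat_lit 0) (nat_lit 7623768729) (nat_lit 228) (nat_lit 5959547869) (nat_lit 76) (nat_lit 3977526481) (nat_lit 18) (nat_lit 5) (nat_lit 21) (nat_lit 5) (nat_lit 19) (nat_lit 4) (nat_lit 270) (nat_lit 237) (nat_lit 213)) (XT.nd (nat_lit 78) (nat_lit 0) (nat_lit 0) (XT.lf (nat_lit 0) (nat_lit 5077720916) (nat_lit 76) (nat_lit 8076128492) (nat_lit 152) (nat_lit 5458784457) (nat_lit 17) (nat_lit 5) (nat_lit 18) (nat_lit 5) (nat_lit 19) (nat_lit 4) (nat_lit 271) (nat_lit 237) (nat_lit 212)) (XT.lf (nat_lit 0) (nat_lit 17008991316) (nat_lit 76) (nat_lit 2100218815) (nat_lit 152) (nat_lit 640376817) (nat_lit 17) (nat_lit 5) (nat_lit 18) (nat_lit 5) (nat_lit 19) (nat_lit 4) (nat_lit 272) (nat_lit 237) (nat_lit 211)))))) (XT.nd (nat_lit 390) (nat_lit 152) (nat_lit 0) (XT.nd (nat_lit 156) (nat_lit 228) (nat_lit 0) (XT.nd (nat_lit 78) (nat_lit 0) (nat_lit 0) (XT.lf (nat_lit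 0) (nat_lit 4513314710) (nat_lit 228) (nat_lit 12101584640) (nat_lit 76) (nat_lit 4354384365) (nat_lit 14) (nat_lit 5) (nat_lit 17) (nat_lit 5) (nat_lit 15) (nat_lit 4) (nat_lit 273) (nat_lit 237) (nat_lit 210)) (XT.lf (nat_lit 0) (nat_lit 10031576115) (nat_lit 228) (nat_lit 1015501788) (nat_lit 76) (nat_lit 11240350768) (nat_lit 14) (nat_lit 5) (nat_lit 17) (nat_lit 5) (nat_lit 15) (nat_lit 4) (nat_lit 274) (nat_lit 237) (nat_lit 209))) (XT.nd (nat_lit 78) (nat_lit 152) (nat_lit 0) (XT.lf (nat_lit 0) (nat_lit 11141030218) (nat_lit 76) (nat_lit 4922798650) (nat_lit 152) (nat_lit 7643692850) (nat_lit 13) (nat_lit 5) (nat_lit 14) (nat_lit 5) (nat_lit 15) (nat_lit 4) (nat_lit 275) (nat_lit 237) (nat_lit 208)) (XT.nd (nat_lit 78) (nat_lit 152) (nat_lit 0) (XT.lf (nat_lit 0) (nat_lit 22525487348) (nat_lit 152) (nat_lit 1130048904) (nat_lit 0) (nat_lit 1588458585) (nat_lit 13) (nat_lit 5) (nat_lit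 15) (nat_lit 4) (nat_lit 13) (nat_lit 4) (nat_lit 276) (nat_lit 237) (nat_lit 207)) (XT.lf (nat_lit 0) (nat_lit 2689928880) (nat_lit 152) (nat_lit 15593804396) (nat_lit 76) (nat_lit 8609099039) (nat_lit 11) (nat_lit 5) (nat_lit 13) (nat_lit 5) (nat_lit 12) (nat_lit 4) (nat_lit 277) (nat_lit 237) (nat_lit 206))))) (XT.nd (nat_lit 156) (nat_lit 76) (nat_lit 0) (XT.nd (nat_lit 78) (nat_lit 76) (nat_lit 0) (XT.lf (nat_lit 0) (nat_lit 8369588116) (nat_lit 152) (nat_lit 4108956519) (nat_lit 76) (nat_lit 16196207316) (nat_lit 11) (nat_lit 5) (nat_lit 13) (nat_lit 5) (nat_lit 12) (nat_lit 4) (nat_lit 278) (nat_lit 237) (nat_lit 205)) (XT.lf (nat_lit 0) (nat_lit 8422600531) (nat_lit 76) (nat_lit 6131511148) (nat_lit 152) (nat_lit 16042675013) (nat_lit 10) (nat_lit 5) (nat_lit 11) (nat_lit 5) (nat_lit 12) (nat_lit 4) (nat_lit 279) (nat_lit 237) (nat_lit 204))) (XT.nd (nat_lit 78) (nat_lit 76) (nat_lit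 0) (XT.lf (nat_lit 0) (nat_lit 21239403315) (nat_lit 152) (nat_lit 10716582530) (nat_lit 0) (nat_lit 716377795) (nat_lit 10) (nat_lit 5) (nat_lit 12) (nat_lit 4) (nat_lit 10) (nat_lit 4) (nat_lit 280) (nat_lit 237) (nat_lit 203)) (XT.nd (nat_lit 78) (nat_lit 0) (nat_lit 0) (XT.lf (nat_lit 0) (nat_lit 1473128302) (nat_lit 76) (nat_lit 27040523435) (nat_lit 76) (nat_lit 6397702162) (nat_lit 9) (nat_lit 4) (nat_lit 10) (nat_lit 5) (nat_lit 10) (nat_lit 4) (nat_lit 281) (nat_lit 237) (nat_lit 202)) (XT.lf (nat_lit 0) (nat_lit 14898013896) (nat_lit 76) (nat_lit 21589684107) (nat_lit 76) (nat_lit 835940840) (nat_lit 9) (nat_lit 4) (nat_lit 10) (nat_lit 5) (nat_lit 10) (nat_lit 4) (nat_lit 282) (nat_lit 237) (nat_lit 201))))))) (XT.nd (nat_lit 702) (nat_lit 152) (nat_lit 0) (XT.nd (nat_lit 312) (nat_lit 152) (nat_lit 0) (XT.nd (nat_lit 156) (nat_lit 0) (nat_lit 0) (XT.nd (nat_lit 78) (nat_lit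 76) (nat_lit 0) (XT.lf (nat_lit 0) (nat_lit 4940438507) (nat_lit 152) (nat_lit 10728549875) (nat_lit 76) (nat_lit 24259183289) (nat_lit 8) (nat_lit 5) (nat_lit 10) (nat_lit 5) (nat_lit 9) (nat_lit 4) (nat_lit 283) (nat_lit 237) (nat_lit 200)) (XT.lf (nat_lit 0) (nat_lit 1841923245) (nat_lit 76) (nat_lit 9276842507) (nat_lit 152) (nat_lit 31623215753) (nat_lit 7) (nat_lit 5) (nat_lit 8) (nat_lit 5) (nat_lit 9) (nat_lit 4) (nat_lit 284) (nat_lit 237) (nat_lit 199))) (XT.nd (nat_lit 78) (nat_lit 0) (nat_lit 0) (XT.lf (nat_lit 0) (nat_lit 15698581648) (nat_lit 76) (nat_lit 2222482571) (nat_lit 152) (nat_lit 27853398337) (nat_lit 7) (nat_lit 5) (nat_lit 8) (nat_lit 5) (nat_lit 9) (nat_lit 4) (nat_lit 285) (nat_lit 237) (nat_lit 198)) (XT.lf (nat_lit 0) (nat_lit 25298196794) (nat_lit 152) (nat_lit 18567026682) (nat_lit 0) (nat_lit 5182833957) (nat_lit 7) (nat_lit 5) (nat_lit 9) (nat_lit 4)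 (nat_lit 7) (nat_lit 4) (nat_lit 286) (nat_lit 237) (nat_lit 197)))) (XT.nd (nat_lit 156) (nat_lit 76) (nat_lit 0) (XT.nd (nat_lit 78) (nat_lit 76) (nat_lit 0) (XT.lf (nat_lit 0) (nat_lit 33253345478) (nat_lit 152) (nat_lit 6264760623) (nat_lit 0) (nat_lit 13066085835) (nat_lit 7) (nat_lit 5) (nat_lit 9) (nat_lit 4) (nat_lit 7) (nat_lit 4) (nat_lit 287) (nat_lit 237) (nat_lit 196)) (XT.lf (nat_lit 0) (nat_lit 7167937532) (nat_lit 76) (nat_lit 34742926770) (nat_lit 76) (nat_lit 14489096012) (nat_lit 6) (nat_lit 4) (nat_lit 7) (nat_lit 5) (nat_lit 7) (nat_lit 4) (nat_lit 288) (nat_lit 237) (nat_lit 195))) (XT.nd (nat_lit 78) (nat_lit 76) (nat_lit 0) (XT.lf (nat_lit 0) (nat_lit 21819410547) (nat_lit 76) (nat_lit 29506910726) (nat_lit 76) (nat_lit 9191440046) (nat_lit 6) (nat_lit 4) (nat_lit 7) (nat_lit 5) (nat_lit 7) (nat_lit 4) (nat_lit 289) (nat_lit 237) (nat_lit 194)) (XT.nd (nat_lit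 78) (nat_lit 76) (nat_lit 0) (XT.lf (nat_lit 0) (nat_lit 37569340684) (nat_lit 76) (nat_lit 23885126478) (nat_lit 76) (nat_lit 3512581797) (nat_lit 6) (nat_lit 4) (nat_lit 7) (nat_lit 5) (nat_lit 7) (nat_lit 4) (nat_lit 290) (nat_lit 237) (nat_lit 193)) (XT.lf (nat_lit 0) (nat_lit 2498518908) (nat_lit 152) (nat_lit 15303427215) (nat_lit 76) (nat_lit 51970228329) (nat_lit 5) (nat_lit 5) (nat_lit 7) (nat_lit 5) (nat_lit 6) (nat_lit 4) (nat_lit 291) (nat_lit 237) (nat_lit 192)))))) (XT.nd (nat_lit 390) (nat_lit 76) (nat_lit 0) (XT.nd (nat_lit 156) (nat_lit 0) (nat_lit 0) (XT.nd (nat_lit 78) (nat_lit 76) (nat_lit 0) (XT.lf (nat_lit 0) (nat_lit 8833727012) (nat_lit 152) (nat_lit 2365182360) (nat_lit 76) (nat_lit 63761636013) (nat_lit 5) (nat_lit 5) (nat_lit 7) (nat_lit 5) (nat_lit 6) (nat_lit 4) (nat_lit 292) (nat_lit 237) (nat_lit 191)) (XT.lf (nat_lit 0) (nat_lit 11930385456) (nat_lit 76)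 (nat_lit 3898890336) (nat_lit 152) (nat_lit 64727060592) (nat_lit 4) (nat_lit 5) (nat_lit 5) (nat_lit 5) (nat_lit 6) (nat_lit 4) (nat_lit 293) (nat_lit 237) (nat_lit 190))) (XT.nd (nat_lit 78) (nat_lit 0) (nat_lit 0) (XT.lf (nat_lit 0) (nat_lit 23456953107) (nat_lit 152) (nat_lit 59264742947) (nat_lit 0) (nat_lit 3874494999) (nat_lit 4) (nat_lit 5) (nat_lit 6) (nat_lit 4) (nat_lit 4) (nat_lit 4) (nat_lit 294) (nat_lit 237) (nat_lit 189)) (XT.nd (nat_lit 78) (nat_lit 0) (nat_lit 0) (XT.lf (nat_lit 0) (nat_lit 31731318707) (nat_lit 152) (nat_lit 49274247796) (nat_lit 0) (nat_lit 12111866687) (nat_lit 4) (nat_lit 5) (nat_lit 6) (nat_lit 4) (nat_lit 4) (nat_lit 4) (nat_lit 295) (nat_lit 237) (nat_lit 188)) (XT.lf (nat_lit 0) (nat_lit 40640533264) (nat_lit 152) (nat_lit 38534389936) (nat_lit 0) (nat_lit 20986827624) (nat_lit 4) (nat_lit 5) (nat_lit 6) (nat_lit 4) (nat_lit 4) (nat_lit 4) (nat_lit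 296) (nat_lit 237) (nat_lit 187))))) (XT.nd (nat_lit 156) (nat_lit 76) (nat_lit 0) (XT.nd (nat_lit 78) (nat_lit 0) (nat_lit 0) (XT.lf (nat_lit 0) (nat_lit 50237392125) (nat_lit 152) (nat_lit 26981525765) (nat_lit 0) (nat_lit 30551970168) (nat_lit 4) (nat_lit 5) (nat_lit 6) (nat_lit 4) (nat_lit 4) (nat_lit 4) (nat_lit 297) (nat_lit 237) (nat_lit 186)) (XT.lf (nat_lit 0) (nat_lit 60578765564) (nat_lit 152) (nat_lit 14547193865) (nat_lit 0) (nat_lit 40863976647) (nat_lit 4) (nat_lit 5) (nat_lit 6) (nat_lit 4) (nat_lit 4) (nat_lit 4) (nat_lit 298) (nat_lit 237) (nat_lit 185))) (XT.nd (nat_lit 78) (nat_lit 76) (nat_lit 0) (XT.lf (nat_lit 0) (nat_lit 71725935793) (nat_lit 152) (nat_lit 1157709307) (nat_lit 0) (nat_lit 51983955248) (nat_lit 4) (nat_lit 5) (nat_lit 6) (nat_lit 4) (nat_lit 4) (nat_lit 4) (nat_lit 299) (nat_lit 237) (nat_lit 184)) (XT.nd (nat_lit 78) (nat_lit 0) (nat_lit 0) (XT.lf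 (nat_lit 0) (nat_lit 13704915899) (nat_lit 76) (nat_lit 70254016363) (nat_lit 76) (nat_lit 50486858384) (nat_lit 3) (nat_lit 4) (nat_lit 4) (nat_lit 5) (nat_lit 4) (nat_lit 4) (nat_lit 300) (nat_lit 237) (nat_lit 183)) (XT.lf (nat_lit 0) (nat_lit 29762824780) (nat_lit 76) (nat_lit 67408918712) (nat_lit 76) (nat_lit 47618448293) (nat_lit 3) (nat_lit 4) (nat_lit 4) (nat_lit 5) (nat_lit 4) (nat_lit 4) (nat_lit 301) (nat_lit 237) (nat_lit 182))))))))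
noncomputable def xc43 : XT := (XT.nd (nat_lit 1482) (nat_lit 0) (nat_lit 0) (XT.nd (nat_lit 702) (nat_lit 152) (nat_lit 0) (XT.nd (nat_lit 312) (nat_lit 0) (nat_lit 0) (XT.nd (nat_lit 156) (nat_lit 0) (nat_lit 0) (XT.nd (nat_lit 78) (nat_lit 0) (nat_lit 0) (XT.lf (nat_lit 0) (nat_lit 47072896214) (nat_lit 76) (nat_lit 64351098675) (nat_lit 76) (nat_lit 44539042665) (nat_lit 3) (nat_lit 4) (nat_lit 4) (nat_lit 5) (nat_lit 4) (nat_lit 4) (nat_lit 302) (nat_lit 237) (nat_lit 181)) (XT.lf (nat_lit 0) (nat_lit 65737708402) (nat_lit 76) (nat_lit 61062435839) (nat_lit 76) (nat_lit 41230393170) (nat_lit 3) (nat_lit 4) (nat_lit 4) (nat_lit 5) (nat_lit 4) (nat_lit 4) (nat_lit 303) (nat_lit 237) (nat_lit 180))) (XT.nd (nat_lit 78) (nat_lit 0) (nat_lit 0) (XT.lf (nat_lit 0) (nat_lit 85867867639) (nat_lit 76) (nat_lit 57523441830) (nat_lit 76) (nat_lit 37672892995) (nat_lit 3) (nat_lit 4) (nat_lit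 4) (nat_lit 5) (nat_lit 4) (nat_lit 4) (nat_lit 304) (nat_lit 237) (nat_lit 179)) (XT.lf (nat_lit 0) (nat_lit 107582663758) (nat_lit 76) (nat_lit 53713144832) (nat_lit 76) (nat_lit 33845460658) (nat_lit 3) (nat_lit 4) (nat_lit 4) (nat_lit 5) (nat_lit 4) (nat_lit 4) (nat_lit 305) (nat_lit 237) (nat_lit 178)))) (XT.nd (nat_lit 156) (nat_lit 0) (nat_lit 0) (XT.nd (nat_lit 78) (nat_lit 0) (nat_lit 0) (XT.lf (nat_lit 0) (nat_lit 131010777031) (nat_lit 76) (nat_lit 49608965308) (nat_lit 76) (nat_lit 29725415080) (nat_lit 3) (nat_lit 4) (nat_lit 4) (nat_lit 5) (nat_lit 4) (nat_lit 4) (nat_lit 306) (nat_lit 237) (nat_lit 177)) (XT.lf (nat_lit 0) (nat_lit 156291040723) (nat_lit 76) (nat_lit 45186582193) (nat_lit 76) (nat_lit 25288341174) (nat_lit 3) (nat_lit 4) (nat_lit 4) (nat_lit 5) (nat_lit 4) (nat_lit 4) (nat_lit 307) (nat_lit 237) (nat_lit 176))) (XT.nd (nat_lit 78) (nat_lit 0) (nat_lit 0)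 (XT.lf (nat_lit 0) (nat_lit 183573263803) (nat_lit 76) (nat_lit 40419788774) (nat_lit 76) (nat_lit 20507945170) (nat_lit 3) (nat_lit 4) (nat_lit 4) (nat_lit 5) (nat_lit 4) (nat_lit 4) (nat_lit 308) (nat_lit 237) (nat_lit 175)) (XT.nd (nat_lit 78) (nat_lit 0) (nat_lit 0) (XT.lf (nat_lit 0) (nat_lit 213019118705) (nat_lit 76) (nat_lit 35280337384) (nat_lit 76) (nat_lit 15355898795) (nat_lit 3) (nat_lit 4) (nat_lit 4) (nat_lit 5) (nat_lit 4) (nat_lit 4) (nat_lit 309) (nat_lit 237) (nat_lit 174)) (XT.lf (nat_lit 0) (nat_lit 244803099383) (nat_lit 76) (nat_lit 29737772017) (nat_lit 76) (nat_lit 9801671404) (nat_lit 3) (nat_lit 4) (nat_lit 4) (nat_lit 5) (nat_lit 4) (nat_lit 4) (nat_lit 310) (nat_lit 237) (nat_lit 173)))))) (XT.nd (nat_lit 390) (nat_lit 0) (nat_lit 0) (XT.nd (nat_lit 156) (nat_lit 76) (nat_lit 0) (XT.nd (nat_lit 78) (nat_lit 76) (nat_lit 0) (XT.lf (nat_lit 0) (nat_lit 279113555353)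 (nat_lit 76) (nat_lit 23759247839) (nat_lit 76) (nat_lit 3812349057) (nat_lit 3) (nat_lit 4) (nat_lit 4) (nat_lit 5) (nat_lit 4) (nat_lit 4) (nat_lit 311) (nat_lit 237) (nat_lit 172)) (XT.lf (nat_lit 0) (nat_lit 2562822055) (nat_lit 152) (nat_lit 14703111874) (nat_lit 76) (nat_lit 313547583148) (nat_lit 2) (nat_lit 5) (nat_lit 4) (nat_lit 5) (nat_lit 3) (nat_lit 4) (nat_lit 312) (nat_lit 237) (nat_lit 171))) (XT.nd (nat_lit 78) (nat_lit 76) (nat_lit 0) (XT.lf (nat_lit 0) (nat_lit 9308555412) (nat_lit 152) (nat_lit 883616182) (nat_lit 76) (nat_lit 346677154320) (nat_lit 2) (nat_lit 5) (nat_lit 4) (nat_lit 5) (nat_lit 3) (nat_lit 4) (nat_lit 313) (nat_lit 237) (nat_lit 170)) (XT.nd (nat_lit 78) (nat_lit 0) (nat_lit 0) (XT.lf (nat_lit 0) (nat_lit 14492144054) (nat_lit 76) (nat_lit 2320963637) (nat_lit 152) (nat_lit 368185538785) (nat_lit 1) (nat_lit 5) (nat_lit 2) (nat_lit 5) (nat_lit 3)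 (nat_lit 4) (nat_lit 314) (nat_lit 237) (nat_lit 169)) (XT.lf (nat_lit 0) (nat_lit 25023291542) (nat_lit 152) (nat_lit 384357579166) (nat_lit 0) (nat_lit 5992183265) (nat_lit 1) (nat_lit 5) (nat_lit 3) (nat_lit 4) (nat_lit 1) (nat_lit 4) (nat_lit 315) (nat_lit 237) (nat_lit 168))))) (XT.nd (nat_lit 156) (nat_lit 0) (nat_lit 0) (XT.nd (nat_lit 78) (nat_lit 0) (nat_lit 0) (XT.lf (nat_lit 0) (nat_lit 33923071008) (nat_lit 152) (nat_lit 399367744694) (nat_lit 0) (nat_lit 14884963633) (nat_lit 1) (nat_lit 5) (nat_lit 3) (nat_lit 4) (nat_lit 1) (nat_lit 4) (nat_lit 316) (nat_lit 237) (nat_lit 167)) (XT.lf (nat_lit 0) (nat_lit 43528948779) (nat_lit 152) (nat_lit 415589711390) (nat_lit 0) (nat_lit 24484360757) (nat_lit 1) (nat_lit 5) (nat_lit 3) (nat_lit 4) (nat_lit 1) (nat_lit 4) (nat_lit 317) (nat_lit 237) (nat_lit 166))) (XT.nd (nat_lit 78) (nat_lit 0) (nat_lit 0) (XT.lf (nat_lit 0) (nat_lit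 53897848572) (nat_lit 152) (nat_lit 433119609427) (nat_lit 0) (nat_lit 34847259952) (nat_lit 1) (nat_lit 5) (nat_lit 3) (nat_lit 4) (nat_lit 1) (nat_lit 4) (nat_lit 318) (nat_lit 237) (nat_lit 165)) (XT.nd (nat_lit 78) (nat_lit 0) (nat_lit 0) (XT.lf (nat_lit 0) (nat_lit 65091215722) (nat_lit 152) (nat_lit 452061319680) (nat_lit 0) (nat_lit 46035070992) (nat_lit 1) (nat_lit 5) (nat_lit 3) (nat_lit 4) (nat_lit 1) (nat_lit 4) (nat_lit 319) (nat_lit 237) (nat_lit 164)) (XT.lf (nat_lit 0) (nat_lit 77175381291) (nat_lit 152) (nat_lit 472527089324) (nat_lit 0) (nat_lit 58114092015) (nat_lit 1) (nat_lit 5) (nat_lit 3) (nat_lit 4) (nat_lit 1) (nat_lit 4) (nat_lit 320) (nat_lit 237) (nat_lit 163))))))) (XT.nd (nat_lit 31902) (nat_lit 0) (nat_lit 3040) (XT.nd (nat_lit 31512) (nat_lit 0) (nat_lit 7372) (XT.nd (nat_lit 156) (nat_lit 0) (nat_lit 0) (XT.nd (nat_lit 78) (nat_lit 0) (nat_lit 0) (XT.lf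 (nat_lit 0) (nat_lit 90221955151) (nat_lit 152) (nat_lit 494638196991) (nat_lit 0) (nat_lit 71155902406) (nat_lit 1) (nat_lit 5) (nat_lit 3) (nat_lit 4) (nat_lit 1) (nat_lit 4) (nat_lit 321) (nat_lit 237) (nat_lit 162)) (XT.lf (nat_lit 0) (nat_lit 104308250331) (nat_lit 152) (nat_lit 518525671470) (nat_lit 0) (nat_lit 85237786968) (nat_lit 1) (nat_lit 5) (nat_lit 3) (nat_lit 4) (nat_lit 1) (nat_lit 4) (nat_lit 322) (nat_lit 237) (nat_lit 161))) (XT.nd (nat_lit 78) (nat_lit 0) (nat_lit 0) (XT.lf (nat_lit 0) (nat_lit 119517741174) (nat_lit 152) (nat_lit 544331068163) (nat_lit 0) (nat_lit 100443193904) (nat_lit 1) (nat_lit 5) (nat_lit 3) (nat_lit 4) (nat_lit 1) (nat_lit 4) (nat_lit 323) (nat_lit 237) (nat_lit 160)) (XT.nd (nat_lit 78) (nat_lit 0) (nat_lit 0) (XT.lf (nat_lit 0) (nat_lit 135940557995) (nat_lit 152) (nat_lit 572207307941) (nat_lit 0) (nat_lit 116862229330) (nat_lit 1) (nat_lit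 5) (nat_lit 3) (nat_lit 4) (nat_lit 1) (nat_lit 4) (nat_lit 324) (nat_lit 237) (nat_lit 159)) (XT.lf (nat_lit 0) (nat_lit 153674021190) (nat_lit 152) (nat_lit 602319583334) (nat_lit 0) (nat_lit 134592191233) (nat_lit 1) (nat_lit 5) (nat_lit 3) (nat_lit 4) (nat_lit 1) (nat_lit 4) (nat_lit 325) (nat_lit 237) (nat_lit 158))))) (XT.nd (nat_lit 156) (nat_lit 988) (nat_lit 0) (XT.nd (nat_lit 78) (nat_lit 380) (nat_lit 0) (XT.lf (nat_lit 0) (nat_lit 477120418) (nat_lit 228) (nat_lit 1402566197) (nat_lit 228) (nat_lit 1402566197) (nat_lit 116) (nat_lit 4) (nat_lit 119) (nat_lit 5) (nat_lit 119) (nat_lit 4) (nat_lit 244) (nat_lit 238) (nat_lit 238)) (XT.lf (nat_lit 0) (nat_lit 102231132) (nat_lit 304) (nat_lit 1658319336) (nat_lit 380) (nat_lit 4877380188) (nat_lit 111) (nat_lit 5) (nat_lit 115) (nat_lit 5) (nat_lit 116) (nat_lit 4) (nat_lit 245) (nat_lit 238) (nat_lit 237))) (XT.nd (nat_lit 78)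 (nat_lit 988) (nat_lit 0) (XT.lf (nat_lit 0) (nat_lit 6118385565) (nat_lit 304) (nat_lit 160838849) (nat_lit 380) (nat_lit 453311151) (nat_lit 111) (nat_lit 5) (nat_lit 115) (nat_lit 5) (nat_lit 116) (nat_lit 4) (nat_lit 246) (nat_lit 238) (nat_lit 236)) (XT.nd (nat_lit 78) (nat_lit 532) (nat_lit 0) (XT.lf (nat_lit 0) (nat_lit 3910671187) (nat_lit 456) (nat_lit 1278956162) (nat_lit 76) (nat_lit 1657165948) (nat_lit 105) (nat_lit 5) (nat_lit 111) (nat_lit 5) (nat_lit 106) (nat_lit 4) (nat_lit 247) (nat_lit 238) (nat_lit 235)) (XT.lf (nat_lit 0) (nat_lit 1309862324) (nat_lit 532) (nat_lit 1860165605) (nat_lit 76) (nat_lit 3813784467) (nat_lit 98) (nat_lit 5) (nat_lit 105) (nat_lit 5) (nat_lit 99) (nat_lit 5) (nat_lit 248) (nat_lit 238) (nat_lit 234)))))) (XT.nd (nat_lit 390) (nat_lit 1596) (nat_lit 0) (XT.nd (nat_lit 156) (nat_lit 1520) (nat_lit 0) (XT.nd (nat_lit 78) (nat_lit 684) (nat_lit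 0) (XT.lf (nat_lit 0) (nat_lit 4750999728) (nat_lit 532) (nat_lit 791278598) (nat_lit 608) (nat_lit 1600999330) (nat_lit 91) (nat_lit 5) (nat_lit 98) (nat_lit 5) (nat_lit 99) (nat_lit 5) (nat_lit 249) (nat_lit 238) (nat_lit 233)) (XT.lf (nat_lit 0) (nat_lit 2507181118) (nat_lit 684) (nat_lit 2918951466) (nat_lit 76) (nat_lit 1898446614) (nat_lit 82) (nat_lit 5) (nat_lit 91) (nat_lit 5) (nat_lit 83) (nat_lit 5) (nat_lit 250) (nat_lit 238) (nat_lit 232))) (XT.nd (nat_lit 78) (nat_lit 836) (nat_lit 0) (XT.lf (nat_lit 0) (nat_lit 4096977793) (nat_lit 684) (nat_lit 2598021149) (nat_lit 760) (nat_lit 834840423) (nat_lit 73) (nat_lit 5) (nat_lit 82) (nat_lit 5) (nat_lit 83) (nat_lit 5) (nat_lit 251) (nat_lit 238) (nat_lit 231)) (XT.nd (nat_lit 78) (nat_lit 380) (nat_lit 0) (XT.lf (nat_lit 0) (nat_lit 3175439085) (nat_lit 456) (nat_lit 3978413860) (nat_lit 76) (nat_lit 604946486) (nat_lit 67)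 (nat_lit 5) (nat_lit 73) (nat_lit 5) (nat_lit 68) (nat_lit 5) (nat_lit 252) (nat_lit 238) (nat_lit 230)) (XT.lf (nat_lit 0) (nat_lit 3434418544) (nat_lit 380) (nat_lit 3918477755) (nat_lit 456) (nat_lit 659630411) (nat_lit 62) (nat_lit 5) (nat_lit 67) (nat_lit 5) (nat_lit 68) (nat_lit 5) (nat_lit 253) (nat_lit 238) (nat_lit 229))))) (XT.nd (nat_lit 156) (nat_lit 912) (nat_lit 0) (XT.nd (nat_lit 78) (nat_lit 304) (nat_lit 0) (XT.lf (nat_lit 0) (nat_lit 3036143736) (nat_lit 304) (nat_lit 273371799) (nat_lit 380) (nat_lit 4982748507) (nat_lit 57) (nat_lit 5) (nat_lit 61) (nat_lit 5) (nat_lit 62) (nat_lit 5) (nat_lit 254) (nat_lit 238) (nat_lit 228)) (XT.lf (nat_lit 0) (nat_lit 2541196383) (nat_lit 304) (nat_lit 4953391232) (nat_lit 380) (nat_lit 1103923863) (nat_lit 53) (nat_lit 5) (nat_lit 57) (nat_lit 5) (nat_lit 58) (nat_lit 5) (nat_lit 255) (nat_lit 238) (nat_lit 227))) (XT.nd (nat_lit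 78) (nat_lit 608) (nat_lit 0) (XT.lf (nat_lit 0) (nat_lit 1934151566) (nat_lit 228) (nat_lit 933295163) (nat_lit 304) (nat_lit 6066013008) (nat_lit 49) (nat_lit 5) (nat_lit 52) (nat_lit 5) (nat_lit 53) (nat_lit 5) (nat_lit 256) (nat_lit 238) (nat_lit 226)) (XT.nd (nat_lit 78) (nat_lit 304) (nat_lit 0) (XT.lf (nat_lit 0) (nat_lit 1157562258) (nat_lit 304) (nat_lit 5905458895) (nat_lit 380) (nat_lit 2234629295) (nat_lit 45) (nat_lit 5) (nat_lit 49) (nat_lit 5) (nat_lit 50) (nat_lit 5) (nat_lit 257) (nat_lit 238) (nat_lit 225)) (XT.lf (nat_lit 0) (nat_lit 198646420) (nat_lit 228) (nat_lit 1561300084) (nat_lit 304) (nat_lit 7934202143) (nat_lit 41) (nat_lit 5) (nat_lit 44) (nat_lit 5) (nat_lit 45) (nat_lit 5) (nat_lit 258) (nat_lit 238) (nat_lit 224))))))))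
noncomputable def xc44 : XT := (XT.nd (nat_lit 1482) (nat_lit 608) (nat_lit 0) (XT.nd (nat_lit 702) (nat_lit 760) (nat_lit 0) (XT.nd (nat_lit 312) (nat_lit 760) (nat_lit 0) (XT.nd (nat_lit 156) (nat_lit 456) (nat_lit 0) (XT.nd (nat_lit 78) (nat_lit 228) (nat_lit 0) (XT.lf (nat_lit 0) (nat_lit 5975946542) (nat_lit 304) (nat_lit 998696442) (nat_lit 76) (nat_lit 3147382662) (nat_lit 41) (nat_lit 5) (nat_lit 45) (nat_lit 5) (nat_lit 42) (nat_lit 5) (nat_lit 259) (nat_lit 238) (nat_lit 223)) (XT.lf (nat_lit 0) (nat_lit 8143943187) (nat_lit 228) (nat_lit 2340711632) (nat_lit 304) (nat_lit 102167725) (nat_lit 38) (nat_lit 5) (nat_lit 41) (nat_lit 5) (nat_lit 42) (nat_lit 5) (nat_lit 260) (nat_lit 238) (nat_lit 222))) (XT.nd (nat_lit 78) (nat_lit 228) (nat_lit 0) (XT.lf (nat_lit 0) (nat_lit 4106176249) (nat_lit 228) (nat_lit 4277839456) (nat_lit 76) (nat_lit 2702992788) (nat_lit 35) (nat_lit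 5) (nat_lit 38) (nat_lit 5) (nat_lit 36) (nat_lit 5) (nat_lit 261) (nat_lit 238) (nat_lit 221)) (XT.lf (nat_lit 0) (nat_lit 5125537462) (nat_lit 228) (nat_lit 3503088097) (nat_lit 304) (nat_lit 2999825685) (nat_lit 32) (nat_lit 5) (nat_lit 35) (nat_lit 5) (nat_lit 36) (nat_lit 5) (nat_lit 262) (nat_lit 238) (nat_lit 220)))) (XT.nd (nat_lit 156) (nat_lit 380) (nat_lit 0) (XT.nd (nat_lit 78) (nat_lit 152) (nat_lit 0) (XT.lf (nat_lit 0) (nat_lit 1234714586) (nat_lit 228) (nat_lit 9198408593) (nat_lit 76) (nat_lit 1780571187) (nat_lit 29) (nat_lit 5) (nat_lit 32) (nat_lit 5) (nat_lit 30) (nat_lit 5) (nat_lit 263) (nat_lit 238) (nat_lit 219)) (XT.lf (nat_lit 0) (nat_lit 334976208) (nat_lit 152) (nat_lit 5381392309) (nat_lit 228) (nat_lit 7126564507) (nat_lit 27) (nat_lit 5) (nat_lit 29) (nat_lit 5) (nat_lit 30) (nat_lit 5) (nat_lit 264) (nat_lit 238) (nat_lit 218))) (XT.nd (nat_lit 78) (nat_lit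 380) (nat_lit 0) (XT.lf (nat_lit 0) (nat_lit 10560558751) (nat_lit 228) (nat_lit 2806112866) (nat_lit 76) (nat_lit 155923630) (nat_lit 27) (nat_lit 5) (nat_lit 30) (nat_lit 5) (nat_lit 28) (nat_lit 4) (nat_lit 265) (nat_lit 238) (nat_lit 217)) (XT.nd (nat_lit 78) (nat_lit 152) (nat_lit 0) (XT.lf (nat_lit 0) (nat_lit 1548410731) (nat_lit 228) (nat_lit 6683584734) (nat_lit 76) (nat_lit 6020591850) (nat_lit 24) (nat_lit 5) (nat_lit 27) (nat_lit 5) (nat_lit 25) (nat_lit 5) (nat_lit 266) (nat_lit 238) (nat_lit 216)) (XT.lf (nat_lit 0) (nat_lit 3678774325) (nat_lit 152) (nat_lit 2602500244) (nat_lit 228) (nat_lit 8759240909) (nat_lit 22) (nat_lit 5) (nat_lit 24) (nat_lit 5) (nat_lit 25) (nat_lit 5) (nat_lit 267) (nat_lit 238) (nat_lit 215)))))) (XT.nd (nat_lit 390) (nat_lit 380) (nat_lit 0) (XT.nd (nat_lit 156) (nat_lit 228) (nat_lit 0) (XT.nd (nat_lit 78) (nat_lit 152) (nat_lit 0) (XT.lf (nat_lit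 0) (nat_lit 11428276005) (nat_lit 228) (nat_lit 1053136638) (nat_lit 76) (nat_lit 3408505047) (nat_lit 22) (nat_lit 5) (nat_lit 25) (nat_lit 5) (nat_lit 23) (nat_lit 4) (nat_lit 268) (nat_lit 238) (nat_lit 214)) (XT.lf (nat_lit 0) (nat_lit 250570155) (nat_lit 152) (nat_lit 6650126145) (nat_lit 76) (nat_lit 9902797322) (nat_lit 20) (nat_lit 5) (nat_lit 22) (nat_lit 5) (nat_lit 21) (nat_lit 5) (nat_lit 269) (nat_lit 238) (nat_lit 213))) (XT.nd (nat_lit 78) (nat_lit 76) (nat_lit 0) (XT.lf (nat_lit 0) (nat_lit 4369945865) (nat_lit 152) (nat_lit 779708605) (nat_lit 228) (nat_lit 12638709321) (nat_lit 18) (nat_lit 5) (nat_lit 20) (nat_lit 5) (nat_lit 21) (nat_lit 5) (nat_lit 270) (nat_lit 238) (nat_lit 212)) (XT.nd (nat_lit 78) (nat_lit 76) (nat_lit 0) (XT.lf (nat_lit 0) (nat_lit 10531655735) (nat_lit 228) (nat_lit 2625405431) (nat_lit 76) (nat_lit 5690575608) (nat_lit 18) (nat_lit 5) (nat_lit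 21) (nat_lit 5) (nat_lit 19) (nat_lit 4) (nat_lit 271) (nat_lit 238) (nat_lit 211)) (XT.lf (nat_lit 0) (nat_lit 9129227515) (nat_lit 76) (nat_lit 7261607382) (nat_lit 152) (nat_lit 3598636472) (nat_lit 17) (nat_lit 5) (nat_lit 18) (nat_lit 5) (nat_lit 19) (nat_lit 4) (nat_lit 272) (nat_lit 238) (nat_lit 210))))) (XT.nd (nat_lit 156) (nat_lit 152) (nat_lit 0) (XT.nd (nat_lit 78) (nat_lit 0) (nat_lit 0) (XT.lf (nat_lit 0) (nat_lit 513311454) (nat_lit 152) (nat_lit 883877085) (nat_lit 228) (nat_lit 19826980271) (nat_lit 14) (nat_lit 5) (nat_lit 16) (nat_lit 5) (nat_lit 17) (nat_lit 5) (nat_lit 273) (nat_lit 238) (nat_lit 209)) (XT.lf (nat_lit 0) (nat_lit 6852894248) (nat_lit 228) (nat_lit 9694157407) (nat_lit 76) (nat_lit 5998449039) (nat_lit 14) (nat_lit 5) (nat_lit 17) (nat_lit 5) (nat_lit 15) (nat_lit 4) (nat_lit 274) (nat_lit 238) (nat_lit 208))) (XT.nd (nat_lit 78) (nat_lit 76) (nat_lit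 0) (XT.lf (nat_lit 0) (nat_lit 2095851368) (nat_lit 76) (nat_lit 10602930691) (nat_lit 152) (nat_lit 11276184689) (nat_lit 13) (nat_lit 5) (nat_lit 14) (nat_lit 5) (nat_lit 15) (nat_lit 4) (nat_lit 275) (nat_lit 238) (nat_lit 207)) (XT.nd (nat_lit 78) (nat_lit 76) (nat_lit 0) (XT.lf (nat_lit 0) (nat_lit 15021994618) (nat_lit 76) (nat_lit 4069875042) (nat_lit 152) (nat_lit 6423049457) (nat_lit 13) (nat_lit 5) (nat_lit 14) (nat_lit 5) (nat_lit 15) (nat_lit 4) (nat_lit 276) (nat_lit 238) (nat_lit 206)) (XT.lf (nat_lit 0) (nat_lit 1665655887) (nat_lit 76) (nat_lit 24319727583) (nat_lit 76) (nat_lit 1193332898) (nat_lit 12) (nat_lit 4) (nat_lit 13) (nat_lit 5) (nat_lit 13) (nat_lit 4) (nat_lit 277) (nat_lit 238) (nat_lit 205))))))) (XT.nd (nat_lit 702) (nat_lit 228) (nat_lit 0) (XT.nd (nat_lit 312) (nat_lit 228) (nat_lit 0) (XT.nd (nat_lit 156) (nat_lit 76) (nat_lit 0) (XT.nd (nat_lit 78)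 (nat_lit 0) (nat_lit 0) (XT.lf (nat_lit 0) (nat_lit 4485573899) (nat_lit 152) (nat_lit 14077684446) (nat_lit 76) (nat_lit 10400297951) (nat_lit 11) (nat_lit 5) (nat_lit 13) (nat_lit 5) (nat_lit 12) (nat_lit 4) (nat_lit 278) (nat_lit 238) (nat_lit 204)) (XT.lf (nat_lit 0) (nat_lit 10502535450) (nat_lit 152) (nat_lit 1878761650) (nat_lit 76) (nat_lit 18512710372) (nat_lit 11) (nat_lit 5) (nat_lit 13) (nat_lit 5) (nat_lit 12) (nat_lit 4) (nat_lit 279) (nat_lit 238) (nat_lit 203))) (XT.nd (nat_lit 78) (nat_lit 0) (nat_lit 0) (XT.lf (nat_lit 0) (nat_lit 11544112793) (nat_lit 76) (nat_lit 5567525088) (nat_lit 152) (nat_lit 15861791494) (nat_lit 10) (nat_lit 5) (nat_lit 11) (nat_lit 5) (nat_lit 12) (nat_lit 4) (nat_lit 280) (nat_lit 238) (nat_lit 202)) (XT.lf (nat_lit 0) (nat_lit 24243797318) (nat_lit 152) (nat_lit 9256927037) (nat_lit 0) (nat_lit 1718832596) (nat_lit 10) (nat_lit 5) (nat_lit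 12) (nat_lit 4) (nat_lit 10) (nat_lit 4) (nat_lit 281) (nat_lit 238) (nat_lit 201)))) (XT.nd (nat_lit 156) (nat_lit 76) (nat_lit 0) (XT.nd (nat_lit 78) (nat_lit 76) (nat_lit 0) (XT.lf (nat_lit 0) (nat_lit 3807267443) (nat_lit 76) (nat_lit 28230636078) (nat_lit 76) (nat_lit 5602965807) (nat_lit 9) (nat_lit 4) (nat_lit 10) (nat_lit 5) (nat_lit 10) (nat_lit 4) (nat_lit 282) (nat_lit 238) (nat_lit 200)) (XT.lf (nat_lit 0) (nat_lit 297130283) (nat_lit 152) (nat_lit 22113650922) (nat_lit 76) (nat_lit 17839812010) (nat_lit 8) (nat_lit 5) (nat_lit 10) (nat_lit 5) (nat_lit 9) (nat_lit 4) (nat_lit 283) (nat_lit 238) (nat_lit 199))) (XT.nd (nat_lit 78) (nat_lit 76) (nat_lit 0) (XT.lf (nat_lit 0) (nat_lit 6419979733) (nat_lit 152) (nat_lit 9649863003) (nat_lit 76) (nat_lit 26997359049) (nat_lit 8) (nat_lit 5) (nat_lit 10) (nat_lit 5) (nat_lit 9) (nat_lit 4) (nat_lit 284) (nat_lit 238) (nat_lit 198))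 (XT.nd (nat_lit 78) (nat_lit 0) (nat_lit 0) (XT.lf (nat_lit 0) (nat_lit 3842069574) (nat_lit 76) (nat_lit 9199111893) (nat_lit 152) (nat_lit 33067579213) (nat_lit 7) (nat_lit 5) (nat_lit 8) (nat_lit 5) (nat_lit 9) (nat_lit 4) (nat_lit 285) (nat_lit 238) (nat_lit 197)) (XT.lf (nat_lit 0) (nat_lit 18670016762) (nat_lit 76) (nat_lit 1641134867) (nat_lit 152) (nat_lit 29076583352) (nat_lit 7) (nat_lit 5) (nat_lit 8) (nat_lit 5) (nat_lit 9) (nat_lit 4) (nat_lit 286) (nat_lit 238) (nat_lit 196)))))) (XT.nd (nat_lit 390) (nat_lit 152) (nat_lit 0) (XT.nd (nat_lit 156) (nat_lit 76) (nat_lit 0) (XT.nd (nat_lit 78) (nat_lit 0) (nat_lit 0) (XT.lf (nat_lit 0) (nat_lit 28218584644) (nat_lit 152) (nat_lit 18429814038) (nat_lit 0) (nat_lit 6277876310) (nat_lit 7) (nat_lit 5) (nat_lit 9) (nat_lit 4) (nat_lit 7) (nat_lit 4) (nat_lit 287) (nat_lit 238) (nat_lit 195)) (XT.lf (nat_lit 0) (nat_lit 36743735436)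 (nat_lit 152) (nat_lit 5263557419) (nat_lit 0) (nat_lit 14741387180) (nat_lit 7) (nat_lit 5) (nat_lit 9) (nat_lit 4) (nat_lit 7) (nat_lit 4) (nat_lit 288) (nat_lit 238) (nat_lit 194))) (XT.nd (nat_lit 78) (nat_lit 0) (nat_lit 0) (XT.lf (nat_lit 0) (nat_lit 9178464809) (nat_lit 76) (nat_lit 36876337453) (nat_lit 76) (nat_lit 14816915196) (nat_lit 6) (nat_lit 4) (nat_lit 7) (nat_lit 5) (nat_lit 7) (nat_lit 4) (nat_lit 289) (nat_lit 238) (nat_lit 193)) (XT.nd (nat_lit 78) (nat_lit 0) (nat_lit 0) (XT.lf (nat_lit 0) (nat_lit 24895604385) (nat_lit 76) (nat_lit 31269293715) (nat_lit 76) (nat_lit 9157025160) (nat_lit 6) (nat_lit 4) (nat_lit 7) (nat_lit 5) (nat_lit 7) (nat_lit 4) (nat_lit 290) (nat_lit 238) (nat_lit 192)) (XT.lf (nat_lit 0) (nat_lit 41806962934) (nat_lit 76) (nat_lit 25242075607) (nat_lit 76) (nat_lit 3080875295) (nat_lit 6) (nat_lit 4) (nat_lit 7) (nat_lit 5) (nat_lit 7) (nat_lit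 4) (nat_lit 291) (nat_lit 238) (nat_lit 191))))) (XT.nd (nat_lit 156) (nat_lit 76) (nat_lit 0) (XT.nd (nat_lit 78) (nat_lit 0) (nat_lit 0) (XT.lf (nat_lit 0) (nat_lit 3337198364) (nat_lit 152) (nat_lit 15365250848) (nat_lit 76) (nat_lit 56619040481) (nat_lit 5) (nat_lit 5) (nat_lit 7) (nat_lit 5) (nat_lit 6) (nat_lit 4) (nat_lit 292) (nat_lit 238) (nat_lit 190)) (XT.lf (nat_lit 0) (nat_lit 10131904750) (nat_lit 152) (nat_lit 1478053852) (nat_lit 76) (nat_lit 69317376047) (nat_lit 5) (nat_lit 5) (nat_lit 7) (nat_lit 5) (nat_lit 6) (nat_lit 4) (nat_lit 293) (nat_lit 238) (nat_lit 189))) (XT.nd (nat_lit 78) (nat_lit 0) (nat_lit 0) (XT.lf (nat_lit 0) (nat_lit 13914382830) (nat_lit 76) (nat_lit 3744975719) (nat_lit 152) (nat_lit 69312852907) (nat_lit 4) (nat_lit 5) (nat_lit 5) (nat_lit 5) (nat_lit 6) (nat_lit 4) (nat_lit 294) (nat_lit 238) (nat_lit 188)) (XT.nd (nat_lit 78) (nat_lit 0) (nat_lit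 0) (XT.lf (nat_lit 0) (nat_lit 25862225597) (nat_lit 152) (nat_lit 63032843190) (nat_lit 0) (nat_lit 4601969884) (nat_lit 4) (nat_lit 5) (nat_lit 6) (nat_lit 4) (nat_lit 4) (nat_lit 4) (nat_lit 295) (nat_lit 238) (nat_lit 187)) (XT.lf (nat_lit 0) (nat_lit 34759376279) (nat_lit 152) (nat_lit 52315188367) (nat_lit 0) (nat_lit 13467404249) (nat_lit 4) (nat_lit 5) (nat_lit 6) (nat_lit 4) (nat_lit 4) (nat_lit 4) (nat_lit 296) (nat_lit 238) (nat_lit 186))))))))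
noncomputable def xc45 : XT := (XT.nd (nat_lit 1482) (nat_lit 0) (nat_lit 0) (XT.nd (nat_lit 702) (nat_lit 152) (nat_lit 0) (XT.nd (nat_lit 312) (nat_lit 76) (nat_lit 0) (XT.nd (nat_lit 156) (nat_lit 0) (nat_lit 0) (XT.nd (nat_lit 78) (nat_lit 0) (nat_lit 0) (XT.lf (nat_lit 0) (nat_lit 44345064884) (nat_lit 152) (nat_lit 40782882564) (nat_lit 0) (nat_lit 23023725895) (nat_lit 4) (nat_lit 5) (nat_lit 6) (nat_lit 4) (nat_lit 4) (nat_lit 4) (nat_lit 297) (nat_lit 238) (nat_lit 185)) (XT.lf (nat_lit 0) (nat_lit 54676095494) (nat_lit 152) (nat_lit 28367586190) (nat_lit 0) (nat_lit 33327564876) (nat_lit 4) (nat_lit 5) (nat_lit 6) (nat_lit 4) (nat_lit 4) (nat_lit 4) (nat_lit 298) (nat_lit 238) (nat_lit 184))) (XT.nd (nat_lit 78) (nat_lit 0) (nat_lit 0) (XT.lf (nat_lit 0) (nat_lit 65813689030) (nat_lit 152) (nat_lit 14995727118) (nat_lit 0) (nat_lit 44439980978) (nat_lit 4) (nat_lit 5) (nat_lit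 6) (nat_lit 4) (nat_lit 4) (nat_lit 4) (nat_lit 299) (nat_lit 238) (nat_lit 183)) (XT.lf (nat_lit 0) (nat_lit 77823846046) (nat_lit 152) (nat_lit 588064703) (nat_lit 0) (nat_lit 56426825555) (nat_lit 4) (nat_lit 5) (nat_lit 6) (nat_lit 4) (nat_lit 4) (nat_lit 4) (nat_lit 300) (nat_lit 238) (nat_lit 182)))) (XT.nd (nat_lit 156) (nat_lit 0) (nat_lit 0) (XT.nd (nat_lit 78) (nat_lit 0) (nat_lit 0) (XT.lf (nat_lit 0) (nat_lit 15434789449) (nat_lit 76) (nat_lit 75583928714) (nat_lit 76) (nat_lit 54165322631) (nat_lit 3) (nat_lit 4) (nat_lit 4) (nat_lit 5) (nat_lit 4) (nat_lit 4) (nat_lit 301) (nat_lit 238) (nat_lit 181)) (XT.lf (nat_lit 0) (nat_lit 32730406575) (nat_lit 76) (nat_lit 72532735025) (nat_lit 76) (nat_lit 51094142283) (nat_lit 3) (nat_lit 4) (nat_lit 4) (nat_lit 5) (nat_lit 4) (nat_lit 4) (nat_lit 302) (nat_lit 238) (nat_lit 180))) (XT.nd (nat_lit 78) (nat_lit 0) (nat_lit 0) (XT.lf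 (nat_lit 0) (nat_lit 51381835145) (nat_lit 76) (nat_lit 69250207695) (nat_lit 76) (nat_lit 47793108788) (nat_lit 3) (nat_lit 4) (nat_lit 4) (nat_lit 5) (nat_lit 4) (nat_lit 4) (nat_lit 303) (nat_lit 238) (nat_lit 179)) (XT.nd (nat_lit 78) (nat_lit 0) (nat_lit 0) (XT.lf (nat_lit 0) (nat_lit 71499602143) (nat_lit 76) (nat_lit 65716894711) (nat_lit 76) (nat_lit 44242660465) (nat_lit 3) (nat_lit 4) (nat_lit 4) (nat_lit 5) (nat_lit 4) (nat_lit 4) (nat_lit 304) (nat_lit 238) (nat_lit 178)) (XT.lf (nat_lit 0) (nat_lit 93202923966) (nat_lit 76) (nat_lit 61911857922) (nat_lit 76) (nat_lit 40421757622) (nat_lit 3) (nat_lit 4) (nat_lit 4) (nat_lit 5) (nat_lit 4) (nat_lit 4) (nat_lit 305) (nat_lit 238) (nat_lit 177)))))) (XT.nd (nat_lit 390) (nat_lit 152) (nat_lit 0) (XT.nd (nat_lit 156) (nat_lit 0) (nat_lit 0) (XT.nd (nat_lit 78) (nat_lit 0) (nat_lit 0) (XT.lf (nat_lit 0) (nat_lit 116620412891)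 (nat_lit 76) (nat_lit 57812548961) (nat_lit 76) (nat_lit 36307757870) (nat_lit 3) (nat_lit 4) (nat_lit 4) (nat_lit 5) (nat_lit 4) (nat_lit 4) (nat_lit 306) (nat_lit 238) (nat_lit 176)) (XT.lf (nat_lit 0) (nat_lit 141890839224) (nat_lit 76) (nat_lit 53394675627) (nat_lit 76) (nat_lit 31876281952) (nat_lit 3) (nat_lit 4) (nat_lit 4) (nat_lit 5) (nat_lit 4) (nat_lit 4) (nat_lit 307) (nat_lit 238) (nat_lit 175))) (XT.nd (nat_lit 78) (nat_lit 0) (nat_lit 0) (XT.lf (nat_lit 0) (nat_lit 169163953638) (nat_lit 76) (nat_lit 48632057931) (nat_lit 76) (nat_lit 27101069269) (nat_lit 3) (nat_lit 4) (nat_lit 4) (nat_lit 5) (nat_lit 4) (nat_lit 4) (nat_lit 308) (nat_lit 238) (nat_lit 174)) (XT.nd (nat_lit 78) (nat_lit 0) (nat_lit 0) (XT.lf (nat_lit 0) (nat_lit 198601374590) (nat_lit 76) (nat_lit 43496472951) (nat_lit 76) (nat_lit 21953822267) (nat_lit 3) (nat_lit 4) (nat_lit 4) (nat_lit 5) (nat_lit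 4) (nat_lit 4) (nat_lit 309) (nat_lit 238) (nat_lit 173)) (XT.lf (nat_lit 0) (nat_lit 230377546056) (nat_lit 76) (nat_lit 37957487593) (nat_lit 76) (nat_lit 16404038739) (nat_lit 3) (nat_lit 4) (nat_lit 4) (nat_lit 5) (nat_lit 4) (nat_lit 4) (nat_lit 310) (nat_lit 238) (nat_lit 172))))) (XT.nd (nat_lit 156) (nat_lit 152) (nat_lit 0) (XT.nd (nat_lit 78) (nat_lit 0) (nat_lit 0) (XT.lf (nat_lit 0) (nat_lit 264680771273) (nat_lit 76) (nat_lit 31982278240) (nat_lit 76) (nat_lit 10418831079) (nat_lit 3) (nat_lit 4) (nat_lit 4) (nat_lit 5) (nat_lit 4) (nat_lit 4) (nat_lit 311) (nat_lit 238) (nat_lit 171)) (XT.lf (nat_lit 0) (nat_lit 301714328614) (nat_lit 76) (nat_lit 25535436242) (nat_lit 76) (nat_lit 3962731391) (nat_lit 3) (nat_lit 4) (nat_lit 4) (nat_lit 5) (nat_lit 4) (nat_lit 4) (nat_lit 312) (nat_lit 238) (nat_lit 170))) (XT.nd (nat_lit 78) (nat_lit 76) (nat_lit 0) (XT.lf (nat_lit 0)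 (nat_lit 2906419343) (nat_lit 152) (nat_lit 15623117131) (nat_lit 76) (nat_lit 338742035235) (nat_lit 2) (nat_lit 5) (nat_lit 4) (nat_lit 5) (nat_lit 3) (nat_lit 4) (nat_lit 313) (nat_lit 238) (nat_lit 169)) (XT.nd (nat_lit 78) (nat_lit 76) (nat_lit 0) (XT.lf (nat_lit 0) (nat_lit 10181546812) (nat_lit 152) (nat_lit 717042798) (nat_lit 76) (nat_lit 374513776142) (nat_lit 2) (nat_lit 5) (nat_lit 4) (nat_lit 5) (nat_lit 3) (nat_lit 4) (nat_lit 314) (nat_lit 238) (nat_lit 168)) (XT.lf (nat_lit 0) (nat_lit 15878467110) (nat_lit 76) (nat_lit 2402035293) (nat_lit 152) (nat_lit 397511834332) (nat_lit 1) (nat_lit 5) (nat_lit 2) (nat_lit 5) (nat_lit 3) (nat_lit 4) (nat_lit 315) (nat_lit 238) (nat_lit 167))))))) (XT.nd (nat_lit 31746) (nat_lit 0) (nat_lit 5396) (XT.nd (nat_lit 390) (nat_lit 0) (nat_lit 0) (XT.nd (nat_lit 156) (nat_lit 0) (nat_lit 0) (XT.nd (nat_lit 78) (nat_lit 0) (nat_lit 0) (XT.lf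 (nat_lit 0) (nat_lit 27139950495) (nat_lit 152) (nat_lit 414891815307) (nat_lit 0) (nat_lit 6565314785) (nat_lit 1) (nat_lit 5) (nat_lit 3) (nat_lit 4) (nat_lit 1) (nat_lit 4) (nat_lit 316) (nat_lit 238) (nat_lit 166)) (XT.lf (nat_lit 0) (nat_lit 36743208939) (nat_lit 152) (nat_lit 431118673351) (nat_lit 0) (nat_lit 16162572631) (nat_lit 1) (nat_lit 5) (nat_lit 3) (nat_lit 4) (nat_lit 1) (nat_lit 4) (nat_lit 317) (nat_lit 238) (nat_lit 165))) (XT.nd (nat_lit 78) (nat_lit 0) (nat_lit 0) (XT.lf (nat_lit 0) (nat_lit 47109683431) (nat_lit 152) (nat_lit 448653100414) (nat_lit 0) (nat_lit 26523491013) (nat_lit 1) (nat_lit 5) (nat_lit 3) (nat_lit 4) (nat_lit 1) (nat_lit 4) (nat_lit 318) (nat_lit 238) (nat_lit 164)) (XT.nd (nat_lit 78) (nat_lit 0) (nat_lit 0) (XT.lf (nat_lit 0) (nat_lit 58300804930) (nat_lit 152) (nat_lit 467599004211) (nat_lit 0) (nat_lit 37709467966) (nat_lit 1) (nat_lit 5)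 (nat_lit 3) (nat_lit 4) (nat_lit 1) (nat_lit 4) (nat_lit 319) (nat_lit 238) (nat_lit 163)) (XT.lf (nat_lit 0) (nat_lit 70382891194) (nat_lit 152) (nat_lit 488068656764) (nat_lit 0) (nat_lit 49786790762) (nat_lit 1) (nat_lit 5) (nat_lit 3) (nat_lit 4) (nat_lit 1) (nat_lit 4) (nat_lit 320) (nat_lit 238) (nat_lit 162))))) (XT.nd (nat_lit 156) (nat_lit 0) (nat_lit 0) (XT.nd (nat_lit 78) (nat_lit 0) (nat_lit 0) (XT.lf (nat_lit 0) (nat_lit 83427539771) (nat_lit 152) (nat_lit 510183359719) (nat_lit 0) (nat_lit 62827028720) (nat_lit 1) (nat_lit 5) (nat_lit 3) (nat_lit 4) (nat_lit 1) (nat_lit 4) (nat_lit 321) (nat_lit 238) (nat_lit 161)) (XT.lf (nat_lit 0) (nat_lit 97512052282) (nat_lit 152) (nat_lit 534074163167) (nat_lit 0) (nat_lit 76907457324) (nat_lit 1) (nat_lit 5) (nat_lit 3) (nat_lit 4) (nat_lit 1) (nat_lit 4) (nat_lit 322) (nat_lit 238) (nat_lit 160))) (XT.nd (nat_lit 78) (nat_lit 0)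 (nat_lit 0) (XT.lf (nat_lit 0) (nat_lit 112719892505) (nat_lit 152) (nat_lit 559882642239) (nat_lit 0) (nat_lit 92111516152) (nat_lit 1) (nat_lit 5) (nat_lit 3) (nat_lit 4) (nat_lit 1) (nat_lit 4) (nat_lit 323) (nat_lit 238) (nat_lit 159)) (XT.nd (nat_lit 78) (nat_lit 0) (nat_lit 0) (XT.lf (nat_lit 0) (nat_lit 129141180975) (nat_lit 152) (nat_lit 587761736072) (nat_lit 0) (nat_lit 108529303330) (nat_lit 1) (nat_lit 5) (nat_lit 3) (nat_lit 4) (nat_lit 1) (nat_lit 4) (nat_lit 324) (nat_lit 238) (nat_lit 158)) (XT.lf (nat_lit 0) (nat_lit 146873229030) (nat_lit 152) (nat_lit 617876654109) (nat_lit 0) (nat_lit 126258109448) (nat_lit 1) (nat_lit 5) (nat_lit 3) (nat_lit 4) (nat_lit 1) (nat_lit 4) (nat_lit 325) (nat_lit 238) (nat_lit 157)))))) (XT.nd (nat_lit 390) (nat_lit 2888) (nat_lit 0) (XT.nd (nat_lit 156) (nat_lit 684) (nat_lit 0) (XT.nd (nat_lit 78) (nat_lit 228) (nat_lit 0) (XT.lf (nat_lit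 0) (nat_lit 1614781224) (nat_lit 76) (nat_lit 810485924) (nat_lit 76) (nat_lit 810485924) (nat_lit 122) (nat_lit 4) (nat_lit 123) (nat_lit 5) (nat_lit 123) (nat_lit 4) (nat_lit 242) (nat_lit 239) (nat_lit 239)) (XT.lf (nat_lit 0) (nat_lit 1941171427) (nat_lit 152) (nat_lit 945654425) (nat_lit 228) (nat_lit 3625845791) (nat_lit 119) (nat_lit 5) (nat_lit 121) (nat_lit 5) (nat_lit 122) (nat_lit 4) (nat_lit 243) (nat_lit 239) (nat_lit 238))) (XT.nd (nat_lit 78) (nat_lit 380) (nat_lit 0) (XT.lf (nat_lit 0) (nat_lit 739287585) (nat_lit 304) (nat_lit 5778806893) (nat_lit 76) (nat_lit 57213356) (nat_lit 115) (nat_lit 5) (nat_lit 119) (nat_lit 5) (nat_lit 116) (nat_lit 4) (nat_lit 244) (nat_lit 239) (nat_lit 237)) (XT.nd (nat_lit 78) (nat_lit 380) (nat_lit 0) (XT.lf (nat_lit 0) (nat_lit 5017676964) (nat_lit 304) (nat_lit 255235821) (nat_lit 76) (nat_lit 1384422163) (nat_lit 115) (nat_lit 5) (nat_lit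 119) (nat_lit 5) (nat_lit 116) (nat_lit 4) (nat_lit 245) (nat_lit 239) (nat_lit 236)) (XT.lf (nat_lit 0) (nat_lit 2503756614) (nat_lit 380) (nat_lit 1185765931) (nat_lit 76) (nat_lit 3070628506) (nat_lit 110) (nat_lit 5) (nat_lit 115) (nat_lit 5) (nat_lit 111) (nat_lit 5) (nat_lit 246) (nat_lit 239) (nat_lit 235))))) (XT.nd (nat_lit 156) (nat_lit 1976) (nat_lit 0) (XT.nd (nat_lit 78) (nat_lit 532) (nat_lit 0) (XT.lf (nat_lit 0) (nat_lit 4861581144) (nat_lit 380) (nat_lit 1779981932) (nat_lit 456) (nat_lit 243823357) (nat_lit 105) (nat_lit 5) (nat_lit 110) (nat_lit 5) (nat_lit 111) (nat_lit 5) (nat_lit 247) (nat_lit 239) (nat_lit 234)) (XT.lf (nat_lit 0) (nat_lit 3708405306) (nat_lit 532) (nat_lit 2829344242) (nat_lit 76) (nat_lit 493593298) (nat_lit 98) (nat_lit 5) (nat_lit 105) (nat_lit 5) (nat_lit 99) (nat_lit 5) (nat_lit 248) (nat_lit 239) (nat_lit 233))) (XT.nd (nat_lit 78) (nat_lit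 1368) (nat_lit 0) (XT.lf (nat_lit 0) (nat_lit 549591059) (nat_lit 608) (nat_lit 3599252919) (nat_lit 76) (nat_lit 3050781290) (nat_lit 90) (nat_lit 5) (nat_lit 98) (nat_lit 5) (nat_lit 91) (nat_lit 5) (nat_lit 249) (nat_lit 239) (nat_lit 232)) (XT.nd (nat_lit 78) (nat_lit 760) (nat_lit 0) (XT.lf (nat_lit 0) (nat_lit 3025432247) (nat_lit 608) (nat_lit 1379788652) (nat_lit 684) (nat_lit 2985060241) (nat_lit 82) (nat_lit 5) (nat_lit 90) (nat_lit 5) (nat_lit 91) (nat_lit 5) (nat_lit 250) (nat_lit 239) (nat_lit 231)) (XT.lf (nat_lit 0) (nat_lit 775826540) (nat_lit 760) (nat_lit 5133804540) (nat_lit 76) (nat_lit 1695093823) (nat_lit 72) (nat_lit 5) (nat_lit 82) (nat_lit 5) (nat_lit 73) (nat_lit 5) (nat_lit 251) (nat_lit 239) (nat_lit 230))))))))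
noncomputable def xc46 : XT := (XT.nd (nat_lit 1482) (nat_lit 988) (nat_lit 0) (XT.nd (nat_lit 702) (nat_lit 1368) (nat_lit 0) (XT.nd (nat_lit 312) (nat_lit 1444) (nat_lit 0) (XT.nd (nat_lit 156) (nat_lit 304) (nat_lit 0) (XT.nd (nat_lit 78) (nat_lit 456) (nat_lit 0) (XT.lf (nat_lit 0) (nat_lit 1879637338) (nat_lit 380) (nat_lit 2706359955) (nat_lit 456) (nat_lit 3256145258) (nat_lit 67) (nat_lit 5) (nat_lit 72) (nat_lit 5) (nat_lit 73) (nat_lit 5) (nat_lit 252) (nat_lit 239) (nat_lit 229)) (XT.lf (nat_lit 0) (nat_lit 440762699) (nat_lit 456) (nat_lit 6826203333) (nat_lit 76) (nat_lit 839043292) (nat_lit 61) (nat_lit 5) (nat_lit 67) (nat_lit 5) (nat_lit 62) (nat_lit 5) (nat_lit 253) (nat_lit 239) (nat_lit 228))) (XT.nd (nat_lit 78) (nat_lit 0) (nat_lit 0) (XT.lf (nat_lit 0) (nat_lit 563600846) (nat_lit 304) (nat_lit 3665596676) (nat_lit 380) (nat_lit 4164373291) (nat_lit 57) (nat_lit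 5) (nat_lit 61) (nat_lit 5) (nat_lit 62) (nat_lit 5) (nat_lit 254) (nat_lit 239) (nat_lit 227)) (XT.lf (nat_lit 0) (nat_lit 8207347394) (nat_lit 380) (nat_lit 195969380) (nat_lit 76) (nat_lit 307180130) (nat_lit 57) (nat_lit 5) (nat_lit 62) (nat_lit 5) (nat_lit 58) (nat_lit 5) (nat_lit 255) (nat_lit 239) (nat_lit 226)))) (XT.nd (nat_lit 156) (nat_lit 836) (nat_lit 0) (XT.nd (nat_lit 78) (nat_lit 228) (nat_lit 0) (XT.lf (nat_lit 0) (nat_lit 3305681950) (nat_lit 380) (nat_lit 1125876818) (nat_lit 76) (nat_lit 4620876188) (nat_lit 52) (nat_lit 5) (nat_lit 57) (nat_lit 5) (nat_lit 53) (nat_lit 5) (nat_lit 256) (nat_lit 239) (nat_lit 225)) (XT.lf (nat_lit 0) (nat_lit 7251728172) (nat_lit 228) (nat_lit 55128793) (nat_lit 304) (nat_lit 2119760201) (nat_lit 49) (nat_lit 5) (nat_lit 52) (nat_lit 5) (nat_lit 53) (nat_lit 5) (nat_lit 257) (nat_lit 239) (nat_lit 224))) (XT.nd (nat_lit 78) (nat_lit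 456) (nat_lit 0) (XT.lf (nat_lit 0) (nat_lit 1731290235) (nat_lit 380) (nat_lit 3473274477) (nat_lit 76) (nat_lit 4625692867) (nat_lit 44) (nat_lit 5) (nat_lit 49) (nat_lit 5) (nat_lit 45) (nat_lit 5) (nat_lit 258) (nat_lit 239) (nat_lit 223)) (XT.nd (nat_lit 78) (nat_lit 228) (nat_lit 0) (XT.lf (nat_lit 0) (nat_lit 5265401792) (nat_lit 228) (nat_lit 480352286) (nat_lit 304) (nat_lit 4522679016) (nat_lit 41) (nat_lit 5) (nat_lit 44) (nat_lit 5) (nat_lit 45) (nat_lit 5) (nat_lit 259) (nat_lit 239) (nat_lit 222)) (XT.lf (nat_lit 0) (nat_lit 3891596930) (nat_lit 228) (nat_lit 6200812384) (nat_lit 304) (nat_lit 649128613) (nat_lit 38) (nat_lit 5) (nat_lit 41) (nat_lit 5) (nat_lit 42) (nat_lit 5) (nat_lit 260) (nat_lit 239) (nat_lit 221)))))) (XT.nd (nat_lit 390) (nat_lit 532) (nat_lit 0) (XT.nd (nat_lit 156) (nat_lit 380) (nat_lit 0) (XT.nd (nat_lit 78) (nat_lit 228) (nat_lit 0) (XT.lf (nat_lit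 0) (nat_lit 2189902547) (nat_lit 152) (nat_lit 1185421365) (nat_lit 228) (nat_lit 7877077850) (nat_lit 35) (nat_lit 5) (nat_lit 37) (nat_lit 5) (nat_lit 38) (nat_lit 5) (nat_lit 261) (nat_lit 239) (nat_lit 220)) (XT.lf (nat_lit 0) (nat_lit 82155167) (nat_lit 228) (nat_lit 7637450959) (nat_lit 304) (nat_lit 4083314360) (nat_lit 32) (nat_lit 5) (nat_lit 35) (nat_lit 5) (nat_lit 36) (nat_lit 5) (nat_lit 262) (nat_lit 239) (nat_lit 219))) (XT.nd (nat_lit 78) (nat_lit 304) (nat_lit 0) (XT.lf (nat_lit 0) (nat_lit 31577074) (nat_lit 304) (nat_lit 2366474163) (nat_lit 76) (nat_lit 9998822358) (nat_lit 31) (nat_lit 5) (nat_lit 35) (nat_lit 5) (nat_lit 32) (nat_lit 5) (nat_lit 263) (nat_lit 239) (nat_lit 218)) (XT.nd (nat_lit 78) (nat_lit 152) (nat_lit 0) (XT.lf (nat_lit 0) (nat_lit 4357252556) (nat_lit 228) (nat_lit 5394641924) (nat_lit 76) (nat_lit 3282153558) (nat_lit 29) (nat_lit 5) (nat_lit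 32) (nat_lit 5) (nat_lit 30) (nat_lit 5) (nat_lit 264) (nat_lit 239) (nat_lit 217)) (XT.lf (nat_lit 0) (nat_lit 4704126467) (nat_lit 152) (nat_lit 4337126340) (nat_lit 228) (nat_lit 4680593677) (nat_lit 27) (nat_lit 5) (nat_lit 29) (nat_lit 5) (nat_lit 30) (nat_lit 5) (nat_lit 265) (nat_lit 239) (nat_lit 216))))) (XT.nd (nat_lit 156) (nat_lit 304) (nat_lit 0) (XT.nd (nat_lit 78) (nat_lit 76) (nat_lit 0) (XT.lf (nat_lit 0) (nat_lit 1142873429) (nat_lit 152) (nat_lit 12956855159) (nat_lit 228) (nat_lit 365196500) (nat_lit 25) (nat_lit 5) (nat_lit 27) (nat_lit 5) (nat_lit 28) (nat_lit 4) (nat_lit 266) (nat_lit 239) (nat_lit 215)) (XT.lf (nat_lit 0) (nat_lit 4258196111) (nat_lit 228) (nat_lit 3171458925) (nat_lit 76) (nat_lit 7829644765) (nat_lit 24) (nat_lit 5) (nat_lit 27) (nat_lit 5) (nat_lit 25) (nat_lit 5) (nat_lit 267) (nat_lit 239) (nat_lit 214))) (XT.nd (nat_lit 78) (nat_lit 152)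 (nat_lit 0) (XT.lf (nat_lit 0) (nat_lit 7844019315) (nat_lit 152) (nat_lit 1394556934) (nat_lit 228) (nat_lit 6878552637) (nat_lit 22) (nat_lit 5) (nat_lit 24) (nat_lit 5) (nat_lit 25) (nat_lit 5) (nat_lit 268) (nat_lit 239) (nat_lit 213)) (XT.nd (nat_lit 78) (nat_lit 76) (nat_lit 0) (XT.lf (nat_lit 0) (nat_lit 2627697482) (nat_lit 76) (nat_lit 12049301215) (nat_lit 152) (nat_lit 2363789522) (nat_lit 21) (nat_lit 5) (nat_lit 22) (nat_lit 5) (nat_lit 23) (nat_lit 4) (nat_lit 269) (nat_lit 239) (nat_lit 212)) (XT.lf (nat_lit 0) (nat_lit 2488079466) (nat_lit 152) (nat_lit 3584631079) (nat_lit 76) (nat_lit 11961014906) (nat_lit 20) (nat_lit 5) (nat_lit 22) (nat_lit 5) (nat_lit 21) (nat_lit 5) (nat_lit 270) (nat_lit 239) (nat_lit 211))))))) (XT.nd (nat_lit 702) (nat_lit 304) (nat_lit 0) (XT.nd (nat_lit 312) (nat_lit 228) (nat_lit 0) (XT.nd (nat_lit 156) (nat_lit 228) (nat_lit 0) (XT.nd (nat_lit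 78) (nat_lit 76) (nat_lit 0) (XT.lf (nat_lit 0) (nat_lit 7676243875) (nat_lit 228) (nat_lit 10950127135) (nat_lit 76) (nat_lit 476391702) (nat_lit 18) (nat_lit 5) (nat_lit 21) (nat_lit 5) (nat_lit 19) (nat_lit 4) (nat_lit 271) (nat_lit 239) (nat_lit 210)) (XT.lf (nat_lit 0) (nat_lit 446077275) (nat_lit 76) (nat_lit 12905227619) (nat_lit 152) (nat_lit 6902565385) (nat_lit 17) (nat_lit 5) (nat_lit 18) (nat_lit 5) (nat_lit 19) (nat_lit 4) (nat_lit 272) (nat_lit 239) (nat_lit 209))) (XT.nd (nat_lit 78) (nat_lit 228) (nat_lit 0) (XT.lf (nat_lit 0) (nat_lit 12984813423) (nat_lit 76) (nat_lit 6590297126) (nat_lit 152) (nat_lit 1917348085) (nat_lit 17) (nat_lit 5) (nat_lit 18) (nat_lit 5) (nat_lit 19) (nat_lit 4) (nat_lit 273) (nat_lit 239) (nat_lit 208)) (XT.lf (nat_lit 0) (nat_lit 3326017582) (nat_lit 228) (nat_lit 19227309196) (nat_lit 76) (nat_lit 275700616) (nat_lit 14) (nat_lit 5) (nat_lit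 17) (nat_lit 5) (nat_lit 15) (nat_lit 4) (nat_lit 274) (nat_lit 239) (nat_lit 207)))) (XT.nd (nat_lit 156) (nat_lit 152) (nat_lit 0) (XT.nd (nat_lit 78) (nat_lit 76) (nat_lit 0) (XT.lf (nat_lit 0) (nat_lit 9097382956) (nat_lit 228) (nat_lit 7575696511) (nat_lit 76) (nat_lit 7589190809) (nat_lit 14) (nat_lit 5) (nat_lit 17) (nat_lit 5) (nat_lit 15) (nat_lit 4) (nat_lit 275) (nat_lit 239) (nat_lit 206)) (XT.lf (nat_lit 0) (nat_lit 5031743535) (nat_lit 76) (nat_lit 10296769313) (nat_lit 152) (nat_lit 10481854630) (nat_lit 13) (nat_lit 5) (nat_lit 14) (nat_lit 5) (nat_lit 15) (nat_lit 4) (nat_lit 276) (nat_lit 239) (nat_lit 205))) (XT.nd (nat_lit 78) (nat_lit 152) (nat_lit 0) (XT.lf (nat_lit 0) (nat_lit 18786924611) (nat_lit 76) (nat_lit 3326580015) (nat_lit 152) (nat_lit 5366129678) (nat_lit 13) (nat_lit 5) (nat_lit 14) (nat_lit 5) (nat_lit 15) (nat_lit 4) (nat_lit 277) (nat_lit 239) (nat_lit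 204)) (XT.nd (nat_lit 78) (nat_lit 0) (nat_lit 0) (XT.lf (nat_lit 0) (nat_lit 215830388) (nat_lit 152) (nat_lit 24975072158) (nat_lit 76) (nat_lit 4088392587) (nat_lit 11) (nat_lit 5) (nat_lit 13) (nat_lit 5) (nat_lit 12) (nat_lit 4) (nat_lit 278) (nat_lit 239) (nat_lit 203)) (XT.lf (nat_lit 0) (nat_lit 6199401556) (nat_lit 152) (nat_lit 12834536804) (nat_lit 76) (nat_lit 12177512964) (nat_lit 11) (nat_lit 5) (nat_lit 13) (nat_lit 5) (nat_lit 12) (nat_lit 4) (nat_lit 279) (nat_lit 239) (nat_lit 202)))))) (XT.nd (nat_lit 390) (nat_lit 76) (nat_lit 0) (XT.nd (nat_lit 156) (nat_lit 152) (nat_lit 0) (XT.nd (nat_lit 78) (nat_lit 0) (nat_lit 0) (XT.lf (nat_lit 0) (nat_lit 170240240) (nat_lit 76) (nat_lit 12429768700) (nat_lit 152) (nat_lit 20701321904) (nat_lit 10) (nat_lit 5) (nat_lit 11) (nat_lit 5) (nat_lit 12) (nat_lit 4) (nat_lit 280) (nat_lit 239) (nat_lit 201)) (XT.lf (nat_lit 0) (nat_lit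 14566153665) (nat_lit 76) (nat_lit 5108857349) (nat_lit 152) (nat_lit 15875335705) (nat_lit 10) (nat_lit 5) (nat_lit 11) (nat_lit 5) (nat_lit 12) (nat_lit 4) (nat_lit 281) (nat_lit 239) (nat_lit 200))) (XT.nd (nat_lit 78) (nat_lit 152) (nat_lit 0) (XT.lf (nat_lit 0) (nat_lit 27302335515) (nat_lit 152) (nat_lit 8011042504) (nat_lit 0) (nat_lit 2666648341) (nat_lit 10) (nat_lit 5) (nat_lit 12) (nat_lit 4) (nat_lit 10) (nat_lit 4) (nat_lit 282) (nat_lit 239) (nat_lit 199)) (XT.nd (nat_lit 78) (nat_lit 76) (nat_lit 0) (XT.lf (nat_lit 0) (nat_lit 6011959330) (nat_lit 76) (nat_lit 29654785497) (nat_lit 76) (nat_lit 4931044868) (nat_lit 9) (nat_lit 4) (nat_lit 10) (nat_lit 5) (nat_lit 10) (nat_lit 4) (nat_lit 283) (nat_lit 239) (nat_lit 198)) (XT.lf (nat_lit 0) (nat_lit 1324887877) (nat_lit 152) (nat_lit 22089251457) (nat_lit 76) (nat_lit 20005368357) (nat_lit 8) (nat_lit 5) (nat_lit 10) (nat_lit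 5) (nat_lit 9) (nat_lit 4) (nat_lit 284) (nat_lit 239) (nat_lit 197))))) (XT.nd (nat_lit 156) (nat_lit 0) (nat_lit 0) (XT.nd (nat_lit 78) (nat_lit 76) (nat_lit 0) (XT.lf (nat_lit 0) (nat_lit 7863195863) (nat_lit 152) (nat_lit 8761211729) (nat_lit 76) (nat_lit 29840824982) (nat_lit 8) (nat_lit 5) (nat_lit 10) (nat_lit 5) (nat_lit 9) (nat_lit 4) (nat_lit 285) (nat_lit 239) (nat_lit 196)) (XT.lf (nat_lit 0) (nat_lit 5737906049) (nat_lit 76) (nat_lit 9232127594) (nat_lit 152) (nat_lit 34782349576) (nat_lit 7) (nat_lit 5) (nat_lit 8) (nat_lit 5) (nat_lit 9) (nat_lit 4) (nat_lit 286) (nat_lit 239) (nat_lit 195))) (XT.nd (nat_lit 78) (nat_lit 0) (nat_lit 0) (XT.lf (nat_lit 0) (nat_lit 21634424501) (nat_lit 76) (nat_lit 1121580055) (nat_lit 152) (nat_lit 30541010044) (nat_lit 7) (nat_lit 5) (nat_lit 8) (nat_lit 5) (nat_lit 9) (nat_lit 4) (nat_lit 287) (nat_lit 239) (nat_lit 194)) (XT.nd (nat_lit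 78) (nat_lit 0) (nat_lit 0) (XT.lf (nat_lit 0) (nat_lit 31244703193) (nat_lit 152) (nat_lit 18513102815) (nat_lit 0) (nat_lit 7363453153) (nat_lit 7) (nat_lit 5) (nat_lit 9) (nat_lit 4) (nat_lit 7) (nat_lit 4) (nat_lit 288) (nat_lit 239) (nat_lit 193)) (XT.lf (nat_lit 0) (nat_lit 40394930361) (nat_lit 152) (nat_lit 4396589840) (nat_lit 0) (nat_lit 16460834024) (nat_lit 7) (nat_lit 5) (nat_lit 9) (nat_lit 4) (nat_lit 7) (nat_lit 4) (nat_lit 289) (nat_lit 239) (nat_lit 192))))))))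
noncomputable def xc47 : XT := (XT.nd (nat_lit 1482) (nat_lit 152) (nat_lit 0) (XT.nd (nat_lit 702) (nat_lit 76) (nat_lit 0) (XT.nd (nat_lit 312) (nat_lit 76) (nat_lit 0) (XT.nd (nat_lit 156) (nat_lit 76) (nat_lit 0) (XT.nd (nat_lit 78) (nat_lit 0) (nat_lit 0) (XT.lf (nat_lit 0) (nat_lit 11144816988) (nat_lit 76) (nat_lit 39272583460) (nat_lit 76) (nat_lit 15289555365) (nat_lit 6) (nat_lit 4) (nat_lit 7) (nat_lit 5) (nat_lit 7) (nat_lit 4) (nat_lit 290) (nat_lit 239) (nat_lit 191)) (XT.lf (nat_lit 0) (nat_lit 28028062916) (nat_lit 76) (nat_lit 33258002963) (nat_lit 76) (nat_lit 9229667685) (nat_lit 6) (nat_lit 4) (nat_lit 7) (nat_lit 5) (nat_lit 7) (nat_lit 4) (nat_lit 291) (nat_lit 239) (nat_lit 190))) (XT.nd (nat_lit 78) (nat_lit 76) (nat_lit 0) (XT.lf (nat_lit 0) (nat_lit 46207825691) (nat_lit 76) (nat_lit 26786595128) (nat_lit 76) (nat_lit 2716308756) (nat_lit 6) (nat_lit 4) (nat_lit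 7) (nat_lit 5) (nat_lit 7) (nat_lit 4) (nat_lit 292) (nat_lit 239) (nat_lit 189)) (XT.lf (nat_lit 0) (nat_lit 4151840507) (nat_lit 152) (nat_lit 15597856937) (nat_lit 76) (nat_lit 61569683306) (nat_lit 5) (nat_lit 5) (nat_lit 7) (nat_lit 5) (nat_lit 6) (nat_lit 4) (nat_lit 293) (nat_lit 239) (nat_lit 188)))) (XT.nd (nat_lit 156) (nat_lit 0) (nat_lit 0) (XT.nd (nat_lit 78) (nat_lit 76) (nat_lit 0) (XT.lf (nat_lit 0) (nat_lit 11449555532) (nat_lit 152) (nat_lit 673507440) (nat_lit 76) (nat_lit 75252691674) (nat_lit 5) (nat_lit 5) (nat_lit 7) (nat_lit 5) (nat_lit 6) (nat_lit 4) (nat_lit 294) (nat_lit 239) (nat_lit 187)) (XT.lf (nat_lit 0) (nat_lit 15910220817) (nat_lit 76) (nat_lit 3645203197) (nat_lit 152) (nat_lit 74350017172) (nat_lit 4) (nat_lit 5) (nat_lit 5) (nat_lit 5) (nat_lit 6) (nat_lit 4) (nat_lit 295) (nat_lit 239) (nat_lit 186))) (XT.nd (nat_lit 78) (nat_lit 0) (nat_lit 0) (XT.lf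 (nat_lit 0) (nat_lit 28384492603) (nat_lit 152) (nat_lit 67241212077) (nat_lit 0) (nat_lit 5328079536) (nat_lit 4) (nat_lit 5) (nat_lit 6) (nat_lit 4) (nat_lit 4) (nat_lit 4) (nat_lit 296) (nat_lit 239) (nat_lit 185)) (XT.nd (nat_lit 78) (nat_lit 0) (nat_lit 0) (XT.lf (nat_lit 0) (nat_lit 37959838380) (nat_lit 152) (nat_lit 55727941800) (nat_lit 0) (nat_lit 14876233684) (nat_lit 4) (nat_lit 5) (nat_lit 6) (nat_lit 4) (nat_lit 4) (nat_lit 4) (nat_lit 297) (nat_lit 239) (nat_lit 184)) (XT.lf (nat_lit 0) (nat_lit 48281292296) (nat_lit 152) (nat_lit 43330270912) (nat_lit 0) (nat_lit 25172510165) (nat_lit 4) (nat_lit 5) (nat_lit 6) (nat_lit 4) (nat_lit 4) (nat_lit 4) (nat_lit 298) (nat_lit 239) (nat_lit 183)))))) (XT.nd (nat_lit 390) (nat_lit 0) (nat_lit 0) (XT.nd (nat_lit 156) (nat_lit 76) (nat_lit 0) (XT.nd (nat_lit 78) (nat_lit 0) (nat_lit 0) (XT.lf (nat_lit 0) (nat_lit 59410018523) (nat_lit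 152) (nat_lit 29974731736) (nat_lit 0) (nat_lit 36277923954) (nat_lit 4) (nat_lit 5) (nat_lit 6) (nat_lit 4) (nat_lit 4) (nat_lit 4) (nat_lit 299) (nat_lit 239) (nat_lit 182)) (XT.lf (nat_lit 0) (nat_lit 71411965068) (nat_lit 152) (nat_lit 15582180336) (nat_lit 0) (nat_lit 48258284907) (nat_lit 4) (nat_lit 5) (nat_lit 6) (nat_lit 4) (nat_lit 4) (nat_lit 4) (nat_lit 300) (nat_lit 239) (nat_lit 181))) (XT.nd (nat_lit 78) (nat_lit 76) (nat_lit 0) (XT.lf (nat_lit 0) (nat_lit 84358254578) (nat_lit 152) (nat_lit 67327517) (nat_lit 0) (nat_lit 61184587758) (nat_lit 4) (nat_lit 5) (nat_lit 6) (nat_lit 4) (nat_lit 4) (nat_lit 4) (nat_lit 301) (nat_lit 239) (nat_lit 180)) (XT.nd (nat_lit 78) (nat_lit 0) (nat_lit 0) (XT.lf (nat_lit 0) (nat_lit 17212679838) (nat_lit 76) (nat_lit 81381664137) (nat_lit 76) (nat_lit 58189491152) (nat_lit 3) (nat_lit 4) (nat_lit 4) (nat_lit 5) (nat_lit 4) (nat_lit 4)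 (nat_lit 302) (nat_lit 239) (nat_lit 179)) (XT.lf (nat_lit 0) (nat_lit 35851716169) (nat_lit 76) (nat_lit 78104817833) (nat_lit 76) (nat_lit 54895509508) (nat_lit 3) (nat_lit 4) (nat_lit 4) (nat_lit 5) (nat_lit 4) (nat_lit 4) (nat_lit 303) (nat_lit 239) (nat_lit 178))))) (XT.nd (nat_lit 156) (nat_lit 0) (nat_lit 0) (XT.nd (nat_lit 78) (nat_lit 0) (nat_lit 0) (XT.lf (nat_lit 0) (nat_lit 55958008871) (nat_lit 76) (nat_lit 74576765057) (nat_lit 76) (nat_lit 51351590678) (nat_lit 3) (nat_lit 4) (nat_lit 4) (nat_lit 5) (nat_lit 4) (nat_lit 4) (nat_lit 304) (nat_lit 239) (nat_lit 177)) (XT.lf (nat_lit 0) (nat_lit 77650706347) (nat_lit 76) (nat_lit 70776598831) (nat_lit 76) (nat_lit 47536733661) (nat_lit 3) (nat_lit 4) (nat_lit 4) (nat_lit 5) (nat_lit 4) (nat_lit 4) (nat_lit 305) (nat_lit 239) (nat_lit 176))) (XT.nd (nat_lit 78) (nat_lit 0) (nat_lit 0) (XT.lf (nat_lit 0) (nat_lit 101058357913)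 (nat_lit 76) (nat_lit 66681799651) (nat_lit 76) (nat_lit 43428331897) (nat_lit 3) (nat_lit 4) (nat_lit 4) (nat_lit 5) (nat_lit 4) (nat_lit 4) (nat_lit 306) (nat_lit 239) (nat_lit 175)) (XT.nd (nat_lit 78) (nat_lit 0) (nat_lit 0) (XT.lf (nat_lit 0) (nat_lit 126319675580) (nat_lit 76) (nat_lit 62268102040) (nat_lit 76) (nat_lit 39002039300) (nat_lit 3) (nat_lit 4) (nat_lit 4) (nat_lit 5) (nat_lit 4) (nat_lit 4) (nat_lit 307) (nat_lit 239) (nat_lit 174)) (XT.lf (nat_lit 0) (nat_lit 153584356044) (nat_lit 76) (nat_lit 57509350754) (nat_lit 76) (nat_lit 34231625990) (nat_lit 3) (nat_lit 4) (nat_lit 4) (nat_lit 5) (nat_lit 4) (nat_lit 4) (nat_lit 308) (nat_lit 239) (nat_lit 173))))))) (XT.nd (nat_lit 780) (nat_lit 0) (nat_lit 0) (XT.nd (nat_lit 390) (nat_lit 152) (nat_lit 0) (XT.nd (nat_lit 156) (nat_lit 0) (nat_lit 0) (XT.nd (nat_lit 78) (nat_lit 0) (nat_lit 0) (XT.lf (nat_lit 0) (nat_lit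 183013967783) (nat_lit 76) (nat_lit 52377345784) (nat_lit 76) (nat_lit 29088822851) (nat_lit 3) (nat_lit 4) (nat_lit 4) (nat_lit 5) (nat_lit 4) (nat_lit 4) (nat_lit 309) (nat_lit 239) (nat_lit 172)) (XT.lf (nat_lit 0) (nat_lit 214782908496) (nat_lit 76) (nat_lit 46841675249) (nat_lit 76) (nat_lit 23543154010) (nat_lit 3) (nat_lit 4) (nat_lit 4) (nat_lit 5) (nat_lit 4) (nat_lit 4) (nat_lit 310) (nat_lit 239) (nat_lit 171))) (XT.nd (nat_lit 78) (nat_lit 0) (nat_lit 0) (XT.lf (nat_lit 0) (nat_lit 249079438573) (nat_lit 76) (nat_lit 40869535176) (nat_lit 76) (nat_lit 17561756247) (nat_lit 3) (nat_lit 4) (nat_lit 4) (nat_lit 5) (nat_lit 4) (nat_lit 4) (nat_lit 311) (nat_lit 239) (nat_lit 170)) (XT.nd (nat_lit 78) (nat_lit 0) (nat_lit 0) (XT.lf (nat_lit 0) (nat_lit 286106796709) (nat_lit 76) (nat_lit 34425535106) (nat_lit 76) (nat_lit 11109184241) (nat_lit 3) (nat_lit 4) (nat_lit 4) (nat_lit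 5) (nat_lit 4) (nat_lit 4) (nat_lit 312) (nat_lit 239) (nat_lit 169)) (XT.lf (nat_lit 0) (nat_lit 326084404286) (nat_lit 76) (nat_lit 27471488370) (nat_lit 76) (nat_lit 4147200528) (nat_lit 3) (nat_lit 4) (nat_lit 4) (nat_lit 5) (nat_lit 4) (nat_lit 4) (nat_lit 313) (nat_lit 239) (nat_lit 168))))) (XT.nd (nat_lit 156) (nat_lit 76) (nat_lit 0) (XT.nd (nat_lit 78) (nat_lit 0) (nat_lit 0) (XT.lf (nat_lit 0) (nat_lit 3257735638) (nat_lit 152) (nat_lit 16653278836) (nat_lit 76) (nat_lit 365936258679) (nat_lit 2) (nat_lit 5) (nat_lit 4) (nat_lit 5) (nat_lit 3) (nat_lit 4) (nat_lit 314) (nat_lit 239) (nat_lit 167)) (XT.lf (nat_lit 0) (nat_lit 11106073100) (nat_lit 152) (nat_lit 570991717) (nat_lit 76) (nat_lit 404562712146) (nat_lit 2) (nat_lit 5) (nat_lit 4) (nat_lit 5) (nat_lit 3) (nat_lit 4) (nat_lit 315) (nat_lit 239) (nat_lit 166))) (XT.nd (nat_lit 78) (nat_lit 0) (nat_lit 0) (XT.lf (nat_lit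 0) (nat_lit 17343318837) (nat_lit 76) (nat_lit 2504515815) (nat_lit 152) (nat_lit 429202572268) (nat_lit 1) (nat_lit 5) (nat_lit 2) (nat_lit 5) (nat_lit 3) (nat_lit 4) (nat_lit 316) (nat_lit 239) (nat_lit 165)) (XT.nd (nat_lit 78) (nat_lit 0) (nat_lit 0) (XT.lf (nat_lit 0) (nat_lit 29409565284) (nat_lit 152) (nat_lit 447899372644) (nat_lit 0) (nat_lit 7170921363) (nat_lit 1) (nat_lit 5) (nat_lit 3) (nat_lit 4) (nat_lit 1) (nat_lit 4) (nat_lit 317) (nat_lit 239) (nat_lit 164)) (XT.lf (nat_lit 0) (nat_lit 39773794126) (nat_lit 152) (nat_lit 465437993249) (nat_lit 0) (nat_lit 17530005659) (nat_lit 1) (nat_lit 5) (nat_lit 3) (nat_lit 4) (nat_lit 1) (nat_lit 4) (nat_lit 318) (nat_lit 239) (nat_lit 163)))))) (XT.nd (nat_lit 390) (nat_lit 0) (nat_lit 0) (XT.nd (nat_lit 156) (nat_lit 0) (nat_lit 0) (XT.nd (nat_lit 78) (nat_lit 0) (nat_lit 0) (XT.lf (nat_lit 0) (nat_lit 50962836320) (nat_lit 152)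 (nat_lit 484387779956) (nat_lit 0) (nat_lit 28714284385) (nat_lit 1) (nat_lit 5) (nat_lit 3) (nat_lit 4) (nat_lit 1) (nat_lit 4) (nat_lit 319) (nat_lit 239) (nat_lit 162)) (XT.lf (nat_lit 0) (nat_lit 63042997302) (nat_lit 152) (nat_lit 504861027797) (nat_lit 0) (nat_lit 40790034747) (nat_lit 1) (nat_lit 5) (nat_lit 3) (nat_lit 4) (nat_lit 1) (nat_lit 4) (nat_lit 320) (nat_lit 239) (nat_lit 161))) (XT.nd (nat_lit 78) (nat_lit 0) (nat_lit 0) (XT.lf (nat_lit 0) (nat_lit 76085863209) (nat_lit 152) (nat_lit 526979059721) (nat_lit 0) (nat_lit 53828816748) (nat_lit 1) (nat_lit 5) (nat_lit 3) (nat_lit 4) (nat_lit 1) (nat_lit 4) (nat_lit 321) (nat_lit 239) (nat_lit 160)) (XT.nd (nat_lit 78) (nat_lit 0) (nat_lit 0) (XT.lf (nat_lit 0) (nat_lit 90168725100) (nat_lit 152) (nat_lit 550872945548) (nat_lit 0) (nat_lit 67907897244) (nat_lit 1) (nat_lit 5) (nat_lit 3) (nat_lit 4) (nat_lit 1) (nat_lit 4)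 (nat_lit 322) (nat_lit 239) (nat_lit 159)) (XT.lf (nat_lit 0) (nat_lit 105375036972) (nat_lit 152) (nat_lit 576684278676) (nat_lit 0) (nat_lit 83110707824) (nat_lit 1) (nat_lit 5) (nat_lit 3) (nat_lit 4) (nat_lit 1) (nat_lit 4) (nat_lit 323) (nat_lit 239) (nat_lit 158))))) (XT.nd (nat_lit 30966) (nat_lit 0) (nat_lit 9120) (XT.nd (nat_lit 78) (nat_lit 0) (nat_lit 0) (XT.lf (nat_lit 0) (nat_lit 121794910301) (nat_lit 152) (nat_lit 604566015151) (nat_lit 0) (nat_lit 99527339216) (nat_lit 1) (nat_lit 5) (nat_lit 3) (nat_lit 4) (nat_lit 1) (nat_lit 4) (nat_lit 324) (nat_lit 239) (nat_lit 157)) (XT.lf (nat_lit 0) (nat_lit 139525648041) (nat_lit 152) (nat_lit 634683380080) (nat_lit 0) (nat_lit 117255075163) (nat_lit 1) (nat_lit 5) (nat_lit 3) (nat_lit 4) (nat_lit 1) (nat_lit 4) (nat_lit 325) (nat_lit 239) (nat_lit 156))) (XT.nd (nat_lit 78) (nat_lit 228) (nat_lit 0) (XT.lf (nat_lit 0) (nat_lit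 1073741823) (nat_lit 0) (nat_lit 0) (nat_lit 0) (nat_lit 0) (nat_lit 124) (nat_lit 0) (nat_lit 1) (nat_lit 0) (nat_lit 1) (nat_lit 0) (nat_lit 240) (nat_lit 240) (nat_lit 240)) (XT.nd (nat_lit 78) (nat_lit 152) (nat_lit 0) (XT.lf (nat_lit 0) (nat_lit 4483664219) (nat_lit 76) (nat_lit 1779107406) (nat_lit 0) (nat_lit 188696923) (nat_lit 123) (nat_lit 5) (nat_lit 124) (nat_lit 0) (nat_lit 123) (nat_lit 4) (nat_lit 241) (nat_lit 240) (nat_lit 239)) (XT.lf (nat_lit 0) (nat_lit 2367939042) (nat_lit 152) (nat_lit 3417513828) (nat_lit 76) (nat_lit 696111646) (nat_lit 121) (nat_lit 5) (nat_lit 123) (nat_lit 5) (nat_lit 122) (nat_lit 4) (nat_lit 242) (nat_lit 240) (nat_lit 238))))))))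
noncomputable def xc48 : XT := (XT.nd (nat_lit 1482) (nat_lit 1976) (nat_lit 0) (XT.nd (nat_lit 702) (nat_lit 2660) (nat_lit 0) (XT.nd (nat_lit 312) (nat_lit 2888) (nat_lit 0) (XT.nd (nat_lit 156) (nat_lit 380) (nat_lit 0) (XT.nd (nat_lit 78) (nat_lit 228) (nat_lit 0) (XT.lf (nat_lit 0) (nat_lit 78895134) (nat_lit 228) (nat_lit 4928599558) (nat_lit 76) (nat_lit 1525414338) (nat_lit 118) (nat_lit 5) (nat_lit 121) (nat_lit 5) (nat_lit 119) (nat_lit 5) (nat_lit 243) (nat_lit 240) (nat_lit 237)) (XT.lf (nat_lit 0) (nat_lit 240034000) (nat_lit 228) (nat_lit 3883388974) (nat_lit 304) (nat_lit 2480435854) (nat_lit 115) (nat_lit 5) (nat_lit 118) (nat_lit 5) (nat_lit 119) (nat_lit 5) (nat_lit 244) (nat_lit 240) (nat_lit 236))) (XT.nd (nat_lit 78) (nat_lit 304) (nat_lit 0) (XT.lf (nat_lit 0) (nat_lit 1453066923) (nat_lit 304) (nat_lit 972665343) (nat_lit 76) (nat_lit 4270019133) (nat_lit 114) (nat_lit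 5) (nat_lit 118) (nat_lit 5) (nat_lit 115) (nat_lit 5) (nat_lit 245) (nat_lit 240) (nat_lit 235)) (XT.lf (nat_lit 0) (nat_lit 4713501795) (nat_lit 304) (nat_lit 617026527) (nat_lit 380) (nat_lit 1478181060) (nat_lit 110) (nat_lit 5) (nat_lit 114) (nat_lit 5) (nat_lit 115) (nat_lit 5) (nat_lit 246) (nat_lit 240) (nat_lit 234)))) (XT.nd (nat_lit 156) (nat_lit 1976) (nat_lit 0) (XT.nd (nat_lit 78) (nat_lit 456) (nat_lit 0) (XT.lf (nat_lit 0) (nat_lit 2262798140) (nat_lit 456) (nat_lit 3174832840) (nat_lit 76) (nat_lit 1504518878) (nat_lit 104) (nat_lit 5) (nat_lit 110) (nat_lit 5) (nat_lit 105) (nat_lit 5) (nat_lit 247) (nat_lit 240) (nat_lit 233)) (XT.lf (nat_lit 0) (nat_lit 2890570099) (nat_lit 456) (nat_lit 3134444237) (nat_lit 532) (nat_lit 1072622916) (nat_lit 98) (nat_lit 5) (nat_lit 104) (nat_lit 5) (nat_lit 105) (nat_lit 5) (nat_lit 248) (nat_lit 240) (nat_lit 232))) (XT.nd (nat_lit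 78) (nat_lit 1368) (nat_lit 0) (XT.lf (nat_lit 0) (nat_lit 2057269542) (nat_lit 532) (nat_lit 457595451) (nat_lit 608) (nat_lit 4760487526) (nat_lit 90) (nat_lit 5) (nat_lit 97) (nat_lit 5) (nat_lit 98) (nat_lit 5) (nat_lit 249) (nat_lit 240) (nat_lit 231)) (XT.nd (nat_lit 78) (nat_lit 760) (nat_lit 0) (XT.lf (nat_lit 0) (nat_lit 1231159713) (nat_lit 608) (nat_lit 4966549525) (nat_lit 684) (nat_lit 1277437232) (nat_lit 82) (nat_lit 5) (nat_lit 90) (nat_lit 5) (nat_lit 91) (nat_lit 5) (nat_lit 250) (nat_lit 240) (nat_lit 230)) (XT.lf (nat_lit 0) (nat_lit 402177773) (nat_lit 684) (nat_lit 1834660959) (nat_lit 760) (nat_lit 5461456130) (nat_lit 72) (nat_lit 5) (nat_lit 81) (nat_lit 5) (nat_lit 82) (nat_lit 5) (nat_lit 251) (nat_lit 240) (nat_lit 229)))))) (XT.nd (nat_lit 390) (nat_lit 1140) (nat_lit 0) (XT.nd (nat_lit 156) (nat_lit 1064) (nat_lit 0) (XT.nd (nat_lit 78) (nat_lit 456) (nat_lit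 0) (XT.lf (nat_lit 0) (nat_lit 5865134172) (nat_lit 760) (nat_lit 439980413) (nat_lit 76) (nat_lit 1640098968) (nat_lit 72) (nat_lit 5) (nat_lit 82) (nat_lit 5) (nat_lit 73) (nat_lit 5) (nat_lit 252) (nat_lit 240) (nat_lit 228)) (XT.lf (nat_lit 0) (nat_lit 1419375230) (nat_lit 456) (nat_lit 1327849565) (nat_lit 76) (nat_lit 5469287190) (nat_lit 66) (nat_lit 5) (nat_lit 72) (nat_lit 5) (nat_lit 67) (nat_lit 5) (nat_lit 253) (nat_lit 240) (nat_lit 227))) (XT.nd (nat_lit 78) (nat_lit 684) (nat_lit 0) (XT.lf (nat_lit 0) (nat_lit 5022317883) (nat_lit 456) (nat_lit 2299340020) (nat_lit 76) (nat_lit 1192022727) (nat_lit 61) (nat_lit 5) (nat_lit 67) (nat_lit 5) (nat_lit 62) (nat_lit 5) (nat_lit 254) (nat_lit 240) (nat_lit 226)) (XT.nd (nat_lit 78) (nat_lit 304) (nat_lit 0) (XT.lf (nat_lit 0) (nat_lit 14064255) (nat_lit 380) (nat_lit 3377339715) (nat_lit 76) (nat_lit 5446881412) (nat_lit 56) (nat_lit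 5) (nat_lit 61) (nat_lit 5) (nat_lit 57) (nat_lit 5) (nat_lit 255) (nat_lit 240) (nat_lit 225)) (XT.lf (nat_lit 0) (nat_lit 3599929173) (nat_lit 380) (nat_lit 4620011079) (nat_lit 76) (nat_lit 970505061) (nat_lit 52) (nat_lit 5) (nat_lit 57) (nat_lit 5) (nat_lit 53) (nat_lit 5) (nat_lit 256) (nat_lit 240) (nat_lit 224))))) (XT.nd (nat_lit 156) (nat_lit 532) (nat_lit 0) (XT.nd (nat_lit 78) (nat_lit 380) (nat_lit 0) (XT.lf (nat_lit 0) (nat_lit 3524259894) (nat_lit 228) (nat_lit 3924426136) (nat_lit 304) (nat_lit 2123813816) (nat_lit 49) (nat_lit 5) (nat_lit 52) (nat_lit 5) (nat_lit 53) (nat_lit 5) (nat_lit 257) (nat_lit 240) (nat_lit 223)) (XT.lf (nat_lit 0) (nat_lit 1510650104) (nat_lit 380) (nat_lit 7682687350) (nat_lit 76) (nat_lit 793863489) (nat_lit 44) (nat_lit 5) (nat_lit 49) (nat_lit 5) (nat_lit 45) (nat_lit 5) (nat_lit 258) (nat_lit 240) (nat_lit 222))) (XT.nd (nat_lit 78) (nat_lit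 304) (nat_lit 0) (XT.lf (nat_lit 0) (nat_lit 801559662) (nat_lit 228) (nat_lit 4567927750) (nat_lit 304) (nat_lit 5063875656) (nat_lit 41) (nat_lit 5) (nat_lit 44) (nat_lit 5) (nat_lit 45) (nat_lit 5) (nat_lit 259) (nat_lit 240) (nat_lit 221)) (XT.nd (nat_lit 78) (nat_lit 304) (nat_lit 0) (XT.lf (nat_lit 0) (nat_lit 9509933597) (nat_lit 304) (nat_lit 908476335) (nat_lit 76) (nat_lit 498558499) (nat_lit 41) (nat_lit 5) (nat_lit 45) (nat_lit 5) (nat_lit 42) (nat_lit 5) (nat_lit 260) (nat_lit 240) (nat_lit 220)) (XT.lf (nat_lit 0) (nat_lit 2513919114) (nat_lit 304) (nat_lit 2982917671) (nat_lit 76) (nat_lit 5938142566) (nat_lit 37) (nat_lit 5) (nat_lit 41) (nat_lit 5) (nat_lit 38) (nat_lit 5) (nat_lit 261) (nat_lit 240) (nat_lit 219))))))) (XT.nd (nat_lit 702) (nat_lit 760) (nat_lit 0) (XT.nd (nat_lit 312) (nat_lit 608) (nat_lit 0) (XT.nd (nat_lit 156) (nat_lit 228) (nat_lit 0) (XT.nd (nat_lit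 78) (nat_lit 228) (nat_lit 0) (XT.lf (nat_lit 0) (nat_lit 6577772213) (nat_lit 152) (nat_lit 89404642) (nat_lit 228) (nat_lit 5328027645) (nat_lit 35) (nat_lit 5) (nat_lit 37) (nat_lit 5) (nat_lit 38) (nat_lit 5) (nat_lit 262) (nat_lit 240) (nat_lit 218)) (XT.lf (nat_lit 0) (nat_lit 4251092160) (nat_lit 228) (nat_lit 6966271911) (nat_lit 304) (nat_lit 1379949051) (nat_lit 32) (nat_lit 5) (nat_lit 35) (nat_lit 5) (nat_lit 36) (nat_lit 5) (nat_lit 263) (nat_lit 240) (nat_lit 217))) (XT.nd (nat_lit 78) (nat_lit 0) (nat_lit 0) (XT.lf (nat_lit 0) (nat_lit 1439252906) (nat_lit 152) (nat_lit 1333108661) (nat_lit 228) (nat_lit 10474206557) (nat_lit 29) (nat_lit 5) (nat_lit 31) (nat_lit 5) (nat_lit 32) (nat_lit 5) (nat_lit 264) (nat_lit 240) (nat_lit 216)) (XT.lf (nat_lit 0) (nat_lit 7298220280) (nat_lit 228) (nat_lit 1934204227) (nat_lit 76) (nat_lit 4709966476) (nat_lit 29) (nat_lit 5) (nat_lit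 32) (nat_lit 5) (nat_lit 30) (nat_lit 5) (nat_lit 265) (nat_lit 240) (nat_lit 215)))) (XT.nd (nat_lit 156) (nat_lit 228) (nat_lit 0) (XT.nd (nat_lit 78) (nat_lit 228) (nat_lit 0) (XT.lf (nat_lit 0) (nat_lit 8803323664) (nat_lit 152) (nat_lit 3419712570) (nat_lit 228) (nat_lit 2469224992) (nat_lit 27) (nat_lit 5) (nat_lit 29) (nat_lit 5) (nat_lit 30) (nat_lit 5) (nat_lit 266) (nat_lit 240) (nat_lit 214)) (XT.lf (nat_lit 0) (nat_lit 2012574879) (nat_lit 228) (nat_lit 10634609220) (nat_lit 76) (nat_lit 2851636874) (nat_lit 24) (nat_lit 5) (nat_lit 27) (nat_lit 5) (nat_lit 25) (nat_lit 5) (nat_lit 267) (nat_lit 240) (nat_lit 213))) (XT.nd (nat_lit 78) (nat_lit 76) (nat_lit 0) (XT.lf (nat_lit 0) (nat_lit 45779108) (nat_lit 152) (nat_lit 6770790623) (nat_lit 228) (nat_lit 9548988302) (nat_lit 22) (nat_lit 5) (nat_lit 24) (nat_lit 5) (nat_lit 25) (nat_lit 5) (nat_lit 268) (nat_lit 240) (nat_lit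 212)) (XT.nd (nat_lit 78) (nat_lit 76) (nat_lit 0) (XT.lf (nat_lit 0) (nat_lit 11790250603) (nat_lit 152) (nat_lit 292006838) (nat_lit 228) (nat_lit 5215678801) (nat_lit 22) (nat_lit 5) (nat_lit 24) (nat_lit 5) (nat_lit 25) (nat_lit 5) (nat_lit 269) (nat_lit 240) (nat_lit 211)) (XT.lf (nat_lit 0) (nat_lit 6098108945) (nat_lit 76) (nat_lit 11770201203) (nat_lit 152) (nat_lit 431797255) (nat_lit 21) (nat_lit 5) (nat_lit 22) (nat_lit 5) (nat_lit 23) (nat_lit 4) (nat_lit 270) (nat_lit 240) (nat_lit 210)))))) (XT.nd (nat_lit 390) (nat_lit 228) (nat_lit 0) (XT.nd (nat_lit 156) (nat_lit 304) (nat_lit 0) (XT.nd (nat_lit 78) (nat_lit 152) (nat_lit 0) (XT.lf (nat_lit 0) (nat_lit 4588243535) (nat_lit 152) (nat_lit 787120738) (nat_lit 76) (nat_lit 14003281728) (nat_lit 20) (nat_lit 5) (nat_lit 22) (nat_lit 5) (nat_lit 21) (nat_lit 5) (nat_lit 271) (nat_lit 240) (nat_lit 209)) (XT.lf (nat_lit 0) (nat_lit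 10114558370) (nat_lit 228) (nat_lit 8800917043) (nat_lit 76) (nat_lit 1621777564) (nat_lit 18) (nat_lit 5) (nat_lit 21) (nat_lit 5) (nat_lit 19) (nat_lit 4) (nat_lit 272) (nat_lit 240) (nat_lit 208))) (XT.nd (nat_lit 78) (nat_lit 228) (nat_lit 0) (XT.lf (nat_lit 0) (nat_lit 3375511334) (nat_lit 76) (nat_lit 12778165415) (nat_lit 152) (nat_lit 5631456445) (nat_lit 17) (nat_lit 5) (nat_lit 18) (nat_lit 5) (nat_lit 19) (nat_lit 4) (nat_lit 273) (nat_lit 240) (nat_lit 207)) (XT.nd (nat_lit 78) (nat_lit 228) (nat_lit 0) (XT.lf (nat_lit 0) (nat_lit 16702994678) (nat_lit 76) (nat_lit 6043927921) (nat_lit 152) (nat_lit 382482069) (nat_lit 17) (nat_lit 5) (nat_lit 18) (nat_lit 5) (nat_lit 19) (nat_lit 4) (nat_lit 274) (nat_lit 240) (nat_lit 206)) (XT.lf (nat_lit 0) (nat_lit 5162707478) (nat_lit 228) (nat_lit 18085870332) (nat_lit 76) (nat_lit 1326336153) (nat_lit 14) (nat_lit 5) (nat_lit 17) (nat_lit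 5) (nat_lit 15) (nat_lit 4) (nat_lit 275) (nat_lit 240) (nat_lit 205))))) (XT.nd (nat_lit 156) (nat_lit 152) (nat_lit 0) (XT.nd (nat_lit 78) (nat_lit 76) (nat_lit 0) (XT.lf (nat_lit 0) (nat_lit 11279440712) (nat_lit 228) (nat_lit 5700619269) (nat_lit 76) (nat_lit 9148714488) (nat_lit 14) (nat_lit 5) (nat_lit 17) (nat_lit 5) (nat_lit 15) (nat_lit 4) (nat_lit 276) (nat_lit 240) (nat_lit 204)) (XT.lf (nat_lit 0) (nat_lit 7807588966) (nat_lit 76) (nat_lit 10130802496) (nat_lit 152) (nat_lit 9865992134) (nat_lit 13) (nat_lit 5) (nat_lit 14) (nat_lit 5) (nat_lit 15) (nat_lit 4) (nat_lit 277) (nat_lit 240) (nat_lit 203))) (XT.nd (nat_lit 78) (nat_lit 152) (nat_lit 0) (XT.lf (nat_lit 0) (nat_lit 22487384088) (nat_lit 76) (nat_lit 2676309784) (nat_lit 152) (nat_lit 4448743324) (nat_lit 13) (nat_lit 5) (nat_lit 14) (nat_lit 5) (nat_lit 15) (nat_lit 4) (nat_lit 278) (nat_lit 240) (nat_lit 202))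 (XT.nd (nat_lit 78) (nat_lit 0) (nat_lit 0) (XT.lf (nat_lit 0) (nat_lit 1487709546) (nat_lit 152) (nat_lit 24779223858) (nat_lit 76) (nat_lit 5290641010) (nat_lit 11) (nat_lit 5) (nat_lit 13) (nat_lit 5) (nat_lit 12) (nat_lit 4) (nat_lit 279) (nat_lit 240) (nat_lit 201)) (XT.lf (nat_lit 0) (nat_lit 7857032131) (nat_lit 152) (nat_lit 11829953384) (nat_lit 76) (nat_lit 13962063090) (nat_lit 11) (nat_lit 5) (nat_lit 13) (nat_lit 5) (nat_lit 12) (nat_lit 4) (nat_lit 280) (nat_lit 240) (nat_lit 200))))))))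
noncomputable def xc49 : XT := (XT.nd (nat_lit 1482) (nat_lit 228) (nat_lit 0) (XT.nd (nat_lit 702) (nat_lit 228) (nat_lit 0) (XT.nd (nat_lit 312) (nat_lit 152) (nat_lit 0) (XT.nd (nat_lit 156) (nat_lit 76) (nat_lit 0) (XT.nd (nat_lit 78) (nat_lit 0) (nat_lit 0) (XT.lf (nat_lit 0) (nat_lit 2126925986) (nat_lit 76) (nat_lit 12587048579) (nat_lit 152) (nat_lit 21195021075) (nat_lit 10) (nat_lit 5) (nat_lit 11) (nat_lit 5) (nat_lit 12) (nat_lit 4) (nat_lit 281) (nat_lit 240) (nat_lit 199)) (XT.lf (nat_lit 0) (nat_lit 17530581630) (nat_lit 76) (nat_lit 4742471847) (nat_lit 152) (nat_lit 16069060171) (nat_lit 10) (nat_lit 5) (nat_lit 11) (nat_lit 5) (nat_lit 12) (nat_lit 4) (nat_lit 282) (nat_lit 240) (nat_lit 198))) (XT.nd (nat_lit 78) (nat_lit 76) (nat_lit 0) (XT.lf (nat_lit 0) (nat_lit 30445913998) (nat_lit 152) (nat_lit 6948874895) (nat_lit 0) (nat_lit 3574689688) (nat_lit 10) (nat_lit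 5) (nat_lit 12) (nat_lit 4) (nat_lit 10) (nat_lit 4) (nat_lit 283) (nat_lit 240) (nat_lit 197)) (XT.lf (nat_lit 0) (nat_lit 8121954563) (nat_lit 76) (nat_lit 31311889300) (nat_lit 76) (nat_lit 4365173345) (nat_lit 9) (nat_lit 4) (nat_lit 10) (nat_lit 5) (nat_lit 10) (nat_lit 4) (nat_lit 284) (nat_lit 240) (nat_lit 196)))) (XT.nd (nat_lit 156) (nat_lit 76) (nat_lit 0) (XT.nd (nat_lit 78) (nat_lit 0) (nat_lit 0) (XT.lf (nat_lit 0) (nat_lit 2291636084) (nat_lit 152) (nat_lit 22318761653) (nat_lit 76) (nat_lit 22238832278) (nat_lit 8) (nat_lit 5) (nat_lit 10) (nat_lit 5) (nat_lit 9) (nat_lit 4) (nat_lit 285) (nat_lit 240) (nat_lit 195)) (XT.lf (nat_lit 0) (nat_lit 9289248919) (nat_lit 152) (nat_lit 8038377260) (nat_lit 76) (nat_lit 32814233993) (nat_lit 8) (nat_lit 5) (nat_lit 10) (nat_lit 5) (nat_lit 9) (nat_lit 4) (nat_lit 286) (nat_lit 240) (nat_lit 194))) (XT.nd (nat_lit 78) (nat_lit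 0) (nat_lit 0) (XT.lf (nat_lit 0) (nat_lit 7558796309) (nat_lit 76) (nat_lit 9368062986) (nat_lit 152) (nat_lit 36767067194) (nat_lit 7) (nat_lit 5) (nat_lit 8) (nat_lit 5) (nat_lit 9) (nat_lit 4) (nat_lit 287) (nat_lit 240) (nat_lit 193)) (XT.nd (nat_lit 78) (nat_lit 0) (nat_lit 0) (XT.lf (nat_lit 0) (nat_lit 24626157883) (nat_lit 76) (nat_lit 653311259) (nat_lit 152) (nat_lit 32245522006) (nat_lit 7) (nat_lit 5) (nat_lit 8) (nat_lit 5) (nat_lit 9) (nat_lit 4) (nat_lit 288) (nat_lit 240) (nat_lit 192)) (XT.lf (nat_lit 0) (nat_lit 34403257310) (nat_lit 152) (nat_lit 18801510140) (nat_lit 0) (nat_lit 8452655210) (nat_lit 7) (nat_lit 5) (nat_lit 9) (nat_lit 4) (nat_lit 7) (nat_lit 4) (nat_lit 289) (nat_lit 240) (nat_lit 191)))))) (XT.nd (nat_lit 390) (nat_lit 76) (nat_lit 0) (XT.nd (nat_lit 156) (nat_lit 76) (nat_lit 0) (XT.nd (nat_lit 78) (nat_lit 76) (nat_lit 0) (XT.lf (nat_lit 0) (nat_lit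 44236689477) (nat_lit 152) (nat_lit 3644019897) (nat_lit 0) (nat_lit 18240780195) (nat_lit 7) (nat_lit 5) (nat_lit 9) (nat_lit 4) (nat_lit 7) (nat_lit 4) (nat_lit 290) (nat_lit 240) (nat_lit 190)) (XT.lf (nat_lit 0) (nat_lit 13092708070) (nat_lit 76) (nat_lit 41939543609) (nat_lit 76) (nat_lit 15901683232) (nat_lit 6) (nat_lit 4) (nat_lit 7) (nat_lit 5) (nat_lit 7) (nat_lit 4) (nat_lit 291) (nat_lit 240) (nat_lit 189))) (XT.nd (nat_lit 78) (nat_lit 76) (nat_lit 0) (XT.lf (nat_lit 0) (nat_lit 31248368804) (nat_lit 76) (nat_lit 35478970489) (nat_lit 76) (nat_lit 9402266505) (nat_lit 6) (nat_lit 4) (nat_lit 7) (nat_lit 5) (nat_lit 7) (nat_lit 4) (nat_lit 292) (nat_lit 240) (nat_lit 188)) (XT.nd (nat_lit 78) (nat_lit 76) (nat_lit 0) (XT.lf (nat_lit 0) (nat_lit 50810063649) (nat_lit 76) (nat_lit 28522418377) (nat_lit 76) (nat_lit 2409748091) (nat_lit 6) (nat_lit 4) (nat_lit 7) (nat_lit 5)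 (nat_lit 7) (nat_lit 4) (nat_lit 293) (nat_lit 240) (nat_lit 187)) (XT.lf (nat_lit 0) (nat_lit 4953523306) (nat_lit 152) (nat_lit 15991249640) (nat_lit 76) (nat_lit 66856300140) (nat_lit 5) (nat_lit 5) (nat_lit 7) (nat_lit 5) (nat_lit 6) (nat_lit 4) (nat_lit 294) (nat_lit 240) (nat_lit 186))))) (XT.nd (nat_lit 156) (nat_lit 0) (nat_lit 0) (XT.nd (nat_lit 78) (nat_lit 0) (nat_lit 0) (XT.lf (nat_lit 0) (nat_lit 65864342) (nat_lit 76) (nat_lit 12735439104) (nat_lit 152) (nat_lit 81542369297) (nat_lit 4) (nat_lit 5) (nat_lit 5) (nat_lit 5) (nat_lit 6) (nat_lit 4) (nat_lit 295) (nat_lit 240) (nat_lit 185)) (XT.lf (nat_lit 0) (nat_lit 17939800623) (nat_lit 76) (nat_lit 3594423551) (nat_lit 152) (nat_lit 79862607051) (nat_lit 4) (nat_lit 5) (nat_lit 5) (nat_lit 5) (nat_lit 6) (nat_lit 4) (nat_lit 296) (nat_lit 240) (nat_lit 184))) (XT.nd (nat_lit 78) (nat_lit 0) (nat_lit 0) (XT.lf (nat_lit 0)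 (nat_lit 31043874232) (nat_lit 152) (nat_lit 71905266787) (nat_lit 0) (nat_lit 6061212098) (nat_lit 4) (nat_lit 5) (nat_lit 6) (nat_lit 4) (nat_lit 4) (nat_lit 4) (nat_lit 297) (nat_lit 240) (nat_lit 183)) (XT.nd (nat_lit 78) (nat_lit 0) (nat_lit 0) (XT.lf (nat_lit 0) (nat_lit 41356460840) (nat_lit 152) (nat_lit 59523915795) (nat_lit 0) (nat_lit 16350486266) (nat_lit 4) (nat_lit 5) (nat_lit 6) (nat_lit 4) (nat_lit 4) (nat_lit 4) (nat_lit 298) (nat_lit 240) (nat_lit 182)) (XT.lf (nat_lit 0) (nat_lit 52476976596) (nat_lit 152) (nat_lit 46183487633) (nat_lit 0) (nat_lit 27449416430) (nat_lit 4) (nat_lit 5) (nat_lit 6) (nat_lit 4) (nat_lit 4) (nat_lit 4) (nat_lit 299) (nat_lit 240) (nat_lit 181))))))) (XT.nd (nat_lit 702) (nat_lit 152) (nat_lit 0) (XT.nd (nat_lit 312) (nat_lit 0) (nat_lit 0) (XT.nd (nat_lit 156) (nat_lit 76) (nat_lit 0) (XT.nd (nat_lit 78) (nat_lit 0) (nat_lit 0) (XT.lf (nat_lit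 0) (nat_lit 64471320853) (nat_lit 152) (nat_lit 31804927912) (nat_lit 0) (nat_lit 39423774029) (nat_lit 4) (nat_lit 5) (nat_lit 6) (nat_lit 4) (nat_lit 4) (nat_lit 4) (nat_lit 300) (nat_lit 240) (nat_lit 180)) (XT.lf (nat_lit 0) (nat_lit 77410571208) (nat_lit 152) (nat_lit 16303030352) (nat_lit 0) (nat_lit 52344518217) (nat_lit 4) (nat_lit 5) (nat_lit 6) (nat_lit 4) (nat_lit 4) (nat_lit 4) (nat_lit 301) (nat_lit 240) (nat_lit 179))) (XT.nd (nat_lit 78) (nat_lit 0) (nat_lit 0) (XT.lf (nat_lit 0) (nat_lit 427759105) (nat_lit 76) (nat_lit 90950324111) (nat_lit 76) (nat_lit 65867135782) (nat_lit 3) (nat_lit 4) (nat_lit 4) (nat_lit 5) (nat_lit 4) (nat_lit 4) (nat_lit 302) (nat_lit 240) (nat_lit 178)) (XT.lf (nat_lit 0) (nat_lit 19055321140) (nat_lit 76) (nat_lit 87678738014) (nat_lit 76) (nat_lit 62579683631) (nat_lit 3) (nat_lit 4) (nat_lit 4) (nat_lit 5) (nat_lit 4) (nat_lit 4) (nat_lit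 303) (nat_lit 240) (nat_lit 177)))) (XT.nd (nat_lit 156) (nat_lit 0) (nat_lit 0) (XT.nd (nat_lit 78) (nat_lit 0) (nat_lit 0) (XT.lf (nat_lit 0) (nat_lit 39150989495) (nat_lit 76) (nat_lit 84155555802) (nat_lit 76) (nat_lit 59041810628) (nat_lit 3) (nat_lit 4) (nat_lit 4) (nat_lit 5) (nat_lit 4) (nat_lit 4) (nat_lit 304) (nat_lit 240) (nat_lit 176)) (XT.lf (nat_lit 0) (nat_lit 60833849611) (nat_lit 76) (nat_lit 80359899357) (nat_lit 76) (nat_lit 55232551598) (nat_lit 3) (nat_lit 4) (nat_lit 4) (nat_lit 5) (nat_lit 4) (nat_lit 4) (nat_lit 305) (nat_lit 240) (nat_lit 175))) (XT.nd (nat_lit 78) (nat_lit 0) (nat_lit 0) (XT.lf (nat_lit 0) (nat_lit 84232392512) (nat_lit 76) (nat_lit 76269275900) (nat_lit 76) (nat_lit 51129333155) (nat_lit 3) (nat_lit 4) (nat_lit 4) (nat_lit 5) (nat_lit 4) (nat_lit 4) (nat_lit 306) (nat_lit 240) (nat_lit 174)) (XT.nd (nat_lit 78) (nat_lit 0) (nat_lit 0) (XT.lf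 (nat_lit 0) (nat_lit 109485276229) (nat_lit 76) (nat_lit 71859444699) (nat_lit 76) (nat_lit 46707839931) (nat_lit 3) (nat_lit 4) (nat_lit 4) (nat_lit 5) (nat_lit 4) (nat_lit 4) (nat_lit 307) (nat_lit 240) (nat_lit 173)) (XT.lf (nat_lit 0) (nat_lit 136742147481) (nat_lit 76) (nat_lit 67104273422) (nat_lit 76) (nat_lit 41941870484) (nat_lit 3) (nat_lit 4) (nat_lit 4) (nat_lit 5) (nat_lit 4) (nat_lit 4) (nat_lit 308) (nat_lit 240) (nat_lit 172)))))) (XT.nd (nat_lit 390) (nat_lit 152) (nat_lit 0) (XT.nd (nat_lit 156) (nat_lit 0) (nat_lit 0) (XT.nd (nat_lit 78) (nat_lit 0) (nat_lit 0) (XT.lf (nat_lit 0) (nat_lit 166164528467) (nat_lit 76) (nat_lit 61975583275) (nat_lit 76) (nat_lit 36803182032) (nat_lit 3) (nat_lit 4) (nat_lit 4) (nat_lit 5) (nat_lit 4) (nat_lit 4) (nat_lit 309) (nat_lit 240) (nat_lit 171)) (XT.lf (nat_lit 0) (nat_lit 197926774039) (nat_lit 76) (nat_lit 56442982022) (nat_lit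 76) (nat_lit 31261323088) (nat_lit 3) (nat_lit 4) (nat_lit 4) (nat_lit 5) (nat_lit 4) (nat_lit 4) (nat_lit 310) (nat_lit 240) (nat_lit 170))) (XT.nd (nat_lit 78) (nat_lit 0) (nat_lit 0) (XT.lf (nat_lit 0) (nat_lit 232217104910) (nat_lit 76) (nat_lit 50473683876) (nat_lit 76) (nat_lit 25283453007) (nat_lit 3) (nat_lit 4) (nat_lit 4) (nat_lit 5) (nat_lit 4) (nat_lit 4) (nat_lit 311) (nat_lit 240) (nat_lit 169)) (XT.nd (nat_lit 78) (nat_lit 0) (nat_lit 0) (XT.lf (nat_lit 0) (nat_lit 269238723042) (nat_lit 76) (nat_lit 44032315219) (nat_lit 76) (nat_lit 18834147373) (nat_lit 3) (nat_lit 4) (nat_lit 4) (nat_lit 5) (nat_lit 4) (nat_lit 4) (nat_lit 312) (nat_lit 240) (nat_lit 168)) (XT.lf (nat_lit 0) (nat_lit 309211015800) (nat_lit 76) (nat_lit 37080704978) (nat_lit 76) (nat_lit 11875188078) (nat_lit 3) (nat_lit 4) (nat_lit 4) (nat_lit 5) (nat_lit 4) (nat_lit 4) (nat_lit 313) (nat_lit 240) (nat_lit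 167))))) (XT.nd (nat_lit 156) (nat_lit 76) (nat_lit 0) (XT.nd (nat_lit 78) (nat_lit 76) (nat_lit 0) (XT.lf (nat_lit 0) (nat_lit 352370856032) (nat_lit 76) (nat_lit 29577658425) (nat_lit 76) (nat_lit 4365336846) (nat_lit 3) (nat_lit 4) (nat_lit 4) (nat_lit 5) (nat_lit 4) (nat_lit 4) (nat_lit 314) (nat_lit 240) (nat_lit 166)) (XT.lf (nat_lit 0) (nat_lit 3620208695) (nat_lit 152) (nat_lit 17797194379) (nat_lit 76) (nat_lit 395292487071) (nat_lit 2) (nat_lit 5) (nat_lit 4) (nat_lit 5) (nat_lit 3) (nat_lit 4) (nat_lit 315) (nat_lit 240) (nat_lit 165))) (XT.nd (nat_lit 78) (nat_lit 76) (nat_lit 0) (XT.lf (nat_lit 0) (nat_lit 12088868399) (nat_lit 152) (nat_lit 442275903) (nat_lit 76) (nat_lit 437003032541) (nat_lit 2) (nat_lit 5) (nat_lit 4) (nat_lit 5) (nat_lit 3) (nat_lit 4) (nat_lit 316) (nat_lit 240) (nat_lit 164)) (XT.nd (nat_lit 78) (nat_lit 0) (nat_lit 0) (XT.lf (nat_lit 0) (nat_lit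 18897600495) (nat_lit 76) (nat_lit 2627988963) (nat_lit 152) (nat_lit 463444291758) (nat_lit 1) (nat_lit 5) (nat_lit 2) (nat_lit 5) (nat_lit 3) (nat_lit 4) (nat_lit 317) (nat_lit 240) (nat_lit 163)) (XT.lf (nat_lit 0) (nat_lit 31846708722) (nat_lit 152) (nat_lit 483573753965) (nat_lit 0) (nat_lit 7813509163) (nat_lit 1) (nat_lit 5) (nat_lit 3) (nat_lit 4) (nat_lit 1) (nat_lit 4) (nat_lit 318) (nat_lit 240) (nat_lit 162))))))))
noncomputable def xc50 : XT := (XT.nd (nat_lit 32370) (nat_lit 0) (nat_lit 1444) (XT.nd (nat_lit 31590) (nat_lit 0) (nat_lit 5396) (XT.nd (nat_lit 312) (nat_lit 0) (nat_lit 0) (XT.nd (nat_lit 156) (nat_lit 0) (nat_lit 0) (XT.nd (nat_lit 78) (nat_lit 0) (nat_lit 0) (XT.lf (nat_lit 0) (nat_lit 43033825633) (nat_lit 152) (nat_lit 502527135959) (nat_lit 0) (nat_lit 18996215455) (nat_lit 1) (nat_lit 5) (nat_lit 3) (nat_lit 4) (nat_lit 1) (nat_lit 4) (nat_lit 319) (nat_lit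 240) (nat_lit 161)) (XT.lf (nat_lit 0) (nat_lit 55112203945) (nat_lit 152) (nat_lit 523003712769) (nat_lit 0) (nat_lit 31070509860) (nat_lit 1) (nat_lit 5) (nat_lit 3) (nat_lit 4) (nat_lit 1) (nat_lit 4) (nat_lit 320) (nat_lit 240) (nat_lit 160))) (XT.nd (nat_lit 78) (nat_lit 0) (nat_lit 0) (XT.lf (nat_lit 0) (nat_lit 68153419233) (nat_lit 152) (nat_lit 545124827072) (nat_lit 0) (nat_lit 44107943753) (nat_lit 1) (nat_lit 5) (nat_lit 3) (nat_lit 4) (nat_lit 1) (nat_lit 4) (nat_lit 321) (nat_lit 240) (nat_lit 159)) (XT.lf (nat_lit 0) (nat_lit 82234752773) (nat_lit 152) (nat_lit 569021566954) (nat_lit 0) (nat_lit 58185776002) (nat_lit 1) (nat_lit 5) (nat_lit 3) (nat_lit 4) (nat_lit 1) (nat_lit 4) (nat_lit 322) (nat_lit 240) (nat_lit 158)))) (XT.nd (nat_lit 156) (nat_lit 0) (nat_lit 0) (XT.nd (nat_lit 78) (nat_lit 0) (nat_lit 0) (XT.lf (nat_lit 0) (nat_lit 97439649504) (nat_lit 152) (nat_lit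 594835542725) (nat_lit 0) (nat_lit 73387430796) (nat_lit 1) (nat_lit 5) (nat_lit 3) (nat_lit 4) (nat_lit 1) (nat_lit 4) (nat_lit 323) (nat_lit 240) (nat_lit 157)) (XT.lf (nat_lit 0) (nat_lit 113858212518) (nat_lit 152) (nat_lit 622719726093) (nat_lit 0) (nat_lit 89802992017) (nat_lit 1) (nat_lit 5) (nat_lit 3) (nat_lit 4) (nat_lit 1) (nat_lit 4) (nat_lit 324) (nat_lit 240) (nat_lit 156))) (XT.nd (nat_lit 30966) (nat_lit 0) (nat_lit 9044) (XT.lf (nat_lit 0) (nat_lit 131587737003) (nat_lit 152) (nat_lit 652839356662) (nat_lit 0) (nat_lit 107529737064) (nat_lit 1) (nat_lit 5) (nat_lit 3) (nat_lit 4) (nat_lit 1) (nat_lit 4) (nat_lit 325) (nat_lit 240) (nat_lit 155)) (XT.nd (nat_lit 78) (nat_lit 0) (nat_lit 0) (XT.lf (nat_lit 0) (nat_lit 1100114565) (nat_lit 228) (nat_lit 1067685304) (nat_lit 228) (nat_lit 1067685304) (nat_lit 120) (nat_lit 3) (nat_lit 123) (nat_lit 3) (nat_lit 123) (nat_lit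 5) (nat_lit 241) (nat_lit 241) (nat_lit 238)) (XT.lf (nat_lit 76) (nat_lit 2561748823) (nat_lit 0) (nat_lit 3691199780) (nat_lit 228) (nat_lit 258622739) (nat_lit 121) (nat_lit 5) (nat_lit 120) (nat_lit 3) (nat_lit 123) (nat_lit 5) (nat_lit 242) (nat_lit 241) (nat_lit 237)))))) (XT.nd (nat_lit 390) (nat_lit 2432) (nat_lit 0) (XT.nd (nat_lit 156) (nat_lit 684) (nat_lit 0) (XT.nd (nat_lit 78) (nat_lit 304) (nat_lit 0) (XT.lf (nat_lit 76) (nat_lit 892394609) (nat_lit 0) (nat_lit 2698971364) (nat_lit 304) (nat_lit 2980414196) (nat_lit 118) (nat_lit 5) (nat_lit 117) (nat_lit 5) (nat_lit 121) (nat_lit 5) (nat_lit 243) (nat_lit 241) (nat_lit 236)) (XT.lf (nat_lit 0) (nat_lit 752557062) (nat_lit 304) (nat_lit 626728232) (nat_lit 380) (nat_lit 5273918358) (nat_lit 113) (nat_lit 5) (nat_lit 117) (nat_lit 5) (nat_lit 118) (nat_lit 5) (nat_lit 244) (nat_lit 241) (nat_lit 235))) (XT.nd (nat_lit 78)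 (nat_lit 760) (nat_lit 0) (XT.lf (nat_lit 0) (nat_lit 4402471285) (nat_lit 304) (nat_lit 2044969856) (nat_lit 76) (nat_lit 306676879) (nat_lit 114) (nat_lit 5) (nat_lit 118) (nat_lit 5) (nat_lit 115) (nat_lit 5) (nat_lit 245) (nat_lit 241) (nat_lit 234)) (XT.nd (nat_lit 78) (nat_lit 380) (nat_lit 0) (XT.lf (nat_lit 0) (nat_lit 1185359379) (nat_lit 380) (nat_lit 3402896829) (nat_lit 76) (nat_lit 2287490477) (nat_lit 109) (nat_lit 5) (nat_lit 114) (nat_lit 5) (nat_lit 110) (nat_lit 5) (nat_lit 246) (nat_lit 241) (nat_lit 233)) (XT.lf (nat_lit 0) (nat_lit 2304273048) (nat_lit 380) (nat_lit 2374749621) (nat_lit 456) (nat_lit 2339621699) (nat_lit 104) (nat_lit 5) (nat_lit 109) (nat_lit 5) (nat_lit 110) (nat_lit 5) (nat_lit 247) (nat_lit 241) (nat_lit 232))))) (XT.nd (nat_lit 156) (nat_lit 1368) (nat_lit 0) (XT.nd (nat_lit 78) (nat_lit 532) (nat_lit 0) (XT.lf (nat_lit 0) (nat_lit 1017233635)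 (nat_lit 532) (nat_lit 5980323691) (nat_lit 76) (nat_lit 186589890) (nat_lit 97) (nat_lit 5) (nat_lit 104) (nat_lit 5) (nat_lit 98) (nat_lit 5) (nat_lit 248) (nat_lit 241) (nat_lit 231)) (XT.lf (nat_lit 0) (nat_lit 90638200) (nat_lit 532) (nat_lit 4312933925) (nat_lit 608) (nat_lit 2966292764) (nat_lit 90) (nat_lit 5) (nat_lit 97) (nat_lit 5) (nat_lit 98) (nat_lit 5) (nat_lit 249) (nat_lit 241) (nat_lit 230))) (XT.nd (nat_lit 78) (nat_lit 1292) (nat_lit 0) (XT.lf (nat_lit 0) (nat_lit 309601257) (nat_lit 608) (nat_lit 949822595) (nat_lit 76) (nat_lit 6319802285) (nat_lit 89) (nat_lit 5) (nat_lit 97) (nat_lit 5) (nat_lit 90) (nat_lit 5) (nat_lit 250) (nat_lit 241) (nat_lit 229)) (XT.nd (nat_lit 78) (nat_lit 684) (nat_lit 0) (XT.lf (nat_lit 0) (nat_lit 3619377280) (nat_lit 684) (nat_lit 2043253913) (nat_lit 76) (nat_lit 2147334093) (nat_lit 81) (nat_lit 5) (nat_lit 90) (nat_lit 5) (nat_lit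 82) (nat_lit 5) (nat_lit 251) (nat_lit 241) (nat_lit 228)) (XT.lf (nat_lit 0) (nat_lit 4909732741) (nat_lit 684) (nat_lit 2163752850) (nat_lit 760) (nat_lit 992484849) (nat_lit 72) (nat_lit 5) (nat_lit 81) (nat_lit 5) (nat_lit 82) (nat_lit 5) (nat_lit 252) (nat_lit 241) (nat_lit 227))))))) (XT.nd (nat_lit 702) (nat_lit 1292) (nat_lit 0) (XT.nd (nat_lit 312) (nat_lit 1140) (nat_lit 0) (XT.nd (nat_lit 156) (nat_lit 684) (nat_lit 0) (XT.nd (nat_lit 78) (nat_lit 380) (nat_lit 0) (XT.lf (nat_lit 0) (nat_lit 2283790622) (nat_lit 456) (nat_lit 4354727350) (nat_lit 76) (nat_lit 1707652893) (nat_lit 66) (nat_lit 5) (nat_lit 72) (nat_lit 5) (nat_lit 67) (nat_lit 5) (nat_lit 253) (nat_lit 241) (nat_lit 226)) (XT.lf (nat_lit 0) (nat_lit 2997200990) (nat_lit 380) (nat_lit 2717856557) (nat_lit 456) (nat_lit 2937173662) (nat_lit 61) (nat_lit 5) (nat_lit 66) (nat_lit 5) (nat_lit 67) (nat_lit 5) (nat_lit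 254) (nat_lit 241) (nat_lit 225))) (XT.nd (nat_lit 78) (nat_lit 304) (nat_lit 0) (XT.lf (nat_lit 0) (nat_lit 353413448) (nat_lit 380) (nat_lit 7064860257) (nat_lit 76) (nat_lit 1568256280) (nat_lit 56) (nat_lit 5) (nat_lit 61) (nat_lit 5) (nat_lit 57) (nat_lit 5) (nat_lit 255) (nat_lit 241) (nat_lit 224)) (XT.lf (nat_lit 0) (nat_lit 668102894) (nat_lit 304) (nat_lit 3102063568) (nat_lit 380) (nat_lit 5577230465) (nat_lit 52) (nat_lit 5) (nat_lit 56) (nat_lit 5) (nat_lit 57) (nat_lit 5) (nat_lit 256) (nat_lit 241) (nat_lit 223)))) (XT.nd (nat_lit 156) (nat_lit 836) (nat_lit 0) (XT.nd (nat_lit 78) (nat_lit 304) (nat_lit 0) (XT.lf (nat_lit 0) (nat_lit 7428225312) (nat_lit 380) (nat_lit 704974436) (nat_lit 76) (nat_lit 1606019404) (nat_lit 52) (nat_lit 5) (nat_lit 57) (nat_lit 5) (nat_lit 53) (nat_lit 5) (nat_lit 257) (nat_lit 241) (nat_lit 222)) (XT.lf (nat_lit 0) (nat_lit 1184994261) (nat_lit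 304) (nat_lit 2276930353) (nat_lit 76) (nat_lit 6699570377) (nat_lit 48) (nat_lit 5) (nat_lit 52) (nat_lit 5) (nat_lit 49) (nat_lit 5) (nat_lit 258) (nat_lit 241) (nat_lit 221))) (XT.nd (nat_lit 78) (nat_lit 532) (nat_lit 0) (XT.lf (nat_lit 0) (nat_lit 4860371897) (nat_lit 380) (nat_lit 4105597538) (nat_lit 76) (nat_lit 1651050744) (nat_lit 44) (nat_lit 5) (nat_lit 49) (nat_lit 5) (nat_lit 45) (nat_lit 5) (nat_lit 259) (nat_lit 241) (nat_lit 220)) (XT.nd (nat_lit 78) (nat_lit 304) (nat_lit 0) (XT.lf (nat_lit 0) (nat_lit 4875222852) (nat_lit 228) (nat_lit 3976117929) (nat_lit 304) (nat_lit 2256934622) (nat_lit 41) (nat_lit 5) (nat_lit 44) (nat_lit 5) (nat_lit 45) (nat_lit 5) (nat_lit 260) (nat_lit 241) (nat_lit 219)) (XT.lf (nat_lit 0) (nat_lit 1469009820) (nat_lit 304) (nat_lit 8702882921) (nat_lit 76) (nat_lit 1466322830) (nat_lit 37) (nat_lit 5) (nat_lit 41) (nat_lit 5) (nat_lit 38)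 (nat_lit 5) (nat_lit 261) (nat_lit 241) (nat_lit 218)))))) (XT.nd (nat_lit 390) (nat_lit 532) (nat_lit 0) (XT.nd (nat_lit 156) (nat_lit 608) (nat_lit 0) (XT.nd (nat_lit 78) (nat_lit 0) (nat_lit 0) (XT.lf (nat_lit 0) (nat_lit 572557166) (nat_lit 152) (nat_lit 4888502966) (nat_lit 228) (nat_lit 6745584664) (nat_lit 35) (nat_lit 5) (nat_lit 37) (nat_lit 5) (nat_lit 38) (nat_lit 5) (nat_lit 262) (nat_lit 241) (nat_lit 217)) (XT.lf (nat_lit 0) (nat_lit 9805713182) (nat_lit 228) (nat_lit 2118631457) (nat_lit 76) (nat_lit 894818548) (nat_lit 35) (nat_lit 5) (nat_lit 38) (nat_lit 5) (nat_lit 36) (nat_lit 5) (nat_lit 263) (nat_lit 241) (nat_lit 216))) (XT.nd (nat_lit 78) (nat_lit 304) (nat_lit 0) (XT.lf (nat_lit 0) (nat_lit 1071973479) (nat_lit 304) (nat_lit 5334187287) (nat_lit 76) (nat_lit 7069608404) (nat_lit 31) (nat_lit 5) (nat_lit 35) (nat_lit 5) (nat_lit 32) (nat_lit 5) (nat_lit 264) (nat_lit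 241) (nat_lit 215)) (XT.nd (nat_lit 78) (nat_lit 152) (nat_lit 0) (XT.lf (nat_lit 0) (nat_lit 5051950609) (nat_lit 152) (nat_lit 325156658) (nat_lit 228) (nat_lit 8805629653) (nat_lit 29) (nat_lit 5) (nat_lit 31) (nat_lit 5) (nat_lit 32) (nat_lit 5) (nat_lit 265) (nat_lit 241) (nat_lit 214)) (XT.lf (nat_lit 0) (nat_lit 1289088773) (nat_lit 152) (nat_lit 8835669876) (nat_lit 228) (nat_lit 4816807340) (nat_lit 27) (nat_lit 5) (nat_lit 29) (nat_lit 5) (nat_lit 30) (nat_lit 5) (nat_lit 266) (nat_lit 241) (nat_lit 213))))) (XT.nd (nat_lit 156) (nat_lit 304) (nat_lit 0) (XT.nd (nat_lit 78) (nat_lit 228) (nat_lit 0) (XT.lf (nat_lit 0) (nat_lit 12699348028) (nat_lit 152) (nat_lit 2609284194) (nat_lit 228) (nat_lit 449842399) (nat_lit 27) (nat_lit 5) (nat_lit 29) (nat_lit 5) (nat_lit 30) (nat_lit 5) (nat_lit 267) (nat_lit 241) (nat_lit 212)) (XT.lf (nat_lit 0) (nat_lit 4226361602) (nat_lit 228)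 (nat_lit 8272887652) (nat_lit 76) (nat_lit 4133505161) (nat_lit 24) (nat_lit 5) (nat_lit 27) (nat_lit 5) (nat_lit 25) (nat_lit 5) (nat_lit 268) (nat_lit 241) (nat_lit 211))) (XT.nd (nat_lit 78) (nat_lit 152) (nat_lit 0) (XT.lf (nat_lit 0) (nat_lit 3122320828) (nat_lit 152) (nat_lit 6188273640) (nat_lit 228) (nat_lit 8263686953) (nat_lit 22) (nat_lit 5) (nat_lit 24) (nat_lit 5) (nat_lit 25) (nat_lit 5) (nat_lit 269) (nat_lit 241) (nat_lit 210)) (XT.nd (nat_lit 78) (nat_lit 152) (nat_lit 0) (XT.lf (nat_lit 0) (nat_lit 14864516827) (nat_lit 228) (nat_lit 3021294275) (nat_lit 76) (nat_lit 702318418) (nat_lit 22) (nat_lit 5) (nat_lit 25) (nat_lit 5) (nat_lit 23) (nat_lit 4) (nat_lit 270) (nat_lit 241) (nat_lit 209)) (XT.lf (nat_lit 0) (nat_lit 1308878966) (nat_lit 152) (nat_lit 10315061864) (nat_lit 76) (nat_lit 8050004500) (nat_lit 20) (nat_lit 5) (nat_lit 22) (nat_lit 5) (nat_lit 21) (nat_lit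 5) (nat_lit 271) (nat_lit 241) (nat_lit 208))))))))
noncomputable def xc51 : XT := (XT.nd (nat_lit 1482) (nat_lit 304) (nat_lit 0) (XT.nd (nat_lit 702) (nat_lit 304) (nat_lit 0) (XT.nd (nat_lit 312) (nat_lit 380) (nat_lit 0) (XT.nd (nat_lit 156) (nat_lit 152) (nat_lit 0) (XT.nd (nat_lit 78) (nat_lit 0) (nat_lit 0) (XT.lf (nat_lit 0) (nat_lit 1853507091) (nat_lit 152) (nat_lit 4760636382) (nat_lit 228) (nat_lit 14229518850) (nat_lit 18) (nat_lit 5) (nat_lit 20) (nat_lit 5) (nat_lit 21) (nat_lit 5) (nat_lit 272) (nat_lit 241) (nat_lit 207)) (XT.lf (nat_lit 0) (nat_lit 12487693363) (nat_lit 228) (nat_lit 6911351635) (nat_lit 76) (nat_lit 2700829205) (nat_lit 18) (nat_lit 5) (nat_lit 21) (nat_lit 5) (nat_lit 19) (nat_lit 4) (nat_lit 273) (nat_lit 241) (nat_lit 206))) (XT.nd (nat_lit 78) (nat_lit 76) (nat_lit 0) (XT.lf (nat_lit 0) (nat_lit 6126474631) (nat_lit 76) (nat_lit 12806351079) (nat_lit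 152) (nat_lit 4518774940) (nat_lit 17) (nat_lit 5) (nat_lit 18) (nat_lit 5) (nat_lit 19) (nat_lit 4) (nat_lit 274) (nat_lit 241) (nat_lit 205)) (XT.lf (nat_lit 0) (nat_lit 1001220082) (nat_lit 152) (nat_lit 4588832991) (nat_lit 76) (nat_lit 19318208386) (nat_lit 16) (nat_lit 5) (nat_lit 18) (nat_lit 5) (nat_lit 17) (nat_lit 5) (nat_lit 275) (nat_lit 241) (nat_lit 204)))) (XT.nd (nat_lit 156) (nat_lit 228) (nat_lit 0) (XT.nd (nat_lit 78) (nat_lit 0) (nat_lit 0) (XT.lf (nat_lit 0) (nat_lit 6922267706) (nat_lit 228) (nat_lit 17235394622) (nat_lit 76) (nat_lit 2314284170) (nat_lit 14) (nat_lit 5) (nat_lit 17) (nat_lit 5) (nat_lit 15) (nat_lit 4) (nat_lit 276) (nat_lit 241) (nat_lit 203)) (XT.lf (nat_lit 0) (nat_lit 13428595626) (nat_lit 228) (nat_lit 4029497203) (nat_lit 76) (nat_lit 10697131207) (nat_lit 14) (nat_lit 5) (nat_lit 17) (nat_lit 5) (nat_lit 15) (nat_lit 4) (nat_lit 277) (nat_lit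 241) (nat_lit 202))) (XT.nd (nat_lit 78) (nat_lit 152) (nat_lit 0) (XT.lf (nat_lit 0) (nat_lit 10466923405) (nat_lit 76) (nat_lit 10092751297) (nat_lit 152) (nat_lit 9408348609) (nat_lit 13) (nat_lit 5) (nat_lit 14) (nat_lit 5) (nat_lit 15) (nat_lit 4) (nat_lit 278) (nat_lit 241) (nat_lit 201)) (XT.nd (nat_lit 78) (nat_lit 152) (nat_lit 0) (XT.lf (nat_lit 0) (nat_lit 26170381594) (nat_lit 76) (nat_lit 2104752160) (nat_lit 152) (nat_lit 3650084553) (nat_lit 13) (nat_lit 5) (nat_lit 14) (nat_lit 5) (nat_lit 15) (nat_lit 4) (nat_lit 279) (nat_lit 241) (nat_lit 200)) (XT.lf (nat_lit 0) (nat_lit 2682354505) (nat_lit 152) (nat_lit 24880685504) (nat_lit 76) (nat_lit 6464215521) (nat_lit 11) (nat_lit 5) (nat_lit 13) (nat_lit 5) (nat_lit 12) (nat_lit 4) (nat_lit 280) (nat_lit 241) (nat_lit 199)))))) (XT.nd (nat_lit 390) (nat_lit 152) (nat_lit 0) (XT.nd (nat_lit 156) (nat_lit 76) (nat_lit 0) (XT.nd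 (nat_lit 78) (nat_lit 76) (nat_lit 0) (XT.lf (nat_lit 0) (nat_lit 9481546735) (nat_lit 152) (nat_lit 11034797560) (nat_lit 76) (nat_lit 15773771869) (nat_lit 11) (nat_lit 5) (nat_lit 13) (nat_lit 5) (nat_lit 12) (nat_lit 4) (nat_lit 281) (nat_lit 241) (nat_lit 198)) (XT.lf (nat_lit 0) (nat_lit 3962946428) (nat_lit 76) (nat_lit 12876332753) (nat_lit 152) (nat_lit 21894046473) (nat_lit 10) (nat_lit 5) (nat_lit 11) (nat_lit 5) (nat_lit 12) (nat_lit 4) (nat_lit 282) (nat_lit 241) (nat_lit 197))) (XT.nd (nat_lit 78) (nat_lit 76) (nat_lit 0) (XT.lf (nat_lit 0) (nat_lit 20475497016) (nat_lit 76) (nat_lit 4457351343) (nat_lit 152) (nat_lit 16431829163) (nat_lit 10) (nat_lit 5) (nat_lit 11) (nat_lit 5) (nat_lit 12) (nat_lit 4) (nat_lit 283) (nat_lit 241) (nat_lit 196)) (XT.nd (nat_lit 78) (nat_lit 76) (nat_lit 0) (XT.lf (nat_lit 0) (nat_lit 33704110817) (nat_lit 152) (nat_lit 6044693144) (nat_lit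 0) (nat_lit 4456266269) (nat_lit 10) (nat_lit 5) (nat_lit 12) (nat_lit 4) (nat_lit 10) (nat_lit 4) (nat_lit 284) (nat_lit 241) (nat_lit 195)) (XT.lf (nat_lit 0) (nat_lit 10168348863) (nat_lit 76) (nat_lit 33203603959) (nat_lit 76) (nat_lit 3891037493) (nat_lit 9) (nat_lit 4) (nat_lit 10) (nat_lit 5) (nat_lit 10) (nat_lit 4) (nat_lit 285) (nat_lit 241) (nat_lit 194))))) (XT.nd (nat_lit 156) (nat_lit 76) (nat_lit 0) (XT.nd (nat_lit 78) (nat_lit 0) (nat_lit 0) (XT.lf (nat_lit 0) (nat_lit 3212927514) (nat_lit 152) (nat_lit 22785992763) (nat_lit 76) (nat_lit 24560663872) (nat_lit 8) (nat_lit 5) (nat_lit 10) (nat_lit 5) (nat_lit 9) (nat_lit 4) (nat_lit 286) (nat_lit 241) (nat_lit 193)) (XT.lf (nat_lit 0) (nat_lit 10715685631) (nat_lit 152) (nat_lit 7460827235) (nat_lit 76) (nat_lit 35941895871) (nat_lit 8) (nat_lit 5) (nat_lit 10) (nat_lit 5) (nat_lit 9) (nat_lit 4) (nat_lit 287) (nat_lit 241)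 (nat_lit 192))) (XT.nd (nat_lit 78) (nat_lit 0) (nat_lit 0) (XT.lf (nat_lit 0) (nat_lit 9331073553) (nat_lit 76) (nat_lit 9600845802) (nat_lit 152) (nat_lit 39024387346) (nat_lit 7) (nat_lit 5) (nat_lit 8) (nat_lit 5) (nat_lit 9) (nat_lit 4) (nat_lit 288) (nat_lit 241) (nat_lit 191)) (XT.nd (nat_lit 78) (nat_lit 0) (nat_lit 0) (XT.lf (nat_lit 0) (nat_lit 27677337124) (nat_lit 76) (nat_lit 227185213) (nat_lit 152) (nat_lit 34191788560) (nat_lit 7) (nat_lit 5) (nat_lit 8) (nat_lit 5) (nat_lit 9) (nat_lit 4) (nat_lit 289) (nat_lit 241) (nat_lit 190)) (XT.lf (nat_lit 0) (nat_lit 37720485197) (nat_lit 152) (nat_lit 19283133609) (nat_lit 0) (nat_lit 9557644895) (nat_lit 7) (nat_lit 5) (nat_lit 9) (nat_lit 4) (nat_lit 7) (nat_lit 4) (nat_lit 290) (nat_lit 241) (nat_lit 189))))))) (XT.nd (nat_lit 780) (nat_lit 76) (nat_lit 0) (XT.nd (nat_lit 390) (nat_lit 76) (nat_lit 0) (XT.nd (nat_lit 156)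 (nat_lit 76) (nat_lit 0) (XT.nd (nat_lit 78) (nat_lit 76) (nat_lit 0) (XT.lf (nat_lit 0) (nat_lit 48298742508) (nat_lit 152) (nat_lit 2988784690) (nat_lit 0) (nat_lit 20097058599) (nat_lit 7) (nat_lit 5) (nat_lit 9) (nat_lit 4) (nat_lit 7) (nat_lit 4) (nat_lit 291) (nat_lit 241) (nat_lit 188)) (XT.lf (nat_lit 0) (nat_lit 15045736618) (nat_lit 76) (nat_lit 44887602736) (nat_lit 76) (nat_lit 16649952525) (nat_lit 6) (nat_lit 4) (nat_lit 7) (nat_lit 5) (nat_lit 7) (nat_lit 4) (nat_lit 292) (nat_lit 241) (nat_lit 187))) (XT.nd (nat_lit 78) (nat_lit 76) (nat_lit 0) (XT.lf (nat_lit 0) (nat_lit 34586767847) (nat_lit 76) (nat_lit 37940339645) (nat_lit 76) (nat_lit 9669387302) (nat_lit 6) (nat_lit 4) (nat_lit 7) (nat_lit 5) (nat_lit 7) (nat_lit 4) (nat_lit 293) (nat_lit 241) (nat_lit 186)) (XT.nd (nat_lit 78) (nat_lit 76) (nat_lit 0) (XT.lf (nat_lit 0) (nat_lit 55651284981) (nat_lit 76) (nat_lit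 30455185474) (nat_lit 76) (nat_lit 2153397824) (nat_lit 6) (nat_lit 4) (nat_lit 7) (nat_lit 5) (nat_lit 7) (nat_lit 4) (nat_lit 294) (nat_lit 241) (nat_lit 185)) (XT.lf (nat_lit 0) (nat_lit 5752356231) (nat_lit 152) (nat_lit 16538008585) (nat_lit 76) (nat_lit 72514339619) (nat_lit 5) (nat_lit 5) (nat_lit 7) (nat_lit 5) (nat_lit 6) (nat_lit 4) (nat_lit 295) (nat_lit 241) (nat_lit 184))))) (XT.nd (nat_lit 156) (nat_lit 0) (nat_lit 0) (XT.nd (nat_lit 78) (nat_lit 0) (nat_lit 0) (XT.lf (nat_lit 0) (nat_lit 771839175) (nat_lit 76) (nat_lit 13437240991) (nat_lit 152) (nat_lit 87662600049) (nat_lit 4) (nat_lit 5) (nat_lit 5) (nat_lit 5) (nat_lit 6) (nat_lit 4) (nat_lit 296) (nat_lit 241) (nat_lit 183)) (XT.lf (nat_lit 0) (nat_lit 20023786233) (nat_lit 76) (nat_lit 3588428137) (nat_lit 152) (nat_lit 85878320437) (nat_lit 4) (nat_lit 5) (nat_lit 5) (nat_lit 5) (nat_lit 6) (nat_lit 4) (nat_lit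 297) (nat_lit 241) (nat_lit 182))) (XT.nd (nat_lit 78) (nat_lit 0) (nat_lit 0) (XT.lf (nat_lit 0) (nat_lit 33860565087) (nat_lit 152) (nat_lit 77044483178) (nat_lit 0) (nat_lit 6809214517) (nat_lit 4) (nat_lit 5) (nat_lit 6) (nat_lit 4) (nat_lit 4) (nat_lit 4) (nat_lit 298) (nat_lit 241) (nat_lit 181)) (XT.nd (nat_lit 78) (nat_lit 0) (nat_lit 0) (XT.lf (nat_lit 0) (nat_lit 44973478555) (nat_lit 152) (nat_lit 63718046695) (nat_lit 0) (nat_lit 17902141326) (nat_lit 4) (nat_lit 5) (nat_lit 6) (nat_lit 4) (nat_lit 4) (nat_lit 4) (nat_lit 299) (nat_lit 241) (nat_lit 180)) (XT.lf (nat_lit 0) (nat_lit 56960783657) (nat_lit 152) (nat_lit 49352442233) (nat_lit 0) (nat_lit 29870940262) (nat_lit 4) (nat_lit 5) (nat_lit 6) (nat_lit 4) (nat_lit 4) (nat_lit 4) (nat_lit 300) (nat_lit 241) (nat_lit 179)))))) (XT.nd (nat_lit 390) (nat_lit 0) (nat_lit 0) (XT.nd (nat_lit 156) (nat_lit 76) (nat_lit 0) (XT.nd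 (nat_lit 78) (nat_lit 0) (nat_lit 0) (XT.lf (nat_lit 0) (nat_lit 69893516275) (nat_lit 152) (nat_lit 33862540284) (nat_lit 0) (nat_lit 42786537541) (nat_lit 4) (nat_lit 5) (nat_lit 6) (nat_lit 4) (nat_lit 4) (nat_lit 4) (nat_lit 301) (nat_lit 241) (nat_lit 178)) (XT.lf (nat_lit 0) (nat_lit 83848314824) (nat_lit 152) (nat_lit 17156548834) (nat_lit 0) (nat_lit 56725470036) (nat_lit 4) (nat_lit 5) (nat_lit 6) (nat_lit 4) (nat_lit 4) (nat_lit 4) (nat_lit 302) (nat_lit 241) (nat_lit 177))) (XT.nd (nat_lit 78) (nat_lit 0) (nat_lit 0) (XT.lf (nat_lit 0) (nat_lit 893115866) (nat_lit 76) (nat_lit 98028702582) (nat_lit 76) (nat_lit 70891167003) (nat_lit 3) (nat_lit 4) (nat_lit 4) (nat_lit 5) (nat_lit 4) (nat_lit 4) (nat_lit 303) (nat_lit 241) (nat_lit 176)) (XT.nd (nat_lit 78) (nat_lit 0) (nat_lit 0) (XT.lf (nat_lit 0) (nat_lit 20978946862) (nat_lit 76) (nat_lit 94510030151) (nat_lit 76) (nat_lit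 67358891987) (nat_lit 3) (nat_lit 4) (nat_lit 4) (nat_lit 5) (nat_lit 4) (nat_lit 4) (nat_lit 304) (nat_lit 241) (nat_lit 175)) (XT.lf (nat_lit 0) (nat_lit 42652698312) (nat_lit 76) (nat_lit 90718549428) (nat_lit 76) (nat_lit 63554816279) (nat_lit 3) (nat_lit 4) (nat_lit 4) (nat_lit 5) (nat_lit 4) (nat_lit 4) (nat_lit 305) (nat_lit 241) (nat_lit 174))))) (XT.nd (nat_lit 156) (nat_lit 0) (nat_lit 0) (XT.nd (nat_lit 78) (nat_lit 0) (nat_lit 0) (XT.lf (nat_lit 0) (nat_lit 66042807263) (nat_lit 76) (nat_lit 86631792381) (nat_lit 76) (nat_lit 59456397208) (nat_lit 3) (nat_lit 4) (nat_lit 4) (nat_lit 5) (nat_lit 4) (nat_lit 4) (nat_lit 306) (nat_lit 241) (nat_lit 173)) (XT.lf (nat_lit 0) (nat_lit 91287881767) (nat_lit 76) (nat_lit 82225541190) (nat_lit 76) (nat_lit 55039347847) (nat_lit 3) (nat_lit 4) (nat_lit 4) (nat_lit 5) (nat_lit 4) (nat_lit 4) (nat_lit 307) (nat_lit 241) (nat_lit 172)))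 (XT.nd (nat_lit 78) (nat_lit 0) (nat_lit 0) (XT.lf (nat_lit 0) (nat_lit 118537522266) (nat_lit 76) (nat_lit 77473684736) (nat_lit 76) (nat_lit 50277493088) (nat_lit 3) (nat_lit 4) (nat_lit 4) (nat_lit 5) (nat_lit 4) (nat_lit 4) (nat_lit 308) (nat_lit 241) (nat_lit 171)) (XT.nd (nat_lit 78) (nat_lit 0) (nat_lit 0) (XT.lf (nat_lit 0) (nat_lit 147953208112) (nat_lit 76) (nat_lit 72348063871) (nat_lit 76) (nat_lit 45142614532) (nat_lit 3) (nat_lit 4) (nat_lit 4) (nat_lit 5) (nat_lit 4) (nat_lit 4) (nat_lit 309) (nat_lit 241) (nat_lit 170)) (XT.lf (nat_lit 0) (nat_lit 179709254479) (nat_lit 76) (nat_lit 66818304544) (nat_lit 76) (nat_lit 39604283270) (nat_lit 3) (nat_lit 4) (nat_lit 4) (nat_lit 5) (nat_lit 4) (nat_lit 4) (nat_lit 310) (nat_lit 241) (nat_lit 169))))))))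
noncomputable def xc52 : XT := (XT.nd (nat_lit 32526) (nat_lit 0) (nat_lit 2280) (XT.nd (nat_lit 702) (nat_lit 0) (nat_lit 0) (XT.nd (nat_lit 312) (nat_lit 152) (nat_lit 0) (XT.nd (nat_lit 156) (nat_lit 0) (nat_lit 0) (XT.nd (nat_lit 78) (nat_lit 0) (nat_lit 0) (XT.lf (nat_lit 0) (nat_lit 213993845345) (nat_lit 76) (nat_lit 60851637812) (nat_lit 76) (nat_lit 33629679561) (nat_lit 3) (nat_lit 4) (nat_lit 4) (nat_lit 5) (nat_lit 4) (nat_lit 4) (nat_lit 311) (nat_lit 241) (nat_lit 168)) (XT.lf (nat_lit 0) (nat_lit 251010148658) (nat_lit 76) (nat_lit 54412705650) (nat_lit 76) (nat_lit 27183398345) (nat_lit 3) (nat_lit 4) (nat_lit 4) (nat_lit 5) (nat_lit 4) (nat_lit 4) (nat_lit 312) (nat_lit 241) (nat_lit 167))) (XT.nd (nat_lit 78) (nat_lit 0) (nat_lit 0) (XT.lf (nat_lit 0) (nat_lit 290977520288) (nat_lit 76) (nat_lit 47463351422) (nat_lit 76) (nat_lit 20227239438) (nat_lit 3) (nat_lit 4)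 (nat_lit 4) (nat_lit 5) (nat_lit 4) (nat_lit 4) (nat_lit 313) (nat_lit 241) (nat_lit 166)) (XT.lf (nat_lit 0) (nat_lit 334132803919) (nat_lit 76) (nat_lit 39962393769) (nat_lit 76) (nat_lit 12719981158) (nat_lit 3) (nat_lit 4) (nat_lit 4) (nat_lit 5) (nat_lit 4) (nat_lit 4) (nat_lit 314) (nat_lit 241) (nat_lit 165)))) (XT.nd (nat_lit 156) (nat_lit 76) (nat_lit 0) (XT.nd (nat_lit 78) (nat_lit 76) (nat_lit 0) (XT.lf (nat_lit 0) (nat_lit 380731734565) (nat_lit 76) (nat_lit 31865382574) (nat_lit 76) (nat_lit 4617136047) (nat_lit 3) (nat_lit 4) (nat_lit 4) (nat_lit 5) (nat_lit 4) (nat_lit 4) (nat_lit 315) (nat_lit 241) (nat_lit 164)) (XT.lf (nat_lit 0) (nat_lit 3997148957) (nat_lit 152) (nat_lit 19059492937) (nat_lit 76) (nat_lit 426985611429) (nat_lit 2) (nat_lit 5) (nat_lit 4) (nat_lit 5) (nat_lit 3) (nat_lit 4) (nat_lit 316) (nat_lit 241) (nat_lit 163))) (XT.nd (nat_lit 78) (nat_lit 76)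 (nat_lit 0) (XT.lf (nat_lit 0) (nat_lit 13136833024) (nat_lit 152) (nat_lit 328142241) (nat_lit 76) (nat_lit 472027835692) (nat_lit 2) (nat_lit 5) (nat_lit 4) (nat_lit 5) (nat_lit 3) (nat_lit 4) (nat_lit 317) (nat_lit 241) (nat_lit 162)) (XT.nd (nat_lit 78) (nat_lit 0) (nat_lit 0) (XT.lf (nat_lit 0) (nat_lit 20552426496) (nat_lit 76) (nat_lit 2772308912) (nat_lit 152) (nat_lit 500438828334) (nat_lit 1) (nat_lit 5) (nat_lit 2) (nat_lit 5) (nat_lit 3) (nat_lit 4) (nat_lit 318) (nat_lit 241) (nat_lit 161)) (XT.lf (nat_lit 0) (nat_lit 34466786139) (nat_lit 152) (nat_lit 522124564698) (nat_lit 0) (nat_lit 8497672621) (nat_lit 1) (nat_lit 5) (nat_lit 3) (nat_lit 4) (nat_lit 1) (nat_lit 4) (nat_lit 319) (nat_lit 241) (nat_lit 160)))))) (XT.nd (nat_lit 31434) (nat_lit 0) (nat_lit 8132) (XT.nd (nat_lit 156) (nat_lit 0) (nat_lit 0) (XT.nd (nat_lit 78) (nat_lit 0) (nat_lit 0) (XT.lf (nat_lit 0)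 (nat_lit 46543513831) (nat_lit 152) (nat_lit 542604223887) (nat_lit 0) (nat_lit 20570618918) (nat_lit 1) (nat_lit 5) (nat_lit 3) (nat_lit 4) (nat_lit 1) (nat_lit 4) (nat_lit 320) (nat_lit 241) (nat_lit 159)) (XT.lf (nat_lit 0) (nat_lit 59583200768) (nat_lit 152) (nat_lit 564728192246) (nat_lit 0) (nat_lit 33606804563) (nat_lit 1) (nat_lit 5) (nat_lit 3) (nat_lit 4) (nat_lit 1) (nat_lit 4) (nat_lit 321) (nat_lit 241) (nat_lit 158))) (XT.nd (nat_lit 78) (nat_lit 0) (nat_lit 0) (XT.lf (nat_lit 0) (nat_lit 73663119167) (nat_lit 152) (nat_lit 588627574771) (nat_lit 0) (nat_lit 47683481026) (nat_lit 1) (nat_lit 5) (nat_lit 3) (nat_lit 4) (nat_lit 1) (nat_lit 4) (nat_lit 322) (nat_lit 241) (nat_lit 157)) (XT.nd (nat_lit 78) (nat_lit 0) (nat_lit 0) (XT.lf (nat_lit 0) (nat_lit 88866705583) (nat_lit 152) (nat_lit 614443997434) (nat_lit 0) (nat_lit 62884065648) (nat_lit 1) (nat_lit 5) (nat_lit 3)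 (nat_lit 4) (nat_lit 1) (nat_lit 4) (nat_lit 323) (nat_lit 241) (nat_lit 156)) (XT.lf (nat_lit 0) (nat_lit 105284055342) (nat_lit 152) (nat_lit 642330446442) (nat_lit 0) (nat_lit 79298635969) (nat_lit 1) (nat_lit 5) (nat_lit 3) (nat_lit 4) (nat_lit 1) (nat_lit 4) (nat_lit 324) (nat_lit 241) (nat_lit 155))))) (XT.nd (nat_lit 156) (nat_lit 304) (nat_lit 0) (XT.nd (nat_lit 78) (nat_lit 380) (nat_lit 0) (XT.lf (nat_lit 0) (nat_lit 853587750) (nat_lit 0) (nat_lit 853587750) (nat_lit 228) (nat_lit 1573378987) (nat_lit 117) (nat_lit 5) (nat_lit 117) (nat_lit 3) (nat_lit 120) (nat_lit 3) (nat_lit 242) (nat_lit 242) (nat_lit 236)) (XT.lf (nat_lit 0) (nat_lit 398124774) (nat_lit 380) (nat_lit 134569188) (nat_lit 380) (nat_lit 6099559269) (nat_lit 112) (nat_lit 3) (nat_lit 117) (nat_lit 3) (nat_lit 117) (nat_lit 5) (nat_lit 243) (nat_lit 242) (nat_lit 235))) (XT.nd (nat_lit 78) (nat_lit 380) (nat_lit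 0) (XT.lf (nat_lit 0) (nat_lit 3853439917) (nat_lit 304) (nat_lit 1860957575) (nat_lit 380) (nat_lit 1006813973) (nat_lit 113) (nat_lit 5) (nat_lit 117) (nat_lit 5) (nat_lit 118) (nat_lit 5) (nat_lit 244) (nat_lit 242) (nat_lit 234)) (XT.nd (nat_lit 78) (nat_lit 0) (nat_lit 0) (XT.lf (nat_lit 0) (nat_lit 470287308) (nat_lit 380) (nat_lit 3499904097) (nat_lit 456) (nat_lit 2861519266) (nat_lit 108) (nat_lit 5) (nat_lit 113) (nat_lit 5) (nat_lit 114) (nat_lit 5) (nat_lit 245) (nat_lit 242) (nat_lit 233)) (XT.lf (nat_lit 76) (nat_lit 1864404380) (nat_lit 0) (nat_lit 1858299300) (nat_lit 456) (nat_lit 3239876874) (nat_lit 109) (nat_lit 5) (nat_lit 108) (nat_lit 5) (nat_lit 114) (nat_lit 5) (nat_lit 246) (nat_lit 242) (nat_lit 232))))))) (XT.nd (nat_lit 702) (nat_lit 2204) (nat_lit 0) (XT.nd (nat_lit 312) (nat_lit 2204) (nat_lit 0) (XT.nd (nat_lit 156) (nat_lit 1064) (nat_lit 0) (XT.nd (nat_lit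 78) (nat_lit 76) (nat_lit 0) (XT.lf (nat_lit 0) (nat_lit 477584215) (nat_lit 380) (nat_lit 6540047516) (nat_lit 456) (nat_lit 98348905) (nat_lit 104) (nat_lit 5) (nat_lit 109) (nat_lit 5) (nat_lit 110) (nat_lit 5) (nat_lit 247) (nat_lit 242) (nat_lit 231)) (XT.lf (nat_lit 0) (nat_lit 3029977049) (nat_lit 456) (nat_lit 893152052) (nat_lit 76) (nat_lit 3364943288) (nat_lit 103) (nat_lit 5) (nat_lit 109) (nat_lit 5) (nat_lit 104) (nat_lit 5) (nat_lit 248) (nat_lit 242) (nat_lit 230))) (XT.nd (nat_lit 78) (nat_lit 608) (nat_lit 0) (XT.lf (nat_lit 0) (nat_lit 5281719337) (nat_lit 456) (nat_lit 946026705) (nat_lit 532) (nat_lit 1255934345) (nat_lit 97) (nat_lit 5) (nat_lit 103) (nat_lit 5) (nat_lit 104) (nat_lit 5) (nat_lit 249) (nat_lit 242) (nat_lit 229)) (XT.lf (nat_lit 0) (nat_lit 1793728925) (nat_lit 608) (nat_lit 3547254650) (nat_lit 76) (nat_lit 2359704593) (nat_lit 89) (nat_lit 5) (nat_lit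 97) (nat_lit 5) (nat_lit 90) (nat_lit 5) (nat_lit 250) (nat_lit 242) (nat_lit 228)))) (XT.nd (nat_lit 156) (nat_lit 912) (nat_lit 0) (XT.nd (nat_lit 78) (nat_lit 684) (nat_lit 0) (XT.lf (nat_lit 0) (nat_lit 3019245818) (nat_lit 608) (nat_lit 1894475415) (nat_lit 684) (nat_lit 3027572377) (nat_lit 81) (nat_lit 5) (nat_lit 89) (nat_lit 5) (nat_lit 90) (nat_lit 5) (nat_lit 251) (nat_lit 242) (nat_lit 227)) (XT.lf (nat_lit 0) (nat_lit 1864192896) (nat_lit 684) (nat_lit 6321827364) (nat_lit 760) (nat_lit 20718143) (nat_lit 72) (nat_lit 5) (nat_lit 81) (nat_lit 5) (nat_lit 82) (nat_lit 5) (nat_lit 252) (nat_lit 242) (nat_lit 226))) (XT.nd (nat_lit 78) (nat_lit 456) (nat_lit 0) (XT.lf (nat_lit 0) (nat_lit 611604859) (nat_lit 380) (nat_lit 2431756849) (nat_lit 456) (nat_lit 5452181083) (nat_lit 66) (nat_lit 5) (nat_lit 71) (nat_lit 5) (nat_lit 72) (nat_lit 5) (nat_lit 253) (nat_lit 242) (nat_lit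 225)) (XT.nd (nat_lit 78) (nat_lit 456) (nat_lit 0) (XT.lf (nat_lit 0) (nat_lit 6295510161) (nat_lit 456) (nat_lit 688893157) (nat_lit 76) (nat_lit 1826440847) (nat_lit 66) (nat_lit 5) (nat_lit 72) (nat_lit 5) (nat_lit 67) (nat_lit 5) (nat_lit 254) (nat_lit 242) (nat_lit 224)) (XT.lf (nat_lit 0) (nat_lit 604189371) (nat_lit 456) (nat_lit 2086438728) (nat_lit 76) (nat_lit 6462315062) (nat_lit 60) (nat_lit 5) (nat_lit 66) (nat_lit 5) (nat_lit 61) (nat_lit 5) (nat_lit 255) (nat_lit 242) (nat_lit 223)))))) (XT.nd (nat_lit 390) (nat_lit 988) (nat_lit 0) (XT.nd (nat_lit 156) (nat_lit 608) (nat_lit 0) (XT.nd (nat_lit 78) (nat_lit 304) (nat_lit 0) (XT.lf (nat_lit 0) (nat_lit 3848858847) (nat_lit 380) (nat_lit 3653895076) (nat_lit 76) (nat_lit 2019893150) (nat_lit 56) (nat_lit 5) (nat_lit 61) (nat_lit 5) (nat_lit 57) (nat_lit 5) (nat_lit 256) (nat_lit 242) (nat_lit 222)) (XT.lf (nat_lit 0) (nat_lit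 4524906320) (nat_lit 304) (nat_lit 2816599236) (nat_lit 380) (nat_lit 2581449897) (nat_lit 52) (nat_lit 5) (nat_lit 56) (nat_lit 5) (nat_lit 57) (nat_lit 5) (nat_lit 257) (nat_lit 242) (nat_lit 221))) (XT.nd (nat_lit 78) (nat_lit 304) (nat_lit 0) (XT.lf (nat_lit 0) (nat_lit 724584090) (nat_lit 304) (nat_lit 7359536184) (nat_lit 76) (nat_lit 2271442744) (nat_lit 48) (nat_lit 5) (nat_lit 52) (nat_lit 5) (nat_lit 49) (nat_lit 5) (nat_lit 258) (nat_lit 242) (nat_lit 220)) (XT.nd (nat_lit 78) (nat_lit 0) (nat_lit 0) (XT.lf (nat_lit 0) (nat_lit 1196633884) (nat_lit 304) (nat_lit 3021338486) (nat_lit 380) (nat_lit 6602391301) (nat_lit 44) (nat_lit 5) (nat_lit 48) (nat_lit 5) (nat_lit 49) (nat_lit 5) (nat_lit 259) (nat_lit 242) (nat_lit 219)) (XT.lf (nat_lit 0) (nat_lit 8017437060) (nat_lit 380) (nat_lit 840334093) (nat_lit 76) (nat_lit 2463585914) (nat_lit 44) (nat_lit 5) (nat_lit 49) (nat_lit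 5) (nat_lit 45) (nat_lit 5) (nat_lit 260) (nat_lit 242) (nat_lit 218))))) (XT.nd (nat_lit 156) (nat_lit 456) (nat_lit 0) (XT.nd (nat_lit 78) (nat_lit 228) (nat_lit 0) (XT.lf (nat_lit 0) (nat_lit 306202267) (nat_lit 304) (nat_lit 3162136936) (nat_lit 76) (nat_lit 8391385667) (nat_lit 40) (nat_lit 5) (nat_lit 44) (nat_lit 5) (nat_lit 41) (nat_lit 5) (nat_lit 261) (nat_lit 242) (nat_lit 217)) (XT.lf (nat_lit 0) (nat_lit 4120871594) (nat_lit 304) (nat_lit 5903018326) (nat_lit 76) (nat_lit 2413266282) (nat_lit 37) (nat_lit 5) (nat_lit 41) (nat_lit 5) (nat_lit 38) (nat_lit 5) (nat_lit 262) (nat_lit 242) (nat_lit 216))) (XT.nd (nat_lit 78) (nat_lit 304) (nat_lit 0) (XT.lf (nat_lit 0) (nat_lit 3962520929) (nat_lit 152) (nat_lit 4334247736) (nat_lit 228) (nat_lit 4761466931) (nat_lit 35) (nat_lit 5) (nat_lit 37) (nat_lit 5) (nat_lit 38) (nat_lit 5) (nat_lit 263) (nat_lit 242) (nat_lit 215)) (XT.nd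 (nat_lit 78) (nat_lit 76) (nat_lit 0) (XT.lf (nat_lit 0) (nat_lit 940441583) (nat_lit 228) (nat_lit 11899210711) (nat_lit 304) (nat_lit 887940589) (nat_lit 32) (nat_lit 5) (nat_lit 35) (nat_lit 5) (nat_lit 36) (nat_lit 5) (nat_lit 264) (nat_lit 242) (nat_lit 214)) (XT.lf (nat_lit 0) (nat_lit 3313611079) (nat_lit 304) (nat_lit 2626094688) (nat_lit 76) (nat_lit 8502248712) (nat_lit 31) (nat_lit 5) (nat_lit 35) (nat_lit 5) (nat_lit 32) (nat_lit 5) (nat_lit 265) (nat_lit 242) (nat_lit 213))))))))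
noncomputable def xc53 : XT := (XT.nd (nat_lit 1482) (nat_lit 532) (nat_lit 0) (XT.nd (nat_lit 702) (nat_lit 608) (nat_lit 0) (XT.nd (nat_lit 312) (nat_lit 456) (nat_lit 0) (XT.nd (nat_lit 156) (nat_lit 228) (nat_lit 0) (XT.nd (nat_lit 78) (nat_lit 152) (nat_lit 0) (XT.lf (nat_lit 0) (nat_lit 7859713908) (nat_lit 228) (nat_lit 6766164215) (nat_lit 76) (nat_lit 585075999) (nat_lit 29) (nat_lit 5) (nat_lit 32) (nat_lit 5) (nat_lit 30) (nat_lit 5) (nat_lit 266) (nat_lit 242) (nat_lit 212)) (XT.lf (nat_lit 0) (nat_lit 4347547792) (nat_lit 152) (nat_lit 8538814779) (nat_lit 228) (nat_lit 3149447675) (nat_lit 27) (nat_lit 5) (nat_lit 29) (nat_lit 5) (nat_lit 30) (nat_lit 5) (nat_lit 267) (nat_lit 242) (nat_lit 211))) (XT.nd (nat_lit 78) (nat_lit 152) (nat_lit 0) (XT.lf (nat_lit 0) (nat_lit 1369539144) (nat_lit 228) (nat_lit 495934082) (nat_lit 76) (nat_lit 15058981359) (nat_lit 26) (nat_lit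 5) (nat_lit 29) (nat_lit 5) (nat_lit 27) (nat_lit 5) (nat_lit 268) (nat_lit 242) (nat_lit 210)) (XT.lf (nat_lit 0) (nat_lit 6324399141) (nat_lit 228) (nat_lit 6180526016) (nat_lit 76) (nat_lit 5367595499) (nat_lit 24) (nat_lit 5) (nat_lit 27) (nat_lit 5) (nat_lit 25) (nat_lit 5) (nat_lit 269) (nat_lit 242) (nat_lit 209)))) (XT.nd (nat_lit 156) (nat_lit 304) (nat_lit 0) (XT.nd (nat_lit 78) (nat_lit 0) (nat_lit 0) (XT.lf (nat_lit 0) (nat_lit 6006605287) (nat_lit 152) (nat_lit 5719532177) (nat_lit 228) (nat_lit 7167905697) (nat_lit 22) (nat_lit 5) (nat_lit 24) (nat_lit 5) (nat_lit 25) (nat_lit 5) (nat_lit 270) (nat_lit 242) (nat_lit 208)) (XT.lf (nat_lit 0) (nat_lit 17614551423) (nat_lit 228) (nat_lit 757783100) (nat_lit 76) (nat_lit 1622351695) (nat_lit 22) (nat_lit 5) (nat_lit 25) (nat_lit 5) (nat_lit 23) (nat_lit 4) (nat_lit 271) (nat_lit 242) (nat_lit 207))) (XT.nd (nat_lit 78) (nat_lit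 152) (nat_lit 0) (XT.lf (nat_lit 0) (nat_lit 2922757816) (nat_lit 152) (nat_lit 8691865252) (nat_lit 76) (nat_lit 9555618966) (nat_lit 20) (nat_lit 5) (nat_lit 22) (nat_lit 5) (nat_lit 21) (nat_lit 5) (nat_lit 272) (nat_lit 242) (nat_lit 206)) (XT.nd (nat_lit 78) (nat_lit 0) (nat_lit 0) (XT.lf (nat_lit 0) (nat_lit 4343784671) (nat_lit 152) (nat_lit 4233433688) (nat_lit 228) (nat_lit 13860239320) (nat_lit 18) (nat_lit 5) (nat_lit 20) (nat_lit 5) (nat_lit 21) (nat_lit 5) (nat_lit 273) (nat_lit 242) (nat_lit 205)) (XT.lf (nat_lit 0) (nat_lit 14827561305) (nat_lit 228) (nat_lit 5240632562) (nat_lit 76) (nat_lit 3730775374) (nat_lit 18) (nat_lit 5) (nat_lit 21) (nat_lit 5) (nat_lit 19) (nat_lit 4) (nat_lit 274) (nat_lit 242) (nat_lit 204)))))) (XT.nd (nat_lit 390) (nat_lit 228) (nat_lit 0) (XT.nd (nat_lit 156) (nat_lit 228) (nat_lit 0) (XT.nd (nat_lit 78) (nat_lit 76) (nat_lit 0) (XT.lf (nat_lit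 0) (nat_lit 8743583677) (nat_lit 76) (nat_lit 12978606448) (nat_lit 152) (nat_lit 3540086588) (nat_lit 17) (nat_lit 5) (nat_lit 18) (nat_lit 5) (nat_lit 19) (nat_lit 4) (nat_lit 275) (nat_lit 242) (nat_lit 203)) (XT.lf (nat_lit 0) (nat_lit 2282517583) (nat_lit 152) (nat_lit 2945273948) (nat_lit 76) (nat_lit 21611558442) (nat_lit 16) (nat_lit 5) (nat_lit 18) (nat_lit 5) (nat_lit 17) (nat_lit 5) (nat_lit 276) (nat_lit 242) (nat_lit 202))) (XT.nd (nat_lit 78) (nat_lit 76) (nat_lit 0) (XT.lf (nat_lit 0) (nat_lit 8630493248) (nat_lit 228) (nat_lit 16644622852) (nat_lit 76) (nat_lit 3255463533) (nat_lit 14) (nat_lit 5) (nat_lit 17) (nat_lit 5) (nat_lit 15) (nat_lit 4) (nat_lit 277) (nat_lit 242) (nat_lit 201)) (XT.nd (nat_lit 78) (nat_lit 76) (nat_lit 0) (XT.lf (nat_lit 0) (nat_lit 15571813023) (nat_lit 228) (nat_lit 2528150183) (nat_lit 76) (nat_lit 12252935620) (nat_lit 14) (nat_lit 5) (nat_lit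 17) (nat_lit 5) (nat_lit 15) (nat_lit 4) (nat_lit 278) (nat_lit 242) (nat_lit 200)) (XT.lf (nat_lit 0) (nat_lit 13048727999) (nat_lit 76) (nat_lit 10172706209) (nat_lit 152) (nat_lit 9091981093) (nat_lit 13) (nat_lit 5) (nat_lit 14) (nat_lit 5) (nat_lit 15) (nat_lit 4) (nat_lit 279) (nat_lit 242) (nat_lit 199))))) (XT.nd (nat_lit 156) (nat_lit 76) (nat_lit 0) (XT.nd (nat_lit 78) (nat_lit 152) (nat_lit 0) (XT.lf (nat_lit 0) (nat_lit 29879244271) (nat_lit 76) (nat_lit 1599553452) (nat_lit 152) (nat_lit 2952243720) (nat_lit 13) (nat_lit 5) (nat_lit 14) (nat_lit 5) (nat_lit 15) (nat_lit 4) (nat_lit 280) (nat_lit 242) (nat_lit 198)) (XT.lf (nat_lit 0) (nat_lit 3819120674) (nat_lit 152) (nat_lit 25258592108) (nat_lit 76) (nat_lit 7624633996) (nat_lit 11) (nat_lit 5) (nat_lit 13) (nat_lit 5) (nat_lit 12) (nat_lit 4) (nat_lit 281) (nat_lit 242) (nat_lit 197))) (XT.nd (nat_lit 78) (nat_lit 76)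 (nat_lit 0) (XT.lf (nat_lit 0) (nat_lit 11093938815) (nat_lit 152) (nat_lit 10424481146) (nat_lit 76) (nat_lit 17631304390) (nat_lit 11) (nat_lit 5) (nat_lit 13) (nat_lit 5) (nat_lit 12) (nat_lit 4) (nat_lit 282) (nat_lit 242) (nat_lit 196)) (XT.nd (nat_lit 78) (nat_lit 0) (nat_lit 0) (XT.lf (nat_lit 0) (nat_lit 5708194045) (nat_lit 76) (nat_lit 13291144695) (nat_lit 152) (nat_lit 22791166653) (nat_lit 10) (nat_lit 5) (nat_lit 11) (nat_lit 5) (nat_lit 12) (nat_lit 4) (nat_lit 283) (nat_lit 242) (nat_lit 195)) (XT.lf (nat_lit 0) (nat_lit 23435955205) (nat_lit 76) (nat_lit 4244222156) (nat_lit 152) (nat_lit 16955261108) (nat_lit 10) (nat_lit 5) (nat_lit 11) (nat_lit 5) (nat_lit 12) (nat_lit 4) (nat_lit 284) (nat_lit 242) (nat_lit 194))))))) (XT.nd (nat_lit 780) (nat_lit 228) (nat_lit 0) (XT.nd (nat_lit 390) (nat_lit 76) (nat_lit 0) (XT.nd (nat_lit 156) (nat_lit 152) (nat_lit 0) (XT.nd (nat_lit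 78) (nat_lit 76) (nat_lit 0) (XT.lf (nat_lit 0) (nat_lit 37105621180) (nat_lit 152) (nat_lit 5276475264) (nat_lit 0) (nat_lit 5323399777) (nat_lit 10) (nat_lit 5) (nat_lit 12) (nat_lit 4) (nat_lit 10) (nat_lit 4) (nat_lit 285) (nat_lit 242) (nat_lit 193)) (XT.lf (nat_lit 0) (nat_lit 12179208692) (nat_lit 76) (nat_lit 35334140832) (nat_lit 76) (nat_lit 3496430815) (nat_lit 9) (nat_lit 4) (nat_lit 10) (nat_lit 5) (nat_lit 10) (nat_lit 4) (nat_lit 286) (nat_lit 242) (nat_lit 192))) (XT.nd (nat_lit 78) (nat_lit 76) (nat_lit 0) (XT.lf (nat_lit 0) (nat_lit 4102643937) (nat_lit 152) (nat_lit 23478668290) (nat_lit 76) (nat_lit 26990816202) (nat_lit 8) (nat_lit 5) (nat_lit 10) (nat_lit 5) (nat_lit 9) (nat_lit 4) (nat_lit 287) (nat_lit 242) (nat_lit 191)) (XT.nd (nat_lit 78) (nat_lit 76) (nat_lit 0) (XT.lf (nat_lit 0) (nat_lit 12158757354) (nat_lit 152) (nat_lit 7011208327) (nat_lit 76) (nat_lit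 39248080152) (nat_lit 8) (nat_lit 5) (nat_lit 10) (nat_lit 5) (nat_lit 9) (nat_lit 4) (nat_lit 288) (nat_lit 242) (nat_lit 190)) (XT.lf (nat_lit 0) (nat_lit 11078565558) (nat_lit 76) (nat_lit 9925958886) (nat_lit 152) (nat_lit 41559879809) (nat_lit 7) (nat_lit 5) (nat_lit 8) (nat_lit 5) (nat_lit 9) (nat_lit 4) (nat_lit 289) (nat_lit 242) (nat_lit 189))))) (XT.nd (nat_lit 156) (nat_lit 76) (nat_lit 0) (XT.nd (nat_lit 78) (nat_lit 0) (nat_lit 0) (XT.lf (nat_lit 0) (nat_lit 30656171239) (nat_lit 152) (nat_lit 36221904119) (nat_lit 0) (nat_lit 159509011) (nat_lit 7) (nat_lit 5) (nat_lit 9) (nat_lit 4) (nat_lit 7) (nat_lit 4) (nat_lit 290) (nat_lit 242) (nat_lit 188)) (XT.lf (nat_lit 0) (nat_lit 41222492414) (nat_lit 152) (nat_lit 19949157632) (nat_lit 0) (nat_lit 10689863883) (nat_lit 7) (nat_lit 5) (nat_lit 9) (nat_lit 4) (nat_lit 7) (nat_lit 4) (nat_lit 291) (nat_lit 242) (nat_lit 187)))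 (XT.nd (nat_lit 78) (nat_lit 76) (nat_lit 0) (XT.lf (nat_lit 0) (nat_lit 52611131168) (nat_lit 152) (nat_lit 2416196109) (nat_lit 0) (nat_lit 22045200506) (nat_lit 7) (nat_lit 5) (nat_lit 9) (nat_lit 4) (nat_lit 7) (nat_lit 4) (nat_lit 292) (nat_lit 242) (nat_lit 186)) (XT.nd (nat_lit 78) (nat_lit 0) (nat_lit 0) (XT.lf (nat_lit 0) (nat_lit 17025811787) (nat_lit 76) (nat_lit 48129584582) (nat_lit 76) (nat_lit 17532818613) (nat_lit 6) (nat_lit 4) (nat_lit 7) (nat_lit 5) (nat_lit 7) (nat_lit 4) (nat_lit 293) (nat_lit 242) (nat_lit 185)) (XT.lf (nat_lit 0) (nat_lit 38072613200) (nat_lit 76) (nat_lit 40652394249) (nat_lit 76) (nat_lit 10027077069) (nat_lit 6) (nat_lit 4) (nat_lit 7) (nat_lit 5) (nat_lit 7) (nat_lit 4) (nat_lit 294) (nat_lit 242) (nat_lit 184)))))) (XT.nd (nat_lit 390) (nat_lit 76) (nat_lit 0) (XT.nd (nat_lit 156) (nat_lit 76) (nat_lit 0) (XT.nd (nat_lit 78) (nat_lit 76) (nat_lit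 0) (XT.lf (nat_lit 0) (nat_lit 60769039562) (nat_lit 76) (nat_lit 32592366453) (nat_lit 76) (nat_lit 1940612967) (nat_lit 6) (nat_lit 4) (nat_lit 7) (nat_lit 5) (nat_lit 7) (nat_lit 4) (nat_lit 295) (nat_lit 242) (nat_lit 183)) (XT.lf (nat_lit 0) (nat_lit 6557667382) (nat_lit 152) (nat_lit 17233013413) (nat_lit 76) (nat_lit 78580863561) (nat_lit 5) (nat_lit 5) (nat_lit 7) (nat_lit 5) (nat_lit 6) (nat_lit 4) (nat_lit 296) (nat_lit 242) (nat_lit 182))) (XT.nd (nat_lit 78) (nat_lit 0) (nat_lit 0) (XT.lf (nat_lit 0) (nat_lit 1434328495) (nat_lit 76) (nat_lit 14240415364) (nat_lit 152) (nat_lit 94329964371) (nat_lit 4) (nat_lit 5) (nat_lit 5) (nat_lit 5) (nat_lit 6) (nat_lit 4) (nat_lit 297) (nat_lit 242) (nat_lit 181)) (XT.nd (nat_lit 78) (nat_lit 0) (nat_lit 0) (XT.lf (nat_lit 0) (nat_lit 22181931896) (nat_lit 76) (nat_lit 3623831179) (nat_lit 152) (nat_lit 92428545625) (nat_lit 4) (nat_lit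 5) (nat_lit 5) (nat_lit 5) (nat_lit 6) (nat_lit 4) (nat_lit 298) (nat_lit 242) (nat_lit 180)) (XT.lf (nat_lit 0) (nat_lit 36855059228) (nat_lit 152) (nat_lit 82682317422) (nat_lit 0) (nat_lit 7579522195) (nat_lit 4) (nat_lit 5) (nat_lit 6) (nat_lit 4) (nat_lit 4) (nat_lit 4) (nat_lit 299) (nat_lit 242) (nat_lit 179))))) (XT.nd (nat_lit 156) (nat_lit 76) (nat_lit 0) (XT.nd (nat_lit 78) (nat_lit 0) (nat_lit 0) (XT.lf (nat_lit 0) (nat_lit 48835846593) (nat_lit 152) (nat_lit 68328708570) (nat_lit 0) (nat_lit 19543174222) (nat_lit 4) (nat_lit 5) (nat_lit 6) (nat_lit 4) (nat_lit 4) (nat_lit 4) (nat_lit 300) (nat_lit 242) (nat_lit 178)) (XT.lf (nat_lit 0) (nat_lit 61762544270) (nat_lit 152) (nat_lit 52849913666) (nat_lit 0) (nat_lit 32454005844) (nat_lit 4) (nat_lit 5) (nat_lit 6) (nat_lit 4) (nat_lit 4) (nat_lit 4) (nat_lit 301) (nat_lit 242) (nat_lit 177))) (XT.nd (nat_lit 78) (nat_lit 76)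 (nat_lit 0) (XT.lf (nat_lit 0) (nat_lit 75711754910) (nat_lit 152) (nat_lit 36154206519) (nat_lit 0) (nat_lit 46388525693) (nat_lit 4) (nat_lit 5) (nat_lit 6) (nat_lit 4) (nat_lit 4) (nat_lit 4) (nat_lit 302) (nat_lit 242) (nat_lit 176)) (XT.nd (nat_lit 78) (nat_lit 76) (nat_lit 0) (XT.lf (nat_lit 0) (nat_lit 90766140504) (nat_lit 152) (nat_lit 18142649605) (nat_lit 0) (nat_lit 61429308703) (nat_lit 4) (nat_lit 5) (nat_lit 6) (nat_lit 4) (nat_lit 4) (nat_lit 4) (nat_lit 303) (nat_lit 242) (nat_lit 175)) (XT.lf (nat_lit 0) (nat_lit 1334194793) (nat_lit 76) (nat_lit 105701547951) (nat_lit 76) (nat_lit 76352121164) (nat_lit 3) (nat_lit 4) (nat_lit 4) (nat_lit 5) (nat_lit 4) (nat_lit 4) (nat_lit 304) (nat_lit 242) (nat_lit 174))))))))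
noncomputable def xc54 : XT := (XT.nd (nat_lit 1482) (nat_lit 0) (nat_lit 0) (XT.nd (nat_lit 702) (nat_lit 152) (nat_lit 0) (XT.nd (nat_lit 312) (nat_lit 0) (nat_lit 0) (XT.nd (nat_lit 156) (nat_lit 0) (nat_lit 0) (XT.nd (nat_lit 78) (nat_lit 0) (nat_lit 0) (XT.lf (nat_lit 0) (nat_lit 22999512293) (nat_lit 76) (nat_lit 101913933639) (nat_lit 76) (nat_lit 72552844828) (nat_lit 3) (nat_lit 4) (nat_lit 4) (nat_lit 5) (nat_lit 4) (nat_lit 4) (nat_lit 305) (nat_lit 242) (nat_lit 173)) (XT.lf (nat_lit 0) (nat_lit 46381812031) (nat_lit 76) (nat_lit 97830756601) (nat_lit 76) (nat_lit 68458869621) (nat_lit 3) (nat_lit 4) (nat_lit 4) (nat_lit 5) (nat_lit 4) (nat_lit 4) (nat_lit 306) (nat_lit 242) (nat_lit 172))) (XT.nd (nat_lit 78) (nat_lit 0) (nat_lit 0) (XT.lf (nat_lit 0) (nat_lit 71619655783) (nat_lit 76) (nat_lit 93427820233) (nat_lit 76) (nat_lit 64045934948) (nat_lit 3) (nat_lit 4) (nat_lit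 4) (nat_lit 5) (nat_lit 4) (nat_lit 4) (nat_lit 307) (nat_lit 242) (nat_lit 171)) (XT.lf (nat_lit 0) (nat_lit 98862601141) (nat_lit 76) (nat_lit 88679033061) (nat_lit 76) (nat_lit 59287890085) (nat_lit 3) (nat_lit 4) (nat_lit 4) (nat_lit 5) (nat_lit 4) (nat_lit 4) (nat_lit 308) (nat_lit 242) (nat_lit 170)))) (XT.nd (nat_lit 156) (nat_lit 0) (nat_lit 0) (XT.nd (nat_lit 78) (nat_lit 0) (nat_lit 0) (XT.lf (nat_lit 0) (nat_lit 128272087782) (nat_lit 76) (nat_lit 83556254122) (nat_lit 76) (nat_lit 54156539211) (nat_lit 3) (nat_lit 4) (nat_lit 4) (nat_lit 5) (nat_lit 4) (nat_lit 4) (nat_lit 309) (nat_lit 242) (nat_lit 169)) (XT.lf (nat_lit 0) (nat_lit 160022394144) (nat_lit 76) (nat_lit 78029126209) (nat_lit 76) (nat_lit 48621474321) (nat_lit 3) (nat_lit 4) (nat_lit 4) (nat_lit 5) (nat_lit 4) (nat_lit 4) (nat_lit 310) (nat_lit 242) (nat_lit 168))) (XT.nd (nat_lit 78) (nat_lit 0) (nat_lit 0)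 (XT.lf (nat_lit 0) (nat_lit 194301670192) (nat_lit 76) (nat_lit 72064895972) (nat_lit 76) (nat_lit 42649895030) (nat_lit 3) (nat_lit 4) (nat_lit 4) (nat_lit 5) (nat_lit 4) (nat_lit 4) (nat_lit 311) (nat_lit 242) (nat_lit 167)) (XT.nd (nat_lit 78) (nat_lit 0) (nat_lit 0) (XT.lf (nat_lit 0) (nat_lit 231313052376) (nat_lit 76) (nat_lit 65628219822) (nat_lit 76) (nat_lit 36206414202) (nat_lit 3) (nat_lit 4) (nat_lit 4) (nat_lit 5) (nat_lit 4) (nat_lit 4) (nat_lit 312) (nat_lit 242) (nat_lit 166)) (XT.lf (nat_lit 0) (nat_lit 271275867405) (nat_lit 76) (nat_lit 58680954495) (nat_lit 76) (nat_lit 29252848246) (nat_lit 3) (nat_lit 4) (nat_lit 4) (nat_lit 5) (nat_lit 4) (nat_lit 4) (nat_lit 313) (nat_lit 242) (nat_lit 165)))))) (XT.nd (nat_lit 390) (nat_lit 76) (nat_lit 0) (XT.nd (nat_lit 156) (nat_lit 76) (nat_lit 0) (XT.nd (nat_lit 78) (nat_lit 0) (nat_lit 0) (XT.lf (nat_lit 0) (nat_lit 314426931961)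 (nat_lit 76) (nat_lit 51181931011) (nat_lit 76) (nat_lit 21747990846) (nat_lit 3) (nat_lit 4) (nat_lit 4) (nat_lit 5) (nat_lit 4) (nat_lit 4) (nat_lit 314) (nat_lit 242) (nat_lit 164)) (XT.lf (nat_lit 0) (nat_lit 361021956057) (nat_lit 76) (nat_lit 43086710711) (nat_lit 76) (nat_lit 13647368773) (nat_lit 3) (nat_lit 4) (nat_lit 4) (nat_lit 5) (nat_lit 4) (nat_lit 4) (nat_lit 315) (nat_lit 242) (nat_lit 163))) (XT.nd (nat_lit 78) (nat_lit 76) (nat_lit 0) (XT.lf (nat_lit 0) (nat_lit 411337058353) (nat_lit 76) (nat_lit 34347321921) (nat_lit 76) (nat_lit 4902978341) (nat_lit 3) (nat_lit 4) (nat_lit 4) (nat_lit 5) (nat_lit 4) (nat_lit 4) (nat_lit 316) (nat_lit 242) (nat_lit 162)) (XT.nd (nat_lit 78) (nat_lit 0) (nat_lit 0) (XT.lf (nat_lit 0) (nat_lit 4391786756) (nat_lit 152) (nat_lit 20445811878) (nat_lit 76) (nat_lit 461204238628) (nat_lit 2) (nat_lit 5) (nat_lit 4) (nat_lit 5) (nat_lit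 3) (nat_lit 4) (nat_lit 317) (nat_lit 242) (nat_lit 161)) (XT.lf (nat_lit 0) (nat_lit 14257099928) (nat_lit 152) (nat_lit 226207978) (nat_lit 76) (nat_lit 509845412812) (nat_lit 2) (nat_lit 5) (nat_lit 4) (nat_lit 5) (nat_lit 3) (nat_lit 4) (nat_lit 318) (nat_lit 242) (nat_lit 160))))) (XT.nd (nat_lit 156) (nat_lit 0) (nat_lit 0) (XT.nd (nat_lit 78) (nat_lit 0) (nat_lit 0) (XT.lf (nat_lit 0) (nat_lit 22319235467) (nat_lit 76) (nat_lit 2937578563) (nat_lit 152) (nat_lit 540404484356) (nat_lit 1) (nat_lit 5) (nat_lit 2) (nat_lit 5) (nat_lit 3) (nat_lit 4) (nat_lit 319) (nat_lit 242) (nat_lit 159)) (XT.lf (nat_lit 0) (nat_lit 37286149537) (nat_lit 152) (nat_lit 563778712329) (nat_lit 0) (nat_lit 9228140345) (nat_lit 1) (nat_lit 5) (nat_lit 3) (nat_lit 4) (nat_lit 1) (nat_lit 4) (nat_lit 320) (nat_lit 242) (nat_lit 158))) (XT.nd (nat_lit 78) (nat_lit 0) (nat_lit 0) (XT.lf (nat_lit 0) (nat_lit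 50324421333) (nat_lit 152) (nat_lit 585905323331) (nat_lit 0) (nat_lit 22263170204) (nat_lit 1) (nat_lit 5) (nat_lit 3) (nat_lit 4) (nat_lit 1) (nat_lit 4) (nat_lit 321) (nat_lit 242) (nat_lit 157)) (XT.nd (nat_lit 78) (nat_lit 0) (nat_lit 0) (XT.lf (nat_lit 0) (nat_lit 64403029418) (nat_lit 152) (nat_lit 609807152748) (nat_lit 0) (nat_lit 36338776495) (nat_lit 1) (nat_lit 5) (nat_lit 3) (nat_lit 4) (nat_lit 1) (nat_lit 4) (nat_lit 322) (nat_lit 242) (nat_lit 156)) (XT.lf (nat_lit 0) (nat_lit 79605402579) (nat_lit 152) (nat_lit 635625841052) (nat_lit 0) (nat_lit 51538370218) (nat_lit 1) (nat_lit 5) (nat_lit 3) (nat_lit 4) (nat_lit 1) (nat_lit 4) (nat_lit 323) (nat_lit 242) (nat_lit 155))))))) (XT.nd (nat_lit 31824) (nat_lit 0) (nat_lit 3268) (XT.nd (nat_lit 31434) (nat_lit 0) (nat_lit 6688) (XT.nd (nat_lit 31278) (nat_lit 0) (nat_lit 8056) (XT.nd (nat_lit 31200) (nat_lit 0) (nat_lit 8436)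 (XT.lf (nat_lit 0) (nat_lit 96021628954) (nat_lit 152) (nat_lit 663514387876) (nat_lit 0) (nat_lit 67952023039) (nat_lit 1) (nat_lit 5) (nat_lit 3) (nat_lit 4) (nat_lit 1) (nat_lit 4) (nat_lit 324) (nat_lit 242) (nat_lit 154)) (XT.lf (nat_lit 0) (nat_lit 1835383217) (nat_lit 380) (nat_lit 759874748) (nat_lit 380) (nat_lit 759874748) (nat_lit 112) (nat_lit 3) (nat_lit 117) (nat_lit 3) (nat_lit 117) (nat_lit 5) (nat_lit 243) (nat_lit 243) (nat_lit 234))) (XT.nd (nat_lit 78) (nat_lit 0) (nat_lit 0) (XT.lf (nat_lit 0) (nat_lit 113717041) (nat_lit 380) (nat_lit 3451858993) (nat_lit 456) (nat_lit 3244186200) (nat_lit 107) (nat_lit 5) (nat_lit 112) (nat_lit 3) (nat_lit 113) (nat_lit 5) (nat_lit 244) (nat_lit 243) (nat_lit 233)) (XT.lf (nat_lit 76) (nat_lit 1584921507) (nat_lit 0) (nat_lit 1566031277) (nat_lit 456) (nat_lit 3778132673) (nat_lit 108) (nat_lit 5) (nat_lit 107) (nat_lit 5) (nat_lit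 113) (nat_lit 5) (nat_lit 245) (nat_lit 243) (nat_lit 232)))) (XT.nd (nat_lit 156) (nat_lit 988) (nat_lit 0) (XT.nd (nat_lit 78) (nat_lit 456) (nat_lit 0) (XT.lf (nat_lit 0) (nat_lit 6209312604) (nat_lit 380) (nat_lit 105621894) (nat_lit 456) (nat_lit 755289308) (nat_lit 108) (nat_lit 5) (nat_lit 113) (nat_lit 5) (nat_lit 114) (nat_lit 5) (nat_lit 246) (nat_lit 243) (nat_lit 231)) (XT.lf (nat_lit 0) (nat_lit 2054888747) (nat_lit 456) (nat_lit 1736627816) (nat_lit 532) (nat_lit 3438462485) (nat_lit 102) (nat_lit 5) (nat_lit 108) (nat_lit 5) (nat_lit 109) (nat_lit 5) (nat_lit 247) (nat_lit 243) (nat_lit 230))) (XT.nd (nat_lit 78) (nat_lit 988) (nat_lit 0) (XT.lf (nat_lit 76) (nat_lit 4081370865) (nat_lit 0) (nat_lit 900139110) (nat_lit 532) (nat_lit 2430873749) (nat_lit 103) (nat_lit 5) (nat_lit 102) (nat_lit 5) (nat_lit 109) (nat_lit 5) (nat_lit 248) (nat_lit 243) (nat_lit 229)) (XT.nd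 (nat_lit 78) (nat_lit 532) (nat_lit 0) (XT.lf (nat_lit 0) (nat_lit 379542987) (nat_lit 532) (nat_lit 4936054786) (nat_lit 76) (nat_lit 2301028232) (nat_lit 96) (nat_lit 5) (nat_lit 103) (nat_lit 5) (nat_lit 97) (nat_lit 5) (nat_lit 249) (nat_lit 243) (nat_lit 228)) (XT.lf (nat_lit 0) (nat_lit 1257650387) (nat_lit 532) (nat_lit 1936869755) (nat_lit 608) (nat_lit 4648234736) (nat_lit 89) (nat_lit 5) (nat_lit 96) (nat_lit 5) (nat_lit 97) (nat_lit 5) (nat_lit 250) (nat_lit 243) (nat_lit 227)))))) (XT.nd (nat_lit 390) (nat_lit 1216) (nat_lit 0) (XT.nd (nat_lit 156) (nat_lit 1520) (nat_lit 0) (XT.nd (nat_lit 78) (nat_lit 684) (nat_lit 0) (XT.lf (nat_lit 0) (nat_lit 6133720746) (nat_lit 608) (nat_lit 175091041) (nat_lit 76) (nat_lit 1783937292) (nat_lit 89) (nat_lit 5) (nat_lit 97) (nat_lit 5) (nat_lit 90) (nat_lit 5) (nat_lit 251) (nat_lit 243) (nat_lit 226)) (XT.lf (nat_lit 0) (nat_lit 852410288)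 (nat_lit 684) (nat_lit 1622367128) (nat_lit 76) (nat_lit 5891000325) (nat_lit 80) (nat_lit 5) (nat_lit 89) (nat_lit 5) (nat_lit 81) (nat_lit 5) (nat_lit 252) (nat_lit 243) (nat_lit 225))) (XT.nd (nat_lit 78) (nat_lit 836) (nat_lit 0) (XT.lf (nat_lit 0) (nat_lit 3748145666) (nat_lit 760) (nat_lit 3160681937) (nat_lit 76) (nat_lit 1754407527) (nat_lit 71) (nat_lit 5) (nat_lit 81) (nat_lit 5) (nat_lit 72) (nat_lit 5) (nat_lit 253) (nat_lit 243) (nat_lit 224)) (XT.nd (nat_lit 78) (nat_lit 456) (nat_lit 0) (XT.lf (nat_lit 0) (nat_lit 4189135237) (nat_lit 380) (nat_lit 2643347053) (nat_lit 456) (nat_lit 2154708790) (nat_lit 66) (nat_lit 5) (nat_lit 71) (nat_lit 5) (nat_lit 72) (nat_lit 5) (nat_lit 254) (nat_lit 243) (nat_lit 223)) (XT.lf (nat_lit 0) (nat_lit 760789752) (nat_lit 456) (nat_lit 6565021619) (nat_lit 76) (nat_lit 2013054109) (nat_lit 60) (nat_lit 5) (nat_lit 66) (nat_lit 5) (nat_lit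 61) (nat_lit 5) (nat_lit 255) (nat_lit 243) (nat_lit 222))))) (XT.nd (nat_lit 156) (nat_lit 912) (nat_lit 0) (XT.nd (nat_lit 78) (nat_lit 0) (nat_lit 0) (XT.lf (nat_lit 0) (nat_lit 1189614790) (nat_lit 304) (nat_lit 2632038845) (nat_lit 380) (nat_lit 5896321584) (nat_lit 56) (nat_lit 5) (nat_lit 60) (nat_lit 5) (nat_lit 61) (nat_lit 5) (nat_lit 256) (nat_lit 243) (nat_lit 221)) (XT.lf (nat_lit 0) (nat_lit 7129308984) (nat_lit 380) (nat_lit 537295501) (nat_lit 76) (nat_lit 2461128264) (nat_lit 56) (nat_lit 5) (nat_lit 61) (nat_lit 5) (nat_lit 57) (nat_lit 5) (nat_lit 257) (nat_lit 243) (nat_lit 220))) (XT.nd (nat_lit 78) (nat_lit 532) (nat_lit 0) (XT.lf (nat_lit 0) (nat_lit 157743472) (nat_lit 380) (nat_lit 2424011026) (nat_lit 76) (nat_lit 7987247946) (nat_lit 51) (nat_lit 5) (nat_lit 56) (nat_lit 5) (nat_lit 52) (nat_lit 5) (nat_lit 258) (nat_lit 243) (nat_lit 219)) (XT.nd (nat_lit 78)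 (nat_lit 304) (nat_lit 0) (XT.lf (nat_lit 0) (nat_lit 3485787632) (nat_lit 304) (nat_lit 4598837126) (nat_lit 76) (nat_lit 2957608506) (nat_lit 48) (nat_lit 5) (nat_lit 52) (nat_lit 5) (nat_lit 49) (nat_lit 5) (nat_lit 259) (nat_lit 243) (nat_lit 218)) (XT.lf (nat_lit 0) (nat_lit 4496263012) (nat_lit 304) (nat_lit 2612166030) (nat_lit 380) (nat_lit 4443789671) (nat_lit 44) (nat_lit 5) (nat_lit 48) (nat_lit 5) (nat_lit 49) (nat_lit 5) (nat_lit 260) (nat_lit 243) (nat_lit 217))))))))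
noncomputable def xc55 : XT := (XT.nd (nat_lit 1482) (nat_lit 760) (nat_lit 0) (XT.nd (nat_lit 702) (nat_lit 760) (nat_lit 0) (XT.nd (nat_lit 312) (nat_lit 836) (nat_lit 0) (XT.nd (nat_lit 156) (nat_lit 380) (nat_lit 0) (XT.nd (nat_lit 78) (nat_lit 76) (nat_lit 0) (XT.lf (nat_lit 0) (nat_lit 2245331986) (nat_lit 228) (nat_lit 8821871646) (nat_lit 304) (nat_lit 1033773877) (nat_lit 41) (nat_lit 5) (nat_lit 44) (nat_lit 5) (nat_lit 45) (nat_lit 5) (nat_lit 261) (nat_lit 243) (nat_lit 216)) (XT.lf (nat_lit 0) (nat_lit 2616086631) (nat_lit 304) (nat_lit 387412607) (nat_lit 76) (nat_lit 9685734615) (nat_lit 40) (nat_lit 5) (nat_lit 44) (nat_lit 5) (nat_lit 41) (nat_lit 5) (nat_lit 262) (nat_lit 243) (nat_lit 215))) (XT.nd (nat_lit 78) (nat_lit 152) (nat_lit 0) (XT.lf (nat_lit 0) (nat_lit 6623330234) (nat_lit 304) (nat_lit 3377921634) (nat_lit 76) (nat_lit 3317608129) (nat_lit 37) (nat_lit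 5) (nat_lit 41) (nat_lit 5) (nat_lit 38) (nat_lit 5) (nat_lit 263) (nat_lit 243) (nat_lit 214)) (XT.lf (nat_lit 0) (nat_lit 7146600098) (nat_lit 152) (nat_lit 3870514761) (nat_lit 228) (nat_lit 2978663001) (nat_lit 35) (nat_lit 5) (nat_lit 37) (nat_lit 5) (nat_lit 38) (nat_lit 5) (nat_lit 264) (nat_lit 243) (nat_lit 213)))) (XT.nd (nat_lit 156) (nat_lit 532) (nat_lit 0) (XT.nd (nat_lit 78) (nat_lit 0) (nat_lit 0) (XT.lf (nat_lit 0) (nat_lit 1067902307) (nat_lit 304) (nat_lit 10892532972) (nat_lit 76) (nat_lit 2762524553) (nat_lit 31) (nat_lit 5) (nat_lit 35) (nat_lit 5) (nat_lit 32) (nat_lit 5) (nat_lit 265) (nat_lit 243) (nat_lit 212)) (XT.lf (nat_lit 0) (nat_lit 5427019343) (nat_lit 304) (nat_lit 148572883) (nat_lit 76) (nat_lit 9925802783) (nat_lit 31) (nat_lit 5) (nat_lit 35) (nat_lit 5) (nat_lit 32) (nat_lit 5) (nat_lit 266) (nat_lit 243) (nat_lit 211))) (XT.nd (nat_lit 78) (nat_lit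 380) (nat_lit 0) (XT.lf (nat_lit 0) (nat_lit 10252826406) (nat_lit 228) (nat_lit 4658621390) (nat_lit 76) (nat_lit 1424925275) (nat_lit 29) (nat_lit 5) (nat_lit 32) (nat_lit 5) (nat_lit 30) (nat_lit 5) (nat_lit 267) (nat_lit 243) (nat_lit 210)) (XT.nd (nat_lit 78) (nat_lit 228) (nat_lit 0) (XT.lf (nat_lit 0) (nat_lit 7229072394) (nat_lit 152) (nat_lit 8361401540) (nat_lit 228) (nat_lit 1641540447) (nat_lit 27) (nat_lit 5) (nat_lit 29) (nat_lit 5) (nat_lit 30) (nat_lit 5) (nat_lit 268) (nat_lit 243) (nat_lit 209)) (XT.lf (nat_lit 0) (nat_lit 1926902119) (nat_lit 152) (nat_lit 1159633048) (nat_lit 228) (nat_lit 15108858138) (nat_lit 24) (nat_lit 5) (nat_lit 26) (nat_lit 5) (nat_lit 27) (nat_lit 5) (nat_lit 269) (nat_lit 243) (nat_lit 208)))))) (XT.nd (nat_lit 390) (nat_lit 304) (nat_lit 0) (XT.nd (nat_lit 156) (nat_lit 304) (nat_lit 0) (XT.nd (nat_lit 78) (nat_lit 152) (nat_lit 0) (XT.lf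 (nat_lit 0) (nat_lit 8339206192) (nat_lit 228) (nat_lit 4313691821) (nat_lit 76) (nat_lit 6571531538) (nat_lit 24) (nat_lit 5) (nat_lit 27) (nat_lit 5) (nat_lit 25) (nat_lit 5) (nat_lit 270) (nat_lit 243) (nat_lit 207)) (XT.lf (nat_lit 0) (nat_lit 8745791797) (nat_lit 152) (nat_lit 5350788720) (nat_lit 228) (nat_lit 6235099974) (nat_lit 22) (nat_lit 5) (nat_lit 24) (nat_lit 5) (nat_lit 25) (nat_lit 5) (nat_lit 271) (nat_lit 243) (nat_lit 206))) (XT.nd (nat_lit 78) (nat_lit 228) (nat_lit 0) (XT.lf (nat_lit 0) (nat_lit 1373368449) (nat_lit 76) (nat_lit 19009986448) (nat_lit 152) (nat_lit 1140823769) (nat_lit 21) (nat_lit 5) (nat_lit 22) (nat_lit 5) (nat_lit 23) (nat_lit 4) (nat_lit 272) (nat_lit 243) (nat_lit 205)) (XT.nd (nat_lit 78) (nat_lit 152) (nat_lit 0) (XT.lf (nat_lit 0) (nat_lit 4450447211) (nat_lit 152) (nat_lit 7288104766) (nat_lit 76) (nat_lit 11058763705) (nat_lit 20) (nat_lit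 5) (nat_lit 22) (nat_lit 5) (nat_lit 21) (nat_lit 5) (nat_lit 273) (nat_lit 243) (nat_lit 204)) (XT.lf (nat_lit 0) (nat_lit 6699172401) (nat_lit 152) (nat_lit 3793598777) (nat_lit 228) (nat_lit 13676499278) (nat_lit 18) (nat_lit 5) (nat_lit 20) (nat_lit 5) (nat_lit 21) (nat_lit 5) (nat_lit 274) (nat_lit 243) (nat_lit 203))))) (XT.nd (nat_lit 156) (nat_lit 228) (nat_lit 0) (XT.nd (nat_lit 78) (nat_lit 76) (nat_lit 0) (XT.lf (nat_lit 0) (nat_lit 17163331086) (nat_lit 228) (nat_lit 3753481243) (nat_lit 76) (nat_lit 4727008179) (nat_lit 18) (nat_lit 5) (nat_lit 21) (nat_lit 5) (nat_lit 19) (nat_lit 4) (nat_lit 275) (nat_lit 243) (nat_lit 202)) (XT.lf (nat_lit 0) (nat_lit 11266622391) (nat_lit 76) (nat_lit 13286225625) (nat_lit 152) (nat_lit 2674296304) (nat_lit 17) (nat_lit 5) (nat_lit 18) (nat_lit 5) (nat_lit 19) (nat_lit 4) (nat_lit 276) (nat_lit 243) (nat_lit 201))) (XT.nd (nat_lit 78)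 (nat_lit 152) (nat_lit 0) (XT.lf (nat_lit 0) (nat_lit 3494954290) (nat_lit 152) (nat_lit 1457074119) (nat_lit 76) (nat_lit 23981681150) (nat_lit 16) (nat_lit 5) (nat_lit 18) (nat_lit 5) (nat_lit 17) (nat_lit 5) (nat_lit 277) (nat_lit 243) (nat_lit 200)) (XT.nd (nat_lit 78) (nat_lit 0) (nat_lit 0) (XT.lf (nat_lit 0) (nat_lit 10310682474) (nat_lit 228) (nat_lit 16287575275) (nat_lit 76) (nat_lit 4164080168) (nat_lit 14) (nat_lit 5) (nat_lit 17) (nat_lit 5) (nat_lit 15) (nat_lit 4) (nat_lit 278) (nat_lit 243) (nat_lit 199)) (XT.lf (nat_lit 0) (nat_lit 17733993033) (nat_lit 228) (nat_lit 1166867564) (nat_lit 76) (nat_lit 13833336722) (nat_lit 14) (nat_lit 5) (nat_lit 17) (nat_lit 5) (nat_lit 15) (nat_lit 4) (nat_lit 279) (nat_lit 243) (nat_lit 198))))))) (XT.nd (nat_lit 780) (nat_lit 304) (nat_lit 0) (XT.nd (nat_lit 390) (nat_lit 152) (nat_lit 0) (XT.nd (nat_lit 156) (nat_lit 228) (nat_lit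 0) (XT.nd (nat_lit 78) (nat_lit 0) (nat_lit 0) (XT.lf (nat_lit 0) (nat_lit 15588211563) (nat_lit 76) (nat_lit 10362838557) (nat_lit 152) (nat_lit 8902814027) (nat_lit 13) (nat_lit 5) (nat_lit 14) (nat_lit 5) (nat_lit 15) (nat_lit 4) (nat_lit 280) (nat_lit 243) (nat_lit 197)) (XT.lf (nat_lit 0) (nat_lit 33654385039) (nat_lit 76) (nat_lit 1150032405) (nat_lit 152) (nat_lit 2339788446) (nat_lit 13) (nat_lit 5) (nat_lit 14) (nat_lit 5) (nat_lit 15) (nat_lit 4) (nat_lit 281) (nat_lit 243) (nat_lit 196))) (XT.nd (nat_lit 78) (nat_lit 76) (nat_lit 0) (XT.lf (nat_lit 0) (nat_lit 4915269162) (nat_lit 152) (nat_lit 25896779274) (nat_lit 76) (nat_lit 8786114690) (nat_lit 11) (nat_lit 5) (nat_lit 13) (nat_lit 5) (nat_lit 12) (nat_lit 4) (nat_lit 282) (nat_lit 243) (nat_lit 195)) (XT.nd (nat_lit 78) (nat_lit 76) (nat_lit 0) (XT.lf (nat_lit 0) (nat_lit 12713508396) (nat_lit 152) (nat_lit 9978346858)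 (nat_lit 76) (nat_lit 19552466124) (nat_lit 11) (nat_lit 5) (nat_lit 13) (nat_lit 5) (nat_lit 12) (nat_lit 4) (nat_lit 283) (nat_lit 243) (nat_lit 194)) (XT.lf (nat_lit 0) (nat_lit 7389311076) (nat_lit 76) (nat_lit 13826920257) (nat_lit 152) (nat_lit 23881946663) (nat_lit 10) (nat_lit 5) (nat_lit 11) (nat_lit 5) (nat_lit 12) (nat_lit 4) (nat_lit 284) (nat_lit 243) (nat_lit 193))))) (XT.nd (nat_lit 156) (nat_lit 152) (nat_lit 0) (XT.nd (nat_lit 78) (nat_lit 0) (nat_lit 0) (XT.lf (nat_lit 0) (nat_lit 26444592277) (nat_lit 76) (nat_lit 4095319175) (nat_lit 152) (nat_lit 17633428921) (nat_lit 10) (nat_lit 5) (nat_lit 11) (nat_lit 5) (nat_lit 12) (nat_lit 4) (nat_lit 285) (nat_lit 243) (nat_lit 192)) (XT.lf (nat_lit 0) (nat_lit 40678650348) (nat_lit 152) (nat_lit 4625382267) (nat_lit 0) (nat_lit 6187056573) (nat_lit 10) (nat_lit 5) (nat_lit 12) (nat_lit 4) (nat_lit 10) (nat_lit 4) (nat_lit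 286) (nat_lit 243) (nat_lit 191))) (XT.nd (nat_lit 78) (nat_lit 76) (nat_lit 0) (XT.lf (nat_lit 0) (nat_lit 14180115963) (nat_lit 76) (nat_lit 37710124975) (nat_lit 76) (nat_lit 3170958658) (nat_lit 9) (nat_lit 4) (nat_lit 10) (nat_lit 5) (nat_lit 10) (nat_lit 4) (nat_lit 287) (nat_lit 243) (nat_lit 190)) (XT.nd (nat_lit 78) (nat_lit 0) (nat_lit 0) (XT.lf (nat_lit 0) (nat_lit 4973278481) (nat_lit 152) (nat_lit 24387994080) (nat_lit 76) (nat_lit 29549000584) (nat_lit 8) (nat_lit 5) (nat_lit 10) (nat_lit 5) (nat_lit 9) (nat_lit 4) (nat_lit 288) (nat_lit 243) (nat_lit 189)) (XT.lf (nat_lit 0) (nat_lit 13633701488) (nat_lit 152) (nat_lit 6674912703) (nat_lit 76) (nat_lit 42757296088) (nat_lit 8) (nat_lit 5) (nat_lit 10) (nat_lit 5) (nat_lit 9) (nat_lit 4) (nat_lit 289) (nat_lit 243) (nat_lit 188)))))) (XT.nd (nat_lit 390) (nat_lit 152) (nat_lit 0) (XT.nd (nat_lit 156) (nat_lit 76) (nat_lit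 0) (XT.nd (nat_lit 78) (nat_lit 0) (nat_lit 0) (XT.lf (nat_lit 0) (nat_lit 12823052209) (nat_lit 76) (nat_lit 10340273439) (nat_lit 152) (nat_lit 44381876534) (nat_lit 7) (nat_lit 5) (nat_lit 8) (nat_lit 5) (nat_lit 9) (nat_lit 4) (nat_lit 290) (nat_lit 243) (nat_lit 187)) (XT.lf (nat_lit 0) (nat_lit 33557154198) (nat_lit 152) (nat_lit 38307965091) (nat_lit 0) (nat_lit 512646951) (nat_lit 7) (nat_lit 5) (nat_lit 9) (nat_lit 4) (nat_lit 7) (nat_lit 4) (nat_lit 291) (nat_lit 243) (nat_lit 186))) (XT.nd (nat_lit 78) (nat_lit 76) (nat_lit 0) (XT.lf (nat_lit 0) (nat_lit 44935559640) (nat_lit 152) (nat_lit 20793524171) (nat_lit 0) (nat_lit 11860217086) (nat_lit 7) (nat_lit 5) (nat_lit 9) (nat_lit 4) (nat_lit 7) (nat_lit 4) (nat_lit 292) (nat_lit 243) (nat_lit 185)) (XT.nd (nat_lit 78) (nat_lit 76) (nat_lit 0) (XT.lf (nat_lit 0) (nat_lit 57204528915) (nat_lit 152) (nat_lit 1913597287) (nat_lit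 0) (nat_lit 24100635150) (nat_lit 7) (nat_lit 5) (nat_lit 9) (nat_lit 4) (nat_lit 7) (nat_lit 4) (nat_lit 293) (nat_lit 243) (nat_lit 184)) (XT.lf (nat_lit 0) (nat_lit 19053528513) (nat_lit 76) (nat_lit 51680717490) (nat_lit 76) (nat_lit 18550387419) (nat_lit 6) (nat_lit 4) (nat_lit 7) (nat_lit 5) (nat_lit 7) (nat_lit 4) (nat_lit 294) (nat_lit 243) (nat_lit 183))))) (XT.nd (nat_lit 156) (nat_lit 152) (nat_lit 0) (XT.nd (nat_lit 78) (nat_lit 0) (nat_lit 0) (XT.lf (nat_lit 0) (nat_lit 41734766500) (nat_lit 76) (nat_lit 43627517401) (nat_lit 76) (nat_lit 10472709270) (nat_lit 6) (nat_lit 4) (nat_lit 7) (nat_lit 5) (nat_lit 7) (nat_lit 4) (nat_lit 295) (nat_lit 243) (nat_lit 182)) (XT.lf (nat_lit 0) (nat_lit 66201251842) (nat_lit 76) (nat_lit 34943210966) (nat_lit 76) (nat_lit 1765737962) (nat_lit 6) (nat_lit 4) (nat_lit 7) (nat_lit 5) (nat_lit 7) (nat_lit 4) (nat_lit 296) (nat_lit 243) (nat_lit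 181))) (XT.nd (nat_lit 78) (nat_lit 76) (nat_lit 0) (XT.lf (nat_lit 0) (nat_lit 7378167819) (nat_lit 152) (nat_lit 18073214964) (nat_lit 76) (nat_lit 85094850455) (nat_lit 5) (nat_lit 5) (nat_lit 7) (nat_lit 5) (nat_lit 6) (nat_lit 4) (nat_lit 297) (nat_lit 243) (nat_lit 180)) (XT.nd (nat_lit 78) (nat_lit 0) (nat_lit 0) (XT.lf (nat_lit 0) (nat_lit 2064114372) (nat_lit 76) (nat_lit 15146619696) (nat_lit 152) (nat_lit 101580027773) (nat_lit 4) (nat_lit 5) (nat_lit 5) (nat_lit 5) (nat_lit 6) (nat_lit 4) (nat_lit 298) (nat_lit 243) (nat_lit 179)) (XT.lf (nat_lit 0) (nat_lit 24433374964) (nat_lit 76) (nat_lit 3697970176) (nat_lit 152) (nat_lit 99548446176) (nat_lit 4) (nat_lit 5) (nat_lit 5) (nat_lit 5) (nat_lit 6) (nat_lit 4) (nat_lit 299) (nat_lit 243) (nat_lit 178))))))))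
noncomputable def xc56 : XT := (XT.nd (nat_lit 1482) (nat_lit 76) (nat_lit 0) (XT.nd (nat_lit 702) (nat_lit 76) (nat_lit 0) (XT.nd (nat_lit 312) (nat_lit 76) (nat_lit 0) (XT.nd (nat_lit 156) (nat_lit 0) (nat_lit 0) (XT.nd (nat_lit 78) (nat_lit 0) (nat_lit 0) (XT.lf (nat_lit 0) (nat_lit 40048361886) (nat_lit 152) (nat_lit 88846178869) (nat_lit 0) (nat_lit 8379274332) (nat_lit 4) (nat_lit 5) (nat_lit 6) (nat_lit 4) (nat_lit 4) (nat_lit 4) (nat_lit 300) (nat_lit 243) (nat_lit 177)) (XT.lf (nat_lit 0) (nat_lit 52969471654) (nat_lit 152) (nat_lit 73377668268) (nat_lit 0) (nat_lit 21285693309) (nat_lit 4) (nat_lit 5) (nat_lit 6) (nat_lit 4) (nat_lit 4) (nat_lit 4) (nat_lit 301) (nat_lit 243) (nat_lit 176))) (XT.nd (nat_lit 78) (nat_lit 0) (nat_lit 0) (XT.lf (nat_lit 0) (nat_lit 66913508305) (nat_lit 152) (nat_lit 56691483624) (nat_lit 0) (nat_lit 35216127376) (nat_lit 4) (nat_lit 5) (nat_lit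 6) (nat_lit 4) (nat_lit 4) (nat_lit 4) (nat_lit 302) (nat_lit 243) (nat_lit 175)) (XT.lf (nat_lit 0) (nat_lit 81963103168) (nat_lit 152) (nat_lit 38688743841) (nat_lit 0) (nat_lit 50253127253) (nat_lit 4) (nat_lit 5) (nat_lit 6) (nat_lit 4) (nat_lit 4) (nat_lit 4) (nat_lit 303) (nat_lit 243) (nat_lit 174)))) (XT.nd (nat_lit 156) (nat_lit 0) (nat_lit 0) (XT.nd (nat_lit 78) (nat_lit 76) (nat_lit 0) (XT.lf (nat_lit 0) (nat_lit 98207439026) (nat_lit 152) (nat_lit 19262766018) (nat_lit 0) (nat_lit 66485801088) (nat_lit 4) (nat_lit 5) (nat_lit 6) (nat_lit 4) (nat_lit 4) (nat_lit 4) (nat_lit 304) (nat_lit 243) (nat_lit 173)) (XT.lf (nat_lit 0) (nat_lit 1757828231) (nat_lit 76) (nat_lit 114012395005) (nat_lit 76) (nat_lit 82279958897) (nat_lit 3) (nat_lit 4) (nat_lit 4) (nat_lit 5) (nat_lit 4) (nat_lit 4) (nat_lit 305) (nat_lit 243) (nat_lit 172))) (XT.nd (nat_lit 78) (nat_lit 0) (nat_lit 0)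 (XT.lf (nat_lit 0) (nat_lit 25132897216) (nat_lit 76) (nat_lit 109932532791) (nat_lit 76) (nat_lit 78190098377) (nat_lit 3) (nat_lit 4) (nat_lit 4) (nat_lit 5) (nat_lit 4) (nat_lit 4) (nat_lit 306) (nat_lit 243) (nat_lit 171)) (XT.nd (nat_lit 78) (nat_lit 0) (nat_lit 0) (XT.lf (nat_lit 0) (nat_lit 50364045827) (nat_lit 76) (nat_lit 105532665705) (nat_lit 76) (nat_lit 73780973600) (nat_lit 3) (nat_lit 4) (nat_lit 4) (nat_lit 5) (nat_lit 4) (nat_lit 4) (nat_lit 307) (nat_lit 243) (nat_lit 170)) (XT.lf (nat_lit 0) (nat_lit 77600791980) (nat_lit 76) (nat_lit 100786720459) (nat_lit 76) (nat_lit 69026456419) (nat_lit 3) (nat_lit 4) (nat_lit 4) (nat_lit 5) (nat_lit 4) (nat_lit 4) (nat_lit 308) (nat_lit 243) (nat_lit 169)))))) (XT.nd (nat_lit 390) (nat_lit 76) (nat_lit 0) (XT.nd (nat_lit 156) (nat_lit 0) (nat_lit 0) (XT.nd (nat_lit 78) (nat_lit 0) (nat_lit 0) (XT.lf (nat_lit 0) (nat_lit 107004538616)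 (nat_lit 76) (nat_lit 95666572934) (nat_lit 76) (nat_lit 63898371917) (nat_lit 3) (nat_lit 4) (nat_lit 4) (nat_lit 5) (nat_lit 4) (nat_lit 4) (nat_lit 309) (nat_lit 243) (nat_lit 168)) (XT.lf (nat_lit 0) (nat_lit 138749530159) (nat_lit 76) (nat_lit 90141881516) (nat_lit 76) (nat_lit 58366331446) (nat_lit 3) (nat_lit 4) (nat_lit 4) (nat_lit 5) (nat_lit 4) (nat_lit 4) (nat_lit 310) (nat_lit 243) (nat_lit 167))) (XT.nd (nat_lit 78) (nat_lit 0) (nat_lit 0) (XT.lf (nat_lit 0) (nat_lit 173023885078) (nat_lit 76) (nat_lit 84179907291) (nat_lit 76) (nat_lit 52397552542) (nat_lit 3) (nat_lit 4) (nat_lit 4) (nat_lit 5) (nat_lit 4) (nat_lit 4) (nat_lit 311) (nat_lit 243) (nat_lit 166)) (XT.nd (nat_lit 78) (nat_lit 0) (nat_lit 0) (XT.lf (nat_lit 0) (nat_lit 210030710661) (nat_lit 76) (nat_lit 77745320043) (nat_lit 76) (nat_lit 45956664665) (nat_lit 3) (nat_lit 4) (nat_lit 4) (nat_lit 5) (nat_lit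 4) (nat_lit 4) (nat_lit 312) (nat_lit 243) (nat_lit 165)) (XT.lf (nat_lit 0) (nat_lit 249989306616) (nat_lit 76) (nat_lit 70799988883) (nat_lit 76) (nat_lit 39005499591) (nat_lit 3) (nat_lit 4) (nat_lit 4) (nat_lit 5) (nat_lit 4) (nat_lit 4) (nat_lit 313) (nat_lit 243) (nat_lit 164))))) (XT.nd (nat_lit 156) (nat_lit 76) (nat_lit 0) (XT.nd (nat_lit 78) (nat_lit 0) (nat_lit 0) (XT.lf (nat_lit 0) (nat_lit 293136464622) (nat_lit 76) (nat_lit 63302756295) (nat_lit 76) (nat_lit 31502865229) (nat_lit 3) (nat_lit 4) (nat_lit 4) (nat_lit 5) (nat_lit 4) (nat_lit 4) (nat_lit 314) (nat_lit 243) (nat_lit 163)) (XT.lf (nat_lit 0) (nat_lit 339727871541) (nat_lit 76) (nat_lit 55209194232) (nat_lit 76) (nat_lit 23404301524) (nat_lit 3) (nat_lit 4) (nat_lit 4) (nat_lit 5) (nat_lit 4) (nat_lit 4) (nat_lit 315) (nat_lit 243) (nat_lit 162))) (XT.nd (nat_lit 78) (nat_lit 76) (nat_lit 0) (XT.lf (nat_lit 0)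 (nat_lit 390039624599) (nat_lit 76) (nat_lit 46471340847) (nat_lit 76) (nat_lit 14661816989) (nat_lit 3) (nat_lit 4) (nat_lit 4) (nat_lit 5) (nat_lit 4) (nat_lit 4) (nat_lit 316) (nat_lit 243) (nat_lit 161)) (XT.nd (nat_lit 78) (nat_lit 76) (nat_lit 0) (XT.lf (nat_lit 0) (nat_lit 444369867519) (nat_lit 76) (nat_lit 37037416266) (nat_lit 76) (nat_lit 5223604306) (nat_lit 3) (nat_lit 4) (nat_lit 4) (nat_lit 5) (nat_lit 4) (nat_lit 4) (nat_lit 317) (nat_lit 243) (nat_lit 160)) (XT.lf (nat_lit 0) (nat_lit 4807315124) (nat_lit 152) (nat_lit 21962786419) (nat_lit 76) (nat_lit 498151827963) (nat_lit 2) (nat_lit 5) (nat_lit 4) (nat_lit 5) (nat_lit 3) (nat_lit 4) (nat_lit 318) (nat_lit 243) (nat_lit 159))))))) (XT.nd (nat_lit 31902) (nat_lit 0) (nat_lit 4484) (XT.nd (nat_lit 312) (nat_lit 0) (nat_lit 0) (XT.nd (nat_lit 156) (nat_lit 0) (nat_lit 0) (XT.nd (nat_lit 78) (nat_lit 76) (nat_lit 0) (XT.lf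 (nat_lit 0) (nat_lit 15457098874) (nat_lit 152) (nat_lit 134406088) (nat_lit 76) (nat_lit 550680499767) (nat_lit 2) (nat_lit 5) (nat_lit 4) (nat_lit 5) (nat_lit 3) (nat_lit 4) (nat_lit 319) (nat_lit 243) (nat_lit 158)) (XT.lf (nat_lit 0) (nat_lit 24209896776) (nat_lit 76) (nat_lit 3124132292) (nat_lit 152) (nat_lit 583577300713) (nat_lit 1) (nat_lit 5) (nat_lit 2) (nat_lit 5) (nat_lit 3) (nat_lit 4) (nat_lit 320) (nat_lit 243) (nat_lit 157))) (XT.nd (nat_lit 78) (nat_lit 0) (nat_lit 0) (XT.lf (nat_lit 0) (nat_lit 40322214089) (nat_lit 152) (nat_lit 608781714439) (nat_lit 0) (nat_lit 10009819139) (nat_lit 1) (nat_lit 5) (nat_lit 3) (nat_lit 4) (nat_lit 1) (nat_lit 4) (nat_lit 321) (nat_lit 243) (nat_lit 156)) (XT.lf (nat_lit 0) (nat_lit 54399608918) (nat_lit 152) (nat_lit 632685809497) (nat_lit 0) (nat_lit 24084434530) (nat_lit 1) (nat_lit 5) (nat_lit 3) (nat_lit 4) (nat_lit 1) (nat_lit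 4) (nat_lit 322) (nat_lit 243) (nat_lit 155)))) (XT.nd (nat_lit 31356) (nat_lit 0) (nat_lit 7600) (XT.nd (nat_lit 78) (nat_lit 0) (nat_lit 0) (XT.lf (nat_lit 0) (nat_lit 69600858695) (nat_lit 152) (nat_lit 658506595615) (nat_lit 0) (nat_lit 39283110753) (nat_lit 1) (nat_lit 5) (nat_lit 3) (nat_lit 4) (nat_lit 1) (nat_lit 4) (nat_lit 323) (nat_lit 243) (nat_lit 154)) (XT.lf (nat_lit 0) (nat_lit 86016044900) (nat_lit 152) (nat_lit 686397084861) (nat_lit 0) (nat_lit 55695914038) (nat_lit 1) (nat_lit 5) (nat_lit 3) (nat_lit 4) (nat_lit 1) (nat_lit 4) (nat_lit 324) (nat_lit 243) (nat_lit 153))) (XT.nd (nat_lit 78) (nat_lit 456) (nat_lit 0) (XT.lf (nat_lit 0) (nat_lit 740177284) (nat_lit 0) (nat_lit 740177284) (nat_lit 380) (nat_lit 1978617542) (nat_lit 107) (nat_lit 5) (nat_lit 107) (nat_lit 3) (nat_lit 112) (nat_lit 3) (nat_lit 244) (nat_lit 244) (nat_lit 232)) (XT.nd (nat_lit 78) (nat_lit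 456) (nat_lit 0) (XT.lf (nat_lit 0) (nat_lit 5809941278) (nat_lit 380) (nat_lit 507779122) (nat_lit 456) (nat_lit 729512865) (nat_lit 107) (nat_lit 5) (nat_lit 112) (nat_lit 3) (nat_lit 113) (nat_lit 5) (nat_lit 245) (nat_lit 244) (nat_lit 231)) (XT.lf (nat_lit 0) (nat_lit 1471851534) (nat_lit 456) (nat_lit 2428204388) (nat_lit 532) (nat_lit 3295218556) (nat_lit 101) (nat_lit 5) (nat_lit 107) (nat_lit 5) (nat_lit 108) (nat_lit 5) (nat_lit 246) (nat_lit 244) (nat_lit 230)))))) (XT.nd (nat_lit 390) (nat_lit 2204) (nat_lit 0) (XT.nd (nat_lit 156) (nat_lit 912) (nat_lit 0) (XT.nd (nat_lit 78) (nat_lit 0) (nat_lit 76) (XT.lf (nat_lit 76) (nat_lit 3048218569) (nat_lit 0) (nat_lit 1106009455) (nat_lit 532) (nat_lit 3210884931) (nat_lit 102) (nat_lit 5) (nat_lit 101) (nat_lit 5) (nat_lit 108) (nat_lit 5) (nat_lit 247) (nat_lit 244) (nat_lit 229)) (XT.lf (nat_lit 76) (nat_lit 1352550442) (nat_lit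 0) (nat_lit 5553453309) (nat_lit 532) (nat_lit 650683796) (nat_lit 103) (nat_lit 5) (nat_lit 102) (nat_lit 5) (nat_lit 109) (nat_lit 5) (nat_lit 248) (nat_lit 244) (nat_lit 228))) (XT.nd (nat_lit 78) (nat_lit 456) (nat_lit 0) (XT.lf (nat_lit 0) (nat_lit 1913406430) (nat_lit 532) (nat_lit 347498546) (nat_lit 608) (nat_lit 5508479737) (nat_lit 95) (nat_lit 5) (nat_lit 102) (nat_lit 5) (nat_lit 103) (nat_lit 5) (nat_lit 249) (nat_lit 244) (nat_lit 227)) (XT.nd (nat_lit 78) (nat_lit 532) (nat_lit 0) (XT.lf (nat_lit 0) (nat_lit 4565351081) (nat_lit 532) (nat_lit 2021366660) (nat_lit 76) (nat_lit 1417296645) (nat_lit 96) (nat_lit 5) (nat_lit 103) (nat_lit 5) (nat_lit 97) (nat_lit 5) (nat_lit 250) (nat_lit 244) (nat_lit 226)) (XT.lf (nat_lit 0) (nat_lit 4524004938) (nat_lit 532) (nat_lit 2823136867) (nat_lit 608) (nat_lit 915060584) (nat_lit 89) (nat_lit 5) (nat_lit 96) (nat_lit 5) (nat_lit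 97) (nat_lit 5) (nat_lit 251) (nat_lit 244) (nat_lit 225))))) (XT.nd (nat_lit 156) (nat_lit 836) (nat_lit 0) (XT.nd (nat_lit 78) (nat_lit 684) (nat_lit 0) (XT.lf (nat_lit 0) (nat_lit 1668806598) (nat_lit 684) (nat_lit 5530002362) (nat_lit 76) (nat_lit 1345600131) (nat_lit 80) (nat_lit 5) (nat_lit 89) (nat_lit 5) (nat_lit 81) (nat_lit 5) (nat_lit 252) (nat_lit 244) (nat_lit 224)) (XT.lf (nat_lit 0) (nat_lit 1415927885) (nat_lit 684) (nat_lit 2971170662) (nat_lit 760) (nat_lit 4463904091) (nat_lit 71) (nat_lit 5) (nat_lit 80) (nat_lit 5) (nat_lit 81) (nat_lit 5) (nat_lit 253) (nat_lit 244) (nat_lit 223))) (XT.nd (nat_lit 78) (nat_lit 836) (nat_lit 0) (XT.lf (nat_lit 0) (nat_lit 7279997578) (nat_lit 760) (nat_lit 250884003) (nat_lit 76) (nat_lit 1653893317) (nat_lit 71) (nat_lit 5) (nat_lit 81) (nat_lit 5) (nat_lit 72) (nat_lit 5) (nat_lit 254) (nat_lit 244) (nat_lit 222)) (XT.nd (nat_lit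 78) (nat_lit 380) (nat_lit 0) (XT.lf (nat_lit 0) (nat_lit 845944099) (nat_lit 456) (nat_lit 2009161577) (nat_lit 76) (nat_lit 6689202950) (nat_lit 65) (nat_lit 5) (nat_lit 71) (nat_lit 5) (nat_lit 66) (nat_lit 5) (nat_lit 255) (nat_lit 244) (nat_lit 221)) (XT.lf (nat_lit 0) (nat_lit 3738834316) (nat_lit 456) (nat_lit 3937544168) (nat_lit 76) (nat_lit 2255638147) (nat_lit 60) (nat_lit 5) (nat_lit 66) (nat_lit 5) (nat_lit 61) (nat_lit 5) (nat_lit 256) (nat_lit 244) (nat_lit 220))))))))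
noncomputable def xc57 : XT := (XT.nd (nat_lit 1482) (nat_lit 912) (nat_lit 0) (XT.nd (nat_lit 702) (nat_lit 1292) (nat_lit 0) (XT.nd (nat_lit 312) (nat_lit 988) (nat_lit 0) (XT.nd (nat_lit 156) (nat_lit 304) (nat_lit 0) (XT.nd (nat_lit 78) (nat_lit 304) (nat_lit 0) (XT.lf (nat_lit 0) (nat_lit 4300451559) (nat_lit 304) (nat_lit 2575111263) (nat_lit 380) (nat_lit 3474942479) (nat_lit 56) (nat_lit 5) (nat_lit 60) (nat_lit 5) (nat_lit 61) (nat_lit 5) (nat_lit 257) (nat_lit 244) (nat_lit 219)) (XT.lf (nat_lit 0) (nat_lit 2419760185) (nat_lit 304) (nat_lit 7866147917) (nat_lit 380) (nat_lit 515786944) (nat_lit 52) (nat_lit 5) (nat_lit 56) (nat_lit 5) (nat_lit 57) (nat_lit 5) (nat_lit 258) (nat_lit 244) (nat_lit 218))) (XT.nd (nat_lit 78) (nat_lit 0) (nat_lit 0) (XT.lf (nat_lit 0) (nat_lit 273498427) (nat_lit 228) (nat_lit 2350103257) (nat_lit 304) (nat_lit 8662135912) (nat_lit 48) (nat_lit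 5) (nat_lit 51) (nat_lit 5) (nat_lit 52) (nat_lit 5) (nat_lit 259) (nat_lit 244) (nat_lit 217)) (XT.lf (nat_lit 0) (nat_lit 6082240503) (nat_lit 304) (nat_lit 2095120337) (nat_lit 76) (nat_lit 3626702048) (nat_lit 48) (nat_lit 5) (nat_lit 52) (nat_lit 5) (nat_lit 49) (nat_lit 5) (nat_lit 260) (nat_lit 244) (nat_lit 216)))) (XT.nd (nat_lit 156) (nat_lit 380) (nat_lit 0) (XT.nd (nat_lit 78) (nat_lit 304) (nat_lit 0) (XT.lf (nat_lit 0) (nat_lit 7602790543) (nat_lit 304) (nat_lit 2263115020) (nat_lit 380) (nat_lit 2495800961) (nat_lit 44) (nat_lit 5) (nat_lit 48) (nat_lit 5) (nat_lit 49) (nat_lit 5) (nat_lit 261) (nat_lit 244) (nat_lit 215)) (XT.lf (nat_lit 0) (nat_lit 1035358579) (nat_lit 304) (nat_lit 7823244290) (nat_lit 76) (nat_lit 4100890142) (nat_lit 40) (nat_lit 5) (nat_lit 44) (nat_lit 5) (nat_lit 41) (nat_lit 5) (nat_lit 262) (nat_lit 244) (nat_lit 214))) (XT.nd (nat_lit 78) (nat_lit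 152) (nat_lit 0) (XT.lf (nat_lit 0) (nat_lit 2249348278) (nat_lit 228) (nat_lit 2570495921) (nat_lit 304) (nat_lit 8780518481) (nat_lit 37) (nat_lit 5) (nat_lit 40) (nat_lit 5) (nat_lit 41) (nat_lit 5) (nat_lit 263) (nat_lit 244) (nat_lit 213)) (XT.nd (nat_lit 78) (nat_lit 152) (nat_lit 0) (XT.lf (nat_lit 0) (nat_lit 9016012937) (nat_lit 304) (nat_lit 1078421004) (nat_lit 76) (nat_lit 4192825201) (nat_lit 37) (nat_lit 5) (nat_lit 41) (nat_lit 5) (nat_lit 38) (nat_lit 5) (nat_lit 264) (nat_lit 244) (nat_lit 212)) (XT.lf (nat_lit 0) (nat_lit 10176384943) (nat_lit 152) (nat_lit 3485306152) (nat_lit 228) (nat_lit 1361913788) (nat_lit 35) (nat_lit 5) (nat_lit 37) (nat_lit 5) (nat_lit 38) (nat_lit 5) (nat_lit 265) (nat_lit 244) (nat_lit 211)))))) (XT.nd (nat_lit 390) (nat_lit 456) (nat_lit 0) (XT.nd (nat_lit 156) (nat_lit 380) (nat_lit 0) (XT.nd (nat_lit 78) (nat_lit 152) (nat_lit 0) (XT.lf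 (nat_lit 0) (nat_lit 2864741323) (nat_lit 304) (nat_lit 9275408406) (nat_lit 76) (nat_lit 3671835938) (nat_lit 31) (nat_lit 5) (nat_lit 35) (nat_lit 5) (nat_lit 32) (nat_lit 5) (nat_lit 266) (nat_lit 244) (nat_lit 210)) (XT.lf (nat_lit 0) (nat_lit 2214614641) (nat_lit 152) (nat_lit 5265778546) (nat_lit 228) (nat_lit 9177152243) (nat_lit 29) (nat_lit 5) (nat_lit 31) (nat_lit 5) (nat_lit 32) (nat_lit 5) (nat_lit 267) (nat_lit 244) (nat_lit 209))) (XT.nd (nat_lit 78) (nat_lit 380) (nat_lit 0) (XT.lf (nat_lit 0) (nat_lit 12585685737) (nat_lit 228) (nat_lit 2760361202) (nat_lit 76) (nat_lit 2218826015) (nat_lit 29) (nat_lit 5) (nat_lit 32) (nat_lit 5) (nat_lit 30) (nat_lit 5) (nat_lit 268) (nat_lit 244) (nat_lit 208)) (XT.nd (nat_lit 78) (nat_lit 228) (nat_lit 0) (XT.lf (nat_lit 0) (nat_lit 9979655370) (nat_lit 152) (nat_lit 8292557815) (nat_lit 228) (nat_lit 264064779) (nat_lit 27) (nat_lit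 5) (nat_lit 29) (nat_lit 5) (nat_lit 30) (nat_lit 5) (nat_lit 269) (nat_lit 244) (nat_lit 207)) (XT.lf (nat_lit 0) (nat_lit 4207443670) (nat_lit 152) (nat_lit 511535353) (nat_lit 228) (nat_lit 14860501175) (nat_lit 24) (nat_lit 5) (nat_lit 26) (nat_lit 5) (nat_lit 27) (nat_lit 5) (nat_lit 270) (nat_lit 244) (nat_lit 206))))) (XT.nd (nat_lit 156) (nat_lit 304) (nat_lit 0) (XT.nd (nat_lit 78) (nat_lit 152) (nat_lit 0) (XT.lf (nat_lit 0) (nat_lit 10299942755) (nat_lit 228) (nat_lit 2634373349) (nat_lit 76) (nat_lit 7761287325) (nat_lit 24) (nat_lit 5) (nat_lit 27) (nat_lit 5) (nat_lit 25) (nat_lit 5) (nat_lit 271) (nat_lit 244) (nat_lit 205)) (XT.lf (nat_lit 0) (nat_lit 11381890401) (nat_lit 152) (nat_lit 5070427580) (nat_lit 228) (nat_lit 5442551508) (nat_lit 22) (nat_lit 5) (nat_lit 24) (nat_lit 5) (nat_lit 25) (nat_lit 5) (nat_lit 272) (nat_lit 244) (nat_lit 204))) (XT.nd (nat_lit 78)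 (nat_lit 152) (nat_lit 0) (XT.lf (nat_lit 0) (nat_lit 5371532) (nat_lit 152) (nat_lit 19800018564) (nat_lit 76) (nat_lit 3380068280) (nat_lit 20) (nat_lit 5) (nat_lit 22) (nat_lit 5) (nat_lit 21) (nat_lit 5) (nat_lit 273) (nat_lit 244) (nat_lit 203)) (XT.nd (nat_lit 78) (nat_lit 152) (nat_lit 0) (XT.lf (nat_lit 0) (nat_lit 5915766913) (nat_lit 152) (nat_lit 6071504908) (nat_lit 76) (nat_lit 12576776891) (nat_lit 20) (nat_lit 5) (nat_lit 22) (nat_lit 5) (nat_lit 21) (nat_lit 5) (nat_lit 274) (nat_lit 244) (nat_lit 202)) (XT.lf (nat_lit 0) (nat_lit 8956543913) (nat_lit 152) (nat_lit 3429640171) (nat_lit 228) (nat_lit 13662458050) (nat_lit 18) (nat_lit 5) (nat_lit 20) (nat_lit 5) (nat_lit 21) (nat_lit 5) (nat_lit 275) (nat_lit 244) (nat_lit 201))))))) (XT.nd (nat_lit 780) (nat_lit 304) (nat_lit 0) (XT.nd (nat_lit 390) (nat_lit 228) (nat_lit 0) (XT.nd (nat_lit 156) (nat_lit 304) (nat_lit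 0) (XT.nd (nat_lit 78) (nat_lit 76) (nat_lit 0) (XT.lf (nat_lit 0) (nat_lit 19521964168) (nat_lit 228) (nat_lit 2419327366) (nat_lit 76) (nat_lit 5703394807) (nat_lit 18) (nat_lit 5) (nat_lit 21) (nat_lit 5) (nat_lit 19) (nat_lit 4) (nat_lit 276) (nat_lit 244) (nat_lit 200)) (XT.lf (nat_lit 0) (nat_lit 13731354120) (nat_lit 76) (nat_lit 13722692485) (nat_lit 152) (nat_lit 1903160095) (nat_lit 17) (nat_lit 5) (nat_lit 18) (nat_lit 5) (nat_lit 19) (nat_lit 4) (nat_lit 277) (nat_lit 244) (nat_lit 199))) (XT.nd (nat_lit 78) (nat_lit 228) (nat_lit 0) (XT.lf (nat_lit 0) (nat_lit 4657468415) (nat_lit 152) (nat_lit 95740748) (nat_lit 76) (nat_lit 26449939606) (nat_lit 16) (nat_lit 5) (nat_lit 18) (nat_lit 5) (nat_lit 17) (nat_lit 5) (nat_lit 278) (nat_lit 244) (nat_lit 198)) (XT.nd (nat_lit 78) (nat_lit 76) (nat_lit 0) (XT.lf (nat_lit 0) (nat_lit 11984087968) (nat_lit 228) (nat_lit 16142864044)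 (nat_lit 76) (nat_lit 5052916074) (nat_lit 14) (nat_lit 5) (nat_lit 17) (nat_lit 5) (nat_lit 15) (nat_lit 4) (nat_lit 279) (nat_lit 244) (nat_lit 197)) (XT.lf (nat_lit 0) (nat_lit 82915791) (nat_lit 76) (nat_lit 19856786506) (nat_lit 152) (nat_lit 15372928242) (nat_lit 13) (nat_lit 5) (nat_lit 14) (nat_lit 5) (nat_lit 15) (nat_lit 4) (nat_lit 280) (nat_lit 244) (nat_lit 196))))) (XT.nd (nat_lit 156) (nat_lit 228) (nat_lit 0) (XT.nd (nat_lit 78) (nat_lit 0) (nat_lit 0) (XT.lf (nat_lit 0) (nat_lit 18117491845) (nat_lit 76) (nat_lit 10657157009) (nat_lit 152) (nat_lit 8829266213) (nat_lit 13) (nat_lit 5) (nat_lit 14) (nat_lit 5) (nat_lit 15) (nat_lit 4) (nat_lit 281) (nat_lit 244) (nat_lit 195)) (XT.lf (nat_lit 0) (nat_lit 37533979691) (nat_lit 76) (nat_lit 746934412) (nat_lit 152) (nat_lit 1799403988) (nat_lit 13) (nat_lit 5) (nat_lit 14) (nat_lit 5) (nat_lit 15) (nat_lit 4) (nat_lit 282)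 (nat_lit 244) (nat_lit 194))) (XT.nd (nat_lit 78) (nat_lit 76) (nat_lit 0) (XT.lf (nat_lit 0) (nat_lit 5986318914) (nat_lit 152) (nat_lit 26783250524) (nat_lit 76) (nat_lit 9961834775) (nat_lit 11) (nat_lit 5) (nat_lit 13) (nat_lit 5) (nat_lit 12) (nat_lit 4) (nat_lit 283) (nat_lit 244) (nat_lit 193)) (XT.nd (nat_lit 78) (nat_lit 76) (nat_lit 0) (XT.lf (nat_lit 0) (nat_lit 14358207789) (nat_lit 152) (nat_lit 9679141373) (nat_lit 76) (nat_lit 21554469812) (nat_lit 11) (nat_lit 5) (nat_lit 13) (nat_lit 5) (nat_lit 12) (nat_lit 4) (nat_lit 284) (nat_lit 244) (nat_lit 192)) (XT.lf (nat_lit 0) (nat_lit 9030234347) (nat_lit 76) (nat_lit 14480813921) (nat_lit 152) (nat_lit 25164490289) (nat_lit 10) (nat_lit 5) (nat_lit 11) (nat_lit 5) (nat_lit 12) (nat_lit 4) (nat_lit 285) (nat_lit 244) (nat_lit 191)))))) (XT.nd (nat_lit 390) (nat_lit 152) (nat_lit 0) (XT.nd (nat_lit 156) (nat_lit 152) (nat_lit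 0) (XT.nd (nat_lit 78) (nat_lit 0) (nat_lit 0) (XT.lf (nat_lit 0) (nat_lit 29532176682) (nat_lit 76) (nat_lit 4004185490) (nat_lit 152) (nat_lit 18462610543) (nat_lit 10) (nat_lit 5) (nat_lit 11) (nat_lit 5) (nat_lit 12) (nat_lit 4) (nat_lit 286) (nat_lit 244) (nat_lit 190)) (XT.lf (nat_lit 0) (nat_lit 44451271828) (nat_lit 152) (nat_lit 4075307379) (nat_lit 0) (nat_lit 7057351014) (nat_lit 10) (nat_lit 5) (nat_lit 12) (nat_lit 4) (nat_lit 10) (nat_lit 4) (nat_lit 287) (nat_lit 244) (nat_lit 189))) (XT.nd (nat_lit 78) (nat_lit 76) (nat_lit 0) (XT.lf (nat_lit 0) (nat_lit 16194644046) (nat_lit 76) (nat_lit 40340491966) (nat_lit 76) (nat_lit 2905785365) (nat_lit 9) (nat_lit 4) (nat_lit 10) (nat_lit 5) (nat_lit 10) (nat_lit 4) (nat_lit 288) (nat_lit 244) (nat_lit 188)) (XT.nd (nat_lit 78) (nat_lit 0) (nat_lit 0) (XT.lf (nat_lit 0) (nat_lit 5836181079) (nat_lit 152) (nat_lit 25508300004) (nat_lit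 76) (nat_lit 32254929448) (nat_lit 8) (nat_lit 5) (nat_lit 10) (nat_lit 5) (nat_lit 9) (nat_lit 4) (nat_lit 289) (nat_lit 244) (nat_lit 187)) (XT.lf (nat_lit 0) (nat_lit 15154990496) (nat_lit 152) (nat_lit 6439707939) (nat_lit 76) (nat_lit 46494554606) (nat_lit 8) (nat_lit 5) (nat_lit 10) (nat_lit 5) (nat_lit 9) (nat_lit 4) (nat_lit 290) (nat_lit 244) (nat_lit 186))))) (XT.nd (nat_lit 156) (nat_lit 76) (nat_lit 0) (XT.nd (nat_lit 78) (nat_lit 0) (nat_lit 0) (XT.lf (nat_lit 0) (nat_lit 14584665767) (nat_lit 76) (nat_lit 10841910474) (nat_lit 152) (nat_lit 47501362134) (nat_lit 7) (nat_lit 5) (nat_lit 8) (nat_lit 5) (nat_lit 9) (nat_lit 4) (nat_lit 291) (nat_lit 244) (nat_lit 185)) (XT.lf (nat_lit 0) (nat_lit 36626233787) (nat_lit 152) (nat_lit 40676707788) (nat_lit 0) (nat_lit 845477311) (nat_lit 7) (nat_lit 5) (nat_lit 9) (nat_lit 4) (nat_lit 7) (nat_lit 4) (nat_lit 292) (nat_lit 244)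 (nat_lit 184))) (XT.nd (nat_lit 78) (nat_lit 76) (nat_lit 0) (XT.lf (nat_lit 0) (nat_lit 48886429646) (nat_lit 152) (nat_lit 21812659336) (nat_lit 0) (nat_lit 13079236863) (nat_lit 7) (nat_lit 5) (nat_lit 9) (nat_lit 4) (nat_lit 7) (nat_lit 4) (nat_lit 293) (nat_lit 244) (nat_lit 183)) (XT.nd (nat_lit 78) (nat_lit 76) (nat_lit 0) (XT.lf (nat_lit 0) (nat_lit 62110544223) (nat_lit 152) (nat_lit 1470067691) (nat_lit 0) (nat_lit 26278873379) (nat_lit 7) (nat_lit 5) (nat_lit 9) (nat_lit 4) (nat_lit 7) (nat_lit 4) (nat_lit 294) (nat_lit 244) (nat_lit 182)) (XT.lf (nat_lit 0) (nat_lit 21148499908) (nat_lit 76) (nat_lit 55558630085) (nat_lit 76) (nat_lit 19704294371) (nat_lit 6) (nat_lit 4) (nat_lit 7) (nat_lit 5) (nat_lit 7) (nat_lit 4) (nat_lit 295) (nat_lit 244) (nat_lit 181))))))))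
noncomputable def xc58 : XT := (XT.nd (nat_lit 1482) (nat_lit 152) (nat_lit 0) (XT.nd (nat_lit 702) (nat_lit 76) (nat_lit 0) (XT.nd (nat_lit 312) (nat_lit 0) (nat_lit 0) (XT.nd (nat_lit 156) (nat_lit 152) (nat_lit 0) (XT.nd (nat_lit 78) (nat_lit 0) (nat_lit 0) (XT.lf (nat_lit 0) (nat_lit 45601963667) (nat_lit 76) (nat_lit 46880177309) (nat_lit 76) (nat_lit 11004855602) (nat_lit 6) (nat_lit 4) (nat_lit 7) (nat_lit 5) (nat_lit 7) (nat_lit 4) (nat_lit 296) (nat_lit 244) (nat_lit 180)) (XT.lf (nat_lit 0) (nat_lit 71986625921) (nat_lit 76) (nat_lit 37518722024) (nat_lit 76) (nat_lit 1623968843) (nat_lit 6) (nat_lit 4) (nat_lit 7) (nat_lit 5) (nat_lit 7) (nat_lit 4) (nat_lit 297) (nat_lit 244) (nat_lit 179))) (XT.nd (nat_lit 78) (nat_lit 76) (nat_lit 0) (XT.lf (nat_lit 0) (nat_lit 8222096697) (nat_lit 152) (nat_lit 19057447056) (nat_lit 76) (nat_lit 92097498342) (nat_lit 5) (nat_lit 5) (nat_lit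 7) (nat_lit 5) (nat_lit 6) (nat_lit 4) (nat_lit 298) (nat_lit 244) (nat_lit 178)) (XT.lf (nat_lit 0) (nat_lit 2670806962) (nat_lit 76) (nat_lit 16158564552) (nat_lit 152) (nat_lit 109452371570) (nat_lit 4) (nat_lit 5) (nat_lit 5) (nat_lit 5) (nat_lit 6) (nat_lit 4) (nat_lit 299) (nat_lit 244) (nat_lit 177)))) (XT.nd (nat_lit 156) (nat_lit 0) (nat_lit 0) (XT.nd (nat_lit 78) (nat_lit 0) (nat_lit 0) (XT.lf (nat_lit 0) (nat_lit 26796899998) (nat_lit 76) (nat_lit 3808821939) (nat_lit 152) (nat_lit 107277082588) (nat_lit 4) (nat_lit 5) (nat_lit 5) (nat_lit 5) (nat_lit 6) (nat_lit 4) (nat_lit 300) (nat_lit 244) (nat_lit 176)) (XT.lf (nat_lit 0) (nat_lit 43462191331) (nat_lit 152) (nat_lit 95567450043) (nat_lit 0) (nat_lit 9215417343) (nat_lit 4) (nat_lit 5) (nat_lit 6) (nat_lit 4) (nat_lit 4) (nat_lit 4) (nat_lit 301) (nat_lit 244) (nat_lit 175))) (XT.nd (nat_lit 78) (nat_lit 0) (nat_lit 0)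 (XT.lf (nat_lit 0) (nat_lit 57401437251) (nat_lit 152) (nat_lit 78890082530) (nat_lit 0) (nat_lit 23142068277) (nat_lit 4) (nat_lit 5) (nat_lit 6) (nat_lit 4) (nat_lit 4) (nat_lit 4) (nat_lit 302) (nat_lit 244) (nat_lit 174)) (XT.nd (nat_lit 78) (nat_lit 0) (nat_lit 0) (XT.lf (nat_lit 0) (nat_lit 72446596252) (nat_lit 152) (nat_lit 60895506758) (nat_lit 0) (nat_lit 38175565254) (nat_lit 4) (nat_lit 5) (nat_lit 6) (nat_lit 4) (nat_lit 4) (nat_lit 4) (nat_lit 303) (nat_lit 244) (nat_lit 173)) (XT.lf (nat_lit 0) (nat_lit 88686824830) (nat_lit 152) (nat_lit 41477088204) (nat_lit 0) (nat_lit 54404995663) (nat_lit 4) (nat_lit 5) (nat_lit 6) (nat_lit 4) (nat_lit 4) (nat_lit 4) (nat_lit 304) (nat_lit 244) (nat_lit 172)))))) (XT.nd (nat_lit 390) (nat_lit 0) (nat_lit 0) (XT.nd (nat_lit 156) (nat_lit 0) (nat_lit 0) (XT.nd (nat_lit 78) (nat_lit 76) (nat_lit 0) (XT.lf (nat_lit 0) (nat_lit 106218361379)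 (nat_lit 152) (nat_lit 20519754759) (nat_lit 0) (nat_lit 71926533907) (nat_lit 4) (nat_lit 5) (nat_lit 6) (nat_lit 4) (nat_lit 4) (nat_lit 4) (nat_lit 305) (nat_lit 244) (nat_lit 171)) (XT.lf (nat_lit 0) (nat_lit 2170143322) (nat_lit 76) (nat_lit 123008835181) (nat_lit 76) (nat_lit 88707750018) (nat_lit 3) (nat_lit 4) (nat_lit 4) (nat_lit 5) (nat_lit 4) (nat_lit 4) (nat_lit 306) (nat_lit 244) (nat_lit 170))) (XT.nd (nat_lit 78) (nat_lit 0) (nat_lit 0) (XT.lf (nat_lit 0) (nat_lit 27395092728) (nat_lit 76) (nat_lit 118611810022) (nat_lit 76) (nat_lit 84302152923) (nat_lit 3) (nat_lit 4) (nat_lit 4) (nat_lit 5) (nat_lit 4) (nat_lit 4) (nat_lit 307) (nat_lit 244) (nat_lit 169)) (XT.nd (nat_lit 78) (nat_lit 0) (nat_lit 0) (XT.lf (nat_lit 0) (nat_lit 54626098876) (nat_lit 76) (nat_lit 113868496190) (nat_lit 76) (nat_lit 79550902114) (nat_lit 3) (nat_lit 4) (nat_lit 4) (nat_lit 5) (nat_lit 4)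 (nat_lit 4) (nat_lit 308) (nat_lit 244) (nat_lit 168)) (XT.lf (nat_lit 0) (nat_lit 84024530693) (nat_lit 76) (nat_lit 108750785159) (nat_lit 76) (nat_lit 74425842030) (nat_lit 3) (nat_lit 4) (nat_lit 4) (nat_lit 5) (nat_lit 4) (nat_lit 4) (nat_lit 309) (nat_lit 244) (nat_lit 167))))) (XT.nd (nat_lit 156) (nat_lit 0) (nat_lit 0) (XT.nd (nat_lit 78) (nat_lit 0) (nat_lit 0) (XT.lf (nat_lit 0) (nat_lit 115764601108) (nat_lit 76) (nat_lit 103228349754) (nat_lit 76) (nat_lit 68896601946) (nat_lit 3) (nat_lit 4) (nat_lit 4) (nat_lit 5) (nat_lit 4) (nat_lit 4) (nat_lit 310) (nat_lit 244) (nat_lit 166)) (XT.lf (nat_lit 0) (nat_lit 150034399426) (nat_lit 76) (nat_lit 97268464430) (nat_lit 76) (nat_lit 62930415994) (nat_lit 3) (nat_lit 4) (nat_lit 4) (nat_lit 5) (nat_lit 4) (nat_lit 4) (nat_lit 311) (nat_lit 244) (nat_lit 165))) (XT.nd (nat_lit 78) (nat_lit 0) (nat_lit 0) (XT.lf (nat_lit 0) (nat_lit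 187037005935) (nat_lit 76) (nat_lit 90835811350) (nat_lit 76) (nat_lit 56491928998) (nat_lit 3) (nat_lit 4) (nat_lit 4) (nat_lit 5) (nat_lit 4) (nat_lit 4) (nat_lit 312) (nat_lit 244) (nat_lit 164)) (XT.nd (nat_lit 78) (nat_lit 0) (nat_lit 0) (XT.lf (nat_lit 0) (nat_lit 226991695339) (nat_lit 76) (nat_lit 83892271086) (nat_lit 76) (nat_lit 49542986962) (nat_lit 3) (nat_lit 4) (nat_lit 4) (nat_lit 5) (nat_lit 4) (nat_lit 4) (nat_lit 313) (nat_lit 244) (nat_lit 163)) (XT.lf (nat_lit 0) (nat_lit 270135236168) (nat_lit 76) (nat_lit 76396696735) (nat_lit 76) (nat_lit 42042410968) (nat_lit 3) (nat_lit 4) (nat_lit 4) (nat_lit 5) (nat_lit 4) (nat_lit 4) (nat_lit 314) (nat_lit 244) (nat_lit 162))))))) (XT.nd (nat_lit 702) (nat_lit 0) (nat_lit 0) (XT.nd (nat_lit 312) (nat_lit 152) (nat_lit 0) (XT.nd (nat_lit 156) (nat_lit 0) (nat_lit 0) (XT.nd (nat_lit 78) (nat_lit 0) (nat_lit 0) (XT.lf (nat_lit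 0) (nat_lit 316723293849) (nat_lit 76) (nat_lit 68304670077) (nat_lit 76) (nat_lit 33945753160) (nat_lit 3) (nat_lit 4) (nat_lit 4) (nat_lit 5) (nat_lit 4) (nat_lit 4) (nat_lit 315) (nat_lit 244) (nat_lit 161)) (XT.lf (nat_lit 0) (nat_lit 367031945762) (nat_lit 76) (nat_lit 59568238362) (nat_lit 76) (nat_lit 25205033344) (nat_lit 3) (nat_lit 4) (nat_lit 4) (nat_lit 5) (nat_lit 4) (nat_lit 4) (nat_lit 316) (nat_lit 244) (nat_lit 160))) (XT.nd (nat_lit 78) (nat_lit 0) (nat_lit 0) (XT.lf (nat_lit 0) (nat_lit 421359317251) (nat_lit 76) (nat_lit 50135630143) (nat_lit 76) (nat_lit 15768454660) (nat_lit 3) (nat_lit 4) (nat_lit 4) (nat_lit 5) (nat_lit 4) (nat_lit 4) (nat_lit 317) (nat_lit 244) (nat_lit 159)) (XT.lf (nat_lit 0) (nat_lit 480027348294) (nat_lit 76) (nat_lit 39950948482) (nat_lit 76) (nat_lit 5580096643) (nat_lit 3) (nat_lit 4) (nat_lit 4) (nat_lit 5) (nat_lit 4) (nat_lit 4) (nat_lit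 318) (nat_lit 244) (nat_lit 158)))) (XT.nd (nat_lit 156) (nat_lit 76) (nat_lit 0) (XT.nd (nat_lit 78) (nat_lit 0) (nat_lit 0) (XT.lf (nat_lit 0) (nat_lit 5246928993) (nat_lit 152) (nat_lit 23618051436) (nat_lit 76) (nat_lit 538047913024) (nat_lit 2) (nat_lit 5) (nat_lit 4) (nat_lit 5) (nat_lit 3) (nat_lit 4) (nat_lit 319) (nat_lit 244) (nat_lit 157)) (XT.lf (nat_lit 0) (nat_lit 16744619245) (nat_lit 152) (nat_lit 50938302) (nat_lit 76) (nat_lit 594775623845) (nat_lit 2) (nat_lit 5) (nat_lit 4) (nat_lit 5) (nat_lit 3) (nat_lit 4) (nat_lit 320) (nat_lit 244) (nat_lit 156))) (XT.nd (nat_lit 78) (nat_lit 0) (nat_lit 0) (XT.lf (nat_lit 0) (nat_lit 26236814094) (nat_lit 76) (nat_lit 3332522617) (nat_lit 152) (nat_lit 630212436767) (nat_lit 1) (nat_lit 5) (nat_lit 2) (nat_lit 5) (nat_lit 3) (nat_lit 4) (nat_lit 321) (nat_lit 244) (nat_lit 155)) (XT.nd (nat_lit 78) (nat_lit 0) (nat_lit 0) (XT.lf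 (nat_lit 0) (nat_lit 43593578140) (nat_lit 152) (nat_lit 657399122241) (nat_lit 0) (nat_lit 10847836809) (nat_lit 1) (nat_lit 5) (nat_lit 3) (nat_lit 4) (nat_lit 1) (nat_lit 4) (nat_lit 322) (nat_lit 244) (nat_lit 154)) (XT.lf (nat_lit 0) (nat_lit 58793787746) (nat_lit 152) (nat_lit 683221850782) (nat_lit 0) (nat_lit 26045663495) (nat_lit 1) (nat_lit 5) (nat_lit 3) (nat_lit 4) (nat_lit 1) (nat_lit 4) (nat_lit 323) (nat_lit 244) (nat_lit 153)))))) (XT.nd (nat_lit 31668) (nat_lit 0) (nat_lit 6004) (XT.nd (nat_lit 31434) (nat_lit 0) (nat_lit 7068) (XT.nd (nat_lit 31356) (nat_lit 0) (nat_lit 7524) (XT.lf (nat_lit 0) (nat_lit 75208010830) (nat_lit 152) (nat_lit 711114138566) (nat_lit 0) (nat_lit 42457680172) (nat_lit 1) (nat_lit 5) (nat_lit 3) (nat_lit 4) (nat_lit 1) (nat_lit 4) (nat_lit 324) (nat_lit 244) (nat_lit 152)) (XT.lf (nat_lit 0) (nat_lit 638920861) (nat_lit 532) (nat_lit 1476472433)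 (nat_lit 532) (nat_lit 1476472433) (nat_lit 100) (nat_lit 3) (nat_lit 107) (nat_lit 3) (nat_lit 107) (nat_lit 5) (nat_lit 245) (nat_lit 245) (nat_lit 230))) (XT.nd (nat_lit 78) (nat_lit 456) (nat_lit 0) (XT.lf (nat_lit 76) (nat_lit 2197302845) (nat_lit 0) (nat_lit 1544346683) (nat_lit 532) (nat_lit 3599905842) (nat_lit 101) (nat_lit 5) (nat_lit 100) (nat_lit 3) (nat_lit 107) (nat_lit 5) (nat_lit 246) (nat_lit 245) (nat_lit 229)) (XT.nd (nat_lit 78) (nat_lit 532) (nat_lit 0) (XT.lf (nat_lit 76) (nat_lit 195690844) (nat_lit 0) (nat_lit 6045144028) (nat_lit 532) (nat_lit 1280146174) (nat_lit 102) (nat_lit 5) (nat_lit 101) (nat_lit 5) (nat_lit 108) (nat_lit 5) (nat_lit 247) (nat_lit 245) (nat_lit 228)) (XT.lf (nat_lit 0) (nat_lit 1075895537) (nat_lit 532) (nat_lit 1756550705) (nat_lit 608) (nat_lit 4887646724) (nat_lit 94) (nat_lit 5) (nat_lit 101) (nat_lit 5) (nat_lit 102) (nat_lit 5) (nat_lit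 248) (nat_lit 245) (nat_lit 227))))) (XT.nd (nat_lit 156) (nat_lit 1140) (nat_lit 0) (XT.nd (nat_lit 78) (nat_lit 0) (nat_lit 0) (XT.lf (nat_lit 0) (nat_lit 3444496750) (nat_lit 532) (nat_lit 3718194161) (nat_lit 608) (nat_lit 778673597) (nat_lit 95) (nat_lit 5) (nat_lit 102) (nat_lit 5) (nat_lit 103) (nat_lit 5) (nat_lit 249) (nat_lit 245) (nat_lit 226)) (XT.lf (nat_lit 76) (nat_lit 2454465531) (nat_lit 0) (nat_lit 3469541193) (nat_lit 608) (nat_lit 2260932500) (nat_lit 96) (nat_lit 5) (nat_lit 95) (nat_lit 5) (nat_lit 103) (nat_lit 5) (nat_lit 250) (nat_lit 245) (nat_lit 225))) (XT.nd (nat_lit 78) (nat_lit 608) (nat_lit 0) (XT.lf (nat_lit 0) (nat_lit 48620970) (nat_lit 608) (nat_lit 7778328081) (nat_lit 76) (nat_lit 626540339) (nat_lit 88) (nat_lit 5) (nat_lit 96) (nat_lit 5) (nat_lit 89) (nat_lit 5) (nat_lit 251) (nat_lit 245) (nat_lit 224)) (XT.nd (nat_lit 78) (nat_lit 608) (nat_lit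 0) (XT.lf (nat_lit 0) (nat_lit 2450126415) (nat_lit 608) (nat_lit 1184354235) (nat_lit 76) (nat_lit 5108418799) (nat_lit 88) (nat_lit 5) (nat_lit 96) (nat_lit 5) (nat_lit 89) (nat_lit 5) (nat_lit 252) (nat_lit 245) (nat_lit 223)) (XT.lf (nat_lit 0) (nat_lit 4991560045) (nat_lit 684) (nat_lit 3080952690) (nat_lit 76) (nat_lit 986067607) (nat_lit 80) (nat_lit 5) (nat_lit 89) (nat_lit 5) (nat_lit 81) (nat_lit 5) (nat_lit 253) (nat_lit 245) (nat_lit 222))))))))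
noncomputable def xc59 : XT := (XT.nd (nat_lit 1482) (nat_lit 1292) (nat_lit 0) (XT.nd (nat_lit 702) (nat_lit 1520) (nat_lit 0) (XT.nd (nat_lit 312) (nat_lit 1216) (nat_lit 0) (XT.nd (nat_lit 156) (nat_lit 380) (nat_lit 0) (XT.nd (nat_lit 78) (nat_lit 456) (nat_lit 0) (XT.lf (nat_lit 0) (nat_lit 4294993089) (nat_lit 684) (nat_lit 3439263348) (nat_lit 760) (nat_lit 1665832624) (nat_lit 71) (nat_lit 5) (nat_lit 80) (nat_lit 5) (nat_lit 81) (nat_lit 5) (nat_lit 254) (nat_lit 245) (nat_lit 221)) (XT.lf (nat_lit 0) (nat_lit 873266790) (nat_lit 456) (nat_lit 7263419438) (nat_lit 76) (nat_lit 1633148328) (nat_lit 65) (nat_lit 5) (nat_lit 71) (nat_lit 5) (nat_lit 66) (nat_lit 5) (nat_lit 255) (nat_lit 245) (nat_lit 220))) (XT.nd (nat_lit 78) (nat_lit 0) (nat_lit 0) (XT.lf (nat_lit 0) (nat_lit 536231213) (nat_lit 380) (nat_lit 3042266252) (nat_lit 456) (nat_lit 6588612870) (nat_lit 60) (nat_lit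 5) (nat_lit 65) (nat_lit 5) (nat_lit 66) (nat_lit 5) (nat_lit 256) (nat_lit 245) (nat_lit 219)) (XT.lf (nat_lit 0) (nat_lit 6538953907) (nat_lit 456) (nat_lit 1549633453) (nat_lit 76) (nat_lit 2505996357) (nat_lit 60) (nat_lit 5) (nat_lit 66) (nat_lit 5) (nat_lit 61) (nat_lit 5) (nat_lit 257) (nat_lit 245) (nat_lit 218)))) (XT.nd (nat_lit 156) (nat_lit 532) (nat_lit 0) (XT.nd (nat_lit 78) (nat_lit 380) (nat_lit 0) (XT.lf (nat_lit 0) (nat_lit 7229936573) (nat_lit 304) (nat_lit 2551790012) (nat_lit 380) (nat_lit 1272583940) (nat_lit 56) (nat_lit 5) (nat_lit 60) (nat_lit 5) (nat_lit 61) (nat_lit 5) (nat_lit 258) (nat_lit 245) (nat_lit 217)) (XT.lf (nat_lit 0) (nat_lit 1728342747) (nat_lit 380) (nat_lit 6374647467) (nat_lit 76) (nat_lit 3444227570) (nat_lit 51) (nat_lit 5) (nat_lit 56) (nat_lit 5) (nat_lit 52) (nat_lit 5) (nat_lit 259) (nat_lit 245) (nat_lit 216))) (XT.nd (nat_lit 78) (nat_lit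 304) (nat_lit 0) (XT.lf (nat_lit 0) (nat_lit 2848525582) (nat_lit 228) (nat_lit 2124421921) (nat_lit 304) (nat_lit 7103426640) (nat_lit 48) (nat_lit 5) (nat_lit 51) (nat_lit 5) (nat_lit 52) (nat_lit 5) (nat_lit 260) (nat_lit 245) (nat_lit 215)) (XT.nd (nat_lit 78) (nat_lit 0) (nat_lit 0) (XT.lf (nat_lit 0) (nat_lit 205811824) (nat_lit 304) (nat_lit 8353180976) (nat_lit 380) (nat_lit 4085025748) (nat_lit 44) (nat_lit 5) (nat_lit 48) (nat_lit 5) (nat_lit 49) (nat_lit 5) (nat_lit 261) (nat_lit 245) (nat_lit 214)) (XT.lf (nat_lit 0) (nat_lit 10565974769) (nat_lit 304) (nat_lit 1965748334) (nat_lit 380) (nat_lit 720592023) (nat_lit 44) (nat_lit 5) (nat_lit 48) (nat_lit 5) (nat_lit 49) (nat_lit 5) (nat_lit 262) (nat_lit 245) (nat_lit 213)))))) (XT.nd (nat_lit 390) (nat_lit 532) (nat_lit 0) (XT.nd (nat_lit 156) (nat_lit 456) (nat_lit 0) (XT.nd (nat_lit 78) (nat_lit 228) (nat_lit 0) (XT.lf (nat_lit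 0) (nat_lit 2932402088) (nat_lit 304) (nat_lit 6045621701) (nat_lit 76) (nat_lit 4923549081) (nat_lit 40) (nat_lit 5) (nat_lit 44) (nat_lit 5) (nat_lit 41) (nat_lit 5) (nat_lit 263) (nat_lit 245) (nat_lit 212)) (XT.lf (nat_lit 0) (nat_lit 4728325869) (nat_lit 228) (nat_lit 2192828704) (nat_lit 304) (nat_lit 7677776128) (nat_lit 37) (nat_lit 5) (nat_lit 40) (nat_lit 5) (nat_lit 41) (nat_lit 5) (nat_lit 264) (nat_lit 245) (nat_lit 211))) (XT.nd (nat_lit 78) (nat_lit 304) (nat_lit 0) (XT.lf (nat_lit 0) (nat_lit 1072773802) (nat_lit 152) (nat_lit 10278333889) (nat_lit 228) (nat_lit 3995038854) (nat_lit 35) (nat_lit 5) (nat_lit 37) (nat_lit 5) (nat_lit 38) (nat_lit 5) (nat_lit 265) (nat_lit 245) (nat_lit 210)) (XT.nd (nat_lit 78) (nat_lit 228) (nat_lit 0) (XT.lf (nat_lit 0) (nat_lit 115707048) (nat_lit 228) (nat_lit 3050742343) (nat_lit 76) (nat_lit 12980216685) (nat_lit 34) (nat_lit 5) (nat_lit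 37) (nat_lit 5) (nat_lit 35) (nat_lit 5) (nat_lit 266) (nat_lit 245) (nat_lit 209)) (XT.lf (nat_lit 0) (nat_lit 4561176142) (nat_lit 304) (nat_lit 7883930101) (nat_lit 76) (nat_lit 4555697199) (nat_lit 31) (nat_lit 5) (nat_lit 35) (nat_lit 5) (nat_lit 32) (nat_lit 5) (nat_lit 267) (nat_lit 245) (nat_lit 208))))) (XT.nd (nat_lit 156) (nat_lit 380) (nat_lit 0) (XT.nd (nat_lit 78) (nat_lit 0) (nat_lit 0) (XT.lf (nat_lit 0) (nat_lit 4432575002) (nat_lit 152) (nat_lit 5036682029) (nat_lit 228) (nat_lit 8448797912) (nat_lit 29) (nat_lit 5) (nat_lit 31) (nat_lit 5) (nat_lit 32) (nat_lit 5) (nat_lit 268) (nat_lit 245) (nat_lit 207)) (XT.lf (nat_lit 0) (nat_lit 14889379775) (nat_lit 228) (nat_lit 1034216590) (nat_lit 76) (nat_lit 2979242520) (nat_lit 29) (nat_lit 5) (nat_lit 32) (nat_lit 5) (nat_lit 30) (nat_lit 5) (nat_lit 269) (nat_lit 245) (nat_lit 206))) (XT.nd (nat_lit 78) (nat_lit 152) (nat_lit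 0) (XT.lf (nat_lit 0) (nat_lit 976088032) (nat_lit 228) (nat_lit 7330837156) (nat_lit 76) (nat_lit 11647769655) (nat_lit 26) (nat_lit 5) (nat_lit 29) (nat_lit 5) (nat_lit 27) (nat_lit 5) (nat_lit 270) (nat_lit 245) (nat_lit 205)) (XT.nd (nat_lit 78) (nat_lit 0) (nat_lit 0) (XT.lf (nat_lit 0) (nat_lit 6285649766) (nat_lit 228) (nat_lit 14718716792) (nat_lit 76) (nat_lit 80069545) (nat_lit 24) (nat_lit 5) (nat_lit 27) (nat_lit 5) (nat_lit 25) (nat_lit 5) (nat_lit 271) (nat_lit 245) (nat_lit 204)) (XT.lf (nat_lit 0) (nat_lit 12232991732) (nat_lit 228) (nat_lit 1109514663) (nat_lit 76) (nat_lit 8951491807) (nat_lit 24) (nat_lit 5) (nat_lit 27) (nat_lit 5) (nat_lit 25) (nat_lit 5) (nat_lit 272) (nat_lit 245) (nat_lit 203))))))) (XT.nd (nat_lit 780) (nat_lit 456) (nat_lit 0) (XT.nd (nat_lit 390) (nat_lit 380) (nat_lit 0) (XT.nd (nat_lit 156) (nat_lit 152) (nat_lit 0) (XT.nd (nat_lit 78) (nat_lit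 152) (nat_lit 0) (XT.lf (nat_lit 0) (nat_lit 13952622754) (nat_lit 152) (nat_lit 4868702187) (nat_lit 228) (nat_lit 4770825602) (nat_lit 22) (nat_lit 5) (nat_lit 24) (nat_lit 5) (nat_lit 25) (nat_lit 5) (nat_lit 273) (nat_lit 245) (nat_lit 202)) (XT.lf (nat_lit 0) (nat_lit 1032915999) (nat_lit 152) (nat_lit 19717679087) (nat_lit 76) (nat_lit 4236873825) (nat_lit 20) (nat_lit 5) (nat_lit 22) (nat_lit 5) (nat_lit 21) (nat_lit 5) (nat_lit 274) (nat_lit 245) (nat_lit 201))) (XT.nd (nat_lit 78) (nat_lit 152) (nat_lit 0) (XT.lf (nat_lit 0) (nat_lit 7340060438) (nat_lit 152) (nat_lit 5014317002) (nat_lit 76) (nat_lit 14125882082) (nat_lit 20) (nat_lit 5) (nat_lit 22) (nat_lit 5) (nat_lit 21) (nat_lit 5) (nat_lit 275) (nat_lit 245) (nat_lit 200)) (XT.nd (nat_lit 78) (nat_lit 0) (nat_lit 0) (XT.lf (nat_lit 0) (nat_lit 11148922810) (nat_lit 152) (nat_lit 3131783584) (nat_lit 228) (nat_lit 13805385105)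 (nat_lit 18) (nat_lit 5) (nat_lit 20) (nat_lit 5) (nat_lit 21) (nat_lit 5) (nat_lit 276) (nat_lit 245) (nat_lit 199)) (XT.lf (nat_lit 0) (nat_lit 21928685803) (nat_lit 228) (nat_lit 1211611230) (nat_lit 76) (nat_lit 6672548741) (nat_lit 18) (nat_lit 5) (nat_lit 21) (nat_lit 5) (nat_lit 19) (nat_lit 4) (nat_lit 277) (nat_lit 245) (nat_lit 198))))) (XT.nd (nat_lit 156) (nat_lit 76) (nat_lit 0) (XT.nd (nat_lit 78) (nat_lit 228) (nat_lit 0) (XT.lf (nat_lit 0) (nat_lit 16170227622) (nat_lit 76) (nat_lit 14283444107) (nat_lit 152) (nat_lit 1210865652) (nat_lit 17) (nat_lit 5) (nat_lit 18) (nat_lit 5) (nat_lit 19) (nat_lit 4) (nat_lit 278) (nat_lit 245) (nat_lit 197)) (XT.lf (nat_lit 0) (nat_lit 1202136303) (nat_lit 152) (nat_lit 4603657991) (nat_lit 228) (nat_lit 27853866884) (nat_lit 14) (nat_lit 5) (nat_lit 16) (nat_lit 5) (nat_lit 17) (nat_lit 5) (nat_lit 279) (nat_lit 245) (nat_lit 196)))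 (XT.nd (nat_lit 78) (nat_lit 76) (nat_lit 0) (XT.lf (nat_lit 0) (nat_lit 13670310630) (nat_lit 228) (nat_lit 16193108966) (nat_lit 76) (nat_lit 5933580681) (nat_lit 14) (nat_lit 5) (nat_lit 17) (nat_lit 5) (nat_lit 15) (nat_lit 4) (nat_lit 280) (nat_lit 245) (nat_lit 195)) (XT.nd (nat_lit 78) (nat_lit 0) (nat_lit 0) (XT.lf (nat_lit 0) (nat_lit 1276792903) (nat_lit 76) (nat_lit 20950228841) (nat_lit 152) (nat_lit 15875194968) (nat_lit 13) (nat_lit 5) (nat_lit 14) (nat_lit 5) (nat_lit 15) (nat_lit 4) (nat_lit 281) (nat_lit 245) (nat_lit 194)) (XT.lf (nat_lit 0) (nat_lit 20666191053) (nat_lit 76) (nat_lit 11051303101) (nat_lit 152) (nat_lit 8861933868) (nat_lit 13) (nat_lit 5) (nat_lit 14) (nat_lit 5) (nat_lit 15) (nat_lit 4) (nat_lit 282) (nat_lit 245) (nat_lit 193)))))) (XT.nd (nat_lit 390) (nat_lit 228) (nat_lit 0) (XT.nd (nat_lit 156) (nat_lit 76) (nat_lit 0) (XT.nd (nat_lit 78) (nat_lit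 152) (nat_lit 0) (XT.lf (nat_lit 0) (nat_lit 41554568308) (nat_lit 76) (nat_lit 382220213) (nat_lit 152) (nat_lit 1319584416) (nat_lit 13) (nat_lit 5) (nat_lit 14) (nat_lit 5) (nat_lit 15) (nat_lit 4) (nat_lit 283) (nat_lit 245) (nat_lit 192)) (XT.lf (nat_lit 0) (nat_lit 7046352872) (nat_lit 152) (nat_lit 27909731645) (nat_lit 76) (nat_lit 11164157852) (nat_lit 11) (nat_lit 5) (nat_lit 13) (nat_lit 5) (nat_lit 12) (nat_lit 4) (nat_lit 284) (nat_lit 245) (nat_lit 191))) (XT.nd (nat_lit 78) (nat_lit 76) (nat_lit 0) (XT.lf (nat_lit 0) (nat_lit 16044946306) (nat_lit 152) (nat_lit 9512566275) (nat_lit 76) (nat_lit 23654175818) (nat_lit 11) (nat_lit 5) (nat_lit 13) (nat_lit 5) (nat_lit 12) (nat_lit 4) (nat_lit 285) (nat_lit 245) (nat_lit 190)) (XT.nd (nat_lit 78) (nat_lit 0) (nat_lit 0) (XT.lf (nat_lit 0) (nat_lit 10652668857) (nat_lit 76) (nat_lit 15251539017) (nat_lit 152) (nat_lit 26639230353)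 (nat_lit 10) (nat_lit 5) (nat_lit 11) (nat_lit 5) (nat_lit 12) (nat_lit 4) (nat_lit 286) (nat_lit 245) (nat_lit 189)) (XT.lf (nat_lit 0) (nat_lit 32728098744) (nat_lit 76) (nat_lit 3965501794) (nat_lit 152) (nat_lit 19441083128) (nat_lit 10) (nat_lit 5) (nat_lit 11) (nat_lit 5) (nat_lit 12) (nat_lit 4) (nat_lit 287) (nat_lit 245) (nat_lit 188))))) (XT.nd (nat_lit 156) (nat_lit 152) (nat_lit 0) (XT.nd (nat_lit 78) (nat_lit 76) (nat_lit 0) (XT.lf (nat_lit 0) (nat_lit 48451757536) (nat_lit 152) (nat_lit 3612489833) (nat_lit 0) (nat_lit 7943724002) (nat_lit 10) (nat_lit 5) (nat_lit 12) (nat_lit 4) (nat_lit 10) (nat_lit 4) (nat_lit 288) (nat_lit 245) (nat_lit 187)) (XT.lf (nat_lit 0) (nat_lit 18244775589) (nat_lit 76) (nat_lit 43236418732) (nat_lit 76) (nat_lit 2693417960) (nat_lit 9) (nat_lit 4) (nat_lit 10) (nat_lit 5) (nat_lit 10) (nat_lit 4) (nat_lit 289) (nat_lit 245) (nat_lit 186)))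 (XT.nd (nat_lit 78) (nat_lit 76) (nat_lit 0) (XT.lf (nat_lit 0) (nat_lit 6701772685) (nat_lit 152) (nat_lit 26836743839) (nat_lit 76) (nat_lit 35128541240) (nat_lit 8) (nat_lit 5) (nat_lit 10) (nat_lit 5) (nat_lit 9) (nat_lit 4) (nat_lit 290) (nat_lit 245) (nat_lit 185)) (XT.nd (nat_lit 78) (nat_lit 76) (nat_lit 0) (XT.lf (nat_lit 0) (nat_lit 16736553735) (nat_lit 152) (nat_lit 6295421458) (nat_lit 76) (nat_lit 50485616601) (nat_lit 8) (nat_lit 5) (nat_lit 10) (nat_lit 5) (nat_lit 9) (nat_lit 4) (nat_lit 291) (nat_lit 245) (nat_lit 184)) (XT.lf (nat_lit 0) (nat_lit 16382242682) (nat_lit 76) (nat_lit 11430126790) (nat_lit 152) (nat_lit 50931902755) (nat_lit 7) (nat_lit 5) (nat_lit 8) (nat_lit 5) (nat_lit 9) (nat_lit 4) (nat_lit 292) (nat_lit 245) (nat_lit 183))))))))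
noncomputable def xc60 : XT := (XT.nd (nat_lit 1482) (nat_lit 152) (nat_lit 0) (XT.nd (nat_lit 702) (nat_lit 76) (nat_lit 0) (XT.nd (nat_lit 312) (nat_lit 152) (nat_lit 0) (XT.nd (nat_lit 156) (nat_lit 76) (nat_lit 0) (XT.nd (nat_lit 78) (nat_lit 0) (nat_lit 0) (XT.lf (nat_lit 0) (nat_lit 39885985485) (nat_lit 152) (nat_lit 43334227033) (nat_lit 0) (nat_lit 1163302913) (nat_lit 7) (nat_lit 5) (nat_lit 9) (nat_lit 4) (nat_lit 7) (nat_lit 4) (nat_lit 293) (nat_lit 245) (nat_lit 182)) (XT.lf (nat_lit 0) (nat_lit 53102578272) (nat_lit 152) (nat_lit 23005248584) (nat_lit 0) (nat_lit 14357230828) (nat_lit 7) (nat_lit 5) (nat_lit 9) (nat_lit 4) (nat_lit 7) (nat_lit 4) (nat_lit 294) (nat_lit 245) (nat_lit 181))) (XT.nd (nat_lit 78) (nat_lit 76) (nat_lit 0) (XT.lf (nat_lit 0) (nat_lit 67362012070) (nat_lit 152) (nat_lit 1076169867) (nat_lit 0) (nat_lit 28595678635) (nat_lit 7) (nat_lit 5) (nat_lit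 9) (nat_lit 4) (nat_lit 7) (nat_lit 4) (nat_lit 295) (nat_lit 245) (nat_lit 180)) (XT.lf (nat_lit 0) (nat_lit 23329653833) (nat_lit 76) (nat_lit 59783374673) (nat_lit 76) (nat_lit 20997609764) (nat_lit 6) (nat_lit 4) (nat_lit 7) (nat_lit 5) (nat_lit 7) (nat_lit 4) (nat_lit 296) (nat_lit 245) (nat_lit 179)))) (XT.nd (nat_lit 156) (nat_lit 152) (nat_lit 0) (XT.nd (nat_lit 78) (nat_lit 0) (nat_lit 0) (XT.lf (nat_lit 0) (nat_lit 49703152179) (nat_lit 76) (nat_lit 50426937957) (nat_lit 76) (nat_lit 11623180942) (nat_lit 6) (nat_lit 4) (nat_lit 7) (nat_lit 5) (nat_lit 7) (nat_lit 4) (nat_lit 297) (nat_lit 245) (nat_lit 178)) (XT.lf (nat_lit 0) (nat_lit 78165029530) (nat_lit 76) (nat_lit 40331651696) (nat_lit 76) (nat_lit 1511235324) (nat_lit 6) (nat_lit 4) (nat_lit 7) (nat_lit 5) (nat_lit 7) (nat_lit 4) (nat_lit 298) (nat_lit 245) (nat_lit 177))) (XT.nd (nat_lit 78) (nat_lit 76) (nat_lit 0)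 (XT.lf (nat_lit 0) (nat_lit 9097350246) (nat_lit 152) (nat_lit 20186273698) (nat_lit 76) (nat_lit 99632530591) (nat_lit 5) (nat_lit 5) (nat_lit 7) (nat_lit 5) (nat_lit 6) (nat_lit 4) (nat_lit 299) (nat_lit 245) (nat_lit 176)) (XT.nd (nat_lit 78) (nat_lit 0) (nat_lit 0) (XT.lf (nat_lit 0) (nat_lit 3263040998) (nat_lit 76) (nat_lit 17279966520) (nat_lit 152) (nat_lit 117990747145) (nat_lit 4) (nat_lit 5) (nat_lit 5) (nat_lit 5) (nat_lit 6) (nat_lit 4) (nat_lit 300) (nat_lit 245) (nat_lit 175)) (XT.lf (nat_lit 0) (nat_lit 29291179294) (nat_lit 76) (nat_lit 3954932142) (nat_lit 152) (nat_lit 115657569426) (nat_lit 4) (nat_lit 5) (nat_lit 5) (nat_lit 5) (nat_lit 6) (nat_lit 4) (nat_lit 301) (nat_lit 245) (nat_lit 174)))))) (XT.nd (nat_lit 390) (nat_lit 76) (nat_lit 0) (XT.nd (nat_lit 156) (nat_lit 0) (nat_lit 0) (XT.nd (nat_lit 78) (nat_lit 0) (nat_lit 0) (XT.lf (nat_lit 0) (nat_lit 47119173920)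 (nat_lit 152) (nat_lit 102881550491) (nat_lit 0) (nat_lit 10094798419) (nat_lit 4) (nat_lit 5) (nat_lit 6) (nat_lit 4) (nat_lit 4) (nat_lit 4) (nat_lit 302) (nat_lit 245) (nat_lit 173)) (XT.lf (nat_lit 0) (nat_lit 62160225641) (nat_lit 152) (nat_lit 84894533988) (nat_lit 0) (nat_lit 25125051970) (nat_lit 4) (nat_lit 5) (nat_lit 6) (nat_lit 4) (nat_lit 4) (nat_lit 4) (nat_lit 303) (nat_lit 245) (nat_lit 172))) (XT.nd (nat_lit 78) (nat_lit 0) (nat_lit 0) (XT.lf (nat_lit 0) (nat_lit 78396651183) (nat_lit 152) (nat_lit 65483114758) (nat_lit 0) (nat_lit 41351479207) (nat_lit 4) (nat_lit 5) (nat_lit 6) (nat_lit 4) (nat_lit 4) (nat_lit 4) (nat_lit 304) (nat_lit 245) (nat_lit 171)) (XT.nd (nat_lit 78) (nat_lit 0) (nat_lit 0) (XT.lf (nat_lit 0) (nat_lit 95924666401) (nat_lit 152) (nat_lit 44532262167) (nat_lit 0) (nat_lit 58870236735) (nat_lit 4) (nat_lit 5) (nat_lit 6) (nat_lit 4) (nat_lit 4)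 (nat_lit 4) (nat_lit 305) (nat_lit 245) (nat_lit 170)) (XT.lf (nat_lit 0) (nat_lit 114848141016) (nat_lit 152) (nat_lit 21917823016) (nat_lit 0) (nat_lit 77785139414) (nat_lit 4) (nat_lit 5) (nat_lit 6) (nat_lit 4) (nat_lit 4) (nat_lit 4) (nat_lit 306) (nat_lit 245) (nat_lit 169))))) (XT.nd (nat_lit 156) (nat_lit 0) (nat_lit 0) (XT.nd (nat_lit 78) (nat_lit 0) (nat_lit 0) (XT.lf (nat_lit 0) (nat_lit 2576684171) (nat_lit 76) (nat_lit 132742759225) (nat_lit 76) (nat_lit 95671820645) (nat_lit 3) (nat_lit 4) (nat_lit 4) (nat_lit 5) (nat_lit 4) (nat_lit 4) (nat_lit 307) (nat_lit 245) (nat_lit 168)) (XT.lf (nat_lit 0) (nat_lit 29802375501) (nat_lit 76) (nat_lit 128001881887) (nat_lit 76) (nat_lit 90923594255) (nat_lit 3) (nat_lit 4) (nat_lit 4) (nat_lit 5) (nat_lit 4) (nat_lit 4) (nat_lit 308) (nat_lit 245) (nat_lit 167))) (XT.nd (nat_lit 78) (nat_lit 0) (nat_lit 0) (XT.lf (nat_lit 0) (nat_lit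 59195886189) (nat_lit 76) (nat_lit 122886426870) (nat_lit 76) (nat_lit 85801334559) (nat_lit 3) (nat_lit 4) (nat_lit 4) (nat_lit 5) (nat_lit 4) (nat_lit 4) (nat_lit 309) (nat_lit 245) (nat_lit 166)) (XT.nd (nat_lit 78) (nat_lit 0) (nat_lit 0) (XT.lf (nat_lit 0) (nat_lit 90931400003) (nat_lit 76) (nat_lit 117366080365) (nat_lit 76) (nat_lit 80274687426) (nat_lit 3) (nat_lit 4) (nat_lit 4) (nat_lit 5) (nat_lit 4) (nat_lit 4) (nat_lit 310) (nat_lit 245) (nat_lit 165)) (XT.lf (nat_lit 0) (nat_lit 125196979247) (nat_lit 76) (nat_lit 111408129209) (nat_lit 76) (nat_lit 74310902355) (nat_lit 3) (nat_lit 4) (nat_lit 4) (nat_lit 5) (nat_lit 4) (nat_lit 4) (nat_lit 311) (nat_lit 245) (nat_lit 164))))))) (XT.nd (nat_lit 702) (nat_lit 76) (nat_lit 0) (XT.nd (nat_lit 312) (nat_lit 76) (nat_lit 0) (XT.nd (nat_lit 156) (nat_lit 0) (nat_lit 0) (XT.nd (nat_lit 78) (nat_lit 0) (nat_lit 0) (XT.lf (nat_lit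 0) (nat_lit 162195679205) (nat_lit 76) (nat_lit 104977267025) (nat_lit 76) (nat_lit 67874638397) (nat_lit 3) (nat_lit 4) (nat_lit 4) (nat_lit 5) (nat_lit 4) (nat_lit 4) (nat_lit 312) (nat_lit 245) (nat_lit 163)) (XT.lf (nat_lit 0) (nat_lit 202146751432) (nat_lit 76) (nat_lit 98035384998) (nat_lit 76) (nat_lit 60927754728) (nat_lit 3) (nat_lit 4) (nat_lit 4) (nat_lit 5) (nat_lit 4) (nat_lit 4) (nat_lit 313) (nat_lit 245) (nat_lit 162))) (XT.nd (nat_lit 78) (nat_lit 0) (nat_lit 0) (XT.lf (nat_lit 0) (nat_lit 245286943024) (nat_lit 76) (nat_lit 90541346052) (nat_lit 76) (nat_lit 53429084632) (nat_lit 3) (nat_lit 4) (nat_lit 4) (nat_lit 5) (nat_lit 4) (nat_lit 4) (nat_lit 314) (nat_lit 245) (nat_lit 161)) (XT.lf (nat_lit 0) (nat_lit 291871899560) (nat_lit 76) (nat_lit 82450741065) (nat_lit 76) (nat_lit 45334191543) (nat_lit 3) (nat_lit 4) (nat_lit 4) (nat_lit 5) (nat_lit 4) (nat_lit 4) (nat_lit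 315) (nat_lit 245) (nat_lit 160)))) (XT.nd (nat_lit 156) (nat_lit 76) (nat_lit 0) (XT.nd (nat_lit 78) (nat_lit 0) (nat_lit 0) (XT.lf (nat_lit 0) (nat_lit 342177680041) (nat_lit 76) (nat_lit 73715625712) (nat_lit 76) (nat_lit 36595105726) (nat_lit 3) (nat_lit 4) (nat_lit 4) (nat_lit 5) (nat_lit 4) (nat_lit 4) (nat_lit 316) (nat_lit 245) (nat_lit 159)) (XT.lf (nat_lit 0) (nat_lit 396502392797) (nat_lit 76) (nat_lit 64284236347) (nat_lit 76) (nat_lit 27160040004) (nat_lit 3) (nat_lit 4) (nat_lit 4) (nat_lit 5) (nat_lit 4) (nat_lit 4) (nat_lit 317) (nat_lit 245) (nat_lit 158))) (XT.nd (nat_lit 78) (nat_lit 76) (nat_lit 0) (XT.lf (nat_lit 0) (nat_lit 455167962051) (nat_lit 76) (nat_lit 54100683254) (nat_lit 76) (nat_lit 16973082878) (nat_lit 3) (nat_lit 4) (nat_lit 4) (nat_lit 5) (nat_lit 4) (nat_lit 4) (nat_lit 318) (nat_lit 245) (nat_lit 157)) (XT.nd (nat_lit 78) (nat_lit 76) (nat_lit 0)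 (XT.lf (nat_lit 0) (nat_lit 518522035621) (nat_lit 76) (nat_lit 43104619453) (nat_lit 76) (nat_lit 5973867194) (nat_lit 3) (nat_lit 4) (nat_lit 4) (nat_lit 5) (nat_lit 4) (nat_lit 4) (nat_lit 319) (nat_lit 245) (nat_lit 156)) (XT.lf (nat_lit 0) (nat_lit 5713861518) (nat_lit 152) (nat_lit 25420254557) (nat_lit 76) (nat_lit 581129416526) (nat_lit 2) (nat_lit 5) (nat_lit 4) (nat_lit 5) (nat_lit 3) (nat_lit 4) (nat_lit 320) (nat_lit 245) (nat_lit 155)))))) (XT.nd (nat_lit 31746) (nat_lit 0) (nat_lit 6536) (XT.nd (nat_lit 156) (nat_lit 0) (nat_lit 0) (XT.nd (nat_lit 78) (nat_lit 0) (nat_lit 0) (XT.lf (nat_lit 0) (nat_lit 26617250) (nat_lit 76) (nat_lit 18101670628) (nat_lit 152) (nat_lit 642366352127) (nat_lit 1) (nat_lit 5) (nat_lit 2) (nat_lit 5) (nat_lit 3) (nat_lit 4) (nat_lit 321) (nat_lit 245) (nat_lit 154)) (XT.lf (nat_lit 0) (nat_lit 28413027376) (nat_lit 76) (nat_lit 3563510351) (nat_lit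 152) (nat_lit 680585666274) (nat_lit 1) (nat_lit 5) (nat_lit 2) (nat_lit 5) (nat_lit 3) (nat_lit 4) (nat_lit 322) (nat_lit 245) (nat_lit 153))) (XT.nd (nat_lit 78) (nat_lit 0) (nat_lit 0) (XT.lf (nat_lit 0) (nat_lit 47120147831) (nat_lit 152) (nat_lit 709918067321) (nat_lit 0) (nat_lit 11747584312) (nat_lit 1) (nat_lit 5) (nat_lit 3) (nat_lit 4) (nat_lit 1) (nat_lit 4) (nat_lit 323) (nat_lit 245) (nat_lit 152)) (XT.nd (nat_lit 31434) (nat_lit 0) (nat_lit 7524) (XT.lf (nat_lit 0) (nat_lit 63533479136) (nat_lit 152) (nat_lit 737812020419) (nat_lit 0) (nat_lit 28158872647) (nat_lit 1) (nat_lit 5) (nat_lit 3) (nat_lit 4) (nat_lit 1) (nat_lit 4) (nat_lit 324) (nat_lit 245) (nat_lit 151)) (XT.lf (nat_lit 0) (nat_lit 3011222321) (nat_lit 532) (nat_lit 371628229) (nat_lit 532) (nat_lit 371628229) (nat_lit 100) (nat_lit 3) (nat_lit 107) (nat_lit 3) (nat_lit 107) (nat_lit 5) (nat_lit 246) (nat_lit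 246) (nat_lit 228))))) (XT.nd (nat_lit 156) (nat_lit 456) (nat_lit 0) (XT.nd (nat_lit 78) (nat_lit 0) (nat_lit 0) (XT.lf (nat_lit 0) (nat_lit 658182624) (nat_lit 532) (nat_lit 2993962079) (nat_lit 608) (nat_lit 4043384927) (nat_lit 93) (nat_lit 5) (nat_lit 100) (nat_lit 3) (nat_lit 101) (nat_lit 5) (nat_lit 247) (nat_lit 246) (nat_lit 227)) (XT.lf (nat_lit 76) (nat_lit 2653072580) (nat_lit 0) (nat_lit 114727386) (nat_lit 608) (nat_lit 5136464009) (nat_lit 94) (nat_lit 5) (nat_lit 93) (nat_lit 5) (nat_lit 101) (nat_lit 5) (nat_lit 248) (nat_lit 246) (nat_lit 226))) (XT.nd (nat_lit 78) (nat_lit 532) (nat_lit 0) (XT.lf (nat_lit 76) (nat_lit 565781593) (nat_lit 0) (nat_lit 4405311739) (nat_lit 608) (nat_lit 3163030887) (nat_lit 95) (nat_lit 5) (nat_lit 94) (nat_lit 5) (nat_lit 102) (nat_lit 5) (nat_lit 249) (nat_lit 246) (nat_lit 225)) (XT.nd (nat_lit 78) (nat_lit 532) (nat_lit 0) (XT.lf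 (nat_lit 76) (nat_lit 6913768218) (nat_lit 0) (nat_lit 348024403) (nat_lit 608) (nat_lit 1125646209) (nat_lit 95) (nat_lit 5) (nat_lit 94) (nat_lit 5) (nat_lit 102) (nat_lit 5) (nat_lit 250) (nat_lit 246) (nat_lit 224)) (XT.lf (nat_lit 0) (nat_lit 1013933709) (nat_lit 608) (nat_lit 3591692014) (nat_lit 684) (nat_lit 4056422873) (nat_lit 87) (nat_lit 5) (nat_lit 95) (nat_lit 5) (nat_lit 96) (nat_lit 5) (nat_lit 251) (nat_lit 246) (nat_lit 223))))))))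
noncomputable def xc61 : XT := (XT.nd (nat_lit 1482) (nat_lit 1368) (nat_lit 0) (XT.nd (nat_lit 702) (nat_lit 1824) (nat_lit 0) (XT.nd (nat_lit 312) (nat_lit 1444) (nat_lit 0) (XT.nd (nat_lit 156) (nat_lit 760) (nat_lit 0) (XT.nd (nat_lit 78) (nat_lit 532) (nat_lit 0) (XT.lf (nat_lit 76) (nat_lit 3188514763) (nat_lit 0) (nat_lit 18696287) (nat_lit 684) (nat_lit 5754903442) (nat_lit 88) (nat_lit 5) (nat_lit 87) (nat_lit 5) (nat_lit 96) (nat_lit 5) (nat_lit 252) (nat_lit 246) (nat_lit 222)) (XT.lf (nat_lit 0) (nat_lit 1191712348) (nat_lit 608) (nat_lit 4393778761) (nat_lit 684) (nat_lit 3700688280) (nat_lit 80) (nat_lit 5) (nat_lit 88) (nat_lit 5) (nat_lit 89) (nat_lit 5) (nat_lit 253) (nat_lit 246) (nat_lit 221))) (XT.nd (nat_lit 78) (nat_lit 760) (nat_lit 0) (XT.lf (nat_lit 0) (nat_lit 8125151756) (nat_lit 684) (nat_lit 848476693) (nat_lit 76) (nat_lit 664421008) (nat_lit 80) (nat_lit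 5) (nat_lit 89) (nat_lit 5) (nat_lit 81) (nat_lit 5) (nat_lit 254) (nat_lit 246) (nat_lit 220)) (XT.lf (nat_lit 0) (nat_lit 876965865) (nat_lit 760) (nat_lit 3020116745) (nat_lit 76) (nat_lit 6117994800) (nat_lit 70) (nat_lit 5) (nat_lit 80) (nat_lit 5) (nat_lit 71) (nat_lit 5) (nat_lit 255) (nat_lit 246) (nat_lit 219)))) (XT.nd (nat_lit 156) (nat_lit 684) (nat_lit 0) (XT.nd (nat_lit 78) (nat_lit 380) (nat_lit 0) (XT.lf (nat_lit 0) (nat_lit 3402855694) (nat_lit 456) (nat_lit 5354712465) (nat_lit 76) (nat_lit 1663923180) (nat_lit 65) (nat_lit 5) (nat_lit 71) (nat_lit 5) (nat_lit 66) (nat_lit 5) (nat_lit 256) (nat_lit 246) (nat_lit 218)) (XT.lf (nat_lit 0) (nat_lit 2960707410) (nat_lit 380) (nat_lit 3218778473) (nat_lit 456) (nat_lit 4678828586) (nat_lit 60) (nat_lit 5) (nat_lit 65) (nat_lit 5) (nat_lit 66) (nat_lit 5) (nat_lit 257) (nat_lit 246) (nat_lit 217))) (XT.nd (nat_lit 78) (nat_lit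 380) (nat_lit 0) (XT.lf (nat_lit 0) (nat_lit 664993117) (nat_lit 304) (nat_lit 8551674911) (nat_lit 380) (nat_lit 2111799475) (nat_lit 56) (nat_lit 5) (nat_lit 60) (nat_lit 5) (nat_lit 61) (nat_lit 5) (nat_lit 258) (nat_lit 246) (nat_lit 216)) (XT.nd (nat_lit 78) (nat_lit 304) (nat_lit 0) (XT.lf (nat_lit 0) (nat_lit 728040746) (nat_lit 380) (nat_lit 1818949102) (nat_lit 76) (nat_lit 9284566731) (nat_lit 55) (nat_lit 5) (nat_lit 60) (nat_lit 5) (nat_lit 56) (nat_lit 5) (nat_lit 259) (nat_lit 246) (nat_lit 215)) (XT.lf (nat_lit 0) (nat_lit 3810680444) (nat_lit 380) (nat_lit 4596257577) (nat_lit 76) (nat_lit 3961992952) (nat_lit 51) (nat_lit 5) (nat_lit 56) (nat_lit 5) (nat_lit 52) (nat_lit 5) (nat_lit 260) (nat_lit 246) (nat_lit 214)))))) (XT.nd (nat_lit 390) (nat_lit 760) (nat_lit 0) (XT.nd (nat_lit 156) (nat_lit 532) (nat_lit 0) (XT.nd (nat_lit 78) (nat_lit 304) (nat_lit 0) (XT.lf (nat_lit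 0) (nat_lit 5265319907) (nat_lit 228) (nat_lit 1939703523) (nat_lit 304) (nat_lit 5741247972) (nat_lit 48) (nat_lit 5) (nat_lit 51) (nat_lit 5) (nat_lit 52) (nat_lit 5) (nat_lit 261) (nat_lit 246) (nat_lit 213)) (XT.lf (nat_lit 0) (nat_lit 2402796198) (nat_lit 304) (nat_lit 8578457779) (nat_lit 380) (nat_lit 2583241683) (nat_lit 44) (nat_lit 5) (nat_lit 48) (nat_lit 5) (nat_lit 49) (nat_lit 5) (nat_lit 262) (nat_lit 246) (nat_lit 212))) (XT.nd (nat_lit 78) (nat_lit 456) (nat_lit 0) (XT.lf (nat_lit 0) (nat_lit 885613532) (nat_lit 380) (nat_lit 812231861) (nat_lit 76) (nat_lit 12529640395) (nat_lit 43) (nat_lit 5) (nat_lit 48) (nat_lit 5) (nat_lit 44) (nat_lit 5) (nat_lit 263) (nat_lit 246) (nat_lit 211)) (XT.nd (nat_lit 78) (nat_lit 228) (nat_lit 0) (XT.lf (nat_lit 0) (nat_lit 4722391051) (nat_lit 304) (nat_lit 4468672901) (nat_lit 76) (nat_lit 5741462266) (nat_lit 40) (nat_lit 5) (nat_lit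 44) (nat_lit 5) (nat_lit 41) (nat_lit 5) (nat_lit 264) (nat_lit 246) (nat_lit 210)) (XT.lf (nat_lit 0) (nat_lit 7077639373) (nat_lit 228) (nat_lit 1868163358) (nat_lit 304) (nat_lit 6744344042) (nat_lit 37) (nat_lit 5) (nat_lit 40) (nat_lit 5) (nat_lit 41) (nat_lit 5) (nat_lit 265) (nat_lit 246) (nat_lit 209))))) (XT.nd (nat_lit 156) (nat_lit 532) (nat_lit 0) (XT.nd (nat_lit 78) (nat_lit 76) (nat_lit 0) (XT.lf (nat_lit 0) (nat_lit 3109880474) (nat_lit 152) (nat_lit 10549006435) (nat_lit 228) (nat_lit 2842049613) (nat_lit 35) (nat_lit 5) (nat_lit 37) (nat_lit 5) (nat_lit 38) (nat_lit 5) (nat_lit 266) (nat_lit 246) (nat_lit 208)) (XT.lf (nat_lit 0) (nat_lit 1444834165) (nat_lit 228) (nat_lit 1441843192) (nat_lit 76) (nat_lit 14483155976) (nat_lit 34) (nat_lit 5) (nat_lit 37) (nat_lit 5) (nat_lit 35) (nat_lit 5) (nat_lit 267) (nat_lit 246) (nat_lit 207))) (XT.nd (nat_lit 78) (nat_lit 304)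 (nat_lit 0) (XT.lf (nat_lit 0) (nat_lit 6184005345) (nat_lit 304) (nat_lit 6685502724) (nat_lit 76) (nat_lit 5426080947) (nat_lit 31) (nat_lit 5) (nat_lit 35) (nat_lit 5) (nat_lit 32) (nat_lit 5) (nat_lit 268) (nat_lit 246) (nat_lit 206)) (XT.nd (nat_lit 78) (nat_lit 152) (nat_lit 0) (XT.lf (nat_lit 0) (nat_lit 6536830514) (nat_lit 152) (nat_lit 4882038744) (nat_lit 228) (nat_lit 7870820991) (nat_lit 29) (nat_lit 5) (nat_lit 31) (nat_lit 5) (nat_lit 32) (nat_lit 5) (nat_lit 269) (nat_lit 246) (nat_lit 205)) (XT.lf (nat_lit 0) (nat_lit 570522329) (nat_lit 152) (nat_lit 16630745852) (nat_lit 228) (nat_lit 3155718779) (nat_lit 27) (nat_lit 5) (nat_lit 29) (nat_lit 5) (nat_lit 30) (nat_lit 5) (nat_lit 270) (nat_lit 246) (nat_lit 204))))))) (XT.nd (nat_lit 780) (nat_lit 380) (nat_lit 0) (XT.nd (nat_lit 390) (nat_lit 456) (nat_lit 0) (XT.nd (nat_lit 156) (nat_lit 304) (nat_lit 0) (XT.nd (nat_lit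 78) (nat_lit 152) (nat_lit 0) (XT.lf (nat_lit 0) (nat_lit 2127691994) (nat_lit 228) (nat_lit 6283334109) (nat_lit 76) (nat_lit 13084567659) (nat_lit 26) (nat_lit 5) (nat_lit 29) (nat_lit 5) (nat_lit 27) (nat_lit 5) (nat_lit 271) (nat_lit 246) (nat_lit 203)) (XT.lf (nat_lit 0) (nat_lit 7815403189) (nat_lit 228) (nat_lit 14289169178) (nat_lit 76) (nat_lit 613606123) (nat_lit 24) (nat_lit 5) (nat_lit 27) (nat_lit 5) (nat_lit 25) (nat_lit 5) (nat_lit 272) (nat_lit 246) (nat_lit 202))) (XT.nd (nat_lit 78) (nat_lit 152) (nat_lit 0) (XT.lf (nat_lit 0) (nat_lit 299308494) (nat_lit 152) (nat_lit 13867830289) (nat_lit 228) (nat_lit 9861059974) (nat_lit 22) (nat_lit 5) (nat_lit 24) (nat_lit 5) (nat_lit 25) (nat_lit 5) (nat_lit 273) (nat_lit 246) (nat_lit 201)) (XT.nd (nat_lit 78) (nat_lit 152) (nat_lit 0) (XT.lf (nat_lit 0) (nat_lit 16492170298) (nat_lit 152) (nat_lit 4737485399) (nat_lit 228) (nat_lit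 4203306099) (nat_lit 22) (nat_lit 5) (nat_lit 24) (nat_lit 5) (nat_lit 25) (nat_lit 5) (nat_lit 274) (nat_lit 246) (nat_lit 200)) (XT.lf (nat_lit 0) (nat_lit 1996134623) (nat_lit 152) (nat_lit 19866474619) (nat_lit 76) (nat_lit 5078567287) (nat_lit 20) (nat_lit 5) (nat_lit 22) (nat_lit 5) (nat_lit 21) (nat_lit 5) (nat_lit 275) (nat_lit 246) (nat_lit 199))))) (XT.nd (nat_lit 156) (nat_lit 304) (nat_lit 0) (XT.nd (nat_lit 78) (nat_lit 152) (nat_lit 0) (XT.lf (nat_lit 0) (nat_lit 8742622073) (nat_lit 152) (nat_lit 4092667182) (nat_lit 76) (nat_lit 15721455941) (nat_lit 20) (nat_lit 5) (nat_lit 22) (nat_lit 5) (nat_lit 21) (nat_lit 5) (nat_lit 276) (nat_lit 246) (nat_lit 198)) (XT.lf (nat_lit 0) (nat_lit 13306144749) (nat_lit 152) (nat_lit 2891733162) (nat_lit 228) (nat_lit 14095284372) (nat_lit 18) (nat_lit 5) (nat_lit 20) (nat_lit 5) (nat_lit 21) (nat_lit 5) (nat_lit 277) (nat_lit 246)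 (nat_lit 197))) (XT.nd (nat_lit 78) (nat_lit 304) (nat_lit 0) (XT.lf (nat_lit 0) (nat_lit 24407401537) (nat_lit 228) (nat_lit 107183539) (nat_lit 76) (nat_lit 7646066590) (nat_lit 18) (nat_lit 5) (nat_lit 21) (nat_lit 5) (nat_lit 19) (nat_lit 4) (nat_lit 278) (nat_lit 246) (nat_lit 196)) (XT.nd (nat_lit 78) (nat_lit 228) (nat_lit 0) (XT.lf (nat_lit 0) (nat_lit 18612992928) (nat_lit 76) (nat_lit 14965674011) (nat_lit 152) (nat_lit 583671760) (nat_lit 17) (nat_lit 5) (nat_lit 18) (nat_lit 5) (nat_lit 19) (nat_lit 4) (nat_lit 279) (nat_lit 246) (nat_lit 195)) (XT.lf (nat_lit 0) (nat_lit 2420525300) (nat_lit 152) (nat_lit 4516224434) (nat_lit 228) (nat_lit 29381542636) (nat_lit 14) (nat_lit 5) (nat_lit 16) (nat_lit 5) (nat_lit 17) (nat_lit 5) (nat_lit 280) (nat_lit 246) (nat_lit 194)))))) (XT.nd (nat_lit 390) (nat_lit 152) (nat_lit 0) (XT.nd (nat_lit 156) (nat_lit 152) (nat_lit 0) (XT.nd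 (nat_lit 78) (nat_lit 76) (nat_lit 0) (XT.lf (nat_lit 0) (nat_lit 15387645721) (nat_lit 228) (nat_lit 16424442284) (nat_lit 76) (nat_lit 6816730202) (nat_lit 14) (nat_lit 5) (nat_lit 17) (nat_lit 5) (nat_lit 15) (nat_lit 4) (nat_lit 281) (nat_lit 246) (nat_lit 193)) (XT.lf (nat_lit 0) (nat_lit 2396806577) (nat_lit 76) (nat_lit 22201778196) (nat_lit 152) (nat_lit 16521438675) (nat_lit 13) (nat_lit 5) (nat_lit 14) (nat_lit 5) (nat_lit 15) (nat_lit 4) (nat_lit 282) (nat_lit 246) (nat_lit 192))) (XT.nd (nat_lit 78) (nat_lit 152) (nat_lit 0) (XT.lf (nat_lit 0) (nat_lit 23261958783) (nat_lit 76) (nat_lit 11542380542) (nat_lit 152) (nat_lit 8993322012) (nat_lit 13) (nat_lit 5) (nat_lit 14) (nat_lit 5) (nat_lit 15) (nat_lit 4) (nat_lit 283) (nat_lit 246) (nat_lit 191)) (XT.nd (nat_lit 78) (nat_lit 152) (nat_lit 0) (XT.lf (nat_lit 0) (nat_lit 45751593444) (nat_lit 76) (nat_lit 48884119) (nat_lit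 152) (nat_lit 890367313) (nat_lit 13) (nat_lit 5) (nat_lit 14) (nat_lit 5) (nat_lit 15) (nat_lit 4) (nat_lit 284) (nat_lit 246) (nat_lit 190)) (XT.lf (nat_lit 0) (nat_lit 8108285078) (nat_lit 152) (nat_lit 29271300540) (nat_lit 76) (nat_lit 12404835314) (nat_lit 11) (nat_lit 5) (nat_lit 13) (nat_lit 5) (nat_lit 12) (nat_lit 4) (nat_lit 285) (nat_lit 246) (nat_lit 189))))) (XT.nd (nat_lit 156) (nat_lit 76) (nat_lit 0) (XT.nd (nat_lit 78) (nat_lit 76) (nat_lit 0) (XT.lf (nat_lit 0) (nat_lit 17789860506) (nat_lit 152) (nat_lit 9466895988) (nat_lit 76) (nat_lit 25868310656) (nat_lit 11) (nat_lit 5) (nat_lit 13) (nat_lit 5) (nat_lit 12) (nat_lit 4) (nat_lit 286) (nat_lit 246) (nat_lit 188)) (XT.lf (nat_lit 0) (nat_lit 12276500817) (nat_lit 76) (nat_lit 16139237569) (nat_lit 152) (nat_lit 28308761134) (nat_lit 10) (nat_lit 5) (nat_lit 11) (nat_lit 5) (nat_lit 12) (nat_lit 4) (nat_lit 287) (nat_lit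 246) (nat_lit 187))) (XT.nd (nat_lit 78) (nat_lit 76) (nat_lit 0) (XT.lf (nat_lit 0) (nat_lit 36060808173) (nat_lit 76) (nat_lit 3974941411) (nat_lit 152) (nat_lit 20568955290) (nat_lit 10) (nat_lit 5) (nat_lit 11) (nat_lit 5) (nat_lit 12) (nat_lit 4) (nat_lit 288) (nat_lit 246) (nat_lit 186)) (XT.nd (nat_lit 78) (nat_lit 76) (nat_lit 0) (XT.lf (nat_lit 0) (nat_lit 52708885760) (nat_lit 152) (nat_lit 3225184032) (nat_lit 0) (nat_lit 8855100615) (nat_lit 10) (nat_lit 5) (nat_lit 12) (nat_lit 4) (nat_lit 10) (nat_lit 4) (nat_lit 289) (nat_lit 246) (nat_lit 185)) (XT.lf (nat_lit 0) (nat_lit 20351271232) (nat_lit 76) (nat_lit 46411285084) (nat_lit 76) (nat_lit 2527521168) (nat_lit 9) (nat_lit 4) (nat_lit 10) (nat_lit 5) (nat_lit 10) (nat_lit 4) (nat_lit 290) (nat_lit 246) (nat_lit 184))))))))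
noncomputable def xc62 : XT := (XT.nd (nat_lit 1482) (nat_lit 152) (nat_lit 0) (XT.nd (nat_lit 702) (nat_lit 228) (nat_lit 0) (XT.nd (nat_lit 312) (nat_lit 76) (nat_lit 0) (XT.nd (nat_lit 156) (nat_lit 76) (nat_lit 0) (XT.nd (nat_lit 78) (nat_lit 0) (nat_lit 0) (XT.lf (nat_lit 0) (nat_lit 7579733018) (nat_lit 152) (nat_lit 28373069349) (nat_lit 76) (nat_lit 38190211230) (nat_lit 8) (nat_lit 5) (nat_lit 10) (nat_lit 5) (nat_lit 9) (nat_lit 4) (nat_lit 291) (nat_lit 246) (nat_lit 183)) (XT.lf (nat_lit 0) (nat_lit 18391976661) (nat_lit 152) (nat_lit 6233671844) (nat_lit 76) (nat_lit 54757231383) (nat_lit 8) (nat_lit 5) (nat_lit 10) (nat_lit 5) (nat_lit 9) (nat_lit 4) (nat_lit 292) (nat_lit 246) (nat_lit 182))) (XT.nd (nat_lit 78) (nat_lit 0) (nat_lit 0) (XT.lf (nat_lit 0) (nat_lit 18233634557) (nat_lit 76) (nat_lit 12105222356) (nat_lit 152) (nat_lit 54689609683) (nat_lit 7) (nat_lit 5)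 (nat_lit 8) (nat_lit 5) (nat_lit 9) (nat_lit 4) (nat_lit 293) (nat_lit 246) (nat_lit 181)) (XT.lf (nat_lit 0) (nat_lit 43359488633) (nat_lit 152) (nat_lit 46289461956) (nat_lit 0) (nat_lit 1470862531) (nat_lit 7) (nat_lit 5) (nat_lit 9) (nat_lit 4) (nat_lit 7) (nat_lit 4) (nat_lit 294) (nat_lit 246) (nat_lit 180)))) (XT.nd (nat_lit 156) (nat_lit 76) (nat_lit 0) (XT.nd (nat_lit 78) (nat_lit 0) (nat_lit 0) (XT.lf (nat_lit 0) (nat_lit 57612473709) (nat_lit 152) (nat_lit 24372054360) (nat_lit 0) (nat_lit 15704416133) (nat_lit 7) (nat_lit 5) (nat_lit 9) (nat_lit 4) (nat_lit 7) (nat_lit 4) (nat_lit 295) (nat_lit 246) (nat_lit 179)) (XT.lf (nat_lit 0) (nat_lit 72993277828) (nat_lit 152) (nat_lit 723731872) (nat_lit 0) (nat_lit 31067228146) (nat_lit 7) (nat_lit 5) (nat_lit 9) (nat_lit 4) (nat_lit 7) (nat_lit 4) (nat_lit 296) (nat_lit 246) (nat_lit 178))) (XT.nd (nat_lit 78) (nat_lit 0) (nat_lit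 0) (XT.lf (nat_lit 0) (nat_lit 25615499676) (nat_lit 76) (nat_lit 64377476557) (nat_lit 76) (nat_lit 22434767519) (nat_lit 6) (nat_lit 4) (nat_lit 7) (nat_lit 5) (nat_lit 7) (nat_lit 4) (nat_lit 297) (nat_lit 246) (nat_lit 177)) (XT.nd (nat_lit 78) (nat_lit 0) (nat_lit 0) (XT.lf (nat_lit 0) (nat_lit 54067805775) (nat_lit 76) (nat_lit 54286492911) (nat_lit 76) (nat_lit 12328358542) (nat_lit 6) (nat_lit 4) (nat_lit 7) (nat_lit 5) (nat_lit 7) (nat_lit 4) (nat_lit 298) (nat_lit 246) (nat_lit 176)) (XT.lf (nat_lit 0) (nat_lit 84777862839) (nat_lit 76) (nat_lit 43396517089) (nat_lit 76) (nat_lit 1424100006) (nat_lit 6) (nat_lit 4) (nat_lit 7) (nat_lit 5) (nat_lit 7) (nat_lit 4) (nat_lit 299) (nat_lit 246) (nat_lit 175)))))) (XT.nd (nat_lit 390) (nat_lit 76) (nat_lit 0) (XT.nd (nat_lit 156) (nat_lit 0) (nat_lit 0) (XT.nd (nat_lit 78) (nat_lit 76) (nat_lit 0) (XT.lf (nat_lit 0) (nat_lit 10011597295)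 (nat_lit 152) (nat_lit 21461867361) (nat_lit 76) (nat_lit 107746507851) (nat_lit 5) (nat_lit 5) (nat_lit 7) (nat_lit 5) (nat_lit 6) (nat_lit 4) (nat_lit 300) (nat_lit 246) (nat_lit 174)) (XT.lf (nat_lit 0) (nat_lit 3848646589) (nat_lit 76) (nat_lit 18515516109) (nat_lit 152) (nat_lit 127243266389) (nat_lit 4) (nat_lit 5) (nat_lit 5) (nat_lit 5) (nat_lit 6) (nat_lit 4) (nat_lit 301) (nat_lit 246) (nat_lit 173))) (XT.nd (nat_lit 78) (nat_lit 0) (nat_lit 0) (XT.lf (nat_lit 0) (nat_lit 31934994295) (nat_lit 76) (nat_lit 4135356590) (nat_lit 152) (nat_lit 124737267084) (nat_lit 4) (nat_lit 5) (nat_lit 5) (nat_lit 5) (nat_lit 6) (nat_lit 4) (nat_lit 302) (nat_lit 246) (nat_lit 172)) (XT.nd (nat_lit 78) (nat_lit 0) (nat_lit 0) (XT.lf (nat_lit 0) (nat_lit 51043035064) (nat_lit 152) (nat_lit 110828041990) (nat_lit 0) (nat_lit 11024251024) (nat_lit 4) (nat_lit 5) (nat_lit 6) (nat_lit 4) (nat_lit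 4) (nat_lit 4) (nat_lit 303) (nat_lit 246) (nat_lit 171)) (XT.lf (nat_lit 0) (nat_lit 67275939276) (nat_lit 152) (nat_lit 91423103614) (nat_lit 0) (nat_lit 27247897546) (nat_lit 4) (nat_lit 5) (nat_lit 6) (nat_lit 4) (nat_lit 4) (nat_lit 4) (nat_lit 304) (nat_lit 246) (nat_lit 170))))) (XT.nd (nat_lit 156) (nat_lit 76) (nat_lit 0) (XT.nd (nat_lit 78) (nat_lit 0) (nat_lit 0) (XT.lf (nat_lit 0) (nat_lit 84800694003) (nat_lit 152) (nat_lit 70478251815) (nat_lit 0) (nat_lit 44764080338) (nat_lit 4) (nat_lit 5) (nat_lit 6) (nat_lit 4) (nat_lit 4) (nat_lit 4) (nat_lit 305) (nat_lit 246) (nat_lit 169)) (XT.lf (nat_lit 0) (nat_lit 103721149645) (nat_lit 152) (nat_lit 47869368953) (nat_lit 0) (nat_lit 63676599002) (nat_lit 4) (nat_lit 5) (nat_lit 6) (nat_lit 4) (nat_lit 4) (nat_lit 4) (nat_lit 306) (nat_lit 246) (nat_lit 168))) (XT.nd (nat_lit 78) (nat_lit 76) (nat_lit 0) (XT.lf (nat_lit 0) (nat_lit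 124149427419) (nat_lit 152) (nat_lit 23462476461) (nat_lit 0) (nat_lit 84097527723) (nat_lit 4) (nat_lit 5) (nat_lit 6) (nat_lit 4) (nat_lit 4) (nat_lit 4) (nat_lit 307) (nat_lit 246) (nat_lit 167)) (XT.nd (nat_lit 78) (nat_lit 0) (nat_lit 0) (XT.lf (nat_lit 0) (nat_lit 2982518308) (nat_lit 76) (nat_lit 143270630947) (nat_lit 76) (nat_lit 103211926573) (nat_lit 3) (nat_lit 4) (nat_lit 4) (nat_lit 5) (nat_lit 4) (nat_lit 4) (nat_lit 308) (nat_lit 246) (nat_lit 166)) (XT.lf (nat_lit 0) (nat_lit 32371472395) (nat_lit 76) (nat_lit 138157264831) (nat_lit 76) (nat_lit 98092259828) (nat_lit 3) (nat_lit 4) (nat_lit 4) (nat_lit 5) (nat_lit 4) (nat_lit 4) (nat_lit 309) (nat_lit 246) (nat_lit 165))))))) (XT.nd (nat_lit 702) (nat_lit 152) (nat_lit 0) (XT.nd (nat_lit 312) (nat_lit 0) (nat_lit 0) (XT.nd (nat_lit 156) (nat_lit 0) (nat_lit 0) (XT.nd (nat_lit 78) (nat_lit 0) (nat_lit 0) (XT.lf (nat_lit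 0) (nat_lit 64102767134) (nat_lit 76) (nat_lit 132638852495) (nat_lit 76) (nat_lit 92568013576) (nat_lit 3) (nat_lit 4) (nat_lit 4) (nat_lit 5) (nat_lit 4) (nat_lit 4) (nat_lit 310) (nat_lit 246) (nat_lit 164)) (XT.lf (nat_lit 0) (nat_lit 98364439828) (nat_lit 76) (nat_lit 126682692235) (nat_lit 76) (nat_lit 86606451543) (nat_lit 3) (nat_lit 4) (nat_lit 4) (nat_lit 5) (nat_lit 4) (nat_lit 4) (nat_lit 311) (nat_lit 246) (nat_lit 163))) (XT.nd (nat_lit 78) (nat_lit 0) (nat_lit 0) (XT.lf (nat_lit 0) (nat_lit 135359522609) (nat_lit 76) (nat_lit 120253488287) (nat_lit 76) (nat_lit 80172245953) (nat_lit 3) (nat_lit 4) (nat_lit 4) (nat_lit 5) (nat_lit 4) (nat_lit 4) (nat_lit 312) (nat_lit 246) (nat_lit 162)) (XT.lf (nat_lit 0) (nat_lit 175307245599) (nat_lit 76) (nat_lit 113313141665) (nat_lit 76) (nat_lit 73227268182) (nat_lit 3) (nat_lit 4) (nat_lit 4) (nat_lit 5) (nat_lit 4) (nat_lit 4) (nat_lit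 313) (nat_lit 246) (nat_lit 161)))) (XT.nd (nat_lit 156) (nat_lit 0) (nat_lit 0) (XT.nd (nat_lit 78) (nat_lit 0) (nat_lit 0) (XT.lf (nat_lit 0) (nat_lit 218444336045) (nat_lit 76) (nat_lit 105820524390) (nat_lit 76) (nat_lit 65730362804) (nat_lit 3) (nat_lit 4) (nat_lit 4) (nat_lit 5) (nat_lit 4) (nat_lit 4) (nat_lit 314) (nat_lit 246) (nat_lit 160)) (XT.lf (nat_lit 0) (nat_lit 265026421149) (nat_lit 76) (nat_lit 97731235765) (nat_lit 76) (nat_lit 57637103715) (nat_lit 3) (nat_lit 4) (nat_lit 4) (nat_lit 5) (nat_lit 4) (nat_lit 4) (nat_lit 315) (nat_lit 246) (nat_lit 159))) (XT.nd (nat_lit 78) (nat_lit 0) (nat_lit 0) (XT.lf (nat_lit 0) (nat_lit 315329542898) (nat_lit 76) (nat_lit 88997339266) (nat_lit 76) (nat_lit 48899530859) (nat_lit 3) (nat_lit 4) (nat_lit 4) (nat_lit 5) (nat_lit 4) (nat_lit 4) (nat_lit 316) (nat_lit 246) (nat_lit 158)) (XT.nd (nat_lit 78) (nat_lit 0) (nat_lit 0) (XT.lf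 (nat_lit 0) (nat_lit 369651793864) (nat_lit 76) (nat_lit 79567078469) (nat_lit 76) (nat_lit 39465866029) (nat_lit 3) (nat_lit 4) (nat_lit 4) (nat_lit 5) (nat_lit 4) (nat_lit 4) (nat_lit 317) (nat_lit 246) (nat_lit 157)) (XT.lf (nat_lit 0) (nat_lit 428315083683) (nat_lit 76) (nat_lit 69384570347) (nat_lit 76) (nat_lit 29280206024) (nat_lit 3) (nat_lit 4) (nat_lit 4) (nat_lit 5) (nat_lit 4) (nat_lit 4) (nat_lit 318) (nat_lit 246) (nat_lit 156)))))) (XT.nd (nat_lit 390) (nat_lit 0) (nat_lit 0) (XT.nd (nat_lit 156) (nat_lit 152) (nat_lit 0) (XT.nd (nat_lit 78) (nat_lit 0) (nat_lit 0) (XT.lf (nat_lit 0) (nat_lit 491667046666) (nat_lit 76) (nat_lit 58389474111) (nat_lit 76) (nat_lit 18282191379) (nat_lit 3) (nat_lit 4) (nat_lit 4) (nat_lit 5) (nat_lit 4) (nat_lit 4) (nat_lit 319) (nat_lit 246) (nat_lit 155)) (XT.lf (nat_lit 0) (nat_lit 560083101851) (nat_lit 76) (nat_lit 46516633636) (nat_lit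 76) (nat_lit 6406648672) (nat_lit 3) (nat_lit 4) (nat_lit 4) (nat_lit 5) (nat_lit 4) (nat_lit 4) (nat_lit 320) (nat_lit 246) (nat_lit 154))) (XT.nd (nat_lit 78) (nat_lit 76) (nat_lit 0) (XT.lf (nat_lit 0) (nat_lit 6211418146) (nat_lit 152) (nat_lit 27379079830) (nat_lit 76) (nat_lit 627652066196) (nat_lit 2) (nat_lit 5) (nat_lit 4) (nat_lit 5) (nat_lit 3) (nat_lit 4) (nat_lit 321) (nat_lit 246) (nat_lit 153)) (XT.nd (nat_lit 78) (nat_lit 0) (nat_lit 0) (XT.lf (nat_lit 0) (nat_lit 100291218) (nat_lit 76) (nat_lit 19516828282) (nat_lit 152) (nat_lit 693715136747) (nat_lit 1) (nat_lit 5) (nat_lit 2) (nat_lit 5) (nat_lit 3) (nat_lit 4) (nat_lit 322) (nat_lit 246) (nat_lit 152)) (XT.lf (nat_lit 0) (nat_lit 30752314555) (nat_lit 76) (nat_lit 3818057850) (nat_lit 152) (nat_lit 734994997769) (nat_lit 1) (nat_lit 5) (nat_lit 2) (nat_lit 5) (nat_lit 3) (nat_lit 4) (nat_lit 323) (nat_lit 246) (nat_lit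 151))))) (XT.nd (nat_lit 31590) (nat_lit 0) (nat_lit 6460) (XT.nd (nat_lit 31512) (nat_lit 0) (nat_lit 6992) (XT.lf (nat_lit 0) (nat_lit 50923267407) (nat_lit 152) (nat_lit 766648940091) (nat_lit 0) (nat_lit 12714757790) (nat_lit 1) (nat_lit 5) (nat_lit 3) (nat_lit 4) (nat_lit 1) (nat_lit 4) (nat_lit 324) (nat_lit 246) (nat_lit 150)) (XT.lf (nat_lit 0) (nat_lit 636696658) (nat_lit 0) (nat_lit 636696658) (nat_lit 532) (nat_lit 2672464750) (nat_lit 93) (nat_lit 5) (nat_lit 93) (nat_lit 3) (nat_lit 100) (nat_lit 3) (nat_lit 247) (nat_lit 247) (nat_lit 226))) (XT.nd (nat_lit 78) (nat_lit 532) (nat_lit 0) (XT.lf (nat_lit 0) (nat_lit 4501684206) (nat_lit 532) (nat_lit 1089163493) (nat_lit 608) (nat_lit 2517662076) (nat_lit 93) (nat_lit 5) (nat_lit 100) (nat_lit 3) (nat_lit 101) (nat_lit 5) (nat_lit 248) (nat_lit 247) (nat_lit 225)) (XT.nd (nat_lit 78) (nat_lit 532) (nat_lit 0) (XT.lf (nat_lit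 76) (nat_lit 4916444598) (nat_lit 0) (nat_lit 1614846686) (nat_lit 608) (nat_lit 1816062409) (nat_lit 94) (nat_lit 5) (nat_lit 93) (nat_lit 5) (nat_lit 101) (nat_lit 5) (nat_lit 249) (nat_lit 247) (nat_lit 224)) (XT.lf (nat_lit 0) (nat_lit 50061352) (nat_lit 608) (nat_lit 5833492394) (nat_lit 684) (nat_lit 2725414631) (nat_lit 86) (nat_lit 5) (nat_lit 94) (nat_lit 5) (nat_lit 95) (nat_lit 5) (nat_lit 250) (nat_lit 247) (nat_lit 223))))))))
noncomputable def xc63 : XT := (XT.nd (nat_lit 1482) (nat_lit 1596) (nat_lit 0) (XT.nd (nat_lit 702) (nat_lit 1900) (nat_lit 0) (XT.nd (nat_lit 312) (nat_lit 1824) (nat_lit 0) (XT.nd (nat_lit 156) (nat_lit 456) (nat_lit 0) (XT.nd (nat_lit 78) (nat_lit 0) (nat_lit 76) (XT.lf (nat_lit 76) (nat_lit 563013130) (nat_lit 0) (nat_lit 1377136351) (nat_lit 684) (nat_lit 6953467574) (nat_lit 87) (nat_lit 5) (nat_lit 86) (nat_lit 5) (nat_lit 95) (nat_lit 5) (nat_lit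 251) (nat_lit 247) (nat_lit 222)) (XT.lf (nat_lit 0) (nat_lit 3990785488) (nat_lit 608) (nat_lit 1685014924) (nat_lit 684) (nat_lit 3525240930) (nat_lit 87) (nat_lit 5) (nat_lit 95) (nat_lit 5) (nat_lit 96) (nat_lit 5) (nat_lit 252) (nat_lit 247) (nat_lit 221))) (XT.nd (nat_lit 78) (nat_lit 532) (nat_lit 0) (XT.lf (nat_lit 76) (nat_lit 5542259287) (nat_lit 0) (nat_lit 635532702) (nat_lit 684) (nat_lit 3357087489) (nat_lit 88) (nat_lit 5) (nat_lit 87) (nat_lit 5) (nat_lit 96) (nat_lit 5) (nat_lit 253) (nat_lit 247) (nat_lit 220)) (XT.lf (nat_lit 0) (nat_lit 3441634238) (nat_lit 608) (nat_lit 5128406438) (nat_lit 684) (nat_lit 1324273505) (nat_lit 80) (nat_lit 5) (nat_lit 88) (nat_lit 5) (nat_lit 89) (nat_lit 5) (nat_lit 254) (nat_lit 247) (nat_lit 219)))) (XT.nd (nat_lit 156) (nat_lit 1064) (nat_lit 0) (XT.nd (nat_lit 78) (nat_lit 0) (nat_lit 0) (XT.lf (nat_lit 0) (nat_lit 827865229) (nat_lit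 760) (nat_lit 9048050291) (nat_lit 76) (nat_lit 407034861) (nat_lit 70) (nat_lit 5) (nat_lit 80) (nat_lit 5) (nat_lit 71) (nat_lit 5) (nat_lit 255) (nat_lit 247) (nat_lit 218)) (XT.lf (nat_lit 0) (nat_lit 3192049994) (nat_lit 760) (nat_lit 1148130470) (nat_lit 76) (nat_lit 6357427534) (nat_lit 70) (nat_lit 5) (nat_lit 80) (nat_lit 5) (nat_lit 71) (nat_lit 5) (nat_lit 256) (nat_lit 247) (nat_lit 217))) (XT.nd (nat_lit 78) (nat_lit 684) (nat_lit 0) (XT.lf (nat_lit 0) (nat_lit 5783904075) (nat_lit 456) (nat_lit 3648503963) (nat_lit 76) (nat_lit 1711408593) (nat_lit 65) (nat_lit 5) (nat_lit 71) (nat_lit 5) (nat_lit 66) (nat_lit 5) (nat_lit 257) (nat_lit 247) (nat_lit 216)) (XT.nd (nat_lit 78) (nat_lit 304) (nat_lit 0) (XT.lf (nat_lit 0) (nat_lit 5239383018) (nat_lit 380) (nat_lit 3418951294) (nat_lit 456) (nat_lit 2963908780) (nat_lit 60) (nat_lit 5) (nat_lit 65) (nat_lit 5) (nat_lit 66)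 (nat_lit 5) (nat_lit 258) (nat_lit 247) (nat_lit 215)) (XT.lf (nat_lit 0) (nat_lit 2770605252) (nat_lit 304) (nat_lit 9053759236) (nat_lit 380) (nat_lit 311758509) (nat_lit 56) (nat_lit 5) (nat_lit 60) (nat_lit 5) (nat_lit 61) (nat_lit 5) (nat_lit 259) (nat_lit 247) (nat_lit 214)))))) (XT.nd (nat_lit 390) (nat_lit 684) (nat_lit 0) (XT.nd (nat_lit 156) (nat_lit 836) (nat_lit 0) (XT.nd (nat_lit 78) (nat_lit 304) (nat_lit 0) (XT.lf (nat_lit 0) (nat_lit 2551066515) (nat_lit 380) (nat_lit 1230568) (nat_lit 76) (nat_lit 10133044232) (nat_lit 55) (nat_lit 5) (nat_lit 60) (nat_lit 5) (nat_lit 56) (nat_lit 5) (nat_lit 260) (nat_lit 247) (nat_lit 213)) (XT.lf (nat_lit 0) (nat_lit 5782261798) (nat_lit 380) (nat_lit 3002056873) (nat_lit 76) (nat_lit 4486623151) (nat_lit 51) (nat_lit 5) (nat_lit 56) (nat_lit 5) (nat_lit 52) (nat_lit 5) (nat_lit 261) (nat_lit 247) (nat_lit 212))) (XT.nd (nat_lit 78)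 (nat_lit 608) (nat_lit 0) (XT.lf (nat_lit 0) (nat_lit 7563184969) (nat_lit 228) (nat_lit 1790805602) (nat_lit 304) (nat_lit 4545495684) (nat_lit 48) (nat_lit 5) (nat_lit 51) (nat_lit 5) (nat_lit 52) (nat_lit 5) (nat_lit 262) (nat_lit 247) (nat_lit 211)) (XT.nd (nat_lit 78) (nat_lit 304) (nat_lit 0) (XT.lf (nat_lit 0) (nat_lit 4464463848) (nat_lit 304) (nat_lit 8884952445) (nat_lit 380) (nat_lit 1222183147) (nat_lit 44) (nat_lit 5) (nat_lit 48) (nat_lit 5) (nat_lit 49) (nat_lit 5) (nat_lit 263) (nat_lit 247) (nat_lit 210)) (XT.lf (nat_lit 0) (nat_lit 933236158) (nat_lit 228) (nat_lit 1442927544) (nat_lit 304) (nat_lit 12915385300) (nat_lit 40) (nat_lit 5) (nat_lit 43) (nat_lit 5) (nat_lit 44) (nat_lit 5) (nat_lit 264) (nat_lit 247) (nat_lit 209))))) (XT.nd (nat_lit 156) (nat_lit 456) (nat_lit 0) (XT.nd (nat_lit 78) (nat_lit 228) (nat_lit 0) (XT.lf (nat_lit 0) (nat_lit 6433684389) (nat_lit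 304) (nat_lit 3059535615) (nat_lit 76) (nat_lit 6564315992) (nat_lit 40) (nat_lit 5) (nat_lit 44) (nat_lit 5) (nat_lit 41) (nat_lit 5) (nat_lit 265) (nat_lit 247) (nat_lit 208)) (XT.lf (nat_lit 0) (nat_lit 9333706006) (nat_lit 228) (nat_lit 1588868448) (nat_lit 304) (nat_lit 5957027559) (nat_lit 37) (nat_lit 5) (nat_lit 40) (nat_lit 5) (nat_lit 41) (nat_lit 5) (nat_lit 266) (nat_lit 247) (nat_lit 207))) (XT.nd (nat_lit 78) (nat_lit 304) (nat_lit 0) (XT.lf (nat_lit 0) (nat_lit 5031583093) (nat_lit 152) (nat_lit 10920023859) (nat_lit 228) (nat_lit 1806902995) (nat_lit 35) (nat_lit 5) (nat_lit 37) (nat_lit 5) (nat_lit 38) (nat_lit 5) (nat_lit 267) (nat_lit 247) (nat_lit 206)) (XT.nd (nat_lit 78) (nat_lit 0) (nat_lit 0) (XT.lf (nat_lit 0) (nat_lit 32461613) (nat_lit 228) (nat_lit 2660042364) (nat_lit 304) (nat_lit 16008106362) (nat_lit 31) (nat_lit 5) (nat_lit 34) (nat_lit 5) (nat_lit 35)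 (nat_lit 5) (nat_lit 268) (nat_lit 247) (nat_lit 205)) (XT.lf (nat_lit 0) (nat_lit 7757202377) (nat_lit 304) (nat_lit 5652148682) (nat_lit 76) (nat_lit 6293919113) (nat_lit 31) (nat_lit 5) (nat_lit 35) (nat_lit 5) (nat_lit 32) (nat_lit 5) (nat_lit 269) (nat_lit 247) (nat_lit 204))))))) (XT.nd (nat_lit 780) (nat_lit 532) (nat_lit 0) (XT.nd (nat_lit 390) (nat_lit 380) (nat_lit 0) (XT.nd (nat_lit 156) (nat_lit 380) (nat_lit 0) (XT.nd (nat_lit 78) (nat_lit 152) (nat_lit 0) (XT.lf (nat_lit 0) (nat_lit 8559819404) (nat_lit 152) (nat_lit 4794568710) (nat_lit 228) (nat_lit 7425486024) (nat_lit 29) (nat_lit 5) (nat_lit 31) (nat_lit 5) (nat_lit 32) (nat_lit 5) (nat_lit 270) (nat_lit 247) (nat_lit 203)) (XT.lf (nat_lit 0) (nat_lit 2094565855) (nat_lit 152) (nat_lit 17459101287) (nat_lit 228) (nat_lit 2381313100) (nat_lit 27) (nat_lit 5) (nat_lit 29) (nat_lit 5) (nat_lit 30) (nat_lit 5) (nat_lit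 271) (nat_lit 247) (nat_lit 202))) (XT.nd (nat_lit 78) (nat_lit 304) (nat_lit 0) (XT.lf (nat_lit 0) (nat_lit 3218275082) (nat_lit 228) (nat_lit 5385134908) (nat_lit 76) (nat_lit 14564268969) (nat_lit 26) (nat_lit 5) (nat_lit 29) (nat_lit 5) (nat_lit 27) (nat_lit 5) (nat_lit 272) (nat_lit 247) (nat_lit 201)) (XT.nd (nat_lit 78) (nat_lit 152) (nat_lit 0) (XT.lf (nat_lit 0) (nat_lit 9321037914) (nat_lit 228) (nat_lit 14054520684) (nat_lit 76) (nat_lit 1114624495) (nat_lit 24) (nat_lit 5) (nat_lit 27) (nat_lit 5) (nat_lit 25) (nat_lit 5) (nat_lit 273) (nat_lit 247) (nat_lit 200)) (XT.lf (nat_lit 0) (nat_lit 1641158473) (nat_lit 152) (nat_lit 14495115079) (nat_lit 228) (nat_lit 9771069262) (nat_lit 22) (nat_lit 5) (nat_lit 24) (nat_lit 5) (nat_lit 25) (nat_lit 5) (nat_lit 274) (nat_lit 247) (nat_lit 199))))) (XT.nd (nat_lit 156) (nat_lit 228) (nat_lit 0) (XT.nd (nat_lit 78) (nat_lit 152) (nat_lit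 0) (XT.lf (nat_lit 0) (nat_lit 19031826607) (nat_lit 152) (nat_lit 4670056793) (nat_lit 228) (nat_lit 3725796966) (nat_lit 22) (nat_lit 5) (nat_lit 24) (nat_lit 5) (nat_lit 25) (nat_lit 5) (nat_lit 275) (nat_lit 247) (nat_lit 198)) (XT.lf (nat_lit 0) (nat_lit 2910785393) (nat_lit 152) (nat_lit 20230982236) (nat_lit 76) (nat_lit 5915874237) (nat_lit 20) (nat_lit 5) (nat_lit 22) (nat_lit 5) (nat_lit 21) (nat_lit 5) (nat_lit 276) (nat_lit 247) (nat_lit 197))) (XT.nd (nat_lit 78) (nat_lit 228) (nat_lit 0) (XT.lf (nat_lit 0) (nat_lit 10141068875) (nat_lit 152) (nat_lit 3285996897) (nat_lit 76) (nat_lit 17378266460) (nat_lit 20) (nat_lit 5) (nat_lit 22) (nat_lit 5) (nat_lit 21) (nat_lit 5) (nat_lit 277) (nat_lit 247) (nat_lit 196)) (XT.nd (nat_lit 78) (nat_lit 76) (nat_lit 0) (XT.lf (nat_lit 0) (nat_lit 15455434095) (nat_lit 152) (nat_lit 2702467298) (nat_lit 228) (nat_lit 14524577611) (nat_lit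 18) (nat_lit 5) (nat_lit 20) (nat_lit 5) (nat_lit 21) (nat_lit 5) (nat_lit 278) (nat_lit 247) (nat_lit 195)) (XT.lf (nat_lit 0) (nat_lit 944439376) (nat_lit 76) (nat_lit 26051373762) (nat_lit 152) (nat_lit 7705041724) (nat_lit 17) (nat_lit 5) (nat_lit 18) (nat_lit 5) (nat_lit 19) (nat_lit 4) (nat_lit 279) (nat_lit 247) (nat_lit 194)))))) (XT.nd (nat_lit 390) (nat_lit 228) (nat_lit 0) (XT.nd (nat_lit 156) (nat_lit 76) (nat_lit 0) (XT.nd (nat_lit 78) (nat_lit 228) (nat_lit 0) (XT.lf (nat_lit 0) (nat_lit 21087240777) (nat_lit 76) (nat_lit 15768170023) (nat_lit 152) (nat_lit 9598059) (nat_lit 17) (nat_lit 5) (nat_lit 18) (nat_lit 5) (nat_lit 19) (nat_lit 4) (nat_lit 280) (nat_lit 247) (nat_lit 193)) (XT.lf (nat_lit 0) (nat_lit 3576288460) (nat_lit 152) (nat_lit 4486810630) (nat_lit 228) (nat_lit 31131385664) (nat_lit 14) (nat_lit 5) (nat_lit 16) (nat_lit 5) (nat_lit 17) (nat_lit 5) (nat_lit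 281) (nat_lit 247) (nat_lit 192))) (XT.nd (nat_lit 78) (nat_lit 76) (nat_lit 0) (XT.lf (nat_lit 0) (nat_lit 17153388381) (nat_lit 228) (nat_lit 16826090225) (nat_lit 76) (nat_lit 7712259862) (nat_lit 14) (nat_lit 5) (nat_lit 17) (nat_lit 5) (nat_lit 15) (nat_lit 4) (nat_lit 282) (nat_lit 247) (nat_lit 191)) (XT.nd (nat_lit 78) (nat_lit 0) (nat_lit 0) (XT.lf (nat_lit 0) (nat_lit 3461210775) (nat_lit 76) (nat_lit 23614006741) (nat_lit 152) (nat_lit 17308369912) (nat_lit 13) (nat_lit 5) (nat_lit 14) (nat_lit 5) (nat_lit 15) (nat_lit 4) (nat_lit 283) (nat_lit 247) (nat_lit 190)) (XT.lf (nat_lit 0) (nat_lit 25930933700) (nat_lit 76) (nat_lit 12128813846) (nat_lit 152) (nat_lit 9217617535) (nat_lit 13) (nat_lit 5) (nat_lit 14) (nat_lit 5) (nat_lit 15) (nat_lit 4) (nat_lit 284) (nat_lit 247) (nat_lit 189))))) (XT.nd (nat_lit 156) (nat_lit 76) (nat_lit 0) (XT.nd (nat_lit 78) (nat_lit 152) (nat_lit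 0) (XT.lf (nat_lit 0) (nat_lit 49904730308) (nat_lit 152) (nat_lit 247950112) (nat_lit 0) (nat_lit 250906403) (nat_lit 13) (nat_lit 5) (nat_lit 15) (nat_lit 4) (nat_lit 13) (nat_lit 4) (nat_lit 285) (nat_lit 247) (nat_lit 188)) (XT.lf (nat_lit 0) (nat_lit 9184094639) (nat_lit 152) (nat_lit 30866082741) (nat_lit 76) (nat_lit 13695185817) (nat_lit 11) (nat_lit 5) (nat_lit 13) (nat_lit 5) (nat_lit 12) (nat_lit 4) (nat_lit 286) (nat_lit 247) (nat_lit 187))) (XT.nd (nat_lit 78) (nat_lit 76) (nat_lit 0) (XT.lf (nat_lit 0) (nat_lit 19608555602) (nat_lit 152) (nat_lit 9532653368) (nat_lit 76) (nat_lit 28213667804) (nat_lit 11) (nat_lit 5) (nat_lit 13) (nat_lit 5) (nat_lit 12) (nat_lit 4) (nat_lit 287) (nat_lit 247) (nat_lit 186)) (XT.nd (nat_lit 78) (nat_lit 0) (nat_lit 0) (XT.lf (nat_lit 0) (nat_lit 13920159335) (nat_lit 76) (nat_lit 17145376086) (nat_lit 152) (nat_lit 30177707870) (nat_lit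 10) (nat_lit 5) (nat_lit 11) (nat_lit 5) (nat_lit 12) (nat_lit 4) (nat_lit 288) (nat_lit 247) (nat_lit 185)) (XT.lf (nat_lit 0) (nat_lit 39558208431) (nat_lit 76) (nat_lit 4029047383) (nat_lit 152) (nat_lit 21848032681) (nat_lit 10) (nat_lit 5) (nat_lit 11) (nat_lit 5) (nat_lit 12) (nat_lit 4) (nat_lit 289) (nat_lit 247) (nat_lit 184))))))))
noncomputable def xc64 : XT := (XT.nd (nat_lit 1482) (nat_lit 228) (nat_lit 0) (XT.nd (nat_lit 702) (nat_lit 152) (nat_lit 0) (XT.nd (nat_lit 312) (nat_lit 152) (nat_lit 0) (XT.nd (nat_lit 156) (nat_lit 76) (nat_lit 0) (XT.nd (nat_lit 78) (nat_lit 76) (nat_lit 0) (XT.lf (nat_lit 0) (nat_lit 57252232098) (nat_lit 152) (nat_lit 2903376235) (nat_lit 0) (nat_lit 9800030177) (nat_lit 10) (nat_lit 5) (nat_lit 12) (nat_lit 4) (nat_lit 10) (nat_lit 4) (nat_lit 290) (nat_lit 247) (nat_lit 183)) (XT.lf (nat_lit 0) (nat_lit 22533997071) (nat_lit 76) (nat_lit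 49880663245) (nat_lit 76) (nat_lit 2402759360) (nat_lit 9) (nat_lit 4) (nat_lit 10) (nat_lit 5) (nat_lit 10) (nat_lit 4) (nat_lit 291) (nat_lit 247) (nat_lit 182))) (XT.nd (nat_lit 78) (nat_lit 0) (nat_lit 0) (XT.lf (nat_lit 0) (nat_lit 8479165944) (nat_lit 152) (nat_lit 30119411813) (nat_lit 76) (nat_lit 41460951698) (nat_lit 8) (nat_lit 5) (nat_lit 10) (nat_lit 5) (nat_lit 9) (nat_lit 4) (nat_lit 292) (nat_lit 247) (nat_lit 181)) (XT.lf (nat_lit 0) (nat_lit 20134681354) (nat_lit 152) (nat_lit 6247640514) (nat_lit 76) (nat_lit 59337368754) (nat_lit 8) (nat_lit 5) (nat_lit 10) (nat_lit 5) (nat_lit 9) (nat_lit 4) (nat_lit 293) (nat_lit 247) (nat_lit 180)))) (XT.nd (nat_lit 156) (nat_lit 76) (nat_lit 0) (XT.nd (nat_lit 78) (nat_lit 0) (nat_lit 0) (XT.lf (nat_lit 0) (nat_lit 20155984838) (nat_lit 76) (nat_lit 12868466467) (nat_lit 152) (nat_lit 58793134688) (nat_lit 7) (nat_lit 5) (nat_lit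 8) (nat_lit 5) (nat_lit 9) (nat_lit 4) (nat_lit 294) (nat_lit 247) (nat_lit 179)) (XT.lf (nat_lit 0) (nat_lit 47070552516) (nat_lit 152) (nat_lit 49554087328) (nat_lit 0) (nat_lit 1772426754) (nat_lit 7) (nat_lit 5) (nat_lit 9) (nat_lit 4) (nat_lit 7) (nat_lit 4) (nat_lit 295) (nat_lit 247) (nat_lit 178))) (XT.nd (nat_lit 78) (nat_lit 76) (nat_lit 0) (XT.lf (nat_lit 0) (nat_lit 62445827895) (nat_lit 152) (nat_lit 25915770946) (nat_lit 0) (nat_lit 17131042776) (nat_lit 7) (nat_lit 5) (nat_lit 9) (nat_lit 4) (nat_lit 7) (nat_lit 4) (nat_lit 296) (nat_lit 247) (nat_lit 177)) (XT.nd (nat_lit 78) (nat_lit 76) (nat_lit 0) (XT.lf (nat_lit 0) (nat_lit 79040477359) (nat_lit 152) (nat_lit 405660271) (nat_lit 0) (nat_lit 33710266909) (nat_lit 7) (nat_lit 5) (nat_lit 9) (nat_lit 4) (nat_lit 7) (nat_lit 4) (nat_lit 297) (nat_lit 247) (nat_lit 176)) (XT.lf (nat_lit 0) (nat_lit 28024370596) (nat_lit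 76) (nat_lit 69366007939) (nat_lit 76) (nat_lit 24021514776) (nat_lit 6) (nat_lit 4) (nat_lit 7) (nat_lit 5) (nat_lit 7) (nat_lit 4) (nat_lit 298) (nat_lit 247) (nat_lit 175)))))) (XT.nd (nat_lit 390) (nat_lit 0) (nat_lit 0) (XT.nd (nat_lit 156) (nat_lit 152) (nat_lit 0) (XT.nd (nat_lit 78) (nat_lit 0) (nat_lit 0) (XT.lf (nat_lit 0) (nat_lit 58726221854) (nat_lit 76) (nat_lit 58479720915) (nat_lit 76) (nat_lit 13122003017) (nat_lit 6) (nat_lit 4) (nat_lit 7) (nat_lit 5) (nat_lit 7) (nat_lit 4) (nat_lit 299) (nat_lit 247) (nat_lit 174)) (XT.lf (nat_lit 0) (nat_lit 91868417438) (nat_lit 76) (nat_lit 46729635281) (nat_lit 76) (nat_lit 1359672258) (nat_lit 6) (nat_lit 4) (nat_lit 7) (nat_lit 5) (nat_lit 7) (nat_lit 4) (nat_lit 300) (nat_lit 247) (nat_lit 173))) (XT.nd (nat_lit 78) (nat_lit 76) (nat_lit 0) (XT.lf (nat_lit 0) (nat_lit 10972383644) (nat_lit 152) (nat_lit 22887914629) (nat_lit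 76) (nat_lit 116489149272) (nat_lit 5) (nat_lit 5) (nat_lit 7) (nat_lit 5) (nat_lit 6) (nat_lit 4) (nat_lit 301) (nat_lit 247) (nat_lit 172)) (XT.nd (nat_lit 78) (nat_lit 0) (nat_lit 0) (XT.lf (nat_lit 0) (nat_lit 4434798185) (nat_lit 76) (nat_lit 19870859135) (nat_lit 152) (nat_lit 137262627797) (nat_lit 4) (nat_lit 5) (nat_lit 5) (nat_lit 5) (nat_lit 6) (nat_lit 4) (nat_lit 302) (nat_lit 247) (nat_lit 171)) (XT.lf (nat_lit 0) (nat_lit 34747441865) (nat_lit 76) (nat_lit 4349612652) (nat_lit 152) (nat_lit 134568007800) (nat_lit 4) (nat_lit 5) (nat_lit 5) (nat_lit 5) (nat_lit 6) (nat_lit 4) (nat_lit 303) (nat_lit 247) (nat_lit 170))))) (XT.nd (nat_lit 156) (nat_lit 0) (nat_lit 0) (XT.nd (nat_lit 78) (nat_lit 0) (nat_lit 0) (XT.lf (nat_lit 0) (nat_lit 55258788595) (nat_lit 152) (nat_lit 119450773225) (nat_lit 0) (nat_lit 12010673901) (nat_lit 4) (nat_lit 5) (nat_lit 6) (nat_lit 4) (nat_lit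 4) (nat_lit 4) (nat_lit 304) (nat_lit 247) (nat_lit 169)) (XT.lf (nat_lit 0) (nat_lit 72780524349) (nat_lit 152) (nat_lit 98511477715) (nat_lit 0) (nat_lit 29524472678) (nat_lit 4) (nat_lit 5) (nat_lit 6) (nat_lit 4) (nat_lit 4) (nat_lit 4) (nat_lit 305) (nat_lit 247) (nat_lit 168))) (XT.nd (nat_lit 78) (nat_lit 0) (nat_lit 0) (XT.lf (nat_lit 0) (nat_lit 91698184645) (nat_lit 152) (nat_lit 75907739564) (nat_lit 0) (nat_lit 48434783921) (nat_lit 4) (nat_lit 5) (nat_lit 6) (nat_lit 4) (nat_lit 4) (nat_lit 4) (nat_lit 306) (nat_lit 247) (nat_lit 167)) (XT.nd (nat_lit 78) (nat_lit 0) (nat_lit 0) (XT.lf (nat_lit 0) (nat_lit 112123874136) (nat_lit 152) (nat_lit 51505610694) (nat_lit 0) (nat_lit 68853668733) (nat_lit 4) (nat_lit 5) (nat_lit 6) (nat_lit 4) (nat_lit 4) (nat_lit 4) (nat_lit 307) (nat_lit 247) (nat_lit 166)) (XT.lf (nat_lit 0) (nat_lit 134178633946) (nat_lit 152) (nat_lit 25160485898)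 (nat_lit 0) (nat_lit 90902127914) (nat_lit 4) (nat_lit 5) (nat_lit 6) (nat_lit 4) (nat_lit 4) (nat_lit 4) (nat_lit 308) (nat_lit 247) (nat_lit 165))))))) (XT.nd (nat_lit 702) (nat_lit 152) (nat_lit 0) (XT.nd (nat_lit 312) (nat_lit 0) (nat_lit 0) (XT.nd (nat_lit 156) (nat_lit 0) (nat_lit 0) (XT.nd (nat_lit 78) (nat_lit 0) (nat_lit 0) (XT.lf (nat_lit 0) (nat_lit 3392329823) (nat_lit 76) (nat_lit 154653792898) (nat_lit 76) (nat_lit 111371452951) (nat_lit 3) (nat_lit 4) (nat_lit 4) (nat_lit 5) (nat_lit 4) (nat_lit 4) (nat_lit 309) (nat_lit 247) (nat_lit 164)) (XT.lf (nat_lit 0) (nat_lit 35119718011) (nat_lit 76) (nat_lit 149137171458) (nat_lit 76) (nat_lit 105849429738) (nat_lit 3) (nat_lit 4) (nat_lit 4) (nat_lit 5) (nat_lit 4) (nat_lit 4) (nat_lit 310) (nat_lit 247) (nat_lit 163))) (XT.nd (nat_lit 78) (nat_lit 0) (nat_lit 0) (XT.lf (nat_lit 0) (nat_lit 69377773528) (nat_lit 76) (nat_lit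 143182669435) (nat_lit 76) (nat_lit 99889926073) (nat_lit 3) (nat_lit 4) (nat_lit 4) (nat_lit 5) (nat_lit 4) (nat_lit 4) (nat_lit 311) (nat_lit 247) (nat_lit 162)) (XT.lf (nat_lit 0) (nat_lit 106369507072) (nat_lit 76) (nat_lit 136755000892) (nat_lit 76) (nat_lit 93457626380) (nat_lit 3) (nat_lit 4) (nat_lit 4) (nat_lit 5) (nat_lit 4) (nat_lit 4) (nat_lit 312) (nat_lit 247) (nat_lit 161)))) (XT.nd (nat_lit 156) (nat_lit 0) (nat_lit 0) (XT.nd (nat_lit 78) (nat_lit 0) (nat_lit 0) (XT.lf (nat_lit 0) (nat_lit 146314128916) (nat_lit 76) (nat_lit 129816075941) (nat_lit 76) (nat_lit 86514413327) (nat_lit 3) (nat_lit 4) (nat_lit 4) (nat_lit 5) (nat_lit 4) (nat_lit 4) (nat_lit 313) (nat_lit 247) (nat_lit 160)) (XT.lf (nat_lit 0) (nat_lit 189448347930) (nat_lit 76) (nat_lit 122324775028) (nat_lit 76) (nat_lit 79019141949) (nat_lit 3) (nat_lit 4) (nat_lit 4) (nat_lit 5) (nat_lit 4) (nat_lit 4) (nat_lit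 314) (nat_lit 247) (nat_lit 159))) (XT.nd (nat_lit 78) (nat_lit 0) (nat_lit 0) (XT.lf (nat_lit 0) (nat_lit 236027774302) (nat_lit 76) (nat_lit 114236705257) (nat_lit 76) (nat_lit 70927395821) (nat_lit 3) (nat_lit 4) (nat_lit 4) (nat_lit 5) (nat_lit 4) (nat_lit 4) (nat_lit 315) (nat_lit 247) (nat_lit 158)) (XT.nd (nat_lit 78) (nat_lit 0) (nat_lit 0) (XT.lf (nat_lit 0) (nat_lit 286328434261) (nat_lit 76) (nat_lit 105503937326) (nat_lit 76) (nat_lit 62191223857) (nat_lit 3) (nat_lit 4) (nat_lit 4) (nat_lit 5) (nat_lit 4) (nat_lit 4) (nat_lit 316) (nat_lit 247) (nat_lit 157)) (XT.lf (nat_lit 0) (nat_lit 340648405793) (nat_lit 76) (nat_lit 96074721499) (nat_lit 76) (nat_lit 52758856148) (nat_lit 3) (nat_lit 4) (nat_lit 4) (nat_lit 5) (nat_lit 4) (nat_lit 4) (nat_lit 317) (nat_lit 247) (nat_lit 156)))))) (XT.nd (nat_lit 390) (nat_lit 76) (nat_lit 0) (XT.nd (nat_lit 156) (nat_lit 76) (nat_lit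 0) (XT.nd (nat_lit 78) (nat_lit 0) (nat_lit 0) (XT.lf (nat_lit 0) (nat_lit 399309585024) (nat_lit 76) (nat_lit 85893180943) (nat_lit 76) (nat_lit 42574397181) (nat_lit 3) (nat_lit 4) (nat_lit 4) (nat_lit 5) (nat_lit 4) (nat_lit 4) (nat_lit 318) (nat_lit 247) (nat_lit 155)) (XT.lf (nat_lit 0) (nat_lit 462659593759) (nat_lit 76) (nat_lit 74898980601) (nat_lit 76) (nat_lit 31577494608) (nat_lit 3) (nat_lit 4) (nat_lit 4) (nat_lit 5) (nat_lit 4) (nat_lit 4) (nat_lit 319) (nat_lit 247) (nat_lit 154))) (XT.nd (nat_lit 78) (nat_lit 76) (nat_lit 0) (XT.lf (nat_lit 0) (nat_lit 531073839455) (nat_lit 76) (nat_lit 63026969657) (nat_lit 76) (nat_lit 19702981598) (nat_lit 3) (nat_lit 4) (nat_lit 4) (nat_lit 5) (nat_lit 4) (nat_lit 4) (nat_lit 320) (nat_lit 247) (nat_lit 153)) (XT.nd (nat_lit 78) (nat_lit 76) (nat_lit 0) (XT.lf (nat_lit 0) (nat_lit 604957739866) (nat_lit 76) (nat_lit 50206795454) (nat_lit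 76) (nat_lit 6880490667) (nat_lit 3) (nat_lit 4) (nat_lit 4) (nat_lit 5) (nat_lit 4) (nat_lit 4) (nat_lit 321) (nat_lit 247) (nat_lit 152)) (XT.lf (nat_lit 0) (nat_lit 6743008987) (nat_lit 152) (nat_lit 29505281481) (nat_lit 76) (nat_lit 677891920404) (nat_lit 2) (nat_lit 5) (nat_lit 4) (nat_lit 5) (nat_lit 3) (nat_lit 4) (nat_lit 322) (nat_lit 247) (nat_lit 151))))) (XT.nd (nat_lit 31668) (nat_lit 0) (nat_lit 6384) (XT.nd (nat_lit 78) (nat_lit 0) (nat_lit 0) (XT.lf (nat_lit 0) (nat_lit 169652468) (nat_lit 76) (nat_lit 21049902943) (nat_lit 152) (nat_lit 749177605273) (nat_lit 1) (nat_lit 5) (nat_lit 2) (nat_lit 5) (nat_lit 3) (nat_lit 4) (nat_lit 323) (nat_lit 247) (nat_lit 150)) (XT.lf (nat_lit 0) (nat_lit 33269294120) (nat_lit 76) (nat_lit 4097325070) (nat_lit 152) (nat_lit 793762428690) (nat_lit 1) (nat_lit 5) (nat_lit 2) (nat_lit 5) (nat_lit 3) (nat_lit 4) (nat_lit 324) (nat_lit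 247) (nat_lit 149))) (XT.nd (nat_lit 78) (nat_lit 608) (nat_lit 0) (XT.lf (nat_lit 0) (nat_lit 1572047362) (nat_lit 0) (nat_lit 1572047362) (nat_lit 532) (nat_lit 1022916473) (nat_lit 93) (nat_lit 5) (nat_lit 93) (nat_lit 3) (nat_lit 100) (nat_lit 3) (nat_lit 248) (nat_lit 248) (nat_lit 224)) (XT.nd (nat_lit 78) (nat_lit 608) (nat_lit 0) (XT.lf (nat_lit 76) (nat_lit 684000686) (nat_lit 0) (nat_lit 7438537694) (nat_lit 608) (nat_lit 460368025) (nat_lit 94) (nat_lit 5) (nat_lit 93) (nat_lit 5) (nat_lit 101) (nat_lit 5) (nat_lit 249) (nat_lit 248) (nat_lit 223)) (XT.lf (nat_lit 0) (nat_lit 1198044235) (nat_lit 608) (nat_lit 1803942418) (nat_lit 684) (nat_lit 5849936599) (nat_lit 85) (nat_lit 5) (nat_lit 93) (nat_lit 5) (nat_lit 94) (nat_lit 5) (nat_lit 250) (nat_lit 248) (nat_lit 222))))))))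
noncomputable def xc65 : XT := (XT.nd (nat_lit 1482) (nat_lit 1520) (nat_lit 0) (XT.nd (nat_lit 702) (nat_lit 2204) (nat_lit 0) (XT.nd (nat_lit 312) (nat_lit 1976) (nat_lit 0) (XT.nd (nat_lit 156) (nat_lit 0) (nat_lit 76) (XT.nd (nat_lit 78) (nat_lit 0) (nat_lit 0) (XT.lf (nat_lit 0) (nat_lit 2931980380) (nat_lit 608) (nat_lit 4339452337) (nat_lit 684) (nat_lit 1873173137) (nat_lit 86) (nat_lit 5) (nat_lit 94) (nat_lit 5) (nat_lit 95) (nat_lit 5) (nat_lit 251) (nat_lit 248) (nat_lit 221)) (XT.lf (nat_lit 76) (nat_lit 2483563150) (nat_lit 0) (nat_lit 2305815537) (nat_lit 684) (nat_lit 4672522901) (nat_lit 87) (nat_lit 5) (nat_lit 86) (nat_lit 5) (nat_lit 95) (nat_lit 5) (nat_lit 252) (nat_lit 248) (nat_lit 220))) (XT.nd (nat_lit 78) (nat_lit 0) (nat_lit 0) (XT.lf (nat_lit 76) (nat_lit 63219340) (nat_lit 0) (nat_lit 6730443832) (nat_lit 684) (nat_lit 3011406690) (nat_lit 88) (nat_lit 5)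 (nat_lit 87) (nat_lit 5) (nat_lit 96) (nat_lit 5) (nat_lit 253) (nat_lit 248) (nat_lit 219)) (XT.lf (nat_lit 76) (nat_lit 7784905585) (nat_lit 0) (nat_lit 1213930799) (nat_lit 684) (nat_lit 1175201618) (nat_lit 88) (nat_lit 5) (nat_lit 87) (nat_lit 5) (nat_lit 96) (nat_lit 5) (nat_lit 254) (nat_lit 248) (nat_lit 218)))) (XT.nd (nat_lit 156) (nat_lit 760) (nat_lit 0) (XT.nd (nat_lit 78) (nat_lit 684) (nat_lit 0) (XT.lf (nat_lit 0) (nat_lit 833439478) (nat_lit 684) (nat_lit 5019593031) (nat_lit 76) (nat_lit 4716620077) (nat_lit 79) (nat_lit 5) (nat_lit 88) (nat_lit 5) (nat_lit 80) (nat_lit 5) (nat_lit 255) (nat_lit 248) (nat_lit 217)) (XT.lf (nat_lit 0) (nat_lit 2972730428) (nat_lit 760) (nat_lit 7814861338) (nat_lit 76) (nat_lit 208109826) (nat_lit 70) (nat_lit 5) (nat_lit 80) (nat_lit 5) (nat_lit 71) (nat_lit 5) (nat_lit 256) (nat_lit 248) (nat_lit 216))) (XT.nd (nat_lit 78) (nat_lit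 380) (nat_lit 0) (XT.lf (nat_lit 0) (nat_lit 591002430) (nat_lit 380) (nat_lit 4790301712) (nat_lit 456) (nat_lit 6069905932) (nat_lit 65) (nat_lit 5) (nat_lit 70) (nat_lit 5) (nat_lit 71) (nat_lit 5) (nat_lit 257) (nat_lit 248) (nat_lit 215)) (XT.nd (nat_lit 78) (nat_lit 380) (nat_lit 0) (XT.lf (nat_lit 0) (nat_lit 8054589588) (nat_lit 456) (nat_lit 2110321265) (nat_lit 76) (nat_lit 1774908694) (nat_lit 65) (nat_lit 5) (nat_lit 71) (nat_lit 5) (nat_lit 66) (nat_lit 5) (nat_lit 258) (nat_lit 248) (nat_lit 214)) (XT.lf (nat_lit 0) (nat_lit 7409064366) (nat_lit 380) (nat_lit 3643316629) (nat_lit 456) (nat_lit 1409846849) (nat_lit 60) (nat_lit 5) (nat_lit 65) (nat_lit 5) (nat_lit 66) (nat_lit 5) (nat_lit 259) (nat_lit 248) (nat_lit 213)))))) (XT.nd (nat_lit 390) (nat_lit 912) (nat_lit 0) (XT.nd (nat_lit 156) (nat_lit 608) (nat_lit 0) (XT.nd (nat_lit 78) (nat_lit 304) (nat_lit 0) (XT.lf (nat_lit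 0) (nat_lit 1308135165) (nat_lit 380) (nat_lit 8291692659) (nat_lit 76) (nat_lit 3421577677) (nat_lit 55) (nat_lit 5) (nat_lit 60) (nat_lit 5) (nat_lit 56) (nat_lit 5) (nat_lit 260) (nat_lit 248) (nat_lit 212)) (XT.lf (nat_lit 0) (nat_lit 1737436937) (nat_lit 304) (nat_lit 2557857714) (nat_lit 380) (nat_lit 9324008233) (nat_lit 51) (nat_lit 5) (nat_lit 55) (nat_lit 5) (nat_lit 56) (nat_lit 5) (nat_lit 261) (nat_lit 248) (nat_lit 211))) (XT.nd (nat_lit 78) (nat_lit 608) (nat_lit 0) (XT.lf (nat_lit 0) (nat_lit 7673792432) (nat_lit 380) (nat_lit 1560207268) (nat_lit 76) (nat_lit 5023597209) (nat_lit 51) (nat_lit 5) (nat_lit 56) (nat_lit 5) (nat_lit 52) (nat_lit 5) (nat_lit 262) (nat_lit 248) (nat_lit 210)) (XT.nd (nat_lit 78) (nat_lit 380) (nat_lit 0) (XT.lf (nat_lit 0) (nat_lit 9777155636) (nat_lit 228) (nat_lit 1673375432) (nat_lit 304) (nat_lit 3490194902) (nat_lit 48) (nat_lit 5) (nat_lit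 51) (nat_lit 5) (nat_lit 52) (nat_lit 5) (nat_lit 263) (nat_lit 248) (nat_lit 209)) (XT.lf (nat_lit 0) (nat_lit 23335997) (nat_lit 380) (nat_lit 9246415621) (nat_lit 76) (nat_lit 6400636627) (nat_lit 43) (nat_lit 5) (nat_lit 48) (nat_lit 5) (nat_lit 44) (nat_lit 5) (nat_lit 264) (nat_lit 248) (nat_lit 208))))) (XT.nd (nat_lit 156) (nat_lit 684) (nat_lit 0) (XT.nd (nat_lit 78) (nat_lit 0) (nat_lit 0) (XT.lf (nat_lit 0) (nat_lit 2584927892) (nat_lit 228) (nat_lit 1210623867) (nat_lit 304) (nat_lit 12655155288) (nat_lit 40) (nat_lit 5) (nat_lit 43) (nat_lit 5) (nat_lit 44) (nat_lit 5) (nat_lit 265) (nat_lit 248) (nat_lit 207)) (XT.lf (nat_lit 0) (nat_lit 8091642218) (nat_lit 304) (nat_lit 1789697026) (nat_lit 76) (nat_lit 7401135434) (nat_lit 40) (nat_lit 5) (nat_lit 44) (nat_lit 5) (nat_lit 41) (nat_lit 5) (nat_lit 266) (nat_lit 248) (nat_lit 206))) (XT.nd (nat_lit 78) (nat_lit 456) (nat_lit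 0) (XT.lf (nat_lit 0) (nat_lit 11529181192) (nat_lit 228) (nat_lit 1348395638) (nat_lit 304) (nat_lit 5296017742) (nat_lit 37) (nat_lit 5) (nat_lit 40) (nat_lit 5) (nat_lit 41) (nat_lit 5) (nat_lit 267) (nat_lit 248) (nat_lit 205)) (XT.nd (nat_lit 78) (nat_lit 304) (nat_lit 0) (XT.lf (nat_lit 0) (nat_lit 6868362296) (nat_lit 152) (nat_lit 11388187589) (nat_lit 228) (nat_lit 869055897) (nat_lit 35) (nat_lit 5) (nat_lit 37) (nat_lit 5) (nat_lit 38) (nat_lit 5) (nat_lit 268) (nat_lit 248) (nat_lit 204)) (XT.lf (nat_lit 0) (nat_lit 1442071588) (nat_lit 228) (nat_lit 2457944383) (nat_lit 304) (nat_lit 16245146747) (nat_lit 31) (nat_lit 5) (nat_lit 34) (nat_lit 5) (nat_lit 35) (nat_lit 5) (nat_lit 269) (nat_lit 248) (nat_lit 203))))))) (XT.nd (nat_lit 702) (nat_lit 684) (nat_lit 0) (XT.nd (nat_lit 312) (nat_lit 456) (nat_lit 0) (XT.nd (nat_lit 156) (nat_lit 228) (nat_lit 0) (XT.nd (nat_lit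 78) (nat_lit 152) (nat_lit 0) (XT.lf (nat_lit 0) (nat_lit 9302398427) (nat_lit 304) (nat_lit 4759846760) (nat_lit 76) (nat_lit 7169304805) (nat_lit 31) (nat_lit 5) (nat_lit 35) (nat_lit 5) (nat_lit 32) (nat_lit 5) (nat_lit 270) (nat_lit 248) (nat_lit 202)) (XT.lf (nat_lit 0) (nat_lit 10530649579) (nat_lit 152) (nat_lit 4768297845) (nat_lit 228) (nat_lit 7097885121) (nat_lit 29) (nat_lit 5) (nat_lit 31) (nat_lit 5) (nat_lit 32) (nat_lit 5) (nat_lit 271) (nat_lit 248) (nat_lit 201))) (XT.nd (nat_lit 78) (nat_lit 76) (nat_lit 0) (XT.lf (nat_lit 0) (nat_lit 3529622326) (nat_lit 152) (nat_lit 18425355938) (nat_lit 228) (nat_lit 1691448479) (nat_lit 27) (nat_lit 5) (nat_lit 29) (nat_lit 5) (nat_lit 30) (nat_lit 5) (nat_lit 272) (nat_lit 248) (nat_lit 200)) (XT.lf (nat_lit 0) (nat_lit 4264804072) (nat_lit 228) (nat_lit 4614928957) (nat_lit 76) (nat_lit 16100583238) (nat_lit 26) (nat_lit 5) (nat_lit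 29) (nat_lit 5) (nat_lit 27) (nat_lit 5) (nat_lit 273) (nat_lit 248) (nat_lit 199)))) (XT.nd (nat_lit 156) (nat_lit 152) (nat_lit 0) (XT.nd (nat_lit 78) (nat_lit 152) (nat_lit 0) (XT.lf (nat_lit 0) (nat_lit 10821524162) (nat_lit 228) (nat_lit 13997656321) (nat_lit 76) (nat_lit 1591251486) (nat_lit 24) (nat_lit 5) (nat_lit 27) (nat_lit 5) (nat_lit 25) (nat_lit 5) (nat_lit 274) (nat_lit 248) (nat_lit 198)) (XT.lf (nat_lit 0) (nat_lit 2902342526) (nat_lit 152) (nat_lit 15241365547) (nat_lit 228) (nat_lit 9799260709) (nat_lit 22) (nat_lit 5) (nat_lit 24) (nat_lit 5) (nat_lit 25) (nat_lit 5) (nat_lit 275) (nat_lit 248) (nat_lit 197))) (XT.nd (nat_lit 78) (nat_lit 152) (nat_lit 0) (XT.lf (nat_lit 0) (nat_lit 21600568454) (nat_lit 152) (nat_lit 4660921764) (nat_lit 228) (nat_lit 3326181008) (nat_lit 22) (nat_lit 5) (nat_lit 24) (nat_lit 5) (nat_lit 25) (nat_lit 5) (nat_lit 276) (nat_lit 248)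 (nat_lit 196)) (XT.nd (nat_lit 78) (nat_lit 0) (nat_lit 0) (XT.lf (nat_lit 0) (nat_lit 3790904740) (nat_lit 152) (nat_lit 20799383353) (nat_lit 76) (nat_lit 6758675697) (nat_lit 20) (nat_lit 5) (nat_lit 22) (nat_lit 5) (nat_lit 21) (nat_lit 5) (nat_lit 277) (nat_lit 248) (nat_lit 195)) (XT.lf (nat_lit 0) (nat_lit 11551665974) (nat_lit 152) (nat_lit 2576582702) (nat_lit 76) (nat_lit 19110686593) (nat_lit 20) (nat_lit 5) (nat_lit 22) (nat_lit 5) (nat_lit 21) (nat_lit 5) (nat_lit 278) (nat_lit 248) (nat_lit 194)))))) (XT.nd (nat_lit 390) (nat_lit 228) (nat_lit 0) (XT.nd (nat_lit 156) (nat_lit 228) (nat_lit 0) (XT.nd (nat_lit 78) (nat_lit 76) (nat_lit 0) (XT.lf (nat_lit 0) (nat_lit 17621908059) (nat_lit 152) (nat_lit 2558064102) (nat_lit 228) (nat_lit 15087838821) (nat_lit 18) (nat_lit 5) (nat_lit 20) (nat_lit 5) (nat_lit 21) (nat_lit 5) (nat_lit 279) (nat_lit 248) (nat_lit 193)) (XT.lf (nat_lit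 0) (nat_lit 1932224540) (nat_lit 76) (nat_lit 27769967081) (nat_lit 152) (nat_lit 7746660394) (nat_lit 17) (nat_lit 5) (nat_lit 18) (nat_lit 5) (nat_lit 19) (nat_lit 4) (nat_lit 280) (nat_lit 248) (nat_lit 192))) (XT.nd (nat_lit 78) (nat_lit 152) (nat_lit 0) (XT.lf (nat_lit 0) (nat_lit 505139914) (nat_lit 152) (nat_lit 16177487642) (nat_lit 76) (nat_lit 23105182757) (nat_lit 16) (nat_lit 5) (nat_lit 18) (nat_lit 5) (nat_lit 17) (nat_lit 5) (nat_lit 281) (nat_lit 248) (nat_lit 191)) (XT.nd (nat_lit 78) (nat_lit 0) (nat_lit 0) (XT.lf (nat_lit 0) (nat_lit 4687255336) (nat_lit 152) (nat_lit 4510783121) (nat_lit 228) (nat_lit 33106909907) (nat_lit 14) (nat_lit 5) (nat_lit 16) (nat_lit 5) (nat_lit 17) (nat_lit 5) (nat_lit 282) (nat_lit 248) (nat_lit 190)) (XT.lf (nat_lit 0) (nat_lit 18984105097) (nat_lit 228) (nat_lit 17390020857) (nat_lit 76) (nat_lit 8629473198) (nat_lit 14) (nat_lit 5) (nat_lit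 17) (nat_lit 5) (nat_lit 15) (nat_lit 4) (nat_lit 283) (nat_lit 248) (nat_lit 189))))) (XT.nd (nat_lit 156) (nat_lit 152) (nat_lit 0) (XT.nd (nat_lit 78) (nat_lit 0) (nat_lit 0) (XT.lf (nat_lit 0) (nat_lit 4486272650) (nat_lit 76) (nat_lit 25191129929) (nat_lit 152) (nat_lit 18234548543) (nat_lit 13) (nat_lit 5) (nat_lit 14) (nat_lit 5) (nat_lit 15) (nat_lit 4) (nat_lit 284) (nat_lit 248) (nat_lit 188)) (XT.lf (nat_lit 0) (nat_lit 28698153779) (nat_lit 76) (nat_lit 12810232517) (nat_lit 152) (nat_lit 9530498270) (nat_lit 13) (nat_lit 5) (nat_lit 14) (nat_lit 5) (nat_lit 15) (nat_lit 4) (nat_lit 285) (nat_lit 248) (nat_lit 187))) (XT.nd (nat_lit 78) (nat_lit 76) (nat_lit 0) (XT.lf (nat_lit 0) (nat_lit 401456300) (nat_lit 76) (nat_lit 53880039988) (nat_lit 76) (nat_lit 134716646) (nat_lit 12) (nat_lit 4) (nat_lit 13) (nat_lit 5) (nat_lit 13) (nat_lit 4) (nat_lit 286) (nat_lit 248) (nat_lit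 186)) (XT.nd (nat_lit 78) (nat_lit 0) (nat_lit 0) (XT.lf (nat_lit 0) (nat_lit 10285031706) (nat_lit 152) (nat_lit 32695004270) (nat_lit 76) (nat_lit 15046256511) (nat_lit 11) (nat_lit 5) (nat_lit 13) (nat_lit 5) (nat_lit 12) (nat_lit 4) (nat_lit 287) (nat_lit 248) (nat_lit 185)) (XT.lf (nat_lit 0) (nat_lit 21516322916) (nat_lit 152) (nat_lit 9702334998) (nat_lit 76) (nat_lit 30707294402) (nat_lit 11) (nat_lit 5) (nat_lit 13) (nat_lit 5) (nat_lit 12) (nat_lit 4) (nat_lit 288) (nat_lit 248) (nat_lit 184))))))))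
noncomputable def xc66 : XT := (XT.nd (nat_lit 1482) (nat_lit 228) (nat_lit 0) (XT.nd (nat_lit 702) (nat_lit 228) (nat_lit 0) (XT.nd (nat_lit 312) (nat_lit 152) (nat_lit 0) (XT.nd (nat_lit 156) (nat_lit 76) (nat_lit 0) (XT.nd (nat_lit 78) (nat_lit 0) (nat_lit 0) (XT.lf (nat_lit 0) (nat_lit 15600934679) (nat_lit 76) (nat_lit 18272664191) (nat_lit 152) (nat_lit 32252629098) (nat_lit 10) (nat_lit 5) (nat_lit 11) (nat_lit 5) (nat_lit 12) (nat_lit 4) (nat_lit 289) (nat_lit 248) (nat_lit 183)) (XT.lf (nat_lit 0) (nat_lit 43248015659) (nat_lit 76) (nat_lit 4125128597) (nat_lit 152) (nat_lit 23281712887) (nat_lit 10) (nat_lit 5) (nat_lit 11) (nat_lit 5) (nat_lit 12) (nat_lit 4) (nat_lit 290) (nat_lit 248) (nat_lit 182))) (XT.nd (nat_lit 78) (nat_lit 76) (nat_lit 0) (XT.lf (nat_lit 0) (nat_lit 62112447941) (nat_lit 152) (nat_lit 2638541979) (nat_lit 0) (nat_lit 10786811666) (nat_lit 10) (nat_lit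 5) (nat_lit 12) (nat_lit 4) (nat_lit 10) (nat_lit 4) (nat_lit 291) (nat_lit 248) (nat_lit 181)) (XT.lf (nat_lit 0) (nat_lit 24812217642) (nat_lit 76) (nat_lit 53662333172) (nat_lit 76) (nat_lit 2314661606) (nat_lit 9) (nat_lit 4) (nat_lit 10) (nat_lit 5) (nat_lit 10) (nat_lit 4) (nat_lit 292) (nat_lit 248) (nat_lit 180)))) (XT.nd (nat_lit 156) (nat_lit 76) (nat_lit 0) (XT.nd (nat_lit 78) (nat_lit 0) (nat_lit 0) (XT.lf (nat_lit 0) (nat_lit 9408746035) (nat_lit 152) (nat_lit 32080145241) (nat_lit 76) (nat_lit 44962604556) (nat_lit 8) (nat_lit 5) (nat_lit 10) (nat_lit 5) (nat_lit 9) (nat_lit 4) (nat_lit 293) (nat_lit 248) (nat_lit 179)) (XT.lf (nat_lit 0) (nat_lit 21978091802) (nat_lit 152) (nat_lit 6331878128) (nat_lit 76) (nat_lit 64255447812) (nat_lit 8) (nat_lit 5) (nat_lit 10) (nat_lit 5) (nat_lit 9) (nat_lit 4) (nat_lit 294) (nat_lit 248) (nat_lit 178))) (XT.nd (nat_lit 78) (nat_lit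 0) (nat_lit 0) (XT.lf (nat_lit 0) (nat_lit 22165976928) (nat_lit 76) (nat_lit 13722040426) (nat_lit 152) (nat_lit 63263694714) (nat_lit 7) (nat_lit 5) (nat_lit 8) (nat_lit 5) (nat_lit 9) (nat_lit 4) (nat_lit 295) (nat_lit 248) (nat_lit 177)) (XT.nd (nat_lit 78) (nat_lit 0) (nat_lit 0) (XT.lf (nat_lit 0) (nat_lit 51043934022) (nat_lit 152) (nat_lit 53142444164) (nat_lit 0) (nat_lit 2071881406) (nat_lit 7) (nat_lit 5) (nat_lit 9) (nat_lit 4) (nat_lit 7) (nat_lit 4) (nat_lit 296) (nat_lit 248) (nat_lit 176)) (XT.lf (nat_lit 0) (nat_lit 67633843482) (nat_lit 152) (nat_lit 27640912112) (nat_lit 0) (nat_lit 18647508153) (nat_lit 7) (nat_lit 5) (nat_lit 9) (nat_lit 4) (nat_lit 7) (nat_lit 4) (nat_lit 297) (nat_lit 248) (nat_lit 175)))))) (XT.nd (nat_lit 390) (nat_lit 76) (nat_lit 0) (XT.nd (nat_lit 156) (nat_lit 76) (nat_lit 0) (XT.nd (nat_lit 78) (nat_lit 76) (nat_lit 0) (XT.lf (nat_lit 0)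 (nat_lit 85541816803) (nat_lit 152) (nat_lit 115779287) (nat_lit 0) (nat_lit 36542256739) (nat_lit 7) (nat_lit 5) (nat_lit 9) (nat_lit 4) (nat_lit 7) (nat_lit 4) (nat_lit 298) (nat_lit 248) (nat_lit 174)) (XT.lf (nat_lit 0) (nat_lit 30574645815) (nat_lit 76) (nat_lit 74776685399) (nat_lit 76) (nat_lit 25764880210) (nat_lit 6) (nat_lit 4) (nat_lit 7) (nat_lit 5) (nat_lit 7) (nat_lit 4) (nat_lit 299) (nat_lit 248) (nat_lit 173))) (XT.nd (nat_lit 78) (nat_lit 76) (nat_lit 0) (XT.lf (nat_lit 0) (nat_lit 63709806242) (nat_lit 76) (nat_lit 63029762315) (nat_lit 76) (nat_lit 14006619048) (nat_lit 6) (nat_lit 4) (nat_lit 7) (nat_lit 5) (nat_lit 7) (nat_lit 4) (nat_lit 300) (nat_lit 248) (nat_lit 172)) (XT.nd (nat_lit 78) (nat_lit 76) (nat_lit 0) (XT.lf (nat_lit 0) (nat_lit 99482230314) (nat_lit 76) (nat_lit 50349176221) (nat_lit 76) (nat_lit 1315534733) (nat_lit 6) (nat_lit 4) (nat_lit 7) (nat_lit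 5) (nat_lit 7) (nat_lit 4) (nat_lit 301) (nat_lit 248) (nat_lit 171)) (XT.lf (nat_lit 0) (nat_lit 11987227289) (nat_lit 152) (nat_lit 24469546119) (nat_lit 76) (nat_lit 125913665982) (nat_lit 5) (nat_lit 5) (nat_lit 7) (nat_lit 5) (nat_lit 6) (nat_lit 4) (nat_lit 302) (nat_lit 248) (nat_lit 170))))) (XT.nd (nat_lit 156) (nat_lit 0) (nat_lit 0) (XT.nd (nat_lit 78) (nat_lit 0) (nat_lit 0) (XT.lf (nat_lit 0) (nat_lit 5028145027) (nat_lit 76) (nat_lit 21352590398) (nat_lit 152) (nat_lit 148106378159) (nat_lit 4) (nat_lit 5) (nat_lit 5) (nat_lit 5) (nat_lit 6) (nat_lit 4) (nat_lit 303) (nat_lit 248) (nat_lit 169)) (XT.lf (nat_lit 0) (nat_lit 37748128870) (nat_lit 76) (nat_lit 4597639564) (nat_lit 152) (nat_lit 145206355959) (nat_lit 4) (nat_lit 5) (nat_lit 5) (nat_lit 5) (nat_lit 6) (nat_lit 4) (nat_lit 304) (nat_lit 248) (nat_lit 168))) (XT.nd (nat_lit 78) (nat_lit 0) (nat_lit 0) (XT.lf (nat_lit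 0) (nat_lit 59792926805) (nat_lit 152) (nat_lit 128798062687) (nat_lit 0) (nat_lit 13061104969) (nat_lit 4) (nat_lit 5) (nat_lit 6) (nat_lit 4) (nat_lit 4) (nat_lit 4) (nat_lit 305) (nat_lit 248) (nat_lit 167)) (XT.nd (nat_lit 78) (nat_lit 0) (nat_lit 0) (XT.lf (nat_lit 0) (nat_lit 78707998818) (nat_lit 152) (nat_lit 106199088158) (nat_lit 0) (nat_lit 31969372303) (nat_lit 4) (nat_lit 5) (nat_lit 6) (nat_lit 4) (nat_lit 4) (nat_lit 4) (nat_lit 306) (nat_lit 248) (nat_lit 166)) (XT.lf (nat_lit 0) (nat_lit 99131291750) (nat_lit 152) (nat_lit 81801370049) (nat_lit 0) (nat_lit 52386364608) (nat_lit 4) (nat_lit 5) (nat_lit 6) (nat_lit 4) (nat_lit 4) (nat_lit 4) (nat_lit 307) (nat_lit 248) (nat_lit 165))))))) (XT.nd (nat_lit 702) (nat_lit 152) (nat_lit 0) (XT.nd (nat_lit 312) (nat_lit 0) (nat_lit 0) (XT.nd (nat_lit 156) (nat_lit 76) (nat_lit 0) (XT.nd (nat_lit 78) (nat_lit 0) (nat_lit 0) (XT.lf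 (nat_lit 0) (nat_lit 121183832524) (nat_lit 152) (nat_lit 55460329290) (nat_lit 0) (nat_lit 74433071466) (nat_lit 4) (nat_lit 5) (nat_lit 6) (nat_lit 4) (nat_lit 4) (nat_lit 4) (nat_lit 308) (nat_lit 248) (nat_lit 164)) (XT.lf (nat_lit 0) (nat_lit 144996302862) (nat_lit 152) (nat_lit 27019870826) (nat_lit 0) (nat_lit 98240140031) (nat_lit 4) (nat_lit 5) (nat_lit 6) (nat_lit 4) (nat_lit 4) (nat_lit 4) (nat_lit 309) (nat_lit 248) (nat_lit 163))) (XT.nd (nat_lit 78) (nat_lit 0) (nat_lit 0) (XT.lf (nat_lit 0) (nat_lit 3810501231) (nat_lit 76) (nat_lit 166958805071) (nat_lit 76) (nat_lit 120197640598) (nat_lit 3) (nat_lit 4) (nat_lit 4) (nat_lit 5) (nat_lit 4) (nat_lit 4) (nat_lit 310) (nat_lit 248) (nat_lit 162)) (XT.lf (nat_lit 0) (nat_lit 38065207510) (nat_lit 76) (nat_lit 161005838453) (nat_lit 76) (nat_lit 114240042830) (nat_lit 3) (nat_lit 4) (nat_lit 4) (nat_lit 5) (nat_lit 4) (nat_lit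 4) (nat_lit 311) (nat_lit 248) (nat_lit 161)))) (XT.nd (nat_lit 156) (nat_lit 0) (nat_lit 0) (XT.nd (nat_lit 78) (nat_lit 0) (nat_lit 0) (XT.lf (nat_lit 0) (nat_lit 75053839908) (nat_lit 76) (nat_lit 154579591581) (nat_lit 76) (nat_lit 107809507856) (nat_lit 3) (nat_lit 4) (nat_lit 4) (nat_lit 5) (nat_lit 4) (nat_lit 4) (nat_lit 312) (nat_lit 248) (nat_lit 160)) (XT.lf (nat_lit 0) (nat_lit 114995590321) (nat_lit 76) (nat_lit 147641982992) (nat_lit 76) (nat_lit 100867928803) (nat_lit 3) (nat_lit 4) (nat_lit 4) (nat_lit 5) (nat_lit 4) (nat_lit 4) (nat_lit 313) (nat_lit 248) (nat_lit 159))) (XT.nd (nat_lit 78) (nat_lit 0) (nat_lit 0) (XT.lf (nat_lit 0) (nat_lit 158127150603) (nat_lit 76) (nat_lit 140151900932) (nat_lit 76) (nat_lit 93374170386) (nat_lit 3) (nat_lit 4) (nat_lit 4) (nat_lit 5) (nat_lit 4) (nat_lit 4) (nat_lit 314) (nat_lit 248) (nat_lit 158)) (XT.nd (nat_lit 78) (nat_lit 0)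 (nat_lit 0) (XT.lf (nat_lit 0) (nat_lit 204704115185) (nat_lit 76) (nat_lit 132064959730) (nat_lit 76) (nat_lit 85283825150) (nat_lit 3) (nat_lit 4) (nat_lit 4) (nat_lit 5) (nat_lit 4) (nat_lit 4) (nat_lit 315) (nat_lit 248) (nat_lit 157)) (XT.lf (nat_lit 0) (nat_lit 255002495709) (nat_lit 76) (nat_lit 123333236769) (nat_lit 76) (nat_lit 76548950307) (nat_lit 3) (nat_lit 4) (nat_lit 4) (nat_lit 5) (nat_lit 4) (nat_lit 4) (nat_lit 316) (nat_lit 248) (nat_lit 156)))))) (XT.nd (nat_lit 390) (nat_lit 152) (nat_lit 0) (XT.nd (nat_lit 156) (nat_lit 0) (nat_lit 0) (XT.nd (nat_lit 78) (nat_lit 0) (nat_lit 0) (XT.lf (nat_lit 0) (nat_lit 309320356653) (nat_lit 76) (nat_lit 113904988508) (nat_lit 76) (nat_lit 67117783636) (nat_lit 3) (nat_lit 4) (nat_lit 4) (nat_lit 5) (nat_lit 4) (nat_lit 4) (nat_lit 317) (nat_lit 248) (nat_lit 155)) (XT.lf (nat_lit 0) (nat_lit 367979581637) (nat_lit 76) (nat_lit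 103724343846) (nat_lit 76) (nat_lit 56934436742) (nat_lit 3) (nat_lit 4) (nat_lit 4) (nat_lit 5) (nat_lit 4) (nat_lit 4) (nat_lit 318) (nat_lit 248) (nat_lit 154))) (XT.nd (nat_lit 78) (nat_lit 0) (nat_lit 0) (XT.lf (nat_lit 0) (nat_lit 431327780882) (nat_lit 76) (nat_lit 92730973035) (nat_lit 76) (nat_lit 45938563865) (nat_lit 3) (nat_lit 4) (nat_lit 4) (nat_lit 5) (nat_lit 4) (nat_lit 4) (nat_lit 319) (nat_lit 248) (nat_lit 153)) (XT.nd (nat_lit 78) (nat_lit 0) (nat_lit 0) (XT.lf (nat_lit 0) (nat_lit 499740351126) (nat_lit 76) (nat_lit 80859730176) (nat_lit 76) (nat_lit 34065004278) (nat_lit 3) (nat_lit 4) (nat_lit 4) (nat_lit 5) (nat_lit 4) (nat_lit 4) (nat_lit 320) (nat_lit 248) (nat_lit 152)) (XT.lf (nat_lit 0) (nat_lit 573622700191) (nat_lit 76) (nat_lit 68040267162) (nat_lit 76) (nat_lit 21243396146) (nat_lit 3) (nat_lit 4) (nat_lit 4) (nat_lit 5) (nat_lit 4) (nat_lit 4) (nat_lit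 321) (nat_lit 248) (nat_lit 151))))) (XT.nd (nat_lit 156) (nat_lit 76) (nat_lit 0) (XT.nd (nat_lit 78) (nat_lit 76) (nat_lit 0) (XT.lf (nat_lit 0) (nat_lit 653412649407) (nat_lit 76) (nat_lit 54196616806) (nat_lit 76) (nat_lit 7397759568) (nat_lit 3) (nat_lit 4) (nat_lit 4) (nat_lit 5) (nat_lit 4) (nat_lit 4) (nat_lit 322) (nat_lit 248) (nat_lit 150)) (XT.lf (nat_lit 0) (nat_lit 7312179978) (nat_lit 152) (nat_lit 31810727375) (nat_lit 76) (nat_lit 732147012816) (nat_lit 2) (nat_lit 5) (nat_lit 4) (nat_lit 5) (nat_lit 3) (nat_lit 4) (nat_lit 323) (nat_lit 248) (nat_lit 149))) (XT.nd (nat_lit 31668) (nat_lit 0) (nat_lit 6308) (XT.lf (nat_lit 0) (nat_lit 235812073) (nat_lit 76) (nat_lit 22709656837) (nat_lit 152) (nat_lit 809082027675) (nat_lit 1) (nat_lit 5) (nat_lit 2) (nat_lit 5) (nat_lit 3) (nat_lit 4) (nat_lit 324) (nat_lit 248) (nat_lit 148)) (XT.nd (nat_lit 78) (nat_lit 0) (nat_lit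 0) (XT.lf (nat_lit 0) (nat_lit 476996931) (nat_lit 684) (nat_lit 1970979333) (nat_lit 684) (nat_lit 1970979333) (nat_lit 84) (nat_lit 3) (nat_lit 93) (nat_lit 3) (nat_lit 93) (nat_lit 5) (nat_lit 249) (nat_lit 249) (nat_lit 222)) (XT.lf (nat_lit 76) (nat_lit 2325557793) (nat_lit 0) (nat_lit 61353349) (nat_lit 684) (nat_lit 6730421863) (nat_lit 85) (nat_lit 5) (nat_lit 84) (nat_lit 3) (nat_lit 93) (nat_lit 5) (nat_lit 250) (nat_lit 249) (nat_lit 221))))))))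
noncomputable def xc67 : XT := (XT.nd (nat_lit 1482) (nat_lit 1824) (nat_lit 0) (XT.nd (nat_lit 702) (nat_lit 2280) (nat_lit 0) (XT.nd (nat_lit 312) (nat_lit 1520) (nat_lit 0) (XT.nd (nat_lit 156) (nat_lit 0) (nat_lit 76) (XT.nd (nat_lit 78) (nat_lit 0) (nat_lit 76) (XT.lf (nat_lit 0) (nat_lit 3948737115) (nat_lit 608) (nat_lit 344333536) (nat_lit 684) (nat_lit 5125760025) (nat_lit 85) (nat_lit 5) (nat_lit 93) (nat_lit 5) (nat_lit 94) (nat_lit 5) (nat_lit 251) (nat_lit 249) (nat_lit 220)) (XT.lf (nat_lit 0) (nat_lit 5633886307) (nat_lit 608) (nat_lit 3005607626) (nat_lit 684) (nat_lit 1105438969) (nat_lit 86) (nat_lit 5) (nat_lit 94) (nat_lit 5) (nat_lit 95) (nat_lit 5) (nat_lit 252) (nat_lit 249) (nat_lit 219))) (XT.nd (nat_lit 78) (nat_lit 0) (nat_lit 76) (XT.lf (nat_lit 76) (nat_lit 4290194851) (nat_lit 0) (nat_lit 3192019701) (nat_lit 684) (nat_lit 2613864103) (nat_lit 87) (nat_lit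 5) (nat_lit 86) (nat_lit 5) (nat_lit 95) (nat_lit 5) (nat_lit 253) (nat_lit 249) (nat_lit 218)) (XT.lf (nat_lit 76) (nat_lit 1734263513) (nat_lit 0) (nat_lit 7757356635) (nat_lit 684) (nat_lit 983381383) (nat_lit 88) (nat_lit 5) (nat_lit 87) (nat_lit 5) (nat_lit 96) (nat_lit 5) (nat_lit 254) (nat_lit 249) (nat_lit 217)))) (XT.nd (nat_lit 156) (nat_lit 988) (nat_lit 0) (XT.nd (nat_lit 78) (nat_lit 0) (nat_lit 76) (XT.lf (nat_lit 0) (nat_lit 805032610) (nat_lit 684) (nat_lit 944672829) (nat_lit 760) (nat_lit 9131612013) (nat_lit 78) (nat_lit 5) (nat_lit 87) (nat_lit 5) (nat_lit 88) (nat_lit 5) (nat_lit 255) (nat_lit 249) (nat_lit 216)) (XT.lf (nat_lit 0) (nat_lit 2801588436) (nat_lit 684) (nat_lit 3769092883) (nat_lit 76) (nat_lit 4743957728) (nat_lit 79) (nat_lit 5) (nat_lit 88) (nat_lit 5) (nat_lit 80) (nat_lit 5) (nat_lit 256) (nat_lit 249) (nat_lit 215))) (XT.nd (nat_lit 78) (nat_lit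 380) (nat_lit 0) (XT.lf (nat_lit 0) (nat_lit 4992644182) (nat_lit 760) (nat_lit 6762209902) (nat_lit 76) (nat_lit 26295114) (nat_lit 70) (nat_lit 5) (nat_lit 80) (nat_lit 5) (nat_lit 71) (nat_lit 5) (nat_lit 257) (nat_lit 249) (nat_lit 214)) (XT.nd (nat_lit 78) (nat_lit 0) (nat_lit 0) (XT.lf (nat_lit 0) (nat_lit 2243206071) (nat_lit 380) (nat_lit 5243748015) (nat_lit 456) (nat_lit 4791869815) (nat_lit 65) (nat_lit 5) (nat_lit 70) (nat_lit 5) (nat_lit 71) (nat_lit 5) (nat_lit 258) (nat_lit 249) (nat_lit 213)) (XT.lf (nat_lit 0) (nat_lit 10249002354) (nat_lit 456) (nat_lit 710162900) (nat_lit 76) (nat_lit 1853961929) (nat_lit 65) (nat_lit 5) (nat_lit 71) (nat_lit 5) (nat_lit 66) (nat_lit 5) (nat_lit 259) (nat_lit 249) (nat_lit 212)))))) (XT.nd (nat_lit 390) (nat_lit 988) (nat_lit 0) (XT.nd (nat_lit 156) (nat_lit 532) (nat_lit 0) (XT.nd (nat_lit 78) (nat_lit 304) (nat_lit 0) (XT.lf (nat_lit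 0) (nat_lit 12592582) (nat_lit 456) (nat_lit 3879837254) (nat_lit 76) (nat_lit 9489781602) (nat_lit 59) (nat_lit 5) (nat_lit 65) (nat_lit 5) (nat_lit 60) (nat_lit 5) (nat_lit 260) (nat_lit 249) (nat_lit 211)) (XT.lf (nat_lit 0) (nat_lit 2813727232) (nat_lit 380) (nat_lit 7396549259) (nat_lit 76) (nat_lit 3779221614) (nat_lit 55) (nat_lit 5) (nat_lit 60) (nat_lit 5) (nat_lit 56) (nat_lit 5) (nat_lit 261) (nat_lit 249) (nat_lit 210))) (XT.nd (nat_lit 78) (nat_lit 228) (nat_lit 0) (XT.lf (nat_lit 0) (nat_lit 3367181115) (nat_lit 304) (nat_lit 2592179709) (nat_lit 380) (nat_lit 8680156037) (nat_lit 51) (nat_lit 5) (nat_lit 55) (nat_lit 5) (nat_lit 56) (nat_lit 5) (nat_lit 262) (nat_lit 249) (nat_lit 209)) (XT.nd (nat_lit 78) (nat_lit 228) (nat_lit 0) (XT.lf (nat_lit 0) (nat_lit 9512789868) (nat_lit 380) (nat_lit 242967818) (nat_lit 76) (nat_lit 5578129196) (nat_lit 51) (nat_lit 5) (nat_lit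 56) (nat_lit 5) (nat_lit 52) (nat_lit 5) (nat_lit 263) (nat_lit 249) (nat_lit 208)) (XT.lf (nat_lit 0) (nat_lit 11938714120) (nat_lit 228) (nat_lit 1583741849) (nat_lit 304) (nat_lit 2552897774) (nat_lit 48) (nat_lit 5) (nat_lit 51) (nat_lit 5) (nat_lit 52) (nat_lit 5) (nat_lit 264) (nat_lit 249) (nat_lit 207))))) (XT.nd (nat_lit 156) (nat_lit 380) (nat_lit 0) (XT.nd (nat_lit 78) (nat_lit 228) (nat_lit 0) (XT.lf (nat_lit 0) (nat_lit 1140640895) (nat_lit 380) (nat_lit 8572649295) (nat_lit 76) (nat_lit 7152456171) (nat_lit 43) (nat_lit 5) (nat_lit 48) (nat_lit 5) (nat_lit 44) (nat_lit 5) (nat_lit 265) (nat_lit 249) (nat_lit 206)) (XT.lf (nat_lit 0) (nat_lit 4143773600) (nat_lit 228) (nat_lit 1009344592) (nat_lit 304) (nat_lit 12558633524) (nat_lit 40) (nat_lit 5) (nat_lit 43) (nat_lit 5) (nat_lit 44) (nat_lit 5) (nat_lit 266) (nat_lit 249) (nat_lit 205))) (XT.nd (nat_lit 78) (nat_lit 380)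 (nat_lit 0) (XT.lf (nat_lit 0) (nat_lit 9719137414) (nat_lit 304) (nat_lit 634346177) (nat_lit 76) (nat_lit 8260436629) (nat_lit 40) (nat_lit 5) (nat_lit 44) (nat_lit 5) (nat_lit 41) (nat_lit 5) (nat_lit 267) (nat_lit 249) (nat_lit 204)) (XT.nd (nat_lit 78) (nat_lit 152) (nat_lit 0) (XT.lf (nat_lit 0) (nat_lit 13693609914) (nat_lit 228) (nat_lit 1141124725) (nat_lit 304) (nat_lit 4744414507) (nat_lit 37) (nat_lit 5) (nat_lit 40) (nat_lit 5) (nat_lit 41) (nat_lit 5) (nat_lit 268) (nat_lit 249) (nat_lit 203)) (XT.lf (nat_lit 0) (nat_lit 8647471673) (nat_lit 152) (nat_lit 11951644707) (nat_lit 228) (nat_lit 10597397) (nat_lit 35) (nat_lit 5) (nat_lit 37) (nat_lit 5) (nat_lit 38) (nat_lit 5) (nat_lit 269) (nat_lit 249) (nat_lit 202))))))) (XT.nd (nat_lit 780) (nat_lit 684) (nat_lit 0) (XT.nd (nat_lit 390) (nat_lit 456) (nat_lit 0) (XT.nd (nat_lit 156) (nat_lit 380) (nat_lit 0) (XT.nd (nat_lit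 78) (nat_lit 0) (nat_lit 0) (XT.lf (nat_lit 0) (nat_lit 2763724220) (nat_lit 228) (nat_lit 2298868882) (nat_lit 304) (nat_lit 16650032728) (nat_lit 31) (nat_lit 5) (nat_lit 34) (nat_lit 5) (nat_lit 35) (nat_lit 5) (nat_lit 270) (nat_lit 249) (nat_lit 201)) (XT.lf (nat_lit 0) (nat_lit 10839302801) (nat_lit 304) (nat_lit 3987964905) (nat_lit 76) (nat_lit 8061669631) (nat_lit 31) (nat_lit 5) (nat_lit 35) (nat_lit 5) (nat_lit 32) (nat_lit 5) (nat_lit 271) (nat_lit 249) (nat_lit 200))) (XT.nd (nat_lit 78) (nat_lit 228) (nat_lit 0) (XT.lf (nat_lit 0) (nat_lit 12475677526) (nat_lit 152) (nat_lit 4798393049) (nat_lit 228) (nat_lit 6875558364) (nat_lit 29) (nat_lit 5) (nat_lit 31) (nat_lit 5) (nat_lit 32) (nat_lit 5) (nat_lit 272) (nat_lit 249) (nat_lit 199)) (XT.nd (nat_lit 78) (nat_lit 76) (nat_lit 0) (XT.lf (nat_lit 0) (nat_lit 4898661525) (nat_lit 152) (nat_lit 19530322812) (nat_lit 228) (nat_lit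 1071989263) (nat_lit 27) (nat_lit 5) (nat_lit 29) (nat_lit 5) (nat_lit 30) (nat_lit 5) (nat_lit 273) (nat_lit 249) (nat_lit 198)) (XT.lf (nat_lit 0) (nat_lit 5282486154) (nat_lit 228) (nat_lit 3954444996) (nat_lit 76) (nat_lit 17706850706) (nat_lit 26) (nat_lit 5) (nat_lit 29) (nat_lit 5) (nat_lit 27) (nat_lit 5) (nat_lit 274) (nat_lit 249) (nat_lit 197))))) (XT.nd (nat_lit 156) (nat_lit 152) (nat_lit 0) (XT.nd (nat_lit 78) (nat_lit 152) (nat_lit 0) (XT.lf (nat_lit 0) (nat_lit 12334368193) (nat_lit 228) (nat_lit 14104757905) (nat_lit 76) (nat_lit 2050733559) (nat_lit 24) (nat_lit 5) (nat_lit 27) (nat_lit 5) (nat_lit 25) (nat_lit 5) (nat_lit 275) (nat_lit 249) (nat_lit 196)) (XT.lf (nat_lit 0) (nat_lit 4103229667) (nat_lit 152) (nat_lit 16106286298) (nat_lit 228) (nat_lit 9937201829) (nat_lit 22) (nat_lit 5) (nat_lit 24) (nat_lit 5) (nat_lit 25) (nat_lit 5) (nat_lit 276) (nat_lit 249)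 (nat_lit 195))) (XT.nd (nat_lit 78) (nat_lit 152) (nat_lit 0) (XT.lf (nat_lit 0) (nat_lit 24225558132) (nat_lit 152) (nat_lit 4705658011) (nat_lit 228) (nat_lit 2994127584) (nat_lit 22) (nat_lit 5) (nat_lit 24) (nat_lit 5) (nat_lit 25) (nat_lit 5) (nat_lit 277) (nat_lit 249) (nat_lit 194)) (XT.nd (nat_lit 78) (nat_lit 0) (nat_lit 0) (XT.lf (nat_lit 0) (nat_lit 4649095257) (nat_lit 152) (nat_lit 21563061848) (nat_lit 76) (nat_lit 7616183472) (nat_lit 20) (nat_lit 5) (nat_lit 22) (nat_lit 5) (nat_lit 21) (nat_lit 5) (nat_lit 278) (nat_lit 249) (nat_lit 193)) (XT.lf (nat_lit 0) (nat_lit 12989612342) (nat_lit 152) (nat_lit 1949123973) (nat_lit 76) (nat_lit 20932887556) (nat_lit 20) (nat_lit 5) (nat_lit 22) (nat_lit 5) (nat_lit 21) (nat_lit 5) (nat_lit 279) (nat_lit 249) (nat_lit 192)))))) (XT.nd (nat_lit 390) (nat_lit 228) (nat_lit 0) (XT.nd (nat_lit 156) (nat_lit 228) (nat_lit 0) (XT.nd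 (nat_lit 78) (nat_lit 76) (nat_lit 0) (XT.lf (nat_lit 0) (nat_lit 19829019446) (nat_lit 152) (nat_lit 2453552355) (nat_lit 228) (nat_lit 15781572889) (nat_lit 18) (nat_lit 5) (nat_lit 20) (nat_lit 5) (nat_lit 21) (nat_lit 5) (nat_lit 280) (nat_lit 249) (nat_lit 191)) (XT.lf (nat_lit 0) (nat_lit 2868892708) (nat_lit 76) (nat_lit 29678192892) (nat_lit 152) (nat_lit 7873608016) (nat_lit 17) (nat_lit 5) (nat_lit 18) (nat_lit 5) (nat_lit 19) (nat_lit 4) (nat_lit 281) (nat_lit 249) (nat_lit 190))) (XT.nd (nat_lit 78) (nat_lit 152) (nat_lit 0) (XT.lf (nat_lit 0) (nat_lit 987229815) (nat_lit 152) (nat_lit 16732369054) (nat_lit 76) (nat_lit 25228596223) (nat_lit 16) (nat_lit 5) (nat_lit 18) (nat_lit 5) (nat_lit 17) (nat_lit 5) (nat_lit 282) (nat_lit 249) (nat_lit 189)) (XT.nd (nat_lit 78) (nat_lit 0) (nat_lit 0) (XT.lf (nat_lit 0) (nat_lit 5769423520) (nat_lit 152) (nat_lit 4584460964) (nat_lit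 228) (nat_lit 35313944686) (nat_lit 14) (nat_lit 5) (nat_lit 16) (nat_lit 5) (nat_lit 17) (nat_lit 5) (nat_lit 283) (nat_lit 249) (nat_lit 188)) (XT.lf (nat_lit 0) (nat_lit 20895876755) (nat_lit 228) (nat_lit 18110649322) (nat_lit 76) (nat_lit 9577232072) (nat_lit 14) (nat_lit 5) (nat_lit 17) (nat_lit 5) (nat_lit 15) (nat_lit 4) (nat_lit 284) (nat_lit 249) (nat_lit 187))))) (XT.nd (nat_lit 156) (nat_lit 152) (nat_lit 0) (XT.nd (nat_lit 78) (nat_lit 0) (nat_lit 0) (XT.lf (nat_lit 0) (nat_lit 5486605372) (nat_lit 76) (nat_lit 26938932882) (nat_lit 152) (nat_lit 19300230327) (nat_lit 13) (nat_lit 5) (nat_lit 14) (nat_lit 5) (nat_lit 15) (nat_lit 4) (nat_lit 285) (nat_lit 249) (nat_lit 186)) (XT.lf (nat_lit 0) (nat_lit 31587923591) (nat_lit 76) (nat_lit 13587377562) (nat_lit 152) (nat_lit 9928973224) (nat_lit 13) (nat_lit 5) (nat_lit 14) (nat_lit 5) (nat_lit 15) (nat_lit 4) (nat_lit 286)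 (nat_lit 249) (nat_lit 185))) (XT.nd (nat_lit 78) (nat_lit 0) (nat_lit 0) (XT.lf (nat_lit 0) (nat_lit 198245604) (nat_lit 152) (nat_lit 57740734956) (nat_lit 76) (nat_lit 813328387) (nat_lit 11) (nat_lit 5) (nat_lit 13) (nat_lit 5) (nat_lit 12) (nat_lit 4) (nat_lit 287) (nat_lit 249) (nat_lit 184)) (XT.nd (nat_lit 78) (nat_lit 0) (nat_lit 0) (XT.lf (nat_lit 0) (nat_lit 11421799860) (nat_lit 152) (nat_lit 34761594759) (nat_lit 76) (nat_lit 16468969231) (nat_lit 11) (nat_lit 5) (nat_lit 13) (nat_lit 5) (nat_lit 12) (nat_lit 4) (nat_lit 288) (nat_lit 249) (nat_lit 183)) (XT.lf (nat_lit 0) (nat_lit 23528337654) (nat_lit 152) (nat_lit 9970179343) (nat_lit 76) (nat_lit 33366667027) (nat_lit 11) (nat_lit 5) (nat_lit 13) (nat_lit 5) (nat_lit 12) (nat_lit 4) (nat_lit 289) (nat_lit 249) (nat_lit 182))))))))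
noncomputable def xc68 : XT := (XT.nd (nat_lit 1482) (nat_lit 152) (nat_lit 0) (XT.nd (nat_lit 702) (nat_lit 228) (nat_lit 0) (XT.nd (nat_lit 312) (nat_lit 152) (nat_lit 0) (XT.nd (nat_lit 156) (nat_lit 76) (nat_lit 0) (XT.nd (nat_lit 78) (nat_lit 0) (nat_lit 0) (XT.lf (nat_lit 0) (nat_lit 17335259965) (nat_lit 76) (nat_lit 19524993459) (nat_lit 152) (nat_lit 34541948308) (nat_lit 10) (nat_lit 5) (nat_lit 11) (nat_lit 5) (nat_lit 12) (nat_lit 4) (nat_lit 290) (nat_lit 249) (nat_lit 181)) (XT.lf (nat_lit 0) (nat_lit 47158088867) (nat_lit 76) (nat_lit 4261172342) (nat_lit 152) (nat_lit 24874906290) (nat_lit 10) (nat_lit 5) (nat_lit 11) (nat_lit 5) (nat_lit 12) (nat_lit 4) (nat_lit 291) (nat_lit 249) (nat_lit 180))) (XT.nd (nat_lit 78) (nat_lit 76) (nat_lit 0) (XT.lf (nat_lit 0) (nat_lit 67321530603) (nat_lit 152) (nat_lit 2423438476) (nat_lit 0) (nat_lit 11823606973) (nat_lit 10) (nat_lit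 5) (nat_lit 12) (nat_lit 4) (nat_lit 10) (nat_lit 4) (nat_lit 292) (nat_lit 249) (nat_lit 179)) (XT.lf (nat_lit 0) (nat_lit 27204860353) (nat_lit 76) (nat_lit 57776321942) (nat_lit 76) (nat_lit 2259506600) (nat_lit 9) (nat_lit 4) (nat_lit 10) (nat_lit 5) (nat_lit 10) (nat_lit 4) (nat_lit 293) (nat_lit 249) (nat_lit 178)))) (XT.nd (nat_lit 156) (nat_lit 76) (nat_lit 0) (XT.nd (nat_lit 78) (nat_lit 0) (nat_lit 0) (XT.lf (nat_lit 0) (nat_lit 10376849365) (nat_lit 152) (nat_lit 34261766466) (nat_lit 76) (nat_lit 48718029178) (nat_lit 8) (nat_lit 5) (nat_lit 10) (nat_lit 5) (nat_lit 9) (nat_lit 4) (nat_lit 294) (nat_lit 249) (nat_lit 177)) (XT.lf (nat_lit 0) (nat_lit 23935786969) (nat_lit 152) (nat_lit 6482140976) (nat_lit 76) (nat_lit 69542565357) (nat_lit 8) (nat_lit 5) (nat_lit 10) (nat_lit 5) (nat_lit 9) (nat_lit 4) (nat_lit 295) (nat_lit 249) (nat_lit 176))) (XT.nd (nat_lit 78) (nat_lit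 0) (nat_lit 0) (XT.lf (nat_lit 0) (nat_lit 24280058669) (nat_lit 76) (nat_lit 14668994883) (nat_lit 152) (nat_lit 68125124011) (nat_lit 7) (nat_lit 5) (nat_lit 8) (nat_lit 5) (nat_lit 9) (nat_lit 4) (nat_lit 296) (nat_lit 249) (nat_lit 175)) (XT.nd (nat_lit 78) (nat_lit 0) (nat_lit 0) (XT.lf (nat_lit 0) (nat_lit 55305550000) (nat_lit 152) (nat_lit 57071505891) (nat_lit 0) (nat_lit 2372800395) (nat_lit 7) (nat_lit 5) (nat_lit 9) (nat_lit 4) (nat_lit 7) (nat_lit 4) (nat_lit 297) (nat_lit 249) (nat_lit 174)) (XT.lf (nat_lit 0) (nat_lit 73209459531) (nat_lit 152) (nat_lit 29553727853) (nat_lit 0) (nat_lit 20264464802) (nat_lit 7) (nat_lit 5) (nat_lit 9) (nat_lit 4) (nat_lit 7) (nat_lit 4) (nat_lit 298) (nat_lit 249) (nat_lit 173)))))) (XT.nd (nat_lit 390) (nat_lit 76) (nat_lit 0) (XT.nd (nat_lit 156) (nat_lit 76) (nat_lit 0) (XT.nd (nat_lit 78) (nat_lit 0) (nat_lit 0) (XT.lf (nat_lit 0) (nat_lit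 156310568) (nat_lit 76) (nat_lit 92383985146) (nat_lit 76) (nat_lit 39427652338) (nat_lit 6) (nat_lit 4) (nat_lit 7) (nat_lit 5) (nat_lit 7) (nat_lit 4) (nat_lit 299) (nat_lit 249) (nat_lit 172)) (XT.lf (nat_lit 0) (nat_lit 33284956962) (nat_lit 76) (nat_lit 80639990349) (nat_lit 76) (nat_lit 27673159320) (nat_lit 6) (nat_lit 4) (nat_lit 7) (nat_lit 5) (nat_lit 7) (nat_lit 4) (nat_lit 300) (nat_lit 249) (nat_lit 171))) (XT.nd (nat_lit 78) (nat_lit 76) (nat_lit 0) (XT.lf (nat_lit 0) (nat_lit 69051349521) (nat_lit 76) (nat_lit 67962115631) (nat_lit 76) (nat_lit 14985564028) (nat_lit 6) (nat_lit 4) (nat_lit 7) (nat_lit 5) (nat_lit 7) (nat_lit 4) (nat_lit 301) (nat_lit 249) (nat_lit 170)) (XT.nd (nat_lit 78) (nat_lit 76) (nat_lit 0) (XT.lf (nat_lit 0) (nat_lit 107667437239) (nat_lit 76) (nat_lit 54275232848) (nat_lit 76) (nat_lit 1289680712) (nat_lit 6) (nat_lit 4) (nat_lit 7) (nat_lit 5)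 (nat_lit 7) (nat_lit 4) (nat_lit 302) (nat_lit 249) (nat_lit 169)) (XT.lf (nat_lit 0) (nat_lit 13063706290) (nat_lit 152) (nat_lit 26213288066) (nat_lit 76) (nat_lit 136077109713) (nat_lit 5) (nat_lit 5) (nat_lit 7) (nat_lit 5) (nat_lit 6) (nat_lit 4) (nat_lit 303) (nat_lit 249) (nat_lit 168))))) (XT.nd (nat_lit 156) (nat_lit 0) (nat_lit 0) (XT.nd (nat_lit 78) (nat_lit 0) (nat_lit 0) (XT.lf (nat_lit 0) (nat_lit 5634925939) (nat_lit 76) (nat_lit 22968258649) (nat_lit 152) (nat_lit 159837210204) (nat_lit 4) (nat_lit 5) (nat_lit 5) (nat_lit 5) (nat_lit 6) (nat_lit 4) (nat_lit 304) (nat_lit 249) (nat_lit 167)) (XT.lf (nat_lit 0) (nat_lit 40957358170) (nat_lit 76) (nat_lit 4879766488) (nat_lit 152) (nat_lit 156713903132) (nat_lit 4) (nat_lit 5) (nat_lit 5) (nat_lit 5) (nat_lit 6) (nat_lit 4) (nat_lit 305) (nat_lit 249) (nat_lit 166))) (XT.nd (nat_lit 78) (nat_lit 0) (nat_lit 0) (XT.lf (nat_lit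 0) (nat_lit 64673613283) (nat_lit 152) (nat_lit 138922919022) (nat_lit 0) (nat_lit 14182791340) (nat_lit 4) (nat_lit 5) (nat_lit 6) (nat_lit 4) (nat_lit 4) (nat_lit 4) (nat_lit 306) (nat_lit 249) (nat_lit 165)) (XT.nd (nat_lit 78) (nat_lit 0) (nat_lit 0) (XT.lf (nat_lit 0) (nat_lit 85094687180) (nat_lit 152) (nat_lit 114529284951) (nat_lit 0) (nat_lit 34598031322) (nat_lit 4) (nat_lit 5) (nat_lit 6) (nat_lit 4) (nat_lit 4) (nat_lit 4) (nat_lit 307) (nat_lit 249) (nat_lit 164)) (XT.lf (nat_lit 0) (nat_lit 107145173291) (nat_lit 152) (nat_lit 88192025709) (nat_lit 0) (nat_lit 56643115660) (nat_lit 4) (nat_lit 5) (nat_lit 6) (nat_lit 4) (nat_lit 4) (nat_lit 4) (nat_lit 308) (nat_lit 249) (nat_lit 163))))))) (XT.nd (nat_lit 702) (nat_lit 76) (nat_lit 0) (XT.nd (nat_lit 312) (nat_lit 0) (nat_lit 0) (XT.nd (nat_lit 156) (nat_lit 76) (nat_lit 0) (XT.nd (nat_lit 78) (nat_lit 0) (nat_lit 0) (XT.lf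 (nat_lit 0) (nat_lit 130955741164) (nat_lit 152) (nat_lit 59755068648) (nat_lit 0) (nat_lit 80448681891) (nat_lit 4) (nat_lit 5) (nat_lit 6) (nat_lit 4) (nat_lit 4) (nat_lit 4) (nat_lit 309) (nat_lit 249) (nat_lit 162)) (XT.lf (nat_lit 0) (nat_lit 156667490460) (nat_lit 152) (nat_lit 29049898468) (nat_lit 0) (nat_lit 106155800036) (nat_lit 4) (nat_lit 5) (nat_lit 6) (nat_lit 4) (nat_lit 4) (nat_lit 4) (nat_lit 310) (nat_lit 249) (nat_lit 161))) (XT.nd (nat_lit 78) (nat_lit 0) (nat_lit 0) (XT.lf (nat_lit 0) (nat_lit 4241185828) (nat_lit 76) (nat_lit 180257818068) (nat_lit 76) (nat_lit 129741839543) (nat_lit 3) (nat_lit 4) (nat_lit 4) (nat_lit 5) (nat_lit 4) (nat_lit 4) (nat_lit 311) (nat_lit 249) (nat_lit 160)) (XT.lf (nat_lit 0) (nat_lit 41226946794) (nat_lit 76) (nat_lit 173832887558) (nat_lit 76) (nat_lit 123312938568) (nat_lit 3) (nat_lit 4) (nat_lit 4) (nat_lit 5) (nat_lit 4) (nat_lit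 4) (nat_lit 312) (nat_lit 249) (nat_lit 159)))) (XT.nd (nat_lit 156) (nat_lit 0) (nat_lit 0) (XT.nd (nat_lit 78) (nat_lit 0) (nat_lit 0) (XT.lf (nat_lit 0) (nat_lit 81166038474) (nat_lit 76) (nat_lit 166896497823) (nat_lit 76) (nat_lit 116372872477) (nat_lit 3) (nat_lit 4) (nat_lit 4) (nat_lit 5) (nat_lit 4) (nat_lit 4) (nat_lit 313) (nat_lit 249) (nat_lit 158)) (XT.lf (nat_lit 0) (nat_lit 124295136967) (nat_lit 76) (nat_lit 159407544332) (nat_lit 76) (nat_lit 108880514952) (nat_lit 3) (nat_lit 4) (nat_lit 4) (nat_lit 5) (nat_lit 4) (nat_lit 4) (nat_lit 314) (nat_lit 249) (nat_lit 157))) (XT.nd (nat_lit 78) (nat_lit 0) (nat_lit 0) (XT.lf (nat_lit 0) (nat_lit 170869822114) (nat_lit 76) (nat_lit 151321648099) (nat_lit 76) (nat_lit 100791466837) (nat_lit 3) (nat_lit 4) (nat_lit 4) (nat_lit 5) (nat_lit 4) (nat_lit 4) (nat_lit 315) (nat_lit 249) (nat_lit 156)) (XT.nd (nat_lit 78) (nat_lit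 0) (nat_lit 0) (XT.lf (nat_lit 0) (nat_lit 221166092051) (nat_lit 76) (nat_lit 142590892705) (nat_lit 76) (nat_lit 92057793032) (nat_lit 3) (nat_lit 4) (nat_lit 4) (nat_lit 5) (nat_lit 4) (nat_lit 4) (nat_lit 316) (nat_lit 249) (nat_lit 155)) (XT.lf (nat_lit 0) (nat_lit 275481998746) (nat_lit 76) (nat_lit 133163540337) (nat_lit 76) (nat_lit 82627738433) (nat_lit 3) (nat_lit 4) (nat_lit 4) (nat_lit 5) (nat_lit 4) (nat_lit 4) (nat_lit 317) (nat_lit 249) (nat_lit 154)))))) (XT.nd (nat_lit 390) (nat_lit 76) (nat_lit 0) (XT.nd (nat_lit 156) (nat_lit 0) (nat_lit 0) (XT.nd (nat_lit 78) (nat_lit 0) (nat_lit 0) (XT.lf (nat_lit 0) (nat_lit 334139414241) (nat_lit 76) (nat_lit 122983725206) (nat_lit 76) (nat_lit 72445421236) (nat_lit 3) (nat_lit 4) (nat_lit 4) (nat_lit 5) (nat_lit 4) (nat_lit 4) (nat_lit 318) (nat_lit 249) (nat_lit 153)) (XT.lf (nat_lit 0) (nat_lit 397485938034) (nat_lit 76) (nat_lit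 111991122480) (nat_lit 76) (nat_lit 61450501782) (nat_lit 3) (nat_lit 4) (nat_lit 4) (nat_lit 5) (nat_lit 4) (nat_lit 4) (nat_lit 319) (nat_lit 249) (nat_lit 152))) (XT.nd (nat_lit 78) (nat_lit 0) (nat_lit 0) (XT.lf (nat_lit 0) (nat_lit 465896956933) (nat_lit 76) (nat_lit 100120590811) (nat_lit 76) (nat_lit 49577824994) (nat_lit 3) (nat_lit 4) (nat_lit 4) (nat_lit 5) (nat_lit 4) (nat_lit 4) (nat_lit 320) (nat_lit 249) (nat_lit 151)) (XT.nd (nat_lit 78) (nat_lit 0) (nat_lit 0) (XT.lf (nat_lit 0) (nat_lit 539777869568) (nat_lit 76) (nat_lit 87301786306) (nat_lit 76) (nat_lit 36757034268) (nat_lit 3) (nat_lit 4) (nat_lit 4) (nat_lit 5) (nat_lit 4) (nat_lit 4) (nat_lit 321) (nat_lit 249) (nat_lit 150)) (XT.lf (nat_lit 0) (nat_lit 619566488755) (nat_lit 76) (nat_lit 73458745679) (nat_lit 76) (nat_lit 22912154548) (nat_lit 3) (nat_lit 4) (nat_lit 4) (nat_lit 5) (nat_lit 4) (nat_lit 4) (nat_lit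 322) (nat_lit 249) (nat_lit 149))))) (XT.nd (nat_lit 31824) (nat_lit 0) (nat_lit 6232) (XT.nd (nat_lit 78) (nat_lit 76) (nat_lit 0) (XT.lf (nat_lit 0) (nat_lit 705735635941) (nat_lit 76) (nat_lit 58509436098) (nat_lit 76) (nat_lit 7961142103) (nat_lit 3) (nat_lit 4) (nat_lit 4) (nat_lit 5) (nat_lit 4) (nat_lit 4) (nat_lit 323) (nat_lit 249) (nat_lit 148)) (XT.lf (nat_lit 0) (nat_lit 7922643293) (nat_lit 152) (nat_lit 34308451970) (nat_lit 76) (nat_lit 790739126019) (nat_lit 2) (nat_lit 5) (nat_lit 4) (nat_lit 5) (nat_lit 3) (nat_lit 4) (nat_lit 324) (nat_lit 249) (nat_lit 147))) (XT.nd (nat_lit 78) (nat_lit 0) (nat_lit 0) (XT.lf (nat_lit 0) (nat_lit 1840935004) (nat_lit 684) (nat_lit 1430498071) (nat_lit 684) (nat_lit 1430498071) (nat_lit 84) (nat_lit 3) (nat_lit 93) (nat_lit 3) (nat_lit 93) (nat_lit 5) (nat_lit 250) (nat_lit 250) (nat_lit 220)) (XT.nd (nat_lit 78) (nat_lit 0) (nat_lit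 76) (XT.lf (nat_lit 76) (nat_lit 3847239303) (nat_lit 0) (nat_lit 1206622798) (nat_lit 684) (nat_lit 4661183594) (nat_lit 85) (nat_lit 5) (nat_lit 84) (nat_lit 3) (nat_lit 93) (nat_lit 5) (nat_lit 251) (nat_lit 250) (nat_lit 219)) (XT.lf (nat_lit 76) (nat_lit 1036397519) (nat_lit 0) (nat_lit 5520525037) (nat_lit 684) (nat_lit 3493509468) (nat_lit 86) (nat_lit 5) (nat_lit 85) (nat_lit 5) (nat_lit 94) (nat_lit 5) (nat_lit 252) (nat_lit 250) (nat_lit 218))))))))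
noncomputable def xc69 : XT := (XT.nd (nat_lit 1482) (nat_lit 1596) (nat_lit 0) (XT.nd (nat_lit 702) (nat_lit 2128) (nat_lit 0) (XT.nd (nat_lit 312) (nat_lit 1444) (nat_lit 0) (XT.nd (nat_lit 156) (nat_lit 608) (nat_lit 0) (XT.nd (nat_lit 78) (nat_lit 0) (nat_lit 0) (XT.lf (nat_lit 0) (nat_lit 8199950004) (nat_lit 608) (nat_lit 1804868909) (nat_lit 684) (nat_lit 407190258) (nat_lit 86) (nat_lit 5) (nat_lit 94) (nat_lit 5) (nat_lit 95) (nat_lit 5) (nat_lit 253) (nat_lit 250) (nat_lit 217)) (XT.lf (nat_lit 76) (nat_lit 6011965521) (nat_lit 0) (nat_lit 4049009295) (nat_lit 684) (nat_lit 737530304) (nat_lit 87) (nat_lit 5) (nat_lit 86) (nat_lit 5) (nat_lit 95) (nat_lit 5) (nat_lit 254) (nat_lit 250) (nat_lit 216))) (XT.nd (nat_lit 78) (nat_lit 0) (nat_lit 0) (XT.lf (nat_lit 0) (nat_lit 854928792) (nat_lit 684) (nat_lit 7927328290) (nat_lit 760) (nat_lit 2431912176) (nat_lit 78) (nat_lit 5)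 (nat_lit 87) (nat_lit 5) (nat_lit 88) (nat_lit 5) (nat_lit 255) (nat_lit 250) (nat_lit 215)) (XT.lf (nat_lit 76) (nat_lit 377088420) (nat_lit 0) (nat_lit 2241741977) (nat_lit 760) (nat_lit 9040418937) (nat_lit 79) (nat_lit 5) (nat_lit 78) (nat_lit 5) (nat_lit 88) (nat_lit 5) (nat_lit 256) (nat_lit 250) (nat_lit 214)))) (XT.nd (nat_lit 156) (nat_lit 836) (nat_lit 0) (XT.nd (nat_lit 78) (nat_lit 684) (nat_lit 0) (XT.lf (nat_lit 0) (nat_lit 4655922815) (nat_lit 684) (nat_lit 2654238634) (nat_lit 76) (nat_lit 4823412656) (nat_lit 79) (nat_lit 5) (nat_lit 88) (nat_lit 5) (nat_lit 80) (nat_lit 5) (nat_lit 257) (nat_lit 250) (nat_lit 213)) (XT.lf (nat_lit 0) (nat_lit 6775762844) (nat_lit 684) (nat_lit 146438690) (nat_lit 760) (nat_lit 5720556662) (nat_lit 70) (nat_lit 5) (nat_lit 79) (nat_lit 5) (nat_lit 80) (nat_lit 5) (nat_lit 258) (nat_lit 250) (nat_lit 212))) (XT.nd (nat_lit 78) (nat_lit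 456) (nat_lit 0) (XT.lf (nat_lit 0) (nat_lit 3798625731) (nat_lit 380) (nat_lit 5723452044) (nat_lit 456) (nat_lit 3663192144) (nat_lit 65) (nat_lit 5) (nat_lit 70) (nat_lit 5) (nat_lit 71) (nat_lit 5) (nat_lit 259) (nat_lit 250) (nat_lit 211)) (XT.nd (nat_lit 78) (nat_lit 76) (nat_lit 0) (XT.lf (nat_lit 0) (nat_lit 597292092) (nat_lit 380) (nat_lit 11809870119) (nat_lit 456) (nat_lit 1360351751) (nat_lit 60) (nat_lit 5) (nat_lit 65) (nat_lit 5) (nat_lit 66) (nat_lit 5) (nat_lit 260) (nat_lit 250) (nat_lit 210)) (XT.lf (nat_lit 0) (nat_lit 1288028455) (nat_lit 456) (nat_lit 2858085422) (nat_lit 76) (nat_lit 10239644928) (nat_lit 59) (nat_lit 5) (nat_lit 65) (nat_lit 5) (nat_lit 60) (nat_lit 5) (nat_lit 261) (nat_lit 250) (nat_lit 209)))))) (XT.nd (nat_lit 390) (nat_lit 912) (nat_lit 0) (XT.nd (nat_lit 156) (nat_lit 608) (nat_lit 0) (XT.nd (nat_lit 78) (nat_lit 304) (nat_lit 0) (XT.lf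 (nat_lit 0) (nat_lit 4239906733) (nat_lit 380) (nat_lit 6652128813) (nat_lit 76) (nat_lit 4153505264) (nat_lit 55) (nat_lit 5) (nat_lit 60) (nat_lit 5) (nat_lit 56) (nat_lit 5) (nat_lit 262) (nat_lit 250) (nat_lit 208)) (XT.lf (nat_lit 0) (nat_lit 4914632785) (nat_lit 304) (nat_lit 2653543607) (nat_lit 380) (nat_lit 8183062300) (nat_lit 51) (nat_lit 5) (nat_lit 55) (nat_lit 5) (nat_lit 56) (nat_lit 5) (nat_lit 263) (nat_lit 250) (nat_lit 207))) (XT.nd (nat_lit 78) (nat_lit 380) (nat_lit 0) (XT.lf (nat_lit 0) (nat_lit 1006127743) (nat_lit 228) (nat_lit 10333714469) (nat_lit 304) (nat_lit 5164828069) (nat_lit 48) (nat_lit 5) (nat_lit 51) (nat_lit 5) (nat_lit 52) (nat_lit 5) (nat_lit 264) (nat_lit 250) (nat_lit 206)) (XT.nd (nat_lit 78) (nat_lit 380) (nat_lit 0) (XT.lf (nat_lit 0) (nat_lit 14076412444) (nat_lit 228) (nat_lit 1518822870) (nat_lit 304) (nat_lit 1714166015) (nat_lit 48) (nat_lit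 5) (nat_lit 51) (nat_lit 5) (nat_lit 52) (nat_lit 5) (nat_lit 265) (nat_lit 250) (nat_lit 205)) (XT.lf (nat_lit 0) (nat_lit 2188200480) (nat_lit 380) (nat_lit 8046630327) (nat_lit 76) (nat_lit 7930215606) (nat_lit 43) (nat_lit 5) (nat_lit 48) (nat_lit 5) (nat_lit 44) (nat_lit 5) (nat_lit 266) (nat_lit 250) (nat_lit 204))))) (XT.nd (nat_lit 156) (nat_lit 456) (nat_lit 0) (XT.nd (nat_lit 78) (nat_lit 228) (nat_lit 0) (XT.lf (nat_lit 0) (nat_lit 5634441705) (nat_lit 228) (nat_lit 834494436) (nat_lit 304) (nat_lit 12612591878) (nat_lit 40) (nat_lit 5) (nat_lit 43) (nat_lit 5) (nat_lit 44) (nat_lit 5) (nat_lit 267) (nat_lit 250) (nat_lit 203)) (XT.lf (nat_lit 0) (nat_lit 442341077) (nat_lit 228) (nat_lit 10901566005) (nat_lit 304) (nat_lit 8714926480) (nat_lit 37) (nat_lit 5) (nat_lit 40) (nat_lit 5) (nat_lit 41) (nat_lit 5) (nat_lit 268) (nat_lit 250) (nat_lit 202))) (XT.nd (nat_lit 78) (nat_lit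 456) (nat_lit 0) (XT.lf (nat_lit 0) (nat_lit 15853994306) (nat_lit 228) (nat_lit 962230750) (nat_lit 304) (nat_lit 4287818272) (nat_lit 37) (nat_lit 5) (nat_lit 40) (nat_lit 5) (nat_lit 41) (nat_lit 5) (nat_lit 269) (nat_lit 250) (nat_lit 201)) (XT.nd (nat_lit 78) (nat_lit 228) (nat_lit 0) (XT.lf (nat_lit 0) (nat_lit 759052918) (nat_lit 228) (nat_lit 11837859272) (nat_lit 76) (nat_lit 9621580004) (nat_lit 34) (nat_lit 5) (nat_lit 37) (nat_lit 5) (nat_lit 35) (nat_lit 5) (nat_lit 270) (nat_lit 250) (nat_lit 200)) (XT.lf (nat_lit 0) (nat_lit 4019018750) (nat_lit 228) (nat_lit 2177813499) (nat_lit 304) (nat_lit 17214952220) (nat_lit 31) (nat_lit 5) (nat_lit 34) (nat_lit 5) (nat_lit 35) (nat_lit 5) (nat_lit 271) (nat_lit 250) (nat_lit 199))))))) (XT.nd (nat_lit 780) (nat_lit 608) (nat_lit 0) (XT.nd (nat_lit 390) (nat_lit 456) (nat_lit 0) (XT.nd (nat_lit 156) (nat_lit 380) (nat_lit 0) (XT.nd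 (nat_lit 78) (nat_lit 152) (nat_lit 0) (XT.lf (nat_lit 0) (nat_lit 12386070224) (nat_lit 304) (nat_lit 3318773706) (nat_lit 76) (nat_lit 8979940342) (nat_lit 31) (nat_lit 5) (nat_lit 35) (nat_lit 5) (nat_lit 32) (nat_lit 5) (nat_lit 272) (nat_lit 250) (nat_lit 198)) (XT.lf (nat_lit 0) (nat_lit 14419012918) (nat_lit 152) (nat_lit 4881022531) (nat_lit 228) (nat_lit 6748170277) (nat_lit 29) (nat_lit 5) (nat_lit 31) (nat_lit 5) (nat_lit 32) (nat_lit 5) (nat_lit 273) (nat_lit 250) (nat_lit 197))) (XT.nd (nat_lit 78) (nat_lit 228) (nat_lit 0) (XT.lf (nat_lit 0) (nat_lit 6222198319) (nat_lit 152) (nat_lit 20776337799) (nat_lit 228) (nat_lit 510650416) (nat_lit 27) (nat_lit 5) (nat_lit 29) (nat_lit 5) (nat_lit 30) (nat_lit 5) (nat_lit 274) (nat_lit 250) (nat_lit 196)) (XT.nd (nat_lit 78) (nat_lit 152) (nat_lit 0) (XT.lf (nat_lit 0) (nat_lit 6285072835) (nat_lit 228) (nat_lit 3388017436) (nat_lit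 76) (nat_lit 19396221815) (nat_lit 26) (nat_lit 5) (nat_lit 29) (nat_lit 5) (nat_lit 27) (nat_lit 5) (nat_lit 275) (nat_lit 250) (nat_lit 195)) (XT.lf (nat_lit 0) (nat_lit 13875920544) (nat_lit 228) (nat_lit 14364902151) (nat_lit 76) (nat_lit 2499584729) (nat_lit 24) (nat_lit 5) (nat_lit 27) (nat_lit 5) (nat_lit 25) (nat_lit 5) (nat_lit 276) (nat_lit 250) (nat_lit 194))))) (XT.nd (nat_lit 156) (nat_lit 304) (nat_lit 0) (XT.nd (nat_lit 78) (nat_lit 0) (nat_lit 0) (XT.lf (nat_lit 0) (nat_lit 5261991932) (nat_lit 152) (nat_lit 17090958189) (nat_lit 228) (nat_lit 10178337323) (nat_lit 22) (nat_lit 5) (nat_lit 24) (nat_lit 5) (nat_lit 25) (nat_lit 5) (nat_lit 277) (nat_lit 250) (nat_lit 193)) (XT.lf (nat_lit 0) (nat_lit 26932587867) (nat_lit 152) (nat_lit 4800785640) (nat_lit 228) (nat_lit 2720842371) (nat_lit 22) (nat_lit 5) (nat_lit 24) (nat_lit 5) (nat_lit 25) (nat_lit 5) (nat_lit 278)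 (nat_lit 250) (nat_lit 192))) (XT.nd (nat_lit 78) (nat_lit 152) (nat_lit 0) (XT.lf (nat_lit 0) (nat_lit 5496775739) (nat_lit 152) (nat_lit 22516268513) (nat_lit 76) (nat_lit 8497094849) (nat_lit 20) (nat_lit 5) (nat_lit 22) (nat_lit 5) (nat_lit 21) (nat_lit 5) (nat_lit 279) (nat_lit 250) (nat_lit 191)) (XT.nd (nat_lit 78) (nat_lit 152) (nat_lit 0) (XT.lf (nat_lit 0) (nat_lit 14469293239) (nat_lit 152) (nat_lit 1390388814) (nat_lit 76) (nat_lit 22859015505) (nat_lit 20) (nat_lit 5) (nat_lit 22) (nat_lit 5) (nat_lit 21) (nat_lit 5) (nat_lit 280) (nat_lit 250) (nat_lit 190)) (XT.lf (nat_lit 0) (nat_lit 22098947604) (nat_lit 152) (nat_lit 2384784352) (nat_lit 228) (nat_lit 16604032673) (nat_lit 18) (nat_lit 5) (nat_lit 20) (nat_lit 5) (nat_lit 21) (nat_lit 5) (nat_lit 281) (nat_lit 250) (nat_lit 189)))))) (XT.nd (nat_lit 390) (nat_lit 228) (nat_lit 0) (XT.nd (nat_lit 156) (nat_lit 228) (nat_lit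 0) (XT.nd (nat_lit 78) (nat_lit 76) (nat_lit 0) (XT.lf (nat_lit 0) (nat_lit 3768920418) (nat_lit 76) (nat_lit 31783782724) (nat_lit 152) (nat_lit 8081012768) (nat_lit 17) (nat_lit 5) (nat_lit 18) (nat_lit 5) (nat_lit 19) (nat_lit 4) (nat_lit 282) (nat_lit 250) (nat_lit 188)) (XT.lf (nat_lit 0) (nat_lit 1444876503) (nat_lit 152) (nat_lit 17437112901) (nat_lit 76) (nat_lit 27482651107) (nat_lit 16) (nat_lit 5) (nat_lit 18) (nat_lit 5) (nat_lit 17) (nat_lit 5) (nat_lit 283) (nat_lit 250) (nat_lit 187))) (XT.nd (nat_lit 78) (nat_lit 76) (nat_lit 0) (XT.lf (nat_lit 0) (nat_lit 6837276919) (nat_lit 152) (nat_lit 4705003157) (nat_lit 228) (nat_lit 37760529728) (nat_lit 14) (nat_lit 5) (nat_lit 16) (nat_lit 5) (nat_lit 17) (nat_lit 5) (nat_lit 284) (nat_lit 250) (nat_lit 186)) (XT.nd (nat_lit 78) (nat_lit 76) (nat_lit 0) (XT.lf (nat_lit 0) (nat_lit 22904518131) (nat_lit 228) (nat_lit 18984592828)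 (nat_lit 76) (nat_lit 10564090523) (nat_lit 14) (nat_lit 5) (nat_lit 17) (nat_lit 5) (nat_lit 15) (nat_lit 4) (nat_lit 285) (nat_lit 250) (nat_lit 185)) (XT.lf (nat_lit 0) (nat_lit 6475457422) (nat_lit 76) (nat_lit 28864720145) (nat_lit 152) (nat_lit 20507244210) (nat_lit 13) (nat_lit 5) (nat_lit 14) (nat_lit 5) (nat_lit 15) (nat_lit 4) (nat_lit 286) (nat_lit 250) (nat_lit 184))))) (XT.nd (nat_lit 156) (nat_lit 76) (nat_lit 0) (XT.nd (nat_lit 78) (nat_lit 152) (nat_lit 0) (XT.lf (nat_lit 0) (nat_lit 34624146015) (nat_lit 76) (nat_lit 14462027612) (nat_lit 152) (nat_lit 10411249838) (nat_lit 13) (nat_lit 5) (nat_lit 14) (nat_lit 5) (nat_lit 15) (nat_lit 4) (nat_lit 287) (nat_lit 250) (nat_lit 183)) (XT.lf (nat_lit 0) (nat_lit 504814157) (nat_lit 152) (nat_lit 61851651298) (nat_lit 76) (nat_lit 1081183731) (nat_lit 11) (nat_lit 5) (nat_lit 13) (nat_lit 5) (nat_lit 12) (nat_lit 4) (nat_lit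 288) (nat_lit 250) (nat_lit 182))) (XT.nd (nat_lit 78) (nat_lit 76) (nat_lit 0) (XT.lf (nat_lit 0) (nat_lit 12604718760) (nat_lit 152) (nat_lit 37071834882) (nat_lit 76) (nat_lit 17974254429) (nat_lit 11) (nat_lit 5) (nat_lit 13) (nat_lit 5) (nat_lit 12) (nat_lit 4) (nat_lit 289) (nat_lit 250) (nat_lit 181)) (XT.nd (nat_lit 78) (nat_lit 76) (nat_lit 0) (XT.lf (nat_lit 0) (nat_lit 25659840696) (nat_lit 152) (nat_lit 10331971969) (nat_lit 76) (nat_lit 36209859334) (nat_lit 11) (nat_lit 5) (nat_lit 13) (nat_lit 5) (nat_lit 12) (nat_lit 4) (nat_lit 290) (nat_lit 250) (nat_lit 180)) (XT.lf (nat_lit 0) (nat_lit 19138962202) (nat_lit 76) (nat_lit 20907394285) (nat_lit 152) (nat_lit 37055911924) (nat_lit 10) (nat_lit 5) (nat_lit 11) (nat_lit 5) (nat_lit 12) (nat_lit 4) (nat_lit 291) (nat_lit 250) (nat_lit 179))))))))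
noncomputable def xc70 : XT := (XT.nd (nat_lit 1482) (nat_lit 76) (nat_lit 0) (XT.nd (nat_lit 702) (nat_lit 152) (nat_lit 0) (XT.nd (nat_lit 312) (nat_lit 152) (nat_lit 0) (XT.nd (nat_lit 156) (nat_lit 152) (nat_lit 0) (XT.nd (nat_lit 78) (nat_lit 0) (nat_lit 0) (XT.lf (nat_lit 0) (nat_lit 51316737309) (nat_lit 76) (nat_lit 4435771082) (nat_lit 152) (nat_lit 26633980045) (nat_lit 10) (nat_lit 5) (nat_lit 11) (nat_lit 5) (nat_lit 12) (nat_lit 4) (nat_lit 292) (nat_lit 250) (nat_lit 178)) (XT.lf (nat_lit 0) (nat_lit 72913088809) (nat_lit 152) (nat_lit 2251927013) (nat_lit 0) (nat_lit 12918544204) (nat_lit 10) (nat_lit 5) (nat_lit 12) (nat_lit 4) (nat_lit 10) (nat_lit 4) (nat_lit 293) (nat_lit 250) (nat_lit 177))) (XT.nd (nat_lit 78) (nat_lit 76) (nat_lit 0) (XT.lf (nat_lit 0) (nat_lit 29730756469) (nat_lit 76) (nat_lit 62244965862) (nat_lit 76) (nat_lit 2234224660) (nat_lit 9) (nat_lit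 4) (nat_lit 10) (nat_lit 5) (nat_lit 10) (nat_lit 4) (nat_lit 294) (nat_lit 250) (nat_lit 176)) (XT.lf (nat_lit 0) (nat_lit 11391671224) (nat_lit 152) (nat_lit 36672812040) (nat_lit 76) (nat_lit 52751287919) (nat_lit 8) (nat_lit 5) (nat_lit 10) (nat_lit 5) (nat_lit 9) (nat_lit 4) (nat_lit 295) (nat_lit 250) (nat_lit 175)))) (XT.nd (nat_lit 156) (nat_lit 76) (nat_lit 0) (XT.nd (nat_lit 78) (nat_lit 76) (nat_lit 0) (XT.lf (nat_lit 0) (nat_lit 26021644287) (nat_lit 152) (nat_lit 6695253233) (nat_lit 76) (nat_lit 75231726518) (nat_lit 8) (nat_lit 5) (nat_lit 10) (nat_lit 5) (nat_lit 9) (nat_lit 4) (nat_lit 296) (nat_lit 250) (nat_lit 174)) (XT.lf (nat_lit 0) (nat_lit 26514647507) (nat_lit 76) (nat_lit 15713220254) (nat_lit 152) (nat_lit 73403952279) (nat_lit 7) (nat_lit 5) (nat_lit 8) (nat_lit 5) (nat_lit 9) (nat_lit 4) (nat_lit 297) (nat_lit 250) (nat_lit 173))) (XT.nd (nat_lit 78) (nat_lit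 76) (nat_lit 0) (XT.lf (nat_lit 0) (nat_lit 59882687120) (nat_lit 152) (nat_lit 61360877078) (nat_lit 0) (nat_lit 2678509610) (nat_lit 7) (nat_lit 5) (nat_lit 9) (nat_lit 4) (nat_lit 7) (nat_lit 4) (nat_lit 298) (nat_lit 250) (nat_lit 172)) (XT.nd (nat_lit 78) (nat_lit 76) (nat_lit 0) (XT.lf (nat_lit 0) (nat_lit 79207598813) (nat_lit 152) (nat_lit 31662147114) (nat_lit 0) (nat_lit 21992923081) (nat_lit 7) (nat_lit 5) (nat_lit 9) (nat_lit 4) (nat_lit 7) (nat_lit 4) (nat_lit 299) (nat_lit 250) (nat_lit 171)) (XT.lf (nat_lit 0) (nat_lit 413574192) (nat_lit 76) (nat_lit 99664676289) (nat_lit 76) (nat_lit 42440279983) (nat_lit 6) (nat_lit 4) (nat_lit 7) (nat_lit 5) (nat_lit 7) (nat_lit 4) (nat_lit 300) (nat_lit 250) (nat_lit 170)))))) (XT.nd (nat_lit 390) (nat_lit 0) (nat_lit 0) (XT.nd (nat_lit 156) (nat_lit 152) (nat_lit 0) (XT.nd (nat_lit 78) (nat_lit 0) (nat_lit 0) (XT.lf (nat_lit 0) (nat_lit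 36174382018) (nat_lit 76) (nat_lit 86989312105) (nat_lit 76) (nat_lit 29755915267) (nat_lit 6) (nat_lit 4) (nat_lit 7) (nat_lit 5) (nat_lit 7) (nat_lit 4) (nat_lit 301) (nat_lit 250) (nat_lit 169)) (XT.lf (nat_lit 0) (nat_lit 74785298686) (nat_lit 76) (nat_lit 73304753890) (nat_lit 76) (nat_lit 16063023226) (nat_lit 6) (nat_lit 4) (nat_lit 7) (nat_lit 5) (nat_lit 7) (nat_lit 4) (nat_lit 302) (nat_lit 250) (nat_lit 168))) (XT.nd (nat_lit 78) (nat_lit 152) (nat_lit 0) (XT.lf (nat_lit 0) (nat_lit 116475129628) (nat_lit 76) (nat_lit 58529907964) (nat_lit 76) (nat_lit 1280460794) (nat_lit 6) (nat_lit 4) (nat_lit 7) (nat_lit 5) (nat_lit 7) (nat_lit 4) (nat_lit 303) (nat_lit 250) (nat_lit 167)) (XT.nd (nat_lit 78) (nat_lit 76) (nat_lit 0) (XT.lf (nat_lit 0) (nat_lit 14209540805) (nat_lit 152) (nat_lit 28127033431) (nat_lit 76) (nat_lit 147040739440) (nat_lit 5) (nat_lit 5) (nat_lit 7) (nat_lit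 5) (nat_lit 6) (nat_lit 4) (nat_lit 304) (nat_lit 250) (nat_lit 166)) (XT.lf (nat_lit 0) (nat_lit 6261070932) (nat_lit 76) (nat_lit 24726382079) (nat_lit 152) (nat_lit 172523296924) (nat_lit 4) (nat_lit 5) (nat_lit 5) (nat_lit 5) (nat_lit 6) (nat_lit 4) (nat_lit 305) (nat_lit 250) (nat_lit 165))))) (XT.nd (nat_lit 156) (nat_lit 0) (nat_lit 0) (XT.nd (nat_lit 78) (nat_lit 0) (nat_lit 0) (XT.lf (nat_lit 0) (nat_lit 44396308785) (nat_lit 76) (nat_lit 5196687380) (nat_lit 152) (nat_lit 169157598627) (nat_lit 4) (nat_lit 5) (nat_lit 5) (nat_lit 5) (nat_lit 6) (nat_lit 4) (nat_lit 306) (nat_lit 250) (nat_lit 164)) (XT.lf (nat_lit 0) (nat_lit 69930880546) (nat_lit 152) (nat_lit 149883298599) (nat_lit 0) (nat_lit 15383256531) (nat_lit 4) (nat_lit 5) (nat_lit 6) (nat_lit 4) (nat_lit 4) (nat_lit 4) (nat_lit 307) (nat_lit 250) (nat_lit 163))) (XT.nd (nat_lit 78) (nat_lit 0) (nat_lit 0) (XT.lf (nat_lit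 0) (nat_lit 91979464192) (nat_lit 152) (nat_lit 123549540762) (nat_lit 0) (nat_lit 37426838535) (nat_lit 4) (nat_lit 5) (nat_lit 6) (nat_lit 4) (nat_lit 4) (nat_lit 4) (nat_lit 308) (nat_lit 250) (nat_lit 162)) (XT.nd (nat_lit 78) (nat_lit 0) (nat_lit 0) (XT.lf (nat_lit 0) (nat_lit 115788270523) (nat_lit 152) (nat_lit 95115825742) (nat_lit 0) (nat_lit 61231013716) (nat_lit 4) (nat_lit 5) (nat_lit 6) (nat_lit 4) (nat_lit 4) (nat_lit 4) (nat_lit 309) (nat_lit 250) (nat_lit 161)) (XT.lf (nat_lit 0) (nat_lit 141498388761) (nat_lit 152) (nat_lit 64413657452) (nat_lit 0) (nat_lit 86936843852) (nat_lit 4) (nat_lit 5) (nat_lit 6) (nat_lit 4) (nat_lit 4) (nat_lit 4) (nat_lit 310) (nat_lit 250) (nat_lit 160))))))) (XT.nd (nat_lit 702) (nat_lit 0) (nat_lit 0) (XT.nd (nat_lit 312) (nat_lit 0) (nat_lit 0) (XT.nd (nat_lit 156) (nat_lit 0) (nat_lit 0) (XT.nd (nat_lit 78) (nat_lit 76) (nat_lit 0) (XT.lf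 (nat_lit 0) (nat_lit 169262175163) (nat_lit 152) (nat_lit 31261097116) (nat_lit 0) (nat_lit 114696659789) (nat_lit 4) (nat_lit 5) (nat_lit 6) (nat_lit 4) (nat_lit 4) (nat_lit 4) (nat_lit 311) (nat_lit 250) (nat_lit 159)) (XT.lf (nat_lit 0) (nat_lit 4688372067) (nat_lit 76) (nat_lit 194628982429) (nat_lit 76) (nat_lit 140059790699) (nat_lit 3) (nat_lit 4) (nat_lit 4) (nat_lit 5) (nat_lit 4) (nat_lit 4) (nat_lit 312) (nat_lit 250) (nat_lit 158))) (XT.nd (nat_lit 78) (nat_lit 0) (nat_lit 0) (XT.lf (nat_lit 0) (nat_lit 44625001958) (nat_lit 76) (nat_lit 187693721263) (nat_lit 76) (nat_lit 133121125499) (nat_lit 3) (nat_lit 4) (nat_lit 4) (nat_lit 5) (nat_lit 4) (nat_lit 4) (nat_lit 313) (nat_lit 250) (nat_lit 157)) (XT.lf (nat_lit 0) (nat_lit 87751821015) (nat_lit 76) (nat_lit 180205812741) (nat_lit 76) (nat_lit 125630065095) (nat_lit 3) (nat_lit 4) (nat_lit 4) (nat_lit 5) (nat_lit 4) (nat_lit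 4) (nat_lit 314) (nat_lit 250) (nat_lit 156)))) (XT.nd (nat_lit 156) (nat_lit 0) (nat_lit 0) (XT.nd (nat_lit 78) (nat_lit 0) (nat_lit 0) (XT.lf (nat_lit 0) (nat_lit 134324395575) (nat_lit 76) (nat_lit 172120884075) (nat_lit 76) (nat_lit 117542218018) (nat_lit 3) (nat_lit 4) (nat_lit 4) (nat_lit 5) (nat_lit 4) (nat_lit 4) (nat_lit 315) (nat_lit 250) (nat_lit 155)) (XT.lf (nat_lit 0) (nat_lit 184618711264) (nat_lit 76) (nat_lit 163391024574) (nat_lit 76) (nat_lit 108809656286) (nat_lit 3) (nat_lit 4) (nat_lit 4) (nat_lit 5) (nat_lit 4) (nat_lit 4) (nat_lit 316) (nat_lit 250) (nat_lit 154))) (XT.nd (nat_lit 78) (nat_lit 0) (nat_lit 0) (XT.lf (nat_lit 0) (nat_lit 238932808471) (nat_lit 76) (nat_lit 153964501738) (nat_lit 76) (nat_lit 99380631384) (nat_lit 3) (nat_lit 4) (nat_lit 4) (nat_lit 5) (nat_lit 4) (nat_lit 4) (nat_lit 317) (nat_lit 250) (nat_lit 153)) (XT.nd (nat_lit 78) (nat_lit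 0) (nat_lit 0) (XT.lf (nat_lit 0) (nat_lit 297588548513) (nat_lit 76) (nat_lit 143785454691) (nat_lit 76) (nat_lit 89199267609) (nat_lit 3) (nat_lit 4) (nat_lit 4) (nat_lit 5) (nat_lit 4) (nat_lit 4) (nat_lit 318) (nat_lit 250) (nat_lit 152)) (XT.lf (nat_lit 0) (nat_lit 360933520961) (nat_lit 76) (nat_lit 132793563155) (nat_lit 76) (nat_lit 78205230954) (nat_lit 3) (nat_lit 4) (nat_lit 4) (nat_lit 5) (nat_lit 4) (nat_lit 4) (nat_lit 319) (nat_lit 250) (nat_lit 151)))))) (XT.nd (nat_lit 32214) (nat_lit 0) (nat_lit 5624) (XT.nd (nat_lit 156) (nat_lit 0) (nat_lit 0) (XT.nd (nat_lit 78) (nat_lit 0) (nat_lit 0) (XT.lf (nat_lit 0) (nat_lit 429343103429) (nat_lit 76) (nat_lit 120923689994) (nat_lit 76) (nat_lit 66333371573) (nat_lit 3) (nat_lit 4) (nat_lit 4) (nat_lit 5) (nat_lit 4) (nat_lit 4) (nat_lit 320) (nat_lit 250) (nat_lit 150)) (XT.lf (nat_lit 0) (nat_lit 503222686036) (nat_lit 76)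 (nat_lit 108105495219) (nat_lit 76) (nat_lit 53513337704) (nat_lit 3) (nat_lit 4) (nat_lit 4) (nat_lit 5) (nat_lit 4) (nat_lit 4) (nat_lit 321) (nat_lit 250) (nat_lit 149))) (XT.nd (nat_lit 78) (nat_lit 0) (nat_lit 0) (XT.lf (nat_lit 0) (nat_lit 583010073715) (nat_lit 76) (nat_lit 94263019158) (nat_lit 76) (nat_lit 39669158779) (nat_lit 3) (nat_lit 4) (nat_lit 4) (nat_lit 5) (nat_lit 4) (nat_lit 4) (nat_lit 322) (nat_lit 250) (nat_lit 148)) (XT.nd (nat_lit 31902) (nat_lit 0) (nat_lit 6156) (XT.lf (nat_lit 0) (nat_lit 669178080616) (nat_lit 76) (nat_lit 79314232322) (nat_lit 76) (nat_lit 24718795217) (nat_lit 3) (nat_lit 4) (nat_lit 4) (nat_lit 5) (nat_lit 4) (nat_lit 4) (nat_lit 323) (nat_lit 250) (nat_lit 147)) (XT.lf (nat_lit 0) (nat_lit 3124851023) (nat_lit 684) (nat_lit 946378581) (nat_lit 684) (nat_lit 946378581) (nat_lit 84) (nat_lit 3) (nat_lit 93) (nat_lit 3) (nat_lit 93) (nat_lit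 5) (nat_lit 251) (nat_lit 251) (nat_lit 218))))) (XT.nd (nat_lit 156) (nat_lit 532) (nat_lit 0) (XT.nd (nat_lit 78) (nat_lit 0) (nat_lit 76) (XT.lf (nat_lit 76) (nat_lit 5300111801) (nat_lit 0) (nat_lit 2280828532) (nat_lit 684) (nat_lit 2798419831) (nat_lit 85) (nat_lit 5) (nat_lit 84) (nat_lit 3) (nat_lit 93) (nat_lit 5) (nat_lit 252) (nat_lit 251) (nat_lit 217)) (XT.lf (nat_lit 76) (nat_lit 2337222368) (nat_lit 0) (nat_lit 6714662549) (nat_lit 684) (nat_lit 1697810570) (nat_lit 86) (nat_lit 5) (nat_lit 85) (nat_lit 5) (nat_lit 94) (nat_lit 5) (nat_lit 253) (nat_lit 251) (nat_lit 216))) (XT.nd (nat_lit 78) (nat_lit 608) (nat_lit 0) (XT.lf (nat_lit 76) (nat_lit 10430856391) (nat_lit 0) (nat_lit 242448989) (nat_lit 684) (nat_lit 475008897) (nat_lit 86) (nat_lit 5) (nat_lit 85) (nat_lit 5) (nat_lit 94) (nat_lit 5) (nat_lit 254) (nat_lit 251) (nat_lit 215)) (XT.nd (nat_lit 78) (nat_lit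 0) (nat_lit 76) (XT.lf (nat_lit 0) (nat_lit 959667508) (nat_lit 684) (nat_lit 3912809152) (nat_lit 760) (nat_lit 6698891608) (nat_lit 77) (nat_lit 5) (nat_lit 86) (nat_lit 5) (nat_lit 87) (nat_lit 5) (nat_lit 255) (nat_lit 251) (nat_lit 214)) (XT.lf (nat_lit 0) (nat_lit 2537682143) (nat_lit 684) (nat_lit 7278860949) (nat_lit 760) (nat_lit 2209316055) (nat_lit 78) (nat_lit 5) (nat_lit 87) (nat_lit 5) (nat_lit 88) (nat_lit 5) (nat_lit 256) (nat_lit 251) (nat_lit 213))))))))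
noncomputable def xc71 : XT := (XT.nd (nat_lit 1482) (nat_lit 1292) (nat_lit 0) (XT.nd (nat_lit 702) (nat_lit 1672) (nat_lit 0) (XT.nd (nat_lit 312) (nat_lit 1292) (nat_lit 0) (XT.nd (nat_lit 156) (nat_lit 988) (nat_lit 0) (XT.nd (nat_lit 78) (nat_lit 0) (nat_lit 76) (XT.lf (nat_lit 76) (nat_lit 1634166535) (nat_lit 0) (nat_lit 2708102710) (nat_lit 760) (nat_lit 8169647767) (nat_lit 79) (nat_lit 5) (nat_lit 78) (nat_lit 5) (nat_lit 88) (nat_lit 5) (nat_lit 257) (nat_lit 251) (nat_lit 212)) (XT.lf (nat_lit 0) (nat_lit 6426036648) (nat_lit 684) (nat_lit 1652258727) (nat_lit 76) (nat_lit 4952031133) (nat_lit 79) (nat_lit 5) (nat_lit 88) (nat_lit 5) (nat_lit 80) (nat_lit 5) (nat_lit 258) (nat_lit 251) (nat_lit 211))) (XT.nd (nat_lit 78) (nat_lit 380) (nat_lit 0) (XT.lf (nat_lit 0) (nat_lit 8479370046) (nat_lit 684) (nat_lit 308853720) (nat_lit 760) (nat_lit 4796591368) (nat_lit 70) (nat_lit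 5) (nat_lit 79) (nat_lit 5) (nat_lit 80) (nat_lit 5) (nat_lit 259) (nat_lit 251) (nat_lit 210)) (XT.lf (nat_lit 0) (nat_lit 5282182434) (nat_lit 380) (nat_lit 6232943596) (nat_lit 456) (nat_lit 2659927851) (nat_lit 65) (nat_lit 5) (nat_lit 70) (nat_lit 5) (nat_lit 71) (nat_lit 5) (nat_lit 260) (nat_lit 251) (nat_lit 209)))) (XT.nd (nat_lit 156) (nat_lit 836) (nat_lit 0) (XT.nd (nat_lit 78) (nat_lit 76) (nat_lit 0) (XT.lf (nat_lit 0) (nat_lit 1836457244) (nat_lit 380) (nat_lit 12721208541) (nat_lit 456) (nat_lit 250136533) (nat_lit 60) (nat_lit 5) (nat_lit 65) (nat_lit 5) (nat_lit 66) (nat_lit 5) (nat_lit 261) (nat_lit 251) (nat_lit 208)) (XT.lf (nat_lit 0) (nat_lit 2483687729) (nat_lit 456) (nat_lit 1944637939) (nat_lit 76) (nat_lit 11050826808) (nat_lit 59) (nat_lit 5) (nat_lit 65) (nat_lit 5) (nat_lit 60) (nat_lit 5) (nat_lit 262) (nat_lit 251) (nat_lit 207))) (XT.nd (nat_lit 78) (nat_lit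 532) (nat_lit 0) (XT.lf (nat_lit 0) (nat_lit 5608832915) (nat_lit 380) (nat_lit 6038770665) (nat_lit 76) (nat_lit 4547467716) (nat_lit 55) (nat_lit 5) (nat_lit 60) (nat_lit 5) (nat_lit 56) (nat_lit 5) (nat_lit 263) (nat_lit 251) (nat_lit 206)) (XT.nd (nat_lit 78) (nat_lit 228) (nat_lit 0) (XT.lf (nat_lit 0) (nat_lit 6403548589) (nat_lit 304) (nat_lit 2740646644) (nat_lit 380) (nat_lit 7816182747) (nat_lit 51) (nat_lit 5) (nat_lit 55) (nat_lit 5) (nat_lit 56) (nat_lit 5) (nat_lit 264) (nat_lit 251) (nat_lit 205)) (XT.lf (nat_lit 0) (nat_lit 2181619068) (nat_lit 228) (nat_lit 10982987249) (nat_lit 304) (nat_lit 4612307295) (nat_lit 48) (nat_lit 5) (nat_lit 51) (nat_lit 5) (nat_lit 52) (nat_lit 5) (nat_lit 265) (nat_lit 251) (nat_lit 204)))))) (XT.nd (nat_lit 390) (nat_lit 836) (nat_lit 0) (XT.nd (nat_lit 156) (nat_lit 456) (nat_lit 0) (XT.nd (nat_lit 78) (nat_lit 380) (nat_lit 0) (XT.lf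 (nat_lit 0) (nat_lit 16216415353) (nat_lit 228) (nat_lit 1476046869) (nat_lit 304) (nat_lit 957126131) (nat_lit 48) (nat_lit 5) (nat_lit 51) (nat_lit 5) (nat_lit 52) (nat_lit 5) (nat_lit 266) (nat_lit 251) (nat_lit 203)) (XT.lf (nat_lit 0) (nat_lit 3183136761) (nat_lit 380) (nat_lit 7651411068) (nat_lit 76) (nat_lit 8740869943) (nat_lit 43) (nat_lit 5) (nat_lit 48) (nat_lit 5) (nat_lit 44) (nat_lit 5) (nat_lit 267) (nat_lit 251) (nat_lit 202))) (XT.nd (nat_lit 78) (nat_lit 228) (nat_lit 0) (XT.lf (nat_lit 0) (nat_lit 7078995239) (nat_lit 228) (nat_lit 682120141) (nat_lit 304) (nat_lit 12806499496) (nat_lit 40) (nat_lit 5) (nat_lit 43) (nat_lit 5) (nat_lit 44) (nat_lit 5) (nat_lit 268) (nat_lit 251) (nat_lit 201)) (XT.nd (nat_lit 78) (nat_lit 0) (nat_lit 0) (XT.lf (nat_lit 0) (nat_lit 1463742807) (nat_lit 228) (nat_lit 11523520958) (nat_lit 304) (nat_lit 8637908195) (nat_lit 37) (nat_lit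 5) (nat_lit 40) (nat_lit 5) (nat_lit 41) (nat_lit 5) (nat_lit 269) (nat_lit 251) (nat_lit 200)) (XT.lf (nat_lit 0) (nat_lit 18035290187) (nat_lit 228) (nat_lit 807570018) (nat_lit 304) (nat_lit 3913980397) (nat_lit 37) (nat_lit 5) (nat_lit 40) (nat_lit 5) (nat_lit 41) (nat_lit 5) (nat_lit 270) (nat_lit 251) (nat_lit 199))))) (XT.nd (nat_lit 156) (nat_lit 380) (nat_lit 0) (XT.nd (nat_lit 78) (nat_lit 228) (nat_lit 0) (XT.lf (nat_lit 0) (nat_lit 1480041033) (nat_lit 228) (nat_lit 11857947419) (nat_lit 76) (nat_lit 10623683033) (nat_lit 34) (nat_lit 5) (nat_lit 37) (nat_lit 5) (nat_lit 35) (nat_lit 5) (nat_lit 271) (nat_lit 251) (nat_lit 198)) (XT.lf (nat_lit 0) (nat_lit 5227197136) (nat_lit 228) (nat_lit 2090580337) (nat_lit 304) (nat_lit 17934498256) (nat_lit 31) (nat_lit 5) (nat_lit 34) (nat_lit 5) (nat_lit 35) (nat_lit 5) (nat_lit 272) (nat_lit 251) (nat_lit 197))) (XT.nd (nat_lit 78)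 (nat_lit 380) (nat_lit 0) (XT.lf (nat_lit 0) (nat_lit 13959623194) (nat_lit 304) (nat_lit 2737029039) (nat_lit 76) (nat_lit 9932678112) (nat_lit 31) (nat_lit 5) (nat_lit 35) (nat_lit 5) (nat_lit 32) (nat_lit 5) (nat_lit 273) (nat_lit 251) (nat_lit 196)) (XT.nd (nat_lit 78) (nat_lit 228) (nat_lit 0) (XT.lf (nat_lit 0) (nat_lit 16382960211) (nat_lit 152) (nat_lit 5013237906) (nat_lit 228) (nat_lit 6707234499) (nat_lit 29) (nat_lit 5) (nat_lit 31) (nat_lit 5) (nat_lit 32) (nat_lit 5) (nat_lit 274) (nat_lit 251) (nat_lit 195)) (XT.lf (nat_lit 0) (nat_lit 3174802) (nat_lit 228) (nat_lit 22163944960) (nat_lit 76) (nat_lit 7515480074) (nat_lit 26) (nat_lit 5) (nat_lit 29) (nat_lit 5) (nat_lit 27) (nat_lit 5) (nat_lit 275) (nat_lit 251) (nat_lit 194))))))) (XT.nd (nat_lit 780) (nat_lit 380) (nat_lit 0) (XT.nd (nat_lit 390) (nat_lit 456) (nat_lit 0) (XT.nd (nat_lit 156) (nat_lit 304) (nat_lit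 0) (XT.nd (nat_lit 78) (nat_lit 152) (nat_lit 0) (XT.lf (nat_lit 0) (nat_lit 7285124708) (nat_lit 228) (nat_lit 2902214558) (nat_lit 76) (nat_lit 21181821355) (nat_lit 26) (nat_lit 5) (nat_lit 29) (nat_lit 5) (nat_lit 27) (nat_lit 5) (nat_lit 276) (nat_lit 251) (nat_lit 193)) (XT.lf (nat_lit 0) (nat_lit 15461648248) (nat_lit 228) (nat_lit 14769721564) (nat_lit 76) (nat_lit 2943715161) (nat_lit 24) (nat_lit 5) (nat_lit 27) (nat_lit 5) (nat_lit 25) (nat_lit 5) (nat_lit 277) (nat_lit 251) (nat_lit 192))) (XT.nd (nat_lit 78) (nat_lit 152) (nat_lit 0) (XT.lf (nat_lit 0) (nat_lit 6394974513) (nat_lit 152) (nat_lit 18197748722) (nat_lit 228) (nat_lit 10517775217) (nat_lit 22) (nat_lit 5) (nat_lit 24) (nat_lit 5) (nat_lit 25) (nat_lit 5) (nat_lit 278) (nat_lit 251) (nat_lit 191)) (XT.nd (nat_lit 78) (nat_lit 152) (nat_lit 0) (XT.lf (nat_lit 0) (nat_lit 29746475662) (nat_lit 152) (nat_lit 4943657638)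 (nat_lit 228) (nat_lit 2498853195) (nat_lit 22) (nat_lit 5) (nat_lit 24) (nat_lit 5) (nat_lit 25) (nat_lit 5) (nat_lit 279) (nat_lit 251) (nat_lit 190)) (XT.lf (nat_lit 0) (nat_lit 6344399196) (nat_lit 152) (nat_lit 23655843072) (nat_lit 76) (nat_lit 9409729978) (nat_lit 20) (nat_lit 5) (nat_lit 22) (nat_lit 5) (nat_lit 21) (nat_lit 5) (nat_lit 280) (nat_lit 251) (nat_lit 189))))) (XT.nd (nat_lit 156) (nat_lit 304) (nat_lit 0) (XT.nd (nat_lit 78) (nat_lit 152) (nat_lit 0) (XT.lf (nat_lit 0) (nat_lit 16004504658) (nat_lit 152) (nat_lit 888909806) (nat_lit 76) (nat_lit 24903354839) (nat_lit 20) (nat_lit 5) (nat_lit 22) (nat_lit 5) (nat_lit 21) (nat_lit 5) (nat_lit 281) (nat_lit 251) (nat_lit 188)) (XT.lf (nat_lit 0) (nat_lit 24452945892) (nat_lit 152) (nat_lit 2348327567) (nat_lit 228) (nat_lit 17555069581) (nat_lit 18) (nat_lit 5) (nat_lit 20) (nat_lit 5) (nat_lit 21) (nat_lit 5) (nat_lit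 282) (nat_lit 251) (nat_lit 187))) (XT.nd (nat_lit 78) (nat_lit 228) (nat_lit 0) (XT.lf (nat_lit 0) (nat_lit 4645293699) (nat_lit 76) (nat_lit 34096147894) (nat_lit 152) (nat_lit 8365281949) (nat_lit 17) (nat_lit 5) (nat_lit 18) (nat_lit 5) (nat_lit 19) (nat_lit 4) (nat_lit 283) (nat_lit 251) (nat_lit 186)) (XT.nd (nat_lit 78) (nat_lit 152) (nat_lit 0) (XT.lf (nat_lit 0) (nat_lit 1885113660) (nat_lit 152) (nat_lit 18288661427) (nat_lit 76) (nat_lit 29883395557) (nat_lit 16) (nat_lit 5) (nat_lit 18) (nat_lit 5) (nat_lit 17) (nat_lit 5) (nat_lit 284) (nat_lit 251) (nat_lit 185)) (XT.lf (nat_lit 0) (nat_lit 7904063185) (nat_lit 152) (nat_lit 4870314004) (nat_lit 228) (nat_lit 40456843186) (nat_lit 14) (nat_lit 5) (nat_lit 16) (nat_lit 5) (nat_lit 17) (nat_lit 5) (nat_lit 285) (nat_lit 251) (nat_lit 184)))))) (XT.nd (nat_lit 390) (nat_lit 152) (nat_lit 0) (XT.nd (nat_lit 156) (nat_lit 152)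 (nat_lit 0) (XT.nd (nat_lit 78) (nat_lit 76) (nat_lit 0) (XT.lf (nat_lit 0) (nat_lit 25025778103) (nat_lit 228) (nat_lit 20010468930) (nat_lit 76) (nat_lit 11598415198) (nat_lit 14) (nat_lit 5) (nat_lit 17) (nat_lit 5) (nat_lit 15) (nat_lit 4) (nat_lit 286) (nat_lit 251) (nat_lit 183)) (XT.lf (nat_lit 0) (nat_lit 7464964883) (nat_lit 76) (nat_lit 30977286503) (nat_lit 152) (nat_lit 21858896669) (nat_lit 13) (nat_lit 5) (nat_lit 14) (nat_lit 5) (nat_lit 15) (nat_lit 4) (nat_lit 287) (nat_lit 251) (nat_lit 182))) (XT.nd (nat_lit 78) (nat_lit 152) (nat_lit 0) (XT.lf (nat_lit 0) (nat_lit 37830624796) (nat_lit 76) (nat_lit 15436942363) (nat_lit 152) (nat_lit 10976624753) (nat_lit 13) (nat_lit 5) (nat_lit 14) (nat_lit 5) (nat_lit 15) (nat_lit 4) (nat_lit 288) (nat_lit 251) (nat_lit 181)) (XT.nd (nat_lit 78) (nat_lit 0) (nat_lit 0) (XT.lf (nat_lit 0) (nat_lit 794435319) (nat_lit 152) (nat_lit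 66363961681) (nat_lit 76) (nat_lit 1341537374) (nat_lit 11) (nat_lit 5) (nat_lit 13) (nat_lit 5) (nat_lit 12) (nat_lit 4) (nat_lit 289) (nat_lit 251) (nat_lit 180)) (XT.lf (nat_lit 0) (nat_lit 13843870362) (nat_lit 152) (nat_lit 39634043042) (nat_lit 76) (nat_lit 19573175287) (nat_lit 11) (nat_lit 5) (nat_lit 13) (nat_lit 5) (nat_lit 12) (nat_lit 4) (nat_lit 290) (nat_lit 251) (nat_lit 179))))) (XT.nd (nat_lit 156) (nat_lit 76) (nat_lit 0) (XT.nd (nat_lit 78) (nat_lit 76) (nat_lit 0) (XT.lf (nat_lit 0) (nat_lit 27926307675) (nat_lit 152) (nat_lit 10784882847) (nat_lit 76) (nat_lit 39255704103) (nat_lit 11) (nat_lit 5) (nat_lit 13) (nat_lit 5) (nat_lit 12) (nat_lit 4) (nat_lit 291) (nat_lit 251) (nat_lit 178)) (XT.lf (nat_lit 0) (nat_lit 21027487820) (nat_lit 76) (nat_lit 22426008932) (nat_lit 152) (nat_lit 39806571222) (nat_lit 10) (nat_lit 5) (nat_lit 11) (nat_lit 5) (nat_lit 12) (nat_lit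 4) (nat_lit 292) (nat_lit 251) (nat_lit 177))) (XT.nd (nat_lit 78) (nat_lit 76) (nat_lit 0) (XT.lf (nat_lit 0) (nat_lit 55753010222) (nat_lit 76) (nat_lit 4648061569) (nat_lit 152) (nat_lit 28566722841) (nat_lit 10) (nat_lit 5) (nat_lit 11) (nat_lit 5) (nat_lit 12) (nat_lit 4) (nat_lit 293) (nat_lit 251) (nat_lit 176)) (XT.nd (nat_lit 78) (nat_lit 76) (nat_lit 0) (XT.lf (nat_lit 0) (nat_lit 78922606899) (nat_lit 152) (nat_lit 2118821108) (nat_lit 0) (nat_lit 14079812954) (nat_lit 10) (nat_lit 5) (nat_lit 12) (nat_lit 4) (nat_lit 10) (nat_lit 4) (nat_lit 294) (nat_lit 251) (nat_lit 175)) (XT.lf (nat_lit 0) (nat_lit 32408863151) (nat_lit 76) (nat_lit 67092994342) (nat_lit 76) (nat_lit 2236314427) (nat_lit 9) (nat_lit 4) (nat_lit 10) (nat_lit 5) (nat_lit 10) (nat_lit 4) (nat_lit 295) (nat_lit 251) (nat_lit 174))))))))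
noncomputable def xc72 : XT := (XT.nd (nat_lit 1482) (nat_lit 0) (nat_lit 0) (XT.nd (nat_lit 702) (nat_lit 228) (nat_lit 0) (XT.nd (nat_lit 312) (nat_lit 76) (nat_lit 0) (XT.nd (nat_lit 156) (nat_lit 76) (nat_lit 0) (XT.nd (nat_lit 78) (nat_lit 0) (nat_lit 0) (XT.lf (nat_lit 0) (nat_lit 12461333034) (nat_lit 152) (nat_lit 39323804576) (nat_lit 76) (nat_lit 57087831631) (nat_lit 8) (nat_lit 5) (nat_lit 10) (nat_lit 5) (nat_lit 9) (nat_lit 4) (nat_lit 296) (nat_lit 251) (nat_lit 173)) (XT.lf (nat_lit 0) (nat_lit 28249975933) (nat_lit 152) (nat_lit 6968991615) (nat_lit 76) (nat_lit 81358080083) (nat_lit 8) (nat_lit 5) (nat_lit 10) (nat_lit 5) (nat_lit 9) (nat_lit 4) (nat_lit 297) (nat_lit 251) (nat_lit 172))) (XT.nd (nat_lit 78) (nat_lit 0) (nat_lit 0) (XT.lf (nat_lit 0) (nat_lit 28886320117) (nat_lit 76) (nat_lit 16859428920) (nat_lit 152) (nat_lit 79129507785) (nat_lit 7) (nat_lit 5) (nat_lit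 8) (nat_lit 5) (nat_lit 9) (nat_lit 4) (nat_lit 298) (nat_lit 251) (nat_lit 171)) (XT.lf (nat_lit 0) (nat_lit 64804211829) (nat_lit 152) (nat_lit 66032822274) (nat_lit 0) (nat_lit 2992143244) (nat_lit 7) (nat_lit 5) (nat_lit 9) (nat_lit 4) (nat_lit 7) (nat_lit 4) (nat_lit 299) (nat_lit 251) (nat_lit 170)))) (XT.nd (nat_lit 156) (nat_lit 0) (nat_lit 0) (XT.nd (nat_lit 78) (nat_lit 76) (nat_lit 0) (XT.lf (nat_lit 0) (nat_lit 85665419440) (nat_lit 152) (nat_lit 33975743911) (nat_lit 0) (nat_lit 23844350322) (nat_lit 7) (nat_lit 5) (nat_lit 9) (nat_lit 4) (nat_lit 7) (nat_lit 4) (nat_lit 300) (nat_lit 251) (nat_lit 169)) (XT.lf (nat_lit 0) (nat_lit 656501331) (nat_lit 76) (nat_lit 107543519400) (nat_lit 76) (nat_lit 45714116456) (nat_lit 6) (nat_lit 4) (nat_lit 7) (nat_lit 5) (nat_lit 7) (nat_lit 4) (nat_lit 301) (nat_lit 251) (nat_lit 168))) (XT.nd (nat_lit 78) (nat_lit 0) (nat_lit 0) (XT.lf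 (nat_lit 0) (nat_lit 39262629989) (nat_lit 76) (nat_lit 93861113563) (nat_lit 76) (nat_lit 32023994113) (nat_lit 6) (nat_lit 4) (nat_lit 7) (nat_lit 5) (nat_lit 7) (nat_lit 4) (nat_lit 302) (nat_lit 251) (nat_lit 167)) (XT.nd (nat_lit 78) (nat_lit 0) (nat_lit 0) (XT.lf (nat_lit 0) (nat_lit 80948027590) (nat_lit 76) (nat_lit 79088260580) (nat_lit 76) (nat_lit 17243996218) (nat_lit 6) (nat_lit 4) (nat_lit 7) (nat_lit 5) (nat_lit 7) (nat_lit 4) (nat_lit 303) (nat_lit 251) (nat_lit 166)) (XT.lf (nat_lit 0) (nat_lit 125959718711) (nat_lit 76) (nat_lit 63137417619) (nat_lit 76) (nat_lit 1286537597) (nat_lit 6) (nat_lit 4) (nat_lit 7) (nat_lit 5) (nat_lit 7) (nat_lit 4) (nat_lit 304) (nat_lit 251) (nat_lit 165)))))) (XT.nd (nat_lit 390) (nat_lit 76) (nat_lit 0) (XT.nd (nat_lit 156) (nat_lit 0) (nat_lit 0) (XT.nd (nat_lit 78) (nat_lit 76) (nat_lit 0) (XT.lf (nat_lit 0) (nat_lit 15432670678) (nat_lit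 152) (nat_lit 30220030742) (nat_lit 76) (nat_lit 158870408875) (nat_lit 5) (nat_lit 5) (nat_lit 7) (nat_lit 5) (nat_lit 6) (nat_lit 4) (nat_lit 305) (nat_lit 251) (nat_lit 164)) (XT.lf (nat_lit 0) (nat_lit 6912291755) (nat_lit 76) (nat_lit 26636473732) (nat_lit 152) (nat_lit 186238663682) (nat_lit 4) (nat_lit 5) (nat_lit 5) (nat_lit 5) (nat_lit 6) (nat_lit 4) (nat_lit 306) (nat_lit 251) (nat_lit 163))) (XT.nd (nat_lit 78) (nat_lit 0) (nat_lit 0) (XT.lf (nat_lit 0) (nat_lit 48087212699) (nat_lit 76) (nat_lit 5549441894) (nat_lit 152) (nat_lit 182610116706) (nat_lit 4) (nat_lit 5) (nat_lit 5) (nat_lit 5) (nat_lit 6) (nat_lit 4) (nat_lit 307) (nat_lit 251) (nat_lit 162)) (XT.nd (nat_lit 78) (nat_lit 0) (nat_lit 0) (XT.lf (nat_lit 0) (nat_lit 75596834358) (nat_lit 152) (nat_lit 161742400464) (nat_lit 0) (nat_lit 16670365856) (nat_lit 4) (nat_lit 5) (nat_lit 6) (nat_lit 4) (nat_lit 4) (nat_lit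 4) (nat_lit 308) (nat_lit 251) (nat_lit 161)) (XT.lf (nat_lit 0) (nat_lit 99404009632) (nat_lit 152) (nat_lit 133311687334) (nat_lit 0) (nat_lit 40473253028) (nat_lit 4) (nat_lit 5) (nat_lit 6) (nat_lit 4) (nat_lit 4) (nat_lit 4) (nat_lit 309) (nat_lit 251) (nat_lit 160))))) (XT.nd (nat_lit 156) (nat_lit 76) (nat_lit 0) (XT.nd (nat_lit 78) (nat_lit 0) (nat_lit 0) (XT.lf (nat_lit 0) (nat_lit 125112617632) (nat_lit 152) (nat_lit 102612298572) (nat_lit 0) (nat_lit 66177890563) (nat_lit 4) (nat_lit 5) (nat_lit 6) (nat_lit 4) (nat_lit 4) (nat_lit 4) (nat_lit 310) (nat_lit 251) (nat_lit 159)) (XT.lf (nat_lit 0) (nat_lit 152875005665) (nat_lit 152) (nat_lit 69462311872) (nat_lit 0) (nat_lit 93936602240) (nat_lit 4) (nat_lit 5) (nat_lit 6) (nat_lit 4) (nat_lit 4) (nat_lit 4) (nat_lit 311) (nat_lit 251) (nat_lit 158))) (XT.nd (nat_lit 78) (nat_lit 76) (nat_lit 0) (XT.lf (nat_lit 0) (nat_lit 182855691586)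 (nat_lit 152) (nat_lit 33665282871) (nat_lit 0) (nat_lit 123913884128) (nat_lit 4) (nat_lit 5) (nat_lit 6) (nat_lit 4) (nat_lit 4) (nat_lit 4) (nat_lit 312) (nat_lit 251) (nat_lit 157)) (XT.nd (nat_lit 78) (nat_lit 0) (nat_lit 0) (XT.lf (nat_lit 0) (nat_lit 5155941296) (nat_lit 76) (nat_lit 210156896116) (nat_lit 76) (nat_lit 151211936775) (nat_lit 3) (nat_lit 4) (nat_lit 4) (nat_lit 5) (nat_lit 4) (nat_lit 4) (nat_lit 313) (nat_lit 251) (nat_lit 156)) (XT.lf (nat_lit 0) (nat_lit 48280649765) (nat_lit 76) (nat_lit 202669955160) (nat_lit 76) (nat_lit 143722077409) (nat_lit 3) (nat_lit 4) (nat_lit 4) (nat_lit 5) (nat_lit 4) (nat_lit 4) (nat_lit 314) (nat_lit 251) (nat_lit 155))))))) (XT.nd (nat_lit 32604) (nat_lit 0) (nat_lit 4712) (XT.nd (nat_lit 312) (nat_lit 0) (nat_lit 0) (XT.nd (nat_lit 156) (nat_lit 0) (nat_lit 0) (XT.nd (nat_lit 78) (nat_lit 0) (nat_lit 0) (XT.lf (nat_lit 0) (nat_lit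 94851270077) (nat_lit 76) (nat_lit 194585922387) (nat_lit 76) (nat_lit 135635342405) (nat_lit 3) (nat_lit 4) (nat_lit 4) (nat_lit 5) (nat_lit 4) (nat_lit 4) (nat_lit 315) (nat_lit 251) (nat_lit 154)) (XT.lf (nat_lit 0) (nat_lit 145143776277) (nat_lit 76) (nat_lit 185856892418) (nat_lit 76) (nat_lit 126903810369) (nat_lit 3) (nat_lit 4) (nat_lit 4) (nat_lit 5) (nat_lit 4) (nat_lit 4) (nat_lit 316) (nat_lit 251) (nat_lit 153))) (XT.nd (nat_lit 78) (nat_lit 0) (nat_lit 0) (XT.lf (nat_lit 0) (nat_lit 199456198031) (nat_lit 76) (nat_lit 176431137667) (nat_lit 76) (nat_lit 117475738890) (nat_lit 3) (nat_lit 4) (nat_lit 4) (nat_lit 5) (nat_lit 4) (nat_lit 4) (nat_lit 317) (nat_lit 251) (nat_lit 152)) (XT.lf (nat_lit 0) (nat_lit 258110386728) (nat_lit 76) (nat_lit 166252801809) (nat_lit 76) (nat_lit 107295257914) (nat_lit 3) (nat_lit 4) (nat_lit 4) (nat_lit 5) (nat_lit 4) (nat_lit 4) (nat_lit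 318) (nat_lit 251) (nat_lit 151)))) (XT.nd (nat_lit 156) (nat_lit 0) (nat_lit 0) (XT.nd (nat_lit 78) (nat_lit 0) (nat_lit 0) (XT.lf (nat_lit 0) (nat_lit 321453922746) (nat_lit 76) (nat_lit 155261568782) (nat_lit 76) (nat_lit 96302038666) (nat_lit 3) (nat_lit 4) (nat_lit 4) (nat_lit 5) (nat_lit 4) (nat_lit 4) (nat_lit 319) (nat_lit 251) (nat_lit 150)) (XT.lf (nat_lit 0) (nat_lit 389862175186) (nat_lit 76) (nat_lit 143392305351) (nat_lit 76) (nat_lit 84430936142) (nat_lit 3) (nat_lit 4) (nat_lit 4) (nat_lit 5) (nat_lit 4) (nat_lit 4) (nat_lit 320) (nat_lit 251) (nat_lit 149))) (XT.nd (nat_lit 78) (nat_lit 0) (nat_lit 0) (XT.lf (nat_lit 0) (nat_lit 463740526285) (nat_lit 76) (nat_lit 130574675142) (nat_lit 76) (nat_lit 71611603068) (nat_lit 3) (nat_lit 4) (nat_lit 4) (nat_lit 5) (nat_lit 4) (nat_lit 4) (nat_lit 321) (nat_lit 251) (nat_lit 148)) (XT.nd (nat_lit 78) (nat_lit 0) (nat_lit 0)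 (XT.lf (nat_lit 0) (nat_lit 543526773679) (nat_lit 76) (nat_lit 116732721826) (nat_lit 76) (nat_lit 57768073026) (nat_lit 3) (nat_lit 4) (nat_lit 4) (nat_lit 5) (nat_lit 4) (nat_lit 4) (nat_lit 322) (nat_lit 251) (nat_lit 147)) (XT.lf (nat_lit 0) (nat_lit 629693724761) (nat_lit 76) (nat_lit 101784419013) (nat_lit 76) (nat_lit 42818310282) (nat_lit 3) (nat_lit 4) (nat_lit 4) (nat_lit 5) (nat_lit 4) (nat_lit 4) (nat_lit 323) (nat_lit 251) (nat_lit 146)))))) (XT.nd (nat_lit 390) (nat_lit 836) (nat_lit 0) (XT.nd (nat_lit 156) (nat_lit 608) (nat_lit 0) (XT.nd (nat_lit 78) (nat_lit 0) (nat_lit 0) (XT.lf (nat_lit 0) (nat_lit 4349325747) (nat_lit 684) (nat_lit 508920712) (nat_lit 684) (nat_lit 508920712) (nat_lit 84) (nat_lit 3) (nat_lit 93) (nat_lit 3) (nat_lit 93) (nat_lit 5) (nat_lit 252) (nat_lit 252) (nat_lit 216)) (XT.lf (nat_lit 76) (nat_lit 6705853729) (nat_lit 0) (nat_lit 3301494326)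 (nat_lit 684) (nat_lit 1105576638) (nat_lit 85) (nat_lit 5) (nat_lit 84) (nat_lit 3) (nat_lit 93) (nat_lit 5) (nat_lit 253) (nat_lit 252) (nat_lit 215))) (XT.nd (nat_lit 78) (nat_lit 684) (nat_lit 0) (XT.lf (nat_lit 76) (nat_lit 3568364293) (nat_lit 0) (nat_lit 7896979164) (nat_lit 684) (nat_lit 54503338) (nat_lit 86) (nat_lit 5) (nat_lit 85) (nat_lit 5) (nat_lit 94) (nat_lit 5) (nat_lit 254) (nat_lit 252) (nat_lit 214)) (XT.nd (nat_lit 78) (nat_lit 0) (nat_lit 76) (XT.lf (nat_lit 76) (nat_lit 265936277) (nat_lit 0) (nat_lit 836244839) (nat_lit 760) (nat_lit 10853734520) (nat_lit 77) (nat_lit 5) (nat_lit 76) (nat_lit 5) (nat_lit 86) (nat_lit 5) (nat_lit 255) (nat_lit 252) (nat_lit 213)) (XT.lf (nat_lit 0) (nat_lit 2520242534) (nat_lit 684) (nat_lit 3159117915) (nat_lit 760) (nat_lit 6739151553) (nat_lit 77) (nat_lit 5) (nat_lit 86) (nat_lit 5) (nat_lit 87) (nat_lit 5) (nat_lit 256) (nat_lit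 252) (nat_lit 212))))) (XT.nd (nat_lit 156) (nat_lit 988) (nat_lit 0) (XT.nd (nat_lit 78) (nat_lit 0) (nat_lit 0) (XT.lf (nat_lit 0) (nat_lit 4124749397) (nat_lit 684) (nat_lit 6761501098) (nat_lit 760) (nat_lit 2028423225) (nat_lit 78) (nat_lit 5) (nat_lit 87) (nat_lit 5) (nat_lit 88) (nat_lit 5) (nat_lit 257) (nat_lit 252) (nat_lit 211)) (XT.lf (nat_lit 76) (nat_lit 2816778323) (nat_lit 0) (nat_lit 3170825493) (nat_lit 760) (nat_lit 7456617493) (nat_lit 79) (nat_lit 5) (nat_lit 78) (nat_lit 5) (nat_lit 88) (nat_lit 5) (nat_lit 258) (nat_lit 252) (nat_lit 210))) (XT.nd (nat_lit 78) (nat_lit 1064) (nat_lit 0) (XT.lf (nat_lit 0) (nat_lit 8138370615) (nat_lit 684) (nat_lit 743356608) (nat_lit 76) (nat_lit 5127639324) (nat_lit 79) (nat_lit 5) (nat_lit 88) (nat_lit 5) (nat_lit 80) (nat_lit 5) (nat_lit 259) (nat_lit 252) (nat_lit 209)) (XT.nd (nat_lit 78) (nat_lit 380) (nat_lit 0) (XT.lf (nat_lit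 0) (nat_lit 10153558276) (nat_lit 684) (nat_lit 462762922) (nat_lit 760) (nat_lit 3995810938) (nat_lit 70) (nat_lit 5) (nat_lit 79) (nat_lit 5) (nat_lit 80) (nat_lit 5) (nat_lit 260) (nat_lit 252) (nat_lit 208)) (XT.lf (nat_lit 0) (nat_lit 6716131039) (nat_lit 380) (nat_lit 6775830959) (nat_lit 456) (nat_lit 1761336907) (nat_lit 65) (nat_lit 5) (nat_lit 70) (nat_lit 5) (nat_lit 71) (nat_lit 5) (nat_lit 261) (nat_lit 252) (nat_lit 207))))))))
noncomputable def xc73 : XT := (XT.nd (nat_lit 1482) (nat_lit 1140) (nat_lit 0) (XT.nd (nat_lit 702) (nat_lit 1140) (nat_lit 0) (XT.nd (nat_lit 312) (nat_lit 1064) (nat_lit 0) (XT.nd (nat_lit 156) (nat_lit 608) (nat_lit 0) (XT.nd (nat_lit 78) (nat_lit 0) (nat_lit 0) (XT.lf (nat_lit 0) (nat_lit 750181355) (nat_lit 456) (nat_lit 12947340183) (nat_lit 76) (nat_lit 2241905637) (nat_lit 59) (nat_lit 5) (nat_lit 65) (nat_lit 5) (nat_lit 60) (nat_lit 5)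 (nat_lit 262) (nat_lit 252) (nat_lit 206)) (XT.lf (nat_lit 0) (nat_lit 3619125716) (nat_lit 456) (nat_lit 1121047179) (nat_lit 76) (nat_lit 11928043061) (nat_lit 59) (nat_lit 5) (nat_lit 65) (nat_lit 5) (nat_lit 60) (nat_lit 5) (nat_lit 263) (nat_lit 252) (nat_lit 205))) (XT.nd (nat_lit 78) (nat_lit 304) (nat_lit 0) (XT.lf (nat_lit 0) (nat_lit 6940370176) (nat_lit 380) (nat_lit 5539766306) (nat_lit 76) (nat_lit 4964147533) (nat_lit 55) (nat_lit 5) (nat_lit 60) (nat_lit 5) (nat_lit 56) (nat_lit 5) (nat_lit 264) (nat_lit 252) (nat_lit 204)) (XT.lf (nat_lit 0) (nat_lit 7855257358) (nat_lit 304) (nat_lit 2852576316) (nat_lit 380) (nat_lit 7565684725) (nat_lit 51) (nat_lit 5) (nat_lit 55) (nat_lit 5) (nat_lit 56) (nat_lit 5) (nat_lit 265) (nat_lit 252) (nat_lit 203)))) (XT.nd (nat_lit 156) (nat_lit 836) (nat_lit 0) (XT.nd (nat_lit 78) (nat_lit 0) (nat_lit 0) (XT.lf (nat_lit 0) (nat_lit 3294935550)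 (nat_lit 228) (nat_lit 11709513423) (nat_lit 304) (nat_lit 4153353763) (nat_lit 48) (nat_lit 5) (nat_lit 51) (nat_lit 5) (nat_lit 52) (nat_lit 5) (nat_lit 266) (nat_lit 252) (nat_lit 202)) (XT.lf (nat_lit 0) (nat_lit 18382975763) (nat_lit 228) (nat_lit 1453285428) (nat_lit 304) (nat_lit 267086854) (nat_lit 48) (nat_lit 5) (nat_lit 51) (nat_lit 5) (nat_lit 52) (nat_lit 5) (nat_lit 267) (nat_lit 252) (nat_lit 201))) (XT.nd (nat_lit 78) (nat_lit 456) (nat_lit 0) (XT.lf (nat_lit 0) (nat_lit 4140702861) (nat_lit 380) (nat_lit 7372792057) (nat_lit 76) (nat_lit 9591234437) (nat_lit 43) (nat_lit 5) (nat_lit 48) (nat_lit 5) (nat_lit 44) (nat_lit 5) (nat_lit 268) (nat_lit 252) (nat_lit 200)) (XT.nd (nat_lit 78) (nat_lit 228) (nat_lit 0) (XT.lf (nat_lit 0) (nat_lit 8497336633) (nat_lit 228) (nat_lit 548817796) (nat_lit 304) (nat_lit 13132202813) (nat_lit 40) (nat_lit 5) (nat_lit 43) (nat_lit 5)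 (nat_lit 44) (nat_lit 5) (nat_lit 269) (nat_lit 252) (nat_lit 199)) (XT.lf (nat_lit 0) (nat_lit 2426190691) (nat_lit 228) (nat_lit 12230921901) (nat_lit 304) (nat_lit 8665178502) (nat_lit 37) (nat_lit 5) (nat_lit 40) (nat_lit 5) (nat_lit 41) (nat_lit 5) (nat_lit 270) (nat_lit 252) (nat_lit 198)))))) (XT.nd (nat_lit 390) (nat_lit 532) (nat_lit 0) (XT.nd (nat_lit 156) (nat_lit 380) (nat_lit 0) (XT.nd (nat_lit 78) (nat_lit 228) (nat_lit 0) (XT.lf (nat_lit 0) (nat_lit 20260843457) (nat_lit 228) (nat_lit 673582348) (nat_lit 304) (nat_lit 3612504062) (nat_lit 37) (nat_lit 5) (nat_lit 40) (nat_lit 5) (nat_lit 41) (nat_lit 5) (nat_lit 271) (nat_lit 252) (nat_lit 197)) (XT.lf (nat_lit 0) (nat_lit 2164514172) (nat_lit 228) (nat_lit 12011881056) (nat_lit 76) (nat_lit 11672803181) (nat_lit 34) (nat_lit 5) (nat_lit 37) (nat_lit 5) (nat_lit 35) (nat_lit 5) (nat_lit 272) (nat_lit 252) (nat_lit 196)))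 (XT.nd (nat_lit 78) (nat_lit 152) (nat_lit 0) (XT.lf (nat_lit 0) (nat_lit 6405538275) (nat_lit 228) (nat_lit 2033668463) (nat_lit 304) (nat_lit 18805429119) (nat_lit 31) (nat_lit 5) (nat_lit 34) (nat_lit 5) (nat_lit 35) (nat_lit 5) (nat_lit 273) (nat_lit 252) (nat_lit 195)) (XT.nd (nat_lit 78) (nat_lit 152) (nat_lit 0) (XT.lf (nat_lit 0) (nat_lit 15575936390) (nat_lit 304) (nat_lit 2229613993) (nat_lit 76) (nat_lit 10928203319) (nat_lit 31) (nat_lit 5) (nat_lit 35) (nat_lit 5) (nat_lit 32) (nat_lit 5) (nat_lit 274) (nat_lit 252) (nat_lit 194)) (XT.lf (nat_lit 0) (nat_lit 18388406922) (nat_lit 152) (nat_lit 5192875104) (nat_lit 228) (nat_lit 6745879960) (nat_lit 29) (nat_lit 5) (nat_lit 31) (nat_lit 5) (nat_lit 32) (nat_lit 5) (nat_lit 275) (nat_lit 252) (nat_lit 193))))) (XT.nd (nat_lit 156) (nat_lit 304) (nat_lit 0) (XT.nd (nat_lit 78) (nat_lit 0) (nat_lit 0) (XT.lf (nat_lit 0) (nat_lit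 463841792) (nat_lit 228) (nat_lit 23236278823) (nat_lit 76) (nat_lit 8333294215) (nat_lit 26) (nat_lit 5) (nat_lit 29) (nat_lit 5) (nat_lit 27) (nat_lit 5) (nat_lit 276) (nat_lit 252) (nat_lit 192)) (XT.lf (nat_lit 0) (nat_lit 8294243023) (nat_lit 228) (nat_lit 2485519746) (nat_lit 76) (nat_lit 23076900152) (nat_lit 26) (nat_lit 5) (nat_lit 29) (nat_lit 5) (nat_lit 27) (nat_lit 5) (nat_lit 277) (nat_lit 252) (nat_lit 191))) (XT.nd (nat_lit 78) (nat_lit 152) (nat_lit 0) (XT.lf (nat_lit 0) (nat_lit 17106376799) (nat_lit 228) (nat_lit 15313119626) (nat_lit 76) (nat_lit 3388543352) (nat_lit 24) (nat_lit 5) (nat_lit 27) (nat_lit 5) (nat_lit 25) (nat_lit 5) (nat_lit 278) (nat_lit 252) (nat_lit 190)) (XT.nd (nat_lit 78) (nat_lit 0) (nat_lit 0) (XT.lf (nat_lit 0) (nat_lit 7517017626) (nat_lit 152) (nat_lit 19430243755) (nat_lit 228) (nat_lit 10952107821) (nat_lit 22) (nat_lit 5) (nat_lit 24)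 (nat_lit 5) (nat_lit 25) (nat_lit 5) (nat_lit 279) (nat_lit 252) (nat_lit 189)) (XT.lf (nat_lit 0) (nat_lit 32691420708) (nat_lit 152) (nat_lit 5132367967) (nat_lit 228) (nat_lit 2321826809) (nat_lit 22) (nat_lit 5) (nat_lit 24) (nat_lit 5) (nat_lit 25) (nat_lit 5) (nat_lit 280) (nat_lit 252) (nat_lit 188))))))) (XT.nd (nat_lit 702) (nat_lit 456) (nat_lit 0) (XT.nd (nat_lit 312) (nat_lit 304) (nat_lit 0) (XT.nd (nat_lit 156) (nat_lit 228) (nat_lit 0) (XT.nd (nat_lit 78) (nat_lit 0) (nat_lit 0) (XT.lf (nat_lit 0) (nat_lit 7201643687) (nat_lit 152) (nat_lit 24980986338) (nat_lit 76) (nat_lit 10362154760) (nat_lit 20) (nat_lit 5) (nat_lit 22) (nat_lit 5) (nat_lit 21) (nat_lit 5) (nat_lit 281) (nat_lit 252) (nat_lit 187)) (XT.lf (nat_lit 0) (nat_lit 17608654434) (nat_lit 152) (nat_lit 434722424) (nat_lit 76) (nat_lit 27080480988) (nat_lit 20) (nat_lit 5) (nat_lit 22) (nat_lit 5) (nat_lit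 21) (nat_lit 5) (nat_lit 282) (nat_lit 252) (nat_lit 186))) (XT.nd (nat_lit 78) (nat_lit 76) (nat_lit 0) (XT.lf (nat_lit 0) (nat_lit 26911652824) (nat_lit 152) (nat_lit 2341372499) (nat_lit 228) (nat_lit 18636013465) (nat_lit 18) (nat_lit 5) (nat_lit 20) (nat_lit 5) (nat_lit 21) (nat_lit 5) (nat_lit 283) (nat_lit 252) (nat_lit 185)) (XT.lf (nat_lit 0) (nat_lit 5509766687) (nat_lit 76) (nat_lit 36626362489) (nat_lit 152) (nat_lit 8723966234) (nat_lit 17) (nat_lit 5) (nat_lit 18) (nat_lit 5) (nat_lit 19) (nat_lit 4) (nat_lit 284) (nat_lit 252) (nat_lit 184)))) (XT.nd (nat_lit 156) (nat_lit 76) (nat_lit 0) (XT.nd (nat_lit 78) (nat_lit 152) (nat_lit 0) (XT.lf (nat_lit 0) (nat_lit 2314255260) (nat_lit 152) (nat_lit 19285858846) (nat_lit 76) (nat_lit 32447363121) (nat_lit 16) (nat_lit 5) (nat_lit 18) (nat_lit 5) (nat_lit 17) (nat_lit 5) (nat_lit 285) (nat_lit 252) (nat_lit 183)) (XT.lf (nat_lit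 0) (nat_lit 8982036485) (nat_lit 152) (nat_lit 5078963981) (nat_lit 228) (nat_lit 43415159399) (nat_lit 14) (nat_lit 5) (nat_lit 16) (nat_lit 5) (nat_lit 17) (nat_lit 5) (nat_lit 286) (nat_lit 252) (nat_lit 182))) (XT.nd (nat_lit 78) (nat_lit 76) (nat_lit 0) (XT.lf (nat_lit 0) (nat_lit 27275524270) (nat_lit 228) (nat_lit 21188731579) (nat_lit 76) (nat_lit 12688494717) (nat_lit 14) (nat_lit 5) (nat_lit 17) (nat_lit 5) (nat_lit 15) (nat_lit 4) (nat_lit 287) (nat_lit 252) (nat_lit 181)) (XT.nd (nat_lit 78) (nat_lit 0) (nat_lit 0) (XT.lf (nat_lit 0) (nat_lit 8466372351) (nat_lit 76) (nat_lit 33286906962) (nat_lit 152) (nat_lit 23359900002) (nat_lit 13) (nat_lit 5) (nat_lit 14) (nat_lit 5) (nat_lit 15) (nat_lit 4) (nat_lit 288) (nat_lit 252) (nat_lit 180)) (XT.lf (nat_lit 0) (nat_lit 41231343555) (nat_lit 76) (nat_lit 16515821399) (nat_lit 152) (nat_lit 11625395103) (nat_lit 13) (nat_lit 5)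 (nat_lit 14) (nat_lit 5) (nat_lit 15) (nat_lit 4) (nat_lit 289) (nat_lit 252) (nat_lit 179)))))) (XT.nd (nat_lit 390) (nat_lit 228) (nat_lit 0) (XT.nd (nat_lit 156) (nat_lit 76) (nat_lit 0) (XT.nd (nat_lit 78) (nat_lit 0) (nat_lit 0) (XT.lf (nat_lit 0) (nat_lit 1071669867) (nat_lit 152) (nat_lit 71299431735) (nat_lit 76) (nat_lit 1597916386) (nat_lit 11) (nat_lit 5) (nat_lit 13) (nat_lit 5) (nat_lit 12) (nat_lit 4) (nat_lit 290) (nat_lit 252) (nat_lit 178)) (XT.lf (nat_lit 0) (nat_lit 15149231587) (nat_lit 152) (nat_lit 42458797152) (nat_lit 76) (nat_lit 21277044146) (nat_lit 11) (nat_lit 5) (nat_lit 13) (nat_lit 5) (nat_lit 12) (nat_lit 4) (nat_lit 291) (nat_lit 252) (nat_lit 177))) (XT.nd (nat_lit 78) (nat_lit 76) (nat_lit 0) (XT.lf (nat_lit 0) (nat_lit 30343608211) (nat_lit 152) (nat_lit 11327331499) (nat_lit 76) (nat_lit 42523951946) (nat_lit 11) (nat_lit 5) (nat_lit 13) (nat_lit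 5) (nat_lit 12) (nat_lit 4) (nat_lit 292) (nat_lit 252) (nat_lit 176)) (XT.nd (nat_lit 78) (nat_lit 0) (nat_lit 0) (XT.lf (nat_lit 0) (nat_lit 23016107149) (nat_lit 76) (nat_lit 24088079276) (nat_lit 152) (nat_lit 42807786172) (nat_lit 10) (nat_lit 5) (nat_lit 11) (nat_lit 5) (nat_lit 12) (nat_lit 4) (nat_lit 293) (nat_lit 252) (nat_lit 175)) (XT.lf (nat_lit 0) (nat_lit 60496973543) (nat_lit 76) (nat_lit 4897674670) (nat_lit 152) (nat_lit 30682328495) (nat_lit 10) (nat_lit 5) (nat_lit 11) (nat_lit 5) (nat_lit 12) (nat_lit 4) (nat_lit 294) (nat_lit 252) (nat_lit 174))))) (XT.nd (nat_lit 156) (nat_lit 152) (nat_lit 0) (XT.nd (nat_lit 78) (nat_lit 76) (nat_lit 0) (XT.lf (nat_lit 0) (nat_lit 85387710877) (nat_lit 152) (nat_lit 2019756781) (nat_lit 0) (nat_lit 15315753215) (nat_lit 10) (nat_lit 5) (nat_lit 12) (nat_lit 4) (nat_lit 10) (nat_lit 4) (nat_lit 295) (nat_lit 252) (nat_lit 173))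 (XT.lf (nat_lit 0) (nat_lit 35258470494) (nat_lit 76) (nat_lit 72347634860) (nat_lit 76) (nat_lit 2263772216) (nat_lit 9) (nat_lit 4) (nat_lit 10) (nat_lit 5) (nat_lit 10) (nat_lit 4) (nat_lit 296) (nat_lit 252) (nat_lit 172))) (XT.nd (nat_lit 78) (nat_lit 76) (nat_lit 0) (XT.lf (nat_lit 0) (nat_lit 13593980513) (nat_lit 152) (nat_lit 42227225723) (nat_lit 76) (nat_lit 61754687276) (nat_lit 8) (nat_lit 5) (nat_lit 10) (nat_lit 5) (nat_lit 9) (nat_lit 4) (nat_lit 297) (nat_lit 252) (nat_lit 171)) (XT.nd (nat_lit 78) (nat_lit 76) (nat_lit 0) (XT.lf (nat_lit 0) (nat_lit 30635659968) (nat_lit 152) (nat_lit 7301989444) (nat_lit 76) (nat_lit 87959160854) (nat_lit 8) (nat_lit 5) (nat_lit 10) (nat_lit 5) (nat_lit 9) (nat_lit 4) (nat_lit 298) (nat_lit 252) (nat_lit 170)) (XT.lf (nat_lit 0) (nat_lit 31411989795) (nat_lit 76) (nat_lit 18113148123) (nat_lit 152) (nat_lit 85334044782) (nat_lit 7)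 (nat_lit 5) (nat_lit 8) (nat_lit 5) (nat_lit 9) (nat_lit 4) (nat_lit 299) (nat_lit 252) (nat_lit 169))))))))
noncomputable def xc74 : XT := (XT.nd (nat_lit 1482) (nat_lit 0) (nat_lit 0) (XT.nd (nat_lit 702) (nat_lit 76) (nat_lit 0) (XT.nd (nat_lit 312) (nat_lit 152) (nat_lit 0) (XT.nd (nat_lit 156) (nat_lit 76) (nat_lit 0) (XT.nd (nat_lit 78) (nat_lit 0) (nat_lit 0) (XT.lf (nat_lit 0) (nat_lit 70100782778) (nat_lit 152) (nat_lit 71112323082) (nat_lit 0) (nat_lit 3316693772) (nat_lit 7) (nat_lit 5) (nat_lit 9) (nat_lit 4) (nat_lit 7) (nat_lit 4) (nat_lit 300) (nat_lit 252) (nat_lit 168)) (XT.lf (nat_lit 0) (nat_lit 92622573367) (nat_lit 152) (nat_lit 36505724745) (nat_lit 0) (nat_lit 25830767856) (nat_lit 7) (nat_lit 5) (nat_lit 9) (nat_lit 4) (nat_lit 7) (nat_lit 4) (nat_lit 301) (nat_lit 252) (nat_lit 167))) (XT.nd (nat_lit 78) (nat_lit 0) (nat_lit 0) (XT.lf (nat_lit 0) (nat_lit 888926447)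 (nat_lit 76) (nat_lit 116066127331) (nat_lit 76) (nat_lit 49267176907) (nat_lit 6) (nat_lit 4) (nat_lit 7) (nat_lit 5) (nat_lit 7) (nat_lit 4) (nat_lit 302) (nat_lit 252) (nat_lit 166)) (XT.lf (nat_lit 0) (nat_lit 42570219101) (nat_lit 76) (nat_lit 101295119665) (nat_lit 76) (nat_lit 34489553581) (nat_lit 6) (nat_lit 4) (nat_lit 7) (nat_lit 5) (nat_lit 7) (nat_lit 4) (nat_lit 303) (nat_lit 252) (nat_lit 165)))) (XT.nd (nat_lit 156) (nat_lit 152) (nat_lit 0) (XT.nd (nat_lit 78) (nat_lit 0) (nat_lit 0) (XT.lf (nat_lit 0) (nat_lit 87578109346) (nat_lit 76) (nat_lit 85345985331) (nat_lit 76) (nat_lit 18534293637) (nat_lit 6) (nat_lit 4) (nat_lit 7) (nat_lit 5) (nat_lit 7) (nat_lit 4) (nat_lit 304) (nat_lit 252) (nat_lit 164)) (XT.lf (nat_lit 0) (nat_lit 136179310604) (nat_lit 76) (nat_lit 68124210940) (nat_lit 76) (nat_lit 1306847384) (nat_lit 6) (nat_lit 4) (nat_lit 7) (nat_lit 5) (nat_lit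 7) (nat_lit 4) (nat_lit 305) (nat_lit 252) (nat_lit 163))) (XT.nd (nat_lit 78) (nat_lit 76) (nat_lit 0) (XT.lf (nat_lit 0) (nat_lit 16741329779) (nat_lit 152) (nat_lit 32502889233) (nat_lit 76) (nat_lit 171636977696) (nat_lit 5) (nat_lit 5) (nat_lit 7) (nat_lit 5) (nat_lit 6) (nat_lit 4) (nat_lit 306) (nat_lit 252) (nat_lit 162)) (XT.nd (nat_lit 78) (nat_lit 0) (nat_lit 0) (XT.lf (nat_lit 0) (nat_lit 7594163255) (nat_lit 76) (nat_lit 28709076375) (nat_lit 152) (nat_lit 201063599544) (nat_lit 4) (nat_lit 5) (nat_lit 5) (nat_lit 5) (nat_lit 6) (nat_lit 4) (nat_lit 307) (nat_lit 252) (nat_lit 161)) (XT.lf (nat_lit 0) (nat_lit 52053530603) (nat_lit 76) (nat_lit 5939401639) (nat_lit 152) (nat_lit 197150261938) (nat_lit 4) (nat_lit 5) (nat_lit 5) (nat_lit 5) (nat_lit 6) (nat_lit 4) (nat_lit 308) (nat_lit 252) (nat_lit 160)))))) (XT.nd (nat_lit 390) (nat_lit 76) (nat_lit 0) (XT.nd (nat_lit 156)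 (nat_lit 0) (nat_lit 0) (XT.nd (nat_lit 78) (nat_lit 0) (nat_lit 0) (XT.lf (nat_lit 0) (nat_lit 81705866574) (nat_lit 152) (nat_lit 174568999271) (nat_lit 0) (nat_lit 18052390875) (nat_lit 4) (nat_lit 5) (nat_lit 6) (nat_lit 4) (nat_lit 4) (nat_lit 4) (nat_lit 309) (nat_lit 252) (nat_lit 159)) (XT.lf (nat_lit 0) (nat_lit 107413076205) (nat_lit 152) (nat_lit 143872184145) (nat_lit 0) (nat_lit 43755924150) (nat_lit 4) (nat_lit 5) (nat_lit 6) (nat_lit 4) (nat_lit 4) (nat_lit 4) (nat_lit 310) (nat_lit 252) (nat_lit 158))) (XT.nd (nat_lit 78) (nat_lit 0) (nat_lit 0) (XT.lf (nat_lit 0) (nat_lit 135174169452) (nat_lit 152) (nat_lit 110724580443) (nat_lit 0) (nat_lit 71513613364) (nat_lit 4) (nat_lit 5) (nat_lit 6) (nat_lit 4) (nat_lit 4) (nat_lit 4) (nat_lit 311) (nat_lit 252) (nat_lit 157)) (XT.nd (nat_lit 78) (nat_lit 0) (nat_lit 0) (XT.lf (nat_lit 0) (nat_lit 165153656497) (nat_lit 152) (nat_lit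 74929757920) (nat_lit 0) (nat_lit 101489948526) (nat_lit 4) (nat_lit 5) (nat_lit 6) (nat_lit 4) (nat_lit 4) (nat_lit 4) (nat_lit 312) (nat_lit 252) (nat_lit 156)) (XT.lf (nat_lit 0) (nat_lit 197529193560) (nat_lit 152) (nat_lit 36275599109) (nat_lit 0) (nat_lit 133862567179) (nat_lit 4) (nat_lit 5) (nat_lit 6) (nat_lit 4) (nat_lit 4) (nat_lit 4) (nat_lit 313) (nat_lit 252) (nat_lit 155))))) (XT.nd (nat_lit 156) (nat_lit 0) (nat_lit 0) (XT.nd (nat_lit 78) (nat_lit 0) (nat_lit 0) (XT.lf (nat_lit 0) (nat_lit 5647719980) (nat_lit 76) (nat_lit 226933092432) (nat_lit 76) (nat_lit 163263763819) (nat_lit 3) (nat_lit 4) (nat_lit 4) (nat_lit 5) (nat_lit 4) (nat_lit 4) (nat_lit 314) (nat_lit 252) (nat_lit 154)) (XT.lf (nat_lit 0) (nat_lit 52216530803) (nat_lit 76) (nat_lit 218849889190) (nat_lit 76) (nat_lit 155178058511) (nat_lit 3) (nat_lit 4) (nat_lit 4) (nat_lit 5) (nat_lit 4) (nat_lit 4) (nat_lit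 315) (nat_lit 252) (nat_lit 153))) (XT.nd (nat_lit 78) (nat_lit 0) (nat_lit 0) (XT.lf (nat_lit 0) (nat_lit 102507361550) (nat_lit 76) (nat_lit 210121627305) (nat_lit 76) (nat_lit 146447479898) (nat_lit 3) (nat_lit 4) (nat_lit 4) (nat_lit 5) (nat_lit 4) (nat_lit 4) (nat_lit 316) (nat_lit 252) (nat_lit 152)) (XT.nd (nat_lit 78) (nat_lit 0) (nat_lit 0) (XT.lf (nat_lit 0) (nat_lit 156818231959) (nat_lit 76) (nat_lit 200696583744) (nat_lit 76) (nat_lit 137020291218) (nat_lit 3) (nat_lit 4) (nat_lit 4) (nat_lit 5) (nat_lit 4) (nat_lit 4) (nat_lit 317) (nat_lit 252) (nat_lit 151)) (XT.lf (nat_lit 0) (nat_lit 215470984226) (nat_lit 76) (nat_lit 190518906395) (nat_lit 76) (nat_lit 126840627649) (nat_lit 3) (nat_lit 4) (nat_lit 4) (nat_lit 5) (nat_lit 4) (nat_lit 4) (nat_lit 318) (nat_lit 252) (nat_lit 150))))))) (XT.nd (nat_lit 32682) (nat_lit 0) (nat_lit 3648) (XT.nd (nat_lit 312) (nat_lit 0)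 (nat_lit 0) (XT.nd (nat_lit 156) (nat_lit 0) (nat_lit 0) (XT.nd (nat_lit 78) (nat_lit 0) (nat_lit 0) (XT.lf (nat_lit 0) (nat_lit 278813190215) (nat_lit 76) (nat_lit 179528283098) (nat_lit 76) (nat_lit 115848165258) (nat_lit 3) (nat_lit 4) (nat_lit 4) (nat_lit 5) (nat_lit 4) (nat_lit 4) (nat_lit 319) (nat_lit 252) (nat_lit 149)) (XT.lf (nat_lit 0) (nat_lit 347220211147) (nat_lit 76) (nat_lit 167659584232) (nat_lit 76) (nat_lit 103977763528) (nat_lit 3) (nat_lit 4) (nat_lit 4) (nat_lit 5) (nat_lit 4) (nat_lit 4) (nat_lit 320) (nat_lit 252) (nat_lit 148))) (XT.nd (nat_lit 78) (nat_lit 0) (nat_lit 0) (XT.lf (nat_lit 0) (nat_lit 421097421961) (nat_lit 76) (nat_lit 154842476768) (nat_lit 76) (nat_lit 91159079338) (nat_lit 3) (nat_lit 4) (nat_lit 4) (nat_lit 5) (nat_lit 4) (nat_lit 4) (nat_lit 321) (nat_lit 252) (nat_lit 147)) (XT.lf (nat_lit 0) (nat_lit 500882613537) (nat_lit 76) (nat_lit 141001007476)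 (nat_lit 76) (nat_lit 77316150114) (nat_lit 3) (nat_lit 4) (nat_lit 4) (nat_lit 5) (nat_lit 4) (nat_lit 4) (nat_lit 322) (nat_lit 252) (nat_lit 146)))) (XT.nd (nat_lit 32136) (nat_lit 0) (nat_lit 5472) (XT.nd (nat_lit 32058) (nat_lit 0) (nat_lit 6156) (XT.lf (nat_lit 0) (nat_lit 587048587008) (nat_lit 76) (nat_lit 126053152834) (nat_lit 76) (nat_lit 62366943683) (nat_lit 3) (nat_lit 4) (nat_lit 4) (nat_lit 5) (nat_lit 4) (nat_lit 4) (nat_lit 323) (nat_lit 252) (nat_lit 145)) (XT.lf (nat_lit 0) (nat_lit 5532737035) (nat_lit 684) (nat_lit 109675389) (nat_lit 684) (nat_lit 109675389) (nat_lit 84) (nat_lit 3) (nat_lit 93) (nat_lit 3) (nat_lit 93) (nat_lit 5) (nat_lit 253) (nat_lit 253) (nat_lit 214))) (XT.nd (nat_lit 78) (nat_lit 0) (nat_lit 76) (XT.lf (nat_lit 0) (nat_lit 434874033) (nat_lit 684) (nat_lit 3841996017) (nat_lit 760) (nat_lit 7641760991) (nat_lit 75) (nat_lit 5) (nat_lit 84)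 (nat_lit 3) (nat_lit 85) (nat_lit 5) (nat_lit 254) (nat_lit 253) (nat_lit 213)) (XT.nd (nat_lit 78) (nat_lit 0) (nat_lit 0) (XT.lf (nat_lit 0) (nat_lit 1419519660) (nat_lit 684) (nat_lit 7638284248) (nat_lit 760) (nat_lit 3305475972) (nat_lit 76) (nat_lit 5) (nat_lit 85) (nat_lit 5) (nat_lit 86) (nat_lit 5) (nat_lit 255) (nat_lit 253) (nat_lit 212)) (XT.lf (nat_lit 76) (nat_lit 1194392794) (nat_lit 0) (nat_lit 1377255405) (nat_lit 760) (nat_lit 10267624531) (nat_lit 77) (nat_lit 5) (nat_lit 76) (nat_lit 5) (nat_lit 86) (nat_lit 5) (nat_lit 256) (nat_lit 253) (nat_lit 211)))))) (XT.nd (nat_lit 390) (nat_lit 1444) (nat_lit 0) (XT.nd (nat_lit 156) (nat_lit 532) (nat_lit 0) (XT.nd (nat_lit 78) (nat_lit 0) (nat_lit 76) (XT.lf (nat_lit 0) (nat_lit 3993982671) (nat_lit 684) (nat_lit 2497310337) (nat_lit 760) (nat_lit 6853342504) (nat_lit 77) (nat_lit 5) (nat_lit 86) (nat_lit 5) (nat_lit 87)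 (nat_lit 5) (nat_lit 257) (nat_lit 253) (nat_lit 210)) (XT.lf (nat_lit 0) (nat_lit 5641331442) (nat_lit 684) (nat_lit 6359632496) (nat_lit 760) (nat_lit 1884080045) (nat_lit 78) (nat_lit 5) (nat_lit 87) (nat_lit 5) (nat_lit 88) (nat_lit 5) (nat_lit 258) (nat_lit 253) (nat_lit 209))) (XT.nd (nat_lit 78) (nat_lit 608) (nat_lit 0) (XT.lf (nat_lit 76) (nat_lit 3943936831) (nat_lit 0) (nat_lit 3635460811) (nat_lit 760) (nat_lit 6881505864) (nat_lit 79) (nat_lit 5) (nat_lit 78) (nat_lit 5) (nat_lit 88) (nat_lit 5) (nat_lit 259) (nat_lit 253) (nat_lit 208)) (XT.nd (nat_lit 78) (nat_lit 0) (nat_lit 0) (XT.lf (nat_lit 0) (nat_lit 92702640) (nat_lit 684) (nat_lit 9725492101) (nat_lit 760) (nat_lit 5257505415) (nat_lit 70) (nat_lit 5) (nat_lit 79) (nat_lit 5) (nat_lit 80) (nat_lit 5) (nat_lit 260) (nat_lit 253) (nat_lit 207)) (XT.lf (nat_lit 0) (nat_lit 11819614052) (nat_lit 684) (nat_lit 610552906)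 (nat_lit 760) (nat_lit 3299951346) (nat_lit 70) (nat_lit 5) (nat_lit 79) (nat_lit 5) (nat_lit 80) (nat_lit 5) (nat_lit 261) (nat_lit 253) (nat_lit 206))))) (XT.nd (nat_lit 156) (nat_lit 608) (nat_lit 0) (XT.nd (nat_lit 78) (nat_lit 456) (nat_lit 0) (XT.lf (nat_lit 0) (nat_lit 8120511722) (nat_lit 380) (nat_lit 7355836287) (nat_lit 456) (nat_lit 949410208) (nat_lit 65) (nat_lit 5) (nat_lit 70) (nat_lit 5) (nat_lit 71) (nat_lit 5) (nat_lit 262) (nat_lit 253) (nat_lit 205)) (XT.lf (nat_lit 0) (nat_lit 1677550464) (nat_lit 456) (nat_lit 13076496106) (nat_lit 76) (nat_lit 2414915596) (nat_lit 59) (nat_lit 5) (nat_lit 65) (nat_lit 5) (nat_lit 60) (nat_lit 5) (nat_lit 263) (nat_lit 253) (nat_lit 204))) (XT.nd (nat_lit 78) (nat_lit 608) (nat_lit 0) (XT.lf (nat_lit 0) (nat_lit 4711761884) (nat_lit 456) (nat_lit 371257536) (nat_lit 76) (nat_lit 12876413828) (nat_lit 59) (nat_lit 5) (nat_lit 65)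 (nat_lit 5) (nat_lit 60) (nat_lit 5) (nat_lit 264) (nat_lit 253) (nat_lit 203)) (XT.nd (nat_lit 78) (nat_lit 304) (nat_lit 0) (XT.lf (nat_lit 0) (nat_lit 8252484759) (nat_lit 380) (nat_lit 5140950000) (nat_lit 76) (nat_lit 5406617470) (nat_lit 55) (nat_lit 5) (nat_lit 60) (nat_lit 5) (nat_lit 56) (nat_lit 5) (nat_lit 265) (nat_lit 253) (nat_lit 202)) (XT.lf (nat_lit 0) (nat_lit 9289083367) (nat_lit 304) (nat_lit 2988771052) (nat_lit 380) (nat_lit 7420088473) (nat_lit 51) (nat_lit 5) (nat_lit 55) (nat_lit 5) (nat_lit 56) (nat_lit 5) (nat_lit 266) (nat_lit 253) (nat_lit 201))))))))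
noncomputable def xc75 : XT := (XT.nd (nat_lit 1482) (nat_lit 836) (nat_lit 0) (XT.nd (nat_lit 702) (nat_lit 1064) (nat_lit 0) (XT.nd (nat_lit 312) (nat_lit 684) (nat_lit 0) (XT.nd (nat_lit 156) (nat_lit 532) (nat_lit 0) (XT.nd (nat_lit 78) (nat_lit 76) (nat_lit 0) (XT.lf (nat_lit 0) (nat_lit 4363388896) (nat_lit 228) (nat_lit 12515862283) (nat_lit 304) (nat_lit 3775798576) (nat_lit 48) (nat_lit 5) (nat_lit 51) (nat_lit 5) (nat_lit 52) (nat_lit 5) (nat_lit 267) (nat_lit 253) (nat_lit 200)) (XT.lf (nat_lit 0) (nat_lit 356986578) (nat_lit 304) (nat_lit 1085763893) (nat_lit 76) (nat_lit 20235820859) (nat_lit 47) (nat_lit 5) (nat_lit 51) (nat_lit 5) (nat_lit 48) (nat_lit 5) (nat_lit 268) (nat_lit 253) (nat_lit 199))) (XT.nd (nat_lit 78) (nat_lit 228) (nat_lit 0) (XT.lf (nat_lit 0) (nat_lit 5074595543) (nat_lit 380) (nat_lit 7198956387) (nat_lit 76) (nat_lit 10488072714) (nat_lit 43) (nat_lit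 5) (nat_lit 48) (nat_lit 5) (nat_lit 44) (nat_lit 5) (nat_lit 269) (nat_lit 253) (nat_lit 198)) (XT.lf (nat_lit 0) (nat_lit 9907594906) (nat_lit 228) (nat_lit 431653298) (nat_lit 304) (nat_lit 13583656401) (nat_lit 40) (nat_lit 5) (nat_lit 43) (nat_lit 5) (nat_lit 44) (nat_lit 5) (nat_lit 270) (nat_lit 253) (nat_lit 197)))) (XT.nd (nat_lit 156) (nat_lit 456) (nat_lit 0) (XT.nd (nat_lit 78) (nat_lit 0) (nat_lit 0) (XT.lf (nat_lit 0) (nat_lit 3345035998) (nat_lit 228) (nat_lit 13025512995) (nat_lit 304) (nat_lit 8789323554) (nat_lit 37) (nat_lit 5) (nat_lit 40) (nat_lit 5) (nat_lit 41) (nat_lit 5) (nat_lit 271) (nat_lit 253) (nat_lit 196)) (XT.lf (nat_lit 0) (nat_lit 22552775796) (nat_lit 228) (nat_lit 557207214) (nat_lit 304) (nat_lit 3374588434) (nat_lit 37) (nat_lit 5) (nat_lit 40) (nat_lit 5) (nat_lit 41) (nat_lit 5) (nat_lit 272) (nat_lit 253) (nat_lit 195))) (XT.nd (nat_lit 78) (nat_lit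 228) (nat_lit 0) (XT.lf (nat_lit 0) (nat_lit 2822988970) (nat_lit 228) (nat_lit 12291502532) (nat_lit 76) (nat_lit 12777431194) (nat_lit 34) (nat_lit 5) (nat_lit 37) (nat_lit 5) (nat_lit 35) (nat_lit 5) (nat_lit 273) (nat_lit 253) (nat_lit 194)) (XT.nd (nat_lit 78) (nat_lit 0) (nat_lit 0) (XT.lf (nat_lit 0) (nat_lit 7569700618) (nat_lit 228) (nat_lit 2004182327) (nat_lit 304) (nat_lit 19826470961) (nat_lit 31) (nat_lit 5) (nat_lit 34) (nat_lit 5) (nat_lit 35) (nat_lit 5) (nat_lit 274) (nat_lit 253) (nat_lit 193)) (XT.lf (nat_lit 0) (nat_lit 17250289199) (nat_lit 304) (nat_lit 1785231596) (nat_lit 76) (nat_lit 11974708349) (nat_lit 31) (nat_lit 5) (nat_lit 35) (nat_lit 5) (nat_lit 32) (nat_lit 5) (nat_lit 275) (nat_lit 253) (nat_lit 192)))))) (XT.nd (nat_lit 390) (nat_lit 380) (nat_lit 0) (XT.nd (nat_lit 156) (nat_lit 304) (nat_lit 0) (XT.nd (nat_lit 78) (nat_lit 228) (nat_lit 0) (XT.lf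 (nat_lit 0) (nat_lit 20455166971) (nat_lit 152) (nat_lit 5418471578) (nat_lit 228) (nat_lit 6858652810) (nat_lit 29) (nat_lit 5) (nat_lit 31) (nat_lit 5) (nat_lit 32) (nat_lit 5) (nat_lit 276) (nat_lit 253) (nat_lit 191)) (XT.lf (nat_lit 0) (nat_lit 895679079) (nat_lit 228) (nat_lit 24494373743) (nat_lit 76) (nat_lit 9185636538) (nat_lit 26) (nat_lit 5) (nat_lit 29) (nat_lit 5) (nat_lit 27) (nat_lit 5) (nat_lit 277) (nat_lit 253) (nat_lit 190))) (XT.nd (nat_lit 78) (nat_lit 304) (nat_lit 0) (XT.lf (nat_lit 0) (nat_lit 9323273153) (nat_lit 228) (nat_lit 2128058192) (nat_lit 76) (nat_lit 25094976965) (nat_lit 26) (nat_lit 5) (nat_lit 29) (nat_lit 5) (nat_lit 27) (nat_lit 5) (nat_lit 278) (nat_lit 253) (nat_lit 189)) (XT.nd (nat_lit 78) (nat_lit 152) (nat_lit 0) (XT.lf (nat_lit 0) (nat_lit 18824506877) (nat_lit 228) (nat_lit 15991032996) (nat_lit 76) (nat_lit 3839094394) (nat_lit 24) (nat_lit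 5) (nat_lit 27) (nat_lit 5) (nat_lit 25) (nat_lit 5) (nat_lit 279) (nat_lit 253) (nat_lit 188)) (XT.lf (nat_lit 0) (nat_lit 8641737364) (nat_lit 152) (nat_lit 20793198180) (nat_lit 228) (nat_lit 11479262890) (nat_lit 22) (nat_lit 5) (nat_lit 24) (nat_lit 5) (nat_lit 25) (nat_lit 5) (nat_lit 280) (nat_lit 253) (nat_lit 187))))) (XT.nd (nat_lit 156) (nat_lit 228) (nat_lit 0) (XT.nd (nat_lit 78) (nat_lit 152) (nat_lit 0) (XT.lf (nat_lit 0) (nat_lit 35791325409) (nat_lit 152) (nat_lit 5365674927) (nat_lit 228) (nat_lit 2184412252) (nat_lit 22) (nat_lit 5) (nat_lit 24) (nat_lit 5) (nat_lit 25) (nat_lit 5) (nat_lit 281) (nat_lit 253) (nat_lit 186)) (XT.lf (nat_lit 0) (nat_lit 8077580185) (nat_lit 152) (nat_lit 26493076203) (nat_lit 76) (nat_lit 11362291735) (nat_lit 20) (nat_lit 5) (nat_lit 22) (nat_lit 5) (nat_lit 21) (nat_lit 5) (nat_lit 282) (nat_lit 253) (nat_lit 185))) (XT.nd (nat_lit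 78) (nat_lit 228) (nat_lit 0) (XT.lf (nat_lit 0) (nat_lit 19294944014) (nat_lit 152) (nat_lit 19139994) (nat_lit 76) (nat_lit 29405405203) (nat_lit 20) (nat_lit 5) (nat_lit 22) (nat_lit 5) (nat_lit 21) (nat_lit 5) (nat_lit 283) (nat_lit 253) (nat_lit 184)) (XT.nd (nat_lit 78) (nat_lit 76) (nat_lit 0) (XT.lf (nat_lit 0) (nat_lit 29495373168) (nat_lit 152) (nat_lit 2361654458) (nat_lit 228) (nat_lit 19849578286) (nat_lit 18) (nat_lit 5) (nat_lit 20) (nat_lit 5) (nat_lit 21) (nat_lit 5) (nat_lit 284) (nat_lit 253) (nat_lit 183)) (XT.lf (nat_lit 0) (nat_lit 6373087025) (nat_lit 76) (nat_lit 39387166587) (nat_lit 152) (nat_lit 9155647017) (nat_lit 17) (nat_lit 5) (nat_lit 18) (nat_lit 5) (nat_lit 19) (nat_lit 4) (nat_lit 285) (nat_lit 253) (nat_lit 182))))))) (XT.nd (nat_lit 780) (nat_lit 304) (nat_lit 0) (XT.nd (nat_lit 390) (nat_lit 228) (nat_lit 0) (XT.nd (nat_lit 156) (nat_lit 76) (nat_lit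 0) (XT.nd (nat_lit 78) (nat_lit 152) (nat_lit 0) (XT.lf (nat_lit 0) (nat_lit 2738020943) (nat_lit 152) (nat_lit 20429297260) (nat_lit 76) (nat_lit 35191725490) (nat_lit 16) (nat_lit 5) (nat_lit 18) (nat_lit 5) (nat_lit 17) (nat_lit 5) (nat_lit 286) (nat_lit 253) (nat_lit 181)) (XT.lf (nat_lit 0) (nat_lit 10082670944) (nat_lit 152) (nat_lit 5330124085) (nat_lit 228) (nat_lit 46649833707) (nat_lit 14) (nat_lit 5) (nat_lit 16) (nat_lit 5) (nat_lit 17) (nat_lit 5) (nat_lit 287) (nat_lit 253) (nat_lit 180))) (XT.nd (nat_lit 78) (nat_lit 76) (nat_lit 0) (XT.lf (nat_lit 0) (nat_lit 29669915249) (nat_lit 228) (nat_lit 22521540268) (nat_lit 76) (nat_lit 13842640056) (nat_lit 14) (nat_lit 5) (nat_lit 17) (nat_lit 5) (nat_lit 15) (nat_lit 4) (nat_lit 288) (nat_lit 253) (nat_lit 179)) (XT.nd (nat_lit 78) (nat_lit 0) (nat_lit 0) (XT.lf (nat_lit 0) (nat_lit 9490227301) (nat_lit 76) (nat_lit 35805344377)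 (nat_lit 152) (nat_lit 25016321975) (nat_lit 13) (nat_lit 5) (nat_lit 14) (nat_lit 5) (nat_lit 15) (nat_lit 4) (nat_lit 289) (nat_lit 253) (nat_lit 178)) (XT.lf (nat_lit 0) (nat_lit 44850726189) (nat_lit 76) (nat_lit 17703276795) (nat_lit 152) (nat_lit 12358787797) (nat_lit 13) (nat_lit 5) (nat_lit 14) (nat_lit 5) (nat_lit 15) (nat_lit 4) (nat_lit 290) (nat_lit 253) (nat_lit 177))))) (XT.nd (nat_lit 156) (nat_lit 76) (nat_lit 0) (XT.nd (nat_lit 78) (nat_lit 0) (nat_lit 0) (XT.lf (nat_lit 0) (nat_lit 1340599379) (nat_lit 152) (nat_lit 76683044299) (nat_lit 76) (nat_lit 1853541211) (nat_lit 11) (nat_lit 5) (nat_lit 13) (nat_lit 5) (nat_lit 12) (nat_lit 4) (nat_lit 291) (nat_lit 253) (nat_lit 176)) (XT.lf (nat_lit 0) (nat_lit 16530795967) (nat_lit 152) (nat_lit 45558887984) (nat_lit 76) (nat_lit 23097533154) (nat_lit 11) (nat_lit 5) (nat_lit 13) (nat_lit 5) (nat_lit 12) (nat_lit 4) (nat_lit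 292) (nat_lit 253) (nat_lit 175))) (XT.nd (nat_lit 78) (nat_lit 76) (nat_lit 0) (XT.lf (nat_lit 0) (nat_lit 32928157843) (nat_lit 152) (nat_lit 11958876408) (nat_lit 76) (nat_lit 46035428727) (nat_lit 11) (nat_lit 5) (nat_lit 13) (nat_lit 5) (nat_lit 12) (nat_lit 4) (nat_lit 293) (nat_lit 253) (nat_lit 174)) (XT.nd (nat_lit 78) (nat_lit 0) (nat_lit 0) (XT.lf (nat_lit 0) (nat_lit 25120101743) (nat_lit 76) (nat_lit 25901948003) (nat_lit 152) (nat_lit 46075249646) (nat_lit 10) (nat_lit 5) (nat_lit 11) (nat_lit 5) (nat_lit 12) (nat_lit 4) (nat_lit 294) (nat_lit 253) (nat_lit 173)) (XT.lf (nat_lit 0) (nat_lit 65579977743) (nat_lit 76) (nat_lit 5184694555) (nat_lit 152) (nat_lit 32991396793) (nat_lit 10) (nat_lit 5) (nat_lit 11) (nat_lit 5) (nat_lit 12) (nat_lit 4) (nat_lit 295) (nat_lit 253) (nat_lit 172)))))) (XT.nd (nat_lit 390) (nat_lit 76) (nat_lit 0) (XT.nd (nat_lit 156) (nat_lit 152)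 (nat_lit 0) (XT.nd (nat_lit 78) (nat_lit 76) (nat_lit 0) (XT.lf (nat_lit 0) (nat_lit 92348439189) (nat_lit 152) (nat_lit 1951081823) (nat_lit 0) (nat_lit 16634939420) (nat_lit 10) (nat_lit 5) (nat_lit 12) (nat_lit 4) (nat_lit 10) (nat_lit 4) (nat_lit 296) (nat_lit 253) (nat_lit 171)) (XT.lf (nat_lit 0) (nat_lit 38299397010) (nat_lit 76) (nat_lit 78038738661) (nat_lit 76) (nat_lit 2315032288) (nat_lit 9) (nat_lit 4) (nat_lit 10) (nat_lit 5) (nat_lit 10) (nat_lit 4) (nat_lit 297) (nat_lit 253) (nat_lit 170))) (XT.nd (nat_lit 78) (nat_lit 76) (nat_lit 0) (XT.lf (nat_lit 0) (nat_lit 14797874843) (nat_lit 152) (nat_lit 45397513503) (nat_lit 76) (nat_lit 66780649632) (nat_lit 8) (nat_lit 5) (nat_lit 10) (nat_lit 5) (nat_lit 9) (nat_lit 4) (nat_lit 298) (nat_lit 253) (nat_lit 169)) (XT.nd (nat_lit 78) (nat_lit 76) (nat_lit 0) (XT.lf (nat_lit 0) (nat_lit 33194268217) (nat_lit 152) (nat_lit 7693657602)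 (nat_lit 76) (nat_lit 95075141291) (nat_lit 8) (nat_lit 5) (nat_lit 10) (nat_lit 5) (nat_lit 9) (nat_lit 4) (nat_lit 299) (nat_lit 253) (nat_lit 168)) (XT.lf (nat_lit 0) (nat_lit 34109074552) (nat_lit 76) (nat_lit 19480722683) (nat_lit 152) (nat_lit 92052894887) (nat_lit 7) (nat_lit 5) (nat_lit 8) (nat_lit 5) (nat_lit 9) (nat_lit 4) (nat_lit 300) (nat_lit 253) (nat_lit 167))))) (XT.nd (nat_lit 156) (nat_lit 76) (nat_lit 0) (XT.nd (nat_lit 78) (nat_lit 0) (nat_lit 0) (XT.lf (nat_lit 0) (nat_lit 75805067967) (nat_lit 152) (nat_lit 76627162003) (nat_lit 0) (nat_lit 3655056596) (nat_lit 7) (nat_lit 5) (nat_lit 9) (nat_lit 4) (nat_lit 7) (nat_lit 4) (nat_lit 301) (nat_lit 253) (nat_lit 166)) (XT.lf (nat_lit 0) (nat_lit 100121474205) (nat_lit 152) (nat_lit 39264935571) (nat_lit 0) (nat_lit 27964847175) (nat_lit 7) (nat_lit 5) (nat_lit 9) (nat_lit 4) (nat_lit 7) (nat_lit 4) (nat_lit 302) (nat_lit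 253) (nat_lit 165))) (XT.nd (nat_lit 78) (nat_lit 0) (nat_lit 0) (XT.lf (nat_lit 0) (nat_lit 1114280111) (nat_lit 76) (nat_lit 125282081422) (nat_lit 76) (nat_lit 53119328781) (nat_lit 6) (nat_lit 4) (nat_lit 7) (nat_lit 5) (nat_lit 7) (nat_lit 4) (nat_lit 303) (nat_lit 253) (nat_lit 164)) (XT.nd (nat_lit 78) (nat_lit 0) (nat_lit 0) (XT.lf (nat_lit 0) (nat_lit 46118651026) (nat_lit 76) (nat_lit 109334529150) (nat_lit 76) (nat_lit 37166104647) (nat_lit 6) (nat_lit 4) (nat_lit 7) (nat_lit 5) (nat_lit 7) (nat_lit 4) (nat_lit 304) (nat_lit 253) (nat_lit 163)) (XT.lf (nat_lit 0) (nat_lit 94716593646) (nat_lit 76) (nat_lit 92114219632) (nat_lit 76) (nat_lit 19940543404) (nat_lit 6) (nat_lit 4) (nat_lit 7) (nat_lit 5) (nat_lit 7) (nat_lit 4) (nat_lit 305) (nat_lit 253) (nat_lit 162))))))))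
noncomputable def xc76 : XT := (XT.nd (nat_lit 33540) (nat_lit 0) (nat_lit 2584) (XT.nd (nat_lit 702) (nat_lit 76) (nat_lit 0) (XT.nd (nat_lit 312) (nat_lit 0) (nat_lit 0) (XT.nd (nat_lit 156) (nat_lit 76) (nat_lit 0) (XT.nd (nat_lit 78) (nat_lit 76) (nat_lit 0) (XT.lf (nat_lit 0) (nat_lit 147196095779) (nat_lit 76) (nat_lit 73519106588) (nat_lit 76) (nat_lit 1340567653) (nat_lit 6) (nat_lit 4) (nat_lit 7) (nat_lit 5) (nat_lit 7) (nat_lit 4) (nat_lit 306) (nat_lit 253) (nat_lit 161)) (XT.lf (nat_lit 0) (nat_lit 18144118196) (nat_lit 152) (nat_lit 34987599138) (nat_lit 76) (nat_lit 185416749450) (nat_lit 5) (nat_lit 5) (nat_lit 7) (nat_lit 5) (nat_lit 6) (nat_lit 4) (nat_lit 307) (nat_lit 253) (nat_lit 160))) (XT.nd (nat_lit 78) (nat_lit 0) (nat_lit 0) (XT.lf (nat_lit 0) (nat_lit 8312197137) (nat_lit 76) (nat_lit 30955806553) (nat_lit 152) (nat_lit 217085109633) (nat_lit 4) (nat_lit 5)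 (nat_lit 5) (nat_lit 5) (nat_lit 6) (nat_lit 4) (nat_lit 308) (nat_lit 253) (nat_lit 159)) (XT.lf (nat_lit 0) (nat_lit 56320128628) (nat_lit 76) (nat_lit 6368261241) (nat_lit 152) (nat_lit 212863414491) (nat_lit 4) (nat_lit 5) (nat_lit 5) (nat_lit 5) (nat_lit 6) (nat_lit 4) (nat_lit 309) (nat_lit 253) (nat_lit 158)))) (XT.nd (nat_lit 156) (nat_lit 0) (nat_lit 0) (XT.nd (nat_lit 78) (nat_lit 0) (nat_lit 0) (XT.lf (nat_lit 0) (nat_lit 88294878309) (nat_lit 152) (nat_lit 188437817198) (nat_lit 0) (nat_lit 19538073701) (nat_lit 4) (nat_lit 5) (nat_lit 6) (nat_lit 4) (nat_lit 4) (nat_lit 4) (nat_lit 310) (nat_lit 253) (nat_lit 157)) (XT.lf (nat_lit 0) (nat_lit 116054772681) (nat_lit 152) (nat_lit 155292419975) (nat_lit 0) (nat_lit 47294816189) (nat_lit 4) (nat_lit 5) (nat_lit 6) (nat_lit 4) (nat_lit 4) (nat_lit 4) (nat_lit 311) (nat_lit 253) (nat_lit 156))) (XT.nd (nat_lit 78) (nat_lit 0)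 (nat_lit 0) (XT.lf (nat_lit 0) (nat_lit 146033149656) (nat_lit 152) (nat_lit 119499640487) (nat_lit 0) (nat_lit 77270274754) (nat_lit 4) (nat_lit 5) (nat_lit 6) (nat_lit 4) (nat_lit 4) (nat_lit 4) (nat_lit 312) (nat_lit 253) (nat_lit 155)) (XT.nd (nat_lit 78) (nat_lit 0) (nat_lit 0) (XT.lf (nat_lit 0) (nat_lit 178407658876) (nat_lit 152) (nat_lit 80847373376) (nat_lit 0) (nat_lit 109642081743) (nat_lit 4) (nat_lit 5) (nat_lit 6) (nat_lit 4) (nat_lit 4) (nat_lit 4) (nat_lit 313) (nat_lit 253) (nat_lit 154)) (XT.lf (nat_lit 0) (nat_lit 213370149285) (nat_lit 152) (nat_lit 39106568170) (nat_lit 0) (nat_lit 144602070085) (nat_lit 4) (nat_lit 5) (nat_lit 6) (nat_lit 4) (nat_lit 4) (nat_lit 4) (nat_lit 314) (nat_lit 253) (nat_lit 153)))))) (XT.nd (nat_lit 390) (nat_lit 0) (nat_lit 0) (XT.nd (nat_lit 156) (nat_lit 0) (nat_lit 0) (XT.nd (nat_lit 78) (nat_lit 0) (nat_lit 0) (XT.lf (nat_lit 0)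 (nat_lit 6167527445) (nat_lit 76) (nat_lit 245056570953) (nat_lit 76) (nat_lit 176286175026) (nat_lit 3) (nat_lit 4) (nat_lit 4) (nat_lit 5) (nat_lit 4) (nat_lit 4) (nat_lit 315) (nat_lit 253) (nat_lit 152)) (XT.lf (nat_lit 0) (nat_lit 56456806847) (nat_lit 76) (nat_lit 236329020258) (nat_lit 76) (nat_lit 167556479212) (nat_lit 3) (nat_lit 4) (nat_lit 4) (nat_lit 5) (nat_lit 4) (nat_lit 4) (nat_lit 316) (nat_lit 253) (nat_lit 151))) (XT.nd (nat_lit 78) (nat_lit 0) (nat_lit 0) (XT.lf (nat_lit 0) (nat_lit 110766240826) (nat_lit 76) (nat_lit 226904635205) (nat_lit 76) (nat_lit 158130107938) (nat_lit 3) (nat_lit 4) (nat_lit 4) (nat_lit 5) (nat_lit 4) (nat_lit 4) (nat_lit 317) (nat_lit 253) (nat_lit 150)) (XT.nd (nat_lit 78) (nat_lit 0) (nat_lit 0) (XT.lf (nat_lit 0) (nat_lit 169417663064) (nat_lit 76) (nat_lit 216727567587) (nat_lit 76) (nat_lit 147951201227) (nat_lit 3) (nat_lit 4) (nat_lit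 4) (nat_lit 5) (nat_lit 4) (nat_lit 4) (nat_lit 318) (nat_lit 253) (nat_lit 149)) (XT.lf (nat_lit 0) (nat_lit 232758637546) (nat_lit 76) (nat_lit 205737508855) (nat_lit 76) (nat_lit 136959439630) (nat_lit 3) (nat_lit 4) (nat_lit 4) (nat_lit 5) (nat_lit 4) (nat_lit 4) (nat_lit 319) (nat_lit 253) (nat_lit 148))))) (XT.nd (nat_lit 156) (nat_lit 0) (nat_lit 0) (XT.nd (nat_lit 78) (nat_lit 0) (nat_lit 0) (XT.lf (nat_lit 0) (nat_lit 301164518193) (nat_lit 76) (nat_lit 193869332735) (nat_lit 76) (nat_lit 125089686784) (nat_lit 3) (nat_lit 4) (nat_lit 4) (nat_lit 5) (nat_lit 4) (nat_lit 4) (nat_lit 320) (nat_lit 253) (nat_lit 147)) (XT.lf (nat_lit 0) (nat_lit 375040673188) (nat_lit 76) (nat_lit 181052709294) (nat_lit 76) (nat_lit 112271603412) (nat_lit 3) (nat_lit 4) (nat_lit 4) (nat_lit 5) (nat_lit 4) (nat_lit 4) (nat_lit 321) (nat_lit 253) (nat_lit 146))) (XT.nd (nat_lit 78) (nat_lit 0) (nat_lit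 0) (XT.lf (nat_lit 0) (nat_lit 454824887152) (nat_lit 76) (nat_lit 167211688172) (nat_lit 76) (nat_lit 98429230501) (nat_lit 3) (nat_lit 4) (nat_lit 4) (nat_lit 5) (nat_lit 4) (nat_lit 4) (nat_lit 322) (nat_lit 253) (nat_lit 145)) (XT.nd (nat_lit 32136) (nat_lit 0) (nat_lit 5472) (XT.lf (nat_lit 0) (nat_lit 540989955429) (nat_lit 76) (nat_lit 152264248502) (nat_lit 76) (nat_lit 83480539175) (nat_lit 3) (nat_lit 4) (nat_lit 4) (nat_lit 5) (nat_lit 4) (nat_lit 4) (nat_lit 323) (nat_lit 253) (nat_lit 144)) (XT.lf (nat_lit 0) (nat_lit 254571194) (nat_lit 0) (nat_lit 254571194) (nat_lit 684) (nat_lit 5664186609) (nat_lit 75) (nat_lit 5) (nat_lit 75) (nat_lit 3) (nat_lit 84) (nat_lit 3) (nat_lit 254) (nat_lit 254) (nat_lit 212))))))) (XT.nd (nat_lit 702) (nat_lit 2128) (nat_lit 0) (XT.nd (nat_lit 312) (nat_lit 760) (nat_lit 0) (XT.nd (nat_lit 156) (nat_lit 0) (nat_lit 76) (XT.nd (nat_lit 78)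 (nat_lit 0) (nat_lit 76) (XT.lf (nat_lit 0) (nat_lit 1833416200) (nat_lit 684) (nat_lit 3378609314) (nat_lit 760) (nat_lit 7587856873) (nat_lit 75) (nat_lit 5) (nat_lit 84) (nat_lit 3) (nat_lit 85) (nat_lit 5) (nat_lit 255) (nat_lit 254) (nat_lit 211)) (XT.lf (nat_lit 0) (nat_lit 2798941369) (nat_lit 684) (nat_lit 7436248711) (nat_lit 760) (nat_lit 3050107770) (nat_lit 76) (nat_lit 5) (nat_lit 85) (nat_lit 5) (nat_lit 86) (nat_lit 5) (nat_lit 256) (nat_lit 254) (nat_lit 210))) (XT.nd (nat_lit 78) (nat_lit 0) (nat_lit 76) (XT.lf (nat_lit 76) (nat_lit 2067706234) (nat_lit 0) (nat_lit 1893909585) (nat_lit 760) (nat_lit 9842113412) (nat_lit 77) (nat_lit 5) (nat_lit 76) (nat_lit 5) (nat_lit 86) (nat_lit 5) (nat_lit 257) (nat_lit 254) (nat_lit 209)) (XT.lf (nat_lit 0) (nat_lit 5404139775) (nat_lit 684) (nat_lit 1913027082) (nat_lit 760) (nat_lit 7037291340) (nat_lit 77) (nat_lit 5) (nat_lit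 86) (nat_lit 5) (nat_lit 87) (nat_lit 5) (nat_lit 258) (nat_lit 254) (nat_lit 208)))) (XT.nd (nat_lit 156) (nat_lit 988) (nat_lit 0) (XT.nd (nat_lit 78) (nat_lit 0) (nat_lit 0) (XT.lf (nat_lit 0) (nat_lit 7109957996) (nat_lit 684) (nat_lit 6060113752) (nat_lit 760) (nat_lit 1771931759) (nat_lit 78) (nat_lit 5) (nat_lit 87) (nat_lit 5) (nat_lit 88) (nat_lit 5) (nat_lit 259) (nat_lit 254) (nat_lit 207)) (XT.lf (nat_lit 76) (nat_lit 5032613851) (nat_lit 0) (nat_lit 4107169829) (nat_lit 760) (nat_lit 6427532996) (nat_lit 79) (nat_lit 5) (nat_lit 78) (nat_lit 5) (nat_lit 88) (nat_lit 5) (nat_lit 260) (nat_lit 254) (nat_lit 206))) (XT.nd (nat_lit 78) (nat_lit 380) (nat_lit 0) (XT.lf (nat_lit 0) (nat_lit 890647659) (nat_lit 684) (nat_lit 10606095312) (nat_lit 760) (nat_lit 4737805415) (nat_lit 70) (nat_lit 5) (nat_lit 79) (nat_lit 5) (nat_lit 80) (nat_lit 5) (nat_lit 261) (nat_lit 254) (nat_lit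 205)) (XT.nd (nat_lit 78) (nat_lit 380) (nat_lit 0) (XT.lf (nat_lit 0) (nat_lit 13497154295) (nat_lit 684) (nat_lit 754363660) (nat_lit 760) (nat_lit 2693298904) (nat_lit 70) (nat_lit 5) (nat_lit 79) (nat_lit 5) (nat_lit 80) (nat_lit 5) (nat_lit 262) (nat_lit 254) (nat_lit 204)) (XT.lf (nat_lit 0) (nat_lit 9513542749) (nat_lit 380) (nat_lit 7976829640) (nat_lit 456) (nat_lit 208461746) (nat_lit 65) (nat_lit 5) (nat_lit 70) (nat_lit 5) (nat_lit 71) (nat_lit 5) (nat_lit 263) (nat_lit 254) (nat_lit 203)))))) (XT.nd (nat_lit 390) (nat_lit 836) (nat_lit 0) (XT.nd (nat_lit 156) (nat_lit 532) (nat_lit 0) (XT.nd (nat_lit 78) (nat_lit 304) (nat_lit 0) (XT.lf (nat_lit 0) (nat_lit 2555371271) (nat_lit 456) (nat_lit 13345325592) (nat_lit 76) (nat_lit 2602671179) (nat_lit 59) (nat_lit 5) (nat_lit 65) (nat_lit 5) (nat_lit 60) (nat_lit 5) (nat_lit 264) (nat_lit 254) (nat_lit 202)) (XT.lf (nat_lit 0)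 (nat_lit 329294491) (nat_lit 304) (nat_lit 5453083600) (nat_lit 380) (nat_lit 13577338778) (nat_lit 55) (nat_lit 5) (nat_lit 59) (nat_lit 5) (nat_lit 60) (nat_lit 5) (nat_lit 265) (nat_lit 254) (nat_lit 201))) (XT.nd (nat_lit 78) (nat_lit 532) (nat_lit 0) (XT.lf (nat_lit 0) (nat_lit 9561590406) (nat_lit 380) (nat_lit 4830348763) (nat_lit 76) (nat_lit 5878017011) (nat_lit 55) (nat_lit 5) (nat_lit 60) (nat_lit 5) (nat_lit 56) (nat_lit 5) (nat_lit 266) (nat_lit 254) (nat_lit 200)) (XT.nd (nat_lit 78) (nat_lit 228) (nat_lit 0) (XT.lf (nat_lit 0) (nat_lit 10722715369) (nat_lit 304) (nat_lit 3148987818) (nat_lit 380) (nat_lit 7369961814) (nat_lit 51) (nat_lit 5) (nat_lit 55) (nat_lit 5) (nat_lit 56) (nat_lit 5) (nat_lit 267) (nat_lit 254) (nat_lit 199)) (XT.lf (nat_lit 0) (nat_lit 5402496446) (nat_lit 228) (nat_lit 13405323812) (nat_lit 304) (nat_lit 3469303230) (nat_lit 48) (nat_lit 5) (nat_lit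 51) (nat_lit 5) (nat_lit 52) (nat_lit 5) (nat_lit 268) (nat_lit 254) (nat_lit 198))))) (XT.nd (nat_lit 156) (nat_lit 456) (nat_lit 0) (XT.nd (nat_lit 78) (nat_lit 304) (nat_lit 0) (XT.lf (nat_lit 0) (nat_lit 930991371) (nat_lit 304) (nat_lit 514416328) (nat_lit 76) (nat_lit 21938925899) (nat_lit 47) (nat_lit 5) (nat_lit 51) (nat_lit 5) (nat_lit 48) (nat_lit 5) (nat_lit 269) (nat_lit 254) (nat_lit 197)) (XT.lf (nat_lit 0) (nat_lit 5997226813) (nat_lit 380) (nat_lit 7120158363) (nat_lit 76) (nat_lit 11438177792) (nat_lit 43) (nat_lit 5) (nat_lit 48) (nat_lit 5) (nat_lit 44) (nat_lit 5) (nat_lit 270) (nat_lit 254) (nat_lit 196))) (XT.nd (nat_lit 78) (nat_lit 228) (nat_lit 0) (XT.lf (nat_lit 0) (nat_lit 11326463938) (nat_lit 228) (nat_lit 328094065) (nat_lit 304) (nat_lit 14156697819) (nat_lit 40) (nat_lit 5) (nat_lit 43) (nat_lit 5) (nat_lit 44) (nat_lit 5) (nat_lit 271) (nat_lit 254) (nat_lit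 195)) (XT.nd (nat_lit 78) (nat_lit 0) (nat_lit 0) (XT.lf (nat_lit 0) (nat_lit 4233995232) (nat_lit 228) (nat_lit 13909904292) (nat_lit 304) (nat_lit 9004584297) (nat_lit 37) (nat_lit 5) (nat_lit 40) (nat_lit 5) (nat_lit 41) (nat_lit 5) (nat_lit 272) (nat_lit 254) (nat_lit 194)) (XT.lf (nat_lit 0) (nat_lit 24932327817) (nat_lit 228) (nat_lit 455811808) (nat_lit 304) (nat_lit 3192810008) (nat_lit 37) (nat_lit 5) (nat_lit 40) (nat_lit 5) (nat_lit 41) (nat_lit 5) (nat_lit 273) (nat_lit 254) (nat_lit 193))))))))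
noncomputable def xc77 : XT := (XT.nd (nat_lit 1482) (nat_lit 532) (nat_lit 0) (XT.nd (nat_lit 702) (nat_lit 836) (nat_lit 0) (XT.nd (nat_lit 312) (nat_lit 532) (nat_lit 0) (XT.nd (nat_lit 156) (nat_lit 152) (nat_lit 0) (XT.nd (nat_lit 78) (nat_lit 228) (nat_lit 0) (XT.lf (nat_lit 0) (nat_lit 3464906331) (nat_lit 228) (nat_lit 12690692925) (nat_lit 76) (nat_lit 13946062383) (nat_lit 34) (nat_lit 5) (nat_lit 37) (nat_lit 5) (nat_lit 35) (nat_lit 5) (nat_lit 274) (nat_lit 254) (nat_lit 192)) (XT.lf (nat_lit 0) (nat_lit 8734020907) (nat_lit 228) (nat_lit 1999753871) (nat_lit 304) (nat_lit 20998157493) (nat_lit 31) (nat_lit 5) (nat_lit 34) (nat_lit 5) (nat_lit 35) (nat_lit 5) (nat_lit 275) (nat_lit 254) (nat_lit 191))) (XT.nd (nat_lit 78) (nat_lit 152) (nat_lit 0) (XT.lf (nat_lit 0) (nat_lit 18997491602) (nat_lit 304) (nat_lit 1394141073) (nat_lit 76) (nat_lit 13080360569) (nat_lit 31) (nat_lit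 5) (nat_lit 35) (nat_lit 5) (nat_lit 32) (nat_lit 5) (nat_lit 276) (nat_lit 254) (nat_lit 190)) (XT.lf (nat_lit 0) (nat_lit 22602286343) (nat_lit 152) (nat_lit 5689197646) (nat_lit 228) (nat_lit 7041349195) (nat_lit 29) (nat_lit 5) (nat_lit 31) (nat_lit 5) (nat_lit 32) (nat_lit 5) (nat_lit 277) (nat_lit 254) (nat_lit 189)))) (XT.nd (nat_lit 156) (nat_lit 304) (nat_lit 0) (XT.nd (nat_lit 78) (nat_lit 0) (nat_lit 0) (XT.lf (nat_lit 0) (nat_lit 1305750709) (nat_lit 228) (nat_lit 25938828148) (nat_lit 76) (nat_lit 10079677092) (nat_lit 26) (nat_lit 5) (nat_lit 29) (nat_lit 5) (nat_lit 27) (nat_lit 5) (nat_lit 278) (nat_lit 254) (nat_lit 188)) (XT.lf (nat_lit 0) (nat_lit 10382484361) (nat_lit 228) (nat_lit 1821362574) (nat_lit 76) (nat_lit 27249972929) (nat_lit 26) (nat_lit 5) (nat_lit 29) (nat_lit 5) (nat_lit 27) (nat_lit 5) (nat_lit 279) (nat_lit 254) (nat_lit 187))) (XT.nd (nat_lit 78)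 (nat_lit 152) (nat_lit 0) (XT.lf (nat_lit 0) (nat_lit 20630210169) (nat_lit 228) (nat_lit 16801234532) (nat_lit 76) (nat_lit 4300086464) (nat_lit 24) (nat_lit 5) (nat_lit 27) (nat_lit 5) (nat_lit 25) (nat_lit 5) (nat_lit 280) (nat_lit 254) (nat_lit 186)) (XT.nd (nat_lit 78) (nat_lit 0) (nat_lit 0) (XT.lf (nat_lit 0) (nat_lit 9781771764) (nat_lit 152) (nat_lit 22292503592) (nat_lit 228) (nat_lit 12098381049) (nat_lit 22) (nat_lit 5) (nat_lit 24) (nat_lit 5) (nat_lit 25) (nat_lit 5) (nat_lit 281) (nat_lit 254) (nat_lit 185)) (XT.lf (nat_lit 0) (nat_lit 39070090155) (nat_lit 152) (nat_lit 5642937771) (nat_lit 228) (nat_lit 2082107018) (nat_lit 22) (nat_lit 5) (nat_lit 24) (nat_lit 5) (nat_lit 25) (nat_lit 5) (nat_lit 282) (nat_lit 254) (nat_lit 184)))))) (XT.nd (nat_lit 390) (nat_lit 380) (nat_lit 0) (XT.nd (nat_lit 156) (nat_lit 152) (nat_lit 0) (XT.nd (nat_lit 78) (nat_lit 152) (nat_lit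 0) (XT.lf (nat_lit 0) (nat_lit 8980821068) (nat_lit 152) (nat_lit 28195522091) (nat_lit 76) (nat_lit 12418021125) (nat_lit 20) (nat_lit 5) (nat_lit 22) (nat_lit 5) (nat_lit 21) (nat_lit 5) (nat_lit 283) (nat_lit 254) (nat_lit 183)) (XT.lf (nat_lit 0) (nat_lit 377523210) (nat_lit 152) (nat_lit 20704905398) (nat_lit 228) (nat_lit 31522084578) (nat_lit 18) (nat_lit 5) (nat_lit 20) (nat_lit 5) (nat_lit 21) (nat_lit 5) (nat_lit 284) (nat_lit 254) (nat_lit 182))) (XT.nd (nat_lit 78) (nat_lit 152) (nat_lit 0) (XT.lf (nat_lit 0) (nat_lit 32224334398) (nat_lit 152) (nat_lit 2407387363) (nat_lit 228) (nat_lit 21199790556) (nat_lit 18) (nat_lit 5) (nat_lit 20) (nat_lit 5) (nat_lit 21) (nat_lit 5) (nat_lit 285) (nat_lit 254) (nat_lit 181)) (XT.nd (nat_lit 78) (nat_lit 76) (nat_lit 0) (XT.lf (nat_lit 0) (nat_lit 7245193076) (nat_lit 76) (nat_lit 42392988250) (nat_lit 152) (nat_lit 9659843879) (nat_lit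 17) (nat_lit 5) (nat_lit 18) (nat_lit 5) (nat_lit 19) (nat_lit 4) (nat_lit 286) (nat_lit 254) (nat_lit 180)) (XT.lf (nat_lit 0) (nat_lit 3161645320) (nat_lit 152) (nat_lit 21721193943) (nat_lit 76) (nat_lit 38134441204) (nat_lit 16) (nat_lit 5) (nat_lit 18) (nat_lit 5) (nat_lit 17) (nat_lit 5) (nat_lit 287) (nat_lit 254) (nat_lit 179))))) (XT.nd (nat_lit 156) (nat_lit 228) (nat_lit 0) (XT.nd (nat_lit 78) (nat_lit 0) (nat_lit 0) (XT.lf (nat_lit 0) (nat_lit 11216849383) (nat_lit 152) (nat_lit 5623511879) (nat_lit 228) (nat_lit 50177312134) (nat_lit 14) (nat_lit 5) (nat_lit 16) (nat_lit 5) (nat_lit 17) (nat_lit 5) (nat_lit 288) (nat_lit 254) (nat_lit 178)) (XT.lf (nat_lit 0) (nat_lit 32225563543) (nat_lit 228) (nat_lit 24012658348) (nat_lit 76) (nat_lit 15069277736) (nat_lit 14) (nat_lit 5) (nat_lit 17) (nat_lit 5) (nat_lit 15) (nat_lit 4) (nat_lit 289) (nat_lit 254) (nat_lit 177))) (XT.nd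 (nat_lit 78) (nat_lit 152) (nat_lit 0) (XT.lf (nat_lit 0) (nat_lit 10546552106) (nat_lit 76) (nat_lit 38545873487) (nat_lit 152) (nat_lit 26835554664) (nat_lit 13) (nat_lit 5) (nat_lit 14) (nat_lit 5) (nat_lit 15) (nat_lit 4) (nat_lit 290) (nat_lit 254) (nat_lit 176)) (XT.nd (nat_lit 78) (nat_lit 152) (nat_lit 0) (XT.lf (nat_lit 0) (nat_lit 48713883007) (nat_lit 76) (nat_lit 19004818160) (nat_lit 152) (nat_lit 13178904646) (nat_lit 13) (nat_lit 5) (nat_lit 14) (nat_lit 5) (nat_lit 15) (nat_lit 4) (nat_lit 291) (nat_lit 254) (nat_lit 175)) (XT.lf (nat_lit 0) (nat_lit 1604908305) (nat_lit 152) (nat_lit 82543046231) (nat_lit 76) (nat_lit 2111385134) (nat_lit 11) (nat_lit 5) (nat_lit 13) (nat_lit 5) (nat_lit 12) (nat_lit 4) (nat_lit 292) (nat_lit 254) (nat_lit 174))))))) (XT.nd (nat_lit 780) (nat_lit 228) (nat_lit 0) (XT.nd (nat_lit 390) (nat_lit 228) (nat_lit 0) (XT.nd (nat_lit 156) (nat_lit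 76) (nat_lit 0) (XT.nd (nat_lit 78) (nat_lit 0) (nat_lit 0) (XT.lf (nat_lit 0) (nat_lit 17998686474) (nat_lit 152) (nat_lit 48949301234) (nat_lit 76) (nat_lit 25046780830) (nat_lit 11) (nat_lit 5) (nat_lit 13) (nat_lit 5) (nat_lit 12) (nat_lit 4) (nat_lit 293) (nat_lit 254) (nat_lit 173)) (XT.lf (nat_lit 0) (nat_lit 35697064943) (nat_lit 152) (nat_lit 12680125605) (nat_lit 76) (nat_lit 49812193603) (nat_lit 11) (nat_lit 5) (nat_lit 13) (nat_lit 5) (nat_lit 12) (nat_lit 4) (nat_lit 294) (nat_lit 254) (nat_lit 172))) (XT.nd (nat_lit 78) (nat_lit 0) (nat_lit 0) (XT.lf (nat_lit 0) (nat_lit 27354937953) (nat_lit 76) (nat_lit 27877072281) (nat_lit 152) (nat_lit 49626530746) (nat_lit 10) (nat_lit 5) (nat_lit 11) (nat_lit 5) (nat_lit 12) (nat_lit 4) (nat_lit 295) (nat_lit 254) (nat_lit 171)) (XT.nd (nat_lit 78) (nat_lit 0) (nat_lit 0) (XT.lf (nat_lit 0) (nat_lit 71034920472) (nat_lit 76) (nat_lit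 5509626080) (nat_lit 152) (nat_lit 35505950321) (nat_lit 10) (nat_lit 5) (nat_lit 11) (nat_lit 5) (nat_lit 12) (nat_lit 4) (nat_lit 296) (nat_lit 254) (nat_lit 170)) (XT.lf (nat_lit 0) (nat_lit 99847520979) (nat_lit 152) (nat_lit 1909761390) (nat_lit 0) (nat_lit 18046260934) (nat_lit 10) (nat_lit 5) (nat_lit 12) (nat_lit 4) (nat_lit 10) (nat_lit 4) (nat_lit 297) (nat_lit 254) (nat_lit 169))))) (XT.nd (nat_lit 156) (nat_lit 76) (nat_lit 0) (XT.nd (nat_lit 78) (nat_lit 76) (nat_lit 0) (XT.lf (nat_lit 0) (nat_lit 41552176683) (nat_lit 76) (nat_lit 84198927100) (nat_lit 76) (nat_lit 2388916537) (nat_lit 9) (nat_lit 4) (nat_lit 10) (nat_lit 5) (nat_lit 10) (nat_lit 4) (nat_lit 298) (nat_lit 254) (nat_lit 168)) (XT.lf (nat_lit 0) (nat_lit 16081478397) (nat_lit 152) (nat_lit 48851082178) (nat_lit 76) (nat_lit 72196478982) (nat_lit 8) (nat_lit 5) (nat_lit 10) (nat_lit 5) (nat_lit 9) (nat_lit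 4) (nat_lit 299) (nat_lit 254) (nat_lit 167))) (XT.nd (nat_lit 78) (nat_lit 76) (nat_lit 0) (XT.lf (nat_lit 0) (nat_lit 35942192607) (nat_lit 152) (nat_lit 8144120206) (nat_lit 76) (nat_lit 102749094612) (nat_lit 8) (nat_lit 5) (nat_lit 10) (nat_lit 5) (nat_lit 9) (nat_lit 4) (nat_lit 300) (nat_lit 254) (nat_lit 166)) (XT.nd (nat_lit 78) (nat_lit 0) (nat_lit 0) (XT.lf (nat_lit 0) (nat_lit 36995658518) (nat_lit 76) (nat_lit 20969326853) (nat_lit 152) (nat_lit 99324642357) (nat_lit 7) (nat_lit 5) (nat_lit 8) (nat_lit 5) (nat_lit 9) (nat_lit 4) (nat_lit 301) (nat_lit 254) (nat_lit 165)) (XT.lf (nat_lit 0) (nat_lit 81951968746) (nat_lit 152) (nat_lit 82608032044) (nat_lit 0) (nat_lit 4010070282) (nat_lit 7) (nat_lit 5) (nat_lit 9) (nat_lit 4) (nat_lit 7) (nat_lit 4) (nat_lit 302) (nat_lit 254) (nat_lit 164)))))) (XT.nd (nat_lit 390) (nat_lit 152) (nat_lit 0) (XT.nd (nat_lit 156) (nat_lit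 0) (nat_lit 0) (XT.nd (nat_lit 78) (nat_lit 76) (nat_lit 0) (XT.lf (nat_lit 0) (nat_lit 108207576718) (nat_lit 152) (nat_lit 42267886972) (nat_lit 0) (nat_lit 30260006392) (nat_lit 7) (nat_lit 5) (nat_lit 9) (nat_lit 4) (nat_lit 7) (nat_lit 4) (nat_lit 303) (nat_lit 254) (nat_lit 163)) (XT.lf (nat_lit 0) (nat_lit 1335658072) (nat_lit 76) (nat_lit 135245203410) (nat_lit 76) (nat_lit 57292381360) (nat_lit 6) (nat_lit 4) (nat_lit 7) (nat_lit 5) (nat_lit 7) (nat_lit 4) (nat_lit 304) (nat_lit 254) (nat_lit 162))) (XT.nd (nat_lit 78) (nat_lit 0) (nat_lit 0) (XT.lf (nat_lit 0) (nat_lit 49930583435) (nat_lit 76) (nat_lit 118026250255) (nat_lit 76) (nat_lit 40068565497) (nat_lit 6) (nat_lit 4) (nat_lit 7) (nat_lit 5) (nat_lit 7) (nat_lit 4) (nat_lit 305) (nat_lit 254) (nat_lit 161)) (XT.nd (nat_lit 78) (nat_lit 0) (nat_lit 0) (XT.lf (nat_lit 0) (nat_lit 102407291811) (nat_lit 76) (nat_lit 99432393103)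 (nat_lit 76) (nat_lit 21470205838) (nat_lit 6) (nat_lit 4) (nat_lit 7) (nat_lit 5) (nat_lit 7) (nat_lit 4) (nat_lit 306) (nat_lit 254) (nat_lit 160)) (XT.lf (nat_lit 0) (nat_lit 159076756287) (nat_lit 76) (nat_lit 79353446134) (nat_lit 76) (nat_lit 1387089881) (nat_lit 6) (nat_lit 4) (nat_lit 7) (nat_lit 5) (nat_lit 7) (nat_lit 4) (nat_lit 307) (nat_lit 254) (nat_lit 159))))) (XT.nd (nat_lit 156) (nat_lit 0) (nat_lit 0) (XT.nd (nat_lit 78) (nat_lit 76) (nat_lit 0) (XT.lf (nat_lit 0) (nat_lit 19650073266) (nat_lit 152) (nat_lit 37687566230) (nat_lit 76) (nat_lit 200291939147) (nat_lit 5) (nat_lit 5) (nat_lit 7) (nat_lit 5) (nat_lit 6) (nat_lit 4) (nat_lit 308) (nat_lit 254) (nat_lit 158)) (XT.lf (nat_lit 0) (nat_lit 9071909553) (nat_lit 76) (nat_lit 33389407624) (nat_lit 152) (nat_lit 234397410624) (nat_lit 4) (nat_lit 5) (nat_lit 5) (nat_lit 5) (nat_lit 6) (nat_lit 4) (nat_lit 309) (nat_lit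 254) (nat_lit 157))) (XT.nd (nat_lit 78) (nat_lit 0) (nat_lit 0) (XT.lf (nat_lit 0) (nat_lit 60913458033) (nat_lit 76) (nat_lit 6838033757) (nat_lit 152) (nat_lit 229842017484) (nat_lit 4) (nat_lit 5) (nat_lit 5) (nat_lit 5) (nat_lit 6) (nat_lit 4) (nat_lit 310) (nat_lit 254) (nat_lit 156)) (XT.nd (nat_lit 78) (nat_lit 0) (nat_lit 0) (XT.lf (nat_lit 0) (nat_lit 95403515221) (nat_lit 152) (nat_lit 203429936183) (nat_lit 0) (nat_lit 21136691918) (nat_lit 4) (nat_lit 5) (nat_lit 6) (nat_lit 4) (nat_lit 4) (nat_lit 4) (nat_lit 311) (nat_lit 254) (nat_lit 155)) (XT.lf (nat_lit 0) (nat_lit 125380864354) (nat_lit 152) (nat_lit 167639048396) (nat_lit 0) (nat_lit 51111338819) (nat_lit 4) (nat_lit 5) (nat_lit 6) (nat_lit 4) (nat_lit 4) (nat_lit 4) (nat_lit 312) (nat_lit 254) (nat_lit 154))))))))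
noncomputable def xc78 : XT := (XT.nd (nat_lit 33618) (nat_lit 0) (nat_lit 1596) (XT.nd (nat_lit 702) (nat_lit 0) (nat_lit 0) (XT.nd (nat_lit 312) (nat_lit 0) (nat_lit 0) (XT.nd (nat_lit 156) (nat_lit 76) (nat_lit 0) (XT.nd (nat_lit 78) (nat_lit 0) (nat_lit 0) (XT.lf (nat_lit 0) (nat_lit 157754421868) (nat_lit 152) (nat_lit 128988532859) (nat_lit 0) (nat_lit 83482394266) (nat_lit 4) (nat_lit 5) (nat_lit 6) (nat_lit 4) (nat_lit 4) (nat_lit 4) (nat_lit 313) (nat_lit 254) (nat_lit 153)) (XT.lf (nat_lit 0) (nat_lit 192716031067) (nat_lit 152) (nat_lit 87249349480) (nat_lit 0) (nat_lit 118441686738) (nat_lit 4) (nat_lit 5) (nat_lit 6) (nat_lit 4) (nat_lit 4) (nat_lit 4) (nat_lit 314) (nat_lit 254) (nat_lit 152))) (XT.nd (nat_lit 78) (nat_lit 76) (nat_lit 0) (XT.lf (nat_lit 0) (nat_lit 230472871858) (nat_lit 152) (nat_lit 42174154952) (nat_lit 0) (nat_lit 156196382410) (nat_lit 4) (nat_lit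 5) (nat_lit 6) (nat_lit 4) (nat_lit 4) (nat_lit 4) (nat_lit 315) (nat_lit 254) (nat_lit 151)) (XT.lf (nat_lit 0) (nat_lit 6719219992) (nat_lit 76) (nat_lit 264634374345) (nat_lit 76) (nat_lit 190355898676) (nat_lit 3) (nat_lit 4) (nat_lit 4) (nat_lit 5) (nat_lit 4) (nat_lit 4) (nat_lit 316) (nat_lit 254) (nat_lit 150)))) (XT.nd (nat_lit 156) (nat_lit 0) (nat_lit 0) (XT.nd (nat_lit 78) (nat_lit 0) (nat_lit 0) (XT.lf (nat_lit 0) (nat_lit 61027323943) (nat_lit 76) (nat_lit 255210599022) (nat_lit 76) (nat_lit 180930284260) (nat_lit 3) (nat_lit 4) (nat_lit 4) (nat_lit 5) (nat_lit 4) (nat_lit 4) (nat_lit 317) (nat_lit 254) (nat_lit 149)) (XT.lf (nat_lit 0) (nat_lit 119677514674) (nat_lit 76) (nat_lit 245034095969) (nat_lit 76) (nat_lit 170752078342) (nat_lit 3) (nat_lit 4) (nat_lit 4) (nat_lit 5) (nat_lit 4) (nat_lit 4) (nat_lit 318) (nat_lit 254) (nat_lit 148))) (XT.nd (nat_lit 78) (nat_lit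 0) (nat_lit 0) (XT.lf (nat_lit 0) (nat_lit 183017348870) (nat_lit 76) (nat_lit 234044559982) (nat_lit 76) (nat_lit 159760965630) (nat_lit 3) (nat_lit 4) (nat_lit 4) (nat_lit 5) (nat_lit 4) (nat_lit 4) (nat_lit 319) (nat_lit 254) (nat_lit 147)) (XT.nd (nat_lit 78) (nat_lit 0) (nat_lit 0) (XT.lf (nat_lit 0) (nat_lit 251422173698) (nat_lit 76) (nat_lit 222176867886) (nat_lit 76) (nat_lit 147891813602) (nat_lit 3) (nat_lit 4) (nat_lit 4) (nat_lit 5) (nat_lit 4) (nat_lit 4) (nat_lit 320) (nat_lit 254) (nat_lit 146)) (XT.lf (nat_lit 0) (nat_lit 325297351083) (nat_lit 76) (nat_lit 209360692615) (nat_lit 76) (nat_lit 135074286542) (nat_lit 3) (nat_lit 4) (nat_lit 4) (nat_lit 5) (nat_lit 4) (nat_lit 4) (nat_lit 321) (nat_lit 254) (nat_lit 145)))))) (XT.nd (nat_lit 32526) (nat_lit 0) (nat_lit 5092) (XT.nd (nat_lit 32292) (nat_lit 0) (nat_lit 5472) (XT.nd (nat_lit 78) (nat_lit 0) (nat_lit 0) (XT.lf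 (nat_lit 0) (nat_lit 405080659852) (nat_lit 76) (nat_lit 195520086465) (nat_lit 76) (nat_lit 121232428736) (nat_lit 3) (nat_lit 4) (nat_lit 4) (nat_lit 5) (nat_lit 4) (nat_lit 4) (nat_lit 322) (nat_lit 254) (nat_lit 144)) (XT.lf (nat_lit 0) (nat_lit 491244889985) (nat_lit 76) (nat_lit 180573031029) (nat_lit 76) (nat_lit 106284214359) (nat_lit 3) (nat_lit 4) (nat_lit 4) (nat_lit 5) (nat_lit 4) (nat_lit 4) (nat_lit 323) (nat_lit 254) (nat_lit 143))) (XT.nd (nat_lit 78) (nat_lit 0) (nat_lit 0) (XT.lf (nat_lit 0) (nat_lit 593104020) (nat_lit 0) (nat_lit 593104020) (nat_lit 684) (nat_lit 5447294859) (nat_lit 75) (nat_lit 5) (nat_lit 75) (nat_lit 3) (nat_lit 84) (nat_lit 3) (nat_lit 255) (nat_lit 255) (nat_lit 210)) (XT.nd (nat_lit 78) (nat_lit 0) (nat_lit 76) (XT.lf (nat_lit 0) (nat_lit 3149287236) (nat_lit 684) (nat_lit 2988107263) (nat_lit 760) (nat_lit 7624545062) (nat_lit 75) (nat_lit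 5) (nat_lit 84) (nat_lit 3) (nat_lit 85) (nat_lit 5) (nat_lit 256) (nat_lit 255) (nat_lit 209)) (XT.lf (nat_lit 0) (nat_lit 4108127715) (nat_lit 684) (nat_lit 7334047891) (nat_lit 760) (nat_lit 2848466289) (nat_lit 76) (nat_lit 5) (nat_lit 85) (nat_lit 5) (nat_lit 86) (nat_lit 5) (nat_lit 257) (nat_lit 255) (nat_lit 208))))) (XT.nd (nat_lit 156) (nat_lit 456) (nat_lit 0) (XT.nd (nat_lit 78) (nat_lit 0) (nat_lit 76) (XT.lf (nat_lit 76) (nat_lit 2899928302) (nat_lit 0) (nat_lit 2393908075) (nat_lit 760) (nat_lit 9560448636) (nat_lit 77) (nat_lit 5) (nat_lit 76) (nat_lit 5) (nat_lit 86) (nat_lit 5) (nat_lit 258) (nat_lit 255) (nat_lit 207)) (XT.lf (nat_lit 0) (nat_lit 6771517674) (nat_lit 684) (nat_lit 1393857244) (nat_lit 760) (nat_lit 7287930200) (nat_lit 77) (nat_lit 5) (nat_lit 86) (nat_lit 5) (nat_lit 87) (nat_lit 5) (nat_lit 259) (nat_lit 255) (nat_lit 206))) (XT.nd (nat_lit 78) (nat_lit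 608) (nat_lit 0) (XT.lf (nat_lit 0) (nat_lit 8550942597) (nat_lit 684) (nat_lit 5851945021) (nat_lit 760) (nat_lit 1688313623) (nat_lit 78) (nat_lit 5) (nat_lit 87) (nat_lit 5) (nat_lit 88) (nat_lit 5) (nat_lit 260) (nat_lit 255) (nat_lit 205)) (XT.nd (nat_lit 78) (nat_lit 608) (nat_lit 0) (XT.lf (nat_lit 76) (nat_lit 6098084819) (nat_lit 0) (nat_lit 4590812133) (nat_lit 760) (nat_lit 6080544503) (nat_lit 79) (nat_lit 5) (nat_lit 78) (nat_lit 5) (nat_lit 88) (nat_lit 5) (nat_lit 261) (nat_lit 255) (nat_lit 204)) (XT.lf (nat_lit 0) (nat_lit 1639650509) (nat_lit 684) (nat_lit 11542514902) (nat_lit 760) (nat_lit 4310673784) (nat_lit 70) (nat_lit 5) (nat_lit 79) (nat_lit 5) (nat_lit 80) (nat_lit 5) (nat_lit 262) (nat_lit 255) (nat_lit 203))))))) (XT.nd (nat_lit 702) (nat_lit 1444) (nat_lit 0) (XT.nd (nat_lit 312) (nat_lit 912) (nat_lit 0) (XT.nd (nat_lit 156) (nat_lit 684) (nat_lit 0) (XT.nd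 (nat_lit 78) (nat_lit 456) (nat_lit 0) (XT.lf (nat_lit 0) (nat_lit 15204473894) (nat_lit 684) (nat_lit 896131239) (nat_lit 760) (nat_lit 2162322017) (nat_lit 70) (nat_lit 5) (nat_lit 79) (nat_lit 5) (nat_lit 80) (nat_lit 5) (nat_lit 263) (nat_lit 255) (nat_lit 202)) (XT.lf (nat_lit 0) (nat_lit 460012405) (nat_lit 456) (nat_lit 8175059261) (nat_lit 76) (nat_lit 10444160413) (nat_lit 64) (nat_lit 5) (nat_lit 70) (nat_lit 5) (nat_lit 65) (nat_lit 5) (nat_lit 264) (nat_lit 255) (nat_lit 201))) (XT.nd (nat_lit 78) (nat_lit 304) (nat_lit 0) (XT.lf (nat_lit 0) (nat_lit 3397332496) (nat_lit 456) (nat_lit 13746550575) (nat_lit 76) (nat_lit 2806222952) (nat_lit 59) (nat_lit 5) (nat_lit 65) (nat_lit 5) (nat_lit 60) (nat_lit 5) (nat_lit 265) (nat_lit 255) (nat_lit 200)) (XT.lf (nat_lit 0) (nat_lit 993078136) (nat_lit 304) (nat_lit 5852149395) (nat_lit 380) (nat_lit 14031721427) (nat_lit 55) (nat_lit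 5) (nat_lit 59) (nat_lit 5) (nat_lit 60) (nat_lit 5) (nat_lit 266) (nat_lit 255) (nat_lit 199)))) (XT.nd (nat_lit 156) (nat_lit 608) (nat_lit 0) (XT.nd (nat_lit 78) (nat_lit 304) (nat_lit 0) (XT.lf (nat_lit 0) (nat_lit 10882850685) (nat_lit 380) (nat_lit 4597883285) (nat_lit 76) (nat_lit 6381583254) (nat_lit 55) (nat_lit 5) (nat_lit 60) (nat_lit 5) (nat_lit 56) (nat_lit 5) (nat_lit 267) (nat_lit 255) (nat_lit 198)) (XT.lf (nat_lit 0) (nat_lit 12172529626) (nat_lit 304) (nat_lit 3333275741) (nat_lit 380) (nat_lit 7407660837) (nat_lit 51) (nat_lit 5) (nat_lit 55) (nat_lit 5) (nat_lit 56) (nat_lit 5) (nat_lit 268) (nat_lit 255) (nat_lit 197))) (XT.nd (nat_lit 78) (nat_lit 380) (nat_lit 0) (XT.lf (nat_lit 0) (nat_lit 6426291188) (nat_lit 228) (nat_lit 14381892847) (nat_lit 304) (nat_lit 3225106034) (nat_lit 48) (nat_lit 5) (nat_lit 51) (nat_lit 5) (nat_lit 52) (nat_lit 5) (nat_lit 269) (nat_lit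 255) (nat_lit 196)) (XT.nd (nat_lit 78) (nat_lit 0) (nat_lit 0) (XT.lf (nat_lit 0) (nat_lit 9027139) (nat_lit 304) (nat_lit 1464216396) (nat_lit 380) (nat_lit 23757375454) (nat_lit 43) (nat_lit 5) (nat_lit 47) (nat_lit 5) (nat_lit 48) (nat_lit 5) (nat_lit 270) (nat_lit 255) (nat_lit 195)) (XT.lf (nat_lit 0) (nat_lit 6919960742) (nat_lit 380) (nat_lit 7128458845) (nat_lit 76) (nat_lit 12448447431) (nat_lit 43) (nat_lit 5) (nat_lit 48) (nat_lit 5) (nat_lit 44) (nat_lit 5) (nat_lit 271) (nat_lit 255) (nat_lit 194)))))) (XT.nd (nat_lit 390) (nat_lit 532) (nat_lit 0) (XT.nd (nat_lit 156) (nat_lit 456) (nat_lit 0) (XT.nd (nat_lit 78) (nat_lit 228) (nat_lit 0) (XT.lf (nat_lit 0) (nat_lit 12769499297) (nat_lit 228) (nat_lit 235950389) (nat_lit 304) (nat_lit 14848860621) (nat_lit 40) (nat_lit 5) (nat_lit 43) (nat_lit 5) (nat_lit 44) (nat_lit 5) (nat_lit 272) (nat_lit 255) (nat_lit 193)) (XT.lf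 (nat_lit 0) (nat_lit 5105427774) (nat_lit 228) (nat_lit 14887537392) (nat_lit 304) (nat_lit 9306668169) (nat_lit 37) (nat_lit 5) (nat_lit 40) (nat_lit 5) (nat_lit 41) (nat_lit 5) (nat_lit 273) (nat_lit 255) (nat_lit 192))) (XT.nd (nat_lit 78) (nat_lit 456) (nat_lit 0) (XT.lf (nat_lit 0) (nat_lit 27420166749) (nat_lit 228) (nat_lit 367129305) (nat_lit 304) (nat_lit 3060935853) (nat_lit 37) (nat_lit 5) (nat_lit 40) (nat_lit 5) (nat_lit 41) (nat_lit 5) (nat_lit 274) (nat_lit 255) (nat_lit 191)) (XT.nd (nat_lit 78) (nat_lit 228) (nat_lit 0) (XT.lf (nat_lit 0) (nat_lit 4098818868) (nat_lit 228) (nat_lit 13205151198) (nat_lit 76) (nat_lit 15187293235) (nat_lit 34) (nat_lit 5) (nat_lit 37) (nat_lit 5) (nat_lit 35) (nat_lit 5) (nat_lit 275) (nat_lit 255) (nat_lit 190)) (XT.lf (nat_lit 0) (nat_lit 9911775706) (nat_lit 228) (nat_lit 2018476428) (nat_lit 304) (nat_lit 22322702184) (nat_lit 31) (nat_lit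 5) (nat_lit 34) (nat_lit 5) (nat_lit 35) (nat_lit 5) (nat_lit 276) (nat_lit 255) (nat_lit 189))))) (XT.nd (nat_lit 156) (nat_lit 380) (nat_lit 0) (XT.nd (nat_lit 78) (nat_lit 152) (nat_lit 0) (XT.lf (nat_lit 0) (nat_lit 20832087971) (nat_lit 304) (nat_lit 1047931403) (nat_lit 76) (nat_lit 14253397399) (nat_lit 31) (nat_lit 5) (nat_lit 35) (nat_lit 5) (nat_lit 32) (nat_lit 5) (nat_lit 277) (nat_lit 255) (nat_lit 188)) (XT.lf (nat_lit 0) (nat_lit 24848317342) (nat_lit 152) (nat_lit 6004800143) (nat_lit 228) (nat_lit 7290874689) (nat_lit 29) (nat_lit 5) (nat_lit 31) (nat_lit 5) (nat_lit 32) (nat_lit 5) (nat_lit 278) (nat_lit 255) (nat_lit 187))) (XT.nd (nat_lit 78) (nat_lit 152) (nat_lit 0) (XT.lf (nat_lit 0) (nat_lit 1700349057) (nat_lit 228) (nat_lit 27572323035) (nat_lit 76) (nat_lit 11022530710) (nat_lit 26) (nat_lit 5) (nat_lit 29) (nat_lit 5) (nat_lit 27) (nat_lit 5) (nat_lit 279)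 (nat_lit 255) (nat_lit 186)) (XT.nd (nat_lit 78) (nat_lit 152) (nat_lit 0) (XT.lf (nat_lit 0) (nat_lit 11481729676) (nat_lit 228) (nat_lit 1558172169) (nat_lit 76) (nat_lit 29556340625) (nat_lit 26) (nat_lit 5) (nat_lit 29) (nat_lit 5) (nat_lit 27) (nat_lit 5) (nat_lit 280) (nat_lit 255) (nat_lit 185)) (XT.lf (nat_lit 0) (nat_lit 22537608072) (nat_lit 228) (nat_lit 17743171854) (nat_lit 76) (nat_lit 4776007406) (nat_lit 24) (nat_lit 5) (nat_lit 27) (nat_lit 5) (nat_lit 25) (nat_lit 5) (nat_lit 281) (nat_lit 255) (nat_lit 184))))))))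
noncomputable def xc79 : XT := (XT.nd (nat_lit 1482) (nat_lit 380) (nat_lit 0) (XT.nd (nat_lit 702) (nat_lit 456) (nat_lit 0) (XT.nd (nat_lit 312) (nat_lit 304) (nat_lit 0) (XT.nd (nat_lit 156) (nat_lit 304) (nat_lit 0) (XT.nd (nat_lit 78) (nat_lit 0) (nat_lit 0) (XT.lf (nat_lit 0) (nat_lit 10948997499) (nat_lit 152) (nat_lit 23935171333) (nat_lit 228) (nat_lit 12809716150) (nat_lit 22) (nat_lit 5) (nat_lit 24) (nat_lit 5) (nat_lit 25) (nat_lit 5) (nat_lit 282) (nat_lit 255) (nat_lit 183)) (XT.lf (nat_lit 0) (nat_lit 42551886251) (nat_lit 152) (nat_lit 5964064879) (nat_lit 228) (nat_lit 2011142817) (nat_lit 22) (nat_lit 5) (nat_lit 24) (nat_lit 5) (nat_lit 25) (nat_lit 5) (nat_lit 283) (nat_lit 255) (nat_lit 182))) (XT.nd (nat_lit 78) (nat_lit 152) (nat_lit 0) (XT.lf (nat_lit 0) (nat_lit 9919652381) (nat_lit 152) (nat_lit 30093653392) (nat_lit 76) (nat_lit 13537273902) (nat_lit 20) (nat_lit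 5) (nat_lit 22) (nat_lit 5) (nat_lit 21) (nat_lit 5) (nat_lit 284) (nat_lit 255) (nat_lit 181)) (XT.lf (nat_lit 0) (nat_lit 749698564) (nat_lit 152) (nat_lit 22228705745) (nat_lit 228) (nat_lit 33823708758) (nat_lit 18) (nat_lit 5) (nat_lit 20) (nat_lit 5) (nat_lit 21) (nat_lit 5) (nat_lit 285) (nat_lit 255) (nat_lit 180)))) (XT.nd (nat_lit 156) (nat_lit 228) (nat_lit 0) (XT.nd (nat_lit 78) (nat_lit 76) (nat_lit 0) (XT.lf (nat_lit 0) (nat_lit 35118923277) (nat_lit 152) (nat_lit 2477207904) (nat_lit 228) (nat_lit 22691938073) (nat_lit 18) (nat_lit 5) (nat_lit 20) (nat_lit 5) (nat_lit 21) (nat_lit 5) (nat_lit 286) (nat_lit 255) (nat_lit 179)) (XT.lf (nat_lit 0) (nat_lit 8135387303) (nat_lit 76) (nat_lit 45659983154) (nat_lit 152) (nat_lit 10236939602) (nat_lit 17) (nat_lit 5) (nat_lit 18) (nat_lit 5) (nat_lit 19) (nat_lit 4) (nat_lit 287) (nat_lit 255) (nat_lit 178))) (XT.nd (nat_lit 78)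 (nat_lit 152) (nat_lit 0) (XT.lf (nat_lit 0) (nat_lit 3589973638) (nat_lit 152) (nat_lit 23165296268) (nat_lit 76) (nat_lit 41294402326) (nat_lit 16) (nat_lit 5) (nat_lit 18) (nat_lit 5) (nat_lit 17) (nat_lit 5) (nat_lit 288) (nat_lit 255) (nat_lit 177)) (XT.nd (nat_lit 78) (nat_lit 0) (nat_lit 0) (XT.lf (nat_lit 0) (nat_lit 12395031322) (nat_lit 152) (nat_lit 5959347791) (nat_lit 228) (nat_lit 54016164228) (nat_lit 14) (nat_lit 5) (nat_lit 16) (nat_lit 5) (nat_lit 17) (nat_lit 5) (nat_lit 289) (nat_lit 255) (nat_lit 176)) (XT.lf (nat_lit 0) (nat_lit 34959691508) (nat_lit 228) (nat_lit 25667377170) (nat_lit 76) (nat_lit 16377037441) (nat_lit 14) (nat_lit 5) (nat_lit 17) (nat_lit 5) (nat_lit 15) (nat_lit 4) (nat_lit 290) (nat_lit 255) (nat_lit 175)))))) (XT.nd (nat_lit 390) (nat_lit 228) (nat_lit 0) (XT.nd (nat_lit 156) (nat_lit 152) (nat_lit 0) (XT.nd (nat_lit 78) (nat_lit 0) (nat_lit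 0) (XT.lf (nat_lit 0) (nat_lit 11644997314) (nat_lit 76) (nat_lit 41523320422) (nat_lit 152) (nat_lit 28826300727) (nat_lit 13) (nat_lit 5) (nat_lit 14) (nat_lit 5) (nat_lit 15) (nat_lit 4) (nat_lit 291) (nat_lit 255) (nat_lit 174)) (XT.lf (nat_lit 0) (nat_lit 52846846462) (nat_lit 76) (nat_lit 20426849036) (nat_lit 152) (nat_lit 14088681546) (nat_lit 13) (nat_lit 5) (nat_lit 14) (nat_lit 5) (nat_lit 15) (nat_lit 4) (nat_lit 292) (nat_lit 255) (nat_lit 173))) (XT.nd (nat_lit 78) (nat_lit 0) (nat_lit 0) (XT.lf (nat_lit 0) (nat_lit 1867955441) (nat_lit 152) (nat_lit 88911029015) (nat_lit 76) (nat_lit 2374226523) (nat_lit 11) (nat_lit 5) (nat_lit 13) (nat_lit 5) (nat_lit 12) (nat_lit 4) (nat_lit 293) (nat_lit 255) (nat_lit 172)) (XT.nd (nat_lit 78) (nat_lit 0) (nat_lit 0) (XT.lf (nat_lit 0) (nat_lit 19563261458) (nat_lit 152) (nat_lit 52647225967) (nat_lit 76) (nat_lit 27137496054) (nat_lit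 11) (nat_lit 5) (nat_lit 13) (nat_lit 5) (nat_lit 12) (nat_lit 4) (nat_lit 294) (nat_lit 255) (nat_lit 171)) (XT.lf (nat_lit 0) (nat_lit 38668274644) (nat_lit 152) (nat_lit 13492665871) (nat_lit 76) (nat_lit 53877699423) (nat_lit 11) (nat_lit 5) (nat_lit 13) (nat_lit 5) (nat_lit 12) (nat_lit 4) (nat_lit 295) (nat_lit 255) (nat_lit 170))))) (XT.nd (nat_lit 156) (nat_lit 152) (nat_lit 0) (XT.nd (nat_lit 78) (nat_lit 0) (nat_lit 0) (XT.lf (nat_lit 0) (nat_lit 29736429757) (nat_lit 76) (nat_lit 30024049137) (nat_lit 152) (nat_lit 53481136340) (nat_lit 10) (nat_lit 5) (nat_lit 11) (nat_lit 5) (nat_lit 12) (nat_lit 4) (nat_lit 296) (nat_lit 255) (nat_lit 169)) (XT.lf (nat_lit 0) (nat_lit 76896507414) (nat_lit 76) (nat_lit 5873369383) (nat_lit 152) (nat_lit 38239466287) (nat_lit 10) (nat_lit 5) (nat_lit 11) (nat_lit 5) (nat_lit 12) (nat_lit 4) (nat_lit 297) (nat_lit 255) (nat_lit 168))) (XT.nd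 (nat_lit 78) (nat_lit 152) (nat_lit 0) (XT.lf (nat_lit 0) (nat_lit 107930664440) (nat_lit 152) (nat_lit 1893297635) (nat_lit 0) (nat_lit 19559000184) (nat_lit 10) (nat_lit 5) (nat_lit 12) (nat_lit 4) (nat_lit 10) (nat_lit 4) (nat_lit 298) (nat_lit 255) (nat_lit 167)) (XT.nd (nat_lit 78) (nat_lit 76) (nat_lit 0) (XT.lf (nat_lit 0) (nat_lit 45038240317) (nat_lit 76) (nat_lit 90863758745) (nat_lit 76) (nat_lit 2484592330) (nat_lit 9) (nat_lit 4) (nat_lit 10) (nat_lit 5) (nat_lit 10) (nat_lit 4) (nat_lit 299) (nat_lit 255) (nat_lit 166)) (XT.lf (nat_lit 0) (nat_lit 17453536421) (nat_lit 152) (nat_lit 52606363193) (nat_lit 76) (nat_lit 78035106575) (nat_lit 8) (nat_lit 5) (nat_lit 10) (nat_lit 5) (nat_lit 9) (nat_lit 4) (nat_lit 300) (nat_lit 255) (nat_lit 165))))))) (XT.nd (nat_lit 780) (nat_lit 76) (nat_lit 0) (XT.nd (nat_lit 390) (nat_lit 152) (nat_lit 0) (XT.nd (nat_lit 156) (nat_lit 76)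 (nat_lit 0) (XT.nd (nat_lit 78) (nat_lit 76) (nat_lit 0) (XT.lf (nat_lit 0) (nat_lit 38896771490) (nat_lit 152) (nat_lit 8654163193) (nat_lit 76) (nat_lit 111027271510) (nat_lit 8) (nat_lit 5) (nat_lit 10) (nat_lit 5) (nat_lit 9) (nat_lit 4) (nat_lit 301) (nat_lit 255) (nat_lit 164)) (XT.lf (nat_lit 0) (nat_lit 40090648993) (nat_lit 76) (nat_lit 22586984761) (nat_lit 152) (nat_lit 107191323518) (nat_lit 7) (nat_lit 5) (nat_lit 8) (nat_lit 5) (nat_lit 9) (nat_lit 4) (nat_lit 302) (nat_lit 255) (nat_lit 163))) (XT.nd (nat_lit 78) (nat_lit 76) (nat_lit 0) (XT.lf (nat_lit 0) (nat_lit 88578852705) (nat_lit 152) (nat_lit 89088671418) (nat_lit 0) (nat_lit 4384553167) (nat_lit 7) (nat_lit 5) (nat_lit 9) (nat_lit 4) (nat_lit 7) (nat_lit 4) (nat_lit 303) (nat_lit 255) (nat_lit 162)) (XT.nd (nat_lit 78) (nat_lit 76) (nat_lit 0) (XT.lf (nat_lit 0) (nat_lit 116929670317) (nat_lit 152) (nat_lit 45530796459)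 (nat_lit 0) (nat_lit 32730508072) (nat_lit 7) (nat_lit 5) (nat_lit 9) (nat_lit 4) (nat_lit 7) (nat_lit 4) (nat_lit 304) (nat_lit 255) (nat_lit 161)) (XT.lf (nat_lit 0) (nat_lit 1555881391) (nat_lit 76) (nat_lit 146013855583) (nat_lit 76) (nat_lit 61810190830) (nat_lit 6) (nat_lit 4) (nat_lit 7) (nat_lit 5) (nat_lit 7) (nat_lit 4) (nat_lit 305) (nat_lit 255) (nat_lit 160))))) (XT.nd (nat_lit 156) (nat_lit 152) (nat_lit 0) (XT.nd (nat_lit 78) (nat_lit 0) (nat_lit 0) (XT.lf (nat_lit 0) (nat_lit 54030002955) (nat_lit 76) (nat_lit 127421161294) (nat_lit 76) (nat_lit 43213327554) (nat_lit 6) (nat_lit 4) (nat_lit 7) (nat_lit 5) (nat_lit 7) (nat_lit 4) (nat_lit 306) (nat_lit 255) (nat_lit 159)) (XT.lf (nat_lit 0) (nat_lit 110697072234) (nat_lit 76) (nat_lit 107343291050) (nat_lit 76) (nat_lit 23131597136) (nat_lit 6) (nat_lit 4) (nat_lit 7) (nat_lit 5) (nat_lit 7) (nat_lit 4) (nat_lit 307) (nat_lit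 255) (nat_lit 158))) (XT.nd (nat_lit 78) (nat_lit 152) (nat_lit 0) (XT.lf (nat_lit 0) (nat_lit 171892894085) (nat_lit 76) (nat_lit 85661264879) (nat_lit 76) (nat_lit 1445996729) (nat_lit 6) (nat_lit 4) (nat_lit 7) (nat_lit 5) (nat_lit 7) (nat_lit 4) (nat_lit 308) (nat_lit 255) (nat_lit 157)) (XT.nd (nat_lit 78) (nat_lit 76) (nat_lit 0) (XT.lf (nat_lit 0) (nat_lit 21268740318) (nat_lit 152) (nat_lit 40617659973) (nat_lit 76) (nat_lit 216351173687) (nat_lit 5) (nat_lit 5) (nat_lit 7) (nat_lit 5) (nat_lit 6) (nat_lit 4) (nat_lit 309) (nat_lit 255) (nat_lit 156)) (XT.lf (nat_lit 0) (nat_lit 9878883720) (nat_lit 76) (nat_lit 36023811731) (nat_lit 152) (nat_lit 253102471838) (nat_lit 4) (nat_lit 5) (nat_lit 5) (nat_lit 5) (nat_lit 6) (nat_lit 4) (nat_lit 310) (nat_lit 255) (nat_lit 155)))))) (XT.nd (nat_lit 390) (nat_lit 76) (nat_lit 0) (XT.nd (nat_lit 156) (nat_lit 0) (nat_lit 0) (XT.nd (nat_lit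 78) (nat_lit 0) (nat_lit 0) (XT.lf (nat_lit 0) (nat_lit 65861739679) (nat_lit 76) (nat_lit 7351050066) (nat_lit 152) (nat_lit 248186108850) (nat_lit 4) (nat_lit 5) (nat_lit 5) (nat_lit 5) (nat_lit 6) (nat_lit 4) (nat_lit 311) (nat_lit 255) (nat_lit 154)) (XT.lf (nat_lit 0) (nat_lit 103074416679) (nat_lit 152) (nat_lit 219633252210) (nat_lit 0) (nat_lit 22858124803) (nat_lit 4) (nat_lit 5) (nat_lit 6) (nat_lit 4) (nat_lit 4) (nat_lit 4) (nat_lit 312) (nat_lit 255) (nat_lit 153))) (XT.nd (nat_lit 78) (nat_lit 0) (nat_lit 0) (XT.lf (nat_lit 0) (nat_lit 135447092983) (nat_lit 152) (nat_lit 180984358501) (nat_lit 0) (nat_lit 55228484379) (nat_lit 4) (nat_lit 5) (nat_lit 6) (nat_lit 4) (nat_lit 4) (nat_lit 4) (nat_lit 313) (nat_lit 255) (nat_lit 152)) (XT.nd (nat_lit 78) (nat_lit 0) (nat_lit 0) (XT.lf (nat_lit 0) (nat_lit 170407886248) (nat_lit 152) (nat_lit 139246676815) (nat_lit 0) (nat_lit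 90187132526) (nat_lit 4) (nat_lit 5) (nat_lit 6) (nat_lit 4) (nat_lit 4) (nat_lit 4) (nat_lit 314) (nat_lit 255) (nat_lit 151)) (XT.lf (nat_lit 0) (nat_lit 208163971544) (nat_lit 152) (nat_lit 94172872742) (nat_lit 0) (nat_lit 127941231601) (nat_lit 4) (nat_lit 5) (nat_lit 6) (nat_lit 4) (nat_lit 4) (nat_lit 4) (nat_lit 315) (nat_lit 255) (nat_lit 150))))) (XT.nd (nat_lit 156) (nat_lit 0) (nat_lit 0) (XT.nd (nat_lit 78) (nat_lit 76) (nat_lit 0) (XT.lf (nat_lit 0) (nat_lit 248939088636) (nat_lit 152) (nat_lit 45495842258) (nat_lit 0) (nat_lit 168714509599) (nat_lit 4) (nat_lit 5) (nat_lit 6) (nat_lit 4) (nat_lit 4) (nat_lit 4) (nat_lit 316) (nat_lit 255) (nat_lit 149)) (XT.lf (nat_lit 0) (nat_lit 7306732173) (nat_lit 76) (nat_lit 285782214240) (nat_lit 76) (nat_lit 205555932339) (nat_lit 3) (nat_lit 4) (nat_lit 4) (nat_lit 5) (nat_lit 4) (nat_lit 4) (nat_lit 317) (nat_lit 255) (nat_lit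 148))) (XT.nd (nat_lit 78) (nat_lit 0) (nat_lit 0) (XT.lf (nat_lit 0) (nat_lit 65955782619) (nat_lit 76) (nat_lit 275606233933) (nat_lit 76) (nat_lit 195378375305) (nat_lit 3) (nat_lit 4) (nat_lit 4) (nat_lit 5) (nat_lit 4) (nat_lit 4) (nat_lit 318) (nat_lit 255) (nat_lit 147)) (XT.nd (nat_lit 78) (nat_lit 0) (nat_lit 0) (XT.lf (nat_lit 0) (nat_lit 129294560996) (nat_lit 76) (nat_lit 264617181970) (nat_lit 76) (nat_lit 184387863411) (nat_lit 3) (nat_lit 4) (nat_lit 4) (nat_lit 5) (nat_lit 4) (nat_lit 4) (nat_lit 319) (nat_lit 255) (nat_lit 146)) (XT.lf (nat_lit 0) (nat_lit 197698408214) (nat_lit 76) (nat_lit 252749938043) (nat_lit 76) (nat_lit 172519267696) (nat_lit 3) (nat_lit 4) (nat_lit 4) (nat_lit 5) (nat_lit 4) (nat_lit 4) (nat_lit 320) (nat_lit 255) (nat_lit 145))))))))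
noncomputable def xc80 : XT := (XT.nd (nat_lit 33696) (nat_lit 0) (nat_lit 836) (XT.nd (nat_lit 32916) (nat_lit 0) (nat_lit 3040) (XT.nd (nat_lit 32526) (nat_lit 0) (nat_lit 5472) (XT.nd (nat_lit 156) (nat_lit 0) (nat_lit 0) (XT.nd (nat_lit 78) (nat_lit 0) (nat_lit 0) (XT.lf (nat_lit 0) (nat_lit 271572680403) (nat_lit 76) (nat_lit 239934177745) (nat_lit 76) (nat_lit 159702255741) (nat_lit 3) (nat_lit 4) (nat_lit 4) (nat_lit 5) (nat_lit 4) (nat_lit 4) (nat_lit 321) (nat_lit 255) (nat_lit 144)) (XT.lf (nat_lit 0) (nat_lit 351355151030) (nat_lit 76) (nat_lit 226093955828) (nat_lit 76) (nat_lit 145860874884) (nat_lit 3) (nat_lit 4) (nat_lit 4) (nat_lit 5) (nat_lit 4) (nat_lit 4) (nat_lit 322) (nat_lit 255) (nat_lit 143))) (XT.nd (nat_lit 32292) (nat_lit 0) (nat_lit 5472) (XT.lf (nat_lit 0) (nat_lit 437518605104) (nat_lit 76) (nat_lit 211147256163) (nat_lit 76) (nat_lit 130913102126) (nat_lit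 3) (nat_lit 4) (nat_lit 4) (nat_lit 5) (nat_lit 4) (nat_lit 4) (nat_lit 323) (nat_lit 255) (nat_lit 142)) (XT.lf (nat_lit 0) (nat_lit 913329373) (nat_lit 0) (nat_lit 913329373) (nat_lit 684) (nat_lit 5308638565) (nat_lit 75) (nat_lit 5) (nat_lit 75) (nat_lit 3) (nat_lit 84) (nat_lit 3) (nat_lit 256) (nat_lit 256) (nat_lit 208)))) (XT.nd (nat_lit 156) (nat_lit 0) (nat_lit 76) (XT.nd (nat_lit 78) (nat_lit 0) (nat_lit 76) (XT.lf (nat_lit 0) (nat_lit 4403628826) (nat_lit 684) (nat_lit 2660634242) (nat_lit 760) (nat_lit 7745533735) (nat_lit 75) (nat_lit 5) (nat_lit 84) (nat_lit 3) (nat_lit 85) (nat_lit 5) (nat_lit 257) (nat_lit 256) (nat_lit 207)) (XT.lf (nat_lit 0) (nat_lit 5367222922) (nat_lit 684) (nat_lit 7323120216) (nat_lit 760) (nat_lit 2694270459) (nat_lit 76) (nat_lit 5) (nat_lit 85) (nat_lit 5) (nat_lit 86) (nat_lit 5) (nat_lit 258) (nat_lit 256) (nat_lit 206))) (XT.nd (nat_lit 78)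 (nat_lit 0) (nat_lit 76) (XT.lf (nat_lit 76) (nat_lit 3703600866) (nat_lit 0) (nat_lit 2884191060) (nat_lit 760) (nat_lit 9408760307) (nat_lit 77) (nat_lit 5) (nat_lit 76) (nat_lit 5) (nat_lit 86) (nat_lit 5) (nat_lit 259) (nat_lit 256) (nat_lit 205)) (XT.nd (nat_lit 78) (nat_lit 0) (nat_lit 76) (XT.lf (nat_lit 0) (nat_lit 8114890936) (nat_lit 684) (nat_lit 929052377) (nat_lit 760) (nat_lit 7603179595) (nat_lit 77) (nat_lit 5) (nat_lit 86) (nat_lit 5) (nat_lit 87) (nat_lit 5) (nat_lit 260) (nat_lit 256) (nat_lit 204)) (XT.lf (nat_lit 0) (nat_lit 9982778604) (nat_lit 684) (nat_lit 5725983826) (nat_lit 760) (nat_lit 1630157968) (nat_lit 78) (nat_lit 5) (nat_lit 87) (nat_lit 5) (nat_lit 88) (nat_lit 5) (nat_lit 261) (nat_lit 256) (nat_lit 203)))))) (XT.nd (nat_lit 390) (nat_lit 1216) (nat_lit 0) (XT.nd (nat_lit 156) (nat_lit 836) (nat_lit 0) (XT.nd (nat_lit 78) (nat_lit 608) (nat_lit 0)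 (XT.lf (nat_lit 76) (nat_lit 7154228809) (nat_lit 0) (nat_lit 5091023535) (nat_lit 760) (nat_lit 5828655474) (nat_lit 79) (nat_lit 5) (nat_lit 78) (nat_lit 5) (nat_lit 88) (nat_lit 5) (nat_lit 262) (nat_lit 256) (nat_lit 202)) (XT.lf (nat_lit 0) (nat_lit 2351884823) (nat_lit 684) (nat_lit 12541303581) (nat_lit 760) (nat_lit 3964378798) (nat_lit 70) (nat_lit 5) (nat_lit 79) (nat_lit 5) (nat_lit 80) (nat_lit 5) (nat_lit 263) (nat_lit 256) (nat_lit 201))) (XT.nd (nat_lit 78) (nat_lit 836) (nat_lit 0) (XT.lf (nat_lit 0) (nat_lit 16958852430) (nat_lit 684) (nat_lit 1037624966) (nat_lit 760) (nat_lit 1695355103) (nat_lit 70) (nat_lit 5) (nat_lit 79) (nat_lit 5) (nat_lit 80) (nat_lit 5) (nat_lit 264) (nat_lit 256) (nat_lit 200)) (XT.nd (nat_lit 78) (nat_lit 380) (nat_lit 0) (XT.lf (nat_lit 0) (nat_lit 1078042176) (nat_lit 456) (nat_lit 8261899744) (nat_lit 76) (nat_lit 11235034985) (nat_lit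 64) (nat_lit 5) (nat_lit 70) (nat_lit 5) (nat_lit 65) (nat_lit 5) (nat_lit 265) (nat_lit 256) (nat_lit 199)) (XT.lf (nat_lit 0) (nat_lit 4215699621) (nat_lit 456) (nat_lit 14274943119) (nat_lit 76) (nat_lit 3026723942) (nat_lit 59) (nat_lit 5) (nat_lit 65) (nat_lit 5) (nat_lit 60) (nat_lit 5) (nat_lit 266) (nat_lit 256) (nat_lit 198))))) (XT.nd (nat_lit 156) (nat_lit 912) (nat_lit 0) (XT.nd (nat_lit 78) (nat_lit 0) (nat_lit 0) (XT.lf (nat_lit 0) (nat_lit 1619026519) (nat_lit 304) (nat_lit 6288444723) (nat_lit 380) (nat_lit 14612588656) (nat_lit 55) (nat_lit 5) (nat_lit 59) (nat_lit 5) (nat_lit 60) (nat_lit 5) (nat_lit 267) (nat_lit 256) (nat_lit 197)) (XT.lf (nat_lit 0) (nat_lit 12230444658) (nat_lit 380) (nat_lit 4435112628) (nat_lit 76) (nat_lit 6920680629) (nat_lit 55) (nat_lit 5) (nat_lit 60) (nat_lit 5) (nat_lit 56) (nat_lit 5) (nat_lit 268) (nat_lit 256) (nat_lit 196))) (XT.nd (nat_lit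 78) (nat_lit 608) (nat_lit 0) (XT.lf (nat_lit 0) (nat_lit 13653874029) (nat_lit 304) (nat_lit 3541955030) (nat_lit 380) (nat_lit 7527110191) (nat_lit 51) (nat_lit 5) (nat_lit 55) (nat_lit 5) (nat_lit 56) (nat_lit 5) (nat_lit 269) (nat_lit 256) (nat_lit 195)) (XT.nd (nat_lit 78) (nat_lit 380) (nat_lit 0) (XT.lf (nat_lit 0) (nat_lit 7447591865) (nat_lit 228) (nat_lit 15450262459) (nat_lit 304) (nat_lit 3035805315) (nat_lit 48) (nat_lit 5) (nat_lit 51) (nat_lit 5) (nat_lit 52) (nat_lit 5) (nat_lit 270) (nat_lit 256) (nat_lit 194)) (XT.lf (nat_lit 0) (nat_lit 509549050) (nat_lit 304) (nat_lit 1490276238) (nat_lit 380) (nat_lit 25227887479) (nat_lit 43) (nat_lit 5) (nat_lit 47) (nat_lit 5) (nat_lit 48) (nat_lit 5) (nat_lit 271) (nat_lit 256) (nat_lit 193))))))) (XT.nd (nat_lit 702) (nat_lit 912) (nat_lit 0) (XT.nd (nat_lit 312) (nat_lit 836) (nat_lit 0) (XT.nd (nat_lit 156) (nat_lit 228) (nat_lit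 0) (XT.nd (nat_lit 78) (nat_lit 228) (nat_lit 0) (XT.lf (nat_lit 0) (nat_lit 7853320790) (nat_lit 380) (nat_lit 7217500824) (nat_lit 76) (nat_lit 13525955097) (nat_lit 43) (nat_lit 5) (nat_lit 48) (nat_lit 5) (nat_lit 44) (nat_lit 5) (nat_lit 272) (nat_lit 256) (nat_lit 192)) (XT.lf (nat_lit 0) (nat_lit 14251380094) (nat_lit 228) (nat_lit 153325048) (nat_lit 304) (nat_lit 15659220583) (nat_lit 40) (nat_lit 5) (nat_lit 43) (nat_lit 5) (nat_lit 44) (nat_lit 5) (nat_lit 273) (nat_lit 256) (nat_lit 191))) (XT.nd (nat_lit 78) (nat_lit 0) (nat_lit 0) (XT.lf (nat_lit 0) (nat_lit 5970577465) (nat_lit 228) (nat_lit 15962663117) (nat_lit 304) (nat_lit 9692591479) (nat_lit 37) (nat_lit 5) (nat_lit 40) (nat_lit 5) (nat_lit 41) (nat_lit 5) (nat_lit 274) (nat_lit 256) (nat_lit 190)) (XT.lf (nat_lit 0) (nat_lit 30036664783) (nat_lit 228) (nat_lit 289205884) (nat_lit 304) (nat_lit 2973764292) (nat_lit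 37) (nat_lit 5) (nat_lit 40) (nat_lit 5) (nat_lit 41) (nat_lit 5) (nat_lit 275) (nat_lit 256) (nat_lit 189)))) (XT.nd (nat_lit 156) (nat_lit 380) (nat_lit 0) (XT.nd (nat_lit 78) (nat_lit 228) (nat_lit 0) (XT.lf (nat_lit 0) (nat_lit 4732554307) (nat_lit 228) (nat_lit 13832210447) (nat_lit 76) (nat_lit 16509912035) (nat_lit 34) (nat_lit 5) (nat_lit 37) (nat_lit 5) (nat_lit 35) (nat_lit 5) (nat_lit 276) (nat_lit 256) (nat_lit 188)) (XT.lf (nat_lit 0) (nat_lit 11115411458) (nat_lit 228) (nat_lit 2058848787) (nat_lit 304) (nat_lit 23803899095) (nat_lit 31) (nat_lit 5) (nat_lit 34) (nat_lit 5) (nat_lit 35) (nat_lit 5) (nat_lit 277) (nat_lit 256) (nat_lit 187))) (XT.nd (nat_lit 78) (nat_lit 380) (nat_lit 0) (XT.lf (nat_lit 0) (nat_lit 22768542732) (nat_lit 304) (nat_lit 739326824) (nat_lit 76) (nat_lit 15502215130) (nat_lit 31) (nat_lit 5) (nat_lit 35) (nat_lit 5) (nat_lit 32) (nat_lit 5) (nat_lit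 278) (nat_lit 256) (nat_lit 186)) (XT.nd (nat_lit 78) (nat_lit 228) (nat_lit 0) (XT.lf (nat_lit 0) (nat_lit 27211566895) (nat_lit 152) (nat_lit 6365556826) (nat_lit 228) (nat_lit 7605126796) (nat_lit 29) (nat_lit 5) (nat_lit 31) (nat_lit 5) (nat_lit 32) (nat_lit 5) (nat_lit 279) (nat_lit 256) (nat_lit 185)) (XT.lf (nat_lit 0) (nat_lit 2085123803) (nat_lit 228) (nat_lit 29399498312) (nat_lit 76) (nat_lit 12021342298) (nat_lit 26) (nat_lit 5) (nat_lit 29) (nat_lit 5) (nat_lit 27) (nat_lit 5) (nat_lit 280) (nat_lit 256) (nat_lit 184)))))) (XT.nd (nat_lit 390) (nat_lit 456) (nat_lit 0) (XT.nd (nat_lit 156) (nat_lit 304) (nat_lit 0) (XT.nd (nat_lit 78) (nat_lit 152) (nat_lit 0) (XT.lf (nat_lit 0) (nat_lit 12630589181) (nat_lit 228) (nat_lit 1332260603) (nat_lit 76) (nat_lit 32029189663) (nat_lit 26) (nat_lit 5) (nat_lit 29) (nat_lit 5) (nat_lit 27) (nat_lit 5) (nat_lit 281) (nat_lit 256) (nat_lit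 183)) (XT.lf (nat_lit 0) (nat_lit 24560936581) (nat_lit 228) (nat_lit 18817836988) (nat_lit 76) (nat_lit 5271183013) (nat_lit 24) (nat_lit 5) (nat_lit 27) (nat_lit 5) (nat_lit 25) (nat_lit 5) (nat_lit 282) (nat_lit 256) (nat_lit 182))) (XT.nd (nat_lit 78) (nat_lit 152) (nat_lit 0) (XT.lf (nat_lit 0) (nat_lit 12154721821) (nat_lit 152) (nat_lit 25729329564) (nat_lit 228) (nat_lit 13614555699) (nat_lit 22) (nat_lit 5) (nat_lit 24) (nat_lit 5) (nat_lit 25) (nat_lit 5) (nat_lit 283) (nat_lit 256) (nat_lit 181)) (XT.nd (nat_lit 78) (nat_lit 152) (nat_lit 0) (XT.lf (nat_lit 0) (nat_lit 46261411708) (nat_lit 152) (nat_lit 6329472037) (nat_lit 228) (nat_lit 1968388184) (nat_lit 22) (nat_lit 5) (nat_lit 24) (nat_lit 5) (nat_lit 25) (nat_lit 5) (nat_lit 284) (nat_lit 256) (nat_lit 180)) (XT.lf (nat_lit 0) (nat_lit 10902152578) (nat_lit 152) (nat_lit 32194638062) (nat_lit 76) (nat_lit 14728118543)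 (nat_lit 20) (nat_lit 5) (nat_lit 22) (nat_lit 5) (nat_lit 21) (nat_lit 5) (nat_lit 285) (nat_lit 256) (nat_lit 179))))) (XT.nd (nat_lit 156) (nat_lit 304) (nat_lit 0) (XT.nd (nat_lit 78) (nat_lit 0) (nat_lit 0) (XT.lf (nat_lit 0) (nat_lit 1102861604) (nat_lit 152) (nat_lit 23893325863) (nat_lit 228) (nat_lit 36340868674) (nat_lit 18) (nat_lit 5) (nat_lit 20) (nat_lit 5) (nat_lit 21) (nat_lit 5) (nat_lit 286) (nat_lit 256) (nat_lit 178)) (XT.lf (nat_lit 0) (nat_lit 38199906727) (nat_lit 152) (nat_lit 2570128664) (nat_lit 228) (nat_lit 24332536837) (nat_lit 18) (nat_lit 5) (nat_lit 20) (nat_lit 5) (nat_lit 21) (nat_lit 5) (nat_lit 287) (nat_lit 256) (nat_lit 177))) (XT.nd (nat_lit 78) (nat_lit 228) (nat_lit 0) (XT.lf (nat_lit 0) (nat_lit 9052489533) (nat_lit 76) (nat_lit 49206091001) (nat_lit 152) (nat_lit 10888120605) (nat_lit 17) (nat_lit 5) (nat_lit 18) (nat_lit 5) (nat_lit 19) (nat_lit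 4) (nat_lit 288) (nat_lit 256) (nat_lit 176)) (XT.nd (nat_lit 78) (nat_lit 152) (nat_lit 0) (XT.lf (nat_lit 0) (nat_lit 4027545922) (nat_lit 152) (nat_lit 24766811130) (nat_lit 76) (nat_lit 44691580905) (nat_lit 16) (nat_lit 5) (nat_lit 18) (nat_lit 5) (nat_lit 17) (nat_lit 5) (nat_lit 289) (nat_lit 256) (nat_lit 175)) (XT.lf (nat_lit 0) (nat_lit 13627403708) (nat_lit 152) (nat_lit 6338320376) (nat_lit 228) (nat_lit 58187137683) (nat_lit 14) (nat_lit 5) (nat_lit 16) (nat_lit 5) (nat_lit 17) (nat_lit 5) (nat_lit 290) (nat_lit 256) (nat_lit 174))))))))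
noncomputable def xc81 : XT := (XT.nd (nat_lit 1482) (nat_lit 228) (nat_lit 0) (XT.nd (nat_lit 702) (nat_lit 304) (nat_lit 0) (XT.nd (nat_lit 312) (nat_lit 76) (nat_lit 0) (XT.nd (nat_lit 156) (nat_lit 152) (nat_lit 0) (XT.nd (nat_lit 78) (nat_lit 76) (nat_lit 0) (XT.lf (nat_lit 0) (nat_lit 37890282743) (nat_lit 228) (nat_lit 27492463292) (nat_lit 76) (nat_lit 17774835455) (nat_lit 14) (nat_lit 5) (nat_lit 17) (nat_lit 5) (nat_lit 15) (nat_lit 4) (nat_lit 291) (nat_lit 256) (nat_lit 173)) (XT.lf (nat_lit 0) (nat_lit 12794979335) (nat_lit 76) (nat_lit 44754117003) (nat_lit 152) (nat_lit 30998575644) (nat_lit 13) (nat_lit 5) (nat_lit 14) (nat_lit 5) (nat_lit 15) (nat_lit 4) (nat_lit 292) (nat_lit 256) (nat_lit 172))) (XT.nd (nat_lit 78) (nat_lit 152) (nat_lit 0) (XT.lf (nat_lit 0) (nat_lit 57276799953) (nat_lit 76) (nat_lit 21976673761) (nat_lit 152) (nat_lit 15091860198) (nat_lit 13) (nat_lit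 5) (nat_lit 14) (nat_lit 5) (nat_lit 15) (nat_lit 4) (nat_lit 293) (nat_lit 256) (nat_lit 171)) (XT.lf (nat_lit 0) (nat_lit 2132836382) (nat_lit 152) (nat_lit 95822041553) (nat_lit 76) (nat_lit 2644694976) (nat_lit 11) (nat_lit 5) (nat_lit 13) (nat_lit 5) (nat_lit 12) (nat_lit 4) (nat_lit 294) (nat_lit 256) (nat_lit 170)))) (XT.nd (nat_lit 156) (nat_lit 76) (nat_lit 0) (XT.nd (nat_lit 78) (nat_lit 0) (nat_lit 0) (XT.lf (nat_lit 0) (nat_lit 21235215436) (nat_lit 152) (nat_lit 56672087579) (nat_lit 76) (nat_lit 29383060860) (nat_lit 11) (nat_lit 5) (nat_lit 13) (nat_lit 5) (nat_lit 12) (nat_lit 4) (nat_lit 295) (nat_lit 256) (nat_lit 169)) (XT.lf (nat_lit 0) (nat_lit 41860711672) (nat_lit 152) (nat_lit 14399008339) (nat_lit 76) (nat_lit 58256957155) (nat_lit 11) (nat_lit 5) (nat_lit 13) (nat_lit 5) (nat_lit 12) (nat_lit 4) (nat_lit 296) (nat_lit 256) (nat_lit 168))) (XT.nd (nat_lit 78)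 (nat_lit 0) (nat_lit 0) (XT.lf (nat_lit 0) (nat_lit 32280893493) (nat_lit 76) (nat_lit 32354651973) (nat_lit 152) (nat_lit 57660590154) (nat_lit 10) (nat_lit 5) (nat_lit 11) (nat_lit 5) (nat_lit 12) (nat_lit 4) (nat_lit 297) (nat_lit 256) (nat_lit 167)) (XT.nd (nat_lit 78) (nat_lit 0) (nat_lit 0) (XT.lf (nat_lit 0) (nat_lit 83201514447) (nat_lit 76) (nat_lit 6277200883) (nat_lit 152) (nat_lit 41206922577) (nat_lit 10) (nat_lit 5) (nat_lit 11) (nat_lit 5) (nat_lit 12) (nat_lit 4) (nat_lit 298) (nat_lit 256) (nat_lit 166)) (XT.lf (nat_lit 0) (nat_lit 116646857806) (nat_lit 152) (nat_lit 1899661423) (nat_lit 0) (nat_lit 21182909477) (nat_lit 10) (nat_lit 5) (nat_lit 12) (nat_lit 4) (nat_lit 10) (nat_lit 4) (nat_lit 299) (nat_lit 256) (nat_lit 165)))))) (XT.nd (nat_lit 390) (nat_lit 76) (nat_lit 0) (XT.nd (nat_lit 156) (nat_lit 76) (nat_lit 0) (XT.nd (nat_lit 78) (nat_lit 76) (nat_lit 0)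 (XT.lf (nat_lit 0) (nat_lit 48780093695) (nat_lit 76) (nat_lit 98071917639) (nat_lit 76) (nat_lit 2601537418) (nat_lit 9) (nat_lit 4) (nat_lit 10) (nat_lit 5) (nat_lit 10) (nat_lit 4) (nat_lit 300) (nat_lit 256) (nat_lit 164)) (XT.lf (nat_lit 0) (nat_lit 18923155885) (nat_lit 152) (nat_lit 56683866110) (nat_lit 76) (nat_lit 84331849665) (nat_lit 8) (nat_lit 5) (nat_lit 10) (nat_lit 5) (nat_lit 9) (nat_lit 4) (nat_lit 301) (nat_lit 256) (nat_lit 163))) (XT.nd (nat_lit 78) (nat_lit 76) (nat_lit 0) (XT.lf (nat_lit 0) (nat_lit 42076417423) (nat_lit 152) (nat_lit 9225194268) (nat_lit 76) (nat_lit 119959392642) (nat_lit 8) (nat_lit 5) (nat_lit 10) (nat_lit 5) (nat_lit 9) (nat_lit 4) (nat_lit 302) (nat_lit 256) (nat_lit 162)) (XT.nd (nat_lit 78) (nat_lit 0) (nat_lit 0) (XT.lf (nat_lit 0) (nat_lit 43413931256) (nat_lit 76) (nat_lit 24342599029) (nat_lit 152) (nat_lit 115698650810) (nat_lit 7)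 (nat_lit 5) (nat_lit 8) (nat_lit 5) (nat_lit 9) (nat_lit 4) (nat_lit 303) (nat_lit 256) (nat_lit 161)) (XT.lf (nat_lit 0) (nat_lit 95725797460) (nat_lit 152) (nat_lit 96106023029) (nat_lit 0) (nat_lit 4781337021) (nat_lit 7) (nat_lit 5) (nat_lit 9) (nat_lit 4) (nat_lit 7) (nat_lit 4) (nat_lit 304) (nat_lit 256) (nat_lit 160))))) (XT.nd (nat_lit 156) (nat_lit 0) (nat_lit 0) (XT.nd (nat_lit 78) (nat_lit 76) (nat_lit 0) (XT.lf (nat_lit 0) (nat_lit 126340188886) (nat_lit 152) (nat_lit 49071647117) (nat_lit 0) (nat_lit 35391559459) (nat_lit 7) (nat_lit 5) (nat_lit 9) (nat_lit 4) (nat_lit 7) (nat_lit 4) (nat_lit 305) (nat_lit 256) (nat_lit 159)) (XT.lf (nat_lit 0) (nat_lit 1777548981) (nat_lit 76) (nat_lit 157651270528) (nat_lit 76) (nat_lit 66698780927) (nat_lit 6) (nat_lit 4) (nat_lit 7) (nat_lit 5) (nat_lit 7) (nat_lit 4) (nat_lit 306) (nat_lit 256) (nat_lit 158))) (XT.nd (nat_lit 78) (nat_lit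 0) (nat_lit 0) (XT.lf (nat_lit 0) (nat_lit 58442400486) (nat_lit 76) (nat_lit 137574397252) (nat_lit 76) (nat_lit 46618333415) (nat_lit 6) (nat_lit 4) (nat_lit 7) (nat_lit 5) (nat_lit 7) (nat_lit 4) (nat_lit 307) (nat_lit 256) (nat_lit 157)) (XT.nd (nat_lit 78) (nat_lit 0) (nat_lit 0) (XT.lf (nat_lit 0) (nat_lit 119636168842) (nat_lit 76) (nat_lit 115893294199) (nat_lit 76) (nat_lit 24933920885) (nat_lit 6) (nat_lit 4) (nat_lit 7) (nat_lit 5) (nat_lit 7) (nat_lit 4) (nat_lit 308) (nat_lit 256) (nat_lit 156)) (XT.lf (nat_lit 0) (nat_lit 185721483787) (nat_lit 76) (nat_lit 92479480759) (nat_lit 76) (nat_lit 1517043115) (nat_lit 6) (nat_lit 4) (nat_lit 7) (nat_lit 5) (nat_lit 7) (nat_lit 4) (nat_lit 309) (nat_lit 256) (nat_lit 155))))))) (XT.nd (nat_lit 702) (nat_lit 0) (nat_lit 0) (XT.nd (nat_lit 312) (nat_lit 76) (nat_lit 0) (XT.nd (nat_lit 156) (nat_lit 0) (nat_lit 0) (XT.nd (nat_lit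 78) (nat_lit 76) (nat_lit 0) (XT.lf (nat_lit 0) (nat_lit 23010243994) (nat_lit 152) (nat_lit 43794274797) (nat_lit 76) (nat_lit 233690028391) (nat_lit 5) (nat_lit 5) (nat_lit 7) (nat_lit 5) (nat_lit 6) (nat_lit 4) (nat_lit 310) (nat_lit 256) (nat_lit 154)) (XT.lf (nat_lit 0) (nat_lit 10738828680) (nat_lit 76) (nat_lit 38874210752) (nat_lit 152) (nat_lit 273310604740) (nat_lit 4) (nat_lit 5) (nat_lit 5) (nat_lit 5) (nat_lit 6) (nat_lit 4) (nat_lit 311) (nat_lit 256) (nat_lit 153))) (XT.nd (nat_lit 78) (nat_lit 0) (nat_lit 0) (XT.lf (nat_lit 0) (nat_lit 71195155022) (nat_lit 76) (nat_lit 7909961925) (nat_lit 152) (nat_lit 268003900479) (nat_lit 4) (nat_lit 5) (nat_lit 5) (nat_lit 5) (nat_lit 6) (nat_lit 4) (nat_lit 312) (nat_lit 256) (nat_lit 152)) (XT.lf (nat_lit 0) (nat_lit 111353480644) (nat_lit 152) (nat_lit 237142973715) (nat_lit 0) (nat_lit 24712921505) (nat_lit 4) (nat_lit 5) (nat_lit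 6) (nat_lit 4) (nat_lit 4) (nat_lit 4) (nat_lit 313) (nat_lit 256) (nat_lit 151)))) (XT.nd (nat_lit 156) (nat_lit 76) (nat_lit 0) (XT.nd (nat_lit 78) (nat_lit 0) (nat_lit 0) (XT.lf (nat_lit 0) (nat_lit 146313518414) (nat_lit 152) (nat_lit 195406682485) (nat_lit 0) (nat_lit 59670973054) (nat_lit 4) (nat_lit 5) (nat_lit 6) (nat_lit 4) (nat_lit 4) (nat_lit 4) (nat_lit 314) (nat_lit 256) (nat_lit 150)) (XT.lf (nat_lit 0) (nat_lit 184068904177) (nat_lit 152) (nat_lit 150334165871) (nat_lit 0) (nat_lit 97424519724) (nat_lit 4) (nat_lit 5) (nat_lit 6) (nat_lit 4) (nat_lit 4) (nat_lit 4) (nat_lit 315) (nat_lit 256) (nat_lit 149))) (XT.nd (nat_lit 78) (nat_lit 76) (nat_lit 0) (XT.lf (nat_lit 0) (nat_lit 224843373554) (nat_lit 152) (nat_lit 101658327479) (nat_lit 0) (nat_lit 138197286236) (nat_lit 4) (nat_lit 5) (nat_lit 6) (nat_lit 4) (nat_lit 4) (nat_lit 4) (nat_lit 316) (nat_lit 256) (nat_lit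 148)) (XT.nd (nat_lit 78) (nat_lit 76) (nat_lit 0) (XT.lf (nat_lit 0) (nat_lit 268878553029) (nat_lit 152) (nat_lit 49090717896) (nat_lit 0) (nat_lit 182230888986) (nat_lit 4) (nat_lit 5) (nat_lit 6) (nat_lit 4) (nat_lit 4) (nat_lit 4) (nat_lit 317) (nat_lit 256) (nat_lit 147)) (XT.lf (nat_lit 0) (nat_lit 7934115896) (nat_lit 76) (nat_lit 308625149702) (nat_lit 76) (nat_lit 221976025727) (nat_lit 3) (nat_lit 4) (nat_lit 4) (nat_lit 5) (nat_lit 4) (nat_lit 4) (nat_lit 318) (nat_lit 256) (nat_lit 146)))))) (XT.nd (nat_lit 32682) (nat_lit 0) (nat_lit 5472) (XT.nd (nat_lit 156) (nat_lit 0) (nat_lit 0) (XT.nd (nat_lit 78) (nat_lit 0) (nat_lit 0) (XT.lf (nat_lit 0) (nat_lit 71271916663) (nat_lit 76) (nat_lit 297636545909) (nat_lit 76) (nat_lit 210986070146) (nat_lit 3) (nat_lit 4) (nat_lit 4) (nat_lit 5) (nat_lit 4) (nat_lit 4) (nat_lit 319) (nat_lit 256) (nat_lit 145)) (XT.lf (nat_lit 0) (nat_lit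 139674858685) (nat_lit 76) (nat_lit 285769716955) (nat_lit 76) (nat_lit 199117989535) (nat_lit 3) (nat_lit 4) (nat_lit 4) (nat_lit 5) (nat_lit 4) (nat_lit 4) (nat_lit 320) (nat_lit 256) (nat_lit 144))) (XT.nd (nat_lit 78) (nat_lit 0) (nat_lit 0) (XT.lf (nat_lit 0) (nat_lit 213548292732) (nat_lit 76) (nat_lit 272954340890) (nat_lit 76) (nat_lit 186301454529) (nat_lit 3) (nat_lit 4) (nat_lit 4) (nat_lit 5) (nat_lit 4) (nat_lit 4) (nat_lit 321) (nat_lit 256) (nat_lit 143)) (XT.nd (nat_lit 78) (nat_lit 0) (nat_lit 0) (XT.lf (nat_lit 0) (nat_lit 293329987299) (nat_lit 76) (nat_lit 259114474745) (nat_lit 76) (nat_lit 172460515291) (nat_lit 3) (nat_lit 4) (nat_lit 4) (nat_lit 5) (nat_lit 4) (nat_lit 4) (nat_lit 322) (nat_lit 256) (nat_lit 142)) (XT.lf (nat_lit 0) (nat_lit 379492722800) (nat_lit 76) (nat_lit 244168104499) (nat_lit 76) (nat_lit 157513151440) (nat_lit 3) (nat_lit 4) (nat_lit 4)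 (nat_lit 5) (nat_lit 4) (nat_lit 4) (nat_lit 323) (nat_lit 256) (nat_lit 141))))) (XT.nd (nat_lit 156) (nat_lit 0) (nat_lit 76) (XT.nd (nat_lit 78) (nat_lit 0) (nat_lit 0) (XT.lf (nat_lit 0) (nat_lit 1220258062) (nat_lit 0) (nat_lit 1220258062) (nat_lit 684) (nat_lit 5240840038) (nat_lit 75) (nat_lit 5) (nat_lit 75) (nat_lit 3) (nat_lit 84) (nat_lit 3) (nat_lit 257) (nat_lit 257) (nat_lit 206)) (XT.lf (nat_lit 0) (nat_lit 5615314374) (nat_lit 684) (nat_lit 2387784020) (nat_lit 760) (nat_lit 7945959242) (nat_lit 75) (nat_lit 5) (nat_lit 84) (nat_lit 3) (nat_lit 85) (nat_lit 5) (nat_lit 258) (nat_lit 257) (nat_lit 205))) (XT.nd (nat_lit 78) (nat_lit 0) (nat_lit 0) (XT.lf (nat_lit 0) (nat_lit 6594307366) (nat_lit 684) (nat_lit 7396579996) (nat_lit 760) (nat_lit 2582245967) (nat_lit 76) (nat_lit 5) (nat_lit 85) (nat_lit 5) (nat_lit 86) (nat_lit 5) (nat_lit 259) (nat_lit 257) (nat_lit 204))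 (XT.nd (nat_lit 78) (nat_lit 0) (nat_lit 76) (XT.lf (nat_lit 76) (nat_lit 4490010935) (nat_lit 0) (nat_lit 3371073754) (nat_lit 760) (nat_lit 9375689339) (nat_lit 77) (nat_lit 5) (nat_lit 76) (nat_lit 5) (nat_lit 86) (nat_lit 5) (nat_lit 260) (nat_lit 257) (nat_lit 203)) (XT.lf (nat_lit 0) (nat_lit 9451369462) (nat_lit 684) (nat_lit 509280676) (nat_lit 760) (nat_lit 7981851469) (nat_lit 77) (nat_lit 5) (nat_lit 86) (nat_lit 5) (nat_lit 87) (nat_lit 5) (nat_lit 261) (nat_lit 257) (nat_lit 202))))))))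
noncomputable def xc82 : XT := (XT.nd (nat_lit 1482) (nat_lit 1444) (nat_lit 0) (XT.nd (nat_lit 702) (nat_lit 1672) (nat_lit 0) (XT.nd (nat_lit 312) (nat_lit 1444) (nat_lit 0) (XT.nd (nat_lit 156) (nat_lit 608) (nat_lit 0) (XT.nd (nat_lit 78) (nat_lit 0) (nat_lit 0) (XT.lf (nat_lit 0) (nat_lit 11422485081) (nat_lit 684) (nat_lit 5674703138) (nat_lit 760) (nat_lit 1594914960) (nat_lit 78) (nat_lit 5) (nat_lit 87) (nat_lit 5) (nat_lit 88) (nat_lit 5) (nat_lit 262) (nat_lit 257) (nat_lit 201)) (XT.lf (nat_lit 76) (nat_lit 8213790369) (nat_lit 0) (nat_lit 5612285555) (nat_lit 760) (nat_lit 5661946720) (nat_lit 79) (nat_lit 5) (nat_lit 78) (nat_lit 5) (nat_lit 88) (nat_lit 5) (nat_lit 263) (nat_lit 257) (nat_lit 200))) (XT.nd (nat_lit 78) (nat_lit 0) (nat_lit 0) (XT.lf (nat_lit 0) (nat_lit 3038202853) (nat_lit 684) (nat_lit 13609240486) (nat_lit 760) (nat_lit 3688980329) (nat_lit 70) (nat_lit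 5) (nat_lit 79) (nat_lit 5) (nat_lit 80) (nat_lit 5) (nat_lit 264) (nat_lit 257) (nat_lit 199)) (XT.lf (nat_lit 0) (nat_lit 18776826591) (nat_lit 684) (nat_lit 1180479981) (nat_lit 760) (nat_lit 1282327240) (nat_lit 70) (nat_lit 5) (nat_lit 79) (nat_lit 5) (nat_lit 80) (nat_lit 5) (nat_lit 265) (nat_lit 257) (nat_lit 198)))) (XT.nd (nat_lit 156) (nat_lit 608) (nat_lit 0) (XT.nd (nat_lit 78) (nat_lit 380) (nat_lit 0) (XT.lf (nat_lit 0) (nat_lit 1662595546) (nat_lit 456) (nat_lit 8436599788) (nat_lit 76) (nat_lit 12095550522) (nat_lit 64) (nat_lit 5) (nat_lit 70) (nat_lit 5) (nat_lit 65) (nat_lit 5) (nat_lit 266) (nat_lit 257) (nat_lit 197)) (XT.lf (nat_lit 0) (nat_lit 5021560293) (nat_lit 456) (nat_lit 14927113892) (nat_lit 76) (nat_lit 3265435206) (nat_lit 59) (nat_lit 5) (nat_lit 65) (nat_lit 5) (nat_lit 60) (nat_lit 5) (nat_lit 267) (nat_lit 257) (nat_lit 196))) (XT.nd (nat_lit 78)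 (nat_lit 304) (nat_lit 0) (XT.lf (nat_lit 0) (nat_lit 2217086134) (nat_lit 304) (nat_lit 6764191234) (nat_lit 380) (nat_lit 15317200613) (nat_lit 55) (nat_lit 5) (nat_lit 59) (nat_lit 5) (nat_lit 60) (nat_lit 5) (nat_lit 268) (nat_lit 257) (nat_lit 195)) (XT.nd (nat_lit 78) (nat_lit 304) (nat_lit 0) (XT.lf (nat_lit 0) (nat_lit 13617801629) (nat_lit 380) (nat_lit 4335016529) (nat_lit 76) (nat_lit 7498829863) (nat_lit 55) (nat_lit 5) (nat_lit 60) (nat_lit 5) (nat_lit 56) (nat_lit 5) (nat_lit 269) (nat_lit 257) (nat_lit 194)) (XT.lf (nat_lit 0) (nat_lit 15181319439) (nat_lit 304) (nat_lit 3775600553) (nat_lit 380) (nat_lit 7723617557) (nat_lit 51) (nat_lit 5) (nat_lit 55) (nat_lit 5) (nat_lit 56) (nat_lit 5) (nat_lit 270) (nat_lit 257) (nat_lit 193)))))) (XT.nd (nat_lit 390) (nat_lit 608) (nat_lit 0) (XT.nd (nat_lit 156) (nat_lit 456) (nat_lit 0) (XT.nd (nat_lit 78) (nat_lit 380) (nat_lit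 0) (XT.lf (nat_lit 0) (nat_lit 8478239219) (nat_lit 228) (nat_lit 16615825794) (nat_lit 304) (nat_lit 2895174196) (nat_lit 48) (nat_lit 5) (nat_lit 51) (nat_lit 5) (nat_lit 52) (nat_lit 5) (nat_lit 271) (nat_lit 257) (nat_lit 192)) (XT.lf (nat_lit 0) (nat_lit 978810693) (nat_lit 304) (nat_lit 1531414087) (nat_lit 380) (nat_lit 26877395902) (nat_lit 43) (nat_lit 5) (nat_lit 47) (nat_lit 5) (nat_lit 48) (nat_lit 5) (nat_lit 272) (nat_lit 257) (nat_lit 191))) (XT.nd (nat_lit 78) (nat_lit 456) (nat_lit 0) (XT.lf (nat_lit 0) (nat_lit 8807172178) (nat_lit 380) (nat_lit 7382319676) (nat_lit 76) (nat_lit 14678017678) (nat_lit 43) (nat_lit 5) (nat_lit 48) (nat_lit 5) (nat_lit 44) (nat_lit 5) (nat_lit 273) (nat_lit 257) (nat_lit 190)) (XT.nd (nat_lit 78) (nat_lit 228) (nat_lit 0) (XT.lf (nat_lit 0) (nat_lit 15786141439) (nat_lit 228) (nat_lit 78569984) (nat_lit 304) (nat_lit 16588270911) (nat_lit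 40) (nat_lit 5) (nat_lit 43) (nat_lit 5) (nat_lit 44) (nat_lit 5) (nat_lit 274) (nat_lit 257) (nat_lit 189)) (XT.lf (nat_lit 0) (nat_lit 6839783564) (nat_lit 228) (nat_lit 17140330087) (nat_lit 304) (nat_lit 10160548400) (nat_lit 37) (nat_lit 5) (nat_lit 40) (nat_lit 5) (nat_lit 41) (nat_lit 5) (nat_lit 275) (nat_lit 257) (nat_lit 188))))) (XT.nd (nat_lit 156) (nat_lit 380) (nat_lit 0) (XT.nd (nat_lit 78) (nat_lit 228) (nat_lit 0) (XT.lf (nat_lit 0) (nat_lit 32802153431) (nat_lit 228) (nat_lit 220355245) (nat_lit 304) (nat_lit 2926989142) (nat_lit 37) (nat_lit 5) (nat_lit 40) (nat_lit 5) (nat_lit 41) (nat_lit 5) (nat_lit 276) (nat_lit 257) (nat_lit 187)) (XT.lf (nat_lit 0) (nat_lit 5373358523) (nat_lit 228) (nat_lit 14570686419) (nat_lit 76) (nat_lit 17922984955) (nat_lit 34) (nat_lit 5) (nat_lit 37) (nat_lit 5) (nat_lit 35) (nat_lit 5) (nat_lit 277) (nat_lit 257) (nat_lit 186))) (XT.nd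 (nat_lit 78) (nat_lit 152) (nat_lit 0) (XT.lf (nat_lit 0) (nat_lit 12356748024) (nat_lit 228) (nat_lit 2119728025) (nat_lit 304) (nat_lit 25447049103) (nat_lit 31) (nat_lit 5) (nat_lit 34) (nat_lit 5) (nat_lit 35) (nat_lit 5) (nat_lit 278) (nat_lit 257) (nat_lit 185)) (XT.nd (nat_lit 78) (nat_lit 152) (nat_lit 0) (XT.lf (nat_lit 0) (nat_lit 24821411372) (nat_lit 304) (nat_lit 462019703) (nat_lit 76) (nat_lit 16835452988) (nat_lit 31) (nat_lit 5) (nat_lit 35) (nat_lit 5) (nat_lit 32) (nat_lit 5) (nat_lit 279) (nat_lit 257) (nat_lit 184)) (XT.lf (nat_lit 0) (nat_lit 29710323665) (nat_lit 152) (nat_lit 6772240221) (nat_lit 228) (nat_lit 7982897479) (nat_lit 29) (nat_lit 5) (nat_lit 31) (nat_lit 5) (nat_lit 32) (nat_lit 5) (nat_lit 280) (nat_lit 257) (nat_lit 183))))))) (XT.nd (nat_lit 702) (nat_lit 532) (nat_lit 0) (XT.nd (nat_lit 312) (nat_lit 380) (nat_lit 0) (XT.nd (nat_lit 156) (nat_lit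 304) (nat_lit 0) (XT.nd (nat_lit 78) (nat_lit 0) (nat_lit 0) (XT.lf (nat_lit 0) (nat_lit 2465194014) (nat_lit 228) (nat_lit 31426860642) (nat_lit 76) (nat_lit 13083366152) (nat_lit 26) (nat_lit 5) (nat_lit 29) (nat_lit 5) (nat_lit 27) (nat_lit 5) (nat_lit 281) (nat_lit 257) (nat_lit 182)) (XT.lf (nat_lit 0) (nat_lit 13838499562) (nat_lit 228) (nat_lit 1138288178) (nat_lit 76) (nat_lit 34684410457) (nat_lit 26) (nat_lit 5) (nat_lit 29) (nat_lit 5) (nat_lit 27) (nat_lit 5) (nat_lit 282) (nat_lit 257) (nat_lit 181))) (XT.nd (nat_lit 78) (nat_lit 152) (nat_lit 0) (XT.lf (nat_lit 0) (nat_lit 26714700279) (nat_lit 228) (nat_lit 20027663283) (nat_lit 76) (nat_lit 5789838400) (nat_lit 24) (nat_lit 5) (nat_lit 27) (nat_lit 5) (nat_lit 25) (nat_lit 5) (nat_lit 283) (nat_lit 257) (nat_lit 180)) (XT.lf (nat_lit 0) (nat_lit 13409853786) (nat_lit 152) (nat_lit 27684233307) (nat_lit 228) (nat_lit 14515158989)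 (nat_lit 22) (nat_lit 5) (nat_lit 24) (nat_lit 5) (nat_lit 25) (nat_lit 5) (nat_lit 284) (nat_lit 257) (nat_lit 179)))) (XT.nd (nat_lit 156) (nat_lit 228) (nat_lit 0) (XT.nd (nat_lit 78) (nat_lit 152) (nat_lit 0) (XT.lf (nat_lit 0) (nat_lit 50224134108) (nat_lit 152) (nat_lit 6740049593) (nat_lit 228) (nat_lit 1951265567) (nat_lit 22) (nat_lit 5) (nat_lit 24) (nat_lit 5) (nat_lit 25) (nat_lit 5) (nat_lit 285) (nat_lit 257) (nat_lit 178)) (XT.lf (nat_lit 0) (nat_lit 11936300099) (nat_lit 152) (nat_lit 34507428241) (nat_lit 76) (nat_lit 15998842931) (nat_lit 20) (nat_lit 5) (nat_lit 22) (nat_lit 5) (nat_lit 21) (nat_lit 5) (nat_lit 286) (nat_lit 257) (nat_lit 177))) (XT.nd (nat_lit 78) (nat_lit 76) (nat_lit 0) (XT.lf (nat_lit 0) (nat_lit 1442451261) (nat_lit 152) (nat_lit 25707332791) (nat_lit 228) (nat_lit 39086326796) (nat_lit 18) (nat_lit 5) (nat_lit 20) (nat_lit 5) (nat_lit 21) (nat_lit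 5) (nat_lit 287) (nat_lit 257) (nat_lit 176)) (XT.nd (nat_lit 78) (nat_lit 76) (nat_lit 0) (XT.lf (nat_lit 0) (nat_lit 41488640681) (nat_lit 152) (nat_lit 2685499012) (nat_lit 228) (nat_lit 26129314439) (nat_lit 18) (nat_lit 5) (nat_lit 20) (nat_lit 5) (nat_lit 21) (nat_lit 5) (nat_lit 288) (nat_lit 257) (nat_lit 175)) (XT.lf (nat_lit 0) (nat_lit 10004973371) (nat_lit 76) (nat_lit 53051108111) (nat_lit 152) (nat_lit 11615330949) (nat_lit 17) (nat_lit 5) (nat_lit 18) (nat_lit 5) (nat_lit 19) (nat_lit 4) (nat_lit 289) (nat_lit 257) (nat_lit 174)))))) (XT.nd (nat_lit 390) (nat_lit 228) (nat_lit 0) (XT.nd (nat_lit 156) (nat_lit 76) (nat_lit 0) (XT.nd (nat_lit 78) (nat_lit 152) (nat_lit 0) (XT.lf (nat_lit 0) (nat_lit 4478671401) (nat_lit 152) (nat_lit 26532356261) (nat_lit 76) (nat_lit 48347176919) (nat_lit 16) (nat_lit 5) (nat_lit 18) (nat_lit 5) (nat_lit 17) (nat_lit 5) (nat_lit 290) (nat_lit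 257) (nat_lit 173)) (XT.lf (nat_lit 0) (nat_lit 14924017370) (nat_lit 152) (nat_lit 6761559498) (nat_lit 228) (nat_lit 62713233799) (nat_lit 14) (nat_lit 5) (nat_lit 16) (nat_lit 5) (nat_lit 17) (nat_lit 5) (nat_lit 291) (nat_lit 257) (nat_lit 172))) (XT.nd (nat_lit 78) (nat_lit 76) (nat_lit 0) (XT.lf (nat_lit 0) (nat_lit 41036230940) (nat_lit 228) (nat_lit 29496126430) (nat_lit 76) (nat_lit 19271955195) (nat_lit 14) (nat_lit 5) (nat_lit 17) (nat_lit 5) (nat_lit 15) (nat_lit 4) (nat_lit 292) (nat_lit 257) (nat_lit 171)) (XT.nd (nat_lit 78) (nat_lit 0) (nat_lit 0) (XT.lf (nat_lit 0) (nat_lit 14005805250) (nat_lit 76) (nat_lit 48256369329) (nat_lit 152) (nat_lit 33363724777) (nat_lit 13) (nat_lit 5) (nat_lit 14) (nat_lit 5) (nat_lit 15) (nat_lit 4) (nat_lit 293) (nat_lit 257) (nat_lit 170)) (XT.lf (nat_lit 0) (nat_lit 62032302809) (nat_lit 76) (nat_lit 23662514112) (nat_lit 152) (nat_lit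 16192971127) (nat_lit 13) (nat_lit 5) (nat_lit 14) (nat_lit 5) (nat_lit 15) (nat_lit 4) (nat_lit 294) (nat_lit 257) (nat_lit 169))))) (XT.nd (nat_lit 156) (nat_lit 76) (nat_lit 0) (XT.nd (nat_lit 78) (nat_lit 0) (nat_lit 0) (XT.lf (nat_lit 0) (nat_lit 2402438349) (nat_lit 152) (nat_lit 103314734075) (nat_lit 76) (nat_lit 2925312353) (nat_lit 11) (nat_lit 5) (nat_lit 13) (nat_lit 5) (nat_lit 12) (nat_lit 4) (nat_lit 295) (nat_lit 257) (nat_lit 168)) (XT.lf (nat_lit 0) (nat_lit 23025676241) (nat_lit 152) (nat_lit 61045603843) (nat_lit 76) (nat_lit 31797633302) (nat_lit 11) (nat_lit 5) (nat_lit 13) (nat_lit 5) (nat_lit 12) (nat_lit 4) (nat_lit 296) (nat_lit 257) (nat_lit 167))) (XT.nd (nat_lit 78) (nat_lit 76) (nat_lit 0) (XT.lf (nat_lit 0) (nat_lit 45294423763) (nat_lit 152) (nat_lit 15402548689) (nat_lit 76) (nat_lit 62976705925) (nat_lit 11) (nat_lit 5) (nat_lit 13) (nat_lit 5) (nat_lit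 12) (nat_lit 4) (nat_lit 297) (nat_lit 257) (nat_lit 166)) (XT.nd (nat_lit 78) (nat_lit 0) (nat_lit 0) (XT.lf (nat_lit 0) (nat_lit 35005296862) (nat_lit 76) (nat_lit 34881877787) (nat_lit 152) (nat_lit 62188529022) (nat_lit 10) (nat_lit 5) (nat_lit 11) (nat_lit 5) (nat_lit 12) (nat_lit 4) (nat_lit 298) (nat_lit 257) (nat_lit 165)) (XT.lf (nat_lit 0) (nat_lit 89989054019) (nat_lit 76) (nat_lit 6722759968) (nat_lit 152) (nat_lit 44424857546) (nat_lit 10) (nat_lit 5) (nat_lit 11) (nat_lit 5) (nat_lit 12) (nat_lit 4) (nat_lit 299) (nat_lit 257) (nat_lit 164))))))))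
noncomputable def xc83 : XT := (XT.nd (nat_lit 1482) (nat_lit 76) (nat_lit 0) (XT.nd (nat_lit 702) (nat_lit 152) (nat_lit 0) (XT.nd (nat_lit 312) (nat_lit 152) (nat_lit 0) (XT.nd (nat_lit 156) (nat_lit 76) (nat_lit 0) (XT.nd (nat_lit 78) (nat_lit 76) (nat_lit 0) (XT.lf (nat_lit 0) (nat_lit 126048685487) (nat_lit 152) (nat_lit 1927234455) (nat_lit 0) (nat_lit 22928287502) (nat_lit 10) (nat_lit 5) (nat_lit 12) (nat_lit 4) (nat_lit 10) (nat_lit 4) (nat_lit 300) (nat_lit 257) (nat_lit 163)) (XT.lf (nat_lit 0) (nat_lit 52801494805) (nat_lit 76) (nat_lit 105865423274) (nat_lit 76) (nat_lit 2739510978) (nat_lit 9) (nat_lit 4) (nat_lit 10) (nat_lit 5) (nat_lit 10) (nat_lit 4) (nat_lit 301) (nat_lit 257) (nat_lit 162))) (XT.nd (nat_lit 78) (nat_lit 0) (nat_lit 0) (XT.lf (nat_lit 0) (nat_lit 20499882628) (nat_lit 152) (nat_lit 61106258750) (nat_lit 76) (nat_lit 91124637834) (nat_lit 8) (nat_lit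 5) (nat_lit 10) (nat_lit 5) (nat_lit 9) (nat_lit 4) (nat_lit 302) (nat_lit 257) (nat_lit 161)) (XT.lf (nat_lit 0) (nat_lit 45500747735) (nat_lit 152) (nat_lit 9859212913) (nat_lit 76) (nat_lit 129598959049) (nat_lit 8) (nat_lit 5) (nat_lit 10) (nat_lit 5) (nat_lit 9) (nat_lit 4) (nat_lit 303) (nat_lit 257) (nat_lit 160)))) (XT.nd (nat_lit 156) (nat_lit 76) (nat_lit 0) (XT.nd (nat_lit 78) (nat_lit 0) (nat_lit 0) (XT.lf (nat_lit 0) (nat_lit 46986523075) (nat_lit 76) (nat_lit 26245987306) (nat_lit 152) (nat_lit 124896262191) (nat_lit 7) (nat_lit 5) (nat_lit 8) (nat_lit 5) (nat_lit 9) (nat_lit 4) (nat_lit 304) (nat_lit 257) (nat_lit 159)) (XT.lf (nat_lit 0) (nat_lit 103435847316) (nat_lit 152) (nat_lit 103700418706) (nat_lit 0) (nat_lit 5203298372) (nat_lit 7) (nat_lit 5) (nat_lit 9) (nat_lit 4) (nat_lit 7) (nat_lit 4) (nat_lit 305) (nat_lit 257) (nat_lit 158))) (XT.nd (nat_lit 78) (nat_lit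 76) (nat_lit 0) (XT.lf (nat_lit 0) (nat_lit 136495539237) (nat_lit 152) (nat_lit 52910262067) (nat_lit 0) (nat_lit 38259416058) (nat_lit 7) (nat_lit 5) (nat_lit 9) (nat_lit 4) (nat_lit 7) (nat_lit 4) (nat_lit 306) (nat_lit 257) (nat_lit 157)) (XT.nd (nat_lit 78) (nat_lit 0) (nat_lit 0) (XT.lf (nat_lit 0) (nat_lit 2003083728) (nat_lit 76) (nat_lit 170225912036) (nat_lit 76) (nat_lit 71986479380) (nat_lit 6) (nat_lit 4) (nat_lit 7) (nat_lit 5) (nat_lit 7) (nat_lit 4) (nat_lit 307) (nat_lit 257) (nat_lit 156)) (XT.lf (nat_lit 0) (nat_lit 63194950700) (nat_lit 76) (nat_lit 148545663722) (nat_lit 76) (nat_lit 50303166736) (nat_lit 6) (nat_lit 4) (nat_lit 7) (nat_lit 5) (nat_lit 7) (nat_lit 4) (nat_lit 308) (nat_lit 257) (nat_lit 155)))))) (XT.nd (nat_lit 390) (nat_lit 0) (nat_lit 0) (XT.nd (nat_lit 156) (nat_lit 152) (nat_lit 0) (XT.nd (nat_lit 78) (nat_lit 0) (nat_lit 0) (XT.lf (nat_lit 0)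 (nat_lit 129278505104) (nat_lit 76) (nat_lit 125132641707) (nat_lit 76) (nat_lit 26887307378) (nat_lit 6) (nat_lit 4) (nat_lit 7) (nat_lit 5) (nat_lit 7) (nat_lit 4) (nat_lit 309) (nat_lit 257) (nat_lit 154)) (XT.lf (nat_lit 0) (nat_lit 200645353188) (nat_lit 76) (nat_lit 99848102157) (nat_lit 76) (nat_lit 1600140658) (nat_lit 6) (nat_lit 4) (nat_lit 7) (nat_lit 5) (nat_lit 7) (nat_lit 4) (nat_lit 310) (nat_lit 257) (nat_lit 153))) (XT.nd (nat_lit 78) (nat_lit 76) (nat_lit 0) (XT.lf (nat_lit 0) (nat_lit 24885360882) (nat_lit 152) (nat_lit 47235404253) (nat_lit 76) (nat_lit 252411603098) (nat_lit 5) (nat_lit 5) (nat_lit 7) (nat_lit 5) (nat_lit 6) (nat_lit 4) (nat_lit 311) (nat_lit 257) (nat_lit 152)) (XT.nd (nat_lit 78) (nat_lit 0) (nat_lit 0) (XT.lf (nat_lit 0) (nat_lit 11657635130) (nat_lit 76) (nat_lit 41957136366) (nat_lit 152) (nat_lit 295141103972) (nat_lit 4) (nat_lit 5) (nat_lit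 5) (nat_lit 5) (nat_lit 6) (nat_lit 4) (nat_lit 312) (nat_lit 257) (nat_lit 151)) (XT.lf (nat_lit 0) (nat_lit 76946045346) (nat_lit 76) (nat_lit 8517748466) (nat_lit 152) (nat_lit 289412407752) (nat_lit 4) (nat_lit 5) (nat_lit 5) (nat_lit 5) (nat_lit 6) (nat_lit 4) (nat_lit 313) (nat_lit 257) (nat_lit 150))))) (XT.nd (nat_lit 156) (nat_lit 0) (nat_lit 0) (XT.nd (nat_lit 78) (nat_lit 0) (nat_lit 0) (XT.lf (nat_lit 0) (nat_lit 120290146125) (nat_lit 152) (nat_lit 256062166522) (nat_lit 0) (nat_lit 26712371822) (nat_lit 4) (nat_lit 5) (nat_lit 6) (nat_lit 4) (nat_lit 4) (nat_lit 4) (nat_lit 314) (nat_lit 257) (nat_lit 149)) (XT.lf (nat_lit 0) (nat_lit 158044884173) (nat_lit 152) (nat_lit 210990842000) (nat_lit 0) (nat_lit 64465407006) (nat_lit 4) (nat_lit 5) (nat_lit 6) (nat_lit 4) (nat_lit 4) (nat_lit 4) (nat_lit 315) (nat_lit 257) (nat_lit 148))) (XT.nd (nat_lit 78) (nat_lit 0) (nat_lit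 0) (XT.lf (nat_lit 0) (nat_lit 198818753813) (nat_lit 152) (nat_lit 162316107397) (nat_lit 0) (nat_lit 105237699920) (nat_lit 4) (nat_lit 5) (nat_lit 6) (nat_lit 4) (nat_lit 4) (nat_lit 4) (nat_lit 316) (nat_lit 257) (nat_lit 147)) (XT.nd (nat_lit 78) (nat_lit 0) (nat_lit 0) (XT.lf (nat_lit 0) (nat_lit 242853377977) (nat_lit 152) (nat_lit 109749519840) (nat_lit 0) (nat_lit 149270864152) (nat_lit 4) (nat_lit 5) (nat_lit 6) (nat_lit 4) (nat_lit 4) (nat_lit 4) (nat_lit 317) (nat_lit 257) (nat_lit 146)) (XT.lf (nat_lit 0) (nat_lit 290409702585) (nat_lit 152) (nat_lit 52979573627) (nat_lit 0) (nat_lit 196825836972) (nat_lit 4) (nat_lit 5) (nat_lit 6) (nat_lit 4) (nat_lit 4) (nat_lit 4) (nat_lit 318) (nat_lit 257) (nat_lit 145))))))) (XT.nd (nat_lit 33228) (nat_lit 0) (nat_lit 3040) (XT.nd (nat_lit 32838) (nat_lit 0) (nat_lit 5472) (XT.nd (nat_lit 156) (nat_lit 0) (nat_lit 0) (XT.nd (nat_lit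 78) (nat_lit 0) (nat_lit 0) (XT.lf (nat_lit 0) (nat_lit 8605577977) (nat_lit 76) (nat_lit 333298322106) (nat_lit 76) (nat_lit 239713204837) (nat_lit 3) (nat_lit 4) (nat_lit 4) (nat_lit 5) (nat_lit 4) (nat_lit 4) (nat_lit 319) (nat_lit 257) (nat_lit 144)) (XT.lf (nat_lit 0) (nat_lit 77007681857) (nat_lit 76) (nat_lit 321431877385) (nat_lit 76) (nat_lit 227845601175) (nat_lit 3) (nat_lit 4) (nat_lit 4) (nat_lit 5) (nat_lit 4) (nat_lit 4) (nat_lit 320) (nat_lit 257) (nat_lit 143))) (XT.nd (nat_lit 78) (nat_lit 0) (nat_lit 0) (XT.lf (nat_lit 0) (nat_lit 150880339844) (nat_lit 76) (nat_lit 308616857092) (nat_lit 76) (nat_lit 215029507789) (nat_lit 3) (nat_lit 4) (nat_lit 4) (nat_lit 5) (nat_lit 4) (nat_lit 4) (nat_lit 321) (nat_lit 257) (nat_lit 142)) (XT.nd (nat_lit 32526) (nat_lit 0) (nat_lit 5472) (XT.lf (nat_lit 0) (nat_lit 230661315839) (nat_lit 76) (nat_lit 294777320366) (nat_lit 76)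 (nat_lit 201188977457) (nat_lit 3) (nat_lit 4) (nat_lit 4) (nat_lit 5) (nat_lit 4) (nat_lit 4) (nat_lit 322) (nat_lit 257) (nat_lit 141)) (XT.lf (nat_lit 0) (nat_lit 1518377969) (nat_lit 0) (nat_lit 1518377969) (nat_lit 684) (nat_lit 5237876779) (nat_lit 75) (nat_lit 5) (nat_lit 75) (nat_lit 3) (nat_lit 84) (nat_lit 3) (nat_lit 258) (nat_lit 258) (nat_lit 204))))) (XT.nd (nat_lit 156) (nat_lit 0) (nat_lit 76) (XT.nd (nat_lit 78) (nat_lit 0) (nat_lit 76) (XT.lf (nat_lit 0) (nat_lit 6801332428) (nat_lit 684) (nat_lit 2162396452) (nat_lit 760) (nat_lit 8222224809) (nat_lit 75) (nat_lit 5) (nat_lit 84) (nat_lit 3) (nat_lit 85) (nat_lit 5) (nat_lit 259) (nat_lit 258) (nat_lit 203)) (XT.lf (nat_lit 0) (nat_lit 7805756799) (nat_lit 684) (nat_lit 7549014697) (nat_lit 760) (nat_lit 2507990485) (nat_lit 76) (nat_lit 5) (nat_lit 85) (nat_lit 5) (nat_lit 86) (nat_lit 5) (nat_lit 260) (nat_lit 258)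 (nat_lit 202))) (XT.nd (nat_lit 78) (nat_lit 0) (nat_lit 76) (XT.lf (nat_lit 76) (nat_lit 5269412427) (nat_lit 0) (nat_lit 3860364773) (nat_lit 760) (nat_lit 9452071824) (nat_lit 77) (nat_lit 5) (nat_lit 76) (nat_lit 5) (nat_lit 86) (nat_lit 5) (nat_lit 261) (nat_lit 258) (nat_lit 201)) (XT.nd (nat_lit 78) (nat_lit 0) (nat_lit 76) (XT.lf (nat_lit 0) (nat_lit 10796717059) (nat_lit 684) (nat_lit 126415542) (nat_lit 760) (nat_lit 8423569603) (nat_lit 77) (nat_lit 5) (nat_lit 86) (nat_lit 5) (nat_lit 87) (nat_lit 5) (nat_lit 262) (nat_lit 258) (nat_lit 200)) (XT.lf (nat_lit 0) (nat_lit 12885910250) (nat_lit 684) (nat_lit 5691985808) (nat_lit 760) (nat_lit 1580485141) (nat_lit 78) (nat_lit 5) (nat_lit 87) (nat_lit 5) (nat_lit 88) (nat_lit 5) (nat_lit 263) (nat_lit 258) (nat_lit 199)))))) (XT.nd (nat_lit 390) (nat_lit 1216) (nat_lit 0) (XT.nd (nat_lit 156) (nat_lit 836) (nat_lit 0) (XT.nd (nat_lit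 78) (nat_lit 608) (nat_lit 0) (XT.lf (nat_lit 76) (nat_lit 9288609009) (nat_lit 0) (nat_lit 6158987995) (nat_lit 760) (nat_lit 5572205963) (nat_lit 79) (nat_lit 5) (nat_lit 78) (nat_lit 5) (nat_lit 88) (nat_lit 5) (nat_lit 264) (nat_lit 258) (nat_lit 198)) (XT.lf (nat_lit 0) (nat_lit 3708357199) (nat_lit 684) (nat_lit 14753391778) (nat_lit 760) (nat_lit 3476083689) (nat_lit 70) (nat_lit 5) (nat_lit 79) (nat_lit 5) (nat_lit 80) (nat_lit 5) (nat_lit 265) (nat_lit 258) (nat_lit 197))) (XT.nd (nat_lit 78) (nat_lit 836) (nat_lit 0) (XT.lf (nat_lit 0) (nat_lit 20674433939) (nat_lit 684) (nat_lit 1326225837) (nat_lit 760) (nat_lit 914529099) (nat_lit 70) (nat_lit 5) (nat_lit 79) (nat_lit 5) (nat_lit 80) (nat_lit 5) (nat_lit 266) (nat_lit 258) (nat_lit 196)) (XT.nd (nat_lit 78) (nat_lit 380) (nat_lit 0) (XT.lf (nat_lit 0) (nat_lit 2222823693) (nat_lit 456) (nat_lit 8694645110) (nat_lit 76) (nat_lit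 13030369409) (nat_lit 64) (nat_lit 5) (nat_lit 70) (nat_lit 5) (nat_lit 65) (nat_lit 5) (nat_lit 267) (nat_lit 258) (nat_lit 195)) (XT.lf (nat_lit 0) (nat_lit 5825038119) (nat_lit 456) (nat_lit 15701337293) (nat_lit 76) (nat_lit 3523732221) (nat_lit 59) (nat_lit 5) (nat_lit 65) (nat_lit 5) (nat_lit 60) (nat_lit 5) (nat_lit 268) (nat_lit 258) (nat_lit 194))))) (XT.nd (nat_lit 156) (nat_lit 912) (nat_lit 0) (XT.nd (nat_lit 78) (nat_lit 0) (nat_lit 0) (XT.lf (nat_lit 0) (nat_lit 2796148406) (nat_lit 304) (nat_lit 7281896263) (nat_lit 380) (nat_lit 16144432685) (nat_lit 55) (nat_lit 5) (nat_lit 59) (nat_lit 5) (nat_lit 60) (nat_lit 5) (nat_lit 269) (nat_lit 258) (nat_lit 193)) (XT.lf (nat_lit 0) (nat_lit 15057809948) (nat_lit 380) (nat_lit 4291810041) (nat_lit 76) (nat_lit 8119736581) (nat_lit 55) (nat_lit 5) (nat_lit 60) (nat_lit 5) (nat_lit 56) (nat_lit 5) (nat_lit 270) (nat_lit 258) (nat_lit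 192))) (XT.nd (nat_lit 78) (nat_lit 608) (nat_lit 0) (XT.lf (nat_lit 0) (nat_lit 16768883540) (nat_lit 304) (nat_lit 4035029530) (nat_lit 380) (nat_lit 7993717654) (nat_lit 51) (nat_lit 5) (nat_lit 55) (nat_lit 5) (nat_lit 56) (nat_lit 5) (nat_lit 271) (nat_lit 258) (nat_lit 191)) (XT.nd (nat_lit 78) (nat_lit 380) (nat_lit 0) (XT.lf (nat_lit 0) (nat_lit 9529303574) (nat_lit 228) (nat_lit 17884685770) (nat_lit 304) (nat_lit 2798002514) (nat_lit 48) (nat_lit 5) (nat_lit 51) (nat_lit 5) (nat_lit 52) (nat_lit 5) (nat_lit 272) (nat_lit 258) (nat_lit 190)) (XT.lf (nat_lit 0) (nat_lit 1424483277) (nat_lit 304) (nat_lit 1586982554) (nat_lit 380) (nat_lit 28711467397) (nat_lit 43) (nat_lit 5) (nat_lit 47) (nat_lit 5) (nat_lit 48) (nat_lit 5) (nat_lit 273) (nat_lit 258) (nat_lit 189))))))))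
noncomputable def xc84 : XT := (XT.nd (nat_lit 1482) (nat_lit 608) (nat_lit 0) (XT.nd (nat_lit 702) (nat_lit 912) (nat_lit 0) (XT.nd (nat_lit 312) (nat_lit 836) (nat_lit 0) (XT.nd (nat_lit 156) (nat_lit 228) (nat_lit 0) (XT.nd (nat_lit 78) (nat_lit 228) (nat_lit 0) (XT.lf (nat_lit 0) (nat_lit 9790883233) (nat_lit 380) (nat_lit 7619183359) (nat_lit 76) (nat_lit 15912260955) (nat_lit 43) (nat_lit 5) (nat_lit 48) (nat_lit 5) (nat_lit 44) (nat_lit 5) (nat_lit 274) (nat_lit 258) (nat_lit 188)) (XT.lf (nat_lit 0) (nat_lit 17387382324) (nat_lit 228) (nat_lit 10249044) (nat_lit 304) (nat_lit 17637822880) (nat_lit 40) (nat_lit 5) (nat_lit 43) (nat_lit 5) (nat_lit 44) (nat_lit 5) (nat_lit 275) (nat_lit 258) (nat_lit 187))) (XT.nd (nat_lit 78) (nat_lit 0) (nat_lit 0) (XT.lf (nat_lit 0) (nat_lit 7722665753) (nat_lit 228) (nat_lit 18426383244) (nat_lit 304) (nat_lit 10709803111) (nat_lit 37) (nat_lit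 5) (nat_lit 40) (nat_lit 5) (nat_lit 41) (nat_lit 5) (nat_lit 276) (nat_lit 258) (nat_lit 186)) (XT.lf (nat_lit 0) (nat_lit 35737158579) (nat_lit 228) (nat_lit 159119544) (nat_lit 304) (nat_lit 2917084235) (nat_lit 37) (nat_lit 5) (nat_lit 40) (nat_lit 5) (nat_lit 41) (nat_lit 5) (nat_lit 277) (nat_lit 258) (nat_lit 185)))) (XT.nd (nat_lit 156) (nat_lit 380) (nat_lit 0) (XT.nd (nat_lit 78) (nat_lit 228) (nat_lit 0) (XT.lf (nat_lit 0) (nat_lit 6028021334) (nat_lit 228) (nat_lit 15420754172) (nat_lit 76) (nat_lit 19435938940) (nat_lit 34) (nat_lit 5) (nat_lit 37) (nat_lit 5) (nat_lit 35) (nat_lit 5) (nat_lit 278) (nat_lit 258) (nat_lit 184)) (XT.lf (nat_lit 0) (nat_lit 13647159993) (nat_lit 228) (nat_lit 2200289921) (nat_lit 304) (nat_lit 27258908779) (nat_lit 31) (nat_lit 5) (nat_lit 34) (nat_lit 5) (nat_lit 35) (nat_lit 5) (nat_lit 279) (nat_lit 258) (nat_lit 183))) (XT.nd (nat_lit 78)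 (nat_lit 380) (nat_lit 0) (XT.lf (nat_lit 0) (nat_lit 27005499816) (nat_lit 304) (nat_lit 210526832) (nat_lit 76) (nat_lit 18262073733) (nat_lit 31) (nat_lit 5) (nat_lit 35) (nat_lit 5) (nat_lit 32) (nat_lit 5) (nat_lit 280) (nat_lit 258) (nat_lit 182)) (XT.nd (nat_lit 78) (nat_lit 228) (nat_lit 0) (XT.lf (nat_lit 0) (nat_lit 32363068127) (nat_lit 152) (nat_lit 7226089781) (nat_lit 228) (nat_lit 8423793113) (nat_lit 29) (nat_lit 5) (nat_lit 31) (nat_lit 5) (nat_lit 32) (nat_lit 5) (nat_lit 281) (nat_lit 258) (nat_lit 181)) (XT.lf (nat_lit 0) (nat_lit 2845245874) (nat_lit 228) (nat_lit 33662719424) (nat_lit 76) (nat_lit 14216040649) (nat_lit 26) (nat_lit 5) (nat_lit 29) (nat_lit 5) (nat_lit 27) (nat_lit 5) (nat_lit 282) (nat_lit 258) (nat_lit 180)))))) (XT.nd (nat_lit 390) (nat_lit 456) (nat_lit 0) (XT.nd (nat_lit 156) (nat_lit 304) (nat_lit 0) (XT.nd (nat_lit 78) (nat_lit 152) (nat_lit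 0) (XT.lf (nat_lit 0) (nat_lit 15114872434) (nat_lit 228) (nat_lit 971675243) (nat_lit 76) (nat_lit 37538797742) (nat_lit 26) (nat_lit 5) (nat_lit 29) (nat_lit 5) (nat_lit 27) (nat_lit 5) (nat_lit 283) (nat_lit 258) (nat_lit 179)) (XT.lf (nat_lit 0) (nat_lit 29013817978) (nat_lit 228) (nat_lit 21376446421) (nat_lit 76) (nat_lit 6336153683) (nat_lit 24) (nat_lit 5) (nat_lit 27) (nat_lit 5) (nat_lit 25) (nat_lit 5) (nat_lit 284) (nat_lit 258) (nat_lit 178))) (XT.nd (nat_lit 78) (nat_lit 152) (nat_lit 0) (XT.lf (nat_lit 0) (nat_lit 14725058258) (nat_lit 152) (nat_lit 29810286595) (nat_lit 228) (nat_lit 15514710901) (nat_lit 22) (nat_lit 5) (nat_lit 24) (nat_lit 5) (nat_lit 25) (nat_lit 5) (nat_lit 285) (nat_lit 258) (nat_lit 177)) (XT.nd (nat_lit 78) (nat_lit 152) (nat_lit 0) (XT.lf (nat_lit 0) (nat_lit 54466524252) (nat_lit 152) (nat_lit 7197137471) (nat_lit 228) (nat_lit 1957680880) (nat_lit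 22) (nat_lit 5) (nat_lit 24) (nat_lit 5) (nat_lit 25) (nat_lit 5) (nat_lit 286) (nat_lit 258) (nat_lit 176)) (XT.lf (nat_lit 0) (nat_lit 13030071832) (nat_lit 152) (nat_lit 37042730264) (nat_lit 76) (nat_lit 17358032691) (nat_lit 20) (nat_lit 5) (nat_lit 22) (nat_lit 5) (nat_lit 21) (nat_lit 5) (nat_lit 287) (nat_lit 258) (nat_lit 175))))) (XT.nd (nat_lit 156) (nat_lit 304) (nat_lit 0) (XT.nd (nat_lit 78) (nat_lit 0) (nat_lit 0) (XT.lf (nat_lit 0) (nat_lit 1773348673) (nat_lit 152) (nat_lit 27680363910) (nat_lit 228) (nat_lit 42074505769) (nat_lit 18) (nat_lit 5) (nat_lit 20) (nat_lit 5) (nat_lit 21) (nat_lit 5) (nat_lit 288) (nat_lit 258) (nat_lit 174)) (XT.lf (nat_lit 0) (nat_lit 45007270187) (nat_lit 152) (nat_lit 2822972725) (nat_lit 228) (nat_lit 28091208510) (nat_lit 18) (nat_lit 5) (nat_lit 20) (nat_lit 5) (nat_lit 21) (nat_lit 5) (nat_lit 289) (nat_lit 258) (nat_lit 173))) (XT.nd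 (nat_lit 78) (nat_lit 228) (nat_lit 0) (XT.lf (nat_lit 0) (nat_lit 11001088555) (nat_lit 76) (nat_lit 57216775832) (nat_lit 152) (nat_lit 12421238404) (nat_lit 17) (nat_lit 5) (nat_lit 18) (nat_lit 5) (nat_lit 19) (nat_lit 4) (nat_lit 290) (nat_lit 258) (nat_lit 172)) (XT.nd (nat_lit 78) (nat_lit 152) (nat_lit 0) (XT.lf (nat_lit 0) (nat_lit 4947494781) (nat_lit 152) (nat_lit 28469931250) (nat_lit 76) (nat_lit 52283769267) (nat_lit 16) (nat_lit 5) (nat_lit 18) (nat_lit 5) (nat_lit 17) (nat_lit 5) (nat_lit 291) (nat_lit 258) (nat_lit 171)) (XT.lf (nat_lit 0) (nat_lit 16294911809) (nat_lit 152) (nat_lit 7230616539) (nat_lit 228) (nat_lit 67619803048) (nat_lit 14) (nat_lit 5) (nat_lit 16) (nat_lit 5) (nat_lit 17) (nat_lit 5) (nat_lit 292) (nat_lit 258) (nat_lit 170))))))) (XT.nd (nat_lit 702) (nat_lit 304) (nat_lit 0) (XT.nd (nat_lit 312) (nat_lit 76) (nat_lit 0) (XT.nd (nat_lit 156) (nat_lit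 152) (nat_lit 0) (XT.nd (nat_lit 78) (nat_lit 76) (nat_lit 0) (XT.lf (nat_lit 0) (nat_lit 44417488107) (nat_lit 228) (nat_lit 31688006251) (nat_lit 76) (nat_lit 20878125965) (nat_lit 14) (nat_lit 5) (nat_lit 17) (nat_lit 5) (nat_lit 15) (nat_lit 4) (nat_lit 293) (nat_lit 258) (nat_lit 169)) (XT.lf (nat_lit 0) (nat_lit 15286787133) (nat_lit 76) (nat_lit 52049940403) (nat_lit 152) (nat_lit 35934454346) (nat_lit 13) (nat_lit 5) (nat_lit 14) (nat_lit 5) (nat_lit 15) (nat_lit 4) (nat_lit 294) (nat_lit 258) (nat_lit 168))) (XT.nd (nat_lit 78) (nat_lit 152) (nat_lit 0) (XT.lf (nat_lit 0) (nat_lit 67143514314) (nat_lit 76) (nat_lit 25493535174) (nat_lit 152) (nat_lit 17397326952) (nat_lit 13) (nat_lit 5) (nat_lit 14) (nat_lit 5) (nat_lit 15) (nat_lit 4) (nat_lit 295) (nat_lit 258) (nat_lit 167)) (XT.lf (nat_lit 0) (nat_lit 2679488575) (nat_lit 152) (nat_lit 111431532485) (nat_lit 76) (nat_lit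 3218529538) (nat_lit 11) (nat_lit 5) (nat_lit 13) (nat_lit 5) (nat_lit 12) (nat_lit 4) (nat_lit 296) (nat_lit 258) (nat_lit 166)))) (XT.nd (nat_lit 156) (nat_lit 76) (nat_lit 0) (XT.nd (nat_lit 78) (nat_lit 0) (nat_lit 0) (XT.lf (nat_lit 0) (nat_lit 24946299931) (nat_lit 152) (nat_lit 65791862968) (nat_lit 76) (nat_lit 34396251556) (nat_lit 11) (nat_lit 5) (nat_lit 13) (nat_lit 5) (nat_lit 12) (nat_lit 4) (nat_lit 297) (nat_lit 258) (nat_lit 165)) (XT.lf (nat_lit 0) (nat_lit 48990727286) (nat_lit 152) (nat_lit 16507540378) (nat_lit 76) (nat_lit 68065590168) (nat_lit 11) (nat_lit 5) (nat_lit 13) (nat_lit 5) (nat_lit 12) (nat_lit 4) (nat_lit 298) (nat_lit 258) (nat_lit 164))) (XT.nd (nat_lit 78) (nat_lit 0) (nat_lit 0) (XT.lf (nat_lit 0) (nat_lit 37927404330) (nat_lit 76) (nat_lit 37620004876) (nat_lit 152) (nat_lit 67090816124) (nat_lit 10) (nat_lit 5) (nat_lit 11) (nat_lit 5) (nat_lit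 12) (nat_lit 4) (nat_lit 299) (nat_lit 258) (nat_lit 163)) (XT.nd (nat_lit 78) (nat_lit 0) (nat_lit 0) (XT.lf (nat_lit 0) (nat_lit 97300848450) (nat_lit 76) (nat_lit 7212040827) (nat_lit 152) (nat_lit 47911443168) (nat_lit 10) (nat_lit 5) (nat_lit 11) (nat_lit 5) (nat_lit 12) (nat_lit 4) (nat_lit 300) (nat_lit 258) (nat_lit 162)) (XT.lf (nat_lit 0) (nat_lit 136192661822) (nat_lit 152) (nat_lit 1974760363) (nat_lit 0) (nat_lit 24806056389) (nat_lit 10) (nat_lit 5) (nat_lit 12) (nat_lit 4) (nat_lit 10) (nat_lit 4) (nat_lit 301) (nat_lit 258) (nat_lit 161)))))) (XT.nd (nat_lit 390) (nat_lit 76) (nat_lit 0) (XT.nd (nat_lit 156) (nat_lit 76) (nat_lit 0) (XT.nd (nat_lit 78) (nat_lit 76) (nat_lit 0) (XT.lf (nat_lit 0) (nat_lit 57127632235) (nat_lit 76) (nat_lit 114289863089) (nat_lit 76) (nat_lit 2898530024) (nat_lit 9) (nat_lit 4) (nat_lit 10) (nat_lit 5) (nat_lit 10) (nat_lit 4) (nat_lit 302)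 (nat_lit 258) (nat_lit 160)) (XT.lf (nat_lit 0) (nat_lit 22193777792) (nat_lit 152) (nat_lit 65898466028) (nat_lit 76) (nat_lit 98454252375) (nat_lit 8) (nat_lit 5) (nat_lit 10) (nat_lit 5) (nat_lit 9) (nat_lit 4) (nat_lit 303) (nat_lit 258) (nat_lit 159))) (XT.nd (nat_lit 78) (nat_lit 76) (nat_lit 0) (XT.lf (nat_lit 0) (nat_lit 49190719177) (nat_lit 152) (nat_lit 10558789370) (nat_lit 76) (nat_lit 140003582731) (nat_lit 8) (nat_lit 5) (nat_lit 10) (nat_lit 5) (nat_lit 9) (nat_lit 4) (nat_lit 304) (nat_lit 258) (nat_lit 158)) (XT.nd (nat_lit 78) (nat_lit 0) (nat_lit 0) (XT.lf (nat_lit 0) (nat_lit 50830730687) (nat_lit 76) (nat_lit 28307926541) (nat_lit 152) (nat_lit 134837996874) (nat_lit 7) (nat_lit 5) (nat_lit 8) (nat_lit 5) (nat_lit 9) (nat_lit 4) (nat_lit 305) (nat_lit 258) (nat_lit 157)) (XT.lf (nat_lit 0) (nat_lit 111755284767) (nat_lit 152) (nat_lit 111915788480) (nat_lit 0) (nat_lit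 5653388022) (nat_lit 7) (nat_lit 5) (nat_lit 9) (nat_lit 4) (nat_lit 7) (nat_lit 4) (nat_lit 306) (nat_lit 258) (nat_lit 156))))) (XT.nd (nat_lit 156) (nat_lit 0) (nat_lit 0) (XT.nd (nat_lit 78) (nat_lit 76) (nat_lit 0) (XT.lf (nat_lit 0) (nat_lit 147456450585) (nat_lit 152) (nat_lit 57068394401) (nat_lit 0) (nat_lit 41351489510) (nat_lit 7) (nat_lit 5) (nat_lit 9) (nat_lit 4) (nat_lit 7) (nat_lit 4) (nat_lit 307) (nat_lit 258) (nat_lit 155)) (XT.lf (nat_lit 0) (nat_lit 2234773181) (nat_lit 76) (nat_lit 183811868971) (nat_lit 76) (nat_lit 77704070552) (nat_lit 6) (nat_lit 4) (nat_lit 7) (nat_lit 5) (nat_lit 7) (nat_lit 4) (nat_lit 308) (nat_lit 258) (nat_lit 154))) (XT.nd (nat_lit 78) (nat_lit 0) (nat_lit 0) (XT.lf (nat_lit 0) (nat_lit 68316697454) (nat_lit 76) (nat_lit 160399579757) (nat_lit 76) (nat_lit 54289154169) (nat_lit 6) (nat_lit 4) (nat_lit 7) (nat_lit 5) (nat_lit 7) (nat_lit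 4) (nat_lit 309) (nat_lit 258) (nat_lit 153)) (XT.nd (nat_lit 78) (nat_lit 0) (nat_lit 0) (XT.lf (nat_lit 0) (nat_lit 139682036159) (nat_lit 76) (nat_lit 135115718727) (nat_lit 76) (nat_lit 29002860574) (nat_lit 6) (nat_lit 4) (nat_lit 7) (nat_lit 5) (nat_lit 7) (nat_lit 4) (nat_lit 310) (nat_lit 258) (nat_lit 152)) (XT.lf (nat_lit 0) (nat_lit 216753695005) (nat_lit 76) (nat_lit 107810455592) (nat_lit 76) (nat_lit 1695345064) (nat_lit 6) (nat_lit 4) (nat_lit 7) (nat_lit 5) (nat_lit 7) (nat_lit 4) (nat_lit 311) (nat_lit 258) (nat_lit 151))))))))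
noncomputable def xc85 : XT := (XT.nd (nat_lit 34008) (nat_lit 0) (nat_lit 1444) (XT.nd (nat_lit 702) (nat_lit 0) (nat_lit 0) (XT.nd (nat_lit 312) (nat_lit 76) (nat_lit 0) (XT.nd (nat_lit 156) (nat_lit 0) (nat_lit 0) (XT.nd (nat_lit 78) (nat_lit 76) (nat_lit 0) (XT.lf (nat_lit 0) (nat_lit 26905594219) (nat_lit 152) (nat_lit 50960727910) (nat_lit 76) (nat_lit 272627141459) (nat_lit 5) (nat_lit 5) (nat_lit 7) (nat_lit 5) (nat_lit 6) (nat_lit 4) (nat_lit 312) (nat_lit 258) (nat_lit 150)) (XT.lf (nat_lit 0) (nat_lit 12641429202) (nat_lit 76) (nat_lit 45290549485) (nat_lit 152) (nat_lit 318722943433) (nat_lit 4) (nat_lit 5) (nat_lit 5) (nat_lit 5) (nat_lit 6) (nat_lit 4) (nat_lit 313) (nat_lit 258) (nat_lit 149))) (XT.nd (nat_lit 78) (nat_lit 0) (nat_lit 0) (XT.lf (nat_lit 0) (nat_lit 83149120882) (nat_lit 76) (nat_lit 9177725945) (nat_lit 152) (nat_lit 312538132911) (nat_lit 4) (nat_lit 5)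 (nat_lit 5) (nat_lit 5) (nat_lit 6) (nat_lit 4) (nat_lit 314) (nat_lit 258) (nat_lit 148)) (XT.lf (nat_lit 0) (nat_lit 129937695117) (nat_lit 152) (nat_lit 276502348101) (nat_lit 0) (nat_lit 28868580186) (nat_lit 4) (nat_lit 5) (nat_lit 6) (nat_lit 4) (nat_lit 4) (nat_lit 4) (nat_lit 315) (nat_lit 258) (nat_lit 147)))) (XT.nd (nat_lit 156) (nat_lit 76) (nat_lit 0) (XT.nd (nat_lit 78) (nat_lit 0) (nat_lit 0) (XT.lf (nat_lit 0) (nat_lit 170711009446) (nat_lit 152) (nat_lit 227828635524) (nat_lit 0) (nat_lit 69640434583) (nat_lit 4) (nat_lit 5) (nat_lit 6) (nat_lit 4) (nat_lit 4) (nat_lit 4) (nat_lit 316) (nat_lit 258) (nat_lit 146)) (XT.lf (nat_lit 0) (nat_lit 214745119432) (nat_lit 152) (nat_lit 175262994288) (nat_lit 0) (nat_lit 113673192781) (nat_lit 4) (nat_lit 5) (nat_lit 6) (nat_lit 4) (nat_lit 4) (nat_lit 4) (nat_lit 317) (nat_lit 258) (nat_lit 145))) (XT.nd (nat_lit 78) (nat_lit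 76) (nat_lit 0) (XT.lf (nat_lit 0) (nat_lit 262300967950) (nat_lit 152) (nat_lit 118493924298) (nat_lit 0) (nat_lit 161227789643) (nat_lit 4) (nat_lit 5) (nat_lit 6) (nat_lit 4) (nat_lit 4) (nat_lit 4) (nat_lit 318) (nat_lit 258) (nat_lit 144)) (XT.nd (nat_lit 78) (nat_lit 76) (nat_lit 0) (XT.lf (nat_lit 0) (nat_lit 313660367436) (nat_lit 152) (nat_lit 57185016248) (nat_lit 0) (nat_lit 212586030188) (nat_lit 4) (nat_lit 5) (nat_lit 6) (nat_lit 4) (nat_lit 4) (nat_lit 4) (nat_lit 319) (nat_lit 258) (nat_lit 143)) (XT.lf (nat_lit 0) (nat_lit 9325516679) (nat_lit 76) (nat_lit 359947750656) (nat_lit 76) (nat_lit 258872340315) (nat_lit 3) (nat_lit 4) (nat_lit 4) (nat_lit 5) (nat_lit 4) (nat_lit 4) (nat_lit 320) (nat_lit 258) (nat_lit 142)))))) (XT.nd (nat_lit 32916) (nat_lit 0) (nat_lit 5092) (XT.nd (nat_lit 32682) (nat_lit 0) (nat_lit 5472) (XT.nd (nat_lit 78) (nat_lit 0) (nat_lit 0) (XT.lf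 (nat_lit 0) (nat_lit 83197456093) (nat_lit 76) (nat_lit 347133059781) (nat_lit 76) (nat_lit 246056655835) (nat_lit 3) (nat_lit 4) (nat_lit 4) (nat_lit 5) (nat_lit 4) (nat_lit 4) (nat_lit 321) (nat_lit 258) (nat_lit 141)) (XT.lf (nat_lit 0) (nat_lit 162977766743) (nat_lit 76) (nat_lit 333293828071) (nat_lit 76) (nat_lit 232216504121) (nat_lit 3) (nat_lit 4) (nat_lit 4) (nat_lit 5) (nat_lit 4) (nat_lit 4) (nat_lit 322) (nat_lit 258) (nat_lit 140))) (XT.nd (nat_lit 78) (nat_lit 0) (nat_lit 0) (XT.lf (nat_lit 0) (nat_lit 1811744007) (nat_lit 0) (nat_lit 1811744007) (nat_lit 684) (nat_lit 5294912354) (nat_lit 75) (nat_lit 5) (nat_lit 75) (nat_lit 3) (nat_lit 84) (nat_lit 3) (nat_lit 259) (nat_lit 259) (nat_lit 202)) (XT.nd (nat_lit 78) (nat_lit 0) (nat_lit 76) (XT.lf (nat_lit 0) (nat_lit 7977120181) (nat_lit 684) (nat_lit 1978383462) (nat_lit 760) (nat_lit 8571865643) (nat_lit 75) (nat_lit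 5) (nat_lit 84) (nat_lit 3) (nat_lit 85) (nat_lit 5) (nat_lit 260) (nat_lit 259) (nat_lit 201)) (XT.lf (nat_lit 0) (nat_lit 9016555515) (nat_lit 684) (nat_lit 7776314046) (nat_lit 760) (nat_lit 2467858841) (nat_lit 76) (nat_lit 5) (nat_lit 85) (nat_lit 5) (nat_lit 86) (nat_lit 5) (nat_lit 261) (nat_lit 259) (nat_lit 200))))) (XT.nd (nat_lit 156) (nat_lit 456) (nat_lit 0) (XT.nd (nat_lit 78) (nat_lit 0) (nat_lit 76) (XT.lf (nat_lit 76) (nat_lit 6051219722) (nat_lit 0) (nat_lit 4357469948) (nat_lit 760) (nat_lit 9630671845) (nat_lit 77) (nat_lit 5) (nat_lit 76) (nat_lit 5) (nat_lit 86) (nat_lit 5) (nat_lit 262) (nat_lit 259) (nat_lit 199)) (XT.lf (nat_lit 76) (nat_lit 234140398) (nat_lit 0) (nat_lit 11935146259) (nat_lit 760) (nat_lit 8698220374) (nat_lit 78) (nat_lit 5) (nat_lit 77) (nat_lit 5) (nat_lit 87) (nat_lit 5) (nat_lit 263) (nat_lit 259) (nat_lit 198))) (XT.nd (nat_lit 78) (nat_lit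 608) (nat_lit 0) (XT.lf (nat_lit 0) (nat_lit 14387999088) (nat_lit 684) (nat_lit 5772950312) (nat_lit 760) (nat_lit 1585162108) (nat_lit 78) (nat_lit 5) (nat_lit 87) (nat_lit 5) (nat_lit 88) (nat_lit 5) (nat_lit 264) (nat_lit 259) (nat_lit 197)) (XT.nd (nat_lit 78) (nat_lit 608) (nat_lit 0) (XT.lf (nat_lit 76) (nat_lit 10389821368) (nat_lit 0) (nat_lit 6735485838) (nat_lit 760) (nat_lit 5552707668) (nat_lit 79) (nat_lit 5) (nat_lit 78) (nat_lit 5) (nat_lit 88) (nat_lit 5) (nat_lit 265) (nat_lit 259) (nat_lit 196)) (XT.lf (nat_lit 0) (nat_lit 4371193572) (nat_lit 684) (nat_lit 15981170025) (nat_lit 760) (nat_lit 3318629347) (nat_lit 70) (nat_lit 5) (nat_lit 79) (nat_lit 5) (nat_lit 80) (nat_lit 5) (nat_lit 266) (nat_lit 259) (nat_lit 195))))))) (XT.nd (nat_lit 780) (nat_lit 1368) (nat_lit 0) (XT.nd (nat_lit 390) (nat_lit 1140) (nat_lit 0) (XT.nd (nat_lit 156) (nat_lit 684) (nat_lit 0)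 (XT.nd (nat_lit 78) (nat_lit 456) (nat_lit 0) (XT.lf (nat_lit 0) (nat_lit 22667432910) (nat_lit 684) (nat_lit 1476311778) (nat_lit 760) (nat_lit 584412689) (nat_lit 70) (nat_lit 5) (nat_lit 79) (nat_lit 5) (nat_lit 80) (nat_lit 5) (nat_lit 267) (nat_lit 259) (nat_lit 194)) (XT.lf (nat_lit 0) (nat_lit 2766922311) (nat_lit 456) (nat_lit 9032807030) (nat_lit 76) (nat_lit 14044656682) (nat_lit 64) (nat_lit 5) (nat_lit 70) (nat_lit 5) (nat_lit 65) (nat_lit 5) (nat_lit 268) (nat_lit 259) (nat_lit 193))) (XT.nd (nat_lit 78) (nat_lit 304) (nat_lit 0) (XT.lf (nat_lit 0) (nat_lit 6635479614) (nat_lit 456) (nat_lit 16597408517) (nat_lit 76) (nat_lit 3803112108) (nat_lit 59) (nat_lit 5) (nat_lit 65) (nat_lit 5) (nat_lit 60) (nat_lit 5) (nat_lit 269) (nat_lit 259) (nat_lit 192)) (XT.nd (nat_lit 78) (nat_lit 0) (nat_lit 0) (XT.lf (nat_lit 0) (nat_lit 3364229323) (nat_lit 304) (nat_lit 7844360284) (nat_lit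 380) (nat_lit 17094643013) (nat_lit 55) (nat_lit 5) (nat_lit 59) (nat_lit 5) (nat_lit 60) (nat_lit 5) (nat_lit 270) (nat_lit 259) (nat_lit 191)) (XT.lf (nat_lit 0) (nat_lit 16563004179) (nat_lit 380) (nat_lit 4300786009) (nat_lit 76) (nat_lit 8787319904) (nat_lit 55) (nat_lit 5) (nat_lit 60) (nat_lit 5) (nat_lit 56) (nat_lit 5) (nat_lit 271) (nat_lit 259) (nat_lit 190))))) (XT.nd (nat_lit 156) (nat_lit 608) (nat_lit 0) (XT.nd (nat_lit 78) (nat_lit 228) (nat_lit 0) (XT.lf (nat_lit 0) (nat_lit 18430231797) (nat_lit 304) (nat_lit 4321292912) (nat_lit 380) (nat_lit 8335041792) (nat_lit 51) (nat_lit 5) (nat_lit 55) (nat_lit 5) (nat_lit 56) (nat_lit 5) (nat_lit 272) (nat_lit 259) (nat_lit 189)) (XT.lf (nat_lit 0) (nat_lit 10611268244) (nat_lit 228) (nat_lit 19263672147) (nat_lit 304) (nat_lit 2739962042) (nat_lit 48) (nat_lit 5) (nat_lit 51) (nat_lit 5) (nat_lit 52) (nat_lit 5) (nat_lit 273)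 (nat_lit 259) (nat_lit 188))) (XT.nd (nat_lit 78) (nat_lit 228) (nat_lit 0) (XT.lf (nat_lit 0) (nat_lit 1853400554) (nat_lit 304) (nat_lit 1656546904) (nat_lit 380) (nat_lit 30737362689) (nat_lit 43) (nat_lit 5) (nat_lit 47) (nat_lit 5) (nat_lit 48) (nat_lit 5) (nat_lit 274) (nat_lit 259) (nat_lit 187)) (XT.nd (nat_lit 78) (nat_lit 228) (nat_lit 0) (XT.lf (nat_lit 0) (nat_lit 10813469119) (nat_lit 380) (nat_lit 7925458518) (nat_lit 76) (nat_lit 17236683758) (nat_lit 43) (nat_lit 5) (nat_lit 48) (nat_lit 5) (nat_lit 44) (nat_lit 5) (nat_lit 275) (nat_lit 259) (nat_lit 186)) (XT.lf (nat_lit 0) (nat_lit 19016384842) (nat_lit 304) (nat_lit 18758860581) (nat_lit 76) (nat_lit 51201171) (nat_lit 40) (nat_lit 5) (nat_lit 44) (nat_lit 5) (nat_lit 41) (nat_lit 5) (nat_lit 276) (nat_lit 259) (nat_lit 185)))))) (XT.nd (nat_lit 390) (nat_lit 532) (nat_lit 0) (XT.nd (nat_lit 156) (nat_lit 608) (nat_lit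 0) (XT.nd (nat_lit 78) (nat_lit 0) (nat_lit 0) (XT.lf (nat_lit 0) (nat_lit 8628287230) (nat_lit 228) (nat_lit 19827471570) (nat_lit 304) (nat_lit 11340602139) (nat_lit 37) (nat_lit 5) (nat_lit 40) (nat_lit 5) (nat_lit 41) (nat_lit 5) (nat_lit 277) (nat_lit 259) (nat_lit 184)) (XT.lf (nat_lit 0) (nat_lit 38862620355) (nat_lit 228) (nat_lit 104235835) (nat_lit 304) (nat_lit 2941205400) (nat_lit 37) (nat_lit 5) (nat_lit 40) (nat_lit 5) (nat_lit 41) (nat_lit 5) (nat_lit 278) (nat_lit 259) (nat_lit 183))) (XT.nd (nat_lit 78) (nat_lit 380) (nat_lit 0) (XT.lf (nat_lit 0) (nat_lit 6702987773) (nat_lit 228) (nat_lit 16383849383) (nat_lit 76) (nat_lit 21058642578) (nat_lit 34) (nat_lit 5) (nat_lit 37) (nat_lit 5) (nat_lit 35) (nat_lit 5) (nat_lit 279) (nat_lit 259) (nat_lit 182)) (XT.nd (nat_lit 78) (nat_lit 152) (nat_lit 0) (XT.lf (nat_lit 0) (nat_lit 14997739485) (nat_lit 228) (nat_lit 2299995946)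 (nat_lit 304) (nat_lit 29247659674) (nat_lit 31) (nat_lit 5) (nat_lit 34) (nat_lit 5) (nat_lit 35) (nat_lit 5) (nat_lit 280) (nat_lit 259) (nat_lit 181)) (XT.lf (nat_lit 0) (nat_lit 20593331) (nat_lit 152) (nat_lit 29315743035) (nat_lit 228) (nat_lit 19771170174) (nat_lit 29) (nat_lit 5) (nat_lit 31) (nat_lit 5) (nat_lit 32) (nat_lit 5) (nat_lit 281) (nat_lit 259) (nat_lit 180))))) (XT.nd (nat_lit 156) (nat_lit 304) (nat_lit 0) (XT.nd (nat_lit 78) (nat_lit 228) (nat_lit 0) (XT.lf (nat_lit 0) (nat_lit 35188669277) (nat_lit 152) (nat_lit 7728791456) (nat_lit 228) (nat_lit 8928169673) (nat_lit 29) (nat_lit 5) (nat_lit 31) (nat_lit 5) (nat_lit 32) (nat_lit 5) (nat_lit 282) (nat_lit 259) (nat_lit 179)) (XT.lf (nat_lit 0) (nat_lit 3229618235) (nat_lit 228) (nat_lit 36117148099) (nat_lit 76) (nat_lit 15427059501) (nat_lit 26) (nat_lit 5) (nat_lit 29) (nat_lit 5) (nat_lit 27) (nat_lit 5) (nat_lit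 283) (nat_lit 259) (nat_lit 178))) (XT.nd (nat_lit 78) (nat_lit 304) (nat_lit 0) (XT.lf (nat_lit 0) (nat_lit 16469203609) (nat_lit 228) (nat_lit 828493633) (nat_lit 76) (nat_lit 40610175265) (nat_lit 26) (nat_lit 5) (nat_lit 29) (nat_lit 5) (nat_lit 27) (nat_lit 5) (nat_lit 284) (nat_lit 259) (nat_lit 177)) (XT.nd (nat_lit 78) (nat_lit 152) (nat_lit 0) (XT.lf (nat_lit 0) (nat_lit 31473762302) (nat_lit 228) (nat_lit 22869286822) (nat_lit 76) (nat_lit 6914315021) (nat_lit 24) (nat_lit 5) (nat_lit 27) (nat_lit 5) (nat_lit 25) (nat_lit 5) (nat_lit 285) (nat_lit 259) (nat_lit 176)) (XT.lf (nat_lit 0) (nat_lit 16110895711) (nat_lit 152) (nat_lit 32119076106) (nat_lit 228) (nat_lit 16617289688) (nat_lit 22) (nat_lit 5) (nat_lit 24) (nat_lit 5) (nat_lit 25) (nat_lit 5) (nat_lit 286) (nat_lit 259) (nat_lit 175))))))))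
noncomputable def xc86 : XT := (XT.nd (nat_lit 1482) (nat_lit 380) (nat_lit 0) (XT.nd (nat_lit 702) (nat_lit 380) (nat_lit 0) (XT.nd (nat_lit 312) (nat_lit 380) (nat_lit 0) (XT.nd (nat_lit 156) (nat_lit 152) (nat_lit 0) (XT.nd (nat_lit 78) (nat_lit 152) (nat_lit 0) (XT.lf (nat_lit 0) (nat_lit 59016283963) (nat_lit 152) (nat_lit 7702507158) (nat_lit 228) (nat_lit 1985963789) (nat_lit 22) (nat_lit 5) (nat_lit 24) (nat_lit 5) (nat_lit 25) (nat_lit 5) (nat_lit 287) (nat_lit 259) (nat_lit 174)) (XT.lf (nat_lit 0) (nat_lit 14191534270) (nat_lit 152) (nat_lit 39812996904) (nat_lit 76) (nat_lit 18814647121) (nat_lit 20) (nat_lit 5) (nat_lit 22) (nat_lit 5) (nat_lit 21) (nat_lit 5) (nat_lit 288) (nat_lit 259) (nat_lit 173))) (XT.nd (nat_lit 78) (nat_lit 0) (nat_lit 0) (XT.lf (nat_lit 0) (nat_lit 2099974207) (nat_lit 152) (nat_lit 29823157645) (nat_lit 228) (nat_lit 45321530041) (nat_lit 18) (nat_lit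 5) (nat_lit 20) (nat_lit 5) (nat_lit 21) (nat_lit 5) (nat_lit 289) (nat_lit 259) (nat_lit 172)) (XT.lf (nat_lit 0) (nat_lit 48778923691) (nat_lit 152) (nat_lit 2982481489) (nat_lit 228) (nat_lit 30228379090) (nat_lit 18) (nat_lit 5) (nat_lit 20) (nat_lit 5) (nat_lit 21) (nat_lit 5) (nat_lit 290) (nat_lit 259) (nat_lit 171)))) (XT.nd (nat_lit 156) (nat_lit 228) (nat_lit 0) (XT.nd (nat_lit 78) (nat_lit 76) (nat_lit 0) (XT.lf (nat_lit 0) (nat_lit 12048971691) (nat_lit 76) (nat_lit 61726884593) (nat_lit 152) (nat_lit 13309211293) (nat_lit 17) (nat_lit 5) (nat_lit 18) (nat_lit 5) (nat_lit 19) (nat_lit 4) (nat_lit 291) (nat_lit 259) (nat_lit 170)) (XT.lf (nat_lit 0) (nat_lit 5438055738) (nat_lit 152) (nat_lit 30588906485) (nat_lit 76) (nat_lit 56525471318) (nat_lit 16) (nat_lit 5) (nat_lit 18) (nat_lit 5) (nat_lit 17) (nat_lit 5) (nat_lit 292) (nat_lit 259) (nat_lit 169))) (XT.nd (nat_lit 78)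 (nat_lit 76) (nat_lit 0) (XT.lf (nat_lit 0) (nat_lit 17750230619) (nat_lit 152) (nat_lit 7747450877) (nat_lit 228) (nat_lit 72934660394) (nat_lit 14) (nat_lit 5) (nat_lit 16) (nat_lit 5) (nat_lit 17) (nat_lit 5) (nat_lit 293) (nat_lit 259) (nat_lit 168)) (XT.nd (nat_lit 78) (nat_lit 76) (nat_lit 0) (XT.lf (nat_lit 0) (nat_lit 48055213881) (nat_lit 228) (nat_lit 34079176472) (nat_lit 76) (nat_lit 22603600969) (nat_lit 14) (nat_lit 5) (nat_lit 17) (nat_lit 5) (nat_lit 15) (nat_lit 4) (nat_lit 294) (nat_lit 259) (nat_lit 167)) (XT.lf (nat_lit 0) (nat_lit 16647347955) (nat_lit 76) (nat_lit 56156546685) (nat_lit 152) (nat_lit 38724875634) (nat_lit 13) (nat_lit 5) (nat_lit 14) (nat_lit 5) (nat_lit 15) (nat_lit 4) (nat_lit 295) (nat_lit 259) (nat_lit 166)))))) (XT.nd (nat_lit 390) (nat_lit 152) (nat_lit 0) (XT.nd (nat_lit 156) (nat_lit 76) (nat_lit 0) (XT.nd (nat_lit 78) (nat_lit 152) (nat_lit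 0) (XT.lf (nat_lit 0) (nat_lit 72642419396) (nat_lit 76) (nat_lit 27479880070) (nat_lit 152) (nat_lit 18711025090) (nat_lit 13) (nat_lit 5) (nat_lit 14) (nat_lit 5) (nat_lit 15) (nat_lit 4) (nat_lit 296) (nat_lit 259) (nat_lit 165)) (XT.lf (nat_lit 0) (nat_lit 2966597282) (nat_lit 152) (nat_lit 120218842877) (nat_lit 76) (nat_lit 3526759670) (nat_lit 11) (nat_lit 5) (nat_lit 13) (nat_lit 5) (nat_lit 12) (nat_lit 4) (nat_lit 297) (nat_lit 259) (nat_lit 164))) (XT.nd (nat_lit 78) (nat_lit 76) (nat_lit 0) (XT.lf (nat_lit 0) (nat_lit 27009364686) (nat_lit 152) (nat_lit 70937422926) (nat_lit 76) (nat_lit 37194940355) (nat_lit 11) (nat_lit 5) (nat_lit 13) (nat_lit 5) (nat_lit 12) (nat_lit 4) (nat_lit 298) (nat_lit 259) (nat_lit 163)) (XT.nd (nat_lit 78) (nat_lit 76) (nat_lit 0) (XT.lf (nat_lit 0) (nat_lit 52972356543) (nat_lit 152) (nat_lit 17719079646) (nat_lit 76) (nat_lit 73554345413) (nat_lit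 11) (nat_lit 5) (nat_lit 13) (nat_lit 5) (nat_lit 12) (nat_lit 4) (nat_lit 299) (nat_lit 259) (nat_lit 162)) (XT.lf (nat_lit 0) (nat_lit 41065920852) (nat_lit 76) (nat_lit 40584660878) (nat_lit 152) (nat_lit 72395671246) (nat_lit 10) (nat_lit 5) (nat_lit 11) (nat_lit 5) (nat_lit 12) (nat_lit 4) (nat_lit 300) (nat_lit 259) (nat_lit 161))))) (XT.nd (nat_lit 156) (nat_lit 152) (nat_lit 0) (XT.nd (nat_lit 78) (nat_lit 0) (nat_lit 0) (XT.lf (nat_lit 0) (nat_lit 105181512785) (nat_lit 76) (nat_lit 7747388919) (nat_lit 152) (nat_lit 51686571429) (nat_lit 10) (nat_lit 5) (nat_lit 11) (nat_lit 5) (nat_lit 12) (nat_lit 4) (nat_lit 301) (nat_lit 259) (nat_lit 160)) (XT.lf (nat_lit 0) (nat_lit 147139584966) (nat_lit 152) (nat_lit 2041303565) (nat_lit 0) (nat_lit 26827840186) (nat_lit 10) (nat_lit 5) (nat_lit 12) (nat_lit 4) (nat_lit 10) (nat_lit 4) (nat_lit 302) (nat_lit 259) (nat_lit 159))) (XT.nd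 (nat_lit 78) (nat_lit 76) (nat_lit 0) (XT.lf (nat_lit 0) (nat_lit 61785306673) (nat_lit 76) (nat_lit 123394648461) (nat_lit 76) (nat_lit 3078850499) (nat_lit 9) (nat_lit 4) (nat_lit 10) (nat_lit 5) (nat_lit 10) (nat_lit 4) (nat_lit 303) (nat_lit 259) (nat_lit 158)) (XT.nd (nat_lit 78) (nat_lit 0) (nat_lit 0) (XT.lf (nat_lit 0) (nat_lit 24015494481) (nat_lit 152) (nat_lit 71087787221) (nat_lit 76) (nat_lit 106364580490) (nat_lit 8) (nat_lit 5) (nat_lit 10) (nat_lit 5) (nat_lit 9) (nat_lit 4) (nat_lit 304) (nat_lit 259) (nat_lit 157)) (XT.lf (nat_lit 0) (nat_lit 53168767884) (nat_lit 152) (nat_lit 11327051696) (nat_lit 76) (nat_lit 151235339649) (nat_lit 8) (nat_lit 5) (nat_lit 10) (nat_lit 5) (nat_lit 9) (nat_lit 4) (nat_lit 305) (nat_lit 259) (nat_lit 156))))))) (XT.nd (nat_lit 702) (nat_lit 76) (nat_lit 0) (XT.nd (nat_lit 312) (nat_lit 152) (nat_lit 0) (XT.nd (nat_lit 156) (nat_lit 76)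 (nat_lit 0) (XT.nd (nat_lit 78) (nat_lit 0) (nat_lit 0) (XT.lf (nat_lit 0) (nat_lit 54970307941) (nat_lit 76) (nat_lit 30540204911) (nat_lit 152) (nat_lit 145582198581) (nat_lit 7) (nat_lit 5) (nat_lit 8) (nat_lit 5) (nat_lit 9) (nat_lit 4) (nat_lit 306) (nat_lit 259) (nat_lit 155)) (XT.lf (nat_lit 0) (nat_lit 120733918854) (nat_lit 152) (nat_lit 120799895419) (nat_lit 0) (nat_lit 6134659218) (nat_lit 7) (nat_lit 5) (nat_lit 9) (nat_lit 4) (nat_lit 7) (nat_lit 4) (nat_lit 307) (nat_lit 259) (nat_lit 154))) (XT.nd (nat_lit 78) (nat_lit 76) (nat_lit 0) (XT.lf (nat_lit 0) (nat_lit 159288347470) (nat_lit 152) (nat_lit 61569832490) (nat_lit 0) (nat_lit 44686460665) (nat_lit 7) (nat_lit 5) (nat_lit 9) (nat_lit 4) (nat_lit 7) (nat_lit 4) (nat_lit 308) (nat_lit 259) (nat_lit 153)) (XT.lf (nat_lit 0) (nat_lit 2474805683) (nat_lit 76) (nat_lit 198489284171) (nat_lit 76) (nat_lit 83884964802) (nat_lit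 6) (nat_lit 4) (nat_lit 7) (nat_lit 5) (nat_lit 7) (nat_lit 4) (nat_lit 309) (nat_lit 259) (nat_lit 152)))) (XT.nd (nat_lit 156) (nat_lit 152) (nat_lit 0) (XT.nd (nat_lit 78) (nat_lit 0) (nat_lit 0) (XT.lf (nat_lit 0) (nat_lit 73838746813) (nat_lit 76) (nat_lit 173206051399) (nat_lit 76) (nat_lit 58599479655) (nat_lit 6) (nat_lit 4) (nat_lit 7) (nat_lit 5) (nat_lit 7) (nat_lit 4) (nat_lit 310) (nat_lit 259) (nat_lit 151)) (XT.lf (nat_lit 0) (nat_lit 150909111609) (nat_lit 76) (nat_lit 145901369986) (nat_lit 76) (nat_lit 31292712710) (nat_lit 6) (nat_lit 4) (nat_lit 7) (nat_lit 5) (nat_lit 7) (nat_lit 4) (nat_lit 311) (nat_lit 259) (nat_lit 150))) (XT.nd (nat_lit 78) (nat_lit 152) (nat_lit 0) (XT.lf (nat_lit 0) (nat_lit 234142613344) (nat_lit 76) (nat_lit 116413434410) (nat_lit 76) (nat_lit 1802846086) (nat_lit 6) (nat_lit 4) (nat_lit 7) (nat_lit 5) (nat_lit 7) (nat_lit 4) (nat_lit 312)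 (nat_lit 259) (nat_lit 149)) (XT.nd (nat_lit 78) (nat_lit 76) (nat_lit 0) (XT.lf (nat_lit 0) (nat_lit 29083251346) (nat_lit 152) (nat_lit 54991711071) (nat_lit 76) (nat_lit 294456697303) (nat_lit 5) (nat_lit 5) (nat_lit 7) (nat_lit 5) (nat_lit 6) (nat_lit 4) (nat_lit 313) (nat_lit 259) (nat_lit 148)) (XT.lf (nat_lit 0) (nat_lit 13696624935) (nat_lit 76) (nat_lit 48893939371) (nat_lit 152) (nat_lit 344195531259) (nat_lit 4) (nat_lit 5) (nat_lit 5) (nat_lit 5) (nat_lit 6) (nat_lit 4) (nat_lit 314) (nat_lit 259) (nat_lit 147)))))) (XT.nd (nat_lit 390) (nat_lit 76) (nat_lit 0) (XT.nd (nat_lit 156) (nat_lit 0) (nat_lit 0) (XT.nd (nat_lit 78) (nat_lit 0) (nat_lit 0) (XT.lf (nat_lit 0) (nat_lit 89841681476) (nat_lit 76) (nat_lit 9893560620) (nat_lit 152) (nat_lit 337517806092) (nat_lit 4) (nat_lit 5) (nat_lit 5) (nat_lit 5) (nat_lit 6) (nat_lit 4) (nat_lit 315) (nat_lit 259) (nat_lit 146)) (XT.lf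 (nat_lit 0) (nat_lit 140353576040) (nat_lit 152) (nat_lit 298584134248) (nat_lit 0) (nat_lit 31194543468) (nat_lit 4) (nat_lit 5) (nat_lit 6) (nat_lit 4) (nat_lit 4) (nat_lit 4) (nat_lit 316) (nat_lit 259) (nat_lit 145))) (XT.nd (nat_lit 78) (nat_lit 0) (nat_lit 0) (XT.lf (nat_lit 0) (nat_lit 184387209936) (nat_lit 152) (nat_lit 246019369236) (nat_lit 0) (nat_lit 75226925709) (nat_lit 4) (nat_lit 5) (nat_lit 6) (nat_lit 4) (nat_lit 4) (nat_lit 4) (nat_lit 317) (nat_lit 259) (nat_lit 144)) (XT.nd (nat_lit 78) (nat_lit 0) (nat_lit 0) (XT.lf (nat_lit 0) (nat_lit 231942617630) (nat_lit 152) (nat_lit 189251110563) (nat_lit 0) (nat_lit 122781174462) (nat_lit 4) (nat_lit 5) (nat_lit 6) (nat_lit 4) (nat_lit 4) (nat_lit 4) (nat_lit 318) (nat_lit 259) (nat_lit 143)) (XT.lf (nat_lit 0) (nat_lit 283301608945) (nat_lit 152) (nat_lit 127942953733) (nat_lit 0) (nat_lit 174139092683) (nat_lit 4) (nat_lit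 5) (nat_lit 6) (nat_lit 4) (nat_lit 4) (nat_lit 4) (nat_lit 319) (nat_lit 259) (nat_lit 142))))) (XT.nd (nat_lit 156) (nat_lit 0) (nat_lit 0) (XT.nd (nat_lit 78) (nat_lit 76) (nat_lit 0) (XT.lf (nat_lit 0) (nat_lit 338768533459) (nat_lit 152) (nat_lit 61731591152) (nat_lit 0) (nat_lit 229605023592) (nat_lit 4) (nat_lit 5) (nat_lit 6) (nat_lit 4) (nat_lit 4) (nat_lit 4) (nat_lit 320) (nat_lit 259) (nat_lit 141)) (XT.lf (nat_lit 0) (nat_lit 10098557725) (nat_lit 76) (nat_lit 388731193120) (nat_lit 76) (nat_lit 279566763249) (nat_lit 3) (nat_lit 4) (nat_lit 4) (nat_lit 5) (nat_lit 4) (nat_lit 4) (nat_lit 321) (nat_lit 259) (nat_lit 140))) (XT.nd (nat_lit 32682) (nat_lit 0) (nat_lit 5472) (XT.lf (nat_lit 0) (nat_lit 89878252314) (nat_lit 76) (nat_lit 374892243834) (nat_lit 76) (nat_lit 265726962106) (nat_lit 3) (nat_lit 4) (nat_lit 4) (nat_lit 5) (nat_lit 4) (nat_lit 4) (nat_lit 322) (nat_lit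 259) (nat_lit 139)) (XT.nd (nat_lit 78) (nat_lit 0) (nat_lit 0) (XT.lf (nat_lit 0) (nat_lit 2104056470) (nat_lit 0) (nat_lit 2104056470) (nat_lit 684) (nat_lit 5408153348) (nat_lit 75) (nat_lit 5) (nat_lit 75) (nat_lit 3) (nat_lit 84) (nat_lit 3) (nat_lit 260) (nat_lit 260) (nat_lit 200)) (XT.lf (nat_lit 0) (nat_lit 9156854575) (nat_lit 684) (nat_lit 1830580145) (nat_lit 760) (nat_lit 8993436953) (nat_lit 75) (nat_lit 5) (nat_lit 84) (nat_lit 3) (nat_lit 85) (nat_lit 5) (nat_lit 261) (nat_lit 260) (nat_lit 199))))))))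
noncomputable def xc87 : XT := (XT.nd (nat_lit 1482) (nat_lit 1748) (nat_lit 0) (XT.nd (nat_lit 702) (nat_lit 1900) (nat_lit 0) (XT.nd (nat_lit 312) (nat_lit 1292) (nat_lit 0) (XT.nd (nat_lit 156) (nat_lit 0) (nat_lit 76) (XT.nd (nat_lit 78) (nat_lit 0) (nat_lit 0) (XT.lf (nat_lit 0) (nat_lit 10240570432) (nat_lit 684) (nat_lit 8075526658) (nat_lit 760) (nat_lit 2458865323) (nat_lit 76) (nat_lit 5) (nat_lit 85) (nat_lit 5) (nat_lit 86) (nat_lit 5) (nat_lit 262) (nat_lit 260) (nat_lit 198)) (XT.lf (nat_lit 76) (nat_lit 6844177298) (nat_lit 0) (nat_lit 4867483861) (nat_lit 760) (nat_lit 9905956075) (nat_lit 77) (nat_lit 5) (nat_lit 76) (nat_lit 5) (nat_lit 86) (nat_lit 5) (nat_lit 263) (nat_lit 260) (nat_lit 197))) (XT.nd (nat_lit 78) (nat_lit 0) (nat_lit 76) (XT.lf (nat_lit 76) (nat_lit 574530961) (nat_lit 0) (nat_lit 13006428183) (nat_lit 760) (nat_lit 8932764763) (nat_lit 78) (nat_lit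 5) (nat_lit 77) (nat_lit 5) (nat_lit 87) (nat_lit 5) (nat_lit 264) (nat_lit 260) (nat_lit 196)) (XT.lf (nat_lit 0) (nat_lit 15943030799) (nat_lit 684) (nat_lit 5913803518) (nat_lit 760) (nat_lit 1607583921) (nat_lit 78) (nat_lit 5) (nat_lit 87) (nat_lit 5) (nat_lit 88) (nat_lit 5) (nat_lit 265) (nat_lit 260) (nat_lit 195)))) (XT.nd (nat_lit 156) (nat_lit 836) (nat_lit 0) (XT.nd (nat_lit 78) (nat_lit 608) (nat_lit 0) (XT.lf (nat_lit 76) (nat_lit 11528040374) (nat_lit 0) (nat_lit 7346151526) (nat_lit 760) (nat_lit 5598026156) (nat_lit 79) (nat_lit 5) (nat_lit 78) (nat_lit 5) (nat_lit 88) (nat_lit 5) (nat_lit 266) (nat_lit 260) (nat_lit 194)) (XT.lf (nat_lit 0) (nat_lit 5034818924) (nat_lit 684) (nat_lit 17300393140) (nat_lit 760) (nat_lit 3210713456) (nat_lit 70) (nat_lit 5) (nat_lit 79) (nat_lit 5) (nat_lit 80) (nat_lit 5) (nat_lit 267) (nat_lit 260) (nat_lit 193))) (XT.nd (nat_lit 78)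 (nat_lit 836) (nat_lit 0) (XT.lf (nat_lit 0) (nat_lit 24771503345) (nat_lit 684) (nat_lit 1632129233) (nat_lit 760) (nat_lit 285419186) (nat_lit 70) (nat_lit 5) (nat_lit 79) (nat_lit 5) (nat_lit 80) (nat_lit 5) (nat_lit 268) (nat_lit 260) (nat_lit 192)) (XT.nd (nat_lit 78) (nat_lit 380) (nat_lit 0) (XT.lf (nat_lit 0) (nat_lit 3302295920) (nat_lit 456) (nat_lit 9449010392) (nat_lit 76) (nat_lit 15144101747) (nat_lit 64) (nat_lit 5) (nat_lit 70) (nat_lit 5) (nat_lit 65) (nat_lit 5) (nat_lit 269) (nat_lit 260) (nat_lit 191)) (XT.lf (nat_lit 0) (nat_lit 7461618433) (nat_lit 456) (nat_lit 17616528564) (nat_lit 76) (nat_lit 4105201705) (nat_lit 59) (nat_lit 5) (nat_lit 65) (nat_lit 5) (nat_lit 60) (nat_lit 5) (nat_lit 270) (nat_lit 260) (nat_lit 190)))))) (XT.nd (nat_lit 390) (nat_lit 684) (nat_lit 0) (XT.nd (nat_lit 156) (nat_lit 912) (nat_lit 0) (XT.nd (nat_lit 78) (nat_lit 0) (nat_lit 0)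 (XT.lf (nat_lit 0) (nat_lit 3928625766) (nat_lit 304) (nat_lit 8454687159) (nat_lit 380) (nat_lit 18169566745) (nat_lit 55) (nat_lit 5) (nat_lit 59) (nat_lit 5) (nat_lit 60) (nat_lit 5) (nat_lit 271) (nat_lit 260) (nat_lit 189)) (XT.lf (nat_lit 0) (nat_lit 18145734358) (nat_lit 380) (nat_lit 4358181506) (nat_lit 76) (nat_lit 9505741365) (nat_lit 55) (nat_lit 5) (nat_lit 60) (nat_lit 5) (nat_lit 56) (nat_lit 5) (nat_lit 272) (nat_lit 260) (nat_lit 188))) (XT.nd (nat_lit 78) (nat_lit 608) (nat_lit 0) (XT.lf (nat_lit 0) (nat_lit 20178859508) (nat_lit 304) (nat_lit 4635670059) (nat_lit 380) (nat_lit 8746209612) (nat_lit 51) (nat_lit 5) (nat_lit 55) (nat_lit 5) (nat_lit 56) (nat_lit 5) (nat_lit 273) (nat_lit 260) (nat_lit 187)) (XT.nd (nat_lit 78) (nat_lit 380) (nat_lit 0) (XT.lf (nat_lit 0) (nat_lit 11734192668) (nat_lit 228) (nat_lit 20760365641) (nat_lit 304) (nat_lit 2717491761) (nat_lit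 48) (nat_lit 5) (nat_lit 51) (nat_lit 5) (nat_lit 52) (nat_lit 5) (nat_lit 274) (nat_lit 260) (nat_lit 186)) (XT.lf (nat_lit 0) (nat_lit 2271698846) (nat_lit 304) (nat_lit 1739864333) (nat_lit 380) (nat_lit 32963993936) (nat_lit 43) (nat_lit 5) (nat_lit 47) (nat_lit 5) (nat_lit 48) (nat_lit 5) (nat_lit 275) (nat_lit 260) (nat_lit 185))))) (XT.nd (nat_lit 156) (nat_lit 456) (nat_lit 0) (XT.nd (nat_lit 78) (nat_lit 228) (nat_lit 0) (XT.lf (nat_lit 0) (nat_lit 11883720883) (nat_lit 380) (nat_lit 8299499050) (nat_lit 76) (nat_lit 18659721619) (nat_lit 43) (nat_lit 5) (nat_lit 48) (nat_lit 5) (nat_lit 44) (nat_lit 5) (nat_lit 276) (nat_lit 260) (nat_lit 184)) (XT.lf (nat_lit 0) (nat_lit 20732410805) (nat_lit 304) (nat_lit 20001609652) (nat_lit 76) (nat_lit 108380139) (nat_lit 40) (nat_lit 5) (nat_lit 44) (nat_lit 5) (nat_lit 41) (nat_lit 5) (nat_lit 277) (nat_lit 260) (nat_lit 183))) (XT.nd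 (nat_lit 78) (nat_lit 228) (nat_lit 0) (XT.lf (nat_lit 0) (nat_lit 9565299366) (nat_lit 228) (nat_lit 21351064414) (nat_lit 304) (nat_lit 12054104408) (nat_lit 37) (nat_lit 5) (nat_lit 40) (nat_lit 5) (nat_lit 41) (nat_lit 5) (nat_lit 278) (nat_lit 260) (nat_lit 182)) (XT.nd (nat_lit 78) (nat_lit 228) (nat_lit 0) (XT.lf (nat_lit 0) (nat_lit 42200101426) (nat_lit 228) (nat_lit 54607219) (nat_lit 304) (nat_lit 2997107478) (nat_lit 37) (nat_lit 5) (nat_lit 40) (nat_lit 5) (nat_lit 41) (nat_lit 5) (nat_lit 279) (nat_lit 260) (nat_lit 181)) (XT.lf (nat_lit 0) (nat_lit 7404457191) (nat_lit 228) (nat_lit 17462591349) (nat_lit 76) (nat_lit 22801486010) (nat_lit 34) (nat_lit 5) (nat_lit 37) (nat_lit 5) (nat_lit 35) (nat_lit 5) (nat_lit 280) (nat_lit 260) (nat_lit 180))))))) (XT.nd (nat_lit 780) (nat_lit 532) (nat_lit 0) (XT.nd (nat_lit 390) (nat_lit 608) (nat_lit 0) (XT.nd (nat_lit 156) (nat_lit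 228) (nat_lit 0) (XT.nd (nat_lit 78) (nat_lit 152) (nat_lit 0) (XT.lf (nat_lit 0) (nat_lit 16419443669) (nat_lit 228) (nat_lit 2418565951) (nat_lit 304) (nat_lit 31422896138) (nat_lit 31) (nat_lit 5) (nat_lit 34) (nat_lit 5) (nat_lit 35) (nat_lit 5) (nat_lit 281) (nat_lit 260) (nat_lit 179)) (XT.lf (nat_lit 0) (nat_lit 241273853) (nat_lit 152) (nat_lit 31591201081) (nat_lit 228) (nat_lit 21195894446) (nat_lit 29) (nat_lit 5) (nat_lit 31) (nat_lit 5) (nat_lit 32) (nat_lit 5) (nat_lit 282) (nat_lit 260) (nat_lit 178))) (XT.nd (nat_lit 78) (nat_lit 228) (nat_lit 0) (XT.lf (nat_lit 0) (nat_lit 38206571204) (nat_lit 152) (nat_lit 8282463849) (nat_lit 228) (nat_lit 9497081263) (nat_lit 29) (nat_lit 5) (nat_lit 31) (nat_lit 5) (nat_lit 32) (nat_lit 5) (nat_lit 283) (nat_lit 260) (nat_lit 177)) (XT.nd (nat_lit 78) (nat_lit 0) (nat_lit 0) (XT.lf (nat_lit 0) (nat_lit 3622377862) (nat_lit 228) (nat_lit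 38801968439) (nat_lit 76) (nat_lit 16724440654) (nat_lit 26) (nat_lit 5) (nat_lit 29) (nat_lit 5) (nat_lit 27) (nat_lit 5) (nat_lit 284) (nat_lit 260) (nat_lit 176)) (XT.lf (nat_lit 0) (nat_lit 17911175238) (nat_lit 228) (nat_lit 705373580) (nat_lit 76) (nat_lit 43917522984) (nat_lit 26) (nat_lit 5) (nat_lit 29) (nat_lit 5) (nat_lit 27) (nat_lit 5) (nat_lit 285) (nat_lit 260) (nat_lit 175))))) (XT.nd (nat_lit 156) (nat_lit 304) (nat_lit 0) (XT.nd (nat_lit 78) (nat_lit 152) (nat_lit 0) (XT.lf (nat_lit 0) (nat_lit 34110695253) (nat_lit 228) (nat_lit 24512551207) (nat_lit 76) (nat_lit 7528561940) (nat_lit 24) (nat_lit 5) (nat_lit 27) (nat_lit 5) (nat_lit 25) (nat_lit 5) (nat_lit 286) (nat_lit 260) (nat_lit 174)) (XT.lf (nat_lit 0) (nat_lit 17577950489) (nat_lit 152) (nat_lit 34623415796) (nat_lit 228) (nat_lit 17827847344) (nat_lit 22) (nat_lit 5) (nat_lit 24) (nat_lit 5) (nat_lit 25) (nat_lit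 5) (nat_lit 287) (nat_lit 260) (nat_lit 173))) (XT.nd (nat_lit 78) (nat_lit 304) (nat_lit 0) (XT.lf (nat_lit 0) (nat_lit 63902571052) (nat_lit 152) (nat_lit 8258349954) (nat_lit 228) (nat_lit 2034817264) (nat_lit 22) (nat_lit 5) (nat_lit 24) (nat_lit 5) (nat_lit 25) (nat_lit 5) (nat_lit 288) (nat_lit 260) (nat_lit 172)) (XT.nd (nat_lit 78) (nat_lit 152) (nat_lit 0) (XT.lf (nat_lit 0) (nat_lit 15428928936) (nat_lit 152) (nat_lit 42832440136) (nat_lit 76) (nat_lit 20378093767) (nat_lit 20) (nat_lit 5) (nat_lit 22) (nat_lit 5) (nat_lit 21) (nat_lit 5) (nat_lit 289) (nat_lit 260) (nat_lit 171)) (XT.lf (nat_lit 0) (nat_lit 2426372040) (nat_lit 152) (nat_lit 32147594466) (nat_lit 228) (nat_lit 48845283832) (nat_lit 18) (nat_lit 5) (nat_lit 20) (nat_lit 5) (nat_lit 21) (nat_lit 5) (nat_lit 290) (nat_lit 260) (nat_lit 170)))))) (XT.nd (nat_lit 390) (nat_lit 228) (nat_lit 0) (XT.nd (nat_lit 156)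 (nat_lit 228) (nat_lit 0) (XT.nd (nat_lit 78) (nat_lit 76) (nat_lit 0) (XT.lf (nat_lit 0) (nat_lit 52827904157) (nat_lit 152) (nat_lit 3164213536) (nat_lit 228) (nat_lit 32552234036) (nat_lit 18) (nat_lit 5) (nat_lit 20) (nat_lit 5) (nat_lit 21) (nat_lit 5) (nat_lit 291) (nat_lit 260) (nat_lit 169)) (XT.lf (nat_lit 0) (nat_lit 13156747495) (nat_lit 76) (nat_lit 66607393638) (nat_lit 152) (nat_lit 14283305036) (nat_lit 17) (nat_lit 5) (nat_lit 18) (nat_lit 5) (nat_lit 19) (nat_lit 4) (nat_lit 292) (nat_lit 260) (nat_lit 168))) (XT.nd (nat_lit 78) (nat_lit 152) (nat_lit 0) (XT.lf (nat_lit 0) (nat_lit 5954342803) (nat_lit 152) (nat_lit 32900028550) (nat_lit 76) (nat_lit 61098092450) (nat_lit 16) (nat_lit 5) (nat_lit 18) (nat_lit 5) (nat_lit 17) (nat_lit 5) (nat_lit 293) (nat_lit 260) (nat_lit 167)) (XT.nd (nat_lit 78) (nat_lit 0) (nat_lit 0) (XT.lf (nat_lit 0) (nat_lit 19300329544) (nat_lit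 152) (nat_lit 8314422028) (nat_lit 228) (nat_lit 78688220178) (nat_lit 14) (nat_lit 5) (nat_lit 16) (nat_lit 5) (nat_lit 17) (nat_lit 5) (nat_lit 294) (nat_lit 260) (nat_lit 166)) (XT.lf (nat_lit 0) (nat_lit 51971927566) (nat_lit 228) (nat_lit 36682165015) (nat_lit 76) (nat_lit 24459235521) (nat_lit 14) (nat_lit 5) (nat_lit 17) (nat_lit 5) (nat_lit 15) (nat_lit 4) (nat_lit 295) (nat_lit 260) (nat_lit 165))))) (XT.nd (nat_lit 156) (nat_lit 152) (nat_lit 0) (XT.nd (nat_lit 78) (nat_lit 0) (nat_lit 0) (XT.lf (nat_lit 0) (nat_lit 18097120918) (nat_lit 76) (nat_lit 60599868644) (nat_lit 152) (nat_lit 41750561964) (nat_lit 13) (nat_lit 5) (nat_lit 14) (nat_lit 5) (nat_lit 15) (nat_lit 4) (nat_lit 296) (nat_lit 260) (nat_lit 164)) (XT.lf (nat_lit 0) (nat_lit 78563058435) (nat_lit 76) (nat_lit 29632713276) (nat_lit 152) (nat_lit 20140959208) (nat_lit 13) (nat_lit 5) (nat_lit 14) (nat_lit 5) (nat_lit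 15) (nat_lit 4) (nat_lit 297) (nat_lit 260) (nat_lit 163))) (XT.nd (nat_lit 78) (nat_lit 0) (nat_lit 0) (XT.lf (nat_lit 0) (nat_lit 3266296139) (nat_lit 152) (nat_lit 129727286345) (nat_lit 76) (nat_lit 3852408476) (nat_lit 11) (nat_lit 5) (nat_lit 13) (nat_lit 5) (nat_lit 12) (nat_lit 4) (nat_lit 298) (nat_lit 260) (nat_lit 162)) (XT.nd (nat_lit 78) (nat_lit 0) (nat_lit 0) (XT.lf (nat_lit 0) (nat_lit 29227864856) (nat_lit 152) (nat_lit 76511431610) (nat_lit 76) (nat_lit 40210820798) (nat_lit 11) (nat_lit 5) (nat_lit 13) (nat_lit 5) (nat_lit 12) (nat_lit 4) (nat_lit 299) (nat_lit 260) (nat_lit 161)) (XT.lf (nat_lit 0) (nat_lit 57263618210) (nat_lit 152) (nat_lit 19043101248) (nat_lit 76) (nat_lit 79475994171) (nat_lit 11) (nat_lit 5) (nat_lit 13) (nat_lit 5) (nat_lit 12) (nat_lit 4) (nat_lit 300) (nat_lit 260) (nat_lit 160))))))))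
noncomputable def xc88 : XT := (XT.nd (nat_lit 1482) (nat_lit 76) (nat_lit 0) (XT.nd (nat_lit 702) (nat_lit 228) (nat_lit 0) (XT.nd (nat_lit 312) (nat_lit 152) (nat_lit 0) (XT.nd (nat_lit 156) (nat_lit 76) (nat_lit 0) (XT.nd (nat_lit 78) (nat_lit 0) (nat_lit 0) (XT.lf (nat_lit 0) (nat_lit 44440635685) (nat_lit 76) (nat_lit 43792901179) (nat_lit 152) (nat_lit 78133818285) (nat_lit 10) (nat_lit 5) (nat_lit 11) (nat_lit 5) (nat_lit 12) (nat_lit 4) (nat_lit 301) (nat_lit 260) (nat_lit 159)) (XT.lf (nat_lit 0) (nat_lit 113678849702) (nat_lit 76) (nat_lit 8331501728) (nat_lit 152) (nat_lit 55771953940) (nat_lit 10) (nat_lit 5) (nat_lit 11) (nat_lit 5) (nat_lit 12) (nat_lit 4) (nat_lit 302) (nat_lit 260) (nat_lit 158))) (XT.nd (nat_lit 78) (nat_lit 76) (nat_lit 0) (XT.lf (nat_lit 0) (nat_lit 158954913456) (nat_lit 152) (nat_lit 2126214823) (nat_lit 0) (nat_lit 29006045527) (nat_lit 10) (nat_lit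 5) (nat_lit 12) (nat_lit 4) (nat_lit 10) (nat_lit 4) (nat_lit 303) (nat_lit 260) (nat_lit 157)) (XT.lf (nat_lit 0) (nat_lit 66803117369) (nat_lit 76) (nat_lit 133233295376) (nat_lit 76) (nat_lit 3280952497) (nat_lit 9) (nat_lit 4) (nat_lit 10) (nat_lit 5) (nat_lit 10) (nat_lit 4) (nat_lit 304) (nat_lit 260) (nat_lit 156)))) (XT.nd (nat_lit 156) (nat_lit 76) (nat_lit 0) (XT.nd (nat_lit 78) (nat_lit 0) (nat_lit 0) (XT.lf (nat_lit 0) (nat_lit 25976355496) (nat_lit 152) (nat_lit 76704031658) (nat_lit 76) (nat_lit 114902886095) (nat_lit 8) (nat_lit 5) (nat_lit 10) (nat_lit 5) (nat_lit 9) (nat_lit 4) (nat_lit 305) (nat_lit 260) (nat_lit 155)) (XT.lf (nat_lit 0) (nat_lit 57458955849) (nat_lit 152) (nat_lit 12167680146) (nat_lit 76) (nat_lit 163361147531) (nat_lit 8) (nat_lit 5) (nat_lit 10) (nat_lit 5) (nat_lit 9) (nat_lit 4) (nat_lit 306) (nat_lit 260) (nat_lit 154))) (XT.nd (nat_lit 78) (nat_lit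 0) (nat_lit 0) (XT.lf (nat_lit 0) (nat_lit 59430620161) (nat_lit 76) (nat_lit 32955681461) (nat_lit 152) (nat_lit 157192047751) (nat_lit 7) (nat_lit 5) (nat_lit 8) (nat_lit 5) (nat_lit 9) (nat_lit 4) (nat_lit 307) (nat_lit 260) (nat_lit 153)) (XT.nd (nat_lit 78) (nat_lit 0) (nat_lit 0) (XT.lf (nat_lit 0) (nat_lit 130425392397) (nat_lit 152) (nat_lit 130404596809) (nat_lit 0) (nat_lit 6650294914) (nat_lit 7) (nat_lit 5) (nat_lit 9) (nat_lit 4) (nat_lit 7) (nat_lit 4) (nat_lit 308) (nat_lit 260) (nat_lit 152)) (XT.lf (nat_lit 0) (nat_lit 172061748634) (nat_lit 152) (nat_lit 66440520715) (nat_lit 0) (nat_lit 48284398776) (nat_lit 7) (nat_lit 5) (nat_lit 9) (nat_lit 4) (nat_lit 7) (nat_lit 4) (nat_lit 309) (nat_lit 260) (nat_lit 151)))))) (XT.nd (nat_lit 390) (nat_lit 76) (nat_lit 0) (XT.nd (nat_lit 156) (nat_lit 76) (nat_lit 0) (XT.nd (nat_lit 78) (nat_lit 0) (nat_lit 0) (XT.lf (nat_lit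 0) (nat_lit 2725302695) (nat_lit 76) (nat_lit 214344820666) (nat_lit 76) (nat_lit 90565385276) (nat_lit 6) (nat_lit 4) (nat_lit 7) (nat_lit 5) (nat_lit 7) (nat_lit 4) (nat_lit 310) (nat_lit 260) (nat_lit 150)) (XT.lf (nat_lit 0) (nat_lit 79794469296) (nat_lit 76) (nat_lit 187040677883) (nat_lit 76) (nat_lit 63259311445) (nat_lit 6) (nat_lit 4) (nat_lit 7) (nat_lit 5) (nat_lit 7) (nat_lit 4) (nat_lit 311) (nat_lit 260) (nat_lit 149))) (XT.nd (nat_lit 78) (nat_lit 76) (nat_lit 0) (XT.lf (nat_lit 0) (nat_lit 163026861592) (nat_lit 76) (nat_lit 157553241039) (nat_lit 76) (nat_lit 33770086594) (nat_lit 6) (nat_lit 4) (nat_lit 7) (nat_lit 5) (nat_lit 7) (nat_lit 4) (nat_lit 312) (nat_lit 260) (nat_lit 148)) (XT.nd (nat_lit 78) (nat_lit 76) (nat_lit 0) (XT.lf (nat_lit 0) (nat_lit 252915708572) (nat_lit 76) (nat_lit 125707769769) (nat_lit 76) (nat_lit 1922959761) (nat_lit 6) (nat_lit 4) (nat_lit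 7) (nat_lit 5) (nat_lit 7) (nat_lit 4) (nat_lit 313) (nat_lit 260) (nat_lit 147)) (XT.lf (nat_lit 0) (nat_lit 31431524614) (nat_lit 152) (nat_lit 59351717477) (nat_lit 76) (nat_lit 318029852195) (nat_lit 5) (nat_lit 5) (nat_lit 7) (nat_lit 5) (nat_lit 6) (nat_lit 4) (nat_lit 314) (nat_lit 260) (nat_lit 146))))) (XT.nd (nat_lit 156) (nat_lit 0) (nat_lit 0) (XT.nd (nat_lit 78) (nat_lit 0) (nat_lit 0) (XT.lf (nat_lit 0) (nat_lit 14829976155) (nat_lit 76) (nat_lit 52788432854) (nat_lit 152) (nat_lit 371709527970) (nat_lit 4) (nat_lit 5) (nat_lit 5) (nat_lit 5) (nat_lit 6) (nat_lit 4) (nat_lit 315) (nat_lit 260) (nat_lit 145)) (XT.lf (nat_lit 0) (nat_lit 97063850461) (nat_lit 76) (nat_lit 10669284667) (nat_lit 152) (nat_lit 364499188182) (nat_lit 4) (nat_lit 5) (nat_lit 5) (nat_lit 5) (nat_lit 6) (nat_lit 4) (nat_lit 316) (nat_lit 260) (nat_lit 144))) (XT.nd (nat_lit 78) (nat_lit 0) (nat_lit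 0) (XT.lf (nat_lit 0) (nat_lit 151599750767) (nat_lit 152) (nat_lit 322437941720) (nat_lit 0) (nat_lit 33704233204) (nat_lit 4) (nat_lit 5) (nat_lit 6) (nat_lit 4) (nat_lit 4) (nat_lit 4) (nat_lit 317) (nat_lit 260) (nat_lit 143)) (XT.nd (nat_lit 78) (nat_lit 0) (nat_lit 0) (XT.lf (nat_lit 0) (nat_lit 199154750290) (nat_lit 152) (nat_lit 265670434267) (nat_lit 0) (nat_lit 81258159634) (nat_lit 4) (nat_lit 5) (nat_lit 6) (nat_lit 4) (nat_lit 4) (nat_lit 4) (nat_lit 318) (nat_lit 260) (nat_lit 142)) (XT.lf (nat_lit 0) (nat_lit 250513363669) (nat_lit 152) (nat_lit 204362973012) (nat_lit 0) (nat_lit 132615779408) (nat_lit 4) (nat_lit 5) (nat_lit 6) (nat_lit 4) (nat_lit 4) (nat_lit 4) (nat_lit 319) (nat_lit 260) (nat_lit 141))))))) (XT.nd (nat_lit 33384) (nat_lit 0) (nat_lit 3040) (XT.nd (nat_lit 32994) (nat_lit 0) (nat_lit 5472) (XT.nd (nat_lit 156) (nat_lit 76) (nat_lit 0) (XT.nd (nat_lit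 78) (nat_lit 0) (nat_lit 0) (XT.lf (nat_lit 0) (nat_lit 305979938243) (nat_lit 152) (nat_lit 138152254480) (nat_lit 0) (nat_lit 188081433977) (nat_lit 4) (nat_lit 5) (nat_lit 6) (nat_lit 4) (nat_lit 4) (nat_lit 4) (nat_lit 320) (nat_lit 260) (nat_lit 140)) (XT.lf (nat_lit 0) (nat_lit 365883164823) (nat_lit 152) (nat_lit 66645918859) (nat_lit 0) (nat_lit 247983808701) (nat_lit 4) (nat_lit 5) (nat_lit 6) (nat_lit 4) (nat_lit 4) (nat_lit 4) (nat_lit 321) (nat_lit 260) (nat_lit 139))) (XT.nd (nat_lit 32760) (nat_lit 0) (nat_lit 5472) (XT.lf (nat_lit 0) (nat_lit 10929590244) (nat_lit 76) (nat_lit 419819076783) (nat_lit 76) (nat_lit 301918931905) (nat_lit 3) (nat_lit 4) (nat_lit 4) (nat_lit 5) (nat_lit 4) (nat_lit 4) (nat_lit 322) (nat_lit 260) (nat_lit 138)) (XT.lf (nat_lit 0) (nat_lit 2398729533) (nat_lit 0) (nat_lit 2398729533) (nat_lit 684) (nat_lit 5574728803) (nat_lit 75) (nat_lit 5)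 (nat_lit 75) (nat_lit 3) (nat_lit 84) (nat_lit 3) (nat_lit 261) (nat_lit 261) (nat_lit 198)))) (XT.nd (nat_lit 156) (nat_lit 0) (nat_lit 76) (XT.nd (nat_lit 78) (nat_lit 0) (nat_lit 76) (XT.lf (nat_lit 0) (nat_lit 10353707450) (nat_lit 684) (nat_lit 1714617440) (nat_lit 760) (nat_lit 9486421905) (nat_lit 75) (nat_lit 5) (nat_lit 84) (nat_lit 3) (nat_lit 85) (nat_lit 5) (nat_lit 262) (nat_lit 261) (nat_lit 197)) (XT.lf (nat_lit 0) (nat_lit 11490792127) (nat_lit 684) (nat_lit 8444740504) (nat_lit 760) (nat_lit 2478600761) (nat_lit 76) (nat_lit 5) (nat_lit 85) (nat_lit 5) (nat_lit 86) (nat_lit 5) (nat_lit 263) (nat_lit 261) (nat_lit 196))) (XT.nd (nat_lit 78) (nat_lit 0) (nat_lit 76) (XT.lf (nat_lit 76) (nat_lit 7656509147) (nat_lit 0) (nat_lit 5395271045) (nat_lit 760) (nat_lit 10273904511) (nat_lit 77) (nat_lit 5) (nat_lit 76) (nat_lit 5) (nat_lit 86) (nat_lit 5) (nat_lit 264) (nat_lit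 261) (nat_lit 195)) (XT.nd (nat_lit 78) (nat_lit 0) (nat_lit 76) (XT.lf (nat_lit 76) (nat_lit 896264468) (nat_lit 0) (nat_lit 14146796882) (nat_lit 760) (nat_lit 9251884194) (nat_lit 78) (nat_lit 5) (nat_lit 77) (nat_lit 5) (nat_lit 87) (nat_lit 5) (nat_lit 265) (nat_lit 261) (nat_lit 194)) (XT.lf (nat_lit 0) (nat_lit 17564831103) (nat_lit 684) (nat_lit 6111716768) (nat_lit 760) (nat_lit 1646692044) (nat_lit 78) (nat_lit 5) (nat_lit 87) (nat_lit 5) (nat_lit 88) (nat_lit 5) (nat_lit 266) (nat_lit 261) (nat_lit 193)))))) (XT.nd (nat_lit 390) (nat_lit 1216) (nat_lit 0) (XT.nd (nat_lit 156) (nat_lit 836) (nat_lit 0) (XT.nd (nat_lit 78) (nat_lit 608) (nat_lit 0) (XT.lf (nat_lit 76) (nat_lit 12713515169) (nat_lit 0) (nat_lit 7995423569) (nat_lit 760) (nat_lit 5703877401) (nat_lit 79) (nat_lit 5) (nat_lit 78) (nat_lit 5) (nat_lit 88) (nat_lit 5) (nat_lit 267) (nat_lit 261) (nat_lit 192)) (XT.lf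 (nat_lit 0) (nat_lit 5706748699) (nat_lit 684) (nat_lit 18719343584) (nat_lit 760) (nat_lit 3147434868) (nat_lit 70) (nat_lit 5) (nat_lit 79) (nat_lit 5) (nat_lit 80) (nat_lit 5) (nat_lit 268) (nat_lit 261) (nat_lit 191))) (XT.nd (nat_lit 78) (nat_lit 836) (nat_lit 0) (XT.lf (nat_lit 0) (nat_lit 27002431262) (nat_lit 684) (nat_lit 1795031972) (nat_lit 760) (nat_lit 11830809) (nat_lit 70) (nat_lit 5) (nat_lit 79) (nat_lit 5) (nat_lit 80) (nat_lit 5) (nat_lit 269) (nat_lit 261) (nat_lit 190)) (XT.nd (nat_lit 78) (nat_lit 380) (nat_lit 0) (XT.lf (nat_lit 0) (nat_lit 3835700979) (nat_lit 456) (nat_lit 9942224432) (nat_lit 76) (nat_lit 16334944471) (nat_lit 64) (nat_lit 5) (nat_lit 70) (nat_lit 5) (nat_lit 65) (nat_lit 5) (nat_lit 270) (nat_lit 261) (nat_lit 189)) (XT.lf (nat_lit 0) (nat_lit 8311720448) (nat_lit 456) (nat_lit 18761213818) (nat_lit 76) (nat_lit 4431766529) (nat_lit 59) (nat_lit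 5) (nat_lit 65) (nat_lit 5) (nat_lit 60) (nat_lit 5) (nat_lit 271) (nat_lit 261) (nat_lit 188))))) (XT.nd (nat_lit 156) (nat_lit 912) (nat_lit 0) (XT.nd (nat_lit 78) (nat_lit 0) (nat_lit 0) (XT.lf (nat_lit 0) (nat_lit 4496052056) (nat_lit 304) (nat_lit 9116297087) (nat_lit 380) (nat_lit 19372233843) (nat_lit 55) (nat_lit 5) (nat_lit 59) (nat_lit 5) (nat_lit 60) (nat_lit 5) (nat_lit 272) (nat_lit 261) (nat_lit 187)) (XT.lf (nat_lit 0) (nat_lit 19818320614) (nat_lit 380) (nat_lit 4461064951) (nat_lit 76) (nat_lit 10279434443) (nat_lit 55) (nat_lit 5) (nat_lit 60) (nat_lit 5) (nat_lit 56) (nat_lit 5) (nat_lit 273) (nat_lit 261) (nat_lit 186))) (XT.nd (nat_lit 78) (nat_lit 608) (nat_lit 0) (XT.lf (nat_lit 0) (nat_lit 22028258434) (nat_lit 304) (nat_lit 4979666422) (nat_lit 380) (nat_lit 9226740123) (nat_lit 51) (nat_lit 5) (nat_lit 55) (nat_lit 5) (nat_lit 56) (nat_lit 5) (nat_lit 274) (nat_lit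 261) (nat_lit 185)) (XT.nd (nat_lit 78) (nat_lit 380) (nat_lit 0) (XT.lf (nat_lit 0) (nat_lit 12907858606) (nat_lit 228) (nat_lit 22383128810) (nat_lit 304) (nat_lit 2727700393) (nat_lit 48) (nat_lit 5) (nat_lit 51) (nat_lit 5) (nat_lit 52) (nat_lit 5) (nat_lit 275) (nat_lit 261) (nat_lit 184)) (XT.lf (nat_lit 0) (nat_lit 2684938739) (nat_lit 304) (nat_lit 1836866989) (nat_lit 380) (nat_lit 35401904117) (nat_lit 43) (nat_lit 5) (nat_lit 47) (nat_lit 5) (nat_lit 48) (nat_lit 5) (nat_lit 276) (nat_lit 261) (nat_lit 183))))))))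
noncomputable def xc89 : XT := (XT.nd (nat_lit 1482) (nat_lit 684) (nat_lit 0) (XT.nd (nat_lit 702) (nat_lit 912) (nat_lit 0) (XT.nd (nat_lit 312) (nat_lit 836) (nat_lit 0) (XT.nd (nat_lit 156) (nat_lit 228) (nat_lit 0) (XT.nd (nat_lit 78) (nat_lit 228) (nat_lit 0) (XT.lf (nat_lit 0) (nat_lit 13010322390) (nat_lit 380) (nat_lit 8740554181) (nat_lit 76) (nat_lit 20190310700) (nat_lit 43) (nat_lit 5) (nat_lit 48) (nat_lit 5) (nat_lit 44) (nat_lit 5) (nat_lit 277) (nat_lit 261) (nat_lit 182)) (XT.lf (nat_lit 0) (nat_lit 22557940549) (nat_lit 304) (nat_lit 21380579496) (nat_lit 76) (nat_lit 162560558) (nat_lit 40) (nat_lit 5) (nat_lit 44) (nat_lit 5) (nat_lit 41) (nat_lit 5) (nat_lit 278) (nat_lit 261) (nat_lit 181))) (XT.nd (nat_lit 78) (nat_lit 0) (nat_lit 0) (XT.lf (nat_lit 0) (nat_lit 10542070947) (nat_lit 228) (nat_lit 23005475972) (nat_lit 304) (nat_lit 12852326878) (nat_lit 37) (nat_lit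 5) (nat_lit 40) (nat_lit 5) (nat_lit 41) (nat_lit 5) (nat_lit 279) (nat_lit 261) (nat_lit 180)) (XT.lf (nat_lit 0) (nat_lit 45771986976) (nat_lit 228) (nat_lit 9278024) (nat_lit 304) (nat_lit 3083074332) (nat_lit 37) (nat_lit 5) (nat_lit 40) (nat_lit 5) (nat_lit 41) (nat_lit 5) (nat_lit 280) (nat_lit 261) (nat_lit 179)))) (XT.nd (nat_lit 156) (nat_lit 380) (nat_lit 0) (XT.nd (nat_lit 78) (nat_lit 228) (nat_lit 0) (XT.lf (nat_lit 0) (nat_lit 8138472198) (nat_lit 228) (nat_lit 18660725214) (nat_lit 76) (nat_lit 24675460880) (nat_lit 34) (nat_lit 5) (nat_lit 37) (nat_lit 5) (nat_lit 35) (nat_lit 5) (nat_lit 281) (nat_lit 261) (nat_lit 178)) (XT.lf (nat_lit 0) (nat_lit 17923229808) (nat_lit 228) (nat_lit 2555955830) (nat_lit 304) (nat_lit 33795630170) (nat_lit 31) (nat_lit 5) (nat_lit 34) (nat_lit 5) (nat_lit 35) (nat_lit 5) (nat_lit 282) (nat_lit 261) (nat_lit 177))) (XT.nd (nat_lit 78)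 (nat_lit 228) (nat_lit 0) (XT.lf (nat_lit 0) (nat_lit 448361303) (nat_lit 152) (nat_lit 34058653721) (nat_lit 228) (nat_lit 22756990091) (nat_lit 29) (nat_lit 5) (nat_lit 31) (nat_lit 5) (nat_lit 32) (nat_lit 5) (nat_lit 283) (nat_lit 261) (nat_lit 176)) (XT.nd (nat_lit 78) (nat_lit 228) (nat_lit 0) (XT.lf (nat_lit 0) (nat_lit 41436972402) (nat_lit 152) (nat_lit 8889650358) (nat_lit 228) (nat_lit 10132240440) (nat_lit 29) (nat_lit 5) (nat_lit 31) (nat_lit 5) (nat_lit 32) (nat_lit 5) (nat_lit 284) (nat_lit 261) (nat_lit 175)) (XT.lf (nat_lit 0) (nat_lit 4027385998) (nat_lit 228) (nat_lit 41730755966) (nat_lit 76) (nat_lit 18116593774) (nat_lit 26) (nat_lit 5) (nat_lit 29) (nat_lit 5) (nat_lit 27) (nat_lit 5) (nat_lit 285) (nat_lit 261) (nat_lit 174)))))) (XT.nd (nat_lit 390) (nat_lit 456) (nat_lit 0) (XT.nd (nat_lit 156) (nat_lit 304) (nat_lit 0) (XT.nd (nat_lit 78) (nat_lit 152) (nat_lit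 0) (XT.lf (nat_lit 0) (nat_lit 19450752505) (nat_lit 228) (nat_lit 599423884) (nat_lit 76) (nat_lit 47481108033) (nat_lit 26) (nat_lit 5) (nat_lit 29) (nat_lit 5) (nat_lit 27) (nat_lit 5) (nat_lit 286) (nat_lit 261) (nat_lit 173)) (XT.lf (nat_lit 0) (nat_lit 36941601600) (nat_lit 228) (nat_lit 26313851463) (nat_lit 76) (nat_lit 8183231769) (nat_lit 24) (nat_lit 5) (nat_lit 27) (nat_lit 5) (nat_lit 25) (nat_lit 5) (nat_lit 287) (nat_lit 261) (nat_lit 172))) (XT.nd (nat_lit 78) (nat_lit 152) (nat_lit 0) (XT.lf (nat_lit 0) (nat_lit 19136949835) (nat_lit 152) (nat_lit 37337402229) (nat_lit 228) (nat_lit 19152201401) (nat_lit 22) (nat_lit 5) (nat_lit 24) (nat_lit 5) (nat_lit 25) (nat_lit 5) (nat_lit 288) (nat_lit 261) (nat_lit 171)) (XT.nd (nat_lit 78) (nat_lit 152) (nat_lit 0) (XT.lf (nat_lit 0) (nat_lit 69156224242) (nat_lit 152) (nat_lit 8867270885) (nat_lit 228) (nat_lit 2103275117) (nat_lit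 22) (nat_lit 5) (nat_lit 24) (nat_lit 5) (nat_lit 25) (nat_lit 5) (nat_lit 289) (nat_lit 261) (nat_lit 170)) (XT.lf (nat_lit 0) (nat_lit 16750753473) (nat_lit 152) (nat_lit 46117063022) (nat_lit 76) (nat_lit 22058302582) (nat_lit 20) (nat_lit 5) (nat_lit 22) (nat_lit 5) (nat_lit 21) (nat_lit 5) (nat_lit 290) (nat_lit 261) (nat_lit 169))))) (XT.nd (nat_lit 156) (nat_lit 304) (nat_lit 0) (XT.nd (nat_lit 78) (nat_lit 0) (nat_lit 0) (XT.lf (nat_lit 0) (nat_lit 2756284185) (nat_lit 152) (nat_lit 34666747882) (nat_lit 228) (nat_lit 52665484889) (nat_lit 18) (nat_lit 5) (nat_lit 20) (nat_lit 5) (nat_lit 21) (nat_lit 5) (nat_lit 291) (nat_lit 261) (nat_lit 168)) (XT.lf (nat_lit 0) (nat_lit 57179879435) (nat_lit 152) (nat_lit 3368596785) (nat_lit 228) (nat_lit 35075466787) (nat_lit 18) (nat_lit 5) (nat_lit 20) (nat_lit 5) (nat_lit 21) (nat_lit 5) (nat_lit 292) (nat_lit 261) (nat_lit 167))) (XT.nd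 (nat_lit 78) (nat_lit 228) (nat_lit 0) (XT.lf (nat_lit 0) (nat_lit 14332622401) (nat_lit 76) (nat_lit 71886566643) (nat_lit 152) (nat_lit 15348257538) (nat_lit 17) (nat_lit 5) (nat_lit 18) (nat_lit 5) (nat_lit 19) (nat_lit 4) (nat_lit 293) (nat_lit 261) (nat_lit 166)) (XT.nd (nat_lit 78) (nat_lit 152) (nat_lit 0) (XT.lf (nat_lit 0) (nat_lit 6500342667) (nat_lit 152) (nat_lit 35415440939) (nat_lit 76) (nat_lit 66029306982) (nat_lit 16) (nat_lit 5) (nat_lit 18) (nat_lit 5) (nat_lit 17) (nat_lit 5) (nat_lit 294) (nat_lit 261) (nat_lit 165)) (XT.lf (nat_lit 0) (nat_lit 20955878948) (nat_lit 152) (nat_lit 8934286937) (nat_lit 228) (nat_lit 84913650694) (nat_lit 14) (nat_lit 5) (nat_lit 16) (nat_lit 5) (nat_lit 17) (nat_lit 5) (nat_lit 295) (nat_lit 261) (nat_lit 164))))))) (XT.nd (nat_lit 780) (nat_lit 304) (nat_lit 0) (XT.nd (nat_lit 390) (nat_lit 152) (nat_lit 0) (XT.nd (nat_lit 156) (nat_lit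 152) (nat_lit 0) (XT.nd (nat_lit 78) (nat_lit 76) (nat_lit 0) (XT.lf (nat_lit 0) (nat_lit 56191664431) (nat_lit 228) (nat_lit 39510989266) (nat_lit 76) (nat_lit 26456566332) (nat_lit 14) (nat_lit 5) (nat_lit 17) (nat_lit 5) (nat_lit 15) (nat_lit 4) (nat_lit 296) (nat_lit 261) (nat_lit 163)) (XT.lf (nat_lit 0) (nat_lit 19646043821) (nat_lit 76) (nat_lit 65405675543) (nat_lit 152) (nat_lit 45028618134) (nat_lit 13) (nat_lit 5) (nat_lit 14) (nat_lit 5) (nat_lit 15) (nat_lit 4) (nat_lit 297) (nat_lit 261) (nat_lit 162))) (XT.nd (nat_lit 78) (nat_lit 152) (nat_lit 0) (XT.lf (nat_lit 0) (nat_lit 84941763508) (nat_lit 76) (nat_lit 31964272383) (nat_lit 152) (nat_lit 21694838920) (nat_lit 13) (nat_lit 5) (nat_lit 14) (nat_lit 5) (nat_lit 15) (nat_lit 4) (nat_lit 298) (nat_lit 261) (nat_lit 161)) (XT.nd (nat_lit 78) (nat_lit 0) (nat_lit 0) (XT.lf (nat_lit 0) (nat_lit 3581072973) (nat_lit 152)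 (nat_lit 140011964484) (nat_lit 76) (nat_lit 4197902278) (nat_lit 11) (nat_lit 5) (nat_lit 13) (nat_lit 5) (nat_lit 12) (nat_lit 4) (nat_lit 299) (nat_lit 261) (nat_lit 160)) (XT.lf (nat_lit 0) (nat_lit 31615606214) (nat_lit 152) (nat_lit 82545767649) (nat_lit 76) (nat_lit 43462224541) (nat_lit 11) (nat_lit 5) (nat_lit 13) (nat_lit 5) (nat_lit 12) (nat_lit 4) (nat_lit 300) (nat_lit 261) (nat_lit 159))))) (XT.nd (nat_lit 156) (nat_lit 76) (nat_lit 0) (XT.nd (nat_lit 78) (nat_lit 76) (nat_lit 0) (XT.lf (nat_lit 0) (nat_lit 61890552268) (nat_lit 152) (nat_lit 20486384080) (nat_lit 76) (nat_lit 85866053407) (nat_lit 11) (nat_lit 5) (nat_lit 13) (nat_lit 5) (nat_lit 12) (nat_lit 4) (nat_lit 301) (nat_lit 261) (nat_lit 158)) (XT.lf (nat_lit 0) (nat_lit 48072567924) (nat_lit 76) (nat_lit 47263297807) (nat_lit 152) (nat_lit 84338650412) (nat_lit 10) (nat_lit 5) (nat_lit 11) (nat_lit 5) (nat_lit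 12) (nat_lit 4) (nat_lit 302) (nat_lit 261) (nat_lit 157))) (XT.nd (nat_lit 78) (nat_lit 76) (nat_lit 0) (XT.lf (nat_lit 0) (nat_lit 122844158959) (nat_lit 76) (nat_lit 8967433471) (nat_lit 152) (nat_lit 60191234944) (nat_lit 10) (nat_lit 5) (nat_lit 11) (nat_lit 5) (nat_lit 12) (nat_lit 4) (nat_lit 303) (nat_lit 261) (nat_lit 156)) (XT.nd (nat_lit 78) (nat_lit 76) (nat_lit 0) (XT.lf (nat_lit 0) (nat_lit 171709168066) (nat_lit 152) (nat_lit 2229102623) (nat_lit 0) (nat_lit 31353945258) (nat_lit 10) (nat_lit 5) (nat_lit 12) (nat_lit 4) (nat_lit 10) (nat_lit 4) (nat_lit 304) (nat_lit 261) (nat_lit 155)) (XT.lf (nat_lit 0) (nat_lit 72211655307) (nat_lit 76) (nat_lit 143863731159) (nat_lit 76) (nat_lit 3505529140) (nat_lit 9) (nat_lit 4) (nat_lit 10) (nat_lit 5) (nat_lit 10) (nat_lit 4) (nat_lit 305) (nat_lit 261) (nat_lit 154)))))) (XT.nd (nat_lit 390) (nat_lit 152) (nat_lit 0) (XT.nd (nat_lit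 156) (nat_lit 76) (nat_lit 0) (XT.nd (nat_lit 78) (nat_lit 0) (nat_lit 0) (XT.lf (nat_lit 0) (nat_lit 28088432948) (nat_lit 152) (nat_lit 82779673000) (nat_lit 76) (nat_lit 124120099122) (nat_lit 8) (nat_lit 5) (nat_lit 10) (nat_lit 5) (nat_lit 9) (nat_lit 4) (nat_lit 306) (nat_lit 261) (nat_lit 153)) (XT.lf (nat_lit 0) (nat_lit 62087125106) (nat_lit 152) (nat_lit 13084908270) (nat_lit 76) (nat_lit 176453170943) (nat_lit 8) (nat_lit 5) (nat_lit 10) (nat_lit 5) (nat_lit 9) (nat_lit 4) (nat_lit 307) (nat_lit 261) (nat_lit 152))) (XT.nd (nat_lit 78) (nat_lit 0) (nat_lit 0) (XT.lf (nat_lit 0) (nat_lit 64238814273) (nat_lit 76) (nat_lit 35568353534) (nat_lit 152) (nat_lit 169735924331) (nat_lit 7) (nat_lit 5) (nat_lit 8) (nat_lit 5) (nat_lit 9) (nat_lit 4) (nat_lit 308) (nat_lit 261) (nat_lit 151)) (XT.nd (nat_lit 78) (nat_lit 0) (nat_lit 0) (XT.lf (nat_lit 0) (nat_lit 140887510239) (nat_lit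 152) (nat_lit 140786132726) (nat_lit 0) (nat_lit 7203634486) (nat_lit 7) (nat_lit 5) (nat_lit 9) (nat_lit 4) (nat_lit 7) (nat_lit 4) (nat_lit 309) (nat_lit 261) (nat_lit 150)) (XT.lf (nat_lit 0) (nat_lit 185852694497) (nat_lit 152) (nat_lit 71708695866) (nat_lit 0) (nat_lit 52166887696) (nat_lit 7) (nat_lit 5) (nat_lit 9) (nat_lit 4) (nat_lit 7) (nat_lit 4) (nat_lit 310) (nat_lit 261) (nat_lit 149))))) (XT.nd (nat_lit 156) (nat_lit 76) (nat_lit 0) (XT.nd (nat_lit 78) (nat_lit 0) (nat_lit 0) (XT.lf (nat_lit 0) (nat_lit 2988347964) (nat_lit 76) (nat_lit 231472167774) (nat_lit 76) (nat_lit 97784572966) (nat_lit 6) (nat_lit 4) (nat_lit 7) (nat_lit 5) (nat_lit 7) (nat_lit 4) (nat_lit 311) (nat_lit 261) (nat_lit 148)) (XT.lf (nat_lit 0) (nat_lit 86219713001) (nat_lit 76) (nat_lit 201985192720) (nat_lit 76) (nat_lit 68295942349) (nat_lit 6) (nat_lit 4) (nat_lit 7) (nat_lit 5) (nat_lit 7) (nat_lit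 4) (nat_lit 312) (nat_lit 261) (nat_lit 147))) (XT.nd (nat_lit 78) (nat_lit 76) (nat_lit 0) (XT.lf (nat_lit 0) (nat_lit 176107608816) (nat_lit 76) (nat_lit 170140149032) (nat_lit 76) (nat_lit 36449365733) (nat_lit 6) (nat_lit 4) (nat_lit 7) (nat_lit 5) (nat_lit 7) (nat_lit 4) (nat_lit 313) (nat_lit 261) (nat_lit 146)) (XT.nd (nat_lit 78) (nat_lit 76) (nat_lit 0) (XT.lf (nat_lit 0) (nat_lit 273184704422) (nat_lit 76) (nat_lit 135748325341) (nat_lit 76) (nat_lit 2056122664) (nat_lit 6) (nat_lit 4) (nat_lit 7) (nat_lit 5) (nat_lit 7) (nat_lit 4) (nat_lit 314) (nat_lit 261) (nat_lit 145)) (XT.lf (nat_lit 0) (nat_lit 33964576384) (nat_lit 152) (nat_lit 64066135328) (nat_lit 76) (nat_lit 343486488577) (nat_lit 5) (nat_lit 5) (nat_lit 7) (nat_lit 5) (nat_lit 6) (nat_lit 4) (nat_lit 315) (nat_lit 261) (nat_lit 144))))))))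
noncomputable def xc90 : XT := (XT.nd (nat_lit 34242) (nat_lit 0) (nat_lit 1064) (XT.nd (nat_lit 33462) (nat_lit 0) (nat_lit 3876) (XT.nd (nat_lit 312) (nat_lit 0) (nat_lit 0) (XT.nd (nat_lit 156) (nat_lit 0) (nat_lit 0) (XT.nd (nat_lit 78) (nat_lit 0) (nat_lit 0) (XT.lf (nat_lit 0) (nat_lit 16048628384) (nat_lit 76) (nat_lit 56996914146) (nat_lit 152) (nat_lit 401427732432) (nat_lit 4) (nat_lit 5) (nat_lit 5) (nat_lit 5) (nat_lit 6) (nat_lit 4) (nat_lit 316) (nat_lit 261) (nat_lit 143)) (XT.lf (nat_lit 0) (nat_lit 104858823440) (nat_lit 76) (nat_lit 11509315092) (nat_lit 152) (nat_lit 393641940111) (nat_lit 4) (nat_lit 5) (nat_lit 5) (nat_lit 5) (nat_lit 6) (nat_lit 4) (nat_lit 317) (nat_lit 261) (nat_lit 142))) (XT.nd (nat_lit 78) (nat_lit 0) (nat_lit 0) (XT.lf (nat_lit 0) (nat_lit 163743067457) (nat_lit 152) (nat_lit 348204750661) (nat_lit 0) (nat_lit 36412682850) (nat_lit 4) (nat_lit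 5) (nat_lit 6) (nat_lit 4) (nat_lit 4) (nat_lit 4) (nat_lit 318) (nat_lit 261) (nat_lit 141)) (XT.lf (nat_lit 0) (nat_lit 215101330895) (nat_lit 152) (nat_lit 286897933456) (nat_lit 0) (nat_lit 87770026284) (nat_lit 4) (nat_lit 5) (nat_lit 6) (nat_lit 4) (nat_lit 4) (nat_lit 4) (nat_lit 319) (nat_lit 261) (nat_lit 140)))) (XT.nd (nat_lit 156) (nat_lit 0) (nat_lit 0) (XT.nd (nat_lit 78) (nat_lit 0) (nat_lit 0) (XT.lf (nat_lit 0) (nat_lit 270567581450) (nat_lit 152) (nat_lit 220687811267) (nat_lit 0) (nat_lit 143235424983) (nat_lit 4) (nat_lit 5) (nat_lit 6) (nat_lit 4) (nat_lit 4) (nat_lit 4) (nat_lit 320) (nat_lit 261) (nat_lit 139)) (XT.lf (nat_lit 0) (nat_lit 330470508012) (nat_lit 152) (nat_lit 149182027815) (nat_lit 0) (nat_lit 203137562790) (nat_lit 4) (nat_lit 5) (nat_lit 6) (nat_lit 4) (nat_lit 4) (nat_lit 4) (nat_lit 321) (nat_lit 261) (nat_lit 138))) (XT.nd (nat_lit 32838) (nat_lit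 0) (nat_lit 5396) (XT.lf (nat_lit 0) (nat_lit 395165090889) (nat_lit 152) (nat_lit 71956845124) (nat_lit 0) (nat_lit 267831415336) (nat_lit 4) (nat_lit 5) (nat_lit 6) (nat_lit 4) (nat_lit 4) (nat_lit 4) (nat_lit 322) (nat_lit 261) (nat_lit 137)) (XT.nd (nat_lit 78) (nat_lit 0) (nat_lit 0) (XT.lf (nat_lit 0) (nat_lit 2698951408) (nat_lit 0) (nat_lit 2698951408) (nat_lit 684) (nat_lit 5792589126) (nat_lit 75) (nat_lit 5) (nat_lit 75) (nat_lit 3) (nat_lit 84) (nat_lit 3) (nat_lit 262) (nat_lit 262) (nat_lit 196)) (XT.lf (nat_lit 0) (nat_lit 11580070326) (nat_lit 684) (nat_lit 1626813313) (nat_lit 760) (nat_lit 10051156984) (nat_lit 75) (nat_lit 5) (nat_lit 84) (nat_lit 3) (nat_lit 85) (nat_lit 5) (nat_lit 263) (nat_lit 262) (nat_lit 195)))))) (XT.nd (nat_lit 390) (nat_lit 1596) (nat_lit 0) (XT.nd (nat_lit 156) (nat_lit 0) (nat_lit 76) (XT.nd (nat_lit 78) (nat_lit 0) (nat_lit 0) (XT.lf (nat_lit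 0) (nat_lit 12779548005) (nat_lit 684) (nat_lit 8882984109) (nat_lit 760) (nat_lit 2525162324) (nat_lit 76) (nat_lit 5) (nat_lit 85) (nat_lit 5) (nat_lit 86) (nat_lit 5) (nat_lit 264) (nat_lit 262) (nat_lit 194)) (XT.lf (nat_lit 76) (nat_lit 8496051198) (nat_lit 0) (nat_lit 5945538541) (nat_lit 760) (nat_lit 10731852494) (nat_lit 77) (nat_lit 5) (nat_lit 76) (nat_lit 5) (nat_lit 86) (nat_lit 5) (nat_lit 265) (nat_lit 262) (nat_lit 193))) (XT.nd (nat_lit 78) (nat_lit 0) (nat_lit 76) (XT.lf (nat_lit 76) (nat_lit 1204394836) (nat_lit 0) (nat_lit 15364149723) (nat_lit 760) (nat_lit 9652955925) (nat_lit 78) (nat_lit 5) (nat_lit 77) (nat_lit 5) (nat_lit 87) (nat_lit 5) (nat_lit 266) (nat_lit 262) (nat_lit 192)) (XT.nd (nat_lit 78) (nat_lit 0) (nat_lit 0) (XT.lf (nat_lit 0) (nat_lit 19266963613) (nat_lit 684) (nat_lit 6364722155) (nat_lit 760) (nat_lit 1701696791) (nat_lit 78) (nat_lit 5) (nat_lit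 87) (nat_lit 5) (nat_lit 88) (nat_lit 5) (nat_lit 267) (nat_lit 262) (nat_lit 191)) (XT.lf (nat_lit 76) (nat_lit 13956275021) (nat_lit 0) (nat_lit 8687852312) (nat_lit 760) (nat_lit 5866985564) (nat_lit 79) (nat_lit 5) (nat_lit 78) (nat_lit 5) (nat_lit 88) (nat_lit 5) (nat_lit 268) (nat_lit 262) (nat_lit 190))))) (XT.nd (nat_lit 156) (nat_lit 1064) (nat_lit 0) (XT.nd (nat_lit 78) (nat_lit 76) (nat_lit 0) (XT.lf (nat_lit 0) (nat_lit 6394036419) (nat_lit 684) (nat_lit 20246828479) (nat_lit 760) (nat_lit 3124764924) (nat_lit 70) (nat_lit 5) (nat_lit 79) (nat_lit 5) (nat_lit 80) (nat_lit 5) (nat_lit 269) (nat_lit 262) (nat_lit 189)) (XT.lf (nat_lit 0) (nat_lit 233631814) (nat_lit 760) (nat_lit 1728765870) (nat_lit 76) (nat_lit 29138692673) (nat_lit 69) (nat_lit 5) (nat_lit 79) (nat_lit 5) (nat_lit 70) (nat_lit 5) (nat_lit 270) (nat_lit 262) (nat_lit 188))) (XT.nd (nat_lit 78) (nat_lit 684)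 (nat_lit 0) (XT.lf (nat_lit 0) (nat_lit 4373371002) (nat_lit 456) (nat_lit 10512373657) (nat_lit 76) (nat_lit 17624005619) (nat_lit 64) (nat_lit 5) (nat_lit 70) (nat_lit 5) (nat_lit 65) (nat_lit 5) (nat_lit 271) (nat_lit 262) (nat_lit 187)) (XT.nd (nat_lit 78) (nat_lit 304) (nat_lit 0) (XT.lf (nat_lit 0) (nat_lit 9193712730) (nat_lit 456) (nat_lit 20035227323) (nat_lit 76) (nat_lit 4784720648) (nat_lit 59) (nat_lit 5) (nat_lit 65) (nat_lit 5) (nat_lit 60) (nat_lit 5) (nat_lit 272) (nat_lit 262) (nat_lit 186)) (XT.lf (nat_lit 0) (nat_lit 5072759736) (nat_lit 304) (nat_lit 9832942209) (nat_lit 380) (nat_lit 20706907748) (nat_lit 55) (nat_lit 5) (nat_lit 59) (nat_lit 5) (nat_lit 60) (nat_lit 5) (nat_lit 273) (nat_lit 262) (nat_lit 185))))))) (XT.nd (nat_lit 702) (nat_lit 1216) (nat_lit 0) (XT.nd (nat_lit 312) (nat_lit 684) (nat_lit 0) (XT.nd (nat_lit 156) (nat_lit 608) (nat_lit 0) (XT.nd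 (nat_lit 78) (nat_lit 304) (nat_lit 0) (XT.lf (nat_lit 0) (nat_lit 21593195991) (nat_lit 380) (nat_lit 4607241063) (nat_lit 76) (nat_lit 11113135023) (nat_lit 55) (nat_lit 5) (nat_lit 60) (nat_lit 5) (nat_lit 56) (nat_lit 5) (nat_lit 274) (nat_lit 262) (nat_lit 184)) (XT.lf (nat_lit 0) (nat_lit 23992071033) (nat_lit 304) (nat_lit 5355013981) (nat_lit 380) (nat_lit 9776979591) (nat_lit 51) (nat_lit 5) (nat_lit 55) (nat_lit 5) (nat_lit 56) (nat_lit 5) (nat_lit 275) (nat_lit 262) (nat_lit 183))) (XT.nd (nat_lit 78) (nat_lit 380) (nat_lit 0) (XT.lf (nat_lit 0) (nat_lit 14141902353) (nat_lit 228) (nat_lit 24141143585) (nat_lit 304) (nat_lit 2768283785) (nat_lit 48) (nat_lit 5) (nat_lit 51) (nat_lit 5) (nat_lit 52) (nat_lit 5) (nat_lit 276) (nat_lit 262) (nat_lit 182)) (XT.lf (nat_lit 0) (nat_lit 3098211191) (nat_lit 304) (nat_lit 1947648232) (nat_lit 380) (nat_lit 38063266551) (nat_lit 43)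 (nat_lit 5) (nat_lit 47) (nat_lit 5) (nat_lit 48) (nat_lit 5) (nat_lit 277) (nat_lit 262) (nat_lit 181)))) (XT.nd (nat_lit 156) (nat_lit 456) (nat_lit 0) (XT.nd (nat_lit 78) (nat_lit 228) (nat_lit 0) (XT.lf (nat_lit 0) (nat_lit 14201957369) (nat_lit 380) (nat_lit 9248693584) (nat_lit 76) (nat_lit 21837952696) (nat_lit 43) (nat_lit 5) (nat_lit 48) (nat_lit 5) (nat_lit 44) (nat_lit 5) (nat_lit 278) (nat_lit 262) (nat_lit 180)) (XT.lf (nat_lit 0) (nat_lit 24505697260) (nat_lit 304) (nat_lit 22901417720) (nat_lit 76) (nat_lit 214582900) (nat_lit 40) (nat_lit 5) (nat_lit 44) (nat_lit 5) (nat_lit 41) (nat_lit 5) (nat_lit 279) (nat_lit 262) (nat_lit 179))) (XT.nd (nat_lit 78) (nat_lit 228) (nat_lit 0) (XT.lf (nat_lit 0) (nat_lit 11566804619) (nat_lit 228) (nat_lit 24799897593) (nat_lit 304) (nat_lit 13738104006) (nat_lit 37) (nat_lit 5) (nat_lit 40) (nat_lit 5) (nat_lit 41) (nat_lit 5) (nat_lit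 280) (nat_lit 262) (nat_lit 178)) (XT.nd (nat_lit 78) (nat_lit 228) (nat_lit 0) (XT.lf (nat_lit 0) (nat_lit 49569600483) (nat_lit 304) (nat_lit 3165781292) (nat_lit 76) (nat_lit 31544558) (nat_lit 37) (nat_lit 5) (nat_lit 41) (nat_lit 5) (nat_lit 38) (nat_lit 5) (nat_lit 281) (nat_lit 262) (nat_lit 177)) (XT.lf (nat_lit 0) (nat_lit 8910999247) (nat_lit 228) (nat_lit 19983081309) (nat_lit 76) (nat_lit 26692241225) (nat_lit 34) (nat_lit 5) (nat_lit 37) (nat_lit 5) (nat_lit 35) (nat_lit 5) (nat_lit 282) (nat_lit 262) (nat_lit 176)))))) (XT.nd (nat_lit 390) (nat_lit 608) (nat_lit 0) (XT.nd (nat_lit 156) (nat_lit 228) (nat_lit 0) (XT.nd (nat_lit 78) (nat_lit 152) (nat_lit 0) (XT.lf (nat_lit 0) (nat_lit 19520180310) (nat_lit 228) (nat_lit 2712339535) (nat_lit 304) (nat_lit 36378312083) (nat_lit 31) (nat_lit 5) (nat_lit 34) (nat_lit 5) (nat_lit 35) (nat_lit 5) (nat_lit 283) (nat_lit 262) (nat_lit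 175)) (XT.lf (nat_lit 0) (nat_lit 645226042) (nat_lit 152) (nat_lit 36732039908) (nat_lit 228) (nat_lit 24462172146) (nat_lit 29) (nat_lit 5) (nat_lit 31) (nat_lit 5) (nat_lit 32) (nat_lit 5) (nat_lit 284) (nat_lit 262) (nat_lit 174))) (XT.nd (nat_lit 78) (nat_lit 228) (nat_lit 0) (XT.lf (nat_lit 0) (nat_lit 44901000411) (nat_lit 152) (nat_lit 9553316729) (nat_lit 228) (nat_lit 10835988978) (nat_lit 29) (nat_lit 5) (nat_lit 31) (nat_lit 5) (nat_lit 32) (nat_lit 5) (nat_lit 285) (nat_lit 262) (nat_lit 173)) (XT.nd (nat_lit 78) (nat_lit 0) (nat_lit 0) (XT.lf (nat_lit 0) (nat_lit 4448357663) (nat_lit 228) (nat_lit 44918864978) (nat_lit 76) (nat_lit 19612387212) (nat_lit 26) (nat_lit 5) (nat_lit 29) (nat_lit 5) (nat_lit 27) (nat_lit 5) (nat_lit 286) (nat_lit 262) (nat_lit 172)) (XT.lf (nat_lit 0) (nat_lit 21098276396) (nat_lit 228) (nat_lit 508163475) (nat_lit 76) (nat_lit 51322620690) (nat_lit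 26) (nat_lit 5) (nat_lit 29) (nat_lit 5) (nat_lit 27) (nat_lit 5) (nat_lit 287) (nat_lit 262) (nat_lit 171))))) (XT.nd (nat_lit 156) (nat_lit 304) (nat_lit 0) (XT.nd (nat_lit 78) (nat_lit 152) (nat_lit 0) (XT.lf (nat_lit 0) (nat_lit 39984421777) (nat_lit 228) (nat_lit 28282039277) (nat_lit 76) (nat_lit 8882801897) (nat_lit 24) (nat_lit 5) (nat_lit 27) (nat_lit 5) (nat_lit 25) (nat_lit 5) (nat_lit 288) (nat_lit 262) (nat_lit 170)) (XT.lf (nat_lit 0) (nat_lit 20798875735) (nat_lit 152) (nat_lit 40276480458) (nat_lit 228) (nat_lit 20597037209) (nat_lit 22) (nat_lit 5) (nat_lit 24) (nat_lit 5) (nat_lit 25) (nat_lit 5) (nat_lit 289) (nat_lit 262) (nat_lit 169))) (XT.nd (nat_lit 78) (nat_lit 304) (nat_lit 0) (XT.lf (nat_lit 0) (nat_lit 74809990620) (nat_lit 152) (nat_lit 9532287788) (nat_lit 228) (nat_lit 2190666474) (nat_lit 22) (nat_lit 5) (nat_lit 24) (nat_lit 5) (nat_lit 25) (nat_lit 5)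 (nat_lit 290) (nat_lit 262) (nat_lit 168)) (XT.nd (nat_lit 78) (nat_lit 152) (nat_lit 0) (XT.lf (nat_lit 0) (nat_lit 18165839662) (nat_lit 152) (nat_lit 49684709678) (nat_lit 76) (nat_lit 23865800562) (nat_lit 20) (nat_lit 5) (nat_lit 22) (nat_lit 5) (nat_lit 21) (nat_lit 5) (nat_lit 291) (nat_lit 262) (nat_lit 167)) (XT.lf (nat_lit 0) (nat_lit 3093215572) (nat_lit 152) (nat_lit 37394945274) (nat_lit 228) (nat_lit 56803773706) (nat_lit 18) (nat_lit 5) (nat_lit 20) (nat_lit 5) (nat_lit 21) (nat_lit 5) (nat_lit 292) (nat_lit 262) (nat_lit 166))))))))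
noncomputable def xc91 : XT := (XT.nd (nat_lit 1482) (nat_lit 228) (nat_lit 0) (XT.nd (nat_lit 702) (nat_lit 304) (nat_lit 0) (XT.nd (nat_lit 312) (nat_lit 228) (nat_lit 0) (XT.nd (nat_lit 156) (nat_lit 228) (nat_lit 0) (XT.nd (nat_lit 78) (nat_lit 76) (nat_lit 0) (XT.lf (nat_lit 0) (nat_lit 61862074098) (nat_lit 152) (nat_lit 3596285973) (nat_lit 228) (nat_lit 37812106006) (nat_lit 18) (nat_lit 5) (nat_lit 20) (nat_lit 5) (nat_lit 21) (nat_lit 5) (nat_lit 293) (nat_lit 262) (nat_lit 165)) (XT.lf (nat_lit 0) (nat_lit 15584972168) (nat_lit 76) (nat_lit 77595123587) (nat_lit 152) (nat_lit 16509492711) (nat_lit 17) (nat_lit 5) (nat_lit 18) (nat_lit 5) (nat_lit 19) (nat_lit 4) (nat_lit 294) (nat_lit 262) (nat_lit 164))) (XT.nd (nat_lit 78) (nat_lit 152) (nat_lit 0) (XT.lf (nat_lit 0) (nat_lit 7080085821) (nat_lit 152) (nat_lit 38148719170) (nat_lit 76) (nat_lit 71348831869) (nat_lit 16) (nat_lit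 5) (nat_lit 18) (nat_lit 5) (nat_lit 17) (nat_lit 5) (nat_lit 295) (nat_lit 262) (nat_lit 163)) (XT.lf (nat_lit 0) (nat_lit 22727962296) (nat_lit 152) (nat_lit 9610201999) (nat_lit 228) (nat_lit 91647048736) (nat_lit 14) (nat_lit 5) (nat_lit 16) (nat_lit 5) (nat_lit 17) (nat_lit 5) (nat_lit 296) (nat_lit 262) (nat_lit 162)))) (XT.nd (nat_lit 156) (nat_lit 152) (nat_lit 0) (XT.nd (nat_lit 78) (nat_lit 76) (nat_lit 0) (XT.lf (nat_lit 0) (nat_lit 60740137726) (nat_lit 228) (nat_lit 42581205727) (nat_lit 76) (nat_lit 28607892711) (nat_lit 14) (nat_lit 5) (nat_lit 17) (nat_lit 5) (nat_lit 15) (nat_lit 4) (nat_lit 297) (nat_lit 262) (nat_lit 161)) (XT.lf (nat_lit 0) (nat_lit 21304449918) (nat_lit 76) (nat_lit 70601964813) (nat_lit 152) (nat_lit 48577762192) (nat_lit 13) (nat_lit 5) (nat_lit 14) (nat_lit 5) (nat_lit 15) (nat_lit 4) (nat_lit 298) (nat_lit 262) (nat_lit 160))) (XT.nd (nat_lit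 78) (nat_lit 152) (nat_lit 0) (XT.lf (nat_lit 0) (nat_lit 91817403283) (nat_lit 76) (nat_lit 34487928272) (nat_lit 152) (nat_lit 23381217336) (nat_lit 13) (nat_lit 5) (nat_lit 14) (nat_lit 5) (nat_lit 15) (nat_lit 4) (nat_lit 299) (nat_lit 262) (nat_lit 159)) (XT.nd (nat_lit 78) (nat_lit 0) (nat_lit 0) (XT.lf (nat_lit 0) (nat_lit 3913403413) (nat_lit 152) (nat_lit 151132756374) (nat_lit 76) (nat_lit 4565714163) (nat_lit 11) (nat_lit 5) (nat_lit 13) (nat_lit 5) (nat_lit 12) (nat_lit 4) (nat_lit 300) (nat_lit 262) (nat_lit 158)) (XT.lf (nat_lit 0) (nat_lit 34187303417) (nat_lit 152) (nat_lit 89075201960) (nat_lit 76) (nat_lit 46968813339) (nat_lit 11) (nat_lit 5) (nat_lit 13) (nat_lit 5) (nat_lit 12) (nat_lit 4) (nat_lit 301) (nat_lit 262) (nat_lit 157)))))) (XT.nd (nat_lit 390) (nat_lit 152) (nat_lit 0) (XT.nd (nat_lit 156) (nat_lit 76) (nat_lit 0) (XT.nd (nat_lit 78) (nat_lit 76) (nat_lit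 0) (XT.lf (nat_lit 0) (nat_lit 66881100806) (nat_lit 152) (nat_lit 22056566010) (nat_lit 76) (nat_lit 92762755120) (nat_lit 11) (nat_lit 5) (nat_lit 13) (nat_lit 5) (nat_lit 12) (nat_lit 4) (nat_lit 302) (nat_lit 262) (nat_lit 156)) (XT.lf (nat_lit 0) (nat_lit 51984115285) (nat_lit 76) (nat_lit 51016039043) (nat_lit 152) (nat_lit 91046413452) (nat_lit 10) (nat_lit 5) (nat_lit 11) (nat_lit 5) (nat_lit 12) (nat_lit 4) (nat_lit 303) (nat_lit 262) (nat_lit 155))) (XT.nd (nat_lit 78) (nat_lit 76) (nat_lit 0) (XT.lf (nat_lit 0) (nat_lit 132732563830) (nat_lit 76) (nat_lit 9658603530) (nat_lit 152) (nat_lit 64970118005) (nat_lit 10) (nat_lit 5) (nat_lit 11) (nat_lit 5) (nat_lit 12) (nat_lit 4) (nat_lit 304) (nat_lit 262) (nat_lit 154)) (XT.nd (nat_lit 78) (nat_lit 76) (nat_lit 0) (XT.lf (nat_lit 0) (nat_lit 185478361674) (nat_lit 152) (nat_lit 2349809617) (nat_lit 0) (nat_lit 33885765755) (nat_lit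 10) (nat_lit 5) (nat_lit 12) (nat_lit 4) (nat_lit 10) (nat_lit 4) (nat_lit 305) (nat_lit 262) (nat_lit 153)) (XT.lf (nat_lit 0) (nat_lit 78043704799) (nat_lit 76) (nat_lit 155348628822) (nat_lit 76) (nat_lit 3753478711) (nat_lit 9) (nat_lit 4) (nat_lit 10) (nat_lit 5) (nat_lit 10) (nat_lit 4) (nat_lit 306) (nat_lit 262) (nat_lit 152))))) (XT.nd (nat_lit 156) (nat_lit 76) (nat_lit 0) (XT.nd (nat_lit 78) (nat_lit 0) (nat_lit 0) (XT.lf (nat_lit 0) (nat_lit 30364630538) (nat_lit 152) (nat_lit 89350022500) (nat_lit 76) (nat_lit 134071125209) (nat_lit 8) (nat_lit 5) (nat_lit 10) (nat_lit 5) (nat_lit 9) (nat_lit 4) (nat_lit 307) (nat_lit 262) (nat_lit 151)) (XT.lf (nat_lit 0) (nat_lit 67081060812) (nat_lit 152) (nat_lit 14083530247) (nat_lit 76) (nat_lit 190589256246) (nat_lit 8) (nat_lit 5) (nat_lit 10) (nat_lit 5) (nat_lit 9) (nat_lit 4) (nat_lit 308) (nat_lit 262) (nat_lit 150))) (XT.nd (nat_lit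 78) (nat_lit 0) (nat_lit 0) (XT.lf (nat_lit 0) (nat_lit 69423996661) (nat_lit 76) (nat_lit 38393432204) (nat_lit 152) (nat_lit 183287803045) (nat_lit 7) (nat_lit 5) (nat_lit 8) (nat_lit 5) (nat_lit 9) (nat_lit 4) (nat_lit 309) (nat_lit 262) (nat_lit 149)) (XT.nd (nat_lit 78) (nat_lit 0) (nat_lit 0) (XT.lf (nat_lit 0) (nat_lit 152182590662) (nat_lit 152) (nat_lit 152005443245) (nat_lit 0) (nat_lit 7798200262) (nat_lit 7) (nat_lit 5) (nat_lit 9) (nat_lit 4) (nat_lit 7) (nat_lit 4) (nat_lit 310) (nat_lit 262) (nat_lit 148)) (XT.lf (nat_lit 0) (nat_lit 200743205986) (nat_lit 152) (nat_lit 77405039591) (nat_lit 0) (nat_lit 56357160023) (nat_lit 7) (nat_lit 5) (nat_lit 9) (nat_lit 4) (nat_lit 7) (nat_lit 4) (nat_lit 311) (nat_lit 262) (nat_lit 147))))))) (XT.nd (nat_lit 780) (nat_lit 0) (nat_lit 0) (XT.nd (nat_lit 390) (nat_lit 76) (nat_lit 0) (XT.nd (nat_lit 156) (nat_lit 76) (nat_lit 0) (XT.nd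 (nat_lit 78) (nat_lit 0) (nat_lit 0) (XT.lf (nat_lit 0) (nat_lit 3266014099) (nat_lit 76) (nat_lit 249972589906) (nat_lit 76) (nat_lit 105585011014) (nat_lit 6) (nat_lit 4) (nat_lit 7) (nat_lit 5) (nat_lit 7) (nat_lit 4) (nat_lit 312) (nat_lit 262) (nat_lit 146)) (XT.lf (nat_lit 0) (nat_lit 93153029205) (nat_lit 76) (nat_lit 218127942128) (nat_lit 76) (nat_lit 73738943858) (nat_lit 6) (nat_lit 4) (nat_lit 7) (nat_lit 5) (nat_lit 7) (nat_lit 4) (nat_lit 313) (nat_lit 262) (nat_lit 145))) (XT.nd (nat_lit 78) (nat_lit 76) (nat_lit 0) (XT.lf (nat_lit 0) (nat_lit 190229309340) (nat_lit 76) (nat_lit 183736485020) (nat_lit 76) (nat_lit 39346172511) (nat_lit 6) (nat_lit 4) (nat_lit 7) (nat_lit 5) (nat_lit 7) (nat_lit 4) (nat_lit 314) (nat_lit 262) (nat_lit 144)) (XT.nd (nat_lit 78) (nat_lit 76) (nat_lit 0) (XT.lf (nat_lit 0) (nat_lit 295070121349) (nat_lit 76) (nat_lit 146594417355) (nat_lit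 76) (nat_lit 2202887959) (nat_lit 6) (nat_lit 4) (nat_lit 7) (nat_lit 5) (nat_lit 7) (nat_lit 4) (nat_lit 315) (nat_lit 262) (nat_lit 143)) (XT.lf (nat_lit 0) (nat_lit 36697628812) (nat_lit 152) (nat_lit 69162517077) (nat_lit 76) (nat_lit 370977623204) (nat_lit 5) (nat_lit 5) (nat_lit 7) (nat_lit 5) (nat_lit 6) (nat_lit 4) (nat_lit 316) (nat_lit 262) (nat_lit 142))))) (XT.nd (nat_lit 156) (nat_lit 0) (nat_lit 0) (XT.nd (nat_lit 78) (nat_lit 0) (nat_lit 0) (XT.lf (nat_lit 0) (nat_lit 17360171378) (nat_lit 76) (nat_lit 61544155844) (nat_lit 152) (nat_lit 433526040726) (nat_lit 4) (nat_lit 5) (nat_lit 5) (nat_lit 5) (nat_lit 6) (nat_lit 4) (nat_lit 317) (nat_lit 262) (nat_lit 141)) (XT.lf (nat_lit 0) (nat_lit 113273133688) (nat_lit 76) (nat_lit 12418475639) (nat_lit 152) (nat_lit 425118563559) (nat_lit 4) (nat_lit 5) (nat_lit 5) (nat_lit 5) (nat_lit 6) (nat_lit 4) (nat_lit 318) (nat_lit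 262) (nat_lit 140))) (XT.nd (nat_lit 78) (nat_lit 0) (nat_lit 0) (XT.lf (nat_lit 0) (nat_lit 176855661540) (nat_lit 152) (nat_lit 376036931129) (nat_lit 0) (nat_lit 39336080699) (nat_lit 4) (nat_lit 5) (nat_lit 6) (nat_lit 4) (nat_lit 4) (nat_lit 4) (nat_lit 319) (nat_lit 262) (nat_lit 139)) (XT.nd (nat_lit 78) (nat_lit 0) (nat_lit 0) (XT.lf (nat_lit 0) (nat_lit 232321612077) (nat_lit 152) (nat_lit 309827361109) (nat_lit 0) (nat_lit 94801242481) (nat_lit 4) (nat_lit 5) (nat_lit 6) (nat_lit 4) (nat_lit 4) (nat_lit 4) (nat_lit 320) (nat_lit 262) (nat_lit 138)) (XT.lf (nat_lit 0) (nat_lit 292224260846) (nat_lit 152) (nat_lit 238322088925) (nat_lit 0) (nat_lit 154703160920) (nat_lit 4) (nat_lit 5) (nat_lit 6) (nat_lit 4) (nat_lit 4) (nat_lit 4) (nat_lit 321) (nat_lit 262) (nat_lit 137)))))) (XT.nd (nat_lit 33228) (nat_lit 0) (nat_lit 4940) (XT.nd (nat_lit 32994) (nat_lit 0) (nat_lit 5396)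 (XT.nd (nat_lit 32916) (nat_lit 0) (nat_lit 5396) (XT.lf (nat_lit 0) (nat_lit 356918586505) (nat_lit 152) (nat_lit 161097379629) (nat_lit 0) (nat_lit 219396810349) (nat_lit 4) (nat_lit 5) (nat_lit 6) (nat_lit 4) (nat_lit 4) (nat_lit 4) (nat_lit 322) (nat_lit 262) (nat_lit 136)) (XT.lf (nat_lit 0) (nat_lit 3007737473) (nat_lit 0) (nat_lit 3007737473) (nat_lit 684) (nat_lit 6060421855) (nat_lit 75) (nat_lit 5) (nat_lit 75) (nat_lit 3) (nat_lit 84) (nat_lit 3) (nat_lit 263) (nat_lit 263) (nat_lit 194))) (XT.nd (nat_lit 78) (nat_lit 0) (nat_lit 76) (XT.lf (nat_lit 0) (nat_lit 12847753628) (nat_lit 684) (nat_lit 1564079843) (nat_lit 760) (nat_lit 10688772628) (nat_lit 75) (nat_lit 5) (nat_lit 84) (nat_lit 3) (nat_lit 85) (nat_lit 5) (nat_lit 264) (nat_lit 263) (nat_lit 193)) (XT.nd (nat_lit 78) (nat_lit 0) (nat_lit 0) (XT.lf (nat_lit 0) (nat_lit 14118692115) (nat_lit 684) (nat_lit 9390145783)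 (nat_lit 760) (nat_lit 2597094293) (nat_lit 76) (nat_lit 5) (nat_lit 85) (nat_lit 5) (nat_lit 86) (nat_lit 5) (nat_lit 265) (nat_lit 263) (nat_lit 192)) (XT.lf (nat_lit 76) (nat_lit 9370369483) (nat_lit 0) (nat_lit 6522901285) (nat_lit 760) (nat_lit 11278359904) (nat_lit 77) (nat_lit 5) (nat_lit 76) (nat_lit 5) (nat_lit 86) (nat_lit 5) (nat_lit 266) (nat_lit 263) (nat_lit 191))))) (XT.nd (nat_lit 156) (nat_lit 608) (nat_lit 0) (XT.nd (nat_lit 78) (nat_lit 0) (nat_lit 76) (XT.lf (nat_lit 76) (nat_lit 1503446363) (nat_lit 0) (nat_lit 16666677698) (nat_lit 760) (nat_lit 10134486806) (nat_lit 78) (nat_lit 5) (nat_lit 77) (nat_lit 5) (nat_lit 87) (nat_lit 5) (nat_lit 267) (nat_lit 263) (nat_lit 190)) (XT.lf (nat_lit 0) (nat_lit 21062904054) (nat_lit 684) (nat_lit 6671626304) (nat_lit 760) (nat_lit 1772048398) (nat_lit 78) (nat_lit 5) (nat_lit 87) (nat_lit 5) (nat_lit 88) (nat_lit 5) (nat_lit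 268) (nat_lit 263) (nat_lit 189))) (XT.nd (nat_lit 78) (nat_lit 684) (nat_lit 0) (XT.lf (nat_lit 76) (nat_lit 15266260081) (nat_lit 0) (nat_lit 9428143577) (nat_lit 760) (nat_lit 6084970926) (nat_lit 79) (nat_lit 5) (nat_lit 78) (nat_lit 5) (nat_lit 88) (nat_lit 5) (nat_lit 269) (nat_lit 263) (nat_lit 188)) (XT.nd (nat_lit 78) (nat_lit 76) (nat_lit 0) (XT.lf (nat_lit 0) (nat_lit 7103388399) (nat_lit 684) (nat_lit 21892241260) (nat_lit 760) (nat_lit 3139436848) (nat_lit 70) (nat_lit 5) (nat_lit 79) (nat_lit 5) (nat_lit 80) (nat_lit 5) (nat_lit 270) (nat_lit 263) (nat_lit 187)) (XT.lf (nat_lit 0) (nat_lit 463227826) (nat_lit 760) (nat_lit 1676355166) (nat_lit 76) (nat_lit 31438485895) (nat_lit 69) (nat_lit 5) (nat_lit 79) (nat_lit 5) (nat_lit 70) (nat_lit 5) (nat_lit 271) (nat_lit 263) (nat_lit 186))))))))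
noncomputable def xc92 : XT := (XT.nd (nat_lit 1482) (nat_lit 1064) (nat_lit 0) (XT.nd (nat_lit 702) (nat_lit 1368) (nat_lit 0) (XT.nd (nat_lit 312) (nat_lit 1140) (nat_lit 0) (XT.nd (nat_lit 156) (nat_lit 304) (nat_lit 0) (XT.nd (nat_lit 78) (nat_lit 380) (nat_lit 0) (XT.lf (nat_lit 0) (nat_lit 4921126437) (nat_lit 456) (nat_lit 11160266216) (nat_lit 76) (nat_lit 19018721671) (nat_lit 64) (nat_lit 5) (nat_lit 70) (nat_lit 5) (nat_lit 65) (nat_lit 5) (nat_lit 272) (nat_lit 263) (nat_lit 185)) (XT.lf (nat_lit 0) (nat_lit 10115299123) (nat_lit 456) (nat_lit 21443529391) (nat_lit 76) (nat_lit 5166137530) (nat_lit 59) (nat_lit 5) (nat_lit 65) (nat_lit 5) (nat_lit 60) (nat_lit 5) (nat_lit 273) (nat_lit 263) (nat_lit 184))) (XT.nd (nat_lit 78) (nat_lit 0) (nat_lit 0) (XT.lf (nat_lit 0) (nat_lit 5664643199) (nat_lit 304) (nat_lit 10608724837) (nat_lit 380) (nat_lit 22179042670) (nat_lit 55)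 (nat_lit 5) (nat_lit 59) (nat_lit 5) (nat_lit 60) (nat_lit 5) (nat_lit 274) (nat_lit 263) (nat_lit 183)) (XT.lf (nat_lit 0) (nat_lit 23483039984) (nat_lit 380) (nat_lit 4795171270) (nat_lit 76) (nat_lit 12011913040) (nat_lit 55) (nat_lit 5) (nat_lit 60) (nat_lit 5) (nat_lit 56) (nat_lit 5) (nat_lit 275) (nat_lit 263) (nat_lit 182)))) (XT.nd (nat_lit 156) (nat_lit 608) (nat_lit 0) (XT.nd (nat_lit 78) (nat_lit 228) (nat_lit 0) (XT.lf (nat_lit 0) (nat_lit 26084235005) (nat_lit 304) (nat_lit 5763674225) (nat_lit 380) (nat_lit 10398044216) (nat_lit 51) (nat_lit 5) (nat_lit 55) (nat_lit 5) (nat_lit 56) (nat_lit 5) (nat_lit 276) (nat_lit 263) (nat_lit 181)) (XT.lf (nat_lit 0) (nat_lit 15445935490) (nat_lit 228) (nat_lit 26044455365) (nat_lit 304) (nat_lit 2837455131) (nat_lit 48) (nat_lit 5) (nat_lit 51) (nat_lit 5) (nat_lit 52) (nat_lit 5) (nat_lit 277) (nat_lit 263) (nat_lit 180))) (XT.nd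 (nat_lit 78) (nat_lit 228) (nat_lit 0) (XT.lf (nat_lit 0) (nat_lit 3516230426) (nat_lit 304) (nat_lit 2072451760) (nat_lit 380) (nat_lit 40961903067) (nat_lit 43) (nat_lit 5) (nat_lit 47) (nat_lit 5) (nat_lit 48) (nat_lit 5) (nat_lit 278) (nat_lit 263) (nat_lit 179)) (XT.nd (nat_lit 78) (nat_lit 228) (nat_lit 0) (XT.lf (nat_lit 0) (nat_lit 15467408529) (nat_lit 380) (nat_lit 9824747394) (nat_lit 76) (nat_lit 23612781384) (nat_lit 43) (nat_lit 5) (nat_lit 48) (nat_lit 5) (nat_lit 44) (nat_lit 5) (nat_lit 279) (nat_lit 263) (nat_lit 178)) (XT.lf (nat_lit 0) (nat_lit 26588856631) (nat_lit 304) (nat_lit 24570972723) (nat_lit 76) (nat_lit 265200747) (nat_lit 40) (nat_lit 5) (nat_lit 44) (nat_lit 5) (nat_lit 41) (nat_lit 5) (nat_lit 280) (nat_lit 263) (nat_lit 177)))))) (XT.nd (nat_lit 390) (nat_lit 532) (nat_lit 0) (XT.nd (nat_lit 156) (nat_lit 608) (nat_lit 0) (XT.nd (nat_lit 78) (nat_lit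 0) (nat_lit 0) (XT.lf (nat_lit 0) (nat_lit 12647642813) (nat_lit 228) (nat_lit 26744437705) (nat_lit 304) (nat_lit 14715059543) (nat_lit 37) (nat_lit 5) (nat_lit 40) (nat_lit 5) (nat_lit 41) (nat_lit 5) (nat_lit 281) (nat_lit 263) (nat_lit 176)) (XT.lf (nat_lit 0) (nat_lit 53643185264) (nat_lit 304) (nat_lit 3270035901) (nat_lit 76) (nat_lit 69428303) (nat_lit 37) (nat_lit 5) (nat_lit 41) (nat_lit 5) (nat_lit 38) (nat_lit 5) (nat_lit 282) (nat_lit 263) (nat_lit 175))) (XT.nd (nat_lit 78) (nat_lit 380) (nat_lit 0) (XT.lf (nat_lit 0) (nat_lit 9728002363) (nat_lit 228) (nat_lit 21435549896) (nat_lit 76) (nat_lit 28864266163) (nat_lit 34) (nat_lit 5) (nat_lit 37) (nat_lit 5) (nat_lit 35) (nat_lit 5) (nat_lit 283) (nat_lit 263) (nat_lit 174)) (XT.nd (nat_lit 78) (nat_lit 152) (nat_lit 0) (XT.lf (nat_lit 0) (nat_lit 21221619938) (nat_lit 228) (nat_lit 2888094906) (nat_lit 304) (nat_lit 39184866058)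 (nat_lit 31) (nat_lit 5) (nat_lit 34) (nat_lit 5) (nat_lit 35) (nat_lit 5) (nat_lit 284) (nat_lit 263) (nat_lit 173)) (XT.lf (nat_lit 0) (nat_lit 834872104) (nat_lit 152) (nat_lit 39626616381) (nat_lit 228) (nat_lit 26320228606) (nat_lit 29) (nat_lit 5) (nat_lit 31) (nat_lit 5) (nat_lit 32) (nat_lit 5) (nat_lit 285) (nat_lit 263) (nat_lit 172))))) (XT.nd (nat_lit 156) (nat_lit 304) (nat_lit 0) (XT.nd (nat_lit 78) (nat_lit 228) (nat_lit 0) (XT.lf (nat_lit 0) (nat_lit 48620884129) (nat_lit 152) (nat_lit 10276853623) (nat_lit 228) (nat_lit 11611277993) (nat_lit 29) (nat_lit 5) (nat_lit 31) (nat_lit 5) (nat_lit 32) (nat_lit 5) (nat_lit 286) (nat_lit 263) (nat_lit 171)) (XT.lf (nat_lit 0) (nat_lit 4888914878) (nat_lit 228) (nat_lit 48383472029) (nat_lit 76) (nat_lit 21221215239) (nat_lit 26) (nat_lit 5) (nat_lit 29) (nat_lit 5) (nat_lit 27) (nat_lit 5) (nat_lit 287) (nat_lit 263) (nat_lit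 170))) (XT.nd (nat_lit 78) (nat_lit 304) (nat_lit 0) (XT.lf (nat_lit 0) (nat_lit 22864553879) (nat_lit 228) (nat_lit 429462713) (nat_lit 76) (nat_lit 55465316504) (nat_lit 26) (nat_lit 5) (nat_lit 29) (nat_lit 5) (nat_lit 27) (nat_lit 5) (nat_lit 288) (nat_lit 263) (nat_lit 169)) (XT.nd (nat_lit 78) (nat_lit 152) (nat_lit 0) (XT.lf (nat_lit 0) (nat_lit 43258185849) (nat_lit 228) (nat_lit 30427215328) (nat_lit 76) (nat_lit 9631930495) (nat_lit 24) (nat_lit 5) (nat_lit 27) (nat_lit 5) (nat_lit 25) (nat_lit 5) (nat_lit 289) (nat_lit 263) (nat_lit 168)) (XT.lf (nat_lit 0) (nat_lit 22575071385) (nat_lit 152) (nat_lit 43457520406) (nat_lit 228) (nat_lit 22169919953) (nat_lit 22) (nat_lit 5) (nat_lit 24) (nat_lit 5) (nat_lit 25) (nat_lit 5) (nat_lit 290) (nat_lit 263) (nat_lit 167))))))) (XT.nd (nat_lit 702) (nat_lit 380) (nat_lit 0) (XT.nd (nat_lit 312) (nat_lit 380) (nat_lit 0) (XT.nd (nat_lit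 156) (nat_lit 152) (nat_lit 0) (XT.nd (nat_lit 78) (nat_lit 152) (nat_lit 0) (XT.lf (nat_lit 0) (nat_lit 80898758009) (nat_lit 152) (nat_lit 10256835173) (nat_lit 228) (nat_lit 2296586243) (nat_lit 22) (nat_lit 5) (nat_lit 24) (nat_lit 5) (nat_lit 25) (nat_lit 5) (nat_lit 291) (nat_lit 263) (nat_lit 166)) (XT.lf (nat_lit 0) (nat_lit 19683429461) (nat_lit 152) (nat_lit 53555132555) (nat_lit 76) (nat_lit 25811787664) (nat_lit 20) (nat_lit 5) (nat_lit 22) (nat_lit 5) (nat_lit 21) (nat_lit 5) (nat_lit 292) (nat_lit 263) (nat_lit 165))) (XT.nd (nat_lit 78) (nat_lit 0) (nat_lit 0) (XT.lf (nat_lit 0) (nat_lit 3440491622) (nat_lit 152) (nat_lit 40347838530) (nat_lit 228) (nat_lit 61283818081) (nat_lit 18) (nat_lit 5) (nat_lit 20) (nat_lit 5) (nat_lit 21) (nat_lit 5) (nat_lit 293) (nat_lit 263) (nat_lit 164)) (XT.lf (nat_lit 0) (nat_lit 66903464845) (nat_lit 152) (nat_lit 3848153327) (nat_lit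 228) (nat_lit 40777576780) (nat_lit 18) (nat_lit 5) (nat_lit 20) (nat_lit 5) (nat_lit 21) (nat_lit 5) (nat_lit 294) (nat_lit 263) (nat_lit 163)))) (XT.nd (nat_lit 156) (nat_lit 228) (nat_lit 0) (XT.nd (nat_lit 78) (nat_lit 76) (nat_lit 0) (XT.lf (nat_lit 0) (nat_lit 16922424927) (nat_lit 76) (nat_lit 83766409411) (nat_lit 152) (nat_lit 17773131561) (nat_lit 17) (nat_lit 5) (nat_lit 18) (nat_lit 5) (nat_lit 19) (nat_lit 4) (nat_lit 295) (nat_lit 263) (nat_lit 162)) (XT.lf (nat_lit 0) (nat_lit 7697689309) (nat_lit 152) (nat_lit 41114919650) (nat_lit 76) (nat_lit 77088614558) (nat_lit 16) (nat_lit 5) (nat_lit 18) (nat_lit 5) (nat_lit 17) (nat_lit 5) (nat_lit 296) (nat_lit 263) (nat_lit 161))) (XT.nd (nat_lit 78) (nat_lit 76) (nat_lit 0) (XT.lf (nat_lit 0) (nat_lit 24628172043) (nat_lit 152) (nat_lit 10345729500) (nat_lit 228) (nat_lit 98927634639) (nat_lit 14) (nat_lit 5) (nat_lit 16) (nat_lit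 5) (nat_lit 17) (nat_lit 5) (nat_lit 297) (nat_lit 263) (nat_lit 160)) (XT.nd (nat_lit 78) (nat_lit 76) (nat_lit 0) (XT.lf (nat_lit 0) (nat_lit 65644907850) (nat_lit 228) (nat_lit 45909973550) (nat_lit 76) (nat_lit 30926360437) (nat_lit 14) (nat_lit 5) (nat_lit 17) (nat_lit 5) (nat_lit 15) (nat_lit 4) (nat_lit 298) (nat_lit 263) (nat_lit 159)) (XT.lf (nat_lit 0) (nat_lit 23083156554) (nat_lit 76) (nat_lit 76219116533) (nat_lit 152) (nat_lit 52418419558) (nat_lit 13) (nat_lit 5) (nat_lit 14) (nat_lit 5) (nat_lit 15) (nat_lit 4) (nat_lit 299) (nat_lit 263) (nat_lit 158)))))) (XT.nd (nat_lit 390) (nat_lit 152) (nat_lit 0) (XT.nd (nat_lit 156) (nat_lit 76) (nat_lit 0) (XT.nd (nat_lit 78) (nat_lit 152) (nat_lit 0) (XT.lf (nat_lit 0) (nat_lit 99231638734) (nat_lit 76) (nat_lit 37218253770) (nat_lit 152) (nat_lit 25209526196) (nat_lit 13) (nat_lit 5) (nat_lit 14) (nat_lit 5) (nat_lit 15) (nat_lit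 4) (nat_lit 300) (nat_lit 263) (nat_lit 157)) (XT.lf (nat_lit 0) (nat_lit 4265780042) (nat_lit 152) (nat_lit 163154648088) (nat_lit 76) (nat_lit 4958388737) (nat_lit 11) (nat_lit 5) (nat_lit 13) (nat_lit 5) (nat_lit 12) (nat_lit 4) (nat_lit 301) (nat_lit 263) (nat_lit 156))) (XT.nd (nat_lit 78) (nat_lit 76) (nat_lit 0) (XT.lf (nat_lit 0) (nat_lit 36958680613) (nat_lit 152) (nat_lit 96137580343) (nat_lit 76) (nat_lit 50751704925) (nat_lit 11) (nat_lit 5) (nat_lit 13) (nat_lit 5) (nat_lit 12) (nat_lit 4) (nat_lit 302) (nat_lit 263) (nat_lit 155)) (XT.nd (nat_lit 78) (nat_lit 76) (nat_lit 0) (XT.lf (nat_lit 0) (nat_lit 72265286022) (nat_lit 152) (nat_lit 23762167425) (nat_lit 76) (nat_lit 100207281566) (nat_lit 11) (nat_lit 5) (nat_lit 13) (nat_lit 5) (nat_lit 12) (nat_lit 4) (nat_lit 303) (nat_lit 263) (nat_lit 154)) (XT.lf (nat_lit 0) (nat_lit 56199207613) (nat_lit 76) (nat_lit 55073040112)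 (nat_lit 152) (nat_lit 98296408257) (nat_lit 10) (nat_lit 5) (nat_lit 11) (nat_lit 5) (nat_lit 12) (nat_lit 4) (nat_lit 304) (nat_lit 263) (nat_lit 153))))) (XT.nd (nat_lit 156) (nat_lit 152) (nat_lit 0) (XT.nd (nat_lit 78) (nat_lit 0) (nat_lit 0) (XT.lf (nat_lit 0) (nat_lit 143403356998) (nat_lit 76) (nat_lit 10408808428) (nat_lit 152) (nat_lit 70136506824) (nat_lit 10) (nat_lit 5) (nat_lit 11) (nat_lit 5) (nat_lit 12) (nat_lit 4) (nat_lit 305) (nat_lit 263) (nat_lit 152)) (XT.lf (nat_lit 0) (nat_lit 200344459965) (nat_lit 152) (nat_lit 2488393482) (nat_lit 0) (nat_lit 36616778659) (nat_lit 10) (nat_lit 5) (nat_lit 12) (nat_lit 4) (nat_lit 10) (nat_lit 4) (nat_lit 306) (nat_lit 263) (nat_lit 151))) (XT.nd (nat_lit 78) (nat_lit 76) (nat_lit 0) (XT.lf (nat_lit 0) (nat_lit 84334455184) (nat_lit 76) (nat_lit 167755770817) (nat_lit 76) (nat_lit 4025899703) (nat_lit 9) (nat_lit 4) (nat_lit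 10) (nat_lit 5) (nat_lit 10) (nat_lit 4) (nat_lit 307) (nat_lit 263) (nat_lit 150)) (XT.nd (nat_lit 78) (nat_lit 0) (nat_lit 0) (XT.lf (nat_lit 0) (nat_lit 32818769219) (nat_lit 152) (nat_lit 96453421814) (nat_lit 76) (nat_lit 144815177844) (nat_lit 8) (nat_lit 5) (nat_lit 10) (nat_lit 5) (nat_lit 9) (nat_lit 4) (nat_lit 308) (nat_lit 263) (nat_lit 149)) (XT.lf (nat_lit 0) (nat_lit 72470664416) (nat_lit 152) (nat_lit 15168914068) (nat_lit 76) (nat_lit 205853399170) (nat_lit 8) (nat_lit 5) (nat_lit 10) (nat_lit 5) (nat_lit 9) (nat_lit 4) (nat_lit 309) (nat_lit 263) (nat_lit 148))))))))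
noncomputable def xc93 : XT := (XT.nd (nat_lit 34398) (nat_lit 0) (nat_lit 1672) (XT.nd (nat_lit 702) (nat_lit 0) (nat_lit 0) (XT.nd (nat_lit 312) (nat_lit 152) (nat_lit 0) (XT.nd (nat_lit 156) (nat_lit 76) (nat_lit 0) (XT.nd (nat_lit 78) (nat_lit 0) (nat_lit 0) (XT.lf (nat_lit 0) (nat_lit 75017420206) (nat_lit 76) (nat_lit 41447425973) (nat_lit 152) (nat_lit 197927683227) (nat_lit 7) (nat_lit 5) (nat_lit 8) (nat_lit 5) (nat_lit 9) (nat_lit 4) (nat_lit 310) (nat_lit 263) (nat_lit 147)) (XT.lf (nat_lit 0) (nat_lit 164377842295) (nat_lit 152) (nat_lit 164128515794) (nat_lit 0) (nat_lit 8437724164) (nat_lit 7) (nat_lit 5) (nat_lit 9) (nat_lit 4) (nat_lit 7) (nat_lit 4) (nat_lit 311) (nat_lit 263) (nat_lit 146))) (XT.nd (nat_lit 78) (nat_lit 76) (nat_lit 0) (XT.lf (nat_lit 0) (nat_lit 216821777631) (nat_lit 152) (nat_lit 83562847471) (nat_lit 0) (nat_lit 60880240122) (nat_lit 7) (nat_lit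 5) (nat_lit 9) (nat_lit 4) (nat_lit 7) (nat_lit 4) (nat_lit 312) (nat_lit 263) (nat_lit 145)) (XT.lf (nat_lit 0) (nat_lit 3560387045) (nat_lit 76) (nat_lit 269955521163) (nat_lit 76) (nat_lit 114012669415) (nat_lit 6) (nat_lit 4) (nat_lit 7) (nat_lit 5) (nat_lit 7) (nat_lit 4) (nat_lit 313) (nat_lit 263) (nat_lit 144)))) (XT.nd (nat_lit 156) (nat_lit 152) (nat_lit 0) (XT.nd (nat_lit 78) (nat_lit 0) (nat_lit 0) (XT.lf (nat_lit 0) (nat_lit 100635912114) (nat_lit 76) (nat_lit 235564403484) (nat_lit 76) (nat_lit 79620334848) (nat_lit 6) (nat_lit 4) (nat_lit 7) (nat_lit 5) (nat_lit 7) (nat_lit 4) (nat_lit 314) (nat_lit 263) (nat_lit 143)) (XT.lf (nat_lit 0) (nat_lit 205476024988) (nat_lit 76) (nat_lit 198422650105) (nat_lit 76) (nat_lit 42477454721) (nat_lit 6) (nat_lit 4) (nat_lit 7) (nat_lit 5) (nat_lit 7) (nat_lit 4) (nat_lit 315) (nat_lit 263) (nat_lit 142))) (XT.nd (nat_lit 78) (nat_lit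 152) (nat_lit 0) (XT.lf (nat_lit 0) (nat_lit 318702000410) (nat_lit 76) (nat_lit 158310161746) (nat_lit 76) (nat_lit 2363923078) (nat_lit 6) (nat_lit 4) (nat_lit 7) (nat_lit 5) (nat_lit 7) (nat_lit 4) (nat_lit 316) (nat_lit 263) (nat_lit 141)) (XT.nd (nat_lit 78) (nat_lit 76) (nat_lit 0) (XT.lf (nat_lit 0) (nat_lit 39647059074) (nat_lit 152) (nat_lit 74670733570) (nat_lit 76) (nat_lit 400666305918) (nat_lit 5) (nat_lit 5) (nat_lit 7) (nat_lit 5) (nat_lit 6) (nat_lit 4) (nat_lit 317) (nat_lit 263) (nat_lit 140)) (XT.lf (nat_lit 0) (nat_lit 18772692842) (nat_lit 76) (nat_lit 66456961774) (nat_lit 152) (nat_lit 468194483465) (nat_lit 4) (nat_lit 5) (nat_lit 5) (nat_lit 5) (nat_lit 6) (nat_lit 4) (nat_lit 318) (nat_lit 263) (nat_lit 139)))))) (XT.nd (nat_lit 33306) (nat_lit 0) (nat_lit 5396) (XT.nd (nat_lit 156) (nat_lit 0) (nat_lit 0) (XT.nd (nat_lit 78) (nat_lit 0) (nat_lit 0) (XT.lf (nat_lit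 0) (nat_lit 122356936007) (nat_lit 76) (nat_lit 13402021711) (nat_lit 152) (nat_lit 459115418534) (nat_lit 4) (nat_lit 5) (nat_lit 5) (nat_lit 5) (nat_lit 6) (nat_lit 4) (nat_lit 319) (nat_lit 263) (nat_lit 138)) (XT.lf (nat_lit 0) (nat_lit 191015387343) (nat_lit 152) (nat_lit 406099138375) (nat_lit 0) (nat_lit 42491869094) (nat_lit 4) (nat_lit 5) (nat_lit 6) (nat_lit 4) (nat_lit 4) (nat_lit 4) (nat_lit 320) (nat_lit 263) (nat_lit 137))) (XT.nd (nat_lit 78) (nat_lit 0) (nat_lit 0) (XT.lf (nat_lit 0) (nat_lit 250917778895) (nat_lit 152) (nat_lit 334594339587) (nat_lit 0) (nat_lit 102393584415) (nat_lit 4) (nat_lit 5) (nat_lit 6) (nat_lit 4) (nat_lit 4) (nat_lit 4) (nat_lit 321) (nat_lit 263) (nat_lit 136)) (XT.nd (nat_lit 32994) (nat_lit 0) (nat_lit 5396) (XT.lf (nat_lit 0) (nat_lit 315611866391) (nat_lit 152) (nat_lit 257370068621) (nat_lit 0) (nat_lit 167087045771) (nat_lit 4) (nat_lit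 5) (nat_lit 6) (nat_lit 4) (nat_lit 4) (nat_lit 4) (nat_lit 322) (nat_lit 263) (nat_lit 135)) (XT.lf (nat_lit 0) (nat_lit 3327977486) (nat_lit 0) (nat_lit 3327977486) (nat_lit 684) (nat_lit 6377582078) (nat_lit 75) (nat_lit 5) (nat_lit 75) (nat_lit 3) (nat_lit 84) (nat_lit 3) (nat_lit 264) (nat_lit 264) (nat_lit 192))))) (XT.nd (nat_lit 156) (nat_lit 0) (nat_lit 76) (XT.nd (nat_lit 78) (nat_lit 0) (nat_lit 76) (XT.lf (nat_lit 0) (nat_lit 14168164517) (nat_lit 684) (nat_lit 1523843975) (nat_lit 760) (nat_lit 11401147317) (nat_lit 75) (nat_lit 5) (nat_lit 84) (nat_lit 3) (nat_lit 85) (nat_lit 5) (nat_lit 265) (nat_lit 264) (nat_lit 191)) (XT.lf (nat_lit 0) (nat_lit 15519775507) (nat_lit 684) (nat_lit 9966908668) (nat_lit 760) (nat_lit 2693338331) (nat_lit 76) (nat_lit 5) (nat_lit 85) (nat_lit 5) (nat_lit 86) (nat_lit 5) (nat_lit 266) (nat_lit 264) (nat_lit 190))) (XT.nd (nat_lit 78) (nat_lit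 0) (nat_lit 76) (XT.lf (nat_lit 76) (nat_lit 10286866488) (nat_lit 0) (nat_lit 7131941602) (nat_lit 760) (nat_lit 11913104013) (nat_lit 77) (nat_lit 5) (nat_lit 76) (nat_lit 5) (nat_lit 86) (nat_lit 5) (nat_lit 267) (nat_lit 264) (nat_lit 189)) (XT.nd (nat_lit 78) (nat_lit 0) (nat_lit 76) (XT.lf (nat_lit 76) (nat_lit 1797504600) (nat_lit 0) (nat_lit 18062937152) (nat_lit 760) (nat_lit 10696012561) (nat_lit 78) (nat_lit 5) (nat_lit 77) (nat_lit 5) (nat_lit 87) (nat_lit 5) (nat_lit 268) (nat_lit 264) (nat_lit 188)) (XT.lf (nat_lit 0) (nat_lit 22966200569) (nat_lit 684) (nat_lit 7031939379) (nat_lit 760) (nat_lit 1857412977) (nat_lit 78) (nat_lit 5) (nat_lit 87) (nat_lit 5) (nat_lit 88) (nat_lit 5) (nat_lit 269) (nat_lit 264) (nat_lit 187))))))) (XT.nd (nat_lit 780) (nat_lit 1292) (nat_lit 0) (XT.nd (nat_lit 390) (nat_lit 1216) (nat_lit 0) (XT.nd (nat_lit 156) (nat_lit 836) (nat_lit 0) (XT.nd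 (nat_lit 78) (nat_lit 608) (nat_lit 0) (XT.lf (nat_lit 76) (nat_lit 16653441424) (nat_lit 0) (nat_lit 10221200860) (nat_lit 760) (nat_lit 6356256356) (nat_lit 79) (nat_lit 5) (nat_lit 78) (nat_lit 5) (nat_lit 88) (nat_lit 5) (nat_lit 270) (nat_lit 264) (nat_lit 186)) (XT.lf (nat_lit 0) (nat_lit 7841266010) (nat_lit 684) (nat_lit 23665625449) (nat_lit 760) (nat_lit 3188852023) (nat_lit 70) (nat_lit 5) (nat_lit 79) (nat_lit 5) (nat_lit 80) (nat_lit 5) (nat_lit 271) (nat_lit 264) (nat_lit 185))) (XT.nd (nat_lit 78) (nat_lit 760) (nat_lit 0) (XT.lf (nat_lit 0) (nat_lit 681103497) (nat_lit 760) (nat_lit 1646958801) (nat_lit 76) (nat_lit 33926728183) (nat_lit 69) (nat_lit 5) (nat_lit 79) (nat_lit 5) (nat_lit 70) (nat_lit 5) (nat_lit 272) (nat_lit 264) (nat_lit 184)) (XT.nd (nat_lit 78) (nat_lit 380) (nat_lit 0) (XT.lf (nat_lit 0) (nat_lit 5484471692) (nat_lit 456) (nat_lit 11887537673) (nat_lit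 76) (nat_lit 20527184083) (nat_lit 64) (nat_lit 5) (nat_lit 70) (nat_lit 5) (nat_lit 65) (nat_lit 5) (nat_lit 273) (nat_lit 264) (nat_lit 183)) (XT.lf (nat_lit 0) (nat_lit 11084064698) (nat_lit 456) (nat_lit 22992245522) (nat_lit 76) (nat_lit 5578261891) (nat_lit 59) (nat_lit 5) (nat_lit 65) (nat_lit 5) (nat_lit 60) (nat_lit 5) (nat_lit 274) (nat_lit 264) (nat_lit 182))))) (XT.nd (nat_lit 156) (nat_lit 912) (nat_lit 0) (XT.nd (nat_lit 78) (nat_lit 0) (nat_lit 0) (XT.lf (nat_lit 0) (nat_lit 6277333418) (nat_lit 304) (nat_lit 11448118341) (nat_lit 380) (nat_lit 23795257633) (nat_lit 55) (nat_lit 5) (nat_lit 59) (nat_lit 5) (nat_lit 60) (nat_lit 5) (nat_lit 275) (nat_lit 264) (nat_lit 181)) (XT.lf (nat_lit 0) (nat_lit 25500904987) (nat_lit 380) (nat_lit 5023907504) (nat_lit 76) (nat_lit 12981205603) (nat_lit 55) (nat_lit 5) (nat_lit 60) (nat_lit 5) (nat_lit 56) (nat_lit 5) (nat_lit 276)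 (nat_lit 264) (nat_lit 180))) (XT.nd (nat_lit 78) (nat_lit 608) (nat_lit 0) (XT.lf (nat_lit 0) (nat_lit 28319120486) (nat_lit 304) (nat_lit 6207843545) (nat_lit 380) (nat_lit 11091775834) (nat_lit 51) (nat_lit 5) (nat_lit 55) (nat_lit 5) (nat_lit 56) (nat_lit 5) (nat_lit 277) (nat_lit 264) (nat_lit 179)) (XT.nd (nat_lit 78) (nat_lit 380) (nat_lit 0) (XT.lf (nat_lit 0) (nat_lit 16829656410) (nat_lit 228) (nat_lit 28104023705) (nat_lit 304) (nat_lit 2933886249) (nat_lit 48) (nat_lit 5) (nat_lit 51) (nat_lit 5) (nat_lit 52) (nat_lit 5) (nat_lit 278) (nat_lit 264) (nat_lit 178)) (XT.lf (nat_lit 0) (nat_lit 3943415640) (nat_lit 304) (nat_lit 2211663256) (nat_lit 380) (nat_lit 44113319641) (nat_lit 43) (nat_lit 5) (nat_lit 47) (nat_lit 5) (nat_lit 48) (nat_lit 5) (nat_lit 279) (nat_lit 264) (nat_lit 177)))))) (XT.nd (nat_lit 390) (nat_lit 608) (nat_lit 0) (XT.nd (nat_lit 156) (nat_lit 456)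 (nat_lit 0) (XT.nd (nat_lit 78) (nat_lit 228) (nat_lit 0) (XT.lf (nat_lit 0) (nat_lit 16815650466) (nat_lit 380) (nat_lit 10470259356) (nat_lit 76) (nat_lit 25525631460) (nat_lit 43) (nat_lit 5) (nat_lit 48) (nat_lit 5) (nat_lit 44) (nat_lit 5) (nat_lit 280) (nat_lit 264) (nat_lit 176)) (XT.lf (nat_lit 0) (nat_lit 28821163713) (nat_lit 304) (nat_lit 26397282901) (nat_lit 76) (nat_lit 315095831) (nat_lit 40) (nat_lit 5) (nat_lit 44) (nat_lit 5) (nat_lit 41) (nat_lit 5) (nat_lit 281) (nat_lit 264) (nat_lit 175))) (XT.nd (nat_lit 78) (nat_lit 228) (nat_lit 0) (XT.lf (nat_lit 0) (nat_lit 13792765130) (nat_lit 228) (nat_lit 28850169252) (nat_lit 304) (nat_lit 15787589424) (nat_lit 37) (nat_lit 5) (nat_lit 40) (nat_lit 5) (nat_lit 41) (nat_lit 5) (nat_lit 282) (nat_lit 264) (nat_lit 174)) (XT.nd (nat_lit 78) (nat_lit 228) (nat_lit 0) (XT.lf (nat_lit 0) (nat_lit 58027247031) (nat_lit 304) (nat_lit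 3403888520) (nat_lit 76) (nat_lit 105298222) (nat_lit 37) (nat_lit 5) (nat_lit 41) (nat_lit 5) (nat_lit 38) (nat_lit 5) (nat_lit 283) (nat_lit 264) (nat_lit 173)) (XT.lf (nat_lit 0) (nat_lit 10595511393) (nat_lit 228) (nat_lit 23025069884) (nat_lit 76) (nat_lit 31204825187) (nat_lit 34) (nat_lit 5) (nat_lit 37) (nat_lit 5) (nat_lit 35) (nat_lit 5) (nat_lit 284) (nat_lit 264) (nat_lit 172))))) (XT.nd (nat_lit 156) (nat_lit 228) (nat_lit 0) (XT.nd (nat_lit 78) (nat_lit 152) (nat_lit 0) (XT.lf (nat_lit 0) (nat_lit 23039227108) (nat_lit 228) (nat_lit 3083792883) (nat_lit 304) (nat_lit 42230739883) (nat_lit 31) (nat_lit 5) (nat_lit 34) (nat_lit 5) (nat_lit 35) (nat_lit 5) (nat_lit 285) (nat_lit 264) (nat_lit 171)) (XT.lf (nat_lit 0) (nat_lit 1019998617) (nat_lit 152) (nat_lit 42759034168) (nat_lit 228) (nat_lit 28341041243) (nat_lit 29) (nat_lit 5) (nat_lit 31) (nat_lit 5) (nat_lit 32) (nat_lit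 5) (nat_lit 286) (nat_lit 264) (nat_lit 170))) (XT.nd (nat_lit 78) (nat_lit 228) (nat_lit 0) (XT.lf (nat_lit 0) (nat_lit 52620125919) (nat_lit 152) (nat_lit 11064083836) (nat_lit 228) (nat_lit 12461656481) (nat_lit 29) (nat_lit 5) (nat_lit 31) (nat_lit 5) (nat_lit 32) (nat_lit 5) (nat_lit 287) (nat_lit 264) (nat_lit 169)) (XT.nd (nat_lit 78) (nat_lit 0) (nat_lit 0) (XT.lf (nat_lit 0) (nat_lit 5352634894) (nat_lit 228) (nat_lit 52143636977) (nat_lit 76) (nat_lit 22953066308) (nat_lit 26) (nat_lit 5) (nat_lit 29) (nat_lit 5) (nat_lit 27) (nat_lit 5) (nat_lit 288) (nat_lit 264) (nat_lit 168)) (XT.lf (nat_lit 0) (nat_lit 24760946732) (nat_lit 228) (nat_lit 361493050) (nat_lit 76) (nat_lit 59934165759) (nat_lit 26) (nat_lit 5) (nat_lit 29) (nat_lit 5) (nat_lit 27) (nat_lit 5) (nat_lit 289) (nat_lit 264) (nat_lit 167))))))))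
noncomputable def xc94 : XT := (XT.nd (nat_lit 1482) (nat_lit 380) (nat_lit 0) (XT.nd (nat_lit 702) (nat_lit 380) (nat_lit 0) (XT.nd (nat_lit 312) (nat_lit 456) (nat_lit 0) (XT.nd (nat_lit 156) (nat_lit 152) (nat_lit 0) (XT.nd (nat_lit 78) (nat_lit 152) (nat_lit 0) (XT.lf (nat_lit 0) (nat_lit 46783149985) (nat_lit 228) (nat_lit 32760752044) (nat_lit 76) (nat_lit 10435496291) (nat_lit 24) (nat_lit 5) (nat_lit 27) (nat_lit 5) (nat_lit 25) (nat_lit 5) (nat_lit 290) (nat_lit 264) (nat_lit 166)) (XT.lf (nat_lit 0) (nat_lit 24477343892) (nat_lit 152) (nat_lit 46898903855) (nat_lit 228) (nat_lit 23879315818) (nat_lit 22) (nat_lit 5) (nat_lit 24) (nat_lit 5) (nat_lit 25) (nat_lit 5) (nat_lit 291) (nat_lit 264) (nat_lit 165))) (XT.nd (nat_lit 78) (nat_lit 152) (nat_lit 0) (XT.lf (nat_lit 0) (nat_lit 87459794572) (nat_lit 152) (nat_lit 11044772558) (nat_lit 228) (nat_lit 2420870799) (nat_lit 22)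 (nat_lit 5) (nat_lit 24) (nat_lit 5) (nat_lit 25) (nat_lit 5) (nat_lit 292) (nat_lit 264) (nat_lit 164)) (XT.lf (nat_lit 0) (nat_lit 21313250102) (nat_lit 152) (nat_lit 57750076513) (nat_lit 76) (nat_lit 27908214780) (nat_lit 20) (nat_lit 5) (nat_lit 22) (nat_lit 5) (nat_lit 21) (nat_lit 5) (nat_lit 293) (nat_lit 264) (nat_lit 163)))) (XT.nd (nat_lit 156) (nat_lit 304) (nat_lit 0) (XT.nd (nat_lit 78) (nat_lit 0) (nat_lit 0) (XT.lf (nat_lit 0) (nat_lit 3801309488) (nat_lit 152) (nat_lit 43542484572) (nat_lit 228) (nat_lit 66131433059) (nat_lit 18) (nat_lit 5) (nat_lit 20) (nat_lit 5) (nat_lit 21) (nat_lit 5) (nat_lit 294) (nat_lit 264) (nat_lit 162)) (XT.lf (nat_lit 0) (nat_lit 72334981417) (nat_lit 152) (nat_lit 4125282407) (nat_lit 228) (nat_lit 43988773230) (nat_lit 18) (nat_lit 5) (nat_lit 20) (nat_lit 5) (nat_lit 21) (nat_lit 5) (nat_lit 295) (nat_lit 264) (nat_lit 161))) (XT.nd (nat_lit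 78) (nat_lit 228) (nat_lit 0) (XT.lf (nat_lit 0) (nat_lit 18353940960) (nat_lit 76) (nat_lit 90436580135) (nat_lit 152) (nat_lit 19146010406) (nat_lit 17) (nat_lit 5) (nat_lit 18) (nat_lit 5) (nat_lit 19) (nat_lit 4) (nat_lit 296) (nat_lit 264) (nat_lit 160)) (XT.nd (nat_lit 78) (nat_lit 152) (nat_lit 0) (XT.lf (nat_lit 0) (nat_lit 8357397306) (nat_lit 152) (nat_lit 44330641812) (nat_lit 76) (nat_lit 83283032375) (nat_lit 16) (nat_lit 5) (nat_lit 18) (nat_lit 5) (nat_lit 17) (nat_lit 5) (nat_lit 297) (nat_lit 264) (nat_lit 159)) (XT.lf (nat_lit 0) (nat_lit 26668704240) (nat_lit 152) (nat_lit 11144848199) (nat_lit 228) (nat_lit 106797968528) (nat_lit 14) (nat_lit 5) (nat_lit 16) (nat_lit 5) (nat_lit 17) (nat_lit 5) (nat_lit 298) (nat_lit 264) (nat_lit 158)))))) (XT.nd (nat_lit 390) (nat_lit 152) (nat_lit 0) (XT.nd (nat_lit 156) (nat_lit 152) (nat_lit 0) (XT.nd (nat_lit 78) (nat_lit 76)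 (nat_lit 0) (XT.lf (nat_lit 0) (nat_lit 70935560067) (nat_lit 228) (nat_lit 49516131658) (nat_lit 76) (nat_lit 33426049099) (nat_lit 14) (nat_lit 5) (nat_lit 17) (nat_lit 5) (nat_lit 15) (nat_lit 4) (nat_lit 299) (nat_lit 264) (nat_lit 157)) (XT.lf (nat_lit 0) (nat_lit 24993552772) (nat_lit 76) (nat_lit 82290063668) (nat_lit 152) (nat_lit 56572829673) (nat_lit 13) (nat_lit 5) (nat_lit 14) (nat_lit 5) (nat_lit 15) (nat_lit 4) (nat_lit 300) (nat_lit 264) (nat_lit 156))) (XT.nd (nat_lit 78) (nat_lit 152) (nat_lit 0) (XT.lf (nat_lit 0) (nat_lit 107229191771) (nat_lit 76) (nat_lit 40171100934) (nat_lit 152) (nat_lit 27190118431) (nat_lit 13) (nat_lit 5) (nat_lit 14) (nat_lit 5) (nat_lit 15) (nat_lit 4) (nat_lit 301) (nat_lit 264) (nat_lit 155)) (XT.nd (nat_lit 78) (nat_lit 0) (nat_lit 0) (XT.lf (nat_lit 0) (nat_lit 4640739596) (nat_lit 152) (nat_lit 176148096069) (nat_lit 76) (nat_lit 5378565871)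 (nat_lit 11) (nat_lit 5) (nat_lit 13) (nat_lit 5) (nat_lit 12) (nat_lit 4) (nat_lit 302) (nat_lit 264) (nat_lit 154)) (XT.lf (nat_lit 0) (nat_lit 39946576127) (nat_lit 152) (nat_lit 103774027635) (nat_lit 76) (nat_lit 54833606168) (nat_lit 11) (nat_lit 5) (nat_lit 13) (nat_lit 5) (nat_lit 12) (nat_lit 4) (nat_lit 303) (nat_lit 264) (nat_lit 153))))) (XT.nd (nat_lit 156) (nat_lit 76) (nat_lit 0) (XT.nd (nat_lit 78) (nat_lit 76) (nat_lit 0) (XT.lf (nat_lit 0) (nat_lit 78075398779) (nat_lit 152) (nat_lit 25612623102) (nat_lit 76) (nat_lit 108244016728) (nat_lit 11) (nat_lit 5) (nat_lit 13) (nat_lit 5) (nat_lit 12) (nat_lit 4) (nat_lit 304) (nat_lit 264) (nat_lit 152)) (XT.lf (nat_lit 0) (nat_lit 60743466501) (nat_lit 76) (nat_lit 59458065373) (nat_lit 152) (nat_lit 106131212934) (nat_lit 10) (nat_lit 5) (nat_lit 11) (nat_lit 5) (nat_lit 12) (nat_lit 4) (nat_lit 305) (nat_lit 264) (nat_lit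 151))) (XT.nd (nat_lit 78) (nat_lit 76) (nat_lit 0) (XT.lf (nat_lit 0) (nat_lit 154920368409) (nat_lit 76) (nat_lit 11222237225) (nat_lit 152) (nat_lit 75720660719) (nat_lit 10) (nat_lit 5) (nat_lit 11) (nat_lit 5) (nat_lit 12) (nat_lit 4) (nat_lit 306) (nat_lit 264) (nat_lit 150)) (XT.nd (nat_lit 78) (nat_lit 76) (nat_lit 0) (XT.lf (nat_lit 0) (nat_lit 216395875951) (nat_lit 152) (nat_lit 2645111647) (nat_lit 0) (nat_lit 39563397739) (nat_lit 10) (nat_lit 5) (nat_lit 12) (nat_lit 4) (nat_lit 10) (nat_lit 4) (nat_lit 307) (nat_lit 264) (nat_lit 149)) (XT.lf (nat_lit 0) (nat_lit 91121724289) (nat_lit 76) (nat_lit 181158444150) (nat_lit 76) (nat_lit 4324088530) (nat_lit 9) (nat_lit 4) (nat_lit 10) (nat_lit 5) (nat_lit 10) (nat_lit 4) (nat_lit 308) (nat_lit 264) (nat_lit 148))))))) (XT.nd (nat_lit 702) (nat_lit 152) (nat_lit 0) (XT.nd (nat_lit 312) (nat_lit 76) (nat_lit 0) (XT.nd (nat_lit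 156) (nat_lit 76) (nat_lit 0) (XT.nd (nat_lit 78) (nat_lit 0) (nat_lit 0) (XT.lf (nat_lit 0) (nat_lit 35465676996) (nat_lit 152) (nat_lit 104131456116) (nat_lit 76) (nat_lit 156416135056) (nat_lit 8) (nat_lit 5) (nat_lit 10) (nat_lit 5) (nat_lit 9) (nat_lit 4) (nat_lit 309) (nat_lit 264) (nat_lit 147)) (XT.lf (nat_lit 0) (nat_lit 78288138162) (nat_lit 152) (nat_lit 16347020302) (nat_lit 76) (nat_lit 222336247941) (nat_lit 8) (nat_lit 5) (nat_lit 10) (nat_lit 5) (nat_lit 9) (nat_lit 4) (nat_lit 310) (nat_lit 264) (nat_lit 146))) (XT.nd (nat_lit 78) (nat_lit 0) (nat_lit 0) (XT.lf (nat_lit 0) (nat_lit 81052681973) (nat_lit 76) (nat_lit 44748233077) (nat_lit 152) (nat_lit 213742055583) (nat_lit 7) (nat_lit 5) (nat_lit 8) (nat_lit 5) (nat_lit 9) (nat_lit 4) (nat_lit 311) (nat_lit 264) (nat_lit 145)) (XT.lf (nat_lit 0) (nat_lit 177545768906) (nat_lit 152) (nat_lit 177226764384) (nat_lit 0)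 (nat_lit 9126174780) (nat_lit 7) (nat_lit 5) (nat_lit 9) (nat_lit 4) (nat_lit 7) (nat_lit 4) (nat_lit 312) (nat_lit 264) (nat_lit 144)))) (XT.nd (nat_lit 156) (nat_lit 0) (nat_lit 0) (XT.nd (nat_lit 78) (nat_lit 76) (nat_lit 0) (XT.lf (nat_lit 0) (nat_lit 234183908015) (nat_lit 152) (nat_lit 90218215386) (nat_lit 0) (nat_lit 65763097001) (nat_lit 7) (nat_lit 5) (nat_lit 9) (nat_lit 4) (nat_lit 7) (nat_lit 4) (nat_lit 313) (nat_lit 264) (nat_lit 143)) (XT.lf (nat_lit 0) (nat_lit 3873588910) (nat_lit 76) (nat_lit 291539209140) (nat_lit 76) (nat_lit 123117271378) (nat_lit 6) (nat_lit 4) (nat_lit 7) (nat_lit 5) (nat_lit 7) (nat_lit 4) (nat_lit 314) (nat_lit 264) (nat_lit 142))) (XT.nd (nat_lit 78) (nat_lit 0) (nat_lit 0) (XT.lf (nat_lit 0) (nat_lit 108713054436) (nat_lit 76) (nat_lit 254397746766) (nat_lit 76) (nat_lit 85974765719) (nat_lit 6) (nat_lit 4) (nat_lit 7) (nat_lit 5) (nat_lit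 7) (nat_lit 4) (nat_lit 315) (nat_lit 264) (nat_lit 141)) (XT.nd (nat_lit 78) (nat_lit 0) (nat_lit 0) (XT.lf (nat_lit 0) (nat_lit 221938430462) (nat_lit 76) (nat_lit 214285527857) (nat_lit 76) (nat_lit 45861580805) (nat_lit 6) (nat_lit 4) (nat_lit 7) (nat_lit 5) (nat_lit 7) (nat_lit 4) (nat_lit 316) (nat_lit 264) (nat_lit 140)) (XT.lf (nat_lit 0) (nat_lit 344220682178) (nat_lit 76) (nat_lit 170964850375) (nat_lit 76) (nat_lit 2540008874) (nat_lit 6) (nat_lit 4) (nat_lit 7) (nat_lit 5) (nat_lit 7) (nat_lit 4) (nat_lit 317) (nat_lit 264) (nat_lit 139)))))) (XT.nd (nat_lit 33462) (nat_lit 0) (nat_lit 5396) (XT.nd (nat_lit 156) (nat_lit 0) (nat_lit 0) (XT.nd (nat_lit 78) (nat_lit 76) (nat_lit 0) (XT.lf (nat_lit 0) (nat_lit 42830500718) (nat_lit 152) (nat_lit 80623143221) (nat_lit 76) (nat_lit 432728589178) (nat_lit 5) (nat_lit 5) (nat_lit 7) (nat_lit 5) (nat_lit 6) (nat_lit 4) (nat_lit 318)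 (nat_lit 264) (nat_lit 138)) (XT.lf (nat_lit 0) (nat_lit 20294833847) (nat_lit 76) (nat_lit 71764322439) (nat_lit 152) (nat_lit 505638347596) (nat_lit 4) (nat_lit 5) (nat_lit 5) (nat_lit 5) (nat_lit 6) (nat_lit 4) (nat_lit 319) (nat_lit 264) (nat_lit 137))) (XT.nd (nat_lit 78) (nat_lit 0) (nat_lit 0) (XT.lf (nat_lit 0) (nat_lit 132164310866) (nat_lit 76) (nat_lit 14465668376) (nat_lit 152) (nat_lit 495833823733) (nat_lit 4) (nat_lit 5) (nat_lit 5) (nat_lit 5) (nat_lit 6) (nat_lit 4) (nat_lit 320) (nat_lit 264) (nat_lit 136)) (XT.nd (nat_lit 33150) (nat_lit 0) (nat_lit 5396) (XT.lf (nat_lit 0) (nat_lit 206306283008) (nat_lit 152) (nat_lit 438569282028) (nat_lit 0) (nat_lit 45898850599) (nat_lit 4) (nat_lit 5) (nat_lit 6) (nat_lit 4) (nat_lit 4) (nat_lit 4) (nat_lit 321) (nat_lit 264) (nat_lit 135)) (XT.lf (nat_lit 0) (nat_lit 3662477872) (nat_lit 0) (nat_lit 3662477872) (nat_lit 684) (nat_lit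 6744035621) (nat_lit 75) (nat_lit 5) (nat_lit 75) (nat_lit 3) (nat_lit 84) (nat_lit 3) (nat_lit 265) (nat_lit 265) (nat_lit 190))))) (XT.nd (nat_lit 156) (nat_lit 0) (nat_lit 76) (XT.nd (nat_lit 78) (nat_lit 0) (nat_lit 76) (XT.lf (nat_lit 0) (nat_lit 15552466958) (nat_lit 684) (nat_lit 1503980013) (nat_lit 760) (nat_lit 12190873600) (nat_lit 75) (nat_lit 5) (nat_lit 84) (nat_lit 3) (nat_lit 85) (nat_lit 5) (nat_lit 266) (nat_lit 265) (nat_lit 189)) (XT.lf (nat_lit 0) (nat_lit 16994200503) (nat_lit 684) (nat_lit 10614699653) (nat_lit 760) (nat_lit 2813191967) (nat_lit 76) (nat_lit 5) (nat_lit 85) (nat_lit 5) (nat_lit 86) (nat_lit 5) (nat_lit 267) (nat_lit 265) (nat_lit 188))) (XT.nd (nat_lit 78) (nat_lit 0) (nat_lit 76) (XT.lf (nat_lit 76) (nat_lit 11252877746) (nat_lit 0) (nat_lit 7777263918) (nat_lit 760) (nat_lit 12636793039) (nat_lit 77) (nat_lit 5) (nat_lit 76) (nat_lit 5) (nat_lit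 86) (nat_lit 5) (nat_lit 268) (nat_lit 265) (nat_lit 187)) (XT.nd (nat_lit 78) (nat_lit 0) (nat_lit 76) (XT.lf (nat_lit 76) (nat_lit 2090295476) (nat_lit 0) (nat_lit 19561920373) (nat_lit 760) (nat_lit 11338016276) (nat_lit 78) (nat_lit 5) (nat_lit 77) (nat_lit 5) (nat_lit 87) (nat_lit 5) (nat_lit 269) (nat_lit 265) (nat_lit 186)) (XT.lf (nat_lit 0) (nat_lit 24990622978) (nat_lit 684) (nat_lit 7445817378) (nat_lit 760) (nat_lit 1957652711) (nat_lit 78) (nat_lit 5) (nat_lit 87) (nat_lit 5) (nat_lit 88) (nat_lit 5) (nat_lit 270) (nat_lit 265) (nat_lit 185))))))))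
noncomputable def xc95 : XT := (XT.nd (nat_lit 1482) (nat_lit 1292) (nat_lit 0) (XT.nd (nat_lit 702) (nat_lit 1672) (nat_lit 0) (XT.nd (nat_lit 312) (nat_lit 1216) (nat_lit 0) (XT.nd (nat_lit 156) (nat_lit 456) (nat_lit 0) (XT.nd (nat_lit 78) (nat_lit 608) (nat_lit 0) (XT.lf (nat_lit 76) (nat_lit 18127932562) (nat_lit 0) (nat_lit 11072166644) (nat_lit 760) (nat_lit 6679989851) (nat_lit 79) (nat_lit 5) (nat_lit 78) (nat_lit 5) (nat_lit 88) (nat_lit 5) (nat_lit 271) (nat_lit 265) (nat_lit 184)) (XT.lf (nat_lit 0) (nat_lit 8613977561) (nat_lit 684) (nat_lit 25577741131) (nat_lit 760) (nat_lit 3271000847) (nat_lit 70) (nat_lit 5) (nat_lit 79) (nat_lit 5) (nat_lit 80) (nat_lit 5) (nat_lit 272) (nat_lit 265) (nat_lit 183))) (XT.nd (nat_lit 78) (nat_lit 380) (nat_lit 0) (XT.lf (nat_lit 0) (nat_lit 890613591) (nat_lit 760) (nat_lit 1638536512) (nat_lit 76) (nat_lit 36617858393) (nat_lit 69) (nat_lit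 5) (nat_lit 79) (nat_lit 5) (nat_lit 70) (nat_lit 5) (nat_lit 273) (nat_lit 265) (nat_lit 182)) (XT.lf (nat_lit 0) (nat_lit 6068681365) (nat_lit 456) (nat_lit 12696608382) (nat_lit 76) (nat_lit 22158183124) (nat_lit 64) (nat_lit 5) (nat_lit 70) (nat_lit 5) (nat_lit 65) (nat_lit 5) (nat_lit 274) (nat_lit 265) (nat_lit 181)))) (XT.nd (nat_lit 156) (nat_lit 532) (nat_lit 0) (XT.nd (nat_lit 78) (nat_lit 304) (nat_lit 0) (XT.lf (nat_lit 0) (nat_lit 12107571120) (nat_lit 456) (nat_lit 24688650010) (nat_lit 76) (nat_lit 6023522636) (nat_lit 59) (nat_lit 5) (nat_lit 65) (nat_lit 5) (nat_lit 60) (nat_lit 5) (nat_lit 275) (nat_lit 265) (nat_lit 180)) (XT.lf (nat_lit 0) (nat_lit 6916281720) (nat_lit 304) (nat_lit 12355990715) (nat_lit 380) (nat_lit 25563325730) (nat_lit 55) (nat_lit 5) (nat_lit 59) (nat_lit 5) (nat_lit 60) (nat_lit 5) (nat_lit 276) (nat_lit 265) (nat_lit 179))) (XT.nd (nat_lit 78)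 (nat_lit 532) (nat_lit 0) (XT.lf (nat_lit 0) (nat_lit 27660337644) (nat_lit 380) (nat_lit 5293037639) (nat_lit 76) (nat_lit 14026851845) (nat_lit 55) (nat_lit 5) (nat_lit 60) (nat_lit 5) (nat_lit 56) (nat_lit 5) (nat_lit 277) (nat_lit 265) (nat_lit 178)) (XT.nd (nat_lit 78) (nat_lit 228) (nat_lit 0) (XT.lf (nat_lit 0) (nat_lit 30711662026) (nat_lit 304) (nat_lit 6689960897) (nat_lit 380) (nat_lit 11860709191) (nat_lit 51) (nat_lit 5) (nat_lit 55) (nat_lit 5) (nat_lit 56) (nat_lit 5) (nat_lit 278) (nat_lit 265) (nat_lit 177)) (XT.lf (nat_lit 0) (nat_lit 18302954575) (nat_lit 228) (nat_lit 30331779682) (nat_lit 304) (nat_lit 3056658456) (nat_lit 48) (nat_lit 5) (nat_lit 51) (nat_lit 5) (nat_lit 52) (nat_lit 5) (nat_lit 279) (nat_lit 265) (nat_lit 176)))))) (XT.nd (nat_lit 390) (nat_lit 836) (nat_lit 0) (XT.nd (nat_lit 156) (nat_lit 456) (nat_lit 0) (XT.nd (nat_lit 78) (nat_lit 0) (nat_lit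 0) (XT.lf (nat_lit 0) (nat_lit 4383963290) (nat_lit 304) (nat_lit 2365804268) (nat_lit 380) (nat_lit 47534758607) (nat_lit 43) (nat_lit 5) (nat_lit 47) (nat_lit 5) (nat_lit 48) (nat_lit 5) (nat_lit 280) (nat_lit 265) (nat_lit 175)) (XT.lf (nat_lit 0) (nat_lit 18255937873) (nat_lit 380) (nat_lit 11187451581) (nat_lit 76) (nat_lit 27588110273) (nat_lit 43) (nat_lit 5) (nat_lit 48) (nat_lit 5) (nat_lit 44) (nat_lit 5) (nat_lit 281) (nat_lit 265) (nat_lit 174))) (XT.nd (nat_lit 78) (nat_lit 228) (nat_lit 0) (XT.lf (nat_lit 0) (nat_lit 31217047611) (nat_lit 304) (nat_lit 28389580246) (nat_lit 76) (nat_lit 364891139) (nat_lit 40) (nat_lit 5) (nat_lit 44) (nat_lit 5) (nat_lit 41) (nat_lit 5) (nat_lit 282) (nat_lit 265) (nat_lit 173)) (XT.nd (nat_lit 78) (nat_lit 0) (nat_lit 0) (XT.lf (nat_lit 0) (nat_lit 15010478943) (nat_lit 228) (nat_lit 31129184619) (nat_lit 304) (nat_lit 16960854738) (nat_lit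 37) (nat_lit 5) (nat_lit 40) (nat_lit 5) (nat_lit 41) (nat_lit 5) (nat_lit 283) (nat_lit 265) (nat_lit 172)) (XT.lf (nat_lit 0) (nat_lit 62748822323) (nat_lit 304) (nat_lit 3566674351) (nat_lit 76) (nat_lit 139712868) (nat_lit 37) (nat_lit 5) (nat_lit 41) (nat_lit 5) (nat_lit 38) (nat_lit 5) (nat_lit 284) (nat_lit 265) (nat_lit 171))))) (XT.nd (nat_lit 156) (nat_lit 380) (nat_lit 0) (XT.nd (nat_lit 78) (nat_lit 228) (nat_lit 0) (XT.lf (nat_lit 0) (nat_lit 11519685948) (nat_lit 228) (nat_lit 24759630342) (nat_lit 76) (nat_lit 33728146841) (nat_lit 34) (nat_lit 5) (nat_lit 37) (nat_lit 5) (nat_lit 35) (nat_lit 5) (nat_lit 285) (nat_lit 265) (nat_lit 170)) (XT.lf (nat_lit 0) (nat_lit 24985140975) (nat_lit 228) (nat_lit 3300189716) (nat_lit 304) (nat_lit 45532968399) (nat_lit 31) (nat_lit 5) (nat_lit 34) (nat_lit 5) (nat_lit 35) (nat_lit 5) (nat_lit 286) (nat_lit 265) (nat_lit 169))) (XT.nd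 (nat_lit 78) (nat_lit 228) (nat_lit 0) (XT.lf (nat_lit 0) (nat_lit 1203053192) (nat_lit 152) (nat_lit 46147425349) (nat_lit 228) (nat_lit 30535617365) (nat_lit 29) (nat_lit 5) (nat_lit 31) (nat_lit 5) (nat_lit 32) (nat_lit 5) (nat_lit 287) (nat_lit 265) (nat_lit 168)) (XT.nd (nat_lit 78) (nat_lit 228) (nat_lit 0) (XT.lf (nat_lit 0) (nat_lit 56923675515) (nat_lit 152) (nat_lit 11919273921) (nat_lit 228) (nat_lit 13391267539) (nat_lit 29) (nat_lit 5) (nat_lit 31) (nat_lit 5) (nat_lit 32) (nat_lit 5) (nat_lit 288) (nat_lit 265) (nat_lit 167)) (XT.lf (nat_lit 0) (nat_lit 5843094336) (nat_lit 228) (nat_lit 56220381008) (nat_lit 76) (nat_lit 24818593034) (nat_lit 26) (nat_lit 5) (nat_lit 29) (nat_lit 5) (nat_lit 27) (nat_lit 5) (nat_lit 289) (nat_lit 265) (nat_lit 166))))))) (XT.nd (nat_lit 780) (nat_lit 380) (nat_lit 0) (XT.nd (nat_lit 390) (nat_lit 456) (nat_lit 0) (XT.nd (nat_lit 156) (nat_lit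 304) (nat_lit 0) (XT.nd (nat_lit 78) (nat_lit 152) (nat_lit 0) (XT.lf (nat_lit 0) (nat_lit 26799460110) (nat_lit 228) (nat_lit 302683858) (nat_lit 76) (nat_lit 64756011447) (nat_lit 26) (nat_lit 5) (nat_lit 29) (nat_lit 5) (nat_lit 27) (nat_lit 5) (nat_lit 290) (nat_lit 265) (nat_lit 165)) (XT.lf (nat_lit 0) (nat_lit 50580936816) (nat_lit 228) (nat_lit 35295329192) (nat_lit 76) (nat_lit 11298637912) (nat_lit 24) (nat_lit 5) (nat_lit 27) (nat_lit 5) (nat_lit 25) (nat_lit 5) (nat_lit 291) (nat_lit 265) (nat_lit 164))) (XT.nd (nat_lit 78) (nat_lit 152) (nat_lit 0) (XT.lf (nat_lit 0) (nat_lit 26518064665) (nat_lit 152) (nat_lit 50620622248) (nat_lit 228) (nat_lit 25734621877) (nat_lit 22) (nat_lit 5) (nat_lit 24) (nat_lit 5) (nat_lit 25) (nat_lit 5) (nat_lit 292) (nat_lit 265) (nat_lit 163)) (XT.nd (nat_lit 78) (nat_lit 152) (nat_lit 0) (XT.lf (nat_lit 0) (nat_lit 94532997825) (nat_lit 152)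 (nat_lit 11900397034) (nat_lit 228) (nat_lit 2563578235) (nat_lit 22) (nat_lit 5) (nat_lit 24) (nat_lit 5) (nat_lit 25) (nat_lit 5) (nat_lit 293) (nat_lit 265) (nat_lit 162)) (XT.lf (nat_lit 0) (nat_lit 23065589161) (nat_lit 152) (nat_lit 62293379404) (nat_lit 76) (nat_lit 30167864505) (nat_lit 20) (nat_lit 5) (nat_lit 22) (nat_lit 5) (nat_lit 21) (nat_lit 5) (nat_lit 294) (nat_lit 265) (nat_lit 161))))) (XT.nd (nat_lit 156) (nat_lit 304) (nat_lit 0) (XT.nd (nat_lit 78) (nat_lit 0) (nat_lit 0) (XT.lf (nat_lit 0) (nat_lit 4178784048) (nat_lit 152) (nat_lit 46997435943) (nat_lit 228) (nat_lit 71374716506) (nat_lit 18) (nat_lit 5) (nat_lit 20) (nat_lit 5) (nat_lit 21) (nat_lit 5) (nat_lit 295) (nat_lit 265) (nat_lit 160)) (XT.lf (nat_lit 0) (nat_lit 78189714931) (nat_lit 152) (nat_lit 4428964820) (nat_lit 228) (nat_lit 47464142498) (nat_lit 18) (nat_lit 5) (nat_lit 20) (nat_lit 5) (nat_lit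 21) (nat_lit 5) (nat_lit 296) (nat_lit 265) (nat_lit 159))) (XT.nd (nat_lit 78) (nat_lit 228) (nat_lit 0) (XT.lf (nat_lit 0) (nat_lit 19888890358) (nat_lit 76) (nat_lit 97644807275) (nat_lit 152) (nat_lit 20635705917) (nat_lit 17) (nat_lit 5) (nat_lit 18) (nat_lit 5) (nat_lit 19) (nat_lit 4) (nat_lit 297) (nat_lit 265) (nat_lit 158)) (XT.nd (nat_lit 78) (nat_lit 152) (nat_lit 0) (XT.lf (nat_lit 0) (nat_lit 9063620136) (nat_lit 152) (nat_lit 47814103264) (nat_lit 76) (nat_lit 89969104879) (nat_lit 16) (nat_lit 5) (nat_lit 18) (nat_lit 5) (nat_lit 17) (nat_lit 5) (nat_lit 298) (nat_lit 265) (nat_lit 157)) (XT.lf (nat_lit 0) (nat_lit 28862453008) (nat_lit 152) (nat_lit 12011967897) (nat_lit 228) (nat_lit 115304188655) (nat_lit 14) (nat_lit 5) (nat_lit 16) (nat_lit 5) (nat_lit 17) (nat_lit 5) (nat_lit 299) (nat_lit 265) (nat_lit 156)))))) (XT.nd (nat_lit 390) (nat_lit 152) (nat_lit 0) (XT.nd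 (nat_lit 156) (nat_lit 152) (nat_lit 0) (XT.nd (nat_lit 78) (nat_lit 76) (nat_lit 0) (XT.lf (nat_lit 0) (nat_lit 76643892175) (nat_lit 228) (nat_lit 53420289323) (nat_lit 76) (nat_lit 36122063605) (nat_lit 14) (nat_lit 5) (nat_lit 17) (nat_lit 5) (nat_lit 15) (nat_lit 4) (nat_lit 300) (nat_lit 265) (nat_lit 155)) (XT.lf (nat_lit 0) (nat_lit 27047686936) (nat_lit 76) (nat_lit 88850478819) (nat_lit 152) (nat_lit 61065165434) (nat_lit 13) (nat_lit 5) (nat_lit 14) (nat_lit 5) (nat_lit 15) (nat_lit 4) (nat_lit 301) (nat_lit 265) (nat_lit 154))) (XT.nd (nat_lit 78) (nat_lit 152) (nat_lit 0) (XT.lf (nat_lit 0) (nat_lit 115858128911) (nat_lit 76) (nat_lit 43363687211) (nat_lit 152) (nat_lit 29334318079) (nat_lit 13) (nat_lit 5) (nat_lit 14) (nat_lit 5) (nat_lit 15) (nat_lit 4) (nat_lit 302) (nat_lit 265) (nat_lit 153)) (XT.nd (nat_lit 78) (nat_lit 0) (nat_lit 0) (XT.lf (nat_lit 0) (nat_lit 5040888640)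 (nat_lit 152) (nat_lit 190189426038) (nat_lit 76) (nat_lit 5829003778) (nat_lit 11) (nat_lit 5) (nat_lit 13) (nat_lit 5) (nat_lit 12) (nat_lit 4) (nat_lit 303) (nat_lit 265) (nat_lit 152)) (XT.lf (nat_lit 0) (nat_lit 43169052102) (nat_lit 152) (nat_lit 112029174182) (nat_lit 76) (nat_lit 59238954510) (nat_lit 11) (nat_lit 5) (nat_lit 13) (nat_lit 5) (nat_lit 12) (nat_lit 4) (nat_lit 304) (nat_lit 265) (nat_lit 151))))) (XT.nd (nat_lit 156) (nat_lit 76) (nat_lit 0) (XT.nd (nat_lit 78) (nat_lit 76) (nat_lit 0) (XT.lf (nat_lit 0) (nat_lit 84346199093) (nat_lit 152) (nat_lit 27618322150) (nat_lit 76) (nat_lit 116920815705) (nat_lit 11) (nat_lit 5) (nat_lit 13) (nat_lit 5) (nat_lit 12) (nat_lit 4) (nat_lit 305) (nat_lit 265) (nat_lit 150)) (XT.lf (nat_lit 0) (nat_lit 65644372387) (nat_lit 76) (nat_lit 64196862568) (nat_lit 152) (nat_lit 114596926032) (nat_lit 10) (nat_lit 5) (nat_lit 11) (nat_lit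 5) (nat_lit 12) (nat_lit 4) (nat_lit 306) (nat_lit 265) (nat_lit 149))) (XT.nd (nat_lit 78) (nat_lit 76) (nat_lit 0) (XT.lf (nat_lit 0) (nat_lit 167352357664) (nat_lit 76) (nat_lit 12103490245) (nat_lit 152) (nat_lit 81755365487) (nat_lit 10) (nat_lit 5) (nat_lit 11) (nat_lit 5) (nat_lit 12) (nat_lit 4) (nat_lit 307) (nat_lit 265) (nat_lit 148)) (XT.nd (nat_lit 78) (nat_lit 76) (nat_lit 0) (XT.lf (nat_lit 0) (nat_lit 233728001435) (nat_lit 152) (nat_lit 2820409439) (nat_lit 0) (nat_lit 42743281617) (nat_lit 10) (nat_lit 5) (nat_lit 12) (nat_lit 4) (nat_lit 10) (nat_lit 4) (nat_lit 308) (nat_lit 265) (nat_lit 147)) (XT.lf (nat_lit 0) (nat_lit 98446195334) (nat_lit 76) (nat_lit 195635869054) (nat_lit 76) (nat_lit 4649539662) (nat_lit 9) (nat_lit 4) (nat_lit 10) (nat_lit 5) (nat_lit 10) (nat_lit 4) (nat_lit 309) (nat_lit 265) (nat_lit 146))))))))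
noncomputable def xc96 : XT := (XT.nd (nat_lit 34632) (nat_lit 0) (nat_lit 1672) (XT.nd (nat_lit 702) (nat_lit 152) (nat_lit 0) (XT.nd (nat_lit 312) (nat_lit 76) (nat_lit 0) (XT.nd (nat_lit 156) (nat_lit 76) (nat_lit 0) (XT.nd (nat_lit 78) (nat_lit 0) (nat_lit 0) (XT.lf (nat_lit 0) (nat_lit 38321283557) (nat_lit 152) (nat_lit 112429188447) (nat_lit 76) (nat_lit 168942922933) (nat_lit 8) (nat_lit 5) (nat_lit 10) (nat_lit 5) (nat_lit 9) (nat_lit 4) (nat_lit 310) (nat_lit 265) (nat_lit 145)) (XT.lf (nat_lit 0) (nat_lit 84568182178) (nat_lit 152) (nat_lit 17624426223) (nat_lit 76) (nat_lit 240135645066) (nat_lit 8) (nat_lit 5) (nat_lit 10) (nat_lit 5) (nat_lit 9) (nat_lit 4) (nat_lit 311) (nat_lit 265) (nat_lit 144))) (XT.nd (nat_lit 78) (nat_lit 0) (nat_lit 0) (XT.lf (nat_lit 0) (nat_lit 87565933012) (nat_lit 76) (nat_lit 48315242809) (nat_lit 152) (nat_lit 230824408453) (nat_lit 7) (nat_lit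 5) (nat_lit 8) (nat_lit 5) (nat_lit 9) (nat_lit 4) (nat_lit 312) (nat_lit 265) (nat_lit 143)) (XT.lf (nat_lit 0) (nat_lit 191764604654) (nat_lit 152) (nat_lit 191377442679) (nat_lit 0) (nat_lit 9867785122) (nat_lit 7) (nat_lit 5) (nat_lit 9) (nat_lit 4) (nat_lit 7) (nat_lit 4) (nat_lit 313) (nat_lit 265) (nat_lit 142)))) (XT.nd (nat_lit 156) (nat_lit 0) (nat_lit 0) (XT.nd (nat_lit 78) (nat_lit 76) (nat_lit 0) (XT.lf (nat_lit 0) (nat_lit 252932670874) (nat_lit 152) (nat_lit 97410244047) (nat_lit 0) (nat_lit 71034808058) (nat_lit 7) (nat_lit 5) (nat_lit 9) (nat_lit 4) (nat_lit 7) (nat_lit 4) (nat_lit 314) (nat_lit 265) (nat_lit 141)) (XT.lf (nat_lit 0) (nat_lit 4207799497) (nat_lit 76) (nat_lit 314851411615) (nat_lit 76) (nat_lit 132952582794) (nat_lit 6) (nat_lit 4) (nat_lit 7) (nat_lit 5) (nat_lit 7) (nat_lit 4) (nat_lit 315) (nat_lit 265) (nat_lit 140))) (XT.nd (nat_lit 78) (nat_lit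 0) (nat_lit 0) (XT.lf (nat_lit 0) (nat_lit 117432620527) (nat_lit 76) (nat_lit 274739442196) (nat_lit 76) (nat_lit 92839718926) (nat_lit 6) (nat_lit 4) (nat_lit 7) (nat_lit 5) (nat_lit 7) (nat_lit 4) (nat_lit 316) (nat_lit 265) (nat_lit 139)) (XT.nd (nat_lit 78) (nat_lit 0) (nat_lit 0) (XT.lf (nat_lit 0) (nat_lit 239714358358) (nat_lit 76) (nat_lit 231418995723) (nat_lit 76) (nat_lit 49518444260) (nat_lit 6) (nat_lit 4) (nat_lit 7) (nat_lit 5) (nat_lit 7) (nat_lit 4) (nat_lit 317) (nat_lit 265) (nat_lit 138)) (XT.lf (nat_lit 0) (nat_lit 371777645511) (nat_lit 76) (nat_lit 184633358440) (nat_lit 76) (nat_lit 2732040131) (nat_lit 6) (nat_lit 4) (nat_lit 7) (nat_lit 5) (nat_lit 7) (nat_lit 4) (nat_lit 318) (nat_lit 265) (nat_lit 137)))))) (XT.nd (nat_lit 33540) (nat_lit 0) (nat_lit 5472) (XT.nd (nat_lit 156) (nat_lit 0) (nat_lit 0) (XT.nd (nat_lit 78) (nat_lit 76) (nat_lit 0) (XT.lf (nat_lit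 0) (nat_lit 46266951850) (nat_lit 152) (nat_lit 87054777057) (nat_lit 76) (nat_lit 467354574175) (nat_lit 5) (nat_lit 5) (nat_lit 7) (nat_lit 5) (nat_lit 6) (nat_lit 4) (nat_lit 319) (nat_lit 265) (nat_lit 136)) (XT.lf (nat_lit 0) (nat_lit 21935846461) (nat_lit 76) (nat_lit 77497583909) (nat_lit 152) (nat_lit 546079389215) (nat_lit 4) (nat_lit 5) (nat_lit 5) (nat_lit 5) (nat_lit 6) (nat_lit 4) (nat_lit 320) (nat_lit 265) (nat_lit 135))) (XT.nd (nat_lit 33228) (nat_lit 0) (nat_lit 5396) (XT.lf (nat_lit 0) (nat_lit 142753590834) (nat_lit 76) (nat_lit 15615621545) (nat_lit 152) (nat_lit 535491246124) (nat_lit 4) (nat_lit 5) (nat_lit 5) (nat_lit 5) (nat_lit 6) (nat_lit 4) (nat_lit 321) (nat_lit 265) (nat_lit 134)) (XT.nd (nat_lit 78) (nat_lit 0) (nat_lit 0) (XT.lf (nat_lit 0) (nat_lit 4013999925) (nat_lit 0) (nat_lit 4013999925) (nat_lit 684) (nat_lit 7160313424) (nat_lit 75) (nat_lit 5)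 (nat_lit 75) (nat_lit 3) (nat_lit 84) (nat_lit 3) (nat_lit 266) (nat_lit 266) (nat_lit 188)) (XT.lf (nat_lit 0) (nat_lit 17011727140) (nat_lit 684) (nat_lit 1502752220) (nat_lit 760) (nat_lit 13061234793) (nat_lit 75) (nat_lit 5) (nat_lit 84) (nat_lit 3) (nat_lit 85) (nat_lit 5) (nat_lit 267) (nat_lit 266) (nat_lit 187))))) (XT.nd (nat_lit 156) (nat_lit 0) (nat_lit 76) (XT.nd (nat_lit 78) (nat_lit 0) (nat_lit 0) (XT.lf (nat_lit 0) (nat_lit 18553361848) (nat_lit 684) (nat_lit 11335650565) (nat_lit 760) (nat_lit 2956274219) (nat_lit 76) (nat_lit 5) (nat_lit 85) (nat_lit 5) (nat_lit 86) (nat_lit 5) (nat_lit 268) (nat_lit 266) (nat_lit 186)) (XT.lf (nat_lit 76) (nat_lit 12275760521) (nat_lit 0) (nat_lit 8463545672) (nat_lit 760) (nat_lit 13451097853) (nat_lit 77) (nat_lit 5) (nat_lit 76) (nat_lit 5) (nat_lit 86) (nat_lit 5) (nat_lit 269) (nat_lit 266) (nat_lit 185))) (XT.nd (nat_lit 78) (nat_lit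 0) (nat_lit 76) (XT.lf (nat_lit 76) (nat_lit 2385254459) (nat_lit 0) (nat_lit 21173125931) (nat_lit 760) (nat_lit 12061863743) (nat_lit 78) (nat_lit 5) (nat_lit 77) (nat_lit 5) (nat_lit 87) (nat_lit 5) (nat_lit 270) (nat_lit 266) (nat_lit 184)) (XT.nd (nat_lit 78) (nat_lit 0) (nat_lit 0) (XT.lf (nat_lit 0) (nat_lit 27150303513) (nat_lit 684) (nat_lit 7914016075) (nat_lit 760) (nat_lit 2072809764) (nat_lit 78) (nat_lit 5) (nat_lit 87) (nat_lit 5) (nat_lit 88) (nat_lit 5) (nat_lit 271) (nat_lit 266) (nat_lit 183)) (XT.lf (nat_lit 76) (nat_lit 19700094314) (nat_lit 0) (nat_lit 11986463394) (nat_lit 760) (nat_lit 7055981105) (nat_lit 79) (nat_lit 5) (nat_lit 78) (nat_lit 5) (nat_lit 88) (nat_lit 5) (nat_lit 272) (nat_lit 266) (nat_lit 182))))))) (XT.nd (nat_lit 702) (nat_lit 1292) (nat_lit 0) (XT.nd (nat_lit 312) (nat_lit 1216) (nat_lit 0) (XT.nd (nat_lit 156) (nat_lit 760) (nat_lit 0) (XT.nd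 (nat_lit 78) (nat_lit 76) (nat_lit 0) (XT.lf (nat_lit 0) (nat_lit 9427761635) (nat_lit 684) (nat_lit 27640134671) (nat_lit 760) (nat_lit 3384396159) (nat_lit 70) (nat_lit 5) (nat_lit 79) (nat_lit 5) (nat_lit 80) (nat_lit 5) (nat_lit 273) (nat_lit 266) (nat_lit 181)) (XT.lf (nat_lit 0) (nat_lit 1094768897) (nat_lit 760) (nat_lit 1649438540) (nat_lit 76) (nat_lit 39527561374) (nat_lit 69) (nat_lit 5) (nat_lit 79) (nat_lit 5) (nat_lit 70) (nat_lit 5) (nat_lit 274) (nat_lit 266) (nat_lit 180))) (XT.nd (nat_lit 78) (nat_lit 380) (nat_lit 0) (XT.lf (nat_lit 0) (nat_lit 6678877467) (nat_lit 456) (nat_lit 13590652977) (nat_lit 76) (nat_lit 23921256424) (nat_lit 64) (nat_lit 5) (nat_lit 70) (nat_lit 5) (nat_lit 65) (nat_lit 5) (nat_lit 275) (nat_lit 266) (nat_lit 179)) (XT.lf (nat_lit 0) (nat_lit 13193444681) (nat_lit 456) (nat_lit 26541163862) (nat_lit 76) (nat_lit 6504546930) (nat_lit 59) (nat_lit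 5) (nat_lit 65) (nat_lit 5) (nat_lit 60) (nat_lit 5) (nat_lit 276) (nat_lit 266) (nat_lit 178)))) (XT.nd (nat_lit 156) (nat_lit 912) (nat_lit 0) (XT.nd (nat_lit 78) (nat_lit 0) (nat_lit 0) (XT.lf (nat_lit 0) (nat_lit 7586835310) (nat_lit 304) (nat_lit 13337630899) (nat_lit 380) (nat_lit 27492177357) (nat_lit 55) (nat_lit 5) (nat_lit 59) (nat_lit 5) (nat_lit 60) (nat_lit 5) (nat_lit 277) (nat_lit 266) (nat_lit 177)) (XT.lf (nat_lit 0) (nat_lit 29975496839) (nat_lit 380) (nat_lit 5602641089) (nat_lit 76) (nat_lit 15155129788) (nat_lit 55) (nat_lit 5) (nat_lit 60) (nat_lit 5) (nat_lit 56) (nat_lit 5) (nat_lit 278) (nat_lit 266) (nat_lit 176))) (XT.nd (nat_lit 78) (nat_lit 608) (nat_lit 0) (XT.lf (nat_lit 0) (nat_lit 33277487222) (nat_lit 304) (nat_lit 7212717669) (nat_lit 380) (nat_lit 12708049543) (nat_lit 51) (nat_lit 5) (nat_lit 55) (nat_lit 5) (nat_lit 56) (nat_lit 5) (nat_lit 279) (nat_lit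 266) (nat_lit 175)) (XT.nd (nat_lit 78) (nat_lit 380) (nat_lit 0) (XT.lf (nat_lit 0) (nat_lit 19876009230) (nat_lit 228) (nat_lit 32740690095) (nat_lit 304) (nat_lit 3205221745) (nat_lit 48) (nat_lit 5) (nat_lit 51) (nat_lit 5) (nat_lit 52) (nat_lit 5) (nat_lit 280) (nat_lit 266) (nat_lit 174)) (XT.lf (nat_lit 0) (nat_lit 4841911492) (nat_lit 304) (nat_lit 2535528102) (nat_lit 380) (nat_lit 51245266829) (nat_lit 43) (nat_lit 5) (nat_lit 47) (nat_lit 5) (nat_lit 48) (nat_lit 5) (nat_lit 281) (nat_lit 266) (nat_lit 173)))))) (XT.nd (nat_lit 390) (nat_lit 608) (nat_lit 0) (XT.nd (nat_lit 156) (nat_lit 456) (nat_lit 0) (XT.nd (nat_lit 78) (nat_lit 228) (nat_lit 0) (XT.lf (nat_lit 0) (nat_lit 19797890414) (nat_lit 380) (nat_lit 11979199659) (nat_lit 76) (nat_lit 29812673067) (nat_lit 43) (nat_lit 5) (nat_lit 48) (nat_lit 5) (nat_lit 44) (nat_lit 5) (nat_lit 282) (nat_lit 266) (nat_lit 172))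 (XT.lf (nat_lit 0) (nat_lit 33791735496) (nat_lit 304) (nat_lit 30558307290) (nat_lit 76) (nat_lit 415162370) (nat_lit 40) (nat_lit 5) (nat_lit 44) (nat_lit 5) (nat_lit 41) (nat_lit 5) (nat_lit 283) (nat_lit 266) (nat_lit 171))) (XT.nd (nat_lit 78) (nat_lit 228) (nat_lit 0) (XT.lf (nat_lit 0) (nat_lit 16309304744) (nat_lit 228) (nat_lit 33594658129) (nat_lit 304) (nat_lit 18240783954) (nat_lit 37) (nat_lit 5) (nat_lit 40) (nat_lit 5) (nat_lit 41) (nat_lit 5) (nat_lit 284) (nat_lit 266) (nat_lit 170)) (XT.nd (nat_lit 78) (nat_lit 228) (nat_lit 0) (XT.lf (nat_lit 0) (nat_lit 67836796978) (nat_lit 304) (nat_lit 3758108050) (nat_lit 76) (nat_lit 173172809) (nat_lit 37) (nat_lit 5) (nat_lit 41) (nat_lit 5) (nat_lit 38) (nat_lit 5) (nat_lit 285) (nat_lit 266) (nat_lit 169)) (XT.lf (nat_lit 0) (nat_lit 12506876087) (nat_lit 228) (nat_lit 26648283885) (nat_lit 76) (nat_lit 36449491558) (nat_lit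 34) (nat_lit 5) (nat_lit 37) (nat_lit 5) (nat_lit 35) (nat_lit 5) (nat_lit 286) (nat_lit 266) (nat_lit 168))))) (XT.nd (nat_lit 156) (nat_lit 228) (nat_lit 0) (XT.nd (nat_lit 78) (nat_lit 152) (nat_lit 0) (XT.lf (nat_lit 0) (nat_lit 27072065850) (nat_lit 228) (nat_lit 3538221871) (nat_lit 304) (nat_lit 49110250354) (nat_lit 31) (nat_lit 5) (nat_lit 34) (nat_lit 5) (nat_lit 35) (nat_lit 5) (nat_lit 287) (nat_lit 266) (nat_lit 167)) (XT.lf (nat_lit 0) (nat_lit 1386278487) (nat_lit 152) (nat_lit 49811500283) (nat_lit 228) (nat_lit 32916132069) (nat_lit 29) (nat_lit 5) (nat_lit 31) (nat_lit 5) (nat_lit 32) (nat_lit 5) (nat_lit 288) (nat_lit 266) (nat_lit 166))) (XT.nd (nat_lit 78) (nat_lit 228) (nat_lit 0) (XT.lf (nat_lit 0) (nat_lit 61558107557) (nat_lit 152) (nat_lit 12847150006) (nat_lit 228) (nat_lit 14404851641) (nat_lit 29) (nat_lit 5) (nat_lit 31) (nat_lit 5) (nat_lit 32) (nat_lit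 5) (nat_lit 289) (nat_lit 266) (nat_lit 165)) (XT.nd (nat_lit 78) (nat_lit 0) (nat_lit 0) (XT.lf (nat_lit 0) (nat_lit 6363910068) (nat_lit 228) (nat_lit 60636781271) (nat_lit 76) (nat_lit 26829184577) (nat_lit 26) (nat_lit 5) (nat_lit 29) (nat_lit 5) (nat_lit 27) (nat_lit 5) (nat_lit 290) (nat_lit 266) (nat_lit 164)) (XT.lf (nat_lit 0) (nat_lit 28992831905) (nat_lit 228) (nat_lit 251685402) (nat_lit 76) (nat_lit 69959736899) (nat_lit 26) (nat_lit 5) (nat_lit 29) (nat_lit 5) (nat_lit 27) (nat_lit 5) (nat_lit 291) (nat_lit 266) (nat_lit 163))))))))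
noncomputable def xc97 : XT := (XT.nd (nat_lit 1482) (nat_lit 380) (nat_lit 0) (XT.nd (nat_lit 702) (nat_lit 380) (nat_lit 0) (XT.nd (nat_lit 312) (nat_lit 456) (nat_lit 0) (XT.nd (nat_lit 156) (nat_lit 152) (nat_lit 0) (XT.nd (nat_lit 78) (nat_lit 152) (nat_lit 0) (XT.lf (nat_lit 0) (nat_lit 54674680993) (nat_lit 228) (nat_lit 38044981748) (nat_lit 76) (nat_lit 12226793278) (nat_lit 24) (nat_lit 5) (nat_lit 27) (nat_lit 5) (nat_lit 25) (nat_lit 5) (nat_lit 292) (nat_lit 266) (nat_lit 162)) (XT.lf (nat_lit 0) (nat_lit 28710268807) (nat_lit 152) (nat_lit 54644385612) (nat_lit 228) (nat_lit 27746204379) (nat_lit 22) (nat_lit 5) (nat_lit 24) (nat_lit 5) (nat_lit 25) (nat_lit 5) (nat_lit 293) (nat_lit 266) (nat_lit 161))) (XT.nd (nat_lit 78) (nat_lit 152) (nat_lit 0) (XT.lf (nat_lit 0) (nat_lit 102161155215) (nat_lit 152) (nat_lit 12828459893) (nat_lit 228) (nat_lit 2724972597) (nat_lit 22)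 (nat_lit 5) (nat_lit 24) (nat_lit 5) (nat_lit 25) (nat_lit 5) (nat_lit 294) (nat_lit 266) (nat_lit 160)) (XT.lf (nat_lit 0) (nat_lit 24951370459) (nat_lit 152) (nat_lit 67211089100) (nat_lit 76) (nat_lit 32604435421) (nat_lit 20) (nat_lit 5) (nat_lit 22) (nat_lit 5) (nat_lit 21) (nat_lit 5) (nat_lit 295) (nat_lit 266) (nat_lit 159)))) (XT.nd (nat_lit 156) (nat_lit 304) (nat_lit 0) (XT.nd (nat_lit 78) (nat_lit 0) (nat_lit 0) (XT.lf (nat_lit 0) (nat_lit 4575989550) (nat_lit 152) (nat_lit 50732841763) (nat_lit 228) (nat_lit 77044200688) (nat_lit 18) (nat_lit 5) (nat_lit 20) (nat_lit 5) (nat_lit 21) (nat_lit 5) (nat_lit 296) (nat_lit 266) (nat_lit 158)) (XT.lf (nat_lit 0) (nat_lit 84503135439) (nat_lit 152) (nat_lit 4760699547) (nat_lit 228) (nat_lit 51223780251) (nat_lit 18) (nat_lit 5) (nat_lit 20) (nat_lit 5) (nat_lit 21) (nat_lit 5) (nat_lit 297) (nat_lit 266) (nat_lit 157))) (XT.nd (nat_lit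 78) (nat_lit 228) (nat_lit 0) (XT.lf (nat_lit 0) (nat_lit 21537129605) (nat_lit 76) (nat_lit 105433501536) (nat_lit 152) (nat_lit 22250566744) (nat_lit 17) (nat_lit 5) (nat_lit 18) (nat_lit 5) (nat_lit 19) (nat_lit 4) (nat_lit 298) (nat_lit 266) (nat_lit 156)) (XT.nd (nat_lit 78) (nat_lit 152) (nat_lit 0) (XT.lf (nat_lit 0) (nat_lit 9820972303) (nat_lit 152) (nat_lit 51585227845) (nat_lit 76) (nat_lit 97186720644) (nat_lit 16) (nat_lit 5) (nat_lit 18) (nat_lit 5) (nat_lit 17) (nat_lit 5) (nat_lit 299) (nat_lit 266) (nat_lit 155)) (XT.lf (nat_lit 0) (nat_lit 31223105995) (nat_lit 152) (nat_lit 12951947827) (nat_lit 228) (nat_lit 124496272929) (nat_lit 14) (nat_lit 5) (nat_lit 16) (nat_lit 5) (nat_lit 17) (nat_lit 5) (nat_lit 300) (nat_lit 266) (nat_lit 154)))))) (XT.nd (nat_lit 390) (nat_lit 152) (nat_lit 0) (XT.nd (nat_lit 156) (nat_lit 152) (nat_lit 0) (XT.nd (nat_lit 78) (nat_lit 76)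 (nat_lit 0) (XT.lf (nat_lit 0) (nat_lit 82804113514) (nat_lit 228) (nat_lit 57644930244) (nat_lit 76) (nat_lit 39030630630) (nat_lit 14) (nat_lit 5) (nat_lit 17) (nat_lit 5) (nat_lit 15) (nat_lit 4) (nat_lit 301) (nat_lit 266) (nat_lit 153)) (XT.lf (nat_lit 0) (nat_lit 29258355408) (nat_lit 76) (nat_lit 95938978423) (nat_lit 152) (nat_lit 65921665866) (nat_lit 13) (nat_lit 5) (nat_lit 14) (nat_lit 5) (nat_lit 15) (nat_lit 4) (nat_lit 302) (nat_lit 266) (nat_lit 152))) (XT.nd (nat_lit 78) (nat_lit 152) (nat_lit 0) (XT.lf (nat_lit 0) (nat_lit 125170162110) (nat_lit 76) (nat_lit 46814690797) (nat_lit 152) (nat_lit 31654477597) (nat_lit 13) (nat_lit 5) (nat_lit 14) (nat_lit 5) (nat_lit 15) (nat_lit 4) (nat_lit 303) (nat_lit 266) (nat_lit 151)) (XT.nd (nat_lit 78) (nat_lit 0) (nat_lit 0) (XT.lf (nat_lit 0) (nat_lit 5468928143) (nat_lit 152) (nat_lit 205361269321) (nat_lit 76) (nat_lit 6312601719)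 (nat_lit 11) (nat_lit 5) (nat_lit 13) (nat_lit 5) (nat_lit 12) (nat_lit 4) (nat_lit 304) (nat_lit 266) (nat_lit 150)) (XT.lf (nat_lit 0) (nat_lit 46645509985) (nat_lit 152) (nat_lit 120951405524) (nat_lit 76) (nat_lit 63994068684) (nat_lit 11) (nat_lit 5) (nat_lit 13) (nat_lit 5) (nat_lit 12) (nat_lit 4) (nat_lit 305) (nat_lit 266) (nat_lit 149))))) (XT.nd (nat_lit 156) (nat_lit 76) (nat_lit 0) (XT.nd (nat_lit 78) (nat_lit 76) (nat_lit 0) (XT.lf (nat_lit 0) (nat_lit 91115129941) (nat_lit 152) (nat_lit 29790655892) (nat_lit 76) (nat_lit 126289293751) (nat_lit 11) (nat_lit 5) (nat_lit 13) (nat_lit 5) (nat_lit 12) (nat_lit 4) (nat_lit 306) (nat_lit 266) (nat_lit 148)) (XT.lf (nat_lit 0) (nat_lit 70931440495) (nat_lit 76) (nat_lit 69317309761) (nat_lit 152) (nat_lit 123743431884) (nat_lit 10) (nat_lit 5) (nat_lit 11) (nat_lit 5) (nat_lit 12) (nat_lit 4) (nat_lit 307) (nat_lit 266) (nat_lit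 147))) (XT.nd (nat_lit 78) (nat_lit 76) (nat_lit 0) (XT.lf (nat_lit 0) (nat_lit 180773433608) (nat_lit 76) (nat_lit 13057601119) (nat_lit 152) (nat_lit 88276120438) (nat_lit 10) (nat_lit 5) (nat_lit 11) (nat_lit 5) (nat_lit 12) (nat_lit 4) (nat_lit 308) (nat_lit 266) (nat_lit 146)) (XT.nd (nat_lit 78) (nat_lit 76) (nat_lit 0) (XT.lf (nat_lit 0) (nat_lit 252443778766) (nat_lit 152) (nat_lit 3014911245) (nat_lit 0) (nat_lit 46175443100) (nat_lit 10) (nat_lit 5) (nat_lit 12) (nat_lit 4) (nat_lit 10) (nat_lit 4) (nat_lit 309) (nat_lit 266) (nat_lit 145)) (XT.lf (nat_lit 0) (nat_lit 106351668998) (nat_lit 76) (nat_lit 211273663623) (nat_lit 76) (nat_lit 5003948007) (nat_lit 9) (nat_lit 4) (nat_lit 10) (nat_lit 5) (nat_lit 10) (nat_lit 4) (nat_lit 310) (nat_lit 266) (nat_lit 144))))))) (XT.nd (nat_lit 702) (nat_lit 152) (nat_lit 0) (XT.nd (nat_lit 312) (nat_lit 76) (nat_lit 0) (XT.nd (nat_lit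 156) (nat_lit 76) (nat_lit 0) (XT.nd (nat_lit 78) (nat_lit 0) (nat_lit 0) (XT.lf (nat_lit 0) (nat_lit 41402720467) (nat_lit 152) (nat_lit 121395416390) (nat_lit 76) (nat_lit 182469928332) (nat_lit 8) (nat_lit 5) (nat_lit 10) (nat_lit 5) (nat_lit 9) (nat_lit 4) (nat_lit 311) (nat_lit 266) (nat_lit 143)) (XT.lf (nat_lit 0) (nat_lit 91348205480) (nat_lit 152) (nat_lit 19008355199) (nat_lit 76) (nat_lit 259357211082) (nat_lit 8) (nat_lit 5) (nat_lit 10) (nat_lit 5) (nat_lit 9) (nat_lit 4) (nat_lit 312) (nat_lit 266) (nat_lit 142))) (XT.nd (nat_lit 78) (nat_lit 0) (nat_lit 0) (XT.lf (nat_lit 0) (nat_lit 94596101756) (nat_lit 76) (nat_lit 52169446360) (nat_lit 152) (nat_lit 249275776445) (nat_lit 7) (nat_lit 5) (nat_lit 8) (nat_lit 5) (nat_lit 9) (nat_lit 4) (nat_lit 313) (nat_lit 266) (nat_lit 141)) (XT.lf (nat_lit 0) (nat_lit 207118782487) (nat_lit 152) (nat_lit 206664093122) (nat_lit 0)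 (nat_lit 10667081355) (nat_lit 7) (nat_lit 5) (nat_lit 9) (nat_lit 4) (nat_lit 7) (nat_lit 4) (nat_lit 314) (nat_lit 266) (nat_lit 140)))) (XT.nd (nat_lit 156) (nat_lit 0) (nat_lit 0) (XT.nd (nat_lit 78) (nat_lit 76) (nat_lit 0) (XT.lf (nat_lit 0) (nat_lit 273179330341) (nat_lit 152) (nat_lit 105181262672) (nat_lit 0) (nat_lit 76726734761) (nat_lit 7) (nat_lit 5) (nat_lit 9) (nat_lit 4) (nat_lit 7) (nat_lit 4) (nat_lit 315) (nat_lit 266) (nat_lit 139)) (XT.lf (nat_lit 0) (nat_lit 4565276916) (nat_lit 76) (nat_lit 340030150182) (nat_lit 76) (nat_lit 143576726408) (nat_lit 6) (nat_lit 4) (nat_lit 7) (nat_lit 5) (nat_lit 7) (nat_lit 4) (nat_lit 316) (nat_lit 266) (nat_lit 138))) (XT.nd (nat_lit 78) (nat_lit 0) (nat_lit 0) (XT.lf (nat_lit 0) (nat_lit 126846538927) (nat_lit 76) (nat_lit 296709917607) (nat_lit 76) (nat_lit 100255726987) (nat_lit 6) (nat_lit 4) (nat_lit 7) (nat_lit 5) (nat_lit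 7) (nat_lit 4) (nat_lit 317) (nat_lit 266) (nat_lit 137)) (XT.nd (nat_lit 78) (nat_lit 0) (nat_lit 0) (XT.lf (nat_lit 0) (nat_lit 258909385507) (nat_lit 76) (nat_lit 249924478376) (nat_lit 76) (nat_lit 53469577714) (nat_lit 6) (nat_lit 4) (nat_lit 7) (nat_lit 5) (nat_lit 7) (nat_lit 4) (nat_lit 318) (nat_lit 266) (nat_lit 136)) (XT.lf (nat_lit 0) (nat_lit 401536411300) (nat_lit 76) (nat_lit 199396585444) (nat_lit 76) (nat_lit 2941027335) (nat_lit 6) (nat_lit 4) (nat_lit 7) (nat_lit 5) (nat_lit 7) (nat_lit 4) (nat_lit 319) (nat_lit 266) (nat_lit 135)))))) (XT.nd (nat_lit 33618) (nat_lit 0) (nat_lit 5016) (XT.nd (nat_lit 33384) (nat_lit 0) (nat_lit 5396) (XT.nd (nat_lit 78) (nat_lit 76) (nat_lit 0) (XT.lf (nat_lit 0) (nat_lit 49976890882) (nat_lit 152) (nat_lit 94003540547) (nat_lit 76) (nat_lit 504749539785) (nat_lit 5) (nat_lit 5) (nat_lit 7) (nat_lit 5) (nat_lit 6) (nat_lit 4) (nat_lit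 320) (nat_lit 266) (nat_lit 134)) (XT.lf (nat_lit 0) (nat_lit 23705654084) (nat_lit 76) (nat_lit 83690631083) (nat_lit 152) (nat_lit 589757144511) (nat_lit 4) (nat_lit 5) (nat_lit 5) (nat_lit 5) (nat_lit 6) (nat_lit 4) (nat_lit 321) (nat_lit 266) (nat_lit 133))) (XT.nd (nat_lit 78) (nat_lit 0) (nat_lit 0) (XT.lf (nat_lit 0) (nat_lit 4385294665) (nat_lit 0) (nat_lit 4385294665) (nat_lit 684) (nat_lit 7627475734) (nat_lit 75) (nat_lit 5) (nat_lit 75) (nat_lit 3) (nat_lit 84) (nat_lit 3) (nat_lit 267) (nat_lit 267) (nat_lit 186)) (XT.nd (nat_lit 78) (nat_lit 0) (nat_lit 76) (XT.lf (nat_lit 0) (nat_lit 18557047020) (nat_lit 684) (nat_lit 1518766127) (nat_lit 760) (nat_lit 14016191280) (nat_lit 75) (nat_lit 5) (nat_lit 84) (nat_lit 3) (nat_lit 85) (nat_lit 5) (nat_lit 268) (nat_lit 267) (nat_lit 185)) (XT.lf (nat_lit 0) (nat_lit 20208777319) (nat_lit 684) (nat_lit 12132570290) (nat_lit 760)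 (nat_lit 3122497431) (nat_lit 76) (nat_lit 5) (nat_lit 85) (nat_lit 5) (nat_lit 86) (nat_lit 5) (nat_lit 269) (nat_lit 267) (nat_lit 184))))) (XT.nd (nat_lit 156) (nat_lit 456) (nat_lit 0) (XT.nd (nat_lit 78) (nat_lit 0) (nat_lit 76) (XT.lf (nat_lit 76) (nat_lit 13362976159) (nat_lit 0) (nat_lit 9195585293) (nat_lit 760) (nat_lit 14358599752) (nat_lit 77) (nat_lit 5) (nat_lit 76) (nat_lit 5) (nat_lit 86) (nat_lit 5) (nat_lit 270) (nat_lit 267) (nat_lit 183)) (XT.lf (nat_lit 76) (nat_lit 2685587287) (nat_lit 0) (nat_lit 22906629579) (nat_lit 760) (nat_lit 12869753656) (nat_lit 78) (nat_lit 5) (nat_lit 77) (nat_lit 5) (nat_lit 87) (nat_lit 5) (nat_lit 271) (nat_lit 267) (nat_lit 182))) (XT.nd (nat_lit 78) (nat_lit 608) (nat_lit 0) (XT.lf (nat_lit 0) (nat_lit 29459871257) (nat_lit 684) (nat_lit 8437855216) (nat_lit 760) (nat_lit 2203093423) (nat_lit 78) (nat_lit 5) (nat_lit 87) (nat_lit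 5) (nat_lit 88) (nat_lit 5) (nat_lit 272) (nat_lit 267) (nat_lit 181)) (XT.nd (nat_lit 78) (nat_lit 608) (nat_lit 0) (XT.lf (nat_lit 76) (nat_lit 21380634735) (nat_lit 0) (nat_lit 12969834700) (nat_lit 760) (nat_lit 7484650323) (nat_lit 79) (nat_lit 5) (nat_lit 78) (nat_lit 5) (nat_lit 88) (nat_lit 5) (nat_lit 273) (nat_lit 267) (nat_lit 180)) (XT.lf (nat_lit 0) (nat_lit 10288863455) (nat_lit 684) (nat_lit 29865212258) (nat_lit 760) (nat_lit 3528017575) (nat_lit 70) (nat_lit 5) (nat_lit 79) (nat_lit 5) (nat_lit 80) (nat_lit 5) (nat_lit 274) (nat_lit 267) (nat_lit 179))))))))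
noncomputable def xc98 : XT := (XT.nd (nat_lit 1482) (nat_lit 1216) (nat_lit 0) (XT.nd (nat_lit 702) (nat_lit 1444) (nat_lit 0) (XT.nd (nat_lit 312) (nat_lit 912) (nat_lit 0) (XT.nd (nat_lit 156) (nat_lit 684) (nat_lit 0) (XT.nd (nat_lit 78) (nat_lit 380) (nat_lit 0) (XT.lf (nat_lit 0) (nat_lit 1296296071) (nat_lit 760) (nat_lit 1678357878) (nat_lit 76) (nat_lit 42672854685) (nat_lit 69) (nat_lit 5) (nat_lit 79) (nat_lit 5) (nat_lit 70) (nat_lit 5) (nat_lit 275) (nat_lit 267) (nat_lit 178)) (XT.lf (nat_lit 0) (nat_lit 7320099181) (nat_lit 456) (nat_lit 14573580734) (nat_lit 76) (nat_lit 25826742474) (nat_lit 64) (nat_lit 5) (nat_lit 70) (nat_lit 5) (nat_lit 65) (nat_lit 5) (nat_lit 276) (nat_lit 267) (nat_lit 177))) (XT.nd (nat_lit 78) (nat_lit 304) (nat_lit 0) (XT.lf (nat_lit 0) (nat_lit 14349458555) (nat_lit 456) (nat_lit 28559365964) (nat_lit 76) (nat_lit 7024175503) (nat_lit 59) (nat_lit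 5) (nat_lit 65) (nat_lit 5) (nat_lit 60) (nat_lit 5) (nat_lit 277) (nat_lit 267) (nat_lit 176)) (XT.lf (nat_lit 0) (nat_lit 8294306014) (nat_lit 304) (nat_lit 14398777969) (nat_lit 380) (nat_lit 29591916402) (nat_lit 55) (nat_lit 5) (nat_lit 59) (nat_lit 5) (nat_lit 60) (nat_lit 5) (nat_lit 278) (nat_lit 267) (nat_lit 175)))) (XT.nd (nat_lit 156) (nat_lit 608) (nat_lit 0) (XT.nd (nat_lit 78) (nat_lit 304) (nat_lit 0) (XT.lf (nat_lit 0) (nat_lit 32461269939) (nat_lit 380) (nat_lit 5953253300) (nat_lit 76) (nat_lit 16372795483) (nat_lit 55) (nat_lit 5) (nat_lit 60) (nat_lit 5) (nat_lit 56) (nat_lit 5) (nat_lit 279) (nat_lit 267) (nat_lit 174)) (XT.lf (nat_lit 0) (nat_lit 36033043738) (nat_lit 304) (nat_lit 7779069703) (nat_lit 380) (nat_lit 13637659569) (nat_lit 51) (nat_lit 5) (nat_lit 55) (nat_lit 5) (nat_lit 56) (nat_lit 5) (nat_lit 280) (nat_lit 267) (nat_lit 173))) (XT.nd (nat_lit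 78) (nat_lit 380) (nat_lit 0) (XT.lf (nat_lit 0) (nat_lit 21559384112) (nat_lit 228) (nat_lit 35344828738) (nat_lit 304) (nat_lit 3379361203) (nat_lit 48) (nat_lit 5) (nat_lit 51) (nat_lit 5) (nat_lit 52) (nat_lit 5) (nat_lit 281) (nat_lit 267) (nat_lit 172)) (XT.nd (nat_lit 78) (nat_lit 0) (nat_lit 0) (XT.lf (nat_lit 0) (nat_lit 5321197829) (nat_lit 304) (nat_lit 2721617514) (nat_lit 380) (nat_lit 55265779408) (nat_lit 43) (nat_lit 5) (nat_lit 47) (nat_lit 5) (nat_lit 48) (nat_lit 5) (nat_lit 282) (nat_lit 267) (nat_lit 171)) (XT.lf (nat_lit 0) (nat_lit 21451575481) (nat_lit 380) (nat_lit 12849017072) (nat_lit 76) (nat_lit 32212702320) (nat_lit 43) (nat_lit 5) (nat_lit 48) (nat_lit 5) (nat_lit 44) (nat_lit 5) (nat_lit 283) (nat_lit 267) (nat_lit 170)))))) (XT.nd (nat_lit 390) (nat_lit 532) (nat_lit 0) (XT.nd (nat_lit 156) (nat_lit 456) (nat_lit 0) (XT.nd (nat_lit 78) (nat_lit 228) (nat_lit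 0) (XT.lf (nat_lit 0) (nat_lit 36561367267) (nat_lit 304) (nat_lit 32915146619) (nat_lit 76) (nat_lit 466448010) (nat_lit 40) (nat_lit 5) (nat_lit 44) (nat_lit 5) (nat_lit 41) (nat_lit 5) (nat_lit 284) (nat_lit 267) (nat_lit 169)) (XT.lf (nat_lit 0) (nat_lit 17698057598) (nat_lit 228) (nat_lit 36260916256) (nat_lit 304) (nat_lit 19634083738) (nat_lit 37) (nat_lit 5) (nat_lit 40) (nat_lit 5) (nat_lit 41) (nat_lit 5) (nat_lit 285) (nat_lit 267) (nat_lit 168))) (XT.nd (nat_lit 78) (nat_lit 456) (nat_lit 0) (XT.lf (nat_lit 0) (nat_lit 73322098821) (nat_lit 304) (nat_lit 3978252365) (nat_lit 76) (nat_lit 206130638) (nat_lit 37) (nat_lit 5) (nat_lit 41) (nat_lit 5) (nat_lit 38) (nat_lit 5) (nat_lit 286) (nat_lit 267) (nat_lit 167)) (XT.nd (nat_lit 78) (nat_lit 228) (nat_lit 0) (XT.lf (nat_lit 0) (nat_lit 13563680687) (nat_lit 228) (nat_lit 28701171216) (nat_lit 76) (nat_lit 39385249382) (nat_lit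 34) (nat_lit 5) (nat_lit 37) (nat_lit 5) (nat_lit 35) (nat_lit 5) (nat_lit 287) (nat_lit 267) (nat_lit 166)) (XT.lf (nat_lit 0) (nat_lit 29313374324) (nat_lit 228) (nat_lit 3799003367) (nat_lit 304) (nat_lit 52983038561) (nat_lit 31) (nat_lit 5) (nat_lit 34) (nat_lit 5) (nat_lit 35) (nat_lit 5) (nat_lit 288) (nat_lit 267) (nat_lit 165))))) (XT.nd (nat_lit 156) (nat_lit 380) (nat_lit 0) (XT.nd (nat_lit 78) (nat_lit 0) (nat_lit 0) (XT.lf (nat_lit 0) (nat_lit 1571752988) (nat_lit 152) (nat_lit 53772655649) (nat_lit 228) (nat_lit 35495980689) (nat_lit 29) (nat_lit 5) (nat_lit 31) (nat_lit 5) (nat_lit 32) (nat_lit 5) (nat_lit 289) (nat_lit 267) (nat_lit 164)) (XT.lf (nat_lit 0) (nat_lit 66551804515) (nat_lit 152) (nat_lit 13852917695) (nat_lit 228) (nat_lit 15507756489) (nat_lit 29) (nat_lit 5) (nat_lit 31) (nat_lit 5) (nat_lit 32) (nat_lit 5) (nat_lit 290) (nat_lit 267) (nat_lit 163))) (XT.nd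 (nat_lit 78) (nat_lit 152) (nat_lit 0) (XT.lf (nat_lit 0) (nat_lit 6918777490) (nat_lit 228) (nat_lit 65418081953) (nat_lit 76) (nat_lit 28997042062) (nat_lit 26) (nat_lit 5) (nat_lit 29) (nat_lit 5) (nat_lit 27) (nat_lit 5) (nat_lit 291) (nat_lit 267) (nat_lit 162)) (XT.nd (nat_lit 78) (nat_lit 152) (nat_lit 0) (XT.lf (nat_lit 0) (nat_lit 31354623842) (nat_lit 228) (nat_lit 207337068) (nat_lit 76) (nat_lit 75576444295) (nat_lit 26) (nat_lit 5) (nat_lit 29) (nat_lit 5) (nat_lit 27) (nat_lit 5) (nat_lit 292) (nat_lit 267) (nat_lit 161)) (XT.lf (nat_lit 0) (nat_lit 59089181219) (nat_lit 228) (nat_lit 41025159695) (nat_lit 76) (nat_lit 13225739494) (nat_lit 24) (nat_lit 5) (nat_lit 27) (nat_lit 5) (nat_lit 25) (nat_lit 5) (nat_lit 293) (nat_lit 267) (nat_lit 160))))))) (XT.nd (nat_lit 702) (nat_lit 456) (nat_lit 0) (XT.nd (nat_lit 312) (nat_lit 304) (nat_lit 0) (XT.nd (nat_lit 156) (nat_lit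 304) (nat_lit 0) (XT.nd (nat_lit 78) (nat_lit 0) (nat_lit 0) (XT.lf (nat_lit 0) (nat_lit 31067754723) (nat_lit 152) (nat_lit 58993743032) (nat_lit 228) (nat_lit 29925445269) (nat_lit 22) (nat_lit 5) (nat_lit 24) (nat_lit 5) (nat_lit 25) (nat_lit 5) (nat_lit 294) (nat_lit 267) (nat_lit 159)) (XT.lf (nat_lit 0) (nat_lit 110390218383) (nat_lit 152) (nat_lit 13834187212) (nat_lit 228) (nat_lit 2905511645) (nat_lit 22) (nat_lit 5) (nat_lit 24) (nat_lit 5) (nat_lit 25) (nat_lit 5) (nat_lit 295) (nat_lit 267) (nat_lit 158))) (XT.nd (nat_lit 78) (nat_lit 152) (nat_lit 0) (XT.lf (nat_lit 0) (nat_lit 26982231609) (nat_lit 152) (nat_lit 72531597065) (nat_lit 76) (nat_lit 35232630579) (nat_lit 20) (nat_lit 5) (nat_lit 22) (nat_lit 5) (nat_lit 21) (nat_lit 5) (nat_lit 296) (nat_lit 267) (nat_lit 157)) (XT.lf (nat_lit 0) (nat_lit 4995997708) (nat_lit 152) (nat_lit 54770559421) (nat_lit 228) (nat_lit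 83173020403) (nat_lit 18) (nat_lit 5) (nat_lit 20) (nat_lit 5) (nat_lit 21) (nat_lit 5) (nat_lit 297) (nat_lit 267) (nat_lit 156)))) (XT.nd (nat_lit 156) (nat_lit 228) (nat_lit 0) (XT.nd (nat_lit 78) (nat_lit 76) (nat_lit 0) (XT.lf (nat_lit 0) (nat_lit 91313320528) (nat_lit 152) (nat_lit 5122194692) (nat_lit 228) (nat_lit 55289537912) (nat_lit 18) (nat_lit 5) (nat_lit 20) (nat_lit 5) (nat_lit 21) (nat_lit 5) (nat_lit 298) (nat_lit 267) (nat_lit 155)) (XT.lf (nat_lit 0) (nat_lit 23309078041) (nat_lit 76) (nat_lit 113848556898) (nat_lit 152) (nat_lit 23999751618) (nat_lit 17) (nat_lit 5) (nat_lit 18) (nat_lit 5) (nat_lit 19) (nat_lit 4) (nat_lit 299) (nat_lit 267) (nat_lit 154))) (XT.nd (nat_lit 78) (nat_lit 152) (nat_lit 0) (XT.lf (nat_lit 0) (nat_lit 10634310030) (nat_lit 152) (nat_lit 55665746621) (nat_lit 76) (nat_lit 104978879982) (nat_lit 16) (nat_lit 5) (nat_lit 18) (nat_lit 5) (nat_lit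 17) (nat_lit 5) (nat_lit 300) (nat_lit 267) (nat_lit 153)) (XT.nd (nat_lit 78) (nat_lit 0) (nat_lit 0) (XT.lf (nat_lit 0) (nat_lit 33765241808) (nat_lit 152) (nat_lit 13970118826) (nat_lit 228) (nat_lit 134428324885) (nat_lit 14) (nat_lit 5) (nat_lit 16) (nat_lit 5) (nat_lit 17) (nat_lit 5) (nat_lit 301) (nat_lit 267) (nat_lit 152)) (XT.lf (nat_lit 0) (nat_lit 89453056762) (nat_lit 228) (nat_lit 62214530301) (nat_lit 76) (nat_lit 42169200710) (nat_lit 14) (nat_lit 5) (nat_lit 17) (nat_lit 5) (nat_lit 15) (nat_lit 4) (nat_lit 302) (nat_lit 267) (nat_lit 151)))))) (XT.nd (nat_lit 390) (nat_lit 228) (nat_lit 0) (XT.nd (nat_lit 156) (nat_lit 152) (nat_lit 0) (XT.nd (nat_lit 78) (nat_lit 0) (nat_lit 0) (XT.lf (nat_lit 0) (nat_lit 31639193180) (nat_lit 76) (nat_lit 103597345409) (nat_lit 152) (nat_lit 71170782536) (nat_lit 13) (nat_lit 5) (nat_lit 14) (nat_lit 5) (nat_lit 15) (nat_lit 4) (nat_lit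 303) (nat_lit 267) (nat_lit 150)) (XT.lf (nat_lit 0) (nat_lit 135220968912) (nat_lit 76) (nat_lit 50544355609) (nat_lit 152) (nat_lit 34164042656) (nat_lit 13) (nat_lit 5) (nat_lit 14) (nat_lit 5) (nat_lit 15) (nat_lit 4) (nat_lit 304) (nat_lit 267) (nat_lit 149))) (XT.nd (nat_lit 78) (nat_lit 0) (nat_lit 0) (XT.lf (nat_lit 0) (nat_lit 5927677315) (nat_lit 152) (nat_lit 221753038836) (nat_lit 76) (nat_lit 6832422646) (nat_lit 11) (nat_lit 5) (nat_lit 13) (nat_lit 5) (nat_lit 12) (nat_lit 4) (nat_lit 305) (nat_lit 267) (nat_lit 148)) (XT.nd (nat_lit 78) (nat_lit 0) (nat_lit 0) (XT.lf (nat_lit 0) (nat_lit 50396812748) (nat_lit 152) (nat_lit 130593136457) (nat_lit 76) (nat_lit 69127309725) (nat_lit 11) (nat_lit 5) (nat_lit 13) (nat_lit 5) (nat_lit 12) (nat_lit 4) (nat_lit 306) (nat_lit 267) (nat_lit 147)) (XT.lf (nat_lit 0) (nat_lit 98422545859) (nat_lit 152) (nat_lit 32142073633) (nat_lit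 76) (nat_lit 136405136831) (nat_lit 11) (nat_lit 5) (nat_lit 13) (nat_lit 5) (nat_lit 12) (nat_lit 4) (nat_lit 307) (nat_lit 267) (nat_lit 146))))) (XT.nd (nat_lit 156) (nat_lit 152) (nat_lit 0) (XT.nd (nat_lit 78) (nat_lit 0) (nat_lit 0) (XT.lf (nat_lit 0) (nat_lit 76636406967) (nat_lit 76) (nat_lit 74849575703) (nat_lit 152) (nat_lit 133624689502) (nat_lit 10) (nat_lit 5) (nat_lit 11) (nat_lit 5) (nat_lit 12) (nat_lit 4) (nat_lit 308) (nat_lit 267) (nat_lit 145)) (XT.lf (nat_lit 0) (nat_lit 195263503883) (nat_lit 76) (nat_lit 14090062136) (nat_lit 152) (nat_lit 95321342542) (nat_lit 10) (nat_lit 5) (nat_lit 11) (nat_lit 5) (nat_lit 12) (nat_lit 4) (nat_lit 309) (nat_lit 267) (nat_lit 144))) (XT.nd (nat_lit 78) (nat_lit 152) (nat_lit 0) (XT.lf (nat_lit 0) (nat_lit 272654316403) (nat_lit 152) (nat_lit 3229414373) (nat_lit 0) (nat_lit 49880365854) (nat_lit 10) (nat_lit 5) (nat_lit 12)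 (nat_lit 4) (nat_lit 10) (nat_lit 4) (nat_lit 310) (nat_lit 267) (nat_lit 143)) (XT.nd (nat_lit 78) (nat_lit 76) (nat_lit 0) (XT.lf (nat_lit 0) (nat_lit 114885332384) (nat_lit 76) (nat_lit 228164347046) (nat_lit 76) (nat_lit 5389213412) (nat_lit 9) (nat_lit 4) (nat_lit 10) (nat_lit 5) (nat_lit 10) (nat_lit 4) (nat_lit 311) (nat_lit 267) (nat_lit 142)) (XT.lf (nat_lit 0) (nat_lit 44728427666) (nat_lit 152) (nat_lit 131082952366) (nat_lit 76) (nat_lit 197077443349) (nat_lit 8) (nat_lit 5) (nat_lit 10) (nat_lit 5) (nat_lit 9) (nat_lit 4) (nat_lit 312) (nat_lit 267) (nat_lit 141))))))))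
noncomputable def xc99 : XT := (XT.nd (nat_lit 34788) (nat_lit 0) (nat_lit 1140) (XT.nd (nat_lit 34008) (nat_lit 0) (nat_lit 4484) (XT.nd (nat_lit 312) (nat_lit 152) (nat_lit 0) (XT.nd (nat_lit 156) (nat_lit 0) (nat_lit 0) (XT.nd (nat_lit 78) (nat_lit 76) (nat_lit 0) (XT.lf (nat_lit 0) (nat_lit 98668552254) (nat_lit 152) (nat_lit 20506711267) (nat_lit 76) (nat_lit 280114973850) (nat_lit 8) (nat_lit 5) (nat_lit 10) (nat_lit 5) (nat_lit 9) (nat_lit 4) (nat_lit 313) (nat_lit 267) (nat_lit 140)) (XT.lf (nat_lit 0) (nat_lit 102185132576) (nat_lit 76) (nat_lit 56333557733) (nat_lit 152) (nat_lit 269205334545) (nat_lit 7) (nat_lit 5) (nat_lit 8) (nat_lit 5) (nat_lit 9) (nat_lit 4) (nat_lit 314) (nat_lit 267) (nat_lit 139))) (XT.nd (nat_lit 78) (nat_lit 0) (nat_lit 0) (XT.lf (nat_lit 0) (nat_lit 223699438601) (nat_lit 152) (nat_lit 223177034554) (nat_lit 0) (nat_lit 11528912732) (nat_lit 7) (nat_lit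 5) (nat_lit 9) (nat_lit 4) (nat_lit 7) (nat_lit 4) (nat_lit 315) (nat_lit 267) (nat_lit 138)) (XT.lf (nat_lit 0) (nat_lit 295044004098) (nat_lit 152) (nat_lit 113577072928) (nat_lit 0) (nat_lit 82872711383) (nat_lit 7) (nat_lit 5) (nat_lit 9) (nat_lit 4) (nat_lit 7) (nat_lit 4) (nat_lit 316) (nat_lit 267) (nat_lit 137)))) (XT.nd (nat_lit 156) (nat_lit 76) (nat_lit 0) (XT.nd (nat_lit 78) (nat_lit 0) (nat_lit 0) (XT.lf (nat_lit 0) (nat_lit 4948377549) (nat_lit 76) (nat_lit 367224525191) (nat_lit 76) (nat_lit 155052522434) (nat_lit 6) (nat_lit 4) (nat_lit 7) (nat_lit 5) (nat_lit 7) (nat_lit 4) (nat_lit 317) (nat_lit 267) (nat_lit 136)) (XT.lf (nat_lit 0) (nat_lit 137010816190) (nat_lit 76) (nat_lit 320439269344) (nat_lit 76) (nat_lit 108266609140) (nat_lit 6) (nat_lit 4) (nat_lit 7) (nat_lit 5) (nat_lit 7) (nat_lit 4) (nat_lit 318) (nat_lit 267) (nat_lit 135))) (XT.nd (nat_lit 78) (nat_lit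 76) (nat_lit 0) (XT.lf (nat_lit 0) (nat_lit 279637464262) (nat_lit 76) (nat_lit 269911546210) (nat_lit 76) (nat_lit 57738277259) (nat_lit 6) (nat_lit 4) (nat_lit 7) (nat_lit 5) (nat_lit 7) (nat_lit 4) (nat_lit 319) (nat_lit 267) (nat_lit 134)) (XT.nd (nat_lit 78) (nat_lit 76) (nat_lit 0) (XT.lf (nat_lit 0) (nat_lit 433673516718) (nat_lit 76) (nat_lit 215341932246) (nat_lit 76) (nat_lit 3168099640) (nat_lit 6) (nat_lit 4) (nat_lit 7) (nat_lit 5) (nat_lit 7) (nat_lit 4) (nat_lit 320) (nat_lit 267) (nat_lit 133)) (XT.lf (nat_lit 0) (nat_lit 53982400591) (nat_lit 152) (nat_lit 101510433294) (nat_lit 76) (nat_lit 545135161127) (nat_lit 5) (nat_lit 5) (nat_lit 7) (nat_lit 5) (nat_lit 6) (nat_lit 4) (nat_lit 321) (nat_lit 267) (nat_lit 132)))))) (XT.nd (nat_lit 390) (nat_lit 836) (nat_lit 0) (XT.nd (nat_lit 156) (nat_lit 0) (nat_lit 76) (XT.nd (nat_lit 78) (nat_lit 0) (nat_lit 0) (XT.lf (nat_lit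 0) (nat_lit 4779134995) (nat_lit 0) (nat_lit 4779134995) (nat_lit 684) (nat_lit 8147085004) (nat_lit 75) (nat_lit 5) (nat_lit 75) (nat_lit 3) (nat_lit 84) (nat_lit 3) (nat_lit 268) (nat_lit 268) (nat_lit 184)) (XT.lf (nat_lit 0) (nat_lit 20199688378) (nat_lit 684) (nat_lit 1550927336) (nat_lit 760) (nat_lit 15060375559) (nat_lit 75) (nat_lit 5) (nat_lit 84) (nat_lit 3) (nat_lit 85) (nat_lit 5) (nat_lit 269) (nat_lit 268) (nat_lit 183))) (XT.nd (nat_lit 78) (nat_lit 0) (nat_lit 0) (XT.lf (nat_lit 0) (nat_lit 21972210063) (nat_lit 684) (nat_lit 13008926666) (nat_lit 760) (nat_lit 3312044545) (nat_lit 76) (nat_lit 5) (nat_lit 85) (nat_lit 5) (nat_lit 86) (nat_lit 5) (nat_lit 270) (nat_lit 268) (nat_lit 182)) (XT.nd (nat_lit 78) (nat_lit 0) (nat_lit 76) (XT.lf (nat_lit 76) (nat_lit 14522167541) (nat_lit 0) (nat_lit 9978348001) (nat_lit 760) (nat_lit 15362752470) (nat_lit 77) (nat_lit 5) (nat_lit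 76) (nat_lit 5) (nat_lit 86) (nat_lit 5) (nat_lit 271) (nat_lit 268) (nat_lit 181)) (XT.lf (nat_lit 76) (nat_lit 2994323562) (nat_lit 0) (nat_lit 24773156493) (nat_lit 760) (nat_lit 13764681011) (nat_lit 78) (nat_lit 5) (nat_lit 77) (nat_lit 5) (nat_lit 87) (nat_lit 5) (nat_lit 272) (nat_lit 268) (nat_lit 180))))) (XT.nd (nat_lit 156) (nat_lit 1064) (nat_lit 0) (XT.nd (nat_lit 78) (nat_lit 0) (nat_lit 0) (XT.lf (nat_lit 0) (nat_lit 31934582309) (nat_lit 684) (nat_lit 9019191808) (nat_lit 760) (nat_lit 2348870114) (nat_lit 78) (nat_lit 5) (nat_lit 87) (nat_lit 5) (nat_lit 88) (nat_lit 5) (nat_lit 273) (nat_lit 268) (nat_lit 179)) (XT.lf (nat_lit 76) (nat_lit 23180705606) (nat_lit 0) (nat_lit 14028387040) (nat_lit 760) (nat_lit 7966987788) (nat_lit 79) (nat_lit 5) (nat_lit 78) (nat_lit 5) (nat_lit 88) (nat_lit 5) (nat_lit 274) (nat_lit 268) (nat_lit 178))) (XT.nd (nat_lit 78) (nat_lit 456)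 (nat_lit 0) (XT.lf (nat_lit 0) (nat_lit 11203605667) (nat_lit 684) (nat_lit 32266317795) (nat_lit 760) (nat_lit 3701265259) (nat_lit 70) (nat_lit 5) (nat_lit 79) (nat_lit 5) (nat_lit 80) (nat_lit 5) (nat_lit 275) (nat_lit 268) (nat_lit 177)) (XT.nd (nat_lit 78) (nat_lit 380) (nat_lit 0) (XT.lf (nat_lit 0) (nat_lit 1497689795) (nat_lit 760) (nat_lit 1724289964) (nat_lit 76) (nat_lit 46072184088) (nat_lit 69) (nat_lit 5) (nat_lit 79) (nat_lit 5) (nat_lit 70) (nat_lit 5) (nat_lit 276) (nat_lit 268) (nat_lit 176)) (XT.lf (nat_lit 0) (nat_lit 7997366508) (nat_lit 456) (nat_lit 15650025766) (nat_lit 76) (nat_lit 27885839294) (nat_lit 64) (nat_lit 5) (nat_lit 70) (nat_lit 5) (nat_lit 65) (nat_lit 5) (nat_lit 277) (nat_lit 268) (nat_lit 175))))))) (XT.nd (nat_lit 780) (nat_lit 1292) (nat_lit 0) (XT.nd (nat_lit 390) (nat_lit 836) (nat_lit 0) (XT.nd (nat_lit 156) (nat_lit 532) (nat_lit 0) (XT.nd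 (nat_lit 78) (nat_lit 304) (nat_lit 0) (XT.lf (nat_lit 0) (nat_lit 15583610626) (nat_lit 456) (nat_lit 30754016642) (nat_lit 76) (nat_lit 7585479243) (nat_lit 59) (nat_lit 5) (nat_lit 65) (nat_lit 5) (nat_lit 60) (nat_lit 5) (nat_lit 278) (nat_lit 268) (nat_lit 174)) (XT.lf (nat_lit 0) (nat_lit 9044033519) (nat_lit 304) (nat_lit 15545653284) (nat_lit 380) (nat_lit 31873848638) (nat_lit 55) (nat_lit 5) (nat_lit 59) (nat_lit 5) (nat_lit 60) (nat_lit 5) (nat_lit 279) (nat_lit 268) (nat_lit 173))) (XT.nd (nat_lit 78) (nat_lit 532) (nat_lit 0) (XT.lf (nat_lit 0) (nat_lit 35133388743) (nat_lit 380) (nat_lit 6345838087) (nat_lit 76) (nat_lit 17687124705) (nat_lit 55) (nat_lit 5) (nat_lit 60) (nat_lit 5) (nat_lit 56) (nat_lit 5) (nat_lit 280) (nat_lit 268) (nat_lit 172)) (XT.nd (nat_lit 78) (nat_lit 228) (nat_lit 0) (XT.lf (nat_lit 0) (nat_lit 38995726280) (nat_lit 304) (nat_lit 8392251435) (nat_lit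 380) (nat_lit 14654054762) (nat_lit 51) (nat_lit 5) (nat_lit 55) (nat_lit 5) (nat_lit 56) (nat_lit 5) (nat_lit 281) (nat_lit 268) (nat_lit 171)) (XT.lf (nat_lit 0) (nat_lit 23364119532) (nat_lit 228) (nat_lit 38159455019) (nat_lit 304) (nat_lit 3579169734) (nat_lit 48) (nat_lit 5) (nat_lit 51) (nat_lit 5) (nat_lit 52) (nat_lit 5) (nat_lit 282) (nat_lit 268) (nat_lit 170))))) (XT.nd (nat_lit 156) (nat_lit 456) (nat_lit 0) (XT.nd (nat_lit 78) (nat_lit 0) (nat_lit 0) (XT.lf (nat_lit 0) (nat_lit 5825711742) (nat_lit 304) (nat_lit 2924984058) (nat_lit 380) (nat_lit 59619218744) (nat_lit 43) (nat_lit 5) (nat_lit 47) (nat_lit 5) (nat_lit 48) (nat_lit 5) (nat_lit 283) (nat_lit 268) (nat_lit 169)) (XT.lf (nat_lit 0) (nat_lit 23227589923) (nat_lit 380) (nat_lit 13801048040) (nat_lit 76) (nat_lit 34802591798) (nat_lit 43) (nat_lit 5) (nat_lit 48) (nat_lit 5) (nat_lit 44) (nat_lit 5) (nat_lit 284)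 (nat_lit 268) (nat_lit 168))) (XT.nd (nat_lit 78) (nat_lit 228) (nat_lit 0) (XT.lf (nat_lit 0) (nat_lit 39543112152) (nat_lit 304) (nat_lit 35473062350) (nat_lit 76) (nat_lit 519258236) (nat_lit 40) (nat_lit 5) (nat_lit 44) (nat_lit 5) (nat_lit 41) (nat_lit 5) (nat_lit 285) (nat_lit 268) (nat_lit 167)) (XT.nd (nat_lit 78) (nat_lit 0) (nat_lit 0) (XT.lf (nat_lit 0) (nat_lit 19185925933) (nat_lit 228) (nat_lit 39143515788) (nat_lit 304) (nat_lit 21148257856) (nat_lit 37) (nat_lit 5) (nat_lit 40) (nat_lit 5) (nat_lit 41) (nat_lit 5) (nat_lit 286) (nat_lit 268) (nat_lit 166)) (XT.lf (nat_lit 0) (nat_lit 79237899378) (nat_lit 304) (nat_lit 4227493067) (nat_lit 76) (nat_lit 238999694) (nat_lit 37) (nat_lit 5) (nat_lit 41) (nat_lit 5) (nat_lit 38) (nat_lit 5) (nat_lit 287) (nat_lit 268) (nat_lit 165)))))) (XT.nd (nat_lit 390) (nat_lit 456) (nat_lit 0) (XT.nd (nat_lit 156) (nat_lit 380) (nat_lit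 0) (XT.nd (nat_lit 78) (nat_lit 228) (nat_lit 0) (XT.lf (nat_lit 0) (nat_lit 14697004319) (nat_lit 228) (nat_lit 30929556254) (nat_lit 76) (nat_lit 42553043354) (nat_lit 34) (nat_lit 5) (nat_lit 37) (nat_lit 5) (nat_lit 35) (nat_lit 5) (nat_lit 288) (nat_lit 268) (nat_lit 164)) (XT.lf (nat_lit 0) (nat_lit 31723210394) (nat_lit 228) (nat_lit 4083825339) (nat_lit 304) (nat_lit 57173643389) (nat_lit 31) (nat_lit 5) (nat_lit 34) (nat_lit 5) (nat_lit 35) (nat_lit 5) (nat_lit 289) (nat_lit 268) (nat_lit 163))) (XT.nd (nat_lit 78) (nat_lit 228) (nat_lit 0) (XT.lf (nat_lit 0) (nat_lit 1761426888) (nat_lit 152) (nat_lit 58054093739) (nat_lit 228) (nat_lit 38289841289) (nat_lit 29) (nat_lit 5) (nat_lit 31) (nat_lit 5) (nat_lit 32) (nat_lit 5) (nat_lit 290) (nat_lit 268) (nat_lit 162)) (XT.nd (nat_lit 78) (nat_lit 228) (nat_lit 0) (XT.lf (nat_lit 0) (nat_lit 71935146711) (nat_lit 152) (nat_lit 14942285960)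 (nat_lit 228) (nat_lit 16705953069) (nat_lit 29) (nat_lit 5) (nat_lit 31) (nat_lit 5) (nat_lit 32) (nat_lit 5) (nat_lit 291) (nat_lit 268) (nat_lit 161)) (XT.lf (nat_lit 0) (nat_lit 7511506898) (nat_lit 228) (nat_lit 70591821874) (nat_lit 76) (nat_lit 31335257689) (nat_lit 26) (nat_lit 5) (nat_lit 29) (nat_lit 5) (nat_lit 27) (nat_lit 5) (nat_lit 292) (nat_lit 268) (nat_lit 160))))) (XT.nd (nat_lit 156) (nat_lit 304) (nat_lit 0) (XT.nd (nat_lit 78) (nat_lit 152) (nat_lit 0) (XT.lf (nat_lit 0) (nat_lit 33899315240) (nat_lit 228) (nat_lit 168640112) (nat_lit 76) (nat_lit 81639645267) (nat_lit 26) (nat_lit 5) (nat_lit 29) (nat_lit 5) (nat_lit 27) (nat_lit 5) (nat_lit 293) (nat_lit 268) (nat_lit 159)) (XT.lf (nat_lit 0) (nat_lit 63851060014) (nat_lit 228) (nat_lit 44252799535) (nat_lit 76) (nat_lit 14301633662) (nat_lit 24) (nat_lit 5) (nat_lit 27) (nat_lit 5) (nat_lit 25) (nat_lit 5) (nat_lit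 294) (nat_lit 268) (nat_lit 158))) (XT.nd (nat_lit 78) (nat_lit 152) (nat_lit 0) (XT.lf (nat_lit 0) (nat_lit 33605185055) (nat_lit 152) (nat_lit 63694215186) (nat_lit 228) (nat_lit 32284796855) (nat_lit 22) (nat_lit 5) (nat_lit 24) (nat_lit 5) (nat_lit 25) (nat_lit 5) (nat_lit 295) (nat_lit 268) (nat_lit 157)) (XT.nd (nat_lit 78) (nat_lit 152) (nat_lit 0) (XT.lf (nat_lit 0) (nat_lit 119269593219) (nat_lit 152) (nat_lit 14923304330) (nat_lit 228) (nat_lit 3105837729) (nat_lit 22) (nat_lit 5) (nat_lit 24) (nat_lit 5) (nat_lit 25) (nat_lit 5) (nat_lit 296) (nat_lit 268) (nat_lit 156)) (XT.lf (nat_lit 0) (nat_lit 29170603959) (nat_lit 152) (nat_lit 78285788784) (nat_lit 76) (nat_lit 38068250906) (nat_lit 20) (nat_lit 5) (nat_lit 22) (nat_lit 5) (nat_lit 21) (nat_lit 5) (nat_lit 297) (nat_lit 268) (nat_lit 155))))))))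
noncomputable def xc100 : XT := (XT.nd (nat_lit 1482) (nat_lit 76) (nat_lit 0) (XT.nd (nat_lit 702) (nat_lit 304) (nat_lit 0) (XT.nd (nat_lit 312) (nat_lit 380) (nat_lit 0) (XT.nd (nat_lit 156) (nat_lit 152) (nat_lit 0) (XT.nd (nat_lit 78) (nat_lit 0) (nat_lit 0) (XT.lf (nat_lit 0) (nat_lit 5441912944) (nat_lit 152) (nat_lit 59134277491) (nat_lit 228) (nat_lit 89797098370) (nat_lit 18) (nat_lit 5) (nat_lit 20) (nat_lit 5) (nat_lit 21) (nat_lit 5) (nat_lit 298) (nat_lit 268) (nat_lit 154)) (XT.lf (nat_lit 0) (nat_lit 98661196744) (nat_lit 152) (nat_lit 5515371486) (nat_lit 228) (nat_lit 59685141995) (nat_lit 18) (nat_lit 5) (nat_lit 20) (nat_lit 5) (nat_lit 21) (nat_lit 5) (nat_lit 299) (nat_lit 268) (nat_lit 153))) (XT.nd (nat_lit 78) (nat_lit 76) (nat_lit 0) (XT.lf (nat_lit 0) (nat_lit 25215795083) (nat_lit 76) (nat_lit 122939616380) (nat_lit 152) (nat_lit 25893273873) (nat_lit 17) (nat_lit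 5) (nat_lit 18) (nat_lit 5) (nat_lit 19) (nat_lit 4) (nat_lit 300) (nat_lit 268) (nat_lit 152)) (XT.lf (nat_lit 0) (nat_lit 11508768774) (nat_lit 152) (nat_lit 60079312033) (nat_lit 76) (nat_lit 113391955201) (nat_lit 16) (nat_lit 5) (nat_lit 18) (nat_lit 5) (nat_lit 17) (nat_lit 5) (nat_lit 301) (nat_lit 268) (nat_lit 151)))) (XT.nd (nat_lit 156) (nat_lit 228) (nat_lit 0) (XT.nd (nat_lit 78) (nat_lit 0) (nat_lit 0) (XT.lf (nat_lit 0) (nat_lit 36504430403) (nat_lit 152) (nat_lit 15072309242) (nat_lit 228) (nat_lit 145158885562) (nat_lit 14) (nat_lit 5) (nat_lit 16) (nat_lit 5) (nat_lit 17) (nat_lit 5) (nat_lit 302) (nat_lit 268) (nat_lit 150)) (XT.lf (nat_lit 0) (nat_lit 96630403984) (nat_lit 228) (nat_lit 67155689327) (nat_lit 76) (nat_lit 45556556751) (nat_lit 14) (nat_lit 5) (nat_lit 17) (nat_lit 5) (nat_lit 15) (nat_lit 4) (nat_lit 303) (nat_lit 268) (nat_lit 149))) (XT.nd (nat_lit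 78) (nat_lit 152) (nat_lit 0) (XT.lf (nat_lit 0) (nat_lit 34204767368) (nat_lit 76) (nat_lit 111870771512) (nat_lit 152) (nat_lit 76843340372) (nat_lit 13) (nat_lit 5) (nat_lit 14) (nat_lit 5) (nat_lit 15) (nat_lit 4) (nat_lit 304) (nat_lit 268) (nat_lit 148)) (XT.nd (nat_lit 78) (nat_lit 152) (nat_lit 0) (XT.lf (nat_lit 0) (nat_lit 146070534141) (nat_lit 76) (nat_lit 54574606346) (nat_lit 152) (nat_lit 36877624618) (nat_lit 13) (nat_lit 5) (nat_lit 14) (nat_lit 5) (nat_lit 15) (nat_lit 4) (nat_lit 305) (nat_lit 268) (nat_lit 147)) (XT.lf (nat_lit 0) (nat_lit 6420097022) (nat_lit 152) (nat_lit 239461447212) (nat_lit 76) (nat_lit 7391716038) (nat_lit 11) (nat_lit 5) (nat_lit 13) (nat_lit 5) (nat_lit 12) (nat_lit 4) (nat_lit 306) (nat_lit 268) (nat_lit 146)))))) (XT.nd (nat_lit 390) (nat_lit 228) (nat_lit 0) (XT.nd (nat_lit 156) (nat_lit 76) (nat_lit 0) (XT.nd (nat_lit 78) (nat_lit 0) (nat_lit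 0) (XT.lf (nat_lit 0) (nat_lit 54445414733) (nat_lit 152) (nat_lit 141011110770) (nat_lit 76) (nat_lit 74669253373) (nat_lit 11) (nat_lit 5) (nat_lit 13) (nat_lit 5) (nat_lit 12) (nat_lit 4) (nat_lit 307) (nat_lit 268) (nat_lit 145)) (XT.lf (nat_lit 0) (nat_lit 106311957828) (nat_lit 152) (nat_lit 34686146372) (nat_lit 76) (nat_lit 147328435620) (nat_lit 11) (nat_lit 5) (nat_lit 13) (nat_lit 5) (nat_lit 12) (nat_lit 4) (nat_lit 308) (nat_lit 268) (nat_lit 144))) (XT.nd (nat_lit 78) (nat_lit 0) (nat_lit 0) (XT.lf (nat_lit 0) (nat_lit 82793426549) (nat_lit 76) (nat_lit 80826294470) (nat_lit 152) (nat_lit 144299046578) (nat_lit 10) (nat_lit 5) (nat_lit 11) (nat_lit 5) (nat_lit 12) (nat_lit 4) (nat_lit 309) (nat_lit 268) (nat_lit 143)) (XT.nd (nat_lit 78) (nat_lit 0) (nat_lit 0) (XT.lf (nat_lit 0) (nat_lit 210908757363) (nat_lit 76) (nat_lit 15206852950) (nat_lit 152) (nat_lit 102932588757)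 (nat_lit 10) (nat_lit 5) (nat_lit 11) (nat_lit 5) (nat_lit 12) (nat_lit 4) (nat_lit 310) (nat_lit 268) (nat_lit 142)) (XT.lf (nat_lit 0) (nat_lit 294479552092) (nat_lit 152) (nat_lit 3464885345) (nat_lit 0) (nat_lit 53880129233) (nat_lit 10) (nat_lit 5) (nat_lit 12) (nat_lit 4) (nat_lit 10) (nat_lit 4) (nat_lit 311) (nat_lit 268) (nat_lit 141))))) (XT.nd (nat_lit 156) (nat_lit 76) (nat_lit 0) (XT.nd (nat_lit 78) (nat_lit 76) (nat_lit 0) (XT.lf (nat_lit 0) (nat_lit 124098046721) (nat_lit 76) (nat_lit 246407884328) (nat_lit 76) (nat_lit 5807447163) (nat_lit 9) (nat_lit 4) (nat_lit 10) (nat_lit 5) (nat_lit 10) (nat_lit 4) (nat_lit 312) (nat_lit 268) (nat_lit 140)) (XT.lf (nat_lit 0) (nat_lit 48318267005) (nat_lit 152) (nat_lit 141548928974) (nat_lit 76) (nat_lit 212852144262) (nat_lit 8) (nat_lit 5) (nat_lit 10) (nat_lit 5) (nat_lit 9) (nat_lit 4) (nat_lit 313) (nat_lit 268) (nat_lit 139)))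 (XT.nd (nat_lit 78) (nat_lit 76) (nat_lit 0) (XT.lf (nat_lit 0) (nat_lit 106572744883) (nat_lit 152) (nat_lit 22128118927) (nat_lit 76) (nat_lit 302532047170) (nat_lit 8) (nat_lit 5) (nat_lit 10) (nat_lit 5) (nat_lit 9) (nat_lit 4) (nat_lit 314) (nat_lit 268) (nat_lit 138)) (XT.nd (nat_lit 78) (nat_lit 0) (nat_lit 0) (XT.lf (nat_lit 0) (nat_lit 110378241091) (nat_lit 76) (nat_lit 60832145356) (nat_lit 152) (nat_lit 290731041130) (nat_lit 7) (nat_lit 5) (nat_lit 8) (nat_lit 5) (nat_lit 9) (nat_lit 4) (nat_lit 315) (nat_lit 268) (nat_lit 137)) (XT.lf (nat_lit 0) (nat_lit 241604956031) (nat_lit 152) (nat_lit 241013891062) (nat_lit 0) (nat_lit 12458483011) (nat_lit 7) (nat_lit 5) (nat_lit 9) (nat_lit 4) (nat_lit 7) (nat_lit 4) (nat_lit 316) (nat_lit 268) (nat_lit 136))))))) (XT.nd (nat_lit 34086) (nat_lit 0) (nat_lit 3420) (XT.nd (nat_lit 312) (nat_lit 0) (nat_lit 0) (XT.nd (nat_lit 156)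 (nat_lit 0) (nat_lit 0) (XT.nd (nat_lit 78) (nat_lit 76) (nat_lit 0) (XT.lf (nat_lit 0) (nat_lit 318656378446) (nat_lit 152) (nat_lit 122647214450) (nat_lit 0) (nat_lit 89509247979) (nat_lit 7) (nat_lit 5) (nat_lit 9) (nat_lit 4) (nat_lit 7) (nat_lit 4) (nat_lit 317) (nat_lit 268) (nat_lit 135)) (XT.lf (nat_lit 0) (nat_lit 5359575668) (nat_lit 76) (nat_lit 396595596771) (nat_lit 76) (nat_lit 167447857557) (nat_lit 6) (nat_lit 4) (nat_lit 7) (nat_lit 5) (nat_lit 7) (nat_lit 4) (nat_lit 318) (nat_lit 268) (nat_lit 134))) (XT.nd (nat_lit 78) (nat_lit 0) (nat_lit 0) (XT.lf (nat_lit 0) (nat_lit 147985873999) (nat_lit 76) (nat_lit 346068030858) (nat_lit 76) (nat_lit 116919727990) (nat_lit 6) (nat_lit 4) (nat_lit 7) (nat_lit 5) (nat_lit 7) (nat_lit 4) (nat_lit 319) (nat_lit 268) (nat_lit 133)) (XT.lf (nat_lit 0) (nat_lit 302021602620) (nat_lit 76) (nat_lit 291498562469) (nat_lit 76) (nat_lit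 62349737698) (nat_lit 6) (nat_lit 4) (nat_lit 7) (nat_lit 5) (nat_lit 7) (nat_lit 4) (nat_lit 320) (nat_lit 268) (nat_lit 132)))) (XT.nd (nat_lit 33540) (nat_lit 0) (nat_lit 5244) (XT.nd (nat_lit 33462) (nat_lit 0) (nat_lit 5244) (XT.lf (nat_lit 0) (nat_lit 468379565848) (nat_lit 76) (nat_lit 232563816975) (nat_lit 76) (nat_lit 3414508962) (nat_lit 6) (nat_lit 4) (nat_lit 7) (nat_lit 5) (nat_lit 7) (nat_lit 4) (nat_lit 321) (nat_lit 268) (nat_lit 131)) (XT.lf (nat_lit 0) (nat_lit 5198345731) (nat_lit 0) (nat_lit 5198345731) (nat_lit 684) (nat_lit 8721186519) (nat_lit 75) (nat_lit 5) (nat_lit 75) (nat_lit 3) (nat_lit 84) (nat_lit 3) (nat_lit 269) (nat_lit 269) (nat_lit 182))) (XT.nd (nat_lit 78) (nat_lit 0) (nat_lit 76) (XT.lf (nat_lit 0) (nat_lit 21951189508) (nat_lit 684) (nat_lit 1598406803) (nat_lit 760) (nat_lit 16199095331) (nat_lit 75) (nat_lit 5) (nat_lit 84) (nat_lit 3) (nat_lit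 85) (nat_lit 5) (nat_lit 270) (nat_lit 269) (nat_lit 181)) (XT.nd (nat_lit 78) (nat_lit 0) (nat_lit 0) (XT.lf (nat_lit 0) (nat_lit 23855784672) (nat_lit 684) (nat_lit 13968837262) (nat_lit 760) (nat_lit 3525351148) (nat_lit 76) (nat_lit 5) (nat_lit 85) (nat_lit 5) (nat_lit 86) (nat_lit 5) (nat_lit 271) (nat_lit 269) (nat_lit 180)) (XT.lf (nat_lit 76) (nat_lit 15761232858) (nat_lit 0) (nat_lit 10817010118) (nat_lit 760) (nat_lit 16467856977) (nat_lit 77) (nat_lit 5) (nat_lit 76) (nat_lit 5) (nat_lit 86) (nat_lit 5) (nat_lit 272) (nat_lit 269) (nat_lit 179)))))) (XT.nd (nat_lit 390) (nat_lit 1368) (nat_lit 0) (XT.nd (nat_lit 156) (nat_lit 608) (nat_lit 0) (XT.nd (nat_lit 78) (nat_lit 0) (nat_lit 76) (XT.lf (nat_lit 76) (nat_lit 3314364382) (nat_lit 0) (nat_lit 26784155573) (nat_lit 760) (nat_lit 14750412301) (nat_lit 78) (nat_lit 5) (nat_lit 77) (nat_lit 5) (nat_lit 87) (nat_lit 5) (nat_lit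 273) (nat_lit 269) (nat_lit 178)) (XT.lf (nat_lit 0) (nat_lit 34590447445) (nat_lit 684) (nat_lit 9660401514) (nat_lit 760) (nat_lit 2510655937) (nat_lit 78) (nat_lit 5) (nat_lit 87) (nat_lit 5) (nat_lit 88) (nat_lit 5) (nat_lit 274) (nat_lit 269) (nat_lit 177))) (XT.nd (nat_lit 78) (nat_lit 684) (nat_lit 0) (XT.lf (nat_lit 76) (nat_lit 25111996839) (nat_lit 0) (nat_lit 15168632595) (nat_lit 760) (nat_lit 8504522943) (nat_lit 79) (nat_lit 5) (nat_lit 78) (nat_lit 5) (nat_lit 88) (nat_lit 5) (nat_lit 275) (nat_lit 269) (nat_lit 176)) (XT.nd (nat_lit 78) (nat_lit 76) (nat_lit 0) (XT.lf (nat_lit 0) (nat_lit 12178454765) (nat_lit 684) (nat_lit 34857815740) (nat_lit 760) (nat_lit 3903921931) (nat_lit 70) (nat_lit 5) (nat_lit 79) (nat_lit 5) (nat_lit 80) (nat_lit 5) (nat_lit 276) (nat_lit 269) (nat_lit 175)) (XT.lf (nat_lit 0) (nat_lit 1701258442) (nat_lit 760) (nat_lit 1786498813) (nat_lit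 76) (nat_lit 49745528285) (nat_lit 69) (nat_lit 5) (nat_lit 79) (nat_lit 5) (nat_lit 70) (nat_lit 5) (nat_lit 277) (nat_lit 269) (nat_lit 174))))) (XT.nd (nat_lit 156) (nat_lit 608) (nat_lit 0) (XT.nd (nat_lit 78) (nat_lit 380) (nat_lit 0) (XT.lf (nat_lit 0) (nat_lit 8715738985) (nat_lit 456) (nat_lit 16825346219) (nat_lit 76) (nat_lit 30110668562) (nat_lit 64) (nat_lit 5) (nat_lit 70) (nat_lit 5) (nat_lit 65) (nat_lit 5) (nat_lit 278) (nat_lit 269) (nat_lit 173)) (XT.lf (nat_lit 0) (nat_lit 16904198127) (nat_lit 456) (nat_lit 33137092947) (nat_lit 76) (nat_lit 8191777202) (nat_lit 59) (nat_lit 5) (nat_lit 65) (nat_lit 5) (nat_lit 60) (nat_lit 5) (nat_lit 279) (nat_lit 269) (nat_lit 172))) (XT.nd (nat_lit 78) (nat_lit 304) (nat_lit 0) (XT.lf (nat_lit 0) (nat_lit 9841444253) (nat_lit 304) (nat_lit 16784995771) (nat_lit 380) (nat_lit 34350521724) (nat_lit 55) (nat_lit 5) (nat_lit 59) (nat_lit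 5) (nat_lit 60) (nat_lit 5) (nat_lit 280) (nat_lit 269) (nat_lit 171)) (XT.nd (nat_lit 78) (nat_lit 304) (nat_lit 0) (XT.lf (nat_lit 0) (nat_lit 38008546476) (nat_lit 380) (nat_lit 6781766900) (nat_lit 76) (nat_lit 19105957492) (nat_lit 55) (nat_lit 5) (nat_lit 60) (nat_lit 5) (nat_lit 56) (nat_lit 5) (nat_lit 281) (nat_lit 269) (nat_lit 170)) (XT.lf (nat_lit 0) (nat_lit 42184004960) (nat_lit 304) (nat_lit 9055792177) (nat_lit 380) (nat_lit 15762406602) (nat_lit 51) (nat_lit 5) (nat_lit 55) (nat_lit 5) (nat_lit 56) (nat_lit 5) (nat_lit 282) (nat_lit 269) (nat_lit 169))))))))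
noncomputable def xc101 : XT := (XT.nd (nat_lit 1482) (nat_lit 836) (nat_lit 0) (XT.nd (nat_lit 702) (nat_lit 912) (nat_lit 0) (XT.nd (nat_lit 312) (nat_lit 836) (nat_lit 0) (XT.nd (nat_lit 156) (nat_lit 228) (nat_lit 0) (XT.nd (nat_lit 78) (nat_lit 380) (nat_lit 0) (XT.lf (nat_lit 0) (nat_lit 25301823075) (nat_lit 228) (nat_lit 41201100294) (nat_lit 304) (nat_lit 3805026320) (nat_lit 48) (nat_lit 5) (nat_lit 51) (nat_lit 5) (nat_lit 52) (nat_lit 5) (nat_lit 283) (nat_lit 269) (nat_lit 168)) (XT.lf (nat_lit 0) (nat_lit 6359342488) (nat_lit 304) (nat_lit 3146668949) (nat_lit 380) (nat_lit 64330608937) (nat_lit 43) (nat_lit 5) (nat_lit 47) (nat_lit 5) (nat_lit 48) (nat_lit 5) (nat_lit 284) (nat_lit 269) (nat_lit 167))) (XT.nd (nat_lit 78) (nat_lit 228) (nat_lit 0) (XT.lf (nat_lit 0) (nat_lit 25137141770) (nat_lit 380) (nat_lit 14840068099) (nat_lit 76) (nat_lit 37597835915) (nat_lit 43)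 (nat_lit 5) (nat_lit 48) (nat_lit 5) (nat_lit 44) (nat_lit 5) (nat_lit 285) (nat_lit 269) (nat_lit 166)) (XT.lf (nat_lit 0) (nat_lit 42755288408) (nat_lit 304) (nat_lit 38246353155) (nat_lit 76) (nat_lit 574082832) (nat_lit 40) (nat_lit 5) (nat_lit 44) (nat_lit 5) (nat_lit 41) (nat_lit 5) (nat_lit 286) (nat_lit 269) (nat_lit 165)))) (XT.nd (nat_lit 156) (nat_lit 608) (nat_lit 0) (XT.nd (nat_lit 78) (nat_lit 0) (nat_lit 0) (XT.lf (nat_lit 0) (nat_lit 20782548745) (nat_lit 228) (nat_lit 42259330240) (nat_lit 304) (nat_lit 22791633760) (nat_lit 37) (nat_lit 5) (nat_lit 40) (nat_lit 5) (nat_lit 41) (nat_lit 5) (nat_lit 287) (nat_lit 269) (nat_lit 164)) (XT.lf (nat_lit 0) (nat_lit 85619826263) (nat_lit 304) (nat_lit 4506519428) (nat_lit 76) (nat_lit 272161684) (nat_lit 37) (nat_lit 5) (nat_lit 41) (nat_lit 5) (nat_lit 38) (nat_lit 5) (nat_lit 288) (nat_lit 269) (nat_lit 163))) (XT.nd (nat_lit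 78) (nat_lit 380) (nat_lit 0) (XT.lf (nat_lit 0) (nat_lit 15914113410) (nat_lit 228) (nat_lit 33345871492) (nat_lit 76) (nat_lit 45971839311) (nat_lit 34) (nat_lit 5) (nat_lit 37) (nat_lit 5) (nat_lit 35) (nat_lit 5) (nat_lit 289) (nat_lit 269) (nat_lit 162)) (XT.nd (nat_lit 78) (nat_lit 152) (nat_lit 0) (XT.lf (nat_lit 0) (nat_lit 34316593738) (nat_lit 228) (nat_lit 4394157654) (nat_lit 304) (nat_lit 61706349799) (nat_lit 31) (nat_lit 5) (nat_lit 34) (nat_lit 5) (nat_lit 35) (nat_lit 5) (nat_lit 290) (nat_lit 269) (nat_lit 161)) (XT.lf (nat_lit 0) (nat_lit 1957153849) (nat_lit 152) (nat_lit 62680953506) (nat_lit 228) (nat_lit 41313747167) (nat_lit 29) (nat_lit 5) (nat_lit 31) (nat_lit 5) (nat_lit 32) (nat_lit 5) (nat_lit 291) (nat_lit 269) (nat_lit 160)))))) (XT.nd (nat_lit 390) (nat_lit 380) (nat_lit 0) (XT.nd (nat_lit 156) (nat_lit 304) (nat_lit 0) (XT.nd (nat_lit 78) (nat_lit 228)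 (nat_lit 0) (XT.lf (nat_lit 0) (nat_lit 77740711049) (nat_lit 152) (nat_lit 16121495012) (nat_lit 228) (nat_lit 18006057624) (nat_lit 29) (nat_lit 5) (nat_lit 31) (nat_lit 5) (nat_lit 32) (nat_lit 5) (nat_lit 292) (nat_lit 269) (nat_lit 159)) (XT.lf (nat_lit 0) (nat_lit 8146058459) (nat_lit 228) (nat_lit 76187978807) (nat_lit 76) (nat_lit 33857898145) (nat_lit 26) (nat_lit 5) (nat_lit 29) (nat_lit 5) (nat_lit 27) (nat_lit 5) (nat_lit 293) (nat_lit 269) (nat_lit 158))) (XT.nd (nat_lit 78) (nat_lit 304) (nat_lit 0) (XT.lf (nat_lit 0) (nat_lit 36642400282) (nat_lit 228) (nat_lit 134734269) (nat_lit 76) (nat_lit 88185464889) (nat_lit 26) (nat_lit 5) (nat_lit 29) (nat_lit 5) (nat_lit 27) (nat_lit 5) (nat_lit 294) (nat_lit 269) (nat_lit 157)) (XT.nd (nat_lit 78) (nat_lit 152) (nat_lit 0) (XT.lf (nat_lit 0) (nat_lit 68988932449) (nat_lit 228) (nat_lit 47746407469) (nat_lit 76) (nat_lit 15461055001)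 (nat_lit 24) (nat_lit 5) (nat_lit 27) (nat_lit 5) (nat_lit 25) (nat_lit 5) (nat_lit 295) (nat_lit 269) (nat_lit 156)) (XT.lf (nat_lit 0) (nat_lit 36338190013) (nat_lit 152) (nat_lit 68773439568) (nat_lit 228) (nat_lit 34837844632) (nat_lit 22) (nat_lit 5) (nat_lit 24) (nat_lit 5) (nat_lit 25) (nat_lit 5) (nat_lit 296) (nat_lit 269) (nat_lit 155))))) (XT.nd (nat_lit 156) (nat_lit 228) (nat_lit 0) (XT.nd (nat_lit 78) (nat_lit 152) (nat_lit 0) (XT.lf (nat_lit 0) (nat_lit 128852447855) (nat_lit 152) (nat_lit 16102064201) (nat_lit 228) (nat_lit 3326771441) (nat_lit 22) (nat_lit 5) (nat_lit 24) (nat_lit 5) (nat_lit 25) (nat_lit 5) (nat_lit 297) (nat_lit 269) (nat_lit 154)) (XT.lf (nat_lit 0) (nat_lit 31529795676) (nat_lit 152) (nat_lit 84507211519) (nat_lit 76) (nat_lit 41128294210) (nat_lit 20) (nat_lit 5) (nat_lit 22) (nat_lit 5) (nat_lit 21) (nat_lit 5) (nat_lit 298) (nat_lit 269) (nat_lit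 153))) (XT.nd (nat_lit 78) (nat_lit 76) (nat_lit 0) (XT.lf (nat_lit 0) (nat_lit 5916905400) (nat_lit 152) (nat_lit 63849650448) (nat_lit 228) (nat_lit 96955348693) (nat_lit 18) (nat_lit 5) (nat_lit 20) (nat_lit 5) (nat_lit 21) (nat_lit 5) (nat_lit 299) (nat_lit 269) (nat_lit 152)) (XT.nd (nat_lit 78) (nat_lit 76) (nat_lit 0) (XT.lf (nat_lit 0) (nat_lit 106590795651) (nat_lit 152) (nat_lit 5942370426) (nat_lit 228) (nat_lit 64436325998) (nat_lit 18) (nat_lit 5) (nat_lit 20) (nat_lit 5) (nat_lit 21) (nat_lit 5) (nat_lit 300) (nat_lit 269) (nat_lit 151)) (XT.lf (nat_lit 0) (nat_lit 27269059032) (nat_lit 76) (nat_lit 132760360905) (nat_lit 152) (nat_lit 27942052420) (nat_lit 17) (nat_lit 5) (nat_lit 18) (nat_lit 5) (nat_lit 19) (nat_lit 4) (nat_lit 301) (nat_lit 269) (nat_lit 150))))))) (XT.nd (nat_lit 780) (nat_lit 304) (nat_lit 0) (XT.nd (nat_lit 390) (nat_lit 228) (nat_lit 0) (XT.nd (nat_lit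 156) (nat_lit 76) (nat_lit 0) (XT.nd (nat_lit 78) (nat_lit 152) (nat_lit 0) (XT.lf (nat_lit 0) (nat_lit 12449801159) (nat_lit 152) (nat_lit 64851625517) (nat_lit 76) (nat_lit 122475970070) (nat_lit 16) (nat_lit 5) (nat_lit 18) (nat_lit 5) (nat_lit 17) (nat_lit 5) (nat_lit 302) (nat_lit 269) (nat_lit 149)) (XT.lf (nat_lit 0) (nat_lit 39457337348) (nat_lit 152) (nat_lit 16264874596) (nat_lit 228) (nat_lit 156751272921) (nat_lit 14) (nat_lit 5) (nat_lit 16) (nat_lit 5) (nat_lit 17) (nat_lit 5) (nat_lit 303) (nat_lit 269) (nat_lit 148))) (XT.nd (nat_lit 78) (nat_lit 76) (nat_lit 0) (XT.lf (nat_lit 0) (nat_lit 104378928450) (nat_lit 228) (nat_lit 72497277363) (nat_lit 76) (nat_lit 49212929701) (nat_lit 14) (nat_lit 5) (nat_lit 17) (nat_lit 5) (nat_lit 15) (nat_lit 4) (nat_lit 304) (nat_lit 269) (nat_lit 147)) (XT.nd (nat_lit 78) (nat_lit 0) (nat_lit 0) (XT.lf (nat_lit 0) (nat_lit 36970674421)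 (nat_lit 76) (nat_lit 120808120537) (nat_lit 152) (nat_lit 82972713665) (nat_lit 13) (nat_lit 5) (nat_lit 14) (nat_lit 5) (nat_lit 15) (nat_lit 4) (nat_lit 305) (nat_lit 269) (nat_lit 146)) (XT.lf (nat_lit 0) (nat_lit 157783515450) (nat_lit 76) (nat_lit 58929174209) (nat_lit 152) (nat_lit 39811080943) (nat_lit 13) (nat_lit 5) (nat_lit 14) (nat_lit 5) (nat_lit 15) (nat_lit 4) (nat_lit 306) (nat_lit 269) (nat_lit 145))))) (XT.nd (nat_lit 156) (nat_lit 76) (nat_lit 0) (XT.nd (nat_lit 78) (nat_lit 0) (nat_lit 0) (XT.lf (nat_lit 0) (nat_lit 6949313085) (nat_lit 152) (nat_lit 258591069838) (nat_lit 76) (nat_lit 7993941164) (nat_lit 11) (nat_lit 5) (nat_lit 13) (nat_lit 5) (nat_lit 12) (nat_lit 4) (nat_lit 307) (nat_lit 269) (nat_lit 144)) (XT.lf (nat_lit 0) (nat_lit 58815500042) (nat_lit 152) (nat_lit 152266728196) (nat_lit 76) (nat_lit 80652874979) (nat_lit 11) (nat_lit 5) (nat_lit 13) (nat_lit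 5) (nat_lit 12) (nat_lit 4) (nat_lit 308) (nat_lit 269) (nat_lit 143))) (XT.nd (nat_lit 78) (nat_lit 76) (nat_lit 0) (XT.lf (nat_lit 0) (nat_lit 114830296057) (nat_lit 152) (nat_lit 37437638605) (nat_lit 76) (nat_lit 159124045040) (nat_lit 11) (nat_lit 5) (nat_lit 13) (nat_lit 5) (nat_lit 12) (nat_lit 4) (nat_lit 309) (nat_lit 269) (nat_lit 142)) (XT.nd (nat_lit 78) (nat_lit 0) (nat_lit 0) (XT.lf (nat_lit 0) (nat_lit 89439283237) (nat_lit 76) (nat_lit 87282755290) (nat_lit 152) (nat_lit 155829580314) (nat_lit 10) (nat_lit 5) (nat_lit 11) (nat_lit 5) (nat_lit 12) (nat_lit 4) (nat_lit 310) (nat_lit 269) (nat_lit 141)) (XT.lf (nat_lit 0) (nat_lit 227802182550) (nat_lit 76) (nat_lit 16414472725) (nat_lit 152) (nat_lit 111154797719) (nat_lit 10) (nat_lit 5) (nat_lit 11) (nat_lit 5) (nat_lit 12) (nat_lit 4) (nat_lit 311) (nat_lit 269) (nat_lit 140)))))) (XT.nd (nat_lit 390) (nat_lit 76) (nat_lit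 0) (XT.nd (nat_lit 156) (nat_lit 152) (nat_lit 0) (XT.nd (nat_lit 78) (nat_lit 76) (nat_lit 0) (XT.lf (nat_lit 0) (nat_lit 318048967680) (nat_lit 152) (nat_lit 3722458394) (nat_lit 0) (nat_lit 58198542067) (nat_lit 10) (nat_lit 5) (nat_lit 12) (nat_lit 4) (nat_lit 10) (nat_lit 4) (nat_lit 312) (nat_lit 269) (nat_lit 139)) (XT.lf (nat_lit 0) (nat_lit 134044655673) (nat_lit 76) (nat_lit 266112275634) (nat_lit 76) (nat_lit 6260980417) (nat_lit 9) (nat_lit 4) (nat_lit 10) (nat_lit 5) (nat_lit 10) (nat_lit 4) (nat_lit 313) (nat_lit 269) (nat_lit 138))) (XT.nd (nat_lit 78) (nat_lit 76) (nat_lit 0) (XT.lf (nat_lit 0) (nat_lit 52193643596) (nat_lit 152) (nat_lit 152855131031) (nat_lit 76) (nat_lit 229887607852) (nat_lit 8) (nat_lit 5) (nat_lit 10) (nat_lit 5) (nat_lit 9) (nat_lit 4) (nat_lit 314) (nat_lit 269) (nat_lit 137)) (XT.nd (nat_lit 78) (nat_lit 76) (nat_lit 0) (XT.lf (nat_lit 0) (nat_lit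 115107745243) (nat_lit 152) (nat_lit 23881968199) (nat_lit 76) (nat_lit 326741362840) (nat_lit 8) (nat_lit 5) (nat_lit 10) (nat_lit 5) (nat_lit 9) (nat_lit 4) (nat_lit 315) (nat_lit 269) (nat_lit 136)) (XT.lf (nat_lit 0) (nat_lit 119224187885) (nat_lit 76) (nat_lit 65691775116) (nat_lit 152) (nat_lit 313980333595) (nat_lit 7) (nat_lit 5) (nat_lit 8) (nat_lit 5) (nat_lit 9) (nat_lit 4) (nat_lit 316) (nat_lit 269) (nat_lit 135))))) (XT.nd (nat_lit 156) (nat_lit 76) (nat_lit 0) (XT.nd (nat_lit 78) (nat_lit 0) (nat_lit 0) (XT.lf (nat_lit 0) (nat_lit 260941550681) (nat_lit 152) (nat_lit 260280165021) (nat_lit 0) (nat_lit 13461383583) (nat_lit 7) (nat_lit 5) (nat_lit 9) (nat_lit 4) (nat_lit 7) (nat_lit 4) (nat_lit 317) (nat_lit 269) (nat_lit 134)) (XT.lf (nat_lit 0) (nat_lit 344156479617) (nat_lit 152) (nat_lit 132445253342) (nat_lit 0) (nat_lit 96675748865) (nat_lit 7) (nat_lit 5) (nat_lit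 9) (nat_lit 4) (nat_lit 7) (nat_lit 4) (nat_lit 318) (nat_lit 269) (nat_lit 133))) (XT.nd (nat_lit 78) (nat_lit 0) (nat_lit 0) (XT.lf (nat_lit 0) (nat_lit 5801482938) (nat_lit 76) (nat_lit 428317337074) (nat_lit 76) (nat_lit 180836084419) (nat_lit 6) (nat_lit 4) (nat_lit 7) (nat_lit 5) (nat_lit 7) (nat_lit 4) (nat_lit 319) (nat_lit 269) (nat_lit 132)) (XT.nd (nat_lit 33618) (nat_lit 0) (nat_lit 5244) (XT.lf (nat_lit 0) (nat_lit 159836911712) (nat_lit 76) (nat_lit 373748003476) (nat_lit 76) (nat_lit 126266267579) (nat_lit 6) (nat_lit 4) (nat_lit 7) (nat_lit 5) (nat_lit 7) (nat_lit 4) (nat_lit 320) (nat_lit 269) (nat_lit 131)) (XT.lf (nat_lit 0) (nat_lit 5645831990) (nat_lit 0) (nat_lit 5645831990) (nat_lit 684) (nat_lit 9352295977) (nat_lit 75) (nat_lit 5) (nat_lit 75) (nat_lit 3) (nat_lit 84) (nat_lit 3) (nat_lit 270) (nat_lit 270) (nat_lit 180))))))))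
noncomputable def xc102 : XT := (XT.nd (nat_lit 1482) (nat_lit 1976) (nat_lit 0) (XT.nd (nat_lit 702) (nat_lit 2052) (nat_lit 0) (XT.nd (nat_lit 312) (nat_lit 836) (nat_lit 0) (XT.nd (nat_lit 156) (nat_lit 0) (nat_lit 76) (XT.nd (nat_lit 78) (nat_lit 0) (nat_lit 76) (XT.lf (nat_lit 0) (nat_lit 23823476422) (nat_lit 684) (nat_lit 1660611720) (nat_lit 760) (nat_lit 17438344054) (nat_lit 75) (nat_lit 5) (nat_lit 84) (nat_lit 3) (nat_lit 85) (nat_lit 5) (nat_lit 271) (nat_lit 270) (nat_lit 179)) (XT.lf (nat_lit 0) (nat_lit 25872098787) (nat_lit 684) (nat_lit 15017068233) (nat_lit 760) (nat_lit 3763091721) (nat_lit 76) (nat_lit 5) (nat_lit 85) (nat_lit 5) (nat_lit 86) (nat_lit 5) (nat_lit 272) (nat_lit 270) (nat_lit 178))) (XT.nd (nat_lit 78) (nat_lit 0) (nat_lit 76) (XT.lf (nat_lit 76) (nat_lit 17088396846) (nat_lit 0) (nat_lit 11717002509) (nat_lit 760) (nat_lit 17679047803) (nat_lit 77)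 (nat_lit 5) (nat_lit 76) (nat_lit 5) (nat_lit 86) (nat_lit 5) (nat_lit 273) (nat_lit 270) (nat_lit 177)) (XT.lf (nat_lit 76) (nat_lit 3648524966) (nat_lit 0) (nat_lit 28951876497) (nat_lit 760) (nat_lit 15831471357) (nat_lit 78) (nat_lit 5) (nat_lit 77) (nat_lit 5) (nat_lit 87) (nat_lit 5) (nat_lit 274) (nat_lit 270) (nat_lit 176)))) (XT.nd (nat_lit 156) (nat_lit 1064) (nat_lit 0) (XT.nd (nat_lit 78) (nat_lit 0) (nat_lit 0) (XT.lf (nat_lit 0) (nat_lit 37444358954) (nat_lit 684) (nat_lit 10364367346) (nat_lit 760) (nat_lit 2689111477) (nat_lit 78) (nat_lit 5) (nat_lit 87) (nat_lit 5) (nat_lit 88) (nat_lit 5) (nat_lit 275) (nat_lit 270) (nat_lit 175)) (XT.lf (nat_lit 76) (nat_lit 27186830030) (nat_lit 0) (nat_lit 16397533519) (nat_lit 760) (nat_lit 9099301901) (nat_lit 79) (nat_lit 5) (nat_lit 78) (nat_lit 5) (nat_lit 88) (nat_lit 5) (nat_lit 276) (nat_lit 270) (nat_lit 174))) (XT.nd (nat_lit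 78) (nat_lit 456) (nat_lit 0) (XT.lf (nat_lit 0) (nat_lit 13220084236) (nat_lit 684) (nat_lit 37655179443) (nat_lit 760) (nat_lit 4136122047) (nat_lit 70) (nat_lit 5) (nat_lit 79) (nat_lit 5) (nat_lit 80) (nat_lit 5) (nat_lit 277) (nat_lit 270) (nat_lit 173)) (XT.nd (nat_lit 78) (nat_lit 380) (nat_lit 0) (XT.lf (nat_lit 0) (nat_lit 1909164212) (nat_lit 760) (nat_lit 1864488721) (nat_lit 76) (nat_lit 53714513371) (nat_lit 69) (nat_lit 5) (nat_lit 79) (nat_lit 5) (nat_lit 70) (nat_lit 5) (nat_lit 278) (nat_lit 270) (nat_lit 172)) (XT.lf (nat_lit 0) (nat_lit 9480370494) (nat_lit 456) (nat_lit 18105631797) (nat_lit 76) (nat_lit 32514345542) (nat_lit 64) (nat_lit 5) (nat_lit 70) (nat_lit 5) (nat_lit 65) (nat_lit 5) (nat_lit 279) (nat_lit 270) (nat_lit 171)))))) (XT.nd (nat_lit 390) (nat_lit 836) (nat_lit 0) (XT.nd (nat_lit 156) (nat_lit 532) (nat_lit 0) (XT.nd (nat_lit 78) (nat_lit 304) (nat_lit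 0) (XT.lf (nat_lit 0) (nat_lit 18319890159) (nat_lit 456) (nat_lit 35721835222) (nat_lit 76) (nat_lit 8846656089) (nat_lit 59) (nat_lit 5) (nat_lit 65) (nat_lit 5) (nat_lit 60) (nat_lit 5) (nat_lit 280) (nat_lit 270) (nat_lit 170)) (XT.lf (nat_lit 0) (nat_lit 10692106889) (nat_lit 304) (nat_lit 18124100495) (nat_lit 380) (nat_lit 37035776421) (nat_lit 55) (nat_lit 5) (nat_lit 59) (nat_lit 5) (nat_lit 60) (nat_lit 5) (nat_lit 281) (nat_lit 270) (nat_lit 169))) (XT.nd (nat_lit 78) (nat_lit 532) (nat_lit 0) (XT.lf (nat_lit 0) (nat_lit 41104517089) (nat_lit 380) (nat_lit 7262804279) (nat_lit 76) (nat_lit 20637745829) (nat_lit 55) (nat_lit 5) (nat_lit 60) (nat_lit 5) (nat_lit 56) (nat_lit 5) (nat_lit 282) (nat_lit 270) (nat_lit 168)) (XT.nd (nat_lit 78) (nat_lit 228) (nat_lit 0) (XT.lf (nat_lit 0) (nat_lit 45617556443) (nat_lit 304) (nat_lit 9773534552) (nat_lit 380) (nat_lit 16968552987)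 (nat_lit 51) (nat_lit 5) (nat_lit 55) (nat_lit 5) (nat_lit 56) (nat_lit 5) (nat_lit 283) (nat_lit 270) (nat_lit 167)) (XT.lf (nat_lit 0) (nat_lit 27384760057) (nat_lit 228) (nat_lit 44487662318) (nat_lit 304) (nat_lit 4057579152) (nat_lit 48) (nat_lit 5) (nat_lit 51) (nat_lit 5) (nat_lit 52) (nat_lit 5) (nat_lit 284) (nat_lit 270) (nat_lit 166))))) (XT.nd (nat_lit 156) (nat_lit 456) (nat_lit 0) (XT.nd (nat_lit 78) (nat_lit 0) (nat_lit 0) (XT.lf (nat_lit 0) (nat_lit 6926023535) (nat_lit 304) (nat_lit 3387845336) (nat_lit 380) (nat_lit 69427205710) (nat_lit 43) (nat_lit 5) (nat_lit 47) (nat_lit 5) (nat_lit 48) (nat_lit 5) (nat_lit 285) (nat_lit 270) (nat_lit 165)) (XT.lf (nat_lit 0) (nat_lit 27192132876) (nat_lit 380) (nat_lit 15971491839) (nat_lit 76) (nat_lit 40615125042) (nat_lit 43) (nat_lit 5) (nat_lit 48) (nat_lit 5) (nat_lit 44) (nat_lit 5) (nat_lit 286) (nat_lit 270) (nat_lit 164)))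 (XT.nd (nat_lit 78) (nat_lit 228) (nat_lit 0) (XT.lf (nat_lit 0) (nat_lit 46217487273) (nat_lit 304) (nat_lit 41250716600) (nat_lit 76) (nat_lit 631398294) (nat_lit 40) (nat_lit 5) (nat_lit 44) (nat_lit 5) (nat_lit 41) (nat_lit 5) (nat_lit 287) (nat_lit 270) (nat_lit 163)) (XT.nd (nat_lit 78) (nat_lit 0) (nat_lit 0) (XT.lf (nat_lit 0) (nat_lit 22498092234) (nat_lit 228) (nat_lit 45626644894) (nat_lit 304) (nat_lit 24573396625) (nat_lit 37) (nat_lit 5) (nat_lit 40) (nat_lit 5) (nat_lit 41) (nat_lit 5) (nat_lit 288) (nat_lit 270) (nat_lit 162)) (XT.lf (nat_lit 0) (nat_lit 92506187856) (nat_lit 304) (nat_lit 4816309599) (nat_lit 76) (nat_lit 305973382) (nat_lit 37) (nat_lit 5) (nat_lit 41) (nat_lit 5) (nat_lit 38) (nat_lit 5) (nat_lit 289) (nat_lit 270) (nat_lit 161))))))) (XT.nd (nat_lit 702) (nat_lit 836) (nat_lit 0) (XT.nd (nat_lit 312) (nat_lit 532) (nat_lit 0) (XT.nd (nat_lit 156) (nat_lit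 152) (nat_lit 0) (XT.nd (nat_lit 78) (nat_lit 228) (nat_lit 0) (XT.lf (nat_lit 0) (nat_lit 17222692368) (nat_lit 228) (nat_lit 35963773325) (nat_lit 76) (nat_lit 49662062868) (nat_lit 34) (nat_lit 5) (nat_lit 37) (nat_lit 5) (nat_lit 35) (nat_lit 5) (nat_lit 290) (nat_lit 270) (nat_lit 160)) (XT.lf (nat_lit 0) (nat_lit 37109526271) (nat_lit 228) (nat_lit 4731652448) (nat_lit 304) (nat_lit 66607548231) (nat_lit 31) (nat_lit 5) (nat_lit 34) (nat_lit 5) (nat_lit 35) (nat_lit 5) (nat_lit 291) (nat_lit 270) (nat_lit 159))) (XT.nd (nat_lit 78) (nat_lit 0) (nat_lit 0) (XT.lf (nat_lit 0) (nat_lit 2160719306) (nat_lit 152) (nat_lit 67680454022) (nat_lit 228) (nat_lit 44585169449) (nat_lit 29) (nat_lit 5) (nat_lit 31) (nat_lit 5) (nat_lit 32) (nat_lit 5) (nat_lit 292) (nat_lit 270) (nat_lit 158)) (XT.lf (nat_lit 0) (nat_lit 84003480108) (nat_lit 152) (nat_lit 17397348164) (nat_lit 228) (nat_lit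 19415359372) (nat_lit 29) (nat_lit 5) (nat_lit 31) (nat_lit 5) (nat_lit 32) (nat_lit 5) (nat_lit 293) (nat_lit 270) (nat_lit 157)))) (XT.nd (nat_lit 156) (nat_lit 304) (nat_lit 0) (XT.nd (nat_lit 78) (nat_lit 0) (nat_lit 0) (XT.lf (nat_lit 0) (nat_lit 8826576305) (nat_lit 228) (nat_lit 82239130953) (nat_lit 76) (nat_lit 36580092960) (nat_lit 26) (nat_lit 5) (nat_lit 29) (nat_lit 5) (nat_lit 27) (nat_lit 5) (nat_lit 294) (nat_lit 270) (nat_lit 156)) (XT.lf (nat_lit 0) (nat_lit 39600489684) (nat_lit 228) (nat_lit 104877677) (nat_lit 76) (nat_lit 95252860380) (nat_lit 26) (nat_lit 5) (nat_lit 29) (nat_lit 5) (nat_lit 27) (nat_lit 5) (nat_lit 295) (nat_lit 270) (nat_lit 155))) (XT.nd (nat_lit 78) (nat_lit 152) (nat_lit 0) (XT.lf (nat_lit 0) (nat_lit 74533585140) (nat_lit 228) (nat_lit 51526154335) (nat_lit 76) (nat_lit 16711048665) (nat_lit 24) (nat_lit 5) (nat_lit 27) (nat_lit 5) (nat_lit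 25) (nat_lit 5) (nat_lit 296) (nat_lit 270) (nat_lit 154)) (XT.nd (nat_lit 78) (nat_lit 0) (nat_lit 0) (XT.lf (nat_lit 0) (nat_lit 39283474083) (nat_lit 152) (nat_lit 74261329108) (nat_lit 228) (nat_lit 37599378401) (nat_lit 22) (nat_lit 5) (nat_lit 24) (nat_lit 5) (nat_lit 25) (nat_lit 5) (nat_lit 297) (nat_lit 270) (nat_lit 153)) (XT.lf (nat_lit 0) (nat_lit 139196040784) (nat_lit 152) (nat_lit 17377279684) (nat_lit 228) (nat_lit 3569307784) (nat_lit 22) (nat_lit 5) (nat_lit 24) (nat_lit 5) (nat_lit 25) (nat_lit 5) (nat_lit 298) (nat_lit 270) (nat_lit 152)))))) (XT.nd (nat_lit 390) (nat_lit 380) (nat_lit 0) (XT.nd (nat_lit 156) (nat_lit 152) (nat_lit 0) (XT.nd (nat_lit 78) (nat_lit 152) (nat_lit 0) (XT.lf (nat_lit 0) (nat_lit 34074078678) (nat_lit 152) (nat_lit 91232260004) (nat_lit 76) (nat_lit 44431060517) (nat_lit 20) (nat_lit 5) (nat_lit 22) (nat_lit 5) (nat_lit 21) (nat_lit 5) (nat_lit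 299) (nat_lit 270) (nat_lit 151)) (XT.lf (nat_lit 0) (nat_lit 6424242246) (nat_lit 152) (nat_lit 68944445836) (nat_lit 228) (nat_lit 104689899406) (nat_lit 18) (nat_lit 5) (nat_lit 20) (nat_lit 5) (nat_lit 21) (nat_lit 5) (nat_lit 300) (nat_lit 270) (nat_lit 150))) (XT.nd (nat_lit 78) (nat_lit 152) (nat_lit 0) (XT.lf (nat_lit 0) (nat_lit 115149526353) (nat_lit 152) (nat_lit 6405559460) (nat_lit 228) (nat_lit 69570975427) (nat_lit 18) (nat_lit 5) (nat_lit 20) (nat_lit 5) (nat_lit 21) (nat_lit 5) (nat_lit 301) (nat_lit 270) (nat_lit 149)) (XT.nd (nat_lit 78) (nat_lit 76) (nat_lit 0) (XT.lf (nat_lit 0) (nat_lit 29481448245) (nat_lit 76) (nat_lit 143368822849) (nat_lit 152) (nat_lit 30157969286) (nat_lit 17) (nat_lit 5) (nat_lit 18) (nat_lit 5) (nat_lit 19) (nat_lit 4) (nat_lit 302) (nat_lit 270) (nat_lit 148)) (XT.lf (nat_lit 0) (nat_lit 13463215708) (nat_lit 152) (nat_lit 70010579050) (nat_lit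 76) (nat_lit 132284900260) (nat_lit 16) (nat_lit 5) (nat_lit 18) (nat_lit 5) (nat_lit 17) (nat_lit 5) (nat_lit 303) (nat_lit 270) (nat_lit 147))))) (XT.nd (nat_lit 156) (nat_lit 228) (nat_lit 0) (XT.nd (nat_lit 78) (nat_lit 0) (nat_lit 0) (XT.lf (nat_lit 0) (nat_lit 42641832868) (nat_lit 152) (nat_lit 17554731072) (nat_lit 228) (nat_lit 169273950640) (nat_lit 14) (nat_lit 5) (nat_lit 16) (nat_lit 5) (nat_lit 17) (nat_lit 5) (nat_lit 304) (nat_lit 270) (nat_lit 146)) (XT.lf (nat_lit 0) (nat_lit 112744753827) (nat_lit 228) (nat_lit 78270595980) (nat_lit 76) (nat_lit 53160122178) (nat_lit 14) (nat_lit 5) (nat_lit 17) (nat_lit 5) (nat_lit 15) (nat_lit 4) (nat_lit 305) (nat_lit 270) (nat_lit 145))) (XT.nd (nat_lit 78) (nat_lit 152) (nat_lit 0) (XT.lf (nat_lit 0) (nat_lit 39953641872) (nat_lit 76) (nat_lit 130462214027) (nat_lit 152) (nat_lit 89595018125) (nat_lit 13) (nat_lit 5) (nat_lit 14)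 (nat_lit 5) (nat_lit 15) (nat_lit 4) (nat_lit 306) (nat_lit 270) (nat_lit 144)) (XT.nd (nat_lit 78) (nat_lit 152) (nat_lit 0) (XT.lf (nat_lit 0) (nat_lit 170429635109) (nat_lit 76) (nat_lit 63633733930) (nat_lit 152) (nat_lit 42981603869) (nat_lit 13) (nat_lit 5) (nat_lit 14) (nat_lit 5) (nat_lit 15) (nat_lit 4) (nat_lit 307) (nat_lit 270) (nat_lit 143)) (XT.lf (nat_lit 0) (nat_lit 7518639734) (nat_lit 152) (nat_lit 279254955948) (nat_lit 76) (nat_lit 8642791027) (nat_lit 11) (nat_lit 5) (nat_lit 13) (nat_lit 5) (nat_lit 12) (nat_lit 4) (nat_lit 308) (nat_lit 270) (nat_lit 142))))))))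
noncomputable def xc103 : XT := (XT.nd (nat_lit 35100) (nat_lit 0) (nat_lit 1368) (XT.nd (nat_lit 702) (nat_lit 76) (nat_lit 0) (XT.nd (nat_lit 312) (nat_lit 228) (nat_lit 0) (XT.nd (nat_lit 156) (nat_lit 76) (nat_lit 0) (XT.nd (nat_lit 78) (nat_lit 0) (nat_lit 0) (XT.lf (nat_lit 0) (nat_lit 63533130417) (nat_lit 152) (nat_lit 164426400269) (nat_lit 76) (nat_lit 87113748098) (nat_lit 11) (nat_lit 5) (nat_lit 13) (nat_lit 5) (nat_lit 12) (nat_lit 4) (nat_lit 309) (nat_lit 270) (nat_lit 141)) (XT.lf (nat_lit 0) (nat_lit 124028192308) (nat_lit 152) (nat_lit 40412588412) (nat_lit 76) (nat_lit 171861971533) (nat_lit 11) (nat_lit 5) (nat_lit 13) (nat_lit 5) (nat_lit 12) (nat_lit 4) (nat_lit 310) (nat_lit 270) (nat_lit 140))) (XT.nd (nat_lit 78) (nat_lit 0) (nat_lit 0) (XT.lf (nat_lit 0) (nat_lit 96613615338) (nat_lit 76) (nat_lit 94257108619) (nat_lit 152) (nat_lit 168284466982) (nat_lit 10)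 (nat_lit 5) (nat_lit 11) (nat_lit 5) (nat_lit 12) (nat_lit 4) (nat_lit 311) (nat_lit 270) (nat_lit 139)) (XT.lf (nat_lit 0) (nat_lit 246044125155) (nat_lit 76) (nat_lit 17719975827) (nat_lit 152) (nat_lit 120036552131) (nat_lit 10) (nat_lit 5) (nat_lit 11) (nat_lit 5) (nat_lit 12) (nat_lit 4) (nat_lit 312) (nat_lit 270) (nat_lit 138)))) (XT.nd (nat_lit 156) (nat_lit 152) (nat_lit 0) (XT.nd (nat_lit 78) (nat_lit 76) (nat_lit 0) (XT.lf (nat_lit 0) (nat_lit 343502359907) (nat_lit 152) (nat_lit 4003435982) (nat_lit 0) (nat_lit 62861286281) (nat_lit 10) (nat_lit 5) (nat_lit 12) (nat_lit 4) (nat_lit 10) (nat_lit 4) (nat_lit 313) (nat_lit 270) (nat_lit 137)) (XT.lf (nat_lit 0) (nat_lit 144784316273) (nat_lit 76) (nat_lit 287394193693) (nat_lit 76) (nat_lit 6752374523) (nat_lit 9) (nat_lit 4) (nat_lit 10) (nat_lit 5) (nat_lit 10) (nat_lit 4) (nat_lit 314) (nat_lit 270) (nat_lit 136))) (XT.nd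 (nat_lit 78) (nat_lit 76) (nat_lit 0) (XT.lf (nat_lit 0) (nat_lit 56377635796) (nat_lit 152) (nat_lit 165068356105) (nat_lit 76) (nat_lit 248284868236) (nat_lit 8) (nat_lit 5) (nat_lit 10) (nat_lit 5) (nat_lit 9) (nat_lit 4) (nat_lit 315) (nat_lit 270) (nat_lit 135)) (XT.nd (nat_lit 78) (nat_lit 76) (nat_lit 0) (XT.lf (nat_lit 0) (nat_lit 124324235893) (nat_lit 152) (nat_lit 25778465091) (nat_lit 76) (nat_lit 352886460530) (nat_lit 8) (nat_lit 5) (nat_lit 10) (nat_lit 5) (nat_lit 9) (nat_lit 4) (nat_lit 316) (nat_lit 270) (nat_lit 134)) (XT.lf (nat_lit 0) (nat_lit 128775572425) (nat_lit 76) (nat_lit 70941165591) (nat_lit 152) (nat_lit 339090880631) (nat_lit 7) (nat_lit 5) (nat_lit 8) (nat_lit 5) (nat_lit 9) (nat_lit 4) (nat_lit 317) (nat_lit 270) (nat_lit 133)))))) (XT.nd (nat_lit 34008) (nat_lit 0) (nat_lit 5320) (XT.nd (nat_lit 156) (nat_lit 76) (nat_lit 0) (XT.nd (nat_lit 78) (nat_lit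 0) (nat_lit 0) (XT.lf (nat_lit 0) (nat_lit 281823903342) (nat_lit 152) (nat_lit 281089857607) (nat_lit 0) (nat_lit 14543628573) (nat_lit 7) (nat_lit 5) (nat_lit 9) (nat_lit 4) (nat_lit 7) (nat_lit 4) (nat_lit 318) (nat_lit 270) (nat_lit 132)) (XT.lf (nat_lit 0) (nat_lit 371695505956) (nat_lit 152) (nat_lit 143029095261) (nat_lit 0) (nat_lit 104414747944) (nat_lit 7) (nat_lit 5) (nat_lit 9) (nat_lit 4) (nat_lit 7) (nat_lit 4) (nat_lit 319) (nat_lit 270) (nat_lit 131))) (XT.nd (nat_lit 33696) (nat_lit 0) (nat_lit 5244) (XT.lf (nat_lit 0) (nat_lit 6276868048) (nat_lit 76) (nat_lit 462577659364) (nat_lit 76) (nat_lit 195296453904) (nat_lit 6) (nat_lit 4) (nat_lit 7) (nat_lit 5) (nat_lit 7) (nat_lit 4) (nat_lit 320) (nat_lit 270) (nat_lit 130)) (XT.nd (nat_lit 78) (nat_lit 0) (nat_lit 0) (XT.lf (nat_lit 0) (nat_lit 6124606403) (nat_lit 0) (nat_lit 6124606403) (nat_lit 684) (nat_lit 10043393351)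 (nat_lit 75) (nat_lit 5) (nat_lit 75) (nat_lit 3) (nat_lit 84) (nat_lit 3) (nat_lit 271) (nat_lit 271) (nat_lit 178)) (XT.lf (nat_lit 0) (nat_lit 25828970236) (nat_lit 684) (nat_lit 1737161252) (nat_lit 760) (nat_lit 18784818553) (nat_lit 75) (nat_lit 5) (nat_lit 84) (nat_lit 3) (nat_lit 85) (nat_lit 5) (nat_lit 272) (nat_lit 271) (nat_lit 177))))) (XT.nd (nat_lit 156) (nat_lit 0) (nat_lit 76) (XT.nd (nat_lit 78) (nat_lit 0) (nat_lit 0) (XT.lf (nat_lit 0) (nat_lit 28034331831) (nat_lit 684) (nat_lit 16159040679) (nat_lit 760) (nat_lit 4026169650) (nat_lit 76) (nat_lit 5) (nat_lit 85) (nat_lit 5) (nat_lit 86) (nat_lit 5) (nat_lit 273) (nat_lit 271) (nat_lit 176)) (XT.lf (nat_lit 76) (nat_lit 18512280458) (nat_lit 0) (nat_lit 12684053709) (nat_lit 760) (nat_lit 19002289895) (nat_lit 77) (nat_lit 5) (nat_lit 76) (nat_lit 5) (nat_lit 86) (nat_lit 5) (nat_lit 274) (nat_lit 271) (nat_lit 175)))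 (XT.nd (nat_lit 78) (nat_lit 0) (nat_lit 76) (XT.lf (nat_lit 76) (nat_lit 3999573143) (nat_lit 0) (nat_lit 31289450208) (nat_lit 760) (nat_lit 17013134874) (nat_lit 78) (nat_lit 5) (nat_lit 77) (nat_lit 5) (nat_lit 87) (nat_lit 5) (nat_lit 275) (nat_lit 271) (nat_lit 174)) (XT.nd (nat_lit 78) (nat_lit 0) (nat_lit 0) (XT.lf (nat_lit 0) (nat_lit 40514218124) (nat_lit 684) (nat_lit 11134474992) (nat_lit 760) (nat_lit 2885038633) (nat_lit 78) (nat_lit 5) (nat_lit 87) (nat_lit 5) (nat_lit 88) (nat_lit 5) (nat_lit 276) (nat_lit 271) (nat_lit 173)) (XT.lf (nat_lit 76) (nat_lit 29418252293) (nat_lit 0) (nat_lit 17722548062) (nat_lit 760) (nat_lit 9753872530) (nat_lit 79) (nat_lit 5) (nat_lit 78) (nat_lit 5) (nat_lit 88) (nat_lit 5) (nat_lit 277) (nat_lit 271) (nat_lit 172))))))) (XT.nd (nat_lit 780) (nat_lit 1444) (nat_lit 0) (XT.nd (nat_lit 390) (nat_lit 912) (nat_lit 0) (XT.nd (nat_lit 156)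 (nat_lit 1064) (nat_lit 0) (XT.nd (nat_lit 78) (nat_lit 76) (nat_lit 0) (XT.lf (nat_lit 0) (nat_lit 14335435394) (nat_lit 684) (nat_lit 40675085606) (nat_lit 760) (nat_lit 4398327278) (nat_lit 70) (nat_lit 5) (nat_lit 79) (nat_lit 5) (nat_lit 80) (nat_lit 5) (nat_lit 278) (nat_lit 271) (nat_lit 171)) (XT.lf (nat_lit 0) (nat_lit 2123458644) (nat_lit 760) (nat_lit 1957980812) (nat_lit 76) (nat_lit 58002537629) (nat_lit 69) (nat_lit 5) (nat_lit 79) (nat_lit 5) (nat_lit 70) (nat_lit 5) (nat_lit 279) (nat_lit 271) (nat_lit 170))) (XT.nd (nat_lit 78) (nat_lit 684) (nat_lit 0) (XT.lf (nat_lit 0) (nat_lit 10296561099) (nat_lit 456) (nat_lit 19497719070) (nat_lit 76) (nat_lit 35111055166) (nat_lit 64) (nat_lit 5) (nat_lit 70) (nat_lit 5) (nat_lit 65) (nat_lit 5) (nat_lit 280) (nat_lit 271) (nat_lit 169)) (XT.nd (nat_lit 78) (nat_lit 304) (nat_lit 0) (XT.lf (nat_lit 0) (nat_lit 19839799087) (nat_lit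 456) (nat_lit 38522804639) (nat_lit 76) (nat_lit 9553991380) (nat_lit 59) (nat_lit 5) (nat_lit 65) (nat_lit 5) (nat_lit 60) (nat_lit 5) (nat_lit 281) (nat_lit 271) (nat_lit 168)) (XT.lf (nat_lit 0) (nat_lit 11601785364) (nat_lit 304) (nat_lit 19570860721) (nat_lit 380) (nat_lit 39944808766) (nat_lit 55) (nat_lit 5) (nat_lit 59) (nat_lit 5) (nat_lit 60) (nat_lit 5) (nat_lit 282) (nat_lit 271) (nat_lit 167))))) (XT.nd (nat_lit 156) (nat_lit 608) (nat_lit 0) (XT.nd (nat_lit 78) (nat_lit 304) (nat_lit 0) (XT.lf (nat_lit 0) (nat_lit 44440278056) (nat_lit 380) (nat_lit 7791098878) (nat_lit 76) (nat_lit 22291604777) (nat_lit 55) (nat_lit 5) (nat_lit 60) (nat_lit 5) (nat_lit 56) (nat_lit 5) (nat_lit 283) (nat_lit 271) (nat_lit 166)) (XT.lf (nat_lit 0) (nat_lit 49317399131) (nat_lit 304) (nat_lit 10549655143) (nat_lit 380) (nat_lit 18279015498) (nat_lit 51) (nat_lit 5) (nat_lit 55) (nat_lit 5)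 (nat_lit 56) (nat_lit 5) (nat_lit 284) (nat_lit 271) (nat_lit 165))) (XT.nd (nat_lit 78) (nat_lit 380) (nat_lit 0) (XT.lf (nat_lit 0) (nat_lit 29625944785) (nat_lit 228) (nat_lit 48038508294) (nat_lit 304) (nat_lit 4337733088) (nat_lit 48) (nat_lit 5) (nat_lit 51) (nat_lit 5) (nat_lit 52) (nat_lit 5) (nat_lit 285) (nat_lit 271) (nat_lit 164)) (XT.nd (nat_lit 78) (nat_lit 0) (nat_lit 0) (XT.lf (nat_lit 0) (nat_lit 7529774182) (nat_lit 304) (nat_lit 3649821927) (nat_lit 380) (nat_lit 74938642161) (nat_lit 43) (nat_lit 5) (nat_lit 47) (nat_lit 5) (nat_lit 48) (nat_lit 5) (nat_lit 286) (nat_lit 271) (nat_lit 163)) (XT.lf (nat_lit 0) (nat_lit 29405243358) (nat_lit 380) (nat_lit 17201387363) (nat_lit 76) (nat_lit 43872447403) (nat_lit 43) (nat_lit 5) (nat_lit 48) (nat_lit 5) (nat_lit 44) (nat_lit 5) (nat_lit 287) (nat_lit 271) (nat_lit 162)))))) (XT.nd (nat_lit 390) (nat_lit 532) (nat_lit 0)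 (XT.nd (nat_lit 156) (nat_lit 456) (nat_lit 0) (XT.nd (nat_lit 78) (nat_lit 228) (nat_lit 0) (XT.lf (nat_lit 0) (nat_lit 49950702263) (nat_lit 304) (nat_lit 44503324676) (nat_lit 76) (nat_lit 691674249) (nat_lit 40) (nat_lit 5) (nat_lit 44) (nat_lit 5) (nat_lit 41) (nat_lit 5) (nat_lit 288) (nat_lit 271) (nat_lit 161)) (XT.lf (nat_lit 0) (nat_lit 24343326777) (nat_lit 228) (nat_lit 49265260912) (nat_lit 304) (nat_lit 26503630636) (nat_lit 37) (nat_lit 5) (nat_lit 40) (nat_lit 5) (nat_lit 41) (nat_lit 5) (nat_lit 289) (nat_lit 271) (nat_lit 160))) (XT.nd (nat_lit 78) (nat_lit 456) (nat_lit 0) (XT.lf (nat_lit 0) (nat_lit 99938211942) (nat_lit 304) (nat_lit 5158120383) (nat_lit 76) (nat_lit 340772552) (nat_lit 37) (nat_lit 5) (nat_lit 41) (nat_lit 5) (nat_lit 38) (nat_lit 5) (nat_lit 290) (nat_lit 271) (nat_lit 159)) (XT.nd (nat_lit 78) (nat_lit 228) (nat_lit 0) (XT.lf (nat_lit 0) (nat_lit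 18630900321) (nat_lit 228) (nat_lit 38798207250) (nat_lit 76) (nat_lit 53645724411) (nat_lit 34) (nat_lit 5) (nat_lit 37) (nat_lit 5) (nat_lit 35) (nat_lit 5) (nat_lit 291) (nat_lit 271) (nat_lit 158)) (XT.lf (nat_lit 0) (nat_lit 40119102017) (nat_lit 228) (nat_lit 5098149477) (nat_lit 304) (nat_lit 71905879839) (nat_lit 31) (nat_lit 5) (nat_lit 34) (nat_lit 5) (nat_lit 35) (nat_lit 5) (nat_lit 292) (nat_lit 271) (nat_lit 157))))) (XT.nd (nat_lit 156) (nat_lit 380) (nat_lit 0) (XT.nd (nat_lit 78) (nat_lit 0) (nat_lit 0) (XT.lf (nat_lit 0) (nat_lit 2373865902) (nat_lit 152) (nat_lit 73082051040) (nat_lit 228) (nat_lit 48123109985) (nat_lit 29) (nat_lit 5) (nat_lit 31) (nat_lit 5) (nat_lit 32) (nat_lit 5) (nat_lit 293) (nat_lit 271) (nat_lit 156)) (XT.lf (nat_lit 0) (nat_lit 90761063194) (nat_lit 152) (nat_lit 18777247772) (nat_lit 228) (nat_lit 20941853844) (nat_lit 29) (nat_lit 5) (nat_lit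 31) (nat_lit 5) (nat_lit 32) (nat_lit 5) (nat_lit 294) (nat_lit 271) (nat_lit 155))) (XT.nd (nat_lit 78) (nat_lit 152) (nat_lit 0) (XT.lf (nat_lit 0) (nat_lit 9557422205) (nat_lit 228) (nat_lit 88780636121) (nat_lit 76) (nat_lit 39518128453) (nat_lit 26) (nat_lit 5) (nat_lit 29) (nat_lit 5) (nat_lit 27) (nat_lit 5) (nat_lit 295) (nat_lit 271) (nat_lit 154)) (XT.nd (nat_lit 78) (nat_lit 152) (nat_lit 0) (XT.lf (nat_lit 0) (nat_lit 42791417558) (nat_lit 228) (nat_lit 78429643) (nat_lit 76) (nat_lit 102883855928) (nat_lit 26) (nat_lit 5) (nat_lit 29) (nat_lit 5) (nat_lit 27) (nat_lit 5) (nat_lit 296) (nat_lit 271) (nat_lit 153)) (XT.lf (nat_lit 0) (nat_lit 80518166751) (nat_lit 228) (nat_lit 55613982509) (nat_lit 76) (nat_lit 18059171639) (nat_lit 24) (nat_lit 5) (nat_lit 27) (nat_lit 5) (nat_lit 25) (nat_lit 5) (nat_lit 297) (nat_lit 271) (nat_lit 152))))))))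
noncomputable def xc104 : XT := (XT.nd (nat_lit 1482) (nat_lit 76) (nat_lit 0) (XT.nd (nat_lit 702) (nat_lit 456) (nat_lit 0) (XT.nd (nat_lit 312) (nat_lit 304) (nat_lit 0) (XT.nd (nat_lit 156) (nat_lit 304) (nat_lit 0) (XT.nd (nat_lit 78) (nat_lit 0) (nat_lit 0) (XT.lf (nat_lit 0) (nat_lit 42458927103) (nat_lit 152) (nat_lit 80190245017) (nat_lit 228) (nat_lit 40585471846) (nat_lit 22) (nat_lit 5) (nat_lit 24) (nat_lit 5) (nat_lit 25) (nat_lit 5) (nat_lit 298) (nat_lit 271) (nat_lit 151)) (XT.lf (nat_lit 0) (nat_lit 150362071356) (nat_lit 152) (nat_lit 18756359819) (nat_lit 228) (nat_lit 3834614604) (nat_lit 22) (nat_lit 5) (nat_lit 24) (nat_lit 5) (nat_lit 25) (nat_lit 5) (nat_lit 299) (nat_lit 271) (nat_lit 150))) (XT.nd (nat_lit 78) (nat_lit 152) (nat_lit 0) (XT.lf (nat_lit 0) (nat_lit 36818780134) (nat_lit 152) (nat_lit 98500380896) (nat_lit 76) (nat_lit 47996264469) (nat_lit 20)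 (nat_lit 5) (nat_lit 22) (nat_lit 5) (nat_lit 21) (nat_lit 5) (nat_lit 300) (nat_lit 271) (nat_lit 149)) (XT.lf (nat_lit 0) (nat_lit 6967317784) (nat_lit 152) (nat_lit 74448704651) (nat_lit 228) (nat_lit 113046335200) (nat_lit 18) (nat_lit 5) (nat_lit 20) (nat_lit 5) (nat_lit 21) (nat_lit 5) (nat_lit 301) (nat_lit 271) (nat_lit 148)))) (XT.nd (nat_lit 156) (nat_lit 228) (nat_lit 0) (XT.nd (nat_lit 78) (nat_lit 76) (nat_lit 0) (XT.lf (nat_lit 0) (nat_lit 124388466385) (nat_lit 152) (nat_lit 6907544169) (nat_lit 228) (nat_lit 75119286648) (nat_lit 18) (nat_lit 5) (nat_lit 20) (nat_lit 5) (nat_lit 21) (nat_lit 5) (nat_lit 302) (nat_lit 271) (nat_lit 147)) (XT.lf (nat_lit 0) (nat_lit 31866425431) (nat_lit 76) (nat_lit 154827726030) (nat_lit 152) (nat_lit 32553933880) (nat_lit 17) (nat_lit 5) (nat_lit 18) (nat_lit 5) (nat_lit 19) (nat_lit 4) (nat_lit 303) (nat_lit 271) (nat_lit 146))) (XT.nd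 (nat_lit 78) (nat_lit 152) (nat_lit 0) (XT.lf (nat_lit 0) (nat_lit 14555216770) (nat_lit 152) (nat_lit 75586411221) (nat_lit 76) (nat_lit 142876996622) (nat_lit 16) (nat_lit 5) (nat_lit 18) (nat_lit 5) (nat_lit 17) (nat_lit 5) (nat_lit 304) (nat_lit 271) (nat_lit 145)) (XT.nd (nat_lit 78) (nat_lit 0) (nat_lit 0) (XT.lf (nat_lit 0) (nat_lit 46077106566) (nat_lit 152) (nat_lit 18949392916) (nat_lit 228) (nat_lit 182800928323) (nat_lit 14) (nat_lit 5) (nat_lit 16) (nat_lit 5) (nat_lit 17) (nat_lit 5) (nat_lit 305) (nat_lit 271) (nat_lit 144)) (XT.lf (nat_lit 0) (nat_lit 121777632402) (nat_lit 228) (nat_lit 84509555411) (nat_lit 76) (nat_lit 57421640886) (nat_lit 14) (nat_lit 5) (nat_lit 17) (nat_lit 5) (nat_lit 15) (nat_lit 4) (nat_lit 306) (nat_lit 271) (nat_lit 143)))))) (XT.nd (nat_lit 390) (nat_lit 228) (nat_lit 0) (XT.nd (nat_lit 156) (nat_lit 152) (nat_lit 0) (XT.nd (nat_lit 78) (nat_lit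 0) (nat_lit 0) (XT.lf (nat_lit 0) (nat_lit 43171635466) (nat_lit 76) (nat_lit 140890140950) (nat_lit 152) (nat_lit 96749319992) (nat_lit 13) (nat_lit 5) (nat_lit 14) (nat_lit 5) (nat_lit 15) (nat_lit 4) (nat_lit 307) (nat_lit 271) (nat_lit 142)) (XT.lf (nat_lit 0) (nat_lit 184084100589) (nat_lit 76) (nat_lit 68716052830) (nat_lit 152) (nat_lit 46407817750) (nat_lit 13) (nat_lit 5) (nat_lit 14) (nat_lit 5) (nat_lit 15) (nat_lit 4) (nat_lit 308) (nat_lit 271) (nat_lit 141))) (XT.nd (nat_lit 78) (nat_lit 0) (nat_lit 0) (XT.lf (nat_lit 0) (nat_lit 8131603480) (nat_lit 152) (nat_lit 301575291143) (nat_lit 76) (nat_lit 9342217199) (nat_lit 11) (nat_lit 5) (nat_lit 13) (nat_lit 5) (nat_lit 12) (nat_lit 4) (nat_lit 309) (nat_lit 271) (nat_lit 140)) (XT.nd (nat_lit 78) (nat_lit 0) (nat_lit 0) (XT.lf (nat_lit 0) (nat_lit 68626403598) (nat_lit 152) (nat_lit 177561937031) (nat_lit 76) (nat_lit 94090258029)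 (nat_lit 11) (nat_lit 5) (nat_lit 13) (nat_lit 5) (nat_lit 12) (nat_lit 4) (nat_lit 310) (nat_lit 271) (nat_lit 139)) (XT.lf (nat_lit 0) (nat_lit 133960283570) (nat_lit 152) (nat_lit 43628396171) (nat_lit 76) (nat_lit 185617790443) (nat_lit 11) (nat_lit 5) (nat_lit 13) (nat_lit 5) (nat_lit 12) (nat_lit 4) (nat_lit 311) (nat_lit 271) (nat_lit 138))))) (XT.nd (nat_lit 156) (nat_lit 152) (nat_lit 0) (XT.nd (nat_lit 78) (nat_lit 0) (nat_lit 0) (XT.lf (nat_lit 0) (nat_lit 104359156419) (nat_lit 76) (nat_lit 101790589609) (nat_lit 152) (nat_lit 181737382298) (nat_lit 10) (nat_lit 5) (nat_lit 11) (nat_lit 5) (nat_lit 12) (nat_lit 4) (nat_lit 312) (nat_lit 271) (nat_lit 137)) (XT.lf (nat_lit 0) (nat_lit 265742888365) (nat_lit 76) (nat_lit 19131011207) (nat_lit 152) (nat_lit 129630363300) (nat_lit 10) (nat_lit 5) (nat_lit 11) (nat_lit 5) (nat_lit 12) (nat_lit 4) (nat_lit 313) (nat_lit 271) (nat_lit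 136))) (XT.nd (nat_lit 78) (nat_lit 152) (nat_lit 0) (XT.lf (nat_lit 0) (nat_lit 370990671824) (nat_lit 152) (nat_lit 4309291207) (nat_lit 0) (nat_lit 67896071257) (nat_lit 10) (nat_lit 5) (nat_lit 12) (nat_lit 4) (nat_lit 10) (nat_lit 4) (nat_lit 314) (nat_lit 271) (nat_lit 135)) (XT.nd (nat_lit 78) (nat_lit 76) (nat_lit 0) (XT.lf (nat_lit 0) (nat_lit 156380854568) (nat_lit 76) (nat_lit 310379672955) (nat_lit 76) (nat_lit 7284433204) (nat_lit 9) (nat_lit 4) (nat_lit 10) (nat_lit 5) (nat_lit 10) (nat_lit 4) (nat_lit 315) (nat_lit 271) (nat_lit 134)) (XT.lf (nat_lit 0) (nat_lit 60895134651) (nat_lit 152) (nat_lit 178260805552) (nat_lit 76) (nat_lit 268153017568) (nat_lit 8) (nat_lit 5) (nat_lit 10) (nat_lit 5) (nat_lit 9) (nat_lit 4) (nat_lit 316) (nat_lit 271) (nat_lit 133))))))) (XT.nd (nat_lit 34398) (nat_lit 0) (nat_lit 3116) (XT.nd (nat_lit 34008) (nat_lit 0) (nat_lit 5168) (XT.nd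 (nat_lit 156) (nat_lit 0) (nat_lit 0) (XT.nd (nat_lit 78) (nat_lit 76) (nat_lit 0) (XT.lf (nat_lit 0) (nat_lit 134276922904) (nat_lit 152) (nat_lit 27828687631) (nat_lit 76) (nat_lit 381122340218) (nat_lit 8) (nat_lit 5) (nat_lit 10) (nat_lit 5) (nat_lit 9) (nat_lit 4) (nat_lit 317) (nat_lit 271) (nat_lit 132)) (XT.lf (nat_lit 0) (nat_lit 139089149005) (nat_lit 76) (nat_lit 76611356358) (nat_lit 152) (nat_lit 366211395551) (nat_lit 7) (nat_lit 5) (nat_lit 8) (nat_lit 5) (nat_lit 9) (nat_lit 4) (nat_lit 318) (nat_lit 271) (nat_lit 131))) (XT.nd (nat_lit 78) (nat_lit 0) (nat_lit 0) (XT.lf (nat_lit 0) (nat_lit 304375841507) (nat_lit 152) (nat_lit 303566140338) (nat_lit 0) (nat_lit 15711692164) (nat_lit 7) (nat_lit 5) (nat_lit 9) (nat_lit 4) (nat_lit 7) (nat_lit 4) (nat_lit 319) (nat_lit 271) (nat_lit 130)) (XT.lf (nat_lit 0) (nat_lit 401436725967) (nat_lit 152) (nat_lit 154461324848) (nat_lit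 0) (nat_lit 112772162321) (nat_lit 7) (nat_lit 5) (nat_lit 9) (nat_lit 4) (nat_lit 7) (nat_lit 4) (nat_lit 320) (nat_lit 271) (nat_lit 129)))) (XT.nd (nat_lit 156) (nat_lit 0) (nat_lit 76) (XT.nd (nat_lit 78) (nat_lit 0) (nat_lit 0) (XT.lf (nat_lit 0) (nat_lit 6637815531) (nat_lit 0) (nat_lit 6637815531) (nat_lit 684) (nat_lit 10797922516) (nat_lit 75) (nat_lit 5) (nat_lit 75) (nat_lit 3) (nat_lit 84) (nat_lit 3) (nat_lit 272) (nat_lit 272) (nat_lit 176)) (XT.lf (nat_lit 0) (nat_lit 27980692261) (nat_lit 684) (nat_lit 1827866487) (nat_lit 760) (nat_lit 20245943352) (nat_lit 75) (nat_lit 5) (nat_lit 84) (nat_lit 3) (nat_lit 85) (nat_lit 5) (nat_lit 273) (nat_lit 272) (nat_lit 175))) (XT.nd (nat_lit 78) (nat_lit 0) (nat_lit 0) (XT.lf (nat_lit 0) (nat_lit 30356352332) (nat_lit 684) (nat_lit 17400843999) (nat_lit 760) (nat_lit 4315710574) (nat_lit 76) (nat_lit 5) (nat_lit 85) (nat_lit 5)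 (nat_lit 86) (nat_lit 5) (nat_lit 274) (nat_lit 272) (nat_lit 174)) (XT.nd (nat_lit 78) (nat_lit 0) (nat_lit 76) (XT.lf (nat_lit 76) (nat_lit 20041969912) (nat_lit 0) (nat_lit 13724233252) (nat_lit 760) (nat_lit 20444385182) (nat_lit 77) (nat_lit 5) (nat_lit 76) (nat_lit 5) (nat_lit 86) (nat_lit 5) (nat_lit 275) (nat_lit 272) (nat_lit 173)) (XT.lf (nat_lit 76) (nat_lit 4370264458) (nat_lit 0) (nat_lit 33810973502) (nat_lit 760) (nat_lit 18301436871) (nat_lit 78) (nat_lit 5) (nat_lit 77) (nat_lit 5) (nat_lit 87) (nat_lit 5) (nat_lit 276) (nat_lit 272) (nat_lit 172)))))) (XT.nd (nat_lit 390) (nat_lit 1216) (nat_lit 0) (XT.nd (nat_lit 156) (nat_lit 1064) (nat_lit 0) (XT.nd (nat_lit 78) (nat_lit 0) (nat_lit 0) (XT.lf (nat_lit 0) (nat_lit 43819064811) (nat_lit 684) (nat_lit 11974614213) (nat_lit 760) (nat_lit 3099379308) (nat_lit 78) (nat_lit 5) (nat_lit 87) (nat_lit 5) (nat_lit 88) (nat_lit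 5) (nat_lit 277) (nat_lit 272) (nat_lit 171)) (XT.lf (nat_lit 76) (nat_lit 31820131423) (nat_lit 0) (nat_lit 19151678949) (nat_lit 760) (nat_lit 10471276362) (nat_lit 79) (nat_lit 5) (nat_lit 78) (nat_lit 5) (nat_lit 88) (nat_lit 5) (nat_lit 278) (nat_lit 272) (nat_lit 170))) (XT.nd (nat_lit 78) (nat_lit 456) (nat_lit 0) (XT.lf (nat_lit 0) (nat_lit 15531776757) (nat_lit 684) (nat_lit 43935515472) (nat_lit 760) (nat_lit 4691307543) (nat_lit 70) (nat_lit 5) (nat_lit 79) (nat_lit 5) (nat_lit 80) (nat_lit 5) (nat_lit 279) (nat_lit 272) (nat_lit 169)) (XT.nd (nat_lit 78) (nat_lit 380) (nat_lit 0) (XT.lf (nat_lit 0) (nat_lit 2346114224) (nat_lit 760) (nat_lit 2066893791) (nat_lit 76) (nat_lit 62634907297) (nat_lit 69) (nat_lit 5) (nat_lit 79) (nat_lit 5) (nat_lit 70) (nat_lit 5) (nat_lit 280) (nat_lit 272) (nat_lit 168)) (XT.lf (nat_lit 0) (nat_lit 11169806706) (nat_lit 456) (nat_lit 21009214175)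 (nat_lit 76) (nat_lit 37916134694) (nat_lit 64) (nat_lit 5) (nat_lit 70) (nat_lit 5) (nat_lit 65) (nat_lit 5) (nat_lit 281) (nat_lit 272) (nat_lit 167))))) (XT.nd (nat_lit 156) (nat_lit 532) (nat_lit 0) (XT.nd (nat_lit 78) (nat_lit 304) (nat_lit 0) (XT.lf (nat_lit 0) (nat_lit 21473551699) (nat_lit 456) (nat_lit 41555951541) (nat_lit 76) (nat_lit 10317970159) (nat_lit 59) (nat_lit 5) (nat_lit 65) (nat_lit 5) (nat_lit 60) (nat_lit 5) (nat_lit 282) (nat_lit 272) (nat_lit 166)) (XT.lf (nat_lit 0) (nat_lit 12576490199) (nat_lit 304) (nat_lit 21133813689) (nat_lit 380) (nat_lit 43094243118) (nat_lit 55) (nat_lit 5) (nat_lit 59) (nat_lit 5) (nat_lit 60) (nat_lit 5) (nat_lit 283) (nat_lit 272) (nat_lit 165))) (XT.nd (nat_lit 78) (nat_lit 532) (nat_lit 0) (XT.lf (nat_lit 0) (nat_lit 48036137819) (nat_lit 380) (nat_lit 8369179532) (nat_lit 76) (nat_lit 24077367386) (nat_lit 55) (nat_lit 5) (nat_lit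 60) (nat_lit 5) (nat_lit 56) (nat_lit 5) (nat_lit 284) (nat_lit 272) (nat_lit 164)) (XT.nd (nat_lit 78) (nat_lit 228) (nat_lit 0) (XT.lf (nat_lit 0) (nat_lit 53306033666) (nat_lit 304) (nat_lit 11388687420) (nat_lit 380) (nat_lit 19701023185) (nat_lit 51) (nat_lit 5) (nat_lit 55) (nat_lit 5) (nat_lit 56) (nat_lit 5) (nat_lit 285) (nat_lit 272) (nat_lit 163)) (XT.lf (nat_lit 0) (nat_lit 32039233607) (nat_lit 228) (nat_lit 51874587063) (nat_lit 304) (nat_lit 4646640971) (nat_lit 48) (nat_lit 5) (nat_lit 51) (nat_lit 5) (nat_lit 52) (nat_lit 5) (nat_lit 286) (nat_lit 272) (nat_lit 162))))))))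
noncomputable def xc105 : XT := (XT.nd (nat_lit 1482) (nat_lit 684) (nat_lit 0) (XT.nd (nat_lit 702) (nat_lit 988) (nat_lit 0) (XT.nd (nat_lit 312) (nat_lit 608) (nat_lit 0) (XT.nd (nat_lit 156) (nat_lit 456) (nat_lit 0) (XT.nd (nat_lit 78) (nat_lit 0) (nat_lit 0) (XT.lf (nat_lit 0) (nat_lit 8174739077) (nat_lit 304) (nat_lit 3934047877) (nat_lit 380) (nat_lit 80897090868) (nat_lit 43) (nat_lit 5) (nat_lit 47) (nat_lit 5) (nat_lit 48) (nat_lit 5) (nat_lit 287) (nat_lit 272) (nat_lit 161)) (XT.lf (nat_lit 0) (nat_lit 31790018668) (nat_lit 380) (nat_lit 18536497131) (nat_lit 76) (nat_lit 47389198235) (nat_lit 43) (nat_lit 5) (nat_lit 48) (nat_lit 5) (nat_lit 44) (nat_lit 5) (nat_lit 288) (nat_lit 272) (nat_lit 160))) (XT.nd (nat_lit 78) (nat_lit 228) (nat_lit 0) (XT.lf (nat_lit 0) (nat_lit 53977464899) (nat_lit 304) (nat_lit 48022910565) (nat_lit 76) (nat_lit 755379323) (nat_lit 40) (nat_lit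 5) (nat_lit 44) (nat_lit 5) (nat_lit 41) (nat_lit 5) (nat_lit 289) (nat_lit 272) (nat_lit 159)) (XT.lf (nat_lit 0) (nat_lit 26329705098) (nat_lit 228) (nat_lit 53196609037) (nat_lit 304) (nat_lit 28593367486) (nat_lit 37) (nat_lit 5) (nat_lit 40) (nat_lit 5) (nat_lit 41) (nat_lit 5) (nat_lit 290) (nat_lit 272) (nat_lit 158)))) (XT.nd (nat_lit 156) (nat_lit 380) (nat_lit 0) (XT.nd (nat_lit 78) (nat_lit 228) (nat_lit 0) (XT.lf (nat_lit 0) (nat_lit 107960299982) (nat_lit 304) (nat_lit 5533480932) (nat_lit 76) (nat_lit 376883207) (nat_lit 37) (nat_lit 5) (nat_lit 41) (nat_lit 5) (nat_lit 38) (nat_lit 5) (nat_lit 291) (nat_lit 272) (nat_lit 157)) (XT.lf (nat_lit 0) (nat_lit 20147429070) (nat_lit 228) (nat_lit 41865482948) (nat_lit 76) (nat_lit 57946552900) (nat_lit 34) (nat_lit 5) (nat_lit 37) (nat_lit 5) (nat_lit 35) (nat_lit 5) (nat_lit 292) (nat_lit 272) (nat_lit 156))) (XT.nd (nat_lit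 78) (nat_lit 152) (nat_lit 0) (XT.lf (nat_lit 0) (nat_lit 43363621300) (nat_lit 228) (nat_lit 5495683219) (nat_lit 304) (nat_lit 77632396652) (nat_lit 31) (nat_lit 5) (nat_lit 34) (nat_lit 5) (nat_lit 35) (nat_lit 5) (nat_lit 293) (nat_lit 272) (nat_lit 155)) (XT.nd (nat_lit 78) (nat_lit 0) (nat_lit 0) (XT.lf (nat_lit 0) (nat_lit 2598316542) (nat_lit 152) (nat_lit 78917607489) (nat_lit 228) (nat_lit 51948204823) (nat_lit 29) (nat_lit 5) (nat_lit 31) (nat_lit 5) (nat_lit 32) (nat_lit 5) (nat_lit 294) (nat_lit 272) (nat_lit 154)) (XT.lf (nat_lit 0) (nat_lit 98053930998) (nat_lit 152) (nat_lit 20269235341) (nat_lit 228) (nat_lit 22594281817) (nat_lit 29) (nat_lit 5) (nat_lit 31) (nat_lit 5) (nat_lit 32) (nat_lit 5) (nat_lit 295) (nat_lit 272) (nat_lit 153)))))) (XT.nd (nat_lit 390) (nat_lit 456) (nat_lit 0) (XT.nd (nat_lit 156) (nat_lit 304) (nat_lit 0) (XT.nd (nat_lit 78) (nat_lit 0) (nat_lit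 0) (XT.lf (nat_lit 0) (nat_lit 10343209222) (nat_lit 228) (nat_lit 95850829373) (nat_lit 76) (nat_lit 42689547912) (nat_lit 26) (nat_lit 5) (nat_lit 29) (nat_lit 5) (nat_lit 27) (nat_lit 5) (nat_lit 296) (nat_lit 272) (nat_lit 152)) (XT.lf (nat_lit 0) (nat_lit 46234354333) (nat_lit 228) (nat_lit 54835832) (nat_lit 76) (nat_lit 111123795127) (nat_lit 26) (nat_lit 5) (nat_lit 29) (nat_lit 5) (nat_lit 27) (nat_lit 5) (nat_lit 297) (nat_lit 272) (nat_lit 151))) (XT.nd (nat_lit 78) (nat_lit 152) (nat_lit 0) (XT.lf (nat_lit 0) (nat_lit 86978391354) (nat_lit 228) (nat_lit 60033725105) (nat_lit 76) (nat_lit 19513541070) (nat_lit 24) (nat_lit 5) (nat_lit 27) (nat_lit 5) (nat_lit 25) (nat_lit 5) (nat_lit 298) (nat_lit 272) (nat_lit 150)) (XT.nd (nat_lit 78) (nat_lit 0) (nat_lit 0) (XT.lf (nat_lit 0) (nat_lit 45883740632) (nat_lit 152) (nat_lit 86595184767) (nat_lit 228) (nat_lit 43813570889) (nat_lit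 22) (nat_lit 5) (nat_lit 24) (nat_lit 5) (nat_lit 25) (nat_lit 5) (nat_lit 299) (nat_lit 272) (nat_lit 149)) (XT.lf (nat_lit 0) (nat_lit 162417054991) (nat_lit 152) (nat_lit 20247350223) (nat_lit 228) (nat_lit 4124033119) (nat_lit 22) (nat_lit 5) (nat_lit 24) (nat_lit 5) (nat_lit 25) (nat_lit 5) (nat_lit 300) (nat_lit 272) (nat_lit 148))))) (XT.nd (nat_lit 156) (nat_lit 152) (nat_lit 0) (XT.nd (nat_lit 78) (nat_lit 152) (nat_lit 0) (XT.lf (nat_lit 0) (nat_lit 39780379220) (nat_lit 152) (nat_lit 106354296906) (nat_lit 76) (nat_lit 51845155536) (nat_lit 20) (nat_lit 5) (nat_lit 22) (nat_lit 5) (nat_lit 21) (nat_lit 5) (nat_lit 301) (nat_lit 272) (nat_lit 147)) (XT.lf (nat_lit 0) (nat_lit 7549682765) (nat_lit 152) (nat_lit 80394915794) (nat_lit 228) (nat_lit 122073961634) (nat_lit 18) (nat_lit 5) (nat_lit 20) (nat_lit 5) (nat_lit 21) (nat_lit 5) (nat_lit 302) (nat_lit 272) (nat_lit 146)))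 (XT.nd (nat_lit 78) (nat_lit 152) (nat_lit 0) (XT.lf (nat_lit 0) (nat_lit 134362672917) (nat_lit 152) (nat_lit 7451179898) (nat_lit 228) (nat_lit 81113940336) (nat_lit 18) (nat_lit 5) (nat_lit 20) (nat_lit 5) (nat_lit 21) (nat_lit 5) (nat_lit 303) (nat_lit 272) (nat_lit 145)) (XT.nd (nat_lit 78) (nat_lit 76) (nat_lit 0) (XT.lf (nat_lit 0) (nat_lit 34438425788) (nat_lit 76) (nat_lit 167204854051) (nat_lit 152) (nat_lit 35143954223) (nat_lit 17) (nat_lit 5) (nat_lit 18) (nat_lit 5) (nat_lit 19) (nat_lit 4) (nat_lit 304) (nat_lit 272) (nat_lit 144)) (XT.lf (nat_lit 0) (nat_lit 15732446017) (nat_lit 152) (nat_lit 81611878514) (nat_lit 76) (nat_lit 154315133324) (nat_lit 16) (nat_lit 5) (nat_lit 18) (nat_lit 5) (nat_lit 17) (nat_lit 5) (nat_lit 305) (nat_lit 272) (nat_lit 143))))))) (XT.nd (nat_lit 702) (nat_lit 228) (nat_lit 0) (XT.nd (nat_lit 312) (nat_lit 228) (nat_lit 0) (XT.nd (nat_lit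 156) (nat_lit 76) (nat_lit 0) (XT.nd (nat_lit 78) (nat_lit 0) (nat_lit 0) (XT.lf (nat_lit 0) (nat_lit 49783788696) (nat_lit 152) (nat_lit 20457013894) (nat_lit 228) (nat_lit 197412195345) (nat_lit 14) (nat_lit 5) (nat_lit 16) (nat_lit 5) (nat_lit 17) (nat_lit 5) (nat_lit 306) (nat_lit 272) (nat_lit 142)) (XT.lf (nat_lit 0) (nat_lit 131531244116) (nat_lit 228) (nat_lit 91250868329) (nat_lit 76) (nat_lit 62022838665) (nat_lit 14) (nat_lit 5) (nat_lit 17) (nat_lit 5) (nat_lit 15) (nat_lit 4) (nat_lit 307) (nat_lit 272) (nat_lit 141))) (XT.nd (nat_lit 78) (nat_lit 0) (nat_lit 0) (XT.lf (nat_lit 0) (nat_lit 46643972479) (nat_lit 76) (nat_lit 152153593138) (nat_lit 152) (nat_lit 104477863343) (nat_lit 13) (nat_lit 5) (nat_lit 14) (nat_lit 5) (nat_lit 15) (nat_lit 4) (nat_lit 308) (nat_lit 272) (nat_lit 140)) (XT.lf (nat_lit 0) (nat_lit 198828056577) (nat_lit 76) (nat_lit 74206152716) (nat_lit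 152) (nat_lit 50109885532) (nat_lit 13) (nat_lit 5) (nat_lit 14) (nat_lit 5) (nat_lit 15) (nat_lit 4) (nat_lit 309) (nat_lit 272) (nat_lit 139)))) (XT.nd (nat_lit 156) (nat_lit 76) (nat_lit 0) (XT.nd (nat_lit 78) (nat_lit 0) (nat_lit 0) (XT.lf (nat_lit 0) (nat_lit 8791967635) (nat_lit 152) (nat_lit 325684115120) (nat_lit 76) (nat_lit 10096455762) (nat_lit 11) (nat_lit 5) (nat_lit 13) (nat_lit 5) (nat_lit 12) (nat_lit 4) (nat_lit 310) (nat_lit 272) (nat_lit 138)) (XT.lf (nat_lit 0) (nat_lit 74125623179) (nat_lit 152) (nat_lit 191750966702) (nat_lit 76) (nat_lit 101623831623) (nat_lit 11) (nat_lit 5) (nat_lit 13) (nat_lit 5) (nat_lit 12) (nat_lit 4) (nat_lit 311) (nat_lit 272) (nat_lit 137))) (XT.nd (nat_lit 78) (nat_lit 76) (nat_lit 0) (XT.lf (nat_lit 0) (nat_lit 144685538935) (nat_lit 152) (nat_lit 47103922224) (nat_lit 76) (nat_lit 200473096042) (nat_lit 11) (nat_lit 5) (nat_lit 13)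 (nat_lit 5) (nat_lit 12) (nat_lit 4) (nat_lit 312) (nat_lit 272) (nat_lit 136)) (XT.nd (nat_lit 78) (nat_lit 0) (nat_lit 0) (XT.lf (nat_lit 0) (nat_lit 112721993745) (nat_lit 76) (nat_lit 109927760217) (nat_lit 152) (nat_lit 196267934917) (nat_lit 10) (nat_lit 5) (nat_lit 11) (nat_lit 5) (nat_lit 12) (nat_lit 4) (nat_lit 313) (nat_lit 272) (nat_lit 135)) (XT.lf (nat_lit 0) (nat_lit 287015379446) (nat_lit 76) (nat_lit 20655865659) (nat_lit 152) (nat_lit 139992979433) (nat_lit 10) (nat_lit 5) (nat_lit 11) (nat_lit 5) (nat_lit 12) (nat_lit 4) (nat_lit 314) (nat_lit 272) (nat_lit 134)))))) (XT.nd (nat_lit 390) (nat_lit 0) (nat_lit 0) (XT.nd (nat_lit 156) (nat_lit 152) (nat_lit 0) (XT.nd (nat_lit 78) (nat_lit 76) (nat_lit 0) (XT.lf (nat_lit 0) (nat_lit 400676889839) (nat_lit 152) (nat_lit 4641671975) (nat_lit 0) (nat_lit 73332799886) (nat_lit 10) (nat_lit 5) (nat_lit 12) (nat_lit 4) (nat_lit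 10) (nat_lit 4) (nat_lit 315) (nat_lit 272) (nat_lit 133)) (XT.lf (nat_lit 0) (nat_lit 168903148201) (nat_lit 76) (nat_lit 335204854547) (nat_lit 76) (nat_lit 7860216596) (nat_lit 9) (nat_lit 4) (nat_lit 10) (nat_lit 5) (nat_lit 10) (nat_lit 4) (nat_lit 316) (nat_lit 272) (nat_lit 132))) (XT.nd (nat_lit 78) (nat_lit 76) (nat_lit 0) (XT.lf (nat_lit 0) (nat_lit 65772993700) (nat_lit 152) (nat_lit 192510508268) (nat_lit 76) (nat_lit 289609854200) (nat_lit 8) (nat_lit 5) (nat_lit 10) (nat_lit 5) (nat_lit 9) (nat_lit 4) (nat_lit 317) (nat_lit 272) (nat_lit 131)) (XT.nd (nat_lit 78) (nat_lit 76) (nat_lit 0) (XT.lf (nat_lit 0) (nat_lit 145024862178) (nat_lit 152) (nat_lit 30044647708) (nat_lit 76) (nat_lit 411616382275) (nat_lit 8) (nat_lit 5) (nat_lit 10) (nat_lit 5) (nat_lit 9) (nat_lit 4) (nat_lit 318) (nat_lit 272) (nat_lit 130)) (XT.lf (nat_lit 0) (nat_lit 150226166716) (nat_lit 76) (nat_lit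 82735890312) (nat_lit 152) (nat_lit 395502515416) (nat_lit 7) (nat_lit 5) (nat_lit 8) (nat_lit 5) (nat_lit 9) (nat_lit 4) (nat_lit 319) (nat_lit 272) (nat_lit 129))))) (XT.nd (nat_lit 33930) (nat_lit 0) (nat_lit 5168) (XT.nd (nat_lit 33852) (nat_lit 0) (nat_lit 5168) (XT.lf (nat_lit 0) (nat_lit 328731075064) (nat_lit 152) (nat_lit 327842081533) (nat_lit 0) (nat_lit 16972548409) (nat_lit 7) (nat_lit 5) (nat_lit 9) (nat_lit 4) (nat_lit 7) (nat_lit 4) (nat_lit 320) (nat_lit 272) (nat_lit 128)) (XT.lf (nat_lit 0) (nat_lit 7188765855) (nat_lit 0) (nat_lit 7188765855) (nat_lit 684) (nat_lit 11619796180) (nat_lit 75) (nat_lit 5) (nat_lit 75) (nat_lit 3) (nat_lit 84) (nat_lit 3) (nat_lit 273) (nat_lit 273) (nat_lit 174))) (XT.nd (nat_lit 78) (nat_lit 0) (nat_lit 76) (XT.lf (nat_lit 0) (nat_lit 30292368156) (nat_lit 684) (nat_lit 1932714062) (nat_lit 760) (nat_lit 21829901496) (nat_lit 75) (nat_lit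 5) (nat_lit 84) (nat_lit 3) (nat_lit 85) (nat_lit 5) (nat_lit 274) (nat_lit 273) (nat_lit 173)) (XT.nd (nat_lit 78) (nat_lit 0) (nat_lit 0) (XT.lf (nat_lit 0) (nat_lit 32852825158) (nat_lit 684) (nat_lit 18749255881) (nat_lit 760) (nat_lit 4633058771) (nat_lit 76) (nat_lit 5) (nat_lit 85) (nat_lit 5) (nat_lit 86) (nat_lit 5) (nat_lit 275) (nat_lit 273) (nat_lit 172)) (XT.lf (nat_lit 76) (nat_lit 21687085921) (nat_lit 0) (nat_lit 14843995683) (nat_lit 760) (nat_lit 22012988204) (nat_lit 77) (nat_lit 5) (nat_lit 76) (nat_lit 5) (nat_lit 86) (nat_lit 5) (nat_lit 276) (nat_lit 273) (nat_lit 171))))))))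
noncomputable def xc106 : XT := (XT.nd (nat_lit 1482) (nat_lit 1444) (nat_lit 0) (XT.nd (nat_lit 702) (nat_lit 1976) (nat_lit 0) (XT.nd (nat_lit 312) (nat_lit 1140) (nat_lit 0) (XT.nd (nat_lit 156) (nat_lit 532) (nat_lit 0) (XT.nd (nat_lit 78) (nat_lit 0) (nat_lit 76) (XT.lf (nat_lit 76) (nat_lit 4763374524) (nat_lit 0) (nat_lit 36531598362) (nat_lit 760) (nat_lit 19703181457) (nat_lit 78) (nat_lit 5) (nat_lit 77) (nat_lit 5) (nat_lit 87) (nat_lit 5) (nat_lit 277) (nat_lit 273) (nat_lit 170)) (XT.lf (nat_lit 0) (nat_lit 47379210397) (nat_lit 684) (nat_lit 12889185907) (nat_lit 760) (nat_lit 3333215784) (nat_lit 78) (nat_lit 5) (nat_lit 87) (nat_lit 5) (nat_lit 88) (nat_lit 5) (nat_lit 278) (nat_lit 273) (nat_lit 169))) (XT.nd (nat_lit 78) (nat_lit 608) (nat_lit 0) (XT.lf (nat_lit 76) (nat_lit 34407253381) (nat_lit 0) (nat_lit 20693524377) (nat_lit 760) (nat_lit 11255046741) (nat_lit 79)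 (nat_lit 5) (nat_lit 78) (nat_lit 5) (nat_lit 88) (nat_lit 5) (nat_lit 279) (nat_lit 273) (nat_lit 168)) (XT.lf (nat_lit 0) (nat_lit 16816762770) (nat_lit 684) (nat_lit 47455863412) (nat_lit 760) (nat_lit 5016126965) (nat_lit 70) (nat_lit 5) (nat_lit 79) (nat_lit 5) (nat_lit 80) (nat_lit 5) (nat_lit 280) (nat_lit 273) (nat_lit 167)))) (XT.nd (nat_lit 156) (nat_lit 684) (nat_lit 0) (XT.nd (nat_lit 78) (nat_lit 380) (nat_lit 0) (XT.lf (nat_lit 0) (nat_lit 2579052752) (nat_lit 760) (nat_lit 2191328382) (nat_lit 76) (nat_lit 67638984052) (nat_lit 69) (nat_lit 5) (nat_lit 79) (nat_lit 5) (nat_lit 70) (nat_lit 5) (nat_lit 281) (nat_lit 273) (nat_lit 166)) (XT.lf (nat_lit 0) (nat_lit 12105847276) (nat_lit 456) (nat_lit 22648522622) (nat_lit 76) (nat_lit 40946163393) (nat_lit 64) (nat_lit 5) (nat_lit 70) (nat_lit 5) (nat_lit 65) (nat_lit 5) (nat_lit 282) (nat_lit 273) (nat_lit 165))) (XT.nd (nat_lit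 78) (nat_lit 304) (nat_lit 0) (XT.lf (nat_lit 0) (nat_lit 23231360976) (nat_lit 456) (nat_lit 44838694579) (nat_lit 76) (nat_lit 11143115821) (nat_lit 59) (nat_lit 5) (nat_lit 65) (nat_lit 5) (nat_lit 60) (nat_lit 5) (nat_lit 283) (nat_lit 273) (nat_lit 164)) (XT.nd (nat_lit 78) (nat_lit 0) (nat_lit 0) (XT.lf (nat_lit 0) (nat_lit 13622528831) (nat_lit 304) (nat_lit 22822190346) (nat_lit 380) (nat_lit 46502216081) (nat_lit 55) (nat_lit 5) (nat_lit 59) (nat_lit 5) (nat_lit 60) (nat_lit 5) (nat_lit 284) (nat_lit 273) (nat_lit 163)) (XT.lf (nat_lit 0) (nat_lit 51913868966) (nat_lit 380) (nat_lit 8999955958) (nat_lit 76) (nat_lit 26005643733) (nat_lit 55) (nat_lit 5) (nat_lit 60) (nat_lit 5) (nat_lit 56) (nat_lit 5) (nat_lit 285) (nat_lit 273) (nat_lit 162)))))) (XT.nd (nat_lit 390) (nat_lit 836) (nat_lit 0) (XT.nd (nat_lit 156) (nat_lit 608) (nat_lit 0) (XT.nd (nat_lit 78) (nat_lit 228) (nat_lit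 0) (XT.lf (nat_lit 0) (nat_lit 57607589923) (nat_lit 304) (nat_lit 12295547045) (nat_lit 380) (nat_lit 21242542666) (nat_lit 51) (nat_lit 5) (nat_lit 55) (nat_lit 5) (nat_lit 56) (nat_lit 5) (nat_lit 286) (nat_lit 273) (nat_lit 161)) (XT.lf (nat_lit 0) (nat_lit 34639420684) (nat_lit 228) (nat_lit 56018551032) (nat_lit 304) (nat_lit 4985698411) (nat_lit 48) (nat_lit 5) (nat_lit 51) (nat_lit 5) (nat_lit 52) (nat_lit 5) (nat_lit 287) (nat_lit 273) (nat_lit 160))) (XT.nd (nat_lit 78) (nat_lit 228) (nat_lit 0) (XT.lf (nat_lit 0) (nat_lit 8865226229) (nat_lit 304) (nat_lit 4242118925) (nat_lit 380) (nat_lit 87337442958) (nat_lit 43) (nat_lit 5) (nat_lit 47) (nat_lit 5) (nat_lit 48) (nat_lit 5) (nat_lit 288) (nat_lit 273) (nat_lit 159)) (XT.nd (nat_lit 78) (nat_lit 228) (nat_lit 0) (XT.lf (nat_lit 0) (nat_lit 34360960080) (nat_lit 380) (nat_lit 19984264964) (nat_lit 76) (nat_lit 51186296919)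 (nat_lit 43) (nat_lit 5) (nat_lit 48) (nat_lit 5) (nat_lit 44) (nat_lit 5) (nat_lit 289) (nat_lit 273) (nat_lit 158)) (XT.lf (nat_lit 0) (nat_lit 58321987926) (nat_lit 304) (nat_lit 51829866794) (nat_lit 76) (nat_lit 822986567) (nat_lit 40) (nat_lit 5) (nat_lit 44) (nat_lit 5) (nat_lit 41) (nat_lit 5) (nat_lit 290) (nat_lit 273) (nat_lit 157))))) (XT.nd (nat_lit 156) (nat_lit 608) (nat_lit 0) (XT.nd (nat_lit 78) (nat_lit 0) (nat_lit 0) (XT.lf (nat_lit 0) (nat_lit 28469442427) (nat_lit 228) (nat_lit 57443873470) (nat_lit 304) (nat_lit 30854642097) (nat_lit 37) (nat_lit 5) (nat_lit 40) (nat_lit 5) (nat_lit 41) (nat_lit 5) (nat_lit 291) (nat_lit 273) (nat_lit 156)) (XT.lf (nat_lit 0) (nat_lit 116620298779) (nat_lit 304) (nat_lit 5944190030) (nat_lit 76) (nat_lit 414620327) (nat_lit 37) (nat_lit 5) (nat_lit 41) (nat_lit 5) (nat_lit 38) (nat_lit 5) (nat_lit 292) (nat_lit 273) (nat_lit 155)))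 (XT.nd (nat_lit 78) (nat_lit 380) (nat_lit 0) (XT.lf (nat_lit 0) (nat_lit 21781562837) (nat_lit 228) (nat_lit 45183359374) (nat_lit 76) (nat_lit 62590139388) (nat_lit 34) (nat_lit 5) (nat_lit 37) (nat_lit 5) (nat_lit 35) (nat_lit 5) (nat_lit 293) (nat_lit 273) (nat_lit 154)) (XT.nd (nat_lit 78) (nat_lit 152) (nat_lit 0) (XT.lf (nat_lit 0) (nat_lit 46862710250) (nat_lit 228) (nat_lit 5926491670) (nat_lit 304) (nat_lit 83820737376) (nat_lit 31) (nat_lit 5) (nat_lit 34) (nat_lit 5) (nat_lit 35) (nat_lit 5) (nat_lit 294) (nat_lit 273) (nat_lit 153)) (XT.lf (nat_lit 0) (nat_lit 2835795521) (nat_lit 152) (nat_lit 85221578816) (nat_lit 228) (nat_lit 56082838676) (nat_lit 29) (nat_lit 5) (nat_lit 31) (nat_lit 5) (nat_lit 32) (nat_lit 5) (nat_lit 295) (nat_lit 273) (nat_lit 152))))))) (XT.nd (nat_lit 702) (nat_lit 608) (nat_lit 0) (XT.nd (nat_lit 312) (nat_lit 456) (nat_lit 0) (XT.nd (nat_lit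 156) (nat_lit 152) (nat_lit 0) (XT.nd (nat_lit 78) (nat_lit 228) (nat_lit 0) (XT.lf (nat_lit 0) (nat_lit 105925665529) (nat_lit 152) (nat_lit 21882035953) (nat_lit 228) (nat_lit 24382173870) (nat_lit 29) (nat_lit 5) (nat_lit 31) (nat_lit 5) (nat_lit 32) (nat_lit 5) (nat_lit 296) (nat_lit 273) (nat_lit 151)) (XT.lf (nat_lit 0) (nat_lit 11188835747) (nat_lit 228) (nat_lit 103491239999) (nat_lit 76) (nat_lit 46113258713) (nat_lit 26) (nat_lit 5) (nat_lit 29) (nat_lit 5) (nat_lit 27) (nat_lit 5) (nat_lit 297) (nat_lit 273) (nat_lit 150))) (XT.nd (nat_lit 78) (nat_lit 152) (nat_lit 0) (XT.lf (nat_lit 0) (nat_lit 49949926558) (nat_lit 228) (nat_lit 33615546) (nat_lit 76) (nat_lit 120021612597) (nat_lit 26) (nat_lit 5) (nat_lit 29) (nat_lit 5) (nat_lit 27) (nat_lit 5) (nat_lit 298) (nat_lit 273) (nat_lit 149)) (XT.lf (nat_lit 0) (nat_lit 93952755994) (nat_lit 228) (nat_lit 64811237923) (nat_lit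 76) (nat_lit 21082885416) (nat_lit 24) (nat_lit 5) (nat_lit 27) (nat_lit 5) (nat_lit 25) (nat_lit 5) (nat_lit 299) (nat_lit 273) (nat_lit 148)))) (XT.nd (nat_lit 156) (nat_lit 304) (nat_lit 0) (XT.nd (nat_lit 78) (nat_lit 0) (nat_lit 0) (XT.lf (nat_lit 0) (nat_lit 49578530554) (nat_lit 152) (nat_lit 93513986232) (nat_lit 228) (nat_lit 47302591140) (nat_lit 22) (nat_lit 5) (nat_lit 24) (nat_lit 5) (nat_lit 25) (nat_lit 5) (nat_lit 300) (nat_lit 273) (nat_lit 147)) (XT.lf (nat_lit 0) (nat_lit 175432725568) (nat_lit 152) (nat_lit 21858977763) (nat_lit 228) (nat_lit 4439080380) (nat_lit 22) (nat_lit 5) (nat_lit 24) (nat_lit 5) (nat_lit 25) (nat_lit 5) (nat_lit 301) (nat_lit 273) (nat_lit 146))) (XT.nd (nat_lit 78) (nat_lit 152) (nat_lit 0) (XT.lf (nat_lit 0) (nat_lit 42976609861) (nat_lit 152) (nat_lit 114840251717) (nat_lit 76) (nat_lit 56000646845) (nat_lit 20) (nat_lit 5) (nat_lit 22)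 (nat_lit 5) (nat_lit 21) (nat_lit 5) (nat_lit 302) (nat_lit 273) (nat_lit 145)) (XT.nd (nat_lit 78) (nat_lit 0) (nat_lit 0) (XT.lf (nat_lit 0) (nat_lit 8175073332) (nat_lit 152) (nat_lit 86818205535) (nat_lit 228) (nat_lit 131826092228) (nat_lit 18) (nat_lit 5) (nat_lit 20) (nat_lit 5) (nat_lit 21) (nat_lit 5) (nat_lit 303) (nat_lit 273) (nat_lit 144)) (XT.lf (nat_lit 0) (nat_lit 145131516329) (nat_lit 152) (nat_lit 8039585842) (nat_lit 228) (nat_lit 87590290437) (nat_lit 18) (nat_lit 5) (nat_lit 20) (nat_lit 5) (nat_lit 21) (nat_lit 5) (nat_lit 304) (nat_lit 273) (nat_lit 143)))))) (XT.nd (nat_lit 390) (nat_lit 228) (nat_lit 0) (XT.nd (nat_lit 156) (nat_lit 228) (nat_lit 0) (XT.nd (nat_lit 78) (nat_lit 76) (nat_lit 0) (XT.lf (nat_lit 0) (nat_lit 37212949715) (nat_lit 76) (nat_lit 180573449112) (nat_lit 152) (nat_lit 37943215446) (nat_lit 17) (nat_lit 5) (nat_lit 18) (nat_lit 5) (nat_lit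 19) (nat_lit 4) (nat_lit 305) (nat_lit 273) (nat_lit 142)) (XT.lf (nat_lit 0) (nat_lit 17002025842) (nat_lit 152) (nat_lit 88122442646) (nat_lit 76) (nat_lit 166667182959) (nat_lit 16) (nat_lit 5) (nat_lit 18) (nat_lit 5) (nat_lit 17) (nat_lit 5) (nat_lit 306) (nat_lit 273) (nat_lit 141))) (XT.nd (nat_lit 78) (nat_lit 76) (nat_lit 0) (XT.lf (nat_lit 0) (nat_lit 53784078902) (nat_lit 152) (nat_lit 22086432984) (nat_lit 228) (nat_lit 213194190825) (nat_lit 14) (nat_lit 5) (nat_lit 16) (nat_lit 5) (nat_lit 17) (nat_lit 5) (nat_lit 307) (nat_lit 273) (nat_lit 140)) (XT.nd (nat_lit 78) (nat_lit 76) (nat_lit 0) (XT.lf (nat_lit 0) (nat_lit 142063518269) (nat_lit 228) (nat_lit 98534261256) (nat_lit 76) (nat_lit 66991067085) (nat_lit 14) (nat_lit 5) (nat_lit 17) (nat_lit 5) (nat_lit 15) (nat_lit 4) (nat_lit 308) (nat_lit 273) (nat_lit 139)) (XT.lf (nat_lit 0) (nat_lit 50391442075) (nat_lit 76)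 (nat_lit 164319228423) (nat_lit 152) (nat_lit 112826316819) (nat_lit 13) (nat_lit 5) (nat_lit 14) (nat_lit 5) (nat_lit 15) (nat_lit 4) (nat_lit 309) (nat_lit 273) (nat_lit 138))))) (XT.nd (nat_lit 156) (nat_lit 76) (nat_lit 0) (XT.nd (nat_lit 78) (nat_lit 152) (nat_lit 0) (XT.lf (nat_lit 0) (nat_lit 214749071286) (nat_lit 76) (nat_lit 80136485520) (nat_lit 152) (nat_lit 54109624902) (nat_lit 13) (nat_lit 5) (nat_lit 14) (nat_lit 5) (nat_lit 15) (nat_lit 4) (nat_lit 310) (nat_lit 273) (nat_lit 137)) (XT.lf (nat_lit 0) (nat_lit 9503757725) (nat_lit 152) (nat_lit 351724098689) (nat_lit 76) (nat_lit 10910054586) (nat_lit 11) (nat_lit 5) (nat_lit 13) (nat_lit 5) (nat_lit 12) (nat_lit 4) (nat_lit 311) (nat_lit 273) (nat_lit 136))) (XT.nd (nat_lit 78) (nat_lit 76) (nat_lit 0) (XT.lf (nat_lit 0) (nat_lit 80063481070) (nat_lit 152) (nat_lit 207077390668) (nat_lit 76) (nat_lit 109759184785) (nat_lit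 11) (nat_lit 5) (nat_lit 13) (nat_lit 5) (nat_lit 12) (nat_lit 4) (nat_lit 312) (nat_lit 273) (nat_lit 135)) (XT.nd (nat_lit 78) (nat_lit 76) (nat_lit 0) (XT.lf (nat_lit 0) (nat_lit 156267611713) (nat_lit 152) (nat_lit 50859593993) (nat_lit 76) (nat_lit 216515986903) (nat_lit 11) (nat_lit 5) (nat_lit 13) (nat_lit 5) (nat_lit 12) (nat_lit 4) (nat_lit 313) (nat_lit 273) (nat_lit 134)) (XT.lf (nat_lit 0) (nat_lit 121751845848) (nat_lit 76) (nat_lit 118716771363) (nat_lit 152) (nat_lit 211962135516) (nat_lit 10) (nat_lit 5) (nat_lit 11) (nat_lit 5) (nat_lit 12) (nat_lit 4) (nat_lit 314) (nat_lit 273) (nat_lit 133))))))))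
noncomputable def xc107 : XT := (XT.nd (nat_lit 35334) (nat_lit 0) (nat_lit 760) (XT.nd (nat_lit 34554) (nat_lit 0) (nat_lit 3648) (XT.nd (nat_lit 312) (nat_lit 76) (nat_lit 0) (XT.nd (nat_lit 156) (nat_lit 152) (nat_lit 0) (XT.nd (nat_lit 78) (nat_lit 0) (nat_lit 0) (XT.lf (nat_lit 0) (nat_lit 309987806657) (nat_lit 76) (nat_lit 22303511142) (nat_lit 152) (nat_lit 151185719459) (nat_lit 10) (nat_lit 5) (nat_lit 11) (nat_lit 5) (nat_lit 12) (nat_lit 4) (nat_lit 315) (nat_lit 273) (nat_lit 132)) (XT.lf (nat_lit 0) (nat_lit 432737011765) (nat_lit 152) (nat_lit 5002406858) (nat_lit 0) (nat_lit 79203747376) (nat_lit 10) (nat_lit 5) (nat_lit 12) (nat_lit 4) (nat_lit 10) (nat_lit 4) (nat_lit 316) (nat_lit 273) (nat_lit 131))) (XT.nd (nat_lit 78) (nat_lit 76) (nat_lit 0) (XT.lf (nat_lit 0) (nat_lit 182425538319) (nat_lit 76) (nat_lit 362016791397) (nat_lit 76) (nat_lit 8483057189) (nat_lit 9)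 (nat_lit 4) (nat_lit 10) (nat_lit 5) (nat_lit 10) (nat_lit 4) (nat_lit 317) (nat_lit 273) (nat_lit 130)) (XT.lf (nat_lit 0) (nat_lit 71040190087) (nat_lit 152) (nat_lit 207901779546) (nat_lit 76) (nat_lit 312782582203) (nat_lit 8) (nat_lit 5) (nat_lit 10) (nat_lit 5) (nat_lit 9) (nat_lit 4) (nat_lit 318) (nat_lit 273) (nat_lit 129)))) (XT.nd (nat_lit 34008) (nat_lit 0) (nat_lit 5168) (XT.nd (nat_lit 78) (nat_lit 76) (nat_lit 0) (XT.lf (nat_lit 0) (nat_lit 156631811237) (nat_lit 152) (nat_lit 32439358984) (nat_lit 76) (nat_lit 444549340697) (nat_lit 8) (nat_lit 5) (nat_lit 10) (nat_lit 5) (nat_lit 9) (nat_lit 4) (nat_lit 319) (nat_lit 273) (nat_lit 128)) (XT.lf (nat_lit 0) (nat_lit 162252735525) (nat_lit 76) (nat_lit 89351011061) (nat_lit 152) (nat_lit 427137751132) (nat_lit 7) (nat_lit 5) (nat_lit 8) (nat_lit 5) (nat_lit 9) (nat_lit 4) (nat_lit 320) (nat_lit 273) (nat_lit 127))) (XT.nd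 (nat_lit 78) (nat_lit 0) (nat_lit 0) (XT.lf (nat_lit 0) (nat_lit 7780949670) (nat_lit 0) (nat_lit 7780949670) (nat_lit 684) (nat_lit 12513405820) (nat_lit 75) (nat_lit 5) (nat_lit 75) (nat_lit 3) (nat_lit 84) (nat_lit 3) (nat_lit 274) (nat_lit 274) (nat_lit 172)) (XT.nd (nat_lit 78) (nat_lit 0) (nat_lit 76) (XT.lf (nat_lit 0) (nat_lit 32778532397) (nat_lit 684) (nat_lit 2051853011) (nat_lit 760) (nat_lit 23545671768) (nat_lit 75) (nat_lit 5) (nat_lit 84) (nat_lit 3) (nat_lit 85) (nat_lit 5) (nat_lit 275) (nat_lit 274) (nat_lit 171)) (XT.lf (nat_lit 0) (nat_lit 35539319894) (nat_lit 684) (nat_lit 20211768679) (nat_lit 760) (nat_lit 4979776304) (nat_lit 76) (nat_lit 5) (nat_lit 85) (nat_lit 5) (nat_lit 86) (nat_lit 5) (nat_lit 276) (nat_lit 274) (nat_lit 170)))))) (XT.nd (nat_lit 390) (nat_lit 1140) (nat_lit 0) (XT.nd (nat_lit 156) (nat_lit 456) (nat_lit 0) (XT.nd (nat_lit 78) (nat_lit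 0) (nat_lit 76) (XT.lf (nat_lit 76) (nat_lit 23457853907) (nat_lit 0) (nat_lit 16050225704) (nat_lit 760) (nat_lit 23716630319) (nat_lit 77) (nat_lit 5) (nat_lit 76) (nat_lit 5) (nat_lit 86) (nat_lit 5) (nat_lit 277) (nat_lit 274) (nat_lit 169)) (XT.lf (nat_lit 76) (nat_lit 5181729215) (nat_lit 0) (nat_lit 39467626728) (nat_lit 760) (nat_lit 21225963439) (nat_lit 78) (nat_lit 5) (nat_lit 77) (nat_lit 5) (nat_lit 87) (nat_lit 5) (nat_lit 278) (nat_lit 274) (nat_lit 168))) (XT.nd (nat_lit 78) (nat_lit 608) (nat_lit 0) (XT.lf (nat_lit 0) (nat_lit 51216375420) (nat_lit 684) (nat_lit 13883114467) (nat_lit 760) (nat_lit 3587772679) (nat_lit 78) (nat_lit 5) (nat_lit 87) (nat_lit 5) (nat_lit 88) (nat_lit 5) (nat_lit 279) (nat_lit 274) (nat_lit 167)) (XT.nd (nat_lit 78) (nat_lit 608) (nat_lit 0) (XT.lf (nat_lit 76) (nat_lit 37195423023) (nat_lit 0) (nat_lit 22357332042) (nat_lit 760) (nat_lit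 12109212715) (nat_lit 79) (nat_lit 5) (nat_lit 78) (nat_lit 5) (nat_lit 88) (nat_lit 5) (nat_lit 280) (nat_lit 274) (nat_lit 166)) (XT.lf (nat_lit 0) (nat_lit 18198492570) (nat_lit 684) (nat_lit 51257053594) (nat_lit 760) (nat_lit 5374134215) (nat_lit 70) (nat_lit 5) (nat_lit 79) (nat_lit 5) (nat_lit 80) (nat_lit 5) (nat_lit 281) (nat_lit 274) (nat_lit 165))))) (XT.nd (nat_lit 156) (nat_lit 684) (nat_lit 0) (XT.nd (nat_lit 78) (nat_lit 380) (nat_lit 0) (XT.lf (nat_lit 0) (nat_lit 2824171031) (nat_lit 760) (nat_lit 2331554996) (nat_lit 76) (nat_lit 73044345035) (nat_lit 69) (nat_lit 5) (nat_lit 79) (nat_lit 5) (nat_lit 70) (nat_lit 5) (nat_lit 282) (nat_lit 274) (nat_lit 164)) (XT.lf (nat_lit 0) (nat_lit 13110714264) (nat_lit 456) (nat_lit 24424886011) (nat_lit 76) (nat_lit 44219059760) (nat_lit 64) (nat_lit 5) (nat_lit 70) (nat_lit 5) (nat_lit 65) (nat_lit 5) (nat_lit 283) (nat_lit 274)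 (nat_lit 163))) (XT.nd (nat_lit 78) (nat_lit 304) (nat_lit 0) (XT.lf (nat_lit 0) (nat_lit 25124099229) (nat_lit 456) (nat_lit 48390010752) (nat_lit 76) (nat_lit 12034314786) (nat_lit 59) (nat_lit 5) (nat_lit 65) (nat_lit 5) (nat_lit 60) (nat_lit 5) (nat_lit 284) (nat_lit 274) (nat_lit 162)) (XT.nd (nat_lit 78) (nat_lit 0) (nat_lit 0) (XT.lf (nat_lit 0) (nat_lit 14746555602) (nat_lit 304) (nat_lit 24645969314) (nat_lit 380) (nat_lit 50188471483) (nat_lit 55) (nat_lit 5) (nat_lit 59) (nat_lit 5) (nat_lit 60) (nat_lit 5) (nat_lit 285) (nat_lit 274) (nat_lit 161)) (XT.lf (nat_lit 0) (nat_lit 56096848272) (nat_lit 380) (nat_lit 9686723752) (nat_lit 76) (nat_lit 28087884461) (nat_lit 55) (nat_lit 5) (nat_lit 60) (nat_lit 5) (nat_lit 56) (nat_lit 5) (nat_lit 286) (nat_lit 274) (nat_lit 160))))))) (XT.nd (nat_lit 780) (nat_lit 912) (nat_lit 0) (XT.nd (nat_lit 390) (nat_lit 836) (nat_lit 0) (XT.nd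 (nat_lit 156) (nat_lit 608) (nat_lit 0) (XT.nd (nat_lit 78) (nat_lit 228) (nat_lit 0) (XT.lf (nat_lit 0) (nat_lit 62247981721) (nat_lit 304) (nat_lit 13275559662) (nat_lit 380) (nat_lit 22912314415) (nat_lit 51) (nat_lit 5) (nat_lit 55) (nat_lit 5) (nat_lit 56) (nat_lit 5) (nat_lit 287) (nat_lit 274) (nat_lit 159)) (XT.lf (nat_lit 0) (nat_lit 37442337360) (nat_lit 228) (nat_lit 60494888513) (nat_lit 304) (nat_lit 5356541735) (nat_lit 48) (nat_lit 5) (nat_lit 51) (nat_lit 5) (nat_lit 52) (nat_lit 5) (nat_lit 288) (nat_lit 274) (nat_lit 158))) (XT.nd (nat_lit 78) (nat_lit 228) (nat_lit 0) (XT.lf (nat_lit 0) (nat_lit 9605744074) (nat_lit 304) (nat_lit 4575784751) (nat_lit 380) (nat_lit 94297504941) (nat_lit 43) (nat_lit 5) (nat_lit 47) (nat_lit 5) (nat_lit 48) (nat_lit 5) (nat_lit 289) (nat_lit 274) (nat_lit 157)) (XT.nd (nat_lit 78) (nat_lit 228) (nat_lit 0) (XT.lf (nat_lit 0) (nat_lit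 37133619395) (nat_lit 380) (nat_lit 21552869040) (nat_lit 76) (nat_lit 55286312834) (nat_lit 43) (nat_lit 5) (nat_lit 48) (nat_lit 5) (nat_lit 44) (nat_lit 5) (nat_lit 290) (nat_lit 274) (nat_lit 156)) (XT.lf (nat_lit 0) (nat_lit 63010317120) (nat_lit 304) (nat_lit 55946355060) (nat_lit 76) (nat_lit 894978525) (nat_lit 40) (nat_lit 5) (nat_lit 44) (nat_lit 5) (nat_lit 41) (nat_lit 5) (nat_lit 291) (nat_lit 274) (nat_lit 155))))) (XT.nd (nat_lit 156) (nat_lit 608) (nat_lit 0) (XT.nd (nat_lit 78) (nat_lit 0) (nat_lit 0) (XT.lf (nat_lit 0) (nat_lit 30775599435) (nat_lit 228) (nat_lit 62032126583) (nat_lit 304) (nat_lit 33300555657) (nat_lit 37) (nat_lit 5) (nat_lit 40) (nat_lit 5) (nat_lit 41) (nat_lit 5) (nat_lit 292) (nat_lit 274) (nat_lit 154)) (XT.lf (nat_lit 0) (nat_lit 125969791336) (nat_lit 304) (nat_lit 6392316645) (nat_lit 76) (nat_lit 454294123) (nat_lit 37) (nat_lit 5) (nat_lit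 41) (nat_lit 5) (nat_lit 38) (nat_lit 5) (nat_lit 293) (nat_lit 274) (nat_lit 153))) (XT.nd (nat_lit 78) (nat_lit 380) (nat_lit 0) (XT.lf (nat_lit 0) (nat_lit 23543240333) (nat_lit 228) (nat_lit 48771140084) (nat_lit 76) (nat_lit 67604091157) (nat_lit 34) (nat_lit 5) (nat_lit 37) (nat_lit 5) (nat_lit 35) (nat_lit 5) (nat_lit 294) (nat_lit 274) (nat_lit 152)) (XT.nd (nat_lit 78) (nat_lit 152) (nat_lit 0) (XT.lf (nat_lit 0) (nat_lit 50637446589) (nat_lit 228) (nat_lit 6393026807) (nat_lit 304) (nat_lit 90507319714) (nat_lit 31) (nat_lit 5) (nat_lit 34) (nat_lit 5) (nat_lit 35) (nat_lit 5) (nat_lit 295) (nat_lit 274) (nat_lit 151)) (XT.lf (nat_lit 0) (nat_lit 3088048099) (nat_lit 152) (nat_lit 92031214182) (nat_lit 228) (nat_lit 60551270870) (nat_lit 29) (nat_lit 5) (nat_lit 31) (nat_lit 5) (nat_lit 32) (nat_lit 5) (nat_lit 296) (nat_lit 274) (nat_lit 150)))))) (XT.nd (nat_lit 390) (nat_lit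 380) (nat_lit 0) (XT.nd (nat_lit 156) (nat_lit 304) (nat_lit 0) (XT.nd (nat_lit 78) (nat_lit 228) (nat_lit 0) (XT.lf (nat_lit 0) (nat_lit 114423227046) (nat_lit 152) (nat_lit 23625107219) (nat_lit 228) (nat_lit 26315900650) (nat_lit 29) (nat_lit 5) (nat_lit 31) (nat_lit 5) (nat_lit 32) (nat_lit 5) (nat_lit 297) (nat_lit 274) (nat_lit 149)) (XT.lf (nat_lit 0) (nat_lit 12099520271) (nat_lit 228) (nat_lit 111746828872) (nat_lit 76) (nat_lit 49809647057) (nat_lit 26) (nat_lit 5) (nat_lit 29) (nat_lit 5) (nat_lit 27) (nat_lit 5) (nat_lit 298) (nat_lit 274) (nat_lit 148))) (XT.nd (nat_lit 78) (nat_lit 304) (nat_lit 0) (XT.lf (nat_lit 0) (nat_lit 53960344445) (nat_lit 228) (nat_lit 14350784) (nat_lit 76) (nat_lit 129630126463) (nat_lit 26) (nat_lit 5) (nat_lit 29) (nat_lit 5) (nat_lit 27) (nat_lit 5) (nat_lit 299) (nat_lit 274) (nat_lit 147)) (XT.nd (nat_lit 78) (nat_lit 152) (nat_lit 0) (XT.lf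 (nat_lit 0) (nat_lit 101482773912) (nat_lit 228) (nat_lit 69974544716) (nat_lit 76) (nat_lit 22776598777) (nat_lit 24) (nat_lit 5) (nat_lit 27) (nat_lit 5) (nat_lit 25) (nat_lit 5) (nat_lit 300) (nat_lit 274) (nat_lit 146)) (XT.lf (nat_lit 0) (nat_lit 53565466867) (nat_lit 152) (nat_lit 100987549133) (nat_lit 228) (nat_lit 51073024923) (nat_lit 22) (nat_lit 5) (nat_lit 24) (nat_lit 5) (nat_lit 25) (nat_lit 5) (nat_lit 301) (nat_lit 274) (nat_lit 145))))) (XT.nd (nat_lit 156) (nat_lit 228) (nat_lit 0) (XT.nd (nat_lit 78) (nat_lit 152) (nat_lit 0) (XT.lf (nat_lit 0) (nat_lit 189486467566) (nat_lit 152) (nat_lit 23600699690) (nat_lit 228) (nat_lit 4781453563) (nat_lit 22) (nat_lit 5) (nat_lit 24) (nat_lit 5) (nat_lit 25) (nat_lit 5) (nat_lit 302) (nat_lit 274) (nat_lit 144)) (XT.lf (nat_lit 0) (nat_lit 46426570187) (nat_lit 152) (nat_lit 124008276946) (nat_lit 76) (nat_lit 60487453450) (nat_lit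 20) (nat_lit 5) (nat_lit 22) (nat_lit 5) (nat_lit 21) (nat_lit 5) (nat_lit 303) (nat_lit 274) (nat_lit 143))) (XT.nd (nat_lit 78) (nat_lit 76) (nat_lit 0) (XT.lf (nat_lit 0) (nat_lit 8847439920) (nat_lit 152) (nat_lit 93756543045) (nat_lit 228) (nat_lit 142360360045) (nat_lit 18) (nat_lit 5) (nat_lit 20) (nat_lit 5) (nat_lit 21) (nat_lit 5) (nat_lit 304) (nat_lit 274) (nat_lit 142)) (XT.nd (nat_lit 78) (nat_lit 76) (nat_lit 0) (XT.lf (nat_lit 0) (nat_lit 156759038303) (nat_lit 152) (nat_lit 8676161105) (nat_lit 228) (nat_lit 94586569634) (nat_lit 18) (nat_lit 5) (nat_lit 20) (nat_lit 5) (nat_lit 21) (nat_lit 5) (nat_lit 305) (nat_lit 274) (nat_lit 141)) (XT.lf (nat_lit 0) (nat_lit 40206660816) (nat_lit 76) (nat_lit 195012643575) (nat_lit 152) (nat_lit 40968165896) (nat_lit 17) (nat_lit 5) (nat_lit 18) (nat_lit 5) (nat_lit 19) (nat_lit 4) (nat_lit 306) (nat_lit 274) (nat_lit 140))))))))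
noncomputable def xc108 : XT := (XT.nd (nat_lit 35490) (nat_lit 0) (nat_lit 1368) (XT.nd (nat_lit 702) (nat_lit 152) (nat_lit 0) (XT.nd (nat_lit 312) (nat_lit 228) (nat_lit 0) (XT.nd (nat_lit 156) (nat_lit 76) (nat_lit 0) (XT.nd (nat_lit 78) (nat_lit 152) (nat_lit 0) (XT.lf (nat_lit 0) (nat_lit 18371605042) (nat_lit 152) (nat_lit 95156474898) (nat_lit 76) (nat_lit 180006420909) (nat_lit 16) (nat_lit 5) (nat_lit 18) (nat_lit 5) (nat_lit 17) (nat_lit 5) (nat_lit 307) (nat_lit 274) (nat_lit 139)) (XT.lf (nat_lit 0) (nat_lit 58101883326) (nat_lit 152) (nat_lit 23847224490) (nat_lit 228) (nat_lit 230240312385) (nat_lit 14) (nat_lit 5) (nat_lit 16) (nat_lit 5) (nat_lit 17) (nat_lit 5) (nat_lit 308) (nat_lit 274) (nat_lit 138))) (XT.nd (nat_lit 78) (nat_lit 76) (nat_lit 0) (XT.lf (nat_lit 0) (nat_lit 153436979896) (nat_lit 228) (nat_lit 106402704712) (nat_lit 76) (nat_lit 72355840558) (nat_lit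 14) (nat_lit 5) (nat_lit 17) (nat_lit 5) (nat_lit 15) (nat_lit 4) (nat_lit 309) (nat_lit 274) (nat_lit 137)) (XT.lf (nat_lit 0) (nat_lit 54436433536) (nat_lit 76) (nat_lit 177459063536) (nat_lit 152) (nat_lit 121844041172) (nat_lit 13) (nat_lit 5) (nat_lit 14) (nat_lit 5) (nat_lit 15) (nat_lit 4) (nat_lit 310) (nat_lit 274) (nat_lit 136)))) (XT.nd (nat_lit 156) (nat_lit 76) (nat_lit 0) (XT.nd (nat_lit 78) (nat_lit 152) (nat_lit 0) (XT.lf (nat_lit 0) (nat_lit 231941660039) (nat_lit 76) (nat_lit 86542123657) (nat_lit 152) (nat_lit 58430634715) (nat_lit 13) (nat_lit 5) (nat_lit 14) (nat_lit 5) (nat_lit 15) (nat_lit 4) (nat_lit 311) (nat_lit 274) (nat_lit 135)) (XT.lf (nat_lit 0) (nat_lit 10271288007) (nat_lit 152) (nat_lit 379849384575) (nat_lit 76) (nat_lit 11787902131) (nat_lit 11) (nat_lit 5) (nat_lit 13) (nat_lit 5) (nat_lit 12) (nat_lit 4) (nat_lit 312) (nat_lit 274) (nat_lit 134)))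 (XT.nd (nat_lit 78) (nat_lit 76) (nat_lit 0) (XT.lf (nat_lit 0) (nat_lit 86475253689) (nat_lit 152) (nat_lit 223631876357) (nat_lit 76) (nat_lit 118544589177) (nat_lit 11) (nat_lit 5) (nat_lit 13) (nat_lit 5) (nat_lit 12) (nat_lit 4) (nat_lit 313) (nat_lit 274) (nat_lit 133)) (XT.nd (nat_lit 78) (nat_lit 76) (nat_lit 0) (XT.lf (nat_lit 0) (nat_lit 168775218921) (nat_lit 152) (nat_lit 54917523027) (nat_lit 76) (nat_lit 233841589567) (nat_lit 11) (nat_lit 5) (nat_lit 13) (nat_lit 5) (nat_lit 12) (nat_lit 4) (nat_lit 314) (nat_lit 274) (nat_lit 132)) (XT.lf (nat_lit 0) (nat_lit 131502360974) (nat_lit 76) (nat_lit 128209646619) (nat_lit 152) (nat_lit 228912904201) (nat_lit 10) (nat_lit 5) (nat_lit 11) (nat_lit 5) (nat_lit 12) (nat_lit 4) (nat_lit 315) (nat_lit 274) (nat_lit 131)))))) (XT.nd (nat_lit 34398) (nat_lit 0) (nat_lit 5092) (XT.nd (nat_lit 156) (nat_lit 152) (nat_lit 0) (XT.nd (nat_lit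 78) (nat_lit 0) (nat_lit 0) (XT.lf (nat_lit 0) (nat_lit 334796430688) (nat_lit 76) (nat_lit 24083656429) (nat_lit 152) (nat_lit 163274834279) (nat_lit 10) (nat_lit 5) (nat_lit 11) (nat_lit 5) (nat_lit 12) (nat_lit 4) (nat_lit 316) (nat_lit 274) (nat_lit 130)) (XT.lf (nat_lit 0) (nat_lit 467361091653) (nat_lit 152) (nat_lit 5393512579) (nat_lit 0) (nat_lit 85543753870) (nat_lit 10) (nat_lit 5) (nat_lit 12) (nat_lit 4) (nat_lit 10) (nat_lit 4) (nat_lit 317) (nat_lit 274) (nat_lit 129))) (XT.nd (nat_lit 78) (nat_lit 76) (nat_lit 0) (XT.lf (nat_lit 0) (nat_lit 197028273310) (nat_lit 76) (nat_lit 390974318255) (nat_lit 76) (nat_lit 9156577678) (nat_lit 9) (nat_lit 4) (nat_lit 10) (nat_lit 5) (nat_lit 10) (nat_lit 4) (nat_lit 318) (nat_lit 274) (nat_lit 128)) (XT.nd (nat_lit 34086) (nat_lit 0) (nat_lit 5092) (XT.lf (nat_lit 0) (nat_lit 76727997965) (nat_lit 152) (nat_lit 224525717706) (nat_lit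 76) (nat_lit 337808566409) (nat_lit 8) (nat_lit 5) (nat_lit 10) (nat_lit 5) (nat_lit 9) (nat_lit 4) (nat_lit 319) (nat_lit 274) (nat_lit 127)) (XT.lf (nat_lit 0) (nat_lit 8418071173) (nat_lit 0) (nat_lit 8418071173) (nat_lit 684) (nat_lit 13483636332) (nat_lit 75) (nat_lit 5) (nat_lit 75) (nat_lit 3) (nat_lit 84) (nat_lit 3) (nat_lit 275) (nat_lit 275) (nat_lit 170))))) (XT.nd (nat_lit 156) (nat_lit 0) (nat_lit 76) (XT.nd (nat_lit 78) (nat_lit 0) (nat_lit 76) (XT.lf (nat_lit 0) (nat_lit 35454634252) (nat_lit 684) (nat_lit 2185584435) (nat_lit 760) (nat_lit 25403072210) (nat_lit 75) (nat_lit 5) (nat_lit 84) (nat_lit 3) (nat_lit 85) (nat_lit 5) (nat_lit 276) (nat_lit 275) (nat_lit 169)) (XT.lf (nat_lit 0) (nat_lit 38432421524) (nat_lit 684) (nat_lit 21796621977) (nat_lit 760) (nat_lit 5357644718) (nat_lit 76) (nat_lit 5) (nat_lit 85) (nat_lit 5) (nat_lit 86) (nat_lit 5) (nat_lit 277) (nat_lit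 275) (nat_lit 168))) (XT.nd (nat_lit 78) (nat_lit 0) (nat_lit 76) (XT.lf (nat_lit 76) (nat_lit 25365175902) (nat_lit 0) (nat_lit 17350284883) (nat_lit 760) (nat_lit 25564752119) (nat_lit 77) (nat_lit 5) (nat_lit 76) (nat_lit 5) (nat_lit 86) (nat_lit 5) (nat_lit 278) (nat_lit 275) (nat_lit 167)) (XT.nd (nat_lit 78) (nat_lit 0) (nat_lit 76) (XT.lf (nat_lit 76) (nat_lit 5628233199) (nat_lit 0) (nat_lit 42636611366) (nat_lit 760) (nat_lit 22878196435) (nat_lit 78) (nat_lit 5) (nat_lit 77) (nat_lit 5) (nat_lit 87) (nat_lit 5) (nat_lit 279) (nat_lit 275) (nat_lit 166)) (XT.lf (nat_lit 0) (nat_lit 55353833080) (nat_lit 684) (nat_lit 14961865208) (nat_lit 760) (nat_lit 3864420379) (nat_lit 78) (nat_lit 5) (nat_lit 87) (nat_lit 5) (nat_lit 88) (nat_lit 5) (nat_lit 280) (nat_lit 275) (nat_lit 165))))))) (XT.nd (nat_lit 702) (nat_lit 1672) (nat_lit 0) (XT.nd (nat_lit 312) (nat_lit 1216) (nat_lit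 0) (XT.nd (nat_lit 156) (nat_lit 456) (nat_lit 0) (XT.nd (nat_lit 78) (nat_lit 608) (nat_lit 0) (XT.lf (nat_lit 76) (nat_lit 40201569015) (nat_lit 0) (nat_lit 24153056563) (nat_lit 760) (nat_lit 13038308300) (nat_lit 79) (nat_lit 5) (nat_lit 78) (nat_lit 5) (nat_lit 88) (nat_lit 5) (nat_lit 281) (nat_lit 275) (nat_lit 164)) (XT.lf (nat_lit 0) (nat_lit 19685569489) (nat_lit 684) (nat_lit 55361665472) (nat_lit 760) (nat_lit 5766956837) (nat_lit 70) (nat_lit 5) (nat_lit 79) (nat_lit 5) (nat_lit 80) (nat_lit 5) (nat_lit 282) (nat_lit 275) (nat_lit 163))) (XT.nd (nat_lit 78) (nat_lit 380) (nat_lit 0) (XT.lf (nat_lit 0) (nat_lit 3083364365) (nat_lit 760) (nat_lit 2488004244) (nat_lit 76) (nat_lit 78882956303) (nat_lit 69) (nat_lit 5) (nat_lit 79) (nat_lit 5) (nat_lit 70) (nat_lit 5) (nat_lit 283) (nat_lit 275) (nat_lit 162)) (XT.lf (nat_lit 0) (nat_lit 14190777858) (nat_lit 456) (nat_lit 26348425570)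 (nat_lit 76) (nat_lit 47754186817) (nat_lit 64) (nat_lit 5) (nat_lit 70) (nat_lit 5) (nat_lit 65) (nat_lit 5) (nat_lit 284) (nat_lit 275) (nat_lit 161)))) (XT.nd (nat_lit 156) (nat_lit 532) (nat_lit 0) (XT.nd (nat_lit 78) (nat_lit 304) (nat_lit 0) (XT.lf (nat_lit 0) (nat_lit 27163373338) (nat_lit 456) (nat_lit 52230536550) (nat_lit 76) (nat_lit 12996845376) (nat_lit 59) (nat_lit 5) (nat_lit 65) (nat_lit 5) (nat_lit 60) (nat_lit 5) (nat_lit 285) (nat_lit 275) (nat_lit 160)) (XT.lf (nat_lit 0) (nat_lit 15955622012) (nat_lit 304) (nat_lit 26615935388) (nat_lit 380) (nat_lit 54174466653) (nat_lit 55) (nat_lit 5) (nat_lit 59) (nat_lit 5) (nat_lit 60) (nat_lit 5) (nat_lit 286) (nat_lit 275) (nat_lit 159))) (XT.nd (nat_lit 78) (nat_lit 532) (nat_lit 0) (XT.lf (nat_lit 0) (nat_lit 60610204663) (nat_lit 380) (nat_lit 10433173412) (nat_lit 76) (nat_lit 30336449193) (nat_lit 55) (nat_lit 5) (nat_lit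 60) (nat_lit 5) (nat_lit 56) (nat_lit 5) (nat_lit 287) (nat_lit 275) (nat_lit 158)) (XT.nd (nat_lit 78) (nat_lit 228) (nat_lit 0) (XT.lf (nat_lit 0) (nat_lit 67255070435) (nat_lit 304) (nat_lit 14334491312) (nat_lit 380) (nat_lit 24719895192) (nat_lit 51) (nat_lit 5) (nat_lit 55) (nat_lit 5) (nat_lit 56) (nat_lit 5) (nat_lit 288) (nat_lit 275) (nat_lit 157)) (XT.lf (nat_lit 0) (nat_lit 40464956020) (nat_lit 228) (nat_lit 65330067213) (nat_lit 304) (nat_lit 5761048828) (nat_lit 48) (nat_lit 5) (nat_lit 51) (nat_lit 5) (nat_lit 52) (nat_lit 5) (nat_lit 289) (nat_lit 275) (nat_lit 156)))))) (XT.nd (nat_lit 390) (nat_lit 836) (nat_lit 0) (XT.nd (nat_lit 156) (nat_lit 456) (nat_lit 0) (XT.nd (nat_lit 78) (nat_lit 0) (nat_lit 0) (XT.lf (nat_lit 0) (nat_lit 10401038088) (nat_lit 304) (nat_lit 4936957538) (nat_lit 380) (nat_lit 101818214241) (nat_lit 43) (nat_lit 5) (nat_lit 47) (nat_lit 5) (nat_lit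 48) (nat_lit 5) (nat_lit 290) (nat_lit 275) (nat_lit 155)) (XT.lf (nat_lit 0) (nat_lit 40124698615) (nat_lit 380) (nat_lit 23251260839) (nat_lit 76) (nat_lit 59713600715) (nat_lit 43) (nat_lit 5) (nat_lit 48) (nat_lit 5) (nat_lit 44) (nat_lit 5) (nat_lit 291) (nat_lit 275) (nat_lit 154))) (XT.nd (nat_lit 78) (nat_lit 228) (nat_lit 0) (XT.lf (nat_lit 0) (nat_lit 68070492765) (nat_lit 304) (nat_lit 60396428110) (nat_lit 76) (nat_lit 971852042) (nat_lit 40) (nat_lit 5) (nat_lit 44) (nat_lit 5) (nat_lit 41) (nat_lit 5) (nat_lit 292) (nat_lit 275) (nat_lit 153)) (XT.nd (nat_lit 78) (nat_lit 0) (nat_lit 0) (XT.lf (nat_lit 0) (nat_lit 33262168662) (nat_lit 228) (nat_lit 66988475203) (nat_lit 304) (nat_lit 35945346158) (nat_lit 37) (nat_lit 5) (nat_lit 40) (nat_lit 5) (nat_lit 41) (nat_lit 5) (nat_lit 293) (nat_lit 275) (nat_lit 152)) (XT.lf (nat_lit 0) (nat_lit 136064408811) (nat_lit 304) (nat_lit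 6880203531) (nat_lit 76) (nat_lit 496213929) (nat_lit 37) (nat_lit 5) (nat_lit 41) (nat_lit 5) (nat_lit 38) (nat_lit 5) (nat_lit 294) (nat_lit 275) (nat_lit 151))))) (XT.nd (nat_lit 156) (nat_lit 380) (nat_lit 0) (XT.nd (nat_lit 78) (nat_lit 228) (nat_lit 0) (XT.lf (nat_lit 0) (nat_lit 25443119716) (nat_lit 228) (nat_lit 52649779130) (nat_lit 76) (nat_lit 73018197443) (nat_lit 34) (nat_lit 5) (nat_lit 37) (nat_lit 5) (nat_lit 35) (nat_lit 5) (nat_lit 295) (nat_lit 275) (nat_lit 150)) (XT.lf (nat_lit 0) (nat_lit 54710492658) (nat_lit 228) (nat_lit 6897966725) (nat_lit 304) (nat_lit 97731550137) (nat_lit 31) (nat_lit 5) (nat_lit 34) (nat_lit 5) (nat_lit 35) (nat_lit 5) (nat_lit 296) (nat_lit 275) (nat_lit 149))) (XT.nd (nat_lit 78) (nat_lit 228) (nat_lit 0) (XT.lf (nat_lit 0) (nat_lit 3356858868) (nat_lit 152) (nat_lit 99386774640) (nat_lit 228) (nat_lit 65379773345) (nat_lit 29) (nat_lit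 5) (nat_lit 31) (nat_lit 5) (nat_lit 32) (nat_lit 5) (nat_lit 297) (nat_lit 275) (nat_lit 148)) (XT.nd (nat_lit 78) (nat_lit 228) (nat_lit 0) (XT.lf (nat_lit 0) (nat_lit 123597239766) (nat_lit 152) (nat_lit 25508692948) (nat_lit 228) (nat_lit 28406729003) (nat_lit 29) (nat_lit 5) (nat_lit 31) (nat_lit 5) (nat_lit 32) (nat_lit 5) (nat_lit 298) (nat_lit 275) (nat_lit 147)) (XT.lf (nat_lit 0) (nat_lit 13080837229) (nat_lit 228) (nat_lit 120666247399) (nat_lit 76) (nat_lit 53800701098) (nat_lit 26) (nat_lit 5) (nat_lit 29) (nat_lit 5) (nat_lit 27) (nat_lit 5) (nat_lit 299) (nat_lit 275) (nat_lit 146))))))))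
noncomputable def xc109 : XT := (XT.nd (nat_lit 1482) (nat_lit 76) (nat_lit 0) (XT.nd (nat_lit 702) (nat_lit 456) (nat_lit 0) (XT.nd (nat_lit 312) (nat_lit 456) (nat_lit 0) (XT.nd (nat_lit 156) (nat_lit 152) (nat_lit 0) (XT.nd (nat_lit 78) (nat_lit 0) (nat_lit 0) (XT.lf (nat_lit 0) (nat_lit 3433053) (nat_lit 152) (nat_lit 58286158600) (nat_lit 228) (nat_lit 140002974049) (nat_lit 24) (nat_lit 5) (nat_lit 26) (nat_lit 5) (nat_lit 27) (nat_lit 5) (nat_lit 300) (nat_lit 275) (nat_lit 145)) (XT.lf (nat_lit 0) (nat_lit 109613224904) (nat_lit 228) (nat_lit 75553996427) (nat_lit 76) (nat_lit 24604798805) (nat_lit 24) (nat_lit 5) (nat_lit 27) (nat_lit 5) (nat_lit 25) (nat_lit 5) (nat_lit 301) (nat_lit 275) (nat_lit 144))) (XT.nd (nat_lit 78) (nat_lit 0) (nat_lit 0) (XT.lf (nat_lit 0) (nat_lit 57868411580) (nat_lit 152) (nat_lit 109060075013) (nat_lit 228) (nat_lit 55147058354) (nat_lit 22) (nat_lit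 5) (nat_lit 24) (nat_lit 5) (nat_lit 25) (nat_lit 5) (nat_lit 302) (nat_lit 275) (nat_lit 143)) (XT.lf (nat_lit 0) (nat_lit 204661780678) (nat_lit 152) (nat_lit 25482757470) (nat_lit 228) (nat_lit 5153035993) (nat_lit 22) (nat_lit 5) (nat_lit 24) (nat_lit 5) (nat_lit 25) (nat_lit 5) (nat_lit 303) (nat_lit 275) (nat_lit 142)))) (XT.nd (nat_lit 156) (nat_lit 152) (nat_lit 0) (XT.nd (nat_lit 78) (nat_lit 152) (nat_lit 0) (XT.lf (nat_lit 0) (nat_lit 50150839437) (nat_lit 152) (nat_lit 133912482561) (nat_lit 76) (nat_lit 65332240928) (nat_lit 20) (nat_lit 5) (nat_lit 22) (nat_lit 5) (nat_lit 21) (nat_lit 5) (nat_lit 304) (nat_lit 275) (nat_lit 141)) (XT.lf (nat_lit 0) (nat_lit 9570976473) (nat_lit 152) (nat_lit 101250963151) (nat_lit 228) (nat_lit 153739055480) (nat_lit 18) (nat_lit 5) (nat_lit 20) (nat_lit 5) (nat_lit 21) (nat_lit 5) (nat_lit 305) (nat_lit 275) (nat_lit 140))) (XT.nd (nat_lit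 78) (nat_lit 152) (nat_lit 0) (XT.lf (nat_lit 0) (nat_lit 169314336700) (nat_lit 152) (nat_lit 9364602756) (nat_lit 228) (nat_lit 102144112456) (nat_lit 18) (nat_lit 5) (nat_lit 20) (nat_lit 5) (nat_lit 21) (nat_lit 5) (nat_lit 306) (nat_lit 275) (nat_lit 139)) (XT.nd (nat_lit 78) (nat_lit 76) (nat_lit 0) (XT.lf (nat_lit 0) (nat_lit 43437489913) (nat_lit 76) (nat_lit 210607926780) (nat_lit 152) (nat_lit 44236611292) (nat_lit 17) (nat_lit 5) (nat_lit 18) (nat_lit 5) (nat_lit 19) (nat_lit 4) (nat_lit 307) (nat_lit 275) (nat_lit 138)) (XT.lf (nat_lit 0) (nat_lit 19849407119) (nat_lit 152) (nat_lit 102755478522) (nat_lit 76) (nat_lit 194411961428) (nat_lit 16) (nat_lit 5) (nat_lit 18) (nat_lit 5) (nat_lit 17) (nat_lit 5) (nat_lit 308) (nat_lit 275) (nat_lit 137)))))) (XT.nd (nat_lit 390) (nat_lit 76) (nat_lit 0) (XT.nd (nat_lit 156) (nat_lit 228) (nat_lit 0) (XT.nd (nat_lit 78) (nat_lit 0)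 (nat_lit 0) (XT.lf (nat_lit 0) (nat_lit 62762961042) (nat_lit 152) (nat_lit 25749752849) (nat_lit 228) (nat_lit 248651466640) (nat_lit 14) (nat_lit 5) (nat_lit 16) (nat_lit 5) (nat_lit 17) (nat_lit 5) (nat_lit 309) (nat_lit 275) (nat_lit 136)) (XT.lf (nat_lit 0) (nat_lit 165719122928) (nat_lit 228) (nat_lit 114902663334) (nat_lit 76) (nat_lit 78149012969) (nat_lit 14) (nat_lit 5) (nat_lit 17) (nat_lit 5) (nat_lit 15) (nat_lit 4) (nat_lit 310) (nat_lit 275) (nat_lit 135))) (XT.nd (nat_lit 78) (nat_lit 152) (nat_lit 0) (XT.lf (nat_lit 0) (nat_lit 58803073266) (nat_lit 76) (nat_lit 191650899077) (nat_lit 152) (nat_lit 131584379115) (nat_lit 13) (nat_lit 5) (nat_lit 14) (nat_lit 5) (nat_lit 15) (nat_lit 4) (nat_lit 311) (nat_lit 275) (nat_lit 134)) (XT.nd (nat_lit 78) (nat_lit 152) (nat_lit 0) (XT.lf (nat_lit 0) (nat_lit 250507849368) (nat_lit 76) (nat_lit 93460966196) (nat_lit 152) (nat_lit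 63098432390) (nat_lit 13) (nat_lit 5) (nat_lit 14) (nat_lit 5) (nat_lit 15) (nat_lit 4) (nat_lit 312) (nat_lit 275) (nat_lit 133)) (XT.lf (nat_lit 0) (nat_lit 11099189318) (nat_lit 152) (nat_lit 410226496855) (nat_lit 76) (nat_lit 12735258014) (nat_lit 11) (nat_lit 5) (nat_lit 13) (nat_lit 5) (nat_lit 12) (nat_lit 4) (nat_lit 313) (nat_lit 275) (nat_lit 132))))) (XT.nd (nat_lit 156) (nat_lit 76) (nat_lit 0) (XT.nd (nat_lit 78) (nat_lit 0) (nat_lit 0) (XT.lf (nat_lit 0) (nat_lit 93399013123) (nat_lit 152) (nat_lit 241512390830) (nat_lit 76) (nat_lit 128032159748) (nat_lit 11) (nat_lit 5) (nat_lit 13) (nat_lit 5) (nat_lit 12) (nat_lit 4) (nat_lit 314) (nat_lit 275) (nat_lit 131)) (XT.lf (nat_lit 0) (nat_lit 182282550453) (nat_lit 152) (nat_lit 59301632614) (nat_lit 76) (nat_lit 252552623619) (nat_lit 11) (nat_lit 5) (nat_lit 13) (nat_lit 5) (nat_lit 12) (nat_lit 4) (nat_lit 315) (nat_lit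 275) (nat_lit 130))) (XT.nd (nat_lit 78) (nat_lit 0) (nat_lit 0) (XT.lf (nat_lit 0) (nat_lit 142031438276) (nat_lit 76) (nat_lit 138462589084) (nat_lit 152) (nat_lit 247220619188) (nat_lit 10) (nat_lit 5) (nat_lit 11) (nat_lit 5) (nat_lit 12) (nat_lit 4) (nat_lit 316) (nat_lit 275) (nat_lit 129)) (XT.nd (nat_lit 78) (nat_lit 0) (nat_lit 0) (XT.lf (nat_lit 0) (nat_lit 361588375166) (nat_lit 76) (nat_lit 26006803328) (nat_lit 152) (nat_lit 176331897550) (nat_lit 10) (nat_lit 5) (nat_lit 11) (nat_lit 5) (nat_lit 12) (nat_lit 4) (nat_lit 317) (nat_lit 275) (nat_lit 128)) (XT.lf (nat_lit 0) (nat_lit 504754367656) (nat_lit 152) (nat_lit 5817203095) (nat_lit 0) (nat_lit 92390432081) (nat_lit 10) (nat_lit 5) (nat_lit 12) (nat_lit 4) (nat_lit 10) (nat_lit 4) (nat_lit 318) (nat_lit 275) (nat_lit 127))))))) (XT.nd (nat_lit 34866) (nat_lit 0) (nat_lit 2128) (XT.nd (nat_lit 34476) (nat_lit 0) (nat_lit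 4560) (XT.nd (nat_lit 34242) (nat_lit 0) (nat_lit 5016) (XT.nd (nat_lit 34164) (nat_lit 0) (nat_lit 5016) (XT.lf (nat_lit 0) (nat_lit 212797987099) (nat_lit 76) (nat_lit 422248991720) (nat_lit 76) (nat_lit 9884710813) (nat_lit 9) (nat_lit 4) (nat_lit 10) (nat_lit 5) (nat_lit 10) (nat_lit 4) (nat_lit 319) (nat_lit 275) (nat_lit 126)) (XT.lf (nat_lit 0) (nat_lit 9104073048) (nat_lit 0) (nat_lit 9104073048) (nat_lit 684) (nat_lit 14535885235) (nat_lit 75) (nat_lit 5) (nat_lit 75) (nat_lit 3) (nat_lit 84) (nat_lit 3) (nat_lit 276) (nat_lit 276) (nat_lit 168))) (XT.nd (nat_lit 78) (nat_lit 0) (nat_lit 76) (XT.lf (nat_lit 0) (nat_lit 38337146336) (nat_lit 684) (nat_lit 2334353672) (nat_lit 760) (nat_lit 27412810014) (nat_lit 75) (nat_lit 5) (nat_lit 84) (nat_lit 3) (nat_lit 85) (nat_lit 5) (nat_lit 277) (nat_lit 276) (nat_lit 167)) (XT.nd (nat_lit 78) (nat_lit 0) (nat_lit 0) (XT.lf (nat_lit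 0) (nat_lit 41549844498) (nat_lit 684) (nat_lit 23512841279) (nat_lit 760) (nat_lit 5768669113) (nat_lit 76) (nat_lit 5) (nat_lit 85) (nat_lit 5) (nat_lit 86) (nat_lit 5) (nat_lit 278) (nat_lit 276) (nat_lit 166)) (XT.lf (nat_lit 76) (nat_lit 27420704860) (nat_lit 0) (nat_lit 18752060352) (nat_lit 760) (nat_lit 27567743823) (nat_lit 77) (nat_lit 5) (nat_lit 76) (nat_lit 5) (nat_lit 86) (nat_lit 5) (nat_lit 279) (nat_lit 276) (nat_lit 165))))) (XT.nd (nat_lit 156) (nat_lit 608) (nat_lit 0) (XT.nd (nat_lit 78) (nat_lit 0) (nat_lit 76) (XT.lf (nat_lit 76) (nat_lit 6105897244) (nat_lit 0) (nat_lit 46057463544) (nat_lit 760) (nat_lit 24669148241) (nat_lit 78) (nat_lit 5) (nat_lit 77) (nat_lit 5) (nat_lit 87) (nat_lit 5) (nat_lit 280) (nat_lit 276) (nat_lit 164)) (XT.lf (nat_lit 0) (nat_lit 59816559844) (nat_lit 684) (nat_lit 16131466674) (nat_lit 760) (nat_lit 4164679878) (nat_lit 78) (nat_lit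 5) (nat_lit 87) (nat_lit 5) (nat_lit 88) (nat_lit 5) (nat_lit 281) (nat_lit 276) (nat_lit 163))) (XT.nd (nat_lit 78) (nat_lit 684) (nat_lit 0) (XT.lf (nat_lit 76) (nat_lit 43443853787) (nat_lit 0) (nat_lit 26091420736) (nat_lit 760) (nat_lit 14047386826) (nat_lit 79) (nat_lit 5) (nat_lit 78) (nat_lit 5) (nat_lit 88) (nat_lit 5) (nat_lit 282) (nat_lit 276) (nat_lit 162)) (XT.nd (nat_lit 78) (nat_lit 76) (nat_lit 0) (XT.lf (nat_lit 0) (nat_lit 21287161886) (nat_lit 684) (nat_lit 59794068866) (nat_lit 760) (nat_lit 6196499155) (nat_lit 70) (nat_lit 5) (nat_lit 79) (nat_lit 5) (nat_lit 80) (nat_lit 5) (nat_lit 283) (nat_lit 276) (nat_lit 161)) (XT.lf (nat_lit 0) (nat_lit 3358548306) (nat_lit 760) (nat_lit 2661259988) (nat_lit 76) (nat_lit 85189360696) (nat_lit 69) (nat_lit 5) (nat_lit 79) (nat_lit 5) (nat_lit 70) (nat_lit 5) (nat_lit 284) (nat_lit 276) (nat_lit 160)))))) (XT.nd (nat_lit 390)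 (nat_lit 1064) (nat_lit 0) (XT.nd (nat_lit 156) (nat_lit 608) (nat_lit 0) (XT.nd (nat_lit 78) (nat_lit 380) (nat_lit 0) (XT.lf (nat_lit 0) (nat_lit 15352794590) (nat_lit 456) (nat_lit 28430192516) (nat_lit 76) (nat_lit 51572466101) (nat_lit 64) (nat_lit 5) (nat_lit 70) (nat_lit 5) (nat_lit 65) (nat_lit 5) (nat_lit 285) (nat_lit 276) (nat_lit 159)) (XT.lf (nat_lit 0) (nat_lit 29361602817) (nat_lit 456) (nat_lit 56382680551) (nat_lit 76) (nat_lit 14036409028) (nat_lit 59) (nat_lit 5) (nat_lit 65) (nat_lit 5) (nat_lit 60) (nat_lit 5) (nat_lit 286) (nat_lit 276) (nat_lit 158))) (XT.nd (nat_lit 78) (nat_lit 304) (nat_lit 0) (XT.lf (nat_lit 0) (nat_lit 17257227776) (nat_lit 304) (nat_lit 28743742908) (nat_lit 380) (nat_lit 58483490387) (nat_lit 55) (nat_lit 5) (nat_lit 59) (nat_lit 5) (nat_lit 60) (nat_lit 5) (nat_lit 287) (nat_lit 276) (nat_lit 157)) (XT.nd (nat_lit 78) (nat_lit 304) (nat_lit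 0) (XT.lf (nat_lit 0) (nat_lit 65480976222) (nat_lit 380) (nat_lit 11243403211) (nat_lit 76) (nat_lit 32764680265) (nat_lit 55) (nat_lit 5) (nat_lit 60) (nat_lit 5) (nat_lit 56) (nat_lit 5) (nat_lit 288) (nat_lit 276) (nat_lit 156)) (XT.lf (nat_lit 0) (nat_lit 72658838703) (nat_lit 304) (nat_lit 15478581616) (nat_lit 380) (nat_lit 26675706649) (nat_lit 51) (nat_lit 5) (nat_lit 55) (nat_lit 5) (nat_lit 56) (nat_lit 5) (nat_lit 289) (nat_lit 276) (nat_lit 155))))) (XT.nd (nat_lit 156) (nat_lit 456) (nat_lit 0) (XT.nd (nat_lit 78) (nat_lit 380) (nat_lit 0) (XT.lf (nat_lit 0) (nat_lit 43725499270) (nat_lit 228) (nat_lit 70552689685) (nat_lit 304) (nat_lit 6201342674) (nat_lit 48) (nat_lit 5) (nat_lit 51) (nat_lit 5) (nat_lit 52) (nat_lit 5) (nat_lit 290) (nat_lit 276) (nat_lit 154)) (XT.lf (nat_lit 0) (nat_lit 11256127384) (nat_lit 304) (nat_lit 5327721761) (nat_lit 380) (nat_lit 109943874488)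 (nat_lit 43) (nat_lit 5) (nat_lit 47) (nat_lit 5) (nat_lit 48) (nat_lit 5) (nat_lit 291) (nat_lit 276) (nat_lit 153))) (XT.nd (nat_lit 78) (nat_lit 456) (nat_lit 0) (XT.lf (nat_lit 0) (nat_lit 43352155358) (nat_lit 380) (nat_lit 25089210022) (nat_lit 76) (nat_lit 64494446363) (nat_lit 43) (nat_lit 5) (nat_lit 48) (nat_lit 5) (nat_lit 44) (nat_lit 5) (nat_lit 292) (nat_lit 276) (nat_lit 152)) (XT.nd (nat_lit 78) (nat_lit 228) (nat_lit 0) (XT.lf (nat_lit 0) (nat_lit 73532721928) (nat_lit 304) (nat_lit 65206164175) (nat_lit 76) (nat_lit 1054122869) (nat_lit 40) (nat_lit 5) (nat_lit 44) (nat_lit 5) (nat_lit 41) (nat_lit 5) (nat_lit 293) (nat_lit 276) (nat_lit 151)) (XT.lf (nat_lit 0) (nat_lit 35944165195) (nat_lit 228) (nat_lit 72342219281) (nat_lit 304) (nat_lit 38804466691) (nat_lit 37) (nat_lit 5) (nat_lit 40) (nat_lit 5) (nat_lit 41) (nat_lit 5) (nat_lit 294) (nat_lit 276) (nat_lit 150))))))))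
noncomputable def xc110 : XT := (XT.nd (nat_lit 1482) (nat_lit 228) (nat_lit 0) (XT.nd (nat_lit 702) (nat_lit 684) (nat_lit 0) (XT.nd (nat_lit 312) (nat_lit 532) (nat_lit 0) (XT.nd (nat_lit 156) (nat_lit 380) (nat_lit 0) (XT.nd (nat_lit 78) (nat_lit 228) (nat_lit 0) (XT.lf (nat_lit 0) (nat_lit 146964165570) (nat_lit 304) (nat_lit 7410473683) (nat_lit 76) (nat_lit 540691802) (nat_lit 37) (nat_lit 5) (nat_lit 41) (nat_lit 5) (nat_lit 38) (nat_lit 5) (nat_lit 295) (nat_lit 276) (nat_lit 149)) (XT.lf (nat_lit 0) (nat_lit 27492646930) (nat_lit 228) (nat_lit 56841997948) (nat_lit 76) (nat_lit 78864607794) (nat_lit 34) (nat_lit 5) (nat_lit 37) (nat_lit 5) (nat_lit 35) (nat_lit 5) (nat_lit 296) (nat_lit 276) (nat_lit 148))) (XT.nd (nat_lit 78) (nat_lit 152) (nat_lit 0) (XT.lf (nat_lit 0) (nat_lit 59106236685) (nat_lit 228) (nat_lit 7444229452) (nat_lit 304) (nat_lit 105536052239) (nat_lit 31)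 (nat_lit 5) (nat_lit 34) (nat_lit 5) (nat_lit 35) (nat_lit 5) (nat_lit 297) (nat_lit 276) (nat_lit 147)) (XT.lf (nat_lit 0) (nat_lit 3644069203) (nat_lit 152) (nat_lit 107331769529) (nat_lit 228) (nat_lit 70596781418) (nat_lit 29) (nat_lit 5) (nat_lit 31) (nat_lit 5) (nat_lit 32) (nat_lit 5) (nat_lit 298) (nat_lit 276) (nat_lit 146)))) (XT.nd (nat_lit 156) (nat_lit 304) (nat_lit 0) (XT.nd (nat_lit 78) (nat_lit 228) (nat_lit 0) (XT.lf (nat_lit 0) (nat_lit 133502298230) (nat_lit 152) (nat_lit 27543881826) (nat_lit 228) (nat_lit 30666884180) (nat_lit 29) (nat_lit 5) (nat_lit 31) (nat_lit 5) (nat_lit 32) (nat_lit 5) (nat_lit 299) (nat_lit 276) (nat_lit 145)) (XT.lf (nat_lit 0) (nat_lit 14138754256) (nat_lit 228) (nat_lit 130302119393) (nat_lit 76) (nat_lit 58110143226) (nat_lit 26) (nat_lit 5) (nat_lit 29) (nat_lit 5) (nat_lit 27) (nat_lit 5) (nat_lit 300) (nat_lit 276) (nat_lit 144))) (XT.nd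 (nat_lit 78) (nat_lit 152) (nat_lit 0) (XT.lf (nat_lit 0) (nat_lit 20378104) (nat_lit 152) (nat_lit 62943243049) (nat_lit 228) (nat_lit 151191788912) (nat_lit 24) (nat_lit 5) (nat_lit 26) (nat_lit 5) (nat_lit 27) (nat_lit 5) (nat_lit 301) (nat_lit 276) (nat_lit 143)) (XT.nd (nat_lit 78) (nat_lit 152) (nat_lit 0) (XT.lf (nat_lit 0) (nat_lit 118392424425) (nat_lit 228) (nat_lit 81582445199) (nat_lit 76) (nat_lit 26578388578) (nat_lit 24) (nat_lit 5) (nat_lit 27) (nat_lit 5) (nat_lit 25) (nat_lit 5) (nat_lit 302) (nat_lit 276) (nat_lit 142)) (XT.lf (nat_lit 0) (nat_lit 62513065717) (nat_lit 152) (nat_lit 117779327130) (nat_lit 228) (nat_lit 59548699083) (nat_lit 22) (nat_lit 5) (nat_lit 24) (nat_lit 5) (nat_lit 25) (nat_lit 5) (nat_lit 303) (nat_lit 276) (nat_lit 141)))))) (XT.nd (nat_lit 390) (nat_lit 304) (nat_lit 0) (XT.nd (nat_lit 156) (nat_lit 228) (nat_lit 0) (XT.nd (nat_lit 78) (nat_lit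 152) (nat_lit 0) (XT.lf (nat_lit 0) (nat_lit 221048779808) (nat_lit 152) (nat_lit 27516235583) (nat_lit 228) (nat_lit 5555904854) (nat_lit 22) (nat_lit 5) (nat_lit 24) (nat_lit 5) (nat_lit 25) (nat_lit 5) (nat_lit 304) (nat_lit 276) (nat_lit 140)) (XT.lf (nat_lit 0) (nat_lit 54171603125) (nat_lit 152) (nat_lit 144611372335) (nat_lit 76) (nat_lit 70563785224) (nat_lit 20) (nat_lit 5) (nat_lit 22) (nat_lit 5) (nat_lit 21) (nat_lit 5) (nat_lit 305) (nat_lit 276) (nat_lit 139))) (XT.nd (nat_lit 78) (nat_lit 76) (nat_lit 0) (XT.lf (nat_lit 0) (nat_lit 10350150269) (nat_lit 152) (nat_lit 109345807575) (nat_lit 228) (nat_lit 166029492188) (nat_lit 18) (nat_lit 5) (nat_lit 20) (nat_lit 5) (nat_lit 21) (nat_lit 5) (nat_lit 306) (nat_lit 276) (nat_lit 138)) (XT.nd (nat_lit 78) (nat_lit 76) (nat_lit 0) (XT.lf (nat_lit 0) (nat_lit 182871979635) (nat_lit 152) (nat_lit 10108925950) (nat_lit 228) (nat_lit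 110307597258) (nat_lit 18) (nat_lit 5) (nat_lit 20) (nat_lit 5) (nat_lit 21) (nat_lit 5) (nat_lit 307) (nat_lit 276) (nat_lit 137)) (XT.lf (nat_lit 0) (nat_lit 46924745820) (nat_lit 76) (nat_lit 227451649845) (nat_lit 152) (nat_lit 47767817394) (nat_lit 17) (nat_lit 5) (nat_lit 18) (nat_lit 5) (nat_lit 19) (nat_lit 4) (nat_lit 308) (nat_lit 276) (nat_lit 136))))) (XT.nd (nat_lit 156) (nat_lit 76) (nat_lit 0) (XT.nd (nat_lit 78) (nat_lit 152) (nat_lit 0) (XT.lf (nat_lit 0) (nat_lit 21444281562) (nat_lit 152) (nat_lit 110964330411) (nat_lit 76) (nat_lit 209969228052) (nat_lit 16) (nat_lit 5) (nat_lit 18) (nat_lit 5) (nat_lit 17) (nat_lit 5) (nat_lit 309) (nat_lit 276) (nat_lit 135)) (XT.lf (nat_lit 0) (nat_lit 67795080788) (nat_lit 152) (nat_lit 27805232392) (nat_lit 228) (nat_lit 268536664616) (nat_lit 14) (nat_lit 5) (nat_lit 16) (nat_lit 5) (nat_lit 17) (nat_lit 5) (nat_lit 310) (nat_lit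 276) (nat_lit 134))) (XT.nd (nat_lit 78) (nat_lit 76) (nat_lit 0) (XT.lf (nat_lit 0) (nat_lit 178982812434) (nat_lit 228) (nat_lit 124084367352) (nat_lit 76) (nat_lit 84404967928) (nat_lit 14) (nat_lit 5) (nat_lit 17) (nat_lit 5) (nat_lit 15) (nat_lit 4) (nat_lit 311) (nat_lit 276) (nat_lit 133)) (XT.nd (nat_lit 78) (nat_lit 0) (nat_lit 0) (XT.lf (nat_lit 0) (nat_lit 63517371466) (nat_lit 76) (nat_lit 206978779010) (nat_lit 152) (nat_lit 142104969164) (nat_lit 13) (nat_lit 5) (nat_lit 14) (nat_lit 5) (nat_lit 15) (nat_lit 4) (nat_lit 312) (nat_lit 276) (nat_lit 132)) (XT.lf (nat_lit 0) (nat_lit 270557785038) (nat_lit 76) (nat_lit 100933962017) (nat_lit 152) (nat_lit 68140603018) (nat_lit 13) (nat_lit 5) (nat_lit 14) (nat_lit 5) (nat_lit 15) (nat_lit 4) (nat_lit 313) (nat_lit 276) (nat_lit 131))))))) (XT.nd (nat_lit 34866) (nat_lit 0) (nat_lit 3420) (XT.nd (nat_lit 312) (nat_lit 0) (nat_lit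 0) (XT.nd (nat_lit 156) (nat_lit 76) (nat_lit 0) (XT.nd (nat_lit 78) (nat_lit 0) (nat_lit 0) (XT.lf (nat_lit 0) (nat_lit 11992438482) (nat_lit 152) (nat_lit 443035324349) (nat_lit 76) (nat_lit 13757785541) (nat_lit 11) (nat_lit 5) (nat_lit 13) (nat_lit 5) (nat_lit 12) (nat_lit 4) (nat_lit 314) (nat_lit 276) (nat_lit 130)) (XT.lf (nat_lit 0) (nat_lit 100875854561) (nat_lit 152) (nat_lit 260824778157) (nat_lit 76) (nat_lit 138278164830) (nat_lit 11) (nat_lit 5) (nat_lit 13) (nat_lit 5) (nat_lit 12) (nat_lit 4) (nat_lit 315) (nat_lit 276) (nat_lit 129))) (XT.nd (nat_lit 78) (nat_lit 76) (nat_lit 0) (XT.lf (nat_lit 0) (nat_lit 196869710404) (nat_lit 152) (nat_lit 64037796613) (nat_lit 76) (nat_lit 272760011566) (nat_lit 11) (nat_lit 5) (nat_lit 13) (nat_lit 5) (nat_lit 12) (nat_lit 4) (nat_lit 316) (nat_lit 276) (nat_lit 128)) (XT.lf (nat_lit 0) (nat_lit 153401573730) (nat_lit 76) (nat_lit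 149536313234) (nat_lit 152) (nat_lit 266993709953) (nat_lit 10) (nat_lit 5) (nat_lit 11) (nat_lit 5) (nat_lit 12) (nat_lit 4) (nat_lit 317) (nat_lit 276) (nat_lit 127)))) (XT.nd (nat_lit 34320) (nat_lit 0) (nat_lit 4940) (XT.nd (nat_lit 78) (nat_lit 0) (nat_lit 0) (XT.lf (nat_lit 0) (nat_lit 390522501097) (nat_lit 76) (nat_lit 28084307801) (nat_lit 152) (nat_lit 190434228271) (nat_lit 10) (nat_lit 5) (nat_lit 11) (nat_lit 5) (nat_lit 12) (nat_lit 4) (nat_lit 318) (nat_lit 276) (nat_lit 126)) (XT.lf (nat_lit 0) (nat_lit 545138479647) (nat_lit 152) (nat_lit 6275900253) (nat_lit 0) (nat_lit 99784391185) (nat_lit 10) (nat_lit 5) (nat_lit 12) (nat_lit 4) (nat_lit 10) (nat_lit 4) (nat_lit 319) (nat_lit 276) (nat_lit 125))) (XT.nd (nat_lit 78) (nat_lit 0) (nat_lit 0) (XT.lf (nat_lit 0) (nat_lit 9843163794) (nat_lit 0) (nat_lit 9843163794) (nat_lit 684) (nat_lit 15676086297) (nat_lit 75) (nat_lit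 5) (nat_lit 75) (nat_lit 3) (nat_lit 84) (nat_lit 3) (nat_lit 277) (nat_lit 277) (nat_lit 166)) (XT.nd (nat_lit 78) (nat_lit 0) (nat_lit 76) (XT.lf (nat_lit 0) (nat_lit 41443676808) (nat_lit 684) (nat_lit 2498744697) (nat_lit 760) (nat_lit 29586537857) (nat_lit 75) (nat_lit 5) (nat_lit 84) (nat_lit 3) (nat_lit 85) (nat_lit 5) (nat_lit 278) (nat_lit 277) (nat_lit 165)) (XT.lf (nat_lit 0) (nat_lit 44910551237) (nat_lit 684) (nat_lit 25370282798) (nat_lit 760) (nat_lit 6215084468) (nat_lit 76) (nat_lit 5) (nat_lit 85) (nat_lit 5) (nat_lit 86) (nat_lit 5) (nat_lit 279) (nat_lit 277) (nat_lit 164)))))) (XT.nd (nat_lit 390) (nat_lit 1140) (nat_lit 0) (XT.nd (nat_lit 156) (nat_lit 456) (nat_lit 0) (XT.nd (nat_lit 78) (nat_lit 0) (nat_lit 76) (XT.lf (nat_lit 76) (nat_lit 29636922022) (nat_lit 0) (nat_lit 20264015884) (nat_lit 760) (nat_lit 29736993520) (nat_lit 77) (nat_lit 5) (nat_lit 76) (nat_lit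 5) (nat_lit 86) (nat_lit 5) (nat_lit 280) (nat_lit 277) (nat_lit 163)) (XT.lf (nat_lit 76) (nat_lit 6617864728) (nat_lit 0) (nat_lit 49750568230) (nat_lit 760) (nat_lit 26608983333) (nat_lit 78) (nat_lit 5) (nat_lit 77) (nat_lit 5) (nat_lit 87) (nat_lit 5) (nat_lit 281) (nat_lit 277) (nat_lit 162))) (XT.nd (nat_lit 78) (nat_lit 608) (nat_lit 0) (XT.lf (nat_lit 0) (nat_lit 64631394335) (nat_lit 684) (nat_lit 17398537719) (nat_lit 760) (nat_lit 4490228984) (nat_lit 78) (nat_lit 5) (nat_lit 87) (nat_lit 5) (nat_lit 88) (nat_lit 5) (nat_lit 282) (nat_lit 277) (nat_lit 161)) (XT.nd (nat_lit 78) (nat_lit 608) (nat_lit 0) (XT.lf (nat_lit 76) (nat_lit 46941789431) (nat_lit 0) (nat_lit 28183981007) (nat_lit 760) (nat_lit 15142040137) (nat_lit 79) (nat_lit 5) (nat_lit 78) (nat_lit 5) (nat_lit 88) (nat_lit 5) (nat_lit 283) (nat_lit 277) (nat_lit 160)) (XT.lf (nat_lit 0) (nat_lit 23013065941) (nat_lit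 684) (nat_lit 64580569475) (nat_lit 760) (nat_lit 6664943515) (nat_lit 70) (nat_lit 5) (nat_lit 79) (nat_lit 5) (nat_lit 80) (nat_lit 5) (nat_lit 284) (nat_lit 277) (nat_lit 159))))) (XT.nd (nat_lit 156) (nat_lit 684) (nat_lit 0) (XT.nd (nat_lit 78) (nat_lit 380) (nat_lit 0) (XT.lf (nat_lit 0) (nat_lit 3651679008) (nat_lit 760) (nat_lit 2852054653) (nat_lit 76) (nat_lit 92000881198) (nat_lit 69) (nat_lit 5) (nat_lit 79) (nat_lit 5) (nat_lit 70) (nat_lit 5) (nat_lit 285) (nat_lit 277) (nat_lit 158)) (XT.lf (nat_lit 0) (nat_lit 16603955831) (nat_lit 456) (nat_lit 30682225286) (nat_lit 76) (nat_lit 55696500990) (nat_lit 64) (nat_lit 5) (nat_lit 70) (nat_lit 5) (nat_lit 65) (nat_lit 5) (nat_lit 286) (nat_lit 277) (nat_lit 157))) (XT.nd (nat_lit 78) (nat_lit 304) (nat_lit 0) (XT.lf (nat_lit 0) (nat_lit 31732101354) (nat_lit 456) (nat_lit 60870747909) (nat_lit 76) (nat_lit 15159164018) (nat_lit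 59) (nat_lit 5) (nat_lit 65) (nat_lit 5) (nat_lit 60) (nat_lit 5) (nat_lit 287) (nat_lit 277) (nat_lit 156)) (XT.nd (nat_lit 78) (nat_lit 0) (nat_lit 0) (XT.lf (nat_lit 0) (nat_lit 18659373216) (nat_lit 304) (nat_lit 31041984359) (nat_lit 380) (nat_lit 63140793077) (nat_lit 55) (nat_lit 5) (nat_lit 59) (nat_lit 5) (nat_lit 60) (nat_lit 5) (nat_lit 288) (nat_lit 277) (nat_lit 155)) (XT.lf (nat_lit 0) (nat_lit 70738277354) (nat_lit 380) (nat_lit 12121935762) (nat_lit 76) (nat_lit 35386982204) (nat_lit 55) (nat_lit 5) (nat_lit 60) (nat_lit 5) (nat_lit 56) (nat_lit 5) (nat_lit 289) (nat_lit 277) (nat_lit 154))))))))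
noncomputable def xc111 : XT := (XT.nd (nat_lit 1482) (nat_lit 608) (nat_lit 0) (XT.nd (nat_lit 702) (nat_lit 988) (nat_lit 0) (XT.nd (nat_lit 312) (nat_lit 912) (nat_lit 0) (XT.nd (nat_lit 156) (nat_lit 380) (nat_lit 0) (XT.nd (nat_lit 78) (nat_lit 228) (nat_lit 0) (XT.lf (nat_lit 0) (nat_lit 78491575492) (nat_lit 304) (nat_lit 16714579907) (nat_lit 380) (nat_lit 28791090206) (nat_lit 51) (nat_lit 5) (nat_lit 55) (nat_lit 5) (nat_lit 56) (nat_lit 5) (nat_lit 290) (nat_lit 277) (nat_lit 153)) (XT.lf (nat_lit 0) (nat_lit 47243555303) (nat_lit 228) (nat_lit 76193661627) (nat_lit 304) (nat_lit 6679797430) (nat_lit 48) (nat_lit 5) (nat_lit 51) (nat_lit 5) (nat_lit 52) (nat_lit 5) (nat_lit 291) (nat_lit 277) (nat_lit 152))) (XT.nd (nat_lit 78) (nat_lit 0) (nat_lit 0) (XT.lf (nat_lit 0) (nat_lit 12176341724) (nat_lit 304) (nat_lit 5750345211) (nat_lit 380) (nat_lit 118722411803) (nat_lit 43)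 (nat_lit 5) (nat_lit 47) (nat_lit 5) (nat_lit 48) (nat_lit 5) (nat_lit 292) (nat_lit 277) (nat_lit 151)) (XT.lf (nat_lit 0) (nat_lit 46835314802) (nat_lit 380) (nat_lit 27077355326) (nat_lit 76) (nat_lit 69657223601) (nat_lit 43) (nat_lit 5) (nat_lit 48) (nat_lit 5) (nat_lit 44) (nat_lit 5) (nat_lit 293) (nat_lit 277) (nat_lit 150)))) (XT.nd (nat_lit 156) (nat_lit 456) (nat_lit 0) (XT.nd (nat_lit 78) (nat_lit 228) (nat_lit 0) (XT.lf (nat_lit 0) (nat_lit 79429562712) (nat_lit 304) (nat_lit 70403814558) (nat_lit 76) (nat_lit 1142330153) (nat_lit 40) (nat_lit 5) (nat_lit 44) (nat_lit 5) (nat_lit 41) (nat_lit 5) (nat_lit 294) (nat_lit 277) (nat_lit 149)) (XT.lf (nat_lit 0) (nat_lit 38837722278) (nat_lit 228) (nat_lit 78125023830) (nat_lit 304) (nat_lit 41894671798) (nat_lit 37) (nat_lit 5) (nat_lit 40) (nat_lit 5) (nat_lit 41) (nat_lit 5) (nat_lit 295) (nat_lit 277) (nat_lit 148))) (XT.nd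 (nat_lit 78) (nat_lit 456) (nat_lit 0) (XT.lf (nat_lit 0) (nat_lit 158733819438) (nat_lit 304) (nat_lit 7986039518) (nat_lit 76) (nat_lit 588045877) (nat_lit 37) (nat_lit 5) (nat_lit 41) (nat_lit 5) (nat_lit 38) (nat_lit 5) (nat_lit 296) (nat_lit 277) (nat_lit 147)) (XT.nd (nat_lit 78) (nat_lit 228) (nat_lit 0) (XT.lf (nat_lit 0) (nat_lit 29704127990) (nat_lit 228) (nat_lit 61372413758) (nat_lit 76) (nat_lit 85178024150) (nat_lit 34) (nat_lit 5) (nat_lit 37) (nat_lit 5) (nat_lit 35) (nat_lit 5) (nat_lit 297) (nat_lit 277) (nat_lit 146)) (XT.lf (nat_lit 0) (nat_lit 63850943280) (nat_lit 228) (nat_lit 8034988478) (nat_lit 304) (nat_lit 113966914891) (nat_lit 31) (nat_lit 5) (nat_lit 34) (nat_lit 5) (nat_lit 35) (nat_lit 5) (nat_lit 298) (nat_lit 277) (nat_lit 145)))))) (XT.nd (nat_lit 390) (nat_lit 456) (nat_lit 0) (XT.nd (nat_lit 156) (nat_lit 380) (nat_lit 0) (XT.nd (nat_lit 78) (nat_lit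 0) (nat_lit 0) (XT.lf (nat_lit 0) (nat_lit 3951594076) (nat_lit 152) (nat_lit 115913212427) (nat_lit 228) (nat_lit 76233058058) (nat_lit 29) (nat_lit 5) (nat_lit 31) (nat_lit 5) (nat_lit 32) (nat_lit 5) (nat_lit 299) (nat_lit 277) (nat_lit 144)) (XT.lf (nat_lit 0) (nat_lit 144197296289) (nat_lit 152) (nat_lit 29742671386) (nat_lit 228) (nat_lit 33109618365) (nat_lit 29) (nat_lit 5) (nat_lit 31) (nat_lit 5) (nat_lit 32) (nat_lit 5) (nat_lit 300) (nat_lit 277) (nat_lit 143))) (XT.nd (nat_lit 78) (nat_lit 152) (nat_lit 0) (XT.lf (nat_lit 0) (nat_lit 15279671167) (nat_lit 228) (nat_lit 140711347417) (nat_lit 76) (nat_lit 62763572345) (nat_lit 26) (nat_lit 5) (nat_lit 29) (nat_lit 5) (nat_lit 27) (nat_lit 5) (nat_lit 301) (nat_lit 277) (nat_lit 142)) (XT.nd (nat_lit 78) (nat_lit 0) (nat_lit 0) (XT.lf (nat_lit 0) (nat_lit 36300539) (nat_lit 152) (nat_lit 67973722865) (nat_lit 228) (nat_lit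 163277338591) (nat_lit 24) (nat_lit 5) (nat_lit 26) (nat_lit 5) (nat_lit 27) (nat_lit 5) (nat_lit 302) (nat_lit 277) (nat_lit 141)) (XT.lf (nat_lit 0) (nat_lit 127872513106) (nat_lit 228) (nat_lit 88095434041) (nat_lit 76) (nat_lit 28709122858) (nat_lit 24) (nat_lit 5) (nat_lit 27) (nat_lit 5) (nat_lit 25) (nat_lit 5) (nat_lit 303) (nat_lit 277) (nat_lit 140))))) (XT.nd (nat_lit 156) (nat_lit 304) (nat_lit 0) (XT.nd (nat_lit 78) (nat_lit 0) (nat_lit 0) (XT.lf (nat_lit 0) (nat_lit 67527126414) (nat_lit 152) (nat_lit 127196911740) (nat_lit 228) (nat_lit 64303915363) (nat_lit 22) (nat_lit 5) (nat_lit 24) (nat_lit 5) (nat_lit 25) (nat_lit 5) (nat_lit 304) (nat_lit 277) (nat_lit 139)) (XT.lf (nat_lit 0) (nat_lit 238744733527) (nat_lit 152) (nat_lit 29713125577) (nat_lit 228) (nat_lit 5992340533) (nat_lit 22) (nat_lit 5) (nat_lit 24) (nat_lit 5) (nat_lit 25) (nat_lit 5) (nat_lit 305) (nat_lit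 277) (nat_lit 138))) (XT.nd (nat_lit 78) (nat_lit 152) (nat_lit 0) (XT.lf (nat_lit 0) (nat_lit 58512787250) (nat_lit 152) (nat_lit 156168186074) (nat_lit 76) (nat_lit 76213144748) (nat_lit 20) (nat_lit 5) (nat_lit 22) (nat_lit 5) (nat_lit 21) (nat_lit 5) (nat_lit 306) (nat_lit 277) (nat_lit 137)) (XT.nd (nat_lit 78) (nat_lit 0) (nat_lit 0) (XT.lf (nat_lit 0) (nat_lit 11189732659) (nat_lit 152) (nat_lit 118088986046) (nat_lit 228) (nat_lit 179304403235) (nat_lit 18) (nat_lit 5) (nat_lit 20) (nat_lit 5) (nat_lit 21) (nat_lit 5) (nat_lit 307) (nat_lit 277) (nat_lit 136)) (XT.lf (nat_lit 0) (nat_lit 197512451310) (nat_lit 152) (nat_lit 10913486197) (nat_lit 228) (nat_lit 119125308438) (nat_lit 18) (nat_lit 5) (nat_lit 20) (nat_lit 5) (nat_lit 21) (nat_lit 5) (nat_lit 308) (nat_lit 277) (nat_lit 135))))))) (XT.nd (nat_lit 780) (nat_lit 0) (nat_lit 0) (XT.nd (nat_lit 390) (nat_lit 228) (nat_lit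 0) (XT.nd (nat_lit 156) (nat_lit 228) (nat_lit 0) (XT.nd (nat_lit 78) (nat_lit 76) (nat_lit 0) (XT.lf (nat_lit 0) (nat_lit 50689233642) (nat_lit 76) (nat_lit 245643571375) (nat_lit 152) (nat_lit 51582621728) (nat_lit 17) (nat_lit 5) (nat_lit 18) (nat_lit 5) (nat_lit 19) (nat_lit 4) (nat_lit 309) (nat_lit 277) (nat_lit 134)) (XT.lf (nat_lit 0) (nat_lit 23165758478) (nat_lit 152) (nat_lit 119831543379) (nat_lit 76) (nat_lit 226770461179) (nat_lit 16) (nat_lit 5) (nat_lit 18) (nat_lit 5) (nat_lit 17) (nat_lit 5) (nat_lit 310) (nat_lit 277) (nat_lit 133))) (XT.nd (nat_lit 78) (nat_lit 76) (nat_lit 0) (XT.lf (nat_lit 0) (nat_lit 73228189019) (nat_lit 152) (nat_lit 30025792371) (nat_lit 228) (nat_lit 290013665553) (nat_lit 14) (nat_lit 5) (nat_lit 16) (nat_lit 5) (nat_lit 17) (nat_lit 5) (nat_lit 311) (nat_lit 277) (nat_lit 132)) (XT.nd (nat_lit 78) (nat_lit 76) (nat_lit 0) (XT.lf (nat_lit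 0) (nat_lit 193306718354) (nat_lit 228) (nat_lit 134002106925) (nat_lit 76) (nat_lit 91160823800) (nat_lit 14) (nat_lit 5) (nat_lit 17) (nat_lit 5) (nat_lit 15) (nat_lit 4) (nat_lit 312) (nat_lit 277) (nat_lit 131)) (XT.lf (nat_lit 0) (nat_lit 68607379443) (nat_lit 76) (nat_lit 223533487372) (nat_lit 152) (nat_lit 153468085249) (nat_lit 13) (nat_lit 5) (nat_lit 14) (nat_lit 5) (nat_lit 15) (nat_lit 4) (nat_lit 313) (nat_lit 277) (nat_lit 130))))) (XT.nd (nat_lit 156) (nat_lit 76) (nat_lit 0) (XT.nd (nat_lit 78) (nat_lit 152) (nat_lit 0) (XT.lf (nat_lit 0) (nat_lit 292210387711) (nat_lit 76) (nat_lit 109005351238) (nat_lit 152) (nat_lit 73586961030) (nat_lit 13) (nat_lit 5) (nat_lit 14) (nat_lit 5) (nat_lit 15) (nat_lit 4) (nat_lit 314) (nat_lit 277) (nat_lit 129)) (XT.lf (nat_lit 0) (nat_lit 12956389475) (nat_lit 152) (nat_lit 478470183687) (nat_lit 76) (nat_lit 14861586442) (nat_lit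 11) (nat_lit 5) (nat_lit 13) (nat_lit 5) (nat_lit 12) (nat_lit 4) (nat_lit 315) (nat_lit 277) (nat_lit 128))) (XT.nd (nat_lit 78) (nat_lit 76) (nat_lit 0) (XT.lf (nat_lit 0) (nat_lit 108950141365) (nat_lit 152) (nat_lit 281683383919) (nat_lit 76) (nat_lit 149343360663) (nat_lit 11) (nat_lit 5) (nat_lit 13) (nat_lit 5) (nat_lit 12) (nat_lit 4) (nat_lit 316) (nat_lit 277) (nat_lit 127)) (XT.nd (nat_lit 78) (nat_lit 76) (nat_lit 0) (XT.lf (nat_lit 0) (nat_lit 212623193198) (nat_lit 152) (nat_lit 69153990257) (nat_lit 76) (nat_lit 294583537163) (nat_lit 11) (nat_lit 5) (nat_lit 13) (nat_lit 5) (nat_lit 12) (nat_lit 4) (nat_lit 317) (nat_lit 277) (nat_lit 126)) (XT.lf (nat_lit 0) (nat_lit 165680232885) (nat_lit 76) (nat_lit 161496403670) (nat_lit 152) (nat_lit 288349298339) (nat_lit 10) (nat_lit 5) (nat_lit 11) (nat_lit 5) (nat_lit 12) (nat_lit 4) (nat_lit 318) (nat_lit 277) (nat_lit 125))))))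 (XT.nd (nat_lit 34632) (nat_lit 0) (nat_lit 4484) (XT.nd (nat_lit 34398) (nat_lit 0) (nat_lit 4940) (XT.nd (nat_lit 34320) (nat_lit 0) (nat_lit 4940) (XT.lf (nat_lit 0) (nat_lit 421770350497) (nat_lit 76) (nat_lit 30328446293) (nat_lit 152) (nat_lit 205665347634) (nat_lit 10) (nat_lit 5) (nat_lit 11) (nat_lit 5) (nat_lit 12) (nat_lit 4) (nat_lit 319) (nat_lit 277) (nat_lit 124)) (XT.lf (nat_lit 0) (nat_lit 10639846066) (nat_lit 0) (nat_lit 10639846066) (nat_lit 684) (nat_lit 16910737539) (nat_lit 75) (nat_lit 5) (nat_lit 75) (nat_lit 3) (nat_lit 84) (nat_lit 3) (nat_lit 278) (nat_lit 278) (nat_lit 164))) (XT.nd (nat_lit 78) (nat_lit 0) (nat_lit 76) (XT.lf (nat_lit 0) (nat_lit 44793086217) (nat_lit 684) (nat_lit 2679476519) (nat_lit 760) (nat_lit 31936916854) (nat_lit 75) (nat_lit 5) (nat_lit 84) (nat_lit 3) (nat_lit 85) (nat_lit 5) (nat_lit 279) (nat_lit 278) (nat_lit 163)) (XT.nd (nat_lit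 78) (nat_lit 0) (nat_lit 0) (XT.lf (nat_lit 0) (nat_lit 48534876115) (nat_lit 684) (nat_lit 27379684416) (nat_lit 760) (nat_lit 6699364121) (nat_lit 76) (nat_lit 5) (nat_lit 85) (nat_lit 5) (nat_lit 86) (nat_lit 5) (nat_lit 280) (nat_lit 278) (nat_lit 162)) (XT.lf (nat_lit 76) (nat_lit 32027218010) (nat_lit 0) (nat_lit 21895245783) (nat_lit 760) (nat_lit 32084943221) (nat_lit 77) (nat_lit 5) (nat_lit 76) (nat_lit 5) (nat_lit 86) (nat_lit 5) (nat_lit 281) (nat_lit 278) (nat_lit 161))))) (XT.nd (nat_lit 156) (nat_lit 608) (nat_lit 0) (XT.nd (nat_lit 78) (nat_lit 0) (nat_lit 76) (XT.lf (nat_lit 76) (nat_lit 7167437686) (nat_lit 0) (nat_lit 53737907587) (nat_lit 760) (nat_lit 28708812454) (nat_lit 78) (nat_lit 5) (nat_lit 77) (nat_lit 5) (nat_lit 87) (nat_lit 5) (nat_lit 282) (nat_lit 278) (nat_lit 160)) (XT.lf (nat_lit 0) (nat_lit 69827205697) (nat_lit 684) (nat_lit 18770319324) (nat_lit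 760) (nat_lit 4842909851) (nat_lit 78) (nat_lit 5) (nat_lit 87) (nat_lit 5) (nat_lit 88) (nat_lit 5) (nat_lit 283) (nat_lit 278) (nat_lit 159))) (XT.nd (nat_lit 78) (nat_lit 684) (nat_lit 0) (XT.lf (nat_lit 76) (nat_lit 50716360416) (nat_lit 0) (nat_lit 30443197612) (nat_lit 760) (nat_lit 16328422522) (nat_lit 79) (nat_lit 5) (nat_lit 78) (nat_lit 5) (nat_lit 88) (nat_lit 5) (nat_lit 284) (nat_lit 278) (nat_lit 158)) (XT.nd (nat_lit 78) (nat_lit 76) (nat_lit 0) (XT.lf (nat_lit 0) (nat_lit 24873770941) (nat_lit 684) (nat_lit 69749565702) (nat_lit 760) (nat_lit 7174754588) (nat_lit 70) (nat_lit 5) (nat_lit 79) (nat_lit 5) (nat_lit 80) (nat_lit 5) (nat_lit 285) (nat_lit 278) (nat_lit 157)) (XT.lf (nat_lit 0) (nat_lit 3964772551) (nat_lit 760) (nat_lit 3061266578) (nat_lit 76) (nat_lit 99357840966) (nat_lit 69) (nat_lit 5) (nat_lit 79) (nat_lit 5) (nat_lit 70) (nat_lit 5) (nat_lit 286) (nat_lit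 278) (nat_lit 156))))))))
noncomputable def xc112 : XT := (XT.nd (nat_lit 1482) (nat_lit 912) (nat_lit 0) (XT.nd (nat_lit 702) (nat_lit 1368) (nat_lit 0) (XT.nd (nat_lit 312) (nat_lit 1140) (nat_lit 0) (XT.nd (nat_lit 156) (nat_lit 304) (nat_lit 0) (XT.nd (nat_lit 78) (nat_lit 380) (nat_lit 0) (XT.lf (nat_lit 0) (nat_lit 17951937656) (nat_lit 456) (nat_lit 33117613811) (nat_lit 76) (nat_lit 60150710097) (nat_lit 64) (nat_lit 5) (nat_lit 70) (nat_lit 5) (nat_lit 65) (nat_lit 5) (nat_lit 287) (nat_lit 278) (nat_lit 155)) (XT.lf (nat_lit 0) (nat_lit 34289162528) (nat_lit 456) (nat_lit 65721077248) (nat_lit 76) (nat_lit 16371761910) (nat_lit 59) (nat_lit 5) (nat_lit 65) (nat_lit 5) (nat_lit 60) (nat_lit 5) (nat_lit 288) (nat_lit 278) (nat_lit 154))) (XT.nd (nat_lit 78) (nat_lit 0) (nat_lit 0) (XT.lf (nat_lit 0) (nat_lit 20170613487) (nat_lit 304) (nat_lit 33524264590) (nat_lit 380) (nat_lit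 68173729584) (nat_lit 55) (nat_lit 5) (nat_lit 59) (nat_lit 5) (nat_lit 60) (nat_lit 5) (nat_lit 289) (nat_lit 278) (nat_lit 153)) (XT.lf (nat_lit 0) (nat_lit 76413477259) (nat_lit 380) (nat_lit 13073738199) (nat_lit 76) (nat_lit 38218907446) (nat_lit 55) (nat_lit 5) (nat_lit 60) (nat_lit 5) (nat_lit 56) (nat_lit 5) (nat_lit 290) (nat_lit 278) (nat_lit 152)))) (XT.nd (nat_lit 156) (nat_lit 608) (nat_lit 0) (XT.nd (nat_lit 78) (nat_lit 228) (nat_lit 0) (XT.lf (nat_lit 0) (nat_lit 84788073764) (nat_lit 304) (nat_lit 18049784504) (nat_lit 380) (nat_lit 31078368356) (nat_lit 51) (nat_lit 5) (nat_lit 55) (nat_lit 5) (nat_lit 56) (nat_lit 5) (nat_lit 291) (nat_lit 278) (nat_lit 151)) (XT.lf (nat_lit 0) (nat_lit 51040200300) (nat_lit 228) (nat_lit 82286374009) (nat_lit 304) (nat_lit 7199046916) (nat_lit 48) (nat_lit 5) (nat_lit 51) (nat_lit 5) (nat_lit 52) (nat_lit 5) (nat_lit 292) (nat_lit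 278) (nat_lit 150))) (XT.nd (nat_lit 78) (nat_lit 228) (nat_lit 0) (XT.lf (nat_lit 0) (nat_lit 13167359342) (nat_lit 304) (nat_lit 6207291302) (nat_lit 380) (nat_lit 128205653441) (nat_lit 43) (nat_lit 5) (nat_lit 47) (nat_lit 5) (nat_lit 48) (nat_lit 5) (nat_lit 293) (nat_lit 278) (nat_lit 149)) (XT.nd (nat_lit 78) (nat_lit 228) (nat_lit 0) (XT.lf (nat_lit 0) (nat_lit 50594988935) (nat_lit 380) (nat_lit 29227261603) (nat_lit 76) (nat_lit 75232563431) (nat_lit 43) (nat_lit 5) (nat_lit 48) (nat_lit 5) (nat_lit 44) (nat_lit 5) (nat_lit 294) (nat_lit 278) (nat_lit 148)) (XT.lf (nat_lit 0) (nat_lit 85796121684) (nat_lit 304) (nat_lit 76019965101) (nat_lit 76) (nat_lit 1237040858) (nat_lit 40) (nat_lit 5) (nat_lit 44) (nat_lit 5) (nat_lit 41) (nat_lit 5) (nat_lit 295) (nat_lit 278) (nat_lit 147)))))) (XT.nd (nat_lit 390) (nat_lit 532) (nat_lit 0) (XT.nd (nat_lit 156) (nat_lit 608) (nat_lit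 0) (XT.nd (nat_lit 78) (nat_lit 0) (nat_lit 0) (XT.lf (nat_lit 0) (nat_lit 41960192622) (nat_lit 228) (nat_lit 84371105133) (nat_lit 304) (nat_lit 45234112287) (nat_lit 37) (nat_lit 5) (nat_lit 40) (nat_lit 5) (nat_lit 41) (nat_lit 5) (nat_lit 296) (nat_lit 278) (nat_lit 146)) (XT.lf (nat_lit 0) (nat_lit 171443259409) (nat_lit 304) (nat_lit 8610114672) (nat_lit 76) (nat_lit 638603547) (nat_lit 37) (nat_lit 5) (nat_lit 41) (nat_lit 5) (nat_lit 38) (nat_lit 5) (nat_lit 297) (nat_lit 278) (nat_lit 145))) (XT.nd (nat_lit 78) (nat_lit 380) (nat_lit 0) (XT.lf (nat_lit 0) (nat_lit 32090805713) (nat_lit 228) (nat_lit 66267680087) (nat_lit 76) (nat_lit 91995907828) (nat_lit 34) (nat_lit 5) (nat_lit 37) (nat_lit 5) (nat_lit 35) (nat_lit 5) (nat_lit 298) (nat_lit 278) (nat_lit 144)) (XT.nd (nat_lit 78) (nat_lit 152) (nat_lit 0) (XT.lf (nat_lit 0) (nat_lit 68972914198) (nat_lit 228) (nat_lit 8673690051)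 (nat_lit 304) (nat_lit 123073961561) (nat_lit 31) (nat_lit 5) (nat_lit 34) (nat_lit 5) (nat_lit 35) (nat_lit 5) (nat_lit 299) (nat_lit 278) (nat_lit 143)) (XT.lf (nat_lit 0) (nat_lit 4281438455) (nat_lit 152) (nat_lit 125181898138) (nat_lit 228) (nat_lit 82321872564) (nat_lit 29) (nat_lit 5) (nat_lit 31) (nat_lit 5) (nat_lit 32) (nat_lit 5) (nat_lit 300) (nat_lit 278) (nat_lit 142))))) (XT.nd (nat_lit 156) (nat_lit 304) (nat_lit 0) (XT.nd (nat_lit 78) (nat_lit 228) (nat_lit 0) (XT.lf (nat_lit 0) (nat_lit 155745780782) (nat_lit 152) (nat_lit 32118037613) (nat_lit 228) (nat_lit 35749285854) (nat_lit 29) (nat_lit 5) (nat_lit 31) (nat_lit 5) (nat_lit 32) (nat_lit 5) (nat_lit 301) (nat_lit 278) (nat_lit 141)) (XT.lf (nat_lit 0) (nat_lit 16510460988) (nat_lit 228) (nat_lit 151955445259) (nat_lit 76) (nat_lit 67788617032) (nat_lit 26) (nat_lit 5) (nat_lit 29) (nat_lit 5) (nat_lit 27) (nat_lit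 5) (nat_lit 302) (nat_lit 278) (nat_lit 140))) (XT.nd (nat_lit 78) (nat_lit 152) (nat_lit 0) (XT.lf (nat_lit 0) (nat_lit 51457829) (nat_lit 152) (nat_lit 73407351465) (nat_lit 228) (nat_lit 176331129387) (nat_lit 24) (nat_lit 5) (nat_lit 26) (nat_lit 5) (nat_lit 27) (nat_lit 5) (nat_lit 303) (nat_lit 278) (nat_lit 139)) (XT.nd (nat_lit 78) (nat_lit 152) (nat_lit 0) (XT.lf (nat_lit 0) (nat_lit 138109768481) (nat_lit 228) (nat_lit 95131403148) (nat_lit 76) (nat_lit 31009679156) (nat_lit 24) (nat_lit 5) (nat_lit 27) (nat_lit 5) (nat_lit 25) (nat_lit 5) (nat_lit 304) (nat_lit 278) (nat_lit 138)) (XT.lf (nat_lit 0) (nat_lit 72940455170) (nat_lit 152) (nat_lit 137368582408) (nat_lit 228) (nat_lit 69440787194) (nat_lit 22) (nat_lit 5) (nat_lit 24) (nat_lit 5) (nat_lit 25) (nat_lit 5) (nat_lit 305) (nat_lit 278) (nat_lit 137))))))) (XT.nd (nat_lit 702) (nat_lit 228) (nat_lit 0) (XT.nd (nat_lit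 312) (nat_lit 380) (nat_lit 0) (XT.nd (nat_lit 156) (nat_lit 152) (nat_lit 0) (XT.nd (nat_lit 78) (nat_lit 152) (nat_lit 0) (XT.lf (nat_lit 0) (nat_lit 257854644285) (nat_lit 152) (nat_lit 32086395743) (nat_lit 228) (nat_lit 6464837592) (nat_lit 22) (nat_lit 5) (nat_lit 24) (nat_lit 5) (nat_lit 25) (nat_lit 5) (nat_lit 306) (nat_lit 278) (nat_lit 136)) (XT.lf (nat_lit 0) (nat_lit 63200202441) (nat_lit 152) (nat_lit 168651270548) (nat_lit 76) (nat_lit 82313845768) (nat_lit 20) (nat_lit 5) (nat_lit 22) (nat_lit 5) (nat_lit 21) (nat_lit 5) (nat_lit 307) (nat_lit 278) (nat_lit 135))) (XT.nd (nat_lit 78) (nat_lit 0) (nat_lit 0) (XT.lf (nat_lit 0) (nat_lit 12094830999) (nat_lit 152) (nat_lit 127532258792) (nat_lit 228) (nat_lit 193642369753) (nat_lit 18) (nat_lit 5) (nat_lit 20) (nat_lit 5) (nat_lit 21) (nat_lit 5) (nat_lit 308) (nat_lit 278) (nat_lit 134)) (XT.lf (nat_lit 0) (nat_lit 213322632347)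 (nat_lit 152) (nat_lit 11783003854) (nat_lit 228) (nat_lit 128649420390) (nat_lit 18) (nat_lit 5) (nat_lit 20) (nat_lit 5) (nat_lit 21) (nat_lit 5) (nat_lit 309) (nat_lit 278) (nat_lit 133)))) (XT.nd (nat_lit 156) (nat_lit 228) (nat_lit 0) (XT.nd (nat_lit 78) (nat_lit 76) (nat_lit 0) (XT.lf (nat_lit 0) (nat_lit 54753381384) (nat_lit 76) (nat_lit 265291447297) (nat_lit 152) (nat_lit 55703554977) (nat_lit 17) (nat_lit 5) (nat_lit 18) (nat_lit 5) (nat_lit 19) (nat_lit 4) (nat_lit 310) (nat_lit 278) (nat_lit 132)) (XT.lf (nat_lit 0) (nat_lit 25024106940) (nat_lit 152) (nat_lit 129409550505) (nat_lit 76) (nat_lit 244915265839) (nat_lit 16) (nat_lit 5) (nat_lit 18) (nat_lit 5) (nat_lit 17) (nat_lit 5) (nat_lit 311) (nat_lit 278) (nat_lit 131))) (XT.nd (nat_lit 78) (nat_lit 76) (nat_lit 0) (XT.lf (nat_lit 0) (nat_lit 79094590375) (nat_lit 152) (nat_lit 32424547622) (nat_lit 228) (nat_lit 313209672864)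 (nat_lit 14) (nat_lit 5) (nat_lit 16) (nat_lit 5) (nat_lit 17) (nat_lit 5) (nat_lit 312) (nat_lit 278) (nat_lit 130)) (XT.nd (nat_lit 78) (nat_lit 76) (nat_lit 0) (XT.lf (nat_lit 0) (nat_lit 208775783365) (nat_lit 228) (nat_lit 144714551015) (nat_lit 76) (nat_lit 98456654757) (nat_lit 14) (nat_lit 5) (nat_lit 17) (nat_lit 5) (nat_lit 15) (nat_lit 4) (nat_lit 313) (nat_lit 278) (nat_lit 129)) (XT.lf (nat_lit 0) (nat_lit 74103358567) (nat_lit 76) (nat_lit 241413085122) (nat_lit 152) (nat_lit 165741004079) (nat_lit 13) (nat_lit 5) (nat_lit 14) (nat_lit 5) (nat_lit 15) (nat_lit 4) (nat_lit 314) (nat_lit 278) (nat_lit 128)))))) (XT.nd (nat_lit 34710) (nat_lit 0) (nat_lit 4940) (XT.nd (nat_lit 156) (nat_lit 76) (nat_lit 0) (XT.nd (nat_lit 78) (nat_lit 152) (nat_lit 0) (XT.lf (nat_lit 0) (nat_lit 315594060180) (nat_lit 76) (nat_lit 117722926337) (nat_lit 152) (nat_lit 79469725329) (nat_lit 13)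 (nat_lit 5) (nat_lit 14) (nat_lit 5) (nat_lit 15) (nat_lit 4) (nat_lit 315) (nat_lit 278) (nat_lit 127)) (XT.lf (nat_lit 0) (nat_lit 13996806595) (nat_lit 152) (nat_lit 516740968297) (nat_lit 76) (nat_lit 16053238029) (nat_lit 11) (nat_lit 5) (nat_lit 13) (nat_lit 5) (nat_lit 12) (nat_lit 4) (nat_lit 316) (nat_lit 278) (nat_lit 126))) (XT.nd (nat_lit 78) (nat_lit 76) (nat_lit 0) (XT.lf (nat_lit 0) (nat_lit 117669769306) (nat_lit 152) (nat_lit 304211730480) (nat_lit 76) (nat_lit 161293352360) (nat_lit 11) (nat_lit 5) (nat_lit 13) (nat_lit 5) (nat_lit 12) (nat_lit 4) (nat_lit 317) (nat_lit 278) (nat_lit 125)) (XT.nd (nat_lit 78) (nat_lit 76) (nat_lit 0) (XT.lf (nat_lit 0) (nat_lit 229636397387) (nat_lit 152) (nat_lit 74680453782) (nat_lit 76) (nat_lit 318152556104) (nat_lit 11) (nat_lit 5) (nat_lit 13) (nat_lit 5) (nat_lit 12) (nat_lit 4) (nat_lit 318) (nat_lit 278) (nat_lit 124)) (XT.lf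 (nat_lit 0) (nat_lit 178940252731) (nat_lit 76) (nat_lit 174413702878) (nat_lit 152) (nat_lit 311413891375) (nat_lit 10) (nat_lit 5) (nat_lit 11) (nat_lit 5) (nat_lit 12) (nat_lit 4) (nat_lit 319) (nat_lit 278) (nat_lit 123))))) (XT.nd (nat_lit 156) (nat_lit 0) (nat_lit 76) (XT.nd (nat_lit 78) (nat_lit 0) (nat_lit 0) (XT.lf (nat_lit 0) (nat_lit 11498946275) (nat_lit 0) (nat_lit 11498946275) (nat_lit 684) (nat_lit 18246933594) (nat_lit 75) (nat_lit 5) (nat_lit 75) (nat_lit 3) (nat_lit 84) (nat_lit 3) (nat_lit 279) (nat_lit 279) (nat_lit 162)) (XT.lf (nat_lit 0) (nat_lit 48405609988) (nat_lit 684) (nat_lit 2877401381) (nat_lit 760) (nat_lit 34477686362) (nat_lit 75) (nat_lit 5) (nat_lit 84) (nat_lit 3) (nat_lit 85) (nat_lit 5) (nat_lit 280) (nat_lit 279) (nat_lit 161))) (XT.nd (nat_lit 78) (nat_lit 0) (nat_lit 0) (XT.lf (nat_lit 0) (nat_lit 52444655897) (nat_lit 684) (nat_lit 29552722915)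 (nat_lit 760) (nat_lit 7224230342) (nat_lit 76) (nat_lit 5) (nat_lit 85) (nat_lit 5) (nat_lit 86) (nat_lit 5) (nat_lit 281) (nat_lit 279) (nat_lit 160)) (XT.nd (nat_lit 78) (nat_lit 0) (nat_lit 76) (XT.lf (nat_lit 76) (nat_lit 34605978292) (nat_lit 0) (nat_lit 23655531966) (nat_lit 760) (nat_lit 34625152789) (nat_lit 77) (nat_lit 5) (nat_lit 76) (nat_lit 5) (nat_lit 86) (nat_lit 5) (nat_lit 282) (nat_lit 279) (nat_lit 159)) (XT.lf (nat_lit 76) (nat_lit 7758102745) (nat_lit 0) (nat_lit 58043193537) (nat_lit 760) (nat_lit 30980749321) (nat_lit 78) (nat_lit 5) (nat_lit 77) (nat_lit 5) (nat_lit 87) (nat_lit 5) (nat_lit 283) (nat_lit 279) (nat_lit 158))))))))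
noncomputable def xc113 : XT := (XT.nd (nat_lit 1482) (nat_lit 1368) (nat_lit 0) (XT.nd (nat_lit 702) (nat_lit 1672) (nat_lit 0) (XT.nd (nat_lit 312) (nat_lit 1368) (nat_lit 0) (XT.nd (nat_lit 156) (nat_lit 684) (nat_lit 0) (XT.nd (nat_lit 78) (nat_lit 0) (nat_lit 0) (XT.lf (nat_lit 0) (nat_lit 75435072666) (nat_lit 684) (nat_lit 20254711148) (nat_lit 760) (nat_lit 5224737828) (nat_lit 78) (nat_lit 5) (nat_lit 87) (nat_lit 5) (nat_lit 88) (nat_lit 5) (nat_lit 284) (nat_lit 279) (nat_lit 157)) (XT.lf (nat_lit 76) (nat_lit 54790154014) (nat_lit 0) (nat_lit 32882509838) (nat_lit 760) (nat_lit 17613279291) (nat_lit 79) (nat_lit 5) (nat_lit 78) (nat_lit 5) (nat_lit 88) (nat_lit 5) (nat_lit 285) (nat_lit 279) (nat_lit 156))) (XT.nd (nat_lit 78) (nat_lit 76) (nat_lit 0) (XT.lf (nat_lit 0) (nat_lit 26880527662) (nat_lit 684) (nat_lit 75331717745) (nat_lit 760) (nat_lit 7728686595) (nat_lit 70)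 (nat_lit 5) (nat_lit 79) (nat_lit 5) (nat_lit 80) (nat_lit 5) (nat_lit 286) (nat_lit 279) (nat_lit 155)) (XT.lf (nat_lit 0) (nat_lit 4299923510) (nat_lit 760) (nat_lit 3289919235) (nat_lit 76) (nat_lit 107303801295) (nat_lit 69) (nat_lit 5) (nat_lit 79) (nat_lit 5) (nat_lit 70) (nat_lit 5) (nat_lit 287) (nat_lit 279) (nat_lit 154)))) (XT.nd (nat_lit 156) (nat_lit 608) (nat_lit 0) (XT.nd (nat_lit 78) (nat_lit 380) (nat_lit 0) (XT.lf (nat_lit 0) (nat_lit 19404952544) (nat_lit 456) (nat_lit 35750571015) (nat_lit 76) (nat_lit 64961471490) (nat_lit 64) (nat_lit 5) (nat_lit 70) (nat_lit 5) (nat_lit 65) (nat_lit 5) (nat_lit 288) (nat_lit 279) (nat_lit 153)) (XT.lf (nat_lit 0) (nat_lit 37048150353) (nat_lit 456) (nat_lit 70962190646) (nat_lit 76) (nat_lit 17681386925) (nat_lit 59) (nat_lit 5) (nat_lit 65) (nat_lit 5) (nat_lit 60) (nat_lit 5) (nat_lit 289) (nat_lit 279) (nat_lit 152))) (XT.nd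 (nat_lit 78) (nat_lit 304) (nat_lit 0) (XT.lf (nat_lit 0) (nat_lit 21800115115) (nat_lit 304) (nat_lit 36205281103) (nat_lit 380) (nat_lit 73611915554) (nat_lit 55) (nat_lit 5) (nat_lit 59) (nat_lit 5) (nat_lit 60) (nat_lit 5) (nat_lit 290) (nat_lit 279) (nat_lit 151)) (XT.nd (nat_lit 78) (nat_lit 304) (nat_lit 0) (XT.lf (nat_lit 0) (nat_lit 82540390932) (nat_lit 380) (nat_lit 14104245945) (nat_lit 76) (nat_lit 41277248800) (nat_lit 55) (nat_lit 5) (nat_lit 60) (nat_lit 5) (nat_lit 56) (nat_lit 5) (nat_lit 291) (nat_lit 279) (nat_lit 150)) (XT.lf (nat_lit 0) (nat_lit 91585842088) (nat_lit 304) (nat_lit 19492085341) (nat_lit 380) (nat_lit 33550912630) (nat_lit 51) (nat_lit 5) (nat_lit 55) (nat_lit 5) (nat_lit 56) (nat_lit 5) (nat_lit 292) (nat_lit 279) (nat_lit 149)))))) (XT.nd (nat_lit 390) (nat_lit 608) (nat_lit 0) (XT.nd (nat_lit 156) (nat_lit 456) (nat_lit 0) (XT.nd (nat_lit 78) (nat_lit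 380) (nat_lit 0) (XT.lf (nat_lit 0) (nat_lit 55138128748) (nat_lit 228) (nat_lit 88866900058) (nat_lit 304) (nat_lit 7761995438) (nat_lit 48) (nat_lit 5) (nat_lit 51) (nat_lit 5) (nat_lit 52) (nat_lit 5) (nat_lit 293) (nat_lit 279) (nat_lit 148)) (XT.lf (nat_lit 0) (nat_lit 14235245928) (nat_lit 304) (nat_lit 6701232696) (nat_lit 380) (nat_lit 138449630316) (nat_lit 43) (nat_lit 5) (nat_lit 47) (nat_lit 5) (nat_lit 48) (nat_lit 5) (nat_lit 294) (nat_lit 279) (nat_lit 147))) (XT.nd (nat_lit 78) (nat_lit 456) (nat_lit 0) (XT.lf (nat_lit 0) (nat_lit 54653603953) (nat_lit 380) (nat_lit 31551483213) (nat_lit 76) (nat_lit 81253536426) (nat_lit 43) (nat_lit 5) (nat_lit 48) (nat_lit 5) (nat_lit 44) (nat_lit 5) (nat_lit 295) (nat_lit 279) (nat_lit 146)) (XT.nd (nat_lit 78) (nat_lit 228) (nat_lit 0) (XT.lf (nat_lit 0) (nat_lit 92670265771) (nat_lit 304) (nat_lit 82087712325) (nat_lit 76) (nat_lit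 1338854171) (nat_lit 40) (nat_lit 5) (nat_lit 44) (nat_lit 5) (nat_lit 41) (nat_lit 5) (nat_lit 296) (nat_lit 279) (nat_lit 145)) (XT.lf (nat_lit 0) (nat_lit 45330256112) (nat_lit 228) (nat_lit 91117432257) (nat_lit 304) (nat_lit 48842438959) (nat_lit 37) (nat_lit 5) (nat_lit 40) (nat_lit 5) (nat_lit 41) (nat_lit 5) (nat_lit 297) (nat_lit 279) (nat_lit 144))))) (XT.nd (nat_lit 156) (nat_lit 380) (nat_lit 0) (XT.nd (nat_lit 78) (nat_lit 228) (nat_lit 0) (XT.lf (nat_lit 0) (nat_lit 185167923193) (nat_lit 304) (nat_lit 9286228367) (nat_lit 76) (nat_lit 692704520) (nat_lit 37) (nat_lit 5) (nat_lit 41) (nat_lit 5) (nat_lit 38) (nat_lit 5) (nat_lit 298) (nat_lit 279) (nat_lit 143)) (XT.lf (nat_lit 0) (nat_lit 34666941469) (nat_lit 228) (nat_lit 71556640129) (nat_lit 76) (nat_lit 99358702664) (nat_lit 34) (nat_lit 5) (nat_lit 37) (nat_lit 5) (nat_lit 35) (nat_lit 5) (nat_lit 299) (nat_lit 279)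 (nat_lit 142))) (XT.nd (nat_lit 78) (nat_lit 152) (nat_lit 0) (XT.lf (nat_lit 0) (nat_lit 74502660447) (nat_lit 228) (nat_lit 9364072305) (nat_lit 304) (nat_lit 132911042304) (nat_lit 31) (nat_lit 5) (nat_lit 34) (nat_lit 5) (nat_lit 35) (nat_lit 5) (nat_lit 300) (nat_lit 279) (nat_lit 141)) (XT.nd (nat_lit 78) (nat_lit 0) (nat_lit 0) (XT.lf (nat_lit 0) (nat_lit 4635713521) (nat_lit 152) (nat_lit 135192702318) (nat_lit 228) (nat_lit 88899194610) (nat_lit 29) (nat_lit 5) (nat_lit 31) (nat_lit 5) (nat_lit 32) (nat_lit 5) (nat_lit 301) (nat_lit 279) (nat_lit 140)) (XT.lf (nat_lit 0) (nat_lit 168216332124) (nat_lit 152) (nat_lit 34684010557) (nat_lit 228) (nat_lit 38601425241) (nat_lit 29) (nat_lit 5) (nat_lit 31) (nat_lit 5) (nat_lit 32) (nat_lit 5) (nat_lit 302) (nat_lit 279) (nat_lit 139))))))) (XT.nd (nat_lit 702) (nat_lit 456) (nat_lit 0) (XT.nd (nat_lit 312) (nat_lit 380) (nat_lit 0)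 (XT.nd (nat_lit 156) (nat_lit 152) (nat_lit 0) (XT.nd (nat_lit 78) (nat_lit 152) (nat_lit 0) (XT.lf (nat_lit 0) (nat_lit 17838513340) (nat_lit 228) (nat_lit 164100898411) (nat_lit 76) (nat_lit 73215100513) (nat_lit 26) (nat_lit 5) (nat_lit 29) (nat_lit 5) (nat_lit 27) (nat_lit 5) (nat_lit 303) (nat_lit 279) (nat_lit 138)) (XT.lf (nat_lit 0) (nat_lit 66079640) (nat_lit 152) (nat_lit 79276279407) (nat_lit 228) (nat_lit 190430421271) (nat_lit 24) (nat_lit 5) (nat_lit 26) (nat_lit 5) (nat_lit 27) (nat_lit 5) (nat_lit 304) (nat_lit 279) (nat_lit 137))) (XT.nd (nat_lit 78) (nat_lit 152) (nat_lit 0) (XT.lf (nat_lit 0) (nat_lit 149164940843) (nat_lit 228) (nat_lit 102731914015) (nat_lit 76) (nat_lit 33493734069) (nat_lit 24) (nat_lit 5) (nat_lit 27) (nat_lit 5) (nat_lit 25) (nat_lit 5) (nat_lit 305) (nat_lit 279) (nat_lit 136)) (XT.lf (nat_lit 0) (nat_lit 78785258321) (nat_lit 152) (nat_lit 148354569112)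 (nat_lit 228) (nat_lit 74989670370) (nat_lit 22) (nat_lit 5) (nat_lit 24) (nat_lit 5) (nat_lit 25) (nat_lit 5) (nat_lit 306) (nat_lit 279) (nat_lit 135)))) (XT.nd (nat_lit 156) (nat_lit 228) (nat_lit 0) (XT.nd (nat_lit 78) (nat_lit 152) (nat_lit 0) (XT.lf (nat_lit 0) (nat_lit 278491873918) (nat_lit 152) (nat_lit 34650066764) (nat_lit 228) (nat_lit 6976117378) (nat_lit 22) (nat_lit 5) (nat_lit 24) (nat_lit 5) (nat_lit 25) (nat_lit 5) (nat_lit 307) (nat_lit 279) (nat_lit 134)) (XT.lf (nat_lit 0) (nat_lit 68261698927) (nat_lit 152) (nat_lit 182134481235) (nat_lit 76) (nat_lit 88902082235) (nat_lit 20) (nat_lit 5) (nat_lit 22) (nat_lit 5) (nat_lit 21) (nat_lit 5) (nat_lit 308) (nat_lit 279) (nat_lit 133))) (XT.nd (nat_lit 78) (nat_lit 76) (nat_lit 0) (XT.lf (nat_lit 0) (nat_lit 13070922045) (nat_lit 152) (nat_lit 137731542052) (nat_lit 228) (nat_lit 209128284589) (nat_lit 18) (nat_lit 5)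 (nat_lit 20) (nat_lit 5) (nat_lit 21) (nat_lit 5) (nat_lit 309) (nat_lit 279) (nat_lit 132)) (XT.nd (nat_lit 78) (nat_lit 76) (nat_lit 0) (XT.lf (nat_lit 0) (nat_lit 230396317534) (nat_lit 152) (nat_lit 12722590974) (nat_lit 228) (nat_lit 138936304814) (nat_lit 18) (nat_lit 5) (nat_lit 20) (nat_lit 5) (nat_lit 21) (nat_lit 5) (nat_lit 310) (nat_lit 279) (nat_lit 131)) (XT.lf (nat_lit 0) (nat_lit 59141375704) (nat_lit 76) (nat_lit 286511668269) (nat_lit 152) (nat_lit 60154972700) (nat_lit 17) (nat_lit 5) (nat_lit 18) (nat_lit 5) (nat_lit 19) (nat_lit 4) (nat_lit 311) (nat_lit 279) (nat_lit 130)))))) (XT.nd (nat_lit 390) (nat_lit 152) (nat_lit 0) (XT.nd (nat_lit 156) (nat_lit 76) (nat_lit 0) (XT.nd (nat_lit 78) (nat_lit 152) (nat_lit 0) (XT.lf (nat_lit 0) (nat_lit 27030397450) (nat_lit 152) (nat_lit 139755013153) (nat_lit 76) (nat_lit 264511202954) (nat_lit 16) (nat_lit 5) (nat_lit 18)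 (nat_lit 5) (nat_lit 17) (nat_lit 5) (nat_lit 312) (nat_lit 279) (nat_lit 129)) (XT.lf (nat_lit 0) (nat_lit 85429141689) (nat_lit 152) (nat_lit 35015675237) (nat_lit 228) (nat_lit 338262086326) (nat_lit 14) (nat_lit 5) (nat_lit 16) (nat_lit 5) (nat_lit 17) (nat_lit 5) (nat_lit 313) (nat_lit 279) (nat_lit 128))) (XT.nd (nat_lit 78) (nat_lit 76) (nat_lit 0) (XT.lf (nat_lit 0) (nat_lit 225481727672) (nat_lit 228) (nat_lit 156285092613) (nat_lit 76) (nat_lit 106335729192) (nat_lit 14) (nat_lit 5) (nat_lit 17) (nat_lit 5) (nat_lit 15) (nat_lit 4) (nat_lit 314) (nat_lit 279) (nat_lit 127)) (XT.nd (nat_lit 78) (nat_lit 0) (nat_lit 0) (XT.lf (nat_lit 0) (nat_lit 80037961930) (nat_lit 76) (nat_lit 260723490264) (nat_lit 152) (nat_lit 178996402384) (nat_lit 13) (nat_lit 5) (nat_lit 14) (nat_lit 5) (nat_lit 15) (nat_lit 4) (nat_lit 315) (nat_lit 279) (nat_lit 126)) (XT.lf (nat_lit 0) (nat_lit 340847450437)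 (nat_lit 76) (nat_lit 127138314456) (nat_lit 152) (nat_lit 85823708891) (nat_lit 13) (nat_lit 5) (nat_lit 14) (nat_lit 5) (nat_lit 15) (nat_lit 4) (nat_lit 316) (nat_lit 279) (nat_lit 125))))) (XT.nd (nat_lit 34632) (nat_lit 0) (nat_lit 4864) (XT.nd (nat_lit 78) (nat_lit 0) (nat_lit 0) (XT.lf (nat_lit 0) (nat_lit 15119899856) (nat_lit 152) (nat_lit 558074390064) (nat_lit 76) (nat_lit 17339833039) (nat_lit 11) (nat_lit 5) (nat_lit 13) (nat_lit 5) (nat_lit 12) (nat_lit 4) (nat_lit 317) (nat_lit 279) (nat_lit 124)) (XT.lf (nat_lit 0) (nat_lit 127086451529) (nat_lit 152) (nat_lit 328543246977) (nat_lit 76) (nat_lit 174198983482) (nat_lit 11) (nat_lit 5) (nat_lit 13) (nat_lit 5) (nat_lit 12) (nat_lit 4) (nat_lit 318) (nat_lit 279) (nat_lit 123))) (XT.nd (nat_lit 78) (nat_lit 0) (nat_lit 0) (XT.lf (nat_lit 0) (nat_lit 12425645691) (nat_lit 0) (nat_lit 12425645691) (nat_lit 684) (nat_lit 19692402490)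 (nat_lit 75) (nat_lit 5) (nat_lit 75) (nat_lit 3) (nat_lit 84) (nat_lit 3) (nat_lit 280) (nat_lit 280) (nat_lit 160)) (XT.nd (nat_lit 78) (nat_lit 0) (nat_lit 76) (XT.lf (nat_lit 0) (nat_lit 52302987519) (nat_lit 684) (nat_lit 3093504620) (nat_lit 760) (nat_lit 37223740913) (nat_lit 75) (nat_lit 5) (nat_lit 84) (nat_lit 3) (nat_lit 85) (nat_lit 5) (nat_lit 281) (nat_lit 280) (nat_lit 159)) (XT.lf (nat_lit 0) (nat_lit 56663367681) (nat_lit 684) (nat_lit 31902077704) (nat_lit 760) (nat_lit 7792666961) (nat_lit 76) (nat_lit 5) (nat_lit 85) (nat_lit 5) (nat_lit 86) (nat_lit 5) (nat_lit 282) (nat_lit 280) (nat_lit 158))))))))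
noncomputable def xc114 : XT := (XT.nd (nat_lit 1482) (nat_lit 1520) (nat_lit 0) (XT.nd (nat_lit 702) (nat_lit 1824) (nat_lit 0) (XT.nd (nat_lit 312) (nat_lit 1596) (nat_lit 0) (XT.nd (nat_lit 156) (nat_lit 0) (nat_lit 152) (XT.nd (nat_lit 78) (nat_lit 0) (nat_lit 76) (XT.lf (nat_lit 76) (nat_lit 37388673670) (nat_lit 0) (nat_lit 25555404667) (nat_lit 760) (nat_lit 37372371897) (nat_lit 77) (nat_lit 5) (nat_lit 76) (nat_lit 5) (nat_lit 86) (nat_lit 5) (nat_lit 283) (nat_lit 280) (nat_lit 157)) (XT.lf (nat_lit 76) (nat_lit 8393557244) (nat_lit 0) (nat_lit 62692010253) (nat_lit 760) (nat_lit 33437974587) (nat_lit 78) (nat_lit 5) (nat_lit 77) (nat_lit 5) (nat_lit 87) (nat_lit 5) (nat_lit 284) (nat_lit 280) (nat_lit 156))) (XT.nd (nat_lit 78) (nat_lit 0) (nat_lit 0) (XT.lf (nat_lit 0) (nat_lit 81488474598) (nat_lit 684) (nat_lit 21860312901) (nat_lit 760) (nat_lit 5637911632) (nat_lit 78)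 (nat_lit 5) (nat_lit 87) (nat_lit 5) (nat_lit 88) (nat_lit 5) (nat_lit 285) (nat_lit 280) (nat_lit 155)) (XT.lf (nat_lit 76) (nat_lit 59187499365) (nat_lit 0) (nat_lit 35516416880) (nat_lit 760) (nat_lit 19003979982) (nat_lit 79) (nat_lit 5) (nat_lit 78) (nat_lit 5) (nat_lit 88) (nat_lit 5) (nat_lit 286) (nat_lit 280) (nat_lit 154)))) (XT.nd (nat_lit 156) (nat_lit 1064) (nat_lit 0) (XT.nd (nat_lit 78) (nat_lit 76) (nat_lit 0) (XT.lf (nat_lit 0) (nat_lit 29045420359) (nat_lit 684) (nat_lit 81360129983) (nat_lit 760) (nat_lit 8329793285) (nat_lit 70) (nat_lit 5) (nat_lit 79) (nat_lit 5) (nat_lit 80) (nat_lit 5) (nat_lit 287) (nat_lit 280) (nat_lit 153)) (XT.lf (nat_lit 0) (nat_lit 4659323046) (nat_lit 760) (nat_lit 3539182160) (nat_lit 76) (nat_lit 115885818920) (nat_lit 69) (nat_lit 5) (nat_lit 79) (nat_lit 5) (nat_lit 70) (nat_lit 5) (nat_lit 288) (nat_lit 280) (nat_lit 152))) (XT.nd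 (nat_lit 78) (nat_lit 684) (nat_lit 0) (XT.lf (nat_lit 0) (nat_lit 20971803373) (nat_lit 456) (nat_lit 38596511842) (nat_lit 76) (nat_lit 70157278599) (nat_lit 64) (nat_lit 5) (nat_lit 70) (nat_lit 5) (nat_lit 65) (nat_lit 5) (nat_lit 289) (nat_lit 280) (nat_lit 151)) (XT.nd (nat_lit 78) (nat_lit 304) (nat_lit 0) (XT.lf (nat_lit 0) (nat_lit 40025595337) (nat_lit 456) (nat_lit 76624957408) (nat_lit 76) (nat_lit 19095798481) (nat_lit 59) (nat_lit 5) (nat_lit 65) (nat_lit 5) (nat_lit 60) (nat_lit 5) (nat_lit 290) (nat_lit 280) (nat_lit 150)) (XT.lf (nat_lit 0) (nat_lit 23557715330) (nat_lit 304) (nat_lit 39100910849) (nat_lit 380) (nat_lit 79487397952) (nat_lit 55) (nat_lit 5) (nat_lit 59) (nat_lit 5) (nat_lit 60) (nat_lit 5) (nat_lit 291) (nat_lit 280) (nat_lit 149)))))) (XT.nd (nat_lit 390) (nat_lit 912) (nat_lit 0) (XT.nd (nat_lit 156) (nat_lit 608) (nat_lit 0) (XT.nd (nat_lit 78) (nat_lit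 304) (nat_lit 0) (XT.lf (nat_lit 0) (nat_lit 89155483910) (nat_lit 380) (nat_lit 15219390054) (nat_lit 76) (nat_lit 44580139232) (nat_lit 55) (nat_lit 5) (nat_lit 60) (nat_lit 5) (nat_lit 56) (nat_lit 5) (nat_lit 292) (nat_lit 280) (nat_lit 148)) (XT.lf (nat_lit 0) (nat_lit 98925331558) (nat_lit 304) (nat_lit 21050010191) (nat_lit 380) (nat_lit 36223218499) (nat_lit 51) (nat_lit 5) (nat_lit 55) (nat_lit 5) (nat_lit 56) (nat_lit 5) (nat_lit 293) (nat_lit 280) (nat_lit 147))) (XT.nd (nat_lit 78) (nat_lit 380) (nat_lit 0) (XT.lf (nat_lit 0) (nat_lit 59561792581) (nat_lit 228) (nat_lit 95974208276) (nat_lit 304) (nat_lit 8371830905) (nat_lit 48) (nat_lit 5) (nat_lit 51) (nat_lit 5) (nat_lit 52) (nat_lit 5) (nat_lit 294) (nat_lit 280) (nat_lit 146)) (XT.nd (nat_lit 78) (nat_lit 0) (nat_lit 0) (XT.lf (nat_lit 0) (nat_lit 15386495163) (nat_lit 304) (nat_lit 7235066298) (nat_lit 380) (nat_lit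 149514905096) (nat_lit 43) (nat_lit 5) (nat_lit 47) (nat_lit 5) (nat_lit 48) (nat_lit 5) (nat_lit 295) (nat_lit 280) (nat_lit 145)) (XT.lf (nat_lit 0) (nat_lit 59035336631) (nat_lit 380) (nat_lit 34063634005) (nat_lit 76) (nat_lit 87755849450) (nat_lit 43) (nat_lit 5) (nat_lit 48) (nat_lit 5) (nat_lit 44) (nat_lit 5) (nat_lit 296) (nat_lit 280) (nat_lit 144))))) (XT.nd (nat_lit 156) (nat_lit 456) (nat_lit 0) (XT.nd (nat_lit 78) (nat_lit 228) (nat_lit 0) (XT.lf (nat_lit 0) (nat_lit 100092849953) (nat_lit 304) (nat_lit 88642855182) (nat_lit 76) (nat_lit 1448405959) (nat_lit 40) (nat_lit 5) (nat_lit 44) (nat_lit 5) (nat_lit 41) (nat_lit 5) (nat_lit 297) (nat_lit 280) (nat_lit 143)) (XT.lf (nat_lit 0) (nat_lit 48968034696) (nat_lit 228) (nat_lit 98403945077) (nat_lit 304) (nat_lit 52740915771) (nat_lit 37) (nat_lit 5) (nat_lit 40) (nat_lit 5) (nat_lit 41) (nat_lit 5) (nat_lit 298) (nat_lit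 280) (nat_lit 142))) (XT.nd (nat_lit 78) (nat_lit 456) (nat_lit 0) (XT.lf (nat_lit 0) (nat_lit 199989247164) (nat_lit 304) (nat_lit 10018242309) (nat_lit 76) (nat_lit 750703777) (nat_lit 37) (nat_lit 5) (nat_lit 41) (nat_lit 5) (nat_lit 38) (nat_lit 5) (nat_lit 299) (nat_lit 280) (nat_lit 141)) (XT.nd (nat_lit 78) (nat_lit 228) (nat_lit 0) (XT.lf (nat_lit 0) (nat_lit 37447902496) (nat_lit 228) (nat_lit 77270493728) (nat_lit 76) (nat_lit 107310075669) (nat_lit 34) (nat_lit 5) (nat_lit 37) (nat_lit 5) (nat_lit 35) (nat_lit 5) (nat_lit 300) (nat_lit 280) (nat_lit 140)) (XT.lf (nat_lit 0) (nat_lit 80473086858) (nat_lit 228) (nat_lit 10110186300) (nat_lit 304) (nat_lit 143536350088) (nat_lit 31) (nat_lit 5) (nat_lit 34) (nat_lit 5) (nat_lit 35) (nat_lit 5) (nat_lit 301) (nat_lit 280) (nat_lit 139))))))) (XT.nd (nat_lit 702) (nat_lit 532) (nat_lit 0) (XT.nd (nat_lit 312) (nat_lit 456) (nat_lit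 0) (XT.nd (nat_lit 156) (nat_lit 380) (nat_lit 0) (XT.nd (nat_lit 78) (nat_lit 0) (nat_lit 0) (XT.lf (nat_lit 0) (nat_lit 5016652899) (nat_lit 152) (nat_lit 146004905481) (nat_lit 228) (nat_lit 96003904733) (nat_lit 29) (nat_lit 5) (nat_lit 31) (nat_lit 5) (nat_lit 32) (nat_lit 5) (nat_lit 302) (nat_lit 280) (nat_lit 138)) (XT.lf (nat_lit 0) (nat_lit 181682974153) (nat_lit 152) (nat_lit 37455756380) (nat_lit 228) (nat_lit 41682849033) (nat_lit 29) (nat_lit 5) (nat_lit 31) (nat_lit 5) (nat_lit 32) (nat_lit 5) (nat_lit 303) (nat_lit 280) (nat_lit 137))) (XT.nd (nat_lit 78) (nat_lit 152) (nat_lit 0) (XT.lf (nat_lit 0) (nat_lit 19271780512) (nat_lit 228) (nat_lit 177219554587) (nat_lit 76) (nat_lit 79075218464) (nat_lit 26) (nat_lit 5) (nat_lit 29) (nat_lit 5) (nat_lit 27) (nat_lit 5) (nat_lit 304) (nat_lit 280) (nat_lit 136)) (XT.lf (nat_lit 0) (nat_lit 80372513) (nat_lit 152) (nat_lit 85615243749)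 (nat_lit 228) (nat_lit 205658683448) (nat_lit 24) (nat_lit 5) (nat_lit 26) (nat_lit 5) (nat_lit 27) (nat_lit 5) (nat_lit 305) (nat_lit 280) (nat_lit 135)))) (XT.nd (nat_lit 156) (nat_lit 304) (nat_lit 0) (XT.nd (nat_lit 78) (nat_lit 152) (nat_lit 0) (XT.lf (nat_lit 0) (nat_lit 161103615263) (nat_lit 228) (nat_lit 110941892560) (nat_lit 76) (nat_lit 36176045364) (nat_lit 24) (nat_lit 5) (nat_lit 27) (nat_lit 5) (nat_lit 25) (nat_lit 5) (nat_lit 306) (nat_lit 280) (nat_lit 134)) (XT.lf (nat_lit 0) (nat_lit 85096280922) (nat_lit 152) (nat_lit 160219934050) (nat_lit 228) (nat_lit 80983374351) (nat_lit 22) (nat_lit 5) (nat_lit 24) (nat_lit 5) (nat_lit 25) (nat_lit 5) (nat_lit 307) (nat_lit 280) (nat_lit 133))) (XT.nd (nat_lit 78) (nat_lit 304) (nat_lit 0) (XT.lf (nat_lit 0) (nat_lit 300778818216) (nat_lit 152) (nat_lit 37419293781) (nat_lit 228) (nat_lit 7529142278) (nat_lit 22) (nat_lit 5)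 (nat_lit 24) (nat_lit 5) (nat_lit 25) (nat_lit 5) (nat_lit 308) (nat_lit 280) (nat_lit 132)) (XT.nd (nat_lit 78) (nat_lit 152) (nat_lit 0) (XT.lf (nat_lit 0) (nat_lit 73727333307) (nat_lit 152) (nat_lit 196697617171) (nat_lit 76) (nat_lit 96016931261) (nat_lit 20) (nat_lit 5) (nat_lit 22) (nat_lit 5) (nat_lit 21) (nat_lit 5) (nat_lit 309) (nat_lit 280) (nat_lit 131)) (XT.lf (nat_lit 0) (nat_lit 14123887104) (nat_lit 152) (nat_lit 148747238390) (nat_lit 228) (nat_lit 225853853646) (nat_lit 18) (nat_lit 5) (nat_lit 20) (nat_lit 5) (nat_lit 21) (nat_lit 5) (nat_lit 310) (nat_lit 280) (nat_lit 130)))))) (XT.nd (nat_lit 390) (nat_lit 228) (nat_lit 0) (XT.nd (nat_lit 156) (nat_lit 228) (nat_lit 0) (XT.nd (nat_lit 78) (nat_lit 76) (nat_lit 0) (XT.lf (nat_lit 0) (nat_lit 248834774136) (nat_lit 152) (nat_lit 13737780636) (nat_lit 228) (nat_lit 150046863171) (nat_lit 18) (nat_lit 5) (nat_lit 20)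 (nat_lit 5) (nat_lit 21) (nat_lit 5) (nat_lit 311) (nat_lit 280) (nat_lit 129)) (XT.lf (nat_lit 0) (nat_lit 63879307681) (nat_lit 76) (nat_lit 309429948428) (nat_lit 152) (nat_lit 64963198127) (nat_lit 17) (nat_lit 5) (nat_lit 18) (nat_lit 5) (nat_lit 19) (nat_lit 4) (nat_lit 312) (nat_lit 280) (nat_lit 128))) (XT.nd (nat_lit 78) (nat_lit 152) (nat_lit 0) (XT.lf (nat_lit 0) (nat_lit 29196568919) (nat_lit 152) (nat_lit 150929154438) (nat_lit 76) (nat_lit 285674427593) (nat_lit 16) (nat_lit 5) (nat_lit 18) (nat_lit 5) (nat_lit 17) (nat_lit 5) (nat_lit 313) (nat_lit 280) (nat_lit 127)) (XT.nd (nat_lit 78) (nat_lit 0) (nat_lit 0) (XT.lf (nat_lit 0) (nat_lit 92269460750) (nat_lit 152) (nat_lit 37814497675) (nat_lit 228) (nat_lit 365319314920) (nat_lit 14) (nat_lit 5) (nat_lit 16) (nat_lit 5) (nat_lit 17) (nat_lit 5) (nat_lit 314) (nat_lit 280) (nat_lit 126)) (XT.lf (nat_lit 0) (nat_lit 243523593765)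 (nat_lit 228) (nat_lit 168782222310) (nat_lit 76) (nat_lit 114844766930) (nat_lit 14) (nat_lit 5) (nat_lit 17) (nat_lit 5) (nat_lit 15) (nat_lit 4) (nat_lit 315) (nat_lit 280) (nat_lit 125))))) (XT.nd (nat_lit 156) (nat_lit 152) (nat_lit 0) (XT.nd (nat_lit 78) (nat_lit 0) (nat_lit 0) (XT.lf (nat_lit 0) (nat_lit 86446429850) (nat_lit 76) (nat_lit 281579104682) (nat_lit 152) (nat_lit 193312786367) (nat_lit 13) (nat_lit 5) (nat_lit 14) (nat_lit 5) (nat_lit 15) (nat_lit 4) (nat_lit 316) (nat_lit 280) (nat_lit 124)) (XT.lf (nat_lit 0) (nat_lit 368120275144) (nat_lit 76) (nat_lit 137307282572) (nat_lit 152) (nat_lit 92686523929) (nat_lit 13) (nat_lit 5) (nat_lit 14) (nat_lit 5) (nat_lit 15) (nat_lit 4) (nat_lit 317) (nat_lit 280) (nat_lit 123))) (XT.nd (nat_lit 34632) (nat_lit 0) (nat_lit 4864) (XT.lf (nat_lit 0) (nat_lit 16332362843) (nat_lit 152) (nat_lit 602715320954) (nat_lit 76) (nat_lit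 18729022397) (nat_lit 11) (nat_lit 5) (nat_lit 13) (nat_lit 5) (nat_lit 12) (nat_lit 4) (nat_lit 318) (nat_lit 280) (nat_lit 122)) (XT.nd (nat_lit 78) (nat_lit 0) (nat_lit 0) (XT.lf (nat_lit 0) (nat_lit 13425513288) (nat_lit 0) (nat_lit 13425513288) (nat_lit 684) (nat_lit 21255546925) (nat_lit 75) (nat_lit 5) (nat_lit 75) (nat_lit 3) (nat_lit 84) (nat_lit 3) (nat_lit 281) (nat_lit 281) (nat_lit 158)) (XT.lf (nat_lit 0) (nat_lit 56508598891) (nat_lit 684) (nat_lit 3328906053) (nat_lit 760) (nat_lit 40191214640) (nat_lit 75) (nat_lit 5) (nat_lit 84) (nat_lit 3) (nat_lit 85) (nat_lit 5) (nat_lit 282) (nat_lit 281) (nat_lit 157))))))))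
noncomputable def xc115 : XT := (XT.nd (nat_lit 1482) (nat_lit 1596) (nat_lit 0) (XT.nd (nat_lit 702) (nat_lit 1900) (nat_lit 0) (XT.nd (nat_lit 312) (nat_lit 1292) (nat_lit 0) (XT.nd (nat_lit 156) (nat_lit 0) (nat_lit 76) (XT.nd (nat_lit 78) (nat_lit 0) (nat_lit 0) (XT.lf (nat_lit 0) (nat_lit 61216275325) (nat_lit 684) (nat_lit 34441501256) (nat_lit 760) (nat_lit 8407934050) (nat_lit 76) (nat_lit 5) (nat_lit 85) (nat_lit 5) (nat_lit 86) (nat_lit 5) (nat_lit 283) (nat_lit 281) (nat_lit 156)) (XT.lf (nat_lit 76) (nat_lit 40391956447) (nat_lit 0) (nat_lit 27606207191) (nat_lit 760) (nat_lit 40342620227) (nat_lit 77) (nat_lit 5) (nat_lit 76) (nat_lit 5) (nat_lit 86) (nat_lit 5) (nat_lit 284) (nat_lit 281) (nat_lit 155))) (XT.nd (nat_lit 78) (nat_lit 0) (nat_lit 76) (XT.lf (nat_lit 76) (nat_lit 9077735821) (nat_lit 0) (nat_lit 67711967466) (nat_lit 760) (nat_lit 36094807239) (nat_lit 78)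 (nat_lit 5) (nat_lit 77) (nat_lit 5) (nat_lit 87) (nat_lit 5) (nat_lit 285) (nat_lit 281) (nat_lit 154)) (XT.lf (nat_lit 0) (nat_lit 88023495740) (nat_lit 684) (nat_lit 23596470633) (nat_lit 760) (nat_lit 6084824859) (nat_lit 78) (nat_lit 5) (nat_lit 87) (nat_lit 5) (nat_lit 88) (nat_lit 5) (nat_lit 286) (nat_lit 281) (nat_lit 153)))) (XT.nd (nat_lit 156) (nat_lit 836) (nat_lit 0) (XT.nd (nat_lit 78) (nat_lit 608) (nat_lit 0) (XT.lf (nat_lit 76) (nat_lit 63934616109) (nat_lit 0) (nat_lit 38360564812) (nat_lit 760) (nat_lit 20508556222) (nat_lit 79) (nat_lit 5) (nat_lit 78) (nat_lit 5) (nat_lit 88) (nat_lit 5) (nat_lit 287) (nat_lit 281) (nat_lit 152)) (XT.lf (nat_lit 0) (nat_lit 31381442950) (nat_lit 684) (nat_lit 87870547735) (nat_lit 760) (nat_lit 8981440604) (nat_lit 70) (nat_lit 5) (nat_lit 79) (nat_lit 5) (nat_lit 80) (nat_lit 5) (nat_lit 288) (nat_lit 281) (nat_lit 151))) (XT.nd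 (nat_lit 78) (nat_lit 760) (nat_lit 0) (XT.lf (nat_lit 0) (nat_lit 5045276755) (nat_lit 760) (nat_lit 3810373476) (nat_lit 76) (nat_lit 125154724147) (nat_lit 69) (nat_lit 5) (nat_lit 79) (nat_lit 5) (nat_lit 70) (nat_lit 5) (nat_lit 289) (nat_lit 281) (nat_lit 150)) (XT.nd (nat_lit 78) (nat_lit 380) (nat_lit 0) (XT.lf (nat_lit 0) (nat_lit 22661940155) (nat_lit 456) (nat_lit 41672140151) (nat_lit 76) (nat_lit 75768908718) (nat_lit 64) (nat_lit 5) (nat_lit 70) (nat_lit 5) (nat_lit 65) (nat_lit 5) (nat_lit 290) (nat_lit 281) (nat_lit 149)) (XT.lf (nat_lit 0) (nat_lit 43239296732) (nat_lit 456) (nat_lit 82742772512) (nat_lit 76) (nat_lit 20623377142) (nat_lit 59) (nat_lit 5) (nat_lit 65) (nat_lit 5) (nat_lit 60) (nat_lit 5) (nat_lit 291) (nat_lit 281) (nat_lit 148)))))) (XT.nd (nat_lit 390) (nat_lit 684) (nat_lit 0) (XT.nd (nat_lit 156) (nat_lit 912) (nat_lit 0) (XT.nd (nat_lit 78) (nat_lit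 0) (nat_lit 0) (XT.lf (nat_lit 0) (nat_lit 25453984654) (nat_lit 304) (nat_lit 42228304068) (nat_lit 380) (nat_lit 85834840708) (nat_lit 55) (nat_lit 5) (nat_lit 59) (nat_lit 5) (nat_lit 60) (nat_lit 5) (nat_lit 292) (nat_lit 281) (nat_lit 147)) (XT.lf (nat_lit 0) (nat_lit 96298092123) (nat_lit 380) (nat_lit 16425628186) (nat_lit 76) (nat_lit 48147159533) (nat_lit 55) (nat_lit 5) (nat_lit 60) (nat_lit 5) (nat_lit 56) (nat_lit 5) (nat_lit 293) (nat_lit 281) (nat_lit 146))) (XT.nd (nat_lit 78) (nat_lit 608) (nat_lit 0) (XT.lf (nat_lit 0) (nat_lit 106850179503) (nat_lit 304) (nat_lit 22732774742) (nat_lit 380) (nat_lit 39110987552) (nat_lit 51) (nat_lit 5) (nat_lit 55) (nat_lit 5) (nat_lit 56) (nat_lit 5) (nat_lit 294) (nat_lit 281) (nat_lit 145)) (XT.nd (nat_lit 78) (nat_lit 380) (nat_lit 0) (XT.lf (nat_lit 0) (nat_lit 64337550059) (nat_lit 228) (nat_lit 103650392721) (nat_lit 304) (nat_lit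 9032040195) (nat_lit 48) (nat_lit 5) (nat_lit 51) (nat_lit 5) (nat_lit 52) (nat_lit 5) (nat_lit 295) (nat_lit 281) (nat_lit 144)) (XT.lf (nat_lit 0) (nat_lit 16628071120) (nat_lit 304) (nat_lit 7811929719) (nat_lit 380) (nat_lit 161466927712) (nat_lit 43) (nat_lit 5) (nat_lit 47) (nat_lit 5) (nat_lit 48) (nat_lit 5) (nat_lit 296) (nat_lit 281) (nat_lit 143))))) (XT.nd (nat_lit 156) (nat_lit 456) (nat_lit 0) (XT.nd (nat_lit 78) (nat_lit 228) (nat_lit 0) (XT.lf (nat_lit 0) (nat_lit 63766260579) (nat_lit 380) (nat_lit 36778464210) (nat_lit 76) (nat_lit 94778057897) (nat_lit 43) (nat_lit 5) (nat_lit 48) (nat_lit 5) (nat_lit 44) (nat_lit 5) (nat_lit 297) (nat_lit 281) (nat_lit 142)) (XT.lf (nat_lit 0) (nat_lit 108107962210) (nat_lit 304) (nat_lit 95724103445) (nat_lit 76) (nat_lit 1566373304) (nat_lit 40) (nat_lit 5) (nat_lit 44) (nat_lit 5) (nat_lit 41) (nat_lit 5) (nat_lit 298) (nat_lit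 281) (nat_lit 141))) (XT.nd (nat_lit 78) (nat_lit 228) (nat_lit 0) (XT.lf (nat_lit 0) (nat_lit 52895215206) (nat_lit 228) (nat_lit 106273790037) (nat_lit 304) (nat_lit 56952543024) (nat_lit 37) (nat_lit 5) (nat_lit 40) (nat_lit 5) (nat_lit 41) (nat_lit 5) (nat_lit 299) (nat_lit 281) (nat_lit 140)) (XT.nd (nat_lit 78) (nat_lit 228) (nat_lit 0) (XT.lf (nat_lit 0) (nat_lit 215995151440) (nat_lit 304) (nat_lit 10810370138) (nat_lit 76) (nat_lit 812974495) (nat_lit 37) (nat_lit 5) (nat_lit 41) (nat_lit 5) (nat_lit 38) (nat_lit 5) (nat_lit 300) (nat_lit 281) (nat_lit 139)) (XT.lf (nat_lit 0) (nat_lit 40450255365) (nat_lit 228) (nat_lit 83442978896) (nat_lit 76) (nat_lit 115897176641) (nat_lit 34) (nat_lit 5) (nat_lit 37) (nat_lit 5) (nat_lit 35) (nat_lit 5) (nat_lit 301) (nat_lit 281) (nat_lit 138))))))) (XT.nd (nat_lit 780) (nat_lit 380) (nat_lit 0) (XT.nd (nat_lit 390) (nat_lit 456) (nat_lit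 0) (XT.nd (nat_lit 156) (nat_lit 380) (nat_lit 0) (XT.nd (nat_lit 78) (nat_lit 152) (nat_lit 0) (XT.lf (nat_lit 0) (nat_lit 86919690301) (nat_lit 228) (nat_lit 10916419081) (nat_lit 304) (nat_lit 155012763238) (nat_lit 31) (nat_lit 5) (nat_lit 34) (nat_lit 5) (nat_lit 35) (nat_lit 5) (nat_lit 302) (nat_lit 281) (nat_lit 137)) (XT.lf (nat_lit 0) (nat_lit 5426629075) (nat_lit 152) (nat_lit 157682543269) (nat_lit 228) (nat_lit 103678022457) (nat_lit 29) (nat_lit 5) (nat_lit 31) (nat_lit 5) (nat_lit 32) (nat_lit 5) (nat_lit 303) (nat_lit 281) (nat_lit 136))) (XT.nd (nat_lit 78) (nat_lit 380) (nat_lit 0) (XT.lf (nat_lit 0) (nat_lit 196225615737) (nat_lit 152) (nat_lit 40449666289) (nat_lit 228) (nat_lit 45011741164) (nat_lit 29) (nat_lit 5) (nat_lit 31) (nat_lit 5) (nat_lit 32) (nat_lit 5) (nat_lit 304) (nat_lit 281) (nat_lit 135)) (XT.nd (nat_lit 78) (nat_lit 152) (nat_lit 0) (XT.lf (nat_lit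 0) (nat_lit 20818826541) (nat_lit 228) (nat_lit 191389046511) (nat_lit 76) (nat_lit 85403730720) (nat_lit 26) (nat_lit 5) (nat_lit 29) (nat_lit 5) (nat_lit 27) (nat_lit 5) (nat_lit 305) (nat_lit 281) (nat_lit 134)) (XT.lf (nat_lit 0) (nat_lit 94523938) (nat_lit 152) (nat_lit 92461772911) (nat_lit 228) (nat_lit 222106087037) (nat_lit 24) (nat_lit 5) (nat_lit 26) (nat_lit 5) (nat_lit 27) (nat_lit 5) (nat_lit 306) (nat_lit 281) (nat_lit 133))))) (XT.nd (nat_lit 156) (nat_lit 304) (nat_lit 0) (XT.nd (nat_lit 78) (nat_lit 152) (nat_lit 0) (XT.lf (nat_lit 0) (nat_lit 173996601974) (nat_lit 228) (nat_lit 119809892648) (nat_lit 76) (nat_lit 39072540317) (nat_lit 24) (nat_lit 5) (nat_lit 27) (nat_lit 5) (nat_lit 25) (nat_lit 5) (nat_lit 307) (nat_lit 281) (nat_lit 132)) (XT.lf (nat_lit 0) (nat_lit 91911015234) (nat_lit 152) (nat_lit 173034956251) (nat_lit 228) (nat_lit 87457354956) (nat_lit 22)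 (nat_lit 5) (nat_lit 24) (nat_lit 5) (nat_lit 25) (nat_lit 5) (nat_lit 308) (nat_lit 281) (nat_lit 131))) (XT.nd (nat_lit 78) (nat_lit 304) (nat_lit 0) (XT.lf (nat_lit 0) (nat_lit 324847634634) (nat_lit 152) (nat_lit 40410455317) (nat_lit 228) (nat_lit 8127131676) (nat_lit 22) (nat_lit 5) (nat_lit 24) (nat_lit 5) (nat_lit 25) (nat_lit 5) (nat_lit 309) (nat_lit 281) (nat_lit 130)) (XT.nd (nat_lit 78) (nat_lit 152) (nat_lit 0) (XT.lf (nat_lit 0) (nat_lit 79629548148) (nat_lit 152) (nat_lit 212426891426) (nat_lit 76) (nat_lit 103700585528) (nat_lit 20) (nat_lit 5) (nat_lit 22) (nat_lit 5) (nat_lit 21) (nat_lit 5) (nat_lit 310) (nat_lit 281) (nat_lit 129)) (XT.lf (nat_lit 0) (nat_lit 15260049183) (nat_lit 152) (nat_lit 160644593742) (nat_lit 228) (nat_lit 243918137837) (nat_lit 18) (nat_lit 5) (nat_lit 20) (nat_lit 5) (nat_lit 21) (nat_lit 5) (nat_lit 311) (nat_lit 281) (nat_lit 128))))))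 (XT.nd (nat_lit 390) (nat_lit 76) (nat_lit 0) (XT.nd (nat_lit 156) (nat_lit 228) (nat_lit 0) (XT.nd (nat_lit 78) (nat_lit 76) (nat_lit 0) (XT.lf (nat_lit 0) (nat_lit 268747344132) (nat_lit 152) (nat_lit 14834558902) (nat_lit 228) (nat_lit 162046886206) (nat_lit 18) (nat_lit 5) (nat_lit 20) (nat_lit 5) (nat_lit 21) (nat_lit 5) (nat_lit 312) (nat_lit 281) (nat_lit 127)) (XT.lf (nat_lit 0) (nat_lit 68995329526) (nat_lit 76) (nat_lit 334182069523) (nat_lit 152) (nat_lit 70156676825) (nat_lit 17) (nat_lit 5) (nat_lit 18) (nat_lit 5) (nat_lit 19) (nat_lit 4) (nat_lit 313) (nat_lit 281) (nat_lit 126))) (XT.nd (nat_lit 78) (nat_lit 152) (nat_lit 0) (XT.lf (nat_lit 0) (nat_lit 31535500599) (nat_lit 152) (nat_lit 162998120051) (nat_lit 76) (nat_lit 308530378030) (nat_lit 16) (nat_lit 5) (nat_lit 18) (nat_lit 5) (nat_lit 17) (nat_lit 5) (nat_lit 314) (nat_lit 281) (nat_lit 125)) (XT.nd (nat_lit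 78) (nat_lit 0) (nat_lit 0) (XT.lf (nat_lit 0) (nat_lit 99656151119) (nat_lit 152) (nat_lit 40837572801) (nat_lit 228) (nat_lit 394541655113) (nat_lit 14) (nat_lit 5) (nat_lit 16) (nat_lit 5) (nat_lit 17) (nat_lit 5) (nat_lit 315) (nat_lit 281) (nat_lit 124)) (XT.lf (nat_lit 0) (nat_lit 263008334386) (nat_lit 228) (nat_lit 182279932372) (nat_lit 76) (nat_lit 124034216771) (nat_lit 14) (nat_lit 5) (nat_lit 17) (nat_lit 5) (nat_lit 15) (nat_lit 4) (nat_lit 316) (nat_lit 281) (nat_lit 123))))) (XT.nd (nat_lit 34788) (nat_lit 0) (nat_lit 4712) (XT.nd (nat_lit 78) (nat_lit 0) (nat_lit 0) (XT.lf (nat_lit 0) (nat_lit 93366800416) (nat_lit 76) (nat_lit 304103491352) (nat_lit 152) (nat_lit 208774955875) (nat_lit 13) (nat_lit 5) (nat_lit 14) (nat_lit 5) (nat_lit 15) (nat_lit 4) (nat_lit 317) (nat_lit 281) (nat_lit 122)) (XT.lf (nat_lit 0) (nat_lit 397574208431) (nat_lit 76) (nat_lit 148290067304)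 (nat_lit 152) (nat_lit 100098803805) (nat_lit 13) (nat_lit 5) (nat_lit 14) (nat_lit 5) (nat_lit 15) (nat_lit 4) (nat_lit 318) (nat_lit 281) (nat_lit 121))) (XT.nd (nat_lit 78) (nat_lit 0) (nat_lit 0) (XT.lf (nat_lit 0) (nat_lit 14504540584) (nat_lit 0) (nat_lit 14504540584) (nat_lit 684) (nat_lit 22945490195) (nat_lit 75) (nat_lit 5) (nat_lit 75) (nat_lit 3) (nat_lit 84) (nat_lit 3) (nat_lit 282) (nat_lit 282) (nat_lit 156)) (XT.nd (nat_lit 78) (nat_lit 0) (nat_lit 76) (XT.lf (nat_lit 0) (nat_lit 61047610164) (nat_lit 684) (nat_lit 3584862796) (nat_lit 760) (nat_lit 43397573586) (nat_lit 75) (nat_lit 5) (nat_lit 84) (nat_lit 3) (nat_lit 85) (nat_lit 5) (nat_lit 283) (nat_lit 282) (nat_lit 155)) (XT.lf (nat_lit 0) (nat_lit 66130585436) (nat_lit 684) (nat_lit 37185896576) (nat_lit 760) (nat_lit 9073584661) (nat_lit 76) (nat_lit 5) (nat_lit 85) (nat_lit 5) (nat_lit 86) (nat_lit 5) (nat_lit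 284) (nat_lit 282) (nat_lit 154))))))))
noncomputable def xc116 : XT := (XT.nd (nat_lit 1482) (nat_lit 1368) (nat_lit 0) (XT.nd (nat_lit 702) (nat_lit 1824) (nat_lit 0) (XT.nd (nat_lit 312) (nat_lit 1596) (nat_lit 0) (XT.nd (nat_lit 156) (nat_lit 0) (nat_lit 152) (XT.nd (nat_lit 78) (nat_lit 0) (nat_lit 76) (XT.lf (nat_lit 76) (nat_lit 43633762966) (nat_lit 0) (nat_lit 29820165144) (nat_lit 760) (nat_lit 43553276225) (nat_lit 77) (nat_lit 5) (nat_lit 76) (nat_lit 5) (nat_lit 86) (nat_lit 5) (nat_lit 285) (nat_lit 282) (nat_lit 153)) (XT.lf (nat_lit 76) (nat_lit 9814837744) (nat_lit 0) (nat_lit 73132865530) (nat_lit 760) (nat_lit 38966783696) (nat_lit 78) (nat_lit 5) (nat_lit 77) (nat_lit 5) (nat_lit 87) (nat_lit 5) (nat_lit 286) (nat_lit 282) (nat_lit 152))) (XT.nd (nat_lit 78) (nat_lit 0) (nat_lit 0) (XT.lf (nat_lit 0) (nat_lit 95079044102) (nat_lit 684) (nat_lit 25473328116) (nat_lit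 760) (nat_lit 6568078866) (nat_lit 78) (nat_lit 5) (nat_lit 87) (nat_lit 5) (nat_lit 88) (nat_lit 5) (nat_lit 287) (nat_lit 282) (nat_lit 151)) (XT.lf (nat_lit 76) (nat_lit 69059773596) (nat_lit 0) (nat_lit 41431840194) (nat_lit 760) (nat_lit 22135744357) (nat_lit 79) (nat_lit 5) (nat_lit 78) (nat_lit 5) (nat_lit 88) (nat_lit 5) (nat_lit 288) (nat_lit 282) (nat_lit 150)))) (XT.nd (nat_lit 156) (nat_lit 1064) (nat_lit 0) (XT.nd (nat_lit 78) (nat_lit 76) (nat_lit 0) (XT.lf (nat_lit 0) (nat_lit 33902579923) (nat_lit 684) (nat_lit 94901569601) (nat_lit 760) (nat_lit 9687321985) (nat_lit 70) (nat_lit 5) (nat_lit 79) (nat_lit 5) (nat_lit 80) (nat_lit 5) (nat_lit 289) (nat_lit 282) (nat_lit 149)) (XT.lf (nat_lit 0) (nat_lit 5460222511) (nat_lit 760) (nat_lit 4104963936) (nat_lit 76) (nat_lit 135165421450) (nat_lit 69) (nat_lit 5) (nat_lit 79) (nat_lit 5) (nat_lit 70) (nat_lit 5) (nat_lit 290)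 (nat_lit 282) (nat_lit 148))) (XT.nd (nat_lit 78) (nat_lit 684) (nat_lit 0) (XT.lf (nat_lit 0) (nat_lit 24485519949) (nat_lit 456) (nat_lit 44995543874) (nat_lit 76) (nat_lit 81829605084) (nat_lit 64) (nat_lit 5) (nat_lit 70) (nat_lit 5) (nat_lit 65) (nat_lit 5) (nat_lit 291) (nat_lit 282) (nat_lit 147)) (XT.nd (nat_lit 78) (nat_lit 304) (nat_lit 0) (XT.lf (nat_lit 0) (nat_lit 46708431699) (nat_lit 456) (nat_lit 89351750649) (nat_lit 76) (nat_lit 22273174253) (nat_lit 59) (nat_lit 5) (nat_lit 65) (nat_lit 5) (nat_lit 60) (nat_lit 5) (nat_lit 292) (nat_lit 282) (nat_lit 146)) (XT.lf (nat_lit 0) (nat_lit 27500293221) (nat_lit 304) (nat_lit 45605985704) (nat_lit 380) (nat_lit 92691726489) (nat_lit 55) (nat_lit 5) (nat_lit 59) (nat_lit 5) (nat_lit 60) (nat_lit 5) (nat_lit 293) (nat_lit 282) (nat_lit 145)))))) (XT.nd (nat_lit 390) (nat_lit 912) (nat_lit 0) (XT.nd (nat_lit 156) (nat_lit 608)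 (nat_lit 0) (XT.nd (nat_lit 78) (nat_lit 304) (nat_lit 0) (XT.lf (nat_lit 0) (nat_lit 104010658199) (nat_lit 380) (nat_lit 17729979305) (nat_lit 76) (nat_lit 51999454555) (nat_lit 55) (nat_lit 5) (nat_lit 60) (nat_lit 5) (nat_lit 56) (nat_lit 5) (nat_lit 294) (nat_lit 282) (nat_lit 144)) (XT.lf (nat_lit 0) (nat_lit 115407471486) (nat_lit 304) (nat_lit 24550336824) (nat_lit 380) (nat_lit 42231217355) (nat_lit 51) (nat_lit 5) (nat_lit 55) (nat_lit 5) (nat_lit 56) (nat_lit 5) (nat_lit 295) (nat_lit 282) (nat_lit 143))) (XT.nd (nat_lit 78) (nat_lit 380) (nat_lit 0) (XT.lf (nat_lit 0) (nat_lit 69493825387) (nat_lit 228) (nat_lit 111940921895) (nat_lit 304) (nat_lit 9746426815) (nat_lit 48) (nat_lit 5) (nat_lit 51) (nat_lit 5) (nat_lit 52) (nat_lit 5) (nat_lit 296) (nat_lit 282) (nat_lit 142)) (XT.nd (nat_lit 78) (nat_lit 0) (nat_lit 0) (XT.lf (nat_lit 0) (nat_lit 17967452908) (nat_lit 304)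 (nat_lit 8435219244) (nat_lit 380) (nat_lit 174376420311) (nat_lit 43) (nat_lit 5) (nat_lit 47) (nat_lit 5) (nat_lit 48) (nat_lit 5) (nat_lit 297) (nat_lit 282) (nat_lit 141)) (XT.lf (nat_lit 0) (nat_lit 68874503313) (nat_lit 380) (nat_lit 39711944608) (nat_lit 76) (nat_lit 102361794720) (nat_lit 43) (nat_lit 5) (nat_lit 48) (nat_lit 5) (nat_lit 44) (nat_lit 5) (nat_lit 298) (nat_lit 282) (nat_lit 140))))) (XT.nd (nat_lit 156) (nat_lit 456) (nat_lit 0) (XT.nd (nat_lit 78) (nat_lit 228) (nat_lit 0) (XT.lf (nat_lit 0) (nat_lit 116763187202) (nat_lit 304) (nat_lit 103373303881) (nat_lit 76) (nat_lit 1693479180) (nat_lit 40) (nat_lit 5) (nat_lit 44) (nat_lit 5) (nat_lit 41) (nat_lit 5) (nat_lit 299) (nat_lit 282) (nat_lit 139)) (XT.lf (nat_lit 0) (nat_lit 57135180961) (nat_lit 228) (nat_lit 114773575060) (nat_lit 304) (nat_lit 61502191246) (nat_lit 37) (nat_lit 5) (nat_lit 40) (nat_lit 5)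 (nat_lit 41) (nat_lit 5) (nat_lit 300) (nat_lit 282) (nat_lit 138))) (XT.nd (nat_lit 78) (nat_lit 456) (nat_lit 0) (XT.lf (nat_lit 0) (nat_lit 233280563026) (nat_lit 304) (nat_lit 11667199443) (nat_lit 76) (nat_lit 879910960) (nat_lit 37) (nat_lit 5) (nat_lit 41) (nat_lit 5) (nat_lit 38) (nat_lit 5) (nat_lit 301) (nat_lit 282) (nat_lit 137)) (XT.nd (nat_lit 78) (nat_lit 228) (nat_lit 0) (XT.lf (nat_lit 0) (nat_lit 43691866218) (nat_lit 228) (nat_lit 90110568845) (nat_lit 76) (nat_lit 125170918294) (nat_lit 34) (nat_lit 5) (nat_lit 37) (nat_lit 5) (nat_lit 35) (nat_lit 5) (nat_lit 302) (nat_lit 282) (nat_lit 136)) (XT.lf (nat_lit 0) (nat_lit 93880772807) (nat_lit 228) (nat_lit 11787518853) (nat_lit 304) (nat_lit 167408216004) (nat_lit 31) (nat_lit 5) (nat_lit 34) (nat_lit 5) (nat_lit 35) (nat_lit 5) (nat_lit 303) (nat_lit 282) (nat_lit 135))))))) (XT.nd (nat_lit 702) (nat_lit 380) (nat_lit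 0) (XT.nd (nat_lit 312) (nat_lit 456) (nat_lit 0) (XT.nd (nat_lit 156) (nat_lit 380) (nat_lit 0) (XT.nd (nat_lit 78) (nat_lit 0) (nat_lit 0) (XT.lf (nat_lit 0) (nat_lit 5868170189) (nat_lit 152) (nat_lit 170294785063) (nat_lit 228) (nat_lit 111966953336) (nat_lit 29) (nat_lit 5) (nat_lit 31) (nat_lit 5) (nat_lit 32) (nat_lit 5) (nat_lit 304) (nat_lit 282) (nat_lit 134)) (XT.lf (nat_lit 0) (nat_lit 211930526837) (nat_lit 152) (nat_lit 43683452862) (nat_lit 228) (nat_lit 48607762941) (nat_lit 29) (nat_lit 5) (nat_lit 31) (nat_lit 5) (nat_lit 32) (nat_lit 5) (nat_lit 305) (nat_lit 282) (nat_lit 133))) (XT.nd (nat_lit 78) (nat_lit 152) (nat_lit 0) (XT.lf (nat_lit 0) (nat_lit 22488879636) (nat_lit 228) (nat_lit 206693249414) (nat_lit 76) (nat_lit 92238168048) (nat_lit 26) (nat_lit 5) (nat_lit 29) (nat_lit 5) (nat_lit 27) (nat_lit 5) (nat_lit 306) (nat_lit 282) (nat_lit 132)) (XT.lf (nat_lit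 0) (nat_lit 108705901) (nat_lit 152) (nat_lit 99856408212) (nat_lit 228) (nat_lit 239870037745) (nat_lit 24) (nat_lit 5) (nat_lit 26) (nat_lit 5) (nat_lit 27) (nat_lit 5) (nat_lit 307) (nat_lit 282) (nat_lit 131)))) (XT.nd (nat_lit 156) (nat_lit 304) (nat_lit 0) (XT.nd (nat_lit 78) (nat_lit 152) (nat_lit 0) (XT.lf (nat_lit 0) (nat_lit 187920357473) (nat_lit 228) (nat_lit 129388381490) (nat_lit 76) (nat_lit 42200410865) (nat_lit 24) (nat_lit 5) (nat_lit 27) (nat_lit 5) (nat_lit 25) (nat_lit 5) (nat_lit 308) (nat_lit 282) (nat_lit 130)) (XT.lf (nat_lit 0) (nat_lit 99269925120) (nat_lit 152) (nat_lit 186875547228) (nat_lit 228) (nat_lit 94449922997) (nat_lit 22) (nat_lit 5) (nat_lit 24) (nat_lit 5) (nat_lit 25) (nat_lit 5) (nat_lit 309) (nat_lit 282) (nat_lit 129))) (XT.nd (nat_lit 78) (nat_lit 304) (nat_lit 0) (XT.lf (nat_lit 0) (nat_lit 350841027505) (nat_lit 152) (nat_lit 43641249591)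 (nat_lit 228) (nat_lit 8773579659) (nat_lit 22) (nat_lit 5) (nat_lit 24) (nat_lit 5) (nat_lit 25) (nat_lit 5) (nat_lit 310) (nat_lit 282) (nat_lit 128)) (XT.nd (nat_lit 78) (nat_lit 152) (nat_lit 0) (XT.lf (nat_lit 0) (nat_lit 86003365513) (nat_lit 152) (nat_lit 229415439929) (nat_lit 76) (nat_lit 111998604049) (nat_lit 20) (nat_lit 5) (nat_lit 22) (nat_lit 5) (nat_lit 21) (nat_lit 5) (nat_lit 311) (nat_lit 282) (nat_lit 127)) (XT.lf (nat_lit 0) (nat_lit 16486212437) (nat_lit 152) (nat_lit 173494083292) (nat_lit 228) (nat_lit 263428138847) (nat_lit 18) (nat_lit 5) (nat_lit 20) (nat_lit 5) (nat_lit 21) (nat_lit 5) (nat_lit 312) (nat_lit 282) (nat_lit 126)))))) (XT.nd (nat_lit 390) (nat_lit 76) (nat_lit 0) (XT.nd (nat_lit 156) (nat_lit 228) (nat_lit 0) (XT.nd (nat_lit 78) (nat_lit 76) (nat_lit 0) (XT.lf (nat_lit 0) (nat_lit 290252093995) (nat_lit 152) (nat_lit 16019399588) (nat_lit 228)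 (nat_lit 175007442642) (nat_lit 18) (nat_lit 5) (nat_lit 20) (nat_lit 5) (nat_lit 21) (nat_lit 5) (nat_lit 313) (nat_lit 282) (nat_lit 125)) (XT.lf (nat_lit 0) (nat_lit 74519823198) (nat_lit 76) (nat_lit 360914684829) (nat_lit 152) (nat_lit 75766144141) (nat_lit 17) (nat_lit 5) (nat_lit 18) (nat_lit 5) (nat_lit 19) (nat_lit 4) (nat_lit 314) (nat_lit 282) (nat_lit 124))) (XT.nd (nat_lit 78) (nat_lit 152) (nat_lit 0) (XT.lf (nat_lit 0) (nat_lit 34061089419) (nat_lit 152) (nat_lit 176033368539) (nat_lit 76) (nat_lit 333214519718) (nat_lit 16) (nat_lit 5) (nat_lit 18) (nat_lit 5) (nat_lit 17) (nat_lit 5) (nat_lit 315) (nat_lit 282) (nat_lit 123)) (XT.nd (nat_lit 78) (nat_lit 0) (nat_lit 0) (XT.lf (nat_lit 0) (nat_lit 107633044366) (nat_lit 152) (nat_lit 44102791341) (nat_lit 228) (nat_lit 426102239751) (nat_lit 14) (nat_lit 5) (nat_lit 16) (nat_lit 5) (nat_lit 17) (nat_lit 5) (nat_lit 316)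 (nat_lit 282) (nat_lit 122)) (XT.lf (nat_lit 0) (nat_lit 284051447227) (nat_lit 228) (nat_lit 196858153674) (nat_lit 76) (nat_lit 133958556038) (nat_lit 14) (nat_lit 5) (nat_lit 17) (nat_lit 5) (nat_lit 15) (nat_lit 4) (nat_lit 317) (nat_lit 282) (nat_lit 121))))) (XT.nd (nat_lit 34866) (nat_lit 0) (nat_lit 4712) (XT.nd (nat_lit 34788) (nat_lit 0) (nat_lit 4712) (XT.lf (nat_lit 0) (nat_lit 100840136371) (nat_lit 76) (nat_lit 328430105962) (nat_lit 152) (nat_lit 225474506013) (nat_lit 13) (nat_lit 5) (nat_lit 14) (nat_lit 5) (nat_lit 15) (nat_lit 4) (nat_lit 318) (nat_lit 282) (nat_lit 120)) (XT.lf (nat_lit 0) (nat_lit 15669178721) (nat_lit 0) (nat_lit 15669178721) (nat_lit 684) (nat_lit 24772126939) (nat_lit 75) (nat_lit 5) (nat_lit 75) (nat_lit 3) (nat_lit 84) (nat_lit 3) (nat_lit 283) (nat_lit 283) (nat_lit 154))) (XT.nd (nat_lit 78) (nat_lit 0) (nat_lit 76) (XT.lf (nat_lit 0) (nat_lit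 65947128307) (nat_lit 684) (nat_lit 3862773440) (nat_lit 760) (nat_lit 46861716385) (nat_lit 75) (nat_lit 5) (nat_lit 84) (nat_lit 3) (nat_lit 85) (nat_lit 5) (nat_lit 284) (nat_lit 283) (nat_lit 153)) (XT.nd (nat_lit 78) (nat_lit 0) (nat_lit 0) (XT.lf (nat_lit 0) (nat_lit 71435613963) (nat_lit 684) (nat_lit 40151402063) (nat_lit 760) (nat_lit 9793483684) (nat_lit 76) (nat_lit 5) (nat_lit 85) (nat_lit 5) (nat_lit 86) (nat_lit 5) (nat_lit 285) (nat_lit 283) (nat_lit 152)) (XT.lf (nat_lit 76) (nat_lit 47133423197) (nat_lit 0) (nat_lit 32210460606) (nat_lit 760) (nat_lit 47023174794) (nat_lit 77) (nat_lit 5) (nat_lit 76) (nat_lit 5) (nat_lit 86) (nat_lit 5) (nat_lit 286) (nat_lit 283) (nat_lit 151))))))))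
noncomputable def xc117 : XT := (XT.nd (nat_lit 1482) (nat_lit 1140) (nat_lit 0) (XT.nd (nat_lit 702) (nat_lit 1976) (nat_lit 0) (XT.nd (nat_lit 312) (nat_lit 1140) (nat_lit 0) (XT.nd (nat_lit 156) (nat_lit 532) (nat_lit 0) (XT.nd (nat_lit 78) (nat_lit 0) (nat_lit 76) (XT.lf (nat_lit 76) (nat_lit 10609355231) (nat_lit 0) (nat_lit 78986873259) (nat_lit 760) (nat_lit 42070744942) (nat_lit 78) (nat_lit 5) (nat_lit 77) (nat_lit 5) (nat_lit 87) (nat_lit 5) (nat_lit 287) (nat_lit 283) (nat_lit 150)) (XT.lf (nat_lit 0) (nat_lit 102697086340) (nat_lit 684) (nat_lit 27501883522) (nat_lit 760) (nat_lit 7090497070) (nat_lit 78) (nat_lit 5) (nat_lit 87) (nat_lit 5) (nat_lit 88) (nat_lit 5) (nat_lit 288) (nat_lit 283) (nat_lit 149))) (XT.nd (nat_lit 78) (nat_lit 608) (nat_lit 0) (XT.lf (nat_lit 76) (nat_lit 74593461689) (nat_lit 0) (nat_lit 44748470911) (nat_lit 760) (nat_lit 23895032950) (nat_lit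 79) (nat_lit 5) (nat_lit 78) (nat_lit 5) (nat_lit 88) (nat_lit 5) (nat_lit 289) (nat_lit 283) (nat_lit 148)) (XT.lf (nat_lit 0) (nat_lit 36623892574) (nat_lit 684) (nat_lit 102494876622) (nat_lit 760) (nat_lit 10451476238) (nat_lit 70) (nat_lit 5) (nat_lit 79) (nat_lit 5) (nat_lit 80) (nat_lit 5) (nat_lit 290) (nat_lit 283) (nat_lit 147)))) (XT.nd (nat_lit 156) (nat_lit 684) (nat_lit 0) (XT.nd (nat_lit 78) (nat_lit 380) (nat_lit 0) (XT.lf (nat_lit 0) (nat_lit 5906748488) (nat_lit 760) (nat_lit 4424582401) (nat_lit 76) (nat_lit 145977214296) (nat_lit 69) (nat_lit 5) (nat_lit 79) (nat_lit 5) (nat_lit 70) (nat_lit 5) (nat_lit 291) (nat_lit 283) (nat_lit 146)) (XT.lf (nat_lit 0) (nat_lit 26453470411) (nat_lit 456) (nat_lit 48586298934) (nat_lit 76) (nat_lit 88375273618) (nat_lit 64) (nat_lit 5) (nat_lit 70) (nat_lit 5) (nat_lit 65) (nat_lit 5) (nat_lit 292) (nat_lit 283) (nat_lit 145))) (XT.nd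 (nat_lit 78) (nat_lit 304) (nat_lit 0) (XT.lf (nat_lit 0) (nat_lit 50453672102) (nat_lit 456) (nat_lit 96490936942) (nat_lit 76) (nat_lit 24054965556) (nat_lit 59) (nat_lit 5) (nat_lit 65) (nat_lit 5) (nat_lit 60) (nat_lit 5) (nat_lit 293) (nat_lit 283) (nat_lit 144)) (XT.nd (nat_lit 78) (nat_lit 0) (nat_lit 0) (XT.lf (nat_lit 0) (nat_lit 29708881318) (nat_lit 304) (nat_lit 49253964998) (nat_lit 380) (nat_lit 100098575690) (nat_lit 55) (nat_lit 5) (nat_lit 59) (nat_lit 5) (nat_lit 60) (nat_lit 5) (nat_lit 294) (nat_lit 283) (nat_lit 143)) (XT.lf (nat_lit 0) (nat_lit 112338985741) (nat_lit 380) (nat_lit 19140062204) (nat_lit 76) (nat_lit 56159858672) (nat_lit 55) (nat_lit 5) (nat_lit 60) (nat_lit 5) (nat_lit 56) (nat_lit 5) (nat_lit 295) (nat_lit 283) (nat_lit 142)))))) (XT.nd (nat_lit 390) (nat_lit 836) (nat_lit 0) (XT.nd (nat_lit 156) (nat_lit 608) (nat_lit 0) (XT.nd (nat_lit 78) (nat_lit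 228) (nat_lit 0) (XT.lf (nat_lit 0) (nat_lit 124648023272) (nat_lit 304) (nat_lit 26513455080) (nat_lit 380) (nat_lit 45602299448) (nat_lit 51) (nat_lit 5) (nat_lit 55) (nat_lit 5) (nat_lit 56) (nat_lit 5) (nat_lit 296) (nat_lit 283) (nat_lit 141)) (XT.lf (nat_lit 0) (nat_lit 75061280083) (nat_lit 228) (nat_lit 120894907714) (nat_lit 304) (nat_lit 10519130847) (nat_lit 48) (nat_lit 5) (nat_lit 51) (nat_lit 5) (nat_lit 52) (nat_lit 5) (nat_lit 297) (nat_lit 283) (nat_lit 140))) (XT.nd (nat_lit 78) (nat_lit 228) (nat_lit 0) (XT.lf (nat_lit 0) (nat_lit 19412681871) (nat_lit 304) (nat_lit 9108609441) (nat_lit 380) (nat_lit 188319793865) (nat_lit 43) (nat_lit 5) (nat_lit 47) (nat_lit 5) (nat_lit 48) (nat_lit 5) (nat_lit 298) (nat_lit 283) (nat_lit 139)) (XT.nd (nat_lit 78) (nat_lit 228) (nat_lit 0) (XT.lf (nat_lit 0) (nat_lit 74390415128) (nat_lit 380) (nat_lit 42881358392) (nat_lit 76) (nat_lit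 110552017611) (nat_lit 43) (nat_lit 5) (nat_lit 48) (nat_lit 5) (nat_lit 44) (nat_lit 5) (nat_lit 299) (nat_lit 283) (nat_lit 138)) (XT.lf (nat_lit 0) (nat_lit 126109890339) (nat_lit 304) (nat_lit 111635685476) (nat_lit 76) (nat_lit 1830497305) (nat_lit 40) (nat_lit 5) (nat_lit 44) (nat_lit 5) (nat_lit 41) (nat_lit 5) (nat_lit 300) (nat_lit 283) (nat_lit 137))))) (XT.nd (nat_lit 156) (nat_lit 608) (nat_lit 0) (XT.nd (nat_lit 78) (nat_lit 0) (nat_lit 0) (XT.lf (nat_lit 0) (nat_lit 61713152964) (nat_lit 228) (nat_lit 123953645066) (nat_lit 304) (nat_lit 66416746501) (nat_lit 37) (nat_lit 5) (nat_lit 40) (nat_lit 5) (nat_lit 41) (nat_lit 5) (nat_lit 301) (nat_lit 283) (nat_lit 136)) (XT.lf (nat_lit 0) (nat_lit 251947980180) (nat_lit 304) (nat_lit 12593716426) (nat_lit 76) (nat_lit 951931499) (nat_lit 37) (nat_lit 5) (nat_lit 41) (nat_lit 5) (nat_lit 38) (nat_lit 5) (nat_lit 302) (nat_lit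 283) (nat_lit 135))) (XT.nd (nat_lit 78) (nat_lit 380) (nat_lit 0) (XT.lf (nat_lit 0) (nat_lit 47192008402) (nat_lit 228) (nat_lit 97312685647) (nat_lit 76) (nat_lit 135186278590) (nat_lit 34) (nat_lit 5) (nat_lit 37) (nat_lit 5) (nat_lit 35) (nat_lit 5) (nat_lit 303) (nat_lit 283) (nat_lit 134)) (XT.nd (nat_lit 78) (nat_lit 152) (nat_lit 0) (XT.lf (nat_lit 0) (nat_lit 101397670916) (nat_lit 228) (nat_lit 12728622423) (nat_lit 304) (nat_lit 180796099370) (nat_lit 31) (nat_lit 5) (nat_lit 34) (nat_lit 5) (nat_lit 35) (nat_lit 5) (nat_lit 304) (nat_lit 283) (nat_lit 133)) (XT.lf (nat_lit 0) (nat_lit 6343977361) (nat_lit 152) (nat_lit 183916343118) (nat_lit 228) (nat_lit 120919756346) (nat_lit 29) (nat_lit 5) (nat_lit 31) (nat_lit 5) (nat_lit 32) (nat_lit 5) (nat_lit 305) (nat_lit 283) (nat_lit 132))))))) (XT.nd (nat_lit 858) (nat_lit 228) (nat_lit 0) (XT.nd (nat_lit 390) (nat_lit 380) (nat_lit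 0) (XT.nd (nat_lit 156) (nat_lit 304) (nat_lit 0) (XT.nd (nat_lit 78) (nat_lit 228) (nat_lit 0) (XT.lf (nat_lit 0) (nat_lit 228890851907) (nat_lit 152) (nat_lit 47176254323) (nat_lit 228) (nat_lit 52492167998) (nat_lit 29) (nat_lit 5) (nat_lit 31) (nat_lit 5) (nat_lit 32) (nat_lit 5) (nat_lit 306) (nat_lit 283) (nat_lit 131)) (XT.lf (nat_lit 0) (nat_lit 24291888302) (nat_lit 228) (nat_lit 223222775881) (nat_lit 76) (nat_lit 99619055228) (nat_lit 26) (nat_lit 5) (nat_lit 29) (nat_lit 5) (nat_lit 27) (nat_lit 5) (nat_lit 307) (nat_lit 283) (nat_lit 130))) (XT.nd (nat_lit 78) (nat_lit 152) (nat_lit 0) (XT.lf (nat_lit 0) (nat_lit 123077997) (nat_lit 152) (nat_lit 107842943391) (nat_lit 228) (nat_lit 259055751657) (nat_lit 24) (nat_lit 5) (nat_lit 26) (nat_lit 5) (nat_lit 27) (nat_lit 5) (nat_lit 308) (nat_lit 283) (nat_lit 129)) (XT.nd (nat_lit 78) (nat_lit 152) (nat_lit 0) (XT.lf (nat_lit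 0) (nat_lit 202957438866) (nat_lit 228) (nat_lit 139734048572) (nat_lit 76) (nat_lit 45578216130) (nat_lit 24) (nat_lit 5) (nat_lit 27) (nat_lit 5) (nat_lit 25) (nat_lit 5) (nat_lit 309) (nat_lit 283) (nat_lit 128)) (XT.lf (nat_lit 0) (nat_lit 107216687740) (nat_lit 152) (nat_lit 201823700125) (nat_lit 228) (nat_lit 102002470029) (nat_lit 22) (nat_lit 5) (nat_lit 24) (nat_lit 5) (nat_lit 25) (nat_lit 5) (nat_lit 310) (nat_lit 283) (nat_lit 127))))) (XT.nd (nat_lit 156) (nat_lit 228) (nat_lit 0) (XT.nd (nat_lit 78) (nat_lit 152) (nat_lit 0) (XT.lf (nat_lit 0) (nat_lit 378913095455) (nat_lit 152) (nat_lit 47130798743) (nat_lit 228) (nat_lit 9472274544) (nat_lit 22) (nat_lit 5) (nat_lit 24) (nat_lit 5) (nat_lit 25) (nat_lit 5) (nat_lit 311) (nat_lit 283) (nat_lit 126)) (XT.lf (nat_lit 0) (nat_lit 92886595585) (nat_lit 152) (nat_lit 247763871617) (nat_lit 76) (nat_lit 120960182769) (nat_lit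 20) (nat_lit 5) (nat_lit 22) (nat_lit 5) (nat_lit 21) (nat_lit 5) (nat_lit 312) (nat_lit 283) (nat_lit 125))) (XT.nd (nat_lit 78) (nat_lit 76) (nat_lit 0) (XT.lf (nat_lit 0) (nat_lit 17809704184) (nat_lit 152) (nat_lit 187371828450) (nat_lit 228) (nat_lit 284499432121) (nat_lit 18) (nat_lit 5) (nat_lit 20) (nat_lit 5) (nat_lit 21) (nat_lit 5) (nat_lit 313) (nat_lit 283) (nat_lit 124)) (XT.nd (nat_lit 78) (nat_lit 76) (nat_lit 0) (XT.lf (nat_lit 0) (nat_lit 313476515915) (nat_lit 152) (nat_lit 17299302012) (nat_lit 228) (nat_lit 189005299318) (nat_lit 18) (nat_lit 5) (nat_lit 20) (nat_lit 5) (nat_lit 21) (nat_lit 5) (nat_lit 314) (nat_lit 283) (nat_lit 123)) (XT.lf (nat_lit 0) (nat_lit 80485581987) (nat_lit 76) (nat_lit 389786187585) (nat_lit 152) (nat_lit 81824806359) (nat_lit 17) (nat_lit 5) (nat_lit 18) (nat_lit 5) (nat_lit 19) (nat_lit 4) (nat_lit 315) (nat_lit 283) (nat_lit 122))))))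 (XT.nd (nat_lit 35256) (nat_lit 0) (nat_lit 4180) (XT.nd (nat_lit 35022) (nat_lit 0) (nat_lit 4636) (XT.nd (nat_lit 34944) (nat_lit 0) (nat_lit 4636) (XT.lf (nat_lit 0) (nat_lit 116247461198) (nat_lit 152) (nat_lit 47629482341) (nat_lit 228) (nat_lit 460188063160) (nat_lit 14) (nat_lit 5) (nat_lit 16) (nat_lit 5) (nat_lit 17) (nat_lit 5) (nat_lit 317) (nat_lit 283) (nat_lit 120)) (XT.lf (nat_lit 0) (nat_lit 16926378048) (nat_lit 0) (nat_lit 16926378048) (nat_lit 684) (nat_lit 26746178925) (nat_lit 75) (nat_lit 5) (nat_lit 75) (nat_lit 3) (nat_lit 84) (nat_lit 3) (nat_lit 284) (nat_lit 284) (nat_lit 152))) (XT.nd (nat_lit 78) (nat_lit 0) (nat_lit 76) (XT.lf (nat_lit 0) (nat_lit 71236366790) (nat_lit 684) (nat_lit 4164183537) (nat_lit 760) (nat_lit 50604083833) (nat_lit 75) (nat_lit 5) (nat_lit 84) (nat_lit 3) (nat_lit 85) (nat_lit 5) (nat_lit 285) (nat_lit 284) (nat_lit 151)) (XT.nd (nat_lit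 78) (nat_lit 0) (nat_lit 0) (XT.lf (nat_lit 0) (nat_lit 77162964530) (nat_lit 684) (nat_lit 43355484188) (nat_lit 760) (nat_lit 10571828848) (nat_lit 76) (nat_lit 5) (nat_lit 85) (nat_lit 5) (nat_lit 86) (nat_lit 5) (nat_lit 286) (nat_lit 284) (nat_lit 150)) (XT.lf (nat_lit 76) (nat_lit 50911778117) (nat_lit 0) (nat_lit 34791311730) (nat_lit 760) (nat_lit 50772714367) (nat_lit 77) (nat_lit 5) (nat_lit 76) (nat_lit 5) (nat_lit 86) (nat_lit 5) (nat_lit 287) (nat_lit 284) (nat_lit 149))))) (XT.nd (nat_lit 156) (nat_lit 608) (nat_lit 0) (XT.nd (nat_lit 78) (nat_lit 0) (nat_lit 76) (XT.lf (nat_lit 76) (nat_lit 11466103022) (nat_lit 0) (nat_lit 85308719627) (nat_lit 760) (nat_lit 45424932101) (nat_lit 78) (nat_lit 5) (nat_lit 77) (nat_lit 5) (nat_lit 87) (nat_lit 5) (nat_lit 288) (nat_lit 284) (nat_lit 148)) (XT.lf (nat_lit 0) (nat_lit 110922900151) (nat_lit 684) (nat_lit 29694051656) (nat_lit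 760) (nat_lit 7655140723) (nat_lit 78) (nat_lit 5) (nat_lit 87) (nat_lit 5) (nat_lit 88) (nat_lit 5) (nat_lit 289) (nat_lit 284) (nat_lit 147))) (XT.nd (nat_lit 78) (nat_lit 684) (nat_lit 0) (XT.lf (nat_lit 76) (nat_lit 80568574260) (nat_lit 0) (nat_lit 48330134851) (nat_lit 760) (nat_lit 25796715356) (nat_lit 79) (nat_lit 5) (nat_lit 78) (nat_lit 5) (nat_lit 88) (nat_lit 5) (nat_lit 290) (nat_lit 284) (nat_lit 146)) (XT.nd (nat_lit 78) (nat_lit 76) (nat_lit 0) (XT.lf (nat_lit 0) (nat_lit 39561611127) (nat_lit 684) (nat_lit 110695479657) (nat_lit 760) (nat_lit 11278308067) (nat_lit 70) (nat_lit 5) (nat_lit 79) (nat_lit 5) (nat_lit 80) (nat_lit 5) (nat_lit 291) (nat_lit 284) (nat_lit 145)) (XT.lf (nat_lit 0) (nat_lit 6387611562) (nat_lit 760) (nat_lit 4771022716) (nat_lit 76) (nat_lit 157654156127) (nat_lit 69) (nat_lit 5) (nat_lit 79) (nat_lit 5) (nat_lit 70) (nat_lit 5) (nat_lit 292)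 (nat_lit 284) (nat_lit 144))))))))
noncomputable def xc118 : XT := (XT.nd (nat_lit 1482) (nat_lit 456) (nat_lit 0) (XT.nd (nat_lit 702) (nat_lit 1368) (nat_lit 0) (XT.nd (nat_lit 312) (nat_lit 1140) (nat_lit 0) (XT.nd (nat_lit 156) (nat_lit 304) (nat_lit 0) (XT.nd (nat_lit 78) (nat_lit 380) (nat_lit 0) (XT.lf (nat_lit 0) (nat_lit 28577557428) (nat_lit 456) (nat_lit 52465582435) (nat_lit 76) (nat_lit 95444695480) (nat_lit 64) (nat_lit 5) (nat_lit 70) (nat_lit 5) (nat_lit 65) (nat_lit 5) (nat_lit 293) (nat_lit 284) (nat_lit 143)) (XT.lf (nat_lit 0) (nat_lit 54497309721) (nat_lit 456) (nat_lit 104202535493) (nat_lit 76) (nat_lit 25979309099) (nat_lit 59) (nat_lit 5) (nat_lit 65) (nat_lit 5) (nat_lit 60) (nat_lit 5) (nat_lit 294) (nat_lit 284) (nat_lit 142))) (XT.nd (nat_lit 78) (nat_lit 0) (nat_lit 0) (XT.lf (nat_lit 0) (nat_lit 32092934621) (nat_lit 304) (nat_lit 53193853904) (nat_lit 380)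 (nat_lit 108099183866) (nat_lit 55) (nat_lit 5) (nat_lit 59) (nat_lit 5) (nat_lit 60) (nat_lit 5) (nat_lit 295) (nat_lit 284) (nat_lit 141)) (XT.lf (nat_lit 0) (nat_lit 121332513109) (nat_lit 380) (nat_lit 20664138026) (nat_lit 76) (nat_lit 60653031242) (nat_lit 55) (nat_lit 5) (nat_lit 60) (nat_lit 5) (nat_lit 56) (nat_lit 5) (nat_lit 296) (nat_lit 284) (nat_lit 140)))) (XT.nd (nat_lit 156) (nat_lit 608) (nat_lit 0) (XT.nd (nat_lit 78) (nat_lit 228) (nat_lit 0) (XT.lf (nat_lit 0) (nat_lit 134626684464) (nat_lit 304) (nat_lit 28633752430) (nat_lit 380) (nat_lit 49244125984) (nat_lit 51) (nat_lit 5) (nat_lit 55) (nat_lit 5) (nat_lit 56) (nat_lit 5) (nat_lit 297) (nat_lit 284) (nat_lit 139)) (XT.lf (nat_lit 0) (nat_lit 81072997189) (nat_lit 228) (nat_lit 130565396137) (nat_lit 304) (nat_lit 11354651272) (nat_lit 48) (nat_lit 5) (nat_lit 51) (nat_lit 5) (nat_lit 52) (nat_lit 5) (nat_lit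 298) (nat_lit 284) (nat_lit 138))) (XT.nd (nat_lit 78) (nat_lit 228) (nat_lit 0) (XT.lf (nat_lit 0) (nat_lit 20972411726) (nat_lit 304) (nat_lit 9836074480) (nat_lit 380) (nat_lit 203379598851) (nat_lit 43) (nat_lit 5) (nat_lit 47) (nat_lit 5) (nat_lit 48) (nat_lit 5) (nat_lit 299) (nat_lit 284) (nat_lit 137)) (XT.nd (nat_lit 78) (nat_lit 228) (nat_lit 0) (XT.lf (nat_lit 0) (nat_lit 80346750833) (nat_lit 380) (nat_lit 46305401198) (nat_lit 76) (nat_lit 119397275825) (nat_lit 43) (nat_lit 5) (nat_lit 48) (nat_lit 5) (nat_lit 44) (nat_lit 5) (nat_lit 300) (nat_lit 284) (nat_lit 136)) (XT.lf (nat_lit 0) (nat_lit 136203523953) (nat_lit 304) (nat_lit 120560125091) (nat_lit 76) (nat_lit 1978257212) (nat_lit 40) (nat_lit 5) (nat_lit 44) (nat_lit 5) (nat_lit 41) (nat_lit 5) (nat_lit 301) (nat_lit 284) (nat_lit 135)))))) (XT.nd (nat_lit 390) (nat_lit 532) (nat_lit 0) (XT.nd (nat_lit 156) (nat_lit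 608) (nat_lit 0) (XT.nd (nat_lit 78) (nat_lit 0) (nat_lit 0) (XT.lf (nat_lit 0) (nat_lit 66656341625) (nat_lit 228) (nat_lit 133868379746) (nat_lit 304) (nat_lit 71725267938) (nat_lit 37) (nat_lit 5) (nat_lit 40) (nat_lit 5) (nat_lit 41) (nat_lit 5) (nat_lit 302) (nat_lit 284) (nat_lit 134)) (XT.lf (nat_lit 0) (nat_lit 272108081378) (nat_lit 304) (nat_lit 13595333277) (nat_lit 76) (nat_lit 1029481477) (nat_lit 37) (nat_lit 5) (nat_lit 41) (nat_lit 5) (nat_lit 38) (nat_lit 5) (nat_lit 303) (nat_lit 284) (nat_lit 133))) (XT.nd (nat_lit 78) (nat_lit 380) (nat_lit 0) (XT.lf (nat_lit 0) (nat_lit 50971478203) (nat_lit 228) (nat_lit 105091931718) (nat_lit 76) (nat_lit 146002627065) (nat_lit 34) (nat_lit 5) (nat_lit 37) (nat_lit 5) (nat_lit 35) (nat_lit 5) (nat_lit 304) (nat_lit 284) (nat_lit 132)) (XT.nd (nat_lit 78) (nat_lit 152) (nat_lit 0) (XT.lf (nat_lit 0) (nat_lit 109515002666) (nat_lit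 228) (nat_lit 13745285041) (nat_lit 304) (nat_lit 195255694458) (nat_lit 31) (nat_lit 5) (nat_lit 34) (nat_lit 5) (nat_lit 35) (nat_lit 5) (nat_lit 305) (nat_lit 284) (nat_lit 131)) (XT.lf (nat_lit 0) (nat_lit 6856942701) (nat_lit 152) (nat_lit 198627914671) (nat_lit 228) (nat_lit 130589433171) (nat_lit 29) (nat_lit 5) (nat_lit 31) (nat_lit 5) (nat_lit 32) (nat_lit 5) (nat_lit 306) (nat_lit 284) (nat_lit 130))))) (XT.nd (nat_lit 156) (nat_lit 304) (nat_lit 0) (XT.nd (nat_lit 78) (nat_lit 228) (nat_lit 0) (XT.lf (nat_lit 0) (nat_lit 247207163718) (nat_lit 152) (nat_lit 50948747357) (nat_lit 228) (nat_lit 56687926917) (nat_lit 29) (nat_lit 5) (nat_lit 31) (nat_lit 5) (nat_lit 32) (nat_lit 5) (nat_lit 307) (nat_lit 284) (nat_lit 129)) (XT.lf (nat_lit 0) (nat_lit 26238581526) (nat_lit 228) (nat_lit 241075510943) (nat_lit 76) (nat_lit 107590151780) (nat_lit 26) (nat_lit 5) (nat_lit 29) (nat_lit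 5) (nat_lit 27) (nat_lit 5) (nat_lit 308) (nat_lit 284) (nat_lit 128))) (XT.nd (nat_lit 78) (nat_lit 152) (nat_lit 0) (XT.lf (nat_lit 0) (nat_lit 137790170) (nat_lit 152) (nat_lit 116468683492) (nat_lit 228) (nat_lit 279776877507) (nat_lit 24) (nat_lit 5) (nat_lit 26) (nat_lit 5) (nat_lit 27) (nat_lit 5) (nat_lit 309) (nat_lit 284) (nat_lit 127)) (XT.nd (nat_lit 78) (nat_lit 152) (nat_lit 0) (XT.lf (nat_lit 0) (nat_lit 219196994191) (nat_lit 228) (nat_lit 150908139882) (nat_lit 76) (nat_lit 49225992964) (nat_lit 24) (nat_lit 5) (nat_lit 27) (nat_lit 5) (nat_lit 25) (nat_lit 5) (nat_lit 310) (nat_lit 284) (nat_lit 126)) (XT.lf (nat_lit 0) (nat_lit 115798454010) (nat_lit 152) (nat_lit 217967975009) (nat_lit 228) (nat_lit 110159712550) (nat_lit 22) (nat_lit 5) (nat_lit 24) (nat_lit 5) (nat_lit 25) (nat_lit 5) (nat_lit 311) (nat_lit 284) (nat_lit 125))))))) (XT.nd (nat_lit 35646) (nat_lit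 0) (nat_lit 2964) (XT.nd (nat_lit 312) (nat_lit 152) (nat_lit 0) (XT.nd (nat_lit 156) (nat_lit 152) (nat_lit 0) (XT.nd (nat_lit 78) (nat_lit 152) (nat_lit 0) (XT.lf (nat_lit 0) (nat_lit 409230246102) (nat_lit 152) (nat_lit 50899761600) (nat_lit 228) (nat_lit 10227320321) (nat_lit 22) (nat_lit 5) (nat_lit 24) (nat_lit 5) (nat_lit 25) (nat_lit 5) (nat_lit 312) (nat_lit 284) (nat_lit 124)) (XT.lf (nat_lit 0) (nat_lit 100320061666) (nat_lit 152) (nat_lit 267580863113) (nat_lit 76) (nat_lit 130638446633) (nat_lit 20) (nat_lit 5) (nat_lit 22) (nat_lit 5) (nat_lit 21) (nat_lit 5) (nat_lit 313) (nat_lit 284) (nat_lit 123))) (XT.nd (nat_lit 78) (nat_lit 0) (nat_lit 0) (XT.lf (nat_lit 0) (nat_lit 19238419779) (nat_lit 152) (nat_lit 202360047371) (nat_lit 228) (nat_lit 307256850825) (nat_lit 18) (nat_lit 5) (nat_lit 20) (nat_lit 5) (nat_lit 21) (nat_lit 5) (nat_lit 314) (nat_lit 284) (nat_lit 122))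 (XT.lf (nat_lit 0) (nat_lit 338558284651) (nat_lit 152) (nat_lit 18681831956) (nat_lit 228) (nat_lit 204123375240) (nat_lit 18) (nat_lit 5) (nat_lit 20) (nat_lit 5) (nat_lit 21) (nat_lit 5) (nat_lit 315) (nat_lit 284) (nat_lit 121)))) (XT.nd (nat_lit 35100) (nat_lit 0) (nat_lit 4484) (XT.nd (nat_lit 78) (nat_lit 76) (nat_lit 0) (XT.lf (nat_lit 0) (nat_lit 86928006164) (nat_lit 76) (nat_lit 420967649095) (nat_lit 152) (nat_lit 88368536656) (nat_lit 17) (nat_lit 5) (nat_lit 18) (nat_lit 5) (nat_lit 19) (nat_lit 4) (nat_lit 316) (nat_lit 284) (nat_lit 120)) (XT.lf (nat_lit 0) (nat_lit 39733420286) (nat_lit 152) (nat_lit 205317678814) (nat_lit 76) (nat_lit 388664258434) (nat_lit 16) (nat_lit 5) (nat_lit 18) (nat_lit 5) (nat_lit 17) (nat_lit 5) (nat_lit 317) (nat_lit 284) (nat_lit 119))) (XT.nd (nat_lit 78) (nat_lit 0) (nat_lit 0) (XT.lf (nat_lit 0) (nat_lit 18283630464) (nat_lit 0) (nat_lit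 18283630464) (nat_lit 684) (nat_lit 28879256153) (nat_lit 75) (nat_lit 5) (nat_lit 75) (nat_lit 3) (nat_lit 84) (nat_lit 3) (nat_lit 285) (nat_lit 285) (nat_lit 150)) (XT.nd (nat_lit 78) (nat_lit 0) (nat_lit 76) (XT.lf (nat_lit 0) (nat_lit 76946822960) (nat_lit 684) (nat_lit 4490792346) (nat_lit 760) (nat_lit 54646777942) (nat_lit 75) (nat_lit 5) (nat_lit 84) (nat_lit 3) (nat_lit 85) (nat_lit 5) (nat_lit 286) (nat_lit 285) (nat_lit 149)) (XT.lf (nat_lit 0) (nat_lit 83346719671) (nat_lit 684) (nat_lit 46817038458) (nat_lit 760) (nat_lit 11413173980) (nat_lit 76) (nat_lit 5) (nat_lit 85) (nat_lit 5) (nat_lit 86) (nat_lit 5) (nat_lit 287) (nat_lit 285) (nat_lit 148)))))) (XT.nd (nat_lit 390) (nat_lit 1140) (nat_lit 0) (XT.nd (nat_lit 156) (nat_lit 456) (nat_lit 0) (XT.nd (nat_lit 78) (nat_lit 0) (nat_lit 76) (XT.lf (nat_lit 76) (nat_lit 54991305641) (nat_lit 0) (nat_lit 37578058263) (nat_lit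 760) (nat_lit 54823973894) (nat_lit 77) (nat_lit 5) (nat_lit 76) (nat_lit 5) (nat_lit 86) (nat_lit 5) (nat_lit 288) (nat_lit 285) (nat_lit 147)) (XT.lf (nat_lit 76) (nat_lit 12390249435) (nat_lit 0) (nat_lit 92135900485) (nat_lit 760) (nat_lit 49049090904) (nat_lit 78) (nat_lit 5) (nat_lit 77) (nat_lit 5) (nat_lit 87) (nat_lit 5) (nat_lit 289) (nat_lit 285) (nat_lit 146))) (XT.nd (nat_lit 78) (nat_lit 608) (nat_lit 0) (XT.lf (nat_lit 0) (nat_lit 119805345764) (nat_lit 684) (nat_lit 32062732040) (nat_lit 760) (nat_lit 8265326234) (nat_lit 78) (nat_lit 5) (nat_lit 87) (nat_lit 5) (nat_lit 88) (nat_lit 5) (nat_lit 290) (nat_lit 285) (nat_lit 145)) (XT.nd (nat_lit 78) (nat_lit 608) (nat_lit 0) (XT.lf (nat_lit 76) (nat_lit 87020606528) (nat_lit 0) (nat_lit 52198077075) (nat_lit 760) (nat_lit 27851947586) (nat_lit 79) (nat_lit 5) (nat_lit 78) (nat_lit 5) (nat_lit 88) (nat_lit 5) (nat_lit 291)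 (nat_lit 285) (nat_lit 144)) (XT.lf (nat_lit 0) (nat_lit 42733233388) (nat_lit 684) (nat_lit 119551986433) (nat_lit 760) (nat_lit 12172611233) (nat_lit 70) (nat_lit 5) (nat_lit 79) (nat_lit 5) (nat_lit 80) (nat_lit 5) (nat_lit 292) (nat_lit 285) (nat_lit 143))))) (XT.nd (nat_lit 156) (nat_lit 684) (nat_lit 0) (XT.nd (nat_lit 78) (nat_lit 380) (nat_lit 0) (XT.lf (nat_lit 0) (nat_lit 6905756286) (nat_lit 760) (nat_lit 5146251963) (nat_lit 76) (nat_lit 170265429536) (nat_lit 69) (nat_lit 5) (nat_lit 79) (nat_lit 5) (nat_lit 70) (nat_lit 5) (nat_lit 293) (nat_lit 285) (nat_lit 142)) (XT.lf (nat_lit 0) (nat_lit 30870457311) (nat_lit 456) (nat_lit 56656295753) (nat_lit 76) (nat_lit 103079756691) (nat_lit 64) (nat_lit 5) (nat_lit 70) (nat_lit 5) (nat_lit 65) (nat_lit 5) (nat_lit 294) (nat_lit 285) (nat_lit 141))) (XT.nd (nat_lit 78) (nat_lit 304) (nat_lit 0) (XT.lf (nat_lit 0) (nat_lit 58863390668)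 (nat_lit 456) (nat_lit 112532157053) (nat_lit 76) (nat_lit 28057607787) (nat_lit 59) (nat_lit 5) (nat_lit 65) (nat_lit 5) (nat_lit 60) (nat_lit 5) (nat_lit 295) (nat_lit 285) (nat_lit 140)) (XT.nd (nat_lit 78) (nat_lit 0) (nat_lit 0) (XT.lf (nat_lit 0) (nat_lit 34666664656) (nat_lit 304) (nat_lit 57448995023) (nat_lit 380) (nat_lit 116740878966) (nat_lit 55) (nat_lit 5) (nat_lit 59) (nat_lit 5) (nat_lit 60) (nat_lit 5) (nat_lit 296) (nat_lit 285) (nat_lit 139)) (XT.lf (nat_lit 0) (nat_lit 131044608422) (nat_lit 380) (nat_lit 22311156968) (nat_lit 76) (nat_lit 65505602853) (nat_lit 55) (nat_lit 5) (nat_lit 60) (nat_lit 5) (nat_lit 56) (nat_lit 5) (nat_lit 297) (nat_lit 285) (nat_lit 138))))))))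
noncomputable def xc119 : XT := (XT.nd (nat_lit 1482) (nat_lit 76) (nat_lit 0) (XT.nd (nat_lit 702) (nat_lit 988) (nat_lit 0) (XT.nd (nat_lit 312) (nat_lit 912) (nat_lit 0) (XT.nd (nat_lit 156) (nat_lit 380) (nat_lit 0) (XT.nd (nat_lit 78) (nat_lit 228) (nat_lit 0) (XT.lf (nat_lit 0) (nat_lit 145402665697) (nat_lit 304) (nat_lit 30923784710) (nat_lit 380) (nat_lit 53178205599) (nat_lit 51) (nat_lit 5) (nat_lit 55) (nat_lit 5) (nat_lit 56) (nat_lit 5) (nat_lit 298) (nat_lit 285) (nat_lit 137)) (XT.lf (nat_lit 0) (nat_lit 87564679470) (nat_lit 228) (nat_lit 141009681160) (nat_lit 304) (nat_lit 12257870732) (nat_lit 48) (nat_lit 5) (nat_lit 51) (nat_lit 5) (nat_lit 52) (nat_lit 5) (nat_lit 299) (nat_lit 285) (nat_lit 136))) (XT.nd (nat_lit 78) (nat_lit 0) (nat_lit 0) (XT.lf (nat_lit 0) (nat_lit 22655961955) (nat_lit 304) (nat_lit 10621911300) (nat_lit 380) (nat_lit 219645012606) (nat_lit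 43) (nat_lit 5) (nat_lit 47) (nat_lit 5) (nat_lit 48) (nat_lit 5) (nat_lit 300) (nat_lit 285) (nat_lit 135)) (XT.lf (nat_lit 0) (nat_lit 86778865467) (nat_lit 380) (nat_lit 50004289856) (nat_lit 76) (nat_lit 128949998225) (nat_lit 43) (nat_lit 5) (nat_lit 48) (nat_lit 5) (nat_lit 44) (nat_lit 5) (nat_lit 301) (nat_lit 285) (nat_lit 134)))) (XT.nd (nat_lit 156) (nat_lit 456) (nat_lit 0) (XT.nd (nat_lit 78) (nat_lit 228) (nat_lit 0) (XT.lf (nat_lit 0) (nat_lit 147103957436) (nat_lit 304) (nat_lit 130199435079) (nat_lit 76) (nat_lit 2137649581) (nat_lit 40) (nat_lit 5) (nat_lit 44) (nat_lit 5) (nat_lit 41) (nat_lit 5) (nat_lit 302) (nat_lit 285) (nat_lit 133)) (XT.lf (nat_lit 0) (nat_lit 71994109951) (nat_lit 228) (nat_lit 144576515312) (nat_lit 304) (nat_lit 77459158473) (nat_lit 37) (nat_lit 5) (nat_lit 40) (nat_lit 5) (nat_lit 41) (nat_lit 5) (nat_lit 303) (nat_lit 285) (nat_lit 132)))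 (XT.nd (nat_lit 78) (nat_lit 456) (nat_lit 0) (XT.lf (nat_lit 0) (nat_lit 293880382539) (nat_lit 304) (nat_lit 14677918390) (nat_lit 76) (nat_lit 1113036375) (nat_lit 37) (nat_lit 5) (nat_lit 41) (nat_lit 5) (nat_lit 38) (nat_lit 5) (nat_lit 304) (nat_lit 285) (nat_lit 131)) (XT.nd (nat_lit 78) (nat_lit 228) (nat_lit 0) (XT.lf (nat_lit 0) (nat_lit 55052719374) (nat_lit 228) (nat_lit 113494340456) (nat_lit 76) (nat_lit 157684077103) (nat_lit 34) (nat_lit 5) (nat_lit 37) (nat_lit 5) (nat_lit 35) (nat_lit 5) (nat_lit 305) (nat_lit 285) (nat_lit 130)) (XT.lf (nat_lit 0) (nat_lit 118280933741) (nat_lit 228) (nat_lit 14843512804) (nat_lit 304) (nat_lit 210872641046) (nat_lit 31) (nat_lit 5) (nat_lit 34) (nat_lit 5) (nat_lit 35) (nat_lit 5) (nat_lit 306) (nat_lit 285) (nat_lit 129)))))) (XT.nd (nat_lit 390) (nat_lit 456) (nat_lit 0) (XT.nd (nat_lit 156) (nat_lit 380) (nat_lit 0) (XT.nd (nat_lit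 78) (nat_lit 0) (nat_lit 0) (XT.lf (nat_lit 0) (nat_lit 7410168171) (nat_lit 152) (nat_lit 214516659593) (nat_lit 228) (nat_lit 141033241045) (nat_lit 29) (nat_lit 5) (nat_lit 31) (nat_lit 5) (nat_lit 32) (nat_lit 5) (nat_lit 307) (nat_lit 285) (nat_lit 128)) (XT.lf (nat_lit 0) (nat_lit 266988060940) (nat_lit 152) (nat_lit 55023269135) (nat_lit 228) (nat_lit 61219862200) (nat_lit 29) (nat_lit 5) (nat_lit 31) (nat_lit 5) (nat_lit 32) (nat_lit 5) (nat_lit 308) (nat_lit 285) (nat_lit 127))) (XT.nd (nat_lit 78) (nat_lit 152) (nat_lit 0) (XT.lf (nat_lit 0) (nat_lit 28340533412) (nat_lit 228) (nat_lit 260357190529) (nat_lit 76) (nat_lit 116198711774) (nat_lit 26) (nat_lit 5) (nat_lit 29) (nat_lit 5) (nat_lit 27) (nat_lit 5) (nat_lit 309) (nat_lit 285) (nat_lit 126)) (XT.nd (nat_lit 78) (nat_lit 0) (nat_lit 0) (XT.lf (nat_lit 0) (nat_lit 152985136) (nat_lit 152) (nat_lit 125784724666) (nat_lit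 228) (nat_lit 302156169097) (nat_lit 24) (nat_lit 5) (nat_lit 26) (nat_lit 5) (nat_lit 27) (nat_lit 5) (nat_lit 310) (nat_lit 285) (nat_lit 125)) (XT.lf (nat_lit 0) (nat_lit 236735291634) (nat_lit 228) (nat_lit 162976819384) (nat_lit 76) (nat_lit 53165375165) (nat_lit 24) (nat_lit 5) (nat_lit 27) (nat_lit 5) (nat_lit 25) (nat_lit 5) (nat_lit 311) (nat_lit 285) (nat_lit 124))))) (XT.nd (nat_lit 156) (nat_lit 304) (nat_lit 0) (XT.nd (nat_lit 78) (nat_lit 0) (nat_lit 0) (XT.lf (nat_lit 0) (nat_lit 125066129414) (nat_lit 152) (nat_lit 235404023156) (nat_lit 228) (nat_lit 118969956048) (nat_lit 22) (nat_lit 5) (nat_lit 24) (nat_lit 5) (nat_lit 25) (nat_lit 5) (nat_lit 312) (nat_lit 285) (nat_lit 123)) (XT.lf (nat_lit 0) (nat_lit 441972183459) (nat_lit 152) (nat_lit 54970455626) (nat_lit 228) (nat_lit 11043160107) (nat_lit 22) (nat_lit 5) (nat_lit 24) (nat_lit 5) (nat_lit 25) (nat_lit 5) (nat_lit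 313) (nat_lit 285) (nat_lit 122))) (XT.nd (nat_lit 78) (nat_lit 152) (nat_lit 0) (XT.lf (nat_lit 0) (nat_lit 108347842898) (nat_lit 152) (nat_lit 288983801441) (nat_lit 76) (nat_lit 141090764856) (nat_lit 20) (nat_lit 5) (nat_lit 22) (nat_lit 5) (nat_lit 21) (nat_lit 5) (nat_lit 314) (nat_lit 285) (nat_lit 121)) (XT.nd (nat_lit 78) (nat_lit 0) (nat_lit 0) (XT.lf (nat_lit 0) (nat_lit 20780870642) (nat_lit 152) (nat_lit 218547541701) (nat_lit 228) (nat_lit 331835224795) (nat_lit 18) (nat_lit 5) (nat_lit 20) (nat_lit 5) (nat_lit 21) (nat_lit 5) (nat_lit 315) (nat_lit 285) (nat_lit 120)) (XT.lf (nat_lit 0) (nat_lit 365646074535) (nat_lit 152) (nat_lit 20175166050) (nat_lit 228) (nat_lit 220451232207) (nat_lit 18) (nat_lit 5) (nat_lit 20) (nat_lit 5) (nat_lit 21) (nat_lit 5) (nat_lit 316) (nat_lit 285) (nat_lit 119))))))) (XT.nd (nat_lit 35802) (nat_lit 0) (nat_lit 1520) (XT.nd (nat_lit 35412)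 (nat_lit 0) (nat_lit 3952) (XT.nd (nat_lit 35178) (nat_lit 0) (nat_lit 4408) (XT.nd (nat_lit 35100) (nat_lit 0) (nat_lit 4408) (XT.lf (nat_lit 0) (nat_lit 93885313888) (nat_lit 76) (nat_lit 454643832030) (nat_lit 152) (nat_lit 95436086965) (nat_lit 17) (nat_lit 5) (nat_lit 18) (nat_lit 5) (nat_lit 19) (nat_lit 4) (nat_lit 317) (nat_lit 285) (nat_lit 118)) (XT.lf (nat_lit 0) (nat_lit 19749014808) (nat_lit 0) (nat_lit 19749014808) (nat_lit 684) (nat_lit 31183923561) (nat_lit 75) (nat_lit 5) (nat_lit 75) (nat_lit 3) (nat_lit 84) (nat_lit 3) (nat_lit 286) (nat_lit 286) (nat_lit 148))) (XT.nd (nat_lit 78) (nat_lit 0) (nat_lit 76) (XT.lf (nat_lit 0) (nat_lit 83112468340) (nat_lit 684) (nat_lit 4844460849) (nat_lit 760) (nat_lit 59013691132) (nat_lit 75) (nat_lit 5) (nat_lit 84) (nat_lit 3) (nat_lit 85) (nat_lit 5) (nat_lit 287) (nat_lit 286) (nat_lit 147)) (XT.nd (nat_lit 78) (nat_lit 0) (nat_lit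 0) (XT.lf (nat_lit 0) (nat_lit 90023646184) (nat_lit 684) (nat_lit 50556499216) (nat_lit 760) (nat_lit 12322454600) (nat_lit 76) (nat_lit 5) (nat_lit 85) (nat_lit 5) (nat_lit 86) (nat_lit 5) (nat_lit 288) (nat_lit 286) (nat_lit 146)) (XT.lf (nat_lit 76) (nat_lit 59396255904) (nat_lit 0) (nat_lit 40587253536) (nat_lit 760) (nat_lit 59200840346) (nat_lit 77) (nat_lit 5) (nat_lit 76) (nat_lit 5) (nat_lit 86) (nat_lit 5) (nat_lit 289) (nat_lit 286) (nat_lit 145))))) (XT.nd (nat_lit 156) (nat_lit 608) (nat_lit 0) (XT.nd (nat_lit 78) (nat_lit 0) (nat_lit 76) (XT.lf (nat_lit 76) (nat_lit 13387349167) (nat_lit 0) (nat_lit 99508901543) (nat_lit 760) (nat_lit 52964585593) (nat_lit 78) (nat_lit 5) (nat_lit 77) (nat_lit 5) (nat_lit 87) (nat_lit 5) (nat_lit 290) (nat_lit 286) (nat_lit 144)) (XT.lf (nat_lit 0) (nat_lit 129397158200) (nat_lit 684) (nat_lit 34621883193) (nat_lit 760) (nat_lit 8924644112)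 (nat_lit 78) (nat_lit 5) (nat_lit 87) (nat_lit 5) (nat_lit 88) (nat_lit 5) (nat_lit 291) (nat_lit 286) (nat_lit 143))) (XT.nd (nat_lit 78) (nat_lit 684) (nat_lit 0) (XT.lf (nat_lit 76) (nat_lit 93987867471) (nat_lit 0) (nat_lit 56375236201) (nat_lit 760) (nat_lit 30072811728) (nat_lit 79) (nat_lit 5) (nat_lit 78) (nat_lit 5) (nat_lit 88) (nat_lit 5) (nat_lit 292) (nat_lit 286) (nat_lit 142)) (XT.nd (nat_lit 78) (nat_lit 76) (nat_lit 0) (XT.lf (nat_lit 0) (nat_lit 46157630545) (nat_lit 684) (nat_lit 129116889864) (nat_lit 760) (nat_lit 13139594446) (nat_lit 70) (nat_lit 5) (nat_lit 79) (nat_lit 5) (nat_lit 80) (nat_lit 5) (nat_lit 293) (nat_lit 286) (nat_lit 141)) (XT.lf (nat_lit 0) (nat_lit 7464334586) (nat_lit 760) (nat_lit 5552420082) (nat_lit 76) (nat_lit 183885755907) (nat_lit 69) (nat_lit 5) (nat_lit 79) (nat_lit 5) (nat_lit 70) (nat_lit 5) (nat_lit 294) (nat_lit 286) (nat_lit 140))))))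 (XT.nd (nat_lit 390) (nat_lit 1064) (nat_lit 0) (XT.nd (nat_lit 156) (nat_lit 608) (nat_lit 0) (XT.nd (nat_lit 78) (nat_lit 380) (nat_lit 0) (XT.lf (nat_lit 0) (nat_lit 33345834026) (nat_lit 456) (nat_lit 61183198182) (nat_lit 76) (nat_lit 111325696187) (nat_lit 64) (nat_lit 5) (nat_lit 70) (nat_lit 5) (nat_lit 65) (nat_lit 5) (nat_lit 295) (nat_lit 286) (nat_lit 139)) (XT.lf (nat_lit 0) (nat_lit 63577859871) (nat_lit 456) (nat_lit 121529087230) (nat_lit 76) (nat_lit 30302176937) (nat_lit 59) (nat_lit 5) (nat_lit 65) (nat_lit 5) (nat_lit 60) (nat_lit 5) (nat_lit 296) (nat_lit 286) (nat_lit 138))) (XT.nd (nat_lit 78) (nat_lit 304) (nat_lit 0) (XT.lf (nat_lit 0) (nat_lit 37445395004) (nat_lit 304) (nat_lit 62044599816) (nat_lit 380) (nat_lit 126074799825) (nat_lit 55) (nat_lit 5) (nat_lit 59) (nat_lit 5) (nat_lit 60) (nat_lit 5) (nat_lit 297) (nat_lit 286) (nat_lit 137)) (XT.nd (nat_lit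 78) (nat_lit 304) (nat_lit 0) (XT.lf (nat_lit 0) (nat_lit 141532887542) (nat_lit 380) (nat_lit 24090809384) (nat_lit 76) (nat_lit 70746333241) (nat_lit 55) (nat_lit 5) (nat_lit 60) (nat_lit 5) (nat_lit 56) (nat_lit 5) (nat_lit 298) (nat_lit 286) (nat_lit 136)) (XT.lf (nat_lit 0) (nat_lit 157039891364) (nat_lit 304) (nat_lit 33397114857) (nat_lit 380) (nat_lit 57427789153) (nat_lit 51) (nat_lit 5) (nat_lit 55) (nat_lit 5) (nat_lit 56) (nat_lit 5) (nat_lit 299) (nat_lit 286) (nat_lit 135))))) (XT.nd (nat_lit 156) (nat_lit 456) (nat_lit 0) (XT.nd (nat_lit 78) (nat_lit 380) (nat_lit 0) (XT.lf (nat_lit 0) (nat_lit 94574862835) (nat_lit 228) (nat_lit 152289644037) (nat_lit 304) (nat_lit 13234082830) (nat_lit 48) (nat_lit 5) (nat_lit 51) (nat_lit 5) (nat_lit 52) (nat_lit 5) (nat_lit 300) (nat_lit 286) (nat_lit 134)) (XT.lf (nat_lit 0) (nat_lit 24473374861) (nat_lit 304) (nat_lit 11470764736)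 (nat_lit 380) (nat_lit 237212366226) (nat_lit 43) (nat_lit 5) (nat_lit 47) (nat_lit 5) (nat_lit 48) (nat_lit 5) (nat_lit 301) (nat_lit 286) (nat_lit 133))) (XT.nd (nat_lit 78) (nat_lit 456) (nat_lit 0) (XT.lf (nat_lit 0) (nat_lit 93724925190) (nat_lit 380) (nat_lit 53999880441) (nat_lit 76) (nat_lit 139266804268) (nat_lit 43) (nat_lit 5) (nat_lit 48) (nat_lit 5) (nat_lit 44) (nat_lit 5) (nat_lit 302) (nat_lit 286) (nat_lit 132)) (XT.nd (nat_lit 78) (nat_lit 228) (nat_lit 0) (XT.lf (nat_lit 0) (nat_lit 158875833331) (nat_lit 304) (nat_lit 140610674506) (nat_lit 76) (nat_lit 2309631877) (nat_lit 40) (nat_lit 5) (nat_lit 44) (nat_lit 5) (nat_lit 41) (nat_lit 5) (nat_lit 303) (nat_lit 286) (nat_lit 131)) (XT.lf (nat_lit 0) (nat_lit 77758149202) (nat_lit 228) (nat_lit 156141492150) (nat_lit 304) (nat_lit 83652349569) (nat_lit 37) (nat_lit 5) (nat_lit 40) (nat_lit 5) (nat_lit 41) (nat_lit 5)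 (nat_lit 304) (nat_lit 286) (nat_lit 130))))))))
noncomputable def xc120 : XT := (XT.nd (nat_lit 36660) (nat_lit 0) (nat_lit 456) (XT.nd (nat_lit 702) (nat_lit 304) (nat_lit 0) (XT.nd (nat_lit 312) (nat_lit 532) (nat_lit 0) (XT.nd (nat_lit 156) (nat_lit 380) (nat_lit 0) (XT.nd (nat_lit 78) (nat_lit 228) (nat_lit 0) (XT.lf (nat_lit 0) (nat_lit 317393946416) (nat_lit 304) (nat_lit 15847829545) (nat_lit 76) (nat_lit 1203104988) (nat_lit 37) (nat_lit 5) (nat_lit 41) (nat_lit 5) (nat_lit 38) (nat_lit 5) (nat_lit 305) (nat_lit 286) (nat_lit 129)) (XT.lf (nat_lit 0) (nat_lit 59459957256) (nat_lit 228) (nat_lit 122569647466) (nat_lit 76) (nat_lit 170299866262) (nat_lit 34) (nat_lit 5) (nat_lit 37) (nat_lit 5) (nat_lit 35) (nat_lit 5) (nat_lit 306) (nat_lit 286) (nat_lit 128))) (XT.nd (nat_lit 78) (nat_lit 152) (nat_lit 0) (XT.lf (nat_lit 0) (nat_lit 127747464391) (nat_lit 228) (nat_lit 16029797805)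 (nat_lit 304) (nat_lit 227739443954) (nat_lit 31) (nat_lit 5) (nat_lit 34) (nat_lit 5) (nat_lit 35) (nat_lit 5) (nat_lit 307) (nat_lit 286) (nat_lit 127)) (XT.lf (nat_lit 0) (nat_lit 8006985443) (nat_lit 152) (nat_lit 231676716425) (nat_lit 228) (nat_lit 152313031005) (nat_lit 29) (nat_lit 5) (nat_lit 31) (nat_lit 5) (nat_lit 32) (nat_lit 5) (nat_lit 308) (nat_lit 286) (nat_lit 126)))) (XT.nd (nat_lit 156) (nat_lit 304) (nat_lit 0) (XT.nd (nat_lit 78) (nat_lit 228) (nat_lit 0) (XT.lf (nat_lit 0) (nat_lit 288350813054) (nat_lit 152) (nat_lit 59423949244) (nat_lit 228) (nat_lit 66114794395) (nat_lit 29) (nat_lit 5) (nat_lit 31) (nat_lit 5) (nat_lit 32) (nat_lit 5) (nat_lit 309) (nat_lit 286) (nat_lit 125)) (XT.lf (nat_lit 0) (nat_lit 30610232672) (nat_lit 228) (nat_lit 281182026669) (nat_lit 76) (nat_lit 125495764281) (nat_lit 26) (nat_lit 5) (nat_lit 29) (nat_lit 5) (nat_lit 27) (nat_lit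 5) (nat_lit 310) (nat_lit 286) (nat_lit 124))) (XT.nd (nat_lit 78) (nat_lit 152) (nat_lit 0) (XT.lf (nat_lit 0) (nat_lit 168800553) (nat_lit 152) (nat_lit 135846256492) (nat_lit 228) (nat_lit 326326211828) (nat_lit 24) (nat_lit 5) (nat_lit 26) (nat_lit 5) (nat_lit 27) (nat_lit 5) (nat_lit 311) (nat_lit 286) (nat_lit 123)) (XT.nd (nat_lit 78) (nat_lit 152) (nat_lit 0) (XT.lf (nat_lit 0) (nat_lit 255676290812) (nat_lit 228) (nat_lit 176011559853) (nat_lit 76) (nat_lit 57419722088) (nat_lit 24) (nat_lit 5) (nat_lit 27) (nat_lit 5) (nat_lit 25) (nat_lit 5) (nat_lit 312) (nat_lit 286) (nat_lit 122)) (XT.lf (nat_lit 0) (nat_lit 135074676868) (nat_lit 152) (nat_lit 254235153432) (nat_lit 228) (nat_lit 128485380459) (nat_lit 22) (nat_lit 5) (nat_lit 24) (nat_lit 5) (nat_lit 25) (nat_lit 5) (nat_lit 313) (nat_lit 286) (nat_lit 121)))))) (XT.nd (nat_lit 35568) (nat_lit 0) (nat_lit 4408) (XT.nd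 (nat_lit 156) (nat_lit 152) (nat_lit 0) (XT.nd (nat_lit 78) (nat_lit 152) (nat_lit 0) (XT.lf (nat_lit 0) (nat_lit 477332973971) (nat_lit 152) (nat_lit 59366988765) (nat_lit 228) (nat_lit 11924601737) (nat_lit 22) (nat_lit 5) (nat_lit 24) (nat_lit 5) (nat_lit 25) (nat_lit 5) (nat_lit 314) (nat_lit 286) (nat_lit 120)) (XT.lf (nat_lit 0) (nat_lit 117017536156) (nat_lit 152) (nat_lit 312099478531) (nat_lit 76) (nat_lit 152379091281) (nat_lit 20) (nat_lit 5) (nat_lit 22) (nat_lit 5) (nat_lit 21) (nat_lit 5) (nat_lit 315) (nat_lit 286) (nat_lit 119))) (XT.nd (nat_lit 35256) (nat_lit 0) (nat_lit 4332) (XT.lf (nat_lit 0) (nat_lit 22446235767) (nat_lit 152) (nat_lit 236030222386) (nat_lit 228) (nat_lit 358380178842) (nat_lit 18) (nat_lit 5) (nat_lit 20) (nat_lit 5) (nat_lit 21) (nat_lit 5) (nat_lit 316) (nat_lit 286) (nat_lit 118)) (XT.nd (nat_lit 78) (nat_lit 0) (nat_lit 0) (XT.lf (nat_lit 0)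 (nat_lit 21331245583) (nat_lit 0) (nat_lit 21331245583) (nat_lit 684) (nat_lit 33673773690) (nat_lit 75) (nat_lit 5) (nat_lit 75) (nat_lit 3) (nat_lit 84) (nat_lit 3) (nat_lit 287) (nat_lit 287) (nat_lit 146)) (XT.lf (nat_lit 0) (nat_lit 89769953069) (nat_lit 684) (nat_lit 5227221005) (nat_lit 760) (nat_lit 63730646295) (nat_lit 75) (nat_lit 5) (nat_lit 84) (nat_lit 3) (nat_lit 85) (nat_lit 5) (nat_lit 288) (nat_lit 287) (nat_lit 145))))) (XT.nd (nat_lit 156) (nat_lit 0) (nat_lit 76) (XT.nd (nat_lit 78) (nat_lit 0) (nat_lit 0) (XT.lf (nat_lit 0) (nat_lit 97233415913) (nat_lit 684) (nat_lit 54595958866) (nat_lit 760) (nat_lit 13305015972) (nat_lit 76) (nat_lit 5) (nat_lit 85) (nat_lit 5) (nat_lit 86) (nat_lit 5) (nat_lit 289) (nat_lit 287) (nat_lit 144)) (XT.lf (nat_lit 76) (nat_lit 64152796750) (nat_lit 0) (nat_lit 43836763494) (nat_lit 760) (nat_lit 63929147406) (nat_lit 77) (nat_lit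 5) (nat_lit 76) (nat_lit 5) (nat_lit 86) (nat_lit 5) (nat_lit 290) (nat_lit 287) (nat_lit 143))) (XT.nd (nat_lit 78) (nat_lit 0) (nat_lit 76) (XT.lf (nat_lit 76) (nat_lit 14463378062) (nat_lit 0) (nat_lit 107471438958) (nat_lit 760) (nat_lit 57194522859) (nat_lit 78) (nat_lit 5) (nat_lit 77) (nat_lit 5) (nat_lit 87) (nat_lit 5) (nat_lit 291) (nat_lit 287) (nat_lit 142)) (XT.nd (nat_lit 78) (nat_lit 0) (nat_lit 0) (XT.lf (nat_lit 0) (nat_lit 139755262110) (nat_lit 684) (nat_lit 37386603489) (nat_lit 760) (nat_lit 9636979650) (nat_lit 78) (nat_lit 5) (nat_lit 87) (nat_lit 5) (nat_lit 88) (nat_lit 5) (nat_lit 292) (nat_lit 287) (nat_lit 141)) (XT.lf (nat_lit 76) (nat_lit 101511708614) (nat_lit 0) (nat_lit 60886380748) (nat_lit 760) (nat_lit 32472385239) (nat_lit 79) (nat_lit 5) (nat_lit 78) (nat_lit 5) (nat_lit 88) (nat_lit 5) (nat_lit 293) (nat_lit 287) (nat_lit 140))))))) (XT.nd (nat_lit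 702) (nat_lit 1444) (nat_lit 0) (XT.nd (nat_lit 312) (nat_lit 1216) (nat_lit 0) (XT.nd (nat_lit 156) (nat_lit 760) (nat_lit 0) (XT.nd (nat_lit 78) (nat_lit 76) (nat_lit 0) (XT.lf (nat_lit 0) (nat_lit 49855160816) (nat_lit 684) (nat_lit 139446879355) (nat_lit 760) (nat_lit 14184910076) (nat_lit 70) (nat_lit 5) (nat_lit 79) (nat_lit 5) (nat_lit 80) (nat_lit 5) (nat_lit 294) (nat_lit 287) (nat_lit 139)) (XT.lf (nat_lit 0) (nat_lit 8066726379) (nat_lit 760) (nat_lit 5991870857) (nat_lit 76) (nat_lit 198595837922) (nat_lit 69) (nat_lit 5) (nat_lit 79) (nat_lit 5) (nat_lit 70) (nat_lit 5) (nat_lit 295) (nat_lit 287) (nat_lit 138))) (XT.nd (nat_lit 78) (nat_lit 380) (nat_lit 0) (XT.lf (nat_lit 0) (nat_lit 36018421985) (nat_lit 456) (nat_lit 66073051884) (nat_lit 76) (nat_lit 120231373763) (nat_lit 64) (nat_lit 5) (nat_lit 70) (nat_lit 5) (nat_lit 65) (nat_lit 5) (nat_lit 296) (nat_lit 287) (nat_lit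 137)) (XT.lf (nat_lit 0) (nat_lit 68668716532) (nat_lit 456) (nat_lit 131246576772) (nat_lit 76) (nat_lit 32726317251) (nat_lit 59) (nat_lit 5) (nat_lit 65) (nat_lit 5) (nat_lit 60) (nat_lit 5) (nat_lit 297) (nat_lit 287) (nat_lit 136)))) (XT.nd (nat_lit 156) (nat_lit 912) (nat_lit 0) (XT.nd (nat_lit 78) (nat_lit 0) (nat_lit 0) (XT.lf (nat_lit 0) (nat_lit 40445653812) (nat_lit 304) (nat_lit 67007897904) (nat_lit 380) (nat_lit 136156197512) (nat_lit 55) (nat_lit 5) (nat_lit 59) (nat_lit 5) (nat_lit 60) (nat_lit 5) (nat_lit 298) (nat_lit 287) (nat_lit 135)) (XT.lf (nat_lit 0) (nat_lit 152859556994) (nat_lit 380) (nat_lit 26013581558) (nat_lit 76) (nat_lit 76406281808) (nat_lit 55) (nat_lit 5) (nat_lit 60) (nat_lit 5) (nat_lit 56) (nat_lit 5) (nat_lit 299) (nat_lit 287) (nat_lit 134))) (XT.nd (nat_lit 78) (nat_lit 608) (nat_lit 0) (XT.lf (nat_lit 0) (nat_lit 169607380008) (nat_lit 304) (nat_lit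 36068393108) (nat_lit 380) (nat_lit 62018006032) (nat_lit 51) (nat_lit 5) (nat_lit 55) (nat_lit 5) (nat_lit 56) (nat_lit 5) (nat_lit 300) (nat_lit 287) (nat_lit 133)) (XT.nd (nat_lit 78) (nat_lit 380) (nat_lit 0) (XT.lf (nat_lit 0) (nat_lit 102145146279) (nat_lit 228) (nat_lit 164472119730) (nat_lit 304) (nat_lit 14289022110) (nat_lit 48) (nat_lit 5) (nat_lit 51) (nat_lit 5) (nat_lit 52) (nat_lit 5) (nat_lit 301) (nat_lit 287) (nat_lit 132)) (XT.lf (nat_lit 0) (nat_lit 26435476631) (nat_lit 304) (nat_lit 12387654766) (nat_lit 380) (nat_lit 256185714074) (nat_lit 43) (nat_lit 5) (nat_lit 47) (nat_lit 5) (nat_lit 48) (nat_lit 5) (nat_lit 302) (nat_lit 287) (nat_lit 131)))))) (XT.nd (nat_lit 390) (nat_lit 760) (nat_lit 0) (XT.nd (nat_lit 156) (nat_lit 456) (nat_lit 0) (XT.nd (nat_lit 78) (nat_lit 228) (nat_lit 0) (XT.lf (nat_lit 0) (nat_lit 101226134642) (nat_lit 380) (nat_lit 58315796284)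 (nat_lit 76) (nat_lit 150408839782) (nat_lit 43) (nat_lit 5) (nat_lit 48) (nat_lit 5) (nat_lit 44) (nat_lit 5) (nat_lit 303) (nat_lit 287) (nat_lit 130)) (XT.lf (nat_lit 0) (nat_lit 171588951523) (nat_lit 304) (nat_lit 151855485788) (nat_lit 76) (nat_lit 2495234328) (nat_lit 40) (nat_lit 5) (nat_lit 44) (nat_lit 5) (nat_lit 41) (nat_lit 5) (nat_lit 304) (nat_lit 287) (nat_lit 129))) (XT.nd (nat_lit 78) (nat_lit 228) (nat_lit 0) (XT.lf (nat_lit 0) (nat_lit 83982668127) (nat_lit 228) (nat_lit 168631830395) (nat_lit 304) (nat_lit 90341501200) (nat_lit 37) (nat_lit 5) (nat_lit 40) (nat_lit 5) (nat_lit 41) (nat_lit 5) (nat_lit 305) (nat_lit 287) (nat_lit 128)) (XT.nd (nat_lit 78) (nat_lit 228) (nat_lit 0) (XT.lf (nat_lit 0) (nat_lit 342788148406) (nat_lit 304) (nat_lit 17111950219) (nat_lit 76) (nat_lit 1300232763) (nat_lit 37) (nat_lit 5) (nat_lit 41) (nat_lit 5) (nat_lit 38) (nat_lit 5)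 (nat_lit 306) (nat_lit 287) (nat_lit 127)) (XT.lf (nat_lit 0) (nat_lit 64219343284) (nat_lit 228) (nat_lit 132371583953) (nat_lit 76) (nat_lit 183924766907) (nat_lit 34) (nat_lit 5) (nat_lit 37) (nat_lit 5) (nat_lit 35) (nat_lit 5) (nat_lit 307) (nat_lit 287) (nat_lit 126))))) (XT.nd (nat_lit 156) (nat_lit 380) (nat_lit 0) (XT.nd (nat_lit 78) (nat_lit 152) (nat_lit 0) (XT.lf (nat_lit 0) (nat_lit 137970738867) (nat_lit 228) (nat_lit 17311156233) (nat_lit 304) (nat_lit 245956020274) (nat_lit 31) (nat_lit 5) (nat_lit 34) (nat_lit 5) (nat_lit 35) (nat_lit 5) (nat_lit 308) (nat_lit 287) (nat_lit 125)) (XT.lf (nat_lit 0) (nat_lit 8650976907) (nat_lit 152) (nat_lit 250209759830) (nat_lit 228) (nat_lit 164495613503) (nat_lit 29) (nat_lit 5) (nat_lit 31) (nat_lit 5) (nat_lit 32) (nat_lit 5) (nat_lit 309) (nat_lit 287) (nat_lit 124))) (XT.nd (nat_lit 78) (nat_lit 380) (nat_lit 0) (XT.lf (nat_lit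 0) (nat_lit 311422056459) (nat_lit 152) (nat_lit 64176852304) (nat_lit 228) (nat_lit 71401700185) (nat_lit 29) (nat_lit 5) (nat_lit 31) (nat_lit 5) (nat_lit 32) (nat_lit 5) (nat_lit 310) (nat_lit 287) (nat_lit 123)) (XT.nd (nat_lit 78) (nat_lit 152) (nat_lit 0) (XT.lf (nat_lit 0) (nat_lit 33061157414) (nat_lit 228) (nat_lit 303673383125) (nat_lit 76) (nat_lit 135536416134) (nat_lit 26) (nat_lit 5) (nat_lit 29) (nat_lit 5) (nat_lit 27) (nat_lit 5) (nat_lit 311) (nat_lit 287) (nat_lit 122)) (XT.lf (nat_lit 0) (nat_lit 185370961) (nat_lit 152) (nat_lit 146712888641) (nat_lit 228) (nat_lit 352430207610) (nat_lit 24) (nat_lit 5) (nat_lit 26) (nat_lit 5) (nat_lit 27) (nat_lit 5) (nat_lit 312) (nat_lit 287) (nat_lit 121))))))))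
noncomputable def xc121 : XT := (XT.nd (nat_lit 36816) (nat_lit 0) (nat_lit 152) (XT.nd (nat_lit 36036) (nat_lit 0) (nat_lit 1748) (XT.nd (nat_lit 35646) (nat_lit 0) (nat_lit 4180) (XT.nd (nat_lit 234) (nat_lit 152) (nat_lit 0) (XT.nd (nat_lit 78) (nat_lit 152) (nat_lit 0) (XT.lf (nat_lit 0) (nat_lit 276132259515) (nat_lit 228) (nat_lit 190089565332) (nat_lit 76) (nat_lit 62014257425) (nat_lit 24) (nat_lit 5) (nat_lit 27) (nat_lit 5) (nat_lit 25) (nat_lit 5) (nat_lit 313) (nat_lit 287) (nat_lit 120)) (XT.lf (nat_lit 0) (nat_lit 145883443457) (nat_lit 152) (nat_lit 274572944123) (nat_lit 228) (nat_lit 138762348693) (nat_lit 22) (nat_lit 5) (nat_lit 24) (nat_lit 5) (nat_lit 25) (nat_lit 5) (nat_lit 314) (nat_lit 287) (nat_lit 119))) (XT.nd (nat_lit 35334) (nat_lit 0) (nat_lit 4180) (XT.lf (nat_lit 0) (nat_lit 126380538693) (nat_lit 152) (nat_lit 337064841628) (nat_lit 76) (nat_lit 164570331852)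 (nat_lit 20) (nat_lit 5) (nat_lit 22) (nat_lit 5) (nat_lit 21) (nat_lit 5) (nat_lit 316) (nat_lit 287) (nat_lit 117)) (XT.lf (nat_lit 0) (nat_lit 23039725331) (nat_lit 0) (nat_lit 23039725331) (nat_lit 684) (nat_lit 36363505699) (nat_lit 75) (nat_lit 5) (nat_lit 75) (nat_lit 3) (nat_lit 84) (nat_lit 3) (nat_lit 288) (nat_lit 288) (nat_lit 144)))) (XT.nd (nat_lit 156) (nat_lit 0) (nat_lit 76) (XT.nd (nat_lit 78) (nat_lit 0) (nat_lit 76) (XT.lf (nat_lit 0) (nat_lit 96958825774) (nat_lit 684) (nat_lit 5641286278) (nat_lit 760) (nat_lit 68825548506) (nat_lit 75) (nat_lit 5) (nat_lit 84) (nat_lit 3) (nat_lit 85) (nat_lit 5) (nat_lit 289) (nat_lit 288) (nat_lit 143)) (XT.lf (nat_lit 0) (nat_lit 105018843330) (nat_lit 684) (nat_lit 58959297194) (nat_lit 760) (nat_lit 14366643763) (nat_lit 76) (nat_lit 5) (nat_lit 85) (nat_lit 5) (nat_lit 86) (nat_lit 5) (nat_lit 290) (nat_lit 288) (nat_lit 142)))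 (XT.nd (nat_lit 78) (nat_lit 0) (nat_lit 76) (XT.lf (nat_lit 76) (nat_lit 69289170330) (nat_lit 0) (nat_lit 47345873361) (nat_lit 760) (nat_lit 69036826105) (nat_lit 77) (nat_lit 5) (nat_lit 76) (nat_lit 5) (nat_lit 86) (nat_lit 5) (nat_lit 291) (nat_lit 288) (nat_lit 141)) (XT.nd (nat_lit 78) (nat_lit 0) (nat_lit 76) (XT.lf (nat_lit 76) (nat_lit 15624770119) (nat_lit 0) (nat_lit 116070718967) (nat_lit 760) (nat_lit 61763886488) (nat_lit 78) (nat_lit 5) (nat_lit 77) (nat_lit 5) (nat_lit 87) (nat_lit 5) (nat_lit 292) (nat_lit 288) (nat_lit 140)) (XT.lf (nat_lit 0) (nat_lit 150941111109) (nat_lit 684) (nat_lit 40373219046) (nat_lit 760) (nat_lit 10406535424) (nat_lit 78) (nat_lit 5) (nat_lit 87) (nat_lit 5) (nat_lit 88) (nat_lit 5) (nat_lit 293) (nat_lit 288) (nat_lit 139)))))) (XT.nd (nat_lit 390) (nat_lit 1216) (nat_lit 0) (XT.nd (nat_lit 156) (nat_lit 836) (nat_lit 0) (XT.nd (nat_lit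 78) (nat_lit 608) (nat_lit 0) (XT.lf (nat_lit 76) (nat_lit 109636770600) (nat_lit 0) (nat_lit 65758256272) (nat_lit 760) (nat_lit 35064816467) (nat_lit 79) (nat_lit 5) (nat_lit 78) (nat_lit 5) (nat_lit 88) (nat_lit 5) (nat_lit 294) (nat_lit 288) (nat_lit 138)) (XT.lf (nat_lit 0) (nat_lit 53847791640) (nat_lit 684) (nat_lit 150603176945) (nat_lit 760) (nat_lit 15314685800) (nat_lit 70) (nat_lit 5) (nat_lit 79) (nat_lit 5) (nat_lit 80) (nat_lit 5) (nat_lit 295) (nat_lit 288) (nat_lit 137))) (XT.nd (nat_lit 78) (nat_lit 760) (nat_lit 0) (XT.lf (nat_lit 0) (nat_lit 8716561253) (nat_lit 760) (nat_lit 6467154312) (nat_lit 76) (nat_lit 214482837555) (nat_lit 69) (nat_lit 5) (nat_lit 79) (nat_lit 5) (nat_lit 70) (nat_lit 5) (nat_lit 296) (nat_lit 288) (nat_lit 136)) (XT.nd (nat_lit 78) (nat_lit 380) (nat_lit 0) (XT.lf (nat_lit 0) (nat_lit 38904114911) (nat_lit 456) (nat_lit 71354778962) (nat_lit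 76) (nat_lit 129849559488) (nat_lit 64) (nat_lit 5) (nat_lit 70) (nat_lit 5) (nat_lit 65) (nat_lit 5) (nat_lit 297) (nat_lit 288) (nat_lit 135)) (XT.lf (nat_lit 0) (nat_lit 74166181509) (nat_lit 456) (nat_lit 141742155591) (nat_lit 76) (nat_lit 35344393618) (nat_lit 59) (nat_lit 5) (nat_lit 65) (nat_lit 5) (nat_lit 60) (nat_lit 5) (nat_lit 298) (nat_lit 288) (nat_lit 134))))) (XT.nd (nat_lit 156) (nat_lit 912) (nat_lit 0) (XT.nd (nat_lit 78) (nat_lit 0) (nat_lit 0) (XT.lf (nat_lit 0) (nat_lit 43685273202) (nat_lit 304) (nat_lit 72368298342) (nat_lit 380) (nat_lit 147044761301) (nat_lit 55) (nat_lit 5) (nat_lit 59) (nat_lit 5) (nat_lit 60) (nat_lit 5) (nat_lit 299) (nat_lit 288) (nat_lit 133)) (XT.lf (nat_lit 0) (nat_lit 165091783871) (nat_lit 380) (nat_lit 28090816422) (nat_lit 76) (nat_lit 82518991748) (nat_lit 55) (nat_lit 5) (nat_lit 60) (nat_lit 5) (nat_lit 56) (nat_lit 5) (nat_lit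 300) (nat_lit 288) (nat_lit 132))) (XT.nd (nat_lit 78) (nat_lit 608) (nat_lit 0) (XT.lf (nat_lit 0) (nat_lit 183179654680) (nat_lit 304) (nat_lit 38953443657) (nat_lit 380) (nat_lit 66976011798) (nat_lit 51) (nat_lit 5) (nat_lit 55) (nat_lit 5) (nat_lit 56) (nat_lit 5) (nat_lit 301) (nat_lit 288) (nat_lit 131)) (XT.nd (nat_lit 78) (nat_lit 380) (nat_lit 0) (XT.lf (nat_lit 0) (nat_lit 110320439751) (nat_lit 228) (nat_lit 177629292747) (nat_lit 304) (nat_lit 15428896840) (nat_lit 48) (nat_lit 5) (nat_lit 51) (nat_lit 5) (nat_lit 52) (nat_lit 5) (nat_lit 302) (nat_lit 288) (nat_lit 130)) (XT.lf (nat_lit 0) (nat_lit 28553942832) (nat_lit 304) (nat_lit 13378006012) (nat_lit 380) (nat_lit 276677449243) (nat_lit 43) (nat_lit 5) (nat_lit 47) (nat_lit 5) (nat_lit 48) (nat_lit 5) (nat_lit 303) (nat_lit 288) (nat_lit 129))))))) (XT.nd (nat_lit 780) (nat_lit 152) (nat_lit 0) (XT.nd (nat_lit 390)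 (nat_lit 760) (nat_lit 0) (XT.nd (nat_lit 156) (nat_lit 456) (nat_lit 0) (XT.nd (nat_lit 78) (nat_lit 228) (nat_lit 0) (XT.lf (nat_lit 0) (nat_lit 109326982133) (nat_lit 380) (nat_lit 62977566681) (nat_lit 76) (nat_lit 162442139535) (nat_lit 43) (nat_lit 5) (nat_lit 48) (nat_lit 5) (nat_lit 44) (nat_lit 5) (nat_lit 304) (nat_lit 288) (nat_lit 128)) (XT.lf (nat_lit 0) (nat_lit 185318683836) (nat_lit 304) (nat_lit 164000458706) (nat_lit 76) (nat_lit 2695566296) (nat_lit 40) (nat_lit 5) (nat_lit 44) (nat_lit 5) (nat_lit 41) (nat_lit 5) (nat_lit 305) (nat_lit 288) (nat_lit 127))) (XT.nd (nat_lit 78) (nat_lit 228) (nat_lit 0) (XT.lf (nat_lit 0) (nat_lit 90704596896) (nat_lit 228) (nat_lit 182121535668) (nat_lit 304) (nat_lit 97566218127) (nat_lit 37) (nat_lit 5) (nat_lit 40) (nat_lit 5) (nat_lit 41) (nat_lit 5) (nat_lit 306) (nat_lit 288) (nat_lit 126)) (XT.nd (nat_lit 78) (nat_lit 228) (nat_lit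 0) (XT.lf (nat_lit 0) (nat_lit 370213503328) (nat_lit 304) (nat_lit 18477729205) (nat_lit 76) (nat_lit 1405005306) (nat_lit 37) (nat_lit 5) (nat_lit 41) (nat_lit 5) (nat_lit 38) (nat_lit 5) (nat_lit 307) (nat_lit 288) (nat_lit 125)) (XT.lf (nat_lit 0) (nat_lit 69359110781) (nat_lit 228) (nat_lit 142958193976) (nat_lit 76) (nat_lit 198639529589) (nat_lit 34) (nat_lit 5) (nat_lit 37) (nat_lit 5) (nat_lit 35) (nat_lit 5) (nat_lit 308) (nat_lit 288) (nat_lit 124))))) (XT.nd (nat_lit 156) (nat_lit 380) (nat_lit 0) (XT.nd (nat_lit 78) (nat_lit 152) (nat_lit 0) (XT.lf (nat_lit 0) (nat_lit 149011379221) (nat_lit 228) (nat_lit 18695169619) (nat_lit 304) (nat_lit 265630290650) (nat_lit 31) (nat_lit 5) (nat_lit 34) (nat_lit 5) (nat_lit 35) (nat_lit 5) (nat_lit 309) (nat_lit 288) (nat_lit 123)) (XT.lf (nat_lit 0) (nat_lit 9345997986) (nat_lit 152) (nat_lit 270225602765) (nat_lit 228) (nat_lit 177653153545)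 (nat_lit 29) (nat_lit 5) (nat_lit 31) (nat_lit 5) (nat_lit 32) (nat_lit 5) (nat_lit 310) (nat_lit 288) (nat_lit 122))) (XT.nd (nat_lit 78) (nat_lit 380) (nat_lit 0) (XT.lf (nat_lit 0) (nat_lit 336338545907) (nat_lit 152) (nat_lit 69310132108) (nat_lit 228) (nat_lit 77111883386) (nat_lit 29) (nat_lit 5) (nat_lit 31) (nat_lit 5) (nat_lit 32) (nat_lit 5) (nat_lit 311) (nat_lit 288) (nat_lit 121)) (XT.nd (nat_lit 78) (nat_lit 152) (nat_lit 0) (XT.lf (nat_lit 0) (nat_lit 35707855672) (nat_lit 228) (nat_lit 327964505423) (nat_lit 76) (nat_lit 146380178799) (nat_lit 26) (nat_lit 5) (nat_lit 29) (nat_lit 5) (nat_lit 27) (nat_lit 5) (nat_lit 312) (nat_lit 288) (nat_lit 120)) (XT.lf (nat_lit 0) (nat_lit 202829550) (nat_lit 152) (nat_lit 158449003777) (nat_lit 228) (nat_lit 380622822810) (nat_lit 24) (nat_lit 5) (nat_lit 26) (nat_lit 5) (nat_lit 27) (nat_lit 5) (nat_lit 313) (nat_lit 288) (nat_lit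 119)))))) (XT.nd (nat_lit 35802) (nat_lit 0) (nat_lit 3648) (XT.nd (nat_lit 35568) (nat_lit 0) (nat_lit 4028) (XT.nd (nat_lit 156) (nat_lit 152) (nat_lit 0) (XT.lf (nat_lit 0) (nat_lit 298224439589) (nat_lit 228) (nat_lit 205294227722) (nat_lit 76) (nat_lit 66976218981) (nat_lit 24) (nat_lit 5) (nat_lit 27) (nat_lit 5) (nat_lit 25) (nat_lit 5) (nat_lit 314) (nat_lit 288) (nat_lit 118)) (XT.lf (nat_lit 0) (nat_lit 556766190007) (nat_lit 152) (nat_lit 69243823144) (nat_lit 228) (nat_lit 13905514987) (nat_lit 22) (nat_lit 5) (nat_lit 24) (nat_lit 5) (nat_lit 25) (nat_lit 5) (nat_lit 316) (nat_lit 288) (nat_lit 116))) (XT.nd (nat_lit 78) (nat_lit 0) (nat_lit 0) (XT.lf (nat_lit 0) (nat_lit 24884600975) (nat_lit 0) (nat_lit 24884600975) (nat_lit 684) (nat_lit 39269011150) (nat_lit 75) (nat_lit 5) (nat_lit 75) (nat_lit 3) (nat_lit 84) (nat_lit 3) (nat_lit 289) (nat_lit 289) (nat_lit 142)) (XT.nd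 (nat_lit 78) (nat_lit 0) (nat_lit 76) (XT.lf (nat_lit 0) (nat_lit 104721770227) (nat_lit 684) (nat_lit 6089063454) (nat_lit 760) (nat_lit 74328549269) (nat_lit 75) (nat_lit 5) (nat_lit 84) (nat_lit 3) (nat_lit 85) (nat_lit 5) (nat_lit 290) (nat_lit 289) (nat_lit 141)) (XT.lf (nat_lit 0) (nat_lit 113426141387) (nat_lit 684) (nat_lit 63672321508) (nat_lit 760) (nat_lit 15513597446) (nat_lit 76) (nat_lit 5) (nat_lit 85) (nat_lit 5) (nat_lit 86) (nat_lit 5) (nat_lit 291) (nat_lit 289) (nat_lit 140))))) (XT.nd (nat_lit 156) (nat_lit 456) (nat_lit 0) (XT.nd (nat_lit 78) (nat_lit 0) (nat_lit 76) (XT.lf (nat_lit 76) (nat_lit 74835861775) (nat_lit 0) (nat_lit 51135402616) (nat_lit 760) (nat_lit 74554068239) (nat_lit 77) (nat_lit 5) (nat_lit 76) (nat_lit 5) (nat_lit 86) (nat_lit 5) (nat_lit 292) (nat_lit 289) (nat_lit 139)) (XT.lf (nat_lit 76) (nat_lit 16878456985) (nat_lit 0) (nat_lit 125357718128)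 (nat_lit 760) (nat_lit 66699683449) (nat_lit 78) (nat_lit 5) (nat_lit 77) (nat_lit 5) (nat_lit 87) (nat_lit 5) (nat_lit 293) (nat_lit 289) (nat_lit 138))) (XT.nd (nat_lit 78) (nat_lit 608) (nat_lit 0) (XT.lf (nat_lit 0) (nat_lit 163021053659) (nat_lit 684) (nat_lit 43599379105) (nat_lit 760) (nat_lit 11237855756) (nat_lit 78) (nat_lit 5) (nat_lit 87) (nat_lit 5) (nat_lit 88) (nat_lit 5) (nat_lit 294) (nat_lit 289) (nat_lit 137)) (XT.nd (nat_lit 78) (nat_lit 608) (nat_lit 0) (XT.lf (nat_lit 76) (nat_lit 118411249025) (nat_lit 0) (nat_lit 71019744161) (nat_lit 760) (nat_lit 37865406798) (nat_lit 79) (nat_lit 5) (nat_lit 78) (nat_lit 5) (nat_lit 88) (nat_lit 5) (nat_lit 295) (nat_lit 289) (nat_lit 136)) (XT.lf (nat_lit 0) (nat_lit 58159231191) (nat_lit 684) (nat_lit 162651900272) (nat_lit 760) (nat_lit 16535559324) (nat_lit 70) (nat_lit 5) (nat_lit 79) (nat_lit 5) (nat_lit 80) (nat_lit 5)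 (nat_lit 296) (nat_lit 289) (nat_lit 135))))))))
noncomputable def xc122 : XT := (XT.nd (nat_lit 36972) (nat_lit 0) (nat_lit 1140) (XT.nd (nat_lit 702) (nat_lit 1596) (nat_lit 0) (XT.nd (nat_lit 312) (nat_lit 912) (nat_lit 0) (XT.nd (nat_lit 156) (nat_lit 684) (nat_lit 0) (XT.nd (nat_lit 78) (nat_lit 380) (nat_lit 0) (XT.lf (nat_lit 0) (nat_lit 9417741403) (nat_lit 760) (nat_lit 6981040534) (nat_lit 76) (nat_lit 231640892371) (nat_lit 69) (nat_lit 5) (nat_lit 79) (nat_lit 5) (nat_lit 70) (nat_lit 5) (nat_lit 297) (nat_lit 289) (nat_lit 134)) (XT.lf (nat_lit 0) (nat_lit 42020061360) (nat_lit 456) (nat_lit 77059631553) (nat_lit 76) (nat_lit 140237246318) (nat_lit 64) (nat_lit 5) (nat_lit 70) (nat_lit 5) (nat_lit 65) (nat_lit 5) (nat_lit 298) (nat_lit 289) (nat_lit 133))) (XT.nd (nat_lit 78) (nat_lit 304) (nat_lit 0) (XT.lf (nat_lit 0) (nat_lit 80102877653) (nat_lit 456) (nat_lit 153077972377)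 (nat_lit 76) (nat_lit 38171920233) (nat_lit 59) (nat_lit 5) (nat_lit 65) (nat_lit 5) (nat_lit 60) (nat_lit 5) (nat_lit 299) (nat_lit 289) (nat_lit 132)) (XT.lf (nat_lit 0) (nat_lit 47183496194) (nat_lit 304) (nat_lit 78157563827) (nat_lit 380) (nat_lit 158804971139) (nat_lit 55) (nat_lit 5) (nat_lit 59) (nat_lit 5) (nat_lit 60) (nat_lit 5) (nat_lit 300) (nat_lit 289) (nat_lit 131)))) (XT.nd (nat_lit 156) (nat_lit 608) (nat_lit 0) (XT.nd (nat_lit 78) (nat_lit 304) (nat_lit 0) (XT.lf (nat_lit 0) (nat_lit 178302094961) (nat_lit 380) (nat_lit 30334779558) (nat_lit 76) (nat_lit 89120688897) (nat_lit 55) (nat_lit 5) (nat_lit 60) (nat_lit 5) (nat_lit 56) (nat_lit 5) (nat_lit 301) (nat_lit 289) (nat_lit 130)) (XT.lf (nat_lit 0) (nat_lit 197837185724) (nat_lit 304) (nat_lit 42069358296) (nat_lit 380) (nat_lit 72331148026) (nat_lit 51) (nat_lit 5) (nat_lit 55) (nat_lit 5) (nat_lit 56) (nat_lit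 5) (nat_lit 302) (nat_lit 289) (nat_lit 129))) (XT.nd (nat_lit 78) (nat_lit 380) (nat_lit 0) (XT.lf (nat_lit 0) (nat_lit 119149231455) (nat_lit 228) (nat_lit 191839124711) (nat_lit 304) (nat_lit 16660424775) (nat_lit 48) (nat_lit 5) (nat_lit 51) (nat_lit 5) (nat_lit 52) (nat_lit 5) (nat_lit 303) (nat_lit 289) (nat_lit 128)) (XT.nd (nat_lit 78) (nat_lit 0) (nat_lit 0) (XT.lf (nat_lit 0) (nat_lit 30841368744) (nat_lit 304) (nat_lit 14447679675) (nat_lit 380) (nat_lit 298808968608) (nat_lit 43) (nat_lit 5) (nat_lit 47) (nat_lit 5) (nat_lit 48) (nat_lit 5) (nat_lit 304) (nat_lit 289) (nat_lit 127)) (XT.lf (nat_lit 0) (nat_lit 118075504146) (nat_lit 380) (nat_lit 68012777069) (nat_lit 76) (nat_lit 175438018730) (nat_lit 43) (nat_lit 5) (nat_lit 48) (nat_lit 5) (nat_lit 44) (nat_lit 5) (nat_lit 305) (nat_lit 289) (nat_lit 126)))))) (XT.nd (nat_lit 390) (nat_lit 684) (nat_lit 0) (XT.nd (nat_lit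 156) (nat_lit 456) (nat_lit 0) (XT.nd (nat_lit 78) (nat_lit 228) (nat_lit 0) (XT.lf (nat_lit 0) (nat_lit 200146421505) (nat_lit 304) (nat_lit 177117523913) (nat_lit 76) (nat_lit 2911823071) (nat_lit 40) (nat_lit 5) (nat_lit 44) (nat_lit 5) (nat_lit 41) (nat_lit 5) (nat_lit 306) (nat_lit 289) (nat_lit 125)) (XT.lf (nat_lit 0) (nat_lit 97963807000) (nat_lit 228) (nat_lit 196690537363) (nat_lit 304) (nat_lit 105369283781) (nat_lit 37) (nat_lit 5) (nat_lit 40) (nat_lit 5) (nat_lit 41) (nat_lit 5) (nat_lit 307) (nat_lit 289) (nat_lit 124))) (XT.nd (nat_lit 78) (nat_lit 456) (nat_lit 0) (XT.lf (nat_lit 0) (nat_lit 399832558089) (nat_lit 304) (nat_lit 19953223749) (nat_lit 76) (nat_lit 1518052098) (nat_lit 37) (nat_lit 5) (nat_lit 41) (nat_lit 5) (nat_lit 38) (nat_lit 5) (nat_lit 308) (nat_lit 289) (nat_lit 123)) (XT.nd (nat_lit 78) (nat_lit 228) (nat_lit 0) (XT.lf (nat_lit 0) (nat_lit 74909742965)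 (nat_lit 228) (nat_lit 154392177433) (nat_lit 76) (nat_lit 214531361821) (nat_lit 34) (nat_lit 5) (nat_lit 37) (nat_lit 5) (nat_lit 35) (nat_lit 5) (nat_lit 309) (nat_lit 289) (nat_lit 122)) (XT.lf (nat_lit 0) (nat_lit 160934845496) (nat_lit 228) (nat_lit 20190029491) (nat_lit 304) (nat_lit 286878818115) (nat_lit 31) (nat_lit 5) (nat_lit 34) (nat_lit 5) (nat_lit 35) (nat_lit 5) (nat_lit 310) (nat_lit 289) (nat_lit 121))))) (XT.nd (nat_lit 156) (nat_lit 532) (nat_lit 0) (XT.nd (nat_lit 78) (nat_lit 0) (nat_lit 0) (XT.lf (nat_lit 0) (nat_lit 10096200910) (nat_lit 152) (nat_lit 291842846930) (nat_lit 228) (nat_lit 191863597668) (nat_lit 29) (nat_lit 5) (nat_lit 31) (nat_lit 5) (nat_lit 32) (nat_lit 5) (nat_lit 311) (nat_lit 289) (nat_lit 120)) (XT.lf (nat_lit 0) (nat_lit 363247965769) (nat_lit 152) (nat_lit 74854198181) (nat_lit 228) (nat_lit 83279159834) (nat_lit 29) (nat_lit 5) (nat_lit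 31) (nat_lit 5) (nat_lit 32) (nat_lit 5) (nat_lit 312) (nat_lit 289) (nat_lit 119))) (XT.nd (nat_lit 78) (nat_lit 304) (nat_lit 0) (XT.lf (nat_lit 0) (nat_lit 38566032193) (nat_lit 228) (nat_lit 354199309587) (nat_lit 76) (nat_lit 158091321306) (nat_lit 26) (nat_lit 5) (nat_lit 29) (nat_lit 5) (nat_lit 27) (nat_lit 5) (nat_lit 313) (nat_lit 289) (nat_lit 118)) (XT.nd (nat_lit 156) (nat_lit 152) (nat_lit 0) (XT.lf (nat_lit 0) (nat_lit 221309782) (nat_lit 152) (nat_lit 171124138795) (nat_lit 228) (nat_lit 411071104217) (nat_lit 24) (nat_lit 5) (nat_lit 26) (nat_lit 5) (nat_lit 27) (nat_lit 5) (nat_lit 314) (nat_lit 289) (nat_lit 117)) (XT.lf (nat_lit 0) (nat_lit 170163086567) (nat_lit 152) (nat_lit 320260185218) (nat_lit 228) (nat_lit 161849310480) (nat_lit 22) (nat_lit 5) (nat_lit 24) (nat_lit 5) (nat_lit 25) (nat_lit 5) (nat_lit 316) (nat_lit 289) (nat_lit 115))))))) (XT.nd (nat_lit 702)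 (nat_lit 2432) (nat_lit 0) (XT.nd (nat_lit 312) (nat_lit 456) (nat_lit 0) (XT.nd (nat_lit 156) (nat_lit 0) (nat_lit 76) (XT.nd (nat_lit 78) (nat_lit 0) (nat_lit 0) (XT.lf (nat_lit 0) (nat_lit 26876824487) (nat_lit 0) (nat_lit 26876824487) (nat_lit 684) (nat_lit 42407467051) (nat_lit 75) (nat_lit 5) (nat_lit 75) (nat_lit 3) (nat_lit 84) (nat_lit 3) (nat_lit 290) (nat_lit 290) (nat_lit 140)) (XT.lf (nat_lit 0) (nat_lit 113104860260) (nat_lit 684) (nat_lit 6573165789) (nat_lit 760) (nat_lit 80272224228) (nat_lit 75) (nat_lit 5) (nat_lit 84) (nat_lit 3) (nat_lit 85) (nat_lit 5) (nat_lit 291) (nat_lit 290) (nat_lit 139))) (XT.nd (nat_lit 78) (nat_lit 0) (nat_lit 0) (XT.lf (nat_lit 0) (nat_lit 122505197196) (nat_lit 684) (nat_lit 68762918389) (nat_lit 760) (nat_lit 16752646646) (nat_lit 76) (nat_lit 5) (nat_lit 85) (nat_lit 5) (nat_lit 86) (nat_lit 5) (nat_lit 292) (nat_lit 290) (nat_lit 138))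 (XT.lf (nat_lit 76) (nat_lit 80825780973) (nat_lit 0) (nat_lit 55227828950) (nat_lit 760) (nat_lit 80513503476) (nat_lit 77) (nat_lit 5) (nat_lit 76) (nat_lit 5) (nat_lit 86) (nat_lit 5) (nat_lit 293) (nat_lit 290) (nat_lit 137)))) (XT.nd (nat_lit 156) (nat_lit 608) (nat_lit 0) (XT.nd (nat_lit 78) (nat_lit 0) (nat_lit 76) (XT.lf (nat_lit 76) (nat_lit 18231910205) (nat_lit 0) (nat_lit 135387485821) (nat_lit 760) (nat_lit 72031102263) (nat_lit 78) (nat_lit 5) (nat_lit 77) (nat_lit 5) (nat_lit 87) (nat_lit 5) (nat_lit 294) (nat_lit 290) (nat_lit 136)) (XT.lf (nat_lit 0) (nat_lit 176066727715) (nat_lit 684) (nat_lit 47084159454) (nat_lit 760) (nat_lit 12135853264) (nat_lit 78) (nat_lit 5) (nat_lit 87) (nat_lit 5) (nat_lit 88) (nat_lit 5) (nat_lit 295) (nat_lit 290) (nat_lit 135))) (XT.nd (nat_lit 78) (nat_lit 684) (nat_lit 0) (XT.lf (nat_lit 76) (nat_lit 127887181163) (nat_lit 0) (nat_lit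 76702033046) (nat_lit 760) (nat_lit 40890699883) (nat_lit 79) (nat_lit 5) (nat_lit 78) (nat_lit 5) (nat_lit 88) (nat_lit 5) (nat_lit 296) (nat_lit 290) (nat_lit 134)) (XT.nd (nat_lit 78) (nat_lit 76) (nat_lit 0) (XT.lf (nat_lit 0) (nat_lit 62815070012) (nat_lit 684) (nat_lit 175664454532) (nat_lit 760) (nat_lit 17854716364) (nat_lit 70) (nat_lit 5) (nat_lit 79) (nat_lit 5) (nat_lit 80) (nat_lit 5) (nat_lit 297) (nat_lit 290) (nat_lit 133)) (XT.lf (nat_lit 0) (nat_lit 10174465971) (nat_lit 760) (nat_lit 7536534988) (nat_lit 76) (nat_lit 250171673201) (nat_lit 69) (nat_lit 5) (nat_lit 79) (nat_lit 5) (nat_lit 70) (nat_lit 5) (nat_lit 298) (nat_lit 290) (nat_lit 132)))))) (XT.nd (nat_lit 390) (nat_lit 1064) (nat_lit 0) (XT.nd (nat_lit 156) (nat_lit 608) (nat_lit 0) (XT.nd (nat_lit 78) (nat_lit 380) (nat_lit 0) (XT.lf (nat_lit 0) (nat_lit 45384767483) (nat_lit 456) (nat_lit 83221375906) (nat_lit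 76) (nat_lit 151455987744) (nat_lit 64) (nat_lit 5) (nat_lit 70) (nat_lit 5) (nat_lit 65) (nat_lit 5) (nat_lit 299) (nat_lit 290) (nat_lit 131)) (XT.lf (nat_lit 0) (nat_lit 86514024210) (nat_lit 456) (nat_lit 165321161762) (nat_lit 76) (nat_lit 41225652526) (nat_lit 59) (nat_lit 5) (nat_lit 65) (nat_lit 5) (nat_lit 60) (nat_lit 5) (nat_lit 300) (nat_lit 290) (nat_lit 130))) (XT.nd (nat_lit 78) (nat_lit 304) (nat_lit 0) (XT.lf (nat_lit 0) (nat_lit 50961091816) (nat_lit 304) (nat_lit 84409998851) (nat_lit 380) (nat_lit 171506478684) (nat_lit 55) (nat_lit 5) (nat_lit 59) (nat_lit 5) (nat_lit 60) (nat_lit 5) (nat_lit 301) (nat_lit 290) (nat_lit 129)) (XT.nd (nat_lit 78) (nat_lit 304) (nat_lit 0) (XT.lf (nat_lit 0) (nat_lit 192568807465) (nat_lit 380) (nat_lit 32758730838) (nat_lit 76) (nat_lit 96250496451) (nat_lit 55) (nat_lit 5) (nat_lit 60) (nat_lit 5) (nat_lit 56) (nat_lit 5) (nat_lit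 302) (nat_lit 290) (nat_lit 128)) (XT.lf (nat_lit 0) (nat_lit 213666868632) (nat_lit 304) (nat_lit 45434597586) (nat_lit 380) (nat_lit 78115115249) (nat_lit 51) (nat_lit 5) (nat_lit 55) (nat_lit 5) (nat_lit 56) (nat_lit 5) (nat_lit 303) (nat_lit 290) (nat_lit 127))))) (XT.nd (nat_lit 156) (nat_lit 456) (nat_lit 0) (XT.nd (nat_lit 78) (nat_lit 380) (nat_lit 0) (XT.lf (nat_lit 0) (nat_lit 128683876183) (nat_lit 228) (nat_lit 207185816198) (nat_lit 304) (nat_lit 17990872086) (nat_lit 48) (nat_lit 5) (nat_lit 51) (nat_lit 5) (nat_lit 52) (nat_lit 5) (nat_lit 304) (nat_lit 290) (nat_lit 126)) (XT.lf (nat_lit 0) (nat_lit 33311344983) (nat_lit 304) (nat_lit 15603008095) (nat_lit 380) (nat_lit 322711391365) (nat_lit 43) (nat_lit 5) (nat_lit 47) (nat_lit 5) (nat_lit 48) (nat_lit 5) (nat_lit 305) (nat_lit 290) (nat_lit 125))) (XT.nd (nat_lit 78) (nat_lit 456) (nat_lit 0) (XT.lf (nat_lit 0) (nat_lit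 127523570749) (nat_lit 380) (nat_lit 73451231550) (nat_lit 76) (nat_lit 189473495785) (nat_lit 43) (nat_lit 5) (nat_lit 48) (nat_lit 5) (nat_lit 44) (nat_lit 5) (nat_lit 306) (nat_lit 290) (nat_lit 124)) (XT.nd (nat_lit 78) (nat_lit 228) (nat_lit 0) (XT.lf (nat_lit 0) (nat_lit 216160058204) (nat_lit 304) (nat_lit 191284378253) (nat_lit 76) (nat_lit 3145293156) (nat_lit 40) (nat_lit 5) (nat_lit 44) (nat_lit 5) (nat_lit 41) (nat_lit 5) (nat_lit 307) (nat_lit 290) (nat_lit 123)) (XT.lf (nat_lit 0) (nat_lit 105803348419) (nat_lit 228) (nat_lit 212425162076) (nat_lit 304) (nat_lit 113796913077) (nat_lit 37) (nat_lit 5) (nat_lit 40) (nat_lit 5) (nat_lit 41) (nat_lit 5) (nat_lit 308) (nat_lit 290) (nat_lit 122))))))))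
noncomputable def xc123 : XT := (XT.nd (nat_lit 37206) (nat_lit 0) (nat_lit 0) (XT.nd (nat_lit 36426) (nat_lit 0) (nat_lit 1672) (XT.nd (nat_lit 312) (nat_lit 0) (nat_lit 0) (XT.nd (nat_lit 156) (nat_lit 380) (nat_lit 0) (XT.nd (nat_lit 78) (nat_lit 228) (nat_lit 0) (XT.lf (nat_lit 0) (nat_lit 431820855546) (nat_lit 304) (nat_lit 21547146436) (nat_lit 76) (nat_lit 1640050421) (nat_lit 37) (nat_lit 5) (nat_lit 41) (nat_lit 5) (nat_lit 38) (nat_lit 5) (nat_lit 309) (nat_lit 290) (nat_lit 121)) (XT.lf (nat_lit 0) (nat_lit 80904154193) (nat_lit 228) (nat_lit 166741260765) (nat_lit 76) (nat_lit 231694445068) (nat_lit 34) (nat_lit 5) (nat_lit 37) (nat_lit 5) (nat_lit 35) (nat_lit 5) (nat_lit 310) (nat_lit 290) (nat_lit 120))) (XT.nd (nat_lit 78) (nat_lit 152) (nat_lit 0) (XT.lf (nat_lit 0) (nat_lit 173811824440) (nat_lit 228) (nat_lit 21804585677) (nat_lit 304) (nat_lit 309827498233) (nat_lit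 31) (nat_lit 5) (nat_lit 34) (nat_lit 5) (nat_lit 35) (nat_lit 5) (nat_lit 311) (nat_lit 290) (nat_lit 119)) (XT.lf (nat_lit 0) (nat_lit 10906060121) (nat_lit 152) (nat_lit 315189585336) (nat_lit 228) (nat_lit 207211135275) (nat_lit 29) (nat_lit 5) (nat_lit 31) (nat_lit 5) (nat_lit 32) (nat_lit 5) (nat_lit 312) (nat_lit 290) (nat_lit 118)))) (XT.nd (nat_lit 35880) (nat_lit 0) (nat_lit 3496) (XT.nd (nat_lit 35802) (nat_lit 0) (nat_lit 3496) (XT.lf (nat_lit 0) (nat_lit 392309805937) (nat_lit 152) (nat_lit 80841895750) (nat_lit 228) (nat_lit 89940057245) (nat_lit 29) (nat_lit 5) (nat_lit 31) (nat_lit 5) (nat_lit 32) (nat_lit 5) (nat_lit 313) (nat_lit 290) (nat_lit 117)) (XT.lf (nat_lit 0) (nat_lit 29028218246) (nat_lit 0) (nat_lit 29028218246) (nat_lit 684) (nat_lit 45797436679) (nat_lit 75) (nat_lit 5) (nat_lit 75) (nat_lit 3) (nat_lit 84) (nat_lit 3) (nat_lit 291) (nat_lit 291) (nat_lit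 138))) (XT.nd (nat_lit 78) (nat_lit 0) (nat_lit 76) (XT.lf (nat_lit 0) (nat_lit 122157834484) (nat_lit 684) (nat_lit 7096427537) (nat_lit 760) (nat_lit 86691765384) (nat_lit 75) (nat_lit 5) (nat_lit 84) (nat_lit 3) (nat_lit 85) (nat_lit 5) (nat_lit 292) (nat_lit 291) (nat_lit 137)) (XT.nd (nat_lit 78) (nat_lit 0) (nat_lit 0) (XT.lf (nat_lit 0) (nat_lit 132309869229) (nat_lit 684) (nat_lit 74261217944) (nat_lit 760) (nat_lit 18091110611) (nat_lit 76) (nat_lit 5) (nat_lit 85) (nat_lit 5) (nat_lit 86) (nat_lit 5) (nat_lit 293) (nat_lit 291) (nat_lit 136)) (XT.lf (nat_lit 76) (nat_lit 87294458554) (nat_lit 0) (nat_lit 59647421970) (nat_lit 760) (nat_lit 86950391177) (nat_lit 77) (nat_lit 5) (nat_lit 76) (nat_lit 5) (nat_lit 86) (nat_lit 5) (nat_lit 294) (nat_lit 291) (nat_lit 135)))))) (XT.nd (nat_lit 390) (nat_lit 1368) (nat_lit 0) (XT.nd (nat_lit 156) (nat_lit 608) (nat_lit 0) (XT.nd (nat_lit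 78) (nat_lit 0) (nat_lit 76) (XT.lf (nat_lit 76) (nat_lit 19693186496) (nat_lit 0) (nat_lit 146219470835) (nat_lit 760) (nat_lit 77789684526) (nat_lit 78) (nat_lit 5) (nat_lit 77) (nat_lit 5) (nat_lit 87) (nat_lit 5) (nat_lit 295) (nat_lit 291) (nat_lit 134)) (XT.lf (nat_lit 0) (nat_lit 190155486512) (nat_lit 684) (nat_lit 50848174464) (nat_lit 760) (nat_lit 13105837650) (nat_lit 78) (nat_lit 5) (nat_lit 87) (nat_lit 5) (nat_lit 88) (nat_lit 5) (nat_lit 296) (nat_lit 291) (nat_lit 133))) (XT.nd (nat_lit 78) (nat_lit 684) (nat_lit 0) (XT.lf (nat_lit 76) (nat_lit 138120755293) (nat_lit 0) (nat_lit 82838803844) (nat_lit 760) (nat_lit 44158578421) (nat_lit 79) (nat_lit 5) (nat_lit 78) (nat_lit 5) (nat_lit 88) (nat_lit 5) (nat_lit 297) (nat_lit 291) (nat_lit 132)) (XT.nd (nat_lit 78) (nat_lit 76) (nat_lit 0) (XT.lf (nat_lit 0) (nat_lit 67842933642) (nat_lit 684) (nat_lit 189717955750) (nat_lit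 760) (nat_lit 19279932060) (nat_lit 70) (nat_lit 5) (nat_lit 79) (nat_lit 5) (nat_lit 80) (nat_lit 5) (nat_lit 298) (nat_lit 291) (nat_lit 131)) (XT.lf (nat_lit 0) (nat_lit 10991256972) (nat_lit 760) (nat_lit 8136895383) (nat_lit 76) (nat_lit 270184986481) (nat_lit 69) (nat_lit 5) (nat_lit 79) (nat_lit 5) (nat_lit 70) (nat_lit 5) (nat_lit 299) (nat_lit 291) (nat_lit 130))))) (XT.nd (nat_lit 156) (nat_lit 608) (nat_lit 0) (XT.nd (nat_lit 78) (nat_lit 380) (nat_lit 0) (XT.lf (nat_lit 0) (nat_lit 49018207673) (nat_lit 456) (nat_lit 89876491525) (nat_lit 76) (nat_lit 163572262477) (nat_lit 64) (nat_lit 5) (nat_lit 70) (nat_lit 5) (nat_lit 65) (nat_lit 5) (nat_lit 300) (nat_lit 291) (nat_lit 129)) (XT.lf (nat_lit 0) (nat_lit 93437646442) (nat_lit 456) (nat_lit 178544241186) (nat_lit 76) (nat_lit 44523686445) (nat_lit 59) (nat_lit 5) (nat_lit 65) (nat_lit 5) (nat_lit 60) (nat_lit 5) (nat_lit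 301) (nat_lit 291) (nat_lit 128))) (XT.nd (nat_lit 78) (nat_lit 304) (nat_lit 0) (XT.lf (nat_lit 0) (nat_lit 55040479097) (nat_lit 304) (nat_lit 91162652942) (nat_lit 380) (nat_lit 185224519144) (nat_lit 55) (nat_lit 5) (nat_lit 59) (nat_lit 5) (nat_lit 60) (nat_lit 5) (nat_lit 302) (nat_lit 291) (nat_lit 127)) (XT.nd (nat_lit 78) (nat_lit 304) (nat_lit 0) (XT.lf (nat_lit 0) (nat_lit 207976493910) (nat_lit 380) (nat_lit 35377002105) (nat_lit 76) (nat_lit 103950666862) (nat_lit 55) (nat_lit 5) (nat_lit 60) (nat_lit 5) (nat_lit 56) (nat_lit 5) (nat_lit 303) (nat_lit 291) (nat_lit 126)) (XT.lf (nat_lit 0) (nat_lit 230762539839) (nat_lit 304) (nat_lit 49069100155) (nat_lit 380) (nat_lit 84362160015) (nat_lit 51) (nat_lit 5) (nat_lit 55) (nat_lit 5) (nat_lit 56) (nat_lit 5) (nat_lit 304) (nat_lit 291) (nat_lit 125))))))) (XT.nd (nat_lit 36582) (nat_lit 0) (nat_lit 2280) (XT.nd (nat_lit 390)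 (nat_lit 608) (nat_lit 0) (XT.nd (nat_lit 156) (nat_lit 456) (nat_lit 0) (XT.nd (nat_lit 78) (nat_lit 380) (nat_lit 0) (XT.lf (nat_lit 0) (nat_lit 138980906417) (nat_lit 228) (nat_lit 223760305558) (nat_lit 304) (nat_lit 19428095668) (nat_lit 48) (nat_lit 5) (nat_lit 51) (nat_lit 5) (nat_lit 52) (nat_lit 5) (nat_lit 305) (nat_lit 291) (nat_lit 124)) (XT.lf (nat_lit 0) (nat_lit 35978538881) (nat_lit 304) (nat_lit 16850832115) (nat_lit 380) (nat_lit 348526335312) (nat_lit 43) (nat_lit 5) (nat_lit 47) (nat_lit 5) (nat_lit 48) (nat_lit 5) (nat_lit 306) (nat_lit 291) (nat_lit 123))) (XT.nd (nat_lit 78) (nat_lit 456) (nat_lit 0) (XT.lf (nat_lit 0) (nat_lit 137727193609) (nat_lit 380) (nat_lit 79325128699) (nat_lit 76) (nat_lit 204631748867) (nat_lit 43) (nat_lit 5) (nat_lit 48) (nat_lit 5) (nat_lit 44) (nat_lit 5) (nat_lit 307) (nat_lit 291) (nat_lit 122)) (XT.nd (nat_lit 78) (nat_lit 228)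 (nat_lit 0) (XT.lf (nat_lit 0) (nat_lit 233454511505) (nat_lit 304) (nat_lit 206584944380) (nat_lit 76) (nat_lit 3397366059) (nat_lit 40) (nat_lit 5) (nat_lit 44) (nat_lit 5) (nat_lit 41) (nat_lit 5) (nat_lit 308) (nat_lit 291) (nat_lit 121)) (XT.lf (nat_lit 0) (nat_lit 114269705506) (nat_lit 228) (nat_lit 229418644969) (nat_lit 304) (nat_lit 122899025685) (nat_lit 37) (nat_lit 5) (nat_lit 40) (nat_lit 5) (nat_lit 41) (nat_lit 5) (nat_lit 309) (nat_lit 291) (nat_lit 120))))) (XT.nd (nat_lit 156) (nat_lit 380) (nat_lit 0) (XT.nd (nat_lit 78) (nat_lit 228) (nat_lit 0) (XT.lf (nat_lit 0) (nat_lit 466367975302) (nat_lit 304) (nat_lit 23268916083) (nat_lit 76) (nat_lit 1771729554) (nat_lit 37) (nat_lit 5) (nat_lit 41) (nat_lit 5) (nat_lit 38) (nat_lit 5) (nat_lit 310) (nat_lit 291) (nat_lit 119)) (XT.lf (nat_lit 0) (nat_lit 87377885527) (nat_lit 228) (nat_lit 180078597581) (nat_lit 76) (nat_lit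 250230493044) (nat_lit 34) (nat_lit 5) (nat_lit 37) (nat_lit 5) (nat_lit 35) (nat_lit 5) (nat_lit 311) (nat_lit 291) (nat_lit 118))) (XT.nd (nat_lit 78) (nat_lit 152) (nat_lit 0) (XT.lf (nat_lit 0) (nat_lit 187718649086) (nat_lit 228) (nat_lit 23548398541) (nat_lit 304) (nat_lit 334612304631) (nat_lit 31) (nat_lit 5) (nat_lit 34) (nat_lit 5) (nat_lit 35) (nat_lit 5) (nat_lit 312) (nat_lit 291) (nat_lit 117)) (XT.nd (nat_lit 35880) (nat_lit 0) (nat_lit 3496) (XT.lf (nat_lit 0) (nat_lit 11780399474) (nat_lit 152) (nat_lit 340404161158) (nat_lit 228) (nat_lit 223786697045) (nat_lit 29) (nat_lit 5) (nat_lit 31) (nat_lit 5) (nat_lit 32) (nat_lit 5) (nat_lit 313) (nat_lit 291) (nat_lit 116)) (XT.lf (nat_lit 0) (nat_lit 31351545493) (nat_lit 0) (nat_lit 31351545493) (nat_lit 684) (nat_lit 49458978753) (nat_lit 75) (nat_lit 5) (nat_lit 75) (nat_lit 3) (nat_lit 84) (nat_lit 3) (nat_lit 292) (nat_lit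 292) (nat_lit 136)))))) (XT.nd (nat_lit 390) (nat_lit 1216) (nat_lit 0) (XT.nd (nat_lit 156) (nat_lit 0) (nat_lit 76) (XT.nd (nat_lit 78) (nat_lit 0) (nat_lit 76) (XT.lf (nat_lit 0) (nat_lit 131934392488) (nat_lit 684) (nat_lit 7661919935) (nat_lit 760) (nat_lit 93625188934) (nat_lit 75) (nat_lit 5) (nat_lit 84) (nat_lit 3) (nat_lit 85) (nat_lit 5) (nat_lit 293) (nat_lit 292) (nat_lit 135)) (XT.lf (nat_lit 0) (nat_lit 142898307821) (nat_lit 684) (nat_lit 80199771488) (nat_lit 760) (nat_lit 19536901031) (nat_lit 76) (nat_lit 5) (nat_lit 85) (nat_lit 5) (nat_lit 86) (nat_lit 5) (nat_lit 294) (nat_lit 292) (nat_lit 134))) (XT.nd (nat_lit 78) (nat_lit 0) (nat_lit 76) (XT.lf (nat_lit 76) (nat_lit 94280257268) (nat_lit 0) (nat_lit 64420387457) (nat_lit 760) (nat_lit 93902828012) (nat_lit 77) (nat_lit 5) (nat_lit 76) (nat_lit 5) (nat_lit 86) (nat_lit 5) (nat_lit 295) (nat_lit 292) (nat_lit 133))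 (XT.nd (nat_lit 78) (nat_lit 0) (nat_lit 76) (XT.lf (nat_lit 76) (nat_lit 21270976356) (nat_lit 0) (nat_lit 157917873965) (nat_lit 760) (nat_lit 84009510593) (nat_lit 78) (nat_lit 5) (nat_lit 77) (nat_lit 5) (nat_lit 87) (nat_lit 5) (nat_lit 296) (nat_lit 292) (nat_lit 132)) (XT.lf (nat_lit 0) (nat_lit 205370858029) (nat_lit 684) (nat_lit 54913698392) (nat_lit 760) (nat_lit 14153546882) (nat_lit 78) (nat_lit 5) (nat_lit 87) (nat_lit 5) (nat_lit 88) (nat_lit 5) (nat_lit 297) (nat_lit 292) (nat_lit 131))))) (XT.nd (nat_lit 156) (nat_lit 836) (nat_lit 0) (XT.nd (nat_lit 78) (nat_lit 608) (nat_lit 0) (XT.lf (nat_lit 76) (nat_lit 149172644486) (nat_lit 0) (nat_lit 89466429545) (nat_lit 760) (nat_lit 47688369075) (nat_lit 79) (nat_lit 5) (nat_lit 78) (nat_lit 5) (nat_lit 88) (nat_lit 5) (nat_lit 298) (nat_lit 292) (nat_lit 130)) (XT.lf (nat_lit 0) (nat_lit 73272647165) (nat_lit 684) (nat_lit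 204895687867) (nat_lit 760) (nat_lit 20819616052) (nat_lit 70) (nat_lit 5) (nat_lit 79) (nat_lit 5) (nat_lit 80) (nat_lit 5) (nat_lit 299) (nat_lit 292) (nat_lit 129))) (XT.nd (nat_lit 78) (nat_lit 760) (nat_lit 0) (XT.lf (nat_lit 0) (nat_lit 11872986992) (nat_lit 760) (nat_lit 8785650165) (nat_lit 76) (nat_lit 291799424823) (nat_lit 69) (nat_lit 5) (nat_lit 79) (nat_lit 5) (nat_lit 70) (nat_lit 5) (nat_lit 300) (nat_lit 292) (nat_lit 128)) (XT.nd (nat_lit 78) (nat_lit 380) (nat_lit 0) (XT.lf (nat_lit 0) (nat_lit 52941943772) (nat_lit 456) (nat_lit 97064386520) (nat_lit 76) (nat_lit 176657868333) (nat_lit 64) (nat_lit 5) (nat_lit 70) (nat_lit 5) (nat_lit 65) (nat_lit 5) (nat_lit 301) (nat_lit 292) (nat_lit 127)) (XT.lf (nat_lit 0) (nat_lit 100914801757) (nat_lit 456) (nat_lit 192825539811) (nat_lit 76) (nat_lit 48085565686) (nat_lit 59) (nat_lit 5) (nat_lit 65) (nat_lit 5) (nat_lit 60)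 (nat_lit 5) (nat_lit 302) (nat_lit 292) (nat_lit 126))))))))
noncomputable def xc124 : XT := (XT.nd (nat_lit 37440) (nat_lit 0) (nat_lit 228) (XT.nd (nat_lit 702) (nat_lit 228) (nat_lit 0) (XT.nd (nat_lit 312) (nat_lit 836) (nat_lit 0) (XT.nd (nat_lit 156) (nat_lit 532) (nat_lit 0) (XT.nd (nat_lit 78) (nat_lit 0) (nat_lit 0) (XT.lf (nat_lit 0) (nat_lit 59445860718) (nat_lit 304) (nat_lit 98455540163) (nat_lit 380) (nat_lit 200040356332) (nat_lit 55) (nat_lit 5) (nat_lit 59) (nat_lit 5) (nat_lit 60) (nat_lit 5) (nat_lit 303) (nat_lit 292) (nat_lit 125)) (XT.lf (nat_lit 0) (nat_lit 224616484006) (nat_lit 380) (nat_lit 38205081342) (nat_lit 76) (nat_lit 112266832261) (nat_lit 55) (nat_lit 5) (nat_lit 60) (nat_lit 5) (nat_lit 56) (nat_lit 5) (nat_lit 304) (nat_lit 292) (nat_lit 124))) (XT.nd (nat_lit 78) (nat_lit 228) (nat_lit 0) (XT.lf (nat_lit 0) (nat_lit 249225533523) (nat_lit 304) (nat_lit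 52994400768) (nat_lit 380) (nat_lit 91109277146) (nat_lit 51) (nat_lit 5) (nat_lit 55) (nat_lit 5) (nat_lit 56) (nat_lit 5) (nat_lit 305) (nat_lit 292) (nat_lit 123)) (XT.lf (nat_lit 0) (nat_lit 150101368076) (nat_lit 228) (nat_lit 241660807699) (nat_lit 304) (nat_lit 20980589048) (nat_lit 48) (nat_lit 5) (nat_lit 51) (nat_lit 5) (nat_lit 52) (nat_lit 5) (nat_lit 306) (nat_lit 292) (nat_lit 122)))) (XT.nd (nat_lit 156) (nat_lit 456) (nat_lit 0) (XT.nd (nat_lit 78) (nat_lit 0) (nat_lit 0) (XT.lf (nat_lit 0) (nat_lit 38858782125) (nat_lit 304) (nat_lit 18198541493) (nat_lit 380) (nat_lit 376406755441) (nat_lit 43) (nat_lit 5) (nat_lit 47) (nat_lit 5) (nat_lit 48) (nat_lit 5) (nat_lit 307) (nat_lit 292) (nat_lit 121)) (XT.lf (nat_lit 0) (nat_lit 148746858467) (nat_lit 380) (nat_lit 85669251671) (nat_lit 76) (nat_lit 221002608924) (nat_lit 43) (nat_lit 5) (nat_lit 48) (nat_lit 5) (nat_lit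 44) (nat_lit 5) (nat_lit 308) (nat_lit 292) (nat_lit 120))) (XT.nd (nat_lit 78) (nat_lit 228) (nat_lit 0) (XT.lf (nat_lit 0) (nat_lit 252132285872) (nat_lit 304) (nat_lit 223109867388) (nat_lit 76) (nat_lit 3669540674) (nat_lit 40) (nat_lit 5) (nat_lit 44) (nat_lit 5) (nat_lit 41) (nat_lit 5) (nat_lit 309) (nat_lit 292) (nat_lit 119)) (XT.nd (nat_lit 78) (nat_lit 0) (nat_lit 0) (XT.lf (nat_lit 0) (nat_lit 123413073111) (nat_lit 228) (nat_lit 247771682115) (nat_lit 304) (nat_lit 132729541330) (nat_lit 37) (nat_lit 5) (nat_lit 40) (nat_lit 5) (nat_lit 41) (nat_lit 5) (nat_lit 310) (nat_lit 292) (nat_lit 118)) (XT.lf (nat_lit 0) (nat_lit 503678657592) (nat_lit 304) (nat_lit 25128712918) (nat_lit 76) (nat_lit 1913875239) (nat_lit 37) (nat_lit 5) (nat_lit 41) (nat_lit 5) (nat_lit 38) (nat_lit 5) (nat_lit 311) (nat_lit 292) (nat_lit 117)))))) (XT.nd (nat_lit 36348) (nat_lit 0) (nat_lit 2660)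 (XT.nd (nat_lit 36114) (nat_lit 0) (nat_lit 3116) (XT.nd (nat_lit 36036) (nat_lit 0) (nat_lit 3116) (XT.lf (nat_lit 0) (nat_lit 94369315784) (nat_lit 228) (nat_lit 194483201536) (nat_lit 76) (nat_lit 270249354616) (nat_lit 34) (nat_lit 5) (nat_lit 37) (nat_lit 5) (nat_lit 35) (nat_lit 5) (nat_lit 312) (nat_lit 292) (nat_lit 116)) (XT.lf (nat_lit 0) (nat_lit 33860586302) (nat_lit 0) (nat_lit 33860586302) (nat_lit 684) (nat_lit 53413765589) (nat_lit 75) (nat_lit 5) (nat_lit 75) (nat_lit 3) (nat_lit 84) (nat_lit 3) (nat_lit 293) (nat_lit 293) (nat_lit 134))) (XT.nd (nat_lit 78) (nat_lit 0) (nat_lit 76) (XT.lf (nat_lit 0) (nat_lit 142492514295) (nat_lit 684) (nat_lit 8272968689) (nat_lit 760) (nat_lit 101113559947) (nat_lit 75) (nat_lit 5) (nat_lit 84) (nat_lit 3) (nat_lit 85) (nat_lit 5) (nat_lit 294) (nat_lit 293) (nat_lit 133)) (XT.nd (nat_lit 78) (nat_lit 0) (nat_lit 0) (XT.lf (nat_lit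 0) (nat_lit 154333300922) (nat_lit 684) (nat_lit 86613743697) (nat_lit 760) (nat_lit 21098568452) (nat_lit 76) (nat_lit 5) (nat_lit 85) (nat_lit 5) (nat_lit 86) (nat_lit 5) (nat_lit 295) (nat_lit 293) (nat_lit 132)) (XT.lf (nat_lit 76) (nat_lit 101824600029) (nat_lit 0) (nat_lit 69575023022) (nat_lit 760) (nat_lit 101411972583) (nat_lit 77) (nat_lit 5) (nat_lit 76) (nat_lit 5) (nat_lit 86) (nat_lit 5) (nat_lit 296) (nat_lit 293) (nat_lit 131))))) (XT.nd (nat_lit 156) (nat_lit 608) (nat_lit 0) (XT.nd (nat_lit 78) (nat_lit 0) (nat_lit 76) (XT.lf (nat_lit 76) (nat_lit 22974656300) (nat_lit 0) (nat_lit 170552028730) (nat_lit 760) (nat_lit 90727400475) (nat_lit 78) (nat_lit 5) (nat_lit 77) (nat_lit 5) (nat_lit 87) (nat_lit 5) (nat_lit 297) (nat_lit 293) (nat_lit 130)) (XT.lf (nat_lit 0) (nat_lit 221803040899) (nat_lit 684) (nat_lit 59304796638) (nat_lit 760) (nat_lit 15285180958) (nat_lit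 78) (nat_lit 5) (nat_lit 87) (nat_lit 5) (nat_lit 88) (nat_lit 5) (nat_lit 298) (nat_lit 293) (nat_lit 129))) (XT.nd (nat_lit 78) (nat_lit 684) (nat_lit 0) (XT.lf (nat_lit 76) (nat_lit 161108366855) (nat_lit 0) (nat_lit 96624190921) (nat_lit 760) (nat_lit 51500956073) (nat_lit 79) (nat_lit 5) (nat_lit 78) (nat_lit 5) (nat_lit 88) (nat_lit 5) (nat_lit 299) (nat_lit 293) (nat_lit 128)) (XT.nd (nat_lit 78) (nat_lit 76) (nat_lit 0) (XT.lf (nat_lit 0) (nat_lit 79136412670) (nat_lit 684) (nat_lit 221287596375) (nat_lit 760) (nat_lit 22482861456) (nat_lit 70) (nat_lit 5) (nat_lit 79) (nat_lit 5) (nat_lit 80) (nat_lit 5) (nat_lit 300) (nat_lit 293) (nat_lit 127)) (XT.lf (nat_lit 0) (nat_lit 12824908823) (nat_lit 760) (nat_lit 9486618735) (nat_lit 76) (nat_lit 315143069673) (nat_lit 69) (nat_lit 5) (nat_lit 79) (nat_lit 5) (nat_lit 70) (nat_lit 5) (nat_lit 301) (nat_lit 293) (nat_lit 126)))))))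 (XT.nd (nat_lit 702) (nat_lit 228) (nat_lit 0) (XT.nd (nat_lit 312) (nat_lit 1140) (nat_lit 0) (XT.nd (nat_lit 156) (nat_lit 304) (nat_lit 0) (XT.nd (nat_lit 78) (nat_lit 380) (nat_lit 0) (XT.lf (nat_lit 0) (nat_lit 57179253565) (nat_lit 456) (nat_lit 104827630441) (nat_lit 76) (nat_lit 190790347643) (nat_lit 64) (nat_lit 5) (nat_lit 70) (nat_lit 5) (nat_lit 65) (nat_lit 5) (nat_lit 302) (nat_lit 293) (nat_lit 125)) (XT.lf (nat_lit 0) (nat_lit 108989823689) (nat_lit 456) (nat_lit 208249661983) (nat_lit 76) (nat_lit 51932397502) (nat_lit 59) (nat_lit 5) (nat_lit 65) (nat_lit 5) (nat_lit 60) (nat_lit 5) (nat_lit 303) (nat_lit 293) (nat_lit 124))) (XT.nd (nat_lit 78) (nat_lit 0) (nat_lit 0) (XT.lf (nat_lit 0) (nat_lit 64203367103) (nat_lit 304) (nat_lit 106331876196) (nat_lit 380) (nat_lit 216041763557) (nat_lit 55) (nat_lit 5) (nat_lit 59) (nat_lit 5) (nat_lit 60) (nat_lit 5) (nat_lit 304)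 (nat_lit 293) (nat_lit 123)) (XT.lf (nat_lit 0) (nat_lit 242587406450) (nat_lit 380) (nat_lit 41259703785) (nat_lit 76) (nat_lit 121248274906) (nat_lit 55) (nat_lit 5) (nat_lit 60) (nat_lit 5) (nat_lit 56) (nat_lit 5) (nat_lit 305) (nat_lit 293) (nat_lit 122)))) (XT.nd (nat_lit 156) (nat_lit 608) (nat_lit 0) (XT.nd (nat_lit 78) (nat_lit 228) (nat_lit 0) (XT.lf (nat_lit 0) (nat_lit 269165282736) (nat_lit 304) (nat_lit 57233757872) (nat_lit 380) (nat_lit 98396428380) (nat_lit 51) (nat_lit 5) (nat_lit 55) (nat_lit 5) (nat_lit 56) (nat_lit 5) (nat_lit 306) (nat_lit 293) (nat_lit 121)) (XT.lf (nat_lit 0) (nat_lit 162111182894) (nat_lit 228) (nat_lit 260993395992) (nat_lit 304) (nat_lit 22657532164) (nat_lit 48) (nat_lit 5) (nat_lit 51) (nat_lit 5) (nat_lit 52) (nat_lit 5) (nat_lit 307) (nat_lit 293) (nat_lit 120))) (XT.nd (nat_lit 78) (nat_lit 228) (nat_lit 0) (XT.lf (nat_lit 0) (nat_lit 41969165194)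 (nat_lit 304) (nat_lit 19654118579) (nat_lit 380) (nat_lit 406517849806) (nat_lit 43) (nat_lit 5) (nat_lit 47) (nat_lit 5) (nat_lit 48) (nat_lit 5) (nat_lit 308) (nat_lit 293) (nat_lit 119)) (XT.nd (nat_lit 78) (nat_lit 228) (nat_lit 0) (XT.lf (nat_lit 0) (nat_lit 160647884039) (nat_lit 380) (nat_lit 92521173728) (nat_lit 76) (nat_lit 238683092112) (nat_lit 43) (nat_lit 5) (nat_lit 48) (nat_lit 5) (nat_lit 44) (nat_lit 5) (nat_lit 309) (nat_lit 293) (nat_lit 118)) (XT.lf (nat_lit 0) (nat_lit 272304080545) (nat_lit 304) (nat_lit 240957051376) (nat_lit 76) (nat_lit 3963434288) (nat_lit 40) (nat_lit 5) (nat_lit 44) (nat_lit 5) (nat_lit 41) (nat_lit 5) (nat_lit 310) (nat_lit 293) (nat_lit 117)))))) (XT.nd (nat_lit 36426) (nat_lit 0) (nat_lit 2508) (XT.nd (nat_lit 36192) (nat_lit 0) (nat_lit 2888) (XT.nd (nat_lit 78) (nat_lit 0) (nat_lit 0) (XT.lf (nat_lit 0) (nat_lit 133287654594) (nat_lit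 228) (nat_lit 267593027065) (nat_lit 304) (nat_lit 143346698865) (nat_lit 37) (nat_lit 5) (nat_lit 40) (nat_lit 5) (nat_lit 41) (nat_lit 5) (nat_lit 311) (nat_lit 293) (nat_lit 116)) (XT.lf (nat_lit 0) (nat_lit 543974016957) (nat_lit 304) (nat_lit 27137538371) (nat_lit 76) (nat_lit 2067334470) (nat_lit 37) (nat_lit 5) (nat_lit 41) (nat_lit 5) (nat_lit 38) (nat_lit 5) (nat_lit 312) (nat_lit 293) (nat_lit 115))) (XT.nd (nat_lit 78) (nat_lit 0) (nat_lit 0) (XT.lf (nat_lit 0) (nat_lit 36570219532) (nat_lit 0) (nat_lit 36570219532) (nat_lit 684) (nat_lit 57685210917) (nat_lit 75) (nat_lit 5) (nat_lit 75) (nat_lit 3) (nat_lit 84) (nat_lit 3) (nat_lit 294) (nat_lit 294) (nat_lit 132)) (XT.nd (nat_lit 78) (nat_lit 0) (nat_lit 76) (XT.lf (nat_lit 0) (nat_lit 153894805021) (nat_lit 684) (nat_lit 8933173091) (nat_lit 760) (nat_lit 109201235191) (nat_lit 75) (nat_lit 5) (nat_lit 84) (nat_lit 3) (nat_lit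 85) (nat_lit 5) (nat_lit 295) (nat_lit 294) (nat_lit 131)) (XT.lf (nat_lit 0) (nat_lit 166682647160) (nat_lit 684) (nat_lit 93541120362) (nat_lit 760) (nat_lit 22785352538) (nat_lit 76) (nat_lit 5) (nat_lit 85) (nat_lit 5) (nat_lit 86) (nat_lit 5) (nat_lit 296) (nat_lit 294) (nat_lit 130))))) (XT.nd (nat_lit 156) (nat_lit 456) (nat_lit 0) (XT.nd (nat_lit 78) (nat_lit 0) (nat_lit 76) (XT.lf (nat_lit 76) (nat_lit 109972215990) (nat_lit 0) (nat_lit 75141886119) (nat_lit 760) (nat_lit 109522288355) (nat_lit 77) (nat_lit 5) (nat_lit 76) (nat_lit 5) (nat_lit 86) (nat_lit 5) (nat_lit 297) (nat_lit 294) (nat_lit 129)) (XT.lf (nat_lit 76) (nat_lit 24814345054) (nat_lit 0) (nat_lit 184196812469) (nat_lit 760) (nat_lit 97983131122) (nat_lit 78) (nat_lit 5) (nat_lit 77) (nat_lit 5) (nat_lit 87) (nat_lit 5) (nat_lit 298) (nat_lit 294) (nat_lit 128))) (XT.nd (nat_lit 78) (nat_lit 608) (nat_lit 0) (XT.lf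 (nat_lit 0) (nat_lit 239549439716) (nat_lit 684) (nat_lit 64047467728) (nat_lit 760) (nat_lit 16507438444) (nat_lit 78) (nat_lit 5) (nat_lit 87) (nat_lit 5) (nat_lit 88) (nat_lit 5) (nat_lit 299) (nat_lit 294) (nat_lit 127)) (XT.nd (nat_lit 78) (nat_lit 608) (nat_lit 0) (XT.lf (nat_lit 76) (nat_lit 173998674415) (nat_lit 0) (nat_lit 104354509435) (nat_lit 760) (nat_lit 55618904191) (nat_lit 79) (nat_lit 5) (nat_lit 78) (nat_lit 5) (nat_lit 88) (nat_lit 5) (nat_lit 300) (nat_lit 294) (nat_lit 126)) (XT.lf (nat_lit 0) (nat_lit 85469000693) (nat_lit 684) (nat_lit 238990821403) (nat_lit 760) (nat_lit 24279498020) (nat_lit 70) (nat_lit 5) (nat_lit 79) (nat_lit 5) (nat_lit 80) (nat_lit 5) (nat_lit 301) (nat_lit 294) (nat_lit 125))))))))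
noncomputable def xc125 : XT := (XT.nd (nat_lit 37596) (nat_lit 0) (nat_lit 456) (XT.nd (nat_lit 702) (nat_lit 456) (nat_lit 0) (XT.nd (nat_lit 312) (nat_lit 912) (nat_lit 0) (XT.nd (nat_lit 156) (nat_lit 684) (nat_lit 0) (XT.nd (nat_lit 78) (nat_lit 380) (nat_lit 0) (XT.lf (nat_lit 0) (nat_lit 13852687255) (nat_lit 760) (nat_lit 10243933484) (nat_lit 76) (nat_lit 340354250213) (nat_lit 69) (nat_lit 5) (nat_lit 79) (nat_lit 5) (nat_lit 70) (nat_lit 5) (nat_lit 302) (nat_lit 294) (nat_lit 124)) (XT.lf (nat_lit 0) (nat_lit 61755269339) (nat_lit 456) (nat_lit 113212205930) (nat_lit 76) (nat_lit 206053446720) (nat_lit 64) (nat_lit 5) (nat_lit 70) (nat_lit 5) (nat_lit 65) (nat_lit 5) (nat_lit 303) (nat_lit 294) (nat_lit 123))) (XT.nd (nat_lit 78) (nat_lit 304) (nat_lit 0) (XT.lf (nat_lit 0) (nat_lit 117710585194) (nat_lit 456) (nat_lit 224907987983) (nat_lit 76) (nat_lit 56086977781) (nat_lit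 59) (nat_lit 5) (nat_lit 65) (nat_lit 5) (nat_lit 60) (nat_lit 5) (nat_lit 304) (nat_lit 294) (nat_lit 122)) (XT.lf (nat_lit 0) (nat_lit 69341211855) (nat_lit 304) (nat_lit 114838334402) (nat_lit 380) (nat_lit 233323543185) (nat_lit 55) (nat_lit 5) (nat_lit 59) (nat_lit 5) (nat_lit 60) (nat_lit 5) (nat_lit 305) (nat_lit 294) (nat_lit 121)))) (XT.nd (nat_lit 156) (nat_lit 608) (nat_lit 0) (XT.nd (nat_lit 78) (nat_lit 304) (nat_lit 0) (XT.lf (nat_lit 0) (nat_lit 261995773900) (nat_lit 380) (nat_lit 44558950541) (nat_lit 76) (nat_lit 130948219259) (nat_lit 55) (nat_lit 5) (nat_lit 60) (nat_lit 5) (nat_lit 56) (nat_lit 5) (nat_lit 306) (nat_lit 294) (nat_lit 120)) (XT.lf (nat_lit 0) (nat_lit 290699968430) (nat_lit 304) (nat_lit 61812291356) (nat_lit 380) (nat_lit 106266778677) (nat_lit 51) (nat_lit 5) (nat_lit 55) (nat_lit 5) (nat_lit 56) (nat_lit 5) (nat_lit 307) (nat_lit 294) (nat_lit 119)))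 (XT.nd (nat_lit 78) (nat_lit 380) (nat_lit 0) (XT.lf (nat_lit 0) (nat_lit 175081539607) (nat_lit 228) (nat_lit 281872630768) (nat_lit 304) (nat_lit 24468845294) (nat_lit 48) (nat_lit 5) (nat_lit 51) (nat_lit 5) (nat_lit 52) (nat_lit 5) (nat_lit 308) (nat_lit 294) (nat_lit 118)) (XT.nd (nat_lit 78) (nat_lit 0) (nat_lit 0) (XT.lf (nat_lit 0) (nat_lit 45328139166) (nat_lit 304) (nat_lit 21226185519) (nat_lit 380) (nat_lit 439038038019) (nat_lit 43) (nat_lit 5) (nat_lit 47) (nat_lit 5) (nat_lit 48) (nat_lit 5) (nat_lit 309) (nat_lit 294) (nat_lit 117)) (XT.lf (nat_lit 0) (nat_lit 173500809493) (nat_lit 380) (nat_lit 99921480386) (nat_lit 76) (nat_lit 257777974799) (nat_lit 43) (nat_lit 5) (nat_lit 48) (nat_lit 5) (nat_lit 44) (nat_lit 5) (nat_lit 310) (nat_lit 294) (nat_lit 116)))))) (XT.nd (nat_lit 36504) (nat_lit 0) (nat_lit 2508) (XT.nd (nat_lit 36270) (nat_lit 0) (nat_lit 2888) (XT.nd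 (nat_lit 78) (nat_lit 228) (nat_lit 0) (XT.lf (nat_lit 0) (nat_lit 294089445914) (nat_lit 304) (nat_lit 260232239111) (nat_lit 76) (nat_lit 4280792261) (nat_lit 40) (nat_lit 5) (nat_lit 44) (nat_lit 5) (nat_lit 41) (nat_lit 5) (nat_lit 311) (nat_lit 294) (nat_lit 115)) (XT.lf (nat_lit 0) (nat_lit 143951983520) (nat_lit 228) (nat_lit 289000135195) (nat_lit 304) (nat_lit 154813401021) (nat_lit 37) (nat_lit 5) (nat_lit 40) (nat_lit 5) (nat_lit 41) (nat_lit 5) (nat_lit 312) (nat_lit 294) (nat_lit 114))) (XT.nd (nat_lit 78) (nat_lit 0) (nat_lit 0) (XT.lf (nat_lit 0) (nat_lit 39496511242) (nat_lit 0) (nat_lit 39496511242) (nat_lit 684) (nat_lit 62298608107) (nat_lit 75) (nat_lit 5) (nat_lit 75) (nat_lit 3) (nat_lit 84) (nat_lit 3) (nat_lit 295) (nat_lit 295) (nat_lit 130)) (XT.nd (nat_lit 78) (nat_lit 0) (nat_lit 76) (XT.lf (nat_lit 0) (nat_lit 166208866774) (nat_lit 684) (nat_lit 9646426824)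 (nat_lit 760) (nat_lit 117936125542) (nat_lit 75) (nat_lit 5) (nat_lit 84) (nat_lit 3) (nat_lit 85) (nat_lit 5) (nat_lit 296) (nat_lit 295) (nat_lit 129)) (XT.lf (nat_lit 0) (nat_lit 180019558456) (nat_lit 684) (nat_lit 101022932942) (nat_lit 760) (nat_lit 24607236477) (nat_lit 76) (nat_lit 5) (nat_lit 85) (nat_lit 5) (nat_lit 86) (nat_lit 5) (nat_lit 297) (nat_lit 295) (nat_lit 128))))) (XT.nd (nat_lit 156) (nat_lit 456) (nat_lit 0) (XT.nd (nat_lit 78) (nat_lit 0) (nat_lit 76) (XT.lf (nat_lit 76) (nat_lit 118771406128) (nat_lit 0) (nat_lit 81153975397) (nat_lit 760) (nat_lit 118281806305) (nat_lit 77) (nat_lit 5) (nat_lit 76) (nat_lit 5) (nat_lit 86) (nat_lit 5) (nat_lit 298) (nat_lit 295) (nat_lit 127)) (XT.lf (nat_lit 76) (nat_lit 26800964067) (nat_lit 0) (nat_lit 198933090252) (nat_lit 760) (nat_lit 105819671366) (nat_lit 78) (nat_lit 5) (nat_lit 77) (nat_lit 5) (nat_lit 87) (nat_lit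 5) (nat_lit 299) (nat_lit 295) (nat_lit 126))) (XT.nd (nat_lit 78) (nat_lit 608) (nat_lit 0) (XT.lf (nat_lit 0) (nat_lit 258715242926) (nat_lit 684) (nat_lit 69169796833) (nat_lit 760) (nat_lit 17827555989) (nat_lit 78) (nat_lit 5) (nat_lit 87) (nat_lit 5) (nat_lit 88) (nat_lit 5) (nat_lit 300) (nat_lit 295) (nat_lit 125)) (XT.nd (nat_lit 78) (nat_lit 608) (nat_lit 0) (XT.lf (nat_lit 76) (nat_lit 187919972871) (nat_lit 0) (nat_lit 112703198756) (nat_lit 760) (nat_lit 60066591794) (nat_lit 79) (nat_lit 5) (nat_lit 78) (nat_lit 5) (nat_lit 88) (nat_lit 5) (nat_lit 301) (nat_lit 295) (nat_lit 124)) (XT.lf (nat_lit 0) (nat_lit 92307956799) (nat_lit 684) (nat_lit 258110273429) (nat_lit 760) (nat_lit 26220149740) (nat_lit 70) (nat_lit 5) (nat_lit 79) (nat_lit 5) (nat_lit 80) (nat_lit 5) (nat_lit 302) (nat_lit 295) (nat_lit 123))))))) (XT.nd (nat_lit 37050) (nat_lit 0) (nat_lit 1216) (XT.nd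 (nat_lit 390) (nat_lit 912) (nat_lit 0) (XT.nd (nat_lit 156) (nat_lit 684) (nat_lit 0) (XT.nd (nat_lit 78) (nat_lit 380) (nat_lit 0) (XT.lf (nat_lit 0) (nat_lit 14962433208) (nat_lit 760) (nat_lit 11062063776) (nat_lit 76) (nat_lit 367582363006) (nat_lit 69) (nat_lit 5) (nat_lit 79) (nat_lit 5) (nat_lit 70) (nat_lit 5) (nat_lit 303) (nat_lit 295) (nat_lit 122)) (XT.lf (nat_lit 0) (nat_lit 66697127348) (nat_lit 456) (nat_lit 122267780702) (nat_lit 76) (nat_lit 222537612088) (nat_lit 64) (nat_lit 5) (nat_lit 70) (nat_lit 5) (nat_lit 65) (nat_lit 5) (nat_lit 304) (nat_lit 295) (nat_lit 121))) (XT.nd (nat_lit 78) (nat_lit 304) (nat_lit 0) (XT.lf (nat_lit 0) (nat_lit 127128782842) (nat_lit 456) (nat_lit 242899215020) (nat_lit 76) (nat_lit 60573926125) (nat_lit 59) (nat_lit 5) (nat_lit 65) (nat_lit 5) (nat_lit 60) (nat_lit 5) (nat_lit 305) (nat_lit 295) (nat_lit 120)) (XT.nd (nat_lit 78) (nat_lit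 0) (nat_lit 0) (XT.lf (nat_lit 0) (nat_lit 74889859442) (nat_lit 304) (nat_lit 124025322373) (nat_lit 380) (nat_lit 251988087943) (nat_lit 55) (nat_lit 5) (nat_lit 59) (nat_lit 5) (nat_lit 60) (nat_lit 5) (nat_lit 306) (nat_lit 295) (nat_lit 119)) (XT.lf (nat_lit 0) (nat_lit 282956614597) (nat_lit 380) (nat_lit 48122355244) (nat_lit 76) (nat_lit 141424147410) (nat_lit 55) (nat_lit 5) (nat_lit 60) (nat_lit 5) (nat_lit 56) (nat_lit 5) (nat_lit 307) (nat_lit 295) (nat_lit 118))))) (XT.nd (nat_lit 156) (nat_lit 380) (nat_lit 0) (XT.nd (nat_lit 78) (nat_lit 228) (nat_lit 0) (XT.lf (nat_lit 0) (nat_lit 313957220255) (nat_lit 304) (nat_lit 66757131365) (nat_lit 380) (nat_lit 114766951584) (nat_lit 51) (nat_lit 5) (nat_lit 55) (nat_lit 5) (nat_lit 56) (nat_lit 5) (nat_lit 308) (nat_lit 295) (nat_lit 117)) (XT.lf (nat_lit 0) (nat_lit 189089316275) (nat_lit 228) (nat_lit 304422238124) (nat_lit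 304) (nat_lit 26425247427) (nat_lit 48) (nat_lit 5) (nat_lit 51) (nat_lit 5) (nat_lit 52) (nat_lit 5) (nat_lit 309) (nat_lit 295) (nat_lit 116))) (XT.nd (nat_lit 78) (nat_lit 0) (nat_lit 0) (XT.lf (nat_lit 0) (nat_lit 48955625516) (nat_lit 304) (nat_lit 22924055270) (nat_lit 380) (nat_lit 474160018156) (nat_lit 43) (nat_lit 5) (nat_lit 47) (nat_lit 5) (nat_lit 48) (nat_lit 5) (nat_lit 310) (nat_lit 295) (nat_lit 115)) (XT.nd (nat_lit 36348) (nat_lit 0) (nat_lit 2432) (XT.lf (nat_lit 0) (nat_lit 187381812808) (nat_lit 380) (nat_lit 107914009483) (nat_lit 76) (nat_lit 278400414530) (nat_lit 43) (nat_lit 5) (nat_lit 48) (nat_lit 5) (nat_lit 44) (nat_lit 5) (nat_lit 311) (nat_lit 295) (nat_lit 114)) (XT.lf (nat_lit 0) (nat_lit 42656810114) (nat_lit 0) (nat_lit 42656810114) (nat_lit 684) (nat_lit 67281279605) (nat_lit 75) (nat_lit 5) (nat_lit 75) (nat_lit 3) (nat_lit 84) (nat_lit 3) (nat_lit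 296) (nat_lit 296) (nat_lit 128)))))) (XT.nd (nat_lit 390) (nat_lit 1216) (nat_lit 0) (XT.nd (nat_lit 156) (nat_lit 0) (nat_lit 76) (XT.nd (nat_lit 78) (nat_lit 0) (nat_lit 76) (XT.lf (nat_lit 0) (nat_lit 179507700045) (nat_lit 684) (nat_lit 10416940597) (nat_lit 760) (nat_lit 127369979523) (nat_lit 75) (nat_lit 5) (nat_lit 84) (nat_lit 3) (nat_lit 85) (nat_lit 5) (nat_lit 297) (nat_lit 296) (nat_lit 127)) (XT.lf (nat_lit 0) (nat_lit 194423094603) (nat_lit 684) (nat_lit 109103501245) (nat_lit 760) (nat_lit 26575005841) (nat_lit 76) (nat_lit 5) (nat_lit 85) (nat_lit 5) (nat_lit 86) (nat_lit 5) (nat_lit 298) (nat_lit 296) (nat_lit 126))) (XT.nd (nat_lit 78) (nat_lit 0) (nat_lit 76) (XT.lf (nat_lit 76) (nat_lit 128274329917) (nat_lit 0) (nat_lit 87646926477) (nat_lit 760) (nat_lit 127742408835) (nat_lit 77) (nat_lit 5) (nat_lit 76) (nat_lit 5) (nat_lit 86) (nat_lit 5) (nat_lit 299) (nat_lit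 296) (nat_lit 125)) (XT.nd (nat_lit 78) (nat_lit 0) (nat_lit 76) (XT.lf (nat_lit 76) (nat_lit 28946302688) (nat_lit 0) (nat_lit 214848194249) (nat_lit 760) (nat_lit 114283435880) (nat_lit 78) (nat_lit 5) (nat_lit 77) (nat_lit 5) (nat_lit 87) (nat_lit 5) (nat_lit 300) (nat_lit 296) (nat_lit 124)) (XT.lf (nat_lit 0) (nat_lit 279414046751) (nat_lit 684) (nat_lit 74702121737) (nat_lit 760) (nat_lit 19253351063) (nat_lit 78) (nat_lit 5) (nat_lit 87) (nat_lit 5) (nat_lit 88) (nat_lit 5) (nat_lit 301) (nat_lit 296) (nat_lit 123))))) (XT.nd (nat_lit 156) (nat_lit 836) (nat_lit 0) (XT.nd (nat_lit 78) (nat_lit 608) (nat_lit 0) (XT.lf (nat_lit 76) (nat_lit 202954774836) (nat_lit 0) (nat_lit 121719736350) (nat_lit 760) (nat_lit 64870354724) (nat_lit 79) (nat_lit 5) (nat_lit 78) (nat_lit 5) (nat_lit 88) (nat_lit 5) (nat_lit 302) (nat_lit 296) (nat_lit 122)) (XT.lf (nat_lit 0) (nat_lit 99693824525)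 (nat_lit 684) (nat_lit 278759255038) (nat_lit 760) (nat_lit 28316297281) (nat_lit 70) (nat_lit 5) (nat_lit 79) (nat_lit 5) (nat_lit 80) (nat_lit 5) (nat_lit 303) (nat_lit 296) (nat_lit 121))) (XT.nd (nat_lit 78) (nat_lit 760) (nat_lit 0) (XT.lf (nat_lit 0) (nat_lit 16160740428) (nat_lit 760) (nat_lit 11945841989) (nat_lit 76) (nat_lit 396988757238) (nat_lit 69) (nat_lit 5) (nat_lit 79) (nat_lit 5) (nat_lit 70) (nat_lit 5) (nat_lit 304) (nat_lit 296) (nat_lit 120)) (XT.nd (nat_lit 78) (nat_lit 380) (nat_lit 0) (XT.lf (nat_lit 0) (nat_lit 72034129071) (nat_lit 456) (nat_lit 132048001424) (nat_lit 76) (nat_lit 240340526431) (nat_lit 64) (nat_lit 5) (nat_lit 70) (nat_lit 5) (nat_lit 65) (nat_lit 5) (nat_lit 305) (nat_lit 296) (nat_lit 119)) (XT.lf (nat_lit 0) (nat_lit 137300243589) (nat_lit 456) (nat_lit 262329941658) (nat_lit 76) (nat_lit 65419831747) (nat_lit 59) (nat_lit 5) (nat_lit 65)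 (nat_lit 5) (nat_lit 60) (nat_lit 5) (nat_lit 306) (nat_lit 296) (nat_lit 118))))))))
noncomputable def xc126 : XT := (XT.nd (nat_lit 74334) (nat_lit 0) (nat_lit 912) (XT.nd (nat_lit 37050) (nat_lit 0) (nat_lit 608) (XT.nd (nat_lit 312) (nat_lit 380) (nat_lit 0) (XT.nd (nat_lit 156) (nat_lit 532) (nat_lit 0) (XT.nd (nat_lit 78) (nat_lit 0) (nat_lit 0) (XT.lf (nat_lit 0) (nat_lit 80882206152) (nat_lit 304) (nat_lit 133947280621) (nat_lit 380) (nat_lit 272145987262) (nat_lit 55) (nat_lit 5) (nat_lit 59) (nat_lit 5) (nat_lit 60) (nat_lit 5) (nat_lit 307) (nat_lit 296) (nat_lit 117)) (XT.lf (nat_lit 0) (nat_lit 305594154382) (nat_lit 380) (nat_lit 51971019400) (nat_lit 76) (nat_lit 152738139740) (nat_lit 55) (nat_lit 5) (nat_lit 60) (nat_lit 5) (nat_lit 56) (nat_lit 5) (nat_lit 308) (nat_lit 296) (nat_lit 116))) (XT.nd (nat_lit 78) (nat_lit 228) (nat_lit 0) (XT.lf (nat_lit 0) (nat_lit 339074873279)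 (nat_lit 304) (nat_lit 72097579018) (nat_lit 380) (nat_lit 123947305149) (nat_lit 51) (nat_lit 5) (nat_lit 55) (nat_lit 5) (nat_lit 56) (nat_lit 5) (nat_lit 309) (nat_lit 296) (nat_lit 115)) (XT.lf (nat_lit 0) (nat_lit 204217536251) (nat_lit 228) (nat_lit 328775843043) (nat_lit 304) (nat_lit 28538319441) (nat_lit 48) (nat_lit 5) (nat_lit 51) (nat_lit 5) (nat_lit 52) (nat_lit 5) (nat_lit 310) (nat_lit 296) (nat_lit 114)))) (XT.nd (nat_lit 36504) (nat_lit 0) (nat_lit 2432) (XT.nd (nat_lit 36426) (nat_lit 0) (nat_lit 2432) (XT.lf (nat_lit 0) (nat_lit 52873134556) (nat_lit 304) (nat_lit 24757786712) (nat_lit 380) (nat_lit 512091908339) (nat_lit 43) (nat_lit 5) (nat_lit 47) (nat_lit 5) (nat_lit 48) (nat_lit 5) (nat_lit 311) (nat_lit 296) (nat_lit 113)) (XT.lf (nat_lit 0) (nat_lit 46069850442) (nat_lit 0) (nat_lit 46069850442) (nat_lit 684) (nat_lit 72662738464) (nat_lit 75) (nat_lit 5) (nat_lit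 75) (nat_lit 3) (nat_lit 84) (nat_lit 3) (nat_lit 297) (nat_lit 297) (nat_lit 126))) (XT.nd (nat_lit 78) (nat_lit 0) (nat_lit 76) (XT.lf (nat_lit 0) (nat_lit 193870136975) (nat_lit 684) (nat_lit 11249266719) (nat_lit 760) (nat_lit 137558689627) (nat_lit 75) (nat_lit 5) (nat_lit 84) (nat_lit 3) (nat_lit 85) (nat_lit 5) (nat_lit 298) (nat_lit 297) (nat_lit 125)) (XT.nd (nat_lit 78) (nat_lit 0) (nat_lit 0) (XT.lf (nat_lit 0) (nat_lit 209978632389) (nat_lit 684) (nat_lit 117830695669) (nat_lit 760) (nat_lit 28700312246) (nat_lit 76) (nat_lit 5) (nat_lit 85) (nat_lit 5) (nat_lit 86) (nat_lit 5) (nat_lit 299) (nat_lit 297) (nat_lit 124)) (XT.lf (nat_lit 76) (nat_lit 138537314803) (nat_lit 0) (nat_lit 94659223332) (nat_lit 760) (nat_lit 137960136612) (nat_lit 77) (nat_lit 5) (nat_lit 76) (nat_lit 5) (nat_lit 86) (nat_lit 5) (nat_lit 300) (nat_lit 297) (nat_lit 123)))))) (XT.nd (nat_lit 390)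 (nat_lit 1368) (nat_lit 0) (XT.nd (nat_lit 156) (nat_lit 608) (nat_lit 0) (XT.nd (nat_lit 78) (nat_lit 0) (nat_lit 76) (XT.lf (nat_lit 76) (nat_lit 31263088433) (nat_lit 0) (nat_lit 232036441402) (nat_lit 760) (nat_lit 123424559657) (nat_lit 78) (nat_lit 5) (nat_lit 77) (nat_lit 5) (nat_lit 87) (nat_lit 5) (nat_lit 301) (nat_lit 297) (nat_lit 122)) (XT.lf (nat_lit 0) (nat_lit 301768528850) (nat_lit 684) (nat_lit 80677212221) (nat_lit 760) (nat_lit 20793268149) (nat_lit 78) (nat_lit 5) (nat_lit 87) (nat_lit 5) (nat_lit 88) (nat_lit 5) (nat_lit 302) (nat_lit 297) (nat_lit 121))) (XT.nd (nat_lit 78) (nat_lit 684) (nat_lit 0) (XT.lf (nat_lit 76) (nat_lit 219192189174) (nat_lit 0) (nat_lit 131457556765) (nat_lit 760) (nat_lit 70058641870) (nat_lit 79) (nat_lit 5) (nat_lit 78) (nat_lit 5) (nat_lit 88) (nat_lit 5) (nat_lit 303) (nat_lit 297) (nat_lit 120)) (XT.nd (nat_lit 78) (nat_lit 76) (nat_lit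 0) (XT.lf (nat_lit 0) (nat_lit 107670386027) (nat_lit 684) (nat_lit 301060132388) (nat_lit 760) (nat_lit 30580345543) (nat_lit 70) (nat_lit 5) (nat_lit 79) (nat_lit 5) (nat_lit 80) (nat_lit 5) (nat_lit 304) (nat_lit 297) (nat_lit 119)) (XT.lf (nat_lit 0) (nat_lit 17454724973) (nat_lit 760) (nat_lit 12900491782) (nat_lit 76) (nat_lit 428747690801) (nat_lit 69) (nat_lit 5) (nat_lit 79) (nat_lit 5) (nat_lit 70) (nat_lit 5) (nat_lit 305) (nat_lit 297) (nat_lit 118))))) (XT.nd (nat_lit 156) (nat_lit 608) (nat_lit 0) (XT.nd (nat_lit 78) (nat_lit 380) (nat_lit 0) (XT.lf (nat_lit 0) (nat_lit 77797915239) (nat_lit 456) (nat_lit 142610811245) (nat_lit 76) (nat_lit 259567687421) (nat_lit 64) (nat_lit 5) (nat_lit 70) (nat_lit 5) (nat_lit 65) (nat_lit 5) (nat_lit 306) (nat_lit 297) (nat_lit 117)) (XT.lf (nat_lit 0) (nat_lit 148285255978) (nat_lit 456) (nat_lit 283315299127) (nat_lit 76) (nat_lit 70653411026)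 (nat_lit 59) (nat_lit 5) (nat_lit 65) (nat_lit 5) (nat_lit 60) (nat_lit 5) (nat_lit 307) (nat_lit 297) (nat_lit 116))) (XT.nd (nat_lit 78) (nat_lit 304) (nat_lit 0) (XT.lf (nat_lit 0) (nat_lit 87353775403) (nat_lit 304) (nat_lit 144663005165) (nat_lit 380) (nat_lit 293916682261) (nat_lit 55) (nat_lit 5) (nat_lit 59) (nat_lit 5) (nat_lit 60) (nat_lit 5) (nat_lit 308) (nat_lit 297) (nat_lit 115)) (XT.nd (nat_lit 78) (nat_lit 304) (nat_lit 0) (XT.lf (nat_lit 0) (nat_lit 330042553175) (nat_lit 380) (nat_lit 56127737078) (nat_lit 76) (nat_lit 164957242820) (nat_lit 55) (nat_lit 5) (nat_lit 60) (nat_lit 5) (nat_lit 56) (nat_lit 5) (nat_lit 309) (nat_lit 297) (nat_lit 114)) (XT.lf (nat_lit 0) (nat_lit 366201785127) (nat_lit 304) (nat_lit 77865280009) (nat_lit 380) (nat_lit 133862230027) (nat_lit 51) (nat_lit 5) (nat_lit 55) (nat_lit 5) (nat_lit 56) (nat_lit 5) (nat_lit 310) (nat_lit 297) (nat_lit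 113))))))) (XT.nd (nat_lit 702) (nat_lit 1064) (nat_lit 0) (XT.nd (nat_lit 312) (nat_lit 456) (nat_lit 0) (XT.nd (nat_lit 156) (nat_lit 0) (nat_lit 76) (XT.nd (nat_lit 78) (nat_lit 0) (nat_lit 0) (XT.lf (nat_lit 0) (nat_lit 49755863305) (nat_lit 0) (nat_lit 49755863305) (nat_lit 684) (nat_lit 78474862899) (nat_lit 75) (nat_lit 5) (nat_lit 75) (nat_lit 3) (nat_lit 84) (nat_lit 3) (nat_lit 298) (nat_lit 298) (nat_lit 124)) (XT.lf (nat_lit 0) (nat_lit 209381309085) (nat_lit 684) (nat_lit 12148325747) (nat_lit 760) (nat_lit 148562623261) (nat_lit 75) (nat_lit 5) (nat_lit 84) (nat_lit 3) (nat_lit 85) (nat_lit 5) (nat_lit 299) (nat_lit 298) (nat_lit 123))) (XT.nd (nat_lit 78) (nat_lit 0) (nat_lit 0) (XT.lf (nat_lit 0) (nat_lit 226778372070) (nat_lit 684) (nat_lit 127256220531) (nat_lit 760) (nat_lit 30995742179) (nat_lit 76) (nat_lit 5) (nat_lit 85) (nat_lit 5) (nat_lit 86) (nat_lit 5) (nat_lit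 300) (nat_lit 298) (nat_lit 122)) (XT.lf (nat_lit 76) (nat_lit 149621190328) (nat_lit 0) (nat_lit 102232426508) (nat_lit 760) (nat_lit 148995520131) (nat_lit 77) (nat_lit 5) (nat_lit 76) (nat_lit 5) (nat_lit 86) (nat_lit 5) (nat_lit 301) (nat_lit 298) (nat_lit 121)))) (XT.nd (nat_lit 156) (nat_lit 608) (nat_lit 0) (XT.nd (nat_lit 78) (nat_lit 0) (nat_lit 76) (XT.lf (nat_lit 76) (nat_lit 33765062744) (nat_lit 0) (nat_lit 250599692459) (nat_lit 760) (nat_lit 133297194617) (nat_lit 78) (nat_lit 5) (nat_lit 77) (nat_lit 5) (nat_lit 87) (nat_lit 5) (nat_lit 302) (nat_lit 298) (nat_lit 120)) (XT.lf (nat_lit 0) (nat_lit 325911175732) (nat_lit 684) (nat_lit 87130463912) (nat_lit 760) (nat_lit 22456428676) (nat_lit 78) (nat_lit 5) (nat_lit 87) (nat_lit 5) (nat_lit 88) (nat_lit 5) (nat_lit 303) (nat_lit 298) (nat_lit 119))) (XT.nd (nat_lit 78) (nat_lit 684) (nat_lit 0) (XT.lf (nat_lit 76) (nat_lit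 236728449383) (nat_lit 0) (nat_lit 141974368359) (nat_lit 760) (nat_lit 75662183329) (nat_lit 79) (nat_lit 5) (nat_lit 78) (nat_lit 5) (nat_lit 88) (nat_lit 5) (nat_lit 304) (nat_lit 298) (nat_lit 118)) (XT.nd (nat_lit 78) (nat_lit 76) (nat_lit 0) (XT.lf (nat_lit 0) (nat_lit 116284921865) (nat_lit 684) (nat_lit 325145060388) (nat_lit 760) (nat_lit 33025696780) (nat_lit 70) (nat_lit 5) (nat_lit 79) (nat_lit 5) (nat_lit 80) (nat_lit 5) (nat_lit 305) (nat_lit 298) (nat_lit 117)) (XT.lf (nat_lit 0) (nat_lit 18852067743) (nat_lit 760) (nat_lit 13931658726) (nat_lit 76) (nat_lit 463047362875) (nat_lit 69) (nat_lit 5) (nat_lit 79) (nat_lit 5) (nat_lit 70) (nat_lit 5) (nat_lit 306) (nat_lit 298) (nat_lit 116)))))) (XT.nd (nat_lit 36972) (nat_lit 0) (nat_lit 1520) (XT.nd (nat_lit 156) (nat_lit 304) (nat_lit 0) (XT.nd (nat_lit 78) (nat_lit 380) (nat_lit 0) (XT.lf (nat_lit 0) (nat_lit 84022653673)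 (nat_lit 456) (nat_lit 154018792834) (nat_lit 76) (nat_lit 280333032863) (nat_lit 64) (nat_lit 5) (nat_lit 70) (nat_lit 5) (nat_lit 65) (nat_lit 5) (nat_lit 307) (nat_lit 298) (nat_lit 115)) (XT.lf (nat_lit 0) (nat_lit 160148927710) (nat_lit 456) (nat_lit 305979633257) (nat_lit 76) (nat_lit 76305677683) (nat_lit 59) (nat_lit 5) (nat_lit 65) (nat_lit 5) (nat_lit 60) (nat_lit 5) (nat_lit 308) (nat_lit 298) (nat_lit 114))) (XT.nd (nat_lit 78) (nat_lit 0) (nat_lit 0) (XT.lf (nat_lit 0) (nat_lit 94342928566) (nat_lit 304) (nat_lit 156235995933) (nat_lit 380) (nat_lit 317429173236) (nat_lit 55) (nat_lit 5) (nat_lit 59) (nat_lit 5) (nat_lit 60) (nat_lit 5) (nat_lit 309) (nat_lit 298) (nat_lit 113)) (XT.nd (nat_lit 36660) (nat_lit 0) (nat_lit 1520) (XT.lf (nat_lit 0) (nat_lit 356446700263) (nat_lit 380) (nat_lit 60617129678) (nat_lit 76) (nat_lit 178153866742) (nat_lit 55) (nat_lit 5) (nat_lit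 60) (nat_lit 5) (nat_lit 56) (nat_lit 5) (nat_lit 310) (nat_lit 298) (nat_lit 112)) (XT.lf (nat_lit 0) (nat_lit 53736696590) (nat_lit 0) (nat_lit 53736696590) (nat_lit 684) (nat_lit 84752084920) (nat_lit 75) (nat_lit 5) (nat_lit 75) (nat_lit 3) (nat_lit 84) (nat_lit 3) (nat_lit 299) (nat_lit 299) (nat_lit 122))))) (XT.nd (nat_lit 156) (nat_lit 0) (nat_lit 76) (XT.nd (nat_lit 78) (nat_lit 0) (nat_lit 76) (XT.lf (nat_lit 0) (nat_lit 226133152247) (nat_lit 684) (nat_lit 13119435369) (nat_lit 760) (nat_lit 160446980226) (nat_lit 75) (nat_lit 5) (nat_lit 84) (nat_lit 3) (nat_lit 85) (nat_lit 5) (nat_lit 300) (nat_lit 299) (nat_lit 121)) (XT.lf (nat_lit 0) (nat_lit 244921884196) (nat_lit 684) (nat_lit 137435920169) (nat_lit 760) (nat_lit 33474891396) (nat_lit 76) (nat_lit 5) (nat_lit 85) (nat_lit 5) (nat_lit 86) (nat_lit 5) (nat_lit 301) (nat_lit 299) (nat_lit 120))) (XT.nd (nat_lit 78) (nat_lit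 0) (nat_lit 76) (XT.lf (nat_lit 76) (nat_lit 161591648878) (nat_lit 0) (nat_lit 110411419557) (nat_lit 760) (nat_lit 160913937969) (nat_lit 77) (nat_lit 5) (nat_lit 76) (nat_lit 5) (nat_lit 86) (nat_lit 5) (nat_lit 302) (nat_lit 299) (nat_lit 119)) (XT.nd (nat_lit 78) (nat_lit 0) (nat_lit 76) (XT.lf (nat_lit 76) (nat_lit 36467062720) (nat_lit 0) (nat_lit 270647955703) (nat_lit 760) (nat_lit 143959830086) (nat_lit 78) (nat_lit 5) (nat_lit 77) (nat_lit 5) (nat_lit 87) (nat_lit 5) (nat_lit 303) (nat_lit 299) (nat_lit 118)) (XT.lf (nat_lit 0) (nat_lit 351985068225) (nat_lit 684) (nat_lit 94100107741) (nat_lit 760) (nat_lit 24252684976) (nat_lit 78) (nat_lit 5) (nat_lit 87) (nat_lit 5) (nat_lit 88) (nat_lit 5) (nat_lit 304) (nat_lit 299) (nat_lit 117))))))))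
noncomputable def xc127 : XT := (XT.nd (nat_lit 75036) (nat_lit 0) (nat_lit 836) (XT.nd (nat_lit 37440) (nat_lit 0) (nat_lit 380) (XT.nd (nat_lit 312) (nat_lit 380) (nat_lit 0) (XT.nd (nat_lit 156) (nat_lit 456) (nat_lit 0) (XT.nd (nat_lit 78) (nat_lit 608) (nat_lit 0) (XT.lf (nat_lit 76) (nat_lit 255667484143) (nat_lit 0) (nat_lit 153332495342) (nat_lit 760) (nat_lit 81714172149) (nat_lit 79) (nat_lit 5) (nat_lit 78) (nat_lit 5) (nat_lit 88) (nat_lit 5) (nat_lit 305) (nat_lit 299) (nat_lit 116)) (XT.lf (nat_lit 0) (nat_lit 125588491467) (nat_lit 684) (nat_lit 351156765879) (nat_lit 760) (nat_lit 35666829678) (nat_lit 70) (nat_lit 5) (nat_lit 79) (nat_lit 5) (nat_lit 80) (nat_lit 5) (nat_lit 306) (nat_lit 299) (nat_lit 115))) (XT.nd (nat_lit 78) (nat_lit 380) (nat_lit 0) (XT.lf (nat_lit 0) (nat_lit 20361060299) (nat_lit 760) (nat_lit 15045443483) (nat_lit 76) (nat_lit 500091029143) (nat_lit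 69) (nat_lit 5) (nat_lit 79) (nat_lit 5) (nat_lit 70) (nat_lit 5) (nat_lit 307) (nat_lit 299) (nat_lit 114)) (XT.lf (nat_lit 0) (nat_lit 90745242043) (nat_lit 456) (nat_lit 166339538964) (nat_lit 76) (nat_lit 302759615863) (nat_lit 64) (nat_lit 5) (nat_lit 70) (nat_lit 5) (nat_lit 65) (nat_lit 5) (nat_lit 308) (nat_lit 299) (nat_lit 113)))) (XT.nd (nat_lit 36894) (nat_lit 0) (nat_lit 1216) (XT.nd (nat_lit 36816) (nat_lit 0) (nat_lit 1216) (XT.lf (nat_lit 0) (nat_lit 172961571739) (nat_lit 456) (nat_lit 330457241057) (nat_lit 76) (nat_lit 82410126561) (nat_lit 59) (nat_lit 5) (nat_lit 65) (nat_lit 5) (nat_lit 60) (nat_lit 5) (nat_lit 309) (nat_lit 299) (nat_lit 112)) (XT.lf (nat_lit 0) (nat_lit 58035944578) (nat_lit 0) (nat_lit 58035944578) (nat_lit 684) (nat_lit 91531594125) (nat_lit 75) (nat_lit 5) (nat_lit 75) (nat_lit 3) (nat_lit 84) (nat_lit 3) (nat_lit 300) (nat_lit 300) (nat_lit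 120))) (XT.nd (nat_lit 78) (nat_lit 0) (nat_lit 76) (XT.lf (nat_lit 0) (nat_lit 244224951920) (nat_lit 684) (nat_lit 14168341674) (nat_lit 760) (nat_lit 173282178891) (nat_lit 75) (nat_lit 5) (nat_lit 84) (nat_lit 3) (nat_lit 85) (nat_lit 5) (nat_lit 301) (nat_lit 300) (nat_lit 119)) (XT.nd (nat_lit 78) (nat_lit 0) (nat_lit 0) (XT.lf (nat_lit 0) (nat_lit 264516700056) (nat_lit 684) (nat_lit 148430109623) (nat_lit 760) (nat_lit 36152445331) (nat_lit 76) (nat_lit 5) (nat_lit 85) (nat_lit 5) (nat_lit 86) (nat_lit 5) (nat_lit 302) (nat_lit 300) (nat_lit 118)) (XT.lf (nat_lit 76) (nat_lit 174519635216) (nat_lit 0) (nat_lit 119244675138) (nat_lit 760) (nat_lit 173786003818) (nat_lit 77) (nat_lit 5) (nat_lit 76) (nat_lit 5) (nat_lit 86) (nat_lit 5) (nat_lit 303) (nat_lit 300) (nat_lit 117)))))) (XT.nd (nat_lit 390) (nat_lit 380) (nat_lit 0) (XT.nd (nat_lit 156) (nat_lit 608) (nat_lit 0) (XT.nd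 (nat_lit 78) (nat_lit 0) (nat_lit 76) (XT.lf (nat_lit 76) (nat_lit 39385109285) (nat_lit 0) (nat_lit 292300038942) (nat_lit 760) (nat_lit 155475639041) (nat_lit 78) (nat_lit 5) (nat_lit 77) (nat_lit 5) (nat_lit 87) (nat_lit 5) (nat_lit 304) (nat_lit 300) (nat_lit 116)) (XT.lf (nat_lit 0) (nat_lit 380144729680) (nat_lit 684) (nat_lit 101627436247) (nat_lit 760) (nat_lit 26192678585) (nat_lit 78) (nat_lit 5) (nat_lit 87) (nat_lit 5) (nat_lit 88) (nat_lit 5) (nat_lit 305) (nat_lit 300) (nat_lit 115))) (XT.nd (nat_lit 78) (nat_lit 684) (nat_lit 0) (XT.lf (nat_lit 76) (nat_lit 276121533431) (nat_lit 0) (nat_lit 165599247159) (nat_lit 760) (nat_lit 88250460717) (nat_lit 79) (nat_lit 5) (nat_lit 78) (nat_lit 5) (nat_lit 88) (nat_lit 5) (nat_lit 306) (nat_lit 300) (nat_lit 114)) (XT.nd (nat_lit 78) (nat_lit 76) (nat_lit 0) (XT.lf (nat_lit 0) (nat_lit 135636235954) (nat_lit 684) (nat_lit 379249393449)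 (nat_lit 760) (nat_lit 38519384862) (nat_lit 70) (nat_lit 5) (nat_lit 79) (nat_lit 5) (nat_lit 80) (nat_lit 5) (nat_lit 307) (nat_lit 300) (nat_lit 113)) (XT.lf (nat_lit 0) (nat_lit 21990654260) (nat_lit 760) (nat_lit 16248437722) (nat_lit 76) (nat_lit 540098206226) (nat_lit 69) (nat_lit 5) (nat_lit 79) (nat_lit 5) (nat_lit 70) (nat_lit 5) (nat_lit 308) (nat_lit 300) (nat_lit 112))))) (XT.nd (nat_lit 36972) (nat_lit 0) (nat_lit 836) (XT.nd (nat_lit 36894) (nat_lit 0) (nat_lit 836) (XT.lf (nat_lit 0) (nat_lit 98005526767) (nat_lit 456) (nat_lit 179646052822) (nat_lit 76) (nat_lit 326980334010) (nat_lit 64) (nat_lit 5) (nat_lit 70) (nat_lit 5) (nat_lit 65) (nat_lit 5) (nat_lit 309) (nat_lit 300) (nat_lit 111)) (XT.lf (nat_lit 0) (nat_lit 62679087857) (nat_lit 0) (nat_lit 62679087857) (nat_lit 684) (nat_lit 98853557879) (nat_lit 75) (nat_lit 5) (nat_lit 75) (nat_lit 3) (nat_lit 84) (nat_lit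 3) (nat_lit 301) (nat_lit 301) (nat_lit 118))) (XT.nd (nat_lit 78) (nat_lit 0) (nat_lit 76) (XT.lf (nat_lit 0) (nat_lit 263763931863) (nat_lit 684) (nat_lit 15301253003) (nat_lit 760) (nat_lit 187144273305) (nat_lit 75) (nat_lit 5) (nat_lit 84) (nat_lit 3) (nat_lit 85) (nat_lit 5) (nat_lit 302) (nat_lit 301) (nat_lit 117)) (XT.nd (nat_lit 78) (nat_lit 0) (nat_lit 0) (XT.lf (nat_lit 0) (nat_lit 285678949233) (nat_lit 684) (nat_lit 160303931836) (nat_lit 760) (nat_lit 39044265977) (nat_lit 76) (nat_lit 5) (nat_lit 85) (nat_lit 5) (nat_lit 86) (nat_lit 5) (nat_lit 303) (nat_lit 301) (nat_lit 116)) (XT.lf (nat_lit 76) (nat_lit 188481767099) (nat_lit 0) (nat_lit 128784542373) (nat_lit 760) (nat_lit 187687984613) (nat_lit 77) (nat_lit 5) (nat_lit 76) (nat_lit 5) (nat_lit 86) (nat_lit 5) (nat_lit 304) (nat_lit 301) (nat_lit 115))))))) (XT.nd (nat_lit 37752) (nat_lit 0) (nat_lit 380) (XT.nd (nat_lit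 37362) (nat_lit 0) (nat_lit 380) (XT.nd (nat_lit 156) (nat_lit 532) (nat_lit 0) (XT.nd (nat_lit 78) (nat_lit 0) (nat_lit 76) (XT.lf (nat_lit 76) (nat_lit 42536502344) (nat_lit 0) (nat_lit 315684253634) (nat_lit 760) (nat_lit 167912852156) (nat_lit 78) (nat_lit 5) (nat_lit 77) (nat_lit 5) (nat_lit 87) (nat_lit 5) (nat_lit 305) (nat_lit 301) (nat_lit 114)) (XT.lf (nat_lit 0) (nat_lit 410557041934) (nat_lit 684) (nat_lit 109757048059) (nat_lit 760) (nat_lit 28287903238) (nat_lit 78) (nat_lit 5) (nat_lit 87) (nat_lit 5) (nat_lit 88) (nat_lit 5) (nat_lit 306) (nat_lit 301) (nat_lit 113))) (XT.nd (nat_lit 78) (nat_lit 608) (nat_lit 0) (XT.lf (nat_lit 76) (nat_lit 298211813853) (nat_lit 0) (nat_lit 178847317410) (nat_lit 760) (nat_lit 95309772948) (nat_lit 79) (nat_lit 5) (nat_lit 78) (nat_lit 5) (nat_lit 88) (nat_lit 5) (nat_lit 307) (nat_lit 301) (nat_lit 112)) (XT.nd (nat_lit 37050) (nat_lit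 0) (nat_lit 380) (XT.lf (nat_lit 0) (nat_lit 146487705106) (nat_lit 684) (nat_lit 409589418913) (nat_lit 760) (nat_lit 41600257332) (nat_lit 70) (nat_lit 5) (nat_lit 79) (nat_lit 5) (nat_lit 80) (nat_lit 5) (nat_lit 308) (nat_lit 301) (nat_lit 111)) (XT.lf (nat_lit 0) (nat_lit 67693644407) (nat_lit 0) (nat_lit 67693644407) (nat_lit 684) (nat_lit 106761359163) (nat_lit 75) (nat_lit 5) (nat_lit 75) (nat_lit 3) (nat_lit 84) (nat_lit 3) (nat_lit 302) (nat_lit 302) (nat_lit 116))))) (XT.nd (nat_lit 156) (nat_lit 0) (nat_lit 76) (XT.nd (nat_lit 78) (nat_lit 0) (nat_lit 76) (XT.lf (nat_lit 0) (nat_lit 284865889854) (nat_lit 684) (nat_lit 16524876559) (nat_lit 760) (nat_lit 202115403735) (nat_lit 75) (nat_lit 5) (nat_lit 84) (nat_lit 3) (nat_lit 85) (nat_lit 5) (nat_lit 303) (nat_lit 302) (nat_lit 115)) (XT.lf (nat_lit 0) (nat_lit 308534048070) (nat_lit 684) (nat_lit 173127743505) (nat_lit 760)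 (nat_lit 42167485770) (nat_lit 76) (nat_lit 5) (nat_lit 85) (nat_lit 5) (nat_lit 86) (nat_lit 5) (nat_lit 304) (nat_lit 302) (nat_lit 114))) (XT.nd (nat_lit 78) (nat_lit 0) (nat_lit 76) (XT.lf (nat_lit 76) (nat_lit 203560789490) (nat_lit 0) (nat_lit 139087557155) (nat_lit 760) (nat_lit 202702252198) (nat_lit 77) (nat_lit 5) (nat_lit 76) (nat_lit 5) (nat_lit 86) (nat_lit 5) (nat_lit 305) (nat_lit 302) (nat_lit 113)) (XT.nd (nat_lit 78) (nat_lit 0) (nat_lit 76) (XT.lf (nat_lit 76) (nat_lit 45939923489) (nat_lit 0) (nat_lit 340939175317) (nat_lit 760) (nat_lit 181345161872) (nat_lit 78) (nat_lit 5) (nat_lit 77) (nat_lit 5) (nat_lit 87) (nat_lit 5) (nat_lit 306) (nat_lit 302) (nat_lit 112)) (XT.lf (nat_lit 0) (nat_lit 443402234472) (nat_lit 684) (nat_lit 118537112000) (nat_lit 760) (nat_lit 30550772916) (nat_lit 78) (nat_lit 5) (nat_lit 87) (nat_lit 5) (nat_lit 88) (nat_lit 5) (nat_lit 307)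 (nat_lit 302) (nat_lit 111)))))) (XT.nd (nat_lit 37440) (nat_lit 0) (nat_lit 0) (XT.nd (nat_lit 37206) (nat_lit 0) (nat_lit 0) (XT.nd (nat_lit 37128) (nat_lit 228) (nat_lit 0) (XT.lf (nat_lit 76) (nat_lit 322069237140) (nat_lit 0) (nat_lit 193155214667) (nat_lit 760) (nat_lit 102933933534) (nat_lit 79) (nat_lit 5) (nat_lit 78) (nat_lit 5) (nat_lit 88) (nat_lit 5) (nat_lit 308) (nat_lit 302) (nat_lit 110)) (XT.lf (nat_lit 0) (nat_lit 73109332737) (nat_lit 0) (nat_lit 73109332737) (nat_lit 684) (nat_lit 115301853503) (nat_lit 75) (nat_lit 5) (nat_lit 75) (nat_lit 3) (nat_lit 84) (nat_lit 3) (nat_lit 303) (nat_lit 303) (nat_lit 114))) (XT.nd (nat_lit 78) (nat_lit 0) (nat_lit 76) (XT.lf (nat_lit 0) (nat_lit 307655884157) (nat_lit 684) (nat_lit 17846458004) (nat_lit 760) (nat_lit 218284283295) (nat_lit 75) (nat_lit 5) (nat_lit 84) (nat_lit 3) (nat_lit 85) (nat_lit 5) (nat_lit 304) (nat_lit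 303) (nat_lit 113)) (XT.nd (nat_lit 78) (nat_lit 0) (nat_lit 0) (XT.lf (nat_lit 0) (nat_lit 333217443124) (nat_lit 684) (nat_lit 186977531849) (nat_lit 760) (nat_lit 45540609010) (nat_lit 76) (nat_lit 5) (nat_lit 85) (nat_lit 5) (nat_lit 86) (nat_lit 5) (nat_lit 305) (nat_lit 303) (nat_lit 112)) (XT.lf (nat_lit 76) (nat_lit 219846065049) (nat_lit 0) (nat_lit 150214777256) (nat_lit 760) (nat_lit 218917771207) (nat_lit 77) (nat_lit 5) (nat_lit 76) (nat_lit 5) (nat_lit 86) (nat_lit 5) (nat_lit 306) (nat_lit 303) (nat_lit 111))))) (XT.nd (nat_lit 37362) (nat_lit 0) (nat_lit 0) (XT.nd (nat_lit 37284) (nat_lit 152) (nat_lit 0) (XT.lf (nat_lit 76) (nat_lit 49615546858) (nat_lit 0) (nat_lit 368214464857) (nat_lit 760) (nat_lit 195852158861) (nat_lit 78) (nat_lit 5) (nat_lit 77) (nat_lit 5) (nat_lit 87) (nat_lit 5) (nat_lit 307) (nat_lit 303) (nat_lit 110)) (XT.lf (nat_lit 0) (nat_lit 78958248060)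 (nat_lit 0) (nat_lit 78958248060) (nat_lit 684) (nat_lit 124525646509) (nat_lit 75) (nat_lit 5) (nat_lit 75) (nat_lit 3) (nat_lit 84) (nat_lit 3) (nat_lit 304) (nat_lit 304) (nat_lit 112))) (XT.nd (nat_lit 78) (nat_lit 0) (nat_lit 0) (XT.lf (nat_lit 0) (nat_lit 332268974845) (nat_lit 684) (nat_lit 19273824267) (nat_lit 760) (nat_lit 235746723541) (nat_lit 75) (nat_lit 5) (nat_lit 84) (nat_lit 3) (nat_lit 85) (nat_lit 5) (nat_lit 305) (nat_lit 304) (nat_lit 111)) (XT.nd (nat_lit 37518) (nat_lit 76) (nat_lit 0) (XT.lf (nat_lit 0) (nat_lit 359875414028) (nat_lit 684) (nat_lit 201935364767) (nat_lit 760) (nat_lit 49183621430) (nat_lit 76) (nat_lit 5) (nat_lit 85) (nat_lit 5) (nat_lit 86) (nat_lit 5) (nat_lit 306) (nat_lit 304) (nat_lit 110)) (XT.lf (nat_lit 0) (nat_lit 358851024343) (nat_lit 684) (nat_lit 20815429817) (nat_lit 760) (nat_lit 254606202151) (nat_lit 75) (nat_lit 5) (nat_lit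 84) (nat_lit 3) (nat_lit 85) (nat_lit 5) (nat_lit 306) (nat_lit 305) (nat_lit 109))))))))

set_option maxRecDepth 10000000 in
noncomputable def Tp : PT := (PT.nd (nat_lit 4586712) (PT.nd (nat_lit 4361370) (PT.nd (nat_lit 4099290) pc0 pc1) (PT.nd (nat_lit 113022) pc2 pc3)) (PT.nd (nat_lit 149682) (PT.nd (nat_lit 75114) pc4 pc5) (PT.nd (nat_lit 75816) pc6 pc7)))

set_option maxRecDepth 10000000 in
noncomputable def Tx : XT := (XT.nd (nat_lit 7416552) (nat_lit 0) (nat_lit 76) XT.nil (XT.nd (nat_lit 4050384) (nat_lit 0) (nat_lit 0) (XT.nd (nat_lit 1873014) (nat_lit 0) (nat_lit 0) (XT.nd (nat_lit 1307982) (nat_lit 0) (nat_lit 0) (XT.nd (nat_lit 899340) (nat_lit 0) (nat_lit 0) (XT.nd (nat_lit 636246) (nat_lit 0) (nat_lit 0) (XT.nd (nat_lit 448734) (nat_lit 0) (nat_lit 0) (XT.nd (nat_lit 299520) (nat_lit 0) (nat_lit 0) (XT.nd (nat_lit 187512) (nat_lit 0) (nat_lit 0) xc0 xc1) (XT.nd (nat_lit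 74880) (nat_lit 0) (nat_lit 0) xc2 xc3)) (XT.nd (nat_lit 111774) (nat_lit 0) (nat_lit 0) (XT.nd (nat_lit 38376) (nat_lit 0) (nat_lit 0) xc4 xc5) (XT.nd (nat_lit 37908) (nat_lit 0) (nat_lit 0) xc6 xc7))) (XT.nd (nat_lit 149526) (nat_lit 0) (nat_lit 0) (XT.nd (nat_lit 75036) (nat_lit 0) (nat_lit 0) (XT.nd (nat_lit 37596) (nat_lit 0) (nat_lit 0) xc8 xc9) (XT.nd (nat_lit 37284) (nat_lit 0) (nat_lit 0) xc10 xc11)) (XT.nd (nat_lit 73866) (nat_lit 0) (nat_lit 0) (XT.nd (nat_lit 36972) (nat_lit 0) (nat_lit 0) xc12 xc13) (XT.nd (nat_lit 2964) (nat_lit 0) (nat_lit 0) xc14 xc15)))) (XT.nd (nat_lit 222846) (nat_lit 0) (nat_lit 0) (XT.nd (nat_lit 112086) (nat_lit 0) (nat_lit 0) (XT.nd (nat_lit 72852) (nat_lit 0) (nat_lit 0) (XT.nd (nat_lit 36504) (nat_lit 0) (nat_lit 0) xc16 xc17) (XT.nd (nat_lit 2964) (nat_lit 0) (nat_lit 0) xc18 xc19)) (XT.nd (nat_lit 71994) (nat_lit 0) (nat_lit 0) (XT.nd (nat_lit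 36036) (nat_lit 0) (nat_lit 0) xc20 xc21) (XT.nd (nat_lit 2964) (nat_lit 0) (nat_lit 0) xc22 xc23))) (XT.nd (nat_lit 77142) (nat_lit 0) (nat_lit 0) (XT.nd (nat_lit 38610) (nat_lit 0) (nat_lit 0) (XT.nd (nat_lit 2964) (nat_lit 0) (nat_lit 0) xc24 xc25) (XT.nd (nat_lit 35490) (nat_lit 0) (nat_lit 0) xc26 xc27)) (XT.nd (nat_lit 38376) (nat_lit 0) (nat_lit 0) (XT.nd (nat_lit 35334) (nat_lit 0) (nat_lit 0) xc28 xc29) (XT.nd (nat_lit 35178) (nat_lit 0) (nat_lit 0) xc30 xc31))))) (XT.nd (nat_lit 298740) (nat_lit 0) (nat_lit 0) (XT.nd (nat_lit 150618) (nat_lit 0) (nat_lit 0) (XT.nd (nat_lit 75582) (nat_lit 0) (nat_lit 0) (XT.nd (nat_lit 37830) (nat_lit 0) (nat_lit 0) (XT.nd (nat_lit 2964) (nat_lit 152) (nat_lit 0) xc32 xc33) (XT.nd (nat_lit 2964) (nat_lit 152) (nat_lit 0) xc34 xc35)) (XT.nd (nat_lit 37596) (nat_lit 0) (nat_lit 0) (XT.nd (nat_lit 2964) (nat_lit 152) (nat_lit 0) xc36 xc37) (XT.nd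 (nat_lit 2964) (nat_lit 152) (nat_lit 0) xc38 xc39))) (XT.nd (nat_lit 74334) (nat_lit 0) (nat_lit 0) (XT.nd (nat_lit 37206) (nat_lit 0) (nat_lit 0) (XT.nd (nat_lit 2964) (nat_lit 152) (nat_lit 0) xc40 xc41) (XT.nd (nat_lit 2964) (nat_lit 152) (nat_lit 0) xc42 xc43)) (XT.nd (nat_lit 36972) (nat_lit 0) (nat_lit 0) (XT.nd (nat_lit 2964) (nat_lit 228) (nat_lit 0) xc44 xc45) (XT.nd (nat_lit 2964) (nat_lit 456) (nat_lit 0) xc46 xc47)))) (XT.nd (nat_lit 117000) (nat_lit 0) (nat_lit 0) (XT.nd (nat_lit 42822) (nat_lit 0) (nat_lit 0) (XT.nd (nat_lit 5928) (nat_lit 0) (nat_lit 0) (XT.nd (nat_lit 2964) (nat_lit 760) (nat_lit 0) xc48 xc49) (XT.nd (nat_lit 33852) (nat_lit 0) (nat_lit 152) xc50 xc51)) (XT.nd (nat_lit 37050) (nat_lit 0) (nat_lit 0) (XT.nd (nat_lit 34008) (nat_lit 0) (nat_lit 152) xc52 xc53) (XT.nd (nat_lit 34086) (nat_lit 0) (nat_lit 228) xc54 xc55))) (XT.nd (nat_lit 74490) (nat_lit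 0) (nat_lit 0) (XT.nd (nat_lit 37206) (nat_lit 0) (nat_lit 0) (XT.nd (nat_lit 34164) (nat_lit 0) (nat_lit 380) xc56 xc57) (XT.nd (nat_lit 34242) (nat_lit 0) (nat_lit 456) xc58 xc59)) (XT.nd (nat_lit 37362) (nat_lit 0) (nat_lit 0) (XT.nd (nat_lit 34320) (nat_lit 0) (nat_lit 608) xc60 xc61) (XT.nd (nat_lit 34398) (nat_lit 0) (nat_lit 684) xc62 xc63)))))) (XT.nd (nat_lit 676884) (nat_lit 0) (nat_lit 228) (XT.nd (nat_lit 302562) (nat_lit 0) (nat_lit 152) (XT.nd (nat_lit 150540) (nat_lit 0) (nat_lit 152) (XT.nd (nat_lit 75036) (nat_lit 0) (nat_lit 76) (XT.nd (nat_lit 37440) (nat_lit 0) (nat_lit 0) (XT.nd (nat_lit 34476) (nat_lit 0) (nat_lit 760) xc64 xc65) (XT.nd (nat_lit 34554) (nat_lit 0) (nat_lit 760) xc66 xc67)) (XT.nd (nat_lit 37674) (nat_lit 0) (nat_lit 76) (XT.nd (nat_lit 34632) (nat_lit 0) (nat_lit 608) xc68 xc69) (XT.nd (nat_lit 34788) (nat_lit 0) (nat_lit 456) xc70 xc71))) (XT.nd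 (nat_lit 75816) (nat_lit 0) (nat_lit 0) (XT.nd (nat_lit 37830) (nat_lit 0) (nat_lit 0) (XT.nd (nat_lit 34866) (nat_lit 0) (nat_lit 304) xc72 xc73) (XT.nd (nat_lit 34944) (nat_lit 0) (nat_lit 228) xc74 xc75)) (XT.nd (nat_lit 38064) (nat_lit 0) (nat_lit 0) (XT.nd (nat_lit 35022) (nat_lit 0) (nat_lit 76) xc76 xc77) (XT.nd (nat_lit 35100) (nat_lit 0) (nat_lit 0) xc78 xc79)))) (XT.nd (nat_lit 186030) (nat_lit 0) (nat_lit 0) (XT.nd (nat_lit 108888) (nat_lit 0) (nat_lit 0) (XT.nd (nat_lit 70434) (nat_lit 0) (nat_lit 0) (XT.nd (nat_lit 35178) (nat_lit 0) (nat_lit 0) xc80 xc81) (XT.nd (nat_lit 2964) (nat_lit 532) (nat_lit 0) xc82 xc83)) (XT.nd (nat_lit 38532) (nat_lit 0) (nat_lit 0) (XT.nd (nat_lit 2964) (nat_lit 228) (nat_lit 0) xc84 xc85) (XT.nd (nat_lit 35568) (nat_lit 0) (nat_lit 608) xc86 xc87))) (XT.nd (nat_lit 110292) (nat_lit 0) (nat_lit 76) (XT.nd (nat_lit 38688) (nat_lit 0) (nat_lit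 76) (XT.nd (nat_lit 35646) (nat_lit 0) (nat_lit 152) xc88 xc89) (XT.nd (nat_lit 35724) (nat_lit 0) (nat_lit 0) xc90 xc91)) (XT.nd (nat_lit 38922) (nat_lit 0) (nat_lit 0) (XT.nd (nat_lit 2964) (nat_lit 304) (nat_lit 0) xc92 xc93) (XT.nd (nat_lit 36036) (nat_lit 0) (nat_lit 380) xc94 xc95))))) (XT.nd (nat_lit 485940) (nat_lit 0) (nat_lit 456) (XT.nd (nat_lit 224172) (nat_lit 0) (nat_lit 228) (XT.nd (nat_lit 111618) (nat_lit 0) (nat_lit 152) (XT.nd (nat_lit 72306) (nat_lit 0) (nat_lit 76) (XT.nd (nat_lit 36114) (nat_lit 0) (nat_lit 0) xc96 xc97) (XT.nd (nat_lit 2964) (nat_lit 228) (nat_lit 0) xc98 xc99)) (XT.nd (nat_lit 72930) (nat_lit 0) (nat_lit 0) (XT.nd (nat_lit 36348) (nat_lit 0) (nat_lit 0) xc100 xc101) (XT.nd (nat_lit 2964) (nat_lit 380) (nat_lit 0) xc102 xc103))) (XT.nd (nat_lit 113256) (nat_lit 0) (nat_lit 76) (XT.nd (nat_lit 73398) (nat_lit 0) (nat_lit 0) (XT.nd (nat_lit 36660)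 (nat_lit 0) (nat_lit 0) xc104 xc105) (XT.nd (nat_lit 2964) (nat_lit 228) (nat_lit 0) xc106 xc107)) (XT.nd (nat_lit 74100) (nat_lit 0) (nat_lit 152) (XT.nd (nat_lit 36972) (nat_lit 0) (nat_lit 76) xc108 xc109) (XT.nd (nat_lit 37128) (nat_lit 0) (nat_lit 0) xc110 xc111)))) (XT.nd (nat_lit 301548) (nat_lit 0) (nat_lit 608) (XT.nd (nat_lit 149916) (nat_lit 0) (nat_lit 228) (XT.nd (nat_lit 74724) (nat_lit 0) (nat_lit 76) (XT.nd (nat_lit 37284) (nat_lit 0) (nat_lit 76) xc112 xc113) (XT.nd (nat_lit 37518) (nat_lit 0) (nat_lit 152) xc114 xc115)) (XT.nd (nat_lit 75660) (nat_lit 0) (nat_lit 228) (XT.nd (nat_lit 37674) (nat_lit 0) (nat_lit 76) xc116 xc117) (XT.nd (nat_lit 37908) (nat_lit 0) (nat_lit 76) xc118 xc119))) (XT.nd (nat_lit 224952) (nat_lit 0) (nat_lit 1216) (XT.nd (nat_lit 111930) (nat_lit 0) (nat_lit 304) (XT.nd (nat_lit 38142) (nat_lit 0) (nat_lit 152) xc120 xc121) (XT.nd (nat_lit 38454)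 (nat_lit 0) (nat_lit 532) xc122 xc123)) (XT.nd (nat_lit 150384) (nat_lit 0) (nat_lit 684) (XT.nd (nat_lit 74958) (nat_lit 0) (nat_lit 228) xc124 xc125) (XT.nd (nat_lit 112398) (nat_lit 0) (nat_lit 1216) xc126 xc127))))))) XT.nil))

set_option maxRecDepth 10000000 in
noncomputable def Te : XT := XT.nil

set_option maxRecDepth 10000000 in
noncomputable def Tz : ZL := (ZL.cons (nat_lit 76) (nat_lit 3) (nat_lit 95813118673922355828) (ZL.cons (nat_lit 152) (nat_lit 6) (nat_lit 185209899982233382782) (ZL.cons (nat_lit 228) (nat_lit 6) (nat_lit 179340560072172794198) (ZL.cons (nat_lit 304) (nat_lit 3) (nat_lit 89415399159932635897) (ZL.cons (nat_lit 380) (nat_lit 6) (nat_lit 173001672969307358530) (ZL.cons (nat_lit 456) (nat_lit 6) (nat_lit 167687980965519299798) (ZL.cons (nat_lit 532) (nat_lit 3) (nat_lit 83607989671506167304) (ZL.cons (nat_lit 608) (nat_lit 6) (nat_lit 161949193601428196370)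 (ZL.cons (nat_lit 684) (nat_lit 6) (nat_lit 157170105162382593364) (ZL.cons (nat_lit 760) (nat_lit 3) (nat_lit 78366533311512146131) (ZL.cons (nat_lit 836) (nat_lit 6) (nat_lit 152008689648213342118) (ZL.cons (nat_lit 912) (nat_lit 6) (nat_lit 147748066368996466234) (ZL.cons (nat_lit 988) (nat_lit 3) (nat_lit 73671700527387908532) (ZL.cons (nat_lit 1064) (nat_lit 6) (nat_lit 143925948647422749786) (ZL.cons (nat_lit 1140) (nat_lit 6) (nat_lit 143146593227442240276) (ZL.cons (nat_lit 1216) (nat_lit 6) (nat_lit 139393396193902486856) (ZL.cons (nat_lit 1292) (nat_lit 3) (nat_lit 69509353044071313258) (ZL.cons (nat_lit 1368) (nat_lit 6) (nat_lit 136061568786550395298) (ZL.cons (nat_lit 1444) (nat_lit 6) (nat_lit 135339943397679553162) (ZL.cons (nat_lit 1520) (nat_lit 6) (nat_lit 133131366842972027286) (ZL.cons (nat_lit 1596) (nat_lit 6) (nat_lit 132088505080850276076) (ZL.cons (nat_lit 1672)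 (nat_lit 3) (nat_lit 65870784898869647140) (ZL.cons (nat_lit 1748) (nat_lit 6) (nat_lit 129245123355036547696) (ZL.cons (nat_lit 1824) (nat_lit 6) (nat_lit 128576951698674656826) (ZL.cons (nat_lit 1900) (nat_lit 6) (nat_lit 126792948550752064442) (ZL.cons (nat_lit 1976) (nat_lit 6) (nat_lit 125827335808046739248) (ZL.cons (nat_lit 2052) (nat_lit 3) (nat_lit 62753049717397915087) (ZL.cons (nat_lit 2128) (nat_lit 6) (nat_lit 124717449261749214560) (ZL.cons (nat_lit 2204) (nat_lit 6) (nat_lit 123476428105762931658) (ZL.cons (nat_lit 2280) (nat_lit 6) (nat_lit 122857750646168588260) (ZL.cons (nat_lit 2356) (nat_lit 6) (nat_lit 121510297286920811494) (ZL.cons (nat_lit 2432) (nat_lit 6) (nat_lit 120616211414045510388) (ZL.cons (nat_lit 2508) (nat_lit 3) (nat_lit 60159385163851038032) (ZL.cons (nat_lit 2584) (nat_lit 6) (nat_lit 119917292205927240270) (ZL.cons (nat_lit 2660) (nat_lit 6) (nat_lit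 118768198542976978320) (ZL.cons (nat_lit 2736) (nat_lit 6) (nat_lit 118195349043352586288) (ZL.cons (nat_lit 2812) (nat_lit 3) (nat_lit 58559904887605864442) (ZL.cons (nat_lit 2888) (nat_lit 6) (nat_lit 117293363792249457920) (ZL.cons (nat_lit 2964) (nat_lit 6) (nat_lit 117815054311611757506) (ZL.cons (nat_lit 3040) (nat_lit 6) (nat_lit 118687972832672626450) (ZL.cons (nat_lit 3116) (nat_lit 6) (nat_lit 117302760845578882240) (ZL.cons (nat_lit 3192) (nat_lit 6) (nat_lit 116474903555879529364) (ZL.cons (nat_lit 3268) (nat_lit 3) (nat_lit 58099747571299285828) (ZL.cons (nat_lit 3344) (nat_lit 6) (nat_lit 115126097966333798438) (ZL.cons (nat_lit 3420) (nat_lit 6) (nat_lit 115487090321772274838) (ZL.cons (nat_lit 3496) (nat_lit 6) (nat_lit 116211214246607381574) (ZL.cons (nat_lit 3572) (nat_lit 6) (nat_lit 115147238632764546438) (ZL.cons (nat_lit 3648) (nat_lit 6) (nat_lit 114616822429408627886)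 (ZL.cons (nat_lit 3724) (nat_lit 3) (nat_lit 56726811265353388533) (ZL.cons (nat_lit 3800) (nat_lit 6) (nat_lit 113641060869107524430) (ZL.cons (nat_lit 3876) (nat_lit 6) (nat_lit 114204486630018807980) (ZL.cons (nat_lit 3952) (nat_lit 6) (nat_lit 113437952102519407168) (ZL.cons (nat_lit 4028) (nat_lit 3) (nat_lit 56591472156222223162) (ZL.cons (nat_lit 4104) (nat_lit 6) (nat_lit 112266026519823937382) (ZL.cons (nat_lit 4180) (nat_lit 6) (nat_lit 112655898263697491896) (ZL.cons (nat_lit 4256) (nat_lit 6) (nat_lit 112164772149479048792) (ZL.cons (nat_lit 4332) (nat_lit 3) (nat_lit 55676919461111027703) (ZL.cons (nat_lit 4408) (nat_lit 6) (nat_lit 111556272327694862556) (ZL.cons (nat_lit 4484) (nat_lit 3) (nat_lit 55660077001775690148) (ZL.cons (nat_lit 4560) (nat_lit 6) (nat_lit 110899092520167941424) (ZL.cons (nat_lit 4636) (nat_lit 1) (nat_lit 18446744073709551617) ZL.nil)))))))))))))))))))))))))))))))))))))))))))))))))))))))))))))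

noncomputable def vl : XL := ⟨(nat_lit 0), (nat_lit 76), (nat_lit 172428874), (nat_lit 228), (nat_lit 293455570), (nat_lit 76), (nat_lit 172428874), (nat_lit 1), (nat_lit 5), (nat_lit 3), (nat_lit 4), (nat_lit 1), (nat_lit 4), (nat_lit 0), (nat_lit 0), (nat_lit 0)⟩

noncomputable def cp0 : Nat := (nat_lit 113009777538802282545466441048636651827556963626001079343297920302660020283321476193646619562698706203913992092344061596800863301040299957189990659752150704814665632997972399076978056025474923851071061326800380196079363103077801016555386735622182766346566398334607494660019953095785507288307002589626049729137908856352035228110832290798401325425086019764274604250636116998523666386898177742918091994958724840481040937591175404915699294327541922084234987016504684299997365135291151906274326723633559117862806999412127687634448148195787250848470265994601166241022903657305306412106940183153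86287969391249581608500665446429376412786807347530520337117442968384941084446777316633051476163440484691055650512460903615060811512405090500749256350324998675718101941366115470706243991866470559540993260975131037310489988267265288693551286706709662467944243783319217518908694279931015052679816932713440564877580920695449515667051902849354383199546690506305883518999927613526901335307627407347868119880254367475075312609688719639302198024407511026934889396853845241856931307857077010139352142257635595062465946174621488686603510075065891729885232994313039287873551931033597819720594096826886473100193370475369331306417521765201506845288357378603673898176795952283663361725177849620457028347560702640934315627334386422793009430645205105756388574057614644766885305820254998608019414066044118112352538143722458486919746629587173376)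

noncomputable def cp1 : Nat := (nat_lit 212331898847260916048751692721652279819284816831433846051738559448397477355585312945406901128629713077795902519896725946486998111466658194308130080912938313356542243215018673200100977334130847977727170377495640642858381892448918855486327247773906889383755031071062135900367138746043259927893889316827734727916457565155588939190073257610105509965037014486834676220160742937773243831416572205356379261013770683480833845962477135773145316378639796620091482853852752920305340215407092161901943358422342868855213238101754810786903435579826014114756643774648838124644346964448834666679907835748730263425093033901931459415837986075813050826251989885283356982297324512994914397931905722838159371034594557771790660888096105504850252759182292441080102236880723267706133241600625891701302262708471097139398443084704315891840390467356408824291760502423841061601188834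124347624778350160799966157567303740163251985790816972802268493163311835780124753803174031846319006980147852156362378979831928432100547211180349576216912782308621049333243488734154688199140849033462554798228193793491299859127675893404169496826649678687997123039901630851954924188667643675875520736838495698146647932352560857416106703631003119333520903392186456385817742207292582566202568829193419058793379569061448202196022040651084649019266066753259680199747550782383082266526139077668860465853317375746907084435647080924687919290927794539598707219414328464406845643318498605476545453108076363653842556169316876847571031592976075965259799470372960873345798736012258394787288882876710941166348287265759658849082817028002656166245102324111740400780159114749907855536686351048084430489664816039519295949831775362408631318406987361141766938864070755512142443891158414886332040060441557934397423558344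903268932208159635297127606588649374246455450356226219440678891409529232603735864393478243337399343373471157647256638748385711348911264431836913494971838473053649482805989269998262204491136848646301773002535434881257924352845676684282442383927840664854680040222335027067553614530571623421746031559185266969965005991494386638875713375539032255051489085297836005300505689343764697255269429991321355299532447963102065774093744397623929588451558583509220014204553606911481158320200126709579749831940626777920710247626187409162889955865984284721428187777897213451263086627056110929786504138470757056741165168098392151947596767309983649475015573826337252820866161344572280724729455524479237813343229555185595956271405901261181257889641988258211817230448155183950378865612094800720040938307920454068081653790206056271810673265933921998146976947027198481682956602649749260300957745217034407599599547242980601873743563410048113617943489006509652932375940070121459488881572292311457706047689191049826879166414827801543070240418849447096176734662968338124232279916285419771733417463198874078798976731421640079966208)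

noncomputable def rc0 : Nat := (nat_lit 212331898847260916048751692721652279819284816831433846051738559448397477355585312945406901128629713077795902519896725946486998111466658194308130080912938313356542243215018673200100977334130847977727170377495640642858381892448918855486327247773906889383755031071062135900367138746043259927893889316827734727916457565155588939190073257610105509965037014486834676220160742937773243831416572205356379261013770683480833845962477135773145316378639796620091482853852752920305340215407092161901943358422342868855213238101754810786903435579826014114756643774648838124644346964448834666679907835748730263425093033901931459415837986075813050826251989885283356982297324512994914397931905722838159371034594557771790660888096105504850252759182292441080102236880723267706133241600625891701302262708471097139398443084704315891840390467356408824291760502423841061601188834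124347624778350160799966157567303740163251985790816972802268493163311835780124753803174031846319006980147852156362378979831928432100547211180349576216912782308621049333243488734154688199140849033462554798228193793491299859127675893404169496826649678687997123039901630851954924188667643675875520736838495698146647932352560857416106703631003119333520903392186456385817742207292582566202568829193419058793379569061448202196022040651084649019266066753259680199747550782383082266526139077668860465853317375746907084435647080924687919290927794539598707219414328464406845643318498605476545453108076363653842556169316876847571031592976075965259799470372960873345798736012258394787288882876710941166348287265759658849082817028002656166245102324111740400780159114749907855536686351048084430489664816039519295949831775362408631318406987361141766938864070755512142443891158414886332040060441557934397423558344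903268932208159635297127606588649374246455450356226219440678891409529232603735864393478243337399343373471157647256638748385711348911264431836913494971838473053649482805989269998262204491136848646301773002535434881257924352845676684282442383927840664854680040222335027067553614530571623421746031559185266969965005991494386638875713375539032255051489085297836005300505689343764697255269429991321355299532447963102065774093744397623929588451558583509220014204553606911481158320200126709579749831940626777920710247626187409162889955865984284721428187777897213451263086627056110929786504138470757056741165168098392151947596767309983649475015573826337252820866161344572280724729455524479237813343229555185595956271405901261181257889641988258211817230448155183950378865612094800720040938307920454068081653790206056271810673265933921998146976947027198481682956602649749260300957745217034407599599547242980601873743563410048113617943489006509652932375940070121459488881572292311457706047689191049826879166414827801543070240418849447096176734662968338124232279916285419771733417463198874078798976731421640079966208)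

end Vale.Agent.Lib.P154.PChain.BR.S3
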