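import Vale.Agent.Lib.P154.PChain.BR.R3_0

set_option linter.all false

namespace Vale.Agent.Lib.P154.PChain.BR.S4

open Vale.Agent.Lib.P154.Chain

noncomputable def pc0 : PT := (PT.nd (nat_lit 3424668) (PT.nd (nat_lit 3274674) (PT.nd (nat_lit 3199716) (PT.nd (nat_lit 3162198) (PT.nd (nat_lit 3124836) (PT.nd (nat_lit 3124758) PT.nil (PT.lf (nat_lit 76) (nat_lit 6) (nat_lit 1) (nat_lit 3) (nat_lit 138) (nat_lit 83) (nat_lit 139))) (PT.lf (nat_lit 76) (nat_lit 6) (nat_lit 1) (nat_lit 1) (nat_lit 139) (nat_lit 83) (nat_lit 138))) (PT.nd (nat_lit 78) (PT.lf (nat_lit 152) (nat_lit 6) (nat_lit 2) (nat_lit 3) (nat_lit 137) (nat_lit 84) (nat_lit 139)) (PT.nd (nat_lit 78) (PT.lf (nat_lit 228) (nat_lit 3) (nat_lit 3) (nat_lit 1) (nat_lit 138) (nat_lit 84) (nat_lit 138)) (PT.lf (nat_lit 152) (nat_lit 6) (nat_lit 2) (nat_lit 1) (nat_lit 139) (nat_lit 84) (nat_lit 137))))) (PT.nd (nat_lit 37440)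 (PT.nd (nat_lit 78) (PT.lf (nat_lit 304) (nat_lit 6) (nat_lit 4) (nat_lit 3) (nat_lit 137) (nat_lit 85) (nat_lit 138)) (PT.lf (nat_lit 304) (nat_lit 6) (nat_lit 4) (nat_lit 1) (nat_lit 138) (nat_lit 85) (nat_lit 137))) (PT.nd (nat_lit 78) (PT.lf (nat_lit 380) (nat_lit 6) (nat_lit 5) (nat_lit 3) (nat_lit 136) (nat_lit 86) (nat_lit 138)) (PT.nd (nat_lit 78) (PT.lf (nat_lit 456) (nat_lit 3) (nat_lit 6) (nat_lit 1) (nat_lit 137) (nat_lit 86) (nat_lit 137)) (PT.lf (nat_lit 380) (nat_lit 6) (nat_lit 5) (nat_lit 1) (nat_lit 138) (nat_lit 86) (nat_lit 136)))))) (PT.nd (nat_lit 74958) (PT.nd (nat_lit 37440) (PT.nd (nat_lit 78) (PT.lf (nat_lit 532) (nat_lit 6) (nat_lit 7) (nat_lit 3) (nat_lit 136) (nat_lit 87) (nat_lit 137)) (PT.lf (nat_lit 532) (nat_lit 6) (nat_lit 7) (nat_lit 1) (nat_lit 137) (nat_lit 87) (nat_lit 136))) (PT.nd (nat_lit 78) (PT.lf (nat_lit 608) (nat_lit 6) (nat_lit 8) (nat_lit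 3) (nat_lit 135) (nat_lit 88) (nat_lit 137)) (PT.nd (nat_lit 78) (PT.lf (nat_lit 684) (nat_lit 3) (nat_lit 9) (nat_lit 1) (nat_lit 136) (nat_lit 88) (nat_lit 136)) (PT.lf (nat_lit 608) (nat_lit 6) (nat_lit 8) (nat_lit 1) (nat_lit 137) (nat_lit 88) (nat_lit 135))))) (PT.nd (nat_lit 37518) (PT.nd (nat_lit 78) (PT.lf (nat_lit 760) (nat_lit 6) (nat_lit 10) (nat_lit 3) (nat_lit 135) (nat_lit 89) (nat_lit 136)) (PT.nd (nat_lit 37362) (PT.lf (nat_lit 760) (nat_lit 6) (nat_lit 10) (nat_lit 1) (nat_lit 136) (nat_lit 89) (nat_lit 135)) (PT.lf (nat_lit 836) (nat_lit 6) (nat_lit 11) (nat_lit 3) (nat_lit 134) (nat_lit 90) (nat_lit 136)))) (PT.nd (nat_lit 78) (PT.lf (nat_lit 912) (nat_lit 3) (nat_lit 12) (nat_lit 1) (nat_lit 135) (nat_lit 90) (nat_lit 135)) (PT.nd (nat_lit 37362) (PT.lf (nat_lit 836) (nat_lit 6) (nat_lit 11) (nat_lit 1) (nat_lit 136) (nat_lit 90) (nat_lit 134)) (PT.lf (nat_lit 988)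 (nat_lit 6) (nat_lit 13) (nat_lit 3) (nat_lit 134) (nat_lit 91) (nat_lit 135))))))) (PT.nd (nat_lit 112476) (PT.nd (nat_lit 74880) (PT.nd (nat_lit 37440) (PT.nd (nat_lit 37362) (PT.lf (nat_lit 988) (nat_lit 6) (nat_lit 13) (nat_lit 1) (nat_lit 135) (nat_lit 91) (nat_lit 134)) (PT.lf (nat_lit 1064) (nat_lit 6) (nat_lit 14) (nat_lit 3) (nat_lit 133) (nat_lit 92) (nat_lit 135))) (PT.nd (nat_lit 78) (PT.lf (nat_lit 1140) (nat_lit 3) (nat_lit 15) (nat_lit 1) (nat_lit 134) (nat_lit 92) (nat_lit 134)) (PT.nd (nat_lit 37284) (PT.lf (nat_lit 1064) (nat_lit 6) (nat_lit 14) (nat_lit 1) (nat_lit 135) (nat_lit 92) (nat_lit 133)) (PT.lf (nat_lit 1216) (nat_lit 6) (nat_lit 16) (nat_lit 3) (nat_lit 132) (nat_lit 93) (nat_lit 135))))) (PT.nd (nat_lit 156) (PT.nd (nat_lit 78) (PT.lf (nat_lit 1292) (nat_lit 6) (nat_lit 17) (nat_lit 3) (nat_lit 133) (nat_lit 93) (nat_lit 134)) (PT.lf (nat_lit 1292) (nat_lit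 6) (nat_lit 17) (nat_lit 1) (nat_lit 134) (nat_lit 93) (nat_lit 133))) (PT.nd (nat_lit 37284) (PT.lf (nat_lit 1216) (nat_lit 6) (nat_lit 16) (nat_lit 1) (nat_lit 135) (nat_lit 93) (nat_lit 132)) (PT.nd (nat_lit 78) (PT.lf (nat_lit 1368) (nat_lit 6) (nat_lit 18) (nat_lit 3) (nat_lit 132) (nat_lit 94) (nat_lit 134)) (PT.lf (nat_lit 1444) (nat_lit 3) (nat_lit 19) (nat_lit 1) (nat_lit 133) (nat_lit 94) (nat_lit 133)))))) (PT.nd (nat_lit 74802) (PT.nd (nat_lit 37362) (PT.nd (nat_lit 37284) (PT.lf (nat_lit 1368) (nat_lit 6) (nat_lit 18) (nat_lit 1) (nat_lit 134) (nat_lit 94) (nat_lit 132)) (PT.lf (nat_lit 1520) (nat_lit 6) (nat_lit 20) (nat_lit 3) (nat_lit 131) (nat_lit 95) (nat_lit 134))) (PT.nd (nat_lit 78) (PT.lf (nat_lit 1596) (nat_lit 6) (nat_lit 21) (nat_lit 3) (nat_lit 132) (nat_lit 95) (nat_lit 133)) (PT.nd (nat_lit 78) (PT.lf (nat_lit 1596) (nat_lit 6) (nat_lit 21) (nat_lit 1) (nat_lit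 133) (nat_lit 95) (nat_lit 132)) (PT.lf (nat_lit 1520) (nat_lit 6) (nat_lit 20) (nat_lit 1) (nat_lit 134) (nat_lit 95) (nat_lit 131))))) (PT.nd (nat_lit 37440) (PT.nd (nat_lit 78) (PT.lf (nat_lit 1672) (nat_lit 6) (nat_lit 22) (nat_lit 3) (nat_lit 131) (nat_lit 96) (nat_lit 133)) (PT.nd (nat_lit 78) (PT.lf (nat_lit 1748) (nat_lit 3) (nat_lit 23) (nat_lit 1) (nat_lit 132) (nat_lit 96) (nat_lit 132)) (PT.lf (nat_lit 1672) (nat_lit 6) (nat_lit 22) (nat_lit 1) (nat_lit 133) (nat_lit 96) (nat_lit 131)))) (PT.nd (nat_lit 78) (PT.lf (nat_lit 1824) (nat_lit 6) (nat_lit 24) (nat_lit 3) (nat_lit 130) (nat_lit 97) (nat_lit 133)) (PT.nd (nat_lit 78) (PT.lf (nat_lit 1900) (nat_lit 6) (nat_lit 25) (nat_lit 3) (nat_lit 131) (nat_lit 97) (nat_lit 132)) (PT.lf (nat_lit 1900) (nat_lit 6) (nat_lit 25) (nat_lit 1) (nat_lit 132) (nat_lit 97) (nat_lit 131))))))))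
noncomputable def pc1 : PT := (PT.nd (nat_lit 187122) (PT.nd (nat_lit 112164) (PT.nd (nat_lit 37518) (PT.nd (nat_lit 37284) (PT.nd (nat_lit 37206) (PT.lf (nat_lit 1824) (nat_lit 6) (nat_lit 24) (nat_lit 1) (nat_lit 133) (nat_lit 97) (nat_lit 130)) (PT.lf (nat_lit 1976) (nat_lit 6) (nat_lit 26) (nat_lit 3) (nat_lit 129) (nat_lit 98) (nat_lit 133))) (PT.nd (nat_lit 78) (PT.lf (nat_lit 2052) (nat_lit 6) (nat_lit 27) (nat_lit 3) (nat_lit 130) (nat_lit 98) (nat_lit 132)) (PT.nd (nat_lit 78) (PT.lf (nat_lit 2128) (nat_lit 3) (nat_lit 28) (nat_lit 1) (nat_lit 131) (nat_lit 98) (nat_lit 131)) (PT.lf (nat_lit 2052) (nat_lit 6) (nat_lit 27) (nat_lit 1) (nat_lit 132) (nat_lit 98) (nat_lit 130))))) (PT.nd (nat_lit 37284) (PT.nd (nat_lit 37206) (PT.lf (nat_lit 1976) (nat_lit 6) (nat_lit 26) (nat_lit 1) (nat_lit 133) (nat_lit 98) (nat_lit 129)) (PT.lf (nat_lit 2204) (nat_lit 6) (nat_lit 29) (nat_lit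 3) (nat_lit 129) (nat_lit 99) (nat_lit 132))) (PT.nd (nat_lit 78) (PT.lf (nat_lit 2280) (nat_lit 6) (nat_lit 30) (nat_lit 3) (nat_lit 130) (nat_lit 99) (nat_lit 131)) (PT.nd (nat_lit 78) (PT.lf (nat_lit 2280) (nat_lit 6) (nat_lit 30) (nat_lit 1) (nat_lit 131) (nat_lit 99) (nat_lit 130)) (PT.lf (nat_lit 2204) (nat_lit 6) (nat_lit 29) (nat_lit 1) (nat_lit 132) (nat_lit 99) (nat_lit 129)))))) (PT.nd (nat_lit 37440) (PT.nd (nat_lit 156) (PT.nd (nat_lit 78) (PT.lf (nat_lit 2356) (nat_lit 6) (nat_lit 31) (nat_lit 3) (nat_lit 128) (nat_lit 100) (nat_lit 132)) (PT.lf (nat_lit 2432) (nat_lit 6) (nat_lit 32) (nat_lit 3) (nat_lit 129) (nat_lit 100) (nat_lit 131))) (PT.nd (nat_lit 78) (PT.lf (nat_lit 2508) (nat_lit 3) (nat_lit 33) (nat_lit 1) (nat_lit 130) (nat_lit 100) (nat_lit 130)) (PT.nd (nat_lit 78) (PT.lf (nat_lit 2432) (nat_lit 6) (nat_lit 32) (nat_lit 1) (nat_lit 131) (nat_lit 100) (nat_lit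 129)) (PT.lf (nat_lit 2356) (nat_lit 6) (nat_lit 31) (nat_lit 1) (nat_lit 132) (nat_lit 100) (nat_lit 128))))) (PT.nd (nat_lit 234) (PT.nd (nat_lit 78) (PT.lf (nat_lit 2584) (nat_lit 6) (nat_lit 34) (nat_lit 3) (nat_lit 127) (nat_lit 101) (nat_lit 132)) (PT.nd (nat_lit 78) (PT.lf (nat_lit 2660) (nat_lit 6) (nat_lit 35) (nat_lit 3) (nat_lit 128) (nat_lit 101) (nat_lit 131)) (PT.lf (nat_lit 2736) (nat_lit 6) (nat_lit 36) (nat_lit 3) (nat_lit 129) (nat_lit 101) (nat_lit 130)))) (PT.nd (nat_lit 78) (PT.lf (nat_lit 2736) (nat_lit 6) (nat_lit 36) (nat_lit 1) (nat_lit 130) (nat_lit 101) (nat_lit 129)) (PT.nd (nat_lit 78) (PT.lf (nat_lit 2660) (nat_lit 6) (nat_lit 35) (nat_lit 1) (nat_lit 131) (nat_lit 101) (nat_lit 128)) (PT.lf (nat_lit 2584) (nat_lit 6) (nat_lit 34) (nat_lit 1) (nat_lit 132) (nat_lit 101) (nat_lit 127))))))) (PT.nd (nat_lit 37830) (PT.nd (nat_lit 37440) (PT.nd (nat_lit 156)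 (PT.nd (nat_lit 78) (PT.lf (nat_lit 2812) (nat_lit 6) (nat_lit 37) (nat_lit 3) (nat_lit 127) (nat_lit 102) (nat_lit 131)) (PT.lf (nat_lit 2888) (nat_lit 6) (nat_lit 38) (nat_lit 3) (nat_lit 128) (nat_lit 102) (nat_lit 130))) (PT.nd (nat_lit 78) (PT.lf (nat_lit 2964) (nat_lit 3) (nat_lit 39) (nat_lit 1) (nat_lit 129) (nat_lit 102) (nat_lit 129)) (PT.nd (nat_lit 78) (PT.lf (nat_lit 2888) (nat_lit 6) (nat_lit 38) (nat_lit 1) (nat_lit 130) (nat_lit 102) (nat_lit 128)) (PT.lf (nat_lit 2812) (nat_lit 6) (nat_lit 37) (nat_lit 1) (nat_lit 131) (nat_lit 102) (nat_lit 127))))) (PT.nd (nat_lit 156) (PT.nd (nat_lit 78) (PT.lf (nat_lit 3040) (nat_lit 6) (nat_lit 40) (nat_lit 3) (nat_lit 126) (nat_lit 103) (nat_lit 131)) (PT.lf (nat_lit 3116) (nat_lit 6) (nat_lit 41) (nat_lit 3) (nat_lit 127) (nat_lit 103) (nat_lit 130))) (PT.nd (nat_lit 78) (PT.lf (nat_lit 3192) (nat_lit 6) (nat_lit 42) (nat_lit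 3) (nat_lit 128) (nat_lit 103) (nat_lit 129)) (PT.nd (nat_lit 78) (PT.lf (nat_lit 3192) (nat_lit 6) (nat_lit 42) (nat_lit 1) (nat_lit 129) (nat_lit 103) (nat_lit 128)) (PT.lf (nat_lit 3116) (nat_lit 6) (nat_lit 41) (nat_lit 1) (nat_lit 130) (nat_lit 103) (nat_lit 127)))))) (PT.nd (nat_lit 37362) (PT.nd (nat_lit 37128) (PT.nd (nat_lit 37050) (PT.lf (nat_lit 3040) (nat_lit 6) (nat_lit 40) (nat_lit 1) (nat_lit 131) (nat_lit 103) (nat_lit 126)) (PT.lf (nat_lit 3268) (nat_lit 6) (nat_lit 43) (nat_lit 3) (nat_lit 125) (nat_lit 104) (nat_lit 131))) (PT.nd (nat_lit 78) (PT.lf (nat_lit 3344) (nat_lit 6) (nat_lit 44) (nat_lit 3) (nat_lit 126) (nat_lit 104) (nat_lit 130)) (PT.nd (nat_lit 78) (PT.lf (nat_lit 3420) (nat_lit 6) (nat_lit 45) (nat_lit 3) (nat_lit 127) (nat_lit 104) (nat_lit 129)) (PT.lf (nat_lit 3496) (nat_lit 3) (nat_lit 46) (nat_lit 1) (nat_lit 128) (nat_lit 104) (nat_lit 128)))))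 (PT.nd (nat_lit 37128) (PT.nd (nat_lit 78) (PT.lf (nat_lit 3420) (nat_lit 6) (nat_lit 45) (nat_lit 1) (nat_lit 129) (nat_lit 104) (nat_lit 127)) (PT.nd (nat_lit 78) (PT.lf (nat_lit 3344) (nat_lit 6) (nat_lit 44) (nat_lit 1) (nat_lit 130) (nat_lit 104) (nat_lit 126)) (PT.lf (nat_lit 3268) (nat_lit 6) (nat_lit 43) (nat_lit 1) (nat_lit 131) (nat_lit 104) (nat_lit 125)))) (PT.nd (nat_lit 78) (PT.lf (nat_lit 3572) (nat_lit 6) (nat_lit 47) (nat_lit 3) (nat_lit 124) (nat_lit 105) (nat_lit 131)) (PT.nd (nat_lit 78) (PT.lf (nat_lit 3648) (nat_lit 6) (nat_lit 48) (nat_lit 3) (nat_lit 125) (nat_lit 105) (nat_lit 130)) (PT.lf (nat_lit 3724) (nat_lit 6) (nat_lit 49) (nat_lit 3) (nat_lit 126) (nat_lit 105) (nat_lit 129))))))))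
noncomputable def pc2 : PT := (PT.nd (nat_lit 112242) (PT.nd (nat_lit 37674) (PT.nd (nat_lit 37284) (PT.nd (nat_lit 156) (PT.nd (nat_lit 78) (PT.lf (nat_lit 3800) (nat_lit 6) (nat_lit 50) (nat_lit 3) (nat_lit 127) (nat_lit 105) (nat_lit 128)) (PT.lf (nat_lit 3800) (nat_lit 6) (nat_lit 50) (nat_lit 1) (nat_lit 128) (nat_lit 105) (nat_lit 127))) (PT.nd (nat_lit 78) (PT.lf (nat_lit 3724) (nat_lit 6) (nat_lit 49) (nat_lit 1) (nat_lit 129) (nat_lit 105) (nat_lit 126)) (PT.nd (nat_lit 78) (PT.lf (nat_lit 3648) (nat_lit 6) (nat_lit 48) (nat_lit 1) (nat_lit 130) (nat_lit 105) (nat_lit 125)) (PT.lf (nat_lit 3572) (nat_lit 6) (nat_lit 47) (nat_lit 1) (nat_lit 131) (nat_lit 105) (nat_lit 124))))) (PT.nd (nat_lit 156) (PT.nd (nat_lit 78) (PT.lf (nat_lit 3876) (nat_lit 6) (nat_lit 51) (nat_lit 3) (nat_lit 124) (nat_lit 106) (nat_lit 130)) (PT.lf (nat_lit 3952) (nat_lit 6) (nat_lit 52) (nat_lit 3)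 (nat_lit 125) (nat_lit 106) (nat_lit 129))) (PT.nd (nat_lit 78) (PT.lf (nat_lit 4028) (nat_lit 6) (nat_lit 53) (nat_lit 3) (nat_lit 126) (nat_lit 106) (nat_lit 128)) (PT.nd (nat_lit 78) (PT.lf (nat_lit 4104) (nat_lit 3) (nat_lit 54) (nat_lit 1) (nat_lit 127) (nat_lit 106) (nat_lit 127)) (PT.lf (nat_lit 4028) (nat_lit 6) (nat_lit 53) (nat_lit 1) (nat_lit 128) (nat_lit 106) (nat_lit 126)))))) (PT.nd (nat_lit 37284) (PT.nd (nat_lit 37050) (PT.nd (nat_lit 78) (PT.lf (nat_lit 3952) (nat_lit 6) (nat_lit 52) (nat_lit 1) (nat_lit 129) (nat_lit 106) (nat_lit 125)) (PT.lf (nat_lit 3876) (nat_lit 6) (nat_lit 51) (nat_lit 1) (nat_lit 130) (nat_lit 106) (nat_lit 124))) (PT.nd (nat_lit 78) (PT.lf (nat_lit 4180) (nat_lit 6) (nat_lit 55) (nat_lit 3) (nat_lit 123) (nat_lit 107) (nat_lit 130)) (PT.nd (nat_lit 78) (PT.lf (nat_lit 4256) (nat_lit 6) (nat_lit 56) (nat_lit 3) (nat_lit 124) (nat_lit 107) (nat_lit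 129)) (PT.lf (nat_lit 4332) (nat_lit 6) (nat_lit 57) (nat_lit 3) (nat_lit 125) (nat_lit 107) (nat_lit 128))))) (PT.nd (nat_lit 234) (PT.nd (nat_lit 78) (PT.lf (nat_lit 4408) (nat_lit 6) (nat_lit 58) (nat_lit 3) (nat_lit 126) (nat_lit 107) (nat_lit 127)) (PT.nd (nat_lit 78) (PT.lf (nat_lit 4408) (nat_lit 6) (nat_lit 58) (nat_lit 1) (nat_lit 127) (nat_lit 107) (nat_lit 126)) (PT.lf (nat_lit 4332) (nat_lit 6) (nat_lit 57) (nat_lit 1) (nat_lit 128) (nat_lit 107) (nat_lit 125)))) (PT.nd (nat_lit 78) (PT.lf (nat_lit 4256) (nat_lit 6) (nat_lit 56) (nat_lit 1) (nat_lit 129) (nat_lit 107) (nat_lit 124)) (PT.nd (nat_lit 36894) (PT.lf (nat_lit 4180) (nat_lit 6) (nat_lit 55) (nat_lit 1) (nat_lit 130) (nat_lit 107) (nat_lit 123)) (PT.lf (nat_lit 4484) (nat_lit 6) (nat_lit 59) (nat_lit 3) (nat_lit 122) (nat_lit 108) (nat_lit 130))))))) (PT.nd (nat_lit 37518) (PT.nd (nat_lit 390) (PT.nd (nat_lit 156)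 (PT.nd (nat_lit 78) (PT.lf (nat_lit 4560) (nat_lit 6) (nat_lit 60) (nat_lit 3) (nat_lit 123) (nat_lit 108) (nat_lit 129)) (PT.lf (nat_lit 4636) (nat_lit 6) (nat_lit 61) (nat_lit 3) (nat_lit 124) (nat_lit 108) (nat_lit 128))) (PT.nd (nat_lit 78) (PT.lf (nat_lit 4712) (nat_lit 6) (nat_lit 62) (nat_lit 3) (nat_lit 125) (nat_lit 108) (nat_lit 127)) (PT.nd (nat_lit 78) (PT.lf (nat_lit 4788) (nat_lit 3) (nat_lit 63) (nat_lit 1) (nat_lit 126) (nat_lit 108) (nat_lit 126)) (PT.lf (nat_lit 4712) (nat_lit 6) (nat_lit 62) (nat_lit 1) (nat_lit 127) (nat_lit 108) (nat_lit 125))))) (PT.nd (nat_lit 156) (PT.nd (nat_lit 78) (PT.lf (nat_lit 4636) (nat_lit 6) (nat_lit 61) (nat_lit 1) (nat_lit 128) (nat_lit 108) (nat_lit 124)) (PT.lf (nat_lit 4560) (nat_lit 6) (nat_lit 60) (nat_lit 1) (nat_lit 129) (nat_lit 108) (nat_lit 123))) (PT.nd (nat_lit 36816) (PT.lf (nat_lit 4484) (nat_lit 6) (nat_lit 59) (nat_lit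 1) (nat_lit 130) (nat_lit 108) (nat_lit 122)) (PT.nd (nat_lit 78) (PT.lf (nat_lit 4864) (nat_lit 6) (nat_lit 64) (nat_lit 3) (nat_lit 121) (nat_lit 109) (nat_lit 130)) (PT.lf (nat_lit 4940) (nat_lit 6) (nat_lit 65) (nat_lit 3) (nat_lit 122) (nat_lit 109) (nat_lit 129)))))) (PT.nd (nat_lit 390) (PT.nd (nat_lit 156) (PT.nd (nat_lit 78) (PT.lf (nat_lit 5016) (nat_lit 6) (nat_lit 66) (nat_lit 3) (nat_lit 123) (nat_lit 109) (nat_lit 128)) (PT.lf (nat_lit 5092) (nat_lit 6) (nat_lit 67) (nat_lit 3) (nat_lit 124) (nat_lit 109) (nat_lit 127))) (PT.nd (nat_lit 78) (PT.lf (nat_lit 5168) (nat_lit 6) (nat_lit 68) (nat_lit 3) (nat_lit 125) (nat_lit 109) (nat_lit 126)) (PT.nd (nat_lit 78) (PT.lf (nat_lit 5168) (nat_lit 6) (nat_lit 68) (nat_lit 1) (nat_lit 126) (nat_lit 109) (nat_lit 125)) (PT.lf (nat_lit 5092) (nat_lit 6) (nat_lit 67) (nat_lit 1) (nat_lit 127) (nat_lit 109) (nat_lit 124))))) (PT.nd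 (nat_lit 36894) (PT.nd (nat_lit 78) (PT.lf (nat_lit 5016) (nat_lit 6) (nat_lit 66) (nat_lit 1) (nat_lit 128) (nat_lit 109) (nat_lit 123)) (PT.nd (nat_lit 78) (PT.lf (nat_lit 4940) (nat_lit 6) (nat_lit 65) (nat_lit 1) (nat_lit 129) (nat_lit 109) (nat_lit 122)) (PT.lf (nat_lit 4864) (nat_lit 6) (nat_lit 64) (nat_lit 1) (nat_lit 130) (nat_lit 109) (nat_lit 121)))) (PT.nd (nat_lit 78) (PT.lf (nat_lit 5244) (nat_lit 6) (nat_lit 69) (nat_lit 3) (nat_lit 120) (nat_lit 110) (nat_lit 130)) (PT.nd (nat_lit 78) (PT.lf (nat_lit 5320) (nat_lit 6) (nat_lit 70) (nat_lit 3) (nat_lit 121) (nat_lit 110) (nat_lit 129)) (PT.lf (nat_lit 5396) (nat_lit 6) (nat_lit 71) (nat_lit 3) (nat_lit 122) (nat_lit 110) (nat_lit 128))))))))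
noncomputable def pc3 : PT := (PT.nd (nat_lit 74958) (PT.nd (nat_lit 37440) (PT.nd (nat_lit 390) (PT.nd (nat_lit 156) (PT.nd (nat_lit 78) (PT.lf (nat_lit 5472) (nat_lit 6) (nat_lit 72) (nat_lit 3) (nat_lit 123) (nat_lit 110) (nat_lit 127)) (PT.lf (nat_lit 5548) (nat_lit 6) (nat_lit 73) (nat_lit 3) (nat_lit 124) (nat_lit 110) (nat_lit 126))) (PT.nd (nat_lit 78) (PT.lf (nat_lit 5624) (nat_lit 3) (nat_lit 74) (nat_lit 1) (nat_lit 125) (nat_lit 110) (nat_lit 125)) (PT.nd (nat_lit 78) (PT.lf (nat_lit 5548) (nat_lit 6) (nat_lit 73) (nat_lit 1) (nat_lit 126) (nat_lit 110) (nat_lit 124)) (PT.lf (nat_lit 5472) (nat_lit 6) (nat_lit 72) (nat_lit 1) (nat_lit 127) (nat_lit 110) (nat_lit 123))))) (PT.nd (nat_lit 156) (PT.nd (nat_lit 78) (PT.lf (nat_lit 5396) (nat_lit 6) (nat_lit 71) (nat_lit 1) (nat_lit 128) (nat_lit 110) (nat_lit 122)) (PT.lf (nat_lit 5320) (nat_lit 6) (nat_lit 70) (nat_lit 1) (nat_lit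 129) (nat_lit 110) (nat_lit 121))) (PT.nd (nat_lit 36738) (PT.lf (nat_lit 5244) (nat_lit 6) (nat_lit 69) (nat_lit 1) (nat_lit 130) (nat_lit 110) (nat_lit 120)) (PT.nd (nat_lit 78) (PT.lf (nat_lit 6004) (nat_lit 6) (nat_lit 79) (nat_lit 3) (nat_lit 120) (nat_lit 111) (nat_lit 129)) (PT.lf (nat_lit 6080) (nat_lit 6) (nat_lit 80) (nat_lit 3) (nat_lit 121) (nat_lit 111) (nat_lit 128)))))) (PT.nd (nat_lit 390) (PT.nd (nat_lit 156) (PT.nd (nat_lit 78) (PT.lf (nat_lit 6156) (nat_lit 6) (nat_lit 81) (nat_lit 3) (nat_lit 122) (nat_lit 111) (nat_lit 127)) (PT.lf (nat_lit 6232) (nat_lit 6) (nat_lit 82) (nat_lit 3) (nat_lit 123) (nat_lit 111) (nat_lit 126))) (PT.nd (nat_lit 78) (PT.lf (nat_lit 6308) (nat_lit 6) (nat_lit 83) (nat_lit 3) (nat_lit 124) (nat_lit 111) (nat_lit 125)) (PT.nd (nat_lit 78) (PT.lf (nat_lit 6308) (nat_lit 6) (nat_lit 83) (nat_lit 1) (nat_lit 125) (nat_lit 111) (nat_lit 124))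 (PT.lf (nat_lit 6232) (nat_lit 6) (nat_lit 82) (nat_lit 1) (nat_lit 126) (nat_lit 111) (nat_lit 123))))) (PT.nd (nat_lit 36894) (PT.nd (nat_lit 78) (PT.lf (nat_lit 6156) (nat_lit 6) (nat_lit 81) (nat_lit 1) (nat_lit 127) (nat_lit 111) (nat_lit 122)) (PT.nd (nat_lit 78) (PT.lf (nat_lit 6080) (nat_lit 6) (nat_lit 80) (nat_lit 1) (nat_lit 128) (nat_lit 111) (nat_lit 121)) (PT.lf (nat_lit 6004) (nat_lit 6) (nat_lit 79) (nat_lit 1) (nat_lit 129) (nat_lit 111) (nat_lit 120)))) (PT.nd (nat_lit 78) (PT.lf (nat_lit 5928) (nat_lit 6) (nat_lit 78) (nat_lit 3) (nat_lit 119) (nat_lit 112) (nat_lit 129)) (PT.nd (nat_lit 78) (PT.lf (nat_lit 6688) (nat_lit 6) (nat_lit 88) (nat_lit 3) (nat_lit 120) (nat_lit 112) (nat_lit 128)) (PT.lf (nat_lit 6764) (nat_lit 6) (nat_lit 89) (nat_lit 3) (nat_lit 121) (nat_lit 112) (nat_lit 127))))))) (PT.nd (nat_lit 37362) (PT.nd (nat_lit 390) (PT.nd (nat_lit 156) (PT.nd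 (nat_lit 78) (PT.lf (nat_lit 6840) (nat_lit 6) (nat_lit 90) (nat_lit 3) (nat_lit 122) (nat_lit 112) (nat_lit 126)) (PT.lf (nat_lit 6916) (nat_lit 6) (nat_lit 91) (nat_lit 3) (nat_lit 123) (nat_lit 112) (nat_lit 125))) (PT.nd (nat_lit 78) (PT.lf (nat_lit 6992) (nat_lit 3) (nat_lit 92) (nat_lit 1) (nat_lit 124) (nat_lit 112) (nat_lit 124)) (PT.nd (nat_lit 78) (PT.lf (nat_lit 6916) (nat_lit 6) (nat_lit 91) (nat_lit 1) (nat_lit 125) (nat_lit 112) (nat_lit 123)) (PT.lf (nat_lit 6840) (nat_lit 6) (nat_lit 90) (nat_lit 1) (nat_lit 126) (nat_lit 112) (nat_lit 122))))) (PT.nd (nat_lit 156) (PT.nd (nat_lit 78) (PT.lf (nat_lit 6764) (nat_lit 6) (nat_lit 89) (nat_lit 1) (nat_lit 127) (nat_lit 112) (nat_lit 121)) (PT.lf (nat_lit 6688) (nat_lit 6) (nat_lit 88) (nat_lit 1) (nat_lit 128) (nat_lit 112) (nat_lit 120))) (PT.nd (nat_lit 36660) (PT.lf (nat_lit 5928) (nat_lit 6) (nat_lit 78) (nat_lit 1)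 (nat_lit 129) (nat_lit 112) (nat_lit 119)) (PT.nd (nat_lit 78) (PT.lf (nat_lit 5852) (nat_lit 6) (nat_lit 77) (nat_lit 3) (nat_lit 118) (nat_lit 113) (nat_lit 129)) (PT.lf (nat_lit 6612) (nat_lit 6) (nat_lit 87) (nat_lit 3) (nat_lit 119) (nat_lit 113) (nat_lit 128)))))) (PT.nd (nat_lit 390) (PT.nd (nat_lit 156) (PT.nd (nat_lit 78) (PT.lf (nat_lit 7296) (nat_lit 6) (nat_lit 96) (nat_lit 3) (nat_lit 120) (nat_lit 113) (nat_lit 127)) (PT.lf (nat_lit 7372) (nat_lit 6) (nat_lit 97) (nat_lit 3) (nat_lit 121) (nat_lit 113) (nat_lit 126))) (PT.nd (nat_lit 78) (PT.lf (nat_lit 7448) (nat_lit 6) (nat_lit 98) (nat_lit 3) (nat_lit 122) (nat_lit 113) (nat_lit 125)) (PT.nd (nat_lit 78) (PT.lf (nat_lit 7524) (nat_lit 6) (nat_lit 99) (nat_lit 3) (nat_lit 123) (nat_lit 113) (nat_lit 124)) (PT.lf (nat_lit 7524) (nat_lit 6) (nat_lit 99) (nat_lit 1) (nat_lit 124) (nat_lit 113) (nat_lit 123))))) (PT.nd (nat_lit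 234) (PT.nd (nat_lit 78) (PT.lf (nat_lit 7448) (nat_lit 6) (nat_lit 98) (nat_lit 1) (nat_lit 125) (nat_lit 113) (nat_lit 122)) (PT.nd (nat_lit 78) (PT.lf (nat_lit 7372) (nat_lit 6) (nat_lit 97) (nat_lit 1) (nat_lit 126) (nat_lit 113) (nat_lit 121)) (PT.lf (nat_lit 7296) (nat_lit 6) (nat_lit 96) (nat_lit 1) (nat_lit 127) (nat_lit 113) (nat_lit 120)))) (PT.nd (nat_lit 78) (PT.lf (nat_lit 6612) (nat_lit 6) (nat_lit 87) (nat_lit 1) (nat_lit 128) (nat_lit 113) (nat_lit 119)) (PT.nd (nat_lit 36582) (PT.lf (nat_lit 5852) (nat_lit 6) (nat_lit 77) (nat_lit 1) (nat_lit 129) (nat_lit 113) (nat_lit 118)) (PT.lf (nat_lit 5776) (nat_lit 6) (nat_lit 76) (nat_lit 3) (nat_lit 117) (nat_lit 114) (nat_lit 129))))))))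
noncomputable def pc4 : PT := (PT.nd (nat_lit 38064) (PT.nd (nat_lit 780) (PT.nd (nat_lit 390) (PT.nd (nat_lit 156) (PT.nd (nat_lit 78) (PT.lf (nat_lit 6536) (nat_lit 6) (nat_lit 86) (nat_lit 3) (nat_lit 118) (nat_lit 114) (nat_lit 128)) (PT.lf (nat_lit 7220) (nat_lit 6) (nat_lit 95) (nat_lit 3) (nat_lit 119) (nat_lit 114) (nat_lit 127))) (PT.nd (nat_lit 78) (PT.lf (nat_lit 7828) (nat_lit 6) (nat_lit 103) (nat_lit 3) (nat_lit 120) (nat_lit 114) (nat_lit 126)) (PT.nd (nat_lit 78) (PT.lf (nat_lit 7904) (nat_lit 6) (nat_lit 104) (nat_lit 3) (nat_lit 121) (nat_lit 114) (nat_lit 125)) (PT.lf (nat_lit 7980) (nat_lit 6) (nat_lit 105) (nat_lit 3) (nat_lit 122) (nat_lit 114) (nat_lit 124))))) (PT.nd (nat_lit 156) (PT.nd (nat_lit 78) (PT.lf (nat_lit 8056) (nat_lit 3) (nat_lit 106) (nat_lit 1) (nat_lit 123) (nat_lit 114) (nat_lit 123)) (PT.lf (nat_lit 7980) (nat_lit 6) (nat_lit 105) (nat_lit 1)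 (nat_lit 124) (nat_lit 114) (nat_lit 122))) (PT.nd (nat_lit 78) (PT.lf (nat_lit 7904) (nat_lit 6) (nat_lit 104) (nat_lit 1) (nat_lit 125) (nat_lit 114) (nat_lit 121)) (PT.nd (nat_lit 78) (PT.lf (nat_lit 7828) (nat_lit 6) (nat_lit 103) (nat_lit 1) (nat_lit 126) (nat_lit 114) (nat_lit 120)) (PT.lf (nat_lit 7220) (nat_lit 6) (nat_lit 95) (nat_lit 1) (nat_lit 127) (nat_lit 114) (nat_lit 119)))))) (PT.nd (nat_lit 36816) (PT.nd (nat_lit 36582) (PT.nd (nat_lit 78) (PT.lf (nat_lit 6536) (nat_lit 6) (nat_lit 86) (nat_lit 1) (nat_lit 128) (nat_lit 114) (nat_lit 118)) (PT.lf (nat_lit 5776) (nat_lit 6) (nat_lit 76) (nat_lit 1) (nat_lit 129) (nat_lit 114) (nat_lit 117))) (PT.nd (nat_lit 78) (PT.lf (nat_lit 5700) (nat_lit 6) (nat_lit 75) (nat_lit 3) (nat_lit 116) (nat_lit 115) (nat_lit 129)) (PT.nd (nat_lit 78) (PT.lf (nat_lit 6460) (nat_lit 6) (nat_lit 85) (nat_lit 3) (nat_lit 117) (nat_lit 115)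 (nat_lit 128)) (PT.lf (nat_lit 7144) (nat_lit 6) (nat_lit 94) (nat_lit 3) (nat_lit 118) (nat_lit 115) (nat_lit 127))))) (PT.nd (nat_lit 234) (PT.nd (nat_lit 78) (PT.lf (nat_lit 7752) (nat_lit 6) (nat_lit 102) (nat_lit 3) (nat_lit 119) (nat_lit 115) (nat_lit 126)) (PT.nd (nat_lit 78) (PT.lf (nat_lit 8284) (nat_lit 6) (nat_lit 109) (nat_lit 3) (nat_lit 120) (nat_lit 115) (nat_lit 125)) (PT.lf (nat_lit 8360) (nat_lit 6) (nat_lit 110) (nat_lit 3) (nat_lit 121) (nat_lit 115) (nat_lit 124)))) (PT.nd (nat_lit 78) (PT.lf (nat_lit 8436) (nat_lit 6) (nat_lit 111) (nat_lit 3) (nat_lit 122) (nat_lit 115) (nat_lit 123)) (PT.nd (nat_lit 78) (PT.lf (nat_lit 8436) (nat_lit 6) (nat_lit 111) (nat_lit 1) (nat_lit 123) (nat_lit 115) (nat_lit 122)) (PT.lf (nat_lit 8360) (nat_lit 6) (nat_lit 110) (nat_lit 1) (nat_lit 124) (nat_lit 115) (nat_lit 121))))))) (PT.nd (nat_lit 37128) (PT.nd (nat_lit 36738) (PT.nd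 (nat_lit 156) (PT.nd (nat_lit 78) (PT.lf (nat_lit 8284) (nat_lit 6) (nat_lit 109) (nat_lit 1) (nat_lit 125) (nat_lit 115) (nat_lit 120)) (PT.lf (nat_lit 7752) (nat_lit 6) (nat_lit 102) (nat_lit 1) (nat_lit 126) (nat_lit 115) (nat_lit 119))) (PT.nd (nat_lit 78) (PT.lf (nat_lit 7144) (nat_lit 6) (nat_lit 94) (nat_lit 1) (nat_lit 127) (nat_lit 115) (nat_lit 118)) (PT.nd (nat_lit 78) (PT.lf (nat_lit 6460) (nat_lit 6) (nat_lit 85) (nat_lit 1) (nat_lit 128) (nat_lit 115) (nat_lit 117)) (PT.lf (nat_lit 5700) (nat_lit 6) (nat_lit 75) (nat_lit 1) (nat_lit 129) (nat_lit 115) (nat_lit 116))))) (PT.nd (nat_lit 156) (PT.nd (nat_lit 78) (PT.lf (nat_lit 5700) (nat_lit 6) (nat_lit 75) (nat_lit 5) (nat_lit 115) (nat_lit 116) (nat_lit 129)) (PT.lf (nat_lit 6384) (nat_lit 3) (nat_lit 84) (nat_lit 3) (nat_lit 116) (nat_lit 116) (nat_lit 128))) (PT.nd (nat_lit 78) (PT.lf (nat_lit 7068) (nat_lit 6) (nat_lit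 93) (nat_lit 3) (nat_lit 117) (nat_lit 116) (nat_lit 127)) (PT.nd (nat_lit 78) (PT.lf (nat_lit 7676) (nat_lit 6) (nat_lit 101) (nat_lit 3) (nat_lit 118) (nat_lit 116) (nat_lit 126)) (PT.lf (nat_lit 8208) (nat_lit 6) (nat_lit 108) (nat_lit 3) (nat_lit 119) (nat_lit 116) (nat_lit 125)))))) (PT.nd (nat_lit 390) (PT.nd (nat_lit 156) (PT.nd (nat_lit 78) (PT.lf (nat_lit 8664) (nat_lit 6) (nat_lit 114) (nat_lit 3) (nat_lit 120) (nat_lit 116) (nat_lit 124)) (PT.lf (nat_lit 8740) (nat_lit 6) (nat_lit 115) (nat_lit 3) (nat_lit 121) (nat_lit 116) (nat_lit 123))) (PT.nd (nat_lit 78) (PT.lf (nat_lit 8816) (nat_lit 3) (nat_lit 116) (nat_lit 1) (nat_lit 122) (nat_lit 116) (nat_lit 122)) (PT.nd (nat_lit 78) (PT.lf (nat_lit 8740) (nat_lit 6) (nat_lit 115) (nat_lit 1) (nat_lit 123) (nat_lit 116) (nat_lit 121)) (PT.lf (nat_lit 8664) (nat_lit 6) (nat_lit 114) (nat_lit 1) (nat_lit 124) (nat_lit 116) (nat_lit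 120))))) (PT.nd (nat_lit 234) (PT.nd (nat_lit 78) (PT.lf (nat_lit 8208) (nat_lit 6) (nat_lit 108) (nat_lit 1) (nat_lit 125) (nat_lit 116) (nat_lit 119)) (PT.nd (nat_lit 78) (PT.lf (nat_lit 7676) (nat_lit 6) (nat_lit 101) (nat_lit 1) (nat_lit 126) (nat_lit 116) (nat_lit 118)) (PT.lf (nat_lit 7068) (nat_lit 6) (nat_lit 93) (nat_lit 1) (nat_lit 127) (nat_lit 116) (nat_lit 117)))) (PT.nd (nat_lit 78) (PT.lf (nat_lit 6384) (nat_lit 3) (nat_lit 84) (nat_lit 0) (nat_lit 128) (nat_lit 116) (nat_lit 116)) (PT.nd (nat_lit 36348) (PT.lf (nat_lit 5700) (nat_lit 6) (nat_lit 75) (nat_lit 0) (nat_lit 129) (nat_lit 116) (nat_lit 115)) (PT.lf (nat_lit 5776) (nat_lit 6) (nat_lit 76) (nat_lit 5) (nat_lit 114) (nat_lit 117) (nat_lit 129))))))))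
noncomputable def pc5 : PT := (PT.nd (nat_lit 37830) (PT.nd (nat_lit 780) (PT.nd (nat_lit 390) (PT.nd (nat_lit 156) (PT.nd (nat_lit 78) (PT.lf (nat_lit 6460) (nat_lit 6) (nat_lit 85) (nat_lit 5) (nat_lit 115) (nat_lit 117) (nat_lit 128)) (PT.lf (nat_lit 7068) (nat_lit 6) (nat_lit 93) (nat_lit 5) (nat_lit 116) (nat_lit 117) (nat_lit 127))) (PT.nd (nat_lit 78) (PT.lf (nat_lit 7600) (nat_lit 3) (nat_lit 100) (nat_lit 3) (nat_lit 117) (nat_lit 117) (nat_lit 126)) (PT.nd (nat_lit 78) (PT.lf (nat_lit 8132) (nat_lit 6) (nat_lit 107) (nat_lit 3) (nat_lit 118) (nat_lit 117) (nat_lit 125)) (PT.lf (nat_lit 8588) (nat_lit 6) (nat_lit 113) (nat_lit 3) (nat_lit 119) (nat_lit 117) (nat_lit 124))))) (PT.nd (nat_lit 156) (PT.nd (nat_lit 78) (PT.lf (nat_lit 8968) (nat_lit 6) (nat_lit 118) (nat_lit 3) (nat_lit 120) (nat_lit 117) (nat_lit 123)) (PT.lf (nat_lit 9044) (nat_lit 6) (nat_lit 119) (nat_lit 3)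 (nat_lit 121) (nat_lit 117) (nat_lit 122))) (PT.nd (nat_lit 78) (PT.lf (nat_lit 9044) (nat_lit 6) (nat_lit 119) (nat_lit 1) (nat_lit 122) (nat_lit 117) (nat_lit 121)) (PT.nd (nat_lit 78) (PT.lf (nat_lit 8968) (nat_lit 6) (nat_lit 118) (nat_lit 1) (nat_lit 123) (nat_lit 117) (nat_lit 120)) (PT.lf (nat_lit 8588) (nat_lit 6) (nat_lit 113) (nat_lit 1) (nat_lit 124) (nat_lit 117) (nat_lit 119)))))) (PT.nd (nat_lit 36582) (PT.nd (nat_lit 156) (PT.nd (nat_lit 78) (PT.lf (nat_lit 8132) (nat_lit 6) (nat_lit 107) (nat_lit 1) (nat_lit 125) (nat_lit 117) (nat_lit 118)) (PT.lf (nat_lit 7600) (nat_lit 3) (nat_lit 100) (nat_lit 0) (nat_lit 126) (nat_lit 117) (nat_lit 117))) (PT.nd (nat_lit 78) (PT.lf (nat_lit 7068) (nat_lit 6) (nat_lit 93) (nat_lit 0) (nat_lit 127) (nat_lit 117) (nat_lit 116)) (PT.nd (nat_lit 78) (PT.lf (nat_lit 6460) (nat_lit 6) (nat_lit 85) (nat_lit 0) (nat_lit 128) (nat_lit 117)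 (nat_lit 115)) (PT.lf (nat_lit 5776) (nat_lit 6) (nat_lit 76) (nat_lit 0) (nat_lit 129) (nat_lit 117) (nat_lit 114))))) (PT.nd (nat_lit 234) (PT.nd (nat_lit 78) (PT.lf (nat_lit 5852) (nat_lit 6) (nat_lit 77) (nat_lit 5) (nat_lit 113) (nat_lit 118) (nat_lit 129)) (PT.nd (nat_lit 78) (PT.lf (nat_lit 6536) (nat_lit 6) (nat_lit 86) (nat_lit 5) (nat_lit 114) (nat_lit 118) (nat_lit 128)) (PT.lf (nat_lit 7144) (nat_lit 6) (nat_lit 94) (nat_lit 5) (nat_lit 115) (nat_lit 118) (nat_lit 127)))) (PT.nd (nat_lit 78) (PT.lf (nat_lit 7676) (nat_lit 6) (nat_lit 101) (nat_lit 5) (nat_lit 116) (nat_lit 118) (nat_lit 126)) (PT.nd (nat_lit 78) (PT.lf (nat_lit 8132) (nat_lit 6) (nat_lit 107) (nat_lit 5) (nat_lit 117) (nat_lit 118) (nat_lit 125)) (PT.lf (nat_lit 8512) (nat_lit 3) (nat_lit 112) (nat_lit 3) (nat_lit 118) (nat_lit 118) (nat_lit 124))))))) (PT.nd (nat_lit 780) (PT.nd (nat_lit 390) (PT.nd (nat_lit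 156) (PT.nd (nat_lit 78) (PT.lf (nat_lit 8892) (nat_lit 6) (nat_lit 117) (nat_lit 3) (nat_lit 119) (nat_lit 118) (nat_lit 123)) (PT.lf (nat_lit 9196) (nat_lit 6) (nat_lit 121) (nat_lit 3) (nat_lit 120) (nat_lit 118) (nat_lit 122))) (PT.nd (nat_lit 78) (PT.lf (nat_lit 9272) (nat_lit 3) (nat_lit 122) (nat_lit 1) (nat_lit 121) (nat_lit 118) (nat_lit 121)) (PT.nd (nat_lit 78) (PT.lf (nat_lit 9196) (nat_lit 6) (nat_lit 121) (nat_lit 1) (nat_lit 122) (nat_lit 118) (nat_lit 120)) (PT.lf (nat_lit 8892) (nat_lit 6) (nat_lit 117) (nat_lit 1) (nat_lit 123) (nat_lit 118) (nat_lit 119))))) (PT.nd (nat_lit 156) (PT.nd (nat_lit 78) (PT.lf (nat_lit 8512) (nat_lit 3) (nat_lit 112) (nat_lit 0) (nat_lit 124) (nat_lit 118) (nat_lit 118)) (PT.lf (nat_lit 8132) (nat_lit 6) (nat_lit 107) (nat_lit 0) (nat_lit 125) (nat_lit 118) (nat_lit 117))) (PT.nd (nat_lit 78) (PT.lf (nat_lit 7676) (nat_lit 6) (nat_lit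 101) (nat_lit 0) (nat_lit 126) (nat_lit 118) (nat_lit 116)) (PT.nd (nat_lit 78) (PT.lf (nat_lit 7144) (nat_lit 6) (nat_lit 94) (nat_lit 0) (nat_lit 127) (nat_lit 118) (nat_lit 115)) (PT.lf (nat_lit 6536) (nat_lit 6) (nat_lit 86) (nat_lit 0) (nat_lit 128) (nat_lit 118) (nat_lit 114)))))) (PT.nd (nat_lit 36504) (PT.nd (nat_lit 36270) (PT.nd (nat_lit 36192) (PT.lf (nat_lit 5852) (nat_lit 6) (nat_lit 77) (nat_lit 0) (nat_lit 129) (nat_lit 118) (nat_lit 113)) (PT.lf (nat_lit 5928) (nat_lit 6) (nat_lit 78) (nat_lit 5) (nat_lit 112) (nat_lit 119) (nat_lit 129))) (PT.nd (nat_lit 78) (PT.lf (nat_lit 6612) (nat_lit 6) (nat_lit 87) (nat_lit 5) (nat_lit 113) (nat_lit 119) (nat_lit 128)) (PT.nd (nat_lit 78) (PT.lf (nat_lit 7220) (nat_lit 6) (nat_lit 95) (nat_lit 5) (nat_lit 114) (nat_lit 119) (nat_lit 127)) (PT.lf (nat_lit 7752) (nat_lit 6) (nat_lit 102) (nat_lit 5) (nat_lit 115) (nat_lit 119) (nat_lit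 126))))) (PT.nd (nat_lit 234) (PT.nd (nat_lit 78) (PT.lf (nat_lit 8208) (nat_lit 6) (nat_lit 108) (nat_lit 5) (nat_lit 116) (nat_lit 119) (nat_lit 125)) (PT.nd (nat_lit 78) (PT.lf (nat_lit 8588) (nat_lit 6) (nat_lit 113) (nat_lit 5) (nat_lit 117) (nat_lit 119) (nat_lit 124)) (PT.lf (nat_lit 8892) (nat_lit 6) (nat_lit 117) (nat_lit 5) (nat_lit 118) (nat_lit 119) (nat_lit 123)))) (PT.nd (nat_lit 78) (PT.lf (nat_lit 9120) (nat_lit 3) (nat_lit 120) (nat_lit 3) (nat_lit 119) (nat_lit 119) (nat_lit 122)) (PT.nd (nat_lit 78) (PT.lf (nat_lit 9348) (nat_lit 6) (nat_lit 123) (nat_lit 3) (nat_lit 120) (nat_lit 119) (nat_lit 121)) (PT.lf (nat_lit 9348) (nat_lit 6) (nat_lit 123) (nat_lit 1) (nat_lit 121) (nat_lit 119) (nat_lit 120))))))))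
noncomputable def pc6 : PT := (PT.nd (nat_lit 37596) (PT.nd (nat_lit 36738) (PT.nd (nat_lit 390) (PT.nd (nat_lit 156) (PT.nd (nat_lit 78) (PT.lf (nat_lit 9120) (nat_lit 3) (nat_lit 120) (nat_lit 0) (nat_lit 122) (nat_lit 119) (nat_lit 119)) (PT.lf (nat_lit 8892) (nat_lit 6) (nat_lit 117) (nat_lit 0) (nat_lit 123) (nat_lit 119) (nat_lit 118))) (PT.nd (nat_lit 78) (PT.lf (nat_lit 8588) (nat_lit 6) (nat_lit 113) (nat_lit 0) (nat_lit 124) (nat_lit 119) (nat_lit 117)) (PT.nd (nat_lit 78) (PT.lf (nat_lit 8208) (nat_lit 6) (nat_lit 108) (nat_lit 0) (nat_lit 125) (nat_lit 119) (nat_lit 116)) (PT.lf (nat_lit 7752) (nat_lit 6) (nat_lit 102) (nat_lit 0) (nat_lit 126) (nat_lit 119) (nat_lit 115))))) (PT.nd (nat_lit 156) (PT.nd (nat_lit 78) (PT.lf (nat_lit 7220) (nat_lit 6) (nat_lit 95) (nat_lit 0) (nat_lit 127) (nat_lit 119) (nat_lit 114)) (PT.lf (nat_lit 6612) (nat_lit 6) (nat_lit 87) (nat_lit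 0) (nat_lit 128) (nat_lit 119) (nat_lit 113))) (PT.nd (nat_lit 36036) (PT.lf (nat_lit 5928) (nat_lit 6) (nat_lit 78) (nat_lit 0) (nat_lit 129) (nat_lit 119) (nat_lit 112)) (PT.nd (nat_lit 78) (PT.lf (nat_lit 5244) (nat_lit 6) (nat_lit 69) (nat_lit 5) (nat_lit 110) (nat_lit 120) (nat_lit 130)) (PT.lf (nat_lit 6004) (nat_lit 6) (nat_lit 79) (nat_lit 5) (nat_lit 111) (nat_lit 120) (nat_lit 129)))))) (PT.nd (nat_lit 390) (PT.nd (nat_lit 156) (PT.nd (nat_lit 78) (PT.lf (nat_lit 6688) (nat_lit 6) (nat_lit 88) (nat_lit 5) (nat_lit 112) (nat_lit 120) (nat_lit 128)) (PT.lf (nat_lit 7296) (nat_lit 6) (nat_lit 96) (nat_lit 5) (nat_lit 113) (nat_lit 120) (nat_lit 127))) (PT.nd (nat_lit 78) (PT.lf (nat_lit 7828) (nat_lit 6) (nat_lit 103) (nat_lit 5) (nat_lit 114) (nat_lit 120) (nat_lit 126)) (PT.nd (nat_lit 78) (PT.lf (nat_lit 8284) (nat_lit 6) (nat_lit 109) (nat_lit 5) (nat_lit 115) (nat_lit 120)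 (nat_lit 125)) (PT.lf (nat_lit 8664) (nat_lit 6) (nat_lit 114) (nat_lit 5) (nat_lit 116) (nat_lit 120) (nat_lit 124))))) (PT.nd (nat_lit 234) (PT.nd (nat_lit 78) (PT.lf (nat_lit 8968) (nat_lit 6) (nat_lit 118) (nat_lit 5) (nat_lit 117) (nat_lit 120) (nat_lit 123)) (PT.nd (nat_lit 78) (PT.lf (nat_lit 9196) (nat_lit 6) (nat_lit 121) (nat_lit 5) (nat_lit 118) (nat_lit 120) (nat_lit 122)) (PT.lf (nat_lit 9348) (nat_lit 6) (nat_lit 123) (nat_lit 5) (nat_lit 119) (nat_lit 120) (nat_lit 121)))) (PT.nd (nat_lit 78) (PT.lf (nat_lit 9424) (nat_lit 1) (nat_lit 124) (nat_lit 0) (nat_lit 120) (nat_lit 120) (nat_lit 120)) (PT.nd (nat_lit 78) (PT.lf (nat_lit 9348) (nat_lit 6) (nat_lit 123) (nat_lit 0) (nat_lit 121) (nat_lit 120) (nat_lit 119)) (PT.lf (nat_lit 9196) (nat_lit 6) (nat_lit 121) (nat_lit 0) (nat_lit 122) (nat_lit 120) (nat_lit 118))))))) (PT.nd (nat_lit 36582) (PT.nd (nat_lit 390) (PT.nd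 (nat_lit 156) (PT.nd (nat_lit 78) (PT.lf (nat_lit 8968) (nat_lit 6) (nat_lit 118) (nat_lit 0) (nat_lit 123) (nat_lit 120) (nat_lit 117)) (PT.lf (nat_lit 8664) (nat_lit 6) (nat_lit 114) (nat_lit 0) (nat_lit 124) (nat_lit 120) (nat_lit 116))) (PT.nd (nat_lit 78) (PT.lf (nat_lit 8284) (nat_lit 6) (nat_lit 109) (nat_lit 0) (nat_lit 125) (nat_lit 120) (nat_lit 115)) (PT.nd (nat_lit 78) (PT.lf (nat_lit 7828) (nat_lit 6) (nat_lit 103) (nat_lit 0) (nat_lit 126) (nat_lit 120) (nat_lit 114)) (PT.lf (nat_lit 7296) (nat_lit 6) (nat_lit 96) (nat_lit 0) (nat_lit 127) (nat_lit 120) (nat_lit 113))))) (PT.nd (nat_lit 156) (PT.nd (nat_lit 78) (PT.lf (nat_lit 6688) (nat_lit 6) (nat_lit 88) (nat_lit 0) (nat_lit 128) (nat_lit 120) (nat_lit 112)) (PT.lf (nat_lit 6004) (nat_lit 6) (nat_lit 79) (nat_lit 0) (nat_lit 129) (nat_lit 120) (nat_lit 111))) (PT.nd (nat_lit 35880) (PT.lf (nat_lit 5244) (nat_lit 6)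 (nat_lit 69) (nat_lit 0) (nat_lit 130) (nat_lit 120) (nat_lit 110)) (PT.nd (nat_lit 78) (PT.lf (nat_lit 4864) (nat_lit 6) (nat_lit 64) (nat_lit 5) (nat_lit 109) (nat_lit 121) (nat_lit 130)) (PT.lf (nat_lit 5320) (nat_lit 6) (nat_lit 70) (nat_lit 5) (nat_lit 110) (nat_lit 121) (nat_lit 129)))))) (PT.nd (nat_lit 390) (PT.nd (nat_lit 156) (PT.nd (nat_lit 78) (PT.lf (nat_lit 6080) (nat_lit 6) (nat_lit 80) (nat_lit 5) (nat_lit 111) (nat_lit 121) (nat_lit 128)) (PT.lf (nat_lit 6764) (nat_lit 6) (nat_lit 89) (nat_lit 5) (nat_lit 112) (nat_lit 121) (nat_lit 127))) (PT.nd (nat_lit 78) (PT.lf (nat_lit 7372) (nat_lit 6) (nat_lit 97) (nat_lit 5) (nat_lit 113) (nat_lit 121) (nat_lit 126)) (PT.nd (nat_lit 78) (PT.lf (nat_lit 7904) (nat_lit 6) (nat_lit 104) (nat_lit 5) (nat_lit 114) (nat_lit 121) (nat_lit 125)) (PT.lf (nat_lit 8360) (nat_lit 6) (nat_lit 110) (nat_lit 5) (nat_lit 115) (nat_lit 121)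 (nat_lit 124))))) (PT.nd (nat_lit 234) (PT.nd (nat_lit 78) (PT.lf (nat_lit 8740) (nat_lit 6) (nat_lit 115) (nat_lit 5) (nat_lit 116) (nat_lit 121) (nat_lit 123)) (PT.nd (nat_lit 78) (PT.lf (nat_lit 9044) (nat_lit 6) (nat_lit 119) (nat_lit 5) (nat_lit 117) (nat_lit 121) (nat_lit 122)) (PT.lf (nat_lit 9272) (nat_lit 3) (nat_lit 122) (nat_lit 4) (nat_lit 118) (nat_lit 121) (nat_lit 121)))) (PT.nd (nat_lit 78) (PT.lf (nat_lit 9348) (nat_lit 6) (nat_lit 123) (nat_lit 4) (nat_lit 119) (nat_lit 121) (nat_lit 120)) (PT.nd (nat_lit 78) (PT.lf (nat_lit 9348) (nat_lit 6) (nat_lit 123) (nat_lit 2) (nat_lit 120) (nat_lit 121) (nat_lit 119)) (PT.lf (nat_lit 9272) (nat_lit 3) (nat_lit 122) (nat_lit 0) (nat_lit 121) (nat_lit 121) (nat_lit 118))))))))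
noncomputable def pc7 : PT := (PT.nd (nat_lit 37362) (PT.nd (nat_lit 36504) (PT.nd (nat_lit 390) (PT.nd (nat_lit 156) (PT.nd (nat_lit 78) (PT.lf (nat_lit 9044) (nat_lit 6) (nat_lit 119) (nat_lit 0) (nat_lit 122) (nat_lit 121) (nat_lit 117)) (PT.lf (nat_lit 8740) (nat_lit 6) (nat_lit 115) (nat_lit 0) (nat_lit 123) (nat_lit 121) (nat_lit 116))) (PT.nd (nat_lit 78) (PT.lf (nat_lit 8360) (nat_lit 6) (nat_lit 110) (nat_lit 0) (nat_lit 124) (nat_lit 121) (nat_lit 115)) (PT.nd (nat_lit 78) (PT.lf (nat_lit 7904) (nat_lit 6) (nat_lit 104) (nat_lit 0) (nat_lit 125) (nat_lit 121) (nat_lit 114)) (PT.lf (nat_lit 7372) (nat_lit 6) (nat_lit 97) (nat_lit 0) (nat_lit 126) (nat_lit 121) (nat_lit 113))))) (PT.nd (nat_lit 156) (PT.nd (nat_lit 78) (PT.lf (nat_lit 6764) (nat_lit 6) (nat_lit 89) (nat_lit 0) (nat_lit 127) (nat_lit 121) (nat_lit 112)) (PT.lf (nat_lit 6080) (nat_lit 6) (nat_lit 80) (nat_lit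 0) (nat_lit 128) (nat_lit 121) (nat_lit 111))) (PT.nd (nat_lit 78) (PT.lf (nat_lit 5320) (nat_lit 6) (nat_lit 70) (nat_lit 0) (nat_lit 129) (nat_lit 121) (nat_lit 110)) (PT.nd (nat_lit 35802) (PT.lf (nat_lit 4864) (nat_lit 6) (nat_lit 64) (nat_lit 0) (nat_lit 130) (nat_lit 121) (nat_lit 109)) (PT.lf (nat_lit 4484) (nat_lit 6) (nat_lit 59) (nat_lit 5) (nat_lit 108) (nat_lit 122) (nat_lit 130)))))) (PT.nd (nat_lit 390) (PT.nd (nat_lit 156) (PT.nd (nat_lit 78) (PT.lf (nat_lit 4940) (nat_lit 6) (nat_lit 65) (nat_lit 5) (nat_lit 109) (nat_lit 122) (nat_lit 129)) (PT.lf (nat_lit 5396) (nat_lit 6) (nat_lit 71) (nat_lit 5) (nat_lit 110) (nat_lit 122) (nat_lit 128))) (PT.nd (nat_lit 78) (PT.lf (nat_lit 6156) (nat_lit 6) (nat_lit 81) (nat_lit 5) (nat_lit 111) (nat_lit 122) (nat_lit 127)) (PT.nd (nat_lit 78) (PT.lf (nat_lit 6840) (nat_lit 6) (nat_lit 90) (nat_lit 5) (nat_lit 112) (nat_lit 122)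 (nat_lit 126)) (PT.lf (nat_lit 7448) (nat_lit 6) (nat_lit 98) (nat_lit 5) (nat_lit 113) (nat_lit 122) (nat_lit 125))))) (PT.nd (nat_lit 234) (PT.nd (nat_lit 78) (PT.lf (nat_lit 7980) (nat_lit 6) (nat_lit 105) (nat_lit 5) (nat_lit 114) (nat_lit 122) (nat_lit 124)) (PT.nd (nat_lit 78) (PT.lf (nat_lit 8436) (nat_lit 6) (nat_lit 111) (nat_lit 5) (nat_lit 115) (nat_lit 122) (nat_lit 123)) (PT.lf (nat_lit 8816) (nat_lit 3) (nat_lit 116) (nat_lit 4) (nat_lit 116) (nat_lit 122) (nat_lit 122)))) (PT.nd (nat_lit 78) (PT.lf (nat_lit 9044) (nat_lit 6) (nat_lit 119) (nat_lit 4) (nat_lit 117) (nat_lit 122) (nat_lit 121)) (PT.nd (nat_lit 78) (PT.lf (nat_lit 9196) (nat_lit 6) (nat_lit 121) (nat_lit 4) (nat_lit 118) (nat_lit 122) (nat_lit 120)) (PT.lf (nat_lit 9120) (nat_lit 3) (nat_lit 120) (nat_lit 2) (nat_lit 119) (nat_lit 122) (nat_lit 119))))))) (PT.nd (nat_lit 780) (PT.nd (nat_lit 390) (PT.nd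 (nat_lit 156) (PT.nd (nat_lit 78) (PT.lf (nat_lit 9196) (nat_lit 6) (nat_lit 121) (nat_lit 2) (nat_lit 120) (nat_lit 122) (nat_lit 118)) (PT.lf (nat_lit 9044) (nat_lit 6) (nat_lit 119) (nat_lit 2) (nat_lit 121) (nat_lit 122) (nat_lit 117))) (PT.nd (nat_lit 78) (PT.lf (nat_lit 8816) (nat_lit 3) (nat_lit 116) (nat_lit 0) (nat_lit 122) (nat_lit 122) (nat_lit 116)) (PT.nd (nat_lit 78) (PT.lf (nat_lit 8436) (nat_lit 6) (nat_lit 111) (nat_lit 0) (nat_lit 123) (nat_lit 122) (nat_lit 115)) (PT.lf (nat_lit 7980) (nat_lit 6) (nat_lit 105) (nat_lit 0) (nat_lit 124) (nat_lit 122) (nat_lit 114))))) (PT.nd (nat_lit 156) (PT.nd (nat_lit 78) (PT.lf (nat_lit 7448) (nat_lit 6) (nat_lit 98) (nat_lit 0) (nat_lit 125) (nat_lit 122) (nat_lit 113)) (PT.lf (nat_lit 6840) (nat_lit 6) (nat_lit 90) (nat_lit 0) (nat_lit 126) (nat_lit 122) (nat_lit 112))) (PT.nd (nat_lit 78) (PT.lf (nat_lit 6156) (nat_lit 6) (nat_lit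 81) (nat_lit 0) (nat_lit 127) (nat_lit 122) (nat_lit 111)) (PT.nd (nat_lit 78) (PT.lf (nat_lit 5396) (nat_lit 6) (nat_lit 71) (nat_lit 0) (nat_lit 128) (nat_lit 122) (nat_lit 110)) (PT.lf (nat_lit 4940) (nat_lit 6) (nat_lit 65) (nat_lit 0) (nat_lit 129) (nat_lit 122) (nat_lit 109)))))) (PT.nd (nat_lit 36036) (PT.nd (nat_lit 35802) (PT.nd (nat_lit 35724) (PT.lf (nat_lit 4484) (nat_lit 6) (nat_lit 59) (nat_lit 0) (nat_lit 130) (nat_lit 122) (nat_lit 108)) (PT.lf (nat_lit 4180) (nat_lit 6) (nat_lit 55) (nat_lit 5) (nat_lit 107) (nat_lit 123) (nat_lit 130))) (PT.nd (nat_lit 78) (PT.lf (nat_lit 4560) (nat_lit 6) (nat_lit 60) (nat_lit 5) (nat_lit 108) (nat_lit 123) (nat_lit 129)) (PT.nd (nat_lit 78) (PT.lf (nat_lit 5016) (nat_lit 6) (nat_lit 66) (nat_lit 5) (nat_lit 109) (nat_lit 123) (nat_lit 128)) (PT.lf (nat_lit 5472) (nat_lit 6) (nat_lit 72) (nat_lit 5) (nat_lit 110) (nat_lit 123) (nat_lit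 127))))) (PT.nd (nat_lit 234) (PT.nd (nat_lit 78) (PT.lf (nat_lit 6232) (nat_lit 6) (nat_lit 82) (nat_lit 5) (nat_lit 111) (nat_lit 123) (nat_lit 126)) (PT.nd (nat_lit 78) (PT.lf (nat_lit 6916) (nat_lit 6) (nat_lit 91) (nat_lit 5) (nat_lit 112) (nat_lit 123) (nat_lit 125)) (PT.lf (nat_lit 7524) (nat_lit 6) (nat_lit 99) (nat_lit 5) (nat_lit 113) (nat_lit 123) (nat_lit 124)))) (PT.nd (nat_lit 78) (PT.lf (nat_lit 8056) (nat_lit 3) (nat_lit 106) (nat_lit 4) (nat_lit 114) (nat_lit 123) (nat_lit 123)) (PT.nd (nat_lit 78) (PT.lf (nat_lit 8436) (nat_lit 6) (nat_lit 111) (nat_lit 4) (nat_lit 115) (nat_lit 123) (nat_lit 122)) (PT.lf (nat_lit 8740) (nat_lit 6) (nat_lit 115) (nat_lit 4) (nat_lit 116) (nat_lit 123) (nat_lit 121))))))))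
noncomputable def pc8 : PT := (PT.nd (nat_lit 37128) (PT.nd (nat_lit 780) (PT.nd (nat_lit 390) (PT.nd (nat_lit 156) (PT.nd (nat_lit 78) (PT.lf (nat_lit 8968) (nat_lit 6) (nat_lit 118) (nat_lit 4) (nat_lit 117) (nat_lit 123) (nat_lit 120)) (PT.lf (nat_lit 8892) (nat_lit 6) (nat_lit 117) (nat_lit 4) (nat_lit 118) (nat_lit 123) (nat_lit 119))) (PT.nd (nat_lit 78) (PT.lf (nat_lit 8892) (nat_lit 6) (nat_lit 117) (nat_lit 2) (nat_lit 119) (nat_lit 123) (nat_lit 118)) (PT.nd (nat_lit 78) (PT.lf (nat_lit 8968) (nat_lit 6) (nat_lit 118) (nat_lit 2) (nat_lit 120) (nat_lit 123) (nat_lit 117)) (PT.lf (nat_lit 8740) (nat_lit 6) (nat_lit 115) (nat_lit 2) (nat_lit 121) (nat_lit 123) (nat_lit 116))))) (PT.nd (nat_lit 156) (PT.nd (nat_lit 78) (PT.lf (nat_lit 8436) (nat_lit 6) (nat_lit 111) (nat_lit 2) (nat_lit 122) (nat_lit 123) (nat_lit 115)) (PT.lf (nat_lit 8056) (nat_lit 3) (nat_lit 106) (nat_lit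 0) (nat_lit 123) (nat_lit 123) (nat_lit 114))) (PT.nd (nat_lit 78) (PT.lf (nat_lit 7524) (nat_lit 6) (nat_lit 99) (nat_lit 0) (nat_lit 124) (nat_lit 123) (nat_lit 113)) (PT.nd (nat_lit 78) (PT.lf (nat_lit 6916) (nat_lit 6) (nat_lit 91) (nat_lit 0) (nat_lit 125) (nat_lit 123) (nat_lit 112)) (PT.lf (nat_lit 6232) (nat_lit 6) (nat_lit 82) (nat_lit 0) (nat_lit 126) (nat_lit 123) (nat_lit 111)))))) (PT.nd (nat_lit 35880) (PT.nd (nat_lit 156) (PT.nd (nat_lit 78) (PT.lf (nat_lit 5472) (nat_lit 6) (nat_lit 72) (nat_lit 0) (nat_lit 127) (nat_lit 123) (nat_lit 110)) (PT.lf (nat_lit 5016) (nat_lit 6) (nat_lit 66) (nat_lit 0) (nat_lit 128) (nat_lit 123) (nat_lit 109))) (PT.nd (nat_lit 78) (PT.lf (nat_lit 4560) (nat_lit 6) (nat_lit 60) (nat_lit 0) (nat_lit 129) (nat_lit 123) (nat_lit 108)) (PT.nd (nat_lit 35568) (PT.lf (nat_lit 4180) (nat_lit 6) (nat_lit 55) (nat_lit 0) (nat_lit 130) (nat_lit 123)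 (nat_lit 107)) (PT.lf (nat_lit 3572) (nat_lit 6) (nat_lit 47) (nat_lit 5) (nat_lit 105) (nat_lit 124) (nat_lit 131))))) (PT.nd (nat_lit 234) (PT.nd (nat_lit 78) (PT.lf (nat_lit 3876) (nat_lit 6) (nat_lit 51) (nat_lit 5) (nat_lit 106) (nat_lit 124) (nat_lit 130)) (PT.nd (nat_lit 78) (PT.lf (nat_lit 4256) (nat_lit 6) (nat_lit 56) (nat_lit 5) (nat_lit 107) (nat_lit 124) (nat_lit 129)) (PT.lf (nat_lit 4636) (nat_lit 6) (nat_lit 61) (nat_lit 5) (nat_lit 108) (nat_lit 124) (nat_lit 128)))) (PT.nd (nat_lit 78) (PT.lf (nat_lit 5092) (nat_lit 6) (nat_lit 67) (nat_lit 5) (nat_lit 109) (nat_lit 124) (nat_lit 127)) (PT.nd (nat_lit 78) (PT.lf (nat_lit 5548) (nat_lit 6) (nat_lit 73) (nat_lit 5) (nat_lit 110) (nat_lit 124) (nat_lit 126)) (PT.lf (nat_lit 6308) (nat_lit 6) (nat_lit 83) (nat_lit 5) (nat_lit 111) (nat_lit 124) (nat_lit 125))))))) (PT.nd (nat_lit 780) (PT.nd (nat_lit 390) (PT.nd (nat_lit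 156) (PT.nd (nat_lit 78) (PT.lf (nat_lit 6992) (nat_lit 3) (nat_lit 92) (nat_lit 4) (nat_lit 112) (nat_lit 124) (nat_lit 124)) (PT.lf (nat_lit 7524) (nat_lit 6) (nat_lit 99) (nat_lit 4) (nat_lit 113) (nat_lit 124) (nat_lit 123))) (PT.nd (nat_lit 78) (PT.lf (nat_lit 7980) (nat_lit 6) (nat_lit 105) (nat_lit 4) (nat_lit 114) (nat_lit 124) (nat_lit 122)) (PT.nd (nat_lit 78) (PT.lf (nat_lit 8360) (nat_lit 6) (nat_lit 110) (nat_lit 4) (nat_lit 115) (nat_lit 124) (nat_lit 121)) (PT.lf (nat_lit 8664) (nat_lit 6) (nat_lit 114) (nat_lit 4) (nat_lit 116) (nat_lit 124) (nat_lit 120))))) (PT.nd (nat_lit 156) (PT.nd (nat_lit 78) (PT.lf (nat_lit 8588) (nat_lit 6) (nat_lit 113) (nat_lit 4) (nat_lit 117) (nat_lit 124) (nat_lit 119)) (PT.lf (nat_lit 8512) (nat_lit 3) (nat_lit 112) (nat_lit 2) (nat_lit 118) (nat_lit 124) (nat_lit 118))) (PT.nd (nat_lit 78) (PT.lf (nat_lit 8588) (nat_lit 6) (nat_lit 113)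 (nat_lit 2) (nat_lit 119) (nat_lit 124) (nat_lit 117)) (PT.nd (nat_lit 78) (PT.lf (nat_lit 8664) (nat_lit 6) (nat_lit 114) (nat_lit 2) (nat_lit 120) (nat_lit 124) (nat_lit 116)) (PT.lf (nat_lit 8360) (nat_lit 6) (nat_lit 110) (nat_lit 2) (nat_lit 121) (nat_lit 124) (nat_lit 115)))))) (PT.nd (nat_lit 390) (PT.nd (nat_lit 156) (PT.nd (nat_lit 78) (PT.lf (nat_lit 7980) (nat_lit 6) (nat_lit 105) (nat_lit 2) (nat_lit 122) (nat_lit 124) (nat_lit 114)) (PT.lf (nat_lit 7524) (nat_lit 6) (nat_lit 99) (nat_lit 2) (nat_lit 123) (nat_lit 124) (nat_lit 113))) (PT.nd (nat_lit 78) (PT.lf (nat_lit 6992) (nat_lit 3) (nat_lit 92) (nat_lit 0) (nat_lit 124) (nat_lit 124) (nat_lit 112)) (PT.nd (nat_lit 78) (PT.lf (nat_lit 6308) (nat_lit 6) (nat_lit 83) (nat_lit 0) (nat_lit 125) (nat_lit 124) (nat_lit 111)) (PT.lf (nat_lit 5548) (nat_lit 6) (nat_lit 73) (nat_lit 0) (nat_lit 126) (nat_lit 124) (nat_lit 110)))))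 (PT.nd (nat_lit 234) (PT.nd (nat_lit 78) (PT.lf (nat_lit 5092) (nat_lit 6) (nat_lit 67) (nat_lit 0) (nat_lit 127) (nat_lit 124) (nat_lit 109)) (PT.nd (nat_lit 78) (PT.lf (nat_lit 4636) (nat_lit 6) (nat_lit 61) (nat_lit 0) (nat_lit 128) (nat_lit 124) (nat_lit 108)) (PT.lf (nat_lit 4256) (nat_lit 6) (nat_lit 56) (nat_lit 0) (nat_lit 129) (nat_lit 124) (nat_lit 107)))) (PT.nd (nat_lit 78) (PT.lf (nat_lit 3876) (nat_lit 6) (nat_lit 51) (nat_lit 0) (nat_lit 130) (nat_lit 124) (nat_lit 106)) (PT.nd (nat_lit 35412) (PT.lf (nat_lit 3572) (nat_lit 6) (nat_lit 47) (nat_lit 0) (nat_lit 131) (nat_lit 124) (nat_lit 105)) (PT.lf (nat_lit 3268) (nat_lit 6) (nat_lit 43) (nat_lit 5) (nat_lit 104) (nat_lit 125) (nat_lit 131))))))))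
noncomputable def pc9 : PT := (PT.nd (nat_lit 1638) (PT.nd (nat_lit 780) (PT.nd (nat_lit 390) (PT.nd (nat_lit 156) (PT.nd (nat_lit 78) (PT.lf (nat_lit 3648) (nat_lit 6) (nat_lit 48) (nat_lit 5) (nat_lit 105) (nat_lit 125) (nat_lit 130)) (PT.lf (nat_lit 3952) (nat_lit 6) (nat_lit 52) (nat_lit 5) (nat_lit 106) (nat_lit 125) (nat_lit 129))) (PT.nd (nat_lit 78) (PT.lf (nat_lit 4332) (nat_lit 6) (nat_lit 57) (nat_lit 5) (nat_lit 107) (nat_lit 125) (nat_lit 128)) (PT.nd (nat_lit 78) (PT.lf (nat_lit 4712) (nat_lit 6) (nat_lit 62) (nat_lit 5) (nat_lit 108) (nat_lit 125) (nat_lit 127)) (PT.lf (nat_lit 5168) (nat_lit 6) (nat_lit 68) (nat_lit 5) (nat_lit 109) (nat_lit 125) (nat_lit 126))))) (PT.nd (nat_lit 156) (PT.nd (nat_lit 78) (PT.lf (nat_lit 5624) (nat_lit 3) (nat_lit 74) (nat_lit 4) (nat_lit 110) (nat_lit 125) (nat_lit 125)) (PT.lf (nat_lit 6308) (nat_lit 6) (nat_lit 83) (nat_lit 4) (nat_lit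 111) (nat_lit 125) (nat_lit 124))) (PT.nd (nat_lit 78) (PT.lf (nat_lit 6916) (nat_lit 6) (nat_lit 91) (nat_lit 4) (nat_lit 112) (nat_lit 125) (nat_lit 123)) (PT.nd (nat_lit 78) (PT.lf (nat_lit 7448) (nat_lit 6) (nat_lit 98) (nat_lit 4) (nat_lit 113) (nat_lit 125) (nat_lit 122)) (PT.lf (nat_lit 7904) (nat_lit 6) (nat_lit 104) (nat_lit 4) (nat_lit 114) (nat_lit 125) (nat_lit 121)))))) (PT.nd (nat_lit 390) (PT.nd (nat_lit 156) (PT.nd (nat_lit 78) (PT.lf (nat_lit 8284) (nat_lit 6) (nat_lit 109) (nat_lit 4) (nat_lit 115) (nat_lit 125) (nat_lit 120)) (PT.lf (nat_lit 8208) (nat_lit 6) (nat_lit 108) (nat_lit 4) (nat_lit 116) (nat_lit 125) (nat_lit 119))) (PT.nd (nat_lit 78) (PT.lf (nat_lit 8132) (nat_lit 6) (nat_lit 107) (nat_lit 4) (nat_lit 117) (nat_lit 125) (nat_lit 118)) (PT.nd (nat_lit 78) (PT.lf (nat_lit 8132) (nat_lit 6) (nat_lit 107) (nat_lit 2) (nat_lit 118) (nat_lit 125) (nat_lit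 117)) (PT.lf (nat_lit 8208) (nat_lit 6) (nat_lit 108) (nat_lit 2) (nat_lit 119) (nat_lit 125) (nat_lit 116))))) (PT.nd (nat_lit 234) (PT.nd (nat_lit 78) (PT.lf (nat_lit 8284) (nat_lit 6) (nat_lit 109) (nat_lit 2) (nat_lit 120) (nat_lit 125) (nat_lit 115)) (PT.nd (nat_lit 78) (PT.lf (nat_lit 7904) (nat_lit 6) (nat_lit 104) (nat_lit 2) (nat_lit 121) (nat_lit 125) (nat_lit 114)) (PT.lf (nat_lit 7448) (nat_lit 6) (nat_lit 98) (nat_lit 2) (nat_lit 122) (nat_lit 125) (nat_lit 113)))) (PT.nd (nat_lit 78) (PT.lf (nat_lit 6916) (nat_lit 6) (nat_lit 91) (nat_lit 2) (nat_lit 123) (nat_lit 125) (nat_lit 112)) (PT.nd (nat_lit 78) (PT.lf (nat_lit 6308) (nat_lit 6) (nat_lit 83) (nat_lit 2) (nat_lit 124) (nat_lit 125) (nat_lit 111)) (PT.lf (nat_lit 5624) (nat_lit 3) (nat_lit 74) (nat_lit 0) (nat_lit 125) (nat_lit 125) (nat_lit 110))))))) (PT.nd (nat_lit 36036) (PT.nd (nat_lit 390) (PT.nd (nat_lit 156)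 (PT.nd (nat_lit 78) (PT.lf (nat_lit 5168) (nat_lit 6) (nat_lit 68) (nat_lit 0) (nat_lit 126) (nat_lit 125) (nat_lit 109)) (PT.lf (nat_lit 4712) (nat_lit 6) (nat_lit 62) (nat_lit 0) (nat_lit 127) (nat_lit 125) (nat_lit 108))) (PT.nd (nat_lit 78) (PT.lf (nat_lit 4332) (nat_lit 6) (nat_lit 57) (nat_lit 0) (nat_lit 128) (nat_lit 125) (nat_lit 107)) (PT.nd (nat_lit 78) (PT.lf (nat_lit 3952) (nat_lit 6) (nat_lit 52) (nat_lit 0) (nat_lit 129) (nat_lit 125) (nat_lit 106)) (PT.lf (nat_lit 3648) (nat_lit 6) (nat_lit 48) (nat_lit 0) (nat_lit 130) (nat_lit 125) (nat_lit 105))))) (PT.nd (nat_lit 35412) (PT.nd (nat_lit 35334) (PT.lf (nat_lit 3268) (nat_lit 6) (nat_lit 43) (nat_lit 0) (nat_lit 131) (nat_lit 125) (nat_lit 104)) (PT.lf (nat_lit 3040) (nat_lit 6) (nat_lit 40) (nat_lit 5) (nat_lit 103) (nat_lit 126) (nat_lit 131))) (PT.nd (nat_lit 78) (PT.lf (nat_lit 3344) (nat_lit 6) (nat_lit 44) (nat_lit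 5) (nat_lit 104) (nat_lit 126) (nat_lit 130)) (PT.nd (nat_lit 78) (PT.lf (nat_lit 3724) (nat_lit 6) (nat_lit 49) (nat_lit 5) (nat_lit 105) (nat_lit 126) (nat_lit 129)) (PT.lf (nat_lit 4028) (nat_lit 6) (nat_lit 53) (nat_lit 5) (nat_lit 106) (nat_lit 126) (nat_lit 128)))))) (PT.nd (nat_lit 390) (PT.nd (nat_lit 156) (PT.nd (nat_lit 78) (PT.lf (nat_lit 4408) (nat_lit 6) (nat_lit 58) (nat_lit 5) (nat_lit 107) (nat_lit 126) (nat_lit 127)) (PT.lf (nat_lit 4788) (nat_lit 3) (nat_lit 63) (nat_lit 4) (nat_lit 108) (nat_lit 126) (nat_lit 126))) (PT.nd (nat_lit 78) (PT.lf (nat_lit 5168) (nat_lit 6) (nat_lit 68) (nat_lit 4) (nat_lit 109) (nat_lit 126) (nat_lit 125)) (PT.nd (nat_lit 78) (PT.lf (nat_lit 5548) (nat_lit 6) (nat_lit 73) (nat_lit 4) (nat_lit 110) (nat_lit 126) (nat_lit 124)) (PT.lf (nat_lit 6232) (nat_lit 6) (nat_lit 82) (nat_lit 4) (nat_lit 111) (nat_lit 126) (nat_lit 123))))) (PT.nd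 (nat_lit 234) (PT.nd (nat_lit 78) (PT.lf (nat_lit 6840) (nat_lit 6) (nat_lit 90) (nat_lit 4) (nat_lit 112) (nat_lit 126) (nat_lit 122)) (PT.nd (nat_lit 78) (PT.lf (nat_lit 7372) (nat_lit 6) (nat_lit 97) (nat_lit 4) (nat_lit 113) (nat_lit 126) (nat_lit 121)) (PT.lf (nat_lit 7828) (nat_lit 6) (nat_lit 103) (nat_lit 4) (nat_lit 114) (nat_lit 126) (nat_lit 120)))) (PT.nd (nat_lit 78) (PT.lf (nat_lit 7752) (nat_lit 6) (nat_lit 102) (nat_lit 4) (nat_lit 115) (nat_lit 126) (nat_lit 119)) (PT.nd (nat_lit 78) (PT.lf (nat_lit 7676) (nat_lit 6) (nat_lit 101) (nat_lit 4) (nat_lit 116) (nat_lit 126) (nat_lit 118)) (PT.lf (nat_lit 7600) (nat_lit 3) (nat_lit 100) (nat_lit 2) (nat_lit 117) (nat_lit 126) (nat_lit 117))))))))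
noncomputable def pc10 : PT := (PT.nd (nat_lit 36738) (PT.nd (nat_lit 780) (PT.nd (nat_lit 390) (PT.nd (nat_lit 156) (PT.nd (nat_lit 78) (PT.lf (nat_lit 7676) (nat_lit 6) (nat_lit 101) (nat_lit 2) (nat_lit 118) (nat_lit 126) (nat_lit 116)) (PT.lf (nat_lit 7752) (nat_lit 6) (nat_lit 102) (nat_lit 2) (nat_lit 119) (nat_lit 126) (nat_lit 115))) (PT.nd (nat_lit 78) (PT.lf (nat_lit 7828) (nat_lit 6) (nat_lit 103) (nat_lit 2) (nat_lit 120) (nat_lit 126) (nat_lit 114)) (PT.nd (nat_lit 78) (PT.lf (nat_lit 7372) (nat_lit 6) (nat_lit 97) (nat_lit 2) (nat_lit 121) (nat_lit 126) (nat_lit 113)) (PT.lf (nat_lit 6840) (nat_lit 6) (nat_lit 90) (nat_lit 2) (nat_lit 122) (nat_lit 126) (nat_lit 112))))) (PT.nd (nat_lit 156) (PT.nd (nat_lit 78) (PT.lf (nat_lit 6232) (nat_lit 6) (nat_lit 82) (nat_lit 2) (nat_lit 123) (nat_lit 126) (nat_lit 111)) (PT.lf (nat_lit 5548) (nat_lit 6) (nat_lit 73) (nat_lit 2)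 (nat_lit 124) (nat_lit 126) (nat_lit 110))) (PT.nd (nat_lit 78) (PT.lf (nat_lit 5168) (nat_lit 6) (nat_lit 68) (nat_lit 2) (nat_lit 125) (nat_lit 126) (nat_lit 109)) (PT.nd (nat_lit 78) (PT.lf (nat_lit 4788) (nat_lit 3) (nat_lit 63) (nat_lit 0) (nat_lit 126) (nat_lit 126) (nat_lit 108)) (PT.lf (nat_lit 4408) (nat_lit 6) (nat_lit 58) (nat_lit 0) (nat_lit 127) (nat_lit 126) (nat_lit 107)))))) (PT.nd (nat_lit 35490) (PT.nd (nat_lit 156) (PT.nd (nat_lit 78) (PT.lf (nat_lit 4028) (nat_lit 6) (nat_lit 53) (nat_lit 0) (nat_lit 128) (nat_lit 126) (nat_lit 106)) (PT.lf (nat_lit 3724) (nat_lit 6) (nat_lit 49) (nat_lit 0) (nat_lit 129) (nat_lit 126) (nat_lit 105))) (PT.nd (nat_lit 78) (PT.lf (nat_lit 3344) (nat_lit 6) (nat_lit 44) (nat_lit 0) (nat_lit 130) (nat_lit 126) (nat_lit 104)) (PT.nd (nat_lit 35178) (PT.lf (nat_lit 3040) (nat_lit 6) (nat_lit 40) (nat_lit 0) (nat_lit 131) (nat_lit 126)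 (nat_lit 103)) (PT.lf (nat_lit 2584) (nat_lit 6) (nat_lit 34) (nat_lit 5) (nat_lit 101) (nat_lit 127) (nat_lit 132))))) (PT.nd (nat_lit 234) (PT.nd (nat_lit 78) (PT.lf (nat_lit 2812) (nat_lit 6) (nat_lit 37) (nat_lit 5) (nat_lit 102) (nat_lit 127) (nat_lit 131)) (PT.nd (nat_lit 78) (PT.lf (nat_lit 3116) (nat_lit 6) (nat_lit 41) (nat_lit 5) (nat_lit 103) (nat_lit 127) (nat_lit 130)) (PT.lf (nat_lit 3420) (nat_lit 6) (nat_lit 45) (nat_lit 5) (nat_lit 104) (nat_lit 127) (nat_lit 129)))) (PT.nd (nat_lit 78) (PT.lf (nat_lit 3800) (nat_lit 6) (nat_lit 50) (nat_lit 5) (nat_lit 105) (nat_lit 127) (nat_lit 128)) (PT.nd (nat_lit 78) (PT.lf (nat_lit 4104) (nat_lit 3) (nat_lit 54) (nat_lit 4) (nat_lit 106) (nat_lit 127) (nat_lit 127)) (PT.lf (nat_lit 4408) (nat_lit 6) (nat_lit 58) (nat_lit 4) (nat_lit 107) (nat_lit 127) (nat_lit 126))))))) (PT.nd (nat_lit 780) (PT.nd (nat_lit 390) (PT.nd (nat_lit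 156) (PT.nd (nat_lit 78) (PT.lf (nat_lit 4712) (nat_lit 6) (nat_lit 62) (nat_lit 4) (nat_lit 108) (nat_lit 127) (nat_lit 125)) (PT.lf (nat_lit 5092) (nat_lit 6) (nat_lit 67) (nat_lit 4) (nat_lit 109) (nat_lit 127) (nat_lit 124))) (PT.nd (nat_lit 78) (PT.lf (nat_lit 5472) (nat_lit 6) (nat_lit 72) (nat_lit 4) (nat_lit 110) (nat_lit 127) (nat_lit 123)) (PT.nd (nat_lit 78) (PT.lf (nat_lit 6156) (nat_lit 6) (nat_lit 81) (nat_lit 4) (nat_lit 111) (nat_lit 127) (nat_lit 122)) (PT.lf (nat_lit 6764) (nat_lit 6) (nat_lit 89) (nat_lit 4) (nat_lit 112) (nat_lit 127) (nat_lit 121))))) (PT.nd (nat_lit 156) (PT.nd (nat_lit 78) (PT.lf (nat_lit 7296) (nat_lit 6) (nat_lit 96) (nat_lit 4) (nat_lit 113) (nat_lit 127) (nat_lit 120)) (PT.lf (nat_lit 7220) (nat_lit 6) (nat_lit 95) (nat_lit 4) (nat_lit 114) (nat_lit 127) (nat_lit 119))) (PT.nd (nat_lit 78) (PT.lf (nat_lit 7144) (nat_lit 6) (nat_lit 94) (nat_lit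 4) (nat_lit 115) (nat_lit 127) (nat_lit 118)) (PT.nd (nat_lit 78) (PT.lf (nat_lit 7068) (nat_lit 6) (nat_lit 93) (nat_lit 4) (nat_lit 116) (nat_lit 127) (nat_lit 117)) (PT.lf (nat_lit 7068) (nat_lit 6) (nat_lit 93) (nat_lit 2) (nat_lit 117) (nat_lit 127) (nat_lit 116)))))) (PT.nd (nat_lit 390) (PT.nd (nat_lit 156) (PT.nd (nat_lit 78) (PT.lf (nat_lit 7144) (nat_lit 6) (nat_lit 94) (nat_lit 2) (nat_lit 118) (nat_lit 127) (nat_lit 115)) (PT.lf (nat_lit 7220) (nat_lit 6) (nat_lit 95) (nat_lit 2) (nat_lit 119) (nat_lit 127) (nat_lit 114))) (PT.nd (nat_lit 78) (PT.lf (nat_lit 7296) (nat_lit 6) (nat_lit 96) (nat_lit 2) (nat_lit 120) (nat_lit 127) (nat_lit 113)) (PT.nd (nat_lit 78) (PT.lf (nat_lit 6764) (nat_lit 6) (nat_lit 89) (nat_lit 2) (nat_lit 121) (nat_lit 127) (nat_lit 112)) (PT.lf (nat_lit 6156) (nat_lit 6) (nat_lit 81) (nat_lit 2) (nat_lit 122) (nat_lit 127) (nat_lit 111))))) (PT.nd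 (nat_lit 234) (PT.nd (nat_lit 78) (PT.lf (nat_lit 5472) (nat_lit 6) (nat_lit 72) (nat_lit 2) (nat_lit 123) (nat_lit 127) (nat_lit 110)) (PT.nd (nat_lit 78) (PT.lf (nat_lit 5092) (nat_lit 6) (nat_lit 67) (nat_lit 2) (nat_lit 124) (nat_lit 127) (nat_lit 109)) (PT.lf (nat_lit 4712) (nat_lit 6) (nat_lit 62) (nat_lit 2) (nat_lit 125) (nat_lit 127) (nat_lit 108)))) (PT.nd (nat_lit 78) (PT.lf (nat_lit 4408) (nat_lit 6) (nat_lit 58) (nat_lit 2) (nat_lit 126) (nat_lit 127) (nat_lit 107)) (PT.nd (nat_lit 78) (PT.lf (nat_lit 4104) (nat_lit 3) (nat_lit 54) (nat_lit 0) (nat_lit 127) (nat_lit 127) (nat_lit 106)) (PT.lf (nat_lit 3800) (nat_lit 6) (nat_lit 50) (nat_lit 0) (nat_lit 128) (nat_lit 127) (nat_lit 105))))))))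
noncomputable def pc11 : PT := (PT.nd (nat_lit 36582) (PT.nd (nat_lit 35724) (PT.nd (nat_lit 35334) (PT.nd (nat_lit 156) (PT.nd (nat_lit 78) (PT.lf (nat_lit 3420) (nat_lit 6) (nat_lit 45) (nat_lit 0) (nat_lit 129) (nat_lit 127) (nat_lit 104)) (PT.lf (nat_lit 3116) (nat_lit 6) (nat_lit 41) (nat_lit 0) (nat_lit 130) (nat_lit 127) (nat_lit 103))) (PT.nd (nat_lit 78) (PT.lf (nat_lit 2812) (nat_lit 6) (nat_lit 37) (nat_lit 0) (nat_lit 131) (nat_lit 127) (nat_lit 102)) (PT.nd (nat_lit 35022) (PT.lf (nat_lit 2584) (nat_lit 6) (nat_lit 34) (nat_lit 0) (nat_lit 132) (nat_lit 127) (nat_lit 101)) (PT.lf (nat_lit 2356) (nat_lit 6) (nat_lit 31) (nat_lit 5) (nat_lit 100) (nat_lit 128) (nat_lit 132))))) (PT.nd (nat_lit 156) (PT.nd (nat_lit 78) (PT.lf (nat_lit 2660) (nat_lit 6) (nat_lit 35) (nat_lit 5) (nat_lit 101) (nat_lit 128) (nat_lit 131)) (PT.lf (nat_lit 2888) (nat_lit 6) (nat_lit 38) (nat_lit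 5) (nat_lit 102) (nat_lit 128) (nat_lit 130))) (PT.nd (nat_lit 78) (PT.lf (nat_lit 3192) (nat_lit 6) (nat_lit 42) (nat_lit 5) (nat_lit 103) (nat_lit 128) (nat_lit 129)) (PT.nd (nat_lit 78) (PT.lf (nat_lit 3496) (nat_lit 3) (nat_lit 46) (nat_lit 4) (nat_lit 104) (nat_lit 128) (nat_lit 128)) (PT.lf (nat_lit 3800) (nat_lit 6) (nat_lit 50) (nat_lit 4) (nat_lit 105) (nat_lit 128) (nat_lit 127)))))) (PT.nd (nat_lit 390) (PT.nd (nat_lit 156) (PT.nd (nat_lit 78) (PT.lf (nat_lit 4028) (nat_lit 6) (nat_lit 53) (nat_lit 4) (nat_lit 106) (nat_lit 128) (nat_lit 126)) (PT.lf (nat_lit 4332) (nat_lit 6) (nat_lit 57) (nat_lit 4) (nat_lit 107) (nat_lit 128) (nat_lit 125))) (PT.nd (nat_lit 78) (PT.lf (nat_lit 4636) (nat_lit 6) (nat_lit 61) (nat_lit 4) (nat_lit 108) (nat_lit 128) (nat_lit 124)) (PT.nd (nat_lit 78) (PT.lf (nat_lit 5016) (nat_lit 6) (nat_lit 66) (nat_lit 4) (nat_lit 109) (nat_lit 128) (nat_lit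 123)) (PT.lf (nat_lit 5396) (nat_lit 6) (nat_lit 71) (nat_lit 4) (nat_lit 110) (nat_lit 128) (nat_lit 122))))) (PT.nd (nat_lit 234) (PT.nd (nat_lit 78) (PT.lf (nat_lit 6080) (nat_lit 6) (nat_lit 80) (nat_lit 4) (nat_lit 111) (nat_lit 128) (nat_lit 121)) (PT.nd (nat_lit 78) (PT.lf (nat_lit 6688) (nat_lit 6) (nat_lit 88) (nat_lit 4) (nat_lit 112) (nat_lit 128) (nat_lit 120)) (PT.lf (nat_lit 6612) (nat_lit 6) (nat_lit 87) (nat_lit 4) (nat_lit 113) (nat_lit 128) (nat_lit 119)))) (PT.nd (nat_lit 78) (PT.lf (nat_lit 6536) (nat_lit 6) (nat_lit 86) (nat_lit 4) (nat_lit 114) (nat_lit 128) (nat_lit 118)) (PT.nd (nat_lit 78) (PT.lf (nat_lit 6460) (nat_lit 6) (nat_lit 85) (nat_lit 4) (nat_lit 115) (nat_lit 128) (nat_lit 117)) (PT.lf (nat_lit 6384) (nat_lit 3) (nat_lit 84) (nat_lit 2) (nat_lit 116) (nat_lit 128) (nat_lit 116))))))) (PT.nd (nat_lit 780) (PT.nd (nat_lit 390) (PT.nd (nat_lit 156) (PT.nd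 (nat_lit 78) (PT.lf (nat_lit 6460) (nat_lit 6) (nat_lit 85) (nat_lit 2) (nat_lit 117) (nat_lit 128) (nat_lit 115)) (PT.lf (nat_lit 6536) (nat_lit 6) (nat_lit 86) (nat_lit 2) (nat_lit 118) (nat_lit 128) (nat_lit 114))) (PT.nd (nat_lit 78) (PT.lf (nat_lit 6612) (nat_lit 6) (nat_lit 87) (nat_lit 2) (nat_lit 119) (nat_lit 128) (nat_lit 113)) (PT.nd (nat_lit 78) (PT.lf (nat_lit 6688) (nat_lit 6) (nat_lit 88) (nat_lit 2) (nat_lit 120) (nat_lit 128) (nat_lit 112)) (PT.lf (nat_lit 6080) (nat_lit 6) (nat_lit 80) (nat_lit 2) (nat_lit 121) (nat_lit 128) (nat_lit 111))))) (PT.nd (nat_lit 156) (PT.nd (nat_lit 78) (PT.lf (nat_lit 5396) (nat_lit 6) (nat_lit 71) (nat_lit 2) (nat_lit 122) (nat_lit 128) (nat_lit 110)) (PT.lf (nat_lit 5016) (nat_lit 6) (nat_lit 66) (nat_lit 2) (nat_lit 123) (nat_lit 128) (nat_lit 109))) (PT.nd (nat_lit 78) (PT.lf (nat_lit 4636) (nat_lit 6) (nat_lit 61) (nat_lit 2) (nat_lit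 124) (nat_lit 128) (nat_lit 108)) (PT.nd (nat_lit 78) (PT.lf (nat_lit 4332) (nat_lit 6) (nat_lit 57) (nat_lit 2) (nat_lit 125) (nat_lit 128) (nat_lit 107)) (PT.lf (nat_lit 4028) (nat_lit 6) (nat_lit 53) (nat_lit 2) (nat_lit 126) (nat_lit 128) (nat_lit 106)))))) (PT.nd (nat_lit 390) (PT.nd (nat_lit 156) (PT.nd (nat_lit 78) (PT.lf (nat_lit 3800) (nat_lit 6) (nat_lit 50) (nat_lit 2) (nat_lit 127) (nat_lit 128) (nat_lit 105)) (PT.lf (nat_lit 3496) (nat_lit 3) (nat_lit 46) (nat_lit 0) (nat_lit 128) (nat_lit 128) (nat_lit 104))) (PT.nd (nat_lit 78) (PT.lf (nat_lit 3192) (nat_lit 6) (nat_lit 42) (nat_lit 0) (nat_lit 129) (nat_lit 128) (nat_lit 103)) (PT.nd (nat_lit 78) (PT.lf (nat_lit 2888) (nat_lit 6) (nat_lit 38) (nat_lit 0) (nat_lit 130) (nat_lit 128) (nat_lit 102)) (PT.lf (nat_lit 2660) (nat_lit 6) (nat_lit 35) (nat_lit 0) (nat_lit 131) (nat_lit 128) (nat_lit 101))))) (PT.nd (nat_lit 35022)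 (PT.nd (nat_lit 34866) (PT.lf (nat_lit 2356) (nat_lit 6) (nat_lit 31) (nat_lit 0) (nat_lit 132) (nat_lit 128) (nat_lit 100)) (PT.nd (nat_lit 78) (PT.lf (nat_lit 1976) (nat_lit 6) (nat_lit 26) (nat_lit 5) (nat_lit 98) (nat_lit 129) (nat_lit 133)) (PT.lf (nat_lit 2204) (nat_lit 6) (nat_lit 29) (nat_lit 5) (nat_lit 99) (nat_lit 129) (nat_lit 132)))) (PT.nd (nat_lit 78) (PT.lf (nat_lit 2432) (nat_lit 6) (nat_lit 32) (nat_lit 5) (nat_lit 100) (nat_lit 129) (nat_lit 131)) (PT.nd (nat_lit 78) (PT.lf (nat_lit 2736) (nat_lit 6) (nat_lit 36) (nat_lit 5) (nat_lit 101) (nat_lit 129) (nat_lit 130)) (PT.lf (nat_lit 2964) (nat_lit 3) (nat_lit 39) (nat_lit 4) (nat_lit 102) (nat_lit 129) (nat_lit 129))))))))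
noncomputable def pc12 : PT := (PT.nd (nat_lit 1638) (PT.nd (nat_lit 780) (PT.nd (nat_lit 390) (PT.nd (nat_lit 156) (PT.nd (nat_lit 78) (PT.lf (nat_lit 3192) (nat_lit 6) (nat_lit 42) (nat_lit 4) (nat_lit 103) (nat_lit 129) (nat_lit 128)) (PT.lf (nat_lit 3420) (nat_lit 6) (nat_lit 45) (nat_lit 4) (nat_lit 104) (nat_lit 129) (nat_lit 127))) (PT.nd (nat_lit 78) (PT.lf (nat_lit 3724) (nat_lit 6) (nat_lit 49) (nat_lit 4) (nat_lit 105) (nat_lit 129) (nat_lit 126)) (PT.nd (nat_lit 78) (PT.lf (nat_lit 3952) (nat_lit 6) (nat_lit 52) (nat_lit 4) (nat_lit 106) (nat_lit 129) (nat_lit 125)) (PT.lf (nat_lit 4256) (nat_lit 6) (nat_lit 56) (nat_lit 4) (nat_lit 107) (nat_lit 129) (nat_lit 124))))) (PT.nd (nat_lit 156) (PT.nd (nat_lit 78) (PT.lf (nat_lit 4560) (nat_lit 6) (nat_lit 60) (nat_lit 4) (nat_lit 108) (nat_lit 129) (nat_lit 123)) (PT.lf (nat_lit 4940) (nat_lit 6) (nat_lit 65) (nat_lit 4) (nat_lit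 109) (nat_lit 129) (nat_lit 122))) (PT.nd (nat_lit 78) (PT.lf (nat_lit 5320) (nat_lit 6) (nat_lit 70) (nat_lit 4) (nat_lit 110) (nat_lit 129) (nat_lit 121)) (PT.nd (nat_lit 78) (PT.lf (nat_lit 6004) (nat_lit 6) (nat_lit 79) (nat_lit 4) (nat_lit 111) (nat_lit 129) (nat_lit 120)) (PT.lf (nat_lit 5928) (nat_lit 6) (nat_lit 78) (nat_lit 4) (nat_lit 112) (nat_lit 129) (nat_lit 119)))))) (PT.nd (nat_lit 390) (PT.nd (nat_lit 156) (PT.nd (nat_lit 78) (PT.lf (nat_lit 5852) (nat_lit 6) (nat_lit 77) (nat_lit 4) (nat_lit 113) (nat_lit 129) (nat_lit 118)) (PT.lf (nat_lit 5776) (nat_lit 6) (nat_lit 76) (nat_lit 4) (nat_lit 114) (nat_lit 129) (nat_lit 117))) (PT.nd (nat_lit 78) (PT.lf (nat_lit 5700) (nat_lit 6) (nat_lit 75) (nat_lit 4) (nat_lit 115) (nat_lit 129) (nat_lit 116)) (PT.nd (nat_lit 78) (PT.lf (nat_lit 5700) (nat_lit 6) (nat_lit 75) (nat_lit 2) (nat_lit 116) (nat_lit 129) (nat_lit 115))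 (PT.lf (nat_lit 5776) (nat_lit 6) (nat_lit 76) (nat_lit 2) (nat_lit 117) (nat_lit 129) (nat_lit 114))))) (PT.nd (nat_lit 234) (PT.nd (nat_lit 78) (PT.lf (nat_lit 5852) (nat_lit 6) (nat_lit 77) (nat_lit 2) (nat_lit 118) (nat_lit 129) (nat_lit 113)) (PT.nd (nat_lit 78) (PT.lf (nat_lit 5928) (nat_lit 6) (nat_lit 78) (nat_lit 2) (nat_lit 119) (nat_lit 129) (nat_lit 112)) (PT.lf (nat_lit 6004) (nat_lit 6) (nat_lit 79) (nat_lit 2) (nat_lit 120) (nat_lit 129) (nat_lit 111)))) (PT.nd (nat_lit 78) (PT.lf (nat_lit 5320) (nat_lit 6) (nat_lit 70) (nat_lit 2) (nat_lit 121) (nat_lit 129) (nat_lit 110)) (PT.nd (nat_lit 78) (PT.lf (nat_lit 4940) (nat_lit 6) (nat_lit 65) (nat_lit 2) (nat_lit 122) (nat_lit 129) (nat_lit 109)) (PT.lf (nat_lit 4560) (nat_lit 6) (nat_lit 60) (nat_lit 2) (nat_lit 123) (nat_lit 129) (nat_lit 108))))))) (PT.nd (nat_lit 35412) (PT.nd (nat_lit 390) (PT.nd (nat_lit 156) (PT.nd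 (nat_lit 78) (PT.lf (nat_lit 4256) (nat_lit 6) (nat_lit 56) (nat_lit 2) (nat_lit 124) (nat_lit 129) (nat_lit 107)) (PT.lf (nat_lit 3952) (nat_lit 6) (nat_lit 52) (nat_lit 2) (nat_lit 125) (nat_lit 129) (nat_lit 106))) (PT.nd (nat_lit 78) (PT.lf (nat_lit 3724) (nat_lit 6) (nat_lit 49) (nat_lit 2) (nat_lit 126) (nat_lit 129) (nat_lit 105)) (PT.nd (nat_lit 78) (PT.lf (nat_lit 3420) (nat_lit 6) (nat_lit 45) (nat_lit 2) (nat_lit 127) (nat_lit 129) (nat_lit 104)) (PT.lf (nat_lit 3192) (nat_lit 6) (nat_lit 42) (nat_lit 2) (nat_lit 128) (nat_lit 129) (nat_lit 103))))) (PT.nd (nat_lit 156) (PT.nd (nat_lit 78) (PT.lf (nat_lit 2964) (nat_lit 3) (nat_lit 39) (nat_lit 0) (nat_lit 129) (nat_lit 129) (nat_lit 102)) (PT.lf (nat_lit 2736) (nat_lit 6) (nat_lit 36) (nat_lit 0) (nat_lit 130) (nat_lit 129) (nat_lit 101))) (PT.nd (nat_lit 78) (PT.lf (nat_lit 2432) (nat_lit 6) (nat_lit 32) (nat_lit 0) (nat_lit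 131) (nat_lit 129) (nat_lit 100)) (PT.nd (nat_lit 78) (PT.lf (nat_lit 2204) (nat_lit 6) (nat_lit 29) (nat_lit 0) (nat_lit 132) (nat_lit 129) (nat_lit 99)) (PT.lf (nat_lit 1976) (nat_lit 6) (nat_lit 26) (nat_lit 0) (nat_lit 133) (nat_lit 129) (nat_lit 98)))))) (PT.nd (nat_lit 390) (PT.nd (nat_lit 156) (PT.nd (nat_lit 78) (PT.lf (nat_lit 1824) (nat_lit 6) (nat_lit 24) (nat_lit 5) (nat_lit 97) (nat_lit 130) (nat_lit 133)) (PT.lf (nat_lit 2052) (nat_lit 6) (nat_lit 27) (nat_lit 5) (nat_lit 98) (nat_lit 130) (nat_lit 132))) (PT.nd (nat_lit 78) (PT.lf (nat_lit 2280) (nat_lit 6) (nat_lit 30) (nat_lit 5) (nat_lit 99) (nat_lit 130) (nat_lit 131)) (PT.nd (nat_lit 78) (PT.lf (nat_lit 2508) (nat_lit 3) (nat_lit 33) (nat_lit 4) (nat_lit 100) (nat_lit 130) (nat_lit 130)) (PT.lf (nat_lit 2736) (nat_lit 6) (nat_lit 36) (nat_lit 4) (nat_lit 101) (nat_lit 130) (nat_lit 129))))) (PT.nd (nat_lit 234) (PT.nd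 (nat_lit 78) (PT.lf (nat_lit 2888) (nat_lit 6) (nat_lit 38) (nat_lit 4) (nat_lit 102) (nat_lit 130) (nat_lit 128)) (PT.nd (nat_lit 78) (PT.lf (nat_lit 3116) (nat_lit 6) (nat_lit 41) (nat_lit 4) (nat_lit 103) (nat_lit 130) (nat_lit 127)) (PT.lf (nat_lit 3344) (nat_lit 6) (nat_lit 44) (nat_lit 4) (nat_lit 104) (nat_lit 130) (nat_lit 126)))) (PT.nd (nat_lit 78) (PT.lf (nat_lit 3648) (nat_lit 6) (nat_lit 48) (nat_lit 4) (nat_lit 105) (nat_lit 130) (nat_lit 125)) (PT.nd (nat_lit 78) (PT.lf (nat_lit 3876) (nat_lit 6) (nat_lit 51) (nat_lit 4) (nat_lit 106) (nat_lit 130) (nat_lit 124)) (PT.lf (nat_lit 4180) (nat_lit 6) (nat_lit 55) (nat_lit 4) (nat_lit 107) (nat_lit 130) (nat_lit 123))))))))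
noncomputable def pc13 : PT := (PT.nd (nat_lit 36816) (PT.nd (nat_lit 1482) (PT.nd (nat_lit 1092) (PT.nd (nat_lit 156) (PT.nd (nat_lit 78) (PT.lf (nat_lit 4484) (nat_lit 6) (nat_lit 59) (nat_lit 4) (nat_lit 108) (nat_lit 130) (nat_lit 122)) (PT.lf (nat_lit 4864) (nat_lit 6) (nat_lit 64) (nat_lit 4) (nat_lit 109) (nat_lit 130) (nat_lit 121))) (PT.nd (nat_lit 780) (PT.lf (nat_lit 5244) (nat_lit 6) (nat_lit 69) (nat_lit 4) (nat_lit 110) (nat_lit 130) (nat_lit 120)) (PT.nd (nat_lit 78) (PT.lf (nat_lit 5244) (nat_lit 6) (nat_lit 69) (nat_lit 2) (nat_lit 120) (nat_lit 130) (nat_lit 110)) (PT.lf (nat_lit 4864) (nat_lit 6) (nat_lit 64) (nat_lit 2) (nat_lit 121) (nat_lit 130) (nat_lit 109))))) (PT.nd (nat_lit 156) (PT.nd (nat_lit 78) (PT.lf (nat_lit 4484) (nat_lit 6) (nat_lit 59) (nat_lit 2) (nat_lit 122) (nat_lit 130) (nat_lit 108)) (PT.lf (nat_lit 4180) (nat_lit 6) (nat_lit 55) (nat_lit 2)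 (nat_lit 123) (nat_lit 130) (nat_lit 107))) (PT.nd (nat_lit 78) (PT.lf (nat_lit 3876) (nat_lit 6) (nat_lit 51) (nat_lit 2) (nat_lit 124) (nat_lit 130) (nat_lit 106)) (PT.nd (nat_lit 78) (PT.lf (nat_lit 3648) (nat_lit 6) (nat_lit 48) (nat_lit 2) (nat_lit 125) (nat_lit 130) (nat_lit 105)) (PT.lf (nat_lit 3344) (nat_lit 6) (nat_lit 44) (nat_lit 2) (nat_lit 126) (nat_lit 130) (nat_lit 104)))))) (PT.nd (nat_lit 390) (PT.nd (nat_lit 156) (PT.nd (nat_lit 78) (PT.lf (nat_lit 3116) (nat_lit 6) (nat_lit 41) (nat_lit 2) (nat_lit 127) (nat_lit 130) (nat_lit 103)) (PT.lf (nat_lit 2888) (nat_lit 6) (nat_lit 38) (nat_lit 2) (nat_lit 128) (nat_lit 130) (nat_lit 102))) (PT.nd (nat_lit 78) (PT.lf (nat_lit 2736) (nat_lit 6) (nat_lit 36) (nat_lit 2) (nat_lit 129) (nat_lit 130) (nat_lit 101)) (PT.nd (nat_lit 78) (PT.lf (nat_lit 2508) (nat_lit 3) (nat_lit 33) (nat_lit 0) (nat_lit 130) (nat_lit 130) (nat_lit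 100)) (PT.lf (nat_lit 2280) (nat_lit 6) (nat_lit 30) (nat_lit 0) (nat_lit 131) (nat_lit 130) (nat_lit 99))))) (PT.nd (nat_lit 34710) (PT.nd (nat_lit 78) (PT.lf (nat_lit 2052) (nat_lit 6) (nat_lit 27) (nat_lit 0) (nat_lit 132) (nat_lit 130) (nat_lit 98)) (PT.nd (nat_lit 34554) (PT.lf (nat_lit 1824) (nat_lit 6) (nat_lit 24) (nat_lit 0) (nat_lit 133) (nat_lit 130) (nat_lit 97)) (PT.lf (nat_lit 1520) (nat_lit 6) (nat_lit 20) (nat_lit 5) (nat_lit 95) (nat_lit 131) (nat_lit 134)))) (PT.nd (nat_lit 78) (PT.lf (nat_lit 1672) (nat_lit 6) (nat_lit 22) (nat_lit 5) (nat_lit 96) (nat_lit 131) (nat_lit 133)) (PT.nd (nat_lit 78) (PT.lf (nat_lit 1900) (nat_lit 6) (nat_lit 25) (nat_lit 5) (nat_lit 97) (nat_lit 131) (nat_lit 132)) (PT.lf (nat_lit 2128) (nat_lit 3) (nat_lit 28) (nat_lit 4) (nat_lit 98) (nat_lit 131) (nat_lit 131))))))) (PT.nd (nat_lit 2184) (PT.nd (nat_lit 390) (PT.nd (nat_lit 156) (PT.nd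 (nat_lit 78) (PT.lf (nat_lit 2280) (nat_lit 6) (nat_lit 30) (nat_lit 4) (nat_lit 99) (nat_lit 131) (nat_lit 130)) (PT.lf (nat_lit 2432) (nat_lit 6) (nat_lit 32) (nat_lit 4) (nat_lit 100) (nat_lit 131) (nat_lit 129))) (PT.nd (nat_lit 78) (PT.lf (nat_lit 2660) (nat_lit 6) (nat_lit 35) (nat_lit 4) (nat_lit 101) (nat_lit 131) (nat_lit 128)) (PT.nd (nat_lit 78) (PT.lf (nat_lit 2812) (nat_lit 6) (nat_lit 37) (nat_lit 4) (nat_lit 102) (nat_lit 131) (nat_lit 127)) (PT.lf (nat_lit 3040) (nat_lit 6) (nat_lit 40) (nat_lit 4) (nat_lit 103) (nat_lit 131) (nat_lit 126))))) (PT.nd (nat_lit 1560) (PT.nd (nat_lit 78) (PT.lf (nat_lit 3268) (nat_lit 6) (nat_lit 43) (nat_lit 4) (nat_lit 104) (nat_lit 131) (nat_lit 125)) (PT.lf (nat_lit 3572) (nat_lit 6) (nat_lit 47) (nat_lit 4) (nat_lit 105) (nat_lit 131) (nat_lit 124))) (PT.nd (nat_lit 78) (PT.lf (nat_lit 3572) (nat_lit 6) (nat_lit 47) (nat_lit 2) (nat_lit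 124) (nat_lit 131) (nat_lit 105)) (PT.nd (nat_lit 78) (PT.lf (nat_lit 3268) (nat_lit 6) (nat_lit 43) (nat_lit 2) (nat_lit 125) (nat_lit 131) (nat_lit 104)) (PT.lf (nat_lit 3040) (nat_lit 6) (nat_lit 40) (nat_lit 2) (nat_lit 126) (nat_lit 131) (nat_lit 103)))))) (PT.nd (nat_lit 390) (PT.nd (nat_lit 156) (PT.nd (nat_lit 78) (PT.lf (nat_lit 2812) (nat_lit 6) (nat_lit 37) (nat_lit 2) (nat_lit 127) (nat_lit 131) (nat_lit 102)) (PT.lf (nat_lit 2660) (nat_lit 6) (nat_lit 35) (nat_lit 2) (nat_lit 128) (nat_lit 131) (nat_lit 101))) (PT.nd (nat_lit 78) (PT.lf (nat_lit 2432) (nat_lit 6) (nat_lit 32) (nat_lit 2) (nat_lit 129) (nat_lit 131) (nat_lit 100)) (PT.nd (nat_lit 78) (PT.lf (nat_lit 2280) (nat_lit 6) (nat_lit 30) (nat_lit 2) (nat_lit 130) (nat_lit 131) (nat_lit 99)) (PT.lf (nat_lit 2128) (nat_lit 3) (nat_lit 28) (nat_lit 0) (nat_lit 131) (nat_lit 131) (nat_lit 98))))) (PT.nd (nat_lit 34476)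 (PT.nd (nat_lit 78) (PT.lf (nat_lit 1900) (nat_lit 6) (nat_lit 25) (nat_lit 0) (nat_lit 132) (nat_lit 131) (nat_lit 97)) (PT.nd (nat_lit 78) (PT.lf (nat_lit 1672) (nat_lit 6) (nat_lit 22) (nat_lit 0) (nat_lit 133) (nat_lit 131) (nat_lit 96)) (PT.lf (nat_lit 1520) (nat_lit 6) (nat_lit 20) (nat_lit 0) (nat_lit 134) (nat_lit 131) (nat_lit 95)))) (PT.nd (nat_lit 78) (PT.lf (nat_lit 1216) (nat_lit 6) (nat_lit 16) (nat_lit 5) (nat_lit 93) (nat_lit 132) (nat_lit 135)) (PT.nd (nat_lit 78) (PT.lf (nat_lit 1368) (nat_lit 6) (nat_lit 18) (nat_lit 5) (nat_lit 94) (nat_lit 132) (nat_lit 134)) (PT.lf (nat_lit 1596) (nat_lit 6) (nat_lit 21) (nat_lit 5) (nat_lit 95) (nat_lit 132) (nat_lit 133))))))))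
noncomputable def pc14 : PT := (PT.nd (nat_lit 37674) (PT.nd (nat_lit 2730) (PT.nd (nat_lit 390) (PT.nd (nat_lit 156) (PT.nd (nat_lit 78) (PT.lf (nat_lit 1748) (nat_lit 3) (nat_lit 23) (nat_lit 4) (nat_lit 96) (nat_lit 132) (nat_lit 132)) (PT.lf (nat_lit 1900) (nat_lit 6) (nat_lit 25) (nat_lit 4) (nat_lit 97) (nat_lit 132) (nat_lit 131))) (PT.nd (nat_lit 78) (PT.lf (nat_lit 2052) (nat_lit 6) (nat_lit 27) (nat_lit 4) (nat_lit 98) (nat_lit 132) (nat_lit 130)) (PT.nd (nat_lit 78) (PT.lf (nat_lit 2204) (nat_lit 6) (nat_lit 29) (nat_lit 4) (nat_lit 99) (nat_lit 132) (nat_lit 129)) (PT.lf (nat_lit 2356) (nat_lit 6) (nat_lit 31) (nat_lit 4) (nat_lit 100) (nat_lit 132) (nat_lit 128))))) (PT.nd (nat_lit 2106) (PT.nd (nat_lit 2028) (PT.lf (nat_lit 2584) (nat_lit 6) (nat_lit 34) (nat_lit 4) (nat_lit 101) (nat_lit 132) (nat_lit 127)) (PT.lf (nat_lit 2584) (nat_lit 6) (nat_lit 34) (nat_lit 2) (nat_lit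 127) (nat_lit 132) (nat_lit 101))) (PT.nd (nat_lit 78) (PT.lf (nat_lit 2356) (nat_lit 6) (nat_lit 31) (nat_lit 2) (nat_lit 128) (nat_lit 132) (nat_lit 100)) (PT.nd (nat_lit 78) (PT.lf (nat_lit 2204) (nat_lit 6) (nat_lit 29) (nat_lit 2) (nat_lit 129) (nat_lit 132) (nat_lit 99)) (PT.lf (nat_lit 2052) (nat_lit 6) (nat_lit 27) (nat_lit 2) (nat_lit 130) (nat_lit 132) (nat_lit 98)))))) (PT.nd (nat_lit 34476) (PT.nd (nat_lit 156) (PT.nd (nat_lit 78) (PT.lf (nat_lit 1900) (nat_lit 6) (nat_lit 25) (nat_lit 2) (nat_lit 131) (nat_lit 132) (nat_lit 97)) (PT.lf (nat_lit 1748) (nat_lit 3) (nat_lit 23) (nat_lit 0) (nat_lit 132) (nat_lit 132) (nat_lit 96))) (PT.nd (nat_lit 78) (PT.lf (nat_lit 1596) (nat_lit 6) (nat_lit 21) (nat_lit 0) (nat_lit 133) (nat_lit 132) (nat_lit 95)) (PT.nd (nat_lit 78) (PT.lf (nat_lit 1368) (nat_lit 6) (nat_lit 18) (nat_lit 0) (nat_lit 134) (nat_lit 132) (nat_lit 94)) (PT.lf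 (nat_lit 1216) (nat_lit 6) (nat_lit 16) (nat_lit 0) (nat_lit 135) (nat_lit 132) (nat_lit 93))))) (PT.nd (nat_lit 234) (PT.nd (nat_lit 78) (PT.lf (nat_lit 1064) (nat_lit 6) (nat_lit 14) (nat_lit 5) (nat_lit 92) (nat_lit 133) (nat_lit 135)) (PT.nd (nat_lit 78) (PT.lf (nat_lit 1292) (nat_lit 6) (nat_lit 17) (nat_lit 5) (nat_lit 93) (nat_lit 133) (nat_lit 134)) (PT.lf (nat_lit 1444) (nat_lit 3) (nat_lit 19) (nat_lit 4) (nat_lit 94) (nat_lit 133) (nat_lit 133)))) (PT.nd (nat_lit 78) (PT.lf (nat_lit 1596) (nat_lit 6) (nat_lit 21) (nat_lit 4) (nat_lit 95) (nat_lit 133) (nat_lit 132)) (PT.nd (nat_lit 78) (PT.lf (nat_lit 1672) (nat_lit 6) (nat_lit 22) (nat_lit 4) (nat_lit 96) (nat_lit 133) (nat_lit 131)) (PT.lf (nat_lit 1824) (nat_lit 6) (nat_lit 24) (nat_lit 4) (nat_lit 97) (nat_lit 133) (nat_lit 130))))))) (PT.nd (nat_lit 37050) (PT.nd (nat_lit 2730) (PT.nd (nat_lit 2496) (PT.nd (nat_lit 2418)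 (PT.lf (nat_lit 1976) (nat_lit 6) (nat_lit 26) (nat_lit 4) (nat_lit 98) (nat_lit 133) (nat_lit 129)) (PT.lf (nat_lit 1976) (nat_lit 6) (nat_lit 26) (nat_lit 2) (nat_lit 129) (nat_lit 133) (nat_lit 98))) (PT.nd (nat_lit 78) (PT.lf (nat_lit 1824) (nat_lit 6) (nat_lit 24) (nat_lit 2) (nat_lit 130) (nat_lit 133) (nat_lit 97)) (PT.nd (nat_lit 78) (PT.lf (nat_lit 1672) (nat_lit 6) (nat_lit 22) (nat_lit 2) (nat_lit 131) (nat_lit 133) (nat_lit 96)) (PT.lf (nat_lit 1596) (nat_lit 6) (nat_lit 21) (nat_lit 2) (nat_lit 132) (nat_lit 133) (nat_lit 95))))) (PT.nd (nat_lit 156) (PT.nd (nat_lit 78) (PT.lf (nat_lit 1444) (nat_lit 3) (nat_lit 19) (nat_lit 0) (nat_lit 133) (nat_lit 133) (nat_lit 94)) (PT.lf (nat_lit 1292) (nat_lit 6) (nat_lit 17) (nat_lit 0) (nat_lit 134) (nat_lit 133) (nat_lit 93))) (PT.nd (nat_lit 34008) (PT.lf (nat_lit 1064) (nat_lit 6) (nat_lit 14) (nat_lit 0) (nat_lit 135) (nat_lit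 133) (nat_lit 92)) (PT.nd (nat_lit 78) (PT.lf (nat_lit 836) (nat_lit 6) (nat_lit 11) (nat_lit 5) (nat_lit 90) (nat_lit 134) (nat_lit 136)) (PT.lf (nat_lit 988) (nat_lit 6) (nat_lit 13) (nat_lit 5) (nat_lit 91) (nat_lit 134) (nat_lit 135)))))) (PT.nd (nat_lit 3120) (PT.nd (nat_lit 156) (PT.nd (nat_lit 78) (PT.lf (nat_lit 1140) (nat_lit 3) (nat_lit 15) (nat_lit 4) (nat_lit 92) (nat_lit 134) (nat_lit 134)) (PT.lf (nat_lit 1292) (nat_lit 6) (nat_lit 17) (nat_lit 4) (nat_lit 93) (nat_lit 134) (nat_lit 133))) (PT.nd (nat_lit 78) (PT.lf (nat_lit 1368) (nat_lit 6) (nat_lit 18) (nat_lit 4) (nat_lit 94) (nat_lit 134) (nat_lit 132)) (PT.nd (nat_lit 2808) (PT.lf (nat_lit 1520) (nat_lit 6) (nat_lit 20) (nat_lit 4) (nat_lit 95) (nat_lit 134) (nat_lit 131)) (PT.lf (nat_lit 1520) (nat_lit 6) (nat_lit 20) (nat_lit 2) (nat_lit 131) (nat_lit 134) (nat_lit 95))))) (PT.nd (nat_lit 234) (PT.nd (nat_lit 78)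 (PT.lf (nat_lit 1368) (nat_lit 6) (nat_lit 18) (nat_lit 2) (nat_lit 132) (nat_lit 134) (nat_lit 94)) (PT.nd (nat_lit 78) (PT.lf (nat_lit 1292) (nat_lit 6) (nat_lit 17) (nat_lit 2) (nat_lit 133) (nat_lit 134) (nat_lit 93)) (PT.lf (nat_lit 1140) (nat_lit 3) (nat_lit 15) (nat_lit 0) (nat_lit 134) (nat_lit 134) (nat_lit 92)))) (PT.nd (nat_lit 78) (PT.lf (nat_lit 988) (nat_lit 6) (nat_lit 13) (nat_lit 0) (nat_lit 135) (nat_lit 134) (nat_lit 91)) (PT.nd (nat_lit 33774) (PT.lf (nat_lit 836) (nat_lit 6) (nat_lit 11) (nat_lit 0) (nat_lit 136) (nat_lit 134) (nat_lit 90)) (PT.lf (nat_lit 608) (nat_lit 6) (nat_lit 8) (nat_lit 5) (nat_lit 88) (nat_lit 135) (nat_lit 137))))))))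
noncomputable def pc15 : PT := (PT.nd (nat_lit 74646) (PT.nd (nat_lit 3744) (PT.nd (nat_lit 3354) (PT.nd (nat_lit 156) (PT.nd (nat_lit 78) (PT.lf (nat_lit 760) (nat_lit 6) (nat_lit 10) (nat_lit 5) (nat_lit 89) (nat_lit 135) (nat_lit 136)) (PT.lf (nat_lit 912) (nat_lit 3) (nat_lit 12) (nat_lit 4) (nat_lit 90) (nat_lit 135) (nat_lit 135))) (PT.nd (nat_lit 78) (PT.lf (nat_lit 988) (nat_lit 6) (nat_lit 13) (nat_lit 4) (nat_lit 91) (nat_lit 135) (nat_lit 134)) (PT.nd (nat_lit 78) (PT.lf (nat_lit 1064) (nat_lit 6) (nat_lit 14) (nat_lit 4) (nat_lit 92) (nat_lit 135) (nat_lit 133)) (PT.lf (nat_lit 1216) (nat_lit 6) (nat_lit 16) (nat_lit 4) (nat_lit 93) (nat_lit 135) (nat_lit 132))))) (PT.nd (nat_lit 156) (PT.nd (nat_lit 78) (PT.lf (nat_lit 1216) (nat_lit 6) (nat_lit 16) (nat_lit 2) (nat_lit 132) (nat_lit 135) (nat_lit 93)) (PT.lf (nat_lit 1064) (nat_lit 6) (nat_lit 14) (nat_lit 2) (nat_lit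 133) (nat_lit 135) (nat_lit 92))) (PT.nd (nat_lit 78) (PT.lf (nat_lit 988) (nat_lit 6) (nat_lit 13) (nat_lit 2) (nat_lit 134) (nat_lit 135) (nat_lit 91)) (PT.nd (nat_lit 78) (PT.lf (nat_lit 912) (nat_lit 3) (nat_lit 12) (nat_lit 0) (nat_lit 135) (nat_lit 135) (nat_lit 90)) (PT.lf (nat_lit 760) (nat_lit 6) (nat_lit 10) (nat_lit 0) (nat_lit 136) (nat_lit 135) (nat_lit 89)))))) (PT.nd (nat_lit 33852) (PT.nd (nat_lit 33618) (PT.nd (nat_lit 33540) (PT.lf (nat_lit 608) (nat_lit 6) (nat_lit 8) (nat_lit 0) (nat_lit 137) (nat_lit 135) (nat_lit 88)) (PT.lf (nat_lit 380) (nat_lit 6) (nat_lit 5) (nat_lit 5) (nat_lit 86) (nat_lit 136) (nat_lit 138))) (PT.nd (nat_lit 78) (PT.lf (nat_lit 532) (nat_lit 6) (nat_lit 7) (nat_lit 5) (nat_lit 87) (nat_lit 136) (nat_lit 137)) (PT.nd (nat_lit 78) (PT.lf (nat_lit 684) (nat_lit 3) (nat_lit 9) (nat_lit 4) (nat_lit 88) (nat_lit 136) (nat_lit 136)) (PT.lf (nat_lit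 760) (nat_lit 6) (nat_lit 10) (nat_lit 4) (nat_lit 89) (nat_lit 136) (nat_lit 135))))) (PT.nd (nat_lit 3588) (PT.nd (nat_lit 3432) (PT.lf (nat_lit 836) (nat_lit 6) (nat_lit 11) (nat_lit 4) (nat_lit 90) (nat_lit 136) (nat_lit 134)) (PT.nd (nat_lit 78) (PT.lf (nat_lit 836) (nat_lit 6) (nat_lit 11) (nat_lit 2) (nat_lit 134) (nat_lit 136) (nat_lit 90)) (PT.lf (nat_lit 760) (nat_lit 6) (nat_lit 10) (nat_lit 2) (nat_lit 135) (nat_lit 136) (nat_lit 89)))) (PT.nd (nat_lit 78) (PT.lf (nat_lit 684) (nat_lit 3) (nat_lit 9) (nat_lit 0) (nat_lit 136) (nat_lit 136) (nat_lit 88)) (PT.nd (nat_lit 78) (PT.lf (nat_lit 532) (nat_lit 6) (nat_lit 7) (nat_lit 0) (nat_lit 137) (nat_lit 136) (nat_lit 87)) (PT.lf (nat_lit 380) (nat_lit 6) (nat_lit 5) (nat_lit 0) (nat_lit 138) (nat_lit 136) (nat_lit 86))))))) (PT.nd (nat_lit 37518) (PT.nd (nat_lit 3978) (PT.nd (nat_lit 156) (PT.nd (nat_lit 78) (PT.lf (nat_lit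 152) (nat_lit 6) (nat_lit 2) (nat_lit 5) (nat_lit 84) (nat_lit 137) (nat_lit 139)) (PT.lf (nat_lit 304) (nat_lit 6) (nat_lit 4) (nat_lit 5) (nat_lit 85) (nat_lit 137) (nat_lit 138))) (PT.nd (nat_lit 78) (PT.lf (nat_lit 456) (nat_lit 3) (nat_lit 6) (nat_lit 4) (nat_lit 86) (nat_lit 137) (nat_lit 137)) (PT.nd (nat_lit 78) (PT.lf (nat_lit 532) (nat_lit 6) (nat_lit 7) (nat_lit 4) (nat_lit 87) (nat_lit 137) (nat_lit 136)) (PT.lf (nat_lit 608) (nat_lit 6) (nat_lit 8) (nat_lit 4) (nat_lit 88) (nat_lit 137) (nat_lit 135))))) (PT.nd (nat_lit 234) (PT.nd (nat_lit 78) (PT.lf (nat_lit 608) (nat_lit 6) (nat_lit 8) (nat_lit 2) (nat_lit 135) (nat_lit 137) (nat_lit 88)) (PT.nd (nat_lit 78) (PT.lf (nat_lit 532) (nat_lit 6) (nat_lit 7) (nat_lit 2) (nat_lit 136) (nat_lit 137) (nat_lit 87)) (PT.lf (nat_lit 456) (nat_lit 3) (nat_lit 6) (nat_lit 0) (nat_lit 137) (nat_lit 137) (nat_lit 86)))) (PT.nd (nat_lit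 78) (PT.lf (nat_lit 304) (nat_lit 6) (nat_lit 4) (nat_lit 0) (nat_lit 138) (nat_lit 137) (nat_lit 85)) (PT.nd (nat_lit 33150) (PT.lf (nat_lit 152) (nat_lit 6) (nat_lit 2) (nat_lit 0) (nat_lit 139) (nat_lit 137) (nat_lit 84)) (PT.lf (nat_lit 76) (nat_lit 6) (nat_lit 1) (nat_lit 5) (nat_lit 83) (nat_lit 138) (nat_lit 139)))))) (PT.nd (nat_lit 4212) (PT.nd (nat_lit 156) (PT.nd (nat_lit 78) (PT.lf (nat_lit 228) (nat_lit 3) (nat_lit 3) (nat_lit 4) (nat_lit 84) (nat_lit 138) (nat_lit 138)) (PT.lf (nat_lit 304) (nat_lit 6) (nat_lit 4) (nat_lit 4) (nat_lit 85) (nat_lit 138) (nat_lit 137))) (PT.nd (nat_lit 3900) (PT.lf (nat_lit 380) (nat_lit 6) (nat_lit 5) (nat_lit 4) (nat_lit 86) (nat_lit 138) (nat_lit 136)) (PT.nd (nat_lit 78) (PT.lf (nat_lit 380) (nat_lit 6) (nat_lit 5) (nat_lit 2) (nat_lit 136) (nat_lit 138) (nat_lit 86)) (PT.lf (nat_lit 304) (nat_lit 6) (nat_lit 4) (nat_lit 2) (nat_lit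 137) (nat_lit 138) (nat_lit 85))))) (PT.nd (nat_lit 33306) (PT.nd (nat_lit 78) (PT.lf (nat_lit 228) (nat_lit 3) (nat_lit 3) (nat_lit 0) (nat_lit 138) (nat_lit 138) (nat_lit 84)) (PT.nd (nat_lit 33150) (PT.lf (nat_lit 76) (nat_lit 6) (nat_lit 1) (nat_lit 0) (nat_lit 139) (nat_lit 138) (nat_lit 83)) (PT.lf (nat_lit 76) (nat_lit 6) (nat_lit 1) (nat_lit 4) (nat_lit 83) (nat_lit 139) (nat_lit 138)))) (PT.nd (nat_lit 4134) (PT.lf (nat_lit 152) (nat_lit 6) (nat_lit 2) (nat_lit 4) (nat_lit 84) (nat_lit 139) (nat_lit 137)) (PT.nd (nat_lit 78) (PT.lf (nat_lit 152) (nat_lit 6) (nat_lit 2) (nat_lit 2) (nat_lit 137) (nat_lit 139) (nat_lit 84)) (PT.lf (nat_lit 76) (nat_lit 6) (nat_lit 1) (nat_lit 2) (nat_lit 138) (nat_lit 139) (nat_lit 83))))))))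
noncomputable def xc0 : XT := (XT.nd (nat_lit 112554) (nat_lit 0) (nat_lit 0) (XT.nd (nat_lit 74958) (nat_lit 0) (nat_lit 0) (XT.nd (nat_lit 37518) (nat_lit 0) (nat_lit 0) (XT.nd (nat_lit 37362) (nat_lit 0) (nat_lit 0) (XT.nd (nat_lit 37284) (nat_lit 0) (nat_lit 0) (XT.lf (nat_lit 0) (nat_lit 158554121293) (nat_lit 152) (nat_lit 310311556347) (nat_lit 0) (nat_lit 158501064486) (nat_lit 1) (nat_lit 5) (nat_lit 3) (nat_lit 4) (nat_lit 1) (nat_lit 4) (nat_lit 367) (nat_lit 177) (nat_lit 176)) (XT.lf (nat_lit 0) (nat_lit 67329408410) (nat_lit 152) (nat_lit 136376366623) (nat_lit 0) (nat_lit 67329408410) (nat_lit 1) (nat_lit 5) (nat_lit 3) (nat_lit 4) (nat_lit 1) (nat_lit 4) (nat_lit 364) (nat_lit 178) (nat_lit 178))) (XT.nd (nat_lit 78) (nat_lit 0) (nat_lit 0) (XT.lf (nat_lit 0) (nat_lit 142275579695) (nat_lit 152) (nat_lit 284630680001) (nat_lit 0) (nat_lit 142219870048) (nat_lit 1) (nat_lit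 5) (nat_lit 3) (nat_lit 4) (nat_lit 1) (nat_lit 4) (nat_lit 365) (nat_lit 178) (nat_lit 177)) (XT.lf (nat_lit 0) (nat_lit 150243507132) (nat_lit 152) (nat_lit 297157936755) (nat_lit 0) (nat_lit 150134740678) (nat_lit 1) (nat_lit 5) (nat_lit 3) (nat_lit 4) (nat_lit 1) (nat_lit 4) (nat_lit 366) (nat_lit 178) (nat_lit 176)))) (XT.nd (nat_lit 37206) (nat_lit 0) (nat_lit 0) (XT.nd (nat_lit 37128) (nat_lit 0) (nat_lit 0) (XT.lf (nat_lit 0) (nat_lit 158581570387) (nat_lit 152) (nat_lit 310364330311) (nat_lit 0) (nat_lit 158422273640) (nat_lit 1) (nat_lit 5) (nat_lit 3) (nat_lit 4) (nat_lit 1) (nat_lit 4) (nat_lit 367) (nat_lit 178) (nat_lit 175)) (XT.lf (nat_lit 0) (nat_lit 60240745405) (nat_lit 152) (nat_lit 125401661939) (nat_lit 0) (nat_lit 60240745405) (nat_lit 1) (nat_lit 5) (nat_lit 3) (nat_lit 4) (nat_lit 1) (nat_lit 4) (nat_lit 362) (nat_lit 179) (nat_lit 179))) (XT.nd (nat_lit 78)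 (nat_lit 0) (nat_lit 0) (XT.lf (nat_lit 0) (nat_lit 127433578486) (nat_lit 152) (nat_lit 261495815668) (nat_lit 0) (nat_lit 127375083357) (nat_lit 1) (nat_lit 5) (nat_lit 3) (nat_lit 4) (nat_lit 1) (nat_lit 4) (nat_lit 363) (nat_lit 179) (nat_lit 178)) (XT.nd (nat_lit 78) (nat_lit 0) (nat_lit 0) (XT.lf (nat_lit 0) (nat_lit 134702113286) (nat_lit 152) (nat_lit 272781115343) (nat_lit 0) (nat_lit 134587908508) (nat_lit 1) (nat_lit 5) (nat_lit 3) (nat_lit 4) (nat_lit 1) (nat_lit 4) (nat_lit 364) (nat_lit 179) (nat_lit 177)) (XT.lf (nat_lit 0) (nat_lit 142304401243) (nat_lit 152) (nat_lit 284686092663) (nat_lit 0) (nat_lit 142137139659) (nat_lit 1) (nat_lit 5) (nat_lit 3) (nat_lit 4) (nat_lit 1) (nat_lit 4) (nat_lit 365) (nat_lit 179) (nat_lit 176)))))) (XT.nd (nat_lit 37206) (nat_lit 0) (nat_lit 0) (XT.nd (nat_lit 37050) (nat_lit 0) (nat_lit 0) (XT.nd (nat_lit 78) (nat_lit 0) (nat_lit 0)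 (XT.lf (nat_lit 0) (nat_lit 150258543044) (nat_lit 152) (nat_lit 297239092814) (nat_lit 0) (nat_lit 150040751167) (nat_lit 1) (nat_lit 5) (nat_lit 3) (nat_lit 4) (nat_lit 1) (nat_lit 4) (nat_lit 366) (nat_lit 179) (nat_lit 175)) (XT.lf (nat_lit 0) (nat_lit 158583477121) (nat_lit 152) (nat_lit 310470003891) (nat_lit 0) (nat_lit 158317561156) (nat_lit 1) (nat_lit 5) (nat_lit 3) (nat_lit 4) (nat_lit 1) (nat_lit 4) (nat_lit 367) (nat_lit 179) (nat_lit 174))) (XT.nd (nat_lit 78) (nat_lit 0) (nat_lit 0) (XT.lf (nat_lit 0) (nat_lit 53769668457) (nat_lit 152) (nat_lit 115532495135) (nat_lit 0) (nat_lit 53769668457) (nat_lit 1) (nat_lit 5) (nat_lit 3) (nat_lit 4) (nat_lit 1) (nat_lit 4) (nat_lit 360) (nat_lit 180) (nat_lit 180)) (XT.lf (nat_lit 0) (nat_lit 113890717553) (nat_lit 152) (nat_lit 240678181659) (nat_lit 0) (nat_lit 113829297667) (nat_lit 1) (nat_lit 5) (nat_lit 3) (nat_lit 4) (nat_lit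 1) (nat_lit 4) (nat_lit 361) (nat_lit 180) (nat_lit 179)))) (XT.nd (nat_lit 156) (nat_lit 0) (nat_lit 0) (XT.nd (nat_lit 78) (nat_lit 0) (nat_lit 0) (XT.lf (nat_lit 0) (nat_lit 120526952099) (nat_lit 152) (nat_lit 250833125078) (nat_lit 0) (nat_lit 120407037083) (nat_lit 1) (nat_lit 5) (nat_lit 3) (nat_lit 4) (nat_lit 1) (nat_lit 4) (nat_lit 362) (nat_lit 180) (nat_lit 178)) (XT.lf (nat_lit 0) (nat_lit 127463841112) (nat_lit 152) (nat_lit 261553998963) (nat_lit 0) (nat_lit 127288216448) (nat_lit 1) (nat_lit 5) (nat_lit 3) (nat_lit 4) (nat_lit 1) (nat_lit 4) (nat_lit 363) (nat_lit 180) (nat_lit 177))) (XT.nd (nat_lit 78) (nat_lit 0) (nat_lit 0) (XT.lf (nat_lit 0) (nat_lit 134717900993) (nat_lit 152) (nat_lit 272866329205) (nat_lit 0) (nat_lit 134489219522) (nat_lit 1) (nat_lit 5) (nat_lit 3) (nat_lit 4) (nat_lit 1) (nat_lit 4) (nat_lit 364) (nat_lit 180) (nat_lit 176)) (XT.nd (nat_lit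 78) (nat_lit 0) (nat_lit 0) (XT.lf (nat_lit 0) (nat_lit 142306403314) (nat_lit 152) (nat_lit 284797049923) (nat_lit 0) (nat_lit 142027191551) (nat_lit 1) (nat_lit 5) (nat_lit 3) (nat_lit 4) (nat_lit 1) (nat_lit 4) (nat_lit 365) (nat_lit 180) (nat_lit 175)) (XT.lf (nat_lit 0) (nat_lit 150247415937) (nat_lit 152) (nat_lit 297374567595) (nat_lit 0) (nat_lit 149920080086) (nat_lit 1) (nat_lit 5) (nat_lit 3) (nat_lit 4) (nat_lit 1) (nat_lit 4) (nat_lit 366) (nat_lit 180) (nat_lit 174))))))) (XT.nd (nat_lit 37440) (nat_lit 0) (nat_lit 0) (XT.nd (nat_lit 37050) (nat_lit 0) (nat_lit 0) (XT.nd (nat_lit 36894) (nat_lit 0) (nat_lit 0) (XT.nd (nat_lit 36816) (nat_lit 0) (nat_lit 0) (XT.lf (nat_lit 0) (nat_lit 158559846036) (nat_lit 152) (nat_lit 310628828692) (nat_lit 0) (nat_lit 158186677720) (nat_lit 1) (nat_lit 5) (nat_lit 3) (nat_lit 4) (nat_lit 1) (nat_lit 4) (nat_lit 367) (nat_lit 180) (nat_lit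 173)) (XT.lf (nat_lit 0) (nat_lit 47856687736) (nat_lit 152) (nat_lit 106670344471) (nat_lit 0) (nat_lit 47856687736) (nat_lit 1) (nat_lit 5) (nat_lit 3) (nat_lit 4) (nat_lit 1) (nat_lit 4) (nat_lit 358) (nat_lit 181) (nat_lit 181))) (XT.nd (nat_lit 78) (nat_lit 0) (nat_lit 0) (XT.lf (nat_lit 0) (nat_lit 101522178729) (nat_lit 152) (nat_lit 221970662359) (nat_lit 0) (nat_lit 101457687849) (nat_lit 1) (nat_lit 5) (nat_lit 3) (nat_lit 4) (nat_lit 1) (nat_lit 4) (nat_lit 359) (nat_lit 181) (nat_lit 180)) (XT.lf (nat_lit 0) (nat_lit 107587071268) (nat_lit 152) (nat_lit 231096281530) (nat_lit 0) (nat_lit 107461160501) (nat_lit 1) (nat_lit 5) (nat_lit 3) (nat_lit 4) (nat_lit 1) (nat_lit 4) (nat_lit 360) (nat_lit 181) (nat_lit 179)))) (XT.nd (nat_lit 156) (nat_lit 0) (nat_lit 0) (XT.nd (nat_lit 78) (nat_lit 0) (nat_lit 0) (XT.lf (nat_lit 0) (nat_lit 113922493309) (nat_lit 152) (nat_lit 240739274119)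 (nat_lit 0) (nat_lit 113738087413) (nat_lit 1) (nat_lit 5) (nat_lit 3) (nat_lit 4) (nat_lit 1) (nat_lit 4) (nat_lit 361) (nat_lit 181) (nat_lit 178)) (XT.lf (nat_lit 0) (nat_lit 120543529191) (nat_lit 152) (nat_lit 250922599633) (nat_lit 0) (nat_lit 120303413648) (nat_lit 1) (nat_lit 5) (nat_lit 3) (nat_lit 4) (nat_lit 1) (nat_lit 4) (nat_lit 362) (nat_lit 181) (nat_lit 177))) (XT.nd (nat_lit 78) (nat_lit 0) (nat_lit 0) (XT.lf (nat_lit 0) (nat_lit 127465943286) (nat_lit 152) (nat_lit 261670504086) (nat_lit 0) (nat_lit 127172770935) (nat_lit 1) (nat_lit 5) (nat_lit 3) (nat_lit 4) (nat_lit 1) (nat_lit 4) (nat_lit 363) (nat_lit 181) (nat_lit 176)) (XT.nd (nat_lit 78) (nat_lit 0) (nat_lit 0) (XT.lf (nat_lit 0) (nat_lit 134706217531) (nat_lit 152) (nat_lit 273008577724) (nat_lit 0) (nat_lit 134362514888) (nat_lit 1) (nat_lit 5) (nat_lit 3) (nat_lit 4) (nat_lit 1) (nat_lit 4) (nat_lit 364)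 (nat_lit 181) (nat_lit 175)) (XT.lf (nat_lit 0) (nat_lit 142281590674) (nat_lit 152) (nat_lit 284963815963) (nat_lit 0) (nat_lit 141889763943) (nat_lit 1) (nat_lit 5) (nat_lit 3) (nat_lit 4) (nat_lit 1) (nat_lit 4) (nat_lit 365) (nat_lit 181) (nat_lit 174)))))) (XT.nd (nat_lit 36894) (nat_lit 0) (nat_lit 0) (XT.nd (nat_lit 36738) (nat_lit 0) (nat_lit 0) (XT.nd (nat_lit 78) (nat_lit 0) (nat_lit 0) (XT.lf (nat_lit 0) (nat_lit 150210099319) (nat_lit 152) (nat_lit 297564683655) (nat_lit 0) (nat_lit 149772440123) (nat_lit 1) (nat_lit 5) (nat_lit 3) (nat_lit 4) (nat_lit 1) (nat_lit 4) (nat_lit 366) (nat_lit 181) (nat_lit 173)) (XT.lf (nat_lit 0) (nat_lit 158510620867) (nat_lit 152) (nat_lit 310841182866) (nat_lit 0) (nat_lit 158029311705) (nat_lit 1) (nat_lit 5) (nat_lit 3) (nat_lit 4) (nat_lit 1) (nat_lit 4) (nat_lit 367) (nat_lit 181) (nat_lit 172))) (XT.nd (nat_lit 78) (nat_lit 0) (nat_lit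 0) (XT.lf (nat_lit 0) (nat_lit 42447740587) (nat_lit 152) (nat_lit 98726060859) (nat_lit 0) (nat_lit 42447740587) (nat_lit 1) (nat_lit 5) (nat_lit 3) (nat_lit 4) (nat_lit 1) (nat_lit 4) (nat_lit 356) (nat_lit 182) (nat_lit 182)) (XT.lf (nat_lit 0) (nat_lit 90214546440) (nat_lit 152) (nat_lit 205185813724) (nat_lit 0) (nat_lit 90146831016) (nat_lit 1) (nat_lit 5) (nat_lit 3) (nat_lit 4) (nat_lit 1) (nat_lit 4) (nat_lit 357) (nat_lit 182) (nat_lit 181)))) (XT.nd (nat_lit 156) (nat_lit 0) (nat_lit 0) (XT.nd (nat_lit 78) (nat_lit 0) (nat_lit 0) (XT.lf (nat_lit 0) (nat_lit 95763496545) (nat_lit 152) (nat_lit 213373544765) (nat_lit 0) (nat_lit 95631290239) (nat_lit 1) (nat_lit 5) (nat_lit 3) (nat_lit 4) (nat_lit 1) (nat_lit 4) (nat_lit 358) (nat_lit 182) (nat_lit 180)) (XT.lf (nat_lit 0) (nat_lit 101555543274) (nat_lit 152) (nat_lit 222034809442) (nat_lit 0) (nat_lit 101361917082) (nat_lit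 1) (nat_lit 5) (nat_lit 3) (nat_lit 4) (nat_lit 1) (nat_lit 4) (nat_lit 359) (nat_lit 182) (nat_lit 179))) (XT.nd (nat_lit 78) (nat_lit 0) (nat_lit 0) (XT.lf (nat_lit 0) (nat_lit 107604477215) (nat_lit 152) (nat_lit 231190229813) (nat_lit 0) (nat_lit 107352355894) (nat_lit 1) (nat_lit 5) (nat_lit 3) (nat_lit 4) (nat_lit 1) (nat_lit 4) (nat_lit 360) (nat_lit 182) (nat_lit 178)) (XT.nd (nat_lit 78) (nat_lit 0) (nat_lit 0) (XT.lf (nat_lit 0) (nat_lit 113924700592) (nat_lit 152) (nat_lit 240861604498) (nat_lit 0) (nat_lit 113616869624) (nat_lit 1) (nat_lit 5) (nat_lit 3) (nat_lit 4) (nat_lit 1) (nat_lit 4) (nat_lit 361) (nat_lit 182) (nat_lit 177)) (XT.lf (nat_lit 0) (nat_lit 120531261557) (nat_lit 152) (nat_lit 251071960579) (nat_lit 0) (nat_lit 120170373781) (nat_lit 1) (nat_lit 5) (nat_lit 3) (nat_lit 4) (nat_lit 1) (nat_lit 4) (nat_lit 362) (nat_lit 182) (nat_lit 176))))))))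
noncomputable def xc1 : XT := (XT.nd (nat_lit 37830) (nat_lit 0) (nat_lit 0) (XT.nd (nat_lit 37128) (nat_lit 0) (nat_lit 0) (XT.nd (nat_lit 312) (nat_lit 0) (nat_lit 0) (XT.nd (nat_lit 156) (nat_lit 0) (nat_lit 0) (XT.nd (nat_lit 78) (nat_lit 0) (nat_lit 0) (XT.lf (nat_lit 0) (nat_lit 127439890015) (nat_lit 152) (nat_lit 261845608428) (nat_lit 0) (nat_lit 127028471947) (nat_lit 1) (nat_lit 5) (nat_lit 3) (nat_lit 4) (nat_lit 1) (nat_lit 4) (nat_lit 363) (nat_lit 182) (nat_lit 175)) (XT.lf (nat_lit 0) (nat_lit 134667035082) (nat_lit 152) (nat_lit 273208199588) (nat_lit 0) (nat_lit 134207492927) (nat_lit 1) (nat_lit 5) (nat_lit 3) (nat_lit 4) (nat_lit 1) (nat_lit 4) (nat_lit 364) (nat_lit 182) (nat_lit 174))) (XT.nd (nat_lit 78) (nat_lit 0) (nat_lit 0) (XT.lf (nat_lit 0) (nat_lit 142229904248) (nat_lit 152) (nat_lit 285186787847) (nat_lit 0) (nat_lit 141724529627) (nat_lit 1) (nat_lit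 5) (nat_lit 3) (nat_lit 4) (nat_lit 1) (nat_lit 4) (nat_lit 365) (nat_lit 182) (nat_lit 173)) (XT.lf (nat_lit 0) (nat_lit 150146504342) (nat_lit 152) (nat_lit 297809893653) (nat_lit 0) (nat_lit 149597479755) (nat_lit 1) (nat_lit 5) (nat_lit 3) (nat_lit 4) (nat_lit 1) (nat_lit 4) (nat_lit 366) (nat_lit 182) (nat_lit 172)))) (XT.nd (nat_lit 36582) (nat_lit 0) (nat_lit 0) (XT.nd (nat_lit 36504) (nat_lit 0) (nat_lit 0) (XT.lf (nat_lit 0) (nat_lit 158435684413) (nat_lit 152) (nat_lit 311107572021) (nat_lit 0) (nat_lit 157845088429) (nat_lit 1) (nat_lit 5) (nat_lit 3) (nat_lit 4) (nat_lit 1) (nat_lit 4) (nat_lit 367) (nat_lit 182) (nat_lit 171)) (XT.lf (nat_lit 0) (nat_lit 37493681779) (nat_lit 152) (nat_lit 91619007136) (nat_lit 0) (nat_lit 37493681779) (nat_lit 1) (nat_lit 5) (nat_lit 3) (nat_lit 4) (nat_lit 1) (nat_lit 4) (nat_lit 354) (nat_lit 183) (nat_lit 183))) (XT.nd (nat_lit 78)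 (nat_lit 0) (nat_lit 0) (XT.lf (nat_lit 0) (nat_lit 79864737503) (nat_lit 152) (nat_lit 190154055200) (nat_lit 0) (nat_lit 79793636308) (nat_lit 1) (nat_lit 5) (nat_lit 3) (nat_lit 4) (nat_lit 1) (nat_lit 4) (nat_lit 355) (nat_lit 183) (nat_lit 182)) (XT.nd (nat_lit 78) (nat_lit 0) (nat_lit 0) (XT.lf (nat_lit 0) (nat_lit 84948108300) (nat_lit 152) (nat_lit 197486620334) (nat_lit 0) (nat_lit 84809291680) (nat_lit 1) (nat_lit 5) (nat_lit 3) (nat_lit 4) (nat_lit 1) (nat_lit 4) (nat_lit 356) (nat_lit 183) (nat_lit 181)) (XT.lf (nat_lit 0) (nat_lit 90249579212) (nat_lit 152) (nat_lit 205253168161) (nat_lit 0) (nat_lit 90046271711) (nat_lit 1) (nat_lit 5) (nat_lit 3) (nat_lit 4) (nat_lit 1) (nat_lit 4) (nat_lit 357) (nat_lit 183) (nat_lit 180)))))) (XT.nd (nat_lit 312) (nat_lit 0) (nat_lit 0) (XT.nd (nat_lit 156) (nat_lit 0) (nat_lit 0) (XT.nd (nat_lit 78) (nat_lit 0) (nat_lit 0) (XT.lf (nat_lit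 0) (nat_lit 95781772789) (nat_lit 152) (nat_lit 213472190463) (nat_lit 0) (nat_lit 95517045402) (nat_lit 1) (nat_lit 5) (nat_lit 3) (nat_lit 4) (nat_lit 1) (nat_lit 4) (nat_lit 358) (nat_lit 183) (nat_lit 179)) (XT.lf (nat_lit 0) (nat_lit 101557860921) (nat_lit 152) (nat_lit 222163256339) (nat_lit 0) (nat_lit 101234638404) (nat_lit 1) (nat_lit 5) (nat_lit 3) (nat_lit 4) (nat_lit 1) (nat_lit 4) (nat_lit 359) (nat_lit 183) (nat_lit 178))) (XT.nd (nat_lit 78) (nat_lit 0) (nat_lit 0) (XT.lf (nat_lit 0) (nat_lit 107591596198) (nat_lit 152) (nat_lit 231347058806) (nat_lit 0) (nat_lit 107212664034) (nat_lit 1) (nat_lit 5) (nat_lit 3) (nat_lit 4) (nat_lit 1) (nat_lit 4) (nat_lit 360) (nat_lit 183) (nat_lit 177)) (XT.lf (nat_lit 0) (nat_lit 113897344658) (nat_lit 152) (nat_lit 241045464057) (nat_lit 0) (nat_lit 113465355687) (nat_lit 1) (nat_lit 5) (nat_lit 3) (nat_lit 4) (nat_lit 1) (nat_lit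 4) (nat_lit 361) (nat_lit 183) (nat_lit 176)))) (XT.nd (nat_lit 156) (nat_lit 0) (nat_lit 0) (XT.nd (nat_lit 78) (nat_lit 0) (nat_lit 0) (XT.lf (nat_lit 0) (nat_lit 120490119986) (nat_lit 152) (nat_lit 251281563536) (nat_lit 0) (nat_lit 120007600722) (nat_lit 1) (nat_lit 5) (nat_lit 3) (nat_lit 4) (nat_lit 1) (nat_lit 4) (nat_lit 362) (nat_lit 183) (nat_lit 175)) (XT.lf (nat_lit 0) (nat_lit 127385619267) (nat_lit 152) (nat_lit 262079728906) (nat_lit 0) (nat_lit 126854975915) (nat_lit 1) (nat_lit 5) (nat_lit 3) (nat_lit 4) (nat_lit 1) (nat_lit 4) (nat_lit 363) (nat_lit 183) (nat_lit 174))) (XT.nd (nat_lit 78) (nat_lit 0) (nat_lit 0) (XT.lf (nat_lit 0) (nat_lit 134600260356) (nat_lit 152) (nat_lit 273465670086) (nat_lit 0) (nat_lit 134023784539) (nat_lit 1) (nat_lit 5) (nat_lit 3) (nat_lit 4) (nat_lit 1) (nat_lit 4) (nat_lit 364) (nat_lit 183) (nat_lit 173)) (XT.nd (nat_lit 78) (nat_lit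 0) (nat_lit 0) (XT.lf (nat_lit 0) (nat_lit 142151220970) (nat_lit 152) (nat_lit 285466496459) (nat_lit 0) (nat_lit 141531095187) (nat_lit 1) (nat_lit 5) (nat_lit 3) (nat_lit 4) (nat_lit 1) (nat_lit 4) (nat_lit 365) (nat_lit 183) (nat_lit 172)) (XT.lf (nat_lit 0) (nat_lit 150056479587) (nat_lit 152) (nat_lit 298110781422) (nat_lit 0) (nat_lit 149394782408) (nat_lit 1) (nat_lit 5) (nat_lit 3) (nat_lit 4) (nat_lit 1) (nat_lit 4) (nat_lit 366) (nat_lit 183) (nat_lit 171))))))) (XT.nd (nat_lit 36972) (nat_lit 0) (nat_lit 0) (XT.nd (nat_lit 36582) (nat_lit 0) (nat_lit 0) (XT.nd (nat_lit 36426) (nat_lit 0) (nat_lit 0) (XT.nd (nat_lit 36348) (nat_lit 0) (nat_lit 0) (XT.lf (nat_lit 0) (nat_lit 158334858251) (nat_lit 152) (nat_lit 311428630415) (nat_lit 0) (nat_lit 157633569266) (nat_lit 1) (nat_lit 5) (nat_lit 3) (nat_lit 4) (nat_lit 1) (nat_lit 4) (nat_lit 367) (nat_lit 183) (nat_lit 170))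 (XT.lf (nat_lit 0) (nat_lit 32949820891) (nat_lit 152) (nat_lit 85276277886) (nat_lit 0) (nat_lit 32949820891) (nat_lit 1) (nat_lit 5) (nat_lit 3) (nat_lit 4) (nat_lit 1) (nat_lit 4) (nat_lit 352) (nat_lit 184) (nat_lit 184))) (XT.nd (nat_lit 78) (nat_lit 0) (nat_lit 0) (XT.lf (nat_lit 0) (nat_lit 70379029926) (nat_lit 152) (nat_lit 176722030786) (nat_lit 0) (nat_lit 70304373671) (nat_lit 1) (nat_lit 5) (nat_lit 3) (nat_lit 4) (nat_lit 1) (nat_lit 4) (nat_lit 353) (nat_lit 184) (nat_lit 183)) (XT.lf (nat_lit 0) (nat_lit 75042622040) (nat_lit 152) (nat_lit 183274237818) (nat_lit 0) (nat_lit 74896864588) (nat_lit 1) (nat_lit 5) (nat_lit 3) (nat_lit 4) (nat_lit 1) (nat_lit 4) (nat_lit 354) (nat_lit 184) (nat_lit 182)))) (XT.nd (nat_lit 156) (nat_lit 0) (nat_lit 0) (XT.nd (nat_lit 78) (nat_lit 0) (nat_lit 0) (XT.lf (nat_lit 0) (nat_lit 79901521914) (nat_lit 152) (nat_lit 190224777360) (nat_lit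 0) (nat_lit 79688049038) (nat_lit 1) (nat_lit 5) (nat_lit 3) (nat_lit 4) (nat_lit 1) (nat_lit 4) (nat_lit 355) (nat_lit 184) (nat_lit 181)) (XT.lf (nat_lit 0) (nat_lit 84967298357) (nat_lit 152) (nat_lit 197590198316) (nat_lit 0) (nat_lit 84689334600) (nat_lit 1) (nat_lit 5) (nat_lit 3) (nat_lit 4) (nat_lit 1) (nat_lit 4) (nat_lit 356) (nat_lit 184) (nat_lit 180))) (XT.nd (nat_lit 78) (nat_lit 0) (nat_lit 0) (XT.lf (nat_lit 0) (nat_lit 90252012742) (nat_lit 152) (nat_lit 205388037403) (nat_lit 0) (nat_lit 89912629099) (nat_lit 1) (nat_lit 5) (nat_lit 3) (nat_lit 4) (nat_lit 1) (nat_lit 4) (nat_lit 357) (nat_lit 184) (nat_lit 179)) (XT.nd (nat_lit 78) (nat_lit 0) (nat_lit 0) (XT.lf (nat_lit 0) (nat_lit 95768247722) (nat_lit 152) (nat_lit 213636860905) (nat_lit 0) (nat_lit 95370368949) (nat_lit 1) (nat_lit 5) (nat_lit 3) (nat_lit 4) (nat_lit 1) (nat_lit 4) (nat_lit 358) (nat_lit 184)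 (nat_lit 178)) (XT.lf (nat_lit 0) (nat_lit 101529137190) (nat_lit 152) (nat_lit 222356308877) (nat_lit 0) (nat_lit 101075548770) (nat_lit 1) (nat_lit 5) (nat_lit 3) (nat_lit 4) (nat_lit 1) (nat_lit 4) (nat_lit 359) (nat_lit 184) (nat_lit 177)))))) (XT.nd (nat_lit 312) (nat_lit 0) (nat_lit 0) (XT.nd (nat_lit 156) (nat_lit 0) (nat_lit 0) (XT.nd (nat_lit 78) (nat_lit 0) (nat_lit 0) (XT.lf (nat_lit 0) (nat_lit 107548397549) (nat_lit 152) (nat_lit 231567141910) (nat_lit 0) (nat_lit 107041752322) (nat_lit 1) (nat_lit 5) (nat_lit 3) (nat_lit 4) (nat_lit 1) (nat_lit 4) (nat_lit 360) (nat_lit 184) (nat_lit 176)) (XT.lf (nat_lit 0) (nat_lit 113840360372) (nat_lit 152) (nat_lit 241291290559) (nat_lit 0) (nat_lit 113283184853) (nat_lit 1) (nat_lit 5) (nat_lit 3) (nat_lit 4) (nat_lit 1) (nat_lit 4) (nat_lit 361) (nat_lit 184) (nat_lit 175))) (XT.nd (nat_lit 78) (nat_lit 0) (nat_lit 0) (XT.lf (nat_lit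 0) (nat_lit 120420006523) (nat_lit 152) (nat_lit 251551907558) (nat_lit 0) (nat_lit 119814706916) (nat_lit 1) (nat_lit 5) (nat_lit 3) (nat_lit 4) (nat_lit 1) (nat_lit 4) (nat_lit 362) (nat_lit 184) (nat_lit 174)) (XT.lf (nat_lit 0) (nat_lit 127303001825) (nat_lit 152) (nat_lit 262373422949) (nat_lit 0) (nat_lit 126651869753) (nat_lit 1) (nat_lit 5) (nat_lit 3) (nat_lit 4) (nat_lit 1) (nat_lit 4) (nat_lit 363) (nat_lit 184) (nat_lit 173)))) (XT.nd (nat_lit 156) (nat_lit 0) (nat_lit 0) (XT.nd (nat_lit 78) (nat_lit 0) (nat_lit 0) (XT.lf (nat_lit 0) (nat_lit 134505734363) (nat_lit 152) (nat_lit 273781602243) (nat_lit 0) (nat_lit 133810952325) (nat_lit 1) (nat_lit 5) (nat_lit 3) (nat_lit 4) (nat_lit 1) (nat_lit 4) (nat_lit 364) (nat_lit 184) (nat_lit 172)) (XT.lf (nat_lit 0) (nat_lit 142045353501) (nat_lit 152) (nat_lit 285803607773) (nat_lit 0) (nat_lit 141309000066) (nat_lit 1) (nat_lit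 5) (nat_lit 3) (nat_lit 4) (nat_lit 1) (nat_lit 4) (nat_lit 365) (nat_lit 184) (nat_lit 171))) (XT.nd (nat_lit 78) (nat_lit 0) (nat_lit 0) (XT.lf (nat_lit 0) (nat_lit 149939810711) (nat_lit 152) (nat_lit 298468063361) (nat_lit 0) (nat_lit 149163865470) (nat_lit 1) (nat_lit 5) (nat_lit 3) (nat_lit 4) (nat_lit 1) (nat_lit 4) (nat_lit 366) (nat_lit 184) (nat_lit 170)) (XT.nd (nat_lit 36192) (nat_lit 0) (nat_lit 0) (XT.lf (nat_lit 0) (nat_lit 158207902321) (nat_lit 152) (nat_lit 311805122473) (nat_lit 0) (nat_lit 157394250598) (nat_lit 1) (nat_lit 5) (nat_lit 3) (nat_lit 4) (nat_lit 1) (nat_lit 4) (nat_lit 367) (nat_lit 184) (nat_lit 169)) (XT.lf (nat_lit 0) (nat_lit 28775502432) (nat_lit 152) (nat_lit 79631992364) (nat_lit 0) (nat_lit 28775502432) (nat_lit 1) (nat_lit 5) (nat_lit 3) (nat_lit 4) (nat_lit 1) (nat_lit 4) (nat_lit 350) (nat_lit 185) (nat_lit 185))))))))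
noncomputable def xc2 : XT := (XT.nd (nat_lit 37362) (nat_lit 0) (nat_lit 0) (XT.nd (nat_lit 702) (nat_lit 0) (nat_lit 0) (XT.nd (nat_lit 312) (nat_lit 0) (nat_lit 0) (XT.nd (nat_lit 156) (nat_lit 0) (nat_lit 0) (XT.nd (nat_lit 78) (nat_lit 0) (nat_lit 0) (XT.lf (nat_lit 0) (nat_lit 61672181466) (nat_lit 152) (nat_lit 164751123551) (nat_lit 0) (nat_lit 61593792397) (nat_lit 1) (nat_lit 5) (nat_lit 3) (nat_lit 4) (nat_lit 1) (nat_lit 4) (nat_lit 351) (nat_lit 185) (nat_lit 184)) (XT.lf (nat_lit 0) (nat_lit 65957663187) (nat_lit 152) (nat_lit 170590590495) (nat_lit 0) (nat_lit 65804617863) (nat_lit 1) (nat_lit 5) (nat_lit 3) (nat_lit 4) (nat_lit 1) (nat_lit 4) (nat_lit 352) (nat_lit 185) (nat_lit 183))) (XT.nd (nat_lit 78) (nat_lit 0) (nat_lit 0) (XT.lf (nat_lit 0) (nat_lit 70417653557) (nat_lit 152) (nat_lit 176796289054) (nat_lit 0) (nat_lit 70193507037) (nat_lit 1) (nat_lit 5) (nat_lit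 3) (nat_lit 4) (nat_lit 1) (nat_lit 4) (nat_lit 353) (nat_lit 185) (nat_lit 182)) (XT.lf (nat_lit 0) (nat_lit 75062771599) (nat_lit 152) (nat_lit 183382994699) (nat_lit 0) (nat_lit 74770909655) (nat_lit 1) (nat_lit 5) (nat_lit 3) (nat_lit 4) (nat_lit 1) (nat_lit 4) (nat_lit 354) (nat_lit 185) (nat_lit 181)))) (XT.nd (nat_lit 156) (nat_lit 0) (nat_lit 0) (XT.nd (nat_lit 78) (nat_lit 0) (nat_lit 0) (XT.lf (nat_lit 0) (nat_lit 79904077120) (nat_lit 152) (nat_lit 190366390064) (nat_lit 0) (nat_lit 79547724295) (nat_lit 1) (nat_lit 5) (nat_lit 3) (nat_lit 4) (nat_lit 1) (nat_lit 4) (nat_lit 355) (nat_lit 185) (nat_lit 180)) (XT.lf (nat_lit 0) (nat_lit 84953097036) (nat_lit 152) (nat_lit 197763102280) (nat_lit 0) (nat_lit 84535324325) (nat_lit 1) (nat_lit 5) (nat_lit 3) (nat_lit 4) (nat_lit 1) (nat_lit 4) (nat_lit 356) (nat_lit 185) (nat_lit 179))) (XT.nd (nat_lit 78) (nat_lit 0) (nat_lit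 0) (XT.lf (nat_lit 0) (nat_lit 90221852824) (nat_lit 152) (nat_lit 205590742568) (nat_lit 0) (nat_lit 89745584983) (nat_lit 1) (nat_lit 5) (nat_lit 3) (nat_lit 4) (nat_lit 1) (nat_lit 4) (nat_lit 357) (nat_lit 185) (nat_lit 178)) (XT.nd (nat_lit 78) (nat_lit 0) (nat_lit 0) (XT.lf (nat_lit 0) (nat_lit 95722889140) (nat_lit 152) (nat_lit 213867948165) (nat_lit 0) (nat_lit 95190911652) (nat_lit 1) (nat_lit 5) (nat_lit 3) (nat_lit 4) (nat_lit 1) (nat_lit 4) (nat_lit 358) (nat_lit 185) (nat_lit 177)) (XT.lf (nat_lit 0) (nat_lit 101469303690) (nat_lit 152) (nat_lit 222614426704) (nat_lit 0) (nat_lit 100884269395) (nat_lit 1) (nat_lit 5) (nat_lit 3) (nat_lit 4) (nat_lit 1) (nat_lit 4) (nat_lit 359) (nat_lit 185) (nat_lit 176)))))) (XT.nd (nat_lit 312) (nat_lit 0) (nat_lit 0) (XT.nd (nat_lit 156) (nat_lit 0) (nat_lit 0) (XT.nd (nat_lit 78) (nat_lit 0) (nat_lit 0) (XT.lf (nat_lit 0) (nat_lit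 107474778413) (nat_lit 152) (nat_lit 231851003134) (nat_lit 0) (nat_lit 106839213825) (nat_lit 1) (nat_lit 5) (nat_lit 3) (nat_lit 4) (nat_lit 1) (nat_lit 4) (nat_lit 360) (nat_lit 185) (nat_lit 175)) (XT.lf (nat_lit 0) (nat_lit 113753612059) (nat_lit 152) (nat_lit 241599669304) (nat_lit 0) (nat_lit 113069923383) (nat_lit 1) (nat_lit 5) (nat_lit 3) (nat_lit 4) (nat_lit 1) (nat_lit 4) (nat_lit 361) (nat_lit 185) (nat_lit 174))) (XT.nd (nat_lit 78) (nat_lit 0) (nat_lit 0) (XT.lf (nat_lit 0) (nat_lit 120320754231) (nat_lit 152) (nat_lit 251883636323) (nat_lit 0) (nat_lit 119591233091) (nat_lit 1) (nat_lit 5) (nat_lit 3) (nat_lit 4) (nat_lit 1) (nat_lit 4) (nat_lit 362) (nat_lit 185) (nat_lit 173)) (XT.lf (nat_lit 0) (nat_lit 127191840982) (nat_lit 152) (nat_lit 262727389828) (nat_lit 0) (nat_lit 126418669876) (nat_lit 1) (nat_lit 5) (nat_lit 3) (nat_lit 4) (nat_lit 1) (nat_lit 4) (nat_lit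 363) (nat_lit 185) (nat_lit 172)))) (XT.nd (nat_lit 156) (nat_lit 0) (nat_lit 0) (XT.nd (nat_lit 78) (nat_lit 0) (nat_lit 0) (XT.lf (nat_lit 0) (nat_lit 134383232044) (nat_lit 152) (nat_lit 274156748279) (nat_lit 0) (nat_lit 133568489540) (nat_lit 1) (nat_lit 5) (nat_lit 3) (nat_lit 4) (nat_lit 1) (nat_lit 4) (nat_lit 364) (nat_lit 185) (nat_lit 171)) (XT.lf (nat_lit 0) (nat_lit 141912049774) (nat_lit 152) (nat_lit 286198924434) (nat_lit 0) (nat_lit 141057715465) (nat_lit 1) (nat_lit 5) (nat_lit 3) (nat_lit 4) (nat_lit 1) (nat_lit 4) (nat_lit 365) (nat_lit 185) (nat_lit 170))) (XT.nd (nat_lit 78) (nat_lit 0) (nat_lit 0) (XT.lf (nat_lit 0) (nat_lit 149796219931) (nat_lit 152) (nat_lit 298882590141) (nat_lit 0) (nat_lit 148904179139) (nat_lit 1) (nat_lit 5) (nat_lit 3) (nat_lit 4) (nat_lit 1) (nat_lit 4) (nat_lit 366) (nat_lit 185) (nat_lit 169)) (XT.nd (nat_lit 36036) (nat_lit 0) (nat_lit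 0) (XT.lf (nat_lit 0) (nat_lit 158054514346) (nat_lit 152) (nat_lit 312237944605) (nat_lit 0) (nat_lit 157126562619) (nat_lit 1) (nat_lit 5) (nat_lit 3) (nat_lit 4) (nat_lit 1) (nat_lit 4) (nat_lit 367) (nat_lit 185) (nat_lit 168)) (XT.lf (nat_lit 0) (nat_lit 24933724716) (nat_lit 152) (nat_lit 74626653736) (nat_lit 0) (nat_lit 24933724716) (nat_lit 1) (nat_lit 5) (nat_lit 3) (nat_lit 4) (nat_lit 1) (nat_lit 4) (nat_lit 348) (nat_lit 186) (nat_lit 186))))))) (XT.nd (nat_lit 702) (nat_lit 0) (nat_lit 0) (XT.nd (nat_lit 312) (nat_lit 0) (nat_lit 0) (XT.nd (nat_lit 156) (nat_lit 0) (nat_lit 0) (XT.nd (nat_lit 78) (nat_lit 0) (nat_lit 0) (XT.lf (nat_lit 0) (nat_lit 53666629580) (nat_lit 152) (nat_lit 154116109412) (nat_lit 0) (nat_lit 53584321058) (nat_lit 1) (nat_lit 5) (nat_lit 3) (nat_lit 4) (nat_lit 1) (nat_lit 4) (nat_lit 349) (nat_lit 186) (nat_lit 185)) (XT.lf (nat_lit 0) (nat_lit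 57611927340) (nat_lit 152) (nat_lit 159303921187) (nat_lit 0) (nat_lit 57451229750) (nat_lit 1) (nat_lit 5) (nat_lit 3) (nat_lit 4) (nat_lit 1) (nat_lit 4) (nat_lit 350) (nat_lit 186) (nat_lit 184))) (XT.nd (nat_lit 78) (nat_lit 0) (nat_lit 0) (XT.lf (nat_lit 0) (nat_lit 61712736278) (nat_lit 152) (nat_lit 164829094732) (nat_lit 0) (nat_lit 61477382432) (nat_lit 1) (nat_lit 5) (nat_lit 3) (nat_lit 4) (nat_lit 1) (nat_lit 4) (nat_lit 351) (nat_lit 186) (nat_lit 183)) (XT.lf (nat_lit 0) (nat_lit 65978820224) (nat_lit 152) (nat_lit 170704785221) (nat_lit 0) (nat_lit 65672365183) (nat_lit 1) (nat_lit 5) (nat_lit 3) (nat_lit 4) (nat_lit 1) (nat_lit 4) (nat_lit 352) (nat_lit 186) (nat_lit 182)))) (XT.nd (nat_lit 156) (nat_lit 0) (nat_lit 0) (XT.nd (nat_lit 78) (nat_lit 0) (nat_lit 0) (XT.lf (nat_lit 0) (nat_lit 70420336523) (nat_lit 152) (nat_lit 176944982393) (nat_lit 0) (nat_lit 70046166057)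 (nat_lit 1) (nat_lit 5) (nat_lit 3) (nat_lit 4) (nat_lit 1) (nat_lit 4) (nat_lit 353) (nat_lit 186) (nat_lit 181)) (XT.lf (nat_lit 0) (nat_lit 75047860212) (nat_lit 152) (nat_lit 183564543862) (nat_lit 0) (nat_lit 74609198866) (nat_lit 1) (nat_lit 5) (nat_lit 3) (nat_lit 4) (nat_lit 1) (nat_lit 4) (nat_lit 354) (nat_lit 186) (nat_lit 180))) (XT.nd (nat_lit 78) (nat_lit 0) (nat_lit 0) (XT.lf (nat_lit 0) (nat_lit 79872409206) (nat_lit 152) (nat_lit 190579230487) (nat_lit 0) (nat_lit 79372327973) (nat_lit 1) (nat_lit 5) (nat_lit 3) (nat_lit 4) (nat_lit 1) (nat_lit 4) (nat_lit 355) (nat_lit 186) (nat_lit 179)) (XT.nd (nat_lit 78) (nat_lit 0) (nat_lit 0) (XT.lf (nat_lit 0) (nat_lit 84905470525) (nat_lit 152) (nat_lit 198005743903) (nat_lit 0) (nat_lit 84346894162) (nat_lit 1) (nat_lit 5) (nat_lit 3) (nat_lit 4) (nat_lit 1) (nat_lit 4) (nat_lit 356) (nat_lit 186) (nat_lit 178)) (XT.lf (nat_lit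 0) (nat_lit 90159027649) (nat_lit 152) (nat_lit 205861766286) (nat_lit 0) (nat_lit 89544741639) (nat_lit 1) (nat_lit 5) (nat_lit 3) (nat_lit 4) (nat_lit 1) (nat_lit 4) (nat_lit 357) (nat_lit 186) (nat_lit 177)))))) (XT.nd (nat_lit 312) (nat_lit 0) (nat_lit 0) (XT.nd (nat_lit 156) (nat_lit 0) (nat_lit 0) (XT.nd (nat_lit 78) (nat_lit 0) (nat_lit 0) (XT.lf (nat_lit 0) (nat_lit 95645589047) (nat_lit 152) (nat_lit 214166002450) (nat_lit 0) (nat_lit 94978246230) (nat_lit 1) (nat_lit 5) (nat_lit 3) (nat_lit 4) (nat_lit 1) (nat_lit 4) (nat_lit 358) (nat_lit 186) (nat_lit 176)) (XT.lf (nat_lit 0) (nat_lit 101378217960) (nat_lit 152) (nat_lit 222938224386) (nat_lit 0) (nat_lit 100660344851) (nat_lit 1) (nat_lit 5) (nat_lit 3) (nat_lit 4) (nat_lit 1) (nat_lit 4) (nat_lit 359) (nat_lit 186) (nat_lit 175))) (XT.nd (nat_lit 78) (nat_lit 0) (nat_lit 0) (XT.lf (nat_lit 0) (nat_lit 107370563506) (nat_lit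 152) (nat_lit 232199318337) (nat_lit 0) (nat_lit 106604566309) (nat_lit 1) (nat_lit 5) (nat_lit 3) (nat_lit 4) (nat_lit 1) (nat_lit 4) (nat_lit 360) (nat_lit 186) (nat_lit 174)) (XT.lf (nat_lit 0) (nat_lit 113636893174) (nat_lit 152) (nat_lit 241971334527) (nat_lit 0) (nat_lit 112825063512) (nat_lit 1) (nat_lit 5) (nat_lit 3) (nat_lit 4) (nat_lit 1) (nat_lit 4) (nat_lit 361) (nat_lit 186) (nat_lit 173)))) (XT.nd (nat_lit 156) (nat_lit 0) (nat_lit 0) (XT.nd (nat_lit 78) (nat_lit 0) (nat_lit 0) (XT.lf (nat_lit 0) (nat_lit 120192126795) (nat_lit 152) (nat_lit 252277539661) (nat_lit 0) (nat_lit 119336647167) (nat_lit 1) (nat_lit 5) (nat_lit 3) (nat_lit 4) (nat_lit 1) (nat_lit 4) (nat_lit 362) (nat_lit 186) (nat_lit 172)) (XT.lf (nat_lit 0) (nat_lit 127051872070) (nat_lit 152) (nat_lit 263142472322) (nat_lit 0) (nat_lit 126154821045) (nat_lit 1) (nat_lit 5) (nat_lit 3) (nat_lit 4) (nat_lit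 1) (nat_lit 4) (nat_lit 363) (nat_lit 186) (nat_lit 171))) (XT.nd (nat_lit 78) (nat_lit 0) (nat_lit 0) (XT.lf (nat_lit 0) (nat_lit 134232461724) (nat_lit 152) (nat_lit 274592001398) (nat_lit 0) (nat_lit 133295818893) (nat_lit 1) (nat_lit 5) (nat_lit 3) (nat_lit 4) (nat_lit 1) (nat_lit 4) (nat_lit 364) (nat_lit 186) (nat_lit 170)) (XT.nd (nat_lit 78) (nat_lit 0) (nat_lit 0) (XT.lf (nat_lit 0) (nat_lit 141750992401) (nat_lit 152) (nat_lit 286653387672) (nat_lit 0) (nat_lit 140776643087) (nat_lit 1) (nat_lit 5) (nat_lit 3) (nat_lit 4) (nat_lit 1) (nat_lit 4) (nat_lit 365) (nat_lit 186) (nat_lit 169)) (XT.lf (nat_lit 0) (nat_lit 149625365363) (nat_lit 152) (nat_lit 299355348732) (nat_lit 0) (nat_lit 148615105114) (nat_lit 1) (nat_lit 5) (nat_lit 3) (nat_lit 4) (nat_lit 1) (nat_lit 4) (nat_lit 366) (nat_lit 186) (nat_lit 168))))))))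
noncomputable def xc3 : XT := (XT.nd (nat_lit 37206) (nat_lit 0) (nat_lit 0) (XT.nd (nat_lit 36504) (nat_lit 0) (nat_lit 0) (XT.nd (nat_lit 36114) (nat_lit 0) (nat_lit 0) (XT.nd (nat_lit 35958) (nat_lit 0) (nat_lit 0) (XT.nd (nat_lit 35880) (nat_lit 0) (nat_lit 0) (XT.lf (nat_lit 0) (nat_lit 157874329117) (nat_lit 152) (nat_lit 312728127340) (nat_lit 0) (nat_lit 156829867978) (nat_lit 1) (nat_lit 5) (nat_lit 3) (nat_lit 4) (nat_lit 1) (nat_lit 4) (nat_lit 367) (nat_lit 186) (nat_lit 167)) (XT.lf (nat_lit 0) (nat_lit 21390793866) (nat_lit 152) (nat_lit 70206568512) (nat_lit 0) (nat_lit 21390793866) (nat_lit 1) (nat_lit 5) (nat_lit 3) (nat_lit 4) (nat_lit 1) (nat_lit 4) (nat_lit 346) (nat_lit 187) (nat_lit 187))) (XT.nd (nat_lit 78) (nat_lit 0) (nat_lit 0) (XT.lf (nat_lit 0) (nat_lit 46291765178) (nat_lit 152) (nat_lit 144703937270) (nat_lit 0) (nat_lit 46205341230) (nat_lit 1) (nat_lit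 5) (nat_lit 3) (nat_lit 4) (nat_lit 1) (nat_lit 4) (nat_lit 347) (nat_lit 187) (nat_lit 186)) (XT.lf (nat_lit 0) (nat_lit 49931418032) (nat_lit 152) (nat_lit 149295240754) (nat_lit 0) (nat_lit 49762685562) (nat_lit 1) (nat_lit 5) (nat_lit 3) (nat_lit 4) (nat_lit 1) (nat_lit 4) (nat_lit 348) (nat_lit 187) (nat_lit 185)))) (XT.nd (nat_lit 156) (nat_lit 0) (nat_lit 0) (XT.nd (nat_lit 78) (nat_lit 0) (nat_lit 0) (XT.lf (nat_lit 0) (nat_lit 53709212133) (nat_lit 152) (nat_lit 154197979151) (nat_lit 0) (nat_lit 53462090595) (nat_lit 1) (nat_lit 5) (nat_lit 3) (nat_lit 4) (nat_lit 1) (nat_lit 4) (nat_lit 349) (nat_lit 187) (nat_lit 184)) (XT.lf (nat_lit 0) (nat_lit 57634142229) (nat_lit 152) (nat_lit 159423825649) (nat_lit 0) (nat_lit 57312364436) (nat_lit 1) (nat_lit 5) (nat_lit 3) (nat_lit 4) (nat_lit 1) (nat_lit 4) (nat_lit 350) (nat_lit 187) (nat_lit 183))) (XT.nd (nat_lit 78) (nat_lit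 0) (nat_lit 0) (XT.lf (nat_lit 0) (nat_lit 61715553392) (nat_lit 152) (nat_lit 164985222738) (nat_lit 0) (nat_lit 61322674403) (nat_lit 1) (nat_lit 5) (nat_lit 3) (nat_lit 4) (nat_lit 1) (nat_lit 4) (nat_lit 351) (nat_lit 187) (nat_lit 182)) (XT.nd (nat_lit 78) (nat_lit 0) (nat_lit 0) (XT.lf (nat_lit 0) (nat_lit 65963163268) (nat_lit 152) (nat_lit 170895411841) (nat_lit 0) (nat_lit 65502568854) (nat_lit 1) (nat_lit 5) (nat_lit 3) (nat_lit 4) (nat_lit 1) (nat_lit 4) (nat_lit 352) (nat_lit 187) (nat_lit 181)) (XT.lf (nat_lit 0) (nat_lit 70387085214) (nat_lit 152) (nat_lit 177168464837) (nat_lit 0) (nat_lit 69861999919) (nat_lit 1) (nat_lit 5) (nat_lit 3) (nat_lit 4) (nat_lit 1) (nat_lit 4) (nat_lit 353) (nat_lit 187) (nat_lit 180)))))) (XT.nd (nat_lit 312) (nat_lit 0) (nat_lit 0) (XT.nd (nat_lit 156) (nat_lit 0) (nat_lit 0) (XT.nd (nat_lit 78) (nat_lit 0) (nat_lit 0) (XT.lf (nat_lit 0)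 (nat_lit 74997852376) (nat_lit 152) (nat_lit 183819317566) (nat_lit 0) (nat_lit 74411347195) (nat_lit 1) (nat_lit 5) (nat_lit 3) (nat_lit 4) (nat_lit 1) (nat_lit 4) (nat_lit 354) (nat_lit 187) (nat_lit 179)) (XT.lf (nat_lit 0) (nat_lit 79806442772) (nat_lit 152) (nat_lit 190863805391) (nat_lit 0) (nat_lit 79161442462) (nat_lit 1) (nat_lit 5) (nat_lit 3) (nat_lit 4) (nat_lit 1) (nat_lit 4) (nat_lit 355) (nat_lit 187) (nat_lit 178))) (XT.nd (nat_lit 78) (nat_lit 0) (nat_lit 0) (XT.lf (nat_lit 0) (nat_lit 84824305427) (nat_lit 152) (nat_lit 198318700903) (nat_lit 0) (nat_lit 84123595470) (nat_lit 1) (nat_lit 5) (nat_lit 3) (nat_lit 4) (nat_lit 1) (nat_lit 4) (nat_lit 356) (nat_lit 187) (nat_lit 177)) (XT.lf (nat_lit 0) (nat_lit 90063387633) (nat_lit 152) (nat_lit 206201753852) (nat_lit 0) (nat_lit 89309620868) (nat_lit 1) (nat_lit 5) (nat_lit 3) (nat_lit 4) (nat_lit 1) (nat_lit 4) (nat_lit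 357) (nat_lit 187) (nat_lit 176)))) (XT.nd (nat_lit 156) (nat_lit 0) (nat_lit 0) (XT.nd (nat_lit 78) (nat_lit 0) (nat_lit 0) (XT.lf (nat_lit 0) (nat_lit 95536163395) (nat_lit 152) (nat_lit 214531733413) (nat_lit 0) (nat_lit 94731866338) (nat_lit 1) (nat_lit 5) (nat_lit 3) (nat_lit 4) (nat_lit 1) (nat_lit 4) (nat_lit 358) (nat_lit 187) (nat_lit 175)) (XT.lf (nat_lit 0) (nat_lit 101255663131) (nat_lit 152) (nat_lit 223328472871) (nat_lit 0) (nat_lit 100403241986) (nat_lit 1) (nat_lit 5) (nat_lit 3) (nat_lit 4) (nat_lit 1) (nat_lit 4) (nat_lit 359) (nat_lit 187) (nat_lit 174))) (XT.nd (nat_lit 78) (nat_lit 0) (nat_lit 0) (XT.lf (nat_lit 0) (nat_lit 107235504699) (nat_lit 152) (nat_lit 232612916842) (nat_lit 0) (nat_lit 106337251089) (nat_lit 1) (nat_lit 5) (nat_lit 3) (nat_lit 4) (nat_lit 1) (nat_lit 4) (nat_lit 360) (nat_lit 187) (nat_lit 173)) (XT.nd (nat_lit 78) (nat_lit 0) (nat_lit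 0) (XT.lf (nat_lit 0) (nat_lit 113489925815) (nat_lit 152) (nat_lit 242407171146) (nat_lit 0) (nat_lit 112548022239) (nat_lit 1) (nat_lit 5) (nat_lit 3) (nat_lit 4) (nat_lit 1) (nat_lit 4) (nat_lit 361) (nat_lit 187) (nat_lit 172)) (XT.lf (nat_lit 0) (nat_lit 120033817959) (nat_lit 152) (nat_lit 252734555436) (nat_lit 0) (nat_lit 119050342987) (nat_lit 1) (nat_lit 5) (nat_lit 3) (nat_lit 4) (nat_lit 1) (nat_lit 4) (nat_lit 362) (nat_lit 187) (nat_lit 171))))))) (XT.nd (nat_lit 36348) (nat_lit 0) (nat_lit 0) (XT.nd (nat_lit 312) (nat_lit 0) (nat_lit 0) (XT.nd (nat_lit 156) (nat_lit 0) (nat_lit 0) (XT.nd (nat_lit 78) (nat_lit 0) (nat_lit 0) (XT.lf (nat_lit 0) (nat_lit 126882761827) (nat_lit 152) (nat_lit 263619658723) (nat_lit 0) (nat_lit 125859695048) (nat_lit 1) (nat_lit 5) (nat_lit 3) (nat_lit 4) (nat_lit 1) (nat_lit 4) (nat_lit 363) (nat_lit 187) (nat_lit 170)) (XT.lf (nat_lit 0)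 (nat_lit 134053064428) (nat_lit 152) (nat_lit 275088397918) (nat_lit 0) (nat_lit 132992291166) (nat_lit 1) (nat_lit 5) (nat_lit 3) (nat_lit 4) (nat_lit 1) (nat_lit 4) (nat_lit 364) (nat_lit 187) (nat_lit 169))) (XT.nd (nat_lit 78) (nat_lit 0) (nat_lit 0) (XT.lf (nat_lit 0) (nat_lit 141561797910) (nat_lit 152) (nat_lit 287168079544) (nat_lit 0) (nat_lit 140465113713) (nat_lit 1) (nat_lit 5) (nat_lit 3) (nat_lit 4) (nat_lit 1) (nat_lit 4) (nat_lit 365) (nat_lit 187) (nat_lit 168)) (XT.lf (nat_lit 0) (nat_lit 149426840211) (nat_lit 152) (nat_lit 299887464747) (nat_lit 0) (nat_lit 148295955123) (nat_lit 1) (nat_lit 5) (nat_lit 3) (nat_lit 4) (nat_lit 1) (nat_lit 4) (nat_lit 366) (nat_lit 187) (nat_lit 167)))) (XT.nd (nat_lit 35802) (nat_lit 0) (nat_lit 0) (XT.nd (nat_lit 35724) (nat_lit 0) (nat_lit 0) (XT.lf (nat_lit 0) (nat_lit 157666917622) (nat_lit 152) (nat_lit 313276837779) (nat_lit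 0) (nat_lit 156503460257) (nat_lit 1) (nat_lit 5) (nat_lit 3) (nat_lit 4) (nat_lit 1) (nat_lit 4) (nat_lit 367) (nat_lit 187) (nat_lit 166)) (XT.lf (nat_lit 0) (nat_lit 18116009671) (nat_lit 152) (nat_lit 66323320602) (nat_lit 0) (nat_lit 18116009671) (nat_lit 1) (nat_lit 5) (nat_lit 3) (nat_lit 4) (nat_lit 1) (nat_lit 4) (nat_lit 344) (nat_lit 188) (nat_lit 188))) (XT.nd (nat_lit 78) (nat_lit 0) (nat_lit 0) (XT.lf (nat_lit 0) (nat_lit 39483273273) (nat_lit 152) (nat_lit 136412623828) (nat_lit 0) (nat_lit 39392528128) (nat_lit 1) (nat_lit 5) (nat_lit 3) (nat_lit 4) (nat_lit 1) (nat_lit 4) (nat_lit 345) (nat_lit 188) (nat_lit 187)) (XT.nd (nat_lit 78) (nat_lit 0) (nat_lit 0) (XT.lf (nat_lit 0) (nat_lit 42848754761) (nat_lit 152) (nat_lit 140457166971) (nat_lit 0) (nat_lit 42671585668) (nat_lit 1) (nat_lit 5) (nat_lit 3) (nat_lit 4) (nat_lit 1) (nat_lit 4) (nat_lit 346) (nat_lit 188)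 (nat_lit 186)) (XT.lf (nat_lit 0) (nat_lit 46336476859) (nat_lit 152) (nat_lit 144789900497) (nat_lit 0) (nat_lit 46076999244) (nat_lit 1) (nat_lit 5) (nat_lit 3) (nat_lit 4) (nat_lit 1) (nat_lit 4) (nat_lit 347) (nat_lit 188) (nat_lit 185)))))) (XT.nd (nat_lit 390) (nat_lit 0) (nat_lit 0) (XT.nd (nat_lit 156) (nat_lit 0) (nat_lit 0) (XT.nd (nat_lit 78) (nat_lit 0) (nat_lit 0) (XT.lf (nat_lit 0) (nat_lit 49954743666) (nat_lit 152) (nat_lit 149421140439) (nat_lit 0) (nat_lit 49616876982) (nat_lit 1) (nat_lit 5) (nat_lit 3) (nat_lit 4) (nat_lit 1) (nat_lit 4) (nat_lit 348) (nat_lit 188) (nat_lit 184)) (XT.lf (nat_lit 0) (nat_lit 53712170103) (nat_lit 152) (nat_lit 154361913558) (nat_lit 0) (nat_lit 53299647165) (nat_lit 1) (nat_lit 5) (nat_lit 3) (nat_lit 4) (nat_lit 1) (nat_lit 4) (nat_lit 349) (nat_lit 188) (nat_lit 183))) (XT.nd (nat_lit 78) (nat_lit 0) (nat_lit 0) (XT.lf (nat_lit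 0) (nat_lit 57617702425) (nat_lit 152) (nat_lit 159623983601) (nat_lit 0) (nat_lit 57134078291) (nat_lit 1) (nat_lit 5) (nat_lit 3) (nat_lit 4) (nat_lit 1) (nat_lit 4) (nat_lit 350) (nat_lit 188) (nat_lit 182)) (XT.nd (nat_lit 78) (nat_lit 0) (nat_lit 0) (XT.lf (nat_lit 0) (nat_lit 61680639517) (nat_lit 152) (nat_lit 165219879304) (nat_lit 0) (nat_lit 61129299958) (nat_lit 1) (nat_lit 5) (nat_lit 3) (nat_lit 4) (nat_lit 1) (nat_lit 4) (nat_lit 351) (nat_lit 188) (nat_lit 181)) (XT.lf (nat_lit 0) (nat_lit 65910655040) (nat_lit 152) (nat_lit 171162924231) (nat_lit 0) (nat_lit 65294824600) (nat_lit 1) (nat_lit 5) (nat_lit 3) (nat_lit 4) (nat_lit 1) (nat_lit 4) (nat_lit 352) (nat_lit 188) (nat_lit 180))))) (XT.nd (nat_lit 156) (nat_lit 0) (nat_lit 0) (XT.nd (nat_lit 78) (nat_lit 0) (nat_lit 0) (XT.lf (nat_lit 0) (nat_lit 70317820458) (nat_lit 152) (nat_lit 177467268486) (nat_lit 0) (nat_lit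 69640570132) (nat_lit 1) (nat_lit 5) (nat_lit 3) (nat_lit 4) (nat_lit 1) (nat_lit 4) (nat_lit 353) (nat_lit 188) (nat_lit 179)) (XT.lf (nat_lit 0) (nat_lit 74912629023) (nat_lit 152) (nat_lit 184147922415) (nat_lit 0) (nat_lit 74176883568) (nat_lit 1) (nat_lit 5) (nat_lit 3) (nat_lit 4) (nat_lit 1) (nat_lit 4) (nat_lit 354) (nat_lit 188) (nat_lit 178))) (XT.nd (nat_lit 78) (nat_lit 0) (nat_lit 0) (XT.lf (nat_lit 0) (nat_lit 79706020756) (nat_lit 152) (nat_lit 191220792335) (nat_lit 0) (nat_lit 78914565653) (nat_lit 1) (nat_lit 5) (nat_lit 3) (nat_lit 4) (nat_lit 1) (nat_lit 4) (nat_lit 355) (nat_lit 188) (nat_lit 177)) (XT.nd (nat_lit 78) (nat_lit 0) (nat_lit 0) (XT.lf (nat_lit 0) (nat_lit 84709408493) (nat_lit 152) (nat_lit 198702718414) (nat_lit 0) (nat_lit 83864896583) (nat_lit 1) (nat_lit 5) (nat_lit 3) (nat_lit 4) (nat_lit 1) (nat_lit 4) (nat_lit 356) (nat_lit 188) (nat_lit 176))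 (XT.lf (nat_lit 0) (nat_lit 89934705062) (nat_lit 152) (nat_lit 206611514761) (nat_lit 0) (nat_lit 89039662860) (nat_lit 1) (nat_lit 5) (nat_lit 3) (nat_lit 4) (nat_lit 1) (nat_lit 4) (nat_lit 357) (nat_lit 188) (nat_lit 175))))))))
noncomputable def xc4 : XT := (XT.nd (nat_lit 36894) (nat_lit 0) (nat_lit 0) (XT.nd (nat_lit 702) (nat_lit 0) (nat_lit 0) (XT.nd (nat_lit 312) (nat_lit 0) (nat_lit 0) (XT.nd (nat_lit 156) (nat_lit 0) (nat_lit 0) (XT.nd (nat_lit 78) (nat_lit 0) (nat_lit 0) (XT.lf (nat_lit 0) (nat_lit 95394351647) (nat_lit 152) (nat_lit 214966011843) (nat_lit 0) (nat_lit 94451185357) (nat_lit 1) (nat_lit 5) (nat_lit 3) (nat_lit 4) (nat_lit 1) (nat_lit 4) (nat_lit 358) (nat_lit 188) (nat_lit 174)) (XT.lf (nat_lit 0) (nat_lit 101101347405) (nat_lit 152) (nat_lit 223786101320) (nat_lit 0) (nat_lit 100112348650) (nat_lit 1) (nat_lit 5) (nat_lit 3) (nat_lit 4) (nat_lit 1) (nat_lit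 4) (nat_lit 359) (nat_lit 188) (nat_lit 173))) (XT.nd (nat_lit 78) (nat_lit 0) (nat_lit 0) (XT.lf (nat_lit 0) (nat_lit 107069280421) (nat_lit 152) (nat_lit 233092783406) (nat_lit 0) (nat_lit 106036631700) (nat_lit 1) (nat_lit 5) (nat_lit 3) (nat_lit 4) (nat_lit 1) (nat_lit 4) (nat_lit 360) (nat_lit 188) (nat_lit 172)) (XT.lf (nat_lit 0) (nat_lit 113312360061) (nat_lit 152) (nat_lit 242908216867) (nat_lit 0) (nat_lit 112238139943) (nat_lit 1) (nat_lit 5) (nat_lit 3) (nat_lit 4) (nat_lit 1) (nat_lit 4) (nat_lit 361) (nat_lit 188) (nat_lit 171)))) (XT.nd (nat_lit 156) (nat_lit 0) (nat_lit 0) (XT.nd (nat_lit 78) (nat_lit 0) (nat_lit 0) (XT.lf (nat_lit 0) (nat_lit 119845450798) (nat_lit 152) (nat_lit 253255771782) (nat_lit 0) (nat_lit 118731638874) (nat_lit 1) (nat_lit 5) (nat_lit 3) (nat_lit 4) (nat_lit 1) (nat_lit 4) (nat_lit 362) (nat_lit 188) (nat_lit 170)) (XT.lf (nat_lit 0) (nat_lit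 126684107612) (nat_lit 152) (nat_lit 264160085188) (nat_lit 0) (nat_lit 125532589206) (nat_lit 1) (nat_lit 5) (nat_lit 3) (nat_lit 4) (nat_lit 1) (nat_lit 4) (nat_lit 363) (nat_lit 188) (nat_lit 169))) (XT.nd (nat_lit 78) (nat_lit 0) (nat_lit 0) (XT.lf (nat_lit 0) (nat_lit 133844613018) (nat_lit 152) (nat_lit 275647119735) (nat_lit 0) (nat_lit 132657183676) (nat_lit 1) (nat_lit 5) (nat_lit 3) (nat_lit 4) (nat_lit 1) (nat_lit 4) (nat_lit 364) (nat_lit 188) (nat_lit 168)) (XT.nd (nat_lit 78) (nat_lit 0) (nat_lit 0) (XT.lf (nat_lit 0) (nat_lit 141344015839) (nat_lit 152) (nat_lit 287744225505) (nat_lit 0) (nat_lit 140122385607) (nat_lit 1) (nat_lit 5) (nat_lit 3) (nat_lit 4) (nat_lit 1) (nat_lit 4) (nat_lit 365) (nat_lit 188) (nat_lit 167)) (XT.lf (nat_lit 0) (nat_lit 149200171796) (nat_lit 152) (nat_lit 300480205132) (nat_lit 0) (nat_lit 147945969286) (nat_lit 1) (nat_lit 5) (nat_lit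 3) (nat_lit 4) (nat_lit 1) (nat_lit 4) (nat_lit 366) (nat_lit 188) (nat_lit 166)))))) (XT.nd (nat_lit 35802) (nat_lit 0) (nat_lit 0) (XT.nd (nat_lit 35646) (nat_lit 0) (nat_lit 0) (XT.nd (nat_lit 35568) (nat_lit 0) (nat_lit 0) (XT.lf (nat_lit 0) (nat_lit 157431786022) (nat_lit 152) (nat_lit 313885382376) (nat_lit 0) (nat_lit 156146562296) (nat_lit 1) (nat_lit 5) (nat_lit 3) (nat_lit 4) (nat_lit 1) (nat_lit 4) (nat_lit 367) (nat_lit 188) (nat_lit 165)) (XT.lf (nat_lit 0) (nat_lit 15081380325) (nat_lit 152) (nat_lit 62933294944) (nat_lit 0) (nat_lit 15081380325) (nat_lit 1) (nat_lit 5) (nat_lit 3) (nat_lit 4) (nat_lit 1) (nat_lit 4) (nat_lit 342) (nat_lit 189) (nat_lit 189))) (XT.nd (nat_lit 78) (nat_lit 0) (nat_lit 0) (XT.lf (nat_lit 0) (nat_lit 33182534294) (nat_lit 152) (nat_lit 129150252475) (nat_lit 0) (nat_lit 33087251891) (nat_lit 1) (nat_lit 5) (nat_lit 3) (nat_lit 4) (nat_lit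 1) (nat_lit 4) (nat_lit 343) (nat_lit 189) (nat_lit 188)) (XT.lf (nat_lit 0) (nat_lit 36302544724) (nat_lit 152) (nat_lit 132692872647) (nat_lit 0) (nat_lit 36116517176) (nat_lit 1) (nat_lit 5) (nat_lit 3) (nat_lit 4) (nat_lit 1) (nat_lit 4) (nat_lit 344) (nat_lit 189) (nat_lit 187)))) (XT.nd (nat_lit 156) (nat_lit 0) (nat_lit 0) (XT.nd (nat_lit 78) (nat_lit 0) (nat_lit 0) (XT.lf (nat_lit 0) (nat_lit 39530220537) (nat_lit 152) (nat_lit 136502885216) (nat_lit 0) (nat_lit 39257769042) (nat_lit 1) (nat_lit 5) (nat_lit 3) (nat_lit 4) (nat_lit 1) (nat_lit 4) (nat_lit 345) (nat_lit 189) (nat_lit 186)) (XT.lf (nat_lit 0) (nat_lit 42873246677) (nat_lit 152) (nat_lit 140589361640) (nat_lit 0) (nat_lit 42518486659) (nat_lit 1) (nat_lit 5) (nat_lit 3) (nat_lit 4) (nat_lit 1) (nat_lit 4) (nat_lit 346) (nat_lit 189) (nat_lit 185))) (XT.nd (nat_lit 78) (nat_lit 0) (nat_lit 0) (XT.lf (nat_lit 0) (nat_lit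 46339582728) (nat_lit 152) (nat_lit 144962031624) (nat_lit 0) (nat_lit 45906433642) (nat_lit 1) (nat_lit 5) (nat_lit 3) (nat_lit 4) (nat_lit 1) (nat_lit 4) (nat_lit 347) (nat_lit 189) (nat_lit 184)) (XT.nd (nat_lit 78) (nat_lit 0) (nat_lit 0) (XT.lf (nat_lit 0) (nat_lit 49937481871) (nat_lit 152) (nat_lit 149631306288) (nat_lit 0) (nat_lit 49429676530) (nat_lit 1) (nat_lit 5) (nat_lit 3) (nat_lit 4) (nat_lit 1) (nat_lit 4) (nat_lit 348) (nat_lit 189) (nat_lit 183)) (XT.lf (nat_lit 0) (nat_lit 53675510535) (nat_lit 152) (nat_lit 154608302952) (nat_lit 0) (nat_lit 53096603998) (nat_lit 1) (nat_lit 5) (nat_lit 3) (nat_lit 4) (nat_lit 1) (nat_lit 4) (nat_lit 349) (nat_lit 189) (nat_lit 182))))))) (XT.nd (nat_lit 702) (nat_lit 0) (nat_lit 0) (XT.nd (nat_lit 312) (nat_lit 0) (nat_lit 0) (XT.nd (nat_lit 156) (nat_lit 0) (nat_lit 0) (XT.nd (nat_lit 78) (nat_lit 0) (nat_lit 0) (XT.lf (nat_lit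 0) (nat_lit 57562568785) (nat_lit 152) (nat_lit 159904871609) (nat_lit 0) (nat_lit 56915946824) (nat_lit 1) (nat_lit 5) (nat_lit 3) (nat_lit 4) (nat_lit 1) (nat_lit 4) (nat_lit 350) (nat_lit 189) (nat_lit 181)) (XT.lf (nat_lit 0) (nat_lit 61607911524) (nat_lit 152) (nat_lit 165533623136) (nat_lit 0) (nat_lit 60896798682) (nat_lit 1) (nat_lit 5) (nat_lit 3) (nat_lit 4) (nat_lit 1) (nat_lit 4) (nat_lit 351) (nat_lit 189) (nat_lit 180))) (XT.nd (nat_lit 78) (nat_lit 0) (nat_lit 0) (XT.lf (nat_lit 0) (nat_lit 65821170520) (nat_lit 152) (nat_lit 171507959322) (nat_lit 0) (nat_lit 65048637791) (nat_lit 1) (nat_lit 5) (nat_lit 3) (nat_lit 4) (nat_lit 1) (nat_lit 4) (nat_lit 352) (nat_lit 189) (nat_lit 179)) (XT.lf (nat_lit 0) (nat_lit 70212377341) (nat_lit 152) (nat_lit 177842104778) (nat_lit 0) (nat_lit 69381349483) (nat_lit 1) (nat_lit 5) (nat_lit 3) (nat_lit 4) (nat_lit 1) (nat_lit 4) (nat_lit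 353) (nat_lit 189) (nat_lit 178)))) (XT.nd (nat_lit 156) (nat_lit 0) (nat_lit 0) (XT.nd (nat_lit 78) (nat_lit 0) (nat_lit 0) (XT.lf (nat_lit 0) (nat_lit 74791987242) (nat_lit 152) (nat_lit 184551140802) (nat_lit 0) (nat_lit 73905249737) (nat_lit 1) (nat_lit 5) (nat_lit 3) (nat_lit 4) (nat_lit 1) (nat_lit 4) (nat_lit 354) (nat_lit 189) (nat_lit 177)) (XT.lf (nat_lit 0) (nat_lit 79570904057) (nat_lit 152) (nat_lit 191651041289) (nat_lit 0) (nat_lit 78631109744) (nat_lit 1) (nat_lit 5) (nat_lit 3) (nat_lit 4) (nat_lit 1) (nat_lit 4) (nat_lit 355) (nat_lit 189) (nat_lit 176))) (XT.nd (nat_lit 78) (nat_lit 0) (nat_lit 0) (XT.lf (nat_lit 0) (nat_lit 84560506157) (nat_lit 152) (nat_lit 199158710765) (nat_lit 0) (nat_lit 83570181553) (nat_lit 1) (nat_lit 5) (nat_lit 3) (nat_lit 4) (nat_lit 1) (nat_lit 4) (nat_lit 356) (nat_lit 189) (nat_lit 175)) (XT.nd (nat_lit 78) (nat_lit 0) (nat_lit 0)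 (XT.lf (nat_lit 0) (nat_lit 89772673550) (nat_lit 152) (nat_lit 207092024633) (nat_lit 0) (nat_lit 88734224857) (nat_lit 1) (nat_lit 5) (nat_lit 3) (nat_lit 4) (nat_lit 1) (nat_lit 4) (nat_lit 357) (nat_lit 189) (nat_lit 174)) (XT.lf (nat_lit 0) (nat_lit 95219816156) (nat_lit 152) (nat_lit 215469871735) (nat_lit 0) (nat_lit 94135534998) (nat_lit 1) (nat_lit 5) (nat_lit 3) (nat_lit 4) (nat_lit 1) (nat_lit 4) (nat_lit 358) (nat_lit 189) (nat_lit 173)))))) (XT.nd (nat_lit 312) (nat_lit 0) (nat_lit 0) (XT.nd (nat_lit 156) (nat_lit 0) (nat_lit 0) (XT.nd (nat_lit 78) (nat_lit 0) (nat_lit 0) (XT.lf (nat_lit 0) (nat_lit 100914903363) (nat_lit 152) (nat_lit 224312199327) (nat_lit 0) (nat_lit 99786972239) (nat_lit 1) (nat_lit 5) (nat_lit 3) (nat_lit 4) (nat_lit 1) (nat_lit 4) (nat_lit 359) (nat_lit 189) (nat_lit 172)) (XT.lf (nat_lit 0) (nat_lit 106871494902) (nat_lit 152) (nat_lit 233640060569)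 (nat_lit 0) (nat_lit 105701992382) (nat_lit 1) (nat_lit 5) (nat_lit 3) (nat_lit 4) (nat_lit 1) (nat_lit 4) (nat_lit 360) (nat_lit 189) (nat_lit 171))) (XT.nd (nat_lit 78) (nat_lit 0) (nat_lit 0) (XT.lf (nat_lit 0) (nat_lit 113103773135) (nat_lit 152) (nat_lit 243475664655) (nat_lit 0) (nat_lit 111894678808) (nat_lit 1) (nat_lit 5) (nat_lit 3) (nat_lit 4) (nat_lit 1) (nat_lit 4) (nat_lit 361) (nat_lit 189) (nat_lit 170)) (XT.lf (nat_lit 0) (nat_lit 119626576819) (nat_lit 152) (nat_lit 253842429690) (nat_lit 0) (nat_lit 118379776009) (nat_lit 1) (nat_lit 5) (nat_lit 3) (nat_lit 4) (nat_lit 1) (nat_lit 4) (nat_lit 362) (nat_lit 189) (nat_lit 169)))) (XT.nd (nat_lit 156) (nat_lit 0) (nat_lit 0) (XT.nd (nat_lit 78) (nat_lit 0) (nat_lit 0) (XT.lf (nat_lit 0) (nat_lit 126455436438) (nat_lit 152) (nat_lit 264765038447) (nat_lit 0) (nat_lit 125172724694) (nat_lit 1) (nat_lit 5) (nat_lit 3) (nat_lit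 4) (nat_lit 1) (nat_lit 4) (nat_lit 363) (nat_lit 189) (nat_lit 168)) (XT.lf (nat_lit 0) (nat_lit 133606611183) (nat_lit 152) (nat_lit 276269497138) (nat_lit 0) (nat_lit 132289698548) (nat_lit 1) (nat_lit 5) (nat_lit 3) (nat_lit 4) (nat_lit 1) (nat_lit 4) (nat_lit 364) (nat_lit 189) (nat_lit 167))) (XT.nd (nat_lit 78) (nat_lit 0) (nat_lit 0) (XT.lf (nat_lit 0) (nat_lit 141097127660) (nat_lit 152) (nat_lit 288383197332) (nat_lit 0) (nat_lit 139747642748) (nat_lit 1) (nat_lit 5) (nat_lit 3) (nat_lit 4) (nat_lit 1) (nat_lit 4) (nat_lit 365) (nat_lit 189) (nat_lit 166)) (XT.nd (nat_lit 78) (nat_lit 0) (nat_lit 0) (XT.lf (nat_lit 0) (nat_lit 148944820432) (nat_lit 152) (nat_lit 301134981172) (nat_lit 0) (nat_lit 147564314304) (nat_lit 1) (nat_lit 5) (nat_lit 3) (nat_lit 4) (nat_lit 1) (nat_lit 4) (nat_lit 366) (nat_lit 189) (nat_lit 165)) (XT.lf (nat_lit 0) (nat_lit 157168374482) (nat_lit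 152) (nat_lit 314555210047) (nat_lit 0) (nat_lit 155758324338) (nat_lit 1) (nat_lit 5) (nat_lit 3) (nat_lit 4) (nat_lit 1) (nat_lit 4) (nat_lit 367) (nat_lit 189) (nat_lit 164))))))))
noncomputable def xc5 : XT := (XT.nd (nat_lit 1404) (nat_lit 0) (nat_lit 0) (XT.nd (nat_lit 702) (nat_lit 0) (nat_lit 0) (XT.nd (nat_lit 312) (nat_lit 0) (nat_lit 0) (XT.nd (nat_lit 156) (nat_lit 0) (nat_lit 0) (XT.nd (nat_lit 78) (nat_lit 0) (nat_lit 0) (XT.lf (nat_lit 0) (nat_lit 12261363328) (nat_lit 152) (nat_lit 59997246142) (nat_lit 0) (nat_lit 12261363328) (nat_lit 1) (nat_lit 5) (nat_lit 3) (nat_lit 4) (nat_lit 1) (nat_lit 4) (nat_lit 340) (nat_lit 190) (nat_lit 190)) (XT.lf (nat_lit 0) (nat_lit 27336080380) (nat_lit 152) (nat_lit 122834066645) (nat_lit 0) (nat_lit 27236033857) (nat_lit 1) (nat_lit 5) (nat_lit 3) (nat_lit 4) (nat_lit 1) (nat_lit 4) (nat_lit 341) (nat_lit 190) (nat_lit 189))) (XT.nd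 (nat_lit 78) (nat_lit 0) (nat_lit 0) (XT.lf (nat_lit 0) (nat_lit 30236812300) (nat_lit 152) (nat_lit 125915132904) (nat_lit 0) (nat_lit 30041483375) (nat_lit 1) (nat_lit 5) (nat_lit 3) (nat_lit 4) (nat_lit 1) (nat_lit 4) (nat_lit 342) (nat_lit 190) (nat_lit 188)) (XT.lf (nat_lit 0) (nat_lit 33231828921) (nat_lit 152) (nat_lit 129245026932) (nat_lit 0) (nat_lit 32945754851) (nat_lit 1) (nat_lit 5) (nat_lit 3) (nat_lit 4) (nat_lit 1) (nat_lit 4) (nat_lit 343) (nat_lit 190) (nat_lit 187)))) (XT.nd (nat_lit 156) (nat_lit 0) (nat_lit 0) (XT.nd (nat_lit 78) (nat_lit 0) (nat_lit 0) (XT.lf (nat_lit 0) (nat_lit 36328261235) (nat_lit 152) (nat_lit 132831677050) (nat_lit 0) (nat_lit 35955763217) (nat_lit 1) (nat_lit 5) (nat_lit 3) (nat_lit 4) (nat_lit 1) (nat_lit 4) (nat_lit 344) (nat_lit 190) (nat_lit 186)) (XT.lf (nat_lit 0) (nat_lit 39533481700) (nat_lit 152) (nat_lit 136683622900) (nat_lit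 0) (nat_lit 39078675160) (nat_lit 1) (nat_lit 5) (nat_lit 3) (nat_lit 4) (nat_lit 1) (nat_lit 4) (nat_lit 345) (nat_lit 190) (nat_lit 185))) (XT.nd (nat_lit 78) (nat_lit 0) (nat_lit 0) (XT.lf (nat_lit 0) (nat_lit 42855121793) (nat_lit 152) (nat_lit 140810035782) (nat_lit 0) (nat_lit 42321926184) (nat_lit 1) (nat_lit 5) (nat_lit 3) (nat_lit 4) (nat_lit 1) (nat_lit 4) (nat_lit 346) (nat_lit 190) (nat_lit 184)) (XT.nd (nat_lit 78) (nat_lit 0) (nat_lit 0) (XT.lf (nat_lit 0) (nat_lit 46301090180) (nat_lit 152) (nat_lit 145220740488) (nat_lit 0) (nat_lit 45693238317) (nat_lit 1) (nat_lit 5) (nat_lit 3) (nat_lit 4) (nat_lit 1) (nat_lit 4) (nat_lit 347) (nat_lit 190) (nat_lit 183)) (XT.lf (nat_lit 0) (nat_lit 49879591550) (nat_lit 152) (nat_lit 149926238697) (nat_lit 0) (nat_lit 49200638490) (nat_lit 1) (nat_lit 5) (nat_lit 3) (nat_lit 4) (nat_lit 1) (nat_lit 4) (nat_lit 348) (nat_lit 190)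 (nat_lit 182)))))) (XT.nd (nat_lit 312) (nat_lit 0) (nat_lit 0) (XT.nd (nat_lit 156) (nat_lit 0) (nat_lit 0) (XT.nd (nat_lit 78) (nat_lit 0) (nat_lit 0) (XT.lf (nat_lit 0) (nat_lit 53599146142) (nat_lit 152) (nat_lit 154937733976) (nat_lit 0) (nat_lit 52852477658) (nat_lit 1) (nat_lit 5) (nat_lit 3) (nat_lit 4) (nat_lit 1) (nat_lit 4) (nat_lit 349) (nat_lit 190) (nat_lit 181)) (XT.lf (nat_lit 0) (nat_lit 57468610039) (nat_lit 152) (nat_lit 160267158456) (nat_lit 0) (nat_lit 56657450674) (nat_lit 1) (nat_lit 5) (nat_lit 3) (nat_lit 4) (nat_lit 1) (nat_lit 4) (nat_lit 350) (nat_lit 190) (nat_lit 180))) (XT.nd (nat_lit 78) (nat_lit 0) (nat_lit 0) (XT.lf (nat_lit 0) (nat_lit 61497196251) (nat_lit 152) (nat_lit 165927201242) (nat_lit 0) (nat_lit 60624617000) (nat_lit 1) (nat_lit 5) (nat_lit 3) (nat_lit 4) (nat_lit 1) (nat_lit 4) (nat_lit 351) (nat_lit 190) (nat_lit 179)) (XT.lf (nat_lit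 0) (nat_lit 65694496650) (nat_lit 152) (nat_lit 171931338629) (nat_lit 0) (nat_lit 64763422269) (nat_lit 1) (nat_lit 5) (nat_lit 3) (nat_lit 4) (nat_lit 1) (nat_lit 4) (nat_lit 352) (nat_lit 190) (nat_lit 178)))) (XT.nd (nat_lit 156) (nat_lit 0) (nat_lit 0) (XT.nd (nat_lit 78) (nat_lit 0) (nat_lit 0) (XT.lf (nat_lit 0) (nat_lit 70070504807) (nat_lit 152) (nat_lit 178293866180) (nat_lit 0) (nat_lit 69083720779) (nat_lit 1) (nat_lit 5) (nat_lit 3) (nat_lit 4) (nat_lit 1) (nat_lit 4) (nat_lit 353) (nat_lit 190) (nat_lit 177)) (XT.lf (nat_lit 0) (nat_lit 74635639790) (nat_lit 152) (nat_lit 185029932771) (nat_lit 0) (nat_lit 73595798955) (nat_lit 1) (nat_lit 5) (nat_lit 3) (nat_lit 4) (nat_lit 1) (nat_lit 4) (nat_lit 354) (nat_lit 190) (nat_lit 176))) (XT.nd (nat_lit 78) (nat_lit 0) (nat_lit 0) (XT.lf (nat_lit 0) (nat_lit 79400770968) (nat_lit 152) (nat_lit 192155576655) (nat_lit 0) (nat_lit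 78310399841) (nat_lit 1) (nat_lit 5) (nat_lit 3) (nat_lit 4) (nat_lit 1) (nat_lit 4) (nat_lit 355) (nat_lit 190) (nat_lit 175)) (XT.nd (nat_lit 78) (nat_lit 0) (nat_lit 0) (XT.lf (nat_lit 0) (nat_lit 84377243892) (nat_lit 152) (nat_lit 199687763652) (nat_lit 0) (nat_lit 83238748676) (nat_lit 1) (nat_lit 5) (nat_lit 3) (nat_lit 4) (nat_lit 1) (nat_lit 4) (nat_lit 356) (nat_lit 190) (nat_lit 174)) (XT.lf (nat_lit 0) (nat_lit 89576907305) (nat_lit 152) (nat_lit 207644427540) (nat_lit 0) (nat_lit 88392579625) (nat_lit 1) (nat_lit 5) (nat_lit 3) (nat_lit 4) (nat_lit 1) (nat_lit 4) (nat_lit 357) (nat_lit 190) (nat_lit 173))))))) (XT.nd (nat_lit 702) (nat_lit 0) (nat_lit 0) (XT.nd (nat_lit 312) (nat_lit 0) (nat_lit 0) (XT.nd (nat_lit 156) (nat_lit 0) (nat_lit 0) (XT.nd (nat_lit 78) (nat_lit 0) (nat_lit 0) (XT.lf (nat_lit 0) (nat_lit 95012141361) (nat_lit 152) (nat_lit 216044512756) (nat_lit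 0) (nat_lit 93784163714) (nat_lit 1) (nat_lit 5) (nat_lit 3) (nat_lit 4) (nat_lit 1) (nat_lit 4) (nat_lit 358) (nat_lit 190) (nat_lit 172)) (XT.lf (nat_lit 0) (nat_lit 100695887091) (nat_lit 152) (nat_lit 224908019505) (nat_lit 0) (nat_lit 99426338047) (nat_lit 1) (nat_lit 5) (nat_lit 3) (nat_lit 4) (nat_lit 1) (nat_lit 4) (nat_lit 359) (nat_lit 190) (nat_lit 171))) (XT.nd (nat_lit 78) (nat_lit 0) (nat_lit 0) (XT.lf (nat_lit 0) (nat_lit 106641677223) (nat_lit 152) (nat_lit 234256051372) (nat_lit 0) (nat_lit 105332536374) (nat_lit 1) (nat_lit 5) (nat_lit 3) (nat_lit 4) (nat_lit 1) (nat_lit 4) (nat_lit 360) (nat_lit 190) (nat_lit 170)) (XT.lf (nat_lit 0) (nat_lit 112863668402) (nat_lit 152) (nat_lit 244110865577) (nat_lit 0) (nat_lit 111516821070) (nat_lit 1) (nat_lit 5) (nat_lit 3) (nat_lit 4) (nat_lit 1) (nat_lit 4) (nat_lit 361) (nat_lit 190) (nat_lit 169)))) (XT.nd (nat_lit 156) (nat_lit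 0) (nat_lit 0) (XT.nd (nat_lit 78) (nat_lit 0) (nat_lit 0) (XT.lf (nat_lit 0) (nat_lit 119376674891) (nat_lit 152) (nat_lit 254495925964) (nat_lit 0) (nat_lit 117993916624) (nat_lit 1) (nat_lit 5) (nat_lit 3) (nat_lit 4) (nat_lit 1) (nat_lit 4) (nat_lit 362) (nat_lit 190) (nat_lit 168)) (XT.lf (nat_lit 0) (nat_lit 126196203850) (nat_lit 152) (nat_lit 265435958865) (nat_lit 0) (nat_lit 124779244692) (nat_lit 1) (nat_lit 5) (nat_lit 3) (nat_lit 4) (nat_lit 1) (nat_lit 4) (nat_lit 363) (nat_lit 190) (nat_lit 167))) (XT.nd (nat_lit 78) (nat_lit 0) (nat_lit 0) (XT.lf (nat_lit 0) (nat_lit 133338492251) (nat_lit 152) (nat_lit 276957011980) (nat_lit 0) (nat_lit 131888960816) (nat_lit 1) (nat_lit 5) (nat_lit 3) (nat_lit 4) (nat_lit 1) (nat_lit 4) (nat_lit 364) (nat_lit 190) (nat_lit 166)) (XT.nd (nat_lit 78) (nat_lit 0) (nat_lit 0) (XT.lf (nat_lit 0) (nat_lit 140820545543) (nat_lit 152) (nat_lit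 289086516387) (nat_lit 0) (nat_lit 139339992892) (nat_lit 1) (nat_lit 5) (nat_lit 3) (nat_lit 4) (nat_lit 1) (nat_lit 4) (nat_lit 365) (nat_lit 190) (nat_lit 165)) (XT.lf (nat_lit 0) (nat_lit 148660178139) (nat_lit 152) (nat_lit 301853351857) (nat_lit 0) (nat_lit 147150081472) (nat_lit 1) (nat_lit 5) (nat_lit 3) (nat_lit 4) (nat_lit 1) (nat_lit 4) (nat_lit 366) (nat_lit 190) (nat_lit 164)))))) (XT.nd (nat_lit 35490) (nat_lit 0) (nat_lit 0) (XT.nd (nat_lit 35334) (nat_lit 0) (nat_lit 0) (XT.nd (nat_lit 35256) (nat_lit 0) (nat_lit 0) (XT.lf (nat_lit 0) (nat_lit 156876055831) (nat_lit 152) (nat_lit 315287915619) (nat_lit 0) (nat_lit 155337822007) (nat_lit 1) (nat_lit 5) (nat_lit 3) (nat_lit 4) (nat_lit 1) (nat_lit 4) (nat_lit 367) (nat_lit 190) (nat_lit 163)) (XT.lf (nat_lit 0) (nat_lit 9632630121) (nat_lit 152) (nat_lit 57479907951) (nat_lit 0) (nat_lit 9632630121) (nat_lit 1) (nat_lit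 5) (nat_lit 3) (nat_lit 4) (nat_lit 1) (nat_lit 4) (nat_lit 338) (nat_lit 191) (nat_lit 191))) (XT.nd (nat_lit 78) (nat_lit 0) (nat_lit 0) (XT.lf (nat_lit 0) (nat_lit 21895101516) (nat_lit 152) (nat_lit 117389648932) (nat_lit 0) (nat_lit 21790052667) (nat_lit 1) (nat_lit 5) (nat_lit 3) (nat_lit 4) (nat_lit 1) (nat_lit 4) (nat_lit 339) (nat_lit 191) (nat_lit 190)) (XT.lf (nat_lit 0) (nat_lit 24600480888) (nat_lit 152) (nat_lit 120045462451) (nat_lit 0) (nat_lit 24395385516) (nat_lit 1) (nat_lit 5) (nat_lit 3) (nat_lit 4) (nat_lit 1) (nat_lit 4) (nat_lit 340) (nat_lit 191) (nat_lit 189)))) (XT.nd (nat_lit 156) (nat_lit 0) (nat_lit 0) (XT.nd (nat_lit 78) (nat_lit 0) (nat_lit 0) (XT.lf (nat_lit 0) (nat_lit 27387839739) (nat_lit 152) (nat_lit 122933579825) (nat_lit 0) (nat_lit 27087461965) (nat_lit 1) (nat_lit 5) (nat_lit 3) (nat_lit 4) (nat_lit 1) (nat_lit 4) (nat_lit 341) (nat_lit 191)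 (nat_lit 188)) (XT.lf (nat_lit 0) (nat_lit 30263814637) (nat_lit 152) (nat_lit 126060877526) (nat_lit 0) (nat_lit 29872691718) (nat_lit 1) (nat_lit 5) (nat_lit 3) (nat_lit 4) (nat_lit 1) (nat_lit 4) (nat_lit 342) (nat_lit 191) (nat_lit 187))) (XT.nd (nat_lit 78) (nat_lit 0) (nat_lit 0) (XT.lf (nat_lit 0) (nat_lit 33235253142) (nat_lit 152) (nat_lit 129434801500) (nat_lit 0) (nat_lit 32757706275) (nat_lit 1) (nat_lit 5) (nat_lit 3) (nat_lit 4) (nat_lit 1) (nat_lit 4) (nat_lit 343) (nat_lit 191) (nat_lit 186)) (XT.nd (nat_lit 78) (nat_lit 0) (nat_lit 0) (XT.lf (nat_lit 0) (nat_lit 36309230107) (nat_lit 152) (nat_lit 133063384899) (nat_lit 0) (nat_lit 35749374718) (nat_lit 1) (nat_lit 5) (nat_lit 3) (nat_lit 4) (nat_lit 1) (nat_lit 4) (nat_lit 344) (nat_lit 191) (nat_lit 185)) (XT.lf (nat_lit 0) (nat_lit 39493064525) (nat_lit 152) (nat_lit 136955267207) (nat_lit 0) (nat_lit 38854820068)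 (nat_lit 1) (nat_lit 5) (nat_lit 3) (nat_lit 4) (nat_lit 1) (nat_lit 4) (nat_lit 345) (nat_lit 191) (nat_lit 184))))))))
noncomputable def xc6 : XT := (XT.nd (nat_lit 1404) (nat_lit 0) (nat_lit 0) (XT.nd (nat_lit 702) (nat_lit 0) (nat_lit 0) (XT.nd (nat_lit 312) (nat_lit 0) (nat_lit 0) (XT.nd (nat_lit 156) (nat_lit 0) (nat_lit 0) (XT.nd (nat_lit 78) (nat_lit 0) (nat_lit 0) (XT.lf (nat_lit 0) (nat_lit 42794336955) (nat_lit 152) (nat_lit 141119714811) (nat_lit 0) (nat_lit 42081436242) (nat_lit 1) (nat_lit 5) (nat_lit 3) (nat_lit 4) (nat_lit 1) (nat_lit 4) (nat_lit 346) (nat_lit 191) (nat_lit 183)) (XT.lf (nat_lit 0) (nat_lit 46220907568) (nat_lit 152) (nat_lit 145566643063) (nat_lit 0) (nat_lit 45436905660) (nat_lit 1) (nat_lit 5) (nat_lit 3) (nat_lit 4) (nat_lit 1) (nat_lit 4) (nat_lit 347) (nat_lit 191) (nat_lit 182))) (XT.nd (nat_lit 78) (nat_lit 0) (nat_lit 0) (XT.lf (nat_lit 0) (nat_lit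 49780934866) (nat_lit 152) (nat_lit 150306639886) (nat_lit 0) (nat_lit 48929217533) (nat_lit 1) (nat_lit 5) (nat_lit 3) (nat_lit 4) (nat_lit 1) (nat_lit 4) (nat_lit 348) (nat_lit 191) (nat_lit 181)) (XT.lf (nat_lit 0) (nat_lit 53482895105) (nat_lit 152) (nat_lit 155350990987) (nat_lit 0) (nat_lit 52566686892) (nat_lit 1) (nat_lit 5) (nat_lit 3) (nat_lit 4) (nat_lit 1) (nat_lit 4) (nat_lit 349) (nat_lit 191) (nat_lit 180)))) (XT.nd (nat_lit 156) (nat_lit 0) (nat_lit 0) (XT.nd (nat_lit 78) (nat_lit 0) (nat_lit 0) (XT.lf (nat_lit 0) (nat_lit 57335602475) (nat_lit 152) (nat_lit 160711706727) (nat_lit 0) (nat_lit 56357974376) (nat_lit 1) (nat_lit 5) (nat_lit 3) (nat_lit 4) (nat_lit 1) (nat_lit 4) (nat_lit 350) (nat_lit 191) (nat_lit 179)) (XT.lf (nat_lit 0) (nat_lit 61348230090) (nat_lit 152) (nat_lit 166401550714) (nat_lit 0) (nat_lit 60312106861) (nat_lit 1) (nat_lit 5) (nat_lit 3) (nat_lit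 4) (nat_lit 1) (nat_lit 4) (nat_lit 351) (nat_lit 191) (nat_lit 178))) (XT.nd (nat_lit 78) (nat_lit 0) (nat_lit 0) (XT.lf (nat_lit 0) (nat_lit 65530331825) (nat_lit 152) (nat_lit 172434070196) (nat_lit 0) (nat_lit 64438498948) (nat_lit 1) (nat_lit 5) (nat_lit 3) (nat_lit 4) (nat_lit 1) (nat_lit 4) (nat_lit 352) (nat_lit 191) (nat_lit 177)) (XT.nd (nat_lit 78) (nat_lit 0) (nat_lit 0) (XT.lf (nat_lit 0) (nat_lit 69891865064) (nat_lit 152) (nat_lit 178823628314) (nat_lit 0) (nat_lit 68746975380) (nat_lit 1) (nat_lit 5) (nat_lit 3) (nat_lit 4) (nat_lit 1) (nat_lit 4) (nat_lit 353) (nat_lit 191) (nat_lit 176)) (XT.lf (nat_lit 0) (nat_lit 74443214411) (nat_lit 152) (nat_lit 185585438302) (nat_lit 0) (nat_lit 73247794435) (nat_lit 1) (nat_lit 5) (nat_lit 3) (nat_lit 4) (nat_lit 1) (nat_lit 4) (nat_lit 354) (nat_lit 191) (nat_lit 175)))))) (XT.nd (nat_lit 312) (nat_lit 0) (nat_lit 0) (XT.nd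 (nat_lit 156) (nat_lit 0) (nat_lit 0) (XT.nd (nat_lit 78) (nat_lit 0) (nat_lit 0) (XT.lf (nat_lit 0) (nat_lit 79195216412) (nat_lit 152) (nat_lit 192735599708) (nat_lit 0) (nat_lit 77951672348) (nat_lit 1) (nat_lit 5) (nat_lit 3) (nat_lit 4) (nat_lit 1) (nat_lit 4) (nat_lit 355) (nat_lit 191) (nat_lit 174)) (XT.lf (nat_lit 0) (nat_lit 84159185357) (nat_lit 152) (nat_lit 200291136724) (nat_lit 0) (nat_lit 82869808828) (nat_lit 1) (nat_lit 5) (nat_lit 3) (nat_lit 4) (nat_lit 1) (nat_lit 4) (nat_lit 356) (nat_lit 191) (nat_lit 173))) (XT.nd (nat_lit 78) (nat_lit 0) (nat_lit 0) (XT.lf (nat_lit 0) (nat_lit 89346940220) (nat_lit 152) (nat_lit 208270038726) (nat_lit 0) (nat_lit 88013913724) (nat_lit 1) (nat_lit 5) (nat_lit 3) (nat_lit 4) (nat_lit 1) (nat_lit 4) (nat_lit 357) (nat_lit 191) (nat_lit 172)) (XT.lf (nat_lit 0) (nat_lit 94770832798) (nat_lit 152) (nat_lit 216691303100) (nat_lit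 0) (nat_lit 93396234906) (nat_lit 1) (nat_lit 5) (nat_lit 3) (nat_lit 4) (nat_lit 1) (nat_lit 4) (nat_lit 358) (nat_lit 191) (nat_lit 171)))) (XT.nd (nat_lit 156) (nat_lit 0) (nat_lit 0) (XT.nd (nat_lit 78) (nat_lit 0) (nat_lit 0) (XT.lf (nat_lit 0) (nat_lit 100443777121) (nat_lit 152) (nat_lit 225574980473) (nat_lit 0) (nat_lit 99029587423) (nat_lit 1) (nat_lit 5) (nat_lit 3) (nat_lit 4) (nat_lit 1) (nat_lit 4) (nat_lit 359) (nat_lit 191) (nat_lit 170)) (XT.lf (nat_lit 0) (nat_lit 106379280200) (nat_lit 152) (nat_lit 234942222460) (nat_lit 0) (nat_lit 104927384019) (nat_lit 1) (nat_lit 5) (nat_lit 3) (nat_lit 4) (nat_lit 1) (nat_lit 4) (nat_lit 360) (nat_lit 191) (nat_lit 169))) (XT.nd (nat_lit 78) (nat_lit 0) (nat_lit 0) (XT.lf (nat_lit 0) (nat_lit 112591474184) (nat_lit 152) (nat_lit 244815332016) (nat_lit 0) (nat_lit 111103667068) (nat_lit 1) (nat_lit 5) (nat_lit 3) (nat_lit 4)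 (nat_lit 1) (nat_lit 4) (nat_lit 361) (nat_lit 191) (nat_lit 168)) (XT.nd (nat_lit 78) (nat_lit 0) (nat_lit 0) (XT.lf (nat_lit 0) (nat_lit 119095150012) (nat_lit 152) (nat_lit 255217816547) (nat_lit 0) (nat_lit 117573142006) (nat_lit 1) (nat_lit 5) (nat_lit 3) (nat_lit 4) (nat_lit 1) (nat_lit 4) (nat_lit 362) (nat_lit 191) (nat_lit 167)) (XT.lf (nat_lit 0) (nat_lit 125905792627) (nat_lit 152) (nat_lit 266174443873) (nat_lit 0) (nat_lit 124351212343) (nat_lit 1) (nat_lit 5) (nat_lit 3) (nat_lit 4) (nat_lit 1) (nat_lit 4) (nat_lit 363) (nat_lit 191) (nat_lit 166))))))) (XT.nd (nat_lit 35724) (nat_lit 0) (nat_lit 0) (XT.nd (nat_lit 35334) (nat_lit 0) (nat_lit 0) (XT.nd (nat_lit 156) (nat_lit 0) (nat_lit 0) (XT.nd (nat_lit 78) (nat_lit 0) (nat_lit 0) (XT.lf (nat_lit 0) (nat_lit 133039617843) (nat_lit 152) (nat_lit 277711301200) (nat_lit 0) (nat_lit 131454016343) (nat_lit 1) (nat_lit 5)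 (nat_lit 3) (nat_lit 4) (nat_lit 1) (nat_lit 4) (nat_lit 364) (nat_lit 191) (nat_lit 165)) (XT.lf (nat_lit 0) (nat_lit 140513610959) (nat_lit 152) (nat_lit 289855857238) (nat_lit 0) (nat_lit 138898465444) (nat_lit 1) (nat_lit 5) (nat_lit 3) (nat_lit 4) (nat_lit 1) (nat_lit 4) (nat_lit 365) (nat_lit 191) (nat_lit 164))) (XT.nd (nat_lit 78) (nat_lit 0) (nat_lit 0) (XT.lf (nat_lit 0) (nat_lit 148345567197) (nat_lit 152) (nat_lit 302637027595) (nat_lit 0) (nat_lit 146702284524) (nat_lit 1) (nat_lit 5) (nat_lit 3) (nat_lit 4) (nat_lit 1) (nat_lit 4) (nat_lit 366) (nat_lit 191) (nat_lit 163)) (XT.lf (nat_lit 0) (nat_lit 156554134072) (nat_lit 152) (nat_lit 316085243630) (nat_lit 0) (nat_lit 154884054106) (nat_lit 1) (nat_lit 5) (nat_lit 3) (nat_lit 4) (nat_lit 1) (nat_lit 4) (nat_lit 367) (nat_lit 191) (nat_lit 162)))) (XT.nd (nat_lit 156) (nat_lit 0) (nat_lit 0) (XT.nd (nat_lit 78) (nat_lit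 0) (nat_lit 0) (XT.lf (nat_lit 0) (nat_lit 7173852219) (nat_lit 152) (nat_lit 55349639859) (nat_lit 0) (nat_lit 7173852219) (nat_lit 1) (nat_lit 5) (nat_lit 3) (nat_lit 4) (nat_lit 1) (nat_lit 4) (nat_lit 336) (nat_lit 192) (nat_lit 192)) (XT.lf (nat_lit 0) (nat_lit 16814996833) (nat_lit 152) (nat_lit 112750178049) (nat_lit 0) (nat_lit 16704695542) (nat_lit 1) (nat_lit 5) (nat_lit 3) (nat_lit 4) (nat_lit 1) (nat_lit 4) (nat_lit 337) (nat_lit 192) (nat_lit 191))) (XT.nd (nat_lit 78) (nat_lit 0) (nat_lit 0) (XT.lf (nat_lit 0) (nat_lit 19346902186) (nat_lit 152) (nat_lit 115013334577) (nat_lit 0) (nat_lit 19131552046) (nat_lit 1) (nat_lit 5) (nat_lit 3) (nat_lit 4) (nat_lit 1) (nat_lit 4) (nat_lit 338) (nat_lit 192) (nat_lit 190)) (XT.nd (nat_lit 78) (nat_lit 0) (nat_lit 0) (XT.lf (nat_lit 0) (nat_lit 21949448842) (nat_lit 152) (nat_lit 117494137771) (nat_lit 0) (nat_lit 21634052180) (nat_lit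 1) (nat_lit 5) (nat_lit 3) (nat_lit 4) (nat_lit 1) (nat_lit 4) (nat_lit 339) (nat_lit 192) (nat_lit 189)) (XT.lf (nat_lit 0) (nat_lit 24628833341) (nat_lit 152) (nat_lit 120198494304) (nat_lit 0) (nat_lit 24218154276) (nat_lit 1) (nat_lit 5) (nat_lit 3) (nat_lit 4) (nat_lit 1) (nat_lit 4) (nat_lit 340) (nat_lit 192) (nat_lit 188)))))) (XT.nd (nat_lit 312) (nat_lit 0) (nat_lit 0) (XT.nd (nat_lit 156) (nat_lit 0) (nat_lit 0) (XT.nd (nat_lit 78) (nat_lit 0) (nat_lit 0) (XT.lf (nat_lit 0) (nat_lit 27391435170) (nat_lit 152) (nat_lit 123132843122) (nat_lit 0) (nat_lit 26890010960) (nat_lit 1) (nat_lit 5) (nat_lit 3) (nat_lit 4) (nat_lit 1) (nat_lit 4) (nat_lit 341) (nat_lit 192) (nat_lit 187)) (XT.lf (nat_lit 0) (nat_lit 30243831952) (nat_lit 152) (nat_lit 126304170768) (nat_lit 0) (nat_lit 29655983794) (nat_lit 1) (nat_lit 5) (nat_lit 3) (nat_lit 4) (nat_lit 1) (nat_lit 4) (nat_lit 342)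 (nat_lit 192) (nat_lit 186))) (XT.nd (nat_lit 78) (nat_lit 0) (nat_lit 0) (XT.lf (nat_lit 0) (nat_lit 33192815109) (nat_lit 152) (nat_lit 129720028023) (nat_lit 0) (nat_lit 32522658429) (nat_lit 1) (nat_lit 5) (nat_lit 3) (nat_lit 4) (nat_lit 1) (nat_lit 4) (nat_lit 343) (nat_lit 192) (nat_lit 185)) (XT.lf (nat_lit 0) (nat_lit 36245406027) (nat_lit 152) (nat_lit 133388547880) (nat_lit 0) (nat_lit 35496860279) (nat_lit 1) (nat_lit 5) (nat_lit 3) (nat_lit 4) (nat_lit 1) (nat_lit 4) (nat_lit 344) (nat_lit 192) (nat_lit 184)))) (XT.nd (nat_lit 156) (nat_lit 0) (nat_lit 0) (XT.nd (nat_lit 78) (nat_lit 0) (nat_lit 0) (XT.lf (nat_lit 0) (nat_lit 39408872782) (nat_lit 152) (nat_lit 137318464910) (nat_lit 0) (nat_lit 38585670778) (nat_lit 1) (nat_lit 5) (nat_lit 3) (nat_lit 4) (nat_lit 1) (nat_lit 4) (nat_lit 345) (nat_lit 192) (nat_lit 183)) (XT.lf (nat_lit 0) (nat_lit 42690747437) (nat_lit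 152) (nat_lit 141519136059) (nat_lit 0) (nat_lit 41796444238) (nat_lit 1) (nat_lit 5) (nat_lit 3) (nat_lit 4) (nat_lit 1) (nat_lit 4) (nat_lit 346) (nat_lit 192) (nat_lit 182))) (XT.nd (nat_lit 78) (nat_lit 0) (nat_lit 0) (XT.lf (nat_lit 0) (nat_lit 46098843979) (nat_lit 152) (nat_lit 146000562925) (nat_lit 0) (nat_lit 45136825355) (nat_lit 1) (nat_lit 5) (nat_lit 3) (nat_lit 4) (nat_lit 1) (nat_lit 4) (nat_lit 347) (nat_lit 192) (nat_lit 181)) (XT.nd (nat_lit 78) (nat_lit 0) (nat_lit 0) (XT.lf (nat_lit 0) (nat_lit 49641276924) (nat_lit 152) (nat_lit 150773415571) (nat_lit 0) (nat_lit 48614767420) (nat_lit 1) (nat_lit 5) (nat_lit 3) (nat_lit 4) (nat_lit 1) (nat_lit 4) (nat_lit 348) (nat_lit 192) (nat_lit 180)) (XT.lf (nat_lit 0) (nat_lit 53326480636) (nat_lit 152) (nat_lit 155849057933) (nat_lit 0) (nat_lit 52238551245) (nat_lit 1) (nat_lit 5) (nat_lit 3) (nat_lit 4) (nat_lit 1) (nat_lit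 4) (nat_lit 349) (nat_lit 192) (nat_lit 179))))))))
noncomputable def xc7 : XT := (XT.nd (nat_lit 36270) (nat_lit 0) (nat_lit 0) (XT.nd (nat_lit 702) (nat_lit 0) (nat_lit 0) (XT.nd (nat_lit 312) (nat_lit 0) (nat_lit 0) (XT.nd (nat_lit 156) (nat_lit 0) (nat_lit 0) (XT.nd (nat_lit 78) (nat_lit 0) (nat_lit 0) (XT.lf (nat_lit 0) (nat_lit 57163229409) (nat_lit 152) (nat_lit 161239574873) (nat_lit 0) (nat_lit 56016804889) (nat_lit 1) (nat_lit 5) (nat_lit 3) (nat_lit 4) (nat_lit 1) (nat_lit 4) (nat_lit 350) (nat_lit 192) (nat_lit 178)) (XT.lf (nat_lit 0) (nat_lit 61160658360) (nat_lit 152) (nat_lit 166957800955) (nat_lit 0) (nat_lit 59958524192) (nat_lit 1) (nat_lit 5) (nat_lit 3) (nat_lit 4) (nat_lit 1) (nat_lit 4) (nat_lit 351) (nat_lit 192) (nat_lit 177))) (XT.nd (nat_lit 78) (nat_lit 0) (nat_lit 0) (XT.lf (nat_lit 0) (nat_lit 65328285177) (nat_lit 152) (nat_lit 173017351004) (nat_lit 0)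 (nat_lit 64073094202) (nat_lit 1) (nat_lit 5) (nat_lit 3) (nat_lit 4) (nat_lit 1) (nat_lit 4) (nat_lit 352) (nat_lit 192) (nat_lit 176)) (XT.lf (nat_lit 0) (nat_lit 69676032780) (nat_lit 152) (nat_lit 179432652519) (nat_lit 0) (nat_lit 68370311512) (nat_lit 1) (nat_lit 5) (nat_lit 3) (nat_lit 4) (nat_lit 1) (nat_lit 4) (nat_lit 353) (nat_lit 192) (nat_lit 175)))) (XT.nd (nat_lit 156) (nat_lit 0) (nat_lit 0) (XT.nd (nat_lit 78) (nat_lit 0) (nat_lit 0) (XT.lf (nat_lit 0) (nat_lit 74214252949) (nat_lit 152) (nat_lit 186218980028) (nat_lit 0) (nat_lit 72860407594) (nat_lit 1) (nat_lit 5) (nat_lit 3) (nat_lit 4) (nat_lit 1) (nat_lit 4) (nat_lit 354) (nat_lit 192) (nat_lit 174)) (XT.lf (nat_lit 0) (nat_lit 78953750972) (nat_lit 152) (nat_lit 193392491453) (nat_lit 0) (nat_lit 77554073152) (nat_lit 1) (nat_lit 5) (nat_lit 3) (nat_lit 4) (nat_lit 1) (nat_lit 4) (nat_lit 355) (nat_lit 192) (nat_lit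 173))) (XT.nd (nat_lit 78) (nat_lit 0) (nat_lit 0) (XT.lf (nat_lit 0) (nat_lit 83905811366) (nat_lit 152) (nat_lit 200970266585) (nat_lit 0) (nat_lit 82462483579) (nat_lit 1) (nat_lit 5) (nat_lit 3) (nat_lit 4) (nat_lit 1) (nat_lit 4) (nat_lit 356) (nat_lit 192) (nat_lit 172)) (XT.nd (nat_lit 78) (nat_lit 0) (nat_lit 0) (XT.lf (nat_lit 0) (nat_lit 89082224752) (nat_lit 152) (nat_lit 208970347743) (nat_lit 0) (nat_lit 87597325569) (nat_lit 1) (nat_lit 5) (nat_lit 3) (nat_lit 4) (nat_lit 1) (nat_lit 4) (nat_lit 357) (nat_lit 192) (nat_lit 171)) (XT.lf (nat_lit 0) (nat_lit 94495315923) (nat_lit 152) (nat_lit 217411782742) (nat_lit 0) (nat_lit 92970824934) (nat_lit 1) (nat_lit 5) (nat_lit 3) (nat_lit 4) (nat_lit 1) (nat_lit 4) (nat_lit 358) (nat_lit 192) (nat_lit 170)))))) (XT.nd (nat_lit 312) (nat_lit 0) (nat_lit 0) (XT.nd (nat_lit 156) (nat_lit 0) (nat_lit 0) (XT.nd (nat_lit 78) (nat_lit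 0) (nat_lit 0) (XT.lf (nat_lit 0) (nat_lit 100157973193) (nat_lit 152) (nat_lit 226314670234) (nat_lit 0) (nat_lit 98595775721) (nat_lit 1) (nat_lit 5) (nat_lit 3) (nat_lit 4) (nat_lit 1) (nat_lit 4) (nat_lit 359) (nat_lit 192) (nat_lit 169)) (XT.lf (nat_lit 0) (nat_lit 106083679077) (nat_lit 152) (nat_lit 235700207573) (nat_lit 0) (nat_lit 104485570670) (nat_lit 1) (nat_lit 5) (nat_lit 3) (nat_lit 4) (nat_lit 1) (nat_lit 4) (nat_lit 360) (nat_lit 192) (nat_lit 168))) (XT.nd (nat_lit 78) (nat_lit 0) (nat_lit 0) (XT.lf (nat_lit 0) (nat_lit 112286542400) (nat_lit 152) (nat_lit 245590741274) (nat_lit 0) (nat_lit 110654233102) (nat_lit 1) (nat_lit 5) (nat_lit 3) (nat_lit 4) (nat_lit 1) (nat_lit 4) (nat_lit 361) (nat_lit 192) (nat_lit 167)) (XT.lf (nat_lit 0) (nat_lit 118781331884) (nat_lit 152) (nat_lit 256009820228) (nat_lit 0) (nat_lit 117116450309) (nat_lit 1) (nat_lit 5) (nat_lit 3)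 (nat_lit 4) (nat_lit 1) (nat_lit 4) (nat_lit 362) (nat_lit 192) (nat_lit 166)))) (XT.nd (nat_lit 156) (nat_lit 0) (nat_lit 0) (XT.nd (nat_lit 78) (nat_lit 0) (nat_lit 0) (XT.lf (nat_lit 0) (nat_lit 125583511314) (nat_lit 152) (nat_lit 266982251766) (nat_lit 0) (nat_lit 123887608523) (nat_lit 1) (nat_lit 5) (nat_lit 3) (nat_lit 4) (nat_lit 1) (nat_lit 4) (nat_lit 363) (nat_lit 192) (nat_lit 165)) (XT.lf (nat_lit 0) (nat_lit 132709276354) (nat_lit 152) (nat_lit 278534160725) (nat_lit 0) (nat_lit 130983829547) (nat_lit 1) (nat_lit 5) (nat_lit 3) (nat_lit 4) (nat_lit 1) (nat_lit 4) (nat_lit 364) (nat_lit 192) (nat_lit 164))) (XT.nd (nat_lit 78) (nat_lit 0) (nat_lit 0) (XT.lf (nat_lit 0) (nat_lit 140175593112) (nat_lit 152) (nat_lit 290693051649) (nat_lit 0) (nat_lit 138422009148) (nat_lit 1) (nat_lit 5) (nat_lit 3) (nat_lit 4) (nat_lit 1) (nat_lit 4) (nat_lit 365) (nat_lit 192) (nat_lit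 163)) (XT.nd (nat_lit 78) (nat_lit 0) (nat_lit 0) (XT.lf (nat_lit 0) (nat_lit 148000238533) (nat_lit 152) (nat_lit 303487874279) (nat_lit 0) (nat_lit 146219857276) (nat_lit 1) (nat_lit 5) (nat_lit 3) (nat_lit 4) (nat_lit 1) (nat_lit 4) (nat_lit 366) (nat_lit 192) (nat_lit 162)) (XT.lf (nat_lit 0) (nat_lit 156201842724) (nat_lit 152) (nat_lit 316949092479) (nat_lit 0) (nat_lit 154395940236) (nat_lit 1) (nat_lit 5) (nat_lit 3) (nat_lit 4) (nat_lit 1) (nat_lit 4) (nat_lit 367) (nat_lit 192) (nat_lit 161))))))) (XT.nd (nat_lit 702) (nat_lit 0) (nat_lit 0) (XT.nd (nat_lit 312) (nat_lit 0) (nat_lit 0) (XT.nd (nat_lit 156) (nat_lit 0) (nat_lit 0) (XT.nd (nat_lit 78) (nat_lit 0) (nat_lit 0) (XT.lf (nat_lit 0) (nat_lit 4865506817) (nat_lit 152) (nat_lit 53578107348) (nat_lit 0) (nat_lit 4865506817) (nat_lit 1) (nat_lit 5) (nat_lit 3) (nat_lit 4) (nat_lit 1) (nat_lit 4) (nat_lit 334) (nat_lit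 193) (nat_lit 193)) (XT.lf (nat_lit 0) (nat_lit 12054966849) (nat_lit 152) (nat_lit 108855756493) (nat_lit 0) (nat_lit 11939150493) (nat_lit 1) (nat_lit 5) (nat_lit 3) (nat_lit 4) (nat_lit 1) (nat_lit 4) (nat_lit 335) (nat_lit 193) (nat_lit 192))) (XT.nd (nat_lit 78) (nat_lit 0) (nat_lit 0) (XT.lf (nat_lit 0) (nat_lit 14433428478) (nat_lit 152) (nat_lit 110755474325) (nat_lit 0) (nat_lit 14207310831) (nat_lit 1) (nat_lit 5) (nat_lit 3) (nat_lit 4) (nat_lit 1) (nat_lit 4) (nat_lit 336) (nat_lit 193) (nat_lit 191)) (XT.lf (nat_lit 0) (nat_lit 16872061526) (nat_lit 152) (nat_lit 112859891330) (nat_lit 0) (nat_lit 16540895031) (nat_lit 1) (nat_lit 5) (nat_lit 3) (nat_lit 4) (nat_lit 1) (nat_lit 4) (nat_lit 337) (nat_lit 193) (nat_lit 190)))) (XT.nd (nat_lit 156) (nat_lit 0) (nat_lit 0) (XT.nd (nat_lit 78) (nat_lit 0) (nat_lit 0) (XT.lf (nat_lit 0) (nat_lit 19376672263) (nat_lit 152) (nat_lit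 115174018023) (nat_lit 0) (nat_lit 18945459244) (nat_lit 1) (nat_lit 5) (nat_lit 3) (nat_lit 4) (nat_lit 1) (nat_lit 4) (nat_lit 338) (nat_lit 193) (nat_lit 189)) (XT.lf (nat_lit 0) (nat_lit 21953224046) (nat_lit 152) (nat_lit 117703364232) (nat_lit 0) (nat_lit 21426728625) (nat_lit 1) (nat_lit 5) (nat_lit 3) (nat_lit 4) (nat_lit 1) (nat_lit 4) (nat_lit 339) (nat_lit 193) (nat_lit 188))) (XT.nd (nat_lit 78) (nat_lit 0) (nat_lit 0) (XT.lf (nat_lit 0) (nat_lit 24607851523) (nat_lit 152) (nat_lit 120453952208) (nat_lit 0) (nat_lit 23990610957) (nat_lit 1) (nat_lit 5) (nat_lit 3) (nat_lit 4) (nat_lit 1) (nat_lit 4) (nat_lit 340) (nat_lit 193) (nat_lit 187)) (XT.nd (nat_lit 78) (nat_lit 0) (nat_lit 0) (XT.lf (nat_lit 0) (nat_lit 27346875235) (nat_lit 152) (nat_lit 123432330971) (nat_lit 0) (nat_lit 26643210721) (nat_lit 1) (nat_lit 5) (nat_lit 3) (nat_lit 4) (nat_lit 1) (nat_lit 4) (nat_lit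 341) (nat_lit 193) (nat_lit 186)) (XT.lf (nat_lit 0) (nat_lit 30176816669) (nat_lit 152) (nat_lit 126645591898) (nat_lit 0) (nat_lit 29390843633) (nat_lit 1) (nat_lit 5) (nat_lit 3) (nat_lit 4) (nat_lit 1) (nat_lit 4) (nat_lit 342) (nat_lit 193) (nat_lit 185)))))) (XT.nd (nat_lit 390) (nat_lit 0) (nat_lit 0) (XT.nd (nat_lit 156) (nat_lit 0) (nat_lit 0) (XT.nd (nat_lit 78) (nat_lit 0) (nat_lit 0) (XT.lf (nat_lit 0) (nat_lit 33104413778) (nat_lit 152) (nat_lit 130101385611) (nat_lit 0) (nat_lit 32240051674) (nat_lit 1) (nat_lit 5) (nat_lit 3) (nat_lit 4) (nat_lit 1) (nat_lit 4) (nat_lit 343) (nat_lit 193) (nat_lit 184)) (XT.lf (nat_lit 0) (nat_lit 36136637034) (nat_lit 152) (nat_lit 133807940190) (nat_lit 0) (nat_lit 35197618674) (nat_lit 1) (nat_lit 5) (nat_lit 3) (nat_lit 4) (nat_lit 1) (nat_lit 4) (nat_lit 344) (nat_lit 193) (nat_lit 183))) (XT.nd (nat_lit 78) (nat_lit 0) (nat_lit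 0) (XT.lf (nat_lit 0) (nat_lit 39280706014) (nat_lit 152) (nat_lit 137774080766) (nat_lit 0) (nat_lit 38270586459) (nat_lit 1) (nat_lit 5) (nat_lit 3) (nat_lit 4) (nat_lit 1) (nat_lit 4) (nat_lit 345) (nat_lit 193) (nat_lit 182)) (XT.nd (nat_lit 78) (nat_lit 0) (nat_lit 0) (XT.lf (nat_lit 0) (nat_lit 42544106598) (nat_lit 152) (nat_lit 142009250529) (nat_lit 0) (nat_lit 41466271618) (nat_lit 1) (nat_lit 5) (nat_lit 3) (nat_lit 4) (nat_lit 1) (nat_lit 4) (nat_lit 346) (nat_lit 193) (nat_lit 181)) (XT.lf (nat_lit 0) (nat_lit 45934608787) (nat_lit 152) (nat_lit 146523533218) (nat_lit 0) (nat_lit 44792282927) (nat_lit 1) (nat_lit 5) (nat_lit 3) (nat_lit 4) (nat_lit 1) (nat_lit 4) (nat_lit 347) (nat_lit 193) (nat_lit 180))))) (XT.nd (nat_lit 156) (nat_lit 0) (nat_lit 0) (XT.nd (nat_lit 78) (nat_lit 0) (nat_lit 0) (XT.lf (nat_lit 0) (nat_lit 49460285205) (nat_lit 152) (nat_lit 151327677124)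 (nat_lit 0) (nat_lit 48256539458) (nat_lit 1) (nat_lit 5) (nat_lit 3) (nat_lit 4) (nat_lit 1) (nat_lit 4) (nat_lit 348) (nat_lit 193) (nat_lit 179)) (XT.lf (nat_lit 0) (nat_lit 53129530320) (nat_lit 152) (nat_lit 156433120686) (nat_lit 0) (nat_lit 51867289443) (nat_lit 1) (nat_lit 5) (nat_lit 3) (nat_lit 4) (nat_lit 1) (nat_lit 4) (nat_lit 349) (nat_lit 193) (nat_lit 178))) (XT.nd (nat_lit 78) (nat_lit 0) (nat_lit 0) (XT.lf (nat_lit 0) (nat_lit 56951080429) (nat_lit 152) (nat_lit 161852019721) (nat_lit 0) (nat_lit 55633129905) (nat_lit 1) (nat_lit 5) (nat_lit 3) (nat_lit 4) (nat_lit 1) (nat_lit 4) (nat_lit 350) (nat_lit 193) (nat_lit 177)) (XT.nd (nat_lit 78) (nat_lit 0) (nat_lit 0) (XT.lf (nat_lit 0) (nat_lit 60934034462) (nat_lit 152) (nat_lit 167597276370) (nat_lit 0) (nat_lit 59563027131) (nat_lit 1) (nat_lit 5) (nat_lit 3) (nat_lit 4) (nat_lit 1) (nat_lit 4) (nat_lit 351) (nat_lit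 193) (nat_lit 176)) (XT.lf (nat_lit 0) (nat_lit 65087875642) (nat_lit 152) (nat_lit 173682569816) (nat_lit 0) (nat_lit 63666338019) (nat_lit 1) (nat_lit 5) (nat_lit 3) (nat_lit 4) (nat_lit 1) (nat_lit 4) (nat_lit 352) (nat_lit 193) (nat_lit 175))))))))
noncomputable def xc8 : XT := (XT.nd (nat_lit 36114) (nat_lit 0) (nat_lit 0) (XT.nd (nat_lit 702) (nat_lit 0) (nat_lit 0) (XT.nd (nat_lit 312) (nat_lit 0) (nat_lit 0) (XT.nd (nat_lit 156) (nat_lit 0) (nat_lit 0) (XT.nd (nat_lit 78) (nat_lit 0) (nat_lit 0) (XT.lf (nat_lit 0) (nat_lit 69422494068) (nat_lit 152) (nat_lit 180122388852) (nat_lit 0) (nat_lit 67952832357) (nat_lit 1) (nat_lit 5) (nat_lit 3) (nat_lit 4) (nat_lit 1) (nat_lit 4) (nat_lit 353) (nat_lit 193) (nat_lit 174)) (XT.lf (nat_lit 0) (nat_lit 73948210259) (nat_lit 152) (nat_lit 186932066381) (nat_lit 0) (nat_lit 72432716083) (nat_lit 1) (nat_lit 5) (nat_lit 3) (nat_lit 4)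 (nat_lit 1) (nat_lit 4) (nat_lit 354) (nat_lit 193) (nat_lit 173))) (XT.nd (nat_lit 78) (nat_lit 0) (nat_lit 0) (XT.lf (nat_lit 0) (nat_lit 78675799730) (nat_lit 152) (nat_lit 194127815921) (nat_lit 0) (nat_lit 77116655588) (nat_lit 1) (nat_lit 5) (nat_lit 3) (nat_lit 4) (nat_lit 1) (nat_lit 4) (nat_lit 355) (nat_lit 193) (nat_lit 172)) (XT.lf (nat_lit 0) (nat_lit 83616518648) (nat_lit 152) (nat_lit 201726770209) (nat_lit 0) (nat_lit 82015803109) (nat_lit 1) (nat_lit 5) (nat_lit 3) (nat_lit 4) (nat_lit 1) (nat_lit 4) (nat_lit 356) (nat_lit 193) (nat_lit 171)))) (XT.nd (nat_lit 156) (nat_lit 0) (nat_lit 0) (XT.nd (nat_lit 78) (nat_lit 0) (nat_lit 0) (XT.lf (nat_lit 0) (nat_lit 88782130627) (nat_lit 152) (nat_lit 209747021993) (nat_lit 0) (nat_lit 87141823281) (nat_lit 1) (nat_lit 5) (nat_lit 3) (nat_lit 4) (nat_lit 1) (nat_lit 4) (nat_lit 357) (nat_lit 193) (nat_lit 170)) (XT.lf (nat_lit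 0) (nat_lit 94184934744) (nat_lit 152) (nat_lit 218207667110) (nat_lit 0) (nat_lit 92506920917) (nat_lit 1) (nat_lit 5) (nat_lit 3) (nat_lit 4) (nat_lit 1) (nat_lit 4) (nat_lit 358) (nat_lit 193) (nat_lit 169))) (XT.nd (nat_lit 78) (nat_lit 0) (nat_lit 0) (XT.lf (nat_lit 0) (nat_lit 99837794819) (nat_lit 152) (nat_lit 227128849955) (nat_lit 0) (nat_lit 98123870056) (nat_lit 1) (nat_lit 5) (nat_lit 3) (nat_lit 4) (nat_lit 1) (nat_lit 4) (nat_lit 359) (nat_lit 193) (nat_lit 168)) (XT.nd (nat_lit 78) (nat_lit 0) (nat_lit 0) (XT.lf (nat_lit 0) (nat_lit 105754170042) (nat_lit 152) (nat_lit 236531811437) (nat_lit 0) (nat_lit 104006044389) (nat_lit 1) (nat_lit 5) (nat_lit 3) (nat_lit 4) (nat_lit 1) (nat_lit 4) (nat_lit 360) (nat_lit 193) (nat_lit 167)) (XT.lf (nat_lit 0) (nat_lit 111948147022) (nat_lit 152) (nat_lit 246438939562) (nat_lit 0) (nat_lit 110167449091) (nat_lit 1) (nat_lit 5) (nat_lit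 3) (nat_lit 4) (nat_lit 1) (nat_lit 4) (nat_lit 361) (nat_lit 193) (nat_lit 166)))))) (XT.nd (nat_lit 312) (nat_lit 0) (nat_lit 0) (XT.nd (nat_lit 156) (nat_lit 0) (nat_lit 0) (XT.nd (nat_lit 78) (nat_lit 0) (nat_lit 0) (XT.lf (nat_lit 0) (nat_lit 118434473321) (nat_lit 152) (nat_lit 256873822729) (nat_lit 0) (nat_lit 116622754174) (nat_lit 1) (nat_lit 5) (nat_lit 3) (nat_lit 4) (nat_lit 1) (nat_lit 4) (nat_lit 362) (nat_lit 193) (nat_lit 165)) (XT.lf (nat_lit 0) (nat_lit 125228592574) (nat_lit 152) (nat_lit 267861305898) (nat_lit 0) (nat_lit 123387329412) (nat_lit 1) (nat_lit 5) (nat_lit 3) (nat_lit 4) (nat_lit 1) (nat_lit 4) (nat_lit 363) (nat_lit 193) (nat_lit 164))) (XT.nd (nat_lit 78) (nat_lit 0) (nat_lit 0) (XT.lf (nat_lit 0) (nat_lit 132346681257) (nat_lit 152) (nat_lit 279427549743) (nat_lit 0) (nat_lit 130477280937) (nat_lit 1) (nat_lit 5) (nat_lit 3) (nat_lit 4) (nat_lit 1)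 (nat_lit 4) (nat_lit 364) (nat_lit 193) (nat_lit 163)) (XT.lf (nat_lit 0) (nat_lit 139805687198) (nat_lit 152) (nat_lit 291600092941) (nat_lit 0) (nat_lit 137909489585) (nat_lit 1) (nat_lit 5) (nat_lit 3) (nat_lit 4) (nat_lit 1) (nat_lit 4) (nat_lit 365) (nat_lit 193) (nat_lit 162)))) (XT.nd (nat_lit 34866) (nat_lit 0) (nat_lit 0) (XT.nd (nat_lit 78) (nat_lit 0) (nat_lit 0) (XT.lf (nat_lit 0) (nat_lit 147623369935) (nat_lit 152) (nat_lit 304407917736) (nat_lit 0) (nat_lit 145701651091) (nat_lit 1) (nat_lit 5) (nat_lit 3) (nat_lit 4) (nat_lit 1) (nat_lit 4) (nat_lit 366) (nat_lit 193) (nat_lit 161)) (XT.lf (nat_lit 0) (nat_lit 155818343000) (nat_lit 152) (nat_lit 317881518950) (nat_lit 0) (nat_lit 153872318221) (nat_lit 1) (nat_lit 5) (nat_lit 3) (nat_lit 4) (nat_lit 1) (nat_lit 4) (nat_lit 367) (nat_lit 193) (nat_lit 160))) (XT.nd (nat_lit 78) (nat_lit 0) (nat_lit 0) (XT.lf (nat_lit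 0) (nat_lit 2689700061) (nat_lit 152) (nat_lit 52139992757) (nat_lit 0) (nat_lit 2689700061) (nat_lit 1) (nat_lit 5) (nat_lit 3) (nat_lit 4) (nat_lit 1) (nat_lit 4) (nat_lit 332) (nat_lit 194) (nat_lit 194)) (XT.nd (nat_lit 78) (nat_lit 0) (nat_lit 0) (XT.lf (nat_lit 0) (nat_lit 7577642787) (nat_lit 152) (nat_lit 105652802406) (nat_lit 0) (nat_lit 7456035614) (nat_lit 1) (nat_lit 5) (nat_lit 3) (nat_lit 4) (nat_lit 1) (nat_lit 4) (nat_lit 333) (nat_lit 194) (nat_lit 193)) (XT.lf (nat_lit 0) (nat_lit 9821023878) (nat_lit 152) (nat_lit 107215219034) (nat_lit 0) (nat_lit 9583600348) (nat_lit 1) (nat_lit 5) (nat_lit 3) (nat_lit 4) (nat_lit 1) (nat_lit 4) (nat_lit 334) (nat_lit 194) (nat_lit 192))))))) (XT.nd (nat_lit 702) (nat_lit 0) (nat_lit 0) (XT.nd (nat_lit 312) (nat_lit 0) (nat_lit 0) (XT.nd (nat_lit 156) (nat_lit 0) (nat_lit 0) (XT.nd (nat_lit 78) (nat_lit 0) (nat_lit 0) (XT.lf (nat_lit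 0) (nat_lit 12114884777) (nat_lit 152) (nat_lit 108970955438) (nat_lit 0) (nat_lit 11767159956) (nat_lit 1) (nat_lit 5) (nat_lit 3) (nat_lit 4) (nat_lit 1) (nat_lit 4) (nat_lit 335) (nat_lit 194) (nat_lit 191)) (XT.lf (nat_lit 0) (nat_lit 14464687059) (nat_lit 152) (nat_lit 110924191944) (nat_lit 0) (nat_lit 14011913389) (nat_lit 1) (nat_lit 5) (nat_lit 3) (nat_lit 4) (nat_lit 1) (nat_lit 4) (nat_lit 336) (nat_lit 194) (nat_lit 190))) (XT.nd (nat_lit 78) (nat_lit 0) (nat_lit 0) (XT.lf (nat_lit 0) (nat_lit 16876025490) (nat_lit 152) (nat_lit 113079579114) (nat_lit 0) (nat_lit 16323205298) (nat_lit 1) (nat_lit 5) (nat_lit 3) (nat_lit 4) (nat_lit 1) (nat_lit 4) (nat_lit 337) (nat_lit 194) (nat_lit 189)) (XT.lf (nat_lit 0) (nat_lit 19354641353) (nat_lit 152) (nat_lit 115442248822) (nat_lit 0) (nat_lit 18706538758) (nat_lit 1) (nat_lit 5) (nat_lit 3) (nat_lit 4) (nat_lit 1) (nat_lit 4) (nat_lit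 338) (nat_lit 194) (nat_lit 188)))) (XT.nd (nat_lit 156) (nat_lit 0) (nat_lit 0) (XT.nd (nat_lit 78) (nat_lit 0) (nat_lit 0) (XT.lf (nat_lit 0) (nat_lit 21906436114) (nat_lit 152) (nat_lit 118017826473) (nat_lit 0) (nat_lit 21167588374) (nat_lit 1) (nat_lit 5) (nat_lit 3) (nat_lit 4) (nat_lit 1) (nat_lit 4) (nat_lit 339) (nat_lit 194) (nat_lit 187)) (XT.lf (nat_lit 0) (nat_lit 24537485475) (nat_lit 152) (nat_lit 120812444394) (nat_lit 0) (nat_lit 23712213787) (nat_lit 1) (nat_lit 5) (nat_lit 3) (nat_lit 4) (nat_lit 1) (nat_lit 4) (nat_lit 340) (nat_lit 194) (nat_lit 186))) (XT.nd (nat_lit 78) (nat_lit 0) (nat_lit 0) (XT.lf (nat_lit 0) (nat_lit 27254053839) (nat_lit 152) (nat_lit 123832756438) (nat_lit 0) (nat_lit 26346473629) (nat_lit 1) (nat_lit 5) (nat_lit 3) (nat_lit 4) (nat_lit 1) (nat_lit 4) (nat_lit 341) (nat_lit 194) (nat_lit 185)) (XT.nd (nat_lit 78) (nat_lit 0) (nat_lit 0)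 (XT.lf (nat_lit 0) (nat_lit 30062609225) (nat_lit 152) (nat_lit 127085953824) (nat_lit 0) (nat_lit 29076639948) (nat_lit 1) (nat_lit 5) (nat_lit 3) (nat_lit 4) (nat_lit 1) (nat_lit 4) (nat_lit 342) (nat_lit 194) (nat_lit 184)) (XT.lf (nat_lit 0) (nat_lit 32969838672) (nat_lit 152) (nat_lit 130579782259) (nat_lit 0) (nat_lit 31909213139) (nat_lit 1) (nat_lit 5) (nat_lit 3) (nat_lit 4) (nat_lit 1) (nat_lit 4) (nat_lit 343) (nat_lit 194) (nat_lit 183)))))) (XT.nd (nat_lit 312) (nat_lit 0) (nat_lit 0) (XT.nd (nat_lit 156) (nat_lit 0) (nat_lit 0) (XT.nd (nat_lit 78) (nat_lit 0) (nat_lit 0) (XT.lf (nat_lit 0) (nat_lit 35982664153) (nat_lit 152) (nat_lit 134322560383) (nat_lit 0) (nat_lit 34850937424) (nat_lit 1) (nat_lit 5) (nat_lit 3) (nat_lit 4) (nat_lit 1) (nat_lit 4) (nat_lit 344) (nat_lit 194) (nat_lit 182)) (XT.lf (nat_lit 0) (nat_lit 39108259062) (nat_lit 152) (nat_lit 138323199573)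 (nat_lit 0) (nat_lit 37908816909) (nat_lit 1) (nat_lit 5) (nat_lit 3) (nat_lit 4) (nat_lit 1) (nat_lit 4) (nat_lit 345) (nat_lit 194) (nat_lit 181))) (XT.nd (nat_lit 78) (nat_lit 0) (nat_lit 0) (XT.lf (nat_lit 0) (nat_lit 42354065293) (nat_lit 152) (nat_lit 142591225159) (nat_lit 0) (nat_lit 41090132259) (nat_lit 1) (nat_lit 5) (nat_lit 3) (nat_lit 4) (nat_lit 1) (nat_lit 4) (nat_lit 346) (nat_lit 194) (nat_lit 180)) (XT.lf (nat_lit 0) (nat_lit 45727810955) (nat_lit 152) (nat_lit 147136799108) (nat_lit 0) (nat_lit 44402458035) (nat_lit 1) (nat_lit 5) (nat_lit 3) (nat_lit 4) (nat_lit 1) (nat_lit 4) (nat_lit 347) (nat_lit 194) (nat_lit 179)))) (XT.nd (nat_lit 156) (nat_lit 0) (nat_lit 0) (XT.nd (nat_lit 78) (nat_lit 0) (nat_lit 0) (XT.lf (nat_lit 0) (nat_lit 49237528776) (nat_lit 152) (nat_lit 151970744215) (nat_lit 0) (nat_lit 47853680726) (nat_lit 1) (nat_lit 5) (nat_lit 3) (nat_lit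 4) (nat_lit 1) (nat_lit 4) (nat_lit 348) (nat_lit 194) (nat_lit 178)) (XT.lf (nat_lit 0) (nat_lit 52891575226) (nat_lit 152) (nat_lit 157104569872) (nat_lit 0) (nat_lit 51452017529) (nat_lit 1) (nat_lit 5) (nat_lit 3) (nat_lit 4) (nat_lit 1) (nat_lit 4) (nat_lit 349) (nat_lit 194) (nat_lit 177))) (XT.nd (nat_lit 78) (nat_lit 0) (nat_lit 0) (XT.lf (nat_lit 0) (nat_lit 56698650418) (nat_lit 152) (nat_lit 162550499474) (nat_lit 0) (nat_lit 55206035913) (nat_lit 1) (nat_lit 5) (nat_lit 3) (nat_lit 4) (nat_lit 1) (nat_lit 4) (nat_lit 350) (nat_lit 194) (nat_lit 176)) (XT.nd (nat_lit 78) (nat_lit 0) (nat_lit 0) (XT.lf (nat_lit 0) (nat_lit 60667818814) (nat_lit 152) (nat_lit 168321499520) (nat_lit 0) (nat_lit 59124674018) (nat_lit 1) (nat_lit 5) (nat_lit 3) (nat_lit 4) (nat_lit 1) (nat_lit 4) (nat_lit 351) (nat_lit 194) (nat_lit 175)) (XT.lf (nat_lit 0) (nat_lit 64808530817) (nat_lit 152)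 (nat_lit 174431310487) (nat_lit 0) (nat_lit 63217261932) (nat_lit 1) (nat_lit 5) (nat_lit 3) (nat_lit 4) (nat_lit 1) (nat_lit 4) (nat_lit 352) (nat_lit 194) (nat_lit 174))))))))
noncomputable def xc9 : XT := (XT.nd (nat_lit 35958) (nat_lit 0) (nat_lit 0) (XT.nd (nat_lit 702) (nat_lit 0) (nat_lit 0) (XT.nd (nat_lit 312) (nat_lit 0) (nat_lit 0) (XT.nd (nat_lit 156) (nat_lit 0) (nat_lit 0) (XT.nd (nat_lit 78) (nat_lit 0) (nat_lit 0) (XT.lf (nat_lit 0) (nat_lit 69130645264) (nat_lit 152) (nat_lit 180894479543) (nat_lit 0) (nat_lit 67493543915) (nat_lit 1) (nat_lit 5) (nat_lit 3) (nat_lit 4) (nat_lit 1) (nat_lit 4) (nat_lit 353) (nat_lit 194) (nat_lit 173)) (XT.lf (nat_lit 0) (nat_lit 73644452905) (nat_lit 152) (nat_lit 187726395187) (nat_lit 0) (nat_lit 71963701589) (nat_lit 1) (nat_lit 5) (nat_lit 3) (nat_lit 4) (nat_lit 1) (nat_lit 4) (nat_lit 354) (nat_lit 194) (nat_lit 172))) (XT.nd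 (nat_lit 78) (nat_lit 0) (nat_lit 0) (XT.lf (nat_lit 0) (nat_lit 78360700899) (nat_lit 152) (nat_lit 194943323883) (nat_lit 0) (nat_lit 76638378187) (nat_lit 1) (nat_lit 5) (nat_lit 3) (nat_lit 4) (nat_lit 1) (nat_lit 4) (nat_lit 355) (nat_lit 194) (nat_lit 171)) (XT.lf (nat_lit 0) (nat_lit 83290618410) (nat_lit 152) (nat_lit 202562448796) (nat_lit 0) (nat_lit 81528703891) (nat_lit 1) (nat_lit 5) (nat_lit 3) (nat_lit 4) (nat_lit 1) (nat_lit 4) (nat_lit 356) (nat_lit 194) (nat_lit 170)))) (XT.nd (nat_lit 156) (nat_lit 0) (nat_lit 0) (XT.nd (nat_lit 78) (nat_lit 0) (nat_lit 0) (XT.lf (nat_lit 0) (nat_lit 88445943335) (nat_lit 152) (nat_lit 210601910699) (nat_lit 0) (nat_lit 86646322334) (nat_lit 1) (nat_lit 5) (nat_lit 3) (nat_lit 4) (nat_lit 1) (nat_lit 4) (nat_lit 357) (nat_lit 194) (nat_lit 169)) (XT.lf (nat_lit 0) (nat_lit 93838950258) (nat_lit 152) (nat_lit 219080851168) (nat_lit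 0) (nat_lit 92003418321) (nat_lit 1) (nat_lit 5) (nat_lit 3) (nat_lit 4) (nat_lit 1) (nat_lit 4) (nat_lit 358) (nat_lit 194) (nat_lit 168))) (XT.nd (nat_lit 78) (nat_lit 0) (nat_lit 0) (XT.lf (nat_lit 0) (nat_lit 99482479672) (nat_lit 152) (nat_lit 228019458157) (nat_lit 0) (nat_lit 97612746844) (nat_lit 1) (nat_lit 5) (nat_lit 3) (nat_lit 4) (nat_lit 1) (nat_lit 4) (nat_lit 359) (nat_lit 194) (nat_lit 167)) (XT.nd (nat_lit 78) (nat_lit 0) (nat_lit 0) (XT.lf (nat_lit 0) (nat_lit 105389968551) (nat_lit 152) (nat_lit 237439014063) (nat_lit 0) (nat_lit 103487663447) (nat_lit 1) (nat_lit 5) (nat_lit 3) (nat_lit 4) (nat_lit 1) (nat_lit 4) (nat_lit 360) (nat_lit 194) (nat_lit 166)) (XT.lf (nat_lit 0) (nat_lit 111575482345) (nat_lit 152) (nat_lit 247361946400) (nat_lit 0) (nat_lit 109642156025) (nat_lit 1) (nat_lit 5) (nat_lit 3) (nat_lit 4) (nat_lit 1) (nat_lit 4) (nat_lit 361) (nat_lit 194)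 (nat_lit 165)))))) (XT.nd (nat_lit 312) (nat_lit 0) (nat_lit 0) (XT.nd (nat_lit 156) (nat_lit 0) (nat_lit 0) (XT.nd (nat_lit 78) (nat_lit 0) (nat_lit 0) (XT.lf (nat_lit 0) (nat_lit 118053748469) (nat_lit 152) (nat_lit 257811881198) (nat_lit 0) (nat_lit 116090878133) (nat_lit 1) (nat_lit 5) (nat_lit 3) (nat_lit 4) (nat_lit 1) (nat_lit 4) (nat_lit 362) (nat_lit 194) (nat_lit 164)) (XT.lf (nat_lit 0) (nat_lit 124840191364) (nat_lit 152) (nat_lit 268813699254) (nat_lit 0) (nat_lit 122849183871) (nat_lit 1) (nat_lit 5) (nat_lit 3) (nat_lit 4) (nat_lit 1) (nat_lit 4) (nat_lit 363) (nat_lit 194) (nat_lit 163))) (XT.nd (nat_lit 78) (nat_lit 0) (nat_lit 0) (XT.lf (nat_lit 0) (nat_lit 131950969229) (nat_lit 152) (nat_lit 280393595373) (nat_lit 0) (nat_lit 129933164443) (nat_lit 1) (nat_lit 5) (nat_lit 3) (nat_lit 4) (nat_lit 1) (nat_lit 4) (nat_lit 364) (nat_lit 194) (nat_lit 162)) (XT.lf (nat_lit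 0) (nat_lit 139403012487) (nat_lit 152) (nat_lit 292579140735) (nat_lit 0) (nat_lit 137359686469) (nat_lit 1) (nat_lit 5) (nat_lit 3) (nat_lit 4) (nat_lit 1) (nat_lit 4) (nat_lit 365) (nat_lit 194) (nat_lit 161)))) (XT.nd (nat_lit 34710) (nat_lit 0) (nat_lit 0) (XT.nd (nat_lit 78) (nat_lit 0) (nat_lit 0) (XT.lf (nat_lit 0) (nat_lit 147214064098) (nat_lit 152) (nat_lit 305399348545) (nat_lit 0) (nat_lit 145146432145) (nat_lit 1) (nat_lit 5) (nat_lit 3) (nat_lit 4) (nat_lit 1) (nat_lit 4) (nat_lit 366) (nat_lit 194) (nat_lit 160)) (XT.lf (nat_lit 0) (nat_lit 155402721804) (nat_lit 152) (nat_lit 318884743106) (nat_lit 0) (nat_lit 153311941342) (nat_lit 1) (nat_lit 5) (nat_lit 3) (nat_lit 4) (nat_lit 1) (nat_lit 4) (nat_lit 367) (nat_lit 194) (nat_lit 159))) (XT.nd (nat_lit 78) (nat_lit 0) (nat_lit 0) (XT.lf (nat_lit 0) (nat_lit 630006291) (nat_lit 152) (nat_lit 51012733930) (nat_lit 0)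 (nat_lit 630006291) (nat_lit 1) (nat_lit 5) (nat_lit 3) (nat_lit 4) (nat_lit 1) (nat_lit 4) (nat_lit 330) (nat_lit 195) (nat_lit 195)) (XT.nd (nat_lit 78) (nat_lit 0) (nat_lit 0) (XT.lf (nat_lit 0) (nat_lit 3348749503) (nat_lit 152) (nat_lit 103093499749) (nat_lit 0) (nat_lit 3221061971) (nat_lit 1) (nat_lit 5) (nat_lit 3) (nat_lit 4) (nat_lit 1) (nat_lit 4) (nat_lit 331) (nat_lit 195) (nat_lit 194)) (XT.lf (nat_lit 0) (nat_lit 5473910877) (nat_lit 152) (nat_lit 104341940070) (nat_lit 0) (nat_lit 5224616171) (nat_lit 1) (nat_lit 5) (nat_lit 3) (nat_lit 4) (nat_lit 1) (nat_lit 4) (nat_lit 332) (nat_lit 195) (nat_lit 193))))))) (XT.nd (nat_lit 702) (nat_lit 0) (nat_lit 0) (XT.nd (nat_lit 312) (nat_lit 0) (nat_lit 0) (XT.nd (nat_lit 156) (nat_lit 0) (nat_lit 0) (XT.nd (nat_lit 78) (nat_lit 0) (nat_lit 0) (XT.lf (nat_lit 0) (nat_lit 7640556611) (nat_lit 152) (nat_lit 105773761298) (nat_lit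 0) (nat_lit 7275445550) (nat_lit 1) (nat_lit 5) (nat_lit 3) (nat_lit 4) (nat_lit 1) (nat_lit 4) (nat_lit 333) (nat_lit 195) (nat_lit 192)) (XT.lf (nat_lit 0) (nat_lit 9853845387) (nat_lit 152) (nat_lit 107392372534) (nat_lit 0) (nat_lit 9378433034) (nat_lit 1) (nat_lit 5) (nat_lit 3) (nat_lit 4) (nat_lit 1) (nat_lit 4) (nat_lit 334) (nat_lit 195) (nat_lit 191))) (XT.nd (nat_lit 78) (nat_lit 0) (nat_lit 0) (XT.lf (nat_lit 0) (nat_lit 12119046939) (nat_lit 152) (nat_lit 109201627612) (nat_lit 0) (nat_lit 11538585737) (nat_lit 1) (nat_lit 5) (nat_lit 3) (nat_lit 4) (nat_lit 1) (nat_lit 4) (nat_lit 335) (nat_lit 195) (nat_lit 190)) (XT.lf (nat_lit 0) (nat_lit 14441554603) (nat_lit 152) (nat_lit 111205834282) (nat_lit 0) (nat_lit 13761046879) (nat_lit 1) (nat_lit 5) (nat_lit 3) (nat_lit 4) (nat_lit 1) (nat_lit 4) (nat_lit 336) (nat_lit 195) (nat_lit 189)))) (XT.nd (nat_lit 156) (nat_lit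 0) (nat_lit 0) (XT.nd (nat_lit 78) (nat_lit 0) (nat_lit 0) (XT.lf (nat_lit 0) (nat_lit 16826898162) (nat_lit 152) (nat_lit 113409764467) (nat_lit 0) (nat_lit 16051108035) (nat_lit 1) (nat_lit 5) (nat_lit 3) (nat_lit 4) (nat_lit 1) (nat_lit 4) (nat_lit 337) (nat_lit 195) (nat_lit 188)) (XT.lf (nat_lit 0) (nat_lit 19280757003) (nat_lit 152) (nat_lit 115818665618) (nat_lit 0) (nat_lit 18414221731) (nat_lit 1) (nat_lit 5) (nat_lit 3) (nat_lit 4) (nat_lit 1) (nat_lit 4) (nat_lit 338) (nat_lit 195) (nat_lit 187))) (XT.nd (nat_lit 78) (nat_lit 0) (nat_lit 0) (XT.lf (nat_lit 0) (nat_lit 21808973647) (nat_lit 152) (nat_lit 118438273214) (nat_lit 0) (nat_lit 20856014428) (nat_lit 1) (nat_lit 5) (nat_lit 3) (nat_lit 4) (nat_lit 1) (nat_lit 4) (nat_lit 339) (nat_lit 195) (nat_lit 186)) (XT.nd (nat_lit 78) (nat_lit 0) (nat_lit 0) (XT.lf (nat_lit 0) (nat_lit 24417567659) (nat_lit 152) (nat_lit 121274824417)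 (nat_lit 0) (nat_lit 23382299918) (nat_lit 1) (nat_lit 5) (nat_lit 3) (nat_lit 4) (nat_lit 1) (nat_lit 4) (nat_lit 340) (nat_lit 195) (nat_lit 185)) (XT.lf (nat_lit 0) (nat_lit 27112749977) (nat_lit 152) (nat_lit 124335072919) (nat_lit 0) (nat_lit 25999093167) (nat_lit 1) (nat_lit 5) (nat_lit 3) (nat_lit 4) (nat_lit 1) (nat_lit 4) (nat_lit 341) (nat_lit 195) (nat_lit 184)))))) (XT.nd (nat_lit 312) (nat_lit 0) (nat_lit 0) (XT.nd (nat_lit 156) (nat_lit 0) (nat_lit 0) (XT.nd (nat_lit 78) (nat_lit 0) (nat_lit 0) (XT.lf (nat_lit 0) (nat_lit 29900937700) (nat_lit 152) (nat_lit 127626305027) (nat_lit 0) (nat_lit 28712624635) (nat_lit 1) (nat_lit 5) (nat_lit 3) (nat_lit 4) (nat_lit 1) (nat_lit 4) (nat_lit 342) (nat_lit 195) (nat_lit 183)) (XT.lf (nat_lit 0) (nat_lit 32788769372) (nat_lit 152) (nat_lit 131156357007) (nat_lit 0) (nat_lit 31529355111) (nat_lit 1) (nat_lit 5) (nat_lit 3) (nat_lit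 4) (nat_lit 1) (nat_lit 4) (nat_lit 343) (nat_lit 195) (nat_lit 182))) (XT.nd (nat_lit 78) (nat_lit 0) (nat_lit 0) (XT.lf (nat_lit 0) (nat_lit 35783120782) (nat_lit 152) (nat_lit 134933633745) (nat_lit 0) (nat_lit 34455991097) (nat_lit 1) (nat_lit 5) (nat_lit 3) (nat_lit 4) (nat_lit 1) (nat_lit 4) (nat_lit 344) (nat_lit 195) (nat_lit 181)) (XT.lf (nat_lit 0) (nat_lit 38891121339) (nat_lit 152) (nat_lit 138967128758) (nat_lit 0) (nat_lit 37499500772) (nat_lit 1) (nat_lit 5) (nat_lit 3) (nat_lit 4) (nat_lit 1) (nat_lit 4) (nat_lit 345) (nat_lit 195) (nat_lit 180)))) (XT.nd (nat_lit 156) (nat_lit 0) (nat_lit 0) (XT.nd (nat_lit 78) (nat_lit 0) (nat_lit 0) (XT.lf (nat_lit 0) (nat_lit 42120171042) (nat_lit 152) (nat_lit 143266445605) (nat_lit 0) (nat_lit 40667130590) (nat_lit 1) (nat_lit 5) (nat_lit 3) (nat_lit 4) (nat_lit 1) (nat_lit 4) (nat_lit 346) (nat_lit 195) (nat_lit 179)) (XT.lf (nat_lit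 0) (nat_lit 45477958107) (nat_lit 152) (nat_lit 147841820753) (nat_lit 0) (nat_lit 43966422525) (nat_lit 1) (nat_lit 5) (nat_lit 3) (nat_lit 4) (nat_lit 1) (nat_lit 4) (nat_lit 347) (nat_lit 195) (nat_lit 178))) (XT.nd (nat_lit 78) (nat_lit 0) (nat_lit 0) (XT.lf (nat_lit 0) (nat_lit 48972477264) (nat_lit 152) (nat_lit 152704147955) (nat_lit 0) (nat_lit 47405232034) (nat_lit 1) (nat_lit 5) (nat_lit 3) (nat_lit 4) (nat_lit 1) (nat_lit 4) (nat_lit 348) (nat_lit 195) (nat_lit 177)) (XT.nd (nat_lit 78) (nat_lit 0) (nat_lit 0) (XT.lf (nat_lit 0) (nat_lit 52612048796) (nat_lit 152) (nat_lit 157865004179) (nat_lit 0) (nat_lit 50991746760) (nat_lit 1) (nat_lit 5) (nat_lit 3) (nat_lit 4) (nat_lit 1) (nat_lit 4) (nat_lit 349) (nat_lit 195) (nat_lit 176)) (XT.lf (nat_lit 0) (nat_lit 56405338351) (nat_lit 152) (nat_lit 163336677178) (nat_lit 0) (nat_lit 54734506022) (nat_lit 1) (nat_lit 5) (nat_lit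 3) (nat_lit 4) (nat_lit 1) (nat_lit 4) (nat_lit 350) (nat_lit 195) (nat_lit 175))))))))
noncomputable def xc10 : XT := (XT.nd (nat_lit 35802) (nat_lit 0) (nat_lit 0) (XT.nd (nat_lit 702) (nat_lit 0) (nat_lit 0) (XT.nd (nat_lit 312) (nat_lit 0) (nat_lit 0) (XT.nd (nat_lit 156) (nat_lit 0) (nat_lit 0) (XT.nd (nat_lit 78) (nat_lit 0) (nat_lit 0) (XT.lf (nat_lit 0) (nat_lit 60361377571) (nat_lit 152) (nat_lit 169132194746) (nat_lit 0) (nat_lit 58642421154) (nat_lit 1) (nat_lit 5) (nat_lit 3) (nat_lit 4) (nat_lit 1) (nat_lit 4) (nat_lit 351) (nat_lit 195) (nat_lit 174)) (XT.lf (nat_lit 0) (nat_lit 64489585595) (nat_lit 152) (nat_lit 175265355733) (nat_lit 0) (nat_lit 62724796713) (nat_lit 1) (nat_lit 5) (nat_lit 3) (nat_lit 4) (nat_lit 1) (nat_lit 4) (nat_lit 352) (nat_lit 195) (nat_lit 173))) (XT.nd (nat_lit 78) (nat_lit 0) (nat_lit 0) (XT.lf (nat_lit 0) (nat_lit 68799791492) (nat_lit 152)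 (nat_lit 181750762903) (nat_lit 0) (nat_lit 66991352643) (nat_lit 1) (nat_lit 5) (nat_lit 3) (nat_lit 4) (nat_lit 1) (nat_lit 4) (nat_lit 353) (nat_lit 195) (nat_lit 172)) (XT.lf (nat_lit 0) (nat_lit 73302257655) (nat_lit 152) (nat_lit 188603857703) (nat_lit 0) (nat_lit 71452247410) (nat_lit 1) (nat_lit 5) (nat_lit 3) (nat_lit 4) (nat_lit 1) (nat_lit 4) (nat_lit 354) (nat_lit 195) (nat_lit 171)))) (XT.nd (nat_lit 156) (nat_lit 0) (nat_lit 0) (XT.nd (nat_lit 78) (nat_lit 0) (nat_lit 0) (XT.lf (nat_lit 0) (nat_lit 78007704243) (nat_lit 152) (nat_lit 195840957025) (nat_lit 0) (nat_lit 76118102191) (nat_lit 1) (nat_lit 5) (nat_lit 3) (nat_lit 4) (nat_lit 1) (nat_lit 4) (nat_lit 355) (nat_lit 195) (nat_lit 170)) (XT.lf (nat_lit 0) (nat_lit 82927334699) (nat_lit 152) (nat_lit 203479292057) (nat_lit 0) (nat_lit 81000026166) (nat_lit 1) (nat_lit 5) (nat_lit 3) (nat_lit 4) (nat_lit 1) (nat_lit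 4) (nat_lit 356) (nat_lit 195) (nat_lit 169))) (XT.nd (nat_lit 78) (nat_lit 0) (nat_lit 0) (XT.lf (nat_lit 0) (nat_lit 88072862430) (nat_lit 152) (nat_lit 211537049312) (nat_lit 0) (nat_lit 86109642961) (nat_lit 1) (nat_lit 5) (nat_lit 3) (nat_lit 4) (nat_lit 1) (nat_lit 4) (nat_lit 357) (nat_lit 195) (nat_lit 168)) (XT.nd (nat_lit 78) (nat_lit 0) (nat_lit 0) (XT.lf (nat_lit 0) (nat_lit 93456538692) (nat_lit 152) (nat_lit 220033413925) (nat_lit 0) (nat_lit 91459118332) (nat_lit 1) (nat_lit 5) (nat_lit 3) (nat_lit 4) (nat_lit 1) (nat_lit 4) (nat_lit 358) (nat_lit 195) (nat_lit 167)) (XT.lf (nat_lit 0) (nat_lit 99091181761) (nat_lit 152) (nat_lit 228988615337) (nat_lit 0) (nat_lit 97061189125) (nat_lit 1) (nat_lit 5) (nat_lit 3) (nat_lit 4) (nat_lit 1) (nat_lit 4) (nat_lit 359) (nat_lit 195) (nat_lit 166)))))) (XT.nd (nat_lit 312) (nat_lit 0) (nat_lit 0) (XT.nd (nat_lit 156) (nat_lit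 0) (nat_lit 0) (XT.nd (nat_lit 78) (nat_lit 0) (nat_lit 0) (XT.lf (nat_lit 0) (nat_lit 104990207456) (nat_lit 152) (nat_lit 238423975456) (nat_lit 0) (nat_lit 102929193603) (nat_lit 1) (nat_lit 5) (nat_lit 3) (nat_lit 4) (nat_lit 1) (nat_lit 4) (nat_lit 360) (nat_lit 195) (nat_lit 165)) (XT.lf (nat_lit 0) (nat_lit 111167661074) (nat_lit 152) (nat_lit 248361959425) (nat_lit 0) (nat_lit 109077103206) (nat_lit 1) (nat_lit 5) (nat_lit 3) (nat_lit 4) (nat_lit 1) (nat_lit 4) (nat_lit 361) (nat_lit 195) (nat_lit 164))) (XT.nd (nat_lit 78) (nat_lit 0) (nat_lit 0) (XT.lf (nat_lit 0) (nat_lit 117638250840) (nat_lit 152) (nat_lit 258826229109) (nat_lit 0) (nat_lit 115519555814) (nat_lit 1) (nat_lit 5) (nat_lit 3) (nat_lit 4) (nat_lit 1) (nat_lit 4) (nat_lit 362) (nat_lit 195) (nat_lit 163)) (XT.lf (nat_lit 0) (nat_lit 124417382918) (nat_lit 152) (nat_lit 269841699438) (nat_lit 0) (nat_lit 122271890599)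 (nat_lit 1) (nat_lit 5) (nat_lit 3) (nat_lit 4) (nat_lit 1) (nat_lit 4) (nat_lit 363) (nat_lit 195) (nat_lit 162)))) (XT.nd (nat_lit 156) (nat_lit 0) (nat_lit 0) (XT.nd (nat_lit 78) (nat_lit 0) (nat_lit 0) (XT.lf (nat_lit 0) (nat_lit 131521198100) (nat_lit 152) (nat_lit 281434597722) (nat_lit 0) (nat_lit 129350184550) (nat_lit 1) (nat_lit 5) (nat_lit 3) (nat_lit 4) (nat_lit 1) (nat_lit 4) (nat_lit 364) (nat_lit 195) (nat_lit 161)) (XT.lf (nat_lit 0) (nat_lit 138966610231) (nat_lit 152) (nat_lit 293632526098) (nat_lit 0) (nat_lit 136771290746) (nat_lit 1) (nat_lit 5) (nat_lit 3) (nat_lit 4) (nat_lit 1) (nat_lit 4) (nat_lit 365) (nat_lit 195) (nat_lit 160))) (XT.nd (nat_lit 78) (nat_lit 0) (nat_lit 0) (XT.lf (nat_lit 0) (nat_lit 146771346483) (nat_lit 152) (nat_lit 306464527254) (nat_lit 0) (nat_lit 144552878489) (nat_lit 1) (nat_lit 5) (nat_lit 3) (nat_lit 4) (nat_lit 1) (nat_lit 4)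 (nat_lit 366) (nat_lit 195) (nat_lit 159)) (XT.nd (nat_lit 34476) (nat_lit 0) (nat_lit 152) (XT.lf (nat_lit 0) (nat_lit 154953989562) (nat_lit 152) (nat_lit 319961153574) (nat_lit 0) (nat_lit 152713475369) (nat_lit 1) (nat_lit 5) (nat_lit 3) (nat_lit 4) (nat_lit 1) (nat_lit 4) (nat_lit 367) (nat_lit 195) (nat_lit 158)) (XT.lf (nat_lit 0) (nat_lit 44900251807) (nat_lit 76) (nat_lit 1307247928) (nat_lit 76) (nat_lit 1307247928) (nat_lit 3) (nat_lit 4) (nat_lit 4) (nat_lit 5) (nat_lit 4) (nat_lit 4) (nat_lit 328) (nat_lit 196) (nat_lit 196))))))) (XT.nd (nat_lit 702) (nat_lit 0) (nat_lit 0) (XT.nd (nat_lit 312) (nat_lit 0) (nat_lit 0) (XT.nd (nat_lit 156) (nat_lit 0) (nat_lit 0) (XT.nd (nat_lit 78) (nat_lit 152) (nat_lit 0) (XT.lf (nat_lit 0) (nat_lit 98235609528) (nat_lit 76) (nat_lit 788846848) (nat_lit 76) (nat_lit 648071344) (nat_lit 3) (nat_lit 4) (nat_lit 4) (nat_lit 5) (nat_lit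 4) (nat_lit 4) (nat_lit 329) (nat_lit 196) (nat_lit 195)) (XT.lf (nat_lit 0) (nat_lit 1359248875) (nat_lit 152) (nat_lit 102090520142) (nat_lit 0) (nat_lit 1097489434) (nat_lit 1) (nat_lit 5) (nat_lit 3) (nat_lit 4) (nat_lit 1) (nat_lit 4) (nat_lit 330) (nat_lit 196) (nat_lit 194))) (XT.nd (nat_lit 78) (nat_lit 0) (nat_lit 0) (XT.lf (nat_lit 0) (nat_lit 3414809019) (nat_lit 152) (nat_lit 103220506586) (nat_lit 0) (nat_lit 3031442404) (nat_lit 1) (nat_lit 5) (nat_lit 3) (nat_lit 4) (nat_lit 1) (nat_lit 4) (nat_lit 331) (nat_lit 196) (nat_lit 193)) (XT.lf (nat_lit 0) (nat_lit 5508373462) (nat_lit 152) (nat_lit 104527951244) (nat_lit 0) (nat_lit 5009190491) (nat_lit 1) (nat_lit 5) (nat_lit 3) (nat_lit 4) (nat_lit 1) (nat_lit 4) (nat_lit 332) (nat_lit 196) (nat_lit 192)))) (XT.nd (nat_lit 156) (nat_lit 0) (nat_lit 0) (XT.nd (nat_lit 78) (nat_lit 0) (nat_lit 0) (XT.lf (nat_lit 0) (nat_lit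 7644926881) (nat_lit 152) (nat_lit 106015967080) (nat_lit 0) (nat_lit 7035442620) (nat_lit 1) (nat_lit 5) (nat_lit 3) (nat_lit 4) (nat_lit 1) (nat_lit 4) (nat_lit 333) (nat_lit 196) (nat_lit 191)) (XT.lf (nat_lit 0) (nat_lit 9829556309) (nat_lit 152) (nat_lit 107688096989) (nat_lit 0) (nat_lit 9115023199) (nat_lit 1) (nat_lit 5) (nat_lit 3) (nat_lit 4) (nat_lit 1) (nat_lit 4) (nat_lit 334) (nat_lit 196) (nat_lit 190))) (XT.nd (nat_lit 78) (nat_lit 0) (nat_lit 0) (XT.lf (nat_lit 0) (nat_lit 12067463244) (nat_lit 152) (nat_lit 109548322233) (nat_lit 0) (nat_lit 11252883611) (nat_lit 1) (nat_lit 5) (nat_lit 3) (nat_lit 4) (nat_lit 1) (nat_lit 4) (nat_lit 335) (nat_lit 196) (nat_lit 189)) (XT.nd (nat_lit 78) (nat_lit 0) (nat_lit 0) (XT.lf (nat_lit 0) (nat_lit 14363976036) (nat_lit 152) (nat_lit 111601071918) (nat_lit 0) (nat_lit 13454114000) (nat_lit 1) (nat_lit 5) (nat_lit 3) (nat_lit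 4) (nat_lit 1) (nat_lit 4) (nat_lit 336) (nat_lit 196) (nat_lit 188)) (XT.lf (nat_lit 0) (nat_lit 16724562572) (nat_lit 152) (nat_lit 113851233545) (nat_lit 0) (nat_lit 15723955391) (nat_lit 1) (nat_lit 5) (nat_lit 3) (nat_lit 4) (nat_lit 1) (nat_lit 4) (nat_lit 337) (nat_lit 196) (nat_lit 187)))))) (XT.nd (nat_lit 312) (nat_lit 0) (nat_lit 0) (XT.nd (nat_lit 156) (nat_lit 0) (nat_lit 0) (XT.nd (nat_lit 78) (nat_lit 0) (nat_lit 0) (XT.lf (nat_lit 0) (nat_lit 19154843297) (nat_lit 152) (nat_lit 116304164641) (nat_lit 0) (nat_lit 18067812168) (nat_lit 1) (nat_lit 5) (nat_lit 3) (nat_lit 4) (nat_lit 1) (nat_lit 4) (nat_lit 338) (nat_lit 196) (nat_lit 186)) (XT.lf (nat_lit 0) (nat_lit 21660604593) (nat_lit 152) (nat_lit 118965705519) (nat_lit 0) (nat_lit 20491264942) (nat_lit 1) (nat_lit 5) (nat_lit 3) (nat_lit 4) (nat_lit 1) (nat_lit 4) (nat_lit 339) (nat_lit 196) (nat_lit 185))) (XT.nd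 (nat_lit 78) (nat_lit 0) (nat_lit 0) (XT.lf (nat_lit 0) (nat_lit 24247812558) (nat_lit 152) (nat_lit 121842193180) (nat_lit 0) (nat_lit 23000083839) (nat_lit 1) (nat_lit 5) (nat_lit 3) (nat_lit 4) (nat_lit 1) (nat_lit 4) (nat_lit 340) (nat_lit 196) (nat_lit 184)) (XT.lf (nat_lit 0) (nat_lit 26922627212) (nat_lit 152) (nat_lit 124940476404) (nat_lit 0) (nat_lit 25600242238) (nat_lit 1) (nat_lit 5) (nat_lit 3) (nat_lit 4) (nat_lit 1) (nat_lit 4) (nat_lit 341) (nat_lit 196) (nat_lit 183)))) (XT.nd (nat_lit 156) (nat_lit 0) (nat_lit 0) (XT.nd (nat_lit 78) (nat_lit 0) (nat_lit 0) (XT.lf (nat_lit 0) (nat_lit 29691417161) (nat_lit 152) (nat_lit 128267932057) (nat_lit 0) (nat_lit 28297930991) (nat_lit 1) (nat_lit 5) (nat_lit 3) (nat_lit 4) (nat_lit 1) (nat_lit 4) (nat_lit 342) (nat_lit 196) (nat_lit 182)) (XT.lf (nat_lit 0) (nat_lit 32560774762) (nat_lit 152) (nat_lit 131832482651) (nat_lit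 0) (nat_lit 31099573168) (nat_lit 1) (nat_lit 5) (nat_lit 3) (nat_lit 4) (nat_lit 1) (nat_lit 4) (nat_lit 343) (nat_lit 196) (nat_lit 181))) (XT.nd (nat_lit 78) (nat_lit 0) (nat_lit 0) (XT.lf (nat_lit 0) (nat_lit 35537531819) (nat_lit 152) (nat_lit 135642615213) (nat_lit 0) (nat_lit 34011839344) (nat_lit 1) (nat_lit 5) (nat_lit 3) (nat_lit 4) (nat_lit 1) (nat_lit 4) (nat_lit 344) (nat_lit 196) (nat_lit 180)) (XT.nd (nat_lit 78) (nat_lit 0) (nat_lit 0) (XT.lf (nat_lit 0) (nat_lit 38628775848) (nat_lit 152) (nat_lit 139707401486) (nat_lit 0) (nat_lit 37041663487) (nat_lit 1) (nat_lit 5) (nat_lit 3) (nat_lit 4) (nat_lit 1) (nat_lit 4) (nat_lit 345) (nat_lit 196) (nat_lit 179)) (XT.lf (nat_lit 0) (nat_lit 41841866955) (nat_lit 152) (nat_lit 144036519532) (nat_lit 0) (nat_lit 40196259463) (nat_lit 1) (nat_lit 5) (nat_lit 3) (nat_lit 4) (nat_lit 1) (nat_lit 4) (nat_lit 346) (nat_lit 196)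 (nat_lit 178))))))))
noncomputable def xc11 : XT := (XT.nd (nat_lit 1404) (nat_lit 0) (nat_lit 0) (XT.nd (nat_lit 702) (nat_lit 0) (nat_lit 0) (XT.nd (nat_lit 312) (nat_lit 0) (nat_lit 0) (XT.nd (nat_lit 156) (nat_lit 0) (nat_lit 0) (XT.nd (nat_lit 78) (nat_lit 0) (nat_lit 0) (XT.lf (nat_lit 0) (nat_lit 45184455355) (nat_lit 152) (nat_lit 148640276776) (nat_lit 0) (nat_lit 43483138217) (nat_lit 1) (nat_lit 5) (nat_lit 3) (nat_lit 4) (nat_lit 1) (nat_lit 4) (nat_lit 347) (nat_lit 196) (nat_lit 177)) (XT.lf (nat_lit 0) (nat_lit 48664499594) (nat_lit 152) (nat_lit 153529634545) (nat_lit 0) (nat_lit 46910125649) (nat_lit 1) (nat_lit 5) (nat_lit 3) (nat_lit 4) (nat_lit 1) (nat_lit 4) (nat_lit 348) (nat_lit 196) (nat_lit 176))) (XT.nd (nat_lit 78) (nat_lit 0) (nat_lit 0) (XT.lf (nat_lit 0) (nat_lit 52290285491) (nat_lit 152) (nat_lit 158716234166) (nat_lit 0) (nat_lit 50485381253) (nat_lit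 1) (nat_lit 5) (nat_lit 3) (nat_lit 4) (nat_lit 1) (nat_lit 4) (nat_lit 349) (nat_lit 196) (nat_lit 175)) (XT.lf (nat_lit 0) (nat_lit 56070445868) (nat_lit 152) (nat_lit 164212424686) (nat_lit 0) (nat_lit 54217417543) (nat_lit 1) (nat_lit 5) (nat_lit 3) (nat_lit 4) (nat_lit 1) (nat_lit 4) (nat_lit 350) (nat_lit 196) (nat_lit 174)))) (XT.nd (nat_lit 156) (nat_lit 0) (nat_lit 0) (XT.nd (nat_lit 78) (nat_lit 0) (nat_lit 0) (XT.lf (nat_lit 0) (nat_lit 60013981109) (nat_lit 152) (nat_lit 170031292274) (nat_lit 0) (nat_lit 58115120319) (nat_lit 1) (nat_lit 5) (nat_lit 3) (nat_lit 4) (nat_lit 1) (nat_lit 4) (nat_lit 351) (nat_lit 196) (nat_lit 173)) (XT.lf (nat_lit 0) (nat_lit 64130280583) (nat_lit 152) (nat_lit 176186691375) (nat_lit 0) (nat_lit 62187769826) (nat_lit 1) (nat_lit 5) (nat_lit 3) (nat_lit 4) (nat_lit 1) (nat_lit 4) (nat_lit 352) (nat_lit 196) (nat_lit 172))) (XT.nd (nat_lit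 78) (nat_lit 0) (nat_lit 0) (XT.lf (nat_lit 0) (nat_lit 68429145002) (nat_lit 152) (nat_lit 182693277702) (nat_lit 0) (nat_lit 66445062848) (nat_lit 1) (nat_lit 5) (nat_lit 3) (nat_lit 4) (nat_lit 1) (nat_lit 4) (nat_lit 353) (nat_lit 196) (nat_lit 171)) (XT.nd (nat_lit 78) (nat_lit 0) (nat_lit 0) (XT.lf (nat_lit 0) (nat_lit 72920809759) (nat_lit 152) (nat_lit 189566543127) (nat_lit 0) (nat_lit 70897135799) (nat_lit 1) (nat_lit 5) (nat_lit 3) (nat_lit 4) (nat_lit 1) (nat_lit 4) (nat_lit 354) (nat_lit 196) (nat_lit 170)) (XT.lf (nat_lit 0) (nat_lit 77615969292) (nat_lit 152) (nat_lit 196822852568) (nat_lit 0) (nat_lit 75554588850) (nat_lit 1) (nat_lit 5) (nat_lit 3) (nat_lit 4) (nat_lit 1) (nat_lit 4) (nat_lit 355) (nat_lit 196) (nat_lit 169)))))) (XT.nd (nat_lit 312) (nat_lit 0) (nat_lit 0) (XT.nd (nat_lit 156) (nat_lit 0) (nat_lit 0) (XT.nd (nat_lit 78) (nat_lit 0) (nat_lit 0) (XT.lf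 (nat_lit 0) (nat_lit 82525802554) (nat_lit 152) (nat_lit 204479482952) (nat_lit 0) (nat_lit 80428511177) (nat_lit 1) (nat_lit 5) (nat_lit 3) (nat_lit 4) (nat_lit 1) (nat_lit 4) (nat_lit 356) (nat_lit 196) (nat_lit 168)) (XT.lf (nat_lit 0) (nat_lit 87661999624) (nat_lit 152) (nat_lit 212554664351) (nat_lit 0) (nat_lit 85530507356) (nat_lit 1) (nat_lit 5) (nat_lit 3) (nat_lit 4) (nat_lit 1) (nat_lit 4) (nat_lit 357) (nat_lit 196) (nat_lit 167))) (XT.nd (nat_lit 78) (nat_lit 0) (nat_lit 0) (XT.lf (nat_lit 0) (nat_lit 93036789542) (nat_lit 152) (nat_lit 221067623388) (nat_lit 0) (nat_lit 90872724997) (nat_lit 1) (nat_lit 5) (nat_lit 3) (nat_lit 4) (nat_lit 1) (nat_lit 4) (nat_lit 358) (nat_lit 196) (nat_lit 166)) (XT.lf (nat_lit 0) (nat_lit 98662969427) (nat_lit 152) (nat_lit 230038629013) (nat_lit 0) (nat_lit 96467883665) (nat_lit 1) (nat_lit 5) (nat_lit 3) (nat_lit 4) (nat_lit 1) (nat_lit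 4) (nat_lit 359) (nat_lit 196) (nat_lit 165)))) (XT.nd (nat_lit 156) (nat_lit 0) (nat_lit 0) (XT.nd (nat_lit 78) (nat_lit 0) (nat_lit 0) (XT.lf (nat_lit 0) (nat_lit 104553934945) (nat_lit 152) (nat_lit 239489040763) (nat_lit 0) (nat_lit 102329305168) (nat_lit 1) (nat_lit 5) (nat_lit 3) (nat_lit 4) (nat_lit 1) (nat_lit 4) (nat_lit 360) (nat_lit 196) (nat_lit 164)) (XT.lf (nat_lit 0) (nat_lit 110723712206) (nat_lit 152) (nat_lit 249441359618) (nat_lit 0) (nat_lit 108470945271) (nat_lit 1) (nat_lit 5) (nat_lit 3) (nat_lit 4) (nat_lit 1) (nat_lit 4) (nat_lit 361) (nat_lit 196) (nat_lit 163))) (XT.nd (nat_lit 78) (nat_lit 0) (nat_lit 0) (XT.lf (nat_lit 0) (nat_lit 117186991154) (nat_lit 152) (nat_lit 259919281576) (nat_lit 0) (nat_lit 114907426926) (nat_lit 1) (nat_lit 5) (nat_lit 3) (nat_lit 4) (nat_lit 1) (nat_lit 4) (nat_lit 362) (nat_lit 196) (nat_lit 162)) (XT.nd (nat_lit 78) (nat_lit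 0) (nat_lit 0) (XT.lf (nat_lit 0) (nat_lit 123959160549) (nat_lit 152) (nat_lit 270947754070) (nat_lit 0) (nat_lit 121654075090) (nat_lit 1) (nat_lit 5) (nat_lit 3) (nat_lit 4) (nat_lit 1) (nat_lit 4) (nat_lit 363) (nat_lit 196) (nat_lit 161)) (XT.lf (nat_lit 0) (nat_lit 131056344604) (nat_lit 152) (nat_lit 282553035367) (nat_lit 0) (nat_lit 128726953211) (nat_lit 1) (nat_lit 5) (nat_lit 3) (nat_lit 4) (nat_lit 1) (nat_lit 4) (nat_lit 364) (nat_lit 196) (nat_lit 160))))))) (XT.nd (nat_lit 34944) (nat_lit 0) (nat_lit 0) (XT.nd (nat_lit 34554) (nat_lit 0) (nat_lit 0) (XT.nd (nat_lit 156) (nat_lit 0) (nat_lit 0) (XT.nd (nat_lit 78) (nat_lit 0) (nat_lit 0) (XT.lf (nat_lit 0) (nat_lit 138495441376) (nat_lit 152) (nat_lit 294762757090) (nat_lit 0) (nat_lit 136142901474) (nat_lit 1) (nat_lit 5) (nat_lit 3) (nat_lit 4) (nat_lit 1) (nat_lit 4) (nat_lit 365) (nat_lit 196) (nat_lit 159)) (XT.lf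 (nat_lit 0) (nat_lit 146294163001) (nat_lit 152) (nat_lit 307605990006) (nat_lit 0) (nat_lit 143919576899) (nat_lit 1) (nat_lit 5) (nat_lit 3) (nat_lit 4) (nat_lit 1) (nat_lit 4) (nat_lit 366) (nat_lit 196) (nat_lit 158))) (XT.nd (nat_lit 34320) (nat_lit 0) (nat_lit 152) (XT.lf (nat_lit 0) (nat_lit 154471077863) (nat_lit 152) (nat_lit 321113313239) (nat_lit 0) (nat_lit 152075495381) (nat_lit 1) (nat_lit 5) (nat_lit 3) (nat_lit 4) (nat_lit 1) (nat_lit 4) (nat_lit 367) (nat_lit 196) (nat_lit 157)) (XT.lf (nat_lit 0) (nat_lit 36905001898) (nat_lit 76) (nat_lit 3148651207) (nat_lit 76) (nat_lit 3148651207) (nat_lit 3) (nat_lit 4) (nat_lit 4) (nat_lit 5) (nat_lit 4) (nat_lit 4) (nat_lit 326) (nat_lit 197) (nat_lit 197)))) (XT.nd (nat_lit 156) (nat_lit 152) (nat_lit 0) (XT.nd (nat_lit 78) (nat_lit 0) (nat_lit 0) (XT.lf (nat_lit 0) (nat_lit 81642838756) (nat_lit 76) (nat_lit 4557975044) (nat_lit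 76) (nat_lit 4410160765) (nat_lit 3) (nat_lit 4) (nat_lit 4) (nat_lit 5) (nat_lit 4) (nat_lit 4) (nat_lit 327) (nat_lit 197) (nat_lit 196)) (XT.lf (nat_lit 0) (nat_lit 89736873279) (nat_lit 76) (nat_lit 2791480451) (nat_lit 76) (nat_lit 2502890667) (nat_lit 3) (nat_lit 4) (nat_lit 4) (nat_lit 5) (nat_lit 4) (nat_lit 4) (nat_lit 328) (nat_lit 197) (nat_lit 195))) (XT.nd (nat_lit 78) (nat_lit 152) (nat_lit 0) (XT.lf (nat_lit 0) (nat_lit 98111378875) (nat_lit 76) (nat_lit 993612695) (nat_lit 76) (nat_lit 570951002) (nat_lit 3) (nat_lit 4) (nat_lit 4) (nat_lit 5) (nat_lit 4) (nat_lit 4) (nat_lit 329) (nat_lit 197) (nat_lit 194)) (XT.nd (nat_lit 78) (nat_lit 0) (nat_lit 0) (XT.lf (nat_lit 0) (nat_lit 1395434589) (nat_lit 152) (nat_lit 102285831876) (nat_lit 0) (nat_lit 871292470) (nat_lit 1) (nat_lit 5) (nat_lit 3) (nat_lit 4) (nat_lit 1) (nat_lit 4) (nat_lit 330) (nat_lit 197) (nat_lit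 193)) (XT.lf (nat_lit 0) (nat_lit 3419397802) (nat_lit 152) (nat_lit 103474822657) (nat_lit 0) (nat_lit 2779439327) (nat_lit 1) (nat_lit 5) (nat_lit 3) (nat_lit 4) (nat_lit 1) (nat_lit 4) (nat_lit 331) (nat_lit 197) (nat_lit 192)))))) (XT.nd (nat_lit 390) (nat_lit 0) (nat_lit 0) (XT.nd (nat_lit 156) (nat_lit 0) (nat_lit 0) (XT.nd (nat_lit 78) (nat_lit 0) (nat_lit 0) (XT.lf (nat_lit 0) (nat_lit 5482869930) (nat_lit 152) (nat_lit 104838461923) (nat_lit 0) (nat_lit 4732610164) (nat_lit 1) (nat_lit 5) (nat_lit 3) (nat_lit 4) (nat_lit 1) (nat_lit 4) (nat_lit 332) (nat_lit 197) (nat_lit 191)) (XT.lf (nat_lit 0) (nat_lit 7590764002) (nat_lit 152) (nat_lit 106379996432) (nat_lit 0) (nat_lit 6735455387) (nat_lit 1) (nat_lit 5) (nat_lit 3) (nat_lit 4) (nat_lit 1) (nat_lit 4) (nat_lit 333) (nat_lit 197) (nat_lit 190))) (XT.nd (nat_lit 78) (nat_lit 0) (nat_lit 0) (XT.lf (nat_lit 0) (nat_lit 9748098813)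 (nat_lit 152) (nat_lit 108103096507) (nat_lit 0) (nat_lit 8792743676) (nat_lit 1) (nat_lit 5) (nat_lit 3) (nat_lit 4) (nat_lit 1) (nat_lit 4) (nat_lit 334) (nat_lit 197) (nat_lit 189)) (XT.nd (nat_lit 78) (nat_lit 0) (nat_lit 0) (XT.lf (nat_lit 0) (nat_lit 11960010875) (nat_lit 152) (nat_lit 110011864765) (nat_lit 0) (nat_lit 10909373335) (nat_lit 1) (nat_lit 5) (nat_lit 3) (nat_lit 4) (nat_lit 1) (nat_lit 4) (nat_lit 335) (nat_lit 197) (nat_lit 188)) (XT.lf (nat_lit 0) (nat_lit 14231766644) (nat_lit 152) (nat_lit 112110845893) (nat_lit 0) (nat_lit 13090383959) (nat_lit 1) (nat_lit 5) (nat_lit 3) (nat_lit 4) (nat_lit 1) (nat_lit 4) (nat_lit 336) (nat_lit 197) (nat_lit 187))))) (XT.nd (nat_lit 156) (nat_lit 0) (nat_lit 0) (XT.nd (nat_lit 78) (nat_lit 0) (nat_lit 0) (XT.lf (nat_lit 0) (nat_lit 16568775064) (nat_lit 152) (nat_lit 114405037465) (nat_lit 0) (nat_lit 15340968431) (nat_lit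 1) (nat_lit 5) (nat_lit 3) (nat_lit 4) (nat_lit 1) (nat_lit 4) (nat_lit 337) (nat_lit 197) (nat_lit 186)) (XT.lf (nat_lit 0) (nat_lit 18976600440) (nat_lit 152) (nat_lit 116899901842) (nat_lit 0) (nat_lit 17666485286) (nat_lit 1) (nat_lit 5) (nat_lit 3) (nat_lit 4) (nat_lit 1) (nat_lit 4) (nat_lit 338) (nat_lit 197) (nat_lit 185))) (XT.nd (nat_lit 78) (nat_lit 0) (nat_lit 0) (XT.lf (nat_lit 0) (nat_lit 21460975690) (nat_lit 152) (nat_lit 119601379178) (nat_lit 0) (nat_lit 20072471467) (nat_lit 1) (nat_lit 5) (nat_lit 3) (nat_lit 4) (nat_lit 1) (nat_lit 4) (nat_lit 339) (nat_lit 197) (nat_lit 184)) (XT.nd (nat_lit 78) (nat_lit 0) (nat_lit 0) (XT.lf (nat_lit 0) (nat_lit 24027815992) (nat_lit 152) (nat_lit 122515901561) (nat_lit 0) (nat_lit 22564655514) (nat_lit 1) (nat_lit 5) (nat_lit 3) (nat_lit 4) (nat_lit 1) (nat_lit 4) (nat_lit 340) (nat_lit 197) (nat_lit 183)) (XT.lf (nat_lit 0)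 (nat_lit 26683232872) (nat_lit 152) (nat_lit 125650408331) (nat_lit 0) (nat_lit 25148971197) (nat_lit 1) (nat_lit 5) (nat_lit 3) (nat_lit 4) (nat_lit 1) (nat_lit 4) (nat_lit 341) (nat_lit 197) (nat_lit 182))))))))
noncomputable def xc12 : XT := (XT.nd (nat_lit 1404) (nat_lit 0) (nat_lit 0) (XT.nd (nat_lit 702) (nat_lit 0) (nat_lit 0) (XT.nd (nat_lit 312) (nat_lit 0) (nat_lit 0) (XT.nd (nat_lit 156) (nat_lit 0) (nat_lit 0) (XT.nd (nat_lit 78) (nat_lit 0) (nat_lit 0) (XT.lf (nat_lit 0) (nat_lit 29433548750) (nat_lit 152) (nat_lit 129012362597) (nat_lit 0) (nat_lit 27831571651) (nat_lit 1) (nat_lit 5) (nat_lit 3) (nat_lit 4) (nat_lit 1) (nat_lit 4) (nat_lit 342) (nat_lit 197) (nat_lit 181)) (XT.lf (nat_lit 0) (nat_lit 32285311997) (nat_lit 152) (nat_lit 132609769015) (nat_lit 0) (nat_lit 30618844018) (nat_lit 1) (nat_lit 5) (nat_lit 3) (nat_lit 4) (nat_lit 1) (nat_lit 4) (nat_lit 343)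 (nat_lit 197) (nat_lit 180))) (XT.nd (nat_lit 78) (nat_lit 0) (nat_lit 0) (XT.lf (nat_lit 0) (nat_lit 35245312527) (nat_lit 152) (nat_lit 136451192837) (nat_lit 0) (nat_lit 33517424661) (nat_lit 1) (nat_lit 5) (nat_lit 3) (nat_lit 4) (nat_lit 1) (nat_lit 4) (nat_lit 344) (nat_lit 197) (nat_lit 179)) (XT.lf (nat_lit 0) (nat_lit 38320597959) (nat_lit 152) (nat_lit 140545780309) (nat_lit 0) (nat_lit 36534214964) (nat_lit 1) (nat_lit 5) (nat_lit 3) (nat_lit 4) (nat_lit 1) (nat_lit 4) (nat_lit 345) (nat_lit 197) (nat_lit 178)))) (XT.nd (nat_lit 156) (nat_lit 0) (nat_lit 0) (XT.nd (nat_lit 78) (nat_lit 0) (nat_lit 0) (XT.lf (nat_lit 0) (nat_lit 41518490402) (nat_lit 152) (nat_lit 144903280451) (nat_lit 0) (nat_lit 39676397759) (nat_lit 1) (nat_lit 5) (nat_lit 3) (nat_lit 4) (nat_lit 1) (nat_lit 4) (nat_lit 346) (nat_lit 197) (nat_lit 177)) (XT.lf (nat_lit 0) (nat_lit 44846603884) (nat_lit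 152) (nat_lit 149534068262) (nat_lit 0) (nat_lit 42951454435) (nat_lit 1) (nat_lit 5) (nat_lit 3) (nat_lit 4) (nat_lit 1) (nat_lit 4) (nat_lit 347) (nat_lit 197) (nat_lit 176))) (XT.nd (nat_lit 78) (nat_lit 0) (nat_lit 0) (XT.lf (nat_lit 0) (nat_lit 48312862487) (nat_lit 152) (nat_lit 154449169428) (nat_lit 0) (nat_lit 46367182745) (nat_lit 1) (nat_lit 5) (nat_lit 3) (nat_lit 4) (nat_lit 1) (nat_lit 4) (nat_lit 348) (nat_lit 197) (nat_lit 175)) (XT.nd (nat_lit 78) (nat_lit 0) (nat_lit 0) (XT.lf (nat_lit 0) (nat_lit 51925519206) (nat_lit 152) (nat_lit 159660286570) (nat_lit 0) (nat_lit 49931715376) (nat_lit 1) (nat_lit 5) (nat_lit 3) (nat_lit 4) (nat_lit 1) (nat_lit 4) (nat_lit 349) (nat_lit 197) (nat_lit 174)) (XT.lf (nat_lit 0) (nat_lit 55693175605) (nat_lit 152) (nat_lit 165179827111) (nat_lit 0) (nat_lit 53653539310) (nat_lit 1) (nat_lit 5) (nat_lit 3) (nat_lit 4) (nat_lit 1) (nat_lit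 4) (nat_lit 350) (nat_lit 197) (nat_lit 173)))))) (XT.nd (nat_lit 312) (nat_lit 0) (nat_lit 0) (XT.nd (nat_lit 156) (nat_lit 0) (nat_lit 0) (XT.nd (nat_lit 78) (nat_lit 0) (nat_lit 0) (XT.lf (nat_lit 0) (nat_lit 59624802295) (nat_lit 152) (nat_lit 171020932812) (nat_lit 0) (nat_lit 57541516034) (nat_lit 1) (nat_lit 5) (nat_lit 3) (nat_lit 4) (nat_lit 1) (nat_lit 4) (nat_lit 351) (nat_lit 197) (nat_lit 172)) (XT.lf (nat_lit 0) (nat_lit 63729760292) (nat_lit 152) (nat_lit 177197511070) (nat_lit 0) (nat_lit 61604902634) (nat_lit 1) (nat_lit 5) (nat_lit 3) (nat_lit 4) (nat_lit 1) (nat_lit 4) (nat_lit 352) (nat_lit 197) (nat_lit 171))) (XT.nd (nat_lit 78) (nat_lit 0) (nat_lit 0) (XT.lf (nat_lit 0) (nat_lit 68017823304) (nat_lit 152) (nat_lit 183724268022) (nat_lit 0) (nat_lit 65853373840) (nat_lit 1) (nat_lit 5) (nat_lit 3) (nat_lit 4) (nat_lit 1) (nat_lit 4) (nat_lit 353) (nat_lit 197)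 (nat_lit 170)) (XT.lf (nat_lit 0) (nat_lit 72499201007) (nat_lit 152) (nat_lit 190616743567) (nat_lit 0) (nat_lit 70297045061) (nat_lit 1) (nat_lit 5) (nat_lit 3) (nat_lit 4) (nat_lit 1) (nat_lit 4) (nat_lit 354) (nat_lit 197) (nat_lit 169)))) (XT.nd (nat_lit 156) (nat_lit 0) (nat_lit 0) (XT.nd (nat_lit 78) (nat_lit 0) (nat_lit 0) (XT.lf (nat_lit 0) (nat_lit 77184563346) (nat_lit 152) (nat_lit 197891348359) (nat_lit 0) (nat_lit 74946496465) (nat_lit 1) (nat_lit 5) (nat_lit 3) (nat_lit 4) (nat_lit 1) (nat_lit 4) (nat_lit 355) (nat_lit 197) (nat_lit 168)) (XT.lf (nat_lit 0) (nat_lit 82085065947) (nat_lit 152) (nat_lit 205565402888) (nat_lit 0) (nat_lit 79812798175) (nat_lit 1) (nat_lit 5) (nat_lit 3) (nat_lit 4) (nat_lit 1) (nat_lit 4) (nat_lit 356) (nat_lit 197) (nat_lit 167))) (XT.nd (nat_lit 78) (nat_lit 0) (nat_lit 0) (XT.lf (nat_lit 0) (nat_lit 87212376673) (nat_lit 152) (nat_lit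 213657178710) (nat_lit 0) (nat_lit 84907536623) (nat_lit 1) (nat_lit 5) (nat_lit 3) (nat_lit 4) (nat_lit 1) (nat_lit 4) (nat_lit 357) (nat_lit 197) (nat_lit 166)) (XT.nd (nat_lit 78) (nat_lit 0) (nat_lit 0) (XT.lf (nat_lit 0) (nat_lit 92578703406) (nat_lit 152) (nat_lit 222185941960) (nat_lit 0) (nat_lit 90242842140) (nat_lit 1) (nat_lit 5) (nat_lit 3) (nat_lit 4) (nat_lit 1) (nat_lit 4) (nat_lit 358) (nat_lit 197) (nat_lit 165)) (XT.lf (nat_lit 0) (nat_lit 98196823115) (nat_lit 152) (nat_lit 231171999216) (nat_lit 0) (nat_lit 95831417834) (nat_lit 1) (nat_lit 5) (nat_lit 3) (nat_lit 4) (nat_lit 1) (nat_lit 4) (nat_lit 359) (nat_lit 197) (nat_lit 164))))))) (XT.nd (nat_lit 34788) (nat_lit 0) (nat_lit 0) (XT.nd (nat_lit 312) (nat_lit 0) (nat_lit 0) (XT.nd (nat_lit 156) (nat_lit 0) (nat_lit 0) (XT.nd (nat_lit 78) (nat_lit 0) (nat_lit 0) (XT.lf (nat_lit 0) (nat_lit 104080112275) (nat_lit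 152) (nat_lit 240636745852) (nat_lit 0) (nat_lit 101686569837) (nat_lit 1) (nat_lit 5) (nat_lit 3) (nat_lit 4) (nat_lit 1) (nat_lit 4) (nat_lit 360) (nat_lit 197) (nat_lit 163)) (XT.lf (nat_lit 0) (nat_lit 110242578719) (nat_lit 152) (nat_lit 250602716981) (nat_lit 0) (nat_lit 107822238987) (nat_lit 1) (nat_lit 5) (nat_lit 3) (nat_lit 4) (nat_lit 1) (nat_lit 4) (nat_lit 361) (nat_lit 197) (nat_lit 162))) (XT.nd (nat_lit 78) (nat_lit 0) (nat_lit 0) (XT.lf (nat_lit 0) (nat_lit 116698894983) (nat_lit 152) (nat_lit 261093641104) (nat_lit 0) (nat_lit 114253034020) (nat_lit 1) (nat_lit 5) (nat_lit 3) (nat_lit 4) (nat_lit 1) (nat_lit 4) (nat_lit 362) (nat_lit 197) (nat_lit 161)) (XT.lf (nat_lit 0) (nat_lit 123464433252) (nat_lit 152) (nat_lit 272134496611) (nat_lit 0) (nat_lit 120994266354) (nat_lit 1) (nat_lit 5) (nat_lit 3) (nat_lit 4) (nat_lit 1) (nat_lit 4) (nat_lit 363) (nat_lit 197)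 (nat_lit 160)))) (XT.nd (nat_lit 156) (nat_lit 0) (nat_lit 0) (XT.nd (nat_lit 78) (nat_lit 0) (nat_lit 0) (XT.lf (nat_lit 0) (nat_lit 130555301948) (nat_lit 152) (nat_lit 283751571256) (nat_lit 0) (nat_lit 128061986541) (nat_lit 1) (nat_lit 5) (nat_lit 3) (nat_lit 4) (nat_lit 1) (nat_lit 4) (nat_lit 364) (nat_lit 197) (nat_lit 159)) (XT.lf (nat_lit 0) (nat_lit 137988384093) (nat_lit 152) (nat_lit 295972524738) (nat_lit 0) (nat_lit 135473022487) (nat_lit 1) (nat_lit 5) (nat_lit 3) (nat_lit 4) (nat_lit 1) (nat_lit 4) (nat_lit 365) (nat_lit 197) (nat_lit 158))) (XT.nd (nat_lit 78) (nat_lit 0) (nat_lit 0) (XT.lf (nat_lit 0) (nat_lit 145781377501) (nat_lit 152) (nat_lit 308826454566) (nat_lit 0) (nat_lit 143245019515) (nat_lit 1) (nat_lit 5) (nat_lit 3) (nat_lit 4) (nat_lit 1) (nat_lit 4) (nat_lit 366) (nat_lit 197) (nat_lit 157)) (XT.nd (nat_lit 34164) (nat_lit 0) (nat_lit 152) (XT.lf (nat_lit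 0) (nat_lit 153952836919) (nat_lit 152) (nat_lit 322343965336) (nat_lit 0) (nat_lit 151396482380) (nat_lit 1) (nat_lit 5) (nat_lit 3) (nat_lit 4) (nat_lit 1) (nat_lit 4) (nat_lit 367) (nat_lit 197) (nat_lit 156)) (XT.lf (nat_lit 0) (nat_lit 29462032038) (nat_lit 76) (nat_lit 4917005203) (nat_lit 76) (nat_lit 4917005203) (nat_lit 3) (nat_lit 4) (nat_lit 4) (nat_lit 5) (nat_lit 4) (nat_lit 4) (nat_lit 324) (nat_lit 198) (nat_lit 198)))))) (XT.nd (nat_lit 312) (nat_lit 152) (nat_lit 0) (XT.nd (nat_lit 156) (nat_lit 0) (nat_lit 0) (XT.nd (nat_lit 78) (nat_lit 0) (nat_lit 0) (XT.lf (nat_lit 0) (nat_lit 66219718790) (nat_lit 76) (nat_lit 8168808810) (nat_lit 76) (nat_lit 8013603817) (nat_lit 3) (nat_lit 4) (nat_lit 4) (nat_lit 5) (nat_lit 4) (nat_lit 4) (nat_lit 325) (nat_lit 198) (nat_lit 197)) (XT.lf (nat_lit 0) (nat_lit 73743191944) (nat_lit 76) (nat_lit 6483136238) (nat_lit 76) (nat_lit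 6180116965) (nat_lit 3) (nat_lit 4) (nat_lit 4) (nat_lit 5) (nat_lit 4) (nat_lit 4) (nat_lit 326) (nat_lit 198) (nat_lit 196))) (XT.nd (nat_lit 78) (nat_lit 0) (nat_lit 0) (XT.lf (nat_lit 0) (nat_lit 81512396571) (nat_lit 76) (nat_lit 4772979183) (nat_lit 76) (nat_lit 4329184406) (nat_lit 3) (nat_lit 4) (nat_lit 4) (nat_lit 5) (nat_lit 4) (nat_lit 4) (nat_lit 327) (nat_lit 198) (nat_lit 195)) (XT.lf (nat_lit 0) (nat_lit 89545830775) (nat_lit 76) (nat_lit 3034265842) (nat_lit 76) (nat_lit 2456399156) (nat_lit 3) (nat_lit 4) (nat_lit 4) (nat_lit 5) (nat_lit 4) (nat_lit 4) (nat_lit 328) (nat_lit 198) (nat_lit 194)))) (XT.nd (nat_lit 156) (nat_lit 0) (nat_lit 0) (XT.nd (nat_lit 78) (nat_lit 152) (nat_lit 0) (XT.lf (nat_lit 0) (nat_lit 97862621782) (nat_lit 76) (nat_lit 1262856422) (nat_lit 76) (nat_lit 557302203) (nat_lit 3) (nat_lit 4) (nat_lit 4) (nat_lit 5) (nat_lit 4) (nat_lit 4) (nat_lit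 329) (nat_lit 198) (nat_lit 193)) (XT.lf (nat_lit 0) (nat_lit 1368655880) (nat_lit 152) (nat_lit 102611868088) (nat_lit 0) (nat_lit 580883126) (nat_lit 1) (nat_lit 5) (nat_lit 3) (nat_lit 4) (nat_lit 1) (nat_lit 4) (nat_lit 330) (nat_lit 198) (nat_lit 192))) (XT.nd (nat_lit 78) (nat_lit 0) (nat_lit 0) (XT.lf (nat_lit 0) (nat_lit 3362526778) (nat_lit 152) (nat_lit 103857053477) (nat_lit 0) (nat_lit 2464452733) (nat_lit 1) (nat_lit 5) (nat_lit 3) (nat_lit 4) (nat_lit 1) (nat_lit 4) (nat_lit 331) (nat_lit 198) (nat_lit 191)) (XT.nd (nat_lit 78) (nat_lit 0) (nat_lit 0) (XT.lf (nat_lit 0) (nat_lit 5397339559) (nat_lit 152) (nat_lit 105274211416) (nat_lit 0) (nat_lit 4394216665) (nat_lit 1) (nat_lit 5) (nat_lit 3) (nat_lit 4) (nat_lit 1) (nat_lit 4) (nat_lit 332) (nat_lit 198) (nat_lit 190)) (XT.lf (nat_lit 0) (nat_lit 7477939014) (nat_lit 152) (nat_lit 106866716091) (nat_lit 0) (nat_lit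 6374769597) (nat_lit 1) (nat_lit 5) (nat_lit 3) (nat_lit 4) (nat_lit 1) (nat_lit 4) (nat_lit 333) (nat_lit 198) (nat_lit 189))))))))
noncomputable def xc13 : XT := (XT.nd (nat_lit 1404) (nat_lit 0) (nat_lit 0) (XT.nd (nat_lit 702) (nat_lit 0) (nat_lit 0) (XT.nd (nat_lit 312) (nat_lit 0) (nat_lit 0) (XT.nd (nat_lit 156) (nat_lit 0) (nat_lit 0) (XT.nd (nat_lit 78) (nat_lit 0) (nat_lit 0) (XT.lf (nat_lit 0) (nat_lit 9609278952) (nat_lit 152) (nat_lit 108638359180) (nat_lit 0) (nat_lit 8410827133) (nat_lit 1) (nat_lit 5) (nat_lit 3) (nat_lit 4) (nat_lit 1) (nat_lit 4) (nat_lit 334) (nat_lit 198) (nat_lit 188)) (XT.lf (nat_lit 0) (nat_lit 11796433992) (nat_lit 152) (nat_lit 110593358881) (nat_lit 0) (nat_lit 10507237027) (nat_lit 1) (nat_lit 5) (nat_lit 3) (nat_lit 4) (nat_lit 1) (nat_lit 4) (nat_lit 335) (nat_lit 198) (nat_lit 187))) (XT.nd (nat_lit 78) (nat_lit 0) (nat_lit 0) (XT.lf (nat_lit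 0) (nat_lit 14044611645) (nat_lit 152) (nat_lit 112736369954) (nat_lit 0) (nat_lit 12668990733) (nat_lit 1) (nat_lit 5) (nat_lit 3) (nat_lit 4) (nat_lit 1) (nat_lit 4) (nat_lit 336) (nat_lit 198) (nat_lit 186)) (XT.lf (nat_lit 0) (nat_lit 16359164716) (nat_lit 152) (nat_lit 115072494807) (nat_lit 0) (nat_lit 14901235282) (nat_lit 1) (nat_lit 5) (nat_lit 3) (nat_lit 4) (nat_lit 1) (nat_lit 4) (nat_lit 337) (nat_lit 198) (nat_lit 185)))) (XT.nd (nat_lit 156) (nat_lit 0) (nat_lit 0) (XT.nd (nat_lit 78) (nat_lit 0) (nat_lit 0) (XT.lf (nat_lit 0) (nat_lit 18745604046) (nat_lit 152) (nat_lit 117607295643) (nat_lit 0) (nat_lit 17209285543) (nat_lit 1) (nat_lit 5) (nat_lit 3) (nat_lit 4) (nat_lit 1) (nat_lit 4) (nat_lit 338) (nat_lit 198) (nat_lit 184)) (XT.lf (nat_lit 0) (nat_lit 21209611632) (nat_lit 152) (nat_lit 120346807701) (nat_lit 0) (nat_lit 19598636874) (nat_lit 1) (nat_lit 5) (nat_lit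 3) (nat_lit 4) (nat_lit 1) (nat_lit 4) (nat_lit 339) (nat_lit 198) (nat_lit 183))) (XT.nd (nat_lit 78) (nat_lit 0) (nat_lit 0) (XT.lf (nat_lit 0) (nat_lit 23757054160) (nat_lit 152) (nat_lit 123297553629) (nat_lit 0) (nat_lit 22074978206) (nat_lit 1) (nat_lit 5) (nat_lit 3) (nat_lit 4) (nat_lit 1) (nat_lit 4) (nat_lit 340) (nat_lit 198) (nat_lit 182)) (XT.nd (nat_lit 78) (nat_lit 0) (nat_lit 0) (XT.lf (nat_lit 0) (nat_lit 26393996969) (nat_lit 152) (nat_lit 126466559013) (nat_lit 0) (nat_lit 24644205590) (nat_lit 1) (nat_lit 5) (nat_lit 3) (nat_lit 4) (nat_lit 1) (nat_lit 4) (nat_lit 341) (nat_lit 198) (nat_lit 181)) (XT.lf (nat_lit 0) (nat_lit 29126718493) (nat_lit 152) (nat_lit 129861369103) (nat_lit 0) (nat_lit 27312436234) (nat_lit 1) (nat_lit 5) (nat_lit 3) (nat_lit 4) (nat_lit 1) (nat_lit 4) (nat_lit 342) (nat_lit 198) (nat_lit 180)))))) (XT.nd (nat_lit 312) (nat_lit 0) (nat_lit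 0) (XT.nd (nat_lit 156) (nat_lit 0) (nat_lit 0) (XT.nd (nat_lit 78) (nat_lit 0) (nat_lit 0) (XT.lf (nat_lit 0) (nat_lit 31961725214) (nat_lit 152) (nat_lit 133490066780) (nat_lit 0) (nat_lit 30086023069) (nat_lit 1) (nat_lit 5) (nat_lit 3) (nat_lit 4) (nat_lit 1) (nat_lit 4) (nat_lit 343) (nat_lit 198) (nat_lit 179)) (XT.lf (nat_lit 0) (nat_lit 34905767146) (nat_lit 152) (nat_lit 137361291802) (nat_lit 0) (nat_lit 32971569872) (nat_lit 1) (nat_lit 5) (nat_lit 3) (nat_lit 4) (nat_lit 1) (nat_lit 4) (nat_lit 344) (nat_lit 198) (nat_lit 178))) (XT.nd (nat_lit 78) (nat_lit 0) (nat_lit 0) (XT.lf (nat_lit 0) (nat_lit 37965853914) (nat_lit 152) (nat_lit 141484261370) (nat_lit 0) (nat_lit 35975946992) (nat_lit 1) (nat_lit 5) (nat_lit 3) (nat_lit 4) (nat_lit 1) (nat_lit 4) (nat_lit 345) (nat_lit 198) (nat_lit 177)) (XT.lf (nat_lit 0) (nat_lit 41149271439) (nat_lit 152) (nat_lit 145868792079)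 (nat_lit 0) (nat_lit 39106307710) (nat_lit 1) (nat_lit 5) (nat_lit 3) (nat_lit 4) (nat_lit 1) (nat_lit 4) (nat_lit 346) (nat_lit 198) (nat_lit 176)))) (XT.nd (nat_lit 156) (nat_lit 0) (nat_lit 0) (XT.nd (nat_lit 78) (nat_lit 0) (nat_lit 0) (XT.lf (nat_lit 0) (nat_lit 44463599285) (nat_lit 152) (nat_lit 150525323287) (nat_lit 0) (nat_lit 42370105264) (nat_lit 1) (nat_lit 5) (nat_lit 3) (nat_lit 4) (nat_lit 1) (nat_lit 4) (nat_lit 347) (nat_lit 198) (nat_lit 175)) (XT.lf (nat_lit 0) (nat_lit 47916728711) (nat_lit 152) (nat_lit 155464941974) (nat_lit 0) (nat_lit 45775110601) (nat_lit 1) (nat_lit 5) (nat_lit 3) (nat_lit 4) (nat_lit 1) (nat_lit 4) (nat_lit 348) (nat_lit 198) (nat_lit 174))) (XT.nd (nat_lit 78) (nat_lit 0) (nat_lit 0) (XT.lf (nat_lit 0) (nat_lit 51516881451) (nat_lit 152) (nat_lit 160699409136) (nat_lit 0) (nat_lit 49329430877) (nat_lit 1) (nat_lit 5) (nat_lit 3) (nat_lit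 4) (nat_lit 1) (nat_lit 4) (nat_lit 349) (nat_lit 198) (nat_lit 173)) (XT.nd (nat_lit 78) (nat_lit 0) (nat_lit 0) (XT.lf (nat_lit 0) (nat_lit 55272629300) (nat_lit 152) (nat_lit 166241187791) (nat_lit 0) (nat_lit 53041528759) (nat_lit 1) (nat_lit 5) (nat_lit 3) (nat_lit 4) (nat_lit 1) (nat_lit 4) (nat_lit 350) (nat_lit 198) (nat_lit 172)) (XT.lf (nat_lit 0) (nat_lit 59192914513) (nat_lit 152) (nat_lit 172103472649) (nat_lit 0) (nat_lit 56920242575) (nat_lit 1) (nat_lit 5) (nat_lit 3) (nat_lit 4) (nat_lit 1) (nat_lit 4) (nat_lit 351) (nat_lit 198) (nat_lit 171))))))) (XT.nd (nat_lit 702) (nat_lit 0) (nat_lit 0) (XT.nd (nat_lit 312) (nat_lit 0) (nat_lit 0) (XT.nd (nat_lit 156) (nat_lit 0) (nat_lit 0) (XT.nd (nat_lit 78) (nat_lit 0) (nat_lit 0) (XT.lf (nat_lit 0) (nat_lit 63287071103) (nat_lit 152) (nat_lit 178300221532) (nat_lit 0) (nat_lit 60974807359) (nat_lit 1) (nat_lit 5) (nat_lit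 3) (nat_lit 4) (nat_lit 1) (nat_lit 4) (nat_lit 352) (nat_lit 198) (nat_lit 170)) (XT.lf (nat_lit 0) (nat_lit 67564847061) (nat_lit 152) (nat_lit 184846188603) (nat_lit 0) (nat_lit 65214876835) (nat_lit 1) (nat_lit 5) (nat_lit 3) (nat_lit 4) (nat_lit 1) (nat_lit 4) (nat_lit 353) (nat_lit 198) (nat_lit 169))) (XT.nd (nat_lit 78) (nat_lit 0) (nat_lit 0) (XT.lf (nat_lit 0) (nat_lit 72036427569) (nat_lit 152) (nat_lit 191756959499) (nat_lit 0) (nat_lit 69650546408) (nat_lit 1) (nat_lit 5) (nat_lit 3) (nat_lit 4) (nat_lit 1) (nat_lit 4) (nat_lit 354) (nat_lit 198) (nat_lit 168)) (XT.lf (nat_lit 0) (nat_lit 76712459248) (nat_lit 152) (nat_lit 199048988436) (nat_lit 0) (nat_lit 74292377196) (nat_lit 1) (nat_lit 5) (nat_lit 3) (nat_lit 4) (nat_lit 1) (nat_lit 4) (nat_lit 355) (nat_lit 198) (nat_lit 167)))) (XT.nd (nat_lit 156) (nat_lit 0) (nat_lit 0) (XT.nd (nat_lit 78) (nat_lit 0) (nat_lit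 0) (XT.lf (nat_lit 0) (nat_lit 81604075504) (nat_lit 152) (nat_lit 206739637388) (nat_lit 0) (nat_lit 79151421175) (nat_lit 1) (nat_lit 5) (nat_lit 3) (nat_lit 4) (nat_lit 1) (nat_lit 4) (nat_lit 356) (nat_lit 198) (nat_lit 166)) (XT.lf (nat_lit 0) (nat_lit 86722923045) (nat_lit 152) (nat_lit 214847217423) (nat_lit 0) (nat_lit 84239247500) (nat_lit 1) (nat_lit 5) (nat_lit 3) (nat_lit 4) (nat_lit 1) (nat_lit 4) (nat_lit 357) (nat_lit 198) (nat_lit 165))) (XT.nd (nat_lit 78) (nat_lit 0) (nat_lit 0) (XT.lf (nat_lit 0) (nat_lit 92081189602) (nat_lit 152) (nat_lit 223391032304) (nat_lit 0) (nat_lit 89567970042) (nat_lit 1) (nat_lit 5) (nat_lit 3) (nat_lit 4) (nat_lit 1) (nat_lit 4) (nat_lit 358) (nat_lit 198) (nat_lit 164)) (XT.nd (nat_lit 78) (nat_lit 0) (nat_lit 0) (XT.lf (nat_lit 0) (nat_lit 97691632953) (nat_lit 152) (nat_lit 232391424447) (nat_lit 0) (nat_lit 95150276235) (nat_lit 1)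 (nat_lit 5) (nat_lit 3) (nat_lit 4) (nat_lit 1) (nat_lit 4) (nat_lit 359) (nat_lit 198) (nat_lit 163)) (XT.lf (nat_lit 0) (nat_lit 103567611297) (nat_lit 152) (nat_lit 241869823357) (nat_lit 0) (nat_lit 100999457285) (nat_lit 1) (nat_lit 5) (nat_lit 3) (nat_lit 4) (nat_lit 1) (nat_lit 4) (nat_lit 360) (nat_lit 198) (nat_lit 162)))))) (XT.nd (nat_lit 312) (nat_lit 0) (nat_lit 0) (XT.nd (nat_lit 156) (nat_lit 0) (nat_lit 0) (XT.nd (nat_lit 78) (nat_lit 0) (nat_lit 0) (XT.lf (nat_lit 0) (nat_lit 109723115057) (nat_lit 152) (nat_lit 251848796650) (nat_lit 0) (nat_lit 107129439814) (nat_lit 1) (nat_lit 5) (nat_lit 3) (nat_lit 4) (nat_lit 1) (nat_lit 4) (nat_lit 361) (nat_lit 198) (nat_lit 161)) (XT.lf (nat_lit 0) (nat_lit 116172800195) (nat_lit 152) (nat_lit 262352103787) (nat_lit 0) (nat_lit 113554819018) (nat_lit 1) (nat_lit 5) (nat_lit 3) (nat_lit 4) (nat_lit 1) (nat_lit 4) (nat_lit 362)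 (nat_lit 198) (nat_lit 160))) (XT.nd (nat_lit 78) (nat_lit 0) (nat_lit 0) (XT.lf (nat_lit 0) (nat_lit 122932023104) (nat_lit 152) (nat_lit 273404752641) (nat_lit 0) (nat_lit 120290893418) (nat_lit 1) (nat_lit 5) (nat_lit 3) (nat_lit 4) (nat_lit 1) (nat_lit 4) (nat_lit 363) (nat_lit 198) (nat_lit 159)) (XT.lf (nat_lit 0) (nat_lit 130016877173) (nat_lit 152) (nat_lit 285033059045) (nat_lit 0) (nat_lit 127353701288) (nat_lit 1) (nat_lit 5) (nat_lit 3) (nat_lit 4) (nat_lit 1) (nat_lit 4) (nat_lit 364) (nat_lit 198) (nat_lit 158)))) (XT.nd (nat_lit 156) (nat_lit 0) (nat_lit 0) (XT.nd (nat_lit 78) (nat_lit 0) (nat_lit 0) (XT.lf (nat_lit 0) (nat_lit 137444231102) (nat_lit 152) (nat_lit 297264709440) (nat_lit 0) (nat_lit 134760058836) (nat_lit 1) (nat_lit 5) (nat_lit 3) (nat_lit 4) (nat_lit 1) (nat_lit 4) (nat_lit 365) (nat_lit 198) (nat_lit 157)) (XT.lf (nat_lit 0) (nat_lit 145231769065) (nat_lit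 152) (nat_lit 310128826805) (nat_lit 0) (nat_lit 142527600247) (nat_lit 1) (nat_lit 5) (nat_lit 3) (nat_lit 4) (nat_lit 1) (nat_lit 4) (nat_lit 366) (nat_lit 198) (nat_lit 156))) (XT.nd (nat_lit 34008) (nat_lit 0) (nat_lit 152) (XT.lf (nat_lit 0) (nat_lit 153398032822) (nat_lit 152) (nat_lit 323656039990) (nat_lit 0) (nat_lit 150674819668) (nat_lit 1) (nat_lit 5) (nat_lit 3) (nat_lit 4) (nat_lit 1) (nat_lit 4) (nat_lit 367) (nat_lit 198) (nat_lit 155)) (XT.nd (nat_lit 78) (nat_lit 0) (nat_lit 0) (XT.lf (nat_lit 0) (nat_lit 22510444340) (nat_lit 76) (nat_lit 6624008692) (nat_lit 76) (nat_lit 6624008692) (nat_lit 3) (nat_lit 4) (nat_lit 4) (nat_lit 5) (nat_lit 4) (nat_lit 4) (nat_lit 322) (nat_lit 199) (nat_lit 199)) (XT.lf (nat_lit 0) (nat_lit 51838857198) (nat_lit 76) (nat_lit 11645671033) (nat_lit 76) (nat_lit 11482705789) (nat_lit 3) (nat_lit 4) (nat_lit 4) (nat_lit 5) (nat_lit 4)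 (nat_lit 4) (nat_lit 323) (nat_lit 199) (nat_lit 198))))))))
noncomputable def xc14 : XT := (XT.nd (nat_lit 1404) (nat_lit 0) (nat_lit 0) (XT.nd (nat_lit 702) (nat_lit 0) (nat_lit 0) (XT.nd (nat_lit 312) (nat_lit 152) (nat_lit 0) (XT.nd (nat_lit 156) (nat_lit 0) (nat_lit 0) (XT.nd (nat_lit 78) (nat_lit 0) (nat_lit 0) (XT.lf (nat_lit 0) (nat_lit 58853911634) (nat_lit 76) (nat_lit 10029135921) (nat_lit 76) (nat_lit 9710965684) (nat_lit 3) (nat_lit 4) (nat_lit 4) (nat_lit 5) (nat_lit 4) (nat_lit 4) (nat_lit 324) (nat_lit 199) (nat_lit 197)) (XT.lf (nat_lit 0) (nat_lit 66082754496) (nat_lit 76) (nat_lit 8394563156) (nat_lit 76) (nat_lit 7928578640) (nat_lit 3) (nat_lit 4) (nat_lit 4) (nat_lit 5) (nat_lit 4) (nat_lit 4) (nat_lit 325) (nat_lit 199) (nat_lit 196))) (XT.nd (nat_lit 78) (nat_lit 0) (nat_lit 0) (XT.lf (nat_lit 0) (nat_lit 73542597315) (nat_lit 76) (nat_lit 6738060899) (nat_lit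 76) (nat_lit 6131300879) (nat_lit 3) (nat_lit 4) (nat_lit 4) (nat_lit 5) (nat_lit 4) (nat_lit 4) (nat_lit 326) (nat_lit 199) (nat_lit 195)) (XT.lf (nat_lit 0) (nat_lit 81251201623) (nat_lit 76) (nat_lit 5055685096) (nat_lit 76) (nat_lit 4314853167) (nat_lit 3) (nat_lit 4) (nat_lit 4) (nat_lit 5) (nat_lit 4) (nat_lit 4) (nat_lit 327) (nat_lit 199) (nat_lit 194)))) (XT.nd (nat_lit 156) (nat_lit 152) (nat_lit 0) (XT.nd (nat_lit 78) (nat_lit 0) (nat_lit 0) (XT.lf (nat_lit 0) (nat_lit 89226921238) (nat_lit 76) (nat_lit 3343430090) (nat_lit 76) (nat_lit 2474910629) (nat_lit 3) (nat_lit 4) (nat_lit 4) (nat_lit 5) (nat_lit 4) (nat_lit 4) (nat_lit 328) (nat_lit 199) (nat_lit 193)) (XT.lf (nat_lit 0) (nat_lit 97488745970) (nat_lit 76) (nat_lit 1597219085) (nat_lit 76) (nat_lit 607092450) (nat_lit 3) (nat_lit 4) (nat_lit 4) (nat_lit 5) (nat_lit 4) (nat_lit 4) (nat_lit 329) (nat_lit 199) (nat_lit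 192))) (XT.nd (nat_lit 78) (nat_lit 0) (nat_lit 0) (XT.lf (nat_lit 0) (nat_lit 1278848991) (nat_lit 152) (nat_lit 103069405056) (nat_lit 0) (nat_lit 225569952) (nat_lit 1) (nat_lit 5) (nat_lit 3) (nat_lit 4) (nat_lit 1) (nat_lit 4) (nat_lit 330) (nat_lit 199) (nat_lit 191)) (XT.nd (nat_lit 78) (nat_lit 0) (nat_lit 0) (XT.lf (nat_lit 0) (nat_lit 3244060541) (nat_lit 152) (nat_lit 104368109118) (nat_lit 0) (nat_lit 2085732654) (nat_lit 1) (nat_lit 5) (nat_lit 3) (nat_lit 4) (nat_lit 1) (nat_lit 4) (nat_lit 331) (nat_lit 199) (nat_lit 190)) (XT.lf (nat_lit 0) (nat_lit 5251578705) (nat_lit 152) (nat_lit 105836237223) (nat_lit 0) (nat_lit 3993204295) (nat_lit 1) (nat_lit 5) (nat_lit 3) (nat_lit 4) (nat_lit 1) (nat_lit 4) (nat_lit 332) (nat_lit 199) (nat_lit 189)))))) (XT.nd (nat_lit 312) (nat_lit 0) (nat_lit 0) (XT.nd (nat_lit 156) (nat_lit 0) (nat_lit 0) (XT.nd (nat_lit 78) (nat_lit 0)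 (nat_lit 0) (XT.lf (nat_lit 0) (nat_lit 7306183287) (nat_lit 152) (nat_lit 107477284913) (nat_lit 0) (nat_lit 5952526474) (nat_lit 1) (nat_lit 5) (nat_lit 3) (nat_lit 4) (nat_lit 1) (nat_lit 4) (nat_lit 333) (nat_lit 199) (nat_lit 188)) (XT.lf (nat_lit 0) (nat_lit 9412766203) (nat_lit 152) (nat_lit 109295159444) (nat_lit 0) (nat_lit 7968364245) (nat_lit 1) (nat_lit 5) (nat_lit 3) (nat_lit 4) (nat_lit 1) (nat_lit 4) (nat_lit 334) (nat_lit 199) (nat_lit 187))) (XT.nd (nat_lit 78) (nat_lit 0) (nat_lit 0) (XT.lf (nat_lit 0) (nat_lit 11576343126) (nat_lit 152) (nat_lit 111294189090) (nat_lit 0) (nat_lit 10045517220) (nat_lit 1) (nat_lit 5) (nat_lit 3) (nat_lit 4) (nat_lit 1) (nat_lit 4) (nat_lit 335) (nat_lit 199) (nat_lit 186)) (XT.lf (nat_lit 0) (nat_lit 13802065431) (nat_lit 152) (nat_lit 113479133445) (nat_lit 0) (nat_lit 12188931003) (nat_lit 1) (nat_lit 5) (nat_lit 3) (nat_lit 4) (nat_lit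 1) (nat_lit 4) (nat_lit 336) (nat_lit 199) (nat_lit 185)))) (XT.nd (nat_lit 156) (nat_lit 0) (nat_lit 0) (XT.nd (nat_lit 78) (nat_lit 0) (nat_lit 0) (XT.lf (nat_lit 0) (nat_lit 16095232456) (nat_lit 152) (nat_lit 115855194756) (nat_lit 0) (nat_lit 14403708960) (nat_lit 1) (nat_lit 5) (nat_lit 3) (nat_lit 4) (nat_lit 1) (nat_lit 4) (nat_lit 337) (nat_lit 199) (nat_lit 184)) (XT.lf (nat_lit 0) (nat_lit 18461304122) (nat_lit 152) (nat_lit 118428030314) (nat_lit 0) (nat_lit 16695124371) (nat_lit 1) (nat_lit 5) (nat_lit 3) (nat_lit 4) (nat_lit 1) (nat_lit 4) (nat_lit 338) (nat_lit 199) (nat_lit 183))) (XT.nd (nat_lit 78) (nat_lit 0) (nat_lit 0) (XT.lf (nat_lit 0) (nat_lit 20905913934) (nat_lit 152) (nat_lit 121203765917) (nat_lit 0) (nat_lit 19068632987) (nat_lit 1) (nat_lit 5) (nat_lit 3) (nat_lit 4) (nat_lit 1) (nat_lit 4) (nat_lit 339) (nat_lit 199) (nat_lit 182)) (XT.nd (nat_lit 78)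 (nat_lit 0) (nat_lit 0) (XT.lf (nat_lit 0) (nat_lit 23434882391) (nat_lit 152) (nat_lit 124189010459) (nat_lit 0) (nat_lit 21529886019) (nat_lit 1) (nat_lit 5) (nat_lit 3) (nat_lit 4) (nat_lit 1) (nat_lit 4) (nat_lit 340) (nat_lit 199) (nat_lit 181)) (XT.lf (nat_lit 0) (nat_lit 26054230846) (nat_lit 152) (nat_lit 127390871666) (nat_lit 0) (nat_lit 24084743593) (nat_lit 1) (nat_lit 5) (nat_lit 3) (nat_lit 4) (nat_lit 1) (nat_lit 4) (nat_lit 341) (nat_lit 199) (nat_lit 180))))))) (XT.nd (nat_lit 702) (nat_lit 0) (nat_lit 0) (XT.nd (nat_lit 312) (nat_lit 0) (nat_lit 0) (XT.nd (nat_lit 156) (nat_lit 0) (nat_lit 0) (XT.nd (nat_lit 78) (nat_lit 0) (nat_lit 0) (XT.lf (nat_lit 0) (nat_lit 28770195844) (nat_lit 152) (nat_lit 130816973016) (nat_lit 0) (nat_lit 26739288705) (nat_lit 1) (nat_lit 5) (nat_lit 3) (nat_lit 4) (nat_lit 1) (nat_lit 4) (nat_lit 342) (nat_lit 199) (nat_lit 179)) (XT.lf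 (nat_lit 0) (nat_lit 31589243967) (nat_lit 152) (nat_lit 134475471894) (nat_lit 0) (nat_lit 29499841699) (nat_lit 1) (nat_lit 5) (nat_lit 3) (nat_lit 4) (nat_lit 1) (nat_lit 4) (nat_lit 343) (nat_lit 199) (nat_lit 178))) (XT.nd (nat_lit 78) (nat_lit 0) (nat_lit 0) (XT.lf (nat_lit 0) (nat_lit 34518087236) (nat_lit 152) (nat_lit 138375079011) (nat_lit 0) (nat_lit 32372975320) (nat_lit 1) (nat_lit 5) (nat_lit 3) (nat_lit 4) (nat_lit 1) (nat_lit 4) (nat_lit 344) (nat_lit 199) (nat_lit 177)) (XT.lf (nat_lit 0) (nat_lit 37563699086) (nat_lit 152) (nat_lit 142525079146) (nat_lit 0) (nat_lit 35365530363) (nat_lit 1) (nat_lit 5) (nat_lit 3) (nat_lit 4) (nat_lit 1) (nat_lit 4) (nat_lit 345) (nat_lit 199) (nat_lit 176)))) (XT.nd (nat_lit 156) (nat_lit 0) (nat_lit 0) (XT.nd (nat_lit 78) (nat_lit 0) (nat_lit 0) (XT.lf (nat_lit 0) (nat_lit 40733330974) (nat_lit 152) (nat_lit 146935353252) (nat_lit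 0) (nat_lit 38484631959) (nat_lit 1) (nat_lit 5) (nat_lit 3) (nat_lit 4) (nat_lit 1) (nat_lit 4) (nat_lit 346) (nat_lit 199) (nat_lit 175)) (XT.lf (nat_lit 0) (nat_lit 44034529643) (nat_lit 152) (nat_lit 151616401981) (nat_lit 0) (nat_lit 41737706540) (nat_lit 1) (nat_lit 5) (nat_lit 3) (nat_lit 4) (nat_lit 1) (nat_lit 4) (nat_lit 347) (nat_lit 199) (nat_lit 174))) (XT.nd (nat_lit 78) (nat_lit 0) (nat_lit 0) (XT.lf (nat_lit 0) (nat_lit 47475155090) (nat_lit 152) (nat_lit 156579370688) (nat_lit 0) (nat_lit 45132499522) (nat_lit 1) (nat_lit 5) (nat_lit 3) (nat_lit 4) (nat_lit 1) (nat_lit 4) (nat_lit 348) (nat_lit 199) (nat_lit 173)) (XT.nd (nat_lit 78) (nat_lit 0) (nat_lit 0) (XT.lf (nat_lit 0) (nat_lit 51063399280) (nat_lit 152) (nat_lit 161836075964) (nat_lit 0) (nat_lit 48677093745) (nat_lit 1) (nat_lit 5) (nat_lit 3) (nat_lit 4) (nat_lit 1) (nat_lit 4) (nat_lit 349) (nat_lit 199)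 (nat_lit 172)) (XT.lf (nat_lit 0) (nat_lit 54807805651) (nat_lit 152) (nat_lit 167399033775) (nat_lit 0) (nat_lit 52379928720) (nat_lit 1) (nat_lit 5) (nat_lit 3) (nat_lit 4) (nat_lit 1) (nat_lit 4) (nat_lit 350) (nat_lit 199) (nat_lit 171)))))) (XT.nd (nat_lit 312) (nat_lit 0) (nat_lit 0) (XT.nd (nat_lit 156) (nat_lit 0) (nat_lit 0) (XT.nd (nat_lit 78) (nat_lit 0) (nat_lit 0) (XT.lf (nat_lit 0) (nat_lit 58717289457) (nat_lit 152) (nat_lit 173281489259) (nat_lit 0) (nat_lit 56249820720) (nat_lit 1) (nat_lit 5) (nat_lit 3) (nat_lit 4) (nat_lit 1) (nat_lit 4) (nat_lit 351) (nat_lit 199) (nat_lit 170)) (XT.lf (nat_lit 0) (nat_lit 62801158993) (nat_lit 152) (nat_lit 179497448261) (nat_lit 0) (nat_lit 60295983774) (nat_lit 1) (nat_lit 5) (nat_lit 3) (nat_lit 4) (nat_lit 1) (nat_lit 4) (nat_lit 352) (nat_lit 199) (nat_lit 169))) (XT.nd (nat_lit 78) (nat_lit 0) (nat_lit 0) (XT.lf (nat_lit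 0) (nat_lit 67069137758) (nat_lit 152) (nat_lit 186061710684) (nat_lit 0) (nat_lit 64528051603) (nat_lit 1) (nat_lit 5) (nat_lit 3) (nat_lit 4) (nat_lit 1) (nat_lit 4) (nat_lit 353) (nat_lit 199) (nat_lit 168)) (XT.lf (nat_lit 0) (nat_lit 71531387605) (nat_lit 152) (nat_lit 192989905725) (nat_lit 0) (nat_lit 68956100559) (nat_lit 1) (nat_lit 5) (nat_lit 3) (nat_lit 4) (nat_lit 1) (nat_lit 4) (nat_lit 354) (nat_lit 199) (nat_lit 167)))) (XT.nd (nat_lit 156) (nat_lit 0) (nat_lit 0) (XT.nd (nat_lit 78) (nat_lit 0) (nat_lit 0) (XT.lf (nat_lit 0) (nat_lit 76198532939) (nat_lit 152) (nat_lit 200298529085) (nat_lit 0) (nat_lit 73590673616) (nat_lit 1) (nat_lit 5) (nat_lit 3) (nat_lit 4) (nat_lit 1) (nat_lit 4) (nat_lit 355) (nat_lit 199) (nat_lit 166)) (XT.lf (nat_lit 0) (nat_lit 81081686011) (nat_lit 152) (nat_lit 208004982249) (nat_lit 0) (nat_lit 78442805472) (nat_lit 1) (nat_lit 5) (nat_lit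 3) (nat_lit 4) (nat_lit 1) (nat_lit 4) (nat_lit 356) (nat_lit 199) (nat_lit 165))) (XT.nd (nat_lit 78) (nat_lit 0) (nat_lit 0) (XT.lf (nat_lit 0) (nat_lit 86192473376) (nat_lit 152) (nat_lit 216127613916) (nat_lit 0) (nat_lit 83524048821) (nat_lit 1) (nat_lit 5) (nat_lit 3) (nat_lit 4) (nat_lit 1) (nat_lit 4) (nat_lit 357) (nat_lit 199) (nat_lit 164)) (XT.nd (nat_lit 78) (nat_lit 0) (nat_lit 0) (XT.lf (nat_lit 0) (nat_lit 91543063575) (nat_lit 152) (nat_lit 224685763683) (nat_lit 0) (nat_lit 88846501863) (nat_lit 1) (nat_lit 5) (nat_lit 3) (nat_lit 4) (nat_lit 1) (nat_lit 4) (nat_lit 358) (nat_lit 199) (nat_lit 163)) (XT.lf (nat_lit 0) (nat_lit 97146196108) (nat_lit 152) (nat_lit 233699808099) (nat_lit 0) (nat_lit 94422837104) (nat_lit 1) (nat_lit 5) (nat_lit 3) (nat_lit 4) (nat_lit 1) (nat_lit 4) (nat_lit 359) (nat_lit 199) (nat_lit 162))))))))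
noncomputable def xc15 : XT := (XT.nd (nat_lit 35178) (nat_lit 0) (nat_lit 0) (XT.nd (nat_lit 34476) (nat_lit 0) (nat_lit 152) (XT.nd (nat_lit 312) (nat_lit 0) (nat_lit 0) (XT.nd (nat_lit 156) (nat_lit 0) (nat_lit 0) (XT.nd (nat_lit 78) (nat_lit 0) (nat_lit 0) (XT.lf (nat_lit 0) (nat_lit 103015211768) (nat_lit 152) (nat_lit 243191209174) (nat_lit 0) (nat_lit 100266331532) (nat_lit 1) (nat_lit 5) (nat_lit 3) (nat_lit 4) (nat_lit 1) (nat_lit 4) (nat_lit 360) (nat_lit 199) (nat_lit 161)) (XT.lf (nat_lit 0) (nat_lit 109164084402) (nat_lit 152) (nat_lit 253182565481) (nat_lit 0) (nat_lit 106390898231) (nat_lit 1) (nat_lit 5) (nat_lit 3) (nat_lit 4) (nat_lit 1) (nat_lit 4) (nat_lit 361) (nat_lit 199) (nat_lit 160))) (XT.nd (nat_lit 78) (nat_lit 0) (nat_lit 0) (XT.lf (nat_lit 0) (nat_lit 115607454181) (nat_lit 152) (nat_lit 263697665965) (nat_lit 0) (nat_lit 112811119501) (nat_lit 1) (nat_lit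 5) (nat_lit 3) (nat_lit 4) (nat_lit 1) (nat_lit 4) (nat_lit 362) (nat_lit 199) (nat_lit 159)) (XT.lf (nat_lit 0) (nat_lit 122360662463) (nat_lit 152) (nat_lit 274761546579) (nat_lit 0) (nat_lit 119542281584) (nat_lit 1) (nat_lit 5) (nat_lit 3) (nat_lit 4) (nat_lit 1) (nat_lit 4) (nat_lit 363) (nat_lit 199) (nat_lit 158)))) (XT.nd (nat_lit 156) (nat_lit 0) (nat_lit 0) (XT.nd (nat_lit 78) (nat_lit 0) (nat_lit 0) (XT.lf (nat_lit 0) (nat_lit 129439788316) (nat_lit 152) (nat_lit 286400549895) (nat_lit 0) (nat_lit 126600411057) (nat_lit 1) (nat_lit 5) (nat_lit 3) (nat_lit 4) (nat_lit 1) (nat_lit 4) (nat_lit 364) (nat_lit 199) (nat_lit 157)) (XT.lf (nat_lit 0) (nat_lit 136861686800) (nat_lit 152) (nat_lit 298642387827) (nat_lit 0) (nat_lit 134002312988) (nat_lit 1) (nat_lit 5) (nat_lit 3) (nat_lit 4) (nat_lit 1) (nat_lit 4) (nat_lit 365) (nat_lit 199) (nat_lit 156))) (XT.nd (nat_lit 78) (nat_lit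 0) (nat_lit 0) (XT.lf (nat_lit 0) (nat_lit 144644029102) (nat_lit 152) (nat_lit 311516207607) (nat_lit 0) (nat_lit 141765610955) (nat_lit 1) (nat_lit 5) (nat_lit 3) (nat_lit 4) (nat_lit 1) (nat_lit 4) (nat_lit 366) (nat_lit 199) (nat_lit 155)) (XT.nd (nat_lit 33852) (nat_lit 0) (nat_lit 152) (XT.lf (nat_lit 0) (nat_lit 152805344610) (nat_lit 152) (nat_lit 325052661188) (nat_lit 0) (nat_lit 149908788999) (nat_lit 1) (nat_lit 5) (nat_lit 3) (nat_lit 4) (nat_lit 1) (nat_lit 4) (nat_lit 367) (nat_lit 199) (nat_lit 154)) (XT.lf (nat_lit 0) (nat_lit 15994525014) (nat_lit 76) (nat_lit 8280518178) (nat_lit 76) (nat_lit 8280518178) (nat_lit 3) (nat_lit 4) (nat_lit 4) (nat_lit 5) (nat_lit 4) (nat_lit 4) (nat_lit 320) (nat_lit 200) (nat_lit 200)))))) (XT.nd (nat_lit 312) (nat_lit 0) (nat_lit 0) (XT.nd (nat_lit 156) (nat_lit 0) (nat_lit 0) (XT.nd (nat_lit 78) (nat_lit 0) (nat_lit 0) (XT.lf (nat_lit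 0) (nat_lit 38383772819) (nat_lit 76) (nat_lit 15011103592) (nat_lit 76) (nat_lit 14839990087) (nat_lit 3) (nat_lit 4) (nat_lit 4) (nat_lit 5) (nat_lit 4) (nat_lit 4) (nat_lit 321) (nat_lit 200) (nat_lit 199)) (XT.lf (nat_lit 0) (nat_lit 44947228614) (nat_lit 76) (nat_lit 13452899176) (nat_lit 76) (nat_lit 13118820427) (nat_lit 3) (nat_lit 4) (nat_lit 4) (nat_lit 5) (nat_lit 4) (nat_lit 4) (nat_lit 322) (nat_lit 200) (nat_lit 198))) (XT.nd (nat_lit 78) (nat_lit 0) (nat_lit 0) (XT.lf (nat_lit 0) (nat_lit 51695044689) (nat_lit 76) (nat_lit 11882713096) (nat_lit 76) (nat_lit 11393429354) (nat_lit 3) (nat_lit 4) (nat_lit 4) (nat_lit 5) (nat_lit 4) (nat_lit 4) (nat_lit 323) (nat_lit 200) (nat_lit 197)) (XT.lf (nat_lit 0) (nat_lit 58643287273) (nat_lit 76) (nat_lit 10296806815) (nat_lit 76) (nat_lit 9659708793) (nat_lit 3) (nat_lit 4) (nat_lit 4) (nat_lit 5) (nat_lit 4) (nat_lit 4) (nat_lit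 324) (nat_lit 200) (nat_lit 196)))) (XT.nd (nat_lit 156) (nat_lit 0) (nat_lit 0) (XT.nd (nat_lit 78) (nat_lit 0) (nat_lit 0) (XT.lf (nat_lit 0) (nat_lit 65808499800) (nat_lit 76) (nat_lit 8691404365) (nat_lit 76) (nat_lit 7913530839) (nat_lit 3) (nat_lit 4) (nat_lit 4) (nat_lit 5) (nat_lit 4) (nat_lit 4) (nat_lit 325) (nat_lit 200) (nat_lit 195)) (XT.lf (nat_lit 0) (nat_lit 73207742302) (nat_lit 76) (nat_lit 7062683360) (nat_lit 76) (nat_lit 6150737925) (nat_lit 3) (nat_lit 4) (nat_lit 4) (nat_lit 5) (nat_lit 4) (nat_lit 4) (nat_lit 326) (nat_lit 200) (nat_lit 194))) (XT.nd (nat_lit 78) (nat_lit 0) (nat_lit 0) (XT.lf (nat_lit 0) (nat_lit 80858632020) (nat_lit 76) (nat_lit 5406765892) (nat_lit 76) (nat_lit 4367132926) (nat_lit 3) (nat_lit 4) (nat_lit 4) (nat_lit 5) (nat_lit 4) (nat_lit 4) (nat_lit 327) (nat_lit 200) (nat_lit 193)) (XT.nd (nat_lit 78) (nat_lit 0) (nat_lit 0) (XT.lf (nat_lit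 0) (nat_lit 88779385360) (nat_lit 76) (nat_lit 3719709302) (nat_lit 76) (nat_lit 2558469161) (nat_lit 3) (nat_lit 4) (nat_lit 4) (nat_lit 5) (nat_lit 4) (nat_lit 4) (nat_lit 328) (nat_lit 200) (nat_lit 192)) (XT.lf (nat_lit 0) (nat_lit 96988861259) (nat_lit 76) (nat_lit 1997496786) (nat_lit 76) (nat_lit 720440290) (nat_lit 3) (nat_lit 4) (nat_lit 4) (nat_lit 5) (nat_lit 4) (nat_lit 4) (nat_lit 329) (nat_lit 200) (nat_lit 191))))))) (XT.nd (nat_lit 702) (nat_lit 0) (nat_lit 0) (XT.nd (nat_lit 312) (nat_lit 0) (nat_lit 0) (XT.nd (nat_lit 156) (nat_lit 0) (nat_lit 0) (XT.nd (nat_lit 78) (nat_lit 0) (nat_lit 0) (XT.lf (nat_lit 0) (nat_lit 926996288) (nat_lit 76) (nat_lit 201956918) (nat_lit 152) (nat_lit 103460728348) (nat_lit 1) (nat_lit 5) (nat_lit 2) (nat_lit 5) (nat_lit 3) (nat_lit 4) (nat_lit 330) (nat_lit 200) (nat_lit 190)) (XT.lf (nat_lit 0) (nat_lit 3063717028) (nat_lit 152) (nat_lit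 105009206381) (nat_lit 0) (nat_lit 1642377374) (nat_lit 1) (nat_lit 5) (nat_lit 3) (nat_lit 4) (nat_lit 1) (nat_lit 4) (nat_lit 331) (nat_lit 200) (nat_lit 189))) (XT.nd (nat_lit 78) (nat_lit 0) (nat_lit 0) (XT.lf (nat_lit 0) (nat_lit 5045240318) (nat_lit 152) (nat_lit 106525877500) (nat_lit 0) (nat_lit 3528618262) (nat_lit 1) (nat_lit 5) (nat_lit 3) (nat_lit 4) (nat_lit 1) (nat_lit 4) (nat_lit 332) (nat_lit 200) (nat_lit 188)) (XT.lf (nat_lit 0) (nat_lit 7075087878) (nat_lit 152) (nat_lit 108213156633) (nat_lit 0) (nat_lit 5467720677) (nat_lit 1) (nat_lit 5) (nat_lit 3) (nat_lit 4) (nat_lit 1) (nat_lit 4) (nat_lit 333) (nat_lit 200) (nat_lit 187)))) (XT.nd (nat_lit 156) (nat_lit 0) (nat_lit 0) (XT.nd (nat_lit 78) (nat_lit 0) (nat_lit 0) (XT.lf (nat_lit 0) (nat_lit 9158092678) (nat_lit 152) (nat_lit 110075061109) (nat_lit 0) (nat_lit 7464301529) (nat_lit 1) (nat_lit 5) (nat_lit 3) (nat_lit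 4) (nat_lit 1) (nat_lit 4) (nat_lit 334) (nat_lit 200) (nat_lit 186)) (XT.lf (nat_lit 0) (nat_lit 11299214253) (nat_lit 152) (nat_lit 112116024036) (nat_lit 0) (nat_lit 9523114582) (nat_lit 1) (nat_lit 5) (nat_lit 3) (nat_lit 4) (nat_lit 1) (nat_lit 4) (nat_lit 335) (nat_lit 200) (nat_lit 185))) (XT.nd (nat_lit 78) (nat_lit 0) (nat_lit 0) (XT.lf (nat_lit 0) (nat_lit 13503550511) (nat_lit 152) (nat_lit 114340904849) (nat_lit 0) (nat_lit 11649061772) (nat_lit 1) (nat_lit 5) (nat_lit 3) (nat_lit 4) (nat_lit 1) (nat_lit 4) (nat_lit 336) (nat_lit 200) (nat_lit 184)) (XT.nd (nat_lit 78) (nat_lit 0) (nat_lit 0) (XT.lf (nat_lit 0) (nat_lit 15776349873) (nat_lit 152) (nat_lit 116755000883) (nat_lit 0) (nat_lit 13847204878) (nat_lit 1) (nat_lit 5) (nat_lit 3) (nat_lit 4) (nat_lit 1) (nat_lit 4) (nat_lit 337) (nat_lit 200) (nat_lit 183)) (XT.lf (nat_lit 0) (nat_lit 18123023764) (nat_lit 152) (nat_lit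 119364059986) (nat_lit 0) (nat_lit 16122777574) (nat_lit 1) (nat_lit 5) (nat_lit 3) (nat_lit 4) (nat_lit 1) (nat_lit 4) (nat_lit 338) (nat_lit 200) (nat_lit 182)))))) (XT.nd (nat_lit 390) (nat_lit 0) (nat_lit 0) (XT.nd (nat_lit 156) (nat_lit 0) (nat_lit 0) (XT.nd (nat_lit 78) (nat_lit 0) (nat_lit 0) (XT.lf (nat_lit 0) (nat_lit 20549159505) (nat_lit 152) (nat_lit 122174294203) (nat_lit 0) (nat_lit 18481197890) (nat_lit 1) (nat_lit 5) (nat_lit 3) (nat_lit 4) (nat_lit 1) (nat_lit 4) (nat_lit 339) (nat_lit 200) (nat_lit 181)) (XT.lf (nat_lit 0) (nat_lit 23060533608) (nat_lit 152) (nat_lit 125192394568) (nat_lit 0) (nat_lit 20928081113) (nat_lit 1) (nat_lit 5) (nat_lit 3) (nat_lit 4) (nat_lit 1) (nat_lit 4) (nat_lit 340) (nat_lit 200) (nat_lit 180))) (XT.nd (nat_lit 78) (nat_lit 0) (nat_lit 0) (XT.lf (nat_lit 0) (nat_lit 25663125537) (nat_lit 152) (nat_lit 128425547035) (nat_lit 0) (nat_lit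 23469253155) (nat_lit 1) (nat_lit 5) (nat_lit 3) (nat_lit 4) (nat_lit 1) (nat_lit 4) (nat_lit 341) (nat_lit 200) (nat_lit 179)) (XT.nd (nat_lit 78) (nat_lit 0) (nat_lit 0) (XT.lf (nat_lit 0) (nat_lit 28363131937) (nat_lit 152) (nat_lit 131881449585) (nat_lit 0) (nat_lit 26110764426) (nat_lit 1) (nat_lit 5) (nat_lit 3) (nat_lit 4) (nat_lit 1) (nat_lit 4) (nat_lit 342) (nat_lit 200) (nat_lit 178)) (XT.lf (nat_lit 0) (nat_lit 31166981397) (nat_lit 152) (nat_lit 135568330558) (nat_lit 0) (nat_lit 28858904238) (nat_lit 1) (nat_lit 5) (nat_lit 3) (nat_lit 4) (nat_lit 1) (nat_lit 4) (nat_lit 343) (nat_lit 200) (nat_lit 177))))) (XT.nd (nat_lit 156) (nat_lit 0) (nat_lit 0) (XT.nd (nat_lit 78) (nat_lit 0) (nat_lit 0) (XT.lf (nat_lit 0) (nat_lit 34081349747) (nat_lit 152) (nat_lit 139494968242) (nat_lit 0) (nat_lit 31720215782) (nat_lit 1) (nat_lit 5) (nat_lit 3) (nat_lit 4) (nat_lit 1) (nat_lit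 4) (nat_lit 344) (nat_lit 200) (nat_lit 176)) (XT.lf (nat_lit 0) (nat_lit 37113175961) (nat_lit 152) (nat_lit 143670711774) (nat_lit 0) (nat_lit 34701511703) (nat_lit 1) (nat_lit 5) (nat_lit 3) (nat_lit 4) (nat_lit 1) (nat_lit 4) (nat_lit 345) (nat_lit 200) (nat_lit 175))) (XT.nd (nat_lit 78) (nat_lit 0) (nat_lit 0) (XT.lf (nat_lit 0) (nat_lit 40269678672) (nat_lit 152) (nat_lit 148105503401) (nat_lit 0) (nat_lit 37809890326) (nat_lit 1) (nat_lit 5) (nat_lit 3) (nat_lit 4) (nat_lit 1) (nat_lit 4) (nat_lit 346) (nat_lit 200) (nat_lit 174)) (XT.nd (nat_lit 78) (nat_lit 0) (nat_lit 0) (XT.lf (nat_lit 0) (nat_lit 43558373363) (nat_lit 152) (nat_lit 152809902150) (nat_lit 0) (nat_lit 41052752552) (nat_lit 1) (nat_lit 5) (nat_lit 3) (nat_lit 4) (nat_lit 1) (nat_lit 4) (nat_lit 347) (nat_lit 200) (nat_lit 173)) (XT.lf (nat_lit 0) (nat_lit 46987090259) (nat_lit 152) (nat_lit 157795108972) (nat_lit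 0) (nat_lit 44437819481) (nat_lit 1) (nat_lit 5) (nat_lit 3) (nat_lit 4) (nat_lit 1) (nat_lit 4) (nat_lit 348) (nat_lit 200) (nat_lit 172))))))))
noncomputable def xc16 : XT := (XT.nd (nat_lit 1404) (nat_lit 0) (nat_lit 0) (XT.nd (nat_lit 702) (nat_lit 0) (nat_lit 0) (XT.nd (nat_lit 312) (nat_lit 0) (nat_lit 0) (XT.nd (nat_lit 156) (nat_lit 0) (nat_lit 0) (XT.nd (nat_lit 78) (nat_lit 0) (nat_lit 0) (XT.lf (nat_lit 0) (nat_lit 50563992972) (nat_lit 152) (nat_lit 163072993405) (nat_lit 0) (nat_lit 47973150798) (nat_lit 1) (nat_lit 5) (nat_lit 3) (nat_lit 4) (nat_lit 1) (nat_lit 4) (nat_lit 349) (nat_lit 200) (nat_lit 171)) (XT.lf (nat_lit 0) (nat_lit 54297597936) (nat_lit 152) (nat_lit 168656121841) (nat_lit 0) (nat_lit 51667163956) (nat_lit 1) (nat_lit 5) (nat_lit 3) (nat_lit 4) (nat_lit 1) (nat_lit 4) (nat_lit 350) (nat_lit 200) (nat_lit 170))) (XT.nd (nat_lit 78) (nat_lit 0) (nat_lit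 0) (XT.lf (nat_lit 0) (nat_lit 58196794688) (nat_lit 152) (nat_lit 174557787444) (nat_lit 0) (nat_lit 55528654226) (nat_lit 1) (nat_lit 5) (nat_lit 3) (nat_lit 4) (nat_lit 1) (nat_lit 4) (nat_lit 351) (nat_lit 200) (nat_lit 169)) (XT.lf (nat_lit 0) (nat_lit 62270867030) (nat_lit 152) (nat_lit 180792041798) (nat_lit 0) (nat_lit 59566815632) (nat_lit 1) (nat_lit 5) (nat_lit 3) (nat_lit 4) (nat_lit 1) (nat_lit 4) (nat_lit 352) (nat_lit 200) (nat_lit 168)))) (XT.nd (nat_lit 156) (nat_lit 0) (nat_lit 0) (XT.nd (nat_lit 78) (nat_lit 0) (nat_lit 0) (XT.lf (nat_lit 0) (nat_lit 66529515133) (nat_lit 152) (nat_lit 187373728365) (nat_lit 0) (nat_lit 63791262844) (nat_lit 1) (nat_lit 5) (nat_lit 3) (nat_lit 4) (nat_lit 1) (nat_lit 4) (nat_lit 353) (nat_lit 200) (nat_lit 167)) (XT.lf (nat_lit 0) (nat_lit 70982878636) (nat_lit 152) (nat_lit 194318517829) (nat_lit 0) (nat_lit 68212054070) (nat_lit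 1) (nat_lit 5) (nat_lit 3) (nat_lit 4) (nat_lit 1) (nat_lit 4) (nat_lit 354) (nat_lit 200) (nat_lit 166))) (XT.nd (nat_lit 78) (nat_lit 0) (nat_lit 0) (XT.lf (nat_lit 0) (nat_lit 75641560786) (nat_lit 152) (nat_lit 201642945402) (nat_lit 0) (nat_lit 72839715004) (nat_lit 1) (nat_lit 5) (nat_lit 3) (nat_lit 4) (nat_lit 1) (nat_lit 4) (nat_lit 355) (nat_lit 200) (nat_lit 165)) (XT.nd (nat_lit 78) (nat_lit 0) (nat_lit 0) (XT.lf (nat_lit 0) (nat_lit 80516653682) (nat_lit 152) (nat_lit 209364450198) (nat_lit 0) (nat_lit 77685263884) (nat_lit 1) (nat_lit 5) (nat_lit 3) (nat_lit 4) (nat_lit 1) (nat_lit 4) (nat_lit 356) (nat_lit 200) (nat_lit 164)) (XT.lf (nat_lit 0) (nat_lit 85619764688) (nat_lit 152) (nat_lit 217501416751) (nat_lit 0) (nat_lit 82760237733) (nat_lit 1) (nat_lit 5) (nat_lit 3) (nat_lit 4) (nat_lit 1) (nat_lit 4) (nat_lit 357) (nat_lit 200) (nat_lit 163)))))) (XT.nd (nat_lit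 312) (nat_lit 0) (nat_lit 0) (XT.nd (nat_lit 156) (nat_lit 0) (nat_lit 0) (XT.nd (nat_lit 78) (nat_lit 0) (nat_lit 0) (XT.lf (nat_lit 0) (nat_lit 90963044070) (nat_lit 152) (nat_lit 226073218792) (nat_lit 0) (nat_lit 88076719822) (nat_lit 1) (nat_lit 5) (nat_lit 3) (nat_lit 4) (nat_lit 1) (nat_lit 4) (nat_lit 358) (nat_lit 200) (nat_lit 162)) (XT.lf (nat_lit 0) (nat_lit 96559213921) (nat_lit 152) (nat_lit 235100265372) (nat_lit 0) (nat_lit 93647368442) (nat_lit 1) (nat_lit 5) (nat_lit 3) (nat_lit 4) (nat_lit 1) (nat_lit 4) (nat_lit 359) (nat_lit 200) (nat_lit 161))) (XT.nd (nat_lit 78) (nat_lit 0) (nat_lit 0) (XT.lf (nat_lit 0) (nat_lit 102421598454) (nat_lit 152) (nat_lit 244604049461) (nat_lit 0) (nat_lit 99485447040) (nat_lit 1) (nat_lit 5) (nat_lit 3) (nat_lit 4) (nat_lit 1) (nat_lit 4) (nat_lit 360) (nat_lit 200) (nat_lit 160)) (XT.lf (nat_lit 0) (nat_lit 108564155729) (nat_lit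 152) (nat_lit 254607199115) (nat_lit 0) (nat_lit 105604855806) (nat_lit 1) (nat_lit 5) (nat_lit 3) (nat_lit 4) (nat_lit 1) (nat_lit 4) (nat_lit 361) (nat_lit 200) (nat_lit 159)))) (XT.nd (nat_lit 156) (nat_lit 0) (nat_lit 0) (XT.nd (nat_lit 78) (nat_lit 0) (nat_lit 0) (XT.lf (nat_lit 0) (nat_lit 115001510881) (nat_lit 152) (nat_lit 265133531358) (nat_lit 0) (nat_lit 112020164759) (nat_lit 1) (nat_lit 5) (nat_lit 3) (nat_lit 4) (nat_lit 1) (nat_lit 4) (nat_lit 362) (nat_lit 200) (nat_lit 158)) (XT.lf (nat_lit 0) (nat_lit 121748990946) (nat_lit 152) (nat_lit 276208108885) (nat_lit 0) (nat_lit 118746648444) (nat_lit 1) (nat_lit 5) (nat_lit 3) (nat_lit 4) (nat_lit 1) (nat_lit 4) (nat_lit 363) (nat_lit 200) (nat_lit 157))) (XT.nd (nat_lit 78) (nat_lit 0) (nat_lit 0) (XT.lf (nat_lit 0) (nat_lit 128822661354) (nat_lit 152) (nat_lit 287857299737) (nat_lit 0) (nat_lit 125800322299) (nat_lit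 1) (nat_lit 5) (nat_lit 3) (nat_lit 4) (nat_lit 1) (nat_lit 4) (nat_lit 364) (nat_lit 200) (nat_lit 156)) (XT.nd (nat_lit 78) (nat_lit 0) (nat_lit 0) (XT.lf (nat_lit 0) (nat_lit 136239364177) (nat_lit 152) (nat_lit 300108840085) (nat_lit 0) (nat_lit 133197980786) (nat_lit 1) (nat_lit 5) (nat_lit 3) (nat_lit 4) (nat_lit 1) (nat_lit 4) (nat_lit 365) (nat_lit 200) (nat_lit 155)) (XT.lf (nat_lit 0) (nat_lit 144016758231) (nat_lit 152) (nat_lit 312991900261) (nat_lit 0) (nat_lit 140957237377) (nat_lit 1) (nat_lit 5) (nat_lit 3) (nat_lit 4) (nat_lit 1) (nat_lit 4) (nat_lit 366) (nat_lit 200) (nat_lit 154))))))) (XT.nd (nat_lit 34320) (nat_lit 0) (nat_lit 0) (XT.nd (nat_lit 33930) (nat_lit 0) (nat_lit 152) (XT.nd (nat_lit 33774) (nat_lit 0) (nat_lit 152) (XT.nd (nat_lit 33696) (nat_lit 0) (nat_lit 152) (XT.lf (nat_lit 0) (nat_lit 152173361120) (nat_lit 152) (nat_lit 326537154219) (nat_lit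 0) (nat_lit 149096566493) (nat_lit 1) (nat_lit 5) (nat_lit 3) (nat_lit 4) (nat_lit 1) (nat_lit 4) (nat_lit 367) (nat_lit 200) (nat_lit 153)) (XT.lf (nat_lit 0) (nat_lit 9863238528) (nat_lit 76) (nat_lit 9896638465) (nat_lit 76) (nat_lit 9896638465) (nat_lit 3) (nat_lit 4) (nat_lit 4) (nat_lit 5) (nat_lit 4) (nat_lit 4) (nat_lit 318) (nat_lit 201) (nat_lit 201))) (XT.nd (nat_lit 78) (nat_lit 0) (nat_lit 0) (XT.lf (nat_lit 0) (nat_lit 25747834712) (nat_lit 76) (nat_lit 18286056966) (nat_lit 76) (nat_lit 18106387785) (nat_lit 3) (nat_lit 4) (nat_lit 4) (nat_lit 5) (nat_lit 4) (nat_lit 4) (nat_lit 319) (nat_lit 201) (nat_lit 200)) (XT.lf (nat_lit 0) (nat_lit 31911706959) (nat_lit 76) (nat_lit 16776162238) (nat_lit 76) (nat_lit 16425379552) (nat_lit 3) (nat_lit 4) (nat_lit 4) (nat_lit 5) (nat_lit 4) (nat_lit 4) (nat_lit 320) (nat_lit 201) (nat_lit 199)))) (XT.nd (nat_lit 156) (nat_lit 0)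 (nat_lit 0) (XT.nd (nat_lit 78) (nat_lit 0) (nat_lit 0) (XT.lf (nat_lit 0) (nat_lit 38232769684) (nat_lit 76) (nat_lit 15259997759) (nat_lit 76) (nat_lit 14746249830) (nat_lit 3) (nat_lit 4) (nat_lit 4) (nat_lit 5) (nat_lit 4) (nat_lit 4) (nat_lit 321) (nat_lit 201) (nat_lit 198)) (XT.lf (nat_lit 0) (nat_lit 44726073035) (nat_lit 76) (nat_lit 13733953614) (nat_lit 76) (nat_lit 13065000692) (nat_lit 3) (nat_lit 4) (nat_lit 4) (nat_lit 5) (nat_lit 4) (nat_lit 4) (nat_lit 322) (nat_lit 201) (nat_lit 197))) (XT.nd (nat_lit 78) (nat_lit 0) (nat_lit 0) (XT.lf (nat_lit 0) (nat_lit 51407077259) (nat_lit 76) (nat_lit 12194396365) (nat_lit 76) (nat_lit 11377629163) (nat_lit 3) (nat_lit 4) (nat_lit 4) (nat_lit 5) (nat_lit 4) (nat_lit 4) (nat_lit 323) (nat_lit 201) (nat_lit 196)) (XT.nd (nat_lit 78) (nat_lit 0) (nat_lit 0) (XT.lf (nat_lit 0) (nat_lit 58291689509) (nat_lit 76) (nat_lit 10637660399)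 (nat_lit 76) (nat_lit 9680117692) (nat_lit 3) (nat_lit 4) (nat_lit 4) (nat_lit 5) (nat_lit 4) (nat_lit 4) (nat_lit 324) (nat_lit 201) (nat_lit 195)) (XT.lf (nat_lit 0) (nat_lit 65396301718) (nat_lit 76) (nat_lit 9060039201) (nat_lit 76) (nat_lit 7968424586) (nat_lit 3) (nat_lit 4) (nat_lit 4) (nat_lit 5) (nat_lit 4) (nat_lit 4) (nat_lit 325) (nat_lit 201) (nat_lit 194)))))) (XT.nd (nat_lit 312) (nat_lit 152) (nat_lit 0) (XT.nd (nat_lit 156) (nat_lit 0) (nat_lit 0) (XT.nd (nat_lit 78) (nat_lit 0) (nat_lit 0) (XT.lf (nat_lit 0) (nat_lit 72737829630) (nat_lit 76) (nat_lit 7457776532) (nat_lit 76) (nat_lit 6238474384) (nat_lit 3) (nat_lit 4) (nat_lit 4) (nat_lit 5) (nat_lit 4) (nat_lit 4) (nat_lit 326) (nat_lit 201) (nat_lit 193)) (XT.lf (nat_lit 0) (nat_lit 80333753073) (nat_lit 76) (nat_lit 5827057479) (nat_lit 76) (nat_lit 4486148158) (nat_lit 3) (nat_lit 4) (nat_lit 4) (nat_lit 5) (nat_lit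 4) (nat_lit 4) (nat_lit 327) (nat_lit 201) (nat_lit 192))) (XT.nd (nat_lit 78) (nat_lit 0) (nat_lit 0) (XT.lf (nat_lit 0) (nat_lit 88202157580) (nat_lit 76) (nat_lit 4163999378) (nat_lit 76) (nat_lit 2707273702) (nat_lit 3) (nat_lit 4) (nat_lit 4) (nat_lit 5) (nat_lit 4) (nat_lit 4) (nat_lit 328) (nat_lit 201) (nat_lit 191)) (XT.lf (nat_lit 0) (nat_lit 96361777446) (nat_lit 76) (nat_lit 2464642568) (nat_lit 76) (nat_lit 897615600) (nat_lit 3) (nat_lit 4) (nat_lit 4) (nat_lit 5) (nat_lit 4) (nat_lit 4) (nat_lit 329) (nat_lit 201) (nat_lit 190)))) (XT.nd (nat_lit 156) (nat_lit 0) (nat_lit 0) (XT.nd (nat_lit 78) (nat_lit 0) (nat_lit 0) (XT.lf (nat_lit 0) (nat_lit 214264260) (nat_lit 76) (nat_lit 705901630) (nat_lit 152) (nat_lit 103688773917) (nat_lit 1) (nat_lit 5) (nat_lit 2) (nat_lit 5) (nat_lit 3) (nat_lit 4) (nat_lit 330) (nat_lit 201) (nat_lit 189)) (XT.lf (nat_lit 0) (nat_lit 2821066849)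 (nat_lit 152) (nat_lit 105781871687) (nat_lit 0) (nat_lit 1133331288) (nat_lit 1) (nat_lit 5) (nat_lit 3) (nat_lit 4) (nat_lit 1) (nat_lit 4) (nat_lit 331) (nat_lit 201) (nat_lit 188))) (XT.nd (nat_lit 78) (nat_lit 0) (nat_lit 0) (XT.lf (nat_lit 0) (nat_lit 4777833117) (nat_lit 152) (nat_lit 107344774249) (nat_lit 0) (nat_lit 2999352411) (nat_lit 1) (nat_lit 5) (nat_lit 3) (nat_lit 4) (nat_lit 1) (nat_lit 4) (nat_lit 332) (nat_lit 201) (nat_lit 187)) (XT.nd (nat_lit 78) (nat_lit 0) (nat_lit 0) (XT.lf (nat_lit 0) (nat_lit 6784102561) (nat_lit 152) (nat_lit 109076083326) (nat_lit 0) (nat_lit 4919197907) (nat_lit 1) (nat_lit 5) (nat_lit 3) (nat_lit 4) (nat_lit 1) (nat_lit 4) (nat_lit 333) (nat_lit 201) (nat_lit 186)) (XT.lf (nat_lit 0) (nat_lit 8844652012) (nat_lit 152) (nat_lit 110979921084) (nat_lit 0) (nat_lit 6897438836) (nat_lit 1) (nat_lit 5) (nat_lit 3) (nat_lit 4) (nat_lit 1) (nat_lit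 4) (nat_lit 334) (nat_lit 201) (nat_lit 185))))))))
noncomputable def xc17 : XT := (XT.nd (nat_lit 1404) (nat_lit 0) (nat_lit 0) (XT.nd (nat_lit 702) (nat_lit 0) (nat_lit 0) (XT.nd (nat_lit 312) (nat_lit 0) (nat_lit 0) (XT.nd (nat_lit 156) (nat_lit 0) (nat_lit 0) (XT.nd (nat_lit 78) (nat_lit 0) (nat_lit 0) (XT.lf (nat_lit 0) (nat_lit 10964387540) (nat_lit 152) (nat_lit 113060820470) (nat_lit 0) (nat_lit 8938785296) (nat_lit 1) (nat_lit 5) (nat_lit 3) (nat_lit 4) (nat_lit 1) (nat_lit 4) (nat_lit 335) (nat_lit 201) (nat_lit 184)) (XT.lf (nat_lit 0) (nat_lit 13148356135) (nat_lit 152) (nat_lit 115323736005) (nat_lit 0) (nat_lit 11048097635) (nat_lit 1) (nat_lit 5) (nat_lit 3) (nat_lit 4) (nat_lit 1) (nat_lit 4) (nat_lit 336) (nat_lit 201) (nat_lit 183))) (XT.nd (nat_lit 78) (nat_lit 0) (nat_lit 0) (XT.lf (nat_lit 0) (nat_lit 15401757722) (nat_lit 152) (nat_lit 117774055584) (nat_lit 0)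 (nat_lit 13230398027) (nat_lit 1) (nat_lit 5) (nat_lit 3) (nat_lit 4) (nat_lit 1) (nat_lit 4) (nat_lit 337) (nat_lit 201) (nat_lit 182)) (XT.lf (nat_lit 0) (nat_lit 17729957543) (nat_lit 152) (nat_lit 120417613301) (nat_lit 0) (nat_lit 15490882423) (nat_lit 1) (nat_lit 5) (nat_lit 3) (nat_lit 4) (nat_lit 1) (nat_lit 4) (nat_lit 338) (nat_lit 201) (nat_lit 181)))) (XT.nd (nat_lit 156) (nat_lit 0) (nat_lit 0) (XT.nd (nat_lit 78) (nat_lit 0) (nat_lit 0) (XT.lf (nat_lit 0) (nat_lit 20138498930) (nat_lit 152) (nat_lit 123260703341) (nat_lit 0) (nat_lit 17834932930) (nat_lit 1) (nat_lit 5) (nat_lit 3) (nat_lit 4) (nat_lit 1) (nat_lit 4) (nat_lit 339) (nat_lit 201) (nat_lit 180)) (XT.lf (nat_lit 0) (nat_lit 22633116507) (nat_lit 152) (nat_lit 126310094966) (nat_lit 0) (nat_lit 20268130620) (nat_lit 1) (nat_lit 5) (nat_lit 3) (nat_lit 4) (nat_lit 1) (nat_lit 4) (nat_lit 340) (nat_lit 201) (nat_lit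 179))) (XT.nd (nat_lit 78) (nat_lit 0) (nat_lit 0) (XT.lf (nat_lit 0) (nat_lit 25219749838) (nat_lit 152) (nat_lit 129573048633) (nat_lit 0) (nat_lit 22796268821) (nat_lit 1) (nat_lit 5) (nat_lit 3) (nat_lit 4) (nat_lit 1) (nat_lit 4) (nat_lit 341) (nat_lit 201) (nat_lit 178)) (XT.nd (nat_lit 78) (nat_lit 0) (nat_lit 0) (XT.lf (nat_lit 0) (nat_lit 27904557575) (nat_lit 152) (nat_lit 133057333278) (nat_lit 0) (nat_lit 25425366910) (nat_lit 1) (nat_lit 5) (nat_lit 3) (nat_lit 4) (nat_lit 1) (nat_lit 4) (nat_lit 342) (nat_lit 201) (nat_lit 177)) (XT.lf (nat_lit 0) (nat_lit 30693932116) (nat_lit 152) (nat_lit 136771244818) (nat_lit 0) (nat_lit 28161684645) (nat_lit 1) (nat_lit 5) (nat_lit 3) (nat_lit 4) (nat_lit 1) (nat_lit 4) (nat_lit 343) (nat_lit 201) (nat_lit 176)))))) (XT.nd (nat_lit 312) (nat_lit 0) (nat_lit 0) (XT.nd (nat_lit 156) (nat_lit 0) (nat_lit 0) (XT.nd (nat_lit 78) (nat_lit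 0) (nat_lit 0) (XT.lf (nat_lit 0) (nat_lit 33594514830) (nat_lit 152) (nat_lit 140723625899) (nat_lit 0) (nat_lit 31011737067) (nat_lit 1) (nat_lit 5) (nat_lit 3) (nat_lit 4) (nat_lit 1) (nat_lit 4) (nat_lit 344) (nat_lit 201) (nat_lit 175)) (XT.lf (nat_lit 0) (nat_lit 36613211867) (nat_lit 152) (nat_lit 144923886952) (nat_lit 0) (nat_lit 33982310015) (nat_lit 1) (nat_lit 5) (nat_lit 3) (nat_lit 4) (nat_lit 1) (nat_lit 4) (nat_lit 345) (nat_lit 201) (nat_lit 174))) (XT.nd (nat_lit 78) (nat_lit 0) (nat_lit 0) (XT.lf (nat_lit 0) (nat_lit 39757210599) (nat_lit 152) (nat_lit 149382028599) (nat_lit 0) (nat_lit 37080476283) (nat_lit 1) (nat_lit 5) (nat_lit 3) (nat_lit 4) (nat_lit 1) (nat_lit 4) (nat_lit 346) (nat_lit 201) (nat_lit 173)) (XT.lf (nat_lit 0) (nat_lit 43033996739) (nat_lit 152) (nat_lit 154108665463) (nat_lit 0) (nat_lit 40313612457) (nat_lit 1) (nat_lit 5) (nat_lit 3) (nat_lit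 4) (nat_lit 1) (nat_lit 4) (nat_lit 347) (nat_lit 201) (nat_lit 172)))) (XT.nd (nat_lit 156) (nat_lit 0) (nat_lit 0) (XT.nd (nat_lit 78) (nat_lit 0) (nat_lit 0) (XT.lf (nat_lit 0) (nat_lit 46451372158) (nat_lit 152) (nat_lit 159115051441) (nat_lit 0) (nat_lit 43689416479) (nat_lit 1) (nat_lit 5) (nat_lit 3) (nat_lit 4) (nat_lit 1) (nat_lit 4) (nat_lit 348) (nat_lit 201) (nat_lit 171)) (XT.lf (nat_lit 0) (nat_lit 50017473464) (nat_lit 152) (nat_lit 164413106499) (nat_lit 0) (nat_lit 47215925979) (nat_lit 1) (nat_lit 5) (nat_lit 3) (nat_lit 4) (nat_lit 1) (nat_lit 4) (nat_lit 349) (nat_lit 201) (nat_lit 170))) (XT.nd (nat_lit 78) (nat_lit 0) (nat_lit 0) (XT.lf (nat_lit 0) (nat_lit 53740791375) (nat_lit 152) (nat_lit 170015445055) (nat_lit 0) (nat_lit 50901537407) (nat_lit 1) (nat_lit 5) (nat_lit 3) (nat_lit 4) (nat_lit 1) (nat_lit 4) (nat_lit 350) (nat_lit 201) (nat_lit 169)) (XT.nd (nat_lit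 78) (nat_lit 0) (nat_lit 0) (XT.lf (nat_lit 0) (nat_lit 57630190933) (nat_lit 152) (nat_lit 175935406009) (nat_lit 0) (nat_lit 54755026030) (nat_lit 1) (nat_lit 5) (nat_lit 3) (nat_lit 4) (nat_lit 1) (nat_lit 4) (nat_lit 351) (nat_lit 201) (nat_lit 168)) (XT.lf (nat_lit 0) (nat_lit 61694932613) (nat_lit 152) (nat_lit 182187084507) (nat_lit 0) (nat_lit 58785566819) (nat_lit 1) (nat_lit 5) (nat_lit 3) (nat_lit 4) (nat_lit 1) (nat_lit 4) (nat_lit 352) (nat_lit 201) (nat_lit 167))))))) (XT.nd (nat_lit 702) (nat_lit 0) (nat_lit 0) (XT.nd (nat_lit 312) (nat_lit 0) (nat_lit 0) (XT.nd (nat_lit 156) (nat_lit 0) (nat_lit 0) (XT.nd (nat_lit 78) (nat_lit 0) (nat_lit 0) (XT.lf (nat_lit 0) (nat_lit 65944694372) (nat_lit 152) (nat_lit 188785365498) (nat_lit 0) (nat_lit 63002756301) (nat_lit 1) (nat_lit 5) (nat_lit 3) (nat_lit 4) (nat_lit 1) (nat_lit 4) (nat_lit 353) (nat_lit 201) (nat_lit 166)) (XT.lf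 (nat_lit 0) (nat_lit 70389594691) (nat_lit 152) (nat_lit 195745959175) (nat_lit 0) (nat_lit 67416635403) (nat_lit 1) (nat_lit 5) (nat_lit 3) (nat_lit 4) (nat_lit 1) (nat_lit 4) (nat_lit 354) (nat_lit 201) (nat_lit 165))) (XT.nd (nat_lit 78) (nat_lit 0) (nat_lit 0) (XT.lf (nat_lit 0) (nat_lit 75040216664) (nat_lit 152) (nat_lit 203085438379) (nat_lit 0) (nat_lit 72037713361) (nat_lit 1) (nat_lit 5) (nat_lit 3) (nat_lit 4) (nat_lit 1) (nat_lit 4) (nat_lit 355) (nat_lit 201) (nat_lit 164)) (XT.lf (nat_lit 0) (nat_lit 79907633202) (nat_lit 152) (nat_lit 210821278061) (nat_lit 0) (nat_lit 76876992742) (nat_lit 1) (nat_lit 5) (nat_lit 3) (nat_lit 4) (nat_lit 1) (nat_lit 4) (nat_lit 356) (nat_lit 201) (nat_lit 163)))) (XT.nd (nat_lit 156) (nat_lit 0) (nat_lit 0) (XT.nd (nat_lit 78) (nat_lit 0) (nat_lit 0) (XT.lf (nat_lit 0) (nat_lit 85003433391) (nat_lit 152) (nat_lit 218971896888) (nat_lit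 0) (nat_lit 81945995638) (nat_lit 1) (nat_lit 5) (nat_lit 3) (nat_lit 4) (nat_lit 1) (nat_lit 4) (nat_lit 357) (nat_lit 201) (nat_lit 162)) (XT.lf (nat_lit 0) (nat_lit 90339750090) (nat_lit 152) (nat_lit 227556701093) (nat_lit 0) (nat_lit 87256791106) (nat_lit 1) (nat_lit 5) (nat_lit 3) (nat_lit 4) (nat_lit 1) (nat_lit 4) (nat_lit 358) (nat_lit 201) (nat_lit 161))) (XT.nd (nat_lit 78) (nat_lit 0) (nat_lit 0) (XT.lf (nat_lit 0) (nat_lit 95929288814) (nat_lit 152) (nat_lit 236596130688) (nat_lit 0) (nat_lit 92822023895) (nat_lit 1) (nat_lit 5) (nat_lit 3) (nat_lit 4) (nat_lit 1) (nat_lit 4) (nat_lit 359) (nat_lit 201) (nat_lit 160)) (XT.nd (nat_lit 78) (nat_lit 0) (nat_lit 0) (XT.lf (nat_lit 0) (nat_lit 101785357989) (nat_lit 152) (nat_lit 246111708124) (nat_lit 0) (nat_lit 98654944560) (nat_lit 1) (nat_lit 5) (nat_lit 3) (nat_lit 4) (nat_lit 1) (nat_lit 4) (nat_lit 360) (nat_lit 201)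 (nat_lit 159)) (XT.lf (nat_lit 0) (nat_lit 107921900636) (nat_lit 152) (nat_lit 256126089537) (nat_lit 0) (nat_lit 104769441008) (nat_lit 1) (nat_lit 5) (nat_lit 3) (nat_lit 4) (nat_lit 1) (nat_lit 4) (nat_lit 361) (nat_lit 201) (nat_lit 158)))))) (XT.nd (nat_lit 312) (nat_lit 0) (nat_lit 0) (XT.nd (nat_lit 156) (nat_lit 0) (nat_lit 0) (XT.nd (nat_lit 78) (nat_lit 0) (nat_lit 0) (XT.lf (nat_lit 0) (nat_lit 114353527571) (nat_lit 152) (nat_lit 266663118692) (nat_lit 0) (nat_lit 111180071564) (nat_lit 1) (nat_lit 5) (nat_lit 3) (nat_lit 4) (nat_lit 1) (nat_lit 4) (nat_lit 362) (nat_lit 201) (nat_lit 157)) (XT.lf (nat_lit 0) (nat_lit 121095552192) (nat_lit 152) (nat_lit 277747883756) (nat_lit 0) (nat_lit 117902099632) (nat_lit 1) (nat_lit 5) (nat_lit 3) (nat_lit 4) (nat_lit 1) (nat_lit 4) (nat_lit 363) (nat_lit 201) (nat_lit 156))) (XT.nd (nat_lit 78) (nat_lit 0) (nat_lit 0) (XT.lf (nat_lit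 0) (nat_lit 128164026939) (nat_lit 152) (nat_lit 289406777024) (nat_lit 0) (nat_lit 124951530043) (nat_lit 1) (nat_lit 5) (nat_lit 3) (nat_lit 4) (nat_lit 1) (nat_lit 4) (nat_lit 364) (nat_lit 201) (nat_lit 155)) (XT.lf (nat_lit 0) (nat_lit 135575781513) (nat_lit 152) (nat_lit 301667557767) (nat_lit 0) (nat_lit 132345147154) (nat_lit 1) (nat_lit 5) (nat_lit 3) (nat_lit 4) (nat_lit 1) (nat_lit 4) (nat_lit 365) (nat_lit 201) (nat_lit 154)))) (XT.nd (nat_lit 33696) (nat_lit 0) (nat_lit 152) (XT.nd (nat_lit 33618) (nat_lit 0) (nat_lit 152) (XT.lf (nat_lit 0) (nat_lit 143348462949) (nat_lit 152) (nat_lit 314559418321) (nat_lit 0) (nat_lit 140100554816) (nat_lit 1) (nat_lit 5) (nat_lit 3) (nat_lit 4) (nat_lit 1) (nat_lit 4) (nat_lit 366) (nat_lit 201) (nat_lit 153)) (XT.lf (nat_lit 0) (nat_lit 4069767586) (nat_lit 76) (nat_lit 11481805425) (nat_lit 76) (nat_lit 11481805425) (nat_lit 3) (nat_lit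 4) (nat_lit 4) (nat_lit 5) (nat_lit 4) (nat_lit 4) (nat_lit 316) (nat_lit 202) (nat_lit 202))) (XT.nd (nat_lit 78) (nat_lit 0) (nat_lit 0) (XT.lf (nat_lit 0) (nat_lit 13833297425) (nat_lit 76) (nat_lit 21490063391) (nat_lit 76) (nat_lit 21301410751) (nat_lit 3) (nat_lit 4) (nat_lit 4) (nat_lit 5) (nat_lit 4) (nat_lit 4) (nat_lit 317) (nat_lit 202) (nat_lit 201)) (XT.nd (nat_lit 78) (nat_lit 0) (nat_lit 0) (XT.lf (nat_lit 0) (nat_lit 19645266833) (nat_lit 76) (nat_lit 20019159105) (nat_lit 76) (nat_lit 19650837285) (nat_lit 3) (nat_lit 4) (nat_lit 4) (nat_lit 5) (nat_lit 4) (nat_lit 4) (nat_lit 318) (nat_lit 202) (nat_lit 200)) (XT.lf (nat_lit 0) (nat_lit 25589281420) (nat_lit 76) (nat_lit 18547395840) (nat_lit 76) (nat_lit 18007960515) (nat_lit 3) (nat_lit 4) (nat_lit 4) (nat_lit 5) (nat_lit 4) (nat_lit 4) (nat_lit 319) (nat_lit 202) (nat_lit 199))))))))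
noncomputable def xc18 : XT := (XT.nd (nat_lit 1404) (nat_lit 0) (nat_lit 0) (XT.nd (nat_lit 702) (nat_lit 152) (nat_lit 0) (XT.nd (nat_lit 312) (nat_lit 0) (nat_lit 0) (XT.nd (nat_lit 156) (nat_lit 0) (nat_lit 0) (XT.nd (nat_lit 78) (nat_lit 0) (nat_lit 0) (XT.lf (nat_lit 0) (nat_lit 31679493602) (nat_lit 76) (nat_lit 17071269398) (nat_lit 76) (nat_lit 16368868829) (nat_lit 3) (nat_lit 4) (nat_lit 4) (nat_lit 5) (nat_lit 4) (nat_lit 4) (nat_lit 320) (nat_lit 202) (nat_lit 198)) (XT.lf (nat_lit 0) (nat_lit 37930403882) (nat_lit 76) (nat_lit 15587265191) (nat_lit 76) (nat_lit 14729659629) (nat_lit 3) (nat_lit 4) (nat_lit 4) (nat_lit 5) (nat_lit 4) (nat_lit 4) (nat_lit 321) (nat_lit 202) (nat_lit 197))) (XT.nd (nat_lit 78) (nat_lit 0) (nat_lit 0) (XT.lf (nat_lit 0) (nat_lit 44356895383) (nat_lit 76) (nat_lit 14091849877) (nat_lit 76) (nat_lit 13086430036) (nat_lit 3) (nat_lit 4) (nat_lit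 4) (nat_lit 5) (nat_lit 4) (nat_lit 4) (nat_lit 322) (nat_lit 202) (nat_lit 196)) (XT.lf (nat_lit 0) (nat_lit 50974269272) (nat_lit 76) (nat_lit 12581462943) (nat_lit 76) (nat_lit 11435267597) (nat_lit 3) (nat_lit 4) (nat_lit 4) (nat_lit 5) (nat_lit 4) (nat_lit 4) (nat_lit 323) (nat_lit 202) (nat_lit 195)))) (XT.nd (nat_lit 156) (nat_lit 0) (nat_lit 0) (XT.nd (nat_lit 78) (nat_lit 0) (nat_lit 0) (XT.lf (nat_lit 0) (nat_lit 57798281203) (nat_lit 76) (nat_lit 11052508229) (nat_lit 76) (nat_lit 9772240974) (nat_lit 3) (nat_lit 4) (nat_lit 4) (nat_lit 5) (nat_lit 4) (nat_lit 4) (nat_lit 324) (nat_lit 202) (nat_lit 194)) (XT.lf (nat_lit 0) (nat_lit 64845178823) (nat_lit 76) (nat_lit 9501345367) (nat_lit 76) (nat_lit 8093390580) (nat_lit 3) (nat_lit 4) (nat_lit 4) (nat_lit 5) (nat_lit 4) (nat_lit 4) (nat_lit 325) (nat_lit 202) (nat_lit 193))) (XT.nd (nat_lit 78) (nat_lit 0) (nat_lit 0) (XT.lf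 (nat_lit 0) (nat_lit 72131740460) (nat_lit 76) (nat_lit 7924281112) (nat_lit 76) (nat_lit 6394719152) (nat_lit 3) (nat_lit 4) (nat_lit 4) (nat_lit 5) (nat_lit 4) (nat_lit 4) (nat_lit 326) (nat_lit 202) (nat_lit 192)) (XT.nd (nat_lit 78) (nat_lit 0) (nat_lit 0) (XT.lf (nat_lit 0) (nat_lit 79675315070) (nat_lit 76) (nat_lit 6317560549) (nat_lit 76) (nat_lit 4672182233) (nat_lit 3) (nat_lit 4) (nat_lit 4) (nat_lit 5) (nat_lit 4) (nat_lit 4) (nat_lit 327) (nat_lit 202) (nat_lit 191)) (XT.lf (nat_lit 0) (nat_lit 87493863544) (nat_lit 76) (nat_lit 4677358154) (nat_lit 76) (nat_lit 2921678546) (nat_lit 3) (nat_lit 4) (nat_lit 4) (nat_lit 5) (nat_lit 4) (nat_lit 4) (nat_lit 328) (nat_lit 202) (nat_lit 190)))))) (XT.nd (nat_lit 312) (nat_lit 0) (nat_lit 0) (XT.nd (nat_lit 156) (nat_lit 76) (nat_lit 0) (XT.nd (nat_lit 78) (nat_lit 76) (nat_lit 0) (XT.lf (nat_lit 0) (nat_lit 95606001475) (nat_lit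 76) (nat_lit 2999768682) (nat_lit 76) (nat_lit 1139040225) (nat_lit 3) (nat_lit 4) (nat_lit 4) (nat_lit 5) (nat_lit 4) (nat_lit 4) (nat_lit 329) (nat_lit 202) (nat_lit 189)) (XT.lf (nat_lit 0) (nat_lit 658213592) (nat_lit 152) (nat_lit 611437114) (nat_lit 76) (nat_lit 103361682719) (nat_lit 2) (nat_lit 5) (nat_lit 4) (nat_lit 5) (nat_lit 3) (nat_lit 4) (nat_lit 330) (nat_lit 202) (nat_lit 188))) (XT.nd (nat_lit 78) (nat_lit 0) (nat_lit 0) (XT.lf (nat_lit 0) (nat_lit 2515532266) (nat_lit 152) (nat_lit 106687944716) (nat_lit 0) (nat_lit 557382379) (nat_lit 1) (nat_lit 5) (nat_lit 3) (nat_lit 4) (nat_lit 1) (nat_lit 4) (nat_lit 331) (nat_lit 202) (nat_lit 187)) (XT.lf (nat_lit 0) (nat_lit 4448720418) (nat_lit 152) (nat_lit 108294877222) (nat_lit 0) (nat_lit 2404146583) (nat_lit 1) (nat_lit 5) (nat_lit 3) (nat_lit 4) (nat_lit 1) (nat_lit 4) (nat_lit 332) (nat_lit 202) (nat_lit 186)))) (XT.nd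 (nat_lit 156) (nat_lit 0) (nat_lit 0) (XT.nd (nat_lit 78) (nat_lit 0) (nat_lit 0) (XT.lf (nat_lit 0) (nat_lit 6432534513) (nat_lit 152) (nat_lit 110068119581) (nat_lit 0) (nat_lit 4305652156) (nat_lit 1) (nat_lit 5) (nat_lit 3) (nat_lit 4) (nat_lit 1) (nat_lit 4) (nat_lit 333) (nat_lit 202) (nat_lit 185)) (XT.lf (nat_lit 0) (nat_lit 8471697918) (nat_lit 152) (nat_lit 112011893798) (nat_lit 0) (nat_lit 6266426493) (nat_lit 1) (nat_lit 5) (nat_lit 3) (nat_lit 4) (nat_lit 1) (nat_lit 4) (nat_lit 334) (nat_lit 202) (nat_lit 184))) (XT.nd (nat_lit 78) (nat_lit 0) (nat_lit 0) (XT.lf (nat_lit 0) (nat_lit 10571065783) (nat_lit 152) (nat_lit 114130827905) (nat_lit 0) (nat_lit 8291138102) (nat_lit 1) (nat_lit 5) (nat_lit 3) (nat_lit 4) (nat_lit 1) (nat_lit 4) (nat_lit 335) (nat_lit 202) (nat_lit 183)) (XT.nd (nat_lit 78) (nat_lit 0) (nat_lit 0) (XT.lf (nat_lit 0) (nat_lit 12735636603) (nat_lit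 152) (nat_lit 116429966985) (nat_lit 0) (nat_lit 10384607727) (nat_lit 1) (nat_lit 5) (nat_lit 3) (nat_lit 4) (nat_lit 1) (nat_lit 4) (nat_lit 336) (nat_lit 202) (nat_lit 182)) (XT.lf (nat_lit 0) (nat_lit 14970564119) (nat_lit 152) (nat_lit 118914785178) (nat_lit 0) (nat_lit 12551819818) (nat_lit 1) (nat_lit 5) (nat_lit 3) (nat_lit 4) (nat_lit 1) (nat_lit 4) (nat_lit 337) (nat_lit 202) (nat_lit 181))))))) (XT.nd (nat_lit 702) (nat_lit 0) (nat_lit 0) (XT.nd (nat_lit 312) (nat_lit 0) (nat_lit 0) (XT.nd (nat_lit 156) (nat_lit 0) (nat_lit 0) (XT.nd (nat_lit 78) (nat_lit 0) (nat_lit 0) (XT.lf (nat_lit 0) (nat_lit 17281169586) (nat_lit 152) (nat_lit 121591198718) (nat_lit 0) (nat_lit 14797934405) (nat_lit 1) (nat_lit 5) (nat_lit 3) (nat_lit 4) (nat_lit 1) (nat_lit 4) (nat_lit 338) (nat_lit 202) (nat_lit 180)) (XT.lf (nat_lit 0) (nat_lit 19672954447) (nat_lit 152) (nat_lit 124465580019) (nat_lit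 0) (nat_lit 17128299379) (nat_lit 1) (nat_lit 5) (nat_lit 3) (nat_lit 4) (nat_lit 1) (nat_lit 4) (nat_lit 339) (nat_lit 202) (nat_lit 179))) (XT.nd (nat_lit 78) (nat_lit 0) (nat_lit 0) (XT.lf (nat_lit 0) (nat_lit 22151613426) (nat_lit 152) (nat_lit 127544772844) (nat_lit 0) (nat_lit 19548463229) (nat_lit 1) (nat_lit 5) (nat_lit 3) (nat_lit 4) (nat_lit 1) (nat_lit 4) (nat_lit 340) (nat_lit 202) (nat_lit 178)) (XT.lf (nat_lit 0) (nat_lit 24723048093) (nat_lit 152) (nat_lit 130836108606) (nat_lit 0) (nat_lit 22064188249) (nat_lit 1) (nat_lit 5) (nat_lit 3) (nat_lit 4) (nat_lit 1) (nat_lit 4) (nat_lit 341) (nat_lit 202) (nat_lit 177)))) (XT.nd (nat_lit 156) (nat_lit 0) (nat_lit 0) (XT.nd (nat_lit 78) (nat_lit 0) (nat_lit 0) (XT.lf (nat_lit 0) (nat_lit 27393380912) (nat_lit 152) (nat_lit 134347423818) (nat_lit 0) (nat_lit 24681464260) (nat_lit 1) (nat_lit 5) (nat_lit 3) (nat_lit 4) (nat_lit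 1) (nat_lit 4) (nat_lit 342) (nat_lit 202) (nat_lit 176)) (XT.lf (nat_lit 0) (nat_lit 30168969817) (nat_lit 152) (nat_lit 138087078755) (nat_lit 0) (nat_lit 27406522873) (nat_lit 1) (nat_lit 5) (nat_lit 3) (nat_lit 4) (nat_lit 1) (nat_lit 4) (nat_lit 343) (nat_lit 202) (nat_lit 175))) (XT.nd (nat_lit 78) (nat_lit 0) (nat_lit 0) (XT.lf (nat_lit 0) (nat_lit 33056423354) (nat_lit 152) (nat_lit 142063977357) (nat_lit 0) (nat_lit 30245852322) (nat_lit 1) (nat_lit 5) (nat_lit 3) (nat_lit 4) (nat_lit 1) (nat_lit 4) (nat_lit 344) (nat_lit 202) (nat_lit 174)) (XT.nd (nat_lit 78) (nat_lit 0) (nat_lit 0) (XT.lf (nat_lit 0) (nat_lit 36062616412) (nat_lit 152) (nat_lit 146287588431) (nat_lit 0) (nat_lit 33206212915) (nat_lit 1) (nat_lit 5) (nat_lit 3) (nat_lit 4) (nat_lit 1) (nat_lit 4) (nat_lit 345) (nat_lit 202) (nat_lit 173)) (XT.lf (nat_lit 0) (nat_lit 39194706594) (nat_lit 152) (nat_lit 150767968192)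 (nat_lit 0) (nat_lit 36294653130) (nat_lit 1) (nat_lit 5) (nat_lit 3) (nat_lit 4) (nat_lit 1) (nat_lit 4) (nat_lit 346) (nat_lit 202) (nat_lit 172)))))) (XT.nd (nat_lit 312) (nat_lit 0) (nat_lit 0) (XT.nd (nat_lit 156) (nat_lit 0) (nat_lit 0) (XT.nd (nat_lit 78) (nat_lit 0) (nat_lit 0) (XT.lf (nat_lit 0) (nat_lit 42460151257) (nat_lit 152) (nat_lit 155515784212) (nat_lit 0) (nat_lit 39518526397) (nat_lit 1) (nat_lit 5) (nat_lit 3) (nat_lit 4) (nat_lit 1) (nat_lit 4) (nat_lit 347) (nat_lit 202) (nat_lit 171)) (XT.lf (nat_lit 0) (nat_lit 45866725269) (nat_lit 152) (nat_lit 160542340815) (nat_lit 0) (nat_lit 42885508603) (nat_lit 1) (nat_lit 5) (nat_lit 3) (nat_lit 4) (nat_lit 1) (nat_lit 4) (nat_lit 348) (nat_lit 202) (nat_lit 170))) (XT.nd (nat_lit 78) (nat_lit 0) (nat_lit 0) (XT.lf (nat_lit 0) (nat_lit 49422539521) (nat_lit 152) (nat_lit 165859605992) (nat_lit 0) (nat_lit 46403616372)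 (nat_lit 1) (nat_lit 5) (nat_lit 3) (nat_lit 4) (nat_lit 1) (nat_lit 4) (nat_lit 349) (nat_lit 202) (nat_lit 169)) (XT.lf (nat_lit 0) (nat_lit 53136060237) (nat_lit 152) (nat_lit 171480239900) (nat_lit 0) (nat_lit 50081226153) (nat_lit 1) (nat_lit 5) (nat_lit 3) (nat_lit 4) (nat_lit 1) (nat_lit 4) (nat_lit 350) (nat_lit 202) (nat_lit 168)))) (XT.nd (nat_lit 156) (nat_lit 0) (nat_lit 0) (XT.nd (nat_lit 78) (nat_lit 0) (nat_lit 0) (XT.lf (nat_lit 0) (nat_lit 57016129134) (nat_lit 152) (nat_lit 177417624999) (nat_lit 0) (nat_lit 53927094159) (nat_lit 1) (nat_lit 5) (nat_lit 3) (nat_lit 4) (nat_lit 1) (nat_lit 4) (nat_lit 351) (nat_lit 202) (nat_lit 167)) (XT.lf (nat_lit 0) (nat_lit 61071984470) (nat_lit 152) (nat_lit 183685897920) (nat_lit 0) (nat_lit 57950377219) (nat_lit 1) (nat_lit 5) (nat_lit 3) (nat_lit 4) (nat_lit 1) (nat_lit 4) (nat_lit 352) (nat_lit 202) (nat_lit 166))) (XT.nd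 (nat_lit 78) (nat_lit 0) (nat_lit 0) (XT.lf (nat_lit 0) (nat_lit 65313283045) (nat_lit 152) (nat_lit 190299983124) (nat_lit 0) (nat_lit 62160654577) (nat_lit 1) (nat_lit 5) (nat_lit 3) (nat_lit 4) (nat_lit 1) (nat_lit 4) (nat_lit 353) (nat_lit 202) (nat_lit 165)) (XT.nd (nat_lit 78) (nat_lit 0) (nat_lit 0) (XT.lf (nat_lit 0) (nat_lit 69750123187) (nat_lit 152) (nat_lit 197275628432) (nat_lit 0) (nat_lit 66567950704) (nat_lit 1) (nat_lit 5) (nat_lit 3) (nat_lit 4) (nat_lit 1) (nat_lit 4) (nat_lit 354) (nat_lit 202) (nat_lit 164)) (XT.lf (nat_lit 0) (nat_lit 74393068802) (nat_lit 152) (nat_lit 204629442523) (nat_lit 0) (nat_lit 71182759161) (nat_lit 1) (nat_lit 5) (nat_lit 3) (nat_lit 4) (nat_lit 1) (nat_lit 4) (nat_lit 355) (nat_lit 202) (nat_lit 163))))))))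
noncomputable def xc19 : XT := (XT.nd (nat_lit 34788) (nat_lit 0) (nat_lit 0) (XT.nd (nat_lit 702) (nat_lit 0) (nat_lit 0) (XT.nd (nat_lit 312) (nat_lit 0) (nat_lit 0) (XT.nd (nat_lit 156) (nat_lit 0) (nat_lit 0) (XT.nd (nat_lit 78) (nat_lit 0) (nat_lit 0) (XT.lf (nat_lit 0) (nat_lit 79253174523) (nat_lit 152) (nat_lit 212378934478) (nat_lit 0) (nat_lit 76016067589) (nat_lit 1) (nat_lit 5) (nat_lit 3) (nat_lit 4) (nat_lit 1) (nat_lit 4) (nat_lit 356) (nat_lit 202) (nat_lit 162)) (XT.lf (nat_lit 0) (nat_lit 84342012029) (nat_lit 152) (nat_lit 220542555469) (nat_lit 0) (nat_lit 81079383864) (nat_lit 1) (nat_lit 5) (nat_lit 3) (nat_lit 4) (nat_lit 1) (nat_lit 4) (nat_lit 357) (nat_lit 202) (nat_lit 161))) (XT.nd (nat_lit 78) (nat_lit 0) (nat_lit 0) (XT.lf (nat_lit 0) (nat_lit 89671697601) (nat_lit 152) (nat_lit 229139742689) (nat_lit 0) (nat_lit 86384763502) (nat_lit 1) (nat_lit 5) (nat_lit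 3) (nat_lit 4) (nat_lit 1) (nat_lit 4) (nat_lit 358) (nat_lit 202) (nat_lit 160)) (XT.lf (nat_lit 0) (nat_lit 95254920966) (nat_lit 152) (nat_lit 238190965630) (nat_lit 0) (nat_lit 91944838358) (nat_lit 1) (nat_lit 5) (nat_lit 3) (nat_lit 4) (nat_lit 1) (nat_lit 4) (nat_lit 359) (nat_lit 202) (nat_lit 159)))) (XT.nd (nat_lit 156) (nat_lit 0) (nat_lit 0) (XT.nd (nat_lit 78) (nat_lit 0) (nat_lit 0) (XT.lf (nat_lit 0) (nat_lit 101104975514) (nat_lit 152) (nat_lit 247717774825) (nat_lit 0) (nat_lit 97772846706) (nat_lit 1) (nat_lit 5) (nat_lit 3) (nat_lit 4) (nat_lit 1) (nat_lit 4) (nat_lit 360) (nat_lit 202) (nat_lit 158)) (XT.lf (nat_lit 0) (nat_lit 107235789944) (nat_lit 152) (nat_lit 257742853151) (nat_lit 0) (nat_lit 103882664756) (nat_lit 1) (nat_lit 5) (nat_lit 3) (nat_lit 4) (nat_lit 1) (nat_lit 4) (nat_lit 361) (nat_lit 202) (nat_lit 157))) (XT.nd (nat_lit 78) (nat_lit 0) (nat_lit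 0) (XT.lf (nat_lit 0) (nat_lit 113661961435) (nat_lit 152) (nat_lit 268290069843) (nat_lit 0) (nat_lit 110288839694) (nat_lit 1) (nat_lit 5) (nat_lit 3) (nat_lit 4) (nat_lit 1) (nat_lit 4) (nat_lit 362) (nat_lit 202) (nat_lit 156)) (XT.nd (nat_lit 78) (nat_lit 0) (nat_lit 0) (XT.lf (nat_lit 0) (nat_lit 120398790395) (nat_lit 152) (nat_lit 279384537322) (nat_lit 0) (nat_lit 117006624319) (nat_lit 1) (nat_lit 5) (nat_lit 3) (nat_lit 4) (nat_lit 1) (nat_lit 4) (nat_lit 363) (nat_lit 202) (nat_lit 155)) (XT.lf (nat_lit 0) (nat_lit 127462316893) (nat_lit 152) (nat_lit 291052670987) (nat_lit 0) (nat_lit 124052013354) (nat_lit 1) (nat_lit 5) (nat_lit 3) (nat_lit 4) (nat_lit 1) (nat_lit 4) (nat_lit 364) (nat_lit 202) (nat_lit 154)))))) (XT.nd (nat_lit 33696) (nat_lit 0) (nat_lit 152) (XT.nd (nat_lit 33540) (nat_lit 0) (nat_lit 152) (XT.nd (nat_lit 78) (nat_lit 0) (nat_lit 0) (XT.lf (nat_lit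 0) (nat_lit 134869358849) (nat_lit 152) (nat_lit 303322252107) (nat_lit 0) (nat_lit 131441781536) (nat_lit 1) (nat_lit 5) (nat_lit 3) (nat_lit 4) (nat_lit 1) (nat_lit 4) (nat_lit 365) (nat_lit 202) (nat_lit 153)) (XT.lf (nat_lit 0) (nat_lit 142637552077) (nat_lit 152) (nat_lit 316222493972) (nat_lit 0) (nat_lit 139193523550) (nat_lit 1) (nat_lit 5) (nat_lit 3) (nat_lit 4) (nat_lit 1) (nat_lit 4) (nat_lit 366) (nat_lit 202) (nat_lit 152))) (XT.nd (nat_lit 78) (nat_lit 76) (nat_lit 0) (XT.lf (nat_lit 0) (nat_lit 11638265567) (nat_lit 152) (nat_lit 1383171470) (nat_lit 0) (nat_lit 11638265567) (nat_lit 4) (nat_lit 5) (nat_lit 6) (nat_lit 4) (nat_lit 4) (nat_lit 4) (nat_lit 314) (nat_lit 203) (nat_lit 203)) (XT.lf (nat_lit 0) (nat_lit 2550423500) (nat_lit 76) (nat_lit 24641395201) (nat_lit 76) (nat_lit 24443309930) (nat_lit 3) (nat_lit 4) (nat_lit 4) (nat_lit 5) (nat_lit 4) (nat_lit 4)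 (nat_lit 315) (nat_lit 203) (nat_lit 202)))) (XT.nd (nat_lit 156) (nat_lit 0) (nat_lit 0) (XT.nd (nat_lit 78) (nat_lit 0) (nat_lit 0) (XT.lf (nat_lit 0) (nat_lit 8054264439) (nat_lit 76) (nat_lit 23200787133) (nat_lit 76) (nat_lit 22814049222) (nat_lit 3) (nat_lit 4) (nat_lit 4) (nat_lit 5) (nat_lit 4) (nat_lit 4) (nat_lit 316) (nat_lit 203) (nat_lit 201)) (XT.lf (nat_lit 0) (nat_lit 13666816468) (nat_lit 76) (nat_lit 21764469209) (nat_lit 76) (nat_lit 21198062117) (nat_lit 3) (nat_lit 4) (nat_lit 4) (nat_lit 5) (nat_lit 4) (nat_lit 4) (nat_lit 317) (nat_lit 203) (nat_lit 200))) (XT.nd (nat_lit 78) (nat_lit 0) (nat_lit 0) (XT.lf (nat_lit 0) (nat_lit 19401442808) (nat_lit 76) (nat_lit 20329021623) (nat_lit 76) (nat_lit 19591501026) (nat_lit 3) (nat_lit 4) (nat_lit 4) (nat_lit 5) (nat_lit 4) (nat_lit 4) (nat_lit 318) (nat_lit 203) (nat_lit 199)) (XT.nd (nat_lit 78) (nat_lit 0) (nat_lit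 0) (XT.lf (nat_lit 0) (nat_lit 25271797329) (nat_lit 76) (nat_lit 18891026644) (nat_lit 76) (nat_lit 17990540804) (nat_lit 3) (nat_lit 4) (nat_lit 4) (nat_lit 5) (nat_lit 4) (nat_lit 4) (nat_lit 319) (nat_lit 203) (nat_lit 198)) (XT.lf (nat_lit 0) (nat_lit 31291857066) (nat_lit 76) (nat_lit 17447060474) (nat_lit 76) (nat_lit 16391369641) (nat_lit 3) (nat_lit 4) (nat_lit 4) (nat_lit 5) (nat_lit 4) (nat_lit 4) (nat_lit 320) (nat_lit 203) (nat_lit 197))))))) (XT.nd (nat_lit 702) (nat_lit 152) (nat_lit 0) (XT.nd (nat_lit 312) (nat_lit 0) (nat_lit 0) (XT.nd (nat_lit 156) (nat_lit 0) (nat_lit 0) (XT.nd (nat_lit 78) (nat_lit 0) (nat_lit 0) (XT.lf (nat_lit 0) (nat_lit 37475955496) (nat_lit 76) (nat_lit 15993685098) (nat_lit 76) (nat_lit 14790179985) (nat_lit 3) (nat_lit 4) (nat_lit 4) (nat_lit 5) (nat_lit 4) (nat_lit 4) (nat_lit 321) (nat_lit 203) (nat_lit 196)) (XT.lf (nat_lit 0) (nat_lit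 43838816662) (nat_lit 76) (nat_lit 14527440099) (nat_lit 76) (nat_lit 13183159482) (nat_lit 3) (nat_lit 4) (nat_lit 4) (nat_lit 5) (nat_lit 4) (nat_lit 4) (nat_lit 322) (nat_lit 203) (nat_lit 195))) (XT.nd (nat_lit 78) (nat_lit 0) (nat_lit 0) (XT.lf (nat_lit 0) (nat_lit 50395590233) (nat_lit 76) (nat_lit 13044834417) (nat_lit 76) (nat_lit 11566481891) (nat_lit 3) (nat_lit 4) (nat_lit 4) (nat_lit 5) (nat_lit 4) (nat_lit 4) (nat_lit 323) (nat_lit 203) (nat_lit 194)) (XT.lf (nat_lit 0) (nat_lit 57161887575) (nat_lit 76) (nat_lit 11542338038) (nat_lit 76) (nat_lit 9936297980) (nat_lit 3) (nat_lit 4) (nat_lit 4) (nat_lit 5) (nat_lit 4) (nat_lit 4) (nat_lit 324) (nat_lit 203) (nat_lit 193)))) (XT.nd (nat_lit 156) (nat_lit 0) (nat_lit 0) (XT.nd (nat_lit 78) (nat_lit 0) (nat_lit 0) (XT.lf (nat_lit 0) (nat_lit 64153818920) (nat_lit 76) (nat_lit 10016373591) (nat_lit 76) (nat_lit 8288726359)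 (nat_lit 3) (nat_lit 4) (nat_lit 4) (nat_lit 5) (nat_lit 4) (nat_lit 4) (nat_lit 325) (nat_lit 203) (nat_lit 192)) (XT.lf (nat_lit 0) (nat_lit 71388031723) (nat_lit 76) (nat_lit 8463307826) (nat_lit 76) (nat_lit 6619844239) (nat_lit 3) (nat_lit 4) (nat_lit 4) (nat_lit 5) (nat_lit 4) (nat_lit 4) (nat_lit 326) (nat_lit 203) (nat_lit 191))) (XT.nd (nat_lit 78) (nat_lit 0) (nat_lit 0) (XT.lf (nat_lit 0) (nat_lit 78881750300) (nat_lit 76) (nat_lit 6879442969) (nat_lit 76) (nat_lit 4925678090) (nat_lit 3) (nat_lit 4) (nat_lit 4) (nat_lit 5) (nat_lit 4) (nat_lit 4) (nat_lit 327) (nat_lit 203) (nat_lit 190)) (XT.nd (nat_lit 78) (nat_lit 0) (nat_lit 0) (XT.lf (nat_lit 0) (nat_lit 86652816840) (nat_lit 76) (nat_lit 5261007911) (nat_lit 76) (nat_lit 3202194184) (nat_lit 3) (nat_lit 4) (nat_lit 4) (nat_lit 5) (nat_lit 4) (nat_lit 4) (nat_lit 328) (nat_lit 203) (nat_lit 189)) (XT.lf (nat_lit 0)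 (nat_lit 94719733880) (nat_lit 76) (nat_lit 3604149237) (nat_lit 76) (nat_lit 1445288987) (nat_lit 3) (nat_lit 4) (nat_lit 4) (nat_lit 5) (nat_lit 4) (nat_lit 4) (nat_lit 329) (nat_lit 203) (nat_lit 188)))))) (XT.nd (nat_lit 390) (nat_lit 0) (nat_lit 0) (XT.nd (nat_lit 156) (nat_lit 0) (nat_lit 0) (XT.nd (nat_lit 78) (nat_lit 76) (nat_lit 0) (XT.lf (nat_lit 0) (nat_lit 338043367) (nat_lit 152) (nat_lit 1561153750) (nat_lit 76) (nat_lit 102757940072) (nat_lit 2) (nat_lit 5) (nat_lit 4) (nat_lit 5) (nat_lit 3) (nat_lit 4) (nat_lit 330) (nat_lit 203) (nat_lit 187)) (XT.lf (nat_lit 0) (nat_lit 2058074468) (nat_lit 76) (nat_lit 89712003) (nat_lit 152) (nat_lit 107641271436) (nat_lit 1) (nat_lit 5) (nat_lit 2) (nat_lit 5) (nat_lit 3) (nat_lit 4) (nat_lit 331) (nat_lit 203) (nat_lit 186))) (XT.nd (nat_lit 78) (nat_lit 0) (nat_lit 0) (XT.lf (nat_lit 0) (nat_lit 4057118619) (nat_lit 152) (nat_lit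 109378448571) (nat_lit 0) (nat_lit 1741583623) (nat_lit 1) (nat_lit 5) (nat_lit 3) (nat_lit 4) (nat_lit 1) (nat_lit 4) (nat_lit 332) (nat_lit 203) (nat_lit 185)) (XT.nd (nat_lit 78) (nat_lit 0) (nat_lit 0) (XT.lf (nat_lit 0) (nat_lit 6019546667) (nat_lit 152) (nat_lit 111191627388) (nat_lit 0) (nat_lit 3625622603) (nat_lit 1) (nat_lit 5) (nat_lit 3) (nat_lit 4) (nat_lit 1) (nat_lit 4) (nat_lit 333) (nat_lit 203) (nat_lit 184)) (XT.lf (nat_lit 0) (nat_lit 8038342409) (nat_lit 152) (nat_lit 113173436327) (nat_lit 0) (nat_lit 5569762088) (nat_lit 1) (nat_lit 5) (nat_lit 3) (nat_lit 4) (nat_lit 1) (nat_lit 4) (nat_lit 334) (nat_lit 203) (nat_lit 183))))) (XT.nd (nat_lit 156) (nat_lit 0) (nat_lit 0) (XT.nd (nat_lit 78) (nat_lit 0) (nat_lit 0) (XT.lf (nat_lit 0) (nat_lit 10118312499) (nat_lit 152) (nat_lit 115328593979) (nat_lit 0) (nat_lit 7578630983) (nat_lit 1) (nat_lit 5) (nat_lit 3)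 (nat_lit 4) (nat_lit 1) (nat_lit 4) (nat_lit 335) (nat_lit 203) (nat_lit 182)) (XT.lf (nat_lit 0) (nat_lit 12264409249) (nat_lit 152) (nat_lit 117662231673) (nat_lit 0) (nat_lit 9657012308) (nat_lit 1) (nat_lit 5) (nat_lit 3) (nat_lit 4) (nat_lit 1) (nat_lit 4) (nat_lit 336) (nat_lit 203) (nat_lit 181))) (XT.nd (nat_lit 78) (nat_lit 0) (nat_lit 0) (XT.lf (nat_lit 0) (nat_lit 14481742411) (nat_lit 152) (nat_lit 120179905690) (nat_lit 0) (nat_lit 11809854590) (nat_lit 1) (nat_lit 5) (nat_lit 3) (nat_lit 4) (nat_lit 1) (nat_lit 4) (nat_lit 337) (nat_lit 203) (nat_lit 180)) (XT.nd (nat_lit 78) (nat_lit 0) (nat_lit 0) (XT.lf (nat_lit 0) (nat_lit 16775591351) (nat_lit 152) (nat_lit 122887610490) (nat_lit 0) (nat_lit 14042283644) (nat_lit 1) (nat_lit 5) (nat_lit 3) (nat_lit 4) (nat_lit 1) (nat_lit 4) (nat_lit 338) (nat_lit 203) (nat_lit 179)) (XT.lf (nat_lit 0) (nat_lit 19151417615) (nat_lit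 152) (nat_lit 125791792990) (nat_lit 0) (nat_lit 16359614778) (nat_lit 1) (nat_lit 5) (nat_lit 3) (nat_lit 4) (nat_lit 1) (nat_lit 4) (nat_lit 339) (nat_lit 203) (nat_lit 178))))))))
noncomputable def xc20 : XT := (XT.nd (nat_lit 1404) (nat_lit 0) (nat_lit 0) (XT.nd (nat_lit 702) (nat_lit 0) (nat_lit 0) (XT.nd (nat_lit 312) (nat_lit 0) (nat_lit 0) (XT.nd (nat_lit 156) (nat_lit 0) (nat_lit 0) (XT.nd (nat_lit 78) (nat_lit 0) (nat_lit 0) (XT.lf (nat_lit 0) (nat_lit 21614877930) (nat_lit 152) (nat_lit 128899367911) (nat_lit 0) (nat_lit 18767365446) (nat_lit 1) (nat_lit 5) (nat_lit 3) (nat_lit 4) (nat_lit 1) (nat_lit 4) (nat_lit 340) (nat_lit 203) (nat_lit 177)) (XT.lf (nat_lit 0) (nat_lit 24171837679) (nat_lit 152) (nat_lit 132217734240) (nat_lit 0) (nat_lit 21271268388) (nat_lit 1) (nat_lit 5) (nat_lit 3) (nat_lit 4) (nat_lit 1) (nat_lit 4) (nat_lit 341) (nat_lit 203) (nat_lit 176))) (XT.nd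 (nat_lit 78) (nat_lit 0) (nat_lit 0) (XT.lf (nat_lit 0) (nat_lit 26828384862) (nat_lit 152) (nat_lit 135754792849) (nat_lit 0) (nat_lit 23877285278) (nat_lit 1) (nat_lit 5) (nat_lit 3) (nat_lit 4) (nat_lit 1) (nat_lit 4) (nat_lit 342) (nat_lit 203) (nat_lit 175)) (XT.lf (nat_lit 0) (nat_lit 29590844590) (nat_lit 152) (nat_lit 139518965307) (nat_lit 0) (nat_lit 26591620918) (nat_lit 1) (nat_lit 5) (nat_lit 3) (nat_lit 4) (nat_lit 1) (nat_lit 4) (nat_lit 343) (nat_lit 203) (nat_lit 174)))) (XT.nd (nat_lit 156) (nat_lit 0) (nat_lit 0) (XT.nd (nat_lit 78) (nat_lit 0) (nat_lit 0) (XT.lf (nat_lit 0) (nat_lit 32465794148) (nat_lit 152) (nat_lit 143519213930) (nat_lit 0) (nat_lit 29420738012) (nat_lit 1) (nat_lit 5) (nat_lit 3) (nat_lit 4) (nat_lit 1) (nat_lit 4) (nat_lit 344) (nat_lit 203) (nat_lit 173)) (XT.lf (nat_lit 0) (nat_lit 35460078655) (nat_lit 152) (nat_lit 147765063117) (nat_lit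 0) (nat_lit 32371372552) (nat_lit 1) (nat_lit 5) (nat_lit 3) (nat_lit 4) (nat_lit 1) (nat_lit 4) (nat_lit 345) (nat_lit 203) (nat_lit 172))) (XT.nd (nat_lit 78) (nat_lit 0) (nat_lit 0) (XT.lf (nat_lit 0) (nat_lit 38580827360) (nat_lit 152) (nat_lit 152266622035) (nat_lit 0) (nat_lit 35450549860) (nat_lit 1) (nat_lit 5) (nat_lit 3) (nat_lit 4) (nat_lit 1) (nat_lit 4) (nat_lit 346) (nat_lit 203) (nat_lit 171)) (XT.nd (nat_lit 78) (nat_lit 0) (nat_lit 0) (XT.lf (nat_lit 0) (nat_lit 41835470616) (nat_lit 152) (nat_lit 157034608680) (nat_lit 0) (nat_lit 38665601310) (nat_lit 1) (nat_lit 5) (nat_lit 3) (nat_lit 4) (nat_lit 1) (nat_lit 4) (nat_lit 347) (nat_lit 203) (nat_lit 170)) (XT.lf (nat_lit 0) (nat_lit 45231757574) (nat_lit 152) (nat_lit 162080375402) (nat_lit 0) (nat_lit 42024181786) (nat_lit 1) (nat_lit 5) (nat_lit 3) (nat_lit 4) (nat_lit 1) (nat_lit 4) (nat_lit 348) (nat_lit 203)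 (nat_lit 169)))))) (XT.nd (nat_lit 312) (nat_lit 0) (nat_lit 0) (XT.nd (nat_lit 156) (nat_lit 0) (nat_lit 0) (XT.nd (nat_lit 78) (nat_lit 0) (nat_lit 0) (XT.lf (nat_lit 0) (nat_lit 48777774632) (nat_lit 152) (nat_lit 167415935932) (nat_lit 0) (nat_lit 45534287909) (nat_lit 1) (nat_lit 5) (nat_lit 3) (nat_lit 4) (nat_lit 1) (nat_lit 4) (nat_lit 349) (nat_lit 203) (nat_lit 168)) (XT.lf (nat_lit 0) (nat_lit 52481964687) (nat_lit 152) (nat_lit 173053993983) (nat_lit 0) (nat_lit 49204277073) (nat_lit 1) (nat_lit 5) (nat_lit 3) (nat_lit 4) (nat_lit 1) (nat_lit 4) (nat_lit 350) (nat_lit 203) (nat_lit 167))) (XT.nd (nat_lit 78) (nat_lit 0) (nat_lit 0) (XT.lf (nat_lit 0) (nat_lit 56353147240) (nat_lit 152) (nat_lit 179007973506) (nat_lit 0) (nat_lit 53042887349) (nat_lit 1) (nat_lit 5) (nat_lit 3) (nat_lit 4) (nat_lit 1) (nat_lit 4) (nat_lit 351) (nat_lit 203) (nat_lit 166)) (XT.lf (nat_lit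 0) (nat_lit 60400539391) (nat_lit 152) (nat_lit 185292050640) (nat_lit 0) (nat_lit 57059258284) (nat_lit 1) (nat_lit 5) (nat_lit 3) (nat_lit 4) (nat_lit 1) (nat_lit 4) (nat_lit 352) (nat_lit 203) (nat_lit 165)))) (XT.nd (nat_lit 156) (nat_lit 0) (nat_lit 0) (XT.nd (nat_lit 78) (nat_lit 0) (nat_lit 0) (XT.lf (nat_lit 0) (nat_lit 64633777790) (nat_lit 152) (nat_lit 191921187475) (nat_lit 0) (nat_lit 61262952667) (nat_lit 1) (nat_lit 5) (nat_lit 3) (nat_lit 4) (nat_lit 1) (nat_lit 4) (nat_lit 353) (nat_lit 203) (nat_lit 164)) (XT.lf (nat_lit 0) (nat_lit 69062941574) (nat_lit 152) (nat_lit 198911167669) (nat_lit 0) (nat_lit 65663979293) (nat_lit 1) (nat_lit 5) (nat_lit 3) (nat_lit 4) (nat_lit 1) (nat_lit 4) (nat_lit 354) (nat_lit 203) (nat_lit 163))) (XT.nd (nat_lit 78) (nat_lit 0) (nat_lit 0) (XT.lf (nat_lit 0) (nat_lit 73698576372) (nat_lit 152) (nat_lit 206278634033) (nat_lit 0) (nat_lit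 70272816799) (nat_lit 1) (nat_lit 5) (nat_lit 3) (nat_lit 4) (nat_lit 1) (nat_lit 4) (nat_lit 355) (nat_lit 203) (nat_lit 162)) (XT.nd (nat_lit 78) (nat_lit 0) (nat_lit 0) (XT.lf (nat_lit 0) (nat_lit 78551719410) (nat_lit 152) (nat_lit 214041128153) (nat_lit 0) (nat_lit 75100438605) (nat_lit 1) (nat_lit 5) (nat_lit 3) (nat_lit 4) (nat_lit 1) (nat_lit 4) (nat_lit 356) (nat_lit 203) (nat_lit 161)) (XT.lf (nat_lit 0) (nat_lit 83633925789) (nat_lit 152) (nat_lit 222217132159) (nat_lit 0) (nat_lit 80158339050) (nat_lit 1) (nat_lit 5) (nat_lit 3) (nat_lit 4) (nat_lit 1) (nat_lit 4) (nat_lit 357) (nat_lit 203) (nat_lit 160))))))) (XT.nd (nat_lit 33930) (nat_lit 0) (nat_lit 152) (XT.nd (nat_lit 312) (nat_lit 0) (nat_lit 0) (XT.nd (nat_lit 156) (nat_lit 0) (nat_lit 0) (XT.nd (nat_lit 78) (nat_lit 0) (nat_lit 0) (XT.lf (nat_lit 0) (nat_lit 88957296003) (nat_lit 152) (nat_lit 230826112725) (nat_lit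 0) (nat_lit 85458560754) (nat_lit 1) (nat_lit 5) (nat_lit 3) (nat_lit 4) (nat_lit 1) (nat_lit 4) (nat_lit 358) (nat_lit 203) (nat_lit 159)) (XT.lf (nat_lit 0) (nat_lit 94534504740) (nat_lit 152) (nat_lit 239888567426) (nat_lit 0) (nat_lit 91013723293) (nat_lit 1) (nat_lit 5) (nat_lit 3) (nat_lit 4) (nat_lit 1) (nat_lit 4) (nat_lit 359) (nat_lit 203) (nat_lit 158))) (XT.nd (nat_lit 78) (nat_lit 0) (nat_lit 0) (XT.lf (nat_lit 0) (nat_lit 100378831071) (nat_lit 152) (nat_lit 249426073533) (nat_lit 0) (nat_lit 96837053243) (nat_lit 1) (nat_lit 5) (nat_lit 3) (nat_lit 4) (nat_lit 1) (nat_lit 4) (nat_lit 360) (nat_lit 203) (nat_lit 157)) (XT.lf (nat_lit 0) (nat_lit 106504190057) (nat_lit 152) (nat_lit 259461339396) (nat_lit 0) (nat_lit 102942415677) (nat_lit 1) (nat_lit 5) (nat_lit 3) (nat_lit 4) (nat_lit 1) (nat_lit 4) (nat_lit 361) (nat_lit 203) (nat_lit 156)))) (XT.nd (nat_lit 156) (nat_lit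 0) (nat_lit 0) (XT.nd (nat_lit 78) (nat_lit 0) (nat_lit 0) (XT.lf (nat_lit 0) (nat_lit 112925165887) (nat_lit 152) (nat_lit 270018258504) (nat_lit 0) (nat_lit 109344347171) (nat_lit 1) (nat_lit 5) (nat_lit 3) (nat_lit 4) (nat_lit 1) (nat_lit 4) (nat_lit 362) (nat_lit 203) (nat_lit 155)) (XT.lf (nat_lit 0) (nat_lit 119657046598) (nat_lit 152) (nat_lit 281121966379) (nat_lit 0) (nat_lit 116058090419) (nat_lit 1) (nat_lit 5) (nat_lit 3) (nat_lit 4) (nat_lit 1) (nat_lit 4) (nat_lit 363) (nat_lit 203) (nat_lit 154))) (XT.nd (nat_lit 78) (nat_lit 0) (nat_lit 0) (XT.lf (nat_lit 0) (nat_lit 126715860478) (nat_lit 152) (nat_lit 292798900420) (nat_lit 0) (nat_lit 123099630525) (nat_lit 1) (nat_lit 5) (nat_lit 3) (nat_lit 4) (nat_lit 1) (nat_lit 4) (nat_lit 364) (nat_lit 203) (nat_lit 153)) (XT.nd (nat_lit 78) (nat_lit 0) (nat_lit 0) (XT.lf (nat_lit 0) (nat_lit 134118414226) (nat_lit 152) (nat_lit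 305076862852) (nat_lit 0) (nat_lit 130485733060) (nat_lit 1) (nat_lit 5) (nat_lit 3) (nat_lit 4) (nat_lit 1) (nat_lit 4) (nat_lit 365) (nat_lit 203) (nat_lit 152)) (XT.lf (nat_lit 0) (nat_lit 141882332971) (nat_lit 152) (nat_lit 317985086918) (nat_lit 0) (nat_lit 138233983982) (nat_lit 1) (nat_lit 5) (nat_lit 3) (nat_lit 4) (nat_lit 1) (nat_lit 4) (nat_lit 366) (nat_lit 203) (nat_lit 151)))))) (XT.nd (nat_lit 312) (nat_lit 0) (nat_lit 0) (XT.nd (nat_lit 156) (nat_lit 76) (nat_lit 0) (XT.nd (nat_lit 78) (nat_lit 0) (nat_lit 0) (XT.lf (nat_lit 0) (nat_lit 8025921618) (nat_lit 152) (nat_lit 6458821253) (nat_lit 0) (nat_lit 8025921618) (nat_lit 4) (nat_lit 5) (nat_lit 6) (nat_lit 4) (nat_lit 4) (nat_lit 4) (nat_lit 312) (nat_lit 204) (nat_lit 204)) (XT.lf (nat_lit 0) (nat_lit 19701659237) (nat_lit 152) (nat_lit 7921397818) (nat_lit 0) (nat_lit 19493669702) (nat_lit 4) (nat_lit 5) (nat_lit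 6) (nat_lit 4) (nat_lit 4) (nat_lit 4) (nat_lit 313) (nat_lit 204) (nat_lit 203))) (XT.nd (nat_lit 78) (nat_lit 76) (nat_lit 0) (XT.lf (nat_lit 0) (nat_lit 23437429843) (nat_lit 152) (nat_lit 2853011555) (nat_lit 0) (nat_lit 23031355036) (nat_lit 4) (nat_lit 5) (nat_lit 6) (nat_lit 4) (nat_lit 4) (nat_lit 4) (nat_lit 314) (nat_lit 204) (nat_lit 202)) (XT.lf (nat_lit 0) (nat_lit 2375618495) (nat_lit 76) (nat_lit 24929521311) (nat_lit 76) (nat_lit 24334793864) (nat_lit 3) (nat_lit 4) (nat_lit 4) (nat_lit 5) (nat_lit 4) (nat_lit 4) (nat_lit 315) (nat_lit 204) (nat_lit 201)))) (XT.nd (nat_lit 156) (nat_lit 0) (nat_lit 0) (XT.nd (nat_lit 78) (nat_lit 0) (nat_lit 0) (XT.lf (nat_lit 0) (nat_lit 7798249212) (nat_lit 76) (nat_lit 23526142778) (nat_lit 76) (nat_lit 22751746151) (nat_lit 3) (nat_lit 4) (nat_lit 4) (nat_lit 5) (nat_lit 4) (nat_lit 4) (nat_lit 316) (nat_lit 204) (nat_lit 200)) (XT.lf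 (nat_lit 0) (nat_lit 13333458172) (nat_lit 76) (nat_lit 22125281553) (nat_lit 76) (nat_lit 21179771421) (nat_lit 3) (nat_lit 4) (nat_lit 4) (nat_lit 5) (nat_lit 4) (nat_lit 4) (nat_lit 317) (nat_lit 204) (nat_lit 199))) (XT.nd (nat_lit 78) (nat_lit 0) (nat_lit 0) (XT.lf (nat_lit 0) (nat_lit 18994424446) (nat_lit 76) (nat_lit 20723602254) (nat_lit 76) (nat_lit 19615126878) (nat_lit 3) (nat_lit 4) (nat_lit 4) (nat_lit 5) (nat_lit 4) (nat_lit 4) (nat_lit 318) (nat_lit 204) (nat_lit 198)) (XT.nd (nat_lit 78) (nat_lit 0) (nat_lit 0) (XT.lf (nat_lit 0) (nat_lit 24794626523) (nat_lit 76) (nat_lit 19317767547) (nat_lit 76) (nat_lit 18054087178) (nat_lit 3) (nat_lit 4) (nat_lit 4) (nat_lit 5) (nat_lit 4) (nat_lit 4) (nat_lit 319) (nat_lit 204) (nat_lit 197)) (XT.lf (nat_lit 0) (nat_lit 30747874410) (nat_lit 76) (nat_lit 17904430207) (nat_lit 76) (nat_lit 16492935559) (nat_lit 3) (nat_lit 4)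 (nat_lit 4) (nat_lit 5) (nat_lit 4) (nat_lit 4) (nat_lit 320) (nat_lit 204) (nat_lit 196))))))))
noncomputable def xc21 : XT := (XT.nd (nat_lit 1404) (nat_lit 0) (nat_lit 0) (XT.nd (nat_lit 702) (nat_lit 152) (nat_lit 0) (XT.nd (nat_lit 312) (nat_lit 0) (nat_lit 0) (XT.nd (nat_lit 156) (nat_lit 0) (nat_lit 0) (XT.nd (nat_lit 78) (nat_lit 0) (nat_lit 0) (XT.lf (nat_lit 0) (nat_lit 36868342505) (nat_lit 76) (nat_lit 16480225146) (nat_lit 76) (nat_lit 14927954993) (nat_lit 3) (nat_lit 4) (nat_lit 4) (nat_lit 5) (nat_lit 4) (nat_lit 4) (nat_lit 321) (nat_lit 204) (nat_lit 195)) (XT.lf (nat_lit 0) (nat_lit 43170603352) (nat_lit 76) (nat_lit 15041761399) (nat_lit 76) (nat_lit 13355419337) (nat_lit 3) (nat_lit 4) (nat_lit 4) (nat_lit 5) (nat_lit 4) (nat_lit 4) (nat_lit 322) (nat_lit 204) (nat_lit 194))) (XT.nd (nat_lit 78) (nat_lit 0) (nat_lit 0) (XT.lf (nat_lit 0) (nat_lit 49669662334) (nat_lit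 76) (nat_lit 13585614052) (nat_lit 76) (nat_lit 11771584459) (nat_lit 3) (nat_lit 4) (nat_lit 4) (nat_lit 5) (nat_lit 4) (nat_lit 4) (nat_lit 323) (nat_lit 204) (nat_lit 193)) (XT.lf (nat_lit 0) (nat_lit 56380993401) (nat_lit 76) (nat_lit 12108316089) (nat_lit 76) (nat_lit 10172679321) (nat_lit 3) (nat_lit 4) (nat_lit 4) (nat_lit 5) (nat_lit 4) (nat_lit 4) (nat_lit 324) (nat_lit 204) (nat_lit 192)))) (XT.nd (nat_lit 156) (nat_lit 0) (nat_lit 0) (XT.nd (nat_lit 78) (nat_lit 0) (nat_lit 0) (XT.lf (nat_lit 0) (nat_lit 63320575912) (nat_lit 76) (nat_lit 10606350132) (nat_lit 76) (nat_lit 8554897009) (nat_lit 3) (nat_lit 4) (nat_lit 4) (nat_lit 5) (nat_lit 4) (nat_lit 4) (nat_lit 325) (nat_lit 204) (nat_lit 191)) (XT.lf (nat_lit 0) (nat_lit 70504932683) (nat_lit 76) (nat_lit 9076140072) (nat_lit 76) (nat_lit 6914385658) (nat_lit 3) (nat_lit 4) (nat_lit 4) (nat_lit 5) (nat_lit 4) (nat_lit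 4) (nat_lit 326) (nat_lit 204) (nat_lit 190))) (XT.nd (nat_lit 78) (nat_lit 0) (nat_lit 0) (XT.lf (nat_lit 0) (nat_lit 77951169326) (nat_lit 76) (nat_lit 7514042552) (nat_lit 76) (nat_lit 5247239289) (nat_lit 3) (nat_lit 4) (nat_lit 4) (nat_lit 5) (nat_lit 4) (nat_lit 4) (nat_lit 327) (nat_lit 204) (nat_lit 189)) (XT.nd (nat_lit 78) (nat_lit 0) (nat_lit 0) (XT.lf (nat_lit 0) (nat_lit 85677014974) (nat_lit 76) (nat_lit 5916338293) (nat_lit 76) (nat_lit 3549488507) (nat_lit 3) (nat_lit 4) (nat_lit 4) (nat_lit 5) (nat_lit 4) (nat_lit 4) (nat_lit 328) (nat_lit 204) (nat_lit 188)) (XT.lf (nat_lit 0) (nat_lit 93700864500) (nat_lit 76) (nat_lit 4279223236) (nat_lit 76) (nat_lit 1817091048) (nat_lit 3) (nat_lit 4) (nat_lit 4) (nat_lit 5) (nat_lit 4) (nat_lit 4) (nat_lit 329) (nat_lit 204) (nat_lit 187)))))) (XT.nd (nat_lit 312) (nat_lit 0) (nat_lit 0) (XT.nd (nat_lit 156) (nat_lit 0) (nat_lit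 0) (XT.nd (nat_lit 78) (nat_lit 152) (nat_lit 0) (XT.lf (nat_lit 0) (nat_lit 102041822306) (nat_lit 76) (nat_lit 2598799489) (nat_lit 76) (nat_lit 45922155) (nat_lit 3) (nat_lit 4) (nat_lit 4) (nat_lit 5) (nat_lit 4) (nat_lit 4) (nat_lit 330) (nat_lit 204) (nat_lit 186)) (XT.lf (nat_lit 0) (nat_lit 898313738) (nat_lit 76) (nat_lit 827352124) (nat_lit 152) (nat_lit 108094831141) (nat_lit 1) (nat_lit 5) (nat_lit 2) (nat_lit 5) (nat_lit 3) (nat_lit 4) (nat_lit 331) (nat_lit 204) (nat_lit 185))) (XT.nd (nat_lit 78) (nat_lit 0) (nat_lit 0) (XT.lf (nat_lit 0) (nat_lit 3602095334) (nat_lit 152) (nat_lit 110598068227) (nat_lit 0) (nat_lit 1010085998) (nat_lit 1) (nat_lit 5) (nat_lit 3) (nat_lit 4) (nat_lit 1) (nat_lit 4) (nat_lit 332) (nat_lit 204) (nat_lit 184)) (XT.lf (nat_lit 0) (nat_lit 5544155720) (nat_lit 152) (nat_lit 112449281766) (nat_lit 0) (nat_lit 2877490128) (nat_lit 1) (nat_lit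 5) (nat_lit 3) (nat_lit 4) (nat_lit 1) (nat_lit 4) (nat_lit 333) (nat_lit 204) (nat_lit 183)))) (XT.nd (nat_lit 156) (nat_lit 0) (nat_lit 0) (XT.nd (nat_lit 78) (nat_lit 0) (nat_lit 0) (XT.lf (nat_lit 0) (nat_lit 7543553686) (nat_lit 152) (nat_lit 114467314250) (nat_lit 0) (nat_lit 4805786899) (nat_lit 1) (nat_lit 5) (nat_lit 3) (nat_lit 4) (nat_lit 1) (nat_lit 4) (nat_lit 334) (nat_lit 204) (nat_lit 182)) (XT.lf (nat_lit 0) (nat_lit 9605049706) (nat_lit 152) (nat_lit 116656970516) (nat_lit 0) (nat_lit 6799567494) (nat_lit 1) (nat_lit 5) (nat_lit 3) (nat_lit 4) (nat_lit 1) (nat_lit 4) (nat_lit 335) (nat_lit 204) (nat_lit 181))) (XT.nd (nat_lit 78) (nat_lit 0) (nat_lit 0) (XT.lf (nat_lit 0) (nat_lit 11733552102) (nat_lit 152) (nat_lit 119023464034) (nat_lit 0) (nat_lit 8863579009) (nat_lit 1) (nat_lit 5) (nat_lit 3) (nat_lit 4) (nat_lit 1) (nat_lit 4) (nat_lit 336) (nat_lit 204) (nat_lit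 180)) (XT.nd (nat_lit 78) (nat_lit 0) (nat_lit 0) (XT.lf (nat_lit 0) (nat_lit 13934128738) (nat_lit 152) (nat_lit 121572429310) (nat_lit 0) (nat_lit 11002735759) (nat_lit 1) (nat_lit 5) (nat_lit 3) (nat_lit 4) (nat_lit 1) (nat_lit 4) (nat_lit 337) (nat_lit 204) (nat_lit 179)) (XT.lf (nat_lit 0) (nat_lit 16212019081) (nat_lit 152) (nat_lit 124309935310) (nat_lit 0) (nat_lit 13222130972) (nat_lit 1) (nat_lit 5) (nat_lit 3) (nat_lit 4) (nat_lit 1) (nat_lit 4) (nat_lit 338) (nat_lit 204) (nat_lit 178))))))) (XT.nd (nat_lit 702) (nat_lit 0) (nat_lit 0) (XT.nd (nat_lit 312) (nat_lit 0) (nat_lit 0) (XT.nd (nat_lit 156) (nat_lit 0) (nat_lit 0) (XT.nd (nat_lit 78) (nat_lit 0) (nat_lit 0) (XT.lf (nat_lit 0) (nat_lit 18572646680) (nat_lit 152) (nat_lit 127242499906) (nat_lit 0) (nat_lit 15527048924) (nat_lit 1) (nat_lit 5) (nat_lit 3) (nat_lit 4) (nat_lit 1) (nat_lit 4) (nat_lit 339) (nat_lit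 204) (nat_lit 177)) (XT.lf (nat_lit 0) (nat_lit 21021632077) (nat_lit 152) (nat_lit 130377105393) (nat_lit 0) (nat_lit 17922977515) (nat_lit 1) (nat_lit 5) (nat_lit 3) (nat_lit 4) (nat_lit 1) (nat_lit 4) (nat_lit 340) (nat_lit 204) (nat_lit 176))) (XT.nd (nat_lit 78) (nat_lit 0) (nat_lit 0) (XT.lf (nat_lit 0) (nat_lit 23564806190) (nat_lit 152) (nat_lit 133721215120) (nat_lit 0) (nat_lit 20415621335) (nat_lit 1) (nat_lit 5) (nat_lit 3) (nat_lit 4) (nat_lit 1) (nat_lit 4) (nat_lit 341) (nat_lit 204) (nat_lit 175)) (XT.lf (nat_lit 0) (nat_lit 26208224195) (nat_lit 152) (nat_lit 137282791250) (nat_lit 0) (nat_lit 23010915252) (nat_lit 1) (nat_lit 5) (nat_lit 3) (nat_lit 4) (nat_lit 1) (nat_lit 4) (nat_lit 342) (nat_lit 204) (nat_lit 174)))) (XT.nd (nat_lit 156) (nat_lit 0) (nat_lit 0) (XT.nd (nat_lit 78) (nat_lit 0) (nat_lit 0) (XT.lf (nat_lit 0) (nat_lit 28958179945) (nat_lit 152) (nat_lit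 141070313728) (nat_lit 0) (nat_lit 25715038537) (nat_lit 1) (nat_lit 5) (nat_lit 3) (nat_lit 4) (nat_lit 1) (nat_lit 4) (nat_lit 343) (nat_lit 204) (nat_lit 173)) (XT.lf (nat_lit 0) (nat_lit 31821220953) (nat_lit 152) (nat_lit 145092800465) (nat_lit 0) (nat_lit 28534429578) (nat_lit 1) (nat_lit 5) (nat_lit 3) (nat_lit 4) (nat_lit 1) (nat_lit 4) (nat_lit 344) (nat_lit 204) (nat_lit 172))) (XT.nd (nat_lit 78) (nat_lit 0) (nat_lit 0) (XT.lf (nat_lit 0) (nat_lit 34804163983) (nat_lit 152) (nat_lit 149359828809) (nat_lit 0) (nat_lit 31475801212) (nat_lit 1) (nat_lit 5) (nat_lit 3) (nat_lit 4) (nat_lit 1) (nat_lit 4) (nat_lit 345) (nat_lit 204) (nat_lit 171)) (XT.nd (nat_lit 78) (nat_lit 0) (nat_lit 0) (XT.lf (nat_lit 0) (nat_lit 37914111281) (nat_lit 152) (nat_lit 153881558352) (nat_lit 0) (nat_lit 34546156703) (nat_lit 1) (nat_lit 5) (nat_lit 3) (nat_lit 4) (nat_lit 1) (nat_lit 4) (nat_lit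 346) (nat_lit 204) (nat_lit 170)) (XT.lf (nat_lit 0) (nat_lit 41158467483) (nat_lit 152) (nat_lit 158668755116) (nat_lit 0) (nat_lit 37752806423) (nat_lit 1) (nat_lit 5) (nat_lit 3) (nat_lit 4) (nat_lit 1) (nat_lit 4) (nat_lit 347) (nat_lit 204) (nat_lit 169)))))) (XT.nd (nat_lit 312) (nat_lit 0) (nat_lit 0) (XT.nd (nat_lit 156) (nat_lit 0) (nat_lit 0) (XT.nd (nat_lit 78) (nat_lit 0) (nat_lit 0) (XT.lf (nat_lit 0) (nat_lit 44544957247) (nat_lit 152) (nat_lit 163732817190) (nat_lit 0) (nat_lit 41103385252) (nat_lit 1) (nat_lit 5) (nat_lit 3) (nat_lit 4) (nat_lit 1) (nat_lit 4) (nat_lit 348) (nat_lit 204) (nat_lit 168)) (XT.lf (nat_lit 0) (nat_lit 48081643643) (nat_lit 152) (nat_lit 169085801864) (nat_lit 0) (nat_lit 44605870757) (nat_lit 1) (nat_lit 5) (nat_lit 3) (nat_lit 4) (nat_lit 1) (nat_lit 4) (nat_lit 349) (nat_lit 204) (nat_lit 167))) (XT.nd (nat_lit 78) (nat_lit 0) (nat_lit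 0) (XT.lf (nat_lit 0) (nat_lit 51776947354) (nat_lit 152) (nat_lit 174740454339) (nat_lit 0) (nat_lit 48268602192) (nat_lit 1) (nat_lit 5) (nat_lit 3) (nat_lit 4) (nat_lit 1) (nat_lit 4) (nat_lit 350) (nat_lit 204) (nat_lit 166)) (XT.lf (nat_lit 0) (nat_lit 55639666722) (nat_lit 152) (nat_lit 180710238074) (nat_lit 0) (nat_lit 52100300343) (nat_lit 1) (nat_lit 5) (nat_lit 3) (nat_lit 4) (nat_lit 1) (nat_lit 4) (nat_lit 351) (nat_lit 204) (nat_lit 165)))) (XT.nd (nat_lit 156) (nat_lit 0) (nat_lit 0) (XT.nd (nat_lit 78) (nat_lit 0) (nat_lit 0) (XT.lf (nat_lit 0) (nat_lit 59678998698) (nat_lit 152) (nat_lit 187009366839) (nat_lit 0) (nat_lit 56110088303) (nat_lit 1) (nat_lit 5) (nat_lit 3) (nat_lit 4) (nat_lit 1) (nat_lit 4) (nat_lit 352) (nat_lit 204) (nat_lit 164)) (XT.lf (nat_lit 0) (nat_lit 63904560738) (nat_lit 152) (nat_lit 193652838561) (nat_lit 0) (nat_lit 60307513186) (nat_lit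 1) (nat_lit 5) (nat_lit 3) (nat_lit 4) (nat_lit 1) (nat_lit 4) (nat_lit 353) (nat_lit 204) (nat_lit 163))) (XT.nd (nat_lit 78) (nat_lit 0) (nat_lit 0) (XT.lf (nat_lit 0) (nat_lit 68326413705) (nat_lit 152) (nat_lit 200656471028) (nat_lit 0) (nat_lit 64702568860) (nat_lit 1) (nat_lit 5) (nat_lit 3) (nat_lit 4) (nat_lit 1) (nat_lit 4) (nat_lit 354) (nat_lit 204) (nat_lit 162)) (XT.nd (nat_lit 78) (nat_lit 0) (nat_lit 0) (XT.lf (nat_lit 0) (nat_lit 72955085820) (nat_lit 152) (nat_lit 208036939557) (nat_lit 0) (nat_lit 69305719744) (nat_lit 1) (nat_lit 5) (nat_lit 3) (nat_lit 4) (nat_lit 1) (nat_lit 4) (nat_lit 355) (nat_lit 204) (nat_lit 161)) (XT.lf (nat_lit 0) (nat_lit 77801597731) (nat_lit 152) (nat_lit 215811816692) (nat_lit 0) (nat_lit 74127925720) (nat_lit 1) (nat_lit 5) (nat_lit 3) (nat_lit 4) (nat_lit 1) (nat_lit 4) (nat_lit 356) (nat_lit 204) (nat_lit 160))))))))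
noncomputable def xc22 : XT := (XT.nd (nat_lit 34476) (nat_lit 0) (nat_lit 0) (XT.nd (nat_lit 702) (nat_lit 0) (nat_lit 0) (XT.nd (nat_lit 312) (nat_lit 0) (nat_lit 0) (XT.nd (nat_lit 156) (nat_lit 0) (nat_lit 0) (XT.nd (nat_lit 78) (nat_lit 0) (nat_lit 0) (XT.lf (nat_lit 0) (nat_lit 82877488752) (nat_lit 152) (nat_lit 223999614044) (nat_lit 0) (nat_lit 79180668232) (nat_lit 1) (nat_lit 5) (nat_lit 3) (nat_lit 4) (nat_lit 1) (nat_lit 4) (nat_lit 357) (nat_lit 204) (nat_lit 159)) (XT.lf (nat_lit 0) (nat_lit 88194844338) (nat_lit 152) (nat_lit 232619826369) (nat_lit 0) (nat_lit 84475977618) (nat_lit 1) (nat_lit 5) (nat_lit 3) (nat_lit 4) (nat_lit 1) (nat_lit 4) (nat_lit 358) (nat_lit 204) (nat_lit 158))) (XT.nd (nat_lit 78) (nat_lit 0) (nat_lit 0) (XT.lf (nat_lit 0) (nat_lit 93766324859) (nat_lit 152) (nat_lit 241692977983) (nat_lit 0) (nat_lit 90026461759) (nat_lit 1) (nat_lit 5) (nat_lit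 3) (nat_lit 4) (nat_lit 1) (nat_lit 4) (nat_lit 359) (nat_lit 204) (nat_lit 157)) (XT.lf (nat_lit 0) (nat_lit 99605195745) (nat_lit 152) (nat_lit 251240671627) (nat_lit 0) (nat_lit 95845336093) (nat_lit 1) (nat_lit 5) (nat_lit 3) (nat_lit 4) (nat_lit 1) (nat_lit 4) (nat_lit 360) (nat_lit 204) (nat_lit 156)))) (XT.nd (nat_lit 156) (nat_lit 0) (nat_lit 0) (XT.nd (nat_lit 78) (nat_lit 0) (nat_lit 0) (XT.lf (nat_lit 0) (nat_lit 105725359070) (nat_lit 152) (nat_lit 261285639905) (nat_lit 0) (nat_lit 101946455082) (nat_lit 1) (nat_lit 5) (nat_lit 3) (nat_lit 4) (nat_lit 1) (nat_lit 4) (nat_lit 361) (nat_lit 204) (nat_lit 155)) (XT.lf (nat_lit 0) (nat_lit 112141386651) (nat_lit 152) (nat_lit 271851799409) (nat_lit 0) (nat_lit 108344345200) (nat_lit 1) (nat_lit 5) (nat_lit 3) (nat_lit 4) (nat_lit 1) (nat_lit 4) (nat_lit 362) (nat_lit 204) (nat_lit 154))) (XT.nd (nat_lit 78) (nat_lit 0) (nat_lit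 0) (XT.lf (nat_lit 0) (nat_lit 118868554744) (nat_lit 152) (nat_lit 282964307661) (nat_lit 0) (nat_lit 115054239520) (nat_lit 1) (nat_lit 5) (nat_lit 3) (nat_lit 4) (nat_lit 1) (nat_lit 4) (nat_lit 363) (nat_lit 204) (nat_lit 153)) (XT.nd (nat_lit 78) (nat_lit 0) (nat_lit 0) (XT.lf (nat_lit 0) (nat_lit 125922880416) (nat_lit 152) (nat_lit 294649623013) (nat_lit 0) (nat_lit 122092113978) (nat_lit 1) (nat_lit 5) (nat_lit 3) (nat_lit 4) (nat_lit 1) (nat_lit 4) (nat_lit 364) (nat_lit 204) (nat_lit 152)) (XT.lf (nat_lit 0) (nat_lit 133321159681) (nat_lit 152) (nat_lit 306935567646) (nat_lit 0) (nat_lit 129474725421) (nat_lit 1) (nat_lit 5) (nat_lit 3) (nat_lit 4) (nat_lit 1) (nat_lit 4) (nat_lit 365) (nat_lit 204) (nat_lit 151)))))) (XT.nd (nat_lit 33384) (nat_lit 0) (nat_lit 152) (XT.nd (nat_lit 33228) (nat_lit 0) (nat_lit 228) (XT.nd (nat_lit 33150) (nat_lit 0) (nat_lit 228) (XT.lf (nat_lit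 0) (nat_lit 141081007489) (nat_lit 152) (nat_lit 319851393809) (nat_lit 0) (nat_lit 137219651494) (nat_lit 1) (nat_lit 5) (nat_lit 3) (nat_lit 4) (nat_lit 1) (nat_lit 4) (nat_lit 366) (nat_lit 204) (nat_lit 150)) (XT.lf (nat_lit 0) (nat_lit 4622902753) (nat_lit 152) (nat_lit 11322797426) (nat_lit 0) (nat_lit 4622902753) (nat_lit 4) (nat_lit 5) (nat_lit 6) (nat_lit 4) (nat_lit 4) (nat_lit 4) (nat_lit 310) (nat_lit 205) (nat_lit 205))) (XT.nd (nat_lit 78) (nat_lit 0) (nat_lit 0) (XT.lf (nat_lit 0) (nat_lit 12697680814) (nat_lit 152) (nat_lit 17853641441) (nat_lit 0) (nat_lit 12479291802) (nat_lit 4) (nat_lit 5) (nat_lit 6) (nat_lit 4) (nat_lit 4) (nat_lit 4) (nat_lit 311) (nat_lit 205) (nat_lit 204)) (XT.lf (nat_lit 0) (nat_lit 16220786880) (nat_lit 152) (nat_lit 13008644551) (nat_lit 0) (nat_lit 15794408333) (nat_lit 4) (nat_lit 5) (nat_lit 6) (nat_lit 4) (nat_lit 4) (nat_lit 4) (nat_lit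 312) (nat_lit 205) (nat_lit 203)))) (XT.nd (nat_lit 156) (nat_lit 76) (nat_lit 0) (XT.nd (nat_lit 78) (nat_lit 0) (nat_lit 0) (XT.lf (nat_lit 0) (nat_lit 19823512054) (nat_lit 152) (nat_lit 8099068478) (nat_lit 0) (nat_lit 19199048235) (nat_lit 4) (nat_lit 5) (nat_lit 6) (nat_lit 4) (nat_lit 4) (nat_lit 4) (nat_lit 313) (nat_lit 205) (nat_lit 202)) (XT.lf (nat_lit 0) (nat_lit 23514434252) (nat_lit 152) (nat_lit 3113223753) (nat_lit 0) (nat_lit 22701317794) (nat_lit 4) (nat_lit 5) (nat_lit 6) (nat_lit 4) (nat_lit 4) (nat_lit 4) (nat_lit 314) (nat_lit 205) (nat_lit 201))) (XT.nd (nat_lit 78) (nat_lit 0) (nat_lit 0) (XT.lf (nat_lit 0) (nat_lit 2025592285) (nat_lit 76) (nat_lit 25308374272) (nat_lit 76) (nat_lit 24315588633) (nat_lit 3) (nat_lit 4) (nat_lit 4) (nat_lit 5) (nat_lit 4) (nat_lit 4) (nat_lit 315) (nat_lit 205) (nat_lit 200)) (XT.nd (nat_lit 78) (nat_lit 0) (nat_lit 0) (XT.lf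 (nat_lit 0) (nat_lit 7370879932) (nat_lit 76) (nat_lit 23940452439) (nat_lit 76) (nat_lit 22776553295) (nat_lit 3) (nat_lit 4) (nat_lit 4) (nat_lit 5) (nat_lit 4) (nat_lit 4) (nat_lit 316) (nat_lit 205) (nat_lit 199)) (XT.lf (nat_lit 0) (nat_lit 12832428826) (nat_lit 76) (nat_lit 22573359501) (nat_lit 76) (nat_lit 21246495113) (nat_lit 3) (nat_lit 4) (nat_lit 4) (nat_lit 5) (nat_lit 4) (nat_lit 4) (nat_lit 317) (nat_lit 205) (nat_lit 198))))))) (XT.nd (nat_lit 702) (nat_lit 152) (nat_lit 0) (XT.nd (nat_lit 312) (nat_lit 0) (nat_lit 0) (XT.nd (nat_lit 156) (nat_lit 0) (nat_lit 0) (XT.nd (nat_lit 78) (nat_lit 0) (nat_lit 0) (XT.lf (nat_lit 0) (nat_lit 18423242656) (nat_lit 76) (nat_lit 21203840473) (nat_lit 76) (nat_lit 19721771092) (nat_lit 3) (nat_lit 4) (nat_lit 4) (nat_lit 5) (nat_lit 4) (nat_lit 4) (nat_lit 318) (nat_lit 205) (nat_lit 197)) (XT.lf (nat_lit 0) (nat_lit 24156632882)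 (nat_lit 76) (nat_lit 19828634597) (nat_lit 76) (nat_lit 18198750936) (nat_lit 3) (nat_lit 4) (nat_lit 4) (nat_lit 5) (nat_lit 4) (nat_lit 4) (nat_lit 319) (nat_lit 205) (nat_lit 196))) (XT.nd (nat_lit 78) (nat_lit 0) (nat_lit 0) (XT.lf (nat_lit 0) (nat_lit 30046250435) (nat_lit 76) (nat_lit 18444467572) (nat_lit 76) (nat_lit 16673808407) (nat_lit 3) (nat_lit 4) (nat_lit 4) (nat_lit 5) (nat_lit 4) (nat_lit 4) (nat_lit 320) (nat_lit 205) (nat_lit 195)) (XT.lf (nat_lit 0) (nat_lit 36106118211) (nat_lit 76) (nat_lit 17048043763) (nat_lit 76) (nat_lit 15143312690) (nat_lit 3) (nat_lit 4) (nat_lit 4) (nat_lit 5) (nat_lit 4) (nat_lit 4) (nat_lit 321) (nat_lit 205) (nat_lit 194)))) (XT.nd (nat_lit 156) (nat_lit 0) (nat_lit 0) (XT.nd (nat_lit 78) (nat_lit 0) (nat_lit 0) (XT.lf (nat_lit 0) (nat_lit 42350664469) (nat_lit 76) (nat_lit 15636038352) (nat_lit 76) (nat_lit 13603619746) (nat_lit 3)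 (nat_lit 4) (nat_lit 4) (nat_lit 5) (nat_lit 4) (nat_lit 4) (nat_lit 322) (nat_lit 205) (nat_lit 193)) (XT.lf (nat_lit 0) (nat_lit 48794757176) (nat_lit 76) (nat_lit 14205089420) (nat_lit 76) (nat_lit 12051063641) (nat_lit 3) (nat_lit 4) (nat_lit 4) (nat_lit 5) (nat_lit 4) (nat_lit 4) (nat_lit 323) (nat_lit 205) (nat_lit 192))) (XT.nd (nat_lit 78) (nat_lit 0) (nat_lit 0) (XT.lf (nat_lit 0) (nat_lit 55453739409) (nat_lit 76) (nat_lit 12751789946) (nat_lit 76) (nat_lit 10481947811) (nat_lit 3) (nat_lit 4) (nat_lit 4) (nat_lit 5) (nat_lit 4) (nat_lit 4) (nat_lit 324) (nat_lit 205) (nat_lit 191)) (XT.nd (nat_lit 78) (nat_lit 0) (nat_lit 0) (XT.lf (nat_lit 0) (nat_lit 62343465888) (nat_lit 76) (nat_lit 11272679694) (nat_lit 76) (nat_lit 8892536268) (nat_lit 3) (nat_lit 4) (nat_lit 4) (nat_lit 5) (nat_lit 4) (nat_lit 4) (nat_lit 325) (nat_lit 205) (nat_lit 190)) (XT.lf (nat_lit 0) (nat_lit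 69480340724) (nat_lit 76) (nat_lit 9764236973) (nat_lit 76) (nat_lit 7279044698) (nat_lit 3) (nat_lit 4) (nat_lit 4) (nat_lit 5) (nat_lit 4) (nat_lit 4) (nat_lit 326) (nat_lit 205) (nat_lit 189)))))) (XT.nd (nat_lit 312) (nat_lit 152) (nat_lit 0) (XT.nd (nat_lit 156) (nat_lit 0) (nat_lit 0) (XT.nd (nat_lit 78) (nat_lit 0) (nat_lit 0) (XT.lf (nat_lit 0) (nat_lit 76881356476) (nat_lit 76) (nat_lit 8222870251) (nat_lit 76) (nat_lit 5637631454) (nat_lit 3) (nat_lit 4) (nat_lit 4) (nat_lit 5) (nat_lit 4) (nat_lit 4) (nat_lit 327) (nat_lit 205) (nat_lit 188)) (XT.lf (nat_lit 0) (nat_lit 84564134610) (nat_lit 76) (nat_lit 6644909609) (nat_lit 76) (nat_lit 3964388409) (nat_lit 3) (nat_lit 4) (nat_lit 4) (nat_lit 5) (nat_lit 4) (nat_lit 4) (nat_lit 328) (nat_lit 205) (nat_lit 187))) (XT.nd (nat_lit 78) (nat_lit 0) (nat_lit 0) (XT.lf (nat_lit 0) (nat_lit 92546967454) (nat_lit 76) (nat_lit 5026597997)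 (nat_lit 76) (nat_lit 2255331652) (nat_lit 3) (nat_lit 4) (nat_lit 4) (nat_lit 5) (nat_lit 4) (nat_lit 4) (nat_lit 329) (nat_lit 205) (nat_lit 186)) (XT.lf (nat_lit 0) (nat_lit 100848861755) (nat_lit 76) (nat_lit 3364082293) (nat_lit 76) (nat_lit 506392000) (nat_lit 3) (nat_lit 4) (nat_lit 4) (nat_lit 5) (nat_lit 4) (nat_lit 4) (nat_lit 330) (nat_lit 205) (nat_lit 185)))) (XT.nd (nat_lit 156) (nat_lit 0) (nat_lit 0) (XT.nd (nat_lit 78) (nat_lit 76) (nat_lit 0) (XT.lf (nat_lit 0) (nat_lit 1245415624) (nat_lit 152) (nat_lit 386896785) (nat_lit 76) (nat_lit 108223076585) (nat_lit 2) (nat_lit 5) (nat_lit 4) (nat_lit 5) (nat_lit 3) (nat_lit 4) (nat_lit 331) (nat_lit 205) (nat_lit 184)) (XT.lf (nat_lit 0) (nat_lit 3082567176) (nat_lit 152) (nat_lit 111956640046) (nat_lit 0) (nat_lit 207912049) (nat_lit 1) (nat_lit 5) (nat_lit 3) (nat_lit 4) (nat_lit 1) (nat_lit 4) (nat_lit 332) (nat_lit 205)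 (nat_lit 183))) (XT.nd (nat_lit 78) (nat_lit 0) (nat_lit 0) (XT.lf (nat_lit 0) (nat_lit 5005229787) (nat_lit 152) (nat_lit 113844077130) (nat_lit 0) (nat_lit 2059473464) (nat_lit 1) (nat_lit 5) (nat_lit 3) (nat_lit 4) (nat_lit 1) (nat_lit 4) (nat_lit 333) (nat_lit 205) (nat_lit 182)) (XT.nd (nat_lit 78) (nat_lit 0) (nat_lit 0) (XT.lf (nat_lit 0) (nat_lit 6986153682) (nat_lit 152) (nat_lit 115896608228) (nat_lit 0) (nat_lit 3972681935) (nat_lit 1) (nat_lit 5) (nat_lit 3) (nat_lit 4) (nat_lit 1) (nat_lit 4) (nat_lit 334) (nat_lit 205) (nat_lit 181)) (XT.lf (nat_lit 0) (nat_lit 9030055349) (nat_lit 152) (nat_lit 118119120318) (nat_lit 0) (nat_lit 5952092721) (nat_lit 1) (nat_lit 5) (nat_lit 3) (nat_lit 4) (nat_lit 1) (nat_lit 4) (nat_lit 335) (nat_lit 205) (nat_lit 180))))))))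
noncomputable def xc23 : XT := (XT.nd (nat_lit 1404) (nat_lit 0) (nat_lit 0) (XT.nd (nat_lit 702) (nat_lit 0) (nat_lit 0) (XT.nd (nat_lit 312) (nat_lit 0) (nat_lit 0) (XT.nd (nat_lit 156) (nat_lit 0) (nat_lit 0) (XT.nd (nat_lit 78) (nat_lit 0) (nat_lit 0) (XT.lf (nat_lit 0) (nat_lit 11141801218) (nat_lit 152) (nat_lit 120516905095) (nat_lit 0) (nat_lit 8002418704) (nat_lit 1) (nat_lit 5) (nat_lit 3) (nat_lit 4) (nat_lit 1) (nat_lit 4) (nat_lit 336) (nat_lit 205) (nat_lit 179)) (XT.lf (nat_lit 0) (nat_lit 13326419256) (nat_lit 152) (nat_lit 123095671571) (nat_lit 0) (nat_lit 10128541612) (nat_lit 1) (nat_lit 5) (nat_lit 3) (nat_lit 4) (nat_lit 1) (nat_lit 4) (nat_lit 337) (nat_lit 205) (nat_lit 178))) (XT.nd (nat_lit 78) (nat_lit 0) (nat_lit 0) (XT.lf (nat_lit 0) (nat_lit 15589110936) (nat_lit 152) (nat_lit 125861559667) (nat_lit 0) (nat_lit 12335523644) (nat_lit 1) (nat_lit 5) (nat_lit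 3) (nat_lit 4) (nat_lit 1) (nat_lit 4) (nat_lit 338) (nat_lit 205) (nat_lit 177)) (XT.lf (nat_lit 0) (nat_lit 17935263617) (nat_lit 152) (nat_lit 128821154829) (nat_lit 0) (nat_lit 14628619519) (nat_lit 1) (nat_lit 5) (nat_lit 3) (nat_lit 4) (nat_lit 1) (nat_lit 4) (nat_lit 339) (nat_lit 205) (nat_lit 176)))) (XT.nd (nat_lit 156) (nat_lit 0) (nat_lit 0) (XT.nd (nat_lit 78) (nat_lit 0) (nat_lit 0) (XT.lf (nat_lit 0) (nat_lit 20370463378) (nat_lit 152) (nat_lit 131981503714) (nat_lit 0) (nat_lit 17013288987) (nat_lit 1) (nat_lit 5) (nat_lit 3) (nat_lit 4) (nat_lit 1) (nat_lit 4) (nat_lit 340) (nat_lit 205) (nat_lit 175)) (XT.lf (nat_lit 0) (nat_lit 22900508314) (nat_lit 152) (nat_lit 135350130961) (nat_lit 0) (nat_lit 19495209835) (nat_lit 1) (nat_lit 5) (nat_lit 3) (nat_lit 4) (nat_lit 1) (nat_lit 4) (nat_lit 341) (nat_lit 205) (nat_lit 174))) (XT.nd (nat_lit 78) (nat_lit 0) (nat_lit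 0) (XT.lf (nat_lit 0) (nat_lit 25531422340) (nat_lit 152) (nat_lit 138935057112) (nat_lit 0) (nat_lit 22080291397) (nat_lit 1) (nat_lit 5) (nat_lit 3) (nat_lit 4) (nat_lit 1) (nat_lit 4) (nat_lit 342) (nat_lit 205) (nat_lit 173)) (XT.nd (nat_lit 78) (nat_lit 0) (nat_lit 0) (XT.lf (nat_lit 0) (nat_lit 28269469539) (nat_lit 152) (nat_lit 142744817704) (nat_lit 0) (nat_lit 24774688629) (nat_lit 1) (nat_lit 5) (nat_lit 3) (nat_lit 4) (nat_lit 1) (nat_lit 4) (nat_lit 343) (nat_lit 205) (nat_lit 172)) (XT.lf (nat_lit 0) (nat_lit 31121169069) (nat_lit 152) (nat_lit 146788483597) (nat_lit 0) (nat_lit 27584816763) (nat_lit 1) (nat_lit 5) (nat_lit 3) (nat_lit 4) (nat_lit 1) (nat_lit 4) (nat_lit 344) (nat_lit 205) (nat_lit 171)))))) (XT.nd (nat_lit 312) (nat_lit 0) (nat_lit 0) (XT.nd (nat_lit 156) (nat_lit 0) (nat_lit 0) (XT.nd (nat_lit 78) (nat_lit 0) (nat_lit 0) (XT.lf (nat_lit 0) (nat_lit 34093310693)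 (nat_lit 152) (nat_lit 151075682567) (nat_lit 0) (nat_lit 30517366580) (nat_lit 1) (nat_lit 5) (nat_lit 3) (nat_lit 4) (nat_lit 1) (nat_lit 4) (nat_lit 345) (nat_lit 205) (nat_lit 170)) (XT.lf (nat_lit 0) (nat_lit 37192970937) (nat_lit 152) (nat_lit 155616622229) (nat_lit 0) (nat_lit 33579320342) (nat_lit 1) (nat_lit 5) (nat_lit 3) (nat_lit 4) (nat_lit 1) (nat_lit 4) (nat_lit 346) (nat_lit 205) (nat_lit 169))) (XT.nd (nat_lit 78) (nat_lit 0) (nat_lit 0) (XT.lf (nat_lit 0) (nat_lit 40427529944) (nat_lit 152) (nat_lit 160422114345) (nat_lit 0) (nat_lit 36777968414) (nat_lit 1) (nat_lit 5) (nat_lit 3) (nat_lit 4) (nat_lit 1) (nat_lit 4) (nat_lit 347) (nat_lit 205) (nat_lit 168)) (XT.lf (nat_lit 0) (nat_lit 43804689047) (nat_lit 152) (nat_lit 165503600563) (nat_lit 0) (nat_lit 40120926626) (nat_lit 1) (nat_lit 5) (nat_lit 3) (nat_lit 4) (nat_lit 1) (nat_lit 4) (nat_lit 348) (nat_lit 205)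 (nat_lit 167)))) (XT.nd (nat_lit 156) (nat_lit 0) (nat_lit 0) (XT.nd (nat_lit 78) (nat_lit 0) (nat_lit 0) (XT.lf (nat_lit 0) (nat_lit 47332489100) (nat_lit 152) (nat_lit 170873179660) (nat_lit 0) (nat_lit 43616154402) (nat_lit 1) (nat_lit 5) (nat_lit 3) (nat_lit 4) (nat_lit 1) (nat_lit 4) (nat_lit 349) (nat_lit 205) (nat_lit 166)) (XT.lf (nat_lit 0) (nat_lit 51019329626) (nat_lit 152) (nat_lit 176543636348) (nat_lit 0) (nat_lit 47271973712) (nat_lit 1) (nat_lit 5) (nat_lit 3) (nat_lit 4) (nat_lit 1) (nat_lit 4) (nat_lit 350) (nat_lit 205) (nat_lit 165))) (XT.nd (nat_lit 78) (nat_lit 0) (nat_lit 0) (XT.lf (nat_lit 0) (nat_lit 54873988818) (nat_lit 152) (nat_lit 182528471714) (nat_lit 0) (nat_lit 51097088888) (nat_lit 1) (nat_lit 5) (nat_lit 3) (nat_lit 4) (nat_lit 1) (nat_lit 4) (nat_lit 351) (nat_lit 205) (nat_lit 164)) (XT.nd (nat_lit 78) (nat_lit 0) (nat_lit 0) (XT.lf (nat_lit 0)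 (nat_lit 58905644435) (nat_lit 152) (nat_lit 188841935366) (nat_lit 0) (nat_lit 55100607348) (nat_lit 1) (nat_lit 5) (nat_lit 3) (nat_lit 4) (nat_lit 1) (nat_lit 4) (nat_lit 352) (nat_lit 205) (nat_lit 163)) (XT.lf (nat_lit 0) (nat_lit 63123895658) (nat_lit 152) (nat_lit 195499059361) (nat_lit 0) (nat_lit 59292061278) (nat_lit 1) (nat_lit 5) (nat_lit 3) (nat_lit 4) (nat_lit 1) (nat_lit 4) (nat_lit 353) (nat_lit 205) (nat_lit 162))))))) (XT.nd (nat_lit 702) (nat_lit 0) (nat_lit 0) (XT.nd (nat_lit 312) (nat_lit 0) (nat_lit 0) (XT.nd (nat_lit 156) (nat_lit 0) (nat_lit 0) (XT.nd (nat_lit 78) (nat_lit 0) (nat_lit 0) (XT.lf (nat_lit 0) (nat_lit 67538785942) (nat_lit 152) (nat_lit 202515693994) (nat_lit 0) (nat_lit 63681430331) (nat_lit 1) (nat_lit 5) (nat_lit 3) (nat_lit 4) (nat_lit 1) (nat_lit 4) (nat_lit 354) (nat_lit 205) (nat_lit 161)) (XT.lf (nat_lit 0) (nat_lit 72160826931) (nat_lit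 152) (nat_lit 209908545537) (nat_lit 0) (nat_lit 68279165385) (nat_lit 1) (nat_lit 5) (nat_lit 3) (nat_lit 4) (nat_lit 1) (nat_lit 4) (nat_lit 355) (nat_lit 205) (nat_lit 160))) (XT.nd (nat_lit 78) (nat_lit 0) (nat_lit 0) (XT.lf (nat_lit 0) (nat_lit 77001023483) (nat_lit 152) (nat_lit 217695216018) (nat_lit 0) (nat_lit 73096213428) (nat_lit 1) (nat_lit 5) (nat_lit 3) (nat_lit 4) (nat_lit 1) (nat_lit 4) (nat_lit 356) (nat_lit 205) (nat_lit 159)) (XT.lf (nat_lit 0) (nat_lit 82070899876) (nat_lit 152) (nat_lit 225894245129) (nat_lit 0) (nat_lit 78144043622) (nat_lit 1) (nat_lit 5) (nat_lit 3) (nat_lit 4) (nat_lit 1) (nat_lit 4) (nat_lit 357) (nat_lit 205) (nat_lit 158)))) (XT.nd (nat_lit 156) (nat_lit 0) (nat_lit 0) (XT.nd (nat_lit 78) (nat_lit 0) (nat_lit 0) (XT.lf (nat_lit 0) (nat_lit 87382527246) (nat_lit 152) (nat_lit 234525154367) (nat_lit 0) (nat_lit 83434674611) (nat_lit 1) (nat_lit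 5) (nat_lit 3) (nat_lit 4) (nat_lit 1) (nat_lit 4) (nat_lit 358) (nat_lit 205) (nat_lit 157)) (XT.lf (nat_lit 0) (nat_lit 92948552322) (nat_lit 152) (nat_lit 243608493518) (nat_lit 0) (nat_lit 88980703135) (nat_lit 1) (nat_lit 5) (nat_lit 3) (nat_lit 4) (nat_lit 1) (nat_lit 4) (nat_lit 359) (nat_lit 205) (nat_lit 156))) (XT.nd (nat_lit 78) (nat_lit 0) (nat_lit 0) (XT.lf (nat_lit 0) (nat_lit 98782227547) (nat_lit 152) (nat_lit 253165889577) (nat_lit 0) (nat_lit 94795334024) (nat_lit 1) (nat_lit 5) (nat_lit 3) (nat_lit 4) (nat_lit 1) (nat_lit 4) (nat_lit 360) (nat_lit 205) (nat_lit 155)) (XT.nd (nat_lit 78) (nat_lit 0) (nat_lit 0) (XT.lf (nat_lit 0) (nat_lit 104897442623) (nat_lit 152) (nat_lit 263220098252) (nat_lit 0) (nat_lit 100892411638) (nat_lit 1) (nat_lit 5) (nat_lit 3) (nat_lit 4) (nat_lit 1) (nat_lit 4) (nat_lit 361) (nat_lit 205) (nat_lit 154)) (XT.lf (nat_lit 0) (nat_lit 111308757586)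 (nat_lit 152) (nat_lit 273795058132) (nat_lit 0) (nat_lit 107286452827) (nat_lit 1) (nat_lit 5) (nat_lit 3) (nat_lit 4) (nat_lit 1) (nat_lit 4) (nat_lit 362) (nat_lit 205) (nat_lit 153)))))) (XT.nd (nat_lit 33306) (nat_lit 0) (nat_lit 228) (XT.nd (nat_lit 156) (nat_lit 0) (nat_lit 0) (XT.nd (nat_lit 78) (nat_lit 0) (nat_lit 0) (XT.lf (nat_lit 0) (nat_lit 118031437472) (nat_lit 152) (nat_lit 284915947695) (nat_lit 0) (nat_lit 113992681499) (nat_lit 1) (nat_lit 5) (nat_lit 3) (nat_lit 4) (nat_lit 1) (nat_lit 4) (nat_lit 363) (nat_lit 205) (nat_lit 152)) (XT.lf (nat_lit 0) (nat_lit 125081488660) (nat_lit 152) (nat_lit 296609245249) (nat_lit 0) (nat_lit 121027064865) (nat_lit 1) (nat_lit 5) (nat_lit 3) (nat_lit 4) (nat_lit 1) (nat_lit 4) (nat_lit 364) (nat_lit 205) (nat_lit 151))) (XT.nd (nat_lit 78) (nat_lit 0) (nat_lit 0) (XT.lf (nat_lit 0) (nat_lit 132475696989) (nat_lit 152) (nat_lit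 308902791979) (nat_lit 0) (nat_lit 128406351458) (nat_lit 1) (nat_lit 5) (nat_lit 3) (nat_lit 4) (nat_lit 1) (nat_lit 4) (nat_lit 365) (nat_lit 205) (nat_lit 150)) (XT.nd (nat_lit 32994) (nat_lit 0) (nat_lit 228) (XT.lf (nat_lit 0) (nat_lit 140231667714) (nat_lit 152) (nat_lit 321825858233) (nat_lit 0) (nat_lit 136148111007) (nat_lit 1) (nat_lit 5) (nat_lit 3) (nat_lit 4) (nat_lit 1) (nat_lit 4) (nat_lit 366) (nat_lit 205) (nat_lit 149)) (XT.lf (nat_lit 0) (nat_lit 1403422090) (nat_lit 152) (nat_lit 16007790005) (nat_lit 0) (nat_lit 1403422090) (nat_lit 4) (nat_lit 5) (nat_lit 6) (nat_lit 4) (nat_lit 4) (nat_lit 4) (nat_lit 308) (nat_lit 206) (nat_lit 206))))) (XT.nd (nat_lit 156) (nat_lit 0) (nat_lit 0) (XT.nd (nat_lit 78) (nat_lit 0) (nat_lit 0) (XT.lf (nat_lit 0) (nat_lit 6086250672) (nat_lit 152) (nat_lit 27395914199) (nat_lit 0) (nat_lit 5856942210) (nat_lit 4) (nat_lit 5) (nat_lit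 6) (nat_lit 4) (nat_lit 4) (nat_lit 4) (nat_lit 309) (nat_lit 206) (nat_lit 205)) (XT.lf (nat_lit 0) (nat_lit 9423196333) (nat_lit 152) (nat_lit 22741147000) (nat_lit 0) (nat_lit 8975498858) (nat_lit 4) (nat_lit 5) (nat_lit 6) (nat_lit 4) (nat_lit 4) (nat_lit 4) (nat_lit 310) (nat_lit 206) (nat_lit 204))) (XT.nd (nat_lit 78) (nat_lit 0) (nat_lit 0) (XT.lf (nat_lit 0) (nat_lit 12825626271) (nat_lit 152) (nat_lit 18040195634) (nat_lit 0) (nat_lit 12169939261) (nat_lit 4) (nat_lit 5) (nat_lit 6) (nat_lit 4) (nat_lit 4) (nat_lit 4) (nat_lit 311) (nat_lit 206) (nat_lit 203)) (XT.nd (nat_lit 78) (nat_lit 0) (nat_lit 0) (XT.lf (nat_lit 0) (nat_lit 16301641510) (nat_lit 152) (nat_lit 13281867359) (nat_lit 0) (nat_lit 15447869228) (nat_lit 4) (nat_lit 5) (nat_lit 6) (nat_lit 4) (nat_lit 4) (nat_lit 4) (nat_lit 312) (nat_lit 206) (nat_lit 202)) (XT.lf (nat_lit 0) (nat_lit 19859518276) (nat_lit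 152) (nat_lit 8454832823) (nat_lit 0) (nat_lit 18817093356) (nat_lit 4) (nat_lit 5) (nat_lit 6) (nat_lit 4) (nat_lit 4) (nat_lit 4) (nat_lit 313) (nat_lit 206) (nat_lit 201))))))))
noncomputable def xc24 : XT := (XT.nd (nat_lit 1404) (nat_lit 76) (nat_lit 0) (XT.nd (nat_lit 702) (nat_lit 76) (nat_lit 0) (XT.nd (nat_lit 312) (nat_lit 0) (nat_lit 0) (XT.nd (nat_lit 156) (nat_lit 0) (nat_lit 0) (XT.nd (nat_lit 78) (nat_lit 76) (nat_lit 0) (XT.lf (nat_lit 0) (nat_lit 23507727706) (nat_lit 152) (nat_lit 3547599086) (nat_lit 0) (nat_lit 22285633605) (nat_lit 4) (nat_lit 5) (nat_lit 6) (nat_lit 4) (nat_lit 4) (nat_lit 4) (nat_lit 314) (nat_lit 206) (nat_lit 200)) (XT.lf (nat_lit 0) (nat_lit 1499511471) (nat_lit 76) (nat_lit 25778856117) (nat_lit 76) (nat_lit 24385648510) (nat_lit 3) (nat_lit 4) (nat_lit 4) (nat_lit 5) (nat_lit 4) (nat_lit 4) (nat_lit 315) (nat_lit 206) (nat_lit 199))) (XT.nd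 (nat_lit 78) (nat_lit 0) (nat_lit 0) (XT.lf (nat_lit 0) (nat_lit 6771139053) (nat_lit 76) (nat_lit 24444702570) (nat_lit 76) (nat_lit 22888529720) (nat_lit 3) (nat_lit 4) (nat_lit 4) (nat_lit 5) (nat_lit 4) (nat_lit 4) (nat_lit 316) (nat_lit 206) (nat_lit 198)) (XT.lf (nat_lit 0) (nat_lit 12162535504) (nat_lit 76) (nat_lit 23109769903) (nat_lit 76) (nat_lit 21398392060) (nat_lit 3) (nat_lit 4) (nat_lit 4) (nat_lit 5) (nat_lit 4) (nat_lit 4) (nat_lit 317) (nat_lit 206) (nat_lit 197)))) (XT.nd (nat_lit 156) (nat_lit 0) (nat_lit 0) (XT.nd (nat_lit 78) (nat_lit 0) (nat_lit 0) (XT.lf (nat_lit 0) (nat_lit 17686537482) (nat_lit 76) (nat_lit 21770879706) (nat_lit 76) (nat_lit 19911687584) (nat_lit 3) (nat_lit 4) (nat_lit 4) (nat_lit 5) (nat_lit 4) (nat_lit 4) (nat_lit 318) (nat_lit 206) (nat_lit 196)) (XT.lf (nat_lit 0) (nat_lit 23356297374) (nat_lit 76) (nat_lit 20424844145) (nat_lit 76) (nat_lit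 18424876518) (nat_lit 3) (nat_lit 4) (nat_lit 4) (nat_lit 5) (nat_lit 4) (nat_lit 4) (nat_lit 319) (nat_lit 206) (nat_lit 195))) (XT.nd (nat_lit 78) (nat_lit 0) (nat_lit 0) (XT.lf (nat_lit 0) (nat_lit 29185314608) (nat_lit 76) (nat_lit 19068458372) (nat_lit 76) (nat_lit 16934418836) (nat_lit 3) (nat_lit 4) (nat_lit 4) (nat_lit 5) (nat_lit 4) (nat_lit 4) (nat_lit 320) (nat_lit 206) (nat_lit 194)) (XT.nd (nat_lit 78) (nat_lit 0) (nat_lit 0) (XT.lf (nat_lit 0) (nat_lit 35187467795) (nat_lit 76) (nat_lit 17698492899) (nat_lit 76) (nat_lit 15436765831) (nat_lit 3) (nat_lit 4) (nat_lit 4) (nat_lit 5) (nat_lit 4) (nat_lit 4) (nat_lit 321) (nat_lit 206) (nat_lit 193)) (XT.lf (nat_lit 0) (nat_lit 41377047778) (nat_lit 76) (nat_lit 16311685902) (nat_lit 76) (nat_lit 13928351660) (nat_lit 3) (nat_lit 4) (nat_lit 4) (nat_lit 5) (nat_lit 4) (nat_lit 4) (nat_lit 322) (nat_lit 206) (nat_lit 192))))))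 (XT.nd (nat_lit 312) (nat_lit 76) (nat_lit 0) (XT.nd (nat_lit 156) (nat_lit 0) (nat_lit 0) (XT.nd (nat_lit 78) (nat_lit 0) (nat_lit 0) (XT.lf (nat_lit 0) (nat_lit 47768791651) (nat_lit 76) (nat_lit 14904735460) (nat_lit 76) (nat_lit 12405584863) (nat_lit 3) (nat_lit 4) (nat_lit 4) (nat_lit 5) (nat_lit 4) (nat_lit 4) (nat_lit 323) (nat_lit 206) (nat_lit 191)) (XT.lf (nat_lit 0) (nat_lit 54377917852) (nat_lit 76) (nat_lit 13474291692) (nat_lit 76) (nat_lit 10864839803) (nat_lit 3) (nat_lit 4) (nat_lit 4) (nat_lit 5) (nat_lit 4) (nat_lit 4) (nat_lit 324) (nat_lit 206) (nat_lit 190))) (XT.nd (nat_lit 78) (nat_lit 0) (nat_lit 0) (XT.lf (nat_lit 0) (nat_lit 61220162396) (nat_lit 76) (nat_lit 12016948778) (nat_lit 76) (nat_lit 9302448041) (nat_lit 3) (nat_lit 4) (nat_lit 4) (nat_lit 5) (nat_lit 4) (nat_lit 4) (nat_lit 325) (nat_lit 206) (nat_lit 189)) (XT.lf (nat_lit 0) (nat_lit 68311816342)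 (nat_lit 76) (nat_lit 10529236855) (nat_lit 76) (nat_lit 7714689594) (nat_lit 3) (nat_lit 4) (nat_lit 4) (nat_lit 5) (nat_lit 4) (nat_lit 4) (nat_lit 326) (nat_lit 206) (nat_lit 188)))) (XT.nd (nat_lit 156) (nat_lit 76) (nat_lit 0) (XT.nd (nat_lit 78) (nat_lit 0) (nat_lit 0) (XT.lf (nat_lit 0) (nat_lit 75669764578) (nat_lit 76) (nat_lit 9007613750) (nat_lit 76) (nat_lit 6097784088) (nat_lit 3) (nat_lit 4) (nat_lit 4) (nat_lit 5) (nat_lit 4) (nat_lit 4) (nat_lit 327) (nat_lit 206) (nat_lit 187)) (XT.lf (nat_lit 0) (nat_lit 83311526031) (nat_lit 76) (nat_lit 7448456553) (nat_lit 76) (nat_lit 4447881746) (nat_lit 3) (nat_lit 4) (nat_lit 4) (nat_lit 5) (nat_lit 4) (nat_lit 4) (nat_lit 328) (nat_lit 206) (nat_lit 186))) (XT.nd (nat_lit 78) (nat_lit 76) (nat_lit 0) (XT.lf (nat_lit 0) (nat_lit 91255295370) (nat_lit 76) (nat_lit 5848052985) (nat_lit 76) (nat_lit 2761054229) (nat_lit 3) (nat_lit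 4) (nat_lit 4) (nat_lit 5) (nat_lit 4) (nat_lit 4) (nat_lit 329) (nat_lit 206) (nat_lit 185)) (XT.nd (nat_lit 78) (nat_lit 76) (nat_lit 0) (XT.lf (nat_lit 0) (nat_lit 99519986332) (nat_lit 76) (nat_lit 4202592559) (nat_lit 76) (nat_lit 1033285282) (nat_lit 3) (nat_lit 4) (nat_lit 4) (nat_lit 5) (nat_lit 4) (nat_lit 4) (nat_lit 330) (nat_lit 206) (nat_lit 184)) (XT.lf (nat_lit 0) (nat_lit 715868969) (nat_lit 152) (nat_lit 1780164957) (nat_lit 76) (nat_lit 107397284194) (nat_lit 2) (nat_lit 5) (nat_lit 4) (nat_lit 5) (nat_lit 3) (nat_lit 4) (nat_lit 331) (nat_lit 206) (nat_lit 183))))))) (XT.nd (nat_lit 702) (nat_lit 0) (nat_lit 0) (XT.nd (nat_lit 312) (nat_lit 0) (nat_lit 0) (XT.nd (nat_lit 156) (nat_lit 0) (nat_lit 0) (XT.nd (nat_lit 78) (nat_lit 0) (nat_lit 0) (XT.lf (nat_lit 0) (nat_lit 1819155614) (nat_lit 76) (nat_lit 688897173) (nat_lit 152) (nat_lit 112779257165) (nat_lit 1) (nat_lit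 5) (nat_lit 2) (nat_lit 5) (nat_lit 3) (nat_lit 4) (nat_lit 332) (nat_lit 206) (nat_lit 182)) (XT.lf (nat_lit 0) (nat_lit 4401485712) (nat_lit 152) (nat_lit 115379334422) (nat_lit 0) (nat_lit 1169624953) (nat_lit 1) (nat_lit 5) (nat_lit 3) (nat_lit 4) (nat_lit 1) (nat_lit 4) (nat_lit 333) (nat_lit 206) (nat_lit 181))) (XT.nd (nat_lit 78) (nat_lit 0) (nat_lit 0) (XT.lf (nat_lit 0) (nat_lit 6364815254) (nat_lit 152) (nat_lit 117464721342) (nat_lit 0) (nat_lit 3068463614) (nat_lit 1) (nat_lit 5) (nat_lit 3) (nat_lit 4) (nat_lit 1) (nat_lit 4) (nat_lit 334) (nat_lit 206) (nat_lit 180)) (XT.lf (nat_lit 0) (nat_lit 8391960393) (nat_lit 152) (nat_lit 119718524692) (nat_lit 0) (nat_lit 5034188867) (nat_lit 1) (nat_lit 5) (nat_lit 3) (nat_lit 4) (nat_lit 1) (nat_lit 4) (nat_lit 335) (nat_lit 206) (nat_lit 179)))) (XT.nd (nat_lit 156) (nat_lit 0) (nat_lit 0) (XT.nd (nat_lit 78) (nat_lit 0) (nat_lit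 0) (XT.lf (nat_lit 0) (nat_lit 10487747665) (nat_lit 152) (nat_lit 122146110670) (nat_lit 0) (nat_lit 7071481010) (nat_lit 1) (nat_lit 5) (nat_lit 3) (nat_lit 4) (nat_lit 1) (nat_lit 4) (nat_lit 336) (nat_lit 206) (nat_lit 178)) (XT.lf (nat_lit 0) (nat_lit 12657167040) (nat_lit 152) (nat_lit 124753259241) (nat_lit 0) (nat_lit 9185190737) (nat_lit 1) (nat_lit 5) (nat_lit 3) (nat_lit 4) (nat_lit 1) (nat_lit 4) (nat_lit 337) (nat_lit 206) (nat_lit 177))) (XT.nd (nat_lit 78) (nat_lit 0) (nat_lit 0) (XT.lf (nat_lit 0) (nat_lit 14905383801) (nat_lit 152) (nat_lit 127546177904) (nat_lit 0) (nat_lit 11380350691) (nat_lit 1) (nat_lit 5) (nat_lit 3) (nat_lit 4) (nat_lit 1) (nat_lit 4) (nat_lit 338) (nat_lit 206) (nat_lit 176)) (XT.nd (nat_lit 78) (nat_lit 0) (nat_lit 0) (XT.lf (nat_lit 0) (nat_lit 17237750846) (nat_lit 152) (nat_lit 130531516463) (nat_lit 0) (nat_lit 13662187444) (nat_lit 1)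 (nat_lit 5) (nat_lit 3) (nat_lit 4) (nat_lit 1) (nat_lit 4) (nat_lit 339) (nat_lit 206) (nat_lit 175)) (XT.lf (nat_lit 0) (nat_lit 19659821430) (nat_lit 152) (nat_lit 133716382869) (nat_lit 0) (nat_lit 16036133939) (nat_lit 1) (nat_lit 5) (nat_lit 3) (nat_lit 4) (nat_lit 1) (nat_lit 4) (nat_lit 340) (nat_lit 206) (nat_lit 174)))))) (XT.nd (nat_lit 312) (nat_lit 0) (nat_lit 0) (XT.nd (nat_lit 156) (nat_lit 0) (nat_lit 0) (XT.nd (nat_lit 78) (nat_lit 0) (nat_lit 0) (XT.lf (nat_lit 0) (nat_lit 22177362387) (nat_lit 152) (nat_lit 137108360136) (nat_lit 0) (nat_lit 18507842432) (nat_lit 1) (nat_lit 5) (nat_lit 3) (nat_lit 4) (nat_lit 1) (nat_lit 4) (nat_lit 341) (nat_lit 206) (nat_lit 173)) (XT.lf (nat_lit 0) (nat_lit 24796367863) (nat_lit 152) (nat_lit 140715524401) (nat_lit 0) (nat_lit 21083197941) (nat_lit 1) (nat_lit 5) (nat_lit 3) (nat_lit 4) (nat_lit 1) (nat_lit 4) (nat_lit 342) (nat_lit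 206) (nat_lit 172))) (XT.nd (nat_lit 78) (nat_lit 0) (nat_lit 0) (XT.lf (nat_lit 0) (nat_lit 27523073584) (nat_lit 152) (nat_lit 144546464150) (nat_lit 0) (nat_lit 23768332266) (nat_lit 1) (nat_lit 5) (nat_lit 3) (nat_lit 4) (nat_lit 1) (nat_lit 4) (nat_lit 343) (nat_lit 206) (nat_lit 171)) (XT.lf (nat_lit 0) (nat_lit 30363971708) (nat_lit 152) (nat_lit 148610300668) (nat_lit 0) (nat_lit 26569638584) (nat_lit 1) (nat_lit 5) (nat_lit 3) (nat_lit 4) (nat_lit 1) (nat_lit 4) (nat_lit 344) (nat_lit 206) (nat_lit 170)))) (XT.nd (nat_lit 156) (nat_lit 0) (nat_lit 0) (XT.nd (nat_lit 78) (nat_lit 0) (nat_lit 0) (XT.lf (nat_lit 0) (nat_lit 33325826278) (nat_lit 152) (nat_lit 152916709757) (nat_lit 0) (nat_lit 29493786671) (nat_lit 1) (nat_lit 5) (nat_lit 3) (nat_lit 4) (nat_lit 1) (nat_lit 4) (nat_lit 345) (nat_lit 206) (nat_lit 169)) (XT.lf (nat_lit 0) (nat_lit 36415689327) (nat_lit 152) (nat_lit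 157475944771) (nat_lit 0) (nat_lit 32547738785) (nat_lit 1) (nat_lit 5) (nat_lit 3) (nat_lit 4) (nat_lit 1) (nat_lit 4) (nat_lit 346) (nat_lit 206) (nat_lit 168))) (XT.nd (nat_lit 78) (nat_lit 0) (nat_lit 0) (XT.lf (nat_lit 0) (nat_lit 39640917674) (nat_lit 152) (nat_lit 162298861032) (nat_lit 0) (nat_lit 35738766241) (nat_lit 1) (nat_lit 5) (nat_lit 3) (nat_lit 4) (nat_lit 1) (nat_lit 4) (nat_lit 347) (nat_lit 206) (nat_lit 167)) (XT.nd (nat_lit 78) (nat_lit 0) (nat_lit 0) (XT.lf (nat_lit 0) (nat_lit 43009190432) (nat_lit 152) (nat_lit 167396941673) (nat_lit 0) (nat_lit 39074466723) (nat_lit 1) (nat_lit 5) (nat_lit 3) (nat_lit 4) (nat_lit 1) (nat_lit 4) (nat_lit 348) (nat_lit 206) (nat_lit 166)) (XT.lf (nat_lit 0) (nat_lit 46528527300) (nat_lit 152) (nat_lit 172782324983) (nat_lit 0) (nat_lit 42562782374) (nat_lit 1) (nat_lit 5) (nat_lit 3) (nat_lit 4) (nat_lit 1) (nat_lit 4) (nat_lit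 349) (nat_lit 206) (nat_lit 165))))))))
noncomputable def xc25 : XT := (XT.nd (nat_lit 34164) (nat_lit 0) (nat_lit 152) (XT.nd (nat_lit 702) (nat_lit 0) (nat_lit 0) (XT.nd (nat_lit 312) (nat_lit 0) (nat_lit 0) (XT.nd (nat_lit 156) (nat_lit 0) (nat_lit 0) (XT.nd (nat_lit 78) (nat_lit 0) (nat_lit 0) (XT.lf (nat_lit 0) (nat_lit 50207307651) (nat_lit 152) (nat_lit 178467833302) (nat_lit 0) (nat_lit 46212018709) (nat_lit 1) (nat_lit 5) (nat_lit 3) (nat_lit 4) (nat_lit 1) (nat_lit 4) (nat_lit 350) (nat_lit 206) (nat_lit 164)) (XT.lf (nat_lit 0) (nat_lit 54054290484) (nat_lit 152) (nat_lit 184467003555) (nat_lit 0) (nat_lit 50030864385) (nat_lit 1) (nat_lit 5) (nat_lit 3) (nat_lit 4) (nat_lit 1) (nat_lit 4) (nat_lit 351) (nat_lit 206) (nat_lit 163))) (XT.nd (nat_lit 78) (nat_lit 0) (nat_lit 0) (XT.lf (nat_lit 0) (nat_lit 58078635285) (nat_lit 152) (nat_lit 190794119480) (nat_lit 0) (nat_lit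 54028411893) (nat_lit 1) (nat_lit 5) (nat_lit 3) (nat_lit 4) (nat_lit 1) (nat_lit 4) (nat_lit 352) (nat_lit 206) (nat_lit 162)) (XT.lf (nat_lit 0) (nat_lit 62289923825) (nat_lit 152) (nat_lit 197464245639) (nat_lit 0) (nat_lit 58214179201) (nat_lit 1) (nat_lit 5) (nat_lit 3) (nat_lit 4) (nat_lit 1) (nat_lit 4) (nat_lit 353) (nat_lit 206) (nat_lit 161)))) (XT.nd (nat_lit 156) (nat_lit 0) (nat_lit 0) (XT.nd (nat_lit 78) (nat_lit 0) (nat_lit 0) (XT.lf (nat_lit 0) (nat_lit 66698182982) (nat_lit 152) (nat_lit 204493263286) (nat_lit 0) (nat_lit 62598132424) (nat_lit 1) (nat_lit 5) (nat_lit 3) (nat_lit 4) (nat_lit 1) (nat_lit 4) (nat_lit 354) (nat_lit 206) (nat_lit 160)) (XT.lf (nat_lit 0) (nat_lit 71313908611) (nat_lit 152) (nat_lit 211897908176) (nat_lit 0) (nat_lit 67190709544) (nat_lit 1) (nat_lit 5) (nat_lit 3) (nat_lit 4) (nat_lit 1) (nat_lit 4) (nat_lit 355) (nat_lit 206) (nat_lit 159)))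 (XT.nd (nat_lit 78) (nat_lit 0) (nat_lit 0) (XT.lf (nat_lit 0) (nat_lit 76148090536) (nat_lit 152) (nat_lit 219695810416) (nat_lit 0) (nat_lit 72002845270) (nat_lit 1) (nat_lit 5) (nat_lit 3) (nat_lit 4) (nat_lit 1) (nat_lit 4) (nat_lit 356) (nat_lit 206) (nat_lit 158)) (XT.nd (nat_lit 78) (nat_lit 0) (nat_lit 0) (XT.lf (nat_lit 0) (nat_lit 81212238713) (nat_lit 152) (nat_lit 227905536440) (nat_lit 0) (nat_lit 77045997066) (nat_lit 1) (nat_lit 5) (nat_lit 3) (nat_lit 4) (nat_lit 1) (nat_lit 4) (nat_lit 357) (nat_lit 206) (nat_lit 157)) (XT.lf (nat_lit 0) (nat_lit 86518410638) (nat_lit 152) (nat_lit 236546633215) (nat_lit 0) (nat_lit 82332172439) (nat_lit 1) (nat_lit 5) (nat_lit 3) (nat_lit 4) (nat_lit 1) (nat_lit 4) (nat_lit 358) (nat_lit 206) (nat_lit 156)))))) (XT.nd (nat_lit 312) (nat_lit 0) (nat_lit 0) (XT.nd (nat_lit 156) (nat_lit 0) (nat_lit 0) (XT.nd (nat_lit 78) (nat_lit 0)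 (nat_lit 0) (XT.lf (nat_lit 0) (nat_lit 92079240053) (nat_lit 152) (nat_lit 245639674781) (nat_lit 0) (nat_lit 87873957518) (nat_lit 1) (nat_lit 5) (nat_lit 3) (nat_lit 4) (nat_lit 1) (nat_lit 4) (nat_lit 359) (nat_lit 206) (nat_lit 155)) (XT.lf (nat_lit 0) (nat_lit 97907967029) (nat_lit 152) (nat_lit 255206311237) (nat_lit 0) (nat_lit 93684547032) (nat_lit 1) (nat_lit 5) (nat_lit 3) (nat_lit 4) (nat_lit 1) (nat_lit 4) (nat_lit 360) (nat_lit 206) (nat_lit 154))) (XT.nd (nat_lit 78) (nat_lit 0) (nat_lit 0) (XT.lf (nat_lit 0) (nat_lit 104018469487) (nat_lit 152) (nat_lit 265269320288) (nat_lit 0) (nat_lit 99777775716) (nat_lit 1) (nat_lit 5) (nat_lit 3) (nat_lit 4) (nat_lit 1) (nat_lit 4) (nat_lit 361) (nat_lit 206) (nat_lit 153)) (XT.lf (nat_lit 0) (nat_lit 110425296243) (nat_lit 152) (nat_lit 275852661480) (nat_lit 0) (nat_lit 106168151258) (nat_lit 1) (nat_lit 5) (nat_lit 3) (nat_lit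 4) (nat_lit 1) (nat_lit 4) (nat_lit 362) (nat_lit 206) (nat_lit 152)))) (XT.nd (nat_lit 156) (nat_lit 0) (nat_lit 0) (XT.nd (nat_lit 78) (nat_lit 0) (nat_lit 0) (XT.lf (nat_lit 0) (nat_lit 117143701645) (nat_lit 152) (nat_lit 286981533244) (nat_lit 0) (nat_lit 112870888838) (nat_lit 1) (nat_lit 5) (nat_lit 3) (nat_lit 4) (nat_lit 1) (nat_lit 4) (nat_lit 363) (nat_lit 206) (nat_lit 151)) (XT.lf (nat_lit 0) (nat_lit 124189681897) (nat_lit 152) (nat_lit 298682432895) (nat_lit 0) (nat_lit 119901947355) (nat_lit 1) (nat_lit 5) (nat_lit 3) (nat_lit 4) (nat_lit 1) (nat_lit 4) (nat_lit 364) (nat_lit 206) (nat_lit 150))) (XT.nd (nat_lit 78) (nat_lit 0) (nat_lit 0) (XT.lf (nat_lit 0) (nat_lit 131580013143) (nat_lit 152) (nat_lit 310983219716) (nat_lit 0) (nat_lit 127278067424) (nat_lit 1) (nat_lit 5) (nat_lit 3) (nat_lit 4) (nat_lit 1) (nat_lit 4) (nat_lit 365) (nat_lit 206) (nat_lit 149)) (XT.nd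 (nat_lit 32838) (nat_lit 0) (nat_lit 380) (XT.lf (nat_lit 0) (nat_lit 139332291409) (nat_lit 152) (nat_lit 323913181296) (nat_lit 0) (nat_lit 135016811236) (nat_lit 1) (nat_lit 5) (nat_lit 3) (nat_lit 4) (nat_lit 1) (nat_lit 4) (nat_lit 366) (nat_lit 206) (nat_lit 148)) (XT.lf (nat_lit 0) (nat_lit 13967407017) (nat_lit 76) (nat_lit 1629512801) (nat_lit 76) (nat_lit 1629512801) (nat_lit 6) (nat_lit 4) (nat_lit 7) (nat_lit 5) (nat_lit 7) (nat_lit 4) (nat_lit 306) (nat_lit 207) (nat_lit 207))))))) (XT.nd (nat_lit 702) (nat_lit 0) (nat_lit 0) (XT.nd (nat_lit 312) (nat_lit 76) (nat_lit 0) (XT.nd (nat_lit 156) (nat_lit 0) (nat_lit 0) (XT.nd (nat_lit 78) (nat_lit 152) (nat_lit 0) (XT.lf (nat_lit 0) (nat_lit 35410170270) (nat_lit 76) (nat_lit 423972465) (nat_lit 76) (nat_lit 171159885) (nat_lit 6) (nat_lit 4) (nat_lit 7) (nat_lit 5) (nat_lit 7) (nat_lit 4) (nat_lit 307) (nat_lit 207) (nat_lit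 206)) (XT.lf (nat_lit 0) (nat_lit 2993104547) (nat_lit 152) (nat_lit 32115909766) (nat_lit 0) (nat_lit 2523022199) (nat_lit 4) (nat_lit 5) (nat_lit 6) (nat_lit 4) (nat_lit 4) (nat_lit 4) (nat_lit 308) (nat_lit 207) (nat_lit 205))) (XT.nd (nat_lit 78) (nat_lit 0) (nat_lit 0) (XT.lf (nat_lit 0) (nat_lit 6220593402) (nat_lit 152) (nat_lit 27591796102) (nat_lit 0) (nat_lit 5532122042) (nat_lit 4) (nat_lit 5) (nat_lit 6) (nat_lit 4) (nat_lit 4) (nat_lit 4) (nat_lit 309) (nat_lit 207) (nat_lit 204)) (XT.lf (nat_lit 0) (nat_lit 9508093694) (nat_lit 152) (nat_lit 23028030948) (nat_lit 0) (nat_lit 8611632799) (nat_lit 4) (nat_lit 5) (nat_lit 6) (nat_lit 4) (nat_lit 4) (nat_lit 4) (nat_lit 310) (nat_lit 207) (nat_lit 203)))) (XT.nd (nat_lit 156) (nat_lit 76) (nat_lit 0) (XT.nd (nat_lit 78) (nat_lit 0) (nat_lit 0) (XT.lf (nat_lit 0) (nat_lit 12863432805) (nat_lit 152) (nat_lit 18413748196) (nat_lit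 0) (nat_lit 11768886638) (nat_lit 4) (nat_lit 5) (nat_lit 6) (nat_lit 4) (nat_lit 4) (nat_lit 4) (nat_lit 311) (nat_lit 207) (nat_lit 202)) (XT.lf (nat_lit 0) (nat_lit 16294599637) (nat_lit 152) (nat_lit 13737961460) (nat_lit 0) (nat_lit 15011400830) (nat_lit 4) (nat_lit 5) (nat_lit 6) (nat_lit 4) (nat_lit 4) (nat_lit 4) (nat_lit 312) (nat_lit 207) (nat_lit 201))) (XT.nd (nat_lit 78) (nat_lit 76) (nat_lit 0) (XT.lf (nat_lit 0) (nat_lit 19809763635) (nat_lit 152) (nat_lit 8989537912) (nat_lit 0) (nat_lit 18346895648) (nat_lit 4) (nat_lit 5) (nat_lit 6) (nat_lit 4) (nat_lit 4) (nat_lit 4) (nat_lit 313) (nat_lit 207) (nat_lit 200)) (XT.nd (nat_lit 78) (nat_lit 76) (nat_lit 0) (XT.lf (nat_lit 0) (nat_lit 23417294238) (nat_lit 152) (nat_lit 4157171783) (nat_lit 0) (nat_lit 21783312746) (nat_lit 4) (nat_lit 5) (nat_lit 6) (nat_lit 4) (nat_lit 4) (nat_lit 4) (nat_lit 314) (nat_lit 207) (nat_lit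 199)) (XT.lf (nat_lit 0) (nat_lit 796123482) (nat_lit 76) (nat_lit 26342087040) (nat_lit 76) (nat_lit 24545140304) (nat_lit 3) (nat_lit 4) (nat_lit 4) (nat_lit 5) (nat_lit 4) (nat_lit 4) (nat_lit 315) (nat_lit 207) (nat_lit 198)))))) (XT.nd (nat_lit 312) (nat_lit 0) (nat_lit 0) (XT.nd (nat_lit 156) (nat_lit 0) (nat_lit 0) (XT.nd (nat_lit 78) (nat_lit 0) (nat_lit 0) (XT.lf (nat_lit 0) (nat_lit 5997598620) (nat_lit 76) (nat_lit 25040093765) (nat_lit 76) (nat_lit 23087942036) (nat_lit 3) (nat_lit 4) (nat_lit 4) (nat_lit 5) (nat_lit 4) (nat_lit 4) (nat_lit 316) (nat_lit 207) (nat_lit 197)) (XT.lf (nat_lit 0) (nat_lit 11322183220) (nat_lit 76) (nat_lit 23735789929) (nat_lit 76) (nat_lit 21635823920) (nat_lit 3) (nat_lit 4) (nat_lit 4) (nat_lit 5) (nat_lit 4) (nat_lit 4) (nat_lit 317) (nat_lit 207) (nat_lit 196))) (XT.nd (nat_lit 78) (nat_lit 0) (nat_lit 0) (XT.lf (nat_lit 0) (nat_lit 16782554864)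 (nat_lit 76) (nat_lit 22426070047) (nat_lit 76) (nat_lit 20185328534) (nat_lit 3) (nat_lit 4) (nat_lit 4) (nat_lit 5) (nat_lit 4) (nat_lit 4) (nat_lit 318) (nat_lit 207) (nat_lit 195)) (XT.lf (nat_lit 0) (nat_lit 22391714437) (nat_lit 76) (nat_lit 21107815737) (nat_lit 76) (nat_lit 18733002316) (nat_lit 3) (nat_lit 4) (nat_lit 4) (nat_lit 5) (nat_lit 4) (nat_lit 4) (nat_lit 319) (nat_lit 207) (nat_lit 194)))) (XT.nd (nat_lit 156) (nat_lit 0) (nat_lit 0) (XT.nd (nat_lit 78) (nat_lit 0) (nat_lit 0) (XT.lf (nat_lit 0) (nat_lit 28163017082) (nat_lit 76) (nat_lit 19777888300) (nat_lit 76) (nat_lit 17275387347) (nat_lit 3) (nat_lit 4) (nat_lit 4) (nat_lit 5) (nat_lit 4) (nat_lit 4) (nat_lit 320) (nat_lit 207) (nat_lit 193)) (XT.lf (nat_lit 0) (nat_lit 34110203994) (nat_lit 76) (nat_lit 18433121242) (nat_lit 76) (nat_lit 15809013114) (nat_lit 3) (nat_lit 4) (nat_lit 4) (nat_lit 5) (nat_lit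 4) (nat_lit 4) (nat_lit 321) (nat_lit 207) (nat_lit 192))) (XT.nd (nat_lit 78) (nat_lit 0) (nat_lit 0) (XT.lf (nat_lit 0) (nat_lit 40247435144) (nat_lit 76) (nat_lit 17070312735) (nat_lit 76) (nat_lit 14330388252) (nat_lit 3) (nat_lit 4) (nat_lit 4) (nat_lit 5) (nat_lit 4) (nat_lit 4) (nat_lit 322) (nat_lit 207) (nat_lit 191)) (XT.nd (nat_lit 78) (nat_lit 0) (nat_lit 0) (XT.lf (nat_lit 0) (nat_lit 46589322985) (nat_lit 76) (nat_lit 15686217998) (nat_lit 76) (nat_lit 12835992224) (nat_lit 3) (nat_lit 4) (nat_lit 4) (nat_lit 5) (nat_lit 4) (nat_lit 4) (nat_lit 323) (nat_lit 207) (nat_lit 190)) (XT.lf (nat_lit 0) (nat_lit 53150967251) (nat_lit 76) (nat_lit 14277541568) (nat_lit 76) (nat_lit 11322266945) (nat_lit 3) (nat_lit 4) (nat_lit 4) (nat_lit 5) (nat_lit 4) (nat_lit 4) (nat_lit 324) (nat_lit 207) (nat_lit 189))))))))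
noncomputable def xc26 : XT := (XT.nd (nat_lit 1404) (nat_lit 0) (nat_lit 0) (XT.nd (nat_lit 702) (nat_lit 0) (nat_lit 0) (XT.nd (nat_lit 312) (nat_lit 152) (nat_lit 0) (XT.nd (nat_lit 156) (nat_lit 0) (nat_lit 0) (XT.nd (nat_lit 78) (nat_lit 0) (nat_lit 0) (XT.lf (nat_lit 0) (nat_lit 59947990904) (nat_lit 76) (nat_lit 12840929452) (nat_lit 76) (nat_lit 9785608306) (nat_lit 3) (nat_lit 4) (nat_lit 4) (nat_lit 5) (nat_lit 4) (nat_lit 4) (nat_lit 325) (nat_lit 207) (nat_lit 188)) (XT.lf (nat_lit 0) (nat_lit 66996577334) (nat_lit 76) (nat_lit 11372961146) (nat_lit 76) (nat_lit 8222357598) (nat_lit 3) (nat_lit 4) (nat_lit 4) (nat_lit 5) (nat_lit 4) (nat_lit 4) (nat_lit 326) (nat_lit 207) (nat_lit 187))) (XT.nd (nat_lit 78) (nat_lit 0) (nat_lit 0) (XT.lf (nat_lit 0) (nat_lit 74313508890) (nat_lit 76) (nat_lit 9870141487) (nat_lit 76) (nat_lit 6628792794) (nat_lit 3) (nat_lit 4) (nat_lit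 4) (nat_lit 5) (nat_lit 4) (nat_lit 4) (nat_lit 327) (nat_lit 207) (nat_lit 186)) (XT.lf (nat_lit 0) (nat_lit 81916206837) (nat_lit 76) (nat_lit 8328892333) (nat_lit 76) (nat_lit 5001119692) (nat_lit 3) (nat_lit 4) (nat_lit 4) (nat_lit 5) (nat_lit 4) (nat_lit 4) (nat_lit 328) (nat_lit 207) (nat_lit 185)))) (XT.nd (nat_lit 156) (nat_lit 152) (nat_lit 0) (XT.nd (nat_lit 78) (nat_lit 0) (nat_lit 0) (XT.lf (nat_lit 0) (nat_lit 89822772837) (nat_lit 76) (nat_lit 6745544043) (nat_lit 76) (nat_lit 3335462880) (nat_lit 3) (nat_lit 4) (nat_lit 4) (nat_lit 5) (nat_lit 4) (nat_lit 4) (nat_lit 329) (nat_lit 207) (nat_lit 184)) (XT.lf (nat_lit 0) (nat_lit 98052032048) (nat_lit 76) (nat_lit 5116326740) (nat_lit 76) (nat_lit 1627856509) (nat_lit 3) (nat_lit 4) (nat_lit 4) (nat_lit 5) (nat_lit 4) (nat_lit 4) (nat_lit 330) (nat_lit 207) (nat_lit 183))) (XT.nd (nat_lit 78) (nat_lit 76) (nat_lit 0) (XT.lf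 (nat_lit 0) (nat_lit 121739880) (nat_lit 152) (nat_lit 3313559732) (nat_lit 76) (nat_lit 106499776339) (nat_lit 2) (nat_lit 5) (nat_lit 4) (nat_lit 5) (nat_lit 3) (nat_lit 4) (nat_lit 331) (nat_lit 207) (nat_lit 182)) (XT.nd (nat_lit 78) (nat_lit 0) (nat_lit 0) (XT.lf (nat_lit 0) (nat_lit 201241983) (nat_lit 76) (nat_lit 1669718829) (nat_lit 152) (nat_lit 113460267655) (nat_lit 1) (nat_lit 5) (nat_lit 2) (nat_lit 5) (nat_lit 3) (nat_lit 4) (nat_lit 332) (nat_lit 207) (nat_lit 181)) (XT.lf (nat_lit 0) (nat_lit 3731486008) (nat_lit 152) (nat_lit 117058709015) (nat_lit 0) (nat_lit 205825906) (nat_lit 1) (nat_lit 5) (nat_lit 3) (nat_lit 4) (nat_lit 1) (nat_lit 4) (nat_lit 333) (nat_lit 207) (nat_lit 180)))))) (XT.nd (nat_lit 312) (nat_lit 0) (nat_lit 0) (XT.nd (nat_lit 156) (nat_lit 0) (nat_lit 0) (XT.nd (nat_lit 78) (nat_lit 0) (nat_lit 0) (XT.lf (nat_lit 0) (nat_lit 5678059024) (nat_lit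 152) (nat_lit 119175387196) (nat_lit 0) (nat_lit 2090979035) (nat_lit 1) (nat_lit 5) (nat_lit 3) (nat_lit 4) (nat_lit 1) (nat_lit 4) (nat_lit 334) (nat_lit 207) (nat_lit 179)) (XT.lf (nat_lit 0) (nat_lit 7689245566) (nat_lit 152) (nat_lit 121458991745) (nat_lit 0) (nat_lit 4043670448) (nat_lit 1) (nat_lit 5) (nat_lit 3) (nat_lit 4) (nat_lit 1) (nat_lit 4) (nat_lit 335) (nat_lit 207) (nat_lit 178))) (XT.nd (nat_lit 78) (nat_lit 0) (nat_lit 0) (XT.lf (nat_lit 0) (nat_lit 9769834174) (nat_lit 152) (nat_lit 123914959818) (nat_lit 0) (nat_lit 6068549408) (nat_lit 1) (nat_lit 5) (nat_lit 3) (nat_lit 4) (nat_lit 1) (nat_lit 4) (nat_lit 336) (nat_lit 207) (nat_lit 177)) (XT.lf (nat_lit 0) (nat_lit 11924778630) (nat_lit 152) (nat_lit 126549138957) (nat_lit 0) (nat_lit 8170437058) (nat_lit 1) (nat_lit 5) (nat_lit 3) (nat_lit 4) (nat_lit 1) (nat_lit 4) (nat_lit 337) (nat_lit 207) (nat_lit 176))))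 (XT.nd (nat_lit 156) (nat_lit 0) (nat_lit 0) (XT.nd (nat_lit 78) (nat_lit 0) (nat_lit 0) (XT.lf (nat_lit 0) (nat_lit 14159209755) (nat_lit 152) (nat_lit 129367801016) (nat_lit 0) (nat_lit 10354337891) (nat_lit 1) (nat_lit 5) (nat_lit 3) (nat_lit 4) (nat_lit 1) (nat_lit 4) (nat_lit 338) (nat_lit 207) (nat_lit 175)) (XT.lf (nat_lit 0) (nat_lit 16478447623) (nat_lit 152) (nat_lit 132377657097) (nat_lit 0) (nat_lit 12625451670) (nat_lit 1) (nat_lit 5) (nat_lit 3) (nat_lit 4) (nat_lit 1) (nat_lit 4) (nat_lit 339) (nat_lit 207) (nat_lit 174))) (XT.nd (nat_lit 78) (nat_lit 0) (nat_lit 0) (XT.lf (nat_lit 0) (nat_lit 18888014229) (nat_lit 152) (nat_lit 135585873523) (nat_lit 0) (nat_lit 14989185811) (nat_lit 1) (nat_lit 5) (nat_lit 3) (nat_lit 4) (nat_lit 1) (nat_lit 4) (nat_lit 340) (nat_lit 207) (nat_lit 173)) (XT.nd (nat_lit 78) (nat_lit 0) (nat_lit 0) (XT.lf (nat_lit 0) (nat_lit 21393646635)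 (nat_lit 152) (nat_lit 139000088904) (nat_lit 0) (nat_lit 17451168251) (nat_lit 1) (nat_lit 5) (nat_lit 3) (nat_lit 4) (nat_lit 1) (nat_lit 4) (nat_lit 341) (nat_lit 207) (nat_lit 172)) (XT.lf (nat_lit 0) (nat_lit 24001310634) (nat_lit 152) (nat_lit 142628432326) (nat_lit 0) (nat_lit 20017260853) (nat_lit 1) (nat_lit 5) (nat_lit 3) (nat_lit 4) (nat_lit 1) (nat_lit 4) (nat_lit 342) (nat_lit 207) (nat_lit 171))))))) (XT.nd (nat_lit 702) (nat_lit 0) (nat_lit 0) (XT.nd (nat_lit 312) (nat_lit 0) (nat_lit 0) (XT.nd (nat_lit 156) (nat_lit 0) (nat_lit 0) (XT.nd (nat_lit 78) (nat_lit 0) (nat_lit 0) (XT.lf (nat_lit 0) (nat_lit 26717214948) (nat_lit 152) (nat_lit 146479542700) (nat_lit 0) (nat_lit 22693573361) (nat_lit 1) (nat_lit 5) (nat_lit 3) (nat_lit 4) (nat_lit 1) (nat_lit 4) (nat_lit 343) (nat_lit 207) (nat_lit 170)) (XT.lf (nat_lit 0) (nat_lit 29547826018) (nat_lit 152) (nat_lit 150562589337)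 (nat_lit 0) (nat_lit 25486477949) (nat_lit 1) (nat_lit 5) (nat_lit 3) (nat_lit 4) (nat_lit 1) (nat_lit 4) (nat_lit 344) (nat_lit 207) (nat_lit 169))) (XT.nd (nat_lit 78) (nat_lit 0) (nat_lit 0) (XT.lf (nat_lit 0) (nat_lit 32499883393) (nat_lit 152) (nat_lit 154887293778) (nat_lit 0) (nat_lit 28402624389) (nat_lit 1) (nat_lit 5) (nat_lit 3) (nat_lit 4) (nat_lit 1) (nat_lit 4) (nat_lit 345) (nat_lit 207) (nat_lit 168)) (XT.lf (nat_lit 0) (nat_lit 35580415782) (nat_lit 152) (nat_lit 159463952936) (nat_lit 0) (nat_lit 31448955886) (nat_lit 1) (nat_lit 5) (nat_lit 3) (nat_lit 4) (nat_lit 1) (nat_lit 4) (nat_lit 346) (nat_lit 207) (nat_lit 167)))) (XT.nd (nat_lit 156) (nat_lit 0) (nat_lit 0) (XT.nd (nat_lit 78) (nat_lit 0) (nat_lit 0) (XT.lf (nat_lit 0) (nat_lit 38796757784) (nat_lit 152) (nat_lit 164303463620) (nat_lit 0) (nat_lit 34632725612) (nat_lit 1) (nat_lit 5) (nat_lit 3) (nat_lit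 4) (nat_lit 1) (nat_lit 4) (nat_lit 347) (nat_lit 207) (nat_lit 166)) (XT.lf (nat_lit 0) (nat_lit 42156567358) (nat_lit 152) (nat_lit 169417348474) (nat_lit 0) (nat_lit 37961513970) (nat_lit 1) (nat_lit 5) (nat_lit 3) (nat_lit 4) (nat_lit 1) (nat_lit 4) (nat_lit 348) (nat_lit 207) (nat_lit 165))) (XT.nd (nat_lit 78) (nat_lit 0) (nat_lit 0) (XT.lf (nat_lit 0) (nat_lit 45667844050) (nat_lit 152) (nat_lit 174817783415) (nat_lit 0) (nat_lit 41443246646) (nat_lit 1) (nat_lit 5) (nat_lit 3) (nat_lit 4) (nat_lit 1) (nat_lit 4) (nat_lit 349) (nat_lit 207) (nat_lit 164)) (XT.nd (nat_lit 78) (nat_lit 0) (nat_lit 0) (XT.lf (nat_lit 0) (nat_lit 49338948042) (nat_lit 152) (nat_lit 180517626621) (nat_lit 0) (nat_lit 45086213481) (nat_lit 1) (nat_lit 5) (nat_lit 3) (nat_lit 4) (nat_lit 1) (nat_lit 4) (nat_lit 350) (nat_lit 207) (nat_lit 163)) (XT.lf (nat_lit 0) (nat_lit 53178620059) (nat_lit 152)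 (nat_lit 186530449147) (nat_lit 0) (nat_lit 48899088204) (nat_lit 1) (nat_lit 5) (nat_lit 3) (nat_lit 4) (nat_lit 1) (nat_lit 4) (nat_lit 351) (nat_lit 207) (nat_lit 162)))))) (XT.nd (nat_lit 312) (nat_lit 0) (nat_lit 0) (XT.nd (nat_lit 156) (nat_lit 0) (nat_lit 0) (XT.nd (nat_lit 78) (nat_lit 0) (nat_lit 0) (XT.lf (nat_lit 0) (nat_lit 57196002176) (nat_lit 152) (nat_lit 192870567237) (nat_lit 0) (nat_lit 52890949090) (nat_lit 1) (nat_lit 5) (nat_lit 3) (nat_lit 4) (nat_lit 1) (nat_lit 4) (nat_lit 352) (nat_lit 207) (nat_lit 161)) (XT.lf (nat_lit 0) (nat_lit 61400659589) (nat_lit 152) (nat_lit 199553076411) (nat_lit 0) (nat_lit 57071300569) (nat_lit 1) (nat_lit 5) (nat_lit 3) (nat_lit 4) (nat_lit 1) (nat_lit 4) (nat_lit 353) (nat_lit 207) (nat_lit 160))) (XT.nd (nat_lit 78) (nat_lit 0) (nat_lit 0) (XT.lf (nat_lit 0) (nat_lit 65802603388) (nat_lit 152) (nat_lit 206593887404) (nat_lit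 0) (nat_lit 61450095858) (nat_lit 1) (nat_lit 5) (nat_lit 3) (nat_lit 4) (nat_lit 1) (nat_lit 4) (nat_lit 354) (nat_lit 207) (nat_lit 159)) (XT.lf (nat_lit 0) (nat_lit 70412314390) (nat_lit 152) (nat_lit 214009764053) (nat_lit 0) (nat_lit 66037760661) (nat_lit 1) (nat_lit 5) (nat_lit 3) (nat_lit 4) (nat_lit 1) (nat_lit 4) (nat_lit 355) (nat_lit 207) (nat_lit 158)))) (XT.nd (nat_lit 156) (nat_lit 0) (nat_lit 0) (XT.nd (nat_lit 78) (nat_lit 0) (nat_lit 0) (XT.lf (nat_lit 0) (nat_lit 75240768098) (nat_lit 152) (nat_lit 221818363206) (nat_lit 0) (nat_lit 70845217989) (nat_lit 1) (nat_lit 5) (nat_lit 3) (nat_lit 4) (nat_lit 1) (nat_lit 4) (nat_lit 356) (nat_lit 207) (nat_lit 157)) (XT.lf (nat_lit 0) (nat_lit 80299460830) (nat_lit 152) (nat_lit 230038276767) (nat_lit 0) (nat_lit 75883914169) (nat_lit 1) (nat_lit 5) (nat_lit 3) (nat_lit 4) (nat_lit 1) (nat_lit 4) (nat_lit 357) (nat_lit 207)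 (nat_lit 156))) (XT.nd (nat_lit 78) (nat_lit 0) (nat_lit 0) (XT.lf (nat_lit 0) (nat_lit 85600437094) (nat_lit 152) (nat_lit 238689075958) (nat_lit 0) (nat_lit 81165846097) (nat_lit 1) (nat_lit 5) (nat_lit 3) (nat_lit 4) (nat_lit 1) (nat_lit 4) (nat_lit 358) (nat_lit 207) (nat_lit 155)) (XT.nd (nat_lit 78) (nat_lit 0) (nat_lit 0) (XT.lf (nat_lit 0) (nat_lit 91156318261) (nat_lit 152) (nat_lit 247791357919) (nat_lit 0) (nat_lit 86703589801) (nat_lit 1) (nat_lit 5) (nat_lit 3) (nat_lit 4) (nat_lit 1) (nat_lit 4) (nat_lit 359) (nat_lit 207) (nat_lit 154)) (XT.lf (nat_lit 0) (nat_lit 96980332619) (nat_lit 152) (nat_lit 257366794752) (nat_lit 0) (nat_lit 92510330385) (nat_lit 1) (nat_lit 5) (nat_lit 3) (nat_lit 4) (nat_lit 1) (nat_lit 4) (nat_lit 360) (nat_lit 207) (nat_lit 153))))))))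
noncomputable def xc27 : XT := (XT.nd (nat_lit 34008) (nat_lit 0) (nat_lit 0) (XT.nd (nat_lit 33306) (nat_lit 0) (nat_lit 228) (XT.nd (nat_lit 312) (nat_lit 0) (nat_lit 0) (XT.nd (nat_lit 156) (nat_lit 0) (nat_lit 0) (XT.nd (nat_lit 78) (nat_lit 0) (nat_lit 0) (XT.lf (nat_lit 0) (nat_lit 103086346869) (nat_lit 152) (nat_lit 267438185114) (nat_lit 0) (nat_lit 98599893422) (nat_lit 1) (nat_lit 5) (nat_lit 3) (nat_lit 4) (nat_lit 1) (nat_lit 4) (nat_lit 361) (nat_lit 207) (nat_lit 152)) (XT.lf (nat_lit 0) (nat_lit 109488899141) (nat_lit 152) (nat_lit 278029508508) (nat_lit 0) (nat_lit 104986777872) (nat_lit 1) (nat_lit 5) (nat_lit 3) (nat_lit 4) (nat_lit 1) (nat_lit 4) (nat_lit 362) (nat_lit 207) (nat_lit 151))) (XT.nd (nat_lit 78) (nat_lit 0) (nat_lit 0) (XT.lf (nat_lit 0) (nat_lit 116203233606) (nat_lit 152) (nat_lit 289165982369) (nat_lit 0) (nat_lit 111686190602) (nat_lit 1) (nat_lit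 5) (nat_lit 3) (nat_lit 4) (nat_lit 1) (nat_lit 4) (nat_lit 363) (nat_lit 207) (nat_lit 150)) (XT.lf (nat_lit 0) (nat_lit 123245336776) (nat_lit 152) (nat_lit 300874122111) (nat_lit 0) (nat_lit 118714082595) (nat_lit 1) (nat_lit 5) (nat_lit 3) (nat_lit 4) (nat_lit 1) (nat_lit 4) (nat_lit 364) (nat_lit 207) (nat_lit 149)))) (XT.nd (nat_lit 32760) (nat_lit 0) (nat_lit 380) (XT.nd (nat_lit 78) (nat_lit 0) (nat_lit 0) (XT.lf (nat_lit 0) (nat_lit 130631975563) (nat_lit 152) (nat_lit 313181804258) (nat_lit 0) (nat_lit 126087186927) (nat_lit 1) (nat_lit 5) (nat_lit 3) (nat_lit 4) (nat_lit 1) (nat_lit 4) (nat_lit 365) (nat_lit 207) (nat_lit 148)) (XT.lf (nat_lit 0) (nat_lit 138380737201) (nat_lit 152) (nat_lit 326118332815) (nat_lit 0) (nat_lit 133823058609) (nat_lit 1) (nat_lit 5) (nat_lit 3) (nat_lit 4) (nat_lit 1) (nat_lit 4) (nat_lit 366) (nat_lit 207) (nat_lit 147))) (XT.nd (nat_lit 78)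 (nat_lit 0) (nat_lit 0) (XT.lf (nat_lit 0) (nat_lit 6781650065) (nat_lit 76) (nat_lit 4504039111) (nat_lit 76) (nat_lit 4504039111) (nat_lit 6) (nat_lit 4) (nat_lit 7) (nat_lit 5) (nat_lit 7) (nat_lit 4) (nat_lit 304) (nat_lit 208) (nat_lit 208)) (XT.nd (nat_lit 78) (nat_lit 0) (nat_lit 0) (XT.lf (nat_lit 0) (nat_lit 20624011448) (nat_lit 76) (nat_lit 6310577496) (nat_lit 76) (nat_lit 6045124287) (nat_lit 6) (nat_lit 4) (nat_lit 7) (nat_lit 5) (nat_lit 7) (nat_lit 4) (nat_lit 305) (nat_lit 208) (nat_lit 207)) (XT.lf (nat_lit 0) (nat_lit 27836771849) (nat_lit 76) (nat_lit 3568552217) (nat_lit 76) (nat_lit 3050286428) (nat_lit 6) (nat_lit 4) (nat_lit 7) (nat_lit 5) (nat_lit 7) (nat_lit 4) (nat_lit 306) (nat_lit 208) (nat_lit 206)))))) (XT.nd (nat_lit 312) (nat_lit 0) (nat_lit 0) (XT.nd (nat_lit 156) (nat_lit 0) (nat_lit 0) (XT.nd (nat_lit 78) (nat_lit 152) (nat_lit 0) (XT.lf (nat_lit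 0) (nat_lit 35218754573) (nat_lit 76) (nat_lit 775473754) (nat_lit 76) (nat_lit 16434079) (nat_lit 6) (nat_lit 4) (nat_lit 7) (nat_lit 5) (nat_lit 7) (nat_lit 4) (nat_lit 307) (nat_lit 208) (nat_lit 205)) (XT.lf (nat_lit 0) (nat_lit 3082246777) (nat_lit 152) (nat_lit 32417137911) (nat_lit 0) (nat_lit 2140962837) (nat_lit 4) (nat_lit 5) (nat_lit 6) (nat_lit 4) (nat_lit 4) (nat_lit 4) (nat_lit 308) (nat_lit 208) (nat_lit 204))) (XT.nd (nat_lit 78) (nat_lit 0) (nat_lit 0) (XT.lf (nat_lit 0) (nat_lit 6260290263) (nat_lit 152) (nat_lit 27984026293) (nat_lit 0) (nat_lit 5111016788) (nat_lit 4) (nat_lit 5) (nat_lit 6) (nat_lit 4) (nat_lit 4) (nat_lit 4) (nat_lit 309) (nat_lit 208) (nat_lit 203)) (XT.lf (nat_lit 0) (nat_lit 9500699727) (nat_lit 152) (nat_lit 23506929754) (nat_lit 0) (nat_lit 8153340981) (nat_lit 4) (nat_lit 5) (nat_lit 6) (nat_lit 4) (nat_lit 4) (nat_lit 4) (nat_lit 310) (nat_lit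 208) (nat_lit 202)))) (XT.nd (nat_lit 156) (nat_lit 0) (nat_lit 0) (XT.nd (nat_lit 78) (nat_lit 0) (nat_lit 0) (XT.lf (nat_lit 0) (nat_lit 12811190431) (nat_lit 152) (nat_lit 18975188540) (nat_lit 0) (nat_lit 11275179045) (nat_lit 4) (nat_lit 5) (nat_lit 6) (nat_lit 4) (nat_lit 4) (nat_lit 4) (nat_lit 311) (nat_lit 208) (nat_lit 201)) (XT.lf (nat_lit 0) (nat_lit 16199644495) (nat_lit 152) (nat_lit 14378012791) (nat_lit 0) (nat_lit 14483963928) (nat_lit 4) (nat_lit 5) (nat_lit 6) (nat_lit 4) (nat_lit 4) (nat_lit 4) (nat_lit 312) (nat_lit 208) (nat_lit 200))) (XT.nd (nat_lit 78) (nat_lit 0) (nat_lit 0) (XT.lf (nat_lit 0) (nat_lit 19674129666) (nat_lit 152) (nat_lit 9704456851) (nat_lit 0) (nat_lit 17787335594) (nat_lit 4) (nat_lit 5) (nat_lit 6) (nat_lit 4) (nat_lit 4) (nat_lit 4) (nat_lit 313) (nat_lit 208) (nat_lit 199)) (XT.nd (nat_lit 78) (nat_lit 0) (nat_lit 0) (XT.lf (nat_lit 0)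 (nat_lit 23242918529) (nat_lit 152) (nat_lit 4943393207) (nat_lit 0) (nat_lit 21193159214) (nat_lit 4) (nat_lit 5) (nat_lit 6) (nat_lit 4) (nat_lit 4) (nat_lit 4) (nat_lit 314) (nat_lit 208) (nat_lit 198)) (XT.lf (nat_lit 0) (nat_lit 26914508200) (nat_lit 152) (nat_lit 83485991) (nat_lit 0) (nat_lit 24709543891) (nat_lit 4) (nat_lit 5) (nat_lit 6) (nat_lit 4) (nat_lit 4) (nat_lit 4) (nat_lit 315) (nat_lit 208) (nat_lit 197))))))) (XT.nd (nat_lit 702) (nat_lit 152) (nat_lit 0) (XT.nd (nat_lit 312) (nat_lit 0) (nat_lit 0) (XT.nd (nat_lit 156) (nat_lit 0) (nat_lit 0) (XT.nd (nat_lit 78) (nat_lit 0) (nat_lit 0) (XT.lf (nat_lit 0) (nat_lit 5048416871) (nat_lit 76) (nat_lit 25728043622) (nat_lit 76) (nat_lit 23375265034) (nat_lit 3) (nat_lit 4) (nat_lit 4) (nat_lit 5) (nat_lit 4) (nat_lit 4) (nat_lit 316) (nat_lit 208) (nat_lit 196)) (XT.lf (nat_lit 0) (nat_lit 10309371136) (nat_lit 76) (nat_lit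 24452910101) (nat_lit 76) (nat_lit 21959356008) (nat_lit 3) (nat_lit 4) (nat_lit 4) (nat_lit 5) (nat_lit 4) (nat_lit 4) (nat_lit 317) (nat_lit 208) (nat_lit 195))) (XT.nd (nat_lit 78) (nat_lit 0) (nat_lit 0) (XT.lf (nat_lit 0) (nat_lit 15709142462) (nat_lit 76) (nat_lit 23170971471) (nat_lit 76) (nat_lit 20543345470) (nat_lit 3) (nat_lit 4) (nat_lit 4) (nat_lit 5) (nat_lit 4) (nat_lit 4) (nat_lit 318) (nat_lit 208) (nat_lit 194)) (XT.lf (nat_lit 0) (nat_lit 21260587446) (nat_lit 76) (nat_lit 21879175497) (nat_lit 76) (nat_lit 19123861964) (nat_lit 3) (nat_lit 4) (nat_lit 4) (nat_lit 5) (nat_lit 4) (nat_lit 4) (nat_lit 319) (nat_lit 208) (nat_lit 193)))) (XT.nd (nat_lit 156) (nat_lit 0) (nat_lit 0) (XT.nd (nat_lit 78) (nat_lit 0) (nat_lit 0) (XT.lf (nat_lit 0) (nat_lit 26976923816) (nat_lit 76) (nat_lit 20574446475) (nat_lit 76) (nat_lit 17697525768) (nat_lit 3) (nat_lit 4) (nat_lit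 4) (nat_lit 5) (nat_lit 4) (nat_lit 4) (nat_lit 320) (nat_lit 208) (nat_lit 192)) (XT.lf (nat_lit 0) (nat_lit 32871761895) (nat_lit 76) (nat_lit 19253677907) (nat_lit 76) (nat_lit 16260940844) (nat_lit 3) (nat_lit 4) (nat_lit 4) (nat_lit 5) (nat_lit 4) (nat_lit 4) (nat_lit 321) (nat_lit 208) (nat_lit 191))) (XT.nd (nat_lit 78) (nat_lit 0) (nat_lit 0) (XT.lf (nat_lit 0) (nat_lit 38959137012) (nat_lit 76) (nat_lit 17913725105) (nat_lit 76) (nat_lit 14810686751) (nat_lit 3) (nat_lit 4) (nat_lit 4) (nat_lit 5) (nat_lit 4) (nat_lit 4) (nat_lit 322) (nat_lit 208) (nat_lit 190)) (XT.nd (nat_lit 78) (nat_lit 0) (nat_lit 0) (XT.lf (nat_lit 0) (nat_lit 45253542918) (nat_lit 76) (nat_lit 16551397706) (nat_lit 76) (nat_lit 13343310503) (nat_lit 3) (nat_lit 4) (nat_lit 4) (nat_lit 5) (nat_lit 4) (nat_lit 4) (nat_lit 323) (nat_lit 208) (nat_lit 189)) (XT.lf (nat_lit 0) (nat_lit 51769966293) (nat_lit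 76) (nat_lit 15163452074) (nat_lit 76) (nat_lit 11855318348) (nat_lit 3) (nat_lit 4) (nat_lit 4) (nat_lit 5) (nat_lit 4) (nat_lit 4) (nat_lit 324) (nat_lit 208) (nat_lit 188)))))) (XT.nd (nat_lit 390) (nat_lit 152) (nat_lit 0) (XT.nd (nat_lit 156) (nat_lit 0) (nat_lit 0) (XT.nd (nat_lit 78) (nat_lit 0) (nat_lit 0) (XT.lf (nat_lit 0) (nat_lit 58523922431) (nat_lit 76) (nat_lit 13746583576) (nat_lit 76) (nat_lit 10343167447) (nat_lit 3) (nat_lit 4) (nat_lit 4) (nat_lit 5) (nat_lit 4) (nat_lit 4) (nat_lit 325) (nat_lit 208) (nat_lit 187)) (XT.lf (nat_lit 0) (nat_lit 65531492180) (nat_lit 76) (nat_lit 12297418714) (nat_lit 76) (nat_lit 8803257441) (nat_lit 3) (nat_lit 4) (nat_lit 4) (nat_lit 5) (nat_lit 4) (nat_lit 4) (nat_lit 326) (nat_lit 208) (nat_lit 186))) (XT.nd (nat_lit 78) (nat_lit 0) (nat_lit 0) (XT.lf (nat_lit 0) (nat_lit 72809360231) (nat_lit 76) (nat_lit 10812507098) (nat_lit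 76) (nat_lit 7231921877) (nat_lit 3) (nat_lit 4) (nat_lit 4) (nat_lit 5) (nat_lit 4) (nat_lit 4) (nat_lit 327) (nat_lit 208) (nat_lit 185)) (XT.nd (nat_lit 78) (nat_lit 0) (nat_lit 0) (XT.lf (nat_lit 0) (nat_lit 80374854839) (nat_lit 76) (nat_lit 9288313223) (nat_lit 76) (nat_lit 5625419480) (nat_lit 3) (nat_lit 4) (nat_lit 4) (nat_lit 5) (nat_lit 4) (nat_lit 4) (nat_lit 328) (nat_lit 208) (nat_lit 184)) (XT.lf (nat_lit 0) (nat_lit 88245989088) (nat_lit 76) (nat_lit 7721208056) (nat_lit 76) (nat_lit 3979925245) (nat_lit 3) (nat_lit 4) (nat_lit 4) (nat_lit 5) (nat_lit 4) (nat_lit 4) (nat_lit 329) (nat_lit 208) (nat_lit 183))))) (XT.nd (nat_lit 156) (nat_lit 152) (nat_lit 0) (XT.nd (nat_lit 78) (nat_lit 0) (nat_lit 0) (XT.lf (nat_lit 0) (nat_lit 96441503774) (nat_lit 76) (nat_lit 6107460394) (nat_lit 76) (nat_lit 2291521327) (nat_lit 3) (nat_lit 4) (nat_lit 4) (nat_lit 5) (nat_lit 4)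 (nat_lit 4) (nat_lit 330) (nat_lit 208) (nat_lit 182)) (XT.lf (nat_lit 0) (nat_lit 104980912026) (nat_lit 76) (nat_lit 4443227981) (nat_lit 76) (nat_lit 556187719) (nat_lit 3) (nat_lit 4) (nat_lit 4) (nat_lit 5) (nat_lit 4) (nat_lit 4) (nat_lit 331) (nat_lit 208) (nat_lit 181))) (XT.nd (nat_lit 78) (nat_lit 76) (nat_lit 0) (XT.lf (nat_lit 0) (nat_lit 1190833010) (nat_lit 152) (nat_lit 1513548016) (nat_lit 76) (nat_lit 112673545426) (nat_lit 2) (nat_lit 5) (nat_lit 4) (nat_lit 5) (nat_lit 3) (nat_lit 4) (nat_lit 332) (nat_lit 208) (nat_lit 180)) (XT.nd (nat_lit 78) (nat_lit 0) (nat_lit 0) (XT.lf (nat_lit 0) (nat_lit 2145289113) (nat_lit 76) (nat_lit 861801462) (nat_lit 152) (nat_lit 118037853094) (nat_lit 1) (nat_lit 5) (nat_lit 2) (nat_lit 5) (nat_lit 3) (nat_lit 4) (nat_lit 333) (nat_lit 208) (nat_lit 179)) (XT.lf (nat_lit 0) (nat_lit 4924249858) (nat_lit 152) (nat_lit 121032678802)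 (nat_lit 0) (nat_lit 1037900854) (nat_lit 1) (nat_lit 5) (nat_lit 3) (nat_lit 4) (nat_lit 1) (nat_lit 4) (nat_lit 334) (nat_lit 208) (nat_lit 178))))))))
noncomputable def xc28 : XT := (XT.nd (nat_lit 1404) (nat_lit 0) (nat_lit 0) (XT.nd (nat_lit 702) (nat_lit 0) (nat_lit 0) (XT.nd (nat_lit 312) (nat_lit 0) (nat_lit 0) (XT.nd (nat_lit 156) (nat_lit 0) (nat_lit 0) (XT.nd (nat_lit 78) (nat_lit 0) (nat_lit 0) (XT.lf (nat_lit 0) (nat_lit 6920237736) (nat_lit 152) (nat_lit 123344665447) (nat_lit 0) (nat_lit 2978179085) (nat_lit 1) (nat_lit 5) (nat_lit 3) (nat_lit 4) (nat_lit 1) (nat_lit 4) (nat_lit 335) (nat_lit 208) (nat_lit 177)) (XT.lf (nat_lit 0) (nat_lit 8986351426) (nat_lit 152) (nat_lit 125827664087) (nat_lit 0) (nat_lit 4991235968) (nat_lit 1) (nat_lit 5) (nat_lit 3) (nat_lit 4) (nat_lit 1) (nat_lit 4) (nat_lit 336) (nat_lit 208) (nat_lit 176))) (XT.nd (nat_lit 78) (nat_lit 0) (nat_lit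 0) (XT.lf (nat_lit 0) (nat_lit 11127510246) (nat_lit 152) (nat_lit 128487586622) (nat_lit 0) (nat_lit 7081864496) (nat_lit 1) (nat_lit 5) (nat_lit 3) (nat_lit 4) (nat_lit 1) (nat_lit 4) (nat_lit 337) (nat_lit 208) (nat_lit 175)) (XT.lf (nat_lit 0) (nat_lit 13348812194) (nat_lit 152) (nat_lit 131330766203) (nat_lit 0) (nat_lit 9255042356) (nat_lit 1) (nat_lit 5) (nat_lit 3) (nat_lit 4) (nat_lit 1) (nat_lit 4) (nat_lit 338) (nat_lit 208) (nat_lit 174)))) (XT.nd (nat_lit 156) (nat_lit 0) (nat_lit 0) (XT.nd (nat_lit 78) (nat_lit 0) (nat_lit 0) (XT.lf (nat_lit 0) (nat_lit 15655546083) (nat_lit 152) (nat_lit 134363972304) (nat_lit 0) (nat_lit 11515943780) (nat_lit 1) (nat_lit 5) (nat_lit 3) (nat_lit 4) (nat_lit 1) (nat_lit 4) (nat_lit 339) (nat_lit 208) (nat_lit 173)) (XT.lf (nat_lit 0) (nat_lit 18053204138) (nat_lit 152) (nat_lit 137594426844) (nat_lit 0) (nat_lit 13869951868) (nat_lit 1)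 (nat_lit 5) (nat_lit 3) (nat_lit 4) (nat_lit 1) (nat_lit 4) (nat_lit 340) (nat_lit 208) (nat_lit 172))) (XT.nd (nat_lit 78) (nat_lit 0) (nat_lit 0) (XT.lf (nat_lit 0) (nat_lit 20547495067) (nat_lit 152) (nat_lit 141029821382) (nat_lit 0) (nat_lit 16322671401) (nat_lit 1) (nat_lit 5) (nat_lit 3) (nat_lit 4) (nat_lit 1) (nat_lit 4) (nat_lit 341) (nat_lit 208) (nat_lit 171)) (XT.nd (nat_lit 78) (nat_lit 0) (nat_lit 0) (XT.lf (nat_lit 0) (nat_lit 23144357659) (nat_lit 152) (nat_lit 144678335428) (nat_lit 0) (nat_lit 18879942187) (nat_lit 1) (nat_lit 5) (nat_lit 3) (nat_lit 4) (nat_lit 1) (nat_lit 4) (nat_lit 342) (nat_lit 208) (nat_lit 170)) (XT.lf (nat_lit 0) (nat_lit 25849974920) (nat_lit 152) (nat_lit 148548655922) (nat_lit 0) (nat_lit 21547852965) (nat_lit 1) (nat_lit 5) (nat_lit 3) (nat_lit 4) (nat_lit 1) (nat_lit 4) (nat_lit 343) (nat_lit 208) (nat_lit 169)))))) (XT.nd (nat_lit 312)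 (nat_lit 0) (nat_lit 0) (XT.nd (nat_lit 156) (nat_lit 0) (nat_lit 0) (XT.nd (nat_lit 78) (nat_lit 0) (nat_lit 0) (XT.lf (nat_lit 0) (nat_lit 28670788796) (nat_lit 152) (nat_lit 152649997911) (nat_lit 0) (nat_lit 24332755905) (nat_lit 1) (nat_lit 5) (nat_lit 3) (nat_lit 4) (nat_lit 1) (nat_lit 4) (nat_lit 344) (nat_lit 208) (nat_lit 168)) (XT.lf (nat_lit 0) (nat_lit 31613515510) (nat_lit 152) (nat_lit 156992126496) (nat_lit 0) (nat_lit 27241281728) (nat_lit 1) (nat_lit 5) (nat_lit 3) (nat_lit 4) (nat_lit 1) (nat_lit 4) (nat_lit 345) (nat_lit 208) (nat_lit 167))) (XT.nd (nat_lit 78) (nat_lit 0) (nat_lit 0) (XT.lf (nat_lit 0) (nat_lit 34685161554) (nat_lit 152) (nat_lit 161585380077) (nat_lit 0) (nat_lit 30280355496) (nat_lit 1) (nat_lit 5) (nat_lit 3) (nat_lit 4) (nat_lit 1) (nat_lit 4) (nat_lit 346) (nat_lit 208) (nat_lit 166)) (XT.lf (nat_lit 0) (nat_lit 37893040372) (nat_lit 152) (nat_lit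 166440694974) (nat_lit 0) (nat_lit 33457213097) (nat_lit 1) (nat_lit 5) (nat_lit 3) (nat_lit 4) (nat_lit 1) (nat_lit 4) (nat_lit 347) (nat_lit 208) (nat_lit 165)))) (XT.nd (nat_lit 156) (nat_lit 0) (nat_lit 0) (XT.nd (nat_lit 78) (nat_lit 0) (nat_lit 0) (XT.lf (nat_lit 0) (nat_lit 41244789769) (nat_lit 152) (nat_lit 171569631460) (nat_lit 0) (nat_lit 36779418480) (nat_lit 1) (nat_lit 5) (nat_lit 3) (nat_lit 4) (nat_lit 1) (nat_lit 4) (nat_lit 348) (nat_lit 208) (nat_lit 164)) (XT.lf (nat_lit 0) (nat_lit 44748390103) (nat_lit 152) (nat_lit 176984401287) (nat_lit 0) (nat_lit 40254881656) (nat_lit 1) (nat_lit 5) (nat_lit 3) (nat_lit 4) (nat_lit 1) (nat_lit 4) (nat_lit 349) (nat_lit 208) (nat_lit 163))) (XT.nd (nat_lit 78) (nat_lit 0) (nat_lit 0) (XT.lf (nat_lit 0) (nat_lit 48412183278) (nat_lit 152) (nat_lit 182697896766) (nat_lit 0) (nat_lit 43891877538) (nat_lit 1) (nat_lit 5) (nat_lit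 3) (nat_lit 4) (nat_lit 1) (nat_lit 4) (nat_lit 350) (nat_lit 208) (nat_lit 162)) (XT.nd (nat_lit 78) (nat_lit 0) (nat_lit 0) (XT.lf (nat_lit 0) (nat_lit 52244892612) (nat_lit 152) (nat_lit 188723721457) (nat_lit 0) (nat_lit 47699065640) (nat_lit 1) (nat_lit 5) (nat_lit 3) (nat_lit 4) (nat_lit 1) (nat_lit 4) (nat_lit 351) (nat_lit 208) (nat_lit 161)) (XT.lf (nat_lit 0) (nat_lit 56255643602) (nat_lit 152) (nat_lit 195076222561) (nat_lit 0) (nat_lit 51685510696) (nat_lit 1) (nat_lit 5) (nat_lit 3) (nat_lit 4) (nat_lit 1) (nat_lit 4) (nat_lit 352) (nat_lit 208) (nat_lit 160))))))) (XT.nd (nat_lit 702) (nat_lit 0) (nat_lit 0) (XT.nd (nat_lit 312) (nat_lit 0) (nat_lit 0) (XT.nd (nat_lit 156) (nat_lit 0) (nat_lit 0) (XT.nd (nat_lit 78) (nat_lit 0) (nat_lit 0) (XT.lf (nat_lit 0) (nat_lit 60453985657) (nat_lit 152) (nat_lit 201770525082) (nat_lit 0) (nat_lit 55860704241) (nat_lit 1) (nat_lit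 5) (nat_lit 3) (nat_lit 4) (nat_lit 1) (nat_lit 4) (nat_lit 353) (nat_lit 208) (nat_lit 159)) (XT.lf (nat_lit 0) (nat_lit 64849914828) (nat_lit 152) (nat_lit 208822567834) (nat_lit 0) (nat_lit 60234587213) (nat_lit 1) (nat_lit 5) (nat_lit 3) (nat_lit 4) (nat_lit 1) (nat_lit 4) (nat_lit 354) (nat_lit 208) (nat_lit 158))) (XT.nd (nat_lit 78) (nat_lit 0) (nat_lit 0) (XT.lf (nat_lit 0) (nat_lit 69453897613) (nat_lit 152) (nat_lit 216249141396) (nat_lit 0) (nat_lit 64817573618) (nat_lit 1) (nat_lit 5) (nat_lit 3) (nat_lit 4) (nat_lit 1) (nat_lit 4) (nat_lit 355) (nat_lit 208) (nat_lit 157)) (XT.lf (nat_lit 0) (nat_lit 74276895877) (nat_lit 152) (nat_lit 224067928086) (nat_lit 0) (nat_lit 69620575330) (nat_lit 1) (nat_lit 5) (nat_lit 3) (nat_lit 4) (nat_lit 1) (nat_lit 4) (nat_lit 356) (nat_lit 208) (nat_lit 156)))) (XT.nd (nat_lit 156) (nat_lit 0) (nat_lit 0) (XT.nd (nat_lit 78) (nat_lit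 0) (nat_lit 0) (XT.lf (nat_lit 0) (nat_lit 79330392948) (nat_lit 152) (nat_lit 232297544062) (nat_lit 0) (nat_lit 74655028065) (nat_lit 1) (nat_lit 5) (nat_lit 3) (nat_lit 4) (nat_lit 1) (nat_lit 4) (nat_lit 357) (nat_lit 208) (nat_lit 155)) (XT.lf (nat_lit 0) (nat_lit 84626420963) (nat_lit 152) (nat_lit 240957583648) (nat_lit 0) (nat_lit 79932918617) (nat_lit 1) (nat_lit 5) (nat_lit 3) (nat_lit 4) (nat_lit 1) (nat_lit 4) (nat_lit 358) (nat_lit 208) (nat_lit 154))) (XT.nd (nat_lit 78) (nat_lit 0) (nat_lit 0) (XT.lf (nat_lit 0) (nat_lit 90177589511) (nat_lit 152) (nat_lit 250068665987) (nat_lit 0) (nat_lit 85466813392) (nat_lit 1) (nat_lit 5) (nat_lit 3) (nat_lit 4) (nat_lit 1) (nat_lit 4) (nat_lit 359) (nat_lit 208) (nat_lit 153)) (XT.nd (nat_lit 78) (nat_lit 0) (nat_lit 0) (XT.lf (nat_lit 0) (nat_lit 95997115662) (nat_lit 152) (nat_lit 259652484131) (nat_lit 0) (nat_lit 91269888329)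 (nat_lit 1) (nat_lit 5) (nat_lit 3) (nat_lit 4) (nat_lit 1) (nat_lit 4) (nat_lit 360) (nat_lit 208) (nat_lit 152)) (XT.lf (nat_lit 0) (nat_lit 102098855429) (nat_lit 152) (nat_lit 269731856695) (nat_lit 0) (nat_lit 97355960274) (nat_lit 1) (nat_lit 5) (nat_lit 3) (nat_lit 4) (nat_lit 1) (nat_lit 4) (nat_lit 361) (nat_lit 208) (nat_lit 151)))))) (XT.nd (nat_lit 312) (nat_lit 0) (nat_lit 0) (XT.nd (nat_lit 156) (nat_lit 0) (nat_lit 0) (XT.nd (nat_lit 78) (nat_lit 0) (nat_lit 0) (XT.lf (nat_lit 0) (nat_lit 108497336764) (nat_lit 152) (nat_lit 280330782185) (nat_lit 0) (nat_lit 103739519874) (nat_lit 1) (nat_lit 5) (nat_lit 3) (nat_lit 4) (nat_lit 1) (nat_lit 4) (nat_lit 362) (nat_lit 208) (nat_lit 150)) (XT.lf (nat_lit 0) (nat_lit 115207794147) (nat_lit 152) (nat_lit 291474496138) (nat_lit 0) (nat_lit 110435766080) (nat_lit 1) (nat_lit 5) (nat_lit 3) (nat_lit 4) (nat_lit 1) (nat_lit 4)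 (nat_lit 363) (nat_lit 208) (nat_lit 149))) (XT.nd (nat_lit 78) (nat_lit 0) (nat_lit 0) (XT.lf (nat_lit 0) (nat_lit 122246204858) (nat_lit 152) (nat_lit 303189531206) (nat_lit 0) (nat_lit 117460642337) (nat_lit 1) (nat_lit 5) (nat_lit 3) (nat_lit 4) (nat_lit 1) (nat_lit 4) (nat_lit 364) (nat_lit 208) (nat_lit 148)) (XT.lf (nat_lit 0) (nat_lit 129629327016) (nat_lit 152) (nat_lit 315503780329) (nat_lit 0) (nat_lit 124830874539) (nat_lit 1) (nat_lit 5) (nat_lit 3) (nat_lit 4) (nat_lit 1) (nat_lit 4) (nat_lit 365) (nat_lit 208) (nat_lit 147)))) (XT.nd (nat_lit 32604) (nat_lit 0) (nat_lit 380) (XT.nd (nat_lit 32526) (nat_lit 0) (nat_lit 456) (XT.lf (nat_lit 0) (nat_lit 137374739484) (nat_lit 152) (nat_lit 328446563150) (nat_lit 0) (nat_lit 132564010859) (nat_lit 1) (nat_lit 5) (nat_lit 3) (nat_lit 4) (nat_lit 1) (nat_lit 4) (nat_lit 366) (nat_lit 208) (nat_lit 146)) (XT.lf (nat_lit 0) (nat_lit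 7232691733) (nat_lit 152) (nat_lit 29430210) (nat_lit 0) (nat_lit 7232691733) (nat_lit 7) (nat_lit 5) (nat_lit 9) (nat_lit 4) (nat_lit 7) (nat_lit 4) (nat_lit 302) (nat_lit 209) (nat_lit 209))) (XT.nd (nat_lit 78) (nat_lit 0) (nat_lit 0) (XT.lf (nat_lit 0) (nat_lit 6637826681) (nat_lit 76) (nat_lit 11946202885) (nat_lit 76) (nat_lit 11667477016) (nat_lit 6) (nat_lit 4) (nat_lit 7) (nat_lit 5) (nat_lit 7) (nat_lit 4) (nat_lit 303) (nat_lit 209) (nat_lit 208)) (XT.nd (nat_lit 78) (nat_lit 0) (nat_lit 0) (XT.lf (nat_lit 0) (nat_lit 13460355836) (nat_lit 76) (nat_lit 9333081168) (nat_lit 76) (nat_lit 8788902090) (nat_lit 6) (nat_lit 4) (nat_lit 7) (nat_lit 5) (nat_lit 7) (nat_lit 4) (nat_lit 304) (nat_lit 209) (nat_lit 207)) (XT.lf (nat_lit 0) (nat_lit 20423024966) (nat_lit 76) (nat_lit 6679653849) (nat_lit 76) (nat_lit 5882662191) (nat_lit 6) (nat_lit 4) (nat_lit 7) (nat_lit 5) (nat_lit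 7) (nat_lit 4) (nat_lit 305) (nat_lit 209) (nat_lit 206))))))))
noncomputable def xc29 : XT := (XT.nd (nat_lit 1404) (nat_lit 152) (nat_lit 0) (XT.nd (nat_lit 702) (nat_lit 76) (nat_lit 0) (XT.nd (nat_lit 312) (nat_lit 0) (nat_lit 0) (XT.nd (nat_lit 156) (nat_lit 76) (nat_lit 0) (XT.nd (nat_lit 78) (nat_lit 76) (nat_lit 0) (XT.lf (nat_lit 0) (nat_lit 27542411857) (nat_lit 76) (nat_lit 3979603243) (nat_lit 76) (nat_lit 2941837699) (nat_lit 6) (nat_lit 4) (nat_lit 7) (nat_lit 5) (nat_lit 7) (nat_lit 4) (nat_lit 306) (nat_lit 209) (nat_lit 205)) (XT.lf (nat_lit 0) (nat_lit 39274746) (nat_lit 152) (nat_lit 1186560775) (nat_lit 76) (nat_lit 34795527545) (nat_lit 5) (nat_lit 5) (nat_lit 7) (nat_lit 5) (nat_lit 6) (nat_lit 4) (nat_lit 307) (nat_lit 209) (nat_lit 204))) (XT.nd (nat_lit 78) (nat_lit 0) (nat_lit 0) (XT.lf (nat_lit 0) (nat_lit 3074483112) (nat_lit 152) (nat_lit 32919981657) (nat_lit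 0) (nat_lit 1659756428) (nat_lit 4) (nat_lit 5) (nat_lit 6) (nat_lit 4) (nat_lit 4) (nat_lit 4) (nat_lit 308) (nat_lit 209) (nat_lit 203)) (XT.lf (nat_lit 0) (nat_lit 6205435771) (nat_lit 152) (nat_lit 28573538653) (nat_lit 0) (nat_lit 4592623815) (nat_lit 4) (nat_lit 5) (nat_lit 6) (nat_lit 4) (nat_lit 4) (nat_lit 4) (nat_lit 309) (nat_lit 209) (nat_lit 202)))) (XT.nd (nat_lit 156) (nat_lit 0) (nat_lit 0) (XT.nd (nat_lit 78) (nat_lit 0) (nat_lit 0) (XT.lf (nat_lit 0) (nat_lit 9400996828) (nat_lit 152) (nat_lit 24178983652) (nat_lit 0) (nat_lit 7599532233) (nat_lit 4) (nat_lit 5) (nat_lit 6) (nat_lit 4) (nat_lit 4) (nat_lit 4) (nat_lit 310) (nat_lit 209) (nat_lit 201)) (XT.lf (nat_lit 0) (nat_lit 12668774764) (nat_lit 152) (nat_lit 19725853426) (nat_lit 0) (nat_lit 10687640988) (nat_lit 4) (nat_lit 5) (nat_lit 6) (nat_lit 4) (nat_lit 4) (nat_lit 4) (nat_lit 311) (nat_lit 209) (nat_lit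 200))) (XT.nd (nat_lit 78) (nat_lit 0) (nat_lit 0) (XT.lf (nat_lit 0) (nat_lit 16016550001) (nat_lit 152) (nat_lit 15203545286) (nat_lit 0) (nat_lit 13864302719) (nat_lit 4) (nat_lit 5) (nat_lit 6) (nat_lit 4) (nat_lit 4) (nat_lit 4) (nat_lit 312) (nat_lit 209) (nat_lit 199)) (XT.nd (nat_lit 78) (nat_lit 0) (nat_lit 0) (XT.lf (nat_lit 0) (nat_lit 19452293432) (nat_lit 152) (nat_lit 10601291830) (nat_lit 0) (nat_lit 17137080908) (nat_lit 4) (nat_lit 5) (nat_lit 6) (nat_lit 4) (nat_lit 4) (nat_lit 4) (nat_lit 313) (nat_lit 209) (nat_lit 198)) (XT.lf (nat_lit 0) (nat_lit 22984185399) (nat_lit 152) (nat_lit 5908135312) (nat_lit 0) (nat_lit 20513767882) (nat_lit 4) (nat_lit 5) (nat_lit 6) (nat_lit 4) (nat_lit 4) (nat_lit 4) (nat_lit 314) (nat_lit 209) (nat_lit 197)))))) (XT.nd (nat_lit 312) (nat_lit 0) (nat_lit 0) (XT.nd (nat_lit 156) (nat_lit 0) (nat_lit 0) (XT.nd (nat_lit 78) (nat_lit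 76) (nat_lit 0) (XT.lf (nat_lit 0) (nat_lit 26620635170) (nat_lit 152) (nat_lit 1112901551) (nat_lit 0) (nat_lit 24002403372) (nat_lit 4) (nat_lit 5) (nat_lit 6) (nat_lit 4) (nat_lit 4) (nat_lit 4) (nat_lit 315) (nat_lit 209) (nat_lit 196)) (XT.lf (nat_lit 0) (nat_lit 3921333849) (nat_lit 76) (nat_lit 26510190118) (nat_lit 76) (nat_lit 23751182816) (nat_lit 3) (nat_lit 4) (nat_lit 4) (nat_lit 5) (nat_lit 4) (nat_lit 4) (nat_lit 316) (nat_lit 209) (nat_lit 195))) (XT.nd (nat_lit 78) (nat_lit 0) (nat_lit 0) (XT.lf (nat_lit 0) (nat_lit 9121687796) (nat_lit 76) (nat_lit 25262837849) (nat_lit 76) (nat_lit 22369758639) (nat_lit 3) (nat_lit 4) (nat_lit 4) (nat_lit 5) (nat_lit 4) (nat_lit 4) (nat_lit 317) (nat_lit 209) (nat_lit 194)) (XT.lf (nat_lit 0) (nat_lit 14463744532) (nat_lit 76) (nat_lit 24007357554) (nat_lit 76) (nat_lit 20986590812) (nat_lit 3) (nat_lit 4) (nat_lit 4) (nat_lit 5)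 (nat_lit 4) (nat_lit 4) (nat_lit 318) (nat_lit 209) (nat_lit 193)))) (XT.nd (nat_lit 156) (nat_lit 0) (nat_lit 0) (XT.nd (nat_lit 78) (nat_lit 0) (nat_lit 0) (XT.lf (nat_lit 0) (nat_lit 19960223241) (nat_lit 76) (nat_lit 22740759995) (nat_lit 76) (nat_lit 19598386079) (nat_lit 3) (nat_lit 4) (nat_lit 4) (nat_lit 5) (nat_lit 4) (nat_lit 4) (nat_lit 319) (nat_lit 209) (nat_lit 192)) (XT.lf (nat_lit 0) (nat_lit 25624210777) (nat_lit 76) (nat_lit 21460029463) (nat_lit 76) (nat_lit 18201839191) (nat_lit 3) (nat_lit 4) (nat_lit 4) (nat_lit 5) (nat_lit 4) (nat_lit 4) (nat_lit 320) (nat_lit 209) (nat_lit 191))) (XT.nd (nat_lit 78) (nat_lit 0) (nat_lit 0) (XT.lf (nat_lit 0) (nat_lit 31469192824) (nat_lit 76) (nat_lit 20162116600) (nat_lit 76) (nat_lit 16793625037) (nat_lit 3) (nat_lit 4) (nat_lit 4) (nat_lit 5) (nat_lit 4) (nat_lit 4) (nat_lit 321) (nat_lit 209) (nat_lit 190)) (XT.nd (nat_lit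 78) (nat_lit 0) (nat_lit 0) (XT.lf (nat_lit 0) (nat_lit 37509086006) (nat_lit 76) (nat_lit 18843931136) (nat_lit 76) (nat_lit 15370390725) (nat_lit 3) (nat_lit 4) (nat_lit 4) (nat_lit 5) (nat_lit 4) (nat_lit 4) (nat_lit 322) (nat_lit 209) (nat_lit 189)) (XT.lf (nat_lit 0) (nat_lit 43758271021) (nat_lit 76) (nat_lit 17502334536) (nat_lit 76) (nat_lit 13928747601) (nat_lit 3) (nat_lit 4) (nat_lit 4) (nat_lit 5) (nat_lit 4) (nat_lit 4) (nat_lit 323) (nat_lit 209) (nat_lit 188))))))) (XT.nd (nat_lit 702) (nat_lit 76) (nat_lit 0) (XT.nd (nat_lit 312) (nat_lit 76) (nat_lit 0) (XT.nd (nat_lit 156) (nat_lit 0) (nat_lit 0) (XT.nd (nat_lit 78) (nat_lit 0) (nat_lit 0) (XT.lf (nat_lit 0) (nat_lit 50231626881) (nat_lit 76) (nat_lit 16134132521) (nat_lit 76) (nat_lit 12465263184) (nat_lit 3) (nat_lit 4) (nat_lit 4) (nat_lit 5) (nat_lit 4) (nat_lit 4) (nat_lit 324) (nat_lit 209) (nat_lit 187)) (XT.lf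 (nat_lit 0) (nat_lit 56944566339) (nat_lit 76) (nat_lit 14736067467) (nat_lit 76) (nat_lit 10976452985) (nat_lit 3) (nat_lit 4) (nat_lit 4) (nat_lit 5) (nat_lit 4) (nat_lit 4) (nat_lit 325) (nat_lit 209) (nat_lit 186))) (XT.nd (nat_lit 78) (nat_lit 0) (nat_lit 0) (XT.lf (nat_lit 0) (nat_lit 63913072583) (nat_lit 76) (nat_lit 13304810649) (nat_lit 76) (nat_lit 9458772219) (nat_lit 3) (nat_lit 4) (nat_lit 4) (nat_lit 5) (nat_lit 4) (nat_lit 4) (nat_lit 326) (nat_lit 209) (nat_lit 185)) (XT.lf (nat_lit 0) (nat_lit 71153737294) (nat_lit 76) (nat_lit 11836954312) (nat_lit 76) (nat_lit 7908607360) (nat_lit 3) (nat_lit 4) (nat_lit 4) (nat_lit 5) (nat_lit 4) (nat_lit 4) (nat_lit 327) (nat_lit 209) (nat_lit 184)))) (XT.nd (nat_lit 156) (nat_lit 76) (nat_lit 0) (XT.nd (nat_lit 78) (nat_lit 0) (nat_lit 0) (XT.lf (nat_lit 0) (nat_lit 78683800151) (nat_lit 76) (nat_lit 10329003560) (nat_lit 76)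 (nat_lit 6322267540) (nat_lit 3) (nat_lit 4) (nat_lit 4) (nat_lit 5) (nat_lit 4) (nat_lit 4) (nat_lit 328) (nat_lit 209) (nat_lit 183)) (XT.lf (nat_lit 0) (nat_lit 86521189876) (nat_lit 76) (nat_lit 8777368033) (nat_lit 76) (nat_lit 4695975758) (nat_lit 3) (nat_lit 4) (nat_lit 4) (nat_lit 5) (nat_lit 4) (nat_lit 4) (nat_lit 329) (nat_lit 209) (nat_lit 182))) (XT.nd (nat_lit 78) (nat_lit 76) (nat_lit 0) (XT.lf (nat_lit 0) (nat_lit 94684566918) (nat_lit 76) (nat_lit 7178353363) (nat_lit 76) (nat_lit 3025859891) (nat_lit 3) (nat_lit 4) (nat_lit 4) (nat_lit 5) (nat_lit 4) (nat_lit 4) (nat_lit 330) (nat_lit 209) (nat_lit 181)) (XT.nd (nat_lit 78) (nat_lit 76) (nat_lit 0) (XT.lf (nat_lit 0) (nat_lit 103193367892) (nat_lit 76) (nat_lit 5528152370) (nat_lit 76) (nat_lit 1307943474) (nat_lit 3) (nat_lit 4) (nat_lit 4) (nat_lit 5) (nat_lit 4) (nat_lit 4) (nat_lit 331) (nat_lit 209) (nat_lit 180))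 (XT.lf (nat_lit 0) (nat_lit 447081245) (nat_lit 152) (nat_lit 3368183222) (nat_lit 76) (nat_lit 111613199062) (nat_lit 2) (nat_lit 5) (nat_lit 4) (nat_lit 5) (nat_lit 3) (nat_lit 4) (nat_lit 332) (nat_lit 209) (nat_lit 179)))))) (XT.nd (nat_lit 390) (nat_lit 0) (nat_lit 0) (XT.nd (nat_lit 156) (nat_lit 0) (nat_lit 0) (XT.nd (nat_lit 78) (nat_lit 0) (nat_lit 0) (XT.lf (nat_lit 0) (nat_lit 200118119) (nat_lit 76) (nat_lit 2017558847) (nat_lit 152) (nat_lit 118880097708) (nat_lit 1) (nat_lit 5) (nat_lit 2) (nat_lit 5) (nat_lit 3) (nat_lit 4) (nat_lit 333) (nat_lit 209) (nat_lit 178)) (XT.lf (nat_lit 0) (nat_lit 4006735003) (nat_lit 76) (nat_lit 96362458) (nat_lit 152) (nat_lit 122946160313) (nat_lit 1) (nat_lit 5) (nat_lit 2) (nat_lit 5) (nat_lit 3) (nat_lit 4) (nat_lit 334) (nat_lit 209) (nat_lit 177))) (XT.nd (nat_lit 78) (nat_lit 0) (nat_lit 0) (XT.lf (nat_lit 0) (nat_lit 6083105933)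 (nat_lit 152) (nat_lit 125380035496) (nat_lit 0) (nat_lit 1835177895) (nat_lit 1) (nat_lit 5) (nat_lit 3) (nat_lit 4) (nat_lit 1) (nat_lit 4) (nat_lit 335) (nat_lit 209) (nat_lit 176)) (XT.nd (nat_lit 78) (nat_lit 0) (nat_lit 0) (XT.lf (nat_lit 0) (nat_lit 8135433987) (nat_lit 152) (nat_lit 127888777532) (nat_lit 0) (nat_lit 3836975656) (nat_lit 1) (nat_lit 5) (nat_lit 3) (nat_lit 4) (nat_lit 1) (nat_lit 4) (nat_lit 336) (nat_lit 209) (nat_lit 175)) (XT.lf (nat_lit 0) (nat_lit 10263463630) (nat_lit 152) (nat_lit 130573217589) (nat_lit 0) (nat_lit 5916881211) (nat_lit 1) (nat_lit 5) (nat_lit 3) (nat_lit 4) (nat_lit 1) (nat_lit 4) (nat_lit 337) (nat_lit 209) (nat_lit 174))))) (XT.nd (nat_lit 156) (nat_lit 0) (nat_lit 0) (XT.nd (nat_lit 78) (nat_lit 0) (nat_lit 0) (XT.lf (nat_lit 0) (nat_lit 12472261599) (nat_lit 152) (nat_lit 133439747190) (nat_lit 0) (nat_lit 8079846716) (nat_lit 1)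 (nat_lit 5) (nat_lit 3) (nat_lit 4) (nat_lit 1) (nat_lit 4) (nat_lit 338) (nat_lit 209) (nat_lit 173)) (XT.lf (nat_lit 0) (nat_lit 14767086937) (nat_lit 152) (nat_lit 136495191405) (nat_lit 0) (nat_lit 10331022088) (nat_lit 1) (nat_lit 5) (nat_lit 3) (nat_lit 4) (nat_lit 1) (nat_lit 4) (nat_lit 339) (nat_lit 209) (nat_lit 172))) (XT.nd (nat_lit 78) (nat_lit 0) (nat_lit 0) (XT.lf (nat_lit 0) (nat_lit 17153403515) (nat_lit 152) (nat_lit 139746825101) (nat_lit 0) (nat_lit 12675767269) (nat_lit 1) (nat_lit 5) (nat_lit 3) (nat_lit 4) (nat_lit 1) (nat_lit 4) (nat_lit 340) (nat_lit 209) (nat_lit 171)) (XT.nd (nat_lit 78) (nat_lit 0) (nat_lit 0) (XT.lf (nat_lit 0) (nat_lit 19636893037) (nat_lit 152) (nat_lit 143202390265) (nat_lit 0) (nat_lit 15119664985) (nat_lit 1) (nat_lit 5) (nat_lit 3) (nat_lit 4) (nat_lit 1) (nat_lit 4) (nat_lit 341) (nat_lit 209) (nat_lit 170)) (XT.lf (nat_lit 0) (nat_lit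 22223468575) (nat_lit 152) (nat_lit 146870114431) (nat_lit 0) (nat_lit 17668534041) (nat_lit 1) (nat_lit 5) (nat_lit 3) (nat_lit 4) (nat_lit 1) (nat_lit 4) (nat_lit 342) (nat_lit 209) (nat_lit 169))))))))
noncomputable def xc30 : XT := (XT.nd (nat_lit 1404) (nat_lit 0) (nat_lit 0) (XT.nd (nat_lit 702) (nat_lit 0) (nat_lit 0) (XT.nd (nat_lit 312) (nat_lit 0) (nat_lit 0) (XT.nd (nat_lit 156) (nat_lit 0) (nat_lit 0) (XT.nd (nat_lit 78) (nat_lit 0) (nat_lit 0) (XT.lf (nat_lit 0) (nat_lit 24919288642) (nat_lit 152) (nat_lit 150758730276) (nat_lit 0) (nat_lit 20328443172) (nat_lit 1) (nat_lit 5) (nat_lit 3) (nat_lit 4) (nat_lit 1) (nat_lit 4) (nat_lit 343) (nat_lit 209) (nat_lit 168)) (XT.lf (nat_lit 0) (nat_lit 27730771856) (nat_lit 152) (nat_lit 154877496409) (nat_lit 0) (nat_lit 23105725495) (nat_lit 1) (nat_lit 5) (nat_lit 3) (nat_lit 4) (nat_lit 1) (nat_lit 4) (nat_lit 344) (nat_lit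 209) (nat_lit 167))) (XT.nd (nat_lit 78) (nat_lit 0) (nat_lit 0) (XT.lf (nat_lit 0) (nat_lit 30664612226) (nat_lit 152) (nat_lit 159236219417) (nat_lit 0) (nat_lit 26006993588) (nat_lit 1) (nat_lit 5) (nat_lit 3) (nat_lit 4) (nat_lit 1) (nat_lit 4) (nat_lit 345) (nat_lit 209) (nat_lit 166)) (XT.lf (nat_lit 0) (nat_lit 33727795086) (nat_lit 152) (nat_lit 163845277212) (nat_lit 0) (nat_lit 29039155232) (nat_lit 1) (nat_lit 5) (nat_lit 3) (nat_lit 4) (nat_lit 1) (nat_lit 4) (nat_lit 346) (nat_lit 209) (nat_lit 165)))) (XT.nd (nat_lit 156) (nat_lit 0) (nat_lit 0) (XT.nd (nat_lit 78) (nat_lit 0) (nat_lit 0) (XT.lf (nat_lit 0) (nat_lit 36927613727) (nat_lit 152) (nat_lit 168715643740) (nat_lit 0) (nat_lit 32209429858) (nat_lit 1) (nat_lit 5) (nat_lit 3) (nat_lit 4) (nat_lit 1) (nat_lit 4) (nat_lit 347) (nat_lit 209) (nat_lit 164)) (XT.lf (nat_lit 0) (nat_lit 40271686767) (nat_lit 152) (nat_lit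 173858915112) (nat_lit 0) (nat_lit 35525365740) (nat_lit 1) (nat_lit 5) (nat_lit 3) (nat_lit 4) (nat_lit 1) (nat_lit 4) (nat_lit 348) (nat_lit 209) (nat_lit 163))) (XT.nd (nat_lit 78) (nat_lit 0) (nat_lit 0) (XT.lf (nat_lit 0) (nat_lit 43767976284) (nat_lit 152) (nat_lit 179287337212) (nat_lit 0) (nat_lit 38994857964) (nat_lit 1) (nat_lit 5) (nat_lit 3) (nat_lit 4) (nat_lit 1) (nat_lit 4) (nat_lit 349) (nat_lit 209) (nat_lit 162)) (XT.nd (nat_lit 78) (nat_lit 0) (nat_lit 0) (XT.lf (nat_lit 0) (nat_lit 47424806776) (nat_lit 152) (nat_lit 185013834856) (nat_lit 0) (nat_lit 42626167224) (nat_lit 1) (nat_lit 5) (nat_lit 3) (nat_lit 4) (nat_lit 1) (nat_lit 4) (nat_lit 350) (nat_lit 209) (nat_lit 161)) (XT.lf (nat_lit 0) (nat_lit 51250884983) (nat_lit 152) (nat_lit 191052042561) (nat_lit 0) (nat_lit 46427939497) (nat_lit 1) (nat_lit 5) (nat_lit 3) (nat_lit 4) (nat_lit 1) (nat_lit 4) (nat_lit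 351) (nat_lit 209) (nat_lit 160)))))) (XT.nd (nat_lit 312) (nat_lit 0) (nat_lit 0) (XT.nd (nat_lit 156) (nat_lit 0) (nat_lit 0) (XT.nd (nat_lit 78) (nat_lit 0) (nat_lit 0) (XT.lf (nat_lit 0) (nat_lit 55255320614) (nat_lit 152) (nat_lit 197416337012) (nat_lit 0) (nat_lit 50409226619) (nat_lit 1) (nat_lit 5) (nat_lit 3) (nat_lit 4) (nat_lit 1) (nat_lit 4) (nat_lit 352) (nat_lit 209) (nat_lit 159)) (XT.lf (nat_lit 0) (nat_lit 59447648041) (nat_lit 152) (nat_lit 204121871292) (nat_lit 0) (nat_lit 54579507847) (nat_lit 1) (nat_lit 5) (nat_lit 3) (nat_lit 4) (nat_lit 1) (nat_lit 4) (nat_lit 353) (nat_lit 209) (nat_lit 158))) (XT.nd (nat_lit 78) (nat_lit 0) (nat_lit 0) (XT.lf (nat_lit 0) (nat_lit 63837848996) (nat_lit 152) (nat_lit 211184610957) (nat_lit 0) (nat_lit 58948712421) (nat_lit 1) (nat_lit 5) (nat_lit 3) (nat_lit 4) (nat_lit 1) (nat_lit 4) (nat_lit 354) (nat_lit 209) (nat_lit 157))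 (XT.lf (nat_lit 0) (nat_lit 68436376337) (nat_lit 152) (nat_lit 218621372056) (nat_lit 0) (nat_lit 63527243210) (nat_lit 1) (nat_lit 5) (nat_lit 3) (nat_lit 4) (nat_lit 1) (nat_lit 4) (nat_lit 355) (nat_lit 209) (nat_lit 156)))) (XT.nd (nat_lit 156) (nat_lit 0) (nat_lit 0) (XT.nd (nat_lit 78) (nat_lit 0) (nat_lit 0) (XT.lf (nat_lit 0) (nat_lit 73254178939) (nat_lit 152) (nat_lit 226449861161) (nat_lit 0) (nat_lit 68326001476) (nat_lit 1) (nat_lit 5) (nat_lit 3) (nat_lit 4) (nat_lit 1) (nat_lit 4) (nat_lit 356) (nat_lit 209) (nat_lit 155)) (XT.lf (nat_lit 0) (nat_lit 78302727762) (nat_lit 152) (nat_lit 234688717533) (nat_lit 0) (nat_lit 73356412836) (nat_lit 1) (nat_lit 5) (nat_lit 3) (nat_lit 4) (nat_lit 1) (nat_lit 4) (nat_lit 357) (nat_lit 209) (nat_lit 154))) (XT.nd (nat_lit 78) (nat_lit 0) (nat_lit 0) (XT.lf (nat_lit 0) (nat_lit 83594043158) (nat_lit 152) (nat_lit 243357557496)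 (nat_lit 0) (nat_lit 78630454459) (nat_lit 1) (nat_lit 5) (nat_lit 3) (nat_lit 4) (nat_lit 1) (nat_lit 4) (nat_lit 358) (nat_lit 209) (nat_lit 153)) (XT.nd (nat_lit 78) (nat_lit 0) (nat_lit 0) (XT.lf (nat_lit 0) (nat_lit 89140723499) (nat_lit 152) (nat_lit 252477021146) (nat_lit 0) (nat_lit 84160683587) (nat_lit 1) (nat_lit 5) (nat_lit 3) (nat_lit 4) (nat_lit 1) (nat_lit 4) (nat_lit 359) (nat_lit 209) (nat_lit 152)) (XT.lf (nat_lit 0) (nat_lit 94955975166) (nat_lit 152) (nat_lit 262068821492) (nat_lit 0) (nat_lit 89960267431) (nat_lit 1) (nat_lit 5) (nat_lit 3) (nat_lit 4) (nat_lit 1) (nat_lit 4) (nat_lit 360) (nat_lit 209) (nat_lit 151))))))) (XT.nd (nat_lit 32994) (nat_lit 0) (nat_lit 228) (XT.nd (nat_lit 312) (nat_lit 0) (nat_lit 0) (XT.nd (nat_lit 156) (nat_lit 0) (nat_lit 0) (XT.nd (nat_lit 78) (nat_lit 0) (nat_lit 0) (XT.lf (nat_lit 0) (nat_lit 101053643997) (nat_lit 152) (nat_lit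 272155796152) (nat_lit 0) (nat_lit 96043014526) (nat_lit 1) (nat_lit 5) (nat_lit 3) (nat_lit 4) (nat_lit 1) (nat_lit 4) (nat_lit 361) (nat_lit 209) (nat_lit 150)) (XT.lf (nat_lit 0) (nat_lit 107448248250) (nat_lit 152) (nat_lit 282761961734) (nat_lit 0) (nat_lit 102423407603) (nat_lit 1) (nat_lit 5) (nat_lit 3) (nat_lit 4) (nat_lit 1) (nat_lit 4) (nat_lit 362) (nat_lit 209) (nat_lit 149))) (XT.nd (nat_lit 78) (nat_lit 0) (nat_lit 0) (XT.lf (nat_lit 0) (nat_lit 114155013173) (nat_lit 152) (nat_lit 293912571012) (nat_lit 0) (nat_lit 109116638072) (nat_lit 1) (nat_lit 5) (nat_lit 3) (nat_lit 4) (nat_lit 1) (nat_lit 4) (nat_lit 363) (nat_lit 209) (nat_lit 148)) (XT.lf (nat_lit 0) (nat_lit 121189907255) (nat_lit 152) (nat_lit 305634173057) (nat_lit 0) (nat_lit 116138642199) (nat_lit 1) (nat_lit 5) (nat_lit 3) (nat_lit 4) (nat_lit 1) (nat_lit 4) (nat_lit 364) (nat_lit 209) (nat_lit 147))))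 (XT.nd (nat_lit 32448) (nat_lit 0) (nat_lit 456) (XT.nd (nat_lit 78) (nat_lit 0) (nat_lit 0) (XT.lf (nat_lit 0) (nat_lit 128569680244) (nat_lit 152) (nat_lit 317954676445) (nat_lit 0) (nat_lit 123506139039) (nat_lit 1) (nat_lit 5) (nat_lit 3) (nat_lit 4) (nat_lit 1) (nat_lit 4) (nat_lit 365) (nat_lit 209) (nat_lit 146)) (XT.lf (nat_lit 0) (nat_lit 136311903027) (nat_lit 152) (nat_lit 330903415707) (nat_lit 0) (nat_lit 131236670252) (nat_lit 1) (nat_lit 5) (nat_lit 3) (nat_lit 4) (nat_lit 1) (nat_lit 4) (nat_lit 366) (nat_lit 209) (nat_lit 145))) (XT.nd (nat_lit 78) (nat_lit 0) (nat_lit 0) (XT.lf (nat_lit 0) (nat_lit 3507154156) (nat_lit 152) (nat_lit 6309590943) (nat_lit 0) (nat_lit 3507154156) (nat_lit 7) (nat_lit 5) (nat_lit 9) (nat_lit 4) (nat_lit 7) (nat_lit 4) (nat_lit 300) (nat_lit 210) (nat_lit 210)) (XT.nd (nat_lit 78) (nat_lit 0) (nat_lit 0) (XT.lf (nat_lit 0) (nat_lit 10821352670)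 (nat_lit 152) (nat_lit 6438603854) (nat_lit 0) (nat_lit 10528690508) (nat_lit 7) (nat_lit 5) (nat_lit 9) (nat_lit 4) (nat_lit 7) (nat_lit 4) (nat_lit 301) (nat_lit 210) (nat_lit 209)) (XT.lf (nat_lit 0) (nat_lit 14700232662) (nat_lit 152) (nat_lit 163492328) (nat_lit 0) (nat_lit 14128844630) (nat_lit 7) (nat_lit 5) (nat_lit 9) (nat_lit 4) (nat_lit 7) (nat_lit 4) (nat_lit 302) (nat_lit 210) (nat_lit 208)))))) (XT.nd (nat_lit 312) (nat_lit 152) (nat_lit 0) (XT.nd (nat_lit 156) (nat_lit 0) (nat_lit 0) (XT.nd (nat_lit 78) (nat_lit 0) (nat_lit 0) (XT.lf (nat_lit 0) (nat_lit 6426790876) (nat_lit 76) (nat_lit 12333733056) (nat_lit 76) (nat_lit 11496891815) (nat_lit 6) (nat_lit 4) (nat_lit 7) (nat_lit 5) (nat_lit 7) (nat_lit 4) (nat_lit 303) (nat_lit 210) (nat_lit 207)) (XT.lf (nat_lit 0) (nat_lit 13151277844) (nat_lit 76) (nat_lit 9764684745) (nat_lit 76) (nat_lit 8675030924) (nat_lit 6) (nat_lit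 4) (nat_lit 7) (nat_lit 5) (nat_lit 7) (nat_lit 4) (nat_lit 304) (nat_lit 210) (nat_lit 206))) (XT.nd (nat_lit 78) (nat_lit 0) (nat_lit 0) (XT.lf (nat_lit 0) (nat_lit 20020573464) (nat_lit 76) (nat_lit 7153232099) (nat_lit 76) (nat_lit 5822804392) (nat_lit 6) (nat_lit 4) (nat_lit 7) (nat_lit 5) (nat_lit 7) (nat_lit 4) (nat_lit 305) (nat_lit 210) (nat_lit 205)) (XT.lf (nat_lit 0) (nat_lit 27051033202) (nat_lit 76) (nat_lit 4493157372) (nat_lit 76) (nat_lit 2933421203) (nat_lit 6) (nat_lit 4) (nat_lit 7) (nat_lit 5) (nat_lit 7) (nat_lit 4) (nat_lit 306) (nat_lit 210) (nat_lit 204)))) (XT.nd (nat_lit 156) (nat_lit 0) (nat_lit 0) (XT.nd (nat_lit 78) (nat_lit 152) (nat_lit 0) (XT.lf (nat_lit 0) (nat_lit 34259396247) (nat_lit 76) (nat_lit 1778127053) (nat_lit 76) (nat_lit 1872) (nat_lit 6) (nat_lit 4) (nat_lit 7) (nat_lit 5) (nat_lit 7) (nat_lit 4) (nat_lit 307) (nat_lit 210) (nat_lit 203))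 (XT.lf (nat_lit 0) (nat_lit 2969795068) (nat_lit 152) (nat_lit 33625638250) (nat_lit 0) (nat_lit 1078257243) (nat_lit 4) (nat_lit 5) (nat_lit 6) (nat_lit 4) (nat_lit 4) (nat_lit 4) (nat_lit 308) (nat_lit 210) (nat_lit 202))) (XT.nd (nat_lit 78) (nat_lit 0) (nat_lit 0) (XT.lf (nat_lit 0) (nat_lit 6055899320) (nat_lit 152) (nat_lit 29361736784) (nat_lit 0) (nat_lit 3975708855) (nat_lit 4) (nat_lit 5) (nat_lit 6) (nat_lit 4) (nat_lit 4) (nat_lit 4) (nat_lit 309) (nat_lit 210) (nat_lit 201)) (XT.nd (nat_lit 78) (nat_lit 0) (nat_lit 0) (XT.lf (nat_lit 0) (nat_lit 9208747609) (nat_lit 152) (nat_lit 25045792771) (nat_lit 0) (nat_lit 6948887964) (nat_lit 4) (nat_lit 5) (nat_lit 6) (nat_lit 4) (nat_lit 4) (nat_lit 4) (nat_lit 310) (nat_lit 210) (nat_lit 200)) (XT.lf (nat_lit 0) (nat_lit 12435846718) (nat_lit 152) (nat_lit 20667530153) (nat_lit 0) (nat_lit 10004873567) (nat_lit 4) (nat_lit 5)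 (nat_lit 6) (nat_lit 4) (nat_lit 4) (nat_lit 4) (nat_lit 311) (nat_lit 210) (nat_lit 199))))))))
noncomputable def xc31 : XT := (XT.nd (nat_lit 1404) (nat_lit 152) (nat_lit 0) (XT.nd (nat_lit 702) (nat_lit 0) (nat_lit 0) (XT.nd (nat_lit 312) (nat_lit 76) (nat_lit 0) (XT.nd (nat_lit 156) (nat_lit 0) (nat_lit 0) (XT.nd (nat_lit 78) (nat_lit 0) (nat_lit 0) (XT.lf (nat_lit 0) (nat_lit 15744880214) (nat_lit 152) (nat_lit 16216524497) (nat_lit 0) (nat_lit 13150941821) (nat_lit 4) (nat_lit 5) (nat_lit 6) (nat_lit 4) (nat_lit 4) (nat_lit 4) (nat_lit 312) (nat_lit 210) (nat_lit 198)) (XT.lf (nat_lit 0) (nat_lit 19143726750) (nat_lit 152) (nat_lit 11682178168) (nat_lit 0) (nat_lit 16394583363) (nat_lit 4) (nat_lit 5) (nat_lit 6) (nat_lit 4) (nat_lit 4) (nat_lit 4) (nat_lit 313) (nat_lit 210) (nat_lit 197))) (XT.nd (nat_lit 78) (nat_lit 0) (nat_lit 0) (XT.lf (nat_lit 0) (nat_lit 22640478817) (nat_lit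 152) (nat_lit 7053695105) (nat_lit 0) (nat_lit 19743521151) (nat_lit 4) (nat_lit 5) (nat_lit 6) (nat_lit 4) (nat_lit 4) (nat_lit 4) (nat_lit 314) (nat_lit 210) (nat_lit 196)) (XT.lf (nat_lit 0) (nat_lit 26243462016) (nat_lit 152) (nat_lit 2320055110) (nat_lit 0) (nat_lit 23205728845) (nat_lit 4) (nat_lit 5) (nat_lit 6) (nat_lit 4) (nat_lit 4) (nat_lit 4) (nat_lit 315) (nat_lit 210) (nat_lit 195)))) (XT.nd (nat_lit 156) (nat_lit 0) (nat_lit 0) (XT.nd (nat_lit 78) (nat_lit 0) (nat_lit 0) (XT.lf (nat_lit 0) (nat_lit 2613666023) (nat_lit 76) (nat_lit 27388395505) (nat_lit 76) (nat_lit 24216590426) (nat_lit 3) (nat_lit 4) (nat_lit 4) (nat_lit 5) (nat_lit 4) (nat_lit 4) (nat_lit 316) (nat_lit 210) (nat_lit 194)) (XT.lf (nat_lit 0) (nat_lit 7756305381) (nat_lit 76) (nat_lit 26167501572) (nat_lit 76) (nat_lit 22868008960) (nat_lit 3) (nat_lit 4) (nat_lit 4) (nat_lit 5) (nat_lit 4) (nat_lit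 4) (nat_lit 317) (nat_lit 210) (nat_lit 193))) (XT.nd (nat_lit 78) (nat_lit 0) (nat_lit 0) (XT.lf (nat_lit 0) (nat_lit 13043395842) (nat_lit 76) (nat_lit 24937219692) (nat_lit 76) (nat_lit 21516119907) (nat_lit 3) (nat_lit 4) (nat_lit 4) (nat_lit 5) (nat_lit 4) (nat_lit 4) (nat_lit 318) (nat_lit 210) (nat_lit 192)) (XT.nd (nat_lit 78) (nat_lit 0) (nat_lit 0) (XT.lf (nat_lit 0) (nat_lit 18487525717) (nat_lit 76) (nat_lit 23694620623) (nat_lit 76) (nat_lit 20157704482) (nat_lit 3) (nat_lit 4) (nat_lit 4) (nat_lit 5) (nat_lit 4) (nat_lit 4) (nat_lit 319) (nat_lit 210) (nat_lit 191)) (XT.lf (nat_lit 0) (nat_lit 24101657221) (nat_lit 76) (nat_lit 22436745796) (nat_lit 76) (nat_lit 18789528364) (nat_lit 3) (nat_lit 4) (nat_lit 4) (nat_lit 5) (nat_lit 4) (nat_lit 4) (nat_lit 320) (nat_lit 210) (nat_lit 190)))))) (XT.nd (nat_lit 312) (nat_lit 0) (nat_lit 0) (XT.nd (nat_lit 156) (nat_lit 0)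 (nat_lit 0) (XT.nd (nat_lit 78) (nat_lit 0) (nat_lit 0) (XT.lf (nat_lit 0) (nat_lit 29899157333) (nat_lit 76) (nat_lit 21160600271) (nat_lit 76) (nat_lit 17408333990) (nat_lit 3) (nat_lit 4) (nat_lit 4) (nat_lit 5) (nat_lit 4) (nat_lit 4) (nat_lit 321) (nat_lit 210) (nat_lit 189)) (XT.lf (nat_lit 0) (nat_lit 35893829624) (nat_lit 76) (nat_lit 19863145606) (nat_lit 76) (nat_lit 16010832802) (nat_lit 3) (nat_lit 4) (nat_lit 4) (nat_lit 5) (nat_lit 4) (nat_lit 4) (nat_lit 322) (nat_lit 210) (nat_lit 188))) (XT.nd (nat_lit 78) (nat_lit 0) (nat_lit 0) (XT.lf (nat_lit 0) (nat_lit 42099947124) (nat_lit 76) (nat_lit 18541292622) (nat_lit 76) (nat_lit 14593697416) (nat_lit 3) (nat_lit 4) (nat_lit 4) (nat_lit 5) (nat_lit 4) (nat_lit 4) (nat_lit 323) (nat_lit 210) (nat_lit 187)) (XT.lf (nat_lit 0) (nat_lit 48532286304) (nat_lit 76) (nat_lit 17191894052) (nat_lit 76) (nat_lit 13153553701) (nat_lit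 3) (nat_lit 4) (nat_lit 4) (nat_lit 5) (nat_lit 4) (nat_lit 4) (nat_lit 324) (nat_lit 210) (nat_lit 186)))) (XT.nd (nat_lit 156) (nat_lit 0) (nat_lit 0) (XT.nd (nat_lit 78) (nat_lit 0) (nat_lit 0) (XT.lf (nat_lit 0) (nat_lit 55206162255) (nat_lit 76) (nat_lit 15811737042) (nat_lit 76) (nat_lit 11686972742) (nat_lit 3) (nat_lit 4) (nat_lit 4) (nat_lit 5) (nat_lit 4) (nat_lit 4) (nat_lit 325) (nat_lit 210) (nat_lit 185)) (XT.lf (nat_lit 0) (nat_lit 62137465160) (nat_lit 76) (nat_lit 14397535503) (nat_lit 76) (nat_lit 10190462682) (nat_lit 3) (nat_lit 4) (nat_lit 4) (nat_lit 5) (nat_lit 4) (nat_lit 4) (nat_lit 326) (nat_lit 210) (nat_lit 184))) (XT.nd (nat_lit 78) (nat_lit 0) (nat_lit 0) (XT.lf (nat_lit 0) (nat_lit 69342698121) (nat_lit 76) (nat_lit 12945922288) (nat_lit 76) (nat_lit 8660460399) (nat_lit 3) (nat_lit 4) (nat_lit 4) (nat_lit 5) (nat_lit 4) (nat_lit 4) (nat_lit 327) (nat_lit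 210) (nat_lit 183)) (XT.nd (nat_lit 78) (nat_lit 0) (nat_lit 0) (XT.lf (nat_lit 0) (nat_lit 76839016453) (nat_lit 76) (nat_lit 11453441177) (nat_lit 76) (nat_lit 7093323032) (nat_lit 3) (nat_lit 4) (nat_lit 4) (nat_lit 5) (nat_lit 4) (nat_lit 4) (nat_lit 328) (nat_lit 210) (nat_lit 182)) (XT.lf (nat_lit 0) (nat_lit 84644268535) (nat_lit 76) (nat_lit 9916538642) (nat_lit 76) (nat_lit 5485319301) (nat_lit 3) (nat_lit 4) (nat_lit 4) (nat_lit 5) (nat_lit 4) (nat_lit 4) (nat_lit 329) (nat_lit 210) (nat_lit 181))))))) (XT.nd (nat_lit 702) (nat_lit 0) (nat_lit 0) (XT.nd (nat_lit 312) (nat_lit 76) (nat_lit 0) (XT.nd (nat_lit 156) (nat_lit 76) (nat_lit 0) (XT.nd (nat_lit 78) (nat_lit 0) (nat_lit 0) (XT.lf (nat_lit 0) (nat_lit 92777038299) (nat_lit 76) (nat_lit 8331555391) (nat_lit 76) (nat_lit 3832620626) (nat_lit 3) (nat_lit 4) (nat_lit 4) (nat_lit 5) (nat_lit 4) (nat_lit 4) (nat_lit 330) (nat_lit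 210) (nat_lit 180)) (XT.lf (nat_lit 0) (nat_lit 101256689483) (nat_lit 76) (nat_lit 6694717656) (nat_lit 76) (nat_lit 2131292010) (nat_lit 3) (nat_lit 4) (nat_lit 4) (nat_lit 5) (nat_lit 4) (nat_lit 4) (nat_lit 331) (nat_lit 210) (nat_lit 179))) (XT.nd (nat_lit 78) (nat_lit 76) (nat_lit 0) (XT.lf (nat_lit 0) (nat_lit 110103411732) (nat_lit 76) (nat_lit 5002128203) (nat_lit 76) (nat_lit 377282671) (nat_lit 3) (nat_lit 4) (nat_lit 4) (nat_lit 5) (nat_lit 4) (nat_lit 4) (nat_lit 332) (nat_lit 210) (nat_lit 178)) (XT.lf (nat_lit 0) (nat_lit 1387699976) (nat_lit 152) (nat_lit 1838555710) (nat_lit 76) (nat_lit 117927067325) (nat_lit 2) (nat_lit 5) (nat_lit 4) (nat_lit 5) (nat_lit 3) (nat_lit 4) (nat_lit 333) (nat_lit 210) (nat_lit 177)))) (XT.nd (nat_lit 156) (nat_lit 0) (nat_lit 0) (XT.nd (nat_lit 78) (nat_lit 0) (nat_lit 0) (XT.lf (nat_lit 0) (nat_lit 1880773009) (nat_lit 76) (nat_lit 1348409097)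 (nat_lit 152) (nat_lit 123877830749) (nat_lit 1) (nat_lit 5) (nat_lit 2) (nat_lit 5) (nat_lit 3) (nat_lit 4) (nat_lit 334) (nat_lit 210) (nat_lit 176)) (XT.lf (nat_lit 0) (nat_lit 5175856985) (nat_lit 152) (nat_lit 127569948011) (nat_lit 0) (nat_lit 611945446) (nat_lit 1) (nat_lit 5) (nat_lit 3) (nat_lit 4) (nat_lit 1) (nat_lit 4) (nat_lit 335) (nat_lit 210) (nat_lit 175))) (XT.nd (nat_lit 78) (nat_lit 0) (nat_lit 0) (XT.lf (nat_lit 0) (nat_lit 7215055862) (nat_lit 152) (nat_lit 130103207569) (nat_lit 0) (nat_lit 2603020234) (nat_lit 1) (nat_lit 5) (nat_lit 3) (nat_lit 4) (nat_lit 1) (nat_lit 4) (nat_lit 336) (nat_lit 210) (nat_lit 174)) (XT.nd (nat_lit 78) (nat_lit 0) (nat_lit 0) (XT.lf (nat_lit 0) (nat_lit 9330581526) (nat_lit 152) (nat_lit 132810997645) (nat_lit 0) (nat_lit 4672713434) (nat_lit 1) (nat_lit 5) (nat_lit 3) (nat_lit 4) (nat_lit 1) (nat_lit 4) (nat_lit 337) (nat_lit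 210) (nat_lit 173)) (XT.lf (nat_lit 0) (nat_lit 11527470945) (nat_lit 152) (nat_lit 135699765360) (nat_lit 0) (nat_lit 6825952886) (nat_lit 1) (nat_lit 5) (nat_lit 3) (nat_lit 4) (nat_lit 1) (nat_lit 4) (nat_lit 338) (nat_lit 210) (nat_lit 172)))))) (XT.nd (nat_lit 390) (nat_lit 0) (nat_lit 0) (XT.nd (nat_lit 156) (nat_lit 0) (nat_lit 0) (XT.nd (nat_lit 78) (nat_lit 0) (nat_lit 0) (XT.lf (nat_lit 0) (nat_lit 13810954806) (nat_lit 152) (nat_lit 138776388732) (nat_lit 0) (nat_lit 9067865351) (nat_lit 1) (nat_lit 5) (nat_lit 3) (nat_lit 4) (nat_lit 1) (nat_lit 4) (nat_lit 339) (nat_lit 210) (nat_lit 171)) (XT.lf (nat_lit 0) (nat_lit 16186469977) (nat_lit 152) (nat_lit 142048193054) (nat_lit 0) (nat_lit 11403788715) (nat_lit 1) (nat_lit 5) (nat_lit 3) (nat_lit 4) (nat_lit 1) (nat_lit 4) (nat_lit 340) (nat_lit 210) (nat_lit 170))) (XT.nd (nat_lit 78) (nat_lit 0) (nat_lit 0) (XT.lf (nat_lit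 0) (nat_lit 18659672445) (nat_lit 152) (nat_lit 145522968336) (nat_lit 0) (nat_lit 13839284702) (nat_lit 1) (nat_lit 5) (nat_lit 3) (nat_lit 4) (nat_lit 1) (nat_lit 4) (nat_lit 341) (nat_lit 210) (nat_lit 169)) (XT.nd (nat_lit 78) (nat_lit 0) (nat_lit 0) (XT.lf (nat_lit 0) (nat_lit 21236450789) (nat_lit 152) (nat_lit 149208987854) (nat_lit 0) (nat_lit 16380152110) (nat_lit 1) (nat_lit 5) (nat_lit 3) (nat_lit 4) (nat_lit 1) (nat_lit 4) (nat_lit 342) (nat_lit 210) (nat_lit 168)) (XT.lf (nat_lit 0) (nat_lit 23922940194) (nat_lit 152) (nat_lit 153115027843) (nat_lit 0) (nat_lit 19032440624) (nat_lit 1) (nat_lit 5) (nat_lit 3) (nat_lit 4) (nat_lit 1) (nat_lit 4) (nat_lit 343) (nat_lit 210) (nat_lit 167))))) (XT.nd (nat_lit 156) (nat_lit 0) (nat_lit 0) (XT.nd (nat_lit 78) (nat_lit 0) (nat_lit 0) (XT.lf (nat_lit 0) (nat_lit 26725537065) (nat_lit 152) (nat_lit 157250388400) (nat_lit 0) (nat_lit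 21802465218) (nat_lit 1) (nat_lit 5) (nat_lit 3) (nat_lit 4) (nat_lit 1) (nat_lit 4) (nat_lit 344) (nat_lit 210) (nat_lit 166)) (XT.lf (nat_lit 0) (nat_lit 29650914250) (nat_lit 152) (nat_lit 161624915621) (nat_lit 0) (nat_lit 24696821187) (nat_lit 1) (nat_lit 5) (nat_lit 3) (nat_lit 4) (nat_lit 1) (nat_lit 4) (nat_lit 345) (nat_lit 210) (nat_lit 165))) (XT.nd (nat_lit 78) (nat_lit 0) (nat_lit 0) (XT.lf (nat_lit 0) (nat_lit 32706036933) (nat_lit 152) (nat_lit 166249025047) (nat_lit 0) (nat_lit 27722399855) (nat_lit 1) (nat_lit 5) (nat_lit 3) (nat_lit 4) (nat_lit 1) (nat_lit 4) (nat_lit 346) (nat_lit 210) (nat_lit 164)) (XT.nd (nat_lit 78) (nat_lit 0) (nat_lit 0) (XT.lf (nat_lit 0) (nat_lit 35898179217) (nat_lit 152) (nat_lit 171133726461) (nat_lit 0) (nat_lit 30886404981) (nat_lit 1) (nat_lit 5) (nat_lit 3) (nat_lit 4) (nat_lit 1) (nat_lit 4) (nat_lit 347) (nat_lit 210) (nat_lit 163))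 (XT.lf (nat_lit 0) (nat_lit 39234941440) (nat_lit 152) (nat_lit 176290650106) (nat_lit 0) (nat_lit 34196369911) (nat_lit 1) (nat_lit 5) (nat_lit 3) (nat_lit 4) (nat_lit 1) (nat_lit 4) (nat_lit 348) (nat_lit 210) (nat_lit 162))))))))
noncomputable def xc32 : XT := (XT.nd (nat_lit 33540) (nat_lit 0) (nat_lit 228) (XT.nd (nat_lit 702) (nat_lit 0) (nat_lit 0) (XT.nd (nat_lit 312) (nat_lit 0) (nat_lit 0) (XT.nd (nat_lit 156) (nat_lit 0) (nat_lit 0) (XT.nd (nat_lit 78) (nat_lit 0) (nat_lit 0) (XT.lf (nat_lit 0) (nat_lit 42724268273) (nat_lit 152) (nat_lit 181732074372) (nat_lit 0) (nat_lit 37660175513) (nat_lit 1) (nat_lit 5) (nat_lit 3) (nat_lit 4) (nat_lit 1) (nat_lit 4) (nat_lit 349) (nat_lit 210) (nat_lit 161)) (XT.lf (nat_lit 0) (nat_lit 46374467638) (nat_lit 152) (nat_lit 187470955030) (nat_lit 0) (nat_lit 41286068943) (nat_lit 1) (nat_lit 5) (nat_lit 3) (nat_lit 4) (nat_lit 1) (nat_lit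 4) (nat_lit 350) (nat_lit 210) (nat_lit 160))) (XT.nd (nat_lit 78) (nat_lit 0) (nat_lit 0) (XT.lf (nat_lit 0) (nat_lit 50194230486) (nat_lit 152) (nat_lit 193520956082) (nat_lit 0) (nat_lit 45082683282) (nat_lit 1) (nat_lit 5) (nat_lit 3) (nat_lit 4) (nat_lit 1) (nat_lit 4) (nat_lit 351) (nat_lit 210) (nat_lit 159)) (XT.lf (nat_lit 0) (nat_lit 54192651491) (nat_lit 152) (nat_lit 199896482292) (nat_lit 0) (nat_lit 49059058087) (nat_lit 1) (nat_lit 5) (nat_lit 3) (nat_lit 4) (nat_lit 1) (nat_lit 4) (nat_lit 352) (nat_lit 210) (nat_lit 158)))) (XT.nd (nat_lit 156) (nat_lit 0) (nat_lit 0) (XT.nd (nat_lit 78) (nat_lit 0) (nat_lit 0) (XT.lf (nat_lit 0) (nat_lit 58379250701) (nat_lit 152) (nat_lit 206612713484) (nat_lit 0) (nat_lit 53224660918) (nat_lit 1) (nat_lit 5) (nat_lit 3) (nat_lit 4) (nat_lit 1) (nat_lit 4) (nat_lit 353) (nat_lit 210) (nat_lit 157)) (XT.lf (nat_lit 0) (nat_lit 62763996211)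 (nat_lit 152) (nat_lit 213685640686) (nat_lit 0) (nat_lit 57589409875) (nat_lit 1) (nat_lit 5) (nat_lit 3) (nat_lit 4) (nat_lit 1) (nat_lit 4) (nat_lit 354) (nat_lit 210) (nat_lit 156))) (XT.nd (nat_lit 78) (nat_lit 0) (nat_lit 0) (XT.lf (nat_lit 0) (nat_lit 67357327891) (nat_lit 152) (nat_lit 221132104200) (nat_lit 0) (nat_lit 62163697219) (nat_lit 1) (nat_lit 5) (nat_lit 3) (nat_lit 4) (nat_lit 1) (nat_lit 4) (nat_lit 355) (nat_lit 210) (nat_lit 155)) (XT.nd (nat_lit 78) (nat_lit 0) (nat_lit 0) (XT.lf (nat_lit 0) (nat_lit 72170182244) (nat_lit 152) (nat_lit 228969833701) (nat_lit 0) (nat_lit 66958414110) (nat_lit 1) (nat_lit 5) (nat_lit 3) (nat_lit 4) (nat_lit 1) (nat_lit 4) (nat_lit 356) (nat_lit 210) (nat_lit 154)) (XT.lf (nat_lit 0) (nat_lit 77214018449) (nat_lit 152) (nat_lit 237217490450) (nat_lit 0) (nat_lit 71984976540) (nat_lit 1) (nat_lit 5) (nat_lit 3) (nat_lit 4) (nat_lit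 1) (nat_lit 4) (nat_lit 357) (nat_lit 210) (nat_lit 153)))))) (XT.nd (nat_lit 312) (nat_lit 0) (nat_lit 0) (XT.nd (nat_lit 156) (nat_lit 0) (nat_lit 0) (XT.nd (nat_lit 78) (nat_lit 0) (nat_lit 0) (XT.lf (nat_lit 0) (nat_lit 82500845638) (nat_lit 152) (nat_lit 245894711725) (nat_lit 0) (nat_lit 77255352516) (nat_lit 1) (nat_lit 5) (nat_lit 3) (nat_lit 4) (nat_lit 1) (nat_lit 4) (nat_lit 358) (nat_lit 210) (nat_lit 152)) (XT.lf (nat_lit 0) (nat_lit 88043251496) (nat_lit 152) (nat_lit 255022157577) (nat_lit 0) (nat_lit 82782090552) (nat_lit 1) (nat_lit 5) (nat_lit 3) (nat_lit 4) (nat_lit 1) (nat_lit 4) (nat_lit 359) (nat_lit 210) (nat_lit 151))) (XT.nd (nat_lit 78) (nat_lit 0) (nat_lit 0) (XT.lf (nat_lit 0) (nat_lit 93854432226) (nat_lit 152) (nat_lit 264621560019) (nat_lit 0) (nat_lit 88578349547) (nat_lit 1) (nat_lit 5) (nat_lit 3) (nat_lit 4) (nat_lit 1) (nat_lit 4) (nat_lit 360) (nat_lit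 210) (nat_lit 150)) (XT.lf (nat_lit 0) (nat_lit 99948223974) (nat_lit 152) (nat_lit 274715774771) (nat_lit 0) (nat_lit 94657930118) (nat_lit 1) (nat_lit 5) (nat_lit 3) (nat_lit 4) (nat_lit 1) (nat_lit 4) (nat_lit 361) (nat_lit 210) (nat_lit 149)))) (XT.nd (nat_lit 156) (nat_lit 0) (nat_lit 0) (XT.nd (nat_lit 78) (nat_lit 0) (nat_lit 0) (XT.lf (nat_lit 0) (nat_lit 106339135767) (nat_lit 152) (nat_lit 285328835678) (nat_lit 0) (nat_lit 101035307458) (nat_lit 1) (nat_lit 5) (nat_lit 3) (nat_lit 4) (nat_lit 1) (nat_lit 4) (nat_lit 362) (nat_lit 210) (nat_lit 148)) (XT.lf (nat_lit 0) (nat_lit 113042384063) (nat_lit 152) (nat_lit 296486011934) (nat_lit 0) (nat_lit 107725665797) (nat_lit 1) (nat_lit 5) (nat_lit 3) (nat_lit 4) (nat_lit 1) (nat_lit 4) (nat_lit 363) (nat_lit 210) (nat_lit 147))) (XT.nd (nat_lit 78) (nat_lit 0) (nat_lit 0) (XT.lf (nat_lit 0) (nat_lit 120073928975) (nat_lit 152)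 (nat_lit 308213868242) (nat_lit 0) (nat_lit 114744934561) (nat_lit 1) (nat_lit 5) (nat_lit 3) (nat_lit 4) (nat_lit 1) (nat_lit 4) (nat_lit 364) (nat_lit 210) (nat_lit 146)) (XT.nd (nat_lit 78) (nat_lit 0) (nat_lit 0) (XT.lf (nat_lit 0) (nat_lit 127450512279) (nat_lit 152) (nat_lit 320540328071) (nat_lit 0) (nat_lit 122109826294) (nat_lit 1) (nat_lit 5) (nat_lit 3) (nat_lit 4) (nat_lit 1) (nat_lit 4) (nat_lit 365) (nat_lit 210) (nat_lit 145)) (XT.lf (nat_lit 0) (nat_lit 135189697266) (nat_lit 152) (nat_lit 333494740135) (nat_lit 0) (nat_lit 129837876453) (nat_lit 1) (nat_lit 5) (nat_lit 3) (nat_lit 4) (nat_lit 1) (nat_lit 4) (nat_lit 366) (nat_lit 210) (nat_lit 144))))))) (XT.nd (nat_lit 702) (nat_lit 152) (nat_lit 0) (XT.nd (nat_lit 312) (nat_lit 76) (nat_lit 0) (XT.nd (nat_lit 156) (nat_lit 0) (nat_lit 0) (XT.nd (nat_lit 78) (nat_lit 152) (nat_lit 0) (XT.lf (nat_lit 0) (nat_lit 12222049844)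 (nat_lit 76) (nat_lit 24275807) (nat_lit 76) (nat_lit 24275807) (nat_lit 9) (nat_lit 4) (nat_lit 10) (nat_lit 5) (nat_lit 10) (nat_lit 4) (nat_lit 298) (nat_lit 211) (nat_lit 211)) (XT.lf (nat_lit 0) (nat_lit 3577330468) (nat_lit 152) (nat_lit 18719942090) (nat_lit 0) (nat_lit 3270035197) (nat_lit 7) (nat_lit 5) (nat_lit 9) (nat_lit 4) (nat_lit 7) (nat_lit 4) (nat_lit 299) (nat_lit 211) (nat_lit 210))) (XT.nd (nat_lit 78) (nat_lit 0) (nat_lit 0) (XT.lf (nat_lit 0) (nat_lit 7260899967) (nat_lit 152) (nat_lit 12729045389) (nat_lit 0) (nat_lit 6660942533) (nat_lit 7) (nat_lit 5) (nat_lit 9) (nat_lit 4) (nat_lit 7) (nat_lit 4) (nat_lit 300) (nat_lit 211) (nat_lit 209)) (XT.lf (nat_lit 0) (nat_lit 11010131357) (nat_lit 152) (nat_lit 6653099263) (nat_lit 0) (nat_lit 10131448054) (nat_lit 7) (nat_lit 5) (nat_lit 9) (nat_lit 4) (nat_lit 7) (nat_lit 4) (nat_lit 301) (nat_lit 211) (nat_lit 208))))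 (XT.nd (nat_lit 156) (nat_lit 0) (nat_lit 0) (XT.nd (nat_lit 78) (nat_lit 76) (nat_lit 0) (XT.lf (nat_lit 0) (nat_lit 14833951379) (nat_lit 152) (nat_lit 477637172) (nat_lit 0) (nat_lit 13689814867) (nat_lit 7) (nat_lit 5) (nat_lit 9) (nat_lit 4) (nat_lit 7) (nat_lit 4) (nat_lit 302) (nat_lit 211) (nat_lit 207)) (XT.lf (nat_lit 0) (nat_lit 6004216799) (nat_lit 76) (nat_lit 12830990218) (nat_lit 76) (nat_lit 11434041126) (nat_lit 6) (nat_lit 4) (nat_lit 7) (nat_lit 5) (nat_lit 7) (nat_lit 4) (nat_lit 303) (nat_lit 211) (nat_lit 206))) (XT.nd (nat_lit 78) (nat_lit 0) (nat_lit 0) (XT.lf (nat_lit 0) (nat_lit 12635330257) (nat_lit 76) (nat_lit 10303916581) (nat_lit 76) (nat_lit 8666193603) (nat_lit 6) (nat_lit 4) (nat_lit 7) (nat_lit 5) (nat_lit 7) (nat_lit 4) (nat_lit 304) (nat_lit 211) (nat_lit 205)) (XT.nd (nat_lit 78) (nat_lit 0) (nat_lit 0) (XT.lf (nat_lit 0) (nat_lit 19415698724) (nat_lit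 76) (nat_lit 7732439813) (nat_lit 76) (nat_lit 5865408373) (nat_lit 6) (nat_lit 4) (nat_lit 7) (nat_lit 5) (nat_lit 7) (nat_lit 4) (nat_lit 305) (nat_lit 211) (nat_lit 204)) (XT.lf (nat_lit 0) (nat_lit 26361465935) (nat_lit 76) (nat_lit 5110437352) (nat_lit 76) (nat_lit 3025016900) (nat_lit 6) (nat_lit 4) (nat_lit 7) (nat_lit 5) (nat_lit 7) (nat_lit 4) (nat_lit 306) (nat_lit 211) (nat_lit 203)))))) (XT.nd (nat_lit 312) (nat_lit 0) (nat_lit 0) (XT.nd (nat_lit 156) (nat_lit 0) (nat_lit 0) (XT.nd (nat_lit 78) (nat_lit 152) (nat_lit 0) (XT.lf (nat_lit 0) (nat_lit 33489169431) (nat_lit 76) (nat_lit 2431666334) (nat_lit 76) (nat_lit 138256347) (nat_lit 6) (nat_lit 4) (nat_lit 7) (nat_lit 5) (nat_lit 7) (nat_lit 4) (nat_lit 307) (nat_lit 211) (nat_lit 202)) (XT.lf (nat_lit 0) (nat_lit 2767933388) (nat_lit 152) (nat_lit 34535787825) (nat_lit 0) (nat_lit 395080760) (nat_lit 4) (nat_lit 5) (nat_lit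 6) (nat_lit 4) (nat_lit 4) (nat_lit 4) (nat_lit 308) (nat_lit 211) (nat_lit 201))) (XT.nd (nat_lit 78) (nat_lit 0) (nat_lit 0) (XT.lf (nat_lit 0) (nat_lit 5811324871) (nat_lit 152) (nat_lit 30350497348) (nat_lit 0) (nat_lit 3258803064) (nat_lit 4) (nat_lit 5) (nat_lit 6) (nat_lit 4) (nat_lit 4) (nat_lit 4) (nat_lit 309) (nat_lit 211) (nat_lit 200)) (XT.lf (nat_lit 0) (nat_lit 8923494334) (nat_lit 152) (nat_lit 26109420942) (nat_lit 0) (nat_lit 6199859021) (nat_lit 4) (nat_lit 5) (nat_lit 6) (nat_lit 4) (nat_lit 4) (nat_lit 4) (nat_lit 310) (nat_lit 211) (nat_lit 199)))) (XT.nd (nat_lit 156) (nat_lit 0) (nat_lit 0) (XT.nd (nat_lit 78) (nat_lit 0) (nat_lit 0) (XT.lf (nat_lit 0) (nat_lit 12111851702) (nat_lit 152) (nat_lit 21802460809) (nat_lit 0) (nat_lit 9225251146) (nat_lit 4) (nat_lit 5) (nat_lit 6) (nat_lit 4) (nat_lit 4) (nat_lit 4) (nat_lit 311) (nat_lit 211) (nat_lit 198)) (XT.lf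 (nat_lit 0) (nat_lit 15383988303) (nat_lit 152) (nat_lit 17419362279) (nat_lit 0) (nat_lit 12342182753) (nat_lit 4) (nat_lit 5) (nat_lit 6) (nat_lit 4) (nat_lit 4) (nat_lit 4) (nat_lit 312) (nat_lit 211) (nat_lit 197))) (XT.nd (nat_lit 78) (nat_lit 0) (nat_lit 0) (XT.lf (nat_lit 0) (nat_lit 18747694939) (nat_lit 152) (nat_lit 12949689405) (nat_lit 0) (nat_lit 15558075110) (nat_lit 4) (nat_lit 5) (nat_lit 6) (nat_lit 4) (nat_lit 4) (nat_lit 4) (nat_lit 313) (nat_lit 211) (nat_lit 196)) (XT.nd (nat_lit 78) (nat_lit 0) (nat_lit 0) (XT.lf (nat_lit 0) (nat_lit 22210980434) (nat_lit 152) (nat_lit 8382800109) (nat_lit 0) (nat_lit 18880585101) (nat_lit 4) (nat_lit 5) (nat_lit 6) (nat_lit 4) (nat_lit 4) (nat_lit 4) (nat_lit 314) (nat_lit 211) (nat_lit 195)) (XT.lf (nat_lit 0) (nat_lit 25782090707) (nat_lit 152) (nat_lit 3707820844) (nat_lit 0) (nat_lit 22317623465) (nat_lit 4) (nat_lit 5) (nat_lit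 6) (nat_lit 4) (nat_lit 4) (nat_lit 4) (nat_lit 315) (nat_lit 211) (nat_lit 194))))))))
noncomputable def xc33 : XT := (XT.nd (nat_lit 1404) (nat_lit 76) (nat_lit 0) (XT.nd (nat_lit 702) (nat_lit 76) (nat_lit 0) (XT.nd (nat_lit 312) (nat_lit 0) (nat_lit 0) (XT.nd (nat_lit 156) (nat_lit 0) (nat_lit 0) (XT.nd (nat_lit 78) (nat_lit 0) (nat_lit 0) (XT.lf (nat_lit 0) (nat_lit 1122299898) (nat_lit 76) (nat_lit 28364750750) (nat_lit 76) (nat_lit 24772595975) (nat_lit 3) (nat_lit 4) (nat_lit 4) (nat_lit 5) (nat_lit 4) (nat_lit 4) (nat_lit 316) (nat_lit 211) (nat_lit 193)) (XT.lf (nat_lit 0) (nat_lit 6209972980) (nat_lit 76) (nat_lit 27169055231) (nat_lit 76) (nat_lit 23455293283) (nat_lit 3) (nat_lit 4) (nat_lit 4) (nat_lit 5) (nat_lit 4) (nat_lit 4) (nat_lit 317) (nat_lit 211) (nat_lit 192))) (XT.nd (nat_lit 78) (nat_lit 0) (nat_lit 0) (XT.lf (nat_lit 0) (nat_lit 11444714608) (nat_lit 76)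 (nat_lit 25962771842) (nat_lit 76) (nat_lit 22133193538) (nat_lit 3) (nat_lit 4) (nat_lit 4) (nat_lit 5) (nat_lit 4) (nat_lit 4) (nat_lit 318) (nat_lit 211) (nat_lit 191)) (XT.lf (nat_lit 0) (nat_lit 16838988452) (nat_lit 76) (nat_lit 24743028478) (nat_lit 76) (nat_lit 20803148883) (nat_lit 3) (nat_lit 4) (nat_lit 4) (nat_lit 5) (nat_lit 4) (nat_lit 4) (nat_lit 319) (nat_lit 211) (nat_lit 190)))) (XT.nd (nat_lit 156) (nat_lit 0) (nat_lit 0) (XT.nd (nat_lit 78) (nat_lit 0) (nat_lit 0) (XT.lf (nat_lit 0) (nat_lit 22405638020) (nat_lit 76) (nat_lit 23506920989) (nat_lit 76) (nat_lit 19461992545) (nat_lit 3) (nat_lit 4) (nat_lit 4) (nat_lit 5) (nat_lit 4) (nat_lit 4) (nat_lit 320) (nat_lit 211) (nat_lit 189)) (XT.lf (nat_lit 0) (nat_lit 28157917241) (nat_lit 76) (nat_lit 22251506262) (nat_lit 76) (nat_lit 18106531295) (nat_lit 3) (nat_lit 4) (nat_lit 4) (nat_lit 5) (nat_lit 4) (nat_lit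 4) (nat_lit 321) (nat_lit 211) (nat_lit 188))) (XT.nd (nat_lit 78) (nat_lit 0) (nat_lit 0) (XT.lf (nat_lit 0) (nat_lit 34109522017) (nat_lit 76) (nat_lit 20973795214) (nat_lit 76) (nat_lit 16733537845) (nat_lit 3) (nat_lit 4) (nat_lit 4) (nat_lit 5) (nat_lit 4) (nat_lit 4) (nat_lit 322) (nat_lit 211) (nat_lit 187)) (XT.nd (nat_lit 78) (nat_lit 0) (nat_lit 0) (XT.lf (nat_lit 0) (nat_lit 40274622837) (nat_lit 76) (nat_lit 19670745676) (nat_lit 76) (nat_lit 15339743161) (nat_lit 3) (nat_lit 4) (nat_lit 4) (nat_lit 5) (nat_lit 4) (nat_lit 4) (nat_lit 323) (nat_lit 211) (nat_lit 186)) (XT.lf (nat_lit 0) (nat_lit 46667898510) (nat_lit 76) (nat_lit 18339255149) (nat_lit 76) (nat_lit 13921828686) (nat_lit 3) (nat_lit 4) (nat_lit 4) (nat_lit 5) (nat_lit 4) (nat_lit 4) (nat_lit 324) (nat_lit 211) (nat_lit 185)))))) (XT.nd (nat_lit 312) (nat_lit 76) (nat_lit 0) (XT.nd (nat_lit 156) (nat_lit 0)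 (nat_lit 0) (XT.nd (nat_lit 78) (nat_lit 0) (nat_lit 0) (XT.lf (nat_lit 0) (nat_lit 53304571123) (nat_lit 76) (nat_lit 16976153417) (nat_lit 76) (nat_lit 12476418433) (nat_lit 3) (nat_lit 4) (nat_lit 4) (nat_lit 5) (nat_lit 4) (nat_lit 4) (nat_lit 325) (nat_lit 211) (nat_lit 184)) (XT.lf (nat_lit 0) (nat_lit 60200442277) (nat_lit 76) (nat_lit 15578195001) (nat_lit 76) (nat_lit 11000070948) (nat_lit 3) (nat_lit 4) (nat_lit 4) (nat_lit 5) (nat_lit 4) (nat_lit 4) (nat_lit 326) (nat_lit 211) (nat_lit 183))) (XT.nd (nat_lit 78) (nat_lit 0) (nat_lit 0) (XT.lf (nat_lit 0) (nat_lit 67371930713) (nat_lit 76) (nat_lit 14142051427) (nat_lit 76) (nat_lit 9489271119) (nat_lit 3) (nat_lit 4) (nat_lit 4) (nat_lit 5) (nat_lit 4) (nat_lit 4) (nat_lit 327) (nat_lit 211) (nat_lit 182)) (XT.lf (nat_lit 0) (nat_lit 74836111403) (nat_lit 76) (nat_lit 12664303307) (nat_lit 76) (nat_lit 7940421803) (nat_lit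 3) (nat_lit 4) (nat_lit 4) (nat_lit 5) (nat_lit 4) (nat_lit 4) (nat_lit 328) (nat_lit 211) (nat_lit 181)))) (XT.nd (nat_lit 156) (nat_lit 76) (nat_lit 0) (XT.nd (nat_lit 78) (nat_lit 0) (nat_lit 0) (XT.lf (nat_lit 0) (nat_lit 82610756205) (nat_lit 76) (nat_lit 11141432192) (nat_lit 76) (nat_lit 6349835263) (nat_lit 3) (nat_lit 4) (nat_lit 4) (nat_lit 5) (nat_lit 4) (nat_lit 4) (nat_lit 329) (nat_lit 211) (nat_lit 180)) (XT.lf (nat_lit 0) (nat_lit 90714376180) (nat_lit 76) (nat_lit 9569812199) (nat_lit 76) (nat_lit 4713724390) (nat_lit 3) (nat_lit 4) (nat_lit 4) (nat_lit 5) (nat_lit 4) (nat_lit 4) (nat_lit 330) (nat_lit 211) (nat_lit 179))) (XT.nd (nat_lit 78) (nat_lit 76) (nat_lit 0) (XT.lf (nat_lit 0) (nat_lit 99166265660) (nat_lit 76) (nat_lit 7945701375) (nat_lit 76) (nat_lit 3028193680) (nat_lit 3) (nat_lit 4) (nat_lit 4) (nat_lit 5) (nat_lit 4) (nat_lit 4) (nat_lit 331) (nat_lit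 211) (nat_lit 178)) (XT.nd (nat_lit 78) (nat_lit 76) (nat_lit 0) (XT.lf (nat_lit 0) (nat_lit 107986548191) (nat_lit 76) (nat_lit 6265232790) (nat_lit 76) (nat_lit 1289229965) (nat_lit 3) (nat_lit 4) (nat_lit 4) (nat_lit 5) (nat_lit 4) (nat_lit 4) (nat_lit 332) (nat_lit 211) (nat_lit 177)) (XT.lf (nat_lit 0) (nat_lit 491070146) (nat_lit 152) (nat_lit 4025018672) (nat_lit 76) (nat_lit 116696837790) (nat_lit 2) (nat_lit 5) (nat_lit 4) (nat_lit 5) (nat_lit 3) (nat_lit 4) (nat_lit 333) (nat_lit 211) (nat_lit 176))))))) (XT.nd (nat_lit 702) (nat_lit 0) (nat_lit 0) (XT.nd (nat_lit 312) (nat_lit 0) (nat_lit 0) (XT.nd (nat_lit 156) (nat_lit 0) (nat_lit 0) (XT.nd (nat_lit 78) (nat_lit 76) (nat_lit 0) (XT.lf (nat_lit 0) (nat_lit 2289978097) (nat_lit 152) (nat_lit 390314178) (nat_lit 76) (nat_lit 124488462243) (nat_lit 2) (nat_lit 5) (nat_lit 4) (nat_lit 5) (nat_lit 3) (nat_lit 4) (nat_lit 334)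 (nat_lit 211) (nat_lit 175)) (XT.lf (nat_lit 0) (nat_lit 3490139537) (nat_lit 76) (nat_lit 717391735) (nat_lit 152) (nat_lit 129213425830) (nat_lit 1) (nat_lit 5) (nat_lit 2) (nat_lit 5) (nat_lit 3) (nat_lit 4) (nat_lit 335) (nat_lit 211) (nat_lit 174))) (XT.nd (nat_lit 78) (nat_lit 0) (nat_lit 0) (XT.lf (nat_lit 0) (nat_lit 6223025675) (nat_lit 152) (nat_lit 132476226648) (nat_lit 0) (nat_lit 1286431713) (nat_lit 1) (nat_lit 5) (nat_lit 3) (nat_lit 4) (nat_lit 1) (nat_lit 4) (nat_lit 336) (nat_lit 211) (nat_lit 173)) (XT.lf (nat_lit 0) (nat_lit 8326642788) (nat_lit 152) (nat_lit 135206254839) (nat_lit 0) (nat_lit 3346398860) (nat_lit 1) (nat_lit 5) (nat_lit 3) (nat_lit 4) (nat_lit 1) (nat_lit 4) (nat_lit 337) (nat_lit 211) (nat_lit 172)))) (XT.nd (nat_lit 156) (nat_lit 0) (nat_lit 0) (XT.nd (nat_lit 78) (nat_lit 0) (nat_lit 0) (XT.lf (nat_lit 0) (nat_lit 10512190730) (nat_lit 152)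 (nat_lit 138116201710) (nat_lit 0) (nat_lit 5490375405) (nat_lit 1) (nat_lit 5) (nat_lit 3) (nat_lit 4) (nat_lit 1) (nat_lit 4) (nat_lit 338) (nat_lit 211) (nat_lit 171)) (XT.lf (nat_lit 0) (nat_lit 12784873184) (nat_lit 152) (nat_lit 141212995707) (nat_lit 0) (nat_lit 7723466054) (nat_lit 1) (nat_lit 5) (nat_lit 3) (nat_lit 4) (nat_lit 1) (nat_lit 4) (nat_lit 339) (nat_lit 211) (nat_lit 170))) (XT.nd (nat_lit 78) (nat_lit 0) (nat_lit 0) (XT.lf (nat_lit 0) (nat_lit 15150101301) (nat_lit 152) (nat_lit 144504010148) (nat_lit 0) (nat_lit 10050987688) (nat_lit 1) (nat_lit 5) (nat_lit 3) (nat_lit 4) (nat_lit 1) (nat_lit 4) (nat_lit 340) (nat_lit 211) (nat_lit 169)) (XT.nd (nat_lit 78) (nat_lit 0) (nat_lit 0) (XT.lf (nat_lit 0) (nat_lit 17613506575) (nat_lit 152) (nat_lit 147997080782) (nat_lit 0) (nat_lit 12478482027) (nat_lit 1) (nat_lit 5) (nat_lit 3) (nat_lit 4) (nat_lit 1) (nat_lit 4)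 (nat_lit 341) (nat_lit 211) (nat_lit 168)) (XT.lf (nat_lit 0) (nat_lit 20180954258) (nat_lit 152) (nat_lit 151700524444) (nat_lit 0) (nat_lit 15011728819) (nat_lit 1) (nat_lit 5) (nat_lit 3) (nat_lit 4) (nat_lit 1) (nat_lit 4) (nat_lit 342) (nat_lit 211) (nat_lit 167)))))) (XT.nd (nat_lit 312) (nat_lit 0) (nat_lit 0) (XT.nd (nat_lit 156) (nat_lit 0) (nat_lit 0) (XT.nd (nat_lit 78) (nat_lit 0) (nat_lit 0) (XT.lf (nat_lit 0) (nat_lit 22858557319) (nat_lit 152) (nat_lit 155623158857) (nat_lit 0) (nat_lit 17656759603) (nat_lit 1) (nat_lit 5) (nat_lit 3) (nat_lit 4) (nat_lit 1) (nat_lit 4) (nat_lit 343) (nat_lit 211) (nat_lit 166)) (XT.lf (nat_lit 0) (nat_lit 25652691005) (nat_lit 152) (nat_lit 159774323627) (nat_lit 0) (nat_lit 20419872072) (nat_lit 1) (nat_lit 5) (nat_lit 3) (nat_lit 4) (nat_lit 1) (nat_lit 4) (nat_lit 344) (nat_lit 211) (nat_lit 165))) (XT.nd (nat_lit 78) (nat_lit 0)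 (nat_lit 0) (XT.lf (nat_lit 0) (nat_lit 28570008014) (nat_lit 152) (nat_lit 164163902479) (nat_lit 0) (nat_lit 23307645066) (nat_lit 1) (nat_lit 5) (nat_lit 3) (nat_lit 4) (nat_lit 1) (nat_lit 4) (nat_lit 345) (nat_lit 211) (nat_lit 164)) (XT.lf (nat_lit 0) (nat_lit 31617454339) (nat_lit 152) (nat_lit 168802346791) (nat_lit 0) (nat_lit 26326954234) (nat_lit 1) (nat_lit 5) (nat_lit 3) (nat_lit 4) (nat_lit 1) (nat_lit 4) (nat_lit 346) (nat_lit 211) (nat_lit 163)))) (XT.nd (nat_lit 156) (nat_lit 0) (nat_lit 0) (XT.nd (nat_lit 78) (nat_lit 0) (nat_lit 0) (XT.lf (nat_lit 0) (nat_lit 34802285806) (nat_lit 152) (nat_lit 173700700479) (nat_lit 0) (nat_lit 29484988407) (nat_lit 1) (nat_lit 5) (nat_lit 3) (nat_lit 4) (nat_lit 1) (nat_lit 4) (nat_lit 347) (nat_lit 211) (nat_lit 162)) (XT.lf (nat_lit 0) (nat_lit 38132085345) (nat_lit 152) (nat_lit 178870626289) (nat_lit 0) (nat_lit 32789266716)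 (nat_lit 1) (nat_lit 5) (nat_lit 3) (nat_lit 4) (nat_lit 1) (nat_lit 4) (nat_lit 348) (nat_lit 211) (nat_lit 161))) (XT.nd (nat_lit 78) (nat_lit 0) (nat_lit 0) (XT.lf (nat_lit 0) (nat_lit 41614781052) (nat_lit 152) (nat_lit 184324433569) (nat_lit 0) (nat_lit 36247656488) (nat_lit 1) (nat_lit 5) (nat_lit 3) (nat_lit 4) (nat_lit 1) (nat_lit 4) (nat_lit 349) (nat_lit 211) (nat_lit 160)) (XT.nd (nat_lit 78) (nat_lit 0) (nat_lit 0) (XT.lf (nat_lit 0) (nat_lit 45258665059) (nat_lit 152) (nat_lit 190075107573) (nat_lit 0) (nat_lit 39868391985) (nat_lit 1) (nat_lit 5) (nat_lit 3) (nat_lit 4) (nat_lit 1) (nat_lit 4) (nat_lit 350) (nat_lit 211) (nat_lit 159)) (XT.lf (nat_lit 0) (nat_lit 49072413279) (nat_lit 152) (nat_lit 196136340384) (nat_lit 0) (nat_lit 43660094006) (nat_lit 1) (nat_lit 5) (nat_lit 3) (nat_lit 4) (nat_lit 1) (nat_lit 4) (nat_lit 351) (nat_lit 211) (nat_lit 158))))))))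
noncomputable def xc34 : XT := (XT.nd (nat_lit 33384) (nat_lit 0) (nat_lit 228) (XT.nd (nat_lit 702) (nat_lit 0) (nat_lit 0) (XT.nd (nat_lit 312) (nat_lit 0) (nat_lit 0) (XT.nd (nat_lit 156) (nat_lit 0) (nat_lit 0) (XT.nd (nat_lit 78) (nat_lit 0) (nat_lit 0) (XT.lf (nat_lit 0) (nat_lit 53065106067) (nat_lit 152) (nat_lit 202522563507) (nat_lit 0) (nat_lit 47631790414) (nat_lit 1) (nat_lit 5) (nat_lit 3) (nat_lit 4) (nat_lit 1) (nat_lit 4) (nat_lit 352) (nat_lit 211) (nat_lit 157)) (XT.lf (nat_lit 0) (nat_lit 57246249833) (nat_lit 152) (nat_lit 209248982236) (nat_lit 0) (nat_lit 51792937627) (nat_lit 1) (nat_lit 5) (nat_lit 3) (nat_lit 4) (nat_lit 1) (nat_lit 4) (nat_lit 353) (nat_lit 211) (nat_lit 156))) (XT.nd (nat_lit 78) (nat_lit 0) (nat_lit 0) (XT.lf (nat_lit 0) (nat_lit 61625799681) (nat_lit 152) (nat_lit 216331611854) (nat_lit 0) (nat_lit 56153443140) (nat_lit 1) (nat_lit 5) (nat_lit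 3) (nat_lit 4) (nat_lit 1) (nat_lit 4) (nat_lit 354) (nat_lit 211) (nat_lit 155)) (XT.lf (nat_lit 0) (nat_lit 66214183112) (nat_lit 152) (nat_lit 223787315764) (nat_lit 0) (nat_lit 60723689109) (nat_lit 1) (nat_lit 5) (nat_lit 3) (nat_lit 4) (nat_lit 1) (nat_lit 4) (nat_lit 355) (nat_lit 211) (nat_lit 154)))) (XT.nd (nat_lit 156) (nat_lit 0) (nat_lit 0) (XT.nd (nat_lit 78) (nat_lit 0) (nat_lit 0) (XT.lf (nat_lit 0) (nat_lit 71022324848) (nat_lit 152) (nat_lit 231633845642) (nat_lit 0) (nat_lit 65514557070) (nat_lit 1) (nat_lit 5) (nat_lit 3) (nat_lit 4) (nat_lit 1) (nat_lit 4) (nat_lit 356) (nat_lit 211) (nat_lit 153)) (XT.lf (nat_lit 0) (nat_lit 76061672845) (nat_lit 152) (nat_lit 239889883702) (nat_lit 0) (nat_lit 70537453854) (nat_lit 1) (nat_lit 5) (nat_lit 3) (nat_lit 4) (nat_lit 1) (nat_lit 4) (nat_lit 357) (nat_lit 211) (nat_lit 152))) (XT.nd (nat_lit 78) (nat_lit 0) (nat_lit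 0) (XT.lf (nat_lit 0) (nat_lit 81344225551) (nat_lit 152) (nat_lit 248575087178) (nat_lit 0) (nat_lit 75804338737) (nat_lit 1) (nat_lit 5) (nat_lit 3) (nat_lit 4) (nat_lit 1) (nat_lit 4) (nat_lit 358) (nat_lit 211) (nat_lit 151)) (XT.nd (nat_lit 78) (nat_lit 0) (nat_lit 0) (XT.lf (nat_lit 0) (nat_lit 86882560472) (nat_lit 152) (nat_lit 257710135126) (nat_lit 0) (nat_lit 81327751923) (nat_lit 1) (nat_lit 5) (nat_lit 3) (nat_lit 4) (nat_lit 1) (nat_lit 4) (nat_lit 359) (nat_lit 211) (nat_lit 150)) (XT.lf (nat_lit 0) (nat_lit 92689864120) (nat_lit 152) (nat_lit 267316777660) (nat_lit 0) (nat_lit 87120844395) (nat_lit 1) (nat_lit 5) (nat_lit 3) (nat_lit 4) (nat_lit 1) (nat_lit 4) (nat_lit 360) (nat_lit 211) (nat_lit 149)))))) (XT.nd (nat_lit 312) (nat_lit 0) (nat_lit 0) (XT.nd (nat_lit 156) (nat_lit 0) (nat_lit 0) (XT.nd (nat_lit 78) (nat_lit 0) (nat_lit 0) (XT.lf (nat_lit 0) (nat_lit 98779963408)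 (nat_lit 152) (nat_lit 277417887738) (nat_lit 0) (nat_lit 93197409229) (nat_lit 1) (nat_lit 5) (nat_lit 3) (nat_lit 4) (nat_lit 1) (nat_lit 4) (nat_lit 361) (nat_lit 211) (nat_lit 148)) (XT.lf (nat_lit 0) (nat_lit 105167358573) (nat_lit 152) (nat_lit 288037515622) (nat_lit 0) (nat_lit 99571914438) (nat_lit 1) (nat_lit 5) (nat_lit 3) (nat_lit 4) (nat_lit 1) (nat_lit 4) (nat_lit 362) (nat_lit 211) (nat_lit 147))) (XT.nd (nat_lit 78) (nat_lit 0) (nat_lit 0) (XT.lf (nat_lit 0) (nat_lit 111867257699) (nat_lit 152) (nat_lit 299200946141) (nat_lit 0) (nat_lit 106259537416) (nat_lit 1) (nat_lit 5) (nat_lit 3) (nat_lit 4) (nat_lit 1) (nat_lit 4) (nat_lit 363) (nat_lit 211) (nat_lit 146)) (XT.lf (nat_lit 0) (nat_lit 118895612927) (nat_lit 152) (nat_lit 310934758891) (nat_lit 0) (nat_lit 113276201073) (nat_lit 1) (nat_lit 5) (nat_lit 3) (nat_lit 4) (nat_lit 1) (nat_lit 4) (nat_lit 364) (nat_lit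 211) (nat_lit 145)))) (XT.nd (nat_lit 32136) (nat_lit 0) (nat_lit 532) (XT.nd (nat_lit 78) (nat_lit 0) (nat_lit 0) (XT.lf (nat_lit 0) (nat_lit 126269158434) (nat_lit 152) (nat_lit 323266891522) (nat_lit 0) (nat_lit 120638611752) (nat_lit 1) (nat_lit 5) (nat_lit 3) (nat_lit 4) (nat_lit 1) (nat_lit 4) (nat_lit 365) (nat_lit 211) (nat_lit 144)) (XT.lf (nat_lit 0) (nat_lit 134005450283) (nat_lit 152) (nat_lit 336226706253) (nat_lit 0) (nat_lit 128364299002) (nat_lit 1) (nat_lit 5) (nat_lit 3) (nat_lit 4) (nat_lit 1) (nat_lit 4) (nat_lit 366) (nat_lit 211) (nat_lit 143))) (XT.nd (nat_lit 78) (nat_lit 76) (nat_lit 0) (XT.lf (nat_lit 0) (nat_lit 4646418881) (nat_lit 76) (nat_lit 3333781951) (nat_lit 76) (nat_lit 3333781951) (nat_lit 9) (nat_lit 4) (nat_lit 10) (nat_lit 5) (nat_lit 10) (nat_lit 4) (nat_lit 296) (nat_lit 212) (nat_lit 212)) (XT.nd (nat_lit 78) (nat_lit 76) (nat_lit 0) (XT.lf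 (nat_lit 0) (nat_lit 16738623627) (nat_lit 76) (nat_lit 3579925211) (nat_lit 76) (nat_lit 3241132174) (nat_lit 9) (nat_lit 4) (nat_lit 10) (nat_lit 5) (nat_lit 10) (nat_lit 4) (nat_lit 297) (nat_lit 212) (nat_lit 211)) (XT.lf (nat_lit 0) (nat_lit 219756497) (nat_lit 152) (nat_lit 210952250) (nat_lit 76) (nat_lit 24113384273) (nat_lit 8) (nat_lit 5) (nat_lit 10) (nat_lit 5) (nat_lit 9) (nat_lit 4) (nat_lit 298) (nat_lit 212) (nat_lit 210))))))) (XT.nd (nat_lit 702) (nat_lit 152) (nat_lit 0) (XT.nd (nat_lit 312) (nat_lit 76) (nat_lit 0) (XT.nd (nat_lit 156) (nat_lit 0) (nat_lit 0) (XT.nd (nat_lit 78) (nat_lit 0) (nat_lit 0) (XT.lf (nat_lit 0) (nat_lit 3775548089) (nat_lit 152) (nat_lit 18945162269) (nat_lit 0) (nat_lit 2852930620) (nat_lit 7) (nat_lit 5) (nat_lit 9) (nat_lit 4) (nat_lit 7) (nat_lit 4) (nat_lit 299) (nat_lit 212) (nat_lit 209)) (XT.lf (nat_lit 0) (nat_lit 7401304620) (nat_lit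 152) (nat_lit 13058897475) (nat_lit 0) (nat_lit 6199961282) (nat_lit 7) (nat_lit 5) (nat_lit 9) (nat_lit 4) (nat_lit 7) (nat_lit 4) (nat_lit 300) (nat_lit 212) (nat_lit 208))) (XT.nd (nat_lit 78) (nat_lit 0) (nat_lit 0) (XT.lf (nat_lit 0) (nat_lit 11095476041) (nat_lit 152) (nat_lit 7082600784) (nat_lit 0) (nat_lit 9628679494) (nat_lit 7) (nat_lit 5) (nat_lit 9) (nat_lit 4) (nat_lit 7) (nat_lit 4) (nat_lit 301) (nat_lit 212) (nat_lit 207)) (XT.lf (nat_lit 0) (nat_lit 14866857997) (nat_lit 152) (nat_lit 1002042916) (nat_lit 0) (nat_lit 13147248870) (nat_lit 7) (nat_lit 5) (nat_lit 9) (nat_lit 4) (nat_lit 7) (nat_lit 4) (nat_lit 302) (nat_lit 212) (nat_lit 206)))) (XT.nd (nat_lit 156) (nat_lit 0) (nat_lit 0) (XT.nd (nat_lit 78) (nat_lit 0) (nat_lit 0) (XT.lf (nat_lit 0) (nat_lit 5369098321) (nat_lit 76) (nat_lit 13439158318) (nat_lit 76) (nat_lit 11478775306) (nat_lit 6) (nat_lit 4) (nat_lit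 7) (nat_lit 5) (nat_lit 7) (nat_lit 4) (nat_lit 303) (nat_lit 212) (nat_lit 205)) (XT.lf (nat_lit 0) (nat_lit 11911284626) (nat_lit 76) (nat_lit 10952060560) (nat_lit 76) (nat_lit 8762369085) (nat_lit 6) (nat_lit 4) (nat_lit 7) (nat_lit 5) (nat_lit 7) (nat_lit 4) (nat_lit 304) (nat_lit 212) (nat_lit 204))) (XT.nd (nat_lit 78) (nat_lit 0) (nat_lit 0) (XT.lf (nat_lit 0) (nat_lit 18606960567) (nat_lit 76) (nat_lit 8418656058) (nat_lit 76) (nat_lit 6010575571) (nat_lit 6) (nat_lit 4) (nat_lit 7) (nat_lit 5) (nat_lit 7) (nat_lit 4) (nat_lit 305) (nat_lit 212) (nat_lit 203)) (XT.nd (nat_lit 78) (nat_lit 0) (nat_lit 0) (XT.lf (nat_lit 0) (nat_lit 25472068229) (nat_lit 76) (nat_lit 5832912897) (nat_lit 76) (nat_lit 3216842876) (nat_lit 6) (nat_lit 4) (nat_lit 7) (nat_lit 5) (nat_lit 7) (nat_lit 4) (nat_lit 306) (nat_lit 212) (nat_lit 202)) (XT.lf (nat_lit 0) (nat_lit 32522953107) (nat_lit 76)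 (nat_lit 3188674547) (nat_lit 76) (nat_lit 374519253) (nat_lit 6) (nat_lit 4) (nat_lit 7) (nat_lit 5) (nat_lit 7) (nat_lit 4) (nat_lit 307) (nat_lit 212) (nat_lit 201)))))) (XT.nd (nat_lit 312) (nat_lit 0) (nat_lit 0) (XT.nd (nat_lit 156) (nat_lit 0) (nat_lit 0) (XT.nd (nat_lit 78) (nat_lit 0) (nat_lit 0) (XT.lf (nat_lit 0) (nat_lit 2070389276) (nat_lit 76) (nat_lit 404341069) (nat_lit 152) (nat_lit 35254569233) (nat_lit 4) (nat_lit 5) (nat_lit 5) (nat_lit 5) (nat_lit 6) (nat_lit 4) (nat_lit 308) (nat_lit 212) (nat_lit 200)) (XT.lf (nat_lit 0) (nat_lit 5471130105) (nat_lit 152) (nat_lit 31542174536) (nat_lit 0) (nat_lit 2440199521) (nat_lit 4) (nat_lit 5) (nat_lit 6) (nat_lit 4) (nat_lit 4) (nat_lit 4) (nat_lit 309) (nat_lit 212) (nat_lit 199))) (XT.nd (nat_lit 78) (nat_lit 0) (nat_lit 0) (XT.lf (nat_lit 0) (nat_lit 8544557827) (nat_lit 152) (nat_lit 27372400614) (nat_lit 0) (nat_lit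 5350662000) (nat_lit 4) (nat_lit 5) (nat_lit 6) (nat_lit 4) (nat_lit 4) (nat_lit 4) (nat_lit 310) (nat_lit 212) (nat_lit 198)) (XT.lf (nat_lit 0) (nat_lit 11696018300) (nat_lit 152) (nat_lit 23133347608) (nat_lit 0) (nat_lit 8346917479) (nat_lit 4) (nat_lit 5) (nat_lit 6) (nat_lit 4) (nat_lit 4) (nat_lit 4) (nat_lit 311) (nat_lit 212) (nat_lit 197)))) (XT.nd (nat_lit 156) (nat_lit 0) (nat_lit 0) (XT.nd (nat_lit 78) (nat_lit 0) (nat_lit 0) (XT.lf (nat_lit 0) (nat_lit 14933015001) (nat_lit 152) (nat_lit 18814922533) (nat_lit 0) (nat_lit 11436099901) (nat_lit 4) (nat_lit 5) (nat_lit 6) (nat_lit 4) (nat_lit 4) (nat_lit 4) (nat_lit 312) (nat_lit 212) (nat_lit 196)) (XT.lf (nat_lit 0) (nat_lit 18263255065) (nat_lit 152) (nat_lit 14406843425) (nat_lit 0) (nat_lit 14625564460) (nat_lit 4) (nat_lit 5) (nat_lit 6) (nat_lit 4) (nat_lit 4) (nat_lit 4) (nat_lit 313) (nat_lit 212) (nat_lit 195)))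 (XT.nd (nat_lit 78) (nat_lit 0) (nat_lit 0) (XT.lf (nat_lit 0) (nat_lit 21694667635) (nat_lit 152) (nat_lit 9898614859) (nat_lit 0) (nat_lit 17922905122) (nat_lit 4) (nat_lit 5) (nat_lit 6) (nat_lit 4) (nat_lit 4) (nat_lit 4) (nat_lit 314) (nat_lit 212) (nat_lit 194)) (XT.nd (nat_lit 78) (nat_lit 0) (nat_lit 0) (XT.lf (nat_lit 0) (nat_lit 25235422741) (nat_lit 152) (nat_lit 5279502955) (nat_lit 0) (nat_lit 21335972695) (nat_lit 4) (nat_lit 5) (nat_lit 6) (nat_lit 4) (nat_lit 4) (nat_lit 4) (nat_lit 315) (nat_lit 212) (nat_lit 193)) (XT.lf (nat_lit 0) (nat_lit 28893950752) (nat_lit 152) (nat_lit 538509830) (nat_lit 0) (nat_lit 24872893533) (nat_lit 4) (nat_lit 5) (nat_lit 6) (nat_lit 4) (nat_lit 4) (nat_lit 4) (nat_lit 316) (nat_lit 212) (nat_lit 192))))))))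
noncomputable def xc35 : XT := (XT.nd (nat_lit 1404) (nat_lit 76) (nat_lit 0) (XT.nd (nat_lit 702) (nat_lit 76) (nat_lit 0) (XT.nd (nat_lit 312) (nat_lit 0) (nat_lit 0) (XT.nd (nat_lit 156) (nat_lit 0) (nat_lit 0) (XT.nd (nat_lit 78) (nat_lit 0) (nat_lit 0) (XT.lf (nat_lit 0) (nat_lit 4479008851) (nat_lit 76) (nat_lit 28269883479) (nat_lit 76) (nat_lit 24133009904) (nat_lit 3) (nat_lit 4) (nat_lit 4) (nat_lit 5) (nat_lit 4) (nat_lit 4) (nat_lit 317) (nat_lit 212) (nat_lit 191)) (XT.lf (nat_lit 0) (nat_lit 9663894447) (nat_lit 76) (nat_lit 27086455794) (nat_lit 76) (nat_lit 22839280928) (nat_lit 3) (nat_lit 4) (nat_lit 4) (nat_lit 5) (nat_lit 4) (nat_lit 4) (nat_lit 318) (nat_lit 212) (nat_lit 190))) (XT.nd (nat_lit 78) (nat_lit 0) (nat_lit 0) (XT.lf (nat_lit 0) (nat_lit 15010686355) (nat_lit 76) (nat_lit 25888479768) (nat_lit 76) (nat_lit 21536256053) (nat_lit 3) (nat_lit 4) (nat_lit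 4) (nat_lit 5) (nat_lit 4) (nat_lit 4) (nat_lit 319) (nat_lit 212) (nat_lit 189)) (XT.lf (nat_lit 0) (nat_lit 20532115033) (nat_lit 76) (nat_lit 24673103078) (nat_lit 76) (nat_lit 20220832840) (nat_lit 3) (nat_lit 4) (nat_lit 4) (nat_lit 5) (nat_lit 4) (nat_lit 4) (nat_lit 320) (nat_lit 212) (nat_lit 188)))) (XT.nd (nat_lit 156) (nat_lit 0) (nat_lit 0) (XT.nd (nat_lit 78) (nat_lit 0) (nat_lit 0) (XT.lf (nat_lit 0) (nat_lit 26241326739) (nat_lit 76) (nat_lit 23437431968) (nat_lit 76) (nat_lit 18889879328) (nat_lit 3) (nat_lit 4) (nat_lit 4) (nat_lit 5) (nat_lit 4) (nat_lit 4) (nat_lit 321) (nat_lit 212) (nat_lit 187)) (XT.lf (nat_lit 0) (nat_lit 32151914834) (nat_lit 76) (nat_lit 22178524365) (nat_lit 76) (nat_lit 17540226579) (nat_lit 3) (nat_lit 4) (nat_lit 4) (nat_lit 5) (nat_lit 4) (nat_lit 4) (nat_lit 322) (nat_lit 212) (nat_lit 186))) (XT.nd (nat_lit 78) (nat_lit 0) (nat_lit 0)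 (XT.lf (nat_lit 0) (nat_lit 38277952148) (nat_lit 76) (nat_lit 20893382869) (nat_lit 76) (nat_lit 16168661136) (nat_lit 3) (nat_lit 4) (nat_lit 4) (nat_lit 5) (nat_lit 4) (nat_lit 4) (nat_lit 323) (nat_lit 212) (nat_lit 185)) (XT.nd (nat_lit 78) (nat_lit 0) (nat_lit 0) (XT.lf (nat_lit 0) (nat_lit 44634024483) (nat_lit 76) (nat_lit 19578947621) (nat_lit 76) (nat_lit 14771917366) (nat_lit 3) (nat_lit 4) (nat_lit 4) (nat_lit 5) (nat_lit 4) (nat_lit 4) (nat_lit 324) (nat_lit 212) (nat_lit 184)) (XT.lf (nat_lit 0) (nat_lit 51235265345) (nat_lit 76) (nat_lit 18232089013) (nat_lit 76) (nat_lit 13346669689) (nat_lit 3) (nat_lit 4) (nat_lit 4) (nat_lit 5) (nat_lit 4) (nat_lit 4) (nat_lit 325) (nat_lit 212) (nat_lit 183)))))) (XT.nd (nat_lit 312) (nat_lit 76) (nat_lit 0) (XT.nd (nat_lit 156) (nat_lit 0) (nat_lit 0) (XT.nd (nat_lit 78) (nat_lit 0) (nat_lit 0) (XT.lf (nat_lit 0) (nat_lit 58097391974)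 (nat_lit 76) (nat_lit 16849600237) (nat_lit 76) (nat_lit 11889524658) (nat_lit 3) (nat_lit 4) (nat_lit 4) (nat_lit 5) (nat_lit 4) (nat_lit 4) (nat_lit 326) (nat_lit 212) (nat_lit 182)) (XT.lf (nat_lit 0) (nat_lit 65236742767) (nat_lit 76) (nat_lit 15428189655) (nat_lit 76) (nat_lit 10397012880) (nat_lit 3) (nat_lit 4) (nat_lit 4) (nat_lit 5) (nat_lit 4) (nat_lit 4) (nat_lit 327) (nat_lit 212) (nat_lit 181))) (XT.nd (nat_lit 78) (nat_lit 0) (nat_lit 0) (XT.lf (nat_lit 0) (nat_lit 72670316178) (nat_lit 76) (nat_lit 13964472954) (nat_lit 76) (nat_lit 8865580755) (nat_lit 3) (nat_lit 4) (nat_lit 4) (nat_lit 5) (nat_lit 4) (nat_lit 4) (nat_lit 328) (nat_lit 212) (nat_lit 180)) (XT.lf (nat_lit 0) (nat_lit 80415811191) (nat_lit 76) (nat_lit 12454965097) (nat_lit 76) (nat_lit 7291582017) (nat_lit 3) (nat_lit 4) (nat_lit 4) (nat_lit 5) (nat_lit 4) (nat_lit 4) (nat_lit 329) (nat_lit 212) (nat_lit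 179)))) (XT.nd (nat_lit 156) (nat_lit 76) (nat_lit 0) (XT.nd (nat_lit 78) (nat_lit 0) (nat_lit 0) (XT.lf (nat_lit 0) (nat_lit 88491669461) (nat_lit 76) (nat_lit 10896072016) (nat_lit 76) (nat_lit 5671269050) (nat_lit 3) (nat_lit 4) (nat_lit 4) (nat_lit 5) (nat_lit 4) (nat_lit 4) (nat_lit 330) (nat_lit 212) (nat_lit 178)) (XT.lf (nat_lit 0) (nat_lit 96917119223) (nat_lit 76) (nat_lit 9284082060) (nat_lit 76) (nat_lit 4000783964) (nat_lit 3) (nat_lit 4) (nat_lit 4) (nat_lit 5) (nat_lit 4) (nat_lit 4) (nat_lit 331) (nat_lit 212) (nat_lit 177))) (XT.nd (nat_lit 78) (nat_lit 76) (nat_lit 0) (XT.lf (nat_lit 0) (nat_lit 105712221070) (nat_lit 76) (nat_lit 7615157160) (nat_lit 76) (nat_lit 2276149416) (nat_lit 3) (nat_lit 4) (nat_lit 4) (nat_lit 5) (nat_lit 4) (nat_lit 4) (nat_lit 332) (nat_lit 212) (nat_lit 176)) (XT.nd (nat_lit 78) (nat_lit 76) (nat_lit 0) (XT.lf (nat_lit 0) (nat_lit 114897915722)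 (nat_lit 76) (nat_lit 5885323683) (nat_lit 76) (nat_lit 493259133) (nat_lit 3) (nat_lit 4) (nat_lit 4) (nat_lit 5) (nat_lit 4) (nat_lit 4) (nat_lit 333) (nat_lit 212) (nat_lit 175)) (XT.lf (nat_lit 0) (nat_lit 1308855199) (nat_lit 152) (nat_lit 2759441684) (nat_lit 76) (nat_lit 123165052585) (nat_lit 2) (nat_lit 5) (nat_lit 4) (nat_lit 5) (nat_lit 3) (nat_lit 4) (nat_lit 334) (nat_lit 212) (nat_lit 174))))))) (XT.nd (nat_lit 702) (nat_lit 0) (nat_lit 0) (XT.nd (nat_lit 312) (nat_lit 0) (nat_lit 0) (XT.nd (nat_lit 156) (nat_lit 0) (nat_lit 0) (XT.nd (nat_lit 78) (nat_lit 0) (nat_lit 0) (XT.lf (nat_lit 0) (nat_lit 1019788692) (nat_lit 76) (nat_lit 2156068684) (nat_lit 152) (nat_lit 130312230713) (nat_lit 1) (nat_lit 5) (nat_lit 2) (nat_lit 5) (nat_lit 3) (nat_lit 4) (nat_lit 335) (nat_lit 212) (nat_lit 173)) (XT.lf (nat_lit 0) (nat_lit 5039093568) (nat_lit 76) (nat_lit 119757633) (nat_lit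 152) (nat_lit 134895596934) (nat_lit 1) (nat_lit 5) (nat_lit 2) (nat_lit 5) (nat_lit 3) (nat_lit 4) (nat_lit 336) (nat_lit 212) (nat_lit 172))) (XT.nd (nat_lit 78) (nat_lit 0) (nat_lit 0) (XT.lf (nat_lit 0) (nat_lit 7249257086) (nat_lit 152) (nat_lit 137764692163) (nat_lit 0) (nat_lit 1934779598) (nat_lit 1) (nat_lit 5) (nat_lit 3) (nat_lit 4) (nat_lit 1) (nat_lit 4) (nat_lit 337) (nat_lit 212) (nat_lit 171)) (XT.lf (nat_lit 0) (nat_lit 9424003620) (nat_lit 152) (nat_lit 140694809659) (nat_lit 0) (nat_lit 4069934327) (nat_lit 1) (nat_lit 5) (nat_lit 3) (nat_lit 4) (nat_lit 1) (nat_lit 4) (nat_lit 338) (nat_lit 212) (nat_lit 170)))) (XT.nd (nat_lit 156) (nat_lit 0) (nat_lit 0) (XT.nd (nat_lit 78) (nat_lit 0) (nat_lit 0) (XT.lf (nat_lit 0) (nat_lit 11686399021) (nat_lit 152) (nat_lit 143810813775) (nat_lit 0) (nat_lit 6294623245) (nat_lit 1) (nat_lit 5) (nat_lit 3) (nat_lit 4) (nat_lit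 1) (nat_lit 4) (nat_lit 339) (nat_lit 212) (nat_lit 169)) (XT.lf (nat_lit 0) (nat_lit 14041829943) (nat_lit 152) (nat_lit 147120123568) (nat_lit 0) (nat_lit 8614143232) (nat_lit 1) (nat_lit 5) (nat_lit 3) (nat_lit 4) (nat_lit 1) (nat_lit 4) (nat_lit 340) (nat_lit 212) (nat_lit 168))) (XT.nd (nat_lit 78) (nat_lit 0) (nat_lit 0) (XT.lf (nat_lit 0) (nat_lit 16495904556) (nat_lit 152) (nat_lit 150630618347) (nat_lit 0) (nat_lit 11034016954) (nat_lit 1) (nat_lit 5) (nat_lit 3) (nat_lit 4) (nat_lit 1) (nat_lit 4) (nat_lit 341) (nat_lit 212) (nat_lit 167)) (XT.nd (nat_lit 78) (nat_lit 0) (nat_lit 0) (XT.lf (nat_lit 0) (nat_lit 19054465895) (nat_lit 152) (nat_lit 154350656432) (nat_lit 0) (nat_lit 13560006016) (nat_lit 1) (nat_lit 5) (nat_lit 3) (nat_lit 4) (nat_lit 1) (nat_lit 4) (nat_lit 342) (nat_lit 212) (nat_lit 166)) (XT.lf (nat_lit 0) (nat_lit 21723605771) (nat_lit 152) (nat_lit 158289095058)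 (nat_lit 0) (nat_lit 16198124676) (nat_lit 1) (nat_lit 5) (nat_lit 3) (nat_lit 4) (nat_lit 1) (nat_lit 4) (nat_lit 343) (nat_lit 212) (nat_lit 165)))))) (XT.nd (nat_lit 390) (nat_lit 0) (nat_lit 0) (XT.nd (nat_lit 156) (nat_lit 0) (nat_lit 0) (XT.nd (nat_lit 78) (nat_lit 0) (nat_lit 0) (XT.lf (nat_lit 0) (nat_lit 24509679281) (nat_lit 152) (nat_lit 162455311459) (nat_lit 0) (nat_lit 18954654170) (nat_lit 1) (nat_lit 5) (nat_lit 3) (nat_lit 4) (nat_lit 1) (nat_lit 4) (nat_lit 344) (nat_lit 212) (nat_lit 164)) (XT.lf (nat_lit 0) (nat_lit 27419319932) (nat_lit 152) (nat_lit 166859225197) (nat_lit 0) (nat_lit 21836157664) (nat_lit 1) (nat_lit 5) (nat_lit 3) (nat_lit 4) (nat_lit 1) (nat_lit 4) (nat_lit 345) (nat_lit 212) (nat_lit 163))) (XT.nd (nat_lit 78) (nat_lit 0) (nat_lit 0) (XT.lf (nat_lit 0) (nat_lit 30459455440) (nat_lit 152) (nat_lit 171511321783) (nat_lit 0) (nat_lit 24849495879)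 (nat_lit 1) (nat_lit 5) (nat_lit 3) (nat_lit 4) (nat_lit 1) (nat_lit 4) (nat_lit 346) (nat_lit 212) (nat_lit 162)) (XT.nd (nat_lit 78) (nat_lit 0) (nat_lit 0) (XT.lf (nat_lit 0) (nat_lit 33637324224) (nat_lit 152) (nat_lit 176422677635) (nat_lit 0) (nat_lit 28001843431) (nat_lit 1) (nat_lit 5) (nat_lit 3) (nat_lit 4) (nat_lit 1) (nat_lit 4) (nat_lit 347) (nat_lit 212) (nat_lit 161)) (XT.lf (nat_lit 0) (nat_lit 36960492637) (nat_lit 152) (nat_lit 181604986460) (nat_lit 0) (nat_lit 31300705909) (nat_lit 1) (nat_lit 5) (nat_lit 3) (nat_lit 4) (nat_lit 1) (nat_lit 4) (nat_lit 348) (nat_lit 212) (nat_lit 160))))) (XT.nd (nat_lit 156) (nat_lit 0) (nat_lit 0) (XT.nd (nat_lit 78) (nat_lit 0) (nat_lit 0) (XT.lf (nat_lit 0) (nat_lit 40436872984) (nat_lit 152) (nat_lit 187070587086) (nat_lit 0) (nat_lit 34753937748) (nat_lit 1) (nat_lit 5) (nat_lit 3) (nat_lit 4) (nat_lit 1) (nat_lit 4) (nat_lit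 349) (nat_lit 212) (nat_lit 159)) (XT.lf (nat_lit 0) (nat_lit 44074742363) (nat_lit 152) (nat_lit 192832492850) (nat_lit 0) (nat_lit 38369760928) (nat_lit 1) (nat_lit 5) (nat_lit 3) (nat_lit 4) (nat_lit 1) (nat_lit 4) (nat_lit 350) (nat_lit 212) (nat_lit 158))) (XT.nd (nat_lit 78) (nat_lit 0) (nat_lit 0) (XT.lf (nat_lit 0) (nat_lit 47882762367) (nat_lit 152) (nat_lit 198904422574) (nat_lit 0) (nat_lit 42156784552) (nat_lit 1) (nat_lit 5) (nat_lit 3) (nat_lit 4) (nat_lit 1) (nat_lit 4) (nat_lit 351) (nat_lit 212) (nat_lit 157)) (XT.nd (nat_lit 78) (nat_lit 0) (nat_lit 0) (XT.lf (nat_lit 0) (nat_lit 51869999711) (nat_lit 152) (nat_lit 205300833233) (nat_lit 0) (nat_lit 46124025343) (nat_lit 1) (nat_lit 5) (nat_lit 3) (nat_lit 4) (nat_lit 1) (nat_lit 4) (nat_lit 352) (nat_lit 212) (nat_lit 156)) (XT.lf (nat_lit 0) (nat_lit 56045947815) (nat_lit 152) (nat_lit 212036954378) (nat_lit 0) (nat_lit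 50280929112) (nat_lit 1) (nat_lit 5) (nat_lit 3) (nat_lit 4) (nat_lit 1) (nat_lit 4) (nat_lit 353) (nat_lit 212) (nat_lit 155))))))))
noncomputable def xc36 : XT := (XT.nd (nat_lit 33228) (nat_lit 0) (nat_lit 228) (XT.nd (nat_lit 702) (nat_lit 0) (nat_lit 0) (XT.nd (nat_lit 312) (nat_lit 0) (nat_lit 0) (XT.nd (nat_lit 156) (nat_lit 0) (nat_lit 0) (XT.nd (nat_lit 78) (nat_lit 0) (nat_lit 0) (XT.lf (nat_lit 0) (nat_lit 60420549415) (nat_lit 152) (nat_lit 219128824391) (nat_lit 0) (nat_lit 54637393249) (nat_lit 1) (nat_lit 5) (nat_lit 3) (nat_lit 4) (nat_lit 1) (nat_lit 4) (nat_lit 354) (nat_lit 212) (nat_lit 154)) (XT.lf (nat_lit 0) (nat_lit 65004220228) (nat_lit 152) (nat_lit 226593328678) (nat_lit 0) (nat_lit 59203790288) (nat_lit 1) (nat_lit 5) (nat_lit 3) (nat_lit 4) (nat_lit 1) (nat_lit 4) (nat_lit 355) (nat_lit 212) (nat_lit 153))) (XT.nd (nat_lit 78) (nat_lit 0) (nat_lit 0) (XT.lf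 (nat_lit 0) (nat_lit 69807873756) (nat_lit 152) (nat_lit 234448239868) (nat_lit 0) (nat_lit 63990992602) (nat_lit 1) (nat_lit 5) (nat_lit 3) (nat_lit 4) (nat_lit 1) (nat_lit 4) (nat_lit 356) (nat_lit 212) (nat_lit 152)) (XT.lf (nat_lit 0) (nat_lit 74842947270) (nat_lit 152) (nat_lit 242712260129) (nat_lit 0) (nat_lit 69010398294) (nat_lit 1) (nat_lit 5) (nat_lit 3) (nat_lit 4) (nat_lit 1) (nat_lit 4) (nat_lit 357) (nat_lit 212) (nat_lit 151)))) (XT.nd (nat_lit 156) (nat_lit 0) (nat_lit 0) (XT.nd (nat_lit 78) (nat_lit 0) (nat_lit 0) (XT.lf (nat_lit 0) (nat_lit 80121429039) (nat_lit 152) (nat_lit 251405065702) (nat_lit 0) (nat_lit 74273958328) (nat_lit 1) (nat_lit 5) (nat_lit 3) (nat_lit 4) (nat_lit 1) (nat_lit 4) (nat_lit 358) (nat_lit 212) (nat_lit 150)) (XT.lf (nat_lit 0) (nat_lit 85655886877) (nat_lit 152) (nat_lit 260547353742) (nat_lit 0) (nat_lit 79794204989) (nat_lit 1) (nat_lit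 5) (nat_lit 3) (nat_lit 4) (nat_lit 1) (nat_lit 4) (nat_lit 359) (nat_lit 212) (nat_lit 149))) (XT.nd (nat_lit 78) (nat_lit 0) (nat_lit 0) (XT.lf (nat_lit 0) (nat_lit 91459498066) (nat_lit 152) (nat_lit 270160891601) (nat_lit 0) (nat_lit 85584281724) (nat_lit 1) (nat_lit 5) (nat_lit 3) (nat_lit 4) (nat_lit 1) (nat_lit 4) (nat_lit 360) (nat_lit 212) (nat_lit 148)) (XT.nd (nat_lit 78) (nat_lit 0) (nat_lit 0) (XT.lf (nat_lit 0) (nat_lit 97546080726) (nat_lit 152) (nat_lit 280268568656) (nat_lit 0) (nat_lit 91657974428) (nat_lit 1) (nat_lit 5) (nat_lit 3) (nat_lit 4) (nat_lit 1) (nat_lit 4) (nat_lit 361) (nat_lit 212) (nat_lit 147)) (XT.lf (nat_lit 0) (nat_lit 103930126722) (nat_lit 152) (nat_lit 290894450804) (nat_lit 0) (nat_lit 98029744276) (nat_lit 1) (nat_lit 5) (nat_lit 3) (nat_lit 4) (nat_lit 1) (nat_lit 4) (nat_lit 362) (nat_lit 212) (nat_lit 146)))))) (XT.nd (nat_lit 32136) (nat_lit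 0) (nat_lit 532) (XT.nd (nat_lit 156) (nat_lit 0) (nat_lit 0) (XT.nd (nat_lit 78) (nat_lit 0) (nat_lit 0) (XT.lf (nat_lit 0) (nat_lit 110626836163) (nat_lit 152) (nat_lit 302063837764) (nat_lit 0) (nat_lit 104714762146) (nat_lit 1) (nat_lit 5) (nat_lit 3) (nat_lit 4) (nat_lit 1) (nat_lit 4) (nat_lit 363) (nat_lit 212) (nat_lit 145)) (XT.lf (nat_lit 0) (nat_lit 117652153594) (nat_lit 152) (nat_lit 313803323316) (nat_lit 0) (nat_lit 111728944749) (nat_lit 1) (nat_lit 5) (nat_lit 3) (nat_lit 4) (nat_lit 1) (nat_lit 4) (nat_lit 364) (nat_lit 212) (nat_lit 144))) (XT.nd (nat_lit 78) (nat_lit 0) (nat_lit 0) (XT.lf (nat_lit 0) (nat_lit 125022805963) (nat_lit 152) (nat_lit 326140858614) (nat_lit 0) (nat_lit 119088992519) (nat_lit 1) (nat_lit 5) (nat_lit 3) (nat_lit 4) (nat_lit 1) (nat_lit 4) (nat_lit 365) (nat_lit 212) (nat_lit 143)) (XT.lf (nat_lit 0) (nat_lit 132756342442) (nat_lit 152) (nat_lit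 339105818744) (nat_lit 0) (nat_lit 126812429380) (nat_lit 1) (nat_lit 5) (nat_lit 3) (nat_lit 4) (nat_lit 1) (nat_lit 4) (nat_lit 366) (nat_lit 212) (nat_lit 142)))) (XT.nd (nat_lit 156) (nat_lit 76) (nat_lit 0) (XT.nd (nat_lit 78) (nat_lit 76) (nat_lit 0) (XT.lf (nat_lit 0) (nat_lit 3994084745) (nat_lit 152) (nat_lit 2465353044) (nat_lit 0) (nat_lit 3994084745) (nat_lit 10) (nat_lit 5) (nat_lit 12) (nat_lit 4) (nat_lit 10) (nat_lit 4) (nat_lit 294) (nat_lit 213) (nat_lit 213)) (XT.lf (nat_lit 0) (nat_lit 1981776799) (nat_lit 76) (nat_lit 10060430716) (nat_lit 76) (nat_lit 9704698028) (nat_lit 9) (nat_lit 4) (nat_lit 10) (nat_lit 5) (nat_lit 10) (nat_lit 4) (nat_lit 295) (nat_lit 213) (nat_lit 212))) (XT.nd (nat_lit 78) (nat_lit 76) (nat_lit 0) (XT.lf (nat_lit 0) (nat_lit 9180238666) (nat_lit 76) (nat_lit 7072736659) (nat_lit 76) (nat_lit 6378210934) (nat_lit 9) (nat_lit 4) (nat_lit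 10) (nat_lit 5) (nat_lit 10) (nat_lit 4) (nat_lit 296) (nat_lit 213) (nat_lit 211)) (XT.nd (nat_lit 78) (nat_lit 76) (nat_lit 0) (XT.lf (nat_lit 0) (nat_lit 16518787296) (nat_lit 76) (nat_lit 4032183745) (nat_lit 76) (nat_lit 3014997986) (nat_lit 9) (nat_lit 4) (nat_lit 10) (nat_lit 5) (nat_lit 10) (nat_lit 4) (nat_lit 297) (nat_lit 213) (nat_lit 210)) (XT.lf (nat_lit 0) (nat_lit 380371660) (nat_lit 152) (nat_lit 544719125) (nat_lit 76) (nat_lit 23628081984) (nat_lit 8) (nat_lit 5) (nat_lit 10) (nat_lit 5) (nat_lit 9) (nat_lit 4) (nat_lit 298) (nat_lit 213) (nat_lit 209))))))) (XT.nd (nat_lit 702) (nat_lit 152) (nat_lit 0) (XT.nd (nat_lit 312) (nat_lit 76) (nat_lit 0) (XT.nd (nat_lit 156) (nat_lit 0) (nat_lit 0) (XT.nd (nat_lit 78) (nat_lit 0) (nat_lit 0) (XT.lf (nat_lit 0) (nat_lit 3865160007) (nat_lit 152) (nat_lit 19396138866) (nat_lit 0) (nat_lit 2325023633) (nat_lit 7) (nat_lit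 5) (nat_lit 9) (nat_lit 4) (nat_lit 7) (nat_lit 4) (nat_lit 299) (nat_lit 213) (nat_lit 208)) (XT.lf (nat_lit 0) (nat_lit 7435856568) (nat_lit 152) (nat_lit 13609523507) (nat_lit 0) (nat_lit 5630266986) (nat_lit 7) (nat_lit 5) (nat_lit 9) (nat_lit 4) (nat_lit 7) (nat_lit 4) (nat_lit 300) (nat_lit 213) (nat_lit 207))) (XT.nd (nat_lit 78) (nat_lit 0) (nat_lit 0) (XT.lf (nat_lit 0) (nat_lit 11077589923) (nat_lit 152) (nat_lit 7728131039) (nat_lit 0) (nat_lit 9019187760) (nat_lit 7) (nat_lit 5) (nat_lit 9) (nat_lit 4) (nat_lit 7) (nat_lit 4) (nat_lit 301) (nat_lit 213) (nat_lit 206)) (XT.lf (nat_lit 0) (nat_lit 14799030863) (nat_lit 152) (nat_lit 1737958147) (nat_lit 0) (nat_lit 12499854815) (nat_lit 7) (nat_lit 5) (nat_lit 9) (nat_lit 4) (nat_lit 7) (nat_lit 4) (nat_lit 302) (nat_lit 213) (nat_lit 205)))) (XT.nd (nat_lit 156) (nat_lit 0) (nat_lit 0) (XT.nd (nat_lit 78) (nat_lit 0) (nat_lit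 0) (XT.lf (nat_lit 0) (nat_lit 4519923257) (nat_lit 76) (nat_lit 14159685375) (nat_lit 76) (nat_lit 11631200864) (nat_lit 6) (nat_lit 4) (nat_lit 7) (nat_lit 5) (nat_lit 7) (nat_lit 4) (nat_lit 303) (nat_lit 213) (nat_lit 204)) (XT.lf (nat_lit 0) (nat_lit 10977417035) (nat_lit 76) (nat_lit 11710659882) (nat_lit 76) (nat_lit 8963786360) (nat_lit 6) (nat_lit 4) (nat_lit 7) (nat_lit 5) (nat_lit 7) (nat_lit 4) (nat_lit 304) (nat_lit 213) (nat_lit 203))) (XT.nd (nat_lit 78) (nat_lit 0) (nat_lit 0) (XT.lf (nat_lit 0) (nat_lit 17592433427) (nat_lit 76) (nat_lit 9213514681) (nat_lit 76) (nat_lit 6258651623) (nat_lit 6) (nat_lit 4) (nat_lit 7) (nat_lit 5) (nat_lit 7) (nat_lit 4) (nat_lit 305) (nat_lit 213) (nat_lit 202)) (XT.nd (nat_lit 78) (nat_lit 0) (nat_lit 0) (XT.lf (nat_lit 0) (nat_lit 24380722471) (nat_lit 76) (nat_lit 6662304188) (nat_lit 76) (nat_lit 3509355858) (nat_lit 6) (nat_lit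 4) (nat_lit 7) (nat_lit 5) (nat_lit 7) (nat_lit 4) (nat_lit 306) (nat_lit 213) (nat_lit 201)) (XT.lf (nat_lit 0) (nat_lit 31358446760) (nat_lit 76) (nat_lit 4050954092) (nat_lit 76) (nat_lit 709353123) (nat_lit 6) (nat_lit 4) (nat_lit 7) (nat_lit 5) (nat_lit 7) (nat_lit 4) (nat_lit 307) (nat_lit 213) (nat_lit 200)))))) (XT.nd (nat_lit 312) (nat_lit 0) (nat_lit 0) (XT.nd (nat_lit 156) (nat_lit 0) (nat_lit 0) (XT.nd (nat_lit 78) (nat_lit 0) (nat_lit 0) (XT.lf (nat_lit 0) (nat_lit 765748432) (nat_lit 76) (nat_lit 1325480144) (nat_lit 152) (nat_lit 35673940376) (nat_lit 4) (nat_lit 5) (nat_lit 5) (nat_lit 5) (nat_lit 6) (nat_lit 4) (nat_lit 308) (nat_lit 213) (nat_lit 199)) (XT.lf (nat_lit 0) (nat_lit 5034505033) (nat_lit 152) (nat_lit 32939605675) (nat_lit 0) (nat_lit 1517949171) (nat_lit 4) (nat_lit 5) (nat_lit 6) (nat_lit 4) (nat_lit 4) (nat_lit 4) (nat_lit 309) (nat_lit 213) (nat_lit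 198))) (XT.nd (nat_lit 78) (nat_lit 0) (nat_lit 0) (XT.lf (nat_lit 0) (nat_lit 8071035860) (nat_lit 152) (nat_lit 28837738881) (nat_lit 0) (nat_lit 4399275005) (nat_lit 4) (nat_lit 5) (nat_lit 6) (nat_lit 4) (nat_lit 4) (nat_lit 4) (nat_lit 310) (nat_lit 213) (nat_lit 197)) (XT.lf (nat_lit 0) (nat_lit 11187356433) (nat_lit 152) (nat_lit 24663359329) (nat_lit 0) (nat_lit 7367781298) (nat_lit 4) (nat_lit 5) (nat_lit 6) (nat_lit 4) (nat_lit 4) (nat_lit 4) (nat_lit 311) (nat_lit 213) (nat_lit 196)))) (XT.nd (nat_lit 156) (nat_lit 0) (nat_lit 0) (XT.nd (nat_lit 78) (nat_lit 0) (nat_lit 0) (XT.lf (nat_lit 0) (nat_lit 14390886562) (nat_lit 152) (nat_lit 20406528020) (nat_lit 0) (nat_lit 10430535923) (nat_lit 4) (nat_lit 5) (nat_lit 6) (nat_lit 4) (nat_lit 4) (nat_lit 4) (nat_lit 312) (nat_lit 213) (nat_lit 195)) (XT.lf (nat_lit 0) (nat_lit 17689253700) (nat_lit 152) (nat_lit 16057109643) (nat_lit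 0) (nat_lit 13594831152) (nat_lit 4) (nat_lit 5) (nat_lit 6) (nat_lit 4) (nat_lit 4) (nat_lit 4) (nat_lit 313) (nat_lit 213) (nat_lit 194))) (XT.nd (nat_lit 78) (nat_lit 0) (nat_lit 0) (XT.lf (nat_lit 0) (nat_lit 21090311103) (nat_lit 152) (nat_lit 11604748438) (nat_lit 0) (nat_lit 16868201023) (nat_lit 4) (nat_lit 5) (nat_lit 6) (nat_lit 4) (nat_lit 4) (nat_lit 4) (nat_lit 314) (nat_lit 213) (nat_lit 193)) (XT.nd (nat_lit 78) (nat_lit 0) (nat_lit 0) (XT.lf (nat_lit 0) (nat_lit 24602156526) (nat_lit 152) (nat_lit 7038843546) (nat_lit 0) (nat_lit 20258439273) (nat_lit 4) (nat_lit 5) (nat_lit 6) (nat_lit 4) (nat_lit 4) (nat_lit 4) (nat_lit 315) (nat_lit 213) (nat_lit 192)) (XT.lf (nat_lit 0) (nat_lit 28233151506) (nat_lit 152) (nat_lit 2348523764) (nat_lit 0) (nat_lit 23773617897) (nat_lit 4) (nat_lit 5) (nat_lit 6) (nat_lit 4) (nat_lit 4) (nat_lit 4) (nat_lit 316) (nat_lit 213) (nat_lit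 191))))))))
noncomputable def xc37 : XT := (XT.nd (nat_lit 1404) (nat_lit 76) (nat_lit 0) (XT.nd (nat_lit 702) (nat_lit 76) (nat_lit 0) (XT.nd (nat_lit 312) (nat_lit 0) (nat_lit 0) (XT.nd (nat_lit 156) (nat_lit 0) (nat_lit 0) (XT.nd (nat_lit 78) (nat_lit 0) (nat_lit 0) (XT.lf (nat_lit 0) (nat_lit 2559291650) (nat_lit 76) (nat_lit 29472607334) (nat_lit 76) (nat_lit 24902772433) (nat_lit 3) (nat_lit 4) (nat_lit 4) (nat_lit 5) (nat_lit 4) (nat_lit 4) (nat_lit 317) (nat_lit 213) (nat_lit 190)) (XT.lf (nat_lit 0) (nat_lit 7696695311) (nat_lit 76) (nat_lit 28310946987) (nat_lit 76) (nat_lit 23636063238) (nat_lit 3) (nat_lit 4) (nat_lit 4) (nat_lit 5) (nat_lit 4) (nat_lit 4) (nat_lit 318) (nat_lit 213) (nat_lit 189))) (XT.nd (nat_lit 78) (nat_lit 0) (nat_lit 0) (XT.lf (nat_lit 0) (nat_lit 12998266328) (nat_lit 76) (nat_lit 27133701760) (nat_lit 76) (nat_lit 22358771487) (nat_lit 3) (nat_lit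 4) (nat_lit 4) (nat_lit 5) (nat_lit 4) (nat_lit 4) (nat_lit 319) (nat_lit 213) (nat_lit 188)) (XT.lf (nat_lit 0) (nat_lit 18476627491) (nat_lit 76) (nat_lit 25938068686) (nat_lit 76) (nat_lit 21067856011) (nat_lit 3) (nat_lit 4) (nat_lit 4) (nat_lit 5) (nat_lit 4) (nat_lit 4) (nat_lit 320) (nat_lit 213) (nat_lit 187)))) (XT.nd (nat_lit 156) (nat_lit 0) (nat_lit 0) (XT.nd (nat_lit 78) (nat_lit 0) (nat_lit 0) (XT.lf (nat_lit 0) (nat_lit 24144822516) (nat_lit 76) (nat_lit 24721201021) (nat_lit 76) (nat_lit 19760243201) (nat_lit 3) (nat_lit 4) (nat_lit 4) (nat_lit 5) (nat_lit 4) (nat_lit 4) (nat_lit 321) (nat_lit 213) (nat_lit 186)) (XT.lf (nat_lit 0) (nat_lit 30016347106) (nat_lit 76) (nat_lit 23480201461) (nat_lit 76) (nat_lit 18432819693) (nat_lit 3) (nat_lit 4) (nat_lit 4) (nat_lit 5) (nat_lit 4) (nat_lit 4) (nat_lit 322) (nat_lit 213) (nat_lit 185))) (XT.nd (nat_lit 78) (nat_lit 0)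 (nat_lit 0) (XT.lf (nat_lit 0) (nat_lit 36105181081) (nat_lit 76) (nat_lit 22212115245) (nat_lit 76) (nat_lit 17082424955) (nat_lit 3) (nat_lit 4) (nat_lit 4) (nat_lit 5) (nat_lit 4) (nat_lit 4) (nat_lit 323) (nat_lit 213) (nat_lit 184)) (XT.nd (nat_lit 78) (nat_lit 0) (nat_lit 0) (XT.lf (nat_lit 0) (nat_lit 42425821665) (nat_lit 76) (nat_lit 20913923119) (nat_lit 76) (nat_lit 15705843762) (nat_lit 3) (nat_lit 4) (nat_lit 4) (nat_lit 5) (nat_lit 4) (nat_lit 4) (nat_lit 324) (nat_lit 213) (nat_lit 183)) (XT.lf (nat_lit 0) (nat_lit 48993318002) (nat_lit 76) (nat_lit 19582534151) (nat_lit 76) (nat_lit 14299798538) (nat_lit 3) (nat_lit 4) (nat_lit 4) (nat_lit 5) (nat_lit 4) (nat_lit 4) (nat_lit 325) (nat_lit 213) (nat_lit 182)))))) (XT.nd (nat_lit 312) (nat_lit 76) (nat_lit 0) (XT.nd (nat_lit 156) (nat_lit 0) (nat_lit 0) (XT.nd (nat_lit 78) (nat_lit 0) (nat_lit 0) (XT.lf (nat_lit 0) (nat_lit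 55823306988) (nat_lit 76) (nat_lit 18214778367) (nat_lit 76) (nat_lit 12860941558) (nat_lit 3) (nat_lit 4) (nat_lit 4) (nat_lit 5) (nat_lit 4) (nat_lit 4) (nat_lit 326) (nat_lit 213) (nat_lit 181)) (XT.lf (nat_lit 0) (nat_lit 62932050502) (nat_lit 76) (nat_lit 16807399205) (nat_lit 76) (nat_lit 11385846971) (nat_lit 3) (nat_lit 4) (nat_lit 4) (nat_lit 5) (nat_lit 4) (nat_lit 4) (nat_lit 327) (nat_lit 213) (nat_lit 180))) (XT.nd (nat_lit 78) (nat_lit 0) (nat_lit 0) (XT.lf (nat_lit 0) (nat_lit 70336474123) (nat_lit 76) (nat_lit 15357045762) (nat_lit 76) (nat_lit 9871002648) (nat_lit 3) (nat_lit 4) (nat_lit 4) (nat_lit 5) (nat_lit 4) (nat_lit 4) (nat_lit 328) (nat_lit 213) (nat_lit 179)) (XT.lf (nat_lit 0) (nat_lit 78054207433) (nat_lit 76) (nat_lit 13860264816) (nat_lit 76) (nat_lit 8312801816) (nat_lit 3) (nat_lit 4) (nat_lit 4) (nat_lit 5) (nat_lit 4) (nat_lit 4) (nat_lit 329) (nat_lit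 213) (nat_lit 178)))) (XT.nd (nat_lit 156) (nat_lit 76) (nat_lit 0) (XT.nd (nat_lit 78) (nat_lit 0) (nat_lit 0) (XT.lf (nat_lit 0) (nat_lit 86103625985) (nat_lit 76) (nat_lit 12313492603) (nat_lit 76) (nat_lit 6707534473) (nat_lit 3) (nat_lit 4) (nat_lit 4) (nat_lit 5) (nat_lit 4) (nat_lit 4) (nat_lit 330) (nat_lit 213) (nat_lit 177)) (XT.lf (nat_lit 0) (nat_lit 94503895062) (nat_lit 76) (nat_lit 10713046332) (nat_lit 76) (nat_lit 5051378555) (nat_lit 3) (nat_lit 4) (nat_lit 4) (nat_lit 5) (nat_lit 4) (nat_lit 4) (nat_lit 331) (nat_lit 213) (nat_lit 176))) (XT.nd (nat_lit 78) (nat_lit 76) (nat_lit 0) (XT.lf (nat_lit 0) (nat_lit 103275015306) (nat_lit 76) (nat_lit 9055115416) (nat_lit 76) (nat_lit 3340390832) (nat_lit 3) (nat_lit 4) (nat_lit 4) (nat_lit 5) (nat_lit 4) (nat_lit 4) (nat_lit 332) (nat_lit 213) (nat_lit 175)) (XT.nd (nat_lit 78) (nat_lit 76) (nat_lit 0) (XT.lf (nat_lit 0)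 (nat_lit 112437870335) (nat_lit 76) (nat_lit 7335752401) (nat_lit 76) (nat_lit 1570497524) (nat_lit 3) (nat_lit 4) (nat_lit 4) (nat_lit 5) (nat_lit 4) (nat_lit 4) (nat_lit 333) (nat_lit 213) (nat_lit 174)) (XT.lf (nat_lit 0) (nat_lit 254113266) (nat_lit 152) (nat_lit 5292446769) (nat_lit 76) (nat_lit 121755859674) (nat_lit 2) (nat_lit 5) (nat_lit 4) (nat_lit 5) (nat_lit 3) (nat_lit 4) (nat_lit 334) (nat_lit 213) (nat_lit 173))))))) (XT.nd (nat_lit 702) (nat_lit 0) (nat_lit 0) (XT.nd (nat_lit 312) (nat_lit 0) (nat_lit 0) (XT.nd (nat_lit 156) (nat_lit 0) (nat_lit 0) (XT.nd (nat_lit 78) (nat_lit 76) (nat_lit 0) (XT.lf (nat_lit 0) (nat_lit 2093782354) (nat_lit 152) (nat_lit 1566957603) (nat_lit 76) (nat_lit 129897793111) (nat_lit 2) (nat_lit 5) (nat_lit 4) (nat_lit 5) (nat_lit 3) (nat_lit 4) (nat_lit 335) (nat_lit 213) (nat_lit 172)) (XT.lf (nat_lit 0) (nat_lit 2379775321) (nat_lit 76)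 (nat_lit 1660535272) (nat_lit 152) (nat_lit 136086413498) (nat_lit 1) (nat_lit 5) (nat_lit 2) (nat_lit 5) (nat_lit 3) (nat_lit 4) (nat_lit 336) (nat_lit 213) (nat_lit 171))) (XT.nd (nat_lit 78) (nat_lit 0) (nat_lit 0) (XT.lf (nat_lit 0) (nat_lit 6095859214) (nat_lit 152) (nat_lit 140492401135) (nat_lit 0) (nat_lit 434494649) (nat_lit 1) (nat_lit 5) (nat_lit 3) (nat_lit 4) (nat_lit 1) (nat_lit 4) (nat_lit 337) (nat_lit 213) (nat_lit 170)) (XT.lf (nat_lit 0) (nat_lit 8260318695) (nat_lit 152) (nat_lit 143441728751) (nat_lit 0) (nat_lit 2561247648) (nat_lit 1) (nat_lit 5) (nat_lit 3) (nat_lit 4) (nat_lit 1) (nat_lit 4) (nat_lit 338) (nat_lit 213) (nat_lit 169)))) (XT.nd (nat_lit 156) (nat_lit 0) (nat_lit 0) (XT.nd (nat_lit 78) (nat_lit 0) (nat_lit 0) (XT.lf (nat_lit 0) (nat_lit 10512916901) (nat_lit 152) (nat_lit 146576028218) (nat_lit 0) (nat_lit 4777934919) (nat_lit 1) (nat_lit 5) (nat_lit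 3) (nat_lit 4) (nat_lit 1) (nat_lit 4) (nat_lit 339) (nat_lit 213) (nat_lit 168)) (XT.lf (nat_lit 0) (nat_lit 12859017162) (nat_lit 152) (nat_lit 149902762156) (nat_lit 0) (nat_lit 7089834289) (nat_lit 1) (nat_lit 5) (nat_lit 3) (nat_lit 4) (nat_lit 1) (nat_lit 4) (nat_lit 340) (nat_lit 213) (nat_lit 167))) (XT.nd (nat_lit 78) (nat_lit 0) (nat_lit 0) (XT.lf (nat_lit 0) (nat_lit 15304205431) (nat_lit 152) (nat_lit 153429851358) (nat_lit 0) (nat_lit 9502450281) (nat_lit 1) (nat_lit 5) (nat_lit 3) (nat_lit 4) (nat_lit 1) (nat_lit 4) (nat_lit 341) (nat_lit 213) (nat_lit 166)) (XT.nd (nat_lit 78) (nat_lit 0) (nat_lit 0) (XT.lf (nat_lit 0) (nat_lit 17854303585) (nat_lit 152) (nat_lit 157165693656) (nat_lit 0) (nat_lit 12021527219) (nat_lit 1) (nat_lit 5) (nat_lit 3) (nat_lit 4) (nat_lit 1) (nat_lit 4) (nat_lit 342) (nat_lit 213) (nat_lit 165)) (XT.lf (nat_lit 0) (nat_lit 20515383286) (nat_lit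 152) (nat_lit 161119183912) (nat_lit 0) (nat_lit 14653062904) (nat_lit 1) (nat_lit 5) (nat_lit 3) (nat_lit 4) (nat_lit 1) (nat_lit 4) (nat_lit 343) (nat_lit 213) (nat_lit 164)))))) (XT.nd (nat_lit 312) (nat_lit 0) (nat_lit 0) (XT.nd (nat_lit 156) (nat_lit 0) (nat_lit 0) (XT.nd (nat_lit 78) (nat_lit 0) (nat_lit 0) (XT.lf (nat_lit 0) (nat_lit 23293780437) (nat_lit 152) (nat_lit 165299735200) (nat_lit 0) (nat_lit 17403322898) (nat_lit 1) (nat_lit 5) (nat_lit 3) (nat_lit 4) (nat_lit 1) (nat_lit 4) (nat_lit 344) (nat_lit 213) (nat_lit 163)) (XT.lf (nat_lit 0) (nat_lit 26196110271) (nat_lit 152) (nat_lit 169717301211) (nat_lit 0) (nat_lit 20278855439) (nat_lit 1) (nat_lit 5) (nat_lit 3) (nat_lit 4) (nat_lit 1) (nat_lit 4) (nat_lit 345) (nat_lit 213) (nat_lit 162))) (XT.nd (nat_lit 78) (nat_lit 0) (nat_lit 0) (XT.lf (nat_lit 0) (nat_lit 29229283096) (nat_lit 152) (nat_lit 174382399962) (nat_lit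 0) (nat_lit 23286507033) (nat_lit 1) (nat_lit 5) (nat_lit 3) (nat_lit 4) (nat_lit 1) (nat_lit 4) (nat_lit 346) (nat_lit 213) (nat_lit 161)) (XT.lf (nat_lit 0) (nat_lit 32400520753) (nat_lit 152) (nat_lit 179306138829) (nat_lit 0) (nat_lit 26433438755) (nat_lit 1) (nat_lit 5) (nat_lit 3) (nat_lit 4) (nat_lit 1) (nat_lit 4) (nat_lit 347) (nat_lit 213) (nat_lit 160)))) (XT.nd (nat_lit 156) (nat_lit 0) (nat_lit 0) (XT.nd (nat_lit 78) (nat_lit 0) (nat_lit 0) (XT.lf (nat_lit 0) (nat_lit 35717373807) (nat_lit 152) (nat_lit 184500241000) (nat_lit 0) (nat_lit 29727143299) (nat_lit 1) (nat_lit 5) (nat_lit 3) (nat_lit 4) (nat_lit 1) (nat_lit 4) (nat_lit 348) (nat_lit 213) (nat_lit 159)) (XT.lf (nat_lit 0) (nat_lit 39187739527) (nat_lit 152) (nat_lit 189977073385) (nat_lit 0) (nat_lit 33175462821) (nat_lit 1) (nat_lit 5) (nat_lit 3) (nat_lit 4) (nat_lit 1) (nat_lit 4) (nat_lit 349) (nat_lit 213)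 (nat_lit 158))) (XT.nd (nat_lit 78) (nat_lit 0) (nat_lit 0) (XT.lf (nat_lit 0) (nat_lit 42819880690) (nat_lit 152) (nat_lit 195749676062) (nat_lit 0) (nat_lit 36786607603) (nat_lit 1) (nat_lit 5) (nat_lit 3) (nat_lit 4) (nat_lit 1) (nat_lit 4) (nat_lit 350) (nat_lit 213) (nat_lit 157)) (XT.nd (nat_lit 78) (nat_lit 0) (nat_lit 0) (XT.lf (nat_lit 0) (nat_lit 46622445249) (nat_lit 152) (nat_lit 201831793322) (nat_lit 0) (nat_lit 40569175610) (nat_lit 1) (nat_lit 5) (nat_lit 3) (nat_lit 4) (nat_lit 1) (nat_lit 4) (nat_lit 351) (nat_lit 213) (nat_lit 156)) (XT.lf (nat_lit 0) (nat_lit 50604486931) (nat_lit 152) (nat_lit 208237906397) (nat_lit 0) (nat_lit 44532172956) (nat_lit 1) (nat_lit 5) (nat_lit 3) (nat_lit 4) (nat_lit 1) (nat_lit 4) (nat_lit 352) (nat_lit 213) (nat_lit 155))))))))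
noncomputable def xc38 : XT := (XT.nd (nat_lit 33072) (nat_lit 0) (nat_lit 228) (XT.nd (nat_lit 702) (nat_lit 0) (nat_lit 0) (XT.nd (nat_lit 312) (nat_lit 0) (nat_lit 0) (XT.nd (nat_lit 156) (nat_lit 0) (nat_lit 0) (XT.nd (nat_lit 78) (nat_lit 0) (nat_lit 0) (XT.lf (nat_lit 0) (nat_lit 54775486787) (nat_lit 152) (nat_lit 214983267938) (nat_lit 0) (nat_lit 48685035350) (nat_lit 1) (nat_lit 5) (nat_lit 3) (nat_lit 4) (nat_lit 1) (nat_lit 4) (nat_lit 353) (nat_lit 213) (nat_lit 154)) (XT.lf (nat_lit 0) (nat_lit 59145375769) (nat_lit 152) (nat_lit 222083938328) (nat_lit 0) (nat_lit 53037650557) (nat_lit 1) (nat_lit 5) (nat_lit 3) (nat_lit 4) (nat_lit 1) (nat_lit 4) (nat_lit 354) (nat_lit 213) (nat_lit 153))) (XT.nd (nat_lit 78) (nat_lit 0) (nat_lit 0) (XT.lf (nat_lit 0) (nat_lit 63724558374) (nat_lit 152) (nat_lit 229556823927) (nat_lit 0) (nat_lit 57600381950) (nat_lit 1) (nat_lit 5) (nat_lit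 3) (nat_lit 4) (nat_lit 1) (nat_lit 4) (nat_lit 355) (nat_lit 213) (nat_lit 152)) (XT.lf (nat_lit 0) (nat_lit 68523937419) (nat_lit 152) (nat_lit 237419717317) (nat_lit 0) (nat_lit 62384093172) (nat_lit 1) (nat_lit 5) (nat_lit 3) (nat_lit 4) (nat_lit 1) (nat_lit 4) (nat_lit 356) (nat_lit 213) (nat_lit 151)))) (XT.nd (nat_lit 156) (nat_lit 0) (nat_lit 0) (XT.nd (nat_lit 78) (nat_lit 0) (nat_lit 0) (XT.lf (nat_lit 0) (nat_lit 73554939996) (nat_lit 152) (nat_lit 245691339676) (nat_lit 0) (nat_lit 67400174014) (nat_lit 1) (nat_lit 5) (nat_lit 3) (nat_lit 4) (nat_lit 1) (nat_lit 4) (nat_lit 357) (nat_lit 213) (nat_lit 150)) (XT.lf (nat_lit 0) (nat_lit 78829544683) (nat_lit 152) (nat_lit 254391385340) (nat_lit 0) (nat_lit 72660567524) (nat_lit 1) (nat_lit 5) (nat_lit 3) (nat_lit 4) (nat_lit 1) (nat_lit 4) (nat_lit 358) (nat_lit 213) (nat_lit 149))) (XT.nd (nat_lit 78) (nat_lit 0) (nat_lit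 0) (XT.lf (nat_lit 0) (nat_lit 84360310062) (nat_lit 152) (nat_lit 263540568706) (nat_lit 0) (nat_lit 78177798449) (nat_lit 1) (nat_lit 5) (nat_lit 3) (nat_lit 4) (nat_lit 1) (nat_lit 4) (nat_lit 359) (nat_lit 213) (nat_lit 148)) (XT.nd (nat_lit 78) (nat_lit 0) (nat_lit 0) (XT.lf (nat_lit 0) (nat_lit 90160404622) (nat_lit 152) (nat_lit 273160673542) (nat_lit 0) (nat_lit 83965003053) (nat_lit 1) (nat_lit 5) (nat_lit 3) (nat_lit 4) (nat_lit 1) (nat_lit 4) (nat_lit 360) (nat_lit 213) (nat_lit 147)) (XT.lf (nat_lit 0) (nat_lit 96243638113) (nat_lit 152) (nat_lit 283274604860) (nat_lit 0) (nat_lit 90035960395) (nat_lit 1) (nat_lit 5) (nat_lit 3) (nat_lit 4) (nat_lit 1) (nat_lit 4) (nat_lit 361) (nat_lit 213) (nat_lit 146)))))) (XT.nd (nat_lit 312) (nat_lit 0) (nat_lit 0) (XT.nd (nat_lit 156) (nat_lit 0) (nat_lit 0) (XT.nd (nat_lit 78) (nat_lit 0) (nat_lit 0) (XT.lf (nat_lit 0) (nat_lit 102624494423)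 (nat_lit 152) (nat_lit 293906443450) (nat_lit 0) (nat_lit 96405125136) (nat_lit 1) (nat_lit 5) (nat_lit 3) (nat_lit 4) (nat_lit 1) (nat_lit 4) (nat_lit 362) (nat_lit 213) (nat_lit 145)) (XT.lf (nat_lit 0) (nat_lit 109318166068) (nat_lit 152) (nat_lit 305081503212) (nat_lit 0) (nat_lit 103087661952) (nat_lit 1) (nat_lit 5) (nat_lit 3) (nat_lit 4) (nat_lit 1) (nat_lit 4) (nat_lit 363) (nat_lit 213) (nat_lit 144))) (XT.nd (nat_lit 78) (nat_lit 0) (nat_lit 0) (XT.lf (nat_lit 0) (nat_lit 116340590361) (nat_lit 152) (nat_lit 316826391431) (nat_lit 0) (nat_lit 110099481646) (nat_lit 1) (nat_lit 5) (nat_lit 3) (nat_lit 4) (nat_lit 1) (nat_lit 4) (nat_lit 364) (nat_lit 213) (nat_lit 143)) (XT.lf (nat_lit 0) (nat_lit 123708487360) (nat_lit 152) (nat_lit 329169072128) (nat_lit 0) (nat_lit 117457279027) (nat_lit 1) (nat_lit 5) (nat_lit 3) (nat_lit 4) (nat_lit 1) (nat_lit 4) (nat_lit 365) (nat_lit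 213) (nat_lit 142)))) (XT.nd (nat_lit 31824) (nat_lit 0) (nat_lit 608) (XT.nd (nat_lit 31746) (nat_lit 0) (nat_lit 684) (XT.lf (nat_lit 0) (nat_lit 131439399677) (nat_lit 152) (nat_lit 342138932637) (nat_lit 0) (nat_lit 125178572660) (nat_lit 1) (nat_lit 5) (nat_lit 3) (nat_lit 4) (nat_lit 1) (nat_lit 4) (nat_lit 366) (nat_lit 213) (nat_lit 141)) (XT.lf (nat_lit 0) (nat_lit 285439479) (nat_lit 152) (nat_lit 9108296640) (nat_lit 0) (nat_lit 285439479) (nat_lit 10) (nat_lit 5) (nat_lit 12) (nat_lit 4) (nat_lit 10) (nat_lit 4) (nat_lit 292) (nat_lit 214) (nat_lit 214))) (XT.nd (nat_lit 78) (nat_lit 76) (nat_lit 0) (XT.lf (nat_lit 0) (nat_lit 4404295789) (nat_lit 152) (nat_lit 11677054537) (nat_lit 0) (nat_lit 4030776466) (nat_lit 10) (nat_lit 5) (nat_lit 12) (nat_lit 4) (nat_lit 10) (nat_lit 4) (nat_lit 293) (nat_lit 214) (nat_lit 213)) (XT.nd (nat_lit 78) (nat_lit 76) (nat_lit 0) (XT.lf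 (nat_lit 0) (nat_lit 8297217720) (nat_lit 152) (nat_lit 5045151072) (nat_lit 0) (nat_lit 7567965710) (nat_lit 10) (nat_lit 5) (nat_lit 12) (nat_lit 4) (nat_lit 10) (nat_lit 4) (nat_lit 294) (nat_lit 214) (nat_lit 212)) (XT.lf (nat_lit 0) (nat_lit 1750948652) (nat_lit 76) (nat_lit 10535302177) (nat_lit 76) (nat_lit 9467257130) (nat_lit 9) (nat_lit 4) (nat_lit 10) (nat_lit 5) (nat_lit 10) (nat_lit 4) (nat_lit 295) (nat_lit 214) (nat_lit 211))))))) (XT.nd (nat_lit 702) (nat_lit 152) (nat_lit 0) (XT.nd (nat_lit 312) (nat_lit 76) (nat_lit 0) (XT.nd (nat_lit 156) (nat_lit 152) (nat_lit 0) (XT.nd (nat_lit 78) (nat_lit 0) (nat_lit 0) (XT.lf (nat_lit 0) (nat_lit 8842173284) (nat_lit 76) (nat_lit 7594693899) (nat_lit 76) (nat_lit 6203988817) (nat_lit 9) (nat_lit 4) (nat_lit 10) (nat_lit 5) (nat_lit 10) (nat_lit 4) (nat_lit 296) (nat_lit 214) (nat_lit 210)) (XT.lf (nat_lit 0) (nat_lit 16078591214)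 (nat_lit 76) (nat_lit 4598984584) (nat_lit 76) (nat_lit 2900984232) (nat_lit 9) (nat_lit 4) (nat_lit 10) (nat_lit 5) (nat_lit 10) (nat_lit 4) (nat_lit 297) (nat_lit 214) (nat_lit 209))) (XT.nd (nat_lit 78) (nat_lit 76) (nat_lit 0) (XT.lf (nat_lit 0) (nat_lit 435230244) (nat_lit 152) (nat_lit 1098440512) (nat_lit 76) (nat_lit 23034830928) (nat_lit 8) (nat_lit 5) (nat_lit 10) (nat_lit 5) (nat_lit 9) (nat_lit 4) (nat_lit 298) (nat_lit 214) (nat_lit 208)) (XT.lf (nat_lit 0) (nat_lit 3846379583) (nat_lit 152) (nat_lit 20073945634) (nat_lit 0) (nat_lit 1685057312) (nat_lit 7) (nat_lit 5) (nat_lit 9) (nat_lit 4) (nat_lit 7) (nat_lit 4) (nat_lit 299) (nat_lit 214) (nat_lit 207)))) (XT.nd (nat_lit 156) (nat_lit 76) (nat_lit 0) (XT.nd (nat_lit 78) (nat_lit 0) (nat_lit 0) (XT.lf (nat_lit 0) (nat_lit 7364638078) (nat_lit 152) (nat_lit 14382234499) (nat_lit 0) (nat_lit 4950503228) (nat_lit 7) (nat_lit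 5) (nat_lit 9) (nat_lit 4) (nat_lit 7) (nat_lit 4) (nat_lit 300) (nat_lit 214) (nat_lit 206)) (XT.lf (nat_lit 0) (nat_lit 10956430417) (nat_lit 152) (nat_lit 8591227007) (nat_lit 0) (nat_lit 8301521681) (nat_lit 7) (nat_lit 5) (nat_lit 9) (nat_lit 4) (nat_lit 7) (nat_lit 4) (nat_lit 301) (nat_lit 214) (nat_lit 205))) (XT.nd (nat_lit 78) (nat_lit 76) (nat_lit 0) (XT.lf (nat_lit 0) (nat_lit 14630308486) (nat_lit 152) (nat_lit 2687135043) (nat_lit 0) (nat_lit 11746091287) (nat_lit 7) (nat_lit 5) (nat_lit 9) (nat_lit 4) (nat_lit 7) (nat_lit 4) (nat_lit 302) (nat_lit 214) (nat_lit 204)) (XT.nd (nat_lit 78) (nat_lit 0) (nat_lit 0) (XT.lf (nat_lit 0) (nat_lit 3454669760) (nat_lit 76) (nat_lit 14994286930) (nat_lit 76) (nat_lit 11891680719) (nat_lit 6) (nat_lit 4) (nat_lit 7) (nat_lit 5) (nat_lit 7) (nat_lit 4) (nat_lit 303) (nat_lit 214) (nat_lit 203)) (XT.lf (nat_lit 0) (nat_lit 9831503989)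 (nat_lit 76) (nat_lit 12581520738) (nat_lit 76) (nat_lit 9270924992) (nat_lit 6) (nat_lit 4) (nat_lit 7) (nat_lit 5) (nat_lit 7) (nat_lit 4) (nat_lit 304) (nat_lit 214) (nat_lit 202)))))) (XT.nd (nat_lit 312) (nat_lit 76) (nat_lit 0) (XT.nd (nat_lit 156) (nat_lit 76) (nat_lit 0) (XT.nd (nat_lit 78) (nat_lit 0) (nat_lit 0) (XT.lf (nat_lit 0) (nat_lit 16369701762) (nat_lit 76) (nat_lit 10118908204) (nat_lit 76) (nat_lit 6610227186) (nat_lit 6) (nat_lit 4) (nat_lit 7) (nat_lit 5) (nat_lit 7) (nat_lit 4) (nat_lit 305) (nat_lit 214) (nat_lit 201)) (XT.lf (nat_lit 0) (nat_lit 23084830218) (nat_lit 76) (nat_lit 7600585965) (nat_lit 76) (nat_lit 3903252308) (nat_lit 6) (nat_lit 4) (nat_lit 7) (nat_lit 5) (nat_lit 7) (nat_lit 4) (nat_lit 306) (nat_lit 214) (nat_lit 200))) (XT.nd (nat_lit 78) (nat_lit 76) (nat_lit 0) (XT.lf (nat_lit 0) (nat_lit 29992877756) (nat_lit 76) (nat_lit 5020558016) (nat_lit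 76) (nat_lit 1143555178) (nat_lit 6) (nat_lit 4) (nat_lit 7) (nat_lit 5) (nat_lit 7) (nat_lit 4) (nat_lit 307) (nat_lit 214) (nat_lit 199)) (XT.lf (nat_lit 0) (nat_lit 1621810529) (nat_lit 152) (nat_lit 723404758) (nat_lit 76) (nat_lit 35461015434) (nat_lit 5) (nat_lit 5) (nat_lit 7) (nat_lit 5) (nat_lit 6) (nat_lit 4) (nat_lit 308) (nat_lit 214) (nat_lit 198)))) (XT.nd (nat_lit 156) (nat_lit 0) (nat_lit 0) (XT.nd (nat_lit 78) (nat_lit 0) (nat_lit 0) (XT.lf (nat_lit 0) (nat_lit 4500410072) (nat_lit 152) (nat_lit 34546117982) (nat_lit 0) (nat_lit 489856181) (nat_lit 4) (nat_lit 5) (nat_lit 6) (nat_lit 4) (nat_lit 4) (nat_lit 4) (nat_lit 309) (nat_lit 214) (nat_lit 197)) (XT.lf (nat_lit 0) (nat_lit 7501800999) (nat_lit 152) (nat_lit 30508924642) (nat_lit 0) (nat_lit 3343432828) (nat_lit 4) (nat_lit 5) (nat_lit 6) (nat_lit 4) (nat_lit 4) (nat_lit 4) (nat_lit 310) (nat_lit 214) (nat_lit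 196))) (XT.nd (nat_lit 78) (nat_lit 0) (nat_lit 0) (XT.lf (nat_lit 0) (nat_lit 10584655000) (nat_lit 152) (nat_lit 26396138857) (nat_lit 0) (nat_lit 6285511324) (nat_lit 4) (nat_lit 5) (nat_lit 6) (nat_lit 4) (nat_lit 4) (nat_lit 4) (nat_lit 311) (nat_lit 214) (nat_lit 195)) (XT.nd (nat_lit 78) (nat_lit 0) (nat_lit 0) (XT.lf (nat_lit 0) (nat_lit 13756312203) (nat_lit 152) (nat_lit 22197968278) (nat_lit 0) (nat_lit 9323096619) (nat_lit 4) (nat_lit 5) (nat_lit 6) (nat_lit 4) (nat_lit 4) (nat_lit 4) (nat_lit 312) (nat_lit 214) (nat_lit 194)) (XT.lf (nat_lit 0) (nat_lit 17024324175) (nat_lit 152) (nat_lit 17904417262) (nat_lit 0) (nat_lit 12463421058) (nat_lit 4) (nat_lit 5) (nat_lit 6) (nat_lit 4) (nat_lit 4) (nat_lit 4) (nat_lit 313) (nat_lit 214) (nat_lit 193))))))))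
noncomputable def xc39 : XT := (XT.nd (nat_lit 1404) (nat_lit 152) (nat_lit 0) (XT.nd (nat_lit 702) (nat_lit 0) (nat_lit 0) (XT.nd (nat_lit 312) (nat_lit 0) (nat_lit 0) (XT.nd (nat_lit 156) (nat_lit 76) (nat_lit 0) (XT.nd (nat_lit 78) (nat_lit 0) (nat_lit 0) (XT.lf (nat_lit 0) (nat_lit 20396471895) (nat_lit 152) (nat_lit 13505263069) (nat_lit 0) (nat_lit 15713961605) (nat_lit 4) (nat_lit 5) (nat_lit 6) (nat_lit 4) (nat_lit 4) (nat_lit 4) (nat_lit 314) (nat_lit 214) (nat_lit 192)) (XT.lf (nat_lit 0) (nat_lit 23880784287) (nat_lit 152) (nat_lit 8990031521) (nat_lit 0) (nat_lit 19082457641) (nat_lit 4) (nat_lit 5) (nat_lit 6) (nat_lit 4) (nat_lit 4) (nat_lit 4) (nat_lit 315) (nat_lit 214) (nat_lit 191))) (XT.nd (nat_lit 78) (nat_lit 76) (nat_lit 0) (XT.lf (nat_lit 0) (nat_lit 27485557332) (nat_lit 152) (nat_lit 4347972067) (nat_lit 0) (nat_lit 22576929395) (nat_lit 4) (nat_lit 5) (nat_lit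 6) (nat_lit 4) (nat_lit 4) (nat_lit 4) (nat_lit 316) (nat_lit 214) (nat_lit 190)) (XT.lf (nat_lit 0) (nat_lit 446250622) (nat_lit 76) (nat_lit 30780090424) (nat_lit 76) (nat_lit 25766413639) (nat_lit 3) (nat_lit 4) (nat_lit 4) (nat_lit 5) (nat_lit 4) (nat_lit 4) (nat_lit 317) (nat_lit 214) (nat_lit 189)))) (XT.nd (nat_lit 156) (nat_lit 0) (nat_lit 0) (XT.nd (nat_lit 78) (nat_lit 0) (nat_lit 0) (XT.lf (nat_lit 0) (nat_lit 5538433391) (nat_lit 76) (nat_lit 29639160876) (nat_lit 76) (nat_lit 24525437568) (nat_lit 3) (nat_lit 4) (nat_lit 4) (nat_lit 5) (nat_lit 4) (nat_lit 4) (nat_lit 318) (nat_lit 214) (nat_lit 188)) (XT.lf (nat_lit 0) (nat_lit 10796936894) (nat_lit 76) (nat_lit 28481659266) (nat_lit 76) (nat_lit 23272653555) (nat_lit 3) (nat_lit 4) (nat_lit 4) (nat_lit 5) (nat_lit 4) (nat_lit 4) (nat_lit 319) (nat_lit 214) (nat_lit 187))) (XT.nd (nat_lit 78) (nat_lit 0) (nat_lit 0) (XT.lf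 (nat_lit 0) (nat_lit 16234281376) (nat_lit 76) (nat_lit 27304829637) (nat_lit 76) (nat_lit 22005078781) (nat_lit 3) (nat_lit 4) (nat_lit 4) (nat_lit 5) (nat_lit 4) (nat_lit 4) (nat_lit 320) (nat_lit 214) (nat_lit 186)) (XT.nd (nat_lit 78) (nat_lit 0) (nat_lit 0) (XT.lf (nat_lit 0) (nat_lit 21863412895) (nat_lit 76) (nat_lit 26105870015) (nat_lit 76) (nat_lit 20719695211) (nat_lit 3) (nat_lit 4) (nat_lit 4) (nat_lit 5) (nat_lit 4) (nat_lit 4) (nat_lit 321) (nat_lit 214) (nat_lit 185)) (XT.lf (nat_lit 0) (nat_lit 27697734146) (nat_lit 76) (nat_lit 24881925734) (nat_lit 76) (nat_lit 19413442408) (nat_lit 3) (nat_lit 4) (nat_lit 4) (nat_lit 5) (nat_lit 4) (nat_lit 4) (nat_lit 322) (nat_lit 214) (nat_lit 184)))))) (XT.nd (nat_lit 312) (nat_lit 0) (nat_lit 0) (XT.nd (nat_lit 156) (nat_lit 0) (nat_lit 0) (XT.nd (nat_lit 78) (nat_lit 0) (nat_lit 0) (XT.lf (nat_lit 0) (nat_lit 33751136370) (nat_lit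 76) (nat_lit 23630082641) (nat_lit 76) (nat_lit 18083210247) (nat_lit 3) (nat_lit 4) (nat_lit 4) (nat_lit 5) (nat_lit 4) (nat_lit 4) (nat_lit 323) (nat_lit 214) (nat_lit 183)) (XT.lf (nat_lit 0) (nat_lit 40038032429) (nat_lit 76) (nat_lit 22347360156) (nat_lit 76) (nat_lit 16725831506) (nat_lit 3) (nat_lit 4) (nat_lit 4) (nat_lit 5) (nat_lit 4) (nat_lit 4) (nat_lit 324) (nat_lit 214) (nat_lit 182))) (XT.nd (nat_lit 78) (nat_lit 0) (nat_lit 0) (XT.lf (nat_lit 0) (nat_lit 46573391123) (nat_lit 76) (nat_lit 21030704179) (nat_lit 76) (nat_lit 15338074334) (nat_lit 3) (nat_lit 4) (nat_lit 4) (nat_lit 5) (nat_lit 4) (nat_lit 4) (nat_lit 325) (nat_lit 214) (nat_lit 181)) (XT.lf (nat_lit 0) (nat_lit 53372772831) (nat_lit 76) (nat_lit 19676979815) (nat_lit 76) (nat_lit 13916634545) (nat_lit 3) (nat_lit 4) (nat_lit 4) (nat_lit 5) (nat_lit 4) (nat_lit 4) (nat_lit 326) (nat_lit 214) (nat_lit 180))))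 (XT.nd (nat_lit 156) (nat_lit 0) (nat_lit 0) (XT.nd (nat_lit 78) (nat_lit 0) (nat_lit 0) (XT.lf (nat_lit 0) (nat_lit 60452366556) (nat_lit 76) (nat_lit 18282963910) (nat_lit 76) (nat_lit 12458127760) (nat_lit 3) (nat_lit 4) (nat_lit 4) (nat_lit 5) (nat_lit 4) (nat_lit 4) (nat_lit 327) (nat_lit 214) (nat_lit 179)) (XT.lf (nat_lit 0) (nat_lit 67829028473) (nat_lit 76) (nat_lit 16845337379) (nat_lit 76) (nat_lit 10959081343) (nat_lit 3) (nat_lit 4) (nat_lit 4) (nat_lit 5) (nat_lit 4) (nat_lit 4) (nat_lit 328) (nat_lit 214) (nat_lit 178))) (XT.nd (nat_lit 78) (nat_lit 0) (nat_lit 0) (XT.lf (nat_lit 0) (nat_lit 75520322064) (nat_lit 76) (nat_lit 15360677302) (nat_lit 76) (nat_lit 9415926135) (nat_lit 3) (nat_lit 4) (nat_lit 4) (nat_lit 5) (nat_lit 4) (nat_lit 4) (nat_lit 329) (nat_lit 214) (nat_lit 177)) (XT.nd (nat_lit 78) (nat_lit 0) (nat_lit 0) (XT.lf (nat_lit 0) (nat_lit 83544559932)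 (nat_lit 76) (nat_lit 13825448773) (nat_lit 76) (nat_lit 7824987959) (nat_lit 3) (nat_lit 4) (nat_lit 4) (nat_lit 5) (nat_lit 4) (nat_lit 4) (nat_lit 330) (nat_lit 214) (nat_lit 176)) (XT.lf (nat_lit 0) (nat_lit 91920847406) (nat_lit 76) (nat_lit 12235996487) (nat_lit 76) (nat_lit 6182478866) (nat_lit 3) (nat_lit 4) (nat_lit 4) (nat_lit 5) (nat_lit 4) (nat_lit 4) (nat_lit 331) (nat_lit 214) (nat_lit 175))))))) (XT.nd (nat_lit 702) (nat_lit 0) (nat_lit 0) (XT.nd (nat_lit 312) (nat_lit 76) (nat_lit 0) (XT.nd (nat_lit 156) (nat_lit 76) (nat_lit 0) (XT.nd (nat_lit 78) (nat_lit 0) (nat_lit 0) (XT.lf (nat_lit 0) (nat_lit 100669128027) (nat_lit 76) (nat_lit 10588536033) (nat_lit 76) (nat_lit 4484488119) (nat_lit 3) (nat_lit 4) (nat_lit 4) (nat_lit 5) (nat_lit 4) (nat_lit 4) (nat_lit 332) (nat_lit 214) (nat_lit 174)) (XT.lf (nat_lit 0) (nat_lit 109810231034) (nat_lit 76) (nat_lit 8879144886)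 (nat_lit 76) (nat_lit 2726972885) (nat_lit 3) (nat_lit 4) (nat_lit 4) (nat_lit 5) (nat_lit 4) (nat_lit 4) (nat_lit 333) (nat_lit 214) (nat_lit 173))) (XT.nd (nat_lit 78) (nat_lit 76) (nat_lit 0) (XT.lf (nat_lit 0) (nat_lit 119365920960) (nat_lit 76) (nat_lit 7103753068) (nat_lit 76) (nat_lit 905748602) (nat_lit 3) (nat_lit 4) (nat_lit 4) (nat_lit 5) (nat_lit 4) (nat_lit 4) (nat_lit 334) (nat_lit 214) (nat_lit 172)) (XT.lf (nat_lit 0) (nat_lit 952042163) (nat_lit 152) (nat_lit 4289967998) (nat_lit 76) (nat_lit 128390783988) (nat_lit 2) (nat_lit 5) (nat_lit 4) (nat_lit 5) (nat_lit 3) (nat_lit 4) (nat_lit 335) (nat_lit 214) (nat_lit 171)))) (XT.nd (nat_lit 156) (nat_lit 0) (nat_lit 0) (XT.nd (nat_lit 78) (nat_lit 76) (nat_lit 0) (XT.lf (nat_lit 0) (nat_lit 2851065027) (nat_lit 152) (nat_lit 438542522) (nat_lit 76) (nat_lit 136913760223) (nat_lit 2) (nat_lit 5) (nat_lit 4) (nat_lit 5) (nat_lit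 3) (nat_lit 4) (nat_lit 336) (nat_lit 214) (nat_lit 170)) (XT.lf (nat_lit 0) (nat_lit 3686063130) (nat_lit 76) (nat_lit 1196317731) (nat_lit 152) (nat_lit 142218236441) (nat_lit 1) (nat_lit 5) (nat_lit 2) (nat_lit 5) (nat_lit 3) (nat_lit 4) (nat_lit 337) (nat_lit 214) (nat_lit 169))) (XT.nd (nat_lit 78) (nat_lit 0) (nat_lit 0) (XT.lf (nat_lit 0) (nat_lit 7018365275) (nat_lit 152) (nat_lit 146363499267) (nat_lit 0) (nat_lit 960723258) (nat_lit 1) (nat_lit 5) (nat_lit 3) (nat_lit 4) (nat_lit 1) (nat_lit 4) (nat_lit 338) (nat_lit 214) (nat_lit 168)) (XT.nd (nat_lit 78) (nat_lit 0) (nat_lit 0) (XT.lf (nat_lit 0) (nat_lit 9261632820) (nat_lit 152) (nat_lit 149515222879) (nat_lit 0) (nat_lit 3169789912) (nat_lit 1) (nat_lit 5) (nat_lit 3) (nat_lit 4) (nat_lit 1) (nat_lit 4) (nat_lit 339) (nat_lit 214) (nat_lit 167)) (XT.lf (nat_lit 0) (nat_lit 11598846737) (nat_lit 152) (nat_lit 152858551240)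 (nat_lit 0) (nat_lit 5474431552) (nat_lit 1) (nat_lit 5) (nat_lit 3) (nat_lit 4) (nat_lit 1) (nat_lit 4) (nat_lit 340) (nat_lit 214) (nat_lit 166)))))) (XT.nd (nat_lit 390) (nat_lit 0) (nat_lit 0) (XT.nd (nat_lit 156) (nat_lit 0) (nat_lit 0) (XT.nd (nat_lit 78) (nat_lit 0) (nat_lit 0) (XT.lf (nat_lit 0) (nat_lit 14035571821) (nat_lit 152) (nat_lit 156401444655) (nat_lit 0) (nat_lit 7880135420) (nat_lit 1) (nat_lit 5) (nat_lit 3) (nat_lit 4) (nat_lit 1) (nat_lit 4) (nat_lit 341) (nat_lit 214) (nat_lit 165)) (XT.lf (nat_lit 0) (nat_lit 16577609799) (nat_lit 152) (nat_lit 160152338584) (nat_lit 0) (nat_lit 10392629383) (nat_lit 1) (nat_lit 5) (nat_lit 3) (nat_lit 4) (nat_lit 1) (nat_lit 4) (nat_lit 342) (nat_lit 214) (nat_lit 164))) (XT.nd (nat_lit 78) (nat_lit 0) (nat_lit 0) (XT.lf (nat_lit 0) (nat_lit 19231013141) (nat_lit 152) (nat_lit 164120163727) (nat_lit 0) (nat_lit 13017895568)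 (nat_lit 1) (nat_lit 5) (nat_lit 3) (nat_lit 4) (nat_lit 1) (nat_lit 4) (nat_lit 343) (nat_lit 214) (nat_lit 163)) (XT.nd (nat_lit 78) (nat_lit 0) (nat_lit 0) (XT.lf (nat_lit 0) (nat_lit 22002099476) (nat_lit 152) (nat_lit 168314367288) (nat_lit 0) (nat_lit 15762184609) (nat_lit 1) (nat_lit 5) (nat_lit 3) (nat_lit 4) (nat_lit 1) (nat_lit 4) (nat_lit 344) (nat_lit 214) (nat_lit 162)) (XT.lf (nat_lit 0) (nat_lit 24897466626) (nat_lit 152) (nat_lit 172744935464) (nat_lit 0) (nat_lit 18632030528) (nat_lit 1) (nat_lit 5) (nat_lit 3) (nat_lit 4) (nat_lit 1) (nat_lit 4) (nat_lit 345) (nat_lit 214) (nat_lit 161))))) (XT.nd (nat_lit 156) (nat_lit 0) (nat_lit 0) (XT.nd (nat_lit 78) (nat_lit 0) (nat_lit 0) (XT.lf (nat_lit 0) (nat_lit 27924008325) (nat_lit 152) (nat_lit 177422417229) (nat_lit 0) (nat_lit 21634266292) (nat_lit 1) (nat_lit 5) (nat_lit 3) (nat_lit 4) (nat_lit 1) (nat_lit 4) (nat_lit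 346) (nat_lit 214) (nat_lit 160)) (XT.lf (nat_lit 0) (nat_lit 31088930623) (nat_lit 152) (nat_lit 182357949442) (nat_lit 0) (nat_lit 24776040081) (nat_lit 1) (nat_lit 5) (nat_lit 3) (nat_lit 4) (nat_lit 1) (nat_lit 4) (nat_lit 347) (nat_lit 214) (nat_lit 159))) (XT.nd (nat_lit 78) (nat_lit 0) (nat_lit 0) (XT.lf (nat_lit 0) (nat_lit 34399769049) (nat_lit 152) (nat_lit 187563283373) (nat_lit 0) (nat_lit 28064832308) (nat_lit 1) (nat_lit 5) (nat_lit 3) (nat_lit 4) (nat_lit 1) (nat_lit 4) (nat_lit 348) (nat_lit 214) (nat_lit 158)) (XT.nd (nat_lit 78) (nat_lit 0) (nat_lit 0) (XT.lf (nat_lit 0) (nat_lit 37864406553) (nat_lit 152) (nat_lit 193050812671) (nat_lit 0) (nat_lit 31508473432) (nat_lit 1) (nat_lit 5) (nat_lit 3) (nat_lit 4) (nat_lit 1) (nat_lit 4) (nat_lit 349) (nat_lit 214) (nat_lit 157)) (XT.lf (nat_lit 0) (nat_lit 41491092271) (nat_lit 152) (nat_lit 198833602884) (nat_lit 0) (nat_lit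 35115162598) (nat_lit 1) (nat_lit 5) (nat_lit 3) (nat_lit 4) (nat_lit 1) (nat_lit 4) (nat_lit 350) (nat_lit 214) (nat_lit 156))))))))
noncomputable def xc40 : XT := (XT.nd (nat_lit 32916) (nat_lit 0) (nat_lit 228) (XT.nd (nat_lit 702) (nat_lit 0) (nat_lit 0) (XT.nd (nat_lit 312) (nat_lit 0) (nat_lit 0) (XT.nd (nat_lit 156) (nat_lit 0) (nat_lit 0) (XT.nd (nat_lit 78) (nat_lit 0) (nat_lit 0) (XT.lf (nat_lit 0) (nat_lit 45288461170) (nat_lit 152) (nat_lit 204925422560) (nat_lit 0) (nat_lit 38893487160) (nat_lit 1) (nat_lit 5) (nat_lit 3) (nat_lit 4) (nat_lit 1) (nat_lit 4) (nat_lit 351) (nat_lit 214) (nat_lit 155)) (XT.lf (nat_lit 0) (nat_lit 49265554603) (nat_lit 152) (nat_lit 211340776031) (nat_lit 0) (nat_lit 42852443131) (nat_lit 1) (nat_lit 5) (nat_lit 3) (nat_lit 4) (nat_lit 1) (nat_lit 4) (nat_lit 352) (nat_lit 214) (nat_lit 154))) (XT.nd (nat_lit 78) (nat_lit 0) (nat_lit 0) (XT.lf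 (nat_lit 0) (nat_lit 53431841841) (nat_lit 152) (nat_lit 218094937949) (nat_lit 0) (nat_lit 47001456595) (nat_lit 1) (nat_lit 5) (nat_lit 3) (nat_lit 4) (nat_lit 1) (nat_lit 4) (nat_lit 353) (nat_lit 214) (nat_lit 153)) (XT.lf (nat_lit 0) (nat_lit 57797242615) (nat_lit 152) (nat_lit 225203989651) (nat_lit 0) (nat_lit 51350406156) (nat_lit 1) (nat_lit 5) (nat_lit 3) (nat_lit 4) (nat_lit 1) (nat_lit 4) (nat_lit 354) (nat_lit 214) (nat_lit 152)))) (XT.nd (nat_lit 156) (nat_lit 0) (nat_lit 0) (XT.nd (nat_lit 78) (nat_lit 0) (nat_lit 0) (XT.lf (nat_lit 0) (nat_lit 62372150737) (nat_lit 152) (nat_lit 232684857450) (nat_lit 0) (nat_lit 55909646455) (nat_lit 1) (nat_lit 5) (nat_lit 3) (nat_lit 4) (nat_lit 1) (nat_lit 4) (nat_lit 355) (nat_lit 214) (nat_lit 151)) (XT.lf (nat_lit 0) (nat_lit 67167458845) (nat_lit 152) (nat_lit 240555352938) (nat_lit 0) (nat_lit 60690032828) (nat_lit 1) (nat_lit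 5) (nat_lit 3) (nat_lit 4) (nat_lit 1) (nat_lit 4) (nat_lit 356) (nat_lit 214) (nat_lit 150))) (XT.nd (nat_lit 78) (nat_lit 0) (nat_lit 0) (XT.lf (nat_lit 0) (nat_lit 72194584339) (nat_lit 152) (nat_lit 248834215388) (nat_lit 0) (nat_lit 65702947146) (nat_lit 1) (nat_lit 5) (nat_lit 3) (nat_lit 4) (nat_lit 1) (nat_lit 4) (nat_lit 357) (nat_lit 214) (nat_lit 149)) (XT.nd (nat_lit 78) (nat_lit 0) (nat_lit 0) (XT.lf (nat_lit 0) (nat_lit 77465496566) (nat_lit 152) (nat_lit 257541156378) (nat_lit 0) (nat_lit 70960324919) (nat_lit 1) (nat_lit 5) (nat_lit 3) (nat_lit 4) (nat_lit 1) (nat_lit 4) (nat_lit 358) (nat_lit 214) (nat_lit 148)) (XT.lf (nat_lit 0) (nat_lit 82992745317) (nat_lit 152) (nat_lit 266696906720) (nat_lit 0) (nat_lit 76474683714) (nat_lit 1) (nat_lit 5) (nat_lit 3) (nat_lit 4) (nat_lit 1) (nat_lit 4) (nat_lit 359) (nat_lit 214) (nat_lit 147)))))) (XT.nd (nat_lit 312) (nat_lit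 0) (nat_lit 0) (XT.nd (nat_lit 156) (nat_lit 0) (nat_lit 0) (XT.nd (nat_lit 78) (nat_lit 0) (nat_lit 0) (XT.lf (nat_lit 0) (nat_lit 88789490708) (nat_lit 152) (nat_lit 276323265820) (nat_lit 0) (nat_lit 82259152956) (nat_lit 1) (nat_lit 5) (nat_lit 3) (nat_lit 4) (nat_lit 1) (nat_lit 4) (nat_lit 360) (nat_lit 214) (nat_lit 146)) (XT.lf (nat_lit 0) (nat_lit 94869534514) (nat_lit 152) (nat_lit 286443153580) (nat_lit 0) (nat_lit 88327505192) (nat_lit 1) (nat_lit 5) (nat_lit 3) (nat_lit 4) (nat_lit 1) (nat_lit 4) (nat_lit 361) (nat_lit 214) (nat_lit 145))) (XT.nd (nat_lit 78) (nat_lit 0) (nat_lit 0) (XT.lf (nat_lit 0) (nat_lit 101247353028) (nat_lit 152) (nat_lit 297080664971) (nat_lit 0) (nat_lit 94694188878) (nat_lit 1) (nat_lit 5) (nat_lit 3) (nat_lit 4) (nat_lit 1) (nat_lit 4) (nat_lit 362) (nat_lit 214) (nat_lit 144)) (XT.lf (nat_lit 0) (nat_lit 107938131535) (nat_lit 152) (nat_lit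 308261127401) (nat_lit 0) (nat_lit 101374362785) (nat_lit 1) (nat_lit 5) (nat_lit 3) (nat_lit 4) (nat_lit 1) (nat_lit 4) (nat_lit 363) (nat_lit 214) (nat_lit 143)))) (XT.nd (nat_lit 156) (nat_lit 0) (nat_lit 0) (XT.nd (nat_lit 78) (nat_lit 0) (nat_lit 0) (XT.lf (nat_lit 0) (nat_lit 114957800458) (nat_lit 152) (nat_lit 320011161019) (nat_lit 0) (nat_lit 108383932090) (nat_lit 1) (nat_lit 5) (nat_lit 3) (nat_lit 4) (nat_lit 1) (nat_lit 4) (nat_lit 364) (nat_lit 214) (nat_lit 142)) (XT.lf (nat_lit 0) (nat_lit 122323073295) (nat_lit 152) (nat_lit 332358742094) (nat_lit 0) (nat_lit 115739586244) (nat_lit 1) (nat_lit 5) (nat_lit 3) (nat_lit 4) (nat_lit 1) (nat_lit 4) (nat_lit 365) (nat_lit 214) (nat_lit 141))) (XT.nd (nat_lit 31590) (nat_lit 0) (nat_lit 836) (XT.lf (nat_lit 0) (nat_lit 130051486410) (nat_lit 152) (nat_lit 345333269631) (nat_lit 0) (nat_lit 123458838707) (nat_lit 1) (nat_lit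 5) (nat_lit 3) (nat_lit 4) (nat_lit 1) (nat_lit 4) (nat_lit 366) (nat_lit 214) (nat_lit 140)) (XT.nd (nat_lit 78) (nat_lit 0) (nat_lit 0) (XT.lf (nat_lit 0) (nat_lit 2590609673) (nat_lit 76) (nat_lit 3192933585) (nat_lit 76) (nat_lit 3192933585) (nat_lit 12) (nat_lit 4) (nat_lit 13) (nat_lit 5) (nat_lit 13) (nat_lit 4) (nat_lit 290) (nat_lit 215) (nat_lit 215)) (XT.lf (nat_lit 0) (nat_lit 12702883137) (nat_lit 76) (nat_lit 3173318670) (nat_lit 76) (nat_lit 2761513617) (nat_lit 12) (nat_lit 4) (nat_lit 13) (nat_lit 5) (nat_lit 13) (nat_lit 4) (nat_lit 291) (nat_lit 215) (nat_lit 214))))))) (XT.nd (nat_lit 702) (nat_lit 228) (nat_lit 0) (XT.nd (nat_lit 312) (nat_lit 152) (nat_lit 0) (XT.nd (nat_lit 156) (nat_lit 76) (nat_lit 0) (XT.nd (nat_lit 78) (nat_lit 0) (nat_lit 0) (XT.lf (nat_lit 0) (nat_lit 895379599) (nat_lit 152) (nat_lit 18336760512) (nat_lit 0) (nat_lit 129664988) (nat_lit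 10) (nat_lit 5) (nat_lit 12) (nat_lit 4) (nat_lit 10) (nat_lit 4) (nat_lit 292) (nat_lit 215) (nat_lit 213)) (XT.lf (nat_lit 0) (nat_lit 4664325336) (nat_lit 152) (nat_lit 11911666752) (nat_lit 0) (nat_lit 3542878037) (nat_lit 10) (nat_lit 5) (nat_lit 12) (nat_lit 4) (nat_lit 10) (nat_lit 4) (nat_lit 293) (nat_lit 215) (nat_lit 212))) (XT.nd (nat_lit 78) (nat_lit 76) (nat_lit 0) (XT.lf (nat_lit 0) (nat_lit 8495846226) (nat_lit 152) (nat_lit 5388758510) (nat_lit 0) (nat_lit 7035605891) (nat_lit 10) (nat_lit 5) (nat_lit 12) (nat_lit 4) (nat_lit 10) (nat_lit 4) (nat_lit 294) (nat_lit 215) (nat_lit 211)) (XT.lf (nat_lit 0) (nat_lit 1288742766) (nat_lit 76) (nat_lit 11130443058) (nat_lit 76) (nat_lit 9347542688) (nat_lit 9) (nat_lit 4) (nat_lit 10) (nat_lit 5) (nat_lit 10) (nat_lit 4) (nat_lit 295) (nat_lit 215) (nat_lit 210)))) (XT.nd (nat_lit 156) (nat_lit 152) (nat_lit 0) (XT.nd (nat_lit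 78) (nat_lit 0) (nat_lit 0) (XT.lf (nat_lit 0) (nat_lit 8277836699) (nat_lit 76) (nat_lit 8234678378) (nat_lit 76) (nat_lit 6144482738) (nat_lit 9) (nat_lit 4) (nat_lit 10) (nat_lit 5) (nat_lit 10) (nat_lit 4) (nat_lit 296) (nat_lit 215) (nat_lit 209)) (XT.lf (nat_lit 0) (nat_lit 15416987295) (nat_lit 76) (nat_lit 5281677253) (nat_lit 76) (nat_lit 2898819450) (nat_lit 9) (nat_lit 4) (nat_lit 10) (nat_lit 5) (nat_lit 10) (nat_lit 4) (nat_lit 297) (nat_lit 215) (nat_lit 208))) (XT.nd (nat_lit 78) (nat_lit 76) (nat_lit 0) (XT.lf (nat_lit 0) (nat_lit 384462866) (nat_lit 152) (nat_lit 1873434796) (nat_lit 76) (nat_lit 22332218603) (nat_lit 8) (nat_lit 5) (nat_lit 10) (nat_lit 5) (nat_lit 9) (nat_lit 4) (nat_lit 298) (nat_lit 215) (nat_lit 207)) (XT.nd (nat_lit 78) (nat_lit 0) (nat_lit 0) (XT.lf (nat_lit 0) (nat_lit 3719162102) (nat_lit 152) (nat_lit 20980196400) (nat_lit 0) (nat_lit 931507929)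 (nat_lit 7) (nat_lit 5) (nat_lit 9) (nat_lit 4) (nat_lit 7) (nat_lit 4) (nat_lit 299) (nat_lit 215) (nat_lit 206)) (XT.lf (nat_lit 0) (nat_lit 7187479583) (nat_lit 152) (nat_lit 15378870240) (nat_lit 0) (nat_lit 4159051524) (nat_lit 7) (nat_lit 5) (nat_lit 9) (nat_lit 4) (nat_lit 7) (nat_lit 4) (nat_lit 300) (nat_lit 215) (nat_lit 205)))))) (XT.nd (nat_lit 312) (nat_lit 152) (nat_lit 0) (XT.nd (nat_lit 156) (nat_lit 76) (nat_lit 0) (XT.nd (nat_lit 78) (nat_lit 0) (nat_lit 0) (XT.lf (nat_lit 0) (nat_lit 10731709050) (nat_lit 152) (nat_lit 9673943676) (nat_lit 0) (nat_lit 7473972528) (nat_lit 7) (nat_lit 5) (nat_lit 9) (nat_lit 4) (nat_lit 7) (nat_lit 4) (nat_lit 301) (nat_lit 215) (nat_lit 204)) (XT.lf (nat_lit 0) (nat_lit 14360289145) (nat_lit 152) (nat_lit 3851833549) (nat_lit 0) (nat_lit 10884163612) (nat_lit 7) (nat_lit 5) (nat_lit 9) (nat_lit 4) (nat_lit 7) (nat_lit 4) (nat_lit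 302) (nat_lit 215) (nat_lit 203))) (XT.nd (nat_lit 78) (nat_lit 0) (nat_lit 0) (XT.lf (nat_lit 0) (nat_lit 2170801512) (nat_lit 76) (nat_lit 15944950128) (nat_lit 76) (nat_lit 12260835060) (nat_lit 6) (nat_lit 4) (nat_lit 7) (nat_lit 5) (nat_lit 7) (nat_lit 4) (nat_lit 303) (nat_lit 215) (nat_lit 202)) (XT.lf (nat_lit 0) (nat_lit 8470817123) (nat_lit 76) (nat_lit 13566716603) (nat_lit 76) (nat_lit 9684516263) (nat_lit 6) (nat_lit 4) (nat_lit 7) (nat_lit 5) (nat_lit 7) (nat_lit 4) (nat_lit 304) (nat_lit 215) (nat_lit 201)))) (XT.nd (nat_lit 156) (nat_lit 152) (nat_lit 0) (XT.nd (nat_lit 78) (nat_lit 0) (nat_lit 0) (XT.lf (nat_lit 0) (nat_lit 14935854308) (nat_lit 76) (nat_lit 11136992324) (nat_lit 76) (nat_lit 7066139344) (nat_lit 6) (nat_lit 4) (nat_lit 7) (nat_lit 5) (nat_lit 7) (nat_lit 4) (nat_lit 305) (nat_lit 215) (nat_lit 200)) (XT.lf (nat_lit 0) (nat_lit 21581306012) (nat_lit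 76) (nat_lit 8649992233) (nat_lit 76) (nat_lit 4399470072) (nat_lit 6) (nat_lit 4) (nat_lit 7) (nat_lit 5) (nat_lit 7) (nat_lit 4) (nat_lit 306) (nat_lit 215) (nat_lit 199))) (XT.nd (nat_lit 78) (nat_lit 152) (nat_lit 0) (XT.lf (nat_lit 0) (nat_lit 28422994739) (nat_lit 76) (nat_lit 6099794900) (nat_lit 76) (nat_lit 1678159234) (nat_lit 6) (nat_lit 4) (nat_lit 7) (nat_lit 5) (nat_lit 7) (nat_lit 4) (nat_lit 307) (nat_lit 215) (nat_lit 198)) (XT.nd (nat_lit 78) (nat_lit 76) (nat_lit 0) (XT.lf (nat_lit 0) (nat_lit 1068928864) (nat_lit 152) (nat_lit 2393296736) (nat_lit 76) (nat_lit 34390178533) (nat_lit 5) (nat_lit 5) (nat_lit 7) (nat_lit 5) (nat_lit 6) (nat_lit 4) (nat_lit 308) (nat_lit 215) (nat_lit 197)) (XT.lf (nat_lit 0) (nat_lit 3210097024) (nat_lit 76) (nat_lit 667904403) (nat_lit 152) (nat_lit 35708059943) (nat_lit 4) (nat_lit 5) (nat_lit 5) (nat_lit 5) (nat_lit 6) (nat_lit 4)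 (nat_lit 309) (nat_lit 215) (nat_lit 196))))))))
noncomputable def xc41 : XT := (XT.nd (nat_lit 1404) (nat_lit 152) (nat_lit 0) (XT.nd (nat_lit 702) (nat_lit 0) (nat_lit 0) (XT.nd (nat_lit 312) (nat_lit 76) (nat_lit 0) (XT.nd (nat_lit 156) (nat_lit 0) (nat_lit 0) (XT.nd (nat_lit 78) (nat_lit 0) (nat_lit 0) (XT.lf (nat_lit 0) (nat_lit 6835497922) (nat_lit 152) (nat_lit 32389936913) (nat_lit 0) (nat_lit 2180621559) (nat_lit 4) (nat_lit 5) (nat_lit 6) (nat_lit 4) (nat_lit 4) (nat_lit 4) (nat_lit 310) (nat_lit 215) (nat_lit 195)) (XT.lf (nat_lit 0) (nat_lit 9886478998) (nat_lit 152) (nat_lit 28335811858) (nat_lit 0) (nat_lit 5097530726) (nat_lit 4) (nat_lit 5) (nat_lit 6) (nat_lit 4) (nat_lit 4) (nat_lit 4) (nat_lit 311) (nat_lit 215) (nat_lit 194))) (XT.nd (nat_lit 78) (nat_lit 0) (nat_lit 0) (XT.lf (nat_lit 0) (nat_lit 13027781035) (nat_lit 152) (nat_lit 24193508641) (nat_lit 0) (nat_lit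 8111145230) (nat_lit 4) (nat_lit 5) (nat_lit 6) (nat_lit 4) (nat_lit 4) (nat_lit 4) (nat_lit 312) (nat_lit 215) (nat_lit 193)) (XT.lf (nat_lit 0) (nat_lit 16266883323) (nat_lit 152) (nat_lit 19953164636) (nat_lit 0) (nat_lit 11228640345) (nat_lit 4) (nat_lit 5) (nat_lit 6) (nat_lit 4) (nat_lit 4) (nat_lit 4) (nat_lit 313) (nat_lit 215) (nat_lit 192)))) (XT.nd (nat_lit 156) (nat_lit 76) (nat_lit 0) (XT.nd (nat_lit 78) (nat_lit 0) (nat_lit 0) (XT.lf (nat_lit 0) (nat_lit 19611498012) (nat_lit 152) (nat_lit 15604683786) (nat_lit 0) (nat_lit 14457438678) (nat_lit 4) (nat_lit 5) (nat_lit 6) (nat_lit 4) (nat_lit 4) (nat_lit 4) (nat_lit 314) (nat_lit 215) (nat_lit 191)) (XT.lf (nat_lit 0) (nat_lit 23069588469) (nat_lit 152) (nat_lit 11137712566) (nat_lit 0) (nat_lit 17805227844) (nat_lit 4) (nat_lit 5) (nat_lit 6) (nat_lit 4) (nat_lit 4) (nat_lit 4) (nat_lit 315) (nat_lit 215) (nat_lit 190)))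 (XT.nd (nat_lit 78) (nat_lit 76) (nat_lit 0) (XT.lf (nat_lit 0) (nat_lit 26649388243) (nat_lit 152) (nat_lit 6541615329) (nat_lit 0) (nat_lit 21279978769) (nat_lit 4) (nat_lit 5) (nat_lit 6) (nat_lit 4) (nat_lit 4) (nat_lit 4) (nat_lit 316) (nat_lit 215) (nat_lit 189)) (XT.nd (nat_lit 78) (nat_lit 76) (nat_lit 0) (XT.lf (nat_lit 0) (nat_lit 30359420667) (nat_lit 152) (nat_lit 1805448986) (nat_lit 0) (nat_lit 24889964671) (nat_lit 4) (nat_lit 5) (nat_lit 6) (nat_lit 4) (nat_lit 4) (nat_lit 4) (nat_lit 317) (nat_lit 215) (nat_lit 188)) (XT.lf (nat_lit 0) (nat_lit 3183969971) (nat_lit 76) (nat_lit 31074259875) (nat_lit 76) (nat_lit 25509521476) (nat_lit 3) (nat_lit 4) (nat_lit 4) (nat_lit 5) (nat_lit 4) (nat_lit 4) (nat_lit 318) (nat_lit 215) (nat_lit 187)))))) (XT.nd (nat_lit 312) (nat_lit 0) (nat_lit 0) (XT.nd (nat_lit 156) (nat_lit 0) (nat_lit 0) (XT.nd (nat_lit 78) (nat_lit 0) (nat_lit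 0) (XT.lf (nat_lit 0) (nat_lit 8401456792) (nat_lit 76) (nat_lit 29935561709) (nat_lit 76) (nat_lit 24280078165) (nat_lit 3) (nat_lit 4) (nat_lit 4) (nat_lit 5) (nat_lit 4) (nat_lit 4) (nat_lit 319) (nat_lit 215) (nat_lit 186)) (XT.lf (nat_lit 0) (nat_lit 13799737769) (nat_lit 76) (nat_lit 28776640124) (nat_lit 76) (nat_lit 23034732632) (nat_lit 3) (nat_lit 4) (nat_lit 4) (nat_lit 5) (nat_lit 4) (nat_lit 4) (nat_lit 320) (nat_lit 215) (nat_lit 185))) (XT.nd (nat_lit 78) (nat_lit 0) (nat_lit 0) (XT.lf (nat_lit 0) (nat_lit 19391665949) (nat_lit 76) (nat_lit 27594735781) (nat_lit 76) (nat_lit 21770519767) (nat_lit 3) (nat_lit 4) (nat_lit 4) (nat_lit 5) (nat_lit 4) (nat_lit 4) (nat_lit 321) (nat_lit 215) (nat_lit 184)) (XT.lf (nat_lit 0) (nat_lit 25190555449) (nat_lit 76) (nat_lit 26387034623) (nat_lit 76) (nat_lit 20484429540) (nat_lit 3) (nat_lit 4) (nat_lit 4) (nat_lit 5) (nat_lit 4)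 (nat_lit 4) (nat_lit 322) (nat_lit 215) (nat_lit 183)))) (XT.nd (nat_lit 156) (nat_lit 0) (nat_lit 0) (XT.nd (nat_lit 78) (nat_lit 0) (nat_lit 0) (XT.lf (nat_lit 0) (nat_lit 31210213148) (nat_lit 76) (nat_lit 25150661170) (nat_lit 76) (nat_lit 19173399832) (nat_lit 3) (nat_lit 4) (nat_lit 4) (nat_lit 5) (nat_lit 4) (nat_lit 4) (nat_lit 323) (nat_lit 215) (nat_lit 182)) (XT.lf (nat_lit 0) (nat_lit 37464971564) (nat_lit 76) (nat_lit 23882671677) (nat_lit 76) (nat_lit 17834309143) (nat_lit 3) (nat_lit 4) (nat_lit 4) (nat_lit 5) (nat_lit 4) (nat_lit 4) (nat_lit 324) (nat_lit 215) (nat_lit 181))) (XT.nd (nat_lit 78) (nat_lit 0) (nat_lit 0) (XT.lf (nat_lit 0) (nat_lit 43969722980) (nat_lit 76) (nat_lit 22580047120) (nat_lit 76) (nat_lit 16463969162) (nat_lit 3) (nat_lit 4) (nat_lit 4) (nat_lit 5) (nat_lit 4) (nat_lit 4) (nat_lit 325) (nat_lit 215) (nat_lit 180)) (XT.nd (nat_lit 78) (nat_lit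 0) (nat_lit 0) (XT.lf (nat_lit 0) (nat_lit 50739954898) (nat_lit 76) (nat_lit 21239686013) (nat_lit 76) (nat_lit 15059117175) (nat_lit 3) (nat_lit 4) (nat_lit 4) (nat_lit 5) (nat_lit 4) (nat_lit 4) (nat_lit 326) (nat_lit 215) (nat_lit 179)) (XT.lf (nat_lit 0) (nat_lit 57791786918) (nat_lit 76) (nat_lit 19858397020) (nat_lit 76) (nat_lit 13616408295) (nat_lit 3) (nat_lit 4) (nat_lit 4) (nat_lit 5) (nat_lit 4) (nat_lit 4) (nat_lit 327) (nat_lit 215) (nat_lit 178))))))) (XT.nd (nat_lit 702) (nat_lit 76) (nat_lit 0) (XT.nd (nat_lit 312) (nat_lit 76) (nat_lit 0) (XT.nd (nat_lit 156) (nat_lit 0) (nat_lit 0) (XT.nd (nat_lit 78) (nat_lit 0) (nat_lit 0) (XT.lf (nat_lit 0) (nat_lit 65142009118) (nat_lit 76) (nat_lit 18432891357) (nat_lit 76) (nat_lit 12132407503) (nat_lit 3) (nat_lit 4) (nat_lit 4) (nat_lit 5) (nat_lit 4) (nat_lit 4) (nat_lit 328) (nat_lit 215) (nat_lit 177)) (XT.lf (nat_lit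 0) (nat_lit 72808122024) (nat_lit 76) (nat_lit 16959774964) (nat_lit 76) (nat_lit 10603581462) (nat_lit 3) (nat_lit 4) (nat_lit 4) (nat_lit 5) (nat_lit 4) (nat_lit 4) (nat_lit 329) (nat_lit 215) (nat_lit 176))) (XT.nd (nat_lit 78) (nat_lit 0) (nat_lit 0) (XT.lf (nat_lit 0) (nat_lit 80808378289) (nat_lit 76) (nat_lit 15435540420) (nat_lit 76) (nat_lit 9026290111) (nat_lit 3) (nat_lit 4) (nat_lit 4) (nat_lit 5) (nat_lit 4) (nat_lit 4) (nat_lit 330) (nat_lit 215) (nat_lit 175)) (XT.lf (nat_lit 0) (nat_lit 89161826140) (nat_lit 76) (nat_lit 13856558596) (nat_lit 76) (nat_lit 7396777994) (nat_lit 3) (nat_lit 4) (nat_lit 4) (nat_lit 5) (nat_lit 4) (nat_lit 4) (nat_lit 331) (nat_lit 215) (nat_lit 174)))) (XT.nd (nat_lit 156) (nat_lit 76) (nat_lit 0) (XT.nd (nat_lit 78) (nat_lit 0) (nat_lit 0) (XT.lf (nat_lit 0) (nat_lit 97888354739) (nat_lit 76) (nat_lit 12219070010) (nat_lit 76) (nat_lit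 5711165321) (nat_lit 3) (nat_lit 4) (nat_lit 4) (nat_lit 5) (nat_lit 4) (nat_lit 4) (nat_lit 332) (nat_lit 215) (nat_lit 173)) (XT.lf (nat_lit 0) (nat_lit 107008741536) (nat_lit 76) (nat_lit 10519175881) (nat_lit 76) (nat_lit 3965438727) (nat_lit 3) (nat_lit 4) (nat_lit 4) (nat_lit 5) (nat_lit 4) (nat_lit 4) (nat_lit 333) (nat_lit 215) (nat_lit 172))) (XT.nd (nat_lit 78) (nat_lit 76) (nat_lit 0) (XT.lf (nat_lit 0) (nat_lit 116544701736) (nat_lit 76) (nat_lit 8752828842) (nat_lit 76) (nat_lit 2155441721) (nat_lit 3) (nat_lit 4) (nat_lit 4) (nat_lit 5) (nat_lit 4) (nat_lit 4) (nat_lit 334) (nat_lit 215) (nat_lit 171)) (XT.nd (nat_lit 78) (nat_lit 76) (nat_lit 0) (XT.lf (nat_lit 0) (nat_lit 126518940008) (nat_lit 76) (nat_lit 6915823304) (nat_lit 76) (nat_lit 276864787) (nat_lit 3) (nat_lit 4) (nat_lit 4) (nat_lit 5) (nat_lit 4) (nat_lit 4) (nat_lit 335) (nat_lit 215) (nat_lit 170)) (XT.lf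 (nat_lit 0) (nat_lit 1621161943) (nat_lit 152) (nat_lit 3355168339) (nat_lit 76) (nat_lit 135306587432) (nat_lit 2) (nat_lit 5) (nat_lit 4) (nat_lit 5) (nat_lit 3) (nat_lit 4) (nat_lit 336) (nat_lit 215) (nat_lit 169)))))) (XT.nd (nat_lit 312) (nat_lit 0) (nat_lit 0) (XT.nd (nat_lit 156) (nat_lit 0) (nat_lit 0) (XT.nd (nat_lit 78) (nat_lit 0) (nat_lit 0) (XT.lf (nat_lit 0) (nat_lit 655066137) (nat_lit 76) (nat_lit 2940701151) (nat_lit 152) (nat_lit 143587242128) (nat_lit 1) (nat_lit 5) (nat_lit 2) (nat_lit 5) (nat_lit 3) (nat_lit 4) (nat_lit 337) (nat_lit 215) (nat_lit 168)) (XT.lf (nat_lit 0) (nat_lit 4947281517) (nat_lit 76) (nat_lit 759766901) (nat_lit 152) (nat_lit 148719172995) (nat_lit 1) (nat_lit 5) (nat_lit 2) (nat_lit 5) (nat_lit 3) (nat_lit 4) (nat_lit 338) (nat_lit 215) (nat_lit 167))) (XT.nd (nat_lit 78) (nat_lit 0) (nat_lit 0) (XT.lf (nat_lit 0) (nat_lit 7929567529) (nat_lit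 152) (nat_lit 152635395841) (nat_lit 0) (nat_lit 1466359308) (nat_lit 1) (nat_lit 5) (nat_lit 3) (nat_lit 4) (nat_lit 1) (nat_lit 4) (nat_lit 339) (nat_lit 215) (nat_lit 166)) (XT.lf (nat_lit 0) (nat_lit 10258318261) (nat_lit 152) (nat_lit 155994528415) (nat_lit 0) (nat_lit 3764088824) (nat_lit 1) (nat_lit 5) (nat_lit 3) (nat_lit 4) (nat_lit 1) (nat_lit 4) (nat_lit 340) (nat_lit 215) (nat_lit 165)))) (XT.nd (nat_lit 156) (nat_lit 0) (nat_lit 0) (XT.nd (nat_lit 78) (nat_lit 0) (nat_lit 0) (XT.lf (nat_lit 0) (nat_lit 12686983170) (nat_lit 152) (nat_lit 159552473460) (nat_lit 0) (nat_lit 6163209717) (nat_lit 1) (nat_lit 5) (nat_lit 3) (nat_lit 4) (nat_lit 1) (nat_lit 4) (nat_lit 341) (nat_lit 215) (nat_lit 164)) (XT.lf (nat_lit 0) (nat_lit 15221344789) (nat_lit 152) (nat_lit 163317702276) (nat_lit 0) (nat_lit 8669434179) (nat_lit 1) (nat_lit 5) (nat_lit 3) (nat_lit 4) (nat_lit 1) (nat_lit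 4) (nat_lit 342) (nat_lit 215) (nat_lit 163))) (XT.nd (nat_lit 78) (nat_lit 0) (nat_lit 0) (XT.lf (nat_lit 0) (nat_lit 17867437315) (nat_lit 152) (nat_lit 167299179693) (nat_lit 0) (nat_lit 11288729412) (nat_lit 1) (nat_lit 5) (nat_lit 3) (nat_lit 4) (nat_lit 1) (nat_lit 4) (nat_lit 343) (nat_lit 215) (nat_lit 162)) (XT.nd (nat_lit 78) (nat_lit 0) (nat_lit 0) (XT.lf (nat_lit 0) (nat_lit 20631560966) (nat_lit 152) (nat_lit 171506385418) (nat_lit 0) (nat_lit 14027331832) (nat_lit 1) (nat_lit 5) (nat_lit 3) (nat_lit 4) (nat_lit 1) (nat_lit 4) (nat_lit 344) (nat_lit 215) (nat_lit 161)) (XT.lf (nat_lit 0) (nat_lit 23520296990) (nat_lit 152) (nat_lit 175949336609) (nat_lit 0) (nat_lit 16891761921) (nat_lit 1) (nat_lit 5) (nat_lit 3) (nat_lit 4) (nat_lit 1) (nat_lit 4) (nat_lit 345) (nat_lit 215) (nat_lit 160))))))))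
noncomputable def xc42 : XT := (XT.nd (nat_lit 1404) (nat_lit 0) (nat_lit 0) (XT.nd (nat_lit 702) (nat_lit 0) (nat_lit 0) (XT.nd (nat_lit 312) (nat_lit 0) (nat_lit 0) (XT.nd (nat_lit 156) (nat_lit 0) (nat_lit 0) (XT.nd (nat_lit 78) (nat_lit 0) (nat_lit 0) (XT.lf (nat_lit 0) (nat_lit 26540523329) (nat_lit 152) (nat_lit 180638611720) (nat_lit 0) (nat_lit 19888839751) (nat_lit 1) (nat_lit 5) (nat_lit 3) (nat_lit 4) (nat_lit 1) (nat_lit 4) (nat_lit 346) (nat_lit 215) (nat_lit 159)) (XT.lf (nat_lit 0) (nat_lit 29699431000) (nat_lit 152) (nat_lit 185585375693) (nat_lit 0) (nat_lit 23025701223) (nat_lit 1) (nat_lit 5) (nat_lit 3) (nat_lit 4) (nat_lit 1) (nat_lit 4) (nat_lit 347) (nat_lit 215) (nat_lit 158))) (XT.nd (nat_lit 78) (nat_lit 0) (nat_lit 0) (XT.lf (nat_lit 0) (nat_lit 33004541210) (nat_lit 152) (nat_lit 190801406536) (nat_lit 0) (nat_lit 26309815053) (nat_lit 1) (nat_lit 5) (nat_lit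 3) (nat_lit 4) (nat_lit 1) (nat_lit 4) (nat_lit 348) (nat_lit 215) (nat_lit 157)) (XT.lf (nat_lit 0) (nat_lit 36463723269) (nat_lit 152) (nat_lit 196299123371) (nat_lit 0) (nat_lit 29749000559) (nat_lit 1) (nat_lit 5) (nat_lit 3) (nat_lit 4) (nat_lit 1) (nat_lit 4) (nat_lit 349) (nat_lit 215) (nat_lit 156)))) (XT.nd (nat_lit 156) (nat_lit 0) (nat_lit 0) (XT.nd (nat_lit 78) (nat_lit 0) (nat_lit 0) (XT.lf (nat_lit 0) (nat_lit 40085213326) (nat_lit 152) (nat_lit 202091616000) (nat_lit 0) (nat_lit 33351446280) (nat_lit 1) (nat_lit 5) (nat_lit 3) (nat_lit 4) (nat_lit 1) (nat_lit 4) (nat_lit 350) (nat_lit 215) (nat_lit 155)) (XT.lf (nat_lit 0) (nat_lit 43877633976) (nat_lit 152) (nat_lit 208192676072) (nat_lit 0) (nat_lit 37125729467) (nat_lit 1) (nat_lit 5) (nat_lit 3) (nat_lit 4) (nat_lit 1) (nat_lit 4) (nat_lit 351) (nat_lit 215) (nat_lit 154))) (XT.nd (nat_lit 78) (nat_lit 0) (nat_lit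 0) (XT.lf (nat_lit 0) (nat_lit 47850014791) (nat_lit 152) (nat_lit 214616829920) (nat_lit 0) (nat_lit 41080836509) (nat_lit 1) (nat_lit 5) (nat_lit 3) (nat_lit 4) (nat_lit 1) (nat_lit 4) (nat_lit 352) (nat_lit 215) (nat_lit 153)) (XT.nd (nat_lit 78) (nat_lit 0) (nat_lit 0) (XT.lf (nat_lit 0) (nat_lit 52011813821) (nat_lit 152) (nat_lit 221379373149) (nat_lit 0) (nat_lit 45226184326) (nat_lit 1) (nat_lit 5) (nat_lit 3) (nat_lit 4) (nat_lit 1) (nat_lit 4) (nat_lit 353) (nat_lit 215) (nat_lit 152)) (XT.lf (nat_lit 0) (nat_lit 56372940112) (nat_lit 152) (nat_lit 228496407052) (nat_lit 0) (nat_lit 49571642794) (nat_lit 1) (nat_lit 5) (nat_lit 3) (nat_lit 4) (nat_lit 1) (nat_lit 4) (nat_lit 354) (nat_lit 215) (nat_lit 151)))))) (XT.nd (nat_lit 312) (nat_lit 0) (nat_lit 0) (XT.nd (nat_lit 156) (nat_lit 0) (nat_lit 0) (XT.nd (nat_lit 78) (nat_lit 0) (nat_lit 0) (XT.lf (nat_lit 0) (nat_lit 60943777297)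 (nat_lit 152) (nat_lit 235984876948) (nat_lit 0) (nat_lit 54127558244) (nat_lit 1) (nat_lit 5) (nat_lit 3) (nat_lit 4) (nat_lit 1) (nat_lit 4) (nat_lit 355) (nat_lit 215) (nat_lit 150)) (XT.lf (nat_lit 0) (nat_lit 65735208323) (nat_lit 152) (nat_lit 243862612527) (nat_lit 0) (nat_lit 58904778093) (nat_lit 1) (nat_lit 5) (nat_lit 3) (nat_lit 4) (nat_lit 1) (nat_lit 4) (nat_lit 356) (nat_lit 215) (nat_lit 149))) (XT.nd (nat_lit 78) (nat_lit 0) (nat_lit 0) (XT.lf (nat_lit 0) (nat_lit 70758641358) (nat_lit 152) (nat_lit 252148370303) (nat_lit 0) (nat_lit 63914676674) (nat_lit 1) (nat_lit 5) (nat_lit 3) (nat_lit 4) (nat_lit 1) (nat_lit 4) (nat_lit 357) (nat_lit 215) (nat_lit 148)) (XT.lf (nat_lit 0) (nat_lit 76026036957) (nat_lit 152) (nat_lit 260861878270) (nat_lit 0) (nat_lit 69169182317) (nat_lit 1) (nat_lit 5) (nat_lit 3) (nat_lit 4) (nat_lit 1) (nat_lit 4) (nat_lit 358) (nat_lit 215)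 (nat_lit 147)))) (XT.nd (nat_lit 156) (nat_lit 0) (nat_lit 0) (XT.nd (nat_lit 78) (nat_lit 0) (nat_lit 0) (XT.lf (nat_lit 0) (nat_lit 81549936538) (nat_lit 152) (nat_lit 270023882876) (nat_lit 0) (nat_lit 74680805750) (nat_lit 1) (nat_lit 5) (nat_lit 3) (nat_lit 4) (nat_lit 1) (nat_lit 4) (nat_lit 359) (nat_lit 215) (nat_lit 146)) (XT.lf (nat_lit 0) (nat_lit 87343492244) (nat_lit 152) (nat_lit 279656198417) (nat_lit 0) (nat_lit 80462669885) (nat_lit 1) (nat_lit 5) (nat_lit 3) (nat_lit 4) (nat_lit 1) (nat_lit 4) (nat_lit 360) (nat_lit 215) (nat_lit 145))) (XT.nd (nat_lit 78) (nat_lit 0) (nat_lit 0) (XT.lf (nat_lit 0) (nat_lit 93420498254) (nat_lit 152) (nat_lit 289781758979) (nat_lit 0) (nat_lit 86528541067) (nat_lit 1) (nat_lit 5) (nat_lit 3) (nat_lit 4) (nat_lit 1) (nat_lit 4) (nat_lit 361) (nat_lit 215) (nat_lit 144)) (XT.nd (nat_lit 78) (nat_lit 0) (nat_lit 0) (XT.lf (nat_lit 0)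 (nat_lit 99795423630) (nat_lit 152) (nat_lit 300424673038) (nat_lit 0) (nat_lit 92892861844) (nat_lit 1) (nat_lit 5) (nat_lit 3) (nat_lit 4) (nat_lit 1) (nat_lit 4) (nat_lit 362) (nat_lit 215) (nat_lit 143)) (XT.lf (nat_lit 0) (nat_lit 106483446766) (nat_lit 152) (nat_lit 311610280866) (nat_lit 0) (nat_lit 99570785362) (nat_lit 1) (nat_lit 5) (nat_lit 3) (nat_lit 4) (nat_lit 1) (nat_lit 4) (nat_lit 363) (nat_lit 215) (nat_lit 142))))))) (XT.nd (nat_lit 32058) (nat_lit 0) (nat_lit 456) (XT.nd (nat_lit 31668) (nat_lit 0) (nat_lit 684) (XT.nd (nat_lit 156) (nat_lit 0) (nat_lit 0) (XT.nd (nat_lit 78) (nat_lit 0) (nat_lit 0) (XT.lf (nat_lit 0) (nat_lit 113500491527) (nat_lit 152) (nat_lit 323365214863) (nat_lit 0) (nat_lit 106578211440) (nat_lit 1) (nat_lit 5) (nat_lit 3) (nat_lit 4) (nat_lit 1) (nat_lit 4) (nat_lit 364) (nat_lit 215) (nat_lit 141)) (XT.lf (nat_lit 0) (nat_lit 120863265162)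 (nat_lit 152) (nat_lit 335717462966) (nat_lit 0) (nat_lit 113931824423) (nat_lit 1) (nat_lit 5) (nat_lit 3) (nat_lit 4) (nat_lit 1) (nat_lit 4) (nat_lit 365) (nat_lit 215) (nat_lit 140))) (XT.nd (nat_lit 31434) (nat_lit 0) (nat_lit 912) (XT.lf (nat_lit 0) (nat_lit 128589298085) (nat_lit 152) (nat_lit 348696435291) (nat_lit 0) (nat_lit 121649132916) (nat_lit 1) (nat_lit 5) (nat_lit 3) (nat_lit 4) (nat_lit 1) (nat_lit 4) (nat_lit 366) (nat_lit 215) (nat_lit 139)) (XT.lf (nat_lit 0) (nat_lit 1905116247) (nat_lit 152) (nat_lit 4534222147) (nat_lit 0) (nat_lit 1905116247) (nat_lit 13) (nat_lit 5) (nat_lit 15) (nat_lit 4) (nat_lit 13) (nat_lit 4) (nat_lit 288) (nat_lit 216) (nat_lit 216)))) (XT.nd (nat_lit 156) (nat_lit 152) (nat_lit 0) (XT.nd (nat_lit 78) (nat_lit 76) (nat_lit 0) (XT.lf (nat_lit 0) (nat_lit 7798984071) (nat_lit 152) (nat_lit 2140204622) (nat_lit 0) (nat_lit 7366588766) (nat_lit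 13) (nat_lit 5) (nat_lit 15) (nat_lit 4) (nat_lit 13) (nat_lit 4) (nat_lit 289) (nat_lit 216) (nat_lit 215)) (XT.lf (nat_lit 0) (nat_lit 5064080591) (nat_lit 76) (nat_lit 6868253549) (nat_lit 76) (nat_lit 6024053191) (nat_lit 12) (nat_lit 4) (nat_lit 13) (nat_lit 5) (nat_lit 13) (nat_lit 4) (nat_lit 290) (nat_lit 216) (nat_lit 214))) (XT.nd (nat_lit 78) (nat_lit 152) (nat_lit 0) (XT.lf (nat_lit 0) (nat_lit 12474183662) (nat_lit 76) (nat_lit 3703315596) (nat_lit 76) (nat_lit 2466919948) (nat_lit 12) (nat_lit 4) (nat_lit 13) (nat_lit 5) (nat_lit 13) (nat_lit 4) (nat_lit 291) (nat_lit 216) (nat_lit 213)) (XT.nd (nat_lit 78) (nat_lit 0) (nat_lit 0) (XT.lf (nat_lit 0) (nat_lit 667356088) (nat_lit 76) (nat_lit 443507842) (nat_lit 152) (nat_lit 18260964880) (nat_lit 10) (nat_lit 5) (nat_lit 11) (nat_lit 5) (nat_lit 12) (nat_lit 4) (nat_lit 292) (nat_lit 216) (nat_lit 212)) (XT.lf (nat_lit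 0) (nat_lit 4811484227) (nat_lit 152) (nat_lit 12381449784) (nat_lit 0) (nat_lit 2939438838) (nat_lit 10) (nat_lit 5) (nat_lit 12) (nat_lit 4) (nat_lit 10) (nat_lit 4) (nat_lit 293) (nat_lit 216) (nat_lit 211)))))) (XT.nd (nat_lit 312) (nat_lit 152) (nat_lit 0) (XT.nd (nat_lit 156) (nat_lit 0) (nat_lit 0) (XT.nd (nat_lit 78) (nat_lit 76) (nat_lit 0) (XT.lf (nat_lit 0) (nat_lit 8584527935) (nat_lit 152) (nat_lit 5962346515) (nat_lit 0) (nat_lit 6389822512) (nat_lit 10) (nat_lit 5) (nat_lit 12) (nat_lit 4) (nat_lit 10) (nat_lit 4) (nat_lit 294) (nat_lit 216) (nat_lit 210)) (XT.lf (nat_lit 0) (nat_lit 594058651) (nat_lit 76) (nat_lit 11847270360) (nat_lit 76) (nat_lit 9345269667) (nat_lit 9) (nat_lit 4) (nat_lit 10) (nat_lit 5) (nat_lit 10) (nat_lit 4) (nat_lit 295) (nat_lit 216) (nat_lit 209))) (XT.nd (nat_lit 78) (nat_lit 0) (nat_lit 0) (XT.lf (nat_lit 0) (nat_lit 7485885251) (nat_lit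 76) (nat_lit 8994213870) (nat_lit 76) (nat_lit 6199551014) (nat_lit 9) (nat_lit 4) (nat_lit 10) (nat_lit 5) (nat_lit 10) (nat_lit 4) (nat_lit 296) (nat_lit 216) (nat_lit 208)) (XT.lf (nat_lit 0) (nat_lit 14532400292) (nat_lit 76) (nat_lit 6081887211) (nat_lit 76) (nat_lit 3008498485) (nat_lit 9) (nat_lit 4) (nat_lit 10) (nat_lit 5) (nat_lit 10) (nat_lit 4) (nat_lit 297) (nat_lit 216) (nat_lit 207)))) (XT.nd (nat_lit 156) (nat_lit 0) (nat_lit 0) (XT.nd (nat_lit 78) (nat_lit 76) (nat_lit 0) (XT.lf (nat_lit 0) (nat_lit 227948650) (nat_lit 152) (nat_lit 2871547201) (nat_lit 76) (nat_lit 21518572121) (nat_lit 8) (nat_lit 5) (nat_lit 10) (nat_lit 5) (nat_lit 9) (nat_lit 4) (nat_lit 298) (nat_lit 216) (nat_lit 206)) (XT.lf (nat_lit 0) (nat_lit 3483204666) (nat_lit 152) (nat_lit 22117048903) (nat_lit 0) (nat_lit 62581319) (nat_lit 7) (nat_lit 5) (nat_lit 9) (nat_lit 4) (nat_lit 7) (nat_lit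 4) (nat_lit 299) (nat_lit 216) (nat_lit 205))) (XT.nd (nat_lit 78) (nat_lit 0) (nat_lit 0) (XT.lf (nat_lit 0) (nat_lit 6903959275) (nat_lit 152) (nat_lit 16601803672) (nat_lit 0) (nat_lit 3254027465) (nat_lit 7) (nat_lit 5) (nat_lit 9) (nat_lit 4) (nat_lit 7) (nat_lit 4) (nat_lit 300) (nat_lit 216) (nat_lit 204)) (XT.nd (nat_lit 78) (nat_lit 0) (nat_lit 0) (XT.lf (nat_lit 0) (nat_lit 10402890769) (nat_lit 152) (nat_lit 10978858944) (nat_lit 0) (nat_lit 6534569947) (nat_lit 7) (nat_lit 5) (nat_lit 9) (nat_lit 4) (nat_lit 7) (nat_lit 4) (nat_lit 301) (nat_lit 216) (nat_lit 203)) (XT.lf (nat_lit 0) (nat_lit 13988329937) (nat_lit 152) (nat_lit 5234826757) (nat_lit 0) (nat_lit 9912019580) (nat_lit 7) (nat_lit 5) (nat_lit 9) (nat_lit 4) (nat_lit 7) (nat_lit 4) (nat_lit 302) (nat_lit 216) (nat_lit 202))))))))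
noncomputable def xc43 : XT := (XT.nd (nat_lit 1404) (nat_lit 152) (nat_lit 0) (XT.nd (nat_lit 702) (nat_lit 76) (nat_lit 0) (XT.nd (nat_lit 312) (nat_lit 152) (nat_lit 0) (XT.nd (nat_lit 156) (nat_lit 0) (nat_lit 0) (XT.nd (nat_lit 78) (nat_lit 0) (nat_lit 0) (XT.lf (nat_lit 0) (nat_lit 665261685) (nat_lit 76) (nat_lit 17013938455) (nat_lit 76) (nat_lit 12739542826) (nat_lit 6) (nat_lit 4) (nat_lit 7) (nat_lit 5) (nat_lit 7) (nat_lit 4) (nat_lit 303) (nat_lit 216) (nat_lit 201)) (XT.lf (nat_lit 0) (nat_lit 6892116707) (nat_lit 76) (nat_lit 14668593185) (nat_lit 76) (nat_lit 10205544916) (nat_lit 6) (nat_lit 4) (nat_lit 7) (nat_lit 5) (nat_lit 7) (nat_lit 4) (nat_lit 304) (nat_lit 216) (nat_lit 200))) (XT.nd (nat_lit 78) (nat_lit 0) (nat_lit 0) (XT.lf (nat_lit 0) (nat_lit 13287477141) (nat_lit 76) (nat_lit 12270191052) (nat_lit 76) (nat_lit 7627473604) (nat_lit 6) (nat_lit 4) (nat_lit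 7) (nat_lit 5) (nat_lit 7) (nat_lit 4) (nat_lit 305) (nat_lit 216) (nat_lit 199)) (XT.lf (nat_lit 0) (nat_lit 19866570034) (nat_lit 76) (nat_lit 9813021577) (nat_lit 76) (nat_lit 4999190623) (nat_lit 6) (nat_lit 4) (nat_lit 7) (nat_lit 5) (nat_lit 7) (nat_lit 4) (nat_lit 306) (nat_lit 216) (nat_lit 198)))) (XT.nd (nat_lit 156) (nat_lit 76) (nat_lit 0) (XT.nd (nat_lit 78) (nat_lit 76) (nat_lit 0) (XT.lf (nat_lit 0) (nat_lit 26645059894) (nat_lit 76) (nat_lit 7291234355) (nat_lit 76) (nat_lit 2314438158) (nat_lit 6) (nat_lit 4) (nat_lit 7) (nat_lit 5) (nat_lit 7) (nat_lit 4) (nat_lit 307) (nat_lit 216) (nat_lit 197)) (XT.lf (nat_lit 0) (nat_lit 419311719) (nat_lit 152) (nat_lit 4272412166) (nat_lit 76) (nat_lit 33212673017) (nat_lit 5) (nat_lit 5) (nat_lit 7) (nat_lit 5) (nat_lit 6) (nat_lit 4) (nat_lit 308) (nat_lit 216) (nat_lit 196))) (XT.nd (nat_lit 78) (nat_lit 0) (nat_lit 0) (XT.lf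 (nat_lit 0) (nat_lit 1208507616) (nat_lit 76) (nat_lit 1956528035) (nat_lit 152) (nat_lit 36476211987) (nat_lit 4) (nat_lit 5) (nat_lit 5) (nat_lit 5) (nat_lit 6) (nat_lit 4) (nat_lit 309) (nat_lit 216) (nat_lit 195)) (XT.nd (nat_lit 78) (nat_lit 0) (nat_lit 0) (XT.lf (nat_lit 0) (nat_lit 6070540195) (nat_lit 152) (nat_lit 34485254294) (nat_lit 0) (nat_lit 908072600) (nat_lit 4) (nat_lit 5) (nat_lit 6) (nat_lit 4) (nat_lit 4) (nat_lit 4) (nat_lit 310) (nat_lit 216) (nat_lit 194)) (XT.lf (nat_lit 0) (nat_lit 9091166103) (nat_lit 152) (nat_lit 30486996600) (nat_lit 0) (nat_lit 3801010977) (nat_lit 4) (nat_lit 5) (nat_lit 6) (nat_lit 4) (nat_lit 4) (nat_lit 4) (nat_lit 311) (nat_lit 216) (nat_lit 193)))))) (XT.nd (nat_lit 312) (nat_lit 76) (nat_lit 0) (XT.nd (nat_lit 156) (nat_lit 0) (nat_lit 0) (XT.nd (nat_lit 78) (nat_lit 0) (nat_lit 0) (XT.lf (nat_lit 0) (nat_lit 12203558457) (nat_lit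 152) (nat_lit 26397900394) (nat_lit 0) (nat_lit 6791796157) (nat_lit 4) (nat_lit 5) (nat_lit 6) (nat_lit 4) (nat_lit 4) (nat_lit 4) (nat_lit 312) (nat_lit 216) (nat_lit 192)) (XT.lf (nat_lit 0) (nat_lit 15415127714) (nat_lit 152) (nat_lit 22208229734) (nat_lit 0) (nat_lit 9887549058) (nat_lit 4) (nat_lit 5) (nat_lit 6) (nat_lit 4) (nat_lit 4) (nat_lit 4) (nat_lit 313) (nat_lit 216) (nat_lit 191))) (XT.nd (nat_lit 78) (nat_lit 0) (nat_lit 0) (XT.lf (nat_lit 0) (nat_lit 18733520468) (nat_lit 152) (nat_lit 17908009212) (nat_lit 0) (nat_lit 13095640521) (nat_lit 4) (nat_lit 5) (nat_lit 6) (nat_lit 4) (nat_lit 4) (nat_lit 4) (nat_lit 314) (nat_lit 216) (nat_lit 190)) (XT.lf (nat_lit 0) (nat_lit 22166637654) (nat_lit 152) (nat_lit 13487000208) (nat_lit 0) (nat_lit 16423708858) (nat_lit 4) (nat_lit 5) (nat_lit 6) (nat_lit 4) (nat_lit 4) (nat_lit 4) (nat_lit 315) (nat_lit 216) (nat_lit 189))))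 (XT.nd (nat_lit 156) (nat_lit 76) (nat_lit 0) (XT.nd (nat_lit 78) (nat_lit 0) (nat_lit 0) (XT.lf (nat_lit 0) (nat_lit 25722653361) (nat_lit 152) (nat_lit 8934676510) (nat_lit 0) (nat_lit 19879678042) (nat_lit 4) (nat_lit 5) (nat_lit 6) (nat_lit 4) (nat_lit 4) (nat_lit 4) (nat_lit 316) (nat_lit 216) (nat_lit 188)) (XT.lf (nat_lit 0) (nat_lit 29410034292) (nat_lit 152) (nat_lit 4240199253) (nat_lit 0) (nat_lit 23471776570) (nat_lit 4) (nat_lit 5) (nat_lit 6) (nat_lit 4) (nat_lit 4) (nat_lit 4) (nat_lit 317) (nat_lit 216) (nat_lit 187))) (XT.nd (nat_lit 78) (nat_lit 0) (nat_lit 0) (XT.lf (nat_lit 0) (nat_lit 627699183) (nat_lit 76) (nat_lit 32619660886) (nat_lit 76) (nat_lit 26590658019) (nat_lit 3) (nat_lit 4) (nat_lit 4) (nat_lit 5) (nat_lit 4) (nat_lit 4) (nat_lit 318) (nat_lit 216) (nat_lit 186)) (XT.nd (nat_lit 78) (nat_lit 0) (nat_lit 0) (XT.lf (nat_lit 0) (nat_lit 5806122499) (nat_lit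 76) (nat_lit 31498870763) (nat_lit 76) (nat_lit 25383443949) (nat_lit 3) (nat_lit 4) (nat_lit 4) (nat_lit 5) (nat_lit 4) (nat_lit 4) (nat_lit 319) (nat_lit 216) (nat_lit 185)) (XT.lf (nat_lit 0) (nat_lit 11167200137) (nat_lit 76) (nat_lit 30357004457) (nat_lit 76) (nat_lit 24159269121) (nat_lit 3) (nat_lit 4) (nat_lit 4) (nat_lit 5) (nat_lit 4) (nat_lit 4) (nat_lit 320) (nat_lit 216) (nat_lit 184))))))) (XT.nd (nat_lit 702) (nat_lit 152) (nat_lit 0) (XT.nd (nat_lit 312) (nat_lit 0) (nat_lit 0) (XT.nd (nat_lit 156) (nat_lit 0) (nat_lit 0) (XT.nd (nat_lit 78) (nat_lit 0) (nat_lit 0) (XT.lf (nat_lit 0) (nat_lit 16723696566) (nat_lit 76) (nat_lit 29191343237) (nat_lit 76) (nat_lit 22915218832) (nat_lit 3) (nat_lit 4) (nat_lit 4) (nat_lit 5) (nat_lit 4) (nat_lit 4) (nat_lit 321) (nat_lit 216) (nat_lit 183)) (XT.lf (nat_lit 0) (nat_lit 22488841541) (nat_lit 76) (nat_lit 27999111719) (nat_lit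 76) (nat_lit 21648331059) (nat_lit 3) (nat_lit 4) (nat_lit 4) (nat_lit 5) (nat_lit 4) (nat_lit 4) (nat_lit 322) (nat_lit 216) (nat_lit 182))) (XT.nd (nat_lit 78) (nat_lit 0) (nat_lit 0) (XT.lf (nat_lit 0) (nat_lit 28476361597) (nat_lit 76) (nat_lit 26777471258) (nat_lit 76) (nat_lit 20355589402) (nat_lit 3) (nat_lit 4) (nat_lit 4) (nat_lit 5) (nat_lit 4) (nat_lit 4) (nat_lit 323) (nat_lit 216) (nat_lit 181)) (XT.lf (nat_lit 0) (nat_lit 34700512735) (nat_lit 76) (nat_lit 25523513185) (nat_lit 76) (nat_lit 19033915904) (nat_lit 3) (nat_lit 4) (nat_lit 4) (nat_lit 5) (nat_lit 4) (nat_lit 4) (nat_lit 324) (nat_lit 216) (nat_lit 180)))) (XT.nd (nat_lit 156) (nat_lit 0) (nat_lit 0) (XT.nd (nat_lit 78) (nat_lit 0) (nat_lit 0) (XT.lf (nat_lit 0) (nat_lit 41176114361) (nat_lit 76) (nat_lit 24234251885) (nat_lit 76) (nat_lit 17680163724) (nat_lit 3) (nat_lit 4) (nat_lit 4) (nat_lit 5) (nat_lit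 4) (nat_lit 4) (nat_lit 325) (nat_lit 216) (nat_lit 179)) (XT.lf (nat_lit 0) (nat_lit 47918584575) (nat_lit 76) (nat_lit 22906617690) (nat_lit 76) (nat_lit 16291109643) (nat_lit 3) (nat_lit 4) (nat_lit 4) (nat_lit 5) (nat_lit 4) (nat_lit 4) (nat_lit 326) (nat_lit 216) (nat_lit 178))) (XT.nd (nat_lit 78) (nat_lit 0) (nat_lit 0) (XT.lf (nat_lit 0) (nat_lit 54943976877) (nat_lit 76) (nat_lit 21537449565) (nat_lit 76) (nat_lit 14863446388) (nat_lit 3) (nat_lit 4) (nat_lit 4) (nat_lit 5) (nat_lit 4) (nat_lit 4) (nat_lit 327) (nat_lit 216) (nat_lit 177)) (XT.nd (nat_lit 78) (nat_lit 0) (nat_lit 0) (XT.lf (nat_lit 0) (nat_lit 62269018392) (nat_lit 76) (nat_lit 20123487587) (nat_lit 76) (nat_lit 13393774763) (nat_lit 3) (nat_lit 4) (nat_lit 4) (nat_lit 5) (nat_lit 4) (nat_lit 4) (nat_lit 328) (nat_lit 216) (nat_lit 176)) (XT.lf (nat_lit 0) (nat_lit 69911149695) (nat_lit 76) (nat_lit 18661365178)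 (nat_lit 76) (nat_lit 11878595547) (nat_lit 3) (nat_lit 4) (nat_lit 4) (nat_lit 5) (nat_lit 4) (nat_lit 4) (nat_lit 329) (nat_lit 216) (nat_lit 175)))))) (XT.nd (nat_lit 390) (nat_lit 152) (nat_lit 0) (XT.nd (nat_lit 156) (nat_lit 0) (nat_lit 0) (XT.nd (nat_lit 78) (nat_lit 0) (nat_lit 0) (XT.lf (nat_lit 0) (nat_lit 77888566337) (nat_lit 76) (nat_lit 17147601096) (nat_lit 76) (nat_lit 10314301172) (nat_lit 3) (nat_lit 4) (nat_lit 4) (nat_lit 5) (nat_lit 4) (nat_lit 4) (nat_lit 330) (nat_lit 216) (nat_lit 174)) (XT.lf (nat_lit 0) (nat_lit 86220262166) (nat_lit 76) (nat_lit 15578591140) (nat_lit 76) (nat_lit 8697167128) (nat_lit 3) (nat_lit 4) (nat_lit 4) (nat_lit 5) (nat_lit 4) (nat_lit 4) (nat_lit 331) (nat_lit 216) (nat_lit 173))) (XT.nd (nat_lit 78) (nat_lit 0) (nat_lit 0) (XT.lf (nat_lit 0) (nat_lit 94926074555) (nat_lit 76) (nat_lit 13950599572) (nat_lit 76) (nat_lit 7023343095)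 (nat_lit 3) (nat_lit 4) (nat_lit 4) (nat_lit 5) (nat_lit 4) (nat_lit 4) (nat_lit 332) (nat_lit 216) (nat_lit 172)) (XT.nd (nat_lit 78) (nat_lit 0) (nat_lit 0) (XT.lf (nat_lit 0) (nat_lit 104026731626) (nat_lit 76) (nat_lit 12259750222) (nat_lit 76) (nat_lit 5288843779) (nat_lit 3) (nat_lit 4) (nat_lit 4) (nat_lit 5) (nat_lit 4) (nat_lit 4) (nat_lit 333) (nat_lit 216) (nat_lit 171)) (XT.lf (nat_lit 0) (nat_lit 113543901613) (nat_lit 76) (nat_lit 10502017257) (nat_lit 76) (nat_lit 3489539417) (nat_lit 3) (nat_lit 4) (nat_lit 4) (nat_lit 5) (nat_lit 4) (nat_lit 4) (nat_lit 334) (nat_lit 216) (nat_lit 170))))) (XT.nd (nat_lit 156) (nat_lit 76) (nat_lit 0) (XT.nd (nat_lit 78) (nat_lit 76) (nat_lit 0) (XT.lf (nat_lit 0) (nat_lit 123500244442) (nat_lit 76) (nat_lit 8673215600) (nat_lit 76) (nat_lit 1621145954) (nat_lit 3) (nat_lit 4) (nat_lit 4) (nat_lit 5) (nat_lit 4) (nat_lit 4) (nat_lit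 335) (nat_lit 216) (nat_lit 169)) (XT.lf (nat_lit 0) (nat_lit 310518038) (nat_lit 152) (nat_lit 6453214149) (nat_lit 76) (nat_lit 133603688882) (nat_lit 2) (nat_lit 5) (nat_lit 4) (nat_lit 5) (nat_lit 3) (nat_lit 4) (nat_lit 336) (nat_lit 216) (nat_lit 168))) (XT.nd (nat_lit 78) (nat_lit 76) (nat_lit 0) (XT.lf (nat_lit 0) (nat_lit 2265954890) (nat_lit 152) (nat_lit 2480479538) (nat_lit 76) (nat_lit 142522043102) (nat_lit 2) (nat_lit 5) (nat_lit 4) (nat_lit 5) (nat_lit 3) (nat_lit 4) (nat_lit 337) (nat_lit 216) (nat_lit 167)) (XT.nd (nat_lit 78) (nat_lit 0) (nat_lit 0) (XT.lf (nat_lit 0) (nat_lit 1713452998) (nat_lit 76) (nat_lit 2615006002) (nat_lit 152) (nat_lit 150185675409) (nat_lit 1) (nat_lit 5) (nat_lit 2) (nat_lit 5) (nat_lit 3) (nat_lit 4) (nat_lit 338) (nat_lit 216) (nat_lit 166)) (XT.lf (nat_lit 0) (nat_lit 6171439454) (nat_lit 76) (nat_lit 347536002) (nat_lit 152) (nat_lit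 155601866096) (nat_lit 1) (nat_lit 5) (nat_lit 2) (nat_lit 5) (nat_lit 3) (nat_lit 4) (nat_lit 339) (nat_lit 216) (nat_lit 165))))))))
noncomputable def xc44 : XT := (XT.nd (nat_lit 1404) (nat_lit 0) (nat_lit 0) (XT.nd (nat_lit 702) (nat_lit 0) (nat_lit 0) (XT.nd (nat_lit 312) (nat_lit 0) (nat_lit 0) (XT.nd (nat_lit 156) (nat_lit 0) (nat_lit 0) (XT.nd (nat_lit 78) (nat_lit 0) (nat_lit 0) (XT.lf (nat_lit 0) (nat_lit 8834240001) (nat_lit 152) (nat_lit 159318160292) (nat_lit 0) (nat_lit 1954733861) (nat_lit 1) (nat_lit 5) (nat_lit 3) (nat_lit 4) (nat_lit 1) (nat_lit 4) (nat_lit 340) (nat_lit 216) (nat_lit 164)) (XT.lf (nat_lit 0) (nat_lit 11255228552) (nat_lit 152) (nat_lit 162890440224) (nat_lit 0) (nat_lit 4347585254) (nat_lit 1) (nat_lit 5) (nat_lit 3) (nat_lit 4) (nat_lit 1) (nat_lit 4) (nat_lit 341) (nat_lit 216) (nat_lit 163))) (XT.nd (nat_lit 78) (nat_lit 0) (nat_lit 0) (XT.lf (nat_lit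 0) (nat_lit 13782279354) (nat_lit 152) (nat_lit 166669321313) (nat_lit 0) (nat_lit 6847838763) (nat_lit 1) (nat_lit 5) (nat_lit 3) (nat_lit 4) (nat_lit 1) (nat_lit 4) (nat_lit 342) (nat_lit 216) (nat_lit 162)) (XT.lf (nat_lit 0) (nat_lit 16421409196) (nat_lit 152) (nat_lit 170663800895) (nat_lit 0) (nat_lit 9461447374) (nat_lit 1) (nat_lit 5) (nat_lit 3) (nat_lit 4) (nat_lit 1) (nat_lit 4) (nat_lit 343) (nat_lit 216) (nat_lit 161)))) (XT.nd (nat_lit 156) (nat_lit 0) (nat_lit 0) (XT.nd (nat_lit 78) (nat_lit 0) (nat_lit 0) (XT.lf (nat_lit 0) (nat_lit 19178901721) (nat_lit 152) (nat_lit 174883389634) (nat_lit 0) (nat_lit 12194633964) (nat_lit 1) (nat_lit 5) (nat_lit 3) (nat_lit 4) (nat_lit 1) (nat_lit 4) (nat_lit 344) (nat_lit 216) (nat_lit 160)) (XT.lf (nat_lit 0) (nat_lit 22061322386) (nat_lit 152) (nat_lit 179338134172) (nat_lit 0) (nat_lit 15053906120) (nat_lit 1) (nat_lit 5) (nat_lit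 3) (nat_lit 4) (nat_lit 1) (nat_lit 4) (nat_lit 345) (nat_lit 216) (nat_lit 159))) (XT.nd (nat_lit 78) (nat_lit 0) (nat_lit 0) (XT.lf (nat_lit 0) (nat_lit 25075534098) (nat_lit 152) (nat_lit 184038641042) (nat_lit 0) (nat_lit 18046071633) (nat_lit 1) (nat_lit 5) (nat_lit 3) (nat_lit 4) (nat_lit 1) (nat_lit 4) (nat_lit 346) (nat_lit 216) (nat_lit 158)) (XT.nd (nat_lit 78) (nat_lit 0) (nat_lit 0) (XT.lf (nat_lit 0) (nat_lit 28228713552) (nat_lit 152) (nat_lit 188996101928) (nat_lit 0) (nat_lit 21178254707) (nat_lit 1) (nat_lit 5) (nat_lit 3) (nat_lit 4) (nat_lit 1) (nat_lit 4) (nat_lit 347) (nat_lit 216) (nat_lit 157)) (XT.lf (nat_lit 0) (nat_lit 31528368318) (nat_lit 152) (nat_lit 194222320308) (nat_lit 0) (nat_lit 24457912920) (nat_lit 1) (nat_lit 5) (nat_lit 3) (nat_lit 4) (nat_lit 1) (nat_lit 4) (nat_lit 348) (nat_lit 216) (nat_lit 156)))))) (XT.nd (nat_lit 312) (nat_lit 0) (nat_lit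 0) (XT.nd (nat_lit 156) (nat_lit 0) (nat_lit 0) (XT.nd (nat_lit 78) (nat_lit 0) (nat_lit 0) (XT.lf (nat_lit 0) (nat_lit 34982354716) (nat_lit 152) (nat_lit 199729739558) (nat_lit 0) (nat_lit 27892854982) (nat_lit 1) (nat_lit 5) (nat_lit 3) (nat_lit 4) (nat_lit 1) (nat_lit 4) (nat_lit 349) (nat_lit 216) (nat_lit 155)) (XT.lf (nat_lit 0) (nat_lit 38598896524) (nat_lit 152) (nat_lit 205531472583) (nat_lit 0) (nat_lit 31491259327) (nat_lit 1) (nat_lit 5) (nat_lit 3) (nat_lit 4) (nat_lit 1) (nat_lit 4) (nat_lit 350) (nat_lit 216) (nat_lit 154))) (XT.nd (nat_lit 78) (nat_lit 0) (nat_lit 0) (XT.lf (nat_lit 0) (nat_lit 42386604555) (nat_lit 152) (nat_lit 211641333032) (nat_lit 0) (nat_lit 35261693585) (nat_lit 1) (nat_lit 5) (nat_lit 3) (nat_lit 4) (nat_lit 1) (nat_lit 4) (nat_lit 351) (nat_lit 216) (nat_lit 153)) (XT.lf (nat_lit 0) (nat_lit 46354497163) (nat_lit 152) (nat_lit 218073868191)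 (nat_lit 0) (nat_lit 39213134979) (nat_lit 1) (nat_lit 5) (nat_lit 3) (nat_lit 4) (nat_lit 1) (nat_lit 4) (nat_lit 352) (nat_lit 216) (nat_lit 152)))) (XT.nd (nat_lit 156) (nat_lit 0) (nat_lit 0) (XT.nd (nat_lit 78) (nat_lit 0) (nat_lit 0) (XT.lf (nat_lit 0) (nat_lit 50512021710) (nat_lit 152) (nat_lit 224844393621) (nat_lit 0) (nat_lit 43354991704) (nat_lit 1) (nat_lit 5) (nat_lit 3) (nat_lit 4) (nat_lit 1) (nat_lit 4) (nat_lit 353) (nat_lit 216) (nat_lit 151)) (XT.lf (nat_lit 0) (nat_lit 54869077064) (nat_lit 152) (nat_lit 231969029621) (nat_lit 0) (nat_lit 47697125323) (nat_lit 1) (nat_lit 5) (nat_lit 3) (nat_lit 4) (nat_lit 1) (nat_lit 4) (nat_lit 354) (nat_lit 216) (nat_lit 150))) (XT.nd (nat_lit 78) (nat_lit 0) (nat_lit 0) (XT.lf (nat_lit 0) (nat_lit 59436037167) (nat_lit 152) (nat_lit 239464739609) (nat_lit 0) (nat_lit 52249874249) (nat_lit 1) (nat_lit 5) (nat_lit 3) (nat_lit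 4) (nat_lit 1) (nat_lit 4) (nat_lit 355) (nat_lit 216) (nat_lit 149)) (XT.nd (nat_lit 78) (nat_lit 0) (nat_lit 0) (XT.lf (nat_lit 0) (nat_lit 64223775733) (nat_lit 152) (nat_lit 247349370514) (nat_lit 0) (nat_lit 57024078361) (nat_lit 1) (nat_lit 5) (nat_lit 3) (nat_lit 4) (nat_lit 1) (nat_lit 4) (nat_lit 356) (nat_lit 216) (nat_lit 148)) (XT.lf (nat_lit 0) (nat_lit 69243692140) (nat_lit 152) (nat_lit 255641695266) (nat_lit 0) (nat_lit 62031104812) (nat_lit 1) (nat_lit 5) (nat_lit 3) (nat_lit 4) (nat_lit 1) (nat_lit 4) (nat_lit 357) (nat_lit 216) (nat_lit 147))))))) (XT.nd (nat_lit 31902) (nat_lit 0) (nat_lit 684) (XT.nd (nat_lit 312) (nat_lit 0) (nat_lit 0) (XT.nd (nat_lit 156) (nat_lit 0) (nat_lit 0) (XT.nd (nat_lit 78) (nat_lit 0) (nat_lit 0) (XT.lf (nat_lit 0) (nat_lit 74507738569) (nat_lit 152) (nat_lit 264361457497) (nat_lit 0) (nat_lit 67282875093) (nat_lit 1) (nat_lit 5) (nat_lit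 3) (nat_lit 4) (nat_lit 1) (nat_lit 4) (nat_lit 358) (nat_lit 216) (nat_lit 146)) (XT.lf (nat_lit 0) (nat_lit 80028448465) (nat_lit 152) (nat_lit 273529418545) (nat_lit 0) (nat_lit 72791893419) (nat_lit 1) (nat_lit 5) (nat_lit 3) (nat_lit 4) (nat_lit 1) (nat_lit 4) (nat_lit 359) (nat_lit 216) (nat_lit 145))) (XT.nd (nat_lit 78) (nat_lit 0) (nat_lit 0) (XT.lf (nat_lit 0) (nat_lit 85818966375) (nat_lit 152) (nat_lit 283167406887) (nat_lit 0) (nat_lit 78571276500) (nat_lit 1) (nat_lit 5) (nat_lit 3) (nat_lit 4) (nat_lit 1) (nat_lit 4) (nat_lit 360) (nat_lit 216) (nat_lit 144)) (XT.lf (nat_lit 0) (nat_lit 91893079247) (nat_lit 152) (nat_lit 293298370117) (nat_lit 0) (nat_lit 84634784773) (nat_lit 1) (nat_lit 5) (nat_lit 3) (nat_lit 4) (nat_lit 1) (nat_lit 4) (nat_lit 361) (nat_lit 216) (nat_lit 143)))) (XT.nd (nat_lit 156) (nat_lit 0) (nat_lit 0) (XT.nd (nat_lit 78) (nat_lit 0) (nat_lit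 0) (XT.lf (nat_lit 0) (nat_lit 98265249253) (nat_lit 152) (nat_lit 303946429574) (nat_lit 0) (nat_lit 90996855161) (nat_lit 1) (nat_lit 5) (nat_lit 3) (nat_lit 4) (nat_lit 1) (nat_lit 4) (nat_lit 362) (nat_lit 216) (nat_lit 142)) (XT.lf (nat_lit 0) (nat_lit 104950648227) (nat_lit 152) (nat_lit 315136937781) (nat_lit 0) (nat_lit 97672635451) (nat_lit 1) (nat_lit 5) (nat_lit 3) (nat_lit 4) (nat_lit 1) (nat_lit 4) (nat_lit 363) (nat_lit 216) (nat_lit 141))) (XT.nd (nat_lit 78) (nat_lit 0) (nat_lit 0) (XT.lf (nat_lit 0) (nat_lit 111965193786) (nat_lit 152) (nat_lit 326896538806) (nat_lit 0) (nat_lit 104678020359) (nat_lit 1) (nat_lit 5) (nat_lit 3) (nat_lit 4) (nat_lit 1) (nat_lit 4) (nat_lit 364) (nat_lit 216) (nat_lit 140)) (XT.nd (nat_lit 78) (nat_lit 0) (nat_lit 0) (XT.lf (nat_lit 0) (nat_lit 119325587228) (nat_lit 152) (nat_lit 339253231698) (nat_lit 0) (nat_lit 112029689372) (nat_lit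 1) (nat_lit 5) (nat_lit 3) (nat_lit 4) (nat_lit 1) (nat_lit 4) (nat_lit 365) (nat_lit 216) (nat_lit 139)) (XT.lf (nat_lit 0) (nat_lit 127049353301) (nat_lit 152) (nat_lit 352236437155) (nat_lit 0) (nat_lit 119745146464) (nat_lit 1) (nat_lit 5) (nat_lit 3) (nat_lit 4) (nat_lit 1) (nat_lit 4) (nat_lit 366) (nat_lit 216) (nat_lit 138)))))) (XT.nd (nat_lit 312) (nat_lit 228) (nat_lit 0) (XT.nd (nat_lit 156) (nat_lit 0) (nat_lit 0) (XT.nd (nat_lit 78) (nat_lit 152) (nat_lit 0) (XT.lf (nat_lit 0) (nat_lit 4347583923) (nat_lit 152) (nat_lit 1713162503) (nat_lit 152) (nat_lit 1713162503) (nat_lit 15) (nat_lit 4) (nat_lit 17) (nat_lit 5) (nat_lit 17) (nat_lit 4) (nat_lit 286) (nat_lit 217) (nat_lit 217)) (XT.lf (nat_lit 0) (nat_lit 206976567) (nat_lit 76) (nat_lit 126531916) (nat_lit 152) (nat_lit 15774660039) (nat_lit 13) (nat_lit 5) (nat_lit 14) (nat_lit 5) (nat_lit 15) (nat_lit 4) (nat_lit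 287) (nat_lit 217) (nat_lit 216))) (XT.nd (nat_lit 78) (nat_lit 0) (nat_lit 0) (XT.lf (nat_lit 0) (nat_lit 4195662808) (nat_lit 152) (nat_lit 9187503357) (nat_lit 0) (nat_lit 3309252431) (nat_lit 13) (nat_lit 5) (nat_lit 15) (nat_lit 4) (nat_lit 13) (nat_lit 4) (nat_lit 288) (nat_lit 217) (nat_lit 215)) (XT.lf (nat_lit 0) (nat_lit 8119095566) (nat_lit 152) (nat_lit 2372653268) (nat_lit 0) (nat_lit 6820880137) (nat_lit 13) (nat_lit 5) (nat_lit 15) (nat_lit 4) (nat_lit 13) (nat_lit 4) (nat_lit 289) (nat_lit 217) (nat_lit 214)))) (XT.nd (nat_lit 156) (nat_lit 152) (nat_lit 0) (XT.nd (nat_lit 78) (nat_lit 0) (nat_lit 0) (XT.lf (nat_lit 0) (nat_lit 4712385423) (nat_lit 76) (nat_lit 7472360867) (nat_lit 76) (nat_lit 5781950149) (nat_lit 12) (nat_lit 4) (nat_lit 13) (nat_lit 5) (nat_lit 13) (nat_lit 4) (nat_lit 290) (nat_lit 217) (nat_lit 213)) (XT.lf (nat_lit 0) (nat_lit 12016240191) (nat_lit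 76) (nat_lit 4352766290) (nat_lit 76) (nat_lit 2288836250) (nat_lit 12) (nat_lit 4) (nat_lit 13) (nat_lit 5) (nat_lit 13) (nat_lit 4) (nat_lit 291) (nat_lit 217) (nat_lit 212))) (XT.nd (nat_lit 78) (nat_lit 0) (nat_lit 0) (XT.lf (nat_lit 0) (nat_lit 70915847) (nat_lit 76) (nat_lit 1144000531) (nat_lit 152) (nat_lit 18173676251) (nat_lit 10) (nat_lit 5) (nat_lit 11) (nat_lit 5) (nat_lit 12) (nat_lit 4) (nat_lit 292) (nat_lit 217) (nat_lit 211)) (XT.nd (nat_lit 78) (nat_lit 0) (nat_lit 0) (XT.lf (nat_lit 0) (nat_lit 4846122838) (nat_lit 152) (nat_lit 13087522163) (nat_lit 0) (nat_lit 2219022110) (nat_lit 10) (nat_lit 5) (nat_lit 12) (nat_lit 4) (nat_lit 10) (nat_lit 4) (nat_lit 293) (nat_lit 217) (nat_lit 210)) (XT.lf (nat_lit 0) (nat_lit 8563473992) (nat_lit 152) (nat_lit 6767280773) (nat_lit 0) (nat_lit 5629077992) (nat_lit 10) (nat_lit 5) (nat_lit 12) (nat_lit 4) (nat_lit 10) (nat_lit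 4) (nat_lit 294) (nat_lit 217) (nat_lit 209))))))))
noncomputable def xc45 : XT := (XT.nd (nat_lit 1404) (nat_lit 76) (nat_lit 0) (XT.nd (nat_lit 702) (nat_lit 228) (nat_lit 0) (XT.nd (nat_lit 312) (nat_lit 152) (nat_lit 0) (XT.nd (nat_lit 156) (nat_lit 0) (nat_lit 0) (XT.nd (nat_lit 78) (nat_lit 76) (nat_lit 0) (XT.lf (nat_lit 0) (nat_lit 12357959621) (nat_lit 152) (nat_lit 324043364) (nat_lit 0) (nat_lit 9130901458) (nat_lit 10) (nat_lit 5) (nat_lit 12) (nat_lit 4) (nat_lit 10) (nat_lit 4) (nat_lit 295) (nat_lit 217) (nat_lit 208)) (XT.lf (nat_lit 0) (nat_lit 6464433342) (nat_lit 76) (nat_lit 9875108792) (nat_lit 76) (nat_lit 6369324761) (nat_lit 9) (nat_lit 4) (nat_lit 10) (nat_lit 5) (nat_lit 10) (nat_lit 4) (nat_lit 296) (nat_lit 217) (nat_lit 207))) (XT.nd (nat_lit 78) (nat_lit 0) (nat_lit 0) (XT.lf (nat_lit 0) (nat_lit 13422724046) (nat_lit 76) (nat_lit 7001519720) (nat_lit 76)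 (nat_lit 3230282479) (nat_lit 9) (nat_lit 4) (nat_lit 10) (nat_lit 5) (nat_lit 10) (nat_lit 4) (nat_lit 297) (nat_lit 217) (nat_lit 206)) (XT.lf (nat_lit 0) (nat_lit 20556681767) (nat_lit 76) (nat_lit 4059881721) (nat_lit 76) (nat_lit 35831900) (nat_lit 9) (nat_lit 4) (nat_lit 10) (nat_lit 5) (nat_lit 10) (nat_lit 4) (nat_lit 298) (nat_lit 217) (nat_lit 205)))) (XT.nd (nat_lit 156) (nat_lit 0) (nat_lit 0) (XT.nd (nat_lit 78) (nat_lit 0) (nat_lit 0) (XT.lf (nat_lit 0) (nat_lit 2198509225) (nat_lit 76) (nat_lit 954336107) (nat_lit 152) (nat_lit 22547773688) (nat_lit 7) (nat_lit 5) (nat_lit 8) (nat_lit 5) (nat_lit 9) (nat_lit 4) (nat_lit 299) (nat_lit 217) (nat_lit 204)) (XT.lf (nat_lit 0) (nat_lit 6513402106) (nat_lit 152) (nat_lit 18053946540) (nat_lit 0) (nat_lit 2233276231) (nat_lit 7) (nat_lit 5) (nat_lit 9) (nat_lit 4) (nat_lit 7) (nat_lit 4) (nat_lit 300) (nat_lit 217) (nat_lit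 203))) (XT.nd (nat_lit 78) (nat_lit 0) (nat_lit 0) (XT.lf (nat_lit 0) (nat_lit 9969192673) (nat_lit 152) (nat_lit 12509079752) (nat_lit 0) (nat_lit 5481077263) (nat_lit 7) (nat_lit 5) (nat_lit 9) (nat_lit 4) (nat_lit 7) (nat_lit 4) (nat_lit 301) (nat_lit 217) (nat_lit 202)) (XT.nd (nat_lit 78) (nat_lit 0) (nat_lit 0) (XT.lf (nat_lit 0) (nat_lit 13513545245) (nat_lit 152) (nat_lit 6839407508) (nat_lit 0) (nat_lit 8827344564) (nat_lit 7) (nat_lit 5) (nat_lit 9) (nat_lit 4) (nat_lit 7) (nat_lit 4) (nat_lit 302) (nat_lit 217) (nat_lit 201)) (XT.lf (nat_lit 0) (nat_lit 17154898756) (nat_lit 152) (nat_lit 1031430587) (nat_lit 0) (nat_lit 12280045435) (nat_lit 7) (nat_lit 5) (nat_lit 9) (nat_lit 4) (nat_lit 7) (nat_lit 4) (nat_lit 303) (nat_lit 217) (nat_lit 200)))))) (XT.nd (nat_lit 312) (nat_lit 152) (nat_lit 0) (XT.nd (nat_lit 156) (nat_lit 0) (nat_lit 0) (XT.nd (nat_lit 78) (nat_lit 0)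 (nat_lit 0) (XT.lf (nat_lit 0) (nat_lit 5091643930) (nat_lit 76) (nat_lit 15889773996) (nat_lit 76) (nat_lit 10835251495) (nat_lit 6) (nat_lit 4) (nat_lit 7) (nat_lit 5) (nat_lit 7) (nat_lit 4) (nat_lit 304) (nat_lit 217) (nat_lit 199)) (XT.lf (nat_lit 0) (nat_lit 11420645553) (nat_lit 76) (nat_lit 13521202481) (nat_lit 76) (nat_lit 8295566474) (nat_lit 6) (nat_lit 4) (nat_lit 7) (nat_lit 5) (nat_lit 7) (nat_lit 4) (nat_lit 305) (nat_lit 217) (nat_lit 198))) (XT.nd (nat_lit 78) (nat_lit 0) (nat_lit 0) (XT.lf (nat_lit 0) (nat_lit 17936539579) (nat_lit 76) (nat_lit 11092443116) (nat_lit 76) (nat_lit 5703841866) (nat_lit 6) (nat_lit 4) (nat_lit 7) (nat_lit 5) (nat_lit 7) (nat_lit 4) (nat_lit 306) (nat_lit 217) (nat_lit 197)) (XT.lf (nat_lit 0) (nat_lit 24654840042) (nat_lit 76) (nat_lit 8597713143) (nat_lit 76) (nat_lit 3053906899) (nat_lit 6) (nat_lit 4) (nat_lit 7) (nat_lit 5) (nat_lit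 7) (nat_lit 4) (nat_lit 307) (nat_lit 217) (nat_lit 196)))) (XT.nd (nat_lit 156) (nat_lit 76) (nat_lit 0) (XT.nd (nat_lit 78) (nat_lit 76) (nat_lit 0) (XT.lf (nat_lit 0) (nat_lit 31591542895) (nat_lit 76) (nat_lit 6031072727) (nat_lit 76) (nat_lit 339452204) (nat_lit 6) (nat_lit 4) (nat_lit 7) (nat_lit 5) (nat_lit 7) (nat_lit 4) (nat_lit 308) (nat_lit 217) (nat_lit 195)) (XT.lf (nat_lit 0) (nat_lit 2367698403) (nat_lit 152) (nat_lit 978614299) (nat_lit 76) (nat_lit 36355367575) (nat_lit 5) (nat_lit 5) (nat_lit 7) (nat_lit 5) (nat_lit 6) (nat_lit 4) (nat_lit 309) (nat_lit 217) (nat_lit 194))) (XT.nd (nat_lit 78) (nat_lit 0) (nat_lit 0) (XT.lf (nat_lit 0) (nat_lit 4719780206) (nat_lit 76) (nat_lit 493023765) (nat_lit 152) (nat_lit 36314539352) (nat_lit 4) (nat_lit 5) (nat_lit 5) (nat_lit 5) (nat_lit 6) (nat_lit 4) (nat_lit 310) (nat_lit 217) (nat_lit 193)) (XT.nd (nat_lit 78) (nat_lit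 0) (nat_lit 0) (XT.lf (nat_lit 0) (nat_lit 8196822714) (nat_lit 152) (nat_lit 32854814953) (nat_lit 0) (nat_lit 2392865125) (nat_lit 4) (nat_lit 5) (nat_lit 6) (nat_lit 4) (nat_lit 4) (nat_lit 4) (nat_lit 311) (nat_lit 217) (nat_lit 192)) (XT.lf (nat_lit 0) (nat_lit 11281682037) (nat_lit 152) (nat_lit 28816392091) (nat_lit 0) (nat_lit 5361908092) (nat_lit 4) (nat_lit 5) (nat_lit 6) (nat_lit 4) (nat_lit 4) (nat_lit 4) (nat_lit 312) (nat_lit 217) (nat_lit 191))))))) (XT.nd (nat_lit 702) (nat_lit 0) (nat_lit 0) (XT.nd (nat_lit 312) (nat_lit 76) (nat_lit 0) (XT.nd (nat_lit 156) (nat_lit 0) (nat_lit 0) (XT.nd (nat_lit 78) (nat_lit 0) (nat_lit 0) (XT.lf (nat_lit 0) (nat_lit 14467029359) (nat_lit 152) (nat_lit 24674981758) (nat_lit 0) (nat_lit 8436954123) (nat_lit 4) (nat_lit 5) (nat_lit 6) (nat_lit 4) (nat_lit 4) (nat_lit 4) (nat_lit 313) (nat_lit 217) (nat_lit 190)) (XT.lf (nat_lit 0) (nat_lit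 17760448842) (nat_lit 152) (nat_lit 20420723453) (nat_lit 0) (nat_lit 11625324757) (nat_lit 4) (nat_lit 5) (nat_lit 6) (nat_lit 4) (nat_lit 4) (nat_lit 4) (nat_lit 314) (nat_lit 217) (nat_lit 189))) (XT.nd (nat_lit 78) (nat_lit 0) (nat_lit 0) (XT.lf (nat_lit 0) (nat_lit 21169781960) (nat_lit 152) (nat_lit 16043487989) (nat_lit 0) (nat_lit 14934611353) (nat_lit 4) (nat_lit 5) (nat_lit 6) (nat_lit 4) (nat_lit 4) (nat_lit 4) (nat_lit 315) (nat_lit 217) (nat_lit 188)) (XT.lf (nat_lit 0) (nat_lit 24703146174) (nat_lit 152) (nat_lit 11532853377) (nat_lit 0) (nat_lit 18372693164) (nat_lit 4) (nat_lit 5) (nat_lit 6) (nat_lit 4) (nat_lit 4) (nat_lit 4) (nat_lit 316) (nat_lit 217) (nat_lit 187)))) (XT.nd (nat_lit 156) (nat_lit 76) (nat_lit 0) (XT.nd (nat_lit 78) (nat_lit 0) (nat_lit 0) (XT.lf (nat_lit 0) (nat_lit 28368954254) (nat_lit 152) (nat_lit 6878080011) (nat_lit 0) (nat_lit 21947756099)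 (nat_lit 4) (nat_lit 5) (nat_lit 6) (nat_lit 4) (nat_lit 4) (nat_lit 4) (nat_lit 317) (nat_lit 217) (nat_lit 186)) (XT.lf (nat_lit 0) (nat_lit 32175934316) (nat_lit 152) (nat_lit 2068085097) (nat_lit 0) (nat_lit 25668312213) (nat_lit 4) (nat_lit 5) (nat_lit 6) (nat_lit 4) (nat_lit 4) (nat_lit 4) (nat_lit 318) (nat_lit 217) (nat_lit 185))) (XT.nd (nat_lit 78) (nat_lit 0) (nat_lit 0) (XT.lf (nat_lit 0) (nat_lit 3004754647) (nat_lit 76) (nat_lit 33175308592) (nat_lit 76) (nat_lit 26585377967) (nat_lit 3) (nat_lit 4) (nat_lit 4) (nat_lit 5) (nat_lit 4) (nat_lit 4) (nat_lit 319) (nat_lit 217) (nat_lit 184)) (XT.nd (nat_lit 78) (nat_lit 0) (nat_lit 0) (XT.lf (nat_lit 0) (nat_lit 8330400533) (nat_lit 76) (nat_lit 32049685408) (nat_lit 76) (nat_lit 25381365715) (nat_lit 3) (nat_lit 4) (nat_lit 4) (nat_lit 5) (nat_lit 4) (nat_lit 4) (nat_lit 320) (nat_lit 217) (nat_lit 183)) (XT.lf (nat_lit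 0) (nat_lit 13853152438) (nat_lit 76) (nat_lit 30899493829) (nat_lit 76) (nat_lit 24156517880) (nat_lit 3) (nat_lit 4) (nat_lit 4) (nat_lit 5) (nat_lit 4) (nat_lit 4) (nat_lit 321) (nat_lit 217) (nat_lit 182)))))) (XT.nd (nat_lit 312) (nat_lit 0) (nat_lit 0) (XT.nd (nat_lit 156) (nat_lit 0) (nat_lit 0) (XT.nd (nat_lit 78) (nat_lit 0) (nat_lit 0) (XT.lf (nat_lit 0) (nat_lit 19586159770) (nat_lit 76) (nat_lit 29721995302) (nat_lit 76) (nat_lit 22907918158) (nat_lit 3) (nat_lit 4) (nat_lit 4) (nat_lit 5) (nat_lit 4) (nat_lit 4) (nat_lit 322) (nat_lit 217) (nat_lit 181)) (XT.lf (nat_lit 0) (nat_lit 25543072547) (nat_lit 76) (nat_lit 28514386261) (nat_lit 76) (nat_lit 21632593692) (nat_lit 3) (nat_lit 4) (nat_lit 4) (nat_lit 5) (nat_lit 4) (nat_lit 4) (nat_lit 323) (nat_lit 217) (nat_lit 180))) (XT.nd (nat_lit 78) (nat_lit 0) (nat_lit 0) (XT.lf (nat_lit 0) (nat_lit 31738073896) (nat_lit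 76) (nat_lit 27273791445) (nat_lit 76) (nat_lit 20327507996) (nat_lit 3) (nat_lit 4) (nat_lit 4) (nat_lit 5) (nat_lit 4) (nat_lit 4) (nat_lit 324) (nat_lit 217) (nat_lit 179)) (XT.lf (nat_lit 0) (nat_lit 38185913818) (nat_lit 76) (nat_lit 25997257058) (nat_lit 76) (nat_lit 18989553722) (nat_lit 3) (nat_lit 4) (nat_lit 4) (nat_lit 5) (nat_lit 4) (nat_lit 4) (nat_lit 325) (nat_lit 217) (nat_lit 178)))) (XT.nd (nat_lit 156) (nat_lit 0) (nat_lit 0) (XT.nd (nat_lit 78) (nat_lit 0) (nat_lit 0) (XT.lf (nat_lit 0) (nat_lit 44901944313) (nat_lit 76) (nat_lit 24681743731) (nat_lit 76) (nat_lit 17615545266) (nat_lit 3) (nat_lit 4) (nat_lit 4) (nat_lit 5) (nat_lit 4) (nat_lit 4) (nat_lit 326) (nat_lit 217) (nat_lit 177)) (XT.lf (nat_lit 0) (nat_lit 51902155931) (nat_lit 76) (nat_lit 23324119291) (nat_lit 76) (nat_lit 16202211178) (nat_lit 3) (nat_lit 4) (nat_lit 4) (nat_lit 5) (nat_lit 4) (nat_lit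 4) (nat_lit 327) (nat_lit 217) (nat_lit 176))) (XT.nd (nat_lit 78) (nat_lit 0) (nat_lit 0) (XT.lf (nat_lit 0) (nat_lit 59203215843) (nat_lit 76) (nat_lit 21921151297) (nat_lit 76) (nat_lit 14746186377) (nat_lit 3) (nat_lit 4) (nat_lit 4) (nat_lit 5) (nat_lit 4) (nat_lit 4) (nat_lit 328) (nat_lit 217) (nat_lit 175)) (XT.nd (nat_lit 78) (nat_lit 0) (nat_lit 0) (XT.lf (nat_lit 0) (nat_lit 66822507523) (nat_lit 76) (nat_lit 20469499350) (nat_lit 76) (nat_lit 13244004138) (nat_lit 3) (nat_lit 4) (nat_lit 4) (nat_lit 5) (nat_lit 4) (nat_lit 4) (nat_lit 329) (nat_lit 217) (nat_lit 174)) (XT.lf (nat_lit 0) (nat_lit 74778172143) (nat_lit 76) (nat_lit 18965707136) (nat_lit 76) (nat_lit 11692087836) (nat_lit 3) (nat_lit 4) (nat_lit 4) (nat_lit 5) (nat_lit 4) (nat_lit 4) (nat_lit 330) (nat_lit 217) (nat_lit 173))))))))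
noncomputable def xc46 : XT := (XT.nd (nat_lit 1404) (nat_lit 0) (nat_lit 0) (XT.nd (nat_lit 702) (nat_lit 0) (nat_lit 0) (XT.nd (nat_lit 312) (nat_lit 152) (nat_lit 0) (XT.nd (nat_lit 156) (nat_lit 0) (nat_lit 0) (XT.nd (nat_lit 78) (nat_lit 0) (nat_lit 0) (XT.lf (nat_lit 0) (nat_lit 83089151762) (nat_lit 76) (nat_lit 17406194198) (nat_lit 76) (nat_lit 10086742433) (nat_lit 3) (nat_lit 4) (nat_lit 4) (nat_lit 5) (nat_lit 4) (nat_lit 4) (nat_lit 331) (nat_lit 217) (nat_lit 172)) (XT.lf (nat_lit 0) (nat_lit 91775234425) (nat_lit 76) (nat_lit 15787247408) (nat_lit 76) (nat_lit 8424145677) (nat_lit 3) (nat_lit 4) (nat_lit 4) (nat_lit 5) (nat_lit 4) (nat_lit 4) (nat_lit 332) (nat_lit 217) (nat_lit 171))) (XT.nd (nat_lit 78) (nat_lit 0) (nat_lit 0) (XT.lf (nat_lit 0) (nat_lit 100857101282) (nat_lit 76) (nat_lit 14105012133) (nat_lit 76) (nat_lit 6700339004) (nat_lit 3) (nat_lit 4) (nat_lit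 4) (nat_lit 5) (nat_lit 4) (nat_lit 4) (nat_lit 333) (nat_lit 217) (nat_lit 170)) (XT.lf (nat_lit 0) (nat_lit 110356375827) (nat_lit 76) (nat_lit 12355483049) (nat_lit 76) (nat_lit 4911218114) (nat_lit 3) (nat_lit 4) (nat_lit 4) (nat_lit 5) (nat_lit 4) (nat_lit 4) (nat_lit 334) (nat_lit 217) (nat_lit 169)))) (XT.nd (nat_lit 156) (nat_lit 152) (nat_lit 0) (XT.nd (nat_lit 78) (nat_lit 0) (nat_lit 0) (XT.lf (nat_lit 0) (nat_lit 120295675378) (nat_lit 76) (nat_lit 10534494611) (nat_lit 76) (nat_lit 3052523195) (nat_lit 3) (nat_lit 4) (nat_lit 4) (nat_lit 5) (nat_lit 4) (nat_lit 4) (nat_lit 335) (nat_lit 217) (nat_lit 168)) (XT.lf (nat_lit 0) (nat_lit 130698664936) (nat_lit 76) (nat_lit 8637711134) (nat_lit 76) (nat_lit 1119828782) (nat_lit 3) (nat_lit 4) (nat_lit 4) (nat_lit 5) (nat_lit 4) (nat_lit 4) (nat_lit 336) (nat_lit 217) (nat_lit 167))) (XT.nd (nat_lit 78) (nat_lit 76) (nat_lit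 0) (XT.lf (nat_lit 0) (nat_lit 862934273) (nat_lit 152) (nat_lit 5783067982) (nat_lit 76) (nat_lit 140712565039) (nat_lit 2) (nat_lit 5) (nat_lit 4) (nat_lit 5) (nat_lit 3) (nat_lit 4) (nat_lit 337) (nat_lit 217) (nat_lit 166)) (XT.nd (nat_lit 78) (nat_lit 76) (nat_lit 0) (XT.lf (nat_lit 0) (nat_lit 2890576761) (nat_lit 152) (nat_lit 1658973158) (nat_lit 76) (nat_lit 150056423080) (nat_lit 2) (nat_lit 5) (nat_lit 4) (nat_lit 5) (nat_lit 3) (nat_lit 4) (nat_lit 338) (nat_lit 217) (nat_lit 165)) (XT.lf (nat_lit 0) (nat_lit 2729405515) (nat_lit 76) (nat_lit 2316976070) (nat_lit 152) (nat_lit 157168039609) (nat_lit 1) (nat_lit 5) (nat_lit 2) (nat_lit 5) (nat_lit 3) (nat_lit 4) (nat_lit 339) (nat_lit 217) (nat_lit 164)))))) (XT.nd (nat_lit 312) (nat_lit 0) (nat_lit 0) (XT.nd (nat_lit 156) (nat_lit 0) (nat_lit 0) (XT.nd (nat_lit 78) (nat_lit 0) (nat_lit 0) (XT.lf (nat_lit 0) (nat_lit 7323221294)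 (nat_lit 152) (nat_lit 162837360281) (nat_lit 0) (nat_lit 42058674) (nat_lit 1) (nat_lit 5) (nat_lit 3) (nat_lit 4) (nat_lit 1) (nat_lit 4) (nat_lit 340) (nat_lit 217) (nat_lit 163)) (XT.lf (nat_lit 0) (nat_lit 9736899027) (nat_lit 152) (nat_lit 166423292486) (nat_lit 0) (nat_lit 2428939114) (nat_lit 1) (nat_lit 5) (nat_lit 3) (nat_lit 4) (nat_lit 1) (nat_lit 4) (nat_lit 341) (nat_lit 217) (nat_lit 162))) (XT.nd (nat_lit 78) (nat_lit 0) (nat_lit 0) (XT.lf (nat_lit 0) (nat_lit 12256987147) (nat_lit 152) (nat_lit 170215175740) (nat_lit 0) (nat_lit 4923506002) (nat_lit 1) (nat_lit 5) (nat_lit 3) (nat_lit 4) (nat_lit 1) (nat_lit 4) (nat_lit 342) (nat_lit 217) (nat_lit 161)) (XT.lf (nat_lit 0) (nat_lit 14889485862) (nat_lit 152) (nat_lit 174222038336) (nat_lit 0) (nat_lit 7531698783) (nat_lit 1) (nat_lit 5) (nat_lit 3) (nat_lit 4) (nat_lit 1) (nat_lit 4) (nat_lit 343) (nat_lit 217) (nat_lit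 160)))) (XT.nd (nat_lit 156) (nat_lit 0) (nat_lit 0) (XT.nd (nat_lit 78) (nat_lit 0) (nat_lit 0) (XT.lf (nat_lit 0) (nat_lit 17640663028) (nat_lit 152) (nat_lit 178453420422) (nat_lit 0) (nat_lit 10259727439) (nat_lit 1) (nat_lit 5) (nat_lit 3) (nat_lit 4) (nat_lit 1) (nat_lit 4) (nat_lit 344) (nat_lit 217) (nat_lit 159)) (XT.lf (nat_lit 0) (nat_lit 20517069066) (nat_lit 152) (nat_lit 182919396719) (nat_lit 0) (nat_lit 13114087278) (nat_lit 1) (nat_lit 5) (nat_lit 3) (nat_lit 4) (nat_lit 1) (nat_lit 4) (nat_lit 345) (nat_lit 217) (nat_lit 158))) (XT.nd (nat_lit 78) (nat_lit 0) (nat_lit 0) (XT.lf (nat_lit 0) (nat_lit 23525552561) (nat_lit 152) (nat_lit 187630600502) (nat_lit 0) (nat_lit 16101574393) (nat_lit 1) (nat_lit 5) (nat_lit 3) (nat_lit 4) (nat_lit 1) (nat_lit 4) (nat_lit 346) (nat_lit 217) (nat_lit 157)) (XT.nd (nat_lit 78) (nat_lit 0) (nat_lit 0) (XT.lf (nat_lit 0) (nat_lit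 26673276571) (nat_lit 152) (nat_lit 192598248924) (nat_lit 0) (nat_lit 19229301850) (nat_lit 1) (nat_lit 5) (nat_lit 3) (nat_lit 4) (nat_lit 1) (nat_lit 4) (nat_lit 347) (nat_lit 217) (nat_lit 156)) (XT.lf (nat_lit 0) (nat_lit 29967735675) (nat_lit 152) (nat_lit 197834169720) (nat_lit 0) (nat_lit 22504716619) (nat_lit 1) (nat_lit 5) (nat_lit 3) (nat_lit 4) (nat_lit 1) (nat_lit 4) (nat_lit 348) (nat_lit 217) (nat_lit 155))))))) (XT.nd (nat_lit 702) (nat_lit 0) (nat_lit 0) (XT.nd (nat_lit 312) (nat_lit 0) (nat_lit 0) (XT.nd (nat_lit 156) (nat_lit 0) (nat_lit 0) (XT.nd (nat_lit 78) (nat_lit 0) (nat_lit 0) (XT.lf (nat_lit 0) (nat_lit 33416773824) (nat_lit 152) (nat_lit 203350829366) (nat_lit 0) (nat_lit 25935617305) (nat_lit 1) (nat_lit 5) (nat_lit 3) (nat_lit 4) (nat_lit 1) (nat_lit 4) (nat_lit 349) (nat_lit 217) (nat_lit 154)) (XT.lf (nat_lit 0) (nat_lit 37028603014) (nat_lit 152) (nat_lit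 209161362768) (nat_lit 0) (nat_lit 29530172722) (nat_lit 1) (nat_lit 5) (nat_lit 3) (nat_lit 4) (nat_lit 1) (nat_lit 4) (nat_lit 350) (nat_lit 217) (nat_lit 153))) (XT.nd (nat_lit 78) (nat_lit 0) (nat_lit 0) (XT.lf (nat_lit 0) (nat_lit 40811822838) (nat_lit 152) (nat_lit 215279604528) (nat_lit 0) (nat_lit 33296941332) (nat_lit 1) (nat_lit 5) (nat_lit 3) (nat_lit 4) (nat_lit 1) (nat_lit 4) (nat_lit 351) (nat_lit 217) (nat_lit 152)) (XT.lf (nat_lit 0) (nat_lit 44775440962) (nat_lit 152) (nat_lit 221720121889) (nat_lit 0) (nat_lit 37244891634) (nat_lit 1) (nat_lit 5) (nat_lit 3) (nat_lit 4) (nat_lit 1) (nat_lit 4) (nat_lit 352) (nat_lit 217) (nat_lit 151)))) (XT.nd (nat_lit 156) (nat_lit 0) (nat_lit 0) (XT.nd (nat_lit 78) (nat_lit 0) (nat_lit 0) (XT.lf (nat_lit 0) (nat_lit 48928894573) (nat_lit 152) (nat_lit 228498249415) (nat_lit 0) (nat_lit 41383423509) (nat_lit 1) (nat_lit 5) (nat_lit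 3) (nat_lit 4) (nat_lit 1) (nat_lit 4) (nat_lit 353) (nat_lit 217) (nat_lit 150)) (XT.lf (nat_lit 0) (nat_lit 53282072844) (nat_lit 152) (nat_lit 235630125507) (nat_lit 0) (nat_lit 45722390604) (nat_lit 1) (nat_lit 5) (nat_lit 3) (nat_lit 4) (nat_lit 1) (nat_lit 4) (nat_lit 354) (nat_lit 217) (nat_lit 149))) (XT.nd (nat_lit 78) (nat_lit 0) (nat_lit 0) (XT.lf (nat_lit 0) (nat_lit 57845340488) (nat_lit 152) (nat_lit 243132730820) (nat_lit 0) (nat_lit 50272123794) (nat_lit 1) (nat_lit 5) (nat_lit 3) (nat_lit 4) (nat_lit 1) (nat_lit 4) (nat_lit 355) (nat_lit 217) (nat_lit 148)) (XT.nd (nat_lit 78) (nat_lit 0) (nat_lit 0) (XT.lf (nat_lit 0) (nat_lit 62629562426) (nat_lit 152) (nat_lit 251023928702) (nat_lit 0) (nat_lit 55043455776) (nat_lit 1) (nat_lit 5) (nat_lit 3) (nat_lit 4) (nat_lit 1) (nat_lit 4) (nat_lit 356) (nat_lit 217) (nat_lit 147)) (XT.lf (nat_lit 0) (nat_lit 67646129663) (nat_lit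 152) (nat_lit 259322507718) (nat_lit 0) (nat_lit 60047746864) (nat_lit 1) (nat_lit 5) (nat_lit 3) (nat_lit 4) (nat_lit 1) (nat_lit 4) (nat_lit 357) (nat_lit 217) (nat_lit 146)))))) (XT.nd (nat_lit 312) (nat_lit 0) (nat_lit 0) (XT.nd (nat_lit 156) (nat_lit 0) (nat_lit 0) (XT.nd (nat_lit 78) (nat_lit 0) (nat_lit 0) (XT.lf (nat_lit 0) (nat_lit 72906986407) (nat_lit 152) (nat_lit 268048226391) (nat_lit 0) (nat_lit 65296912038) (nat_lit 1) (nat_lit 5) (nat_lit 3) (nat_lit 4) (nat_lit 1) (nat_lit 4) (nat_lit 358) (nat_lit 217) (nat_lit 145)) (XT.lf (nat_lit 0) (nat_lit 78424658508) (nat_lit 152) (nat_lit 277221860240) (nat_lit 0) (nat_lit 70803449310) (nat_lit 1) (nat_lit 5) (nat_lit 3) (nat_lit 4) (nat_lit 1) (nat_lit 4) (nat_lit 359) (nat_lit 217) (nat_lit 144))) (XT.nd (nat_lit 78) (nat_lit 0) (nat_lit 0) (XT.lf (nat_lit 0) (nat_lit 84212283279) (nat_lit 152) (nat_lit 286865251250) (nat_lit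 0) (nat_lit 76580469483) (nat_lit 1) (nat_lit 5) (nat_lit 3) (nat_lit 4) (nat_lit 1) (nat_lit 4) (nat_lit 360) (nat_lit 217) (nat_lit 143)) (XT.lf (nat_lit 0) (nat_lit 90283640780) (nat_lit 152) (nat_lit 297001359878) (nat_lit 0) (nat_lit 82641727366) (nat_lit 1) (nat_lit 5) (nat_lit 3) (nat_lit 4) (nat_lit 1) (nat_lit 4) (nat_lit 361) (nat_lit 217) (nat_lit 142)))) (XT.nd (nat_lit 156) (nat_lit 0) (nat_lit 0) (XT.nd (nat_lit 78) (nat_lit 0) (nat_lit 0) (XT.lf (nat_lit 0) (nat_lit 96653186624) (nat_lit 152) (nat_lit 307654319714) (nat_lit 0) (nat_lit 89001654526) (nat_lit 1) (nat_lit 5) (nat_lit 3) (nat_lit 4) (nat_lit 1) (nat_lit 4) (nat_lit 362) (nat_lit 217) (nat_lit 141)) (XT.lf (nat_lit 0) (nat_lit 103336086397) (nat_lit 152) (nat_lit 318849494949) (nat_lit 0) (nat_lit 95675393648) (nat_lit 1) (nat_lit 5) (nat_lit 3) (nat_lit 4) (nat_lit 1) (nat_lit 4) (nat_lit 363) (nat_lit 217)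 (nat_lit 140))) (XT.nd (nat_lit 78) (nat_lit 0) (nat_lit 0) (XT.lf (nat_lit 0) (nat_lit 110348251763) (nat_lit 152) (nat_lit 330613540763) (nat_lit 0) (nat_lit 102678834585) (nat_lit 1) (nat_lit 5) (nat_lit 3) (nat_lit 4) (nat_lit 1) (nat_lit 4) (nat_lit 364) (nat_lit 217) (nat_lit 139)) (XT.nd (nat_lit 78) (nat_lit 0) (nat_lit 0) (XT.lf (nat_lit 0) (nat_lit 117706378356) (nat_lit 152) (nat_lit 342974466786) (nat_lit 0) (nat_lit 110028652197) (nat_lit 1) (nat_lit 5) (nat_lit 3) (nat_lit 4) (nat_lit 1) (nat_lit 4) (nat_lit 365) (nat_lit 217) (nat_lit 138)) (XT.lf (nat_lit 0) (nat_lit 125427985524) (nat_lit 152) (nat_lit 355961703797) (nat_lit 0) (nat_lit 117742346050) (nat_lit 1) (nat_lit 5) (nat_lit 3) (nat_lit 4) (nat_lit 1) (nat_lit 4) (nat_lit 366) (nat_lit 217) (nat_lit 137))))))))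
noncomputable def xc47 : XT := (XT.nd (nat_lit 1404) (nat_lit 304) (nat_lit 0) (XT.nd (nat_lit 702) (nat_lit 304) (nat_lit 0) (XT.nd (nat_lit 312) (nat_lit 228) (nat_lit 0) (XT.nd (nat_lit 156) (nat_lit 76) (nat_lit 0) (XT.nd (nat_lit 78) (nat_lit 152) (nat_lit 0) (XT.lf (nat_lit 0) (nat_lit 2170182595) (nat_lit 152) (nat_lit 2918237135) (nat_lit 0) (nat_lit 2170182595) (nat_lit 17) (nat_lit 5) (nat_lit 19) (nat_lit 4) (nat_lit 17) (nat_lit 4) (nat_lit 284) (nat_lit 218) (nat_lit 218)) (XT.lf (nat_lit 0) (nat_lit 1212639554) (nat_lit 152) (nat_lit 7154238100) (nat_lit 152) (nat_lit 6653686484) (nat_lit 15) (nat_lit 4) (nat_lit 17) (nat_lit 5) (nat_lit 17) (nat_lit 4) (nat_lit 285) (nat_lit 218) (nat_lit 217))) (XT.nd (nat_lit 78) (nat_lit 76) (nat_lit 0) (XT.lf (nat_lit 0) (nat_lit 8579291246) (nat_lit 152) (nat_lit 3974643900) (nat_lit 152) (nat_lit 2997376460) (nat_lit 15) (nat_lit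 4) (nat_lit 17) (nat_lit 5) (nat_lit 17) (nat_lit 4) (nat_lit 286) (nat_lit 218) (nat_lit 216)) (XT.lf (nat_lit 0) (nat_lit 679485728) (nat_lit 228) (nat_lit 38336768) (nat_lit 76) (nat_lit 15397047105) (nat_lit 14) (nat_lit 5) (nat_lit 17) (nat_lit 5) (nat_lit 15) (nat_lit 4) (nat_lit 287) (nat_lit 218) (nat_lit 215)))) (XT.nd (nat_lit 156) (nat_lit 152) (nat_lit 0) (XT.nd (nat_lit 78) (nat_lit 0) (nat_lit 0) (XT.lf (nat_lit 0) (nat_lit 4466461060) (nat_lit 152) (nat_lit 9544964019) (nat_lit 0) (nat_lit 2691529806) (nat_lit 13) (nat_lit 5) (nat_lit 15) (nat_lit 4) (nat_lit 13) (nat_lit 4) (nat_lit 288) (nat_lit 218) (nat_lit 214)) (XT.lf (nat_lit 0) (nat_lit 8327685421) (nat_lit 152) (nat_lit 2838104010) (nat_lit 0) (nat_lit 6160558878) (nat_lit 13) (nat_lit 5) (nat_lit 15) (nat_lit 4) (nat_lit 13) (nat_lit 4) (nat_lit 289) (nat_lit 218) (nat_lit 213))) (XT.nd (nat_lit 78) (nat_lit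 76) (nat_lit 0) (XT.lf (nat_lit 0) (nat_lit 4125296474) (nat_lit 76) (nat_lit 8199627474) (nat_lit 76) (nat_lit 5658981609) (nat_lit 12) (nat_lit 4) (nat_lit 13) (nat_lit 5) (nat_lit 13) (nat_lit 4) (nat_lit 290) (nat_lit 218) (nat_lit 212)) (XT.nd (nat_lit 78) (nat_lit 76) (nat_lit 0) (XT.lf (nat_lit 0) (nat_lit 11327962381) (nat_lit 76) (nat_lit 5123217066) (nat_lit 76) (nat_lit 2226838513) (nat_lit 12) (nat_lit 4) (nat_lit 13) (nat_lit 5) (nat_lit 13) (nat_lit 4) (nat_lit 291) (nat_lit 218) (nat_lit 211)) (XT.lf (nat_lit 0) (nat_lit 1217613694) (nat_lit 152) (nat_lit 739063515) (nat_lit 76) (nat_lit 17454967807) (nat_lit 11) (nat_lit 5) (nat_lit 13) (nat_lit 5) (nat_lit 12) (nat_lit 4) (nat_lit 292) (nat_lit 218) (nat_lit 210)))))) (XT.nd (nat_lit 312) (nat_lit 152) (nat_lit 0) (XT.nd (nat_lit 156) (nat_lit 76) (nat_lit 0) (XT.nd (nat_lit 78) (nat_lit 0) (nat_lit 0) (XT.lf (nat_lit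 0) (nat_lit 4768323644) (nat_lit 152) (nat_lit 14031565014) (nat_lit 0) (nat_lit 1379912573) (nat_lit 10) (nat_lit 5) (nat_lit 12) (nat_lit 4) (nat_lit 10) (nat_lit 4) (nat_lit 293) (nat_lit 218) (nat_lit 209)) (XT.lf (nat_lit 0) (nat_lit 8432634269) (nat_lit 152) (nat_lit 7805477795) (nat_lit 0) (nat_lit 4751561036) (nat_lit 10) (nat_lit 5) (nat_lit 12) (nat_lit 4) (nat_lit 10) (nat_lit 4) (nat_lit 294) (nat_lit 218) (nat_lit 208))) (XT.nd (nat_lit 78) (nat_lit 76) (nat_lit 0) (XT.lf (nat_lit 0) (nat_lit 12176605110) (nat_lit 152) (nat_lit 1451911025) (nat_lit 0) (nat_lit 8216806007) (nat_lit 10) (nat_lit 5) (nat_lit 12) (nat_lit 4) (nat_lit 10) (nat_lit 4) (nat_lit 295) (nat_lit 218) (nat_lit 207)) (XT.lf (nat_lit 0) (nat_lit 5211048945) (nat_lit 76) (nat_lit 10879460513) (nat_lit 76) (nat_lit 6654208202) (nat_lit 9) (nat_lit 4) (nat_lit 10) (nat_lit 5) (nat_lit 10) (nat_lit 4) (nat_lit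 296) (nat_lit 218) (nat_lit 206)))) (XT.nd (nat_lit 156) (nat_lit 152) (nat_lit 0) (XT.nd (nat_lit 78) (nat_lit 0) (nat_lit 0) (XT.lf (nat_lit 0) (nat_lit 12085316469) (nat_lit 76) (nat_lit 8042764381) (nat_lit 76) (nat_lit 3564699489) (nat_lit 9) (nat_lit 4) (nat_lit 10) (nat_lit 5) (nat_lit 10) (nat_lit 4) (nat_lit 297) (nat_lit 218) (nat_lit 205)) (XT.lf (nat_lit 0) (nat_lit 19139252114) (nat_lit 76) (nat_lit 5136262514) (nat_lit 76) (nat_lit 417423737) (nat_lit 9) (nat_lit 4) (nat_lit 10) (nat_lit 5) (nat_lit 10) (nat_lit 4) (nat_lit 298) (nat_lit 218) (nat_lit 204))) (XT.nd (nat_lit 78) (nat_lit 0) (nat_lit 0) (XT.lf (nat_lit 0) (nat_lit 618225429) (nat_lit 76) (nat_lit 2097078311) (nat_lit 152) (nat_lit 23029604741) (nat_lit 7) (nat_lit 5) (nat_lit 8) (nat_lit 5) (nat_lit 9) (nat_lit 4) (nat_lit 299) (nat_lit 218) (nat_lit 203)) (XT.nd (nat_lit 78) (nat_lit 0) (nat_lit 0) (XT.lf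 (nat_lit 0) (nat_lit 6014878180) (nat_lit 152) (nat_lit 19738756328) (nat_lit 0) (nat_lit 1094367464) (nat_lit 7) (nat_lit 5) (nat_lit 9) (nat_lit 4) (nat_lit 7) (nat_lit 4) (nat_lit 300) (nat_lit 218) (nat_lit 202)) (XT.lf (nat_lit 0) (nat_lit 9429582150) (nat_lit 152) (nat_lit 14268249483) (nat_lit 0) (nat_lit 4310986162) (nat_lit 7) (nat_lit 5) (nat_lit 9) (nat_lit 4) (nat_lit 7) (nat_lit 4) (nat_lit 301) (nat_lit 218) (nat_lit 201))))))) (XT.nd (nat_lit 702) (nat_lit 76) (nat_lit 0) (XT.nd (nat_lit 312) (nat_lit 152) (nat_lit 0) (XT.nd (nat_lit 156) (nat_lit 76) (nat_lit 0) (XT.nd (nat_lit 78) (nat_lit 0) (nat_lit 0) (XT.lf (nat_lit 0) (nat_lit 12934804629) (nat_lit 152) (nat_lit 8669396232) (nat_lit 0) (nat_lit 7627556002) (nat_lit 7) (nat_lit 5) (nat_lit 9) (nat_lit 4) (nat_lit 7) (nat_lit 4) (nat_lit 302) (nat_lit 218) (nat_lit 200)) (XT.lf (nat_lit 0) (nat_lit 16538891386) (nat_lit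 152) (nat_lit 2928865971) (nat_lit 0) (nat_lit 11051973578) (nat_lit 7) (nat_lit 5) (nat_lit 9) (nat_lit 4) (nat_lit 7) (nat_lit 4) (nat_lit 303) (nat_lit 218) (nat_lit 199))) (XT.nd (nat_lit 78) (nat_lit 0) (nat_lit 0) (XT.lf (nat_lit 0) (nat_lit 3065111953) (nat_lit 76) (nat_lit 17233166612) (nat_lit 76) (nat_lit 11575135300) (nat_lit 6) (nat_lit 4) (nat_lit 7) (nat_lit 5) (nat_lit 7) (nat_lit 4) (nat_lit 304) (nat_lit 218) (nat_lit 198)) (XT.lf (nat_lit 0) (nat_lit 9330914708) (nat_lit 76) (nat_lit 14893005207) (nat_lit 76) (nat_lit 9072008652) (nat_lit 6) (nat_lit 4) (nat_lit 7) (nat_lit 5) (nat_lit 7) (nat_lit 4) (nat_lit 305) (nat_lit 218) (nat_lit 197)))) (XT.nd (nat_lit 156) (nat_lit 152) (nat_lit 0) (XT.nd (nat_lit 78) (nat_lit 0) (nat_lit 0) (XT.lf (nat_lit 0) (nat_lit 15786619337) (nat_lit 76) (nat_lit 12491303092) (nat_lit 76) (nat_lit 6515101542) (nat_lit 6) (nat_lit 4)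 (nat_lit 7) (nat_lit 5) (nat_lit 7) (nat_lit 4) (nat_lit 306) (nat_lit 218) (nat_lit 196)) (XT.lf (nat_lit 0) (nat_lit 22447596564) (nat_lit 76) (nat_lit 10022341926) (nat_lit 76) (nat_lit 3898326097) (nat_lit 6) (nat_lit 4) (nat_lit 7) (nat_lit 5) (nat_lit 7) (nat_lit 4) (nat_lit 307) (nat_lit 218) (nat_lit 195))) (XT.nd (nat_lit 78) (nat_lit 152) (nat_lit 0) (XT.lf (nat_lit 0) (nat_lit 29329705860) (nat_lit 76) (nat_lit 7480243233) (nat_lit 76) (nat_lit 1215451900) (nat_lit 6) (nat_lit 4) (nat_lit 7) (nat_lit 5) (nat_lit 7) (nat_lit 4) (nat_lit 308) (nat_lit 218) (nat_lit 194)) (XT.nd (nat_lit 78) (nat_lit 76) (nat_lit 0) (XT.lf (nat_lit 0) (nat_lit 1490622146) (nat_lit 152) (nat_lit 3343087841) (nat_lit 76) (nat_lit 34933466643) (nat_lit 5) (nat_lit 5) (nat_lit 7) (nat_lit 5) (nat_lit 6) (nat_lit 4) (nat_lit 309) (nat_lit 218) (nat_lit 193)) (XT.lf (nat_lit 0) (nat_lit 2225000858)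 (nat_lit 76) (nat_lit 2044048718) (nat_lit 152) (nat_lit 37327146527) (nat_lit 4) (nat_lit 5) (nat_lit 5) (nat_lit 5) (nat_lit 6) (nat_lit 4) (nat_lit 310) (nat_lit 218) (nat_lit 192)))))) (XT.nd (nat_lit 390) (nat_lit 76) (nat_lit 0) (XT.nd (nat_lit 156) (nat_lit 0) (nat_lit 0) (XT.nd (nat_lit 78) (nat_lit 0) (nat_lit 0) (XT.lf (nat_lit 0) (nat_lit 7201319441) (nat_lit 152) (nat_lit 35444904578) (nat_lit 0) (nat_lit 869740444) (nat_lit 4) (nat_lit 5) (nat_lit 6) (nat_lit 4) (nat_lit 4) (nat_lit 4) (nat_lit 311) (nat_lit 218) (nat_lit 191)) (XT.lf (nat_lit 0) (nat_lit 10259956829) (nat_lit 152) (nat_lit 31454742044) (nat_lit 0) (nat_lit 3818076540) (nat_lit 4) (nat_lit 5) (nat_lit 6) (nat_lit 4) (nat_lit 4) (nat_lit 4) (nat_lit 312) (nat_lit 218) (nat_lit 190))) (XT.nd (nat_lit 78) (nat_lit 0) (nat_lit 0) (XT.lf (nat_lit 0) (nat_lit 13420330881) (nat_lit 152) (nat_lit 27359293928) (nat_lit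 0) (nat_lit 6873401743) (nat_lit 4) (nat_lit 5) (nat_lit 6) (nat_lit 4) (nat_lit 4) (nat_lit 4) (nat_lit 313) (nat_lit 218) (nat_lit 189)) (XT.nd (nat_lit 78) (nat_lit 0) (nat_lit 0) (XT.lf (nat_lit 0) (nat_lit 16689966296) (nat_lit 152) (nat_lit 23148809162) (nat_lit 0) (nat_lit 10042990635) (nat_lit 4) (nat_lit 5) (nat_lit 6) (nat_lit 4) (nat_lit 4) (nat_lit 4) (nat_lit 314) (nat_lit 218) (nat_lit 188)) (XT.lf (nat_lit 0) (nat_lit 20076647921) (nat_lit 152) (nat_lit 18813262784) (nat_lit 0) (nat_lit 13334389858) (nat_lit 4) (nat_lit 5) (nat_lit 6) (nat_lit 4) (nat_lit 4) (nat_lit 4) (nat_lit 315) (nat_lit 218) (nat_lit 187))))) (XT.nd (nat_lit 156) (nat_lit 76) (nat_lit 0) (XT.nd (nat_lit 78) (nat_lit 0) (nat_lit 0) (XT.lf (nat_lit 0) (nat_lit 23588439284) (nat_lit 152) (nat_lit 14342332063) (nat_lit 0) (nat_lit 16755436076) (nat_lit 4) (nat_lit 5) (nat_lit 6) (nat_lit 4) (nat_lit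 4) (nat_lit 4) (nat_lit 316) (nat_lit 218) (nat_lit 186)) (XT.lf (nat_lit 0) (nat_lit 27233701792) (nat_lit 152) (nat_lit 9725371926) (nat_lit 0) (nat_lit 20314274636) (nat_lit 4) (nat_lit 5) (nat_lit 6) (nat_lit 4) (nat_lit 4) (nat_lit 4) (nat_lit 317) (nat_lit 218) (nat_lit 185))) (XT.nd (nat_lit 78) (nat_lit 76) (nat_lit 0) (XT.lf (nat_lit 0) (nat_lit 31021114643) (nat_lit 152) (nat_lit 4951389612) (nat_lit 0) (nat_lit 24019378965) (nat_lit 4) (nat_lit 5) (nat_lit 6) (nat_lit 4) (nat_lit 4) (nat_lit 4) (nat_lit 318) (nat_lit 218) (nat_lit 184)) (XT.nd (nat_lit 78) (nat_lit 76) (nat_lit 0) (XT.lf (nat_lit 0) (nat_lit 34959695486) (nat_lit 152) (nat_lit 9018495) (nat_lit 0) (nat_lit 27879570739) (nat_lit 4) (nat_lit 5) (nat_lit 6) (nat_lit 4) (nat_lit 4) (nat_lit 4) (nat_lit 319) (nat_lit 218) (nat_lit 183)) (XT.lf (nat_lit 0) (nat_lit 5282584673) (nat_lit 76) (nat_lit 33858713171)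 (nat_lit 76) (nat_lit 26703932169) (nat_lit 3) (nat_lit 4) (nat_lit 4) (nat_lit 5) (nat_lit 4) (nat_lit 4) (nat_lit 320) (nat_lit 218) (nat_lit 182))))))))
noncomputable def xc48 : XT := (XT.nd (nat_lit 1404) (nat_lit 76) (nat_lit 0) (XT.nd (nat_lit 702) (nat_lit 76) (nat_lit 0) (XT.nd (nat_lit 312) (nat_lit 0) (nat_lit 0) (XT.nd (nat_lit 156) (nat_lit 0) (nat_lit 0) (XT.nd (nat_lit 78) (nat_lit 0) (nat_lit 0) (XT.lf (nat_lit 0) (nat_lit 10773198935) (nat_lit 76) (nat_lit 32723254583) (nat_lit 76) (nat_lit 25497372385) (nat_lit 3) (nat_lit 4) (nat_lit 4) (nat_lit 5) (nat_lit 4) (nat_lit 4) (nat_lit 321) (nat_lit 218) (nat_lit 181)) (XT.lf (nat_lit 0) (nat_lit 16475598989) (nat_lit 76) (nat_lit 31559787476) (nat_lit 76) (nat_lit 24266189854) (nat_lit 3) (nat_lit 4) (nat_lit 4) (nat_lit 5) (nat_lit 4) (nat_lit 4) (nat_lit 322) (nat_lit 218) (nat_lit 180))) (XT.nd (nat_lit 78) (nat_lit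 0) (nat_lit 0) (XT.lf (nat_lit 0) (nat_lit 22403361977) (nat_lit 76) (nat_lit 30365541692) (nat_lit 76) (nat_lit 23007453190) (nat_lit 3) (nat_lit 4) (nat_lit 4) (nat_lit 5) (nat_lit 4) (nat_lit 4) (nat_lit 323) (nat_lit 218) (nat_lit 179)) (XT.lf (nat_lit 0) (nat_lit 28570601621) (nat_lit 76) (nat_lit 29137673788) (nat_lit 76) (nat_lit 21718165400) (nat_lit 3) (nat_lit 4) (nat_lit 4) (nat_lit 5) (nat_lit 4) (nat_lit 4) (nat_lit 324) (nat_lit 218) (nat_lit 178)))) (XT.nd (nat_lit 156) (nat_lit 0) (nat_lit 0) (XT.nd (nat_lit 78) (nat_lit 0) (nat_lit 0) (XT.lf (nat_lit 0) (nat_lit 34992001825) (nat_lit 76) (nat_lit 27873260269) (nat_lit 76) (nat_lit 20395256751) (nat_lit 3) (nat_lit 4) (nat_lit 4) (nat_lit 5) (nat_lit 4) (nat_lit 4) (nat_lit 325) (nat_lit 218) (nat_lit 177)) (XT.lf (nat_lit 0) (nat_lit 41682851636) (nat_lit 76) (nat_lit 26569290627) (nat_lit 76) (nat_lit 19035577461)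 (nat_lit 3) (nat_lit 4) (nat_lit 4) (nat_lit 5) (nat_lit 4) (nat_lit 4) (nat_lit 326) (nat_lit 218) (nat_lit 176))) (XT.nd (nat_lit 78) (nat_lit 0) (nat_lit 0) (XT.lf (nat_lit 0) (nat_lit 48659081651) (nat_lit 76) (nat_lit 25222660171) (nat_lit 76) (nat_lit 17635890198) (nat_lit 3) (nat_lit 4) (nat_lit 4) (nat_lit 5) (nat_lit 4) (nat_lit 4) (nat_lit 327) (nat_lit 218) (nat_lit 175)) (XT.nd (nat_lit 78) (nat_lit 0) (nat_lit 0) (XT.lf (nat_lit 0) (nat_lit 55937301939) (nat_lit 76) (nat_lit 23830162639) (nat_lit 76) (nat_lit 16192862374) (nat_lit 3) (nat_lit 4) (nat_lit 4) (nat_lit 5) (nat_lit 4) (nat_lit 4) (nat_lit 328) (nat_lit 218) (nat_lit 174)) (XT.lf (nat_lit 0) (nat_lit 63534841598) (nat_lit 76) (nat_lit 22388482561) (nat_lit 76) (nat_lit 14703058207) (nat_lit 3) (nat_lit 4) (nat_lit 4) (nat_lit 5) (nat_lit 4) (nat_lit 4) (nat_lit 329) (nat_lit 218) (nat_lit 173)))))) (XT.nd (nat_lit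 312) (nat_lit 76) (nat_lit 0) (XT.nd (nat_lit 156) (nat_lit 0) (nat_lit 0) (XT.nd (nat_lit 78) (nat_lit 0) (nat_lit 0) (XT.lf (nat_lit 0) (nat_lit 71469790007) (nat_lit 76) (nat_lit 20894187364) (nat_lit 76) (nat_lit 13162930546) (nat_lit 3) (nat_lit 4) (nat_lit 4) (nat_lit 5) (nat_lit 4) (nat_lit 4) (nat_lit 330) (nat_lit 218) (nat_lit 172)) (XT.lf (nat_lit 0) (nat_lit 79761039901) (nat_lit 76) (nat_lit 19343719204) (nat_lit 76) (nat_lit 11568812420) (nat_lit 3) (nat_lit 4) (nat_lit 4) (nat_lit 5) (nat_lit 4) (nat_lit 4) (nat_lit 331) (nat_lit 218) (nat_lit 171))) (XT.nd (nat_lit 78) (nat_lit 0) (nat_lit 0) (XT.lf (nat_lit 0) (nat_lit 88428332350) (nat_lit 76) (nat_lit 17733386490) (nat_lit 76) (nat_lit 9916908308) (nat_lit 3) (nat_lit 4) (nat_lit 4) (nat_lit 5) (nat_lit 4) (nat_lit 4) (nat_lit 332) (nat_lit 218) (nat_lit 170)) (XT.lf (nat_lit 0) (nat_lit 97492303765) (nat_lit 76)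 (nat_lit 16059355095) (nat_lit 76) (nat_lit 8203285107) (nat_lit 3) (nat_lit 4) (nat_lit 4) (nat_lit 5) (nat_lit 4) (nat_lit 4) (nat_lit 333) (nat_lit 218) (nat_lit 169)))) (XT.nd (nat_lit 156) (nat_lit 76) (nat_lit 0) (XT.nd (nat_lit 78) (nat_lit 0) (nat_lit 0) (XT.lf (nat_lit 0) (nat_lit 106974535032) (nat_lit 76) (nat_lit 14317639231) (nat_lit 76) (nat_lit 6423862761) (nat_lit 3) (nat_lit 4) (nat_lit 4) (nat_lit 5) (nat_lit 4) (nat_lit 4) (nat_lit 334) (nat_lit 218) (nat_lit 168)) (XT.lf (nat_lit 0) (nat_lit 116897602890) (nat_lit 76) (nat_lit 12504091955) (nat_lit 76) (nat_lit 4574404550) (nat_lit 3) (nat_lit 4) (nat_lit 4) (nat_lit 5) (nat_lit 4) (nat_lit 4) (nat_lit 335) (nat_lit 218) (nat_lit 167))) (XT.nd (nat_lit 78) (nat_lit 76) (nat_lit 0) (XT.lf (nat_lit 0) (nat_lit 127285133691) (nat_lit 76) (nat_lit 10614395298) (nat_lit 76) (nat_lit 2650507002) (nat_lit 3) (nat_lit 4)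 (nat_lit 4) (nat_lit 5) (nat_lit 4) (nat_lit 4) (nat_lit 336) (nat_lit 218) (nat_lit 166)) (XT.nd (nat_lit 78) (nat_lit 76) (nat_lit 0) (XT.lf (nat_lit 0) (nat_lit 138161859653) (nat_lit 76) (nat_lit 8644049982) (nat_lit 76) (nat_lit 647589409) (nat_lit 3) (nat_lit 4) (nat_lit 4) (nat_lit 5) (nat_lit 4) (nat_lit 4) (nat_lit 337) (nat_lit 218) (nat_lit 165)) (XT.lf (nat_lit 0) (nat_lit 1393056346) (nat_lit 152) (nat_lit 5171716279) (nat_lit 76) (nat_lit 148137029312) (nat_lit 2) (nat_lit 5) (nat_lit 4) (nat_lit 5) (nat_lit 3) (nat_lit 4) (nat_lit 338) (nat_lit 218) (nat_lit 164))))))) (XT.nd (nat_lit 702) (nat_lit 0) (nat_lit 0) (XT.nd (nat_lit 312) (nat_lit 0) (nat_lit 0) (XT.nd (nat_lit 156) (nat_lit 0) (nat_lit 0) (XT.nd (nat_lit 78) (nat_lit 76) (nat_lit 0) (XT.lf (nat_lit 0) (nat_lit 3498891656) (nat_lit 152) (nat_lit 884297909) (nat_lit 76) (nat_lit 157929564254) (nat_lit 2) (nat_lit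 5) (nat_lit 4) (nat_lit 5) (nat_lit 3) (nat_lit 4) (nat_lit 339) (nat_lit 218) (nat_lit 163)) (XT.lf (nat_lit 0) (nat_lit 3709667054) (nat_lit 76) (nat_lit 2043908563) (nat_lit 152) (nat_lit 164548510006) (nat_lit 1) (nat_lit 5) (nat_lit 2) (nat_lit 5) (nat_lit 3) (nat_lit 4) (nat_lit 340) (nat_lit 218) (nat_lit 162))) (XT.nd (nat_lit 78) (nat_lit 0) (nat_lit 0) (XT.lf (nat_lit 0) (nat_lit 8128379526) (nat_lit 152) (nat_lit 170159441799) (nat_lit 0) (nat_lit 402703093) (nat_lit 1) (nat_lit 5) (nat_lit 3) (nat_lit 4) (nat_lit 1) (nat_lit 4) (nat_lit 341) (nat_lit 218) (nat_lit 161)) (XT.lf (nat_lit 0) (nat_lit 10641836519) (nat_lit 152) (nat_lit 173963708067) (nat_lit 0) (nat_lit 2891854151) (nat_lit 1) (nat_lit 5) (nat_lit 3) (nat_lit 4) (nat_lit 1) (nat_lit 4) (nat_lit 342) (nat_lit 218) (nat_lit 160)))) (XT.nd (nat_lit 156) (nat_lit 0) (nat_lit 0) (XT.nd (nat_lit 78) (nat_lit 0) (nat_lit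 0) (XT.lf (nat_lit 0) (nat_lit 13268019876) (nat_lit 152) (nat_lit 177982364010) (nat_lit 0) (nat_lit 5494888999) (nat_lit 1) (nat_lit 5) (nat_lit 3) (nat_lit 4) (nat_lit 1) (nat_lit 4) (nat_lit 343) (nat_lit 218) (nat_lit 159)) (XT.lf (nat_lit 0) (nat_lit 16013182414) (nat_lit 152) (nat_lit 182224977855) (nat_lit 0) (nat_lit 8218005338) (nat_lit 1) (nat_lit 5) (nat_lit 3) (nat_lit 4) (nat_lit 1) (nat_lit 4) (nat_lit 344) (nat_lit 218) (nat_lit 158))) (XT.nd (nat_lit 78) (nat_lit 0) (nat_lit 0) (XT.lf (nat_lit 0) (nat_lit 18883860235) (nat_lit 152) (nat_lit 186701651065) (nat_lit 0) (nat_lit 11067686779) (nat_lit 1) (nat_lit 5) (nat_lit 3) (nat_lit 4) (nat_lit 1) (nat_lit 4) (nat_lit 345) (nat_lit 218) (nat_lit 157)) (XT.nd (nat_lit 78) (nat_lit 0) (nat_lit 0) (XT.lf (nat_lit 0) (nat_lit 21886888286) (nat_lit 152) (nat_lit 191423042385) (nat_lit 0) (nat_lit 14050718277) (nat_lit 1)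 (nat_lit 5) (nat_lit 3) (nat_lit 4) (nat_lit 1) (nat_lit 4) (nat_lit 346) (nat_lit 218) (nat_lit 156)) (XT.lf (nat_lit 0) (nat_lit 25029416635) (nat_lit 152) (nat_lit 196400393222) (nat_lit 0) (nat_lit 17174202290) (nat_lit 1) (nat_lit 5) (nat_lit 3) (nat_lit 4) (nat_lit 1) (nat_lit 4) (nat_lit 347) (nat_lit 218) (nat_lit 155)))))) (XT.nd (nat_lit 312) (nat_lit 0) (nat_lit 0) (XT.nd (nat_lit 156) (nat_lit 0) (nat_lit 0) (XT.nd (nat_lit 78) (nat_lit 0) (nat_lit 0) (XT.lf (nat_lit 0) (nat_lit 28318927490) (nat_lit 152) (nat_lit 201645554414) (nat_lit 0) (nat_lit 20445575683) (nat_lit 1) (nat_lit 5) (nat_lit 3) (nat_lit 4) (nat_lit 1) (nat_lit 4) (nat_lit 348) (nat_lit 218) (nat_lit 154)) (XT.lf (nat_lit 0) (nat_lit 31763253021) (nat_lit 152) (nat_lit 207171014437) (nat_lit 0) (nat_lit 23872627440) (nat_lit 1) (nat_lit 5) (nat_lit 3) (nat_lit 4) (nat_lit 1) (nat_lit 4) (nat_lit 349) (nat_lit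 218) (nat_lit 153))) (XT.nd (nat_lit 78) (nat_lit 0) (nat_lit 0) (XT.lf (nat_lit 0) (nat_lit 35370594004) (nat_lit 152) (nat_lit 212989929150) (nat_lit 0) (nat_lit 27463517209) (nat_lit 1) (nat_lit 5) (nat_lit 3) (nat_lit 4) (nat_lit 1) (nat_lit 4) (nat_lit 350) (nat_lit 218) (nat_lit 152)) (XT.lf (nat_lit 0) (nat_lit 39149539344) (nat_lit 152) (nat_lit 219116153111) (nat_lit 0) (nat_lit 31226794728) (nat_lit 1) (nat_lit 5) (nat_lit 3) (nat_lit 4) (nat_lit 1) (nat_lit 4) (nat_lit 351) (nat_lit 218) (nat_lit 151)))) (XT.nd (nat_lit 156) (nat_lit 0) (nat_lit 0) (XT.nd (nat_lit 78) (nat_lit 0) (nat_lit 0) (XT.lf (nat_lit 0) (nat_lit 43109086532) (nat_lit 152) (nat_lit 225564272569) (nat_lit 0) (nat_lit 35171420180) (nat_lit 1) (nat_lit 5) (nat_lit 3) (nat_lit 4) (nat_lit 1) (nat_lit 4) (nat_lit 352) (nat_lit 218) (nat_lit 150)) (XT.lf (nat_lit 0) (nat_lit 47258663060) (nat_lit 152) (nat_lit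 232349640187) (nat_lit 0) (nat_lit 39306785531) (nat_lit 1) (nat_lit 5) (nat_lit 3) (nat_lit 4) (nat_lit 1) (nat_lit 4) (nat_lit 353) (nat_lit 218) (nat_lit 149))) (XT.nd (nat_lit 78) (nat_lit 0) (nat_lit 0) (XT.lf (nat_lit 0) (nat_lit 51608148872) (nat_lit 152) (nat_lit 239488411605) (nat_lit 0) (nat_lit 43642736889) (nat_lit 1) (nat_lit 5) (nat_lit 3) (nat_lit 4) (nat_lit 1) (nat_lit 4) (nat_lit 354) (nat_lit 218) (nat_lit 148)) (XT.nd (nat_lit 78) (nat_lit 0) (nat_lit 0) (XT.lf (nat_lit 0) (nat_lit 56167899887) (nat_lit 152) (nat_lit 246997583895) (nat_lit 0) (nat_lit 48189597949) (nat_lit 1) (nat_lit 5) (nat_lit 3) (nat_lit 4) (nat_lit 1) (nat_lit 4) (nat_lit 355) (nat_lit 218) (nat_lit 147)) (XT.lf (nat_lit 0) (nat_lit 60948772656) (nat_lit 152) (nat_lit 254895036040) (nat_lit 0) (nat_lit 52958194568) (nat_lit 1) (nat_lit 5) (nat_lit 3) (nat_lit 4) (nat_lit 1) (nat_lit 4) (nat_lit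 356) (nat_lit 218) (nat_lit 146))))))))
noncomputable def xc49 : XT := (XT.nd (nat_lit 32370) (nat_lit 0) (nat_lit 380) (XT.nd (nat_lit 31668) (nat_lit 0) (nat_lit 836) (XT.nd (nat_lit 312) (nat_lit 0) (nat_lit 0) (XT.nd (nat_lit 156) (nat_lit 0) (nat_lit 0) (XT.nd (nat_lit 78) (nat_lit 0) (nat_lit 0) (XT.lf (nat_lit 0) (nat_lit 65962150208) (nat_lit 152) (nat_lit 263199571498) (nat_lit 0) (nat_lit 57959880550) (nat_lit 1) (nat_lit 5) (nat_lit 3) (nat_lit 4) (nat_lit 1) (nat_lit 4) (nat_lit 357) (nat_lit 218) (nat_lit 145)) (XT.lf (nat_lit 0) (nat_lit 71219969156) (nat_lit 152) (nat_lit 271930962972) (nat_lit 0) (nat_lit 63206564670) (nat_lit 1) (nat_lit 5) (nat_lit 3) (nat_lit 4) (nat_lit 1) (nat_lit 4) (nat_lit 358) (nat_lit 218) (nat_lit 144))) (XT.nd (nat_lit 78) (nat_lit 0) (nat_lit 0) (XT.lf (nat_lit 0) (nat_lit 76734748118) (nat_lit 152) (nat_lit 281109999489) (nat_lit 0) (nat_lit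 68710739033) (nat_lit 1) (nat_lit 5) (nat_lit 3) (nat_lit 4) (nat_lit 1) (nat_lit 4) (nat_lit 359) (nat_lit 218) (nat_lit 143)) (XT.lf (nat_lit 0) (nat_lit 82519617519) (nat_lit 152) (nat_lit 290758535898) (nat_lit 0) (nat_lit 74485508817) (nat_lit 1) (nat_lit 5) (nat_lit 3) (nat_lit 4) (nat_lit 1) (nat_lit 4) (nat_lit 360) (nat_lit 218) (nat_lit 142)))) (XT.nd (nat_lit 156) (nat_lit 0) (nat_lit 0) (XT.nd (nat_lit 78) (nat_lit 0) (nat_lit 0) (XT.lf (nat_lit 0) (nat_lit 88588350858) (nat_lit 152) (nat_lit 300899544905) (nat_lit 0) (nat_lit 80544623472) (nat_lit 1) (nat_lit 5) (nat_lit 3) (nat_lit 4) (nat_lit 1) (nat_lit 4) (nat_lit 361) (nat_lit 218) (nat_lit 141)) (XT.lf (nat_lit 0) (nat_lit 94955397501) (nat_lit 152) (nat_lit 311557171769) (nat_lit 0) (nat_lit 86902509463) (nat_lit 1) (nat_lit 5) (nat_lit 3) (nat_lit 4) (nat_lit 1) (nat_lit 4) (nat_lit 362) (nat_lit 218) (nat_lit 140)))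 (XT.nd (nat_lit 78) (nat_lit 0) (nat_lit 0) (XT.lf (nat_lit 0) (nat_lit 101635917081) (nat_lit 152) (nat_lit 322756791792) (nat_lit 0) (nat_lit 93574304613) (nat_lit 1) (nat_lit 5) (nat_lit 3) (nat_lit 4) (nat_lit 1) (nat_lit 4) (nat_lit 363) (nat_lit 218) (nat_lit 139)) (XT.nd (nat_lit 78) (nat_lit 0) (nat_lit 0) (XT.lf (nat_lit 0) (nat_lit 108645815597) (nat_lit 152) (nat_lit 334525070737) (nat_lit 0) (nat_lit 100575894150) (nat_lit 1) (nat_lit 5) (nat_lit 3) (nat_lit 4) (nat_lit 1) (nat_lit 4) (nat_lit 364) (nat_lit 218) (nat_lit 138)) (XT.lf (nat_lit 0) (nat_lit 116001783286) (nat_lit 152) (nat_lit 346890028315) (nat_lit 0) (nat_lit 107923948523) (nat_lit 1) (nat_lit 5) (nat_lit 3) (nat_lit 4) (nat_lit 1) (nat_lit 4) (nat_lit 365) (nat_lit 218) (nat_lit 137)))))) (XT.nd (nat_lit 312) (nat_lit 228) (nat_lit 0) (XT.nd (nat_lit 156) (nat_lit 152) (nat_lit 0) (XT.nd (nat_lit 78) (nat_lit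 152) (nat_lit 0) (XT.lf (nat_lit 0) (nat_lit 3920089099) (nat_lit 152) (nat_lit 1436827901) (nat_lit 152) (nat_lit 1436827901) (nat_lit 19) (nat_lit 4) (nat_lit 21) (nat_lit 5) (nat_lit 21) (nat_lit 4) (nat_lit 282) (nat_lit 219) (nat_lit 219)) (XT.lf (nat_lit 0) (nat_lit 913286418) (nat_lit 152) (nat_lit 12742896207) (nat_lit 0) (nat_lit 387707222) (nat_lit 17) (nat_lit 5) (nat_lit 19) (nat_lit 4) (nat_lit 17) (nat_lit 4) (nat_lit 283) (nat_lit 219) (nat_lit 218))) (XT.nd (nat_lit 78) (nat_lit 152) (nat_lit 0) (XT.lf (nat_lit 0) (nat_lit 4796329214) (nat_lit 152) (nat_lit 5954250488) (nat_lit 0) (nat_lit 3770198402) (nat_lit 17) (nat_lit 5) (nat_lit 19) (nat_lit 4) (nat_lit 17) (nat_lit 4) (nat_lit 284) (nat_lit 219) (nat_lit 217)) (XT.lf (nat_lit 0) (nat_lit 975092522) (nat_lit 152) (nat_lit 7777740217) (nat_lit 152) (nat_lit 6274893581) (nat_lit 15) (nat_lit 4) (nat_lit 17) (nat_lit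 5) (nat_lit 17) (nat_lit 4) (nat_lit 285) (nat_lit 219) (nat_lit 216)))) (XT.nd (nat_lit 156) (nat_lit 152) (nat_lit 0) (XT.nd (nat_lit 78) (nat_lit 76) (nat_lit 0) (XT.lf (nat_lit 0) (nat_lit 8231385545) (nat_lit 152) (nat_lit 4643638664) (nat_lit 152) (nat_lit 2686776956) (nat_lit 15) (nat_lit 4) (nat_lit 17) (nat_lit 5) (nat_lit 17) (nat_lit 4) (nat_lit 286) (nat_lit 219) (nat_lit 215)) (XT.lf (nat_lit 0) (nat_lit 917276694) (nat_lit 228) (nat_lit 508839790) (nat_lit 76) (nat_lit 14702219841) (nat_lit 14) (nat_lit 5) (nat_lit 17) (nat_lit 5) (nat_lit 15) (nat_lit 4) (nat_lit 287) (nat_lit 219) (nat_lit 214))) (XT.nd (nat_lit 78) (nat_lit 76) (nat_lit 0) (XT.lf (nat_lit 0) (nat_lit 4623272010) (nat_lit 152) (nat_lit 10141677377) (nat_lit 0) (nat_lit 1955593851) (nat_lit 13) (nat_lit 5) (nat_lit 15) (nat_lit 4) (nat_lit 13) (nat_lit 4) (nat_lit 288) (nat_lit 219) (nat_lit 213)) (XT.nd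 (nat_lit 78) (nat_lit 76) (nat_lit 0) (XT.lf (nat_lit 0) (nat_lit 8425250277) (nat_lit 152) (nat_lit 3537665063) (nat_lit 0) (nat_lit 5384052797) (nat_lit 13) (nat_lit 5) (nat_lit 15) (nat_lit 4) (nat_lit 13) (nat_lit 4) (nat_lit 289) (nat_lit 219) (nat_lit 212)) (XT.lf (nat_lit 0) (nat_lit 3301415912) (nat_lit 76) (nat_lit 9051784957) (nat_lit 76) (nat_lit 5654854788) (nat_lit 12) (nat_lit 4) (nat_lit 13) (nat_lit 5) (nat_lit 13) (nat_lit 4) (nat_lit 290) (nat_lit 219) (nat_lit 211))))))) (XT.nd (nat_lit 702) (nat_lit 152) (nat_lit 0) (XT.nd (nat_lit 312) (nat_lit 152) (nat_lit 0) (XT.nd (nat_lit 156) (nat_lit 76) (nat_lit 0) (XT.nd (nat_lit 78) (nat_lit 76) (nat_lit 0) (XT.lf (nat_lit 0) (nat_lit 10407711475) (nat_lit 76) (nat_lit 6016502329) (nat_lit 76) (nat_lit 2280779124) (nat_lit 12) (nat_lit 4) (nat_lit 13) (nat_lit 5) (nat_lit 13) (nat_lit 4) (nat_lit 291) (nat_lit 219) (nat_lit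 210)) (XT.lf (nat_lit 0) (nat_lit 1111867223) (nat_lit 152) (nat_lit 1779055431) (nat_lit 76) (nat_lit 16550472960) (nat_lit 11) (nat_lit 5) (nat_lit 13) (nat_lit 5) (nat_lit 12) (nat_lit 4) (nat_lit 292) (nat_lit 219) (nat_lit 209))) (XT.nd (nat_lit 78) (nat_lit 0) (nat_lit 0) (XT.lf (nat_lit 0) (nat_lit 4577901407) (nat_lit 152) (nat_lit 15215826057) (nat_lit 0) (nat_lit 420112349) (nat_lit 10) (nat_lit 5) (nat_lit 12) (nat_lit 4) (nat_lit 10) (nat_lit 4) (nat_lit 293) (nat_lit 219) (nat_lit 208)) (XT.lf (nat_lit 0) (nat_lit 8191697244) (nat_lit 152) (nat_lit 9079409477) (nat_lit 0) (nat_lit 3755182317) (nat_lit 10) (nat_lit 5) (nat_lit 12) (nat_lit 4) (nat_lit 10) (nat_lit 4) (nat_lit 294) (nat_lit 219) (nat_lit 207)))) (XT.nd (nat_lit 156) (nat_lit 76) (nat_lit 0) (XT.nd (nat_lit 78) (nat_lit 76) (nat_lit 0) (XT.lf (nat_lit 0) (nat_lit 11887558762) (nat_lit 152) (nat_lit 2811243316)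 (nat_lit 0) (nat_lit 7185590626) (nat_lit 10) (nat_lit 5) (nat_lit 12) (nat_lit 4) (nat_lit 10) (nat_lit 4) (nat_lit 295) (nat_lit 219) (nat_lit 206)) (XT.lf (nat_lit 0) (nat_lit 3722747810) (nat_lit 76) (nat_lit 12009660347) (nat_lit 76) (nat_lit 7054879631) (nat_lit 9) (nat_lit 4) (nat_lit 10) (nat_lit 5) (nat_lit 10) (nat_lit 4) (nat_lit 296) (nat_lit 219) (nat_lit 205))) (XT.nd (nat_lit 78) (nat_lit 76) (nat_lit 0) (XT.lf (nat_lit 0) (nat_lit 10516993259) (nat_lit 76) (nat_lit 9208100347) (nat_lit 76) (nat_lit 4012545746) (nat_lit 9) (nat_lit 4) (nat_lit 10) (nat_lit 5) (nat_lit 10) (nat_lit 4) (nat_lit 297) (nat_lit 219) (nat_lit 204)) (XT.nd (nat_lit 78) (nat_lit 76) (nat_lit 0) (XT.lf (nat_lit 0) (nat_lit 17494717403) (nat_lit 76) (nat_lit 6335061465) (nat_lit 76) (nat_lit 910198401) (nat_lit 9) (nat_lit 4) (nat_lit 10) (nat_lit 5) (nat_lit 10) (nat_lit 4) (nat_lit 298) (nat_lit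 219) (nat_lit 203)) (XT.lf (nat_lit 0) (nat_lit 2187229267) (nat_lit 152) (nat_lit 1159432077) (nat_lit 76) (nat_lit 22448262820) (nat_lit 8) (nat_lit 5) (nat_lit 10) (nat_lit 5) (nat_lit 9) (nat_lit 4) (nat_lit 299) (nat_lit 219) (nat_lit 202)))))) (XT.nd (nat_lit 312) (nat_lit 76) (nat_lit 0) (XT.nd (nat_lit 156) (nat_lit 0) (nat_lit 0) (XT.nd (nat_lit 78) (nat_lit 0) (nat_lit 0) (XT.lf (nat_lit 0) (nat_lit 5238988701) (nat_lit 76) (nat_lit 170879743) (nat_lit 152) (nat_lit 21492032656) (nat_lit 7) (nat_lit 5) (nat_lit 8) (nat_lit 5) (nat_lit 9) (nat_lit 4) (nat_lit 300) (nat_lit 219) (nat_lit 201)) (XT.lf (nat_lit 0) (nat_lit 8782774411) (nat_lit 152) (nat_lit 16260556636) (nat_lit 0) (nat_lit 3021510713) (nat_lit 7) (nat_lit 5) (nat_lit 9) (nat_lit 4) (nat_lit 7) (nat_lit 4) (nat_lit 301) (nat_lit 219) (nat_lit 200))) (XT.nd (nat_lit 78) (nat_lit 0) (nat_lit 0) (XT.lf (nat_lit 0)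 (nat_lit 12250730135) (nat_lit 152) (nat_lit 10729150045) (nat_lit 0) (nat_lit 6309797257) (nat_lit 7) (nat_lit 5) (nat_lit 9) (nat_lit 4) (nat_lit 7) (nat_lit 4) (nat_lit 302) (nat_lit 219) (nat_lit 199)) (XT.lf (nat_lit 0) (nat_lit 15819324745) (nat_lit 152) (nat_lit 5052854698) (nat_lit 0) (nat_lit 9707278361) (nat_lit 7) (nat_lit 5) (nat_lit 9) (nat_lit 4) (nat_lit 7) (nat_lit 4) (nat_lit 303) (nat_lit 219) (nat_lit 198)))) (XT.nd (nat_lit 156) (nat_lit 0) (nat_lit 0) (XT.nd (nat_lit 78) (nat_lit 0) (nat_lit 0) (XT.lf (nat_lit 0) (nat_lit 807695699) (nat_lit 76) (nat_lit 18701969587) (nat_lit 76) (nat_lit 12426957960) (nat_lit 6) (nat_lit 4) (nat_lit 7) (nat_lit 5) (nat_lit 7) (nat_lit 4) (nat_lit 304) (nat_lit 219) (nat_lit 197)) (XT.lf (nat_lit 0) (nat_lit 7013309057) (nat_lit 76) (nat_lit 16388865430) (nat_lit 76) (nat_lit 9958648810) (nat_lit 6) (nat_lit 4) (nat_lit 7) (nat_lit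 5) (nat_lit 7) (nat_lit 4) (nat_lit 305) (nat_lit 219) (nat_lit 196))) (XT.nd (nat_lit 78) (nat_lit 0) (nat_lit 0) (XT.lf (nat_lit 0) (nat_lit 13411690450) (nat_lit 76) (nat_lit 14012932122) (nat_lit 76) (nat_lit 7434901222) (nat_lit 6) (nat_lit 4) (nat_lit 7) (nat_lit 5) (nat_lit 7) (nat_lit 4) (nat_lit 306) (nat_lit 219) (nat_lit 195)) (XT.nd (nat_lit 78) (nat_lit 0) (nat_lit 0) (XT.lf (nat_lit 0) (nat_lit 20018074119) (nat_lit 76) (nat_lit 11568512679) (nat_lit 76) (nat_lit 4849706275) (nat_lit 6) (nat_lit 4) (nat_lit 7) (nat_lit 5) (nat_lit 7) (nat_lit 4) (nat_lit 307) (nat_lit 219) (nat_lit 194)) (XT.lf (nat_lit 0) (nat_lit 26848189550) (nat_lit 76) (nat_lit 9049787054) (nat_lit 76) (nat_lit 2196908741) (nat_lit 6) (nat_lit 4) (nat_lit 7) (nat_lit 5) (nat_lit 7) (nat_lit 4) (nat_lit 308) (nat_lit 219) (nat_lit 193))))))))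
noncomputable def xc50 : XT := (XT.nd (nat_lit 1404) (nat_lit 152) (nat_lit 0) (XT.nd (nat_lit 702) (nat_lit 76) (nat_lit 0) (XT.nd (nat_lit 312) (nat_lit 0) (nat_lit 0) (XT.nd (nat_lit 156) (nat_lit 76) (nat_lit 0) (XT.nd (nat_lit 78) (nat_lit 0) (nat_lit 0) (XT.lf (nat_lit 0) (nat_lit 512850412) (nat_lit 152) (nat_lit 5929222498) (nat_lit 76) (nat_lit 33396763139) (nat_lit 5) (nat_lit 5) (nat_lit 7) (nat_lit 5) (nat_lit 6) (nat_lit 4) (nat_lit 309) (nat_lit 219) (nat_lit 192)) (XT.lf (nat_lit 0) (nat_lit 3230132067) (nat_lit 152) (nat_lit 480402281) (nat_lit 76) (nat_lit 37960399911) (nat_lit 5) (nat_lit 5) (nat_lit 7) (nat_lit 5) (nat_lit 6) (nat_lit 4) (nat_lit 310) (nat_lit 219) (nat_lit 191))) (XT.nd (nat_lit 78) (nat_lit 0) (nat_lit 0) (XT.lf (nat_lit 0) (nat_lit 5317222467) (nat_lit 76) (nat_lit 797515016) (nat_lit 152) (nat_lit 37478368784) (nat_lit 4) (nat_lit 5) (nat_lit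 5) (nat_lit 5) (nat_lit 6) (nat_lit 4) (nat_lit 311) (nat_lit 219) (nat_lit 190)) (XT.lf (nat_lit 0) (nat_lit 9135950156) (nat_lit 152) (nat_lit 34319232039) (nat_lit 0) (nat_lit 2156625712) (nat_lit 4) (nat_lit 5) (nat_lit 6) (nat_lit 4) (nat_lit 4) (nat_lit 4) (nat_lit 312) (nat_lit 219) (nat_lit 189)))) (XT.nd (nat_lit 156) (nat_lit 0) (nat_lit 0) (XT.nd (nat_lit 78) (nat_lit 0) (nat_lit 0) (XT.lf (nat_lit 0) (nat_lit 12272540139) (nat_lit 152) (nat_lit 30267557462) (nat_lit 0) (nat_lit 5193169173) (nat_lit 4) (nat_lit 5) (nat_lit 6) (nat_lit 4) (nat_lit 4) (nat_lit 4) (nat_lit 313) (nat_lit 219) (nat_lit 188)) (XT.lf (nat_lit 0) (nat_lit 15519524061) (nat_lit 152) (nat_lit 26098761782) (nat_lit 0) (nat_lit 8344870693) (nat_lit 4) (nat_lit 5) (nat_lit 6) (nat_lit 4) (nat_lit 4) (nat_lit 4) (nat_lit 314) (nat_lit 219) (nat_lit 187))) (XT.nd (nat_lit 78) (nat_lit 0) (nat_lit 0) (XT.lf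 (nat_lit 0) (nat_lit 18884632836) (nat_lit 152) (nat_lit 21802919295) (nat_lit 0) (nat_lit 11619234322) (nat_lit 4) (nat_lit 5) (nat_lit 6) (nat_lit 4) (nat_lit 4) (nat_lit 4) (nat_lit 315) (nat_lit 219) (nat_lit 186)) (XT.nd (nat_lit 78) (nat_lit 0) (nat_lit 0) (XT.lf (nat_lit 0) (nat_lit 22375878627) (nat_lit 152) (nat_lit 17369801803) (nat_lit 0) (nat_lit 15024056165) (nat_lit 4) (nat_lit 5) (nat_lit 6) (nat_lit 4) (nat_lit 4) (nat_lit 4) (nat_lit 316) (nat_lit 219) (nat_lit 185)) (XT.lf (nat_lit 0) (nat_lit 26001573924) (nat_lit 152) (nat_lit 12788854266) (nat_lit 0) (nat_lit 18567442941) (nat_lit 4) (nat_lit 5) (nat_lit 6) (nat_lit 4) (nat_lit 4) (nat_lit 4) (nat_lit 317) (nat_lit 219) (nat_lit 184)))))) (XT.nd (nat_lit 312) (nat_lit 0) (nat_lit 0) (XT.nd (nat_lit 156) (nat_lit 76) (nat_lit 0) (XT.nd (nat_lit 78) (nat_lit 0) (nat_lit 0) (XT.lf (nat_lit 0) (nat_lit 29770351336)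 (nat_lit 152) (nat_lit 8049169666) (nat_lit 0) (nat_lit 22257831284) (nat_lit 4) (nat_lit 5) (nat_lit 6) (nat_lit 4) (nat_lit 4) (nat_lit 4) (nat_lit 318) (nat_lit 219) (nat_lit 183)) (XT.lf (nat_lit 0) (nat_lit 33691184141) (nat_lit 152) (nat_lit 3139463038) (nat_lit 0) (nat_lit 26104007833) (nat_lit 4) (nat_lit 5) (nat_lit 6) (nat_lit 4) (nat_lit 4) (nat_lit 4) (nat_lit 319) (nat_lit 219) (nat_lit 182))) (XT.nd (nat_lit 78) (nat_lit 0) (nat_lit 0) (XT.lf (nat_lit 0) (nat_lit 2016495853) (nat_lit 76) (nat_lit 35788394953) (nat_lit 76) (nat_lit 28130117450) (nat_lit 3) (nat_lit 4) (nat_lit 4) (nat_lit 5) (nat_lit 4) (nat_lit 4) (nat_lit 320) (nat_lit 219) (nat_lit 181)) (XT.lf (nat_lit 0) (nat_lit 7476502836) (nat_lit 76) (nat_lit 34666967785) (nat_lit 76) (nat_lit 26940974858) (nat_lit 3) (nat_lit 4) (nat_lit 4) (nat_lit 5) (nat_lit 4) (nat_lit 4) (nat_lit 321) (nat_lit 219) (nat_lit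 180)))) (XT.nd (nat_lit 156) (nat_lit 0) (nat_lit 0) (XT.nd (nat_lit 78) (nat_lit 0) (nat_lit 0) (XT.lf (nat_lit 0) (nat_lit 13149753100) (nat_lit 76) (nat_lit 33516863937) (nat_lit 76) (nat_lit 25726380128) (nat_lit 3) (nat_lit 4) (nat_lit 4) (nat_lit 5) (nat_lit 4) (nat_lit 4) (nat_lit 322) (nat_lit 219) (nat_lit 179)) (XT.lf (nat_lit 0) (nat_lit 19049754384) (nat_lit 76) (nat_lit 32335345064) (nat_lit 76) (nat_lit 24483441370) (nat_lit 3) (nat_lit 4) (nat_lit 4) (nat_lit 5) (nat_lit 4) (nat_lit 4) (nat_lit 323) (nat_lit 219) (nat_lit 178))) (XT.nd (nat_lit 78) (nat_lit 0) (nat_lit 0) (XT.lf (nat_lit 0) (nat_lit 25190554310) (nat_lit 76) (nat_lit 31119598029) (nat_lit 76) (nat_lit 23209199204) (nat_lit 3) (nat_lit 4) (nat_lit 4) (nat_lit 5) (nat_lit 4) (nat_lit 4) (nat_lit 324) (nat_lit 219) (nat_lit 177)) (XT.nd (nat_lit 78) (nat_lit 0) (nat_lit 0) (XT.lf (nat_lit 0) (nat_lit 31586773830)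 (nat_lit 76) (nat_lit 29866728194) (nat_lit 76) (nat_lit 21900619722) (nat_lit 3) (nat_lit 4) (nat_lit 4) (nat_lit 5) (nat_lit 4) (nat_lit 4) (nat_lit 325) (nat_lit 219) (nat_lit 176)) (XT.lf (nat_lit 0) (nat_lit 38253642038) (nat_lit 76) (nat_lit 28573752536) (nat_lit 76) (nat_lit 20554587257) (nat_lit 3) (nat_lit 4) (nat_lit 4) (nat_lit 5) (nat_lit 4) (nat_lit 4) (nat_lit 326) (nat_lit 219) (nat_lit 175))))))) (XT.nd (nat_lit 702) (nat_lit 152) (nat_lit 0) (XT.nd (nat_lit 312) (nat_lit 0) (nat_lit 0) (XT.nd (nat_lit 156) (nat_lit 0) (nat_lit 0) (XT.nd (nat_lit 78) (nat_lit 0) (nat_lit 0) (XT.lf (nat_lit 0) (nat_lit 45207032429) (nat_lit 76) (nat_lit 27237592542) (nat_lit 76) (nat_lit 19167896971) (nat_lit 3) (nat_lit 4) (nat_lit 4) (nat_lit 5) (nat_lit 4) (nat_lit 4) (nat_lit 327) (nat_lit 219) (nat_lit 174)) (XT.lf (nat_lit 0) (nat_lit 52463500696) (nat_lit 76) (nat_lit 25855066878)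 (nat_lit 76) (nat_lit 17737247219) (nat_lit 3) (nat_lit 4) (nat_lit 4) (nat_lit 5) (nat_lit 4) (nat_lit 4) (nat_lit 328) (nat_lit 219) (nat_lit 173))) (XT.nd (nat_lit 78) (nat_lit 0) (nat_lit 0) (XT.lf (nat_lit 0) (nat_lit 60040324144) (nat_lit 76) (nat_lit 24422883818) (nat_lit 76) (nat_lit 16259231694) (nat_lit 3) (nat_lit 4) (nat_lit 4) (nat_lit 5) (nat_lit 4) (nat_lit 4) (nat_lit 329) (nat_lit 219) (nat_lit 172)) (XT.lf (nat_lit 0) (nat_lit 67955542828) (nat_lit 76) (nat_lit 22937633400) (nat_lit 76) (nat_lit 14730331310) (nat_lit 3) (nat_lit 4) (nat_lit 4) (nat_lit 5) (nat_lit 4) (nat_lit 4) (nat_lit 330) (nat_lit 219) (nat_lit 171)))) (XT.nd (nat_lit 156) (nat_lit 0) (nat_lit 0) (XT.nd (nat_lit 78) (nat_lit 0) (nat_lit 0) (XT.lf (nat_lit 0) (nat_lit 76228002508) (nat_lit 76) (nat_lit 21395779315) (nat_lit 76) (nat_lit 13146905828) (nat_lit 3) (nat_lit 4) (nat_lit 4) (nat_lit 5)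 (nat_lit 4) (nat_lit 4) (nat_lit 331) (nat_lit 219) (nat_lit 170)) (XT.lf (nat_lit 0) (nat_lit 84877399515) (nat_lit 76) (nat_lit 19793650481) (nat_lit 76) (nat_lit 11505185188) (nat_lit 3) (nat_lit 4) (nat_lit 4) (nat_lit 5) (nat_lit 4) (nat_lit 4) (nat_lit 332) (nat_lit 219) (nat_lit 169))) (XT.nd (nat_lit 78) (nat_lit 0) (nat_lit 0) (XT.lf (nat_lit 0) (nat_lit 93924327652) (nat_lit 76) (nat_lit 18127432306) (nat_lit 76) (nat_lit 9801260530) (nat_lit 3) (nat_lit 4) (nat_lit 4) (nat_lit 5) (nat_lit 4) (nat_lit 4) (nat_lit 333) (nat_lit 219) (nat_lit 168)) (XT.nd (nat_lit 78) (nat_lit 0) (nat_lit 0) (XT.lf (nat_lit 0) (nat_lit 103390327225) (nat_lit 76) (nat_lit 16393157603) (nat_lit 76) (nat_lit 8031074893) (nat_lit 3) (nat_lit 4) (nat_lit 4) (nat_lit 5) (nat_lit 4) (nat_lit 4) (nat_lit 334) (nat_lit 219) (nat_lit 167)) (XT.lf (nat_lit 0) (nat_lit 113297936327) (nat_lit 76) (nat_lit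 14586697149) (nat_lit 76) (nat_lit 6190413547) (nat_lit 3) (nat_lit 4) (nat_lit 4) (nat_lit 5) (nat_lit 4) (nat_lit 4) (nat_lit 335) (nat_lit 219) (nat_lit 166)))))) (XT.nd (nat_lit 312) (nat_lit 76) (nat_lit 0) (XT.nd (nat_lit 156) (nat_lit 76) (nat_lit 0) (XT.nd (nat_lit 78) (nat_lit 0) (nat_lit 0) (XT.lf (nat_lit 0) (nat_lit 123670744505) (nat_lit 76) (nat_lit 12703749845) (nat_lit 76) (nat_lit 4274893966) (nat_lit 3) (nat_lit 4) (nat_lit 4) (nat_lit 5) (nat_lit 4) (nat_lit 4) (nat_lit 336) (nat_lit 219) (nat_lit 165)) (XT.lf (nat_lit 0) (nat_lit 134533448919) (nat_lit 76) (nat_lit 10739832484) (nat_lit 76) (nat_lit 2279955389) (nat_lit 3) (nat_lit 4) (nat_lit 4) (nat_lit 5) (nat_lit 4) (nat_lit 4) (nat_lit 337) (nat_lit 219) (nat_lit 164))) (XT.nd (nat_lit 78) (nat_lit 76) (nat_lit 0) (XT.lf (nat_lit 0) (nat_lit 145911913153) (nat_lit 76) (nat_lit 8690269072) (nat_lit 76) (nat_lit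 200847962) (nat_lit 3) (nat_lit 4) (nat_lit 4) (nat_lit 5) (nat_lit 4) (nat_lit 4) (nat_lit 338) (nat_lit 219) (nat_lit 163)) (XT.lf (nat_lit 0) (nat_lit 1904410169) (nat_lit 152) (nat_lit 4613517420) (nat_lit 76) (nat_lit 155896566511) (nat_lit 2) (nat_lit 5) (nat_lit 4) (nat_lit 5) (nat_lit 3) (nat_lit 4) (nat_lit 339) (nat_lit 219) (nat_lit 162)))) (XT.nd (nat_lit 156) (nat_lit 0) (nat_lit 0) (XT.nd (nat_lit 78) (nat_lit 76) (nat_lit 0) (XT.lf (nat_lit 0) (nat_lit 4094503863) (nat_lit 152) (nat_lit 150622640) (nat_lit 76) (nat_lit 166161933641) (nat_lit 2) (nat_lit 5) (nat_lit 4) (nat_lit 5) (nat_lit 3) (nat_lit 4) (nat_lit 340) (nat_lit 219) (nat_lit 161)) (XT.lf (nat_lit 0) (nat_lit 4660493956) (nat_lit 76) (nat_lit 1793345433) (nat_lit 152) (nat_lit 172342437472) (nat_lit 1) (nat_lit 5) (nat_lit 2) (nat_lit 5) (nat_lit 3) (nat_lit 4) (nat_lit 341) (nat_lit 219) (nat_lit 160)))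 (XT.nd (nat_lit 78) (nat_lit 0) (nat_lit 0) (XT.lf (nat_lit 0) (nat_lit 8932981875) (nat_lit 152) (nat_lit 177923843372) (nat_lit 0) (nat_lit 748045944) (nat_lit 1) (nat_lit 5) (nat_lit 3) (nat_lit 4) (nat_lit 1) (nat_lit 4) (nat_lit 342) (nat_lit 219) (nat_lit 159)) (XT.nd (nat_lit 78) (nat_lit 0) (nat_lit 0) (XT.lf (nat_lit 0) (nat_lit 11553150604) (nat_lit 152) (nat_lit 181953731073) (nat_lit 0) (nat_lit 3346168475) (nat_lit 1) (nat_lit 5) (nat_lit 3) (nat_lit 4) (nat_lit 1) (nat_lit 4) (nat_lit 343) (nat_lit 219) (nat_lit 158)) (XT.lf (nat_lit 0) (nat_lit 14292584926) (nat_lit 152) (nat_lit 186207041832) (nat_lit 0) (nat_lit 6064606416) (nat_lit 1) (nat_lit 5) (nat_lit 3) (nat_lit 4) (nat_lit 1) (nat_lit 4) (nat_lit 344) (nat_lit 219) (nat_lit 157))))))))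
noncomputable def xc51 : XT := (XT.nd (nat_lit 1404) (nat_lit 0) (nat_lit 0) (XT.nd (nat_lit 702) (nat_lit 0) (nat_lit 0) (XT.nd (nat_lit 312) (nat_lit 0) (nat_lit 0) (XT.nd (nat_lit 156) (nat_lit 0) (nat_lit 0) (XT.nd (nat_lit 78) (nat_lit 0) (nat_lit 0) (XT.lf (nat_lit 0) (nat_lit 17157807302) (nat_lit 152) (nat_lit 190693902578) (nat_lit 0) (nat_lit 8909832240) (nat_lit 1) (nat_lit 5) (nat_lit 3) (nat_lit 4) (nat_lit 1) (nat_lit 4) (nat_lit 345) (nat_lit 219) (nat_lit 156)) (XT.lf (nat_lit 0) (nat_lit 20155639692) (nat_lit 152) (nat_lit 195424996313) (nat_lit 0) (nat_lit 11888620295) (nat_lit 1) (nat_lit 5) (nat_lit 3) (nat_lit 4) (nat_lit 1) (nat_lit 4) (nat_lit 346) (nat_lit 219) (nat_lit 155))) (XT.nd (nat_lit 78) (nat_lit 0) (nat_lit 0) (XT.lf (nat_lit 0) (nat_lit 23293219792) (nat_lit 152) (nat_lit 200411587547) (nat_lit 0) (nat_lit 15008062931) (nat_lit 1) (nat_lit 5) (nat_lit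 3) (nat_lit 4) (nat_lit 1) (nat_lit 4) (nat_lit 347) (nat_lit 219) (nat_lit 154)) (XT.lf (nat_lit 0) (nat_lit 26578018029) (nat_lit 152) (nat_lit 205665549115) (nat_lit 0) (nat_lit 18275587395) (nat_lit 1) (nat_lit 5) (nat_lit 3) (nat_lit 4) (nat_lit 1) (nat_lit 4) (nat_lit 348) (nat_lit 219) (nat_lit 153)))) (XT.nd (nat_lit 156) (nat_lit 0) (nat_lit 0) (XT.nd (nat_lit 78) (nat_lit 0) (nat_lit 0) (XT.lf (nat_lit 0) (nat_lit 30017855353) (nat_lit 152) (nat_lit 211199390450) (nat_lit 0) (nat_lit 21698973505) (nat_lit 1) (nat_lit 5) (nat_lit 3) (nat_lit 4) (nat_lit 1) (nat_lit 4) (nat_lit 349) (nat_lit 219) (nat_lit 152)) (XT.lf (nat_lit 0) (nat_lit 33620921852) (nat_lit 152) (nat_lit 217026287364) (nat_lit 0) (nat_lit 25286372182) (nat_lit 1) (nat_lit 5) (nat_lit 3) (nat_lit 4) (nat_lit 1) (nat_lit 4) (nat_lit 350) (nat_lit 219) (nat_lit 151))) (XT.nd (nat_lit 78) (nat_lit 0) (nat_lit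 0) (XT.lf (nat_lit 0) (nat_lit 37395796256) (nat_lit 152) (nat_lit 223160113422) (nat_lit 0) (nat_lit 29046324851) (nat_lit 1) (nat_lit 5) (nat_lit 3) (nat_lit 4) (nat_lit 1) (nat_lit 4) (nat_lit 351) (nat_lit 219) (nat_lit 150)) (XT.nd (nat_lit 78) (nat_lit 0) (nat_lit 0) (XT.lf (nat_lit 0) (nat_lit 41351466361) (nat_lit 152) (nat_lit 229615472972) (nat_lit 0) (nat_lit 32987783779) (nat_lit 1) (nat_lit 5) (nat_lit 3) (nat_lit 4) (nat_lit 1) (nat_lit 4) (nat_lit 352) (nat_lit 219) (nat_lit 149)) (XT.lf (nat_lit 0) (nat_lit 45497350429) (nat_lit 152) (nat_lit 236407735916) (nat_lit 0) (nat_lit 37120133394) (nat_lit 1) (nat_lit 5) (nat_lit 3) (nat_lit 4) (nat_lit 1) (nat_lit 4) (nat_lit 353) (nat_lit 219) (nat_lit 148)))))) (XT.nd (nat_lit 312) (nat_lit 0) (nat_lit 0) (XT.nd (nat_lit 156) (nat_lit 0) (nat_lit 0) (XT.nd (nat_lit 78) (nat_lit 0) (nat_lit 0) (XT.lf (nat_lit 0) (nat_lit 49843319613)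 (nat_lit 152) (nat_lit 243553074310) (nat_lit 0) (nat_lit 41453212622) (nat_lit 1) (nat_lit 5) (nat_lit 3) (nat_lit 4) (nat_lit 1) (nat_lit 4) (nat_lit 354) (nat_lit 219) (nat_lit 147)) (XT.lf (nat_lit 0) (nat_lit 54399721459) (nat_lit 152) (nat_lit 251068500864) (nat_lit 0) (nat_lit 45997338319) (nat_lit 1) (nat_lit 5) (nat_lit 3) (nat_lit 4) (nat_lit 1) (nat_lit 4) (nat_lit 355) (nat_lit 219) (nat_lit 146))) (XT.nd (nat_lit 78) (nat_lit 0) (nat_lit 0) (XT.lf (nat_lit 0) (nat_lit 59177404542) (nat_lit 152) (nat_lit 258971909451) (nat_lit 0) (nat_lit 50763329832) (nat_lit 1) (nat_lit 5) (nat_lit 3) (nat_lit 4) (nat_lit 1) (nat_lit 4) (nat_lit 356) (nat_lit 219) (nat_lit 145)) (XT.lf (nat_lit 0) (nat_lit 64187744299) (nat_lit 152) (nat_lit 267282117710) (nat_lit 0) (nat_lit 55762534759) (nat_lit 1) (nat_lit 5) (nat_lit 3) (nat_lit 4) (nat_lit 1) (nat_lit 4) (nat_lit 357) (nat_lit 219)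 (nat_lit 144)))) (XT.nd (nat_lit 156) (nat_lit 0) (nat_lit 0) (XT.nd (nat_lit 78) (nat_lit 0) (nat_lit 0) (XT.lf (nat_lit 0) (nat_lit 69442670109) (nat_lit 152) (nat_lit 276018911852) (nat_lit 0) (nat_lit 61006855971) (nat_lit 1) (nat_lit 5) (nat_lit 3) (nat_lit 4) (nat_lit 1) (nat_lit 4) (nat_lit 358) (nat_lit 219) (nat_lit 143)) (XT.lf (nat_lit 0) (nat_lit 74954693700) (nat_lit 152) (nat_lit 285203093767) (nat_lit 0) (nat_lit 66508779945) (nat_lit 1) (nat_lit 5) (nat_lit 3) (nat_lit 4) (nat_lit 1) (nat_lit 4) (nat_lit 359) (nat_lit 219) (nat_lit 142))) (XT.nd (nat_lit 78) (nat_lit 0) (nat_lit 0) (XT.lf (nat_lit 0) (nat_lit 80736938940) (nat_lit 152) (nat_lit 294856530555) (nat_lit 0) (nat_lit 72281406500) (nat_lit 1) (nat_lit 5) (nat_lit 3) (nat_lit 4) (nat_lit 1) (nat_lit 4) (nat_lit 360) (nat_lit 219) (nat_lit 141)) (XT.nd (nat_lit 78) (nat_lit 0) (nat_lit 0) (XT.lf (nat_lit 0)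 (nat_lit 86803173077) (nat_lit 152) (nat_lit 305002206590) (nat_lit 0) (nat_lit 78338479986) (nat_lit 1) (nat_lit 5) (nat_lit 3) (nat_lit 4) (nat_lit 1) (nat_lit 4) (nat_lit 361) (nat_lit 219) (nat_lit 140)) (XT.lf (nat_lit 0) (nat_lit 93167839526) (nat_lit 152) (nat_lit 315664278242) (nat_lit 0) (nat_lit 84694422006) (nat_lit 1) (nat_lit 5) (nat_lit 3) (nat_lit 4) (nat_lit 1) (nat_lit 4) (nat_lit 362) (nat_lit 219) (nat_lit 139))))))) (XT.nd (nat_lit 31512) (nat_lit 0) (nat_lit 684) (XT.nd (nat_lit 31122) (nat_lit 0) (nat_lit 1064) (XT.nd (nat_lit 156) (nat_lit 0) (nat_lit 0) (XT.nd (nat_lit 78) (nat_lit 0) (nat_lit 0) (XT.lf (nat_lit 0) (nat_lit 99846092257) (nat_lit 152) (nat_lit 326868131397) (nat_lit 0) (nat_lit 91364365756) (nat_lit 1) (nat_lit 5) (nat_lit 3) (nat_lit 4) (nat_lit 1) (nat_lit 4) (nat_lit 363) (nat_lit 219) (nat_lit 138)) (XT.lf (nat_lit 0) (nat_lit 106853831869)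 (nat_lit 152) (nat_lit 338640441896) (nat_lit 0) (nat_lit 98364192053) (nat_lit 1) (nat_lit 5) (nat_lit 3) (nat_lit 4) (nat_lit 1) (nat_lit 4) (nat_lit 364) (nat_lit 219) (nat_lit 137))) (XT.nd (nat_lit 30888) (nat_lit 0) (nat_lit 1520) (XT.lf (nat_lit 0) (nat_lit 114207743458) (nat_lit 152) (nat_lit 351009239050) (nat_lit 0) (nat_lit 105710567152) (nat_lit 1) (nat_lit 5) (nat_lit 3) (nat_lit 4) (nat_lit 1) (nat_lit 4) (nat_lit 365) (nat_lit 219) (nat_lit 136)) (XT.lf (nat_lit 0) (nat_lit 1582429387) (nat_lit 152) (nat_lit 3208649566) (nat_lit 0) (nat_lit 1582429387) (nat_lit 21) (nat_lit 5) (nat_lit 23) (nat_lit 4) (nat_lit 21) (nat_lit 4) (nat_lit 280) (nat_lit 220) (nat_lit 220)))) (XT.nd (nat_lit 156) (nat_lit 304) (nat_lit 0) (XT.nd (nat_lit 78) (nat_lit 0) (nat_lit 0) (XT.lf (nat_lit 0) (nat_lit 487490853) (nat_lit 152) (nat_lit 6624894699) (nat_lit 152) (nat_lit 6045443635) (nat_lit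 19) (nat_lit 4) (nat_lit 21) (nat_lit 5) (nat_lit 21) (nat_lit 4) (nat_lit 281) (nat_lit 220) (nat_lit 219)) (XT.lf (nat_lit 0) (nat_lit 7725762698) (nat_lit 152) (nat_lit 3498299824) (nat_lit 152) (nat_lit 2366990604) (nat_lit 19) (nat_lit 4) (nat_lit 21) (nat_lit 5) (nat_lit 21) (nat_lit 4) (nat_lit 282) (nat_lit 220) (nat_lit 218))) (XT.nd (nat_lit 78) (nat_lit 152) (nat_lit 0) (XT.lf (nat_lit 0) (nat_lit 1062550017) (nat_lit 76) (nat_lit 264005316) (nat_lit 152) (nat_lit 12724454000) (nat_lit 17) (nat_lit 5) (nat_lit 18) (nat_lit 5) (nat_lit 19) (nat_lit 4) (nat_lit 283) (nat_lit 220) (nat_lit 217)) (XT.nd (nat_lit 78) (nat_lit 152) (nat_lit 0) (XT.lf (nat_lit 0) (nat_lit 5139176102) (nat_lit 152) (nat_lit 6307859561) (nat_lit 0) (nat_lit 3084471309) (nat_lit 17) (nat_lit 5) (nat_lit 19) (nat_lit 4) (nat_lit 17) (nat_lit 4) (nat_lit 284) (nat_lit 220) (nat_lit 216)) (XT.lf (nat_lit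 0) (nat_lit 499432868) (nat_lit 152) (nat_lit 8525677365) (nat_lit 152) (nat_lit 6016957501) (nat_lit 15) (nat_lit 4) (nat_lit 17) (nat_lit 5) (nat_lit 17) (nat_lit 4) (nat_lit 285) (nat_lit 220) (nat_lit 215)))))) (XT.nd (nat_lit 390) (nat_lit 152) (nat_lit 0) (XT.nd (nat_lit 156) (nat_lit 152) (nat_lit 0) (XT.nd (nat_lit 78) (nat_lit 76) (nat_lit 0) (XT.lf (nat_lit 0) (nat_lit 7650622399) (nat_lit 152) (nat_lit 5434902142) (nat_lit 152) (nat_lit 2493786972) (nat_lit 15) (nat_lit 4) (nat_lit 17) (nat_lit 5) (nat_lit 17) (nat_lit 4) (nat_lit 286) (nat_lit 220) (nat_lit 214)) (XT.lf (nat_lit 0) (nat_lit 1044216065) (nat_lit 228) (nat_lit 1212277287) (nat_lit 76) (nat_lit 13892268977) (nat_lit 14) (nat_lit 5) (nat_lit 17) (nat_lit 5) (nat_lit 15) (nat_lit 4) (nat_lit 287) (nat_lit 220) (nat_lit 213))) (XT.nd (nat_lit 78) (nat_lit 76) (nat_lit 0) (XT.lf (nat_lit 0) (nat_lit 4666469016)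 (nat_lit 152) (nat_lit 10979064177) (nat_lit 0) (nat_lit 1099692339) (nat_lit 13) (nat_lit 5) (nat_lit 15) (nat_lit 4) (nat_lit 13) (nat_lit 4) (nat_lit 288) (nat_lit 220) (nat_lit 212)) (XT.nd (nat_lit 78) (nat_lit 76) (nat_lit 0) (XT.lf (nat_lit 0) (nat_lit 8412022433) (nat_lit 152) (nat_lit 4473002049) (nat_lit 0) (nat_lit 4489513068) (nat_lit 13) (nat_lit 5) (nat_lit 15) (nat_lit 4) (nat_lit 13) (nat_lit 4) (nat_lit 289) (nat_lit 220) (nat_lit 211)) (XT.lf (nat_lit 0) (nat_lit 2238782118) (nat_lit 76) (nat_lit 10030862263) (nat_lit 76) (nat_lit 5769559861) (nat_lit 12) (nat_lit 4) (nat_lit 13) (nat_lit 5) (nat_lit 13) (nat_lit 4) (nat_lit 290) (nat_lit 220) (nat_lit 210))))) (XT.nd (nat_lit 156) (nat_lit 76) (nat_lit 0) (XT.nd (nat_lit 78) (nat_lit 76) (nat_lit 0) (XT.lf (nat_lit 0) (nat_lit 9253296401) (nat_lit 76) (nat_lit 7034748949) (nat_lit 76) (nat_lit 2450786513) (nat_lit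 12) (nat_lit 4) (nat_lit 13) (nat_lit 5) (nat_lit 13) (nat_lit 4) (nat_lit 291) (nat_lit 220) (nat_lit 209)) (XT.lf (nat_lit 0) (nat_lit 896317992) (nat_lit 152) (nat_lit 3053805821) (nat_lit 76) (nat_lit 15527846804) (nat_lit 11) (nat_lit 5) (nat_lit 13) (nat_lit 5) (nat_lit 12) (nat_lit 4) (nat_lit 292) (nat_lit 220) (nat_lit 208))) (XT.nd (nat_lit 78) (nat_lit 0) (nat_lit 0) (XT.lf (nat_lit 0) (nat_lit 3600516410) (nat_lit 76) (nat_lit 684574457) (nat_lit 152) (nat_lit 15969238631) (nat_lit 10) (nat_lit 5) (nat_lit 11) (nat_lit 5) (nat_lit 12) (nat_lit 4) (nat_lit 293) (nat_lit 220) (nat_lit 207)) (XT.nd (nat_lit 78) (nat_lit 0) (nat_lit 0) (XT.lf (nat_lit 0) (nat_lit 7840089257) (nat_lit 152) (nat_lit 10592108991) (nat_lit 0) (nat_lit 2637569505) (nat_lit 10) (nat_lit 5) (nat_lit 12) (nat_lit 4) (nat_lit 10) (nat_lit 4) (nat_lit 294) (nat_lit 220) (nat_lit 206)) (XT.lf (nat_lit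 0) (nat_lit 11490132373) (nat_lit 152) (nat_lit 4405276743) (nat_lit 0) (nat_lit 6034800041) (nat_lit 10) (nat_lit 5) (nat_lit 12) (nat_lit 4) (nat_lit 10) (nat_lit 4) (nat_lit 295) (nat_lit 220) (nat_lit 205))))))))
noncomputable def xc52 : XT := (XT.nd (nat_lit 1404) (nat_lit 76) (nat_lit 0) (XT.nd (nat_lit 702) (nat_lit 228) (nat_lit 0) (XT.nd (nat_lit 312) (nat_lit 76) (nat_lit 0) (XT.nd (nat_lit 156) (nat_lit 76) (nat_lit 0) (XT.nd (nat_lit 78) (nat_lit 0) (nat_lit 0) (XT.lf (nat_lit 0) (nat_lit 1995986364) (nat_lit 76) (nat_lit 13268399245) (nat_lit 76) (nat_lit 7572293027) (nat_lit 9) (nat_lit 4) (nat_lit 10) (nat_lit 5) (nat_lit 10) (nat_lit 4) (nat_lit 296) (nat_lit 220) (nat_lit 204)) (XT.lf (nat_lit 0) (nat_lit 8714020311) (nat_lit 76) (nat_lit 10500302229) (nat_lit 76) (nat_lit 4574887549) (nat_lit 9) (nat_lit 4) (nat_lit 10) (nat_lit 5) (nat_lit 10) (nat_lit 4) (nat_lit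 297) (nat_lit 220) (nat_lit 203))) (XT.nd (nat_lit 78) (nat_lit 76) (nat_lit 0) (XT.lf (nat_lit 0) (nat_lit 15619162074) (nat_lit 76) (nat_lit 7659132855) (nat_lit 76) (nat_lit 1515329163) (nat_lit 9) (nat_lit 4) (nat_lit 10) (nat_lit 5) (nat_lit 10) (nat_lit 4) (nat_lit 298) (nat_lit 220) (nat_lit 202)) (XT.lf (nat_lit 0) (nat_lit 1562019377) (nat_lit 152) (nat_lit 3149653502) (nat_lit 76) (nat_lit 21139379535) (nat_lit 8) (nat_lit 5) (nat_lit 10) (nat_lit 5) (nat_lit 9) (nat_lit 4) (nat_lit 299) (nat_lit 220) (nat_lit 201)))) (XT.nd (nat_lit 156) (nat_lit 0) (nat_lit 0) (XT.nd (nat_lit 78) (nat_lit 0) (nat_lit 0) (XT.lf (nat_lit 0) (nat_lit 3113631074) (nat_lit 76) (nat_lit 1600276034) (nat_lit 152) (nat_lit 22247694751) (nat_lit 7) (nat_lit 5) (nat_lit 8) (nat_lit 5) (nat_lit 9) (nat_lit 4) (nat_lit 300) (nat_lit 220) (nat_lit 200)) (XT.lf (nat_lit 0) (nat_lit 8027229438) (nat_lit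 152) (nat_lit 18490744800) (nat_lit 0) (nat_lit 1609580735) (nat_lit 7) (nat_lit 5) (nat_lit 9) (nat_lit 4) (nat_lit 7) (nat_lit 4) (nat_lit 301) (nat_lit 220) (nat_lit 199))) (XT.nd (nat_lit 78) (nat_lit 0) (nat_lit 0) (XT.lf (nat_lit 0) (nat_lit 11459693015) (nat_lit 152) (nat_lit 13023573123) (nat_lit 0) (nat_lit 4870930807) (nat_lit 7) (nat_lit 5) (nat_lit 9) (nat_lit 4) (nat_lit 7) (nat_lit 4) (nat_lit 302) (nat_lit 220) (nat_lit 198)) (XT.nd (nat_lit 78) (nat_lit 0) (nat_lit 0) (XT.lf (nat_lit 0) (nat_lit 14994485579) (nat_lit 152) (nat_lit 7408453885) (nat_lit 0) (nat_lit 8242758128) (nat_lit 7) (nat_lit 5) (nat_lit 9) (nat_lit 4) (nat_lit 7) (nat_lit 4) (nat_lit 303) (nat_lit 220) (nat_lit 197)) (XT.lf (nat_lit 0) (nat_lit 18640023303) (nat_lit 152) (nat_lit 1632017755) (nat_lit 0) (nat_lit 11733090858) (nat_lit 7) (nat_lit 5) (nat_lit 9) (nat_lit 4) (nat_lit 7) (nat_lit 4)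 (nat_lit 304) (nat_lit 220) (nat_lit 196)))))) (XT.nd (nat_lit 312) (nat_lit 152) (nat_lit 0) (XT.nd (nat_lit 156) (nat_lit 0) (nat_lit 0) (XT.nd (nat_lit 78) (nat_lit 0) (nat_lit 0) (XT.lf (nat_lit 0) (nat_lit 4462310490) (nat_lit 76) (nat_lit 18012344720) (nat_lit 76) (nat_lit 10957597996) (nat_lit 6) (nat_lit 4) (nat_lit 7) (nat_lit 5) (nat_lit 7) (nat_lit 4) (nat_lit 305) (nat_lit 220) (nat_lit 195)) (XT.lf (nat_lit 0) (nat_lit 10806098325) (nat_lit 76) (nat_lit 15660953134) (nat_lit 76) (nat_lit 8465430906) (nat_lit 6) (nat_lit 4) (nat_lit 7) (nat_lit 5) (nat_lit 7) (nat_lit 4) (nat_lit 306) (nat_lit 220) (nat_lit 194))) (XT.nd (nat_lit 78) (nat_lit 0) (nat_lit 0) (XT.lf (nat_lit 0) (nat_lit 17360488130) (nat_lit 76) (nat_lit 13239906759) (nat_lit 76) (nat_lit 5910312622) (nat_lit 6) (nat_lit 4) (nat_lit 7) (nat_lit 5) (nat_lit 7) (nat_lit 4) (nat_lit 307) (nat_lit 220) (nat_lit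 193)) (XT.lf (nat_lit 0) (nat_lit 24141085594) (nat_lit 76) (nat_lit 10743441199) (nat_lit 76) (nat_lit 3286159530) (nat_lit 6) (nat_lit 4) (nat_lit 7) (nat_lit 5) (nat_lit 7) (nat_lit 4) (nat_lit 308) (nat_lit 220) (nat_lit 192)))) (XT.nd (nat_lit 156) (nat_lit 76) (nat_lit 0) (XT.nd (nat_lit 78) (nat_lit 76) (nat_lit 0) (XT.lf (nat_lit 0) (nat_lit 31164034998) (nat_lit 76) (nat_lit 8165612489) (nat_lit 76) (nat_lit 586723646) (nat_lit 6) (nat_lit 4) (nat_lit 7) (nat_lit 5) (nat_lit 7) (nat_lit 4) (nat_lit 309) (nat_lit 220) (nat_lit 191)) (XT.lf (nat_lit 0) (nat_lit 2124187041) (nat_lit 152) (nat_lit 3340121764) (nat_lit 76) (nat_lit 36285896472) (nat_lit 5) (nat_lit 5) (nat_lit 7) (nat_lit 5) (nat_lit 6) (nat_lit 4) (nat_lit 310) (nat_lit 220) (nat_lit 190))) (XT.nd (nat_lit 78) (nat_lit 0) (nat_lit 0) (XT.lf (nat_lit 0) (nat_lit 2317919661) (nat_lit 76) (nat_lit 2620093095) (nat_lit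 152) (nat_lit 38737922968) (nat_lit 4) (nat_lit 5) (nat_lit 5) (nat_lit 5) (nat_lit 6) (nat_lit 4) (nat_lit 311) (nat_lit 220) (nat_lit 189)) (XT.nd (nat_lit 78) (nat_lit 0) (nat_lit 0) (XT.lf (nat_lit 0) (nat_lit 7906985809) (nat_lit 152) (nat_lit 37416682290) (nat_lit 0) (nat_lit 373599772) (nat_lit 4) (nat_lit 5) (nat_lit 6) (nat_lit 4) (nat_lit 4) (nat_lit 4) (nat_lit 312) (nat_lit 220) (nat_lit 188)) (XT.lf (nat_lit 0) (nat_lit 11020924300) (nat_lit 152) (nat_lit 33406696799) (nat_lit 0) (nat_lit 3392255860) (nat_lit 4) (nat_lit 5) (nat_lit 6) (nat_lit 4) (nat_lit 4) (nat_lit 4) (nat_lit 313) (nat_lit 220) (nat_lit 187))))))) (XT.nd (nat_lit 702) (nat_lit 0) (nat_lit 0) (XT.nd (nat_lit 312) (nat_lit 76) (nat_lit 0) (XT.nd (nat_lit 156) (nat_lit 0) (nat_lit 0) (XT.nd (nat_lit 78) (nat_lit 0) (nat_lit 0) (XT.lf (nat_lit 0) (nat_lit 14246335372) (nat_lit 152) (nat_lit 29277605010)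 (nat_lit 0) (nat_lit 6526921787) (nat_lit 4) (nat_lit 5) (nat_lit 6) (nat_lit 4) (nat_lit 4) (nat_lit 4) (nat_lit 314) (nat_lit 220) (nat_lit 186)) (XT.lf (nat_lit 0) (nat_lit 17590898574) (nat_lit 152) (nat_lit 25019575752) (nat_lit 0) (nat_lit 9785061042) (nat_lit 4) (nat_lit 5) (nat_lit 6) (nat_lit 4) (nat_lit 4) (nat_lit 4) (nat_lit 315) (nat_lit 220) (nat_lit 185))) (XT.nd (nat_lit 78) (nat_lit 0) (nat_lit 0) (XT.lf (nat_lit 0) (nat_lit 21062577154) (nat_lit 152) (nat_lit 20622470860) (nat_lit 0) (nat_lit 13174431100) (nat_lit 4) (nat_lit 5) (nat_lit 6) (nat_lit 4) (nat_lit 4) (nat_lit 4) (nat_lit 316) (nat_lit 220) (nat_lit 184)) (XT.lf (nat_lit 0) (nat_lit 24669637012) (nat_lit 152) (nat_lit 16075821037) (nat_lit 0) (nat_lit 16703101889) (nat_lit 4) (nat_lit 5) (nat_lit 6) (nat_lit 4) (nat_lit 4) (nat_lit 4) (nat_lit 317) (nat_lit 220) (nat_lit 183)))) (XT.nd (nat_lit 156) (nat_lit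 76) (nat_lit 0) (XT.nd (nat_lit 78) (nat_lit 0) (nat_lit 0) (XT.lf (nat_lit 0) (nat_lit 28420666386) (nat_lit 152) (nat_lit 11368800926) (nat_lit 0) (nat_lit 20379475007) (nat_lit 4) (nat_lit 5) (nat_lit 6) (nat_lit 4) (nat_lit 4) (nat_lit 4) (nat_lit 318) (nat_lit 220) (nat_lit 182)) (XT.lf (nat_lit 0) (nat_lit 32324596298) (nat_lit 152) (nat_lit 6490203336) (nat_lit 0) (nat_lit 24212303724) (nat_lit 4) (nat_lit 5) (nat_lit 6) (nat_lit 4) (nat_lit 4) (nat_lit 4) (nat_lit 319) (nat_lit 220) (nat_lit 181))) (XT.nd (nat_lit 78) (nat_lit 76) (nat_lit 0) (XT.lf (nat_lit 0) (nat_lit 36390721819) (nat_lit 152) (nat_lit 1428412559) (nat_lit 0) (nat_lit 28210713821) (nat_lit 4) (nat_lit 5) (nat_lit 6) (nat_lit 4) (nat_lit 4) (nat_lit 4) (nat_lit 320) (nat_lit 220) (nat_lit 180)) (XT.nd (nat_lit 78) (nat_lit 0) (nat_lit 0) (XT.lf (nat_lit 0) (nat_lit 3955214864) (nat_lit 76) (nat_lit 36735261326)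 (nat_lit 76) (nat_lit 28490762447) (nat_lit 3) (nat_lit 4) (nat_lit 4) (nat_lit 5) (nat_lit 4) (nat_lit 4) (nat_lit 321) (nat_lit 220) (nat_lit 179)) (XT.lf (nat_lit 0) (nat_lit 9600703424) (nat_lit 76) (nat_lit 35597884389) (nat_lit 76) (nat_lit 27291965623) (nat_lit 3) (nat_lit 4) (nat_lit 4) (nat_lit 5) (nat_lit 4) (nat_lit 4) (nat_lit 322) (nat_lit 220) (nat_lit 178)))))) (XT.nd (nat_lit 312) (nat_lit 0) (nat_lit 0) (XT.nd (nat_lit 156) (nat_lit 0) (nat_lit 0) (XT.nd (nat_lit 78) (nat_lit 0) (nat_lit 0) (XT.lf (nat_lit 0) (nat_lit 15474264990) (nat_lit 76) (nat_lit 34428486385) (nat_lit 76) (nat_lit 26064072490) (nat_lit 3) (nat_lit 4) (nat_lit 4) (nat_lit 5) (nat_lit 4) (nat_lit 4) (nat_lit 323) (nat_lit 220) (nat_lit 177)) (XT.lf (nat_lit 0) (nat_lit 21589884231) (nat_lit 76) (nat_lit 33224283033) (nat_lit 76) (nat_lit 24804159491) (nat_lit 3) (nat_lit 4) (nat_lit 4) (nat_lit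 5) (nat_lit 4) (nat_lit 4) (nat_lit 324) (nat_lit 220) (nat_lit 176))) (XT.nd (nat_lit 78) (nat_lit 0) (nat_lit 0) (XT.lf (nat_lit 0) (nat_lit 27962122147) (nat_lit 76) (nat_lit 31982407183) (nat_lit 76) (nat_lit 23509226834) (nat_lit 3) (nat_lit 4) (nat_lit 4) (nat_lit 5) (nat_lit 4) (nat_lit 4) (nat_lit 325) (nat_lit 220) (nat_lit 175)) (XT.lf (nat_lit 0) (nat_lit 34606150732) (nat_lit 76) (nat_lit 30699901987) (nat_lit 76) (nat_lit 22176191345) (nat_lit 3) (nat_lit 4) (nat_lit 4) (nat_lit 5) (nat_lit 4) (nat_lit 4) (nat_lit 326) (nat_lit 220) (nat_lit 174)))) (XT.nd (nat_lit 156) (nat_lit 0) (nat_lit 0) (XT.nd (nat_lit 78) (nat_lit 0) (nat_lit 0) (XT.lf (nat_lit 0) (nat_lit 41537789103) (nat_lit 76) (nat_lit 29373713862) (nat_lit 76) (nat_lit 20801879132) (nat_lit 3) (nat_lit 4) (nat_lit 4) (nat_lit 5) (nat_lit 4) (nat_lit 4) (nat_lit 327) (nat_lit 220) (nat_lit 173)) (XT.lf (nat_lit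 0) (nat_lit 48773541158) (nat_lit 76) (nat_lit 28000685216) (nat_lit 76) (nat_lit 19383018021) (nat_lit 3) (nat_lit 4) (nat_lit 4) (nat_lit 5) (nat_lit 4) (nat_lit 4) (nat_lit 328) (nat_lit 220) (nat_lit 172))) (XT.nd (nat_lit 78) (nat_lit 0) (nat_lit 0) (XT.lf (nat_lit 0) (nat_lit 56330634881) (nat_lit 76) (nat_lit 26577546933) (nat_lit 76) (nat_lit 17916229772) (nat_lit 3) (nat_lit 4) (nat_lit 4) (nat_lit 5) (nat_lit 4) (nat_lit 4) (nat_lit 329) (nat_lit 220) (nat_lit 171)) (XT.nd (nat_lit 78) (nat_lit 0) (nat_lit 0) (XT.lf (nat_lit 0) (nat_lit 64227063351) (nat_lit 76) (nat_lit 25100910591) (nat_lit 76) (nat_lit 16398022033) (nat_lit 3) (nat_lit 4) (nat_lit 4) (nat_lit 5) (nat_lit 4) (nat_lit 4) (nat_lit 330) (nat_lit 220) (nat_lit 170)) (XT.lf (nat_lit 0) (nat_lit 72481627589) (nat_lit 76) (nat_lit 23567260386) (nat_lit 76) (nat_lit 14824780022) (nat_lit 3) (nat_lit 4) (nat_lit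 4) (nat_lit 5) (nat_lit 4) (nat_lit 4) (nat_lit 331) (nat_lit 220) (nat_lit 169))))))))
noncomputable def xc53 : XT := (XT.nd (nat_lit 1404) (nat_lit 0) (nat_lit 0) (XT.nd (nat_lit 702) (nat_lit 76) (nat_lit 0) (XT.nd (nat_lit 312) (nat_lit 76) (nat_lit 0) (XT.nd (nat_lit 156) (nat_lit 0) (nat_lit 0) (XT.nd (nat_lit 78) (nat_lit 0) (nat_lit 0) (XT.lf (nat_lit 0) (nat_lit 81113981318) (nat_lit 76) (nat_lit 21972944772) (nat_lit 76) (nat_lit 13192757926) (nat_lit 3) (nat_lit 4) (nat_lit 4) (nat_lit 5) (nat_lit 4) (nat_lit 4) (nat_lit 332) (nat_lit 220) (nat_lit 168)) (XT.lf (nat_lit 0) (nat_lit 90144677762) (nat_lit 76) (nat_lit 20314167759) (nat_lit 76) (nat_lit 11498069977) (nat_lit 3) (nat_lit 4) (nat_lit 4) (nat_lit 5) (nat_lit 4) (nat_lit 4) (nat_lit 333) (nat_lit 220) (nat_lit 167))) (XT.nd (nat_lit 78) (nat_lit 0) (nat_lit 0) (XT.lf (nat_lit 0) (nat_lit 99595218579) (nat_lit 76)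 (nat_lit 18586979877) (nat_lit 76) (nat_lit 9736681205) (nat_lit 3) (nat_lit 4) (nat_lit 4) (nat_lit 5) (nat_lit 4) (nat_lit 4) (nat_lit 334) (nat_lit 220) (nat_lit 166)) (XT.lf (nat_lit 0) (nat_lit 109488105057) (nat_lit 76) (nat_lit 16787268775) (nat_lit 76) (nat_lit 7904397826) (nat_lit 3) (nat_lit 4) (nat_lit 4) (nat_lit 5) (nat_lit 4) (nat_lit 4) (nat_lit 335) (nat_lit 220) (nat_lit 165)))) (XT.nd (nat_lit 156) (nat_lit 76) (nat_lit 0) (XT.nd (nat_lit 78) (nat_lit 0) (nat_lit 0) (XT.lf (nat_lit 0) (nat_lit 119846891687) (nat_lit 76) (nat_lit 14910749426) (nat_lit 76) (nat_lit 5996857261) (nat_lit 3) (nat_lit 4) (nat_lit 4) (nat_lit 5) (nat_lit 4) (nat_lit 4) (nat_lit 336) (nat_lit 220) (nat_lit 164)) (XT.lf (nat_lit 0) (nat_lit 130696242248) (nat_lit 76) (nat_lit 12952953928) (nat_lit 76) (nat_lit 4009517747) (nat_lit 3) (nat_lit 4) (nat_lit 4) (nat_lit 5) (nat_lit 4) (nat_lit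 4) (nat_lit 337) (nat_lit 220) (nat_lit 163))) (XT.nd (nat_lit 78) (nat_lit 76) (nat_lit 0) (XT.lf (nat_lit 0) (nat_lit 142061988525) (nat_lit 76) (nat_lit 10909220861) (nat_lit 76) (nat_lit 1937647522) (nat_lit 3) (nat_lit 4) (nat_lit 4) (nat_lit 5) (nat_lit 4) (nat_lit 4) (nat_lit 338) (nat_lit 220) (nat_lit 162)) (XT.nd (nat_lit 78) (nat_lit 0) (nat_lit 0) (XT.lf (nat_lit 0) (nat_lit 216527072) (nat_lit 152) (nat_lit 8554490132) (nat_lit 76) (nat_lit 153750997757) (nat_lit 2) (nat_lit 5) (nat_lit 4) (nat_lit 5) (nat_lit 3) (nat_lit 4) (nat_lit 339) (nat_lit 220) (nat_lit 161)) (XT.lf (nat_lit 0) (nat_lit 2400266510) (nat_lit 152) (nat_lit 4103345515) (nat_lit 76) (nat_lit 164011291194) (nat_lit 2) (nat_lit 5) (nat_lit 4) (nat_lit 5) (nat_lit 3) (nat_lit 4) (nat_lit 340) (nat_lit 220) (nat_lit 160)))))) (XT.nd (nat_lit 312) (nat_lit 0) (nat_lit 0) (XT.nd (nat_lit 156) (nat_lit 0)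 (nat_lit 0) (XT.nd (nat_lit 78) (nat_lit 0) (nat_lit 0) (XT.lf (nat_lit 0) (nat_lit 565515567) (nat_lit 76) (nat_lit 4124100708) (nat_lit 152) (nat_lit 174218007236) (nat_lit 1) (nat_lit 5) (nat_lit 2) (nat_lit 5) (nat_lit 3) (nat_lit 4) (nat_lit 341) (nat_lit 220) (nat_lit 159)) (XT.lf (nat_lit 0) (nat_lit 5587707814) (nat_lit 76) (nat_lit 1563050293) (nat_lit 152) (nat_lit 180566363850) (nat_lit 1) (nat_lit 5) (nat_lit 2) (nat_lit 5) (nat_lit 3) (nat_lit 4) (nat_lit 342) (nat_lit 220) (nat_lit 158))) (XT.nd (nat_lit 78) (nat_lit 0) (nat_lit 0) (XT.lf (nat_lit 0) (nat_lit 9740795024) (nat_lit 152) (nat_lit 186145595162) (nat_lit 0) (nat_lit 1080421209) (nat_lit 1) (nat_lit 5) (nat_lit 3) (nat_lit 4) (nat_lit 1) (nat_lit 4) (nat_lit 343) (nat_lit 220) (nat_lit 157)) (XT.lf (nat_lit 0) (nat_lit 12474773902) (nat_lit 152) (nat_lit 190409093457) (nat_lit 0) (nat_lit 3794403534) (nat_lit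 1) (nat_lit 5) (nat_lit 3) (nat_lit 4) (nat_lit 1) (nat_lit 4) (nat_lit 344) (nat_lit 220) (nat_lit 156)))) (XT.nd (nat_lit 156) (nat_lit 0) (nat_lit 0) (XT.nd (nat_lit 78) (nat_lit 0) (nat_lit 0) (XT.lf (nat_lit 0) (nat_lit 15334800617) (nat_lit 152) (nat_lit 194905656619) (nat_lit 0) (nat_lit 6635385914) (nat_lit 1) (nat_lit 5) (nat_lit 3) (nat_lit 4) (nat_lit 1) (nat_lit 4) (nat_lit 345) (nat_lit 220) (nat_lit 155)) (XT.lf (nat_lit 0) (nat_lit 18327684758) (nat_lit 152) (nat_lit 199645990750) (nat_lit 0) (nat_lit 9610132592) (nat_lit 1) (nat_lit 5) (nat_lit 3) (nat_lit 4) (nat_lit 1) (nat_lit 4) (nat_lit 346) (nat_lit 220) (nat_lit 154))) (XT.nd (nat_lit 78) (nat_lit 0) (nat_lit 0) (XT.lf (nat_lit 0) (nat_lit 21460552240) (nat_lit 152) (nat_lit 204641382361) (nat_lit 0) (nat_lit 12725726300) (nat_lit 1) (nat_lit 5) (nat_lit 3) (nat_lit 4) (nat_lit 1) (nat_lit 4) (nat_lit 347) (nat_lit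 220) (nat_lit 153)) (XT.nd (nat_lit 78) (nat_lit 0) (nat_lit 0) (XT.lf (nat_lit 0) (nat_lit 24740862270) (nat_lit 152) (nat_lit 209903725240) (nat_lit 0) (nat_lit 15989585116) (nat_lit 1) (nat_lit 5) (nat_lit 3) (nat_lit 4) (nat_lit 1) (nat_lit 4) (nat_lit 348) (nat_lit 220) (nat_lit 152)) (XT.lf (nat_lit 0) (nat_lit 28176425110) (nat_lit 152) (nat_lit 215445548776) (nat_lit 0) (nat_lit 19409480134) (nat_lit 1) (nat_lit 5) (nat_lit 3) (nat_lit 4) (nat_lit 1) (nat_lit 4) (nat_lit 349) (nat_lit 220) (nat_lit 151))))))) (XT.nd (nat_lit 702) (nat_lit 0) (nat_lit 0) (XT.nd (nat_lit 312) (nat_lit 0) (nat_lit 0) (XT.nd (nat_lit 156) (nat_lit 0) (nat_lit 0) (XT.nd (nat_lit 78) (nat_lit 0) (nat_lit 0) (XT.lf (nat_lit 0) (nat_lit 31775420672) (nat_lit 152) (nat_lit 221280047787) (nat_lit 0) (nat_lit 22993553961) (nat_lit 1) (nat_lit 5) (nat_lit 3) (nat_lit 4) (nat_lit 1) (nat_lit 4) (nat_lit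 350) (nat_lit 220) (nat_lit 150)) (XT.lf (nat_lit 0) (nat_lit 35546417994) (nat_lit 152) (nat_lit 227421113937) (nat_lit 0) (nat_lit 26750340106) (nat_lit 1) (nat_lit 5) (nat_lit 3) (nat_lit 4) (nat_lit 1) (nat_lit 4) (nat_lit 351) (nat_lit 220) (nat_lit 149))) (XT.nd (nat_lit 78) (nat_lit 0) (nat_lit 0) (XT.lf (nat_lit 0) (nat_lit 39498395639) (nat_lit 152) (nat_lit 233883368812) (nat_lit 0) (nat_lit 30688783298) (nat_lit 1) (nat_lit 5) (nat_lit 3) (nat_lit 4) (nat_lit 1) (nat_lit 4) (nat_lit 352) (nat_lit 220) (nat_lit 148)) (XT.lf (nat_lit 0) (nat_lit 43640763080) (nat_lit 152) (nat_lit 240682198733) (nat_lit 0) (nat_lit 34818260782) (nat_lit 1) (nat_lit 5) (nat_lit 3) (nat_lit 4) (nat_lit 1) (nat_lit 4) (nat_lit 353) (nat_lit 220) (nat_lit 147)))) (XT.nd (nat_lit 156) (nat_lit 0) (nat_lit 0) (XT.nd (nat_lit 78) (nat_lit 0) (nat_lit 0) (XT.lf (nat_lit 0) (nat_lit 47983383094) (nat_lit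 152) (nat_lit 247833791391) (nat_lit 0) (nat_lit 39148604648) (nat_lit 1) (nat_lit 5) (nat_lit 3) (nat_lit 4) (nat_lit 1) (nat_lit 4) (nat_lit 354) (nat_lit 220) (nat_lit 146)) (XT.lf (nat_lit 0) (nat_lit 52536595255) (nat_lit 152) (nat_lit 255355174386) (nat_lit 0) (nat_lit 43690125239) (nat_lit 1) (nat_lit 5) (nat_lit 3) (nat_lit 4) (nat_lit 1) (nat_lit 4) (nat_lit 355) (nat_lit 220) (nat_lit 145))) (XT.nd (nat_lit 78) (nat_lit 0) (nat_lit 0) (XT.lf (nat_lit 0) (nat_lit 57311240542) (nat_lit 152) (nat_lit 263264255775) (nat_lit 0) (nat_lit 48453635697) (nat_lit 1) (nat_lit 5) (nat_lit 3) (nat_lit 4) (nat_lit 1) (nat_lit 4) (nat_lit 356) (nat_lit 220) (nat_lit 144)) (XT.nd (nat_lit 78) (nat_lit 0) (nat_lit 0) (XT.lf (nat_lit 0) (nat_lit 62318687160) (nat_lit 152) (nat_lit 271579866702) (nat_lit 0) (nat_lit 53450477716) (nat_lit 1) (nat_lit 5) (nat_lit 3) (nat_lit 4) (nat_lit 1) (nat_lit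 4) (nat_lit 357) (nat_lit 220) (nat_lit 143)) (XT.lf (nat_lit 0) (nat_lit 67570857600) (nat_lit 152) (nat_lit 280321806242) (nat_lit 0) (nat_lit 58692548538) (nat_lit 1) (nat_lit 5) (nat_lit 3) (nat_lit 4) (nat_lit 1) (nat_lit 4) (nat_lit 358) (nat_lit 220) (nat_lit 142)))))) (XT.nd (nat_lit 312) (nat_lit 0) (nat_lit 0) (XT.nd (nat_lit 156) (nat_lit 0) (nat_lit 0) (XT.nd (nat_lit 78) (nat_lit 0) (nat_lit 0) (XT.lf (nat_lit 0) (nat_lit 73080257029) (nat_lit 152) (nat_lit 289510888536) (nat_lit 0) (nat_lit 64192329284) (nat_lit 1) (nat_lit 5) (nat_lit 3) (nat_lit 4) (nat_lit 1) (nat_lit 4) (nat_lit 359) (nat_lit 220) (nat_lit 141)) (XT.lf (nat_lit 0) (nat_lit 78860003067) (nat_lit 152) (nat_lit 299168992352) (nat_lit 0) (nat_lit 69962914670) (nat_lit 1) (nat_lit 5) (nat_lit 3) (nat_lit 4) (nat_lit 1) (nat_lit 4) (nat_lit 360) (nat_lit 220) (nat_lit 140))) (XT.nd (nat_lit 78) (nat_lit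 0) (nat_lit 0) (XT.lf (nat_lit 0) (nat_lit 84923857012) (nat_lit 152) (nat_lit 309319113175) (nat_lit 0) (nat_lit 76018044186) (nat_lit 1) (nat_lit 5) (nat_lit 3) (nat_lit 4) (nat_lit 1) (nat_lit 4) (nat_lit 361) (nat_lit 220) (nat_lit 139)) (XT.lf (nat_lit 0) (nat_lit 91286256612) (nat_lit 152) (nat_lit 319985417959) (nat_lit 0) (nat_lit 82372134805) (nat_lit 1) (nat_lit 5) (nat_lit 3) (nat_lit 4) (nat_lit 1) (nat_lit 4) (nat_lit 362) (nat_lit 220) (nat_lit 138)))) (XT.nd (nat_lit 156) (nat_lit 0) (nat_lit 0) (XT.nd (nat_lit 78) (nat_lit 0) (nat_lit 0) (XT.lf (nat_lit 0) (nat_lit 97962350437) (nat_lit 152) (nat_lit 331193302669) (nat_lit 0) (nat_lit 89040315316) (nat_lit 1) (nat_lit 5) (nat_lit 3) (nat_lit 4) (nat_lit 1) (nat_lit 4) (nat_lit 363) (nat_lit 220) (nat_lit 137)) (XT.lf (nat_lit 0) (nat_lit 104968033950) (nat_lit 152) (nat_lit 342969452743) (nat_lit 0) (nat_lit 96038462338)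 (nat_lit 1) (nat_lit 5) (nat_lit 3) (nat_lit 4) (nat_lit 1) (nat_lit 4) (nat_lit 364) (nat_lit 220) (nat_lit 136))) (XT.nd (nat_lit 30732) (nat_lit 0) (nat_lit 1672) (XT.lf (nat_lit 0) (nat_lit 112319987348) (nat_lit 152) (nat_lit 355341906635) (nat_lit 0) (nat_lit 103383238127) (nat_lit 1) (nat_lit 5) (nat_lit 3) (nat_lit 4) (nat_lit 1) (nat_lit 4) (nat_lit 365) (nat_lit 220) (nat_lit 135)) (XT.nd (nat_lit 78) (nat_lit 0) (nat_lit 0) (XT.lf (nat_lit 0) (nat_lit 2163310643) (nat_lit 152) (nat_lit 1915277640) (nat_lit 152) (nat_lit 1915277640) (nat_lit 23) (nat_lit 4) (nat_lit 25) (nat_lit 5) (nat_lit 25) (nat_lit 4) (nat_lit 278) (nat_lit 221) (nat_lit 221)) (XT.lf (nat_lit 0) (nat_lit 11531846149) (nat_lit 152) (nat_lit 734098691) (nat_lit 152) (nat_lit 95253893) (nat_lit 23) (nat_lit 4) (nat_lit 25) (nat_lit 5) (nat_lit 25) (nat_lit 4) (nat_lit 279) (nat_lit 221) (nat_lit 220))))))))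
noncomputable def xc54 : XT := (XT.nd (nat_lit 1404) (nat_lit 380) (nat_lit 0) (XT.nd (nat_lit 702) (nat_lit 304) (nat_lit 0) (XT.nd (nat_lit 312) (nat_lit 304) (nat_lit 0) (XT.nd (nat_lit 156) (nat_lit 152) (nat_lit 0) (XT.nd (nat_lit 78) (nat_lit 152) (nat_lit 0) (XT.lf (nat_lit 0) (nat_lit 3702474386) (nat_lit 152) (nat_lit 6533590297) (nat_lit 0) (nat_lit 2514599705) (nat_lit 21) (nat_lit 5) (nat_lit 23) (nat_lit 4) (nat_lit 21) (nat_lit 4) (nat_lit 280) (nat_lit 221) (nat_lit 219)) (XT.lf (nat_lit 0) (nat_lit 252939077) (nat_lit 152) (nat_lit 7325963880) (nat_lit 152) (nat_lit 5586231042) (nat_lit 19) (nat_lit 4) (nat_lit 21) (nat_lit 5) (nat_lit 21) (nat_lit 4) (nat_lit 281) (nat_lit 221) (nat_lit 218))) (XT.nd (nat_lit 78) (nat_lit 152) (nat_lit 0) (XT.lf (nat_lit 0) (nat_lit 7382243779) (nat_lit 152) (nat_lit 4242409918) (nat_lit 152) (nat_lit 1977097883) (nat_lit 19) (nat_lit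 4) (nat_lit 21) (nat_lit 5) (nat_lit 21) (nat_lit 4) (nat_lit 282) (nat_lit 221) (nat_lit 217)) (XT.lf (nat_lit 0) (nat_lit 580848334) (nat_lit 76) (nat_lit 1051694096) (nat_lit 152) (nat_lit 12432520601) (nat_lit 17) (nat_lit 5) (nat_lit 18) (nat_lit 5) (nat_lit 19) (nat_lit 4) (nat_lit 283) (nat_lit 221) (nat_lit 216)))) (XT.nd (nat_lit 156) (nat_lit 304) (nat_lit 0) (XT.nd (nat_lit 78) (nat_lit 0) (nat_lit 0) (XT.lf (nat_lit 0) (nat_lit 5369722157) (nat_lit 152) (nat_lit 6898143415) (nat_lit 0) (nat_lit 2281551229) (nat_lit 17) (nat_lit 5) (nat_lit 19) (nat_lit 4) (nat_lit 17) (nat_lit 4) (nat_lit 284) (nat_lit 221) (nat_lit 215)) (XT.lf (nat_lit 0) (nat_lit 9187722538) (nat_lit 152) (nat_lit 208575481) (nat_lit 0) (nat_lit 5667156304) (nat_lit 17) (nat_lit 5) (nat_lit 19) (nat_lit 4) (nat_lit 17) (nat_lit 4) (nat_lit 285) (nat_lit 221) (nat_lit 214))) (XT.nd (nat_lit 78) (nat_lit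 152) (nat_lit 0) (XT.lf (nat_lit 0) (nat_lit 6835619036) (nat_lit 152) (nat_lit 6350318294) (nat_lit 152) (nat_lit 2417947007) (nat_lit 15) (nat_lit 4) (nat_lit 17) (nat_lit 5) (nat_lit 17) (nat_lit 4) (nat_lit 286) (nat_lit 221) (nat_lit 213)) (XT.nd (nat_lit 78) (nat_lit 76) (nat_lit 0) (XT.lf (nat_lit 0) (nat_lit 1060606080) (nat_lit 228) (nat_lit 2150324111) (nat_lit 76) (nat_lit 12965266061) (nat_lit 14) (nat_lit 5) (nat_lit 17) (nat_lit 5) (nat_lit 15) (nat_lit 4) (nat_lit 287) (nat_lit 221) (nat_lit 212)) (XT.lf (nat_lit 0) (nat_lit 4596154929) (nat_lit 152) (nat_lit 12059118198) (nat_lit 0) (nat_lit 121787408) (nat_lit 13) (nat_lit 5) (nat_lit 15) (nat_lit 4) (nat_lit 13) (nat_lit 4) (nat_lit 288) (nat_lit 221) (nat_lit 211)))))) (XT.nd (nat_lit 312) (nat_lit 152) (nat_lit 0) (XT.nd (nat_lit 156) (nat_lit 76) (nat_lit 0) (XT.nd (nat_lit 78) (nat_lit 76) (nat_lit 0) (XT.lf (nat_lit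 0) (nat_lit 8287970394) (nat_lit 152) (nat_lit 5646341961) (nat_lit 0) (nat_lit 3474809836) (nat_lit 13) (nat_lit 5) (nat_lit 15) (nat_lit 4) (nat_lit 13) (nat_lit 4) (nat_lit 289) (nat_lit 221) (nat_lit 210)) (XT.lf (nat_lit 0) (nat_lit 934865010) (nat_lit 76) (nat_lit 11139190528) (nat_lit 76) (nat_lit 6003369936) (nat_lit 12) (nat_lit 4) (nat_lit 13) (nat_lit 5) (nat_lit 13) (nat_lit 4) (nat_lit 290) (nat_lit 221) (nat_lit 209))) (XT.nd (nat_lit 78) (nat_lit 76) (nat_lit 0) (XT.lf (nat_lit 0) (nat_lit 7861968550) (nat_lit 76) (nat_lit 8180381323) (nat_lit 76) (nat_lit 2737265460) (nat_lit 12) (nat_lit 4) (nat_lit 13) (nat_lit 5) (nat_lit 13) (nat_lit 4) (nat_lit 291) (nat_lit 221) (nat_lit 208)) (XT.lf (nat_lit 0) (nat_lit 570452790) (nat_lit 152) (nat_lit 4566349805) (nat_lit 76) (nat_lit 14384654514) (nat_lit 11) (nat_lit 5) (nat_lit 13) (nat_lit 5) (nat_lit 12) (nat_lit 4) (nat_lit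 292) (nat_lit 221) (nat_lit 207)))) (XT.nd (nat_lit 156) (nat_lit 76) (nat_lit 0) (XT.nd (nat_lit 78) (nat_lit 0) (nat_lit 0) (XT.lf (nat_lit 0) (nat_lit 1954424931) (nat_lit 76) (nat_lit 1932857422) (nat_lit 152) (nat_lit 16414179959) (nat_lit 10) (nat_lit 5) (nat_lit 11) (nat_lit 5) (nat_lit 12) (nat_lit 4) (nat_lit 293) (nat_lit 221) (nat_lit 206)) (XT.lf (nat_lit 0) (nat_lit 7376973146) (nat_lit 152) (nat_lit 12347178003) (nat_lit 0) (nat_lit 1396061617) (nat_lit 10) (nat_lit 5) (nat_lit 12) (nat_lit 4) (nat_lit 10) (nat_lit 4) (nat_lit 294) (nat_lit 221) (nat_lit 205))) (XT.nd (nat_lit 78) (nat_lit 76) (nat_lit 0) (XT.lf (nat_lit 0) (nat_lit 10983379687) (nat_lit 152) (nat_lit 6237806624) (nat_lit 0) (nat_lit 4761694274) (nat_lit 10) (nat_lit 5) (nat_lit 12) (nat_lit 4) (nat_lit 10) (nat_lit 4) (nat_lit 295) (nat_lit 221) (nat_lit 204)) (XT.nd (nat_lit 78) (nat_lit 0) (nat_lit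 0) (XT.lf (nat_lit 0) (nat_lit 26653268) (nat_lit 76) (nat_lit 14658674205) (nat_lit 76) (nat_lit 8207680328) (nat_lit 9) (nat_lit 4) (nat_lit 10) (nat_lit 5) (nat_lit 10) (nat_lit 4) (nat_lit 296) (nat_lit 221) (nat_lit 203)) (XT.lf (nat_lit 0) (nat_lit 6672104835) (nat_lit 76) (nat_lit 11922446698) (nat_lit 76) (nat_lit 5253063809) (nat_lit 9) (nat_lit 4) (nat_lit 10) (nat_lit 5) (nat_lit 10) (nat_lit 4) (nat_lit 297) (nat_lit 221) (nat_lit 202))))))) (XT.nd (nat_lit 702) (nat_lit 152) (nat_lit 0) (XT.nd (nat_lit 312) (nat_lit 76) (nat_lit 0) (XT.nd (nat_lit 156) (nat_lit 76) (nat_lit 0) (XT.nd (nat_lit 78) (nat_lit 76) (nat_lit 0) (XT.lf (nat_lit 0) (nat_lit 13508120520) (nat_lit 76) (nat_lit 9111629236) (nat_lit 76) (nat_lit 2234256813) (nat_lit 9) (nat_lit 4) (nat_lit 10) (nat_lit 5) (nat_lit 10) (nat_lit 4) (nat_lit 298) (nat_lit 221) (nat_lit 201)) (XT.lf (nat_lit 0) (nat_lit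 828533244) (nat_lit 152) (nat_lit 5376964542) (nat_lit 76) (nat_lit 19708411696) (nat_lit 8) (nat_lit 5) (nat_lit 10) (nat_lit 5) (nat_lit 9) (nat_lit 4) (nat_lit 299) (nat_lit 221) (nat_lit 200))) (XT.nd (nat_lit 78) (nat_lit 0) (nat_lit 0) (XT.lf (nat_lit 0) (nat_lit 746646030) (nat_lit 76) (nat_lit 3161040001) (nat_lit 152) (nat_lit 23120442916) (nat_lit 7) (nat_lit 5) (nat_lit 8) (nat_lit 5) (nat_lit 9) (nat_lit 4) (nat_lit 300) (nat_lit 221) (nat_lit 199)) (XT.lf (nat_lit 0) (nat_lit 7161148314) (nat_lit 152) (nat_lit 20964123946) (nat_lit 0) (nat_lit 71834490) (nat_lit 7) (nat_lit 5) (nat_lit 9) (nat_lit 4) (nat_lit 7) (nat_lit 4) (nat_lit 301) (nat_lit 221) (nat_lit 198)))) (XT.nd (nat_lit 156) (nat_lit 76) (nat_lit 0) (XT.nd (nat_lit 78) (nat_lit 0) (nat_lit 0) (XT.lf (nat_lit 0) (nat_lit 10559809847) (nat_lit 152) (nat_lit 15558128378) (nat_lit 0) (nat_lit 3307530780) (nat_lit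 7) (nat_lit 5) (nat_lit 9) (nat_lit 4) (nat_lit 7) (nat_lit 4) (nat_lit 302) (nat_lit 221) (nat_lit 197)) (XT.lf (nat_lit 0) (nat_lit 14062409987) (nat_lit 152) (nat_lit 10001272101) (nat_lit 0) (nat_lit 6654925927) (nat_lit 7) (nat_lit 5) (nat_lit 9) (nat_lit 4) (nat_lit 7) (nat_lit 4) (nat_lit 303) (nat_lit 221) (nat_lit 196))) (XT.nd (nat_lit 78) (nat_lit 76) (nat_lit 0) (XT.lf (nat_lit 0) (nat_lit 17677288259) (nat_lit 152) (nat_lit 4280324505) (nat_lit 0) (nat_lit 10121989919) (nat_lit 7) (nat_lit 5) (nat_lit 9) (nat_lit 4) (nat_lit 7) (nat_lit 4) (nat_lit 304) (nat_lit 221) (nat_lit 195)) (XT.nd (nat_lit 78) (nat_lit 0) (nat_lit 0) (XT.lf (nat_lit 0) (nat_lit 1671845201) (nat_lit 76) (nat_lit 19767308505) (nat_lit 76) (nat_lit 12071234660) (nat_lit 6) (nat_lit 4) (nat_lit 7) (nat_lit 5) (nat_lit 7) (nat_lit 4) (nat_lit 305) (nat_lit 221) (nat_lit 194)) (XT.lf (nat_lit 0) (nat_lit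 7963639172) (nat_lit 76) (nat_lit 17439289987) (nat_lit 76) (nat_lit 9609144234) (nat_lit 6) (nat_lit 4) (nat_lit 7) (nat_lit 5) (nat_lit 7) (nat_lit 4) (nat_lit 306) (nat_lit 221) (nat_lit 193)))))) (XT.nd (nat_lit 312) (nat_lit 76) (nat_lit 0) (XT.nd (nat_lit 156) (nat_lit 76) (nat_lit 0) (XT.nd (nat_lit 78) (nat_lit 0) (nat_lit 0) (XT.lf (nat_lit 0) (nat_lit 14468511010) (nat_lit 76) (nat_lit 15040503678) (nat_lit 76) (nat_lit 7082670392) (nat_lit 6) (nat_lit 4) (nat_lit 7) (nat_lit 5) (nat_lit 7) (nat_lit 4) (nat_lit 307) (nat_lit 221) (nat_lit 192)) (XT.lf (nat_lit 0) (nat_lit 21201948507) (nat_lit 76) (nat_lit 12565238180) (nat_lit 76) (nat_lit 4485797721) (nat_lit 6) (nat_lit 4) (nat_lit 7) (nat_lit 5) (nat_lit 7) (nat_lit 4) (nat_lit 308) (nat_lit 221) (nat_lit 191))) (XT.nd (nat_lit 78) (nat_lit 76) (nat_lit 0) (XT.lf (nat_lit 0) (nat_lit 28179983656) (nat_lit 76) (nat_lit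 10007600005) (nat_lit 76) (nat_lit 1812343190) (nat_lit 6) (nat_lit 4) (nat_lit 7) (nat_lit 5) (nat_lit 7) (nat_lit 4) (nat_lit 309) (nat_lit 221) (nat_lit 190)) (XT.lf (nat_lit 0) (nat_lit 913842797) (nat_lit 152) (nat_lit 6432180370) (nat_lit 76) (nat_lit 34489911658) (nat_lit 5) (nat_lit 5) (nat_lit 7) (nat_lit 5) (nat_lit 6) (nat_lit 4) (nat_lit 310) (nat_lit 221) (nat_lit 189)))) (XT.nd (nat_lit 156) (nat_lit 0) (nat_lit 0) (XT.nd (nat_lit 78) (nat_lit 76) (nat_lit 0) (XT.lf (nat_lit 0) (nat_lit 3668667692) (nat_lit 152) (nat_lit 889838184) (nat_lit 76) (nat_lit 39206127964) (nat_lit 5) (nat_lit 5) (nat_lit 7) (nat_lit 5) (nat_lit 6) (nat_lit 4) (nat_lit 311) (nat_lit 221) (nat_lit 188)) (XT.lf (nat_lit 0) (nat_lit 5008890963) (nat_lit 76) (nat_lit 1586008763) (nat_lit 152) (nat_lit 39193220957) (nat_lit 4) (nat_lit 5) (nat_lit 5) (nat_lit 5) (nat_lit 6) (nat_lit 4) (nat_lit 312)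 (nat_lit 221) (nat_lit 187))) (XT.nd (nat_lit 78) (nat_lit 0) (nat_lit 0) (XT.lf (nat_lit 0) (nat_lit 9662503325) (nat_lit 152) (nat_lit 36784186079) (nat_lit 0) (nat_lit 1466373916) (nat_lit 4) (nat_lit 5) (nat_lit 6) (nat_lit 4) (nat_lit 4) (nat_lit 4) (nat_lit 313) (nat_lit 221) (nat_lit 186)) (XT.nd (nat_lit 78) (nat_lit 0) (nat_lit 0) (XT.lf (nat_lit 0) (nat_lit 12867368825) (nat_lit 152) (nat_lit 32692907520) (nat_lit 0) (nat_lit 4584815468) (nat_lit 4) (nat_lit 5) (nat_lit 6) (nat_lit 4) (nat_lit 4) (nat_lit 4) (nat_lit 314) (nat_lit 221) (nat_lit 185)) (XT.lf (nat_lit 0) (nat_lit 16192364816) (nat_lit 152) (nat_lit 28470890861) (nat_lit 0) (nat_lit 7827502937) (nat_lit 4) (nat_lit 5) (nat_lit 6) (nat_lit 4) (nat_lit 4) (nat_lit 4) (nat_lit 315) (nat_lit 221) (nat_lit 184))))))))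
noncomputable def xc55 : XT := (XT.nd (nat_lit 1404) (nat_lit 152) (nat_lit 0) (XT.nd (nat_lit 702) (nat_lit 0) (nat_lit 0) (XT.nd (nat_lit 312) (nat_lit 76) (nat_lit 0) (XT.nd (nat_lit 156) (nat_lit 0) (nat_lit 0) (XT.nd (nat_lit 78) (nat_lit 0) (nat_lit 0) (XT.lf (nat_lit 0) (nat_lit 19645407957) (nat_lit 152) (nat_lit 24108083683) (nat_lit 0) (nat_lit 11202157009) (nat_lit 4) (nat_lit 5) (nat_lit 6) (nat_lit 4) (nat_lit 4) (nat_lit 4) (nat_lit 316) (nat_lit 221) (nat_lit 183)) (XT.lf (nat_lit 0) (nat_lit 23234719777) (nat_lit 152) (nat_lit 19594098349) (nat_lit 0) (nat_lit 14716812574) (nat_lit 4) (nat_lit 5) (nat_lit 6) (nat_lit 4) (nat_lit 4) (nat_lit 4) (nat_lit 317) (nat_lit 221) (nat_lit 182))) (XT.nd (nat_lit 78) (nat_lit 0) (nat_lit 0) (XT.lf (nat_lit 0) (nat_lit 26968846258) (nat_lit 152) (nat_lit 14918187276) (nat_lit 0) (nat_lit 18379837859) (nat_lit 4) (nat_lit 5) (nat_lit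 6) (nat_lit 4) (nat_lit 4) (nat_lit 4) (nat_lit 318) (nat_lit 221) (nat_lit 181)) (XT.lf (nat_lit 0) (nat_lit 30856678177) (nat_lit 152) (nat_lit 10069217340) (nat_lit 0) (nat_lit 22199954354) (nat_lit 4) (nat_lit 5) (nat_lit 6) (nat_lit 4) (nat_lit 4) (nat_lit 4) (nat_lit 319) (nat_lit 221) (nat_lit 180)))) (XT.nd (nat_lit 156) (nat_lit 0) (nat_lit 0) (XT.nd (nat_lit 78) (nat_lit 76) (nat_lit 0) (XT.lf (nat_lit 0) (nat_lit 34907472276) (nat_lit 152) (nat_lit 5035643377) (nat_lit 0) (nat_lit 26186257573) (nat_lit 4) (nat_lit 5) (nat_lit 6) (nat_lit 4) (nat_lit 4) (nat_lit 4) (nat_lit 320) (nat_lit 221) (nat_lit 179)) (XT.lf (nat_lit 0) (nat_lit 200951000) (nat_lit 76) (nat_lit 38933059712) (nat_lit 76) (nat_lit 30150425123) (nat_lit 3) (nat_lit 4) (nat_lit 4) (nat_lit 5) (nat_lit 4) (nat_lit 4) (nat_lit 321) (nat_lit 221) (nat_lit 178))) (XT.nd (nat_lit 78) (nat_lit 0) (nat_lit 0) (XT.lf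 (nat_lit 0) (nat_lit 5819999842) (nat_lit 76) (nat_lit 37807803644) (nat_lit 76) (nat_lit 28966673924) (nat_lit 3) (nat_lit 4) (nat_lit 4) (nat_lit 5) (nat_lit 4) (nat_lit 4) (nat_lit 322) (nat_lit 221) (nat_lit 177)) (XT.nd (nat_lit 78) (nat_lit 0) (nat_lit 0) (XT.lf (nat_lit 0) (nat_lit 11668380723) (nat_lit 76) (nat_lit 36649949324) (nat_lit 76) (nat_lit 27753109957) (nat_lit 3) (nat_lit 4) (nat_lit 4) (nat_lit 5) (nat_lit 4) (nat_lit 4) (nat_lit 323) (nat_lit 221) (nat_lit 176)) (XT.lf (nat_lit 0) (nat_lit 17760018361) (nat_lit 76) (nat_lit 35456739957) (nat_lit 76) (nat_lit 26506843783) (nat_lit 3) (nat_lit 4) (nat_lit 4) (nat_lit 5) (nat_lit 4) (nat_lit 4) (nat_lit 324) (nat_lit 221) (nat_lit 175)))))) (XT.nd (nat_lit 312) (nat_lit 0) (nat_lit 0) (XT.nd (nat_lit 156) (nat_lit 0) (nat_lit 0) (XT.nd (nat_lit 78) (nat_lit 0) (nat_lit 0) (XT.lf (nat_lit 0) (nat_lit 24109416654) (nat_lit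 76) (nat_lit 34225334569) (nat_lit 76) (nat_lit 25224908103) (nat_lit 3) (nat_lit 4) (nat_lit 4) (nat_lit 5) (nat_lit 4) (nat_lit 4) (nat_lit 325) (nat_lit 221) (nat_lit 174)) (XT.lf (nat_lit 0) (nat_lit 30731693218) (nat_lit 76) (nat_lit 32952801241) (nat_lit 76) (nat_lit 23904250687) (nat_lit 3) (nat_lit 4) (nat_lit 4) (nat_lit 5) (nat_lit 4) (nat_lit 4) (nat_lit 326) (nat_lit 221) (nat_lit 173))) (XT.nd (nat_lit 78) (nat_lit 0) (nat_lit 0) (XT.lf (nat_lit 0) (nat_lit 37642615377) (nat_lit 76) (nat_lit 31636110133) (nat_lit 76) (nat_lit 22541727114) (nat_lit 3) (nat_lit 4) (nat_lit 4) (nat_lit 5) (nat_lit 4) (nat_lit 4) (nat_lit 327) (nat_lit 221) (nat_lit 172)) (XT.lf (nat_lit 0) (nat_lit 44858637708) (nat_lit 76) (nat_lit 30272126266) (nat_lit 76) (nat_lit 21134093280) (nat_lit 3) (nat_lit 4) (nat_lit 4) (nat_lit 5) (nat_lit 4) (nat_lit 4) (nat_lit 328) (nat_lit 221) (nat_lit 171))))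 (XT.nd (nat_lit 156) (nat_lit 0) (nat_lit 0) (XT.nd (nat_lit 78) (nat_lit 0) (nat_lit 0) (XT.lf (nat_lit 0) (nat_lit 52396941217) (nat_lit 76) (nat_lit 28857602058) (nat_lit 76) (nat_lit 19677997676) (nat_lit 3) (nat_lit 4) (nat_lit 4) (nat_lit 5) (nat_lit 4) (nat_lit 4) (nat_lit 329) (nat_lit 221) (nat_lit 170)) (XT.lf (nat_lit 0) (nat_lit 60275474245) (nat_lit 76) (nat_lit 27389169596) (nat_lit 76) (nat_lit 18169973408) (nat_lit 3) (nat_lit 4) (nat_lit 4) (nat_lit 5) (nat_lit 4) (nat_lit 4) (nat_lit 330) (nat_lit 221) (nat_lit 169))) (XT.nd (nat_lit 78) (nat_lit 0) (nat_lit 0) (XT.lf (nat_lit 0) (nat_lit 68512995204) (nat_lit 76) (nat_lit 25863332612) (nat_lit 76) (nat_lit 16606429941) (nat_lit 3) (nat_lit 4) (nat_lit 4) (nat_lit 5) (nat_lit 4) (nat_lit 4) (nat_lit 331) (nat_lit 221) (nat_lit 168)) (XT.nd (nat_lit 78) (nat_lit 0) (nat_lit 0) (XT.lf (nat_lit 0) (nat_lit 77129117240)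 (nat_lit 76) (nat_lit 24276458159) (nat_lit 76) (nat_lit 14983644553) (nat_lit 3) (nat_lit 4) (nat_lit 4) (nat_lit 5) (nat_lit 4) (nat_lit 4) (nat_lit 332) (nat_lit 221) (nat_lit 167)) (XT.lf (nat_lit 0) (nat_lit 86144354928) (nat_lit 76) (nat_lit 22624767967) (nat_lit 76) (nat_lit 13297753470) (nat_lit 3) (nat_lit 4) (nat_lit 4) (nat_lit 5) (nat_lit 4) (nat_lit 4) (nat_lit 333) (nat_lit 221) (nat_lit 166))))))) (XT.nd (nat_lit 702) (nat_lit 0) (nat_lit 0) (XT.nd (nat_lit 312) (nat_lit 152) (nat_lit 0) (XT.nd (nat_lit 156) (nat_lit 0) (nat_lit 0) (XT.nd (nat_lit 78) (nat_lit 0) (nat_lit 0) (XT.lf (nat_lit 0) (nat_lit 95580173121) (nat_lit 76) (nat_lit 20904329438) (nat_lit 76) (nat_lit 11544742664) (nat_lit 3) (nat_lit 4) (nat_lit 4) (nat_lit 5) (nat_lit 4) (nat_lit 4) (nat_lit 334) (nat_lit 221) (nat_lit 165)) (XT.lf (nat_lit 0) (nat_lit 105459038051) (nat_lit 76) (nat_lit 19111046292)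 (nat_lit 76) (nat_lit 9720438301) (nat_lit 3) (nat_lit 4) (nat_lit 4) (nat_lit 5) (nat_lit 4) (nat_lit 4) (nat_lit 335) (nat_lit 221) (nat_lit 164))) (XT.nd (nat_lit 78) (nat_lit 0) (nat_lit 0) (XT.lf (nat_lit 0) (nat_lit 115804470827) (nat_lit 76) (nat_lit 17240648805) (nat_lit 76) (nat_lit 7820496799) (nat_lit 3) (nat_lit 4) (nat_lit 4) (nat_lit 5) (nat_lit 4) (nat_lit 4) (nat_lit 336) (nat_lit 221) (nat_lit 163)) (XT.lf (nat_lit 0) (nat_lit 126641103431) (nat_lit 76) (nat_lit 15288683651) (nat_lit 76) (nat_lit 5840394488) (nat_lit 3) (nat_lit 4) (nat_lit 4) (nat_lit 5) (nat_lit 4) (nat_lit 4) (nat_lit 337) (nat_lit 221) (nat_lit 162)))) (XT.nd (nat_lit 156) (nat_lit 152) (nat_lit 0) (XT.nd (nat_lit 78) (nat_lit 0) (nat_lit 0) (XT.lf (nat_lit 0) (nat_lit 137994737369) (nat_lit 76) (nat_lit 13250503294) (nat_lit 76) (nat_lit 3775416838) (nat_lit 3) (nat_lit 4) (nat_lit 4) (nat_lit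 5) (nat_lit 4) (nat_lit 4) (nat_lit 338) (nat_lit 221) (nat_lit 161)) (XT.lf (nat_lit 0) (nat_lit 149892405103) (nat_lit 76) (nat_lit 11121254923) (nat_lit 76) (nat_lit 1620647236) (nat_lit 3) (nat_lit 4) (nat_lit 4) (nat_lit 5) (nat_lit 4) (nat_lit 4) (nat_lit 339) (nat_lit 221) (nat_lit 160))) (XT.nd (nat_lit 78) (nat_lit 76) (nat_lit 0) (XT.lf (nat_lit 0) (nat_lit 608911362) (nat_lit 152) (nat_lit 8276645328) (nat_lit 76) (nat_lit 161743210842) (nat_lit 2) (nat_lit 5) (nat_lit 4) (nat_lit 5) (nat_lit 3) (nat_lit 4) (nat_lit 340) (nat_lit 221) (nat_lit 159)) (XT.nd (nat_lit 78) (nat_lit 76) (nat_lit 0) (XT.lf (nat_lit 0) (nat_lit 2883668347) (nat_lit 152) (nat_lit 3636542019) (nat_lit 76) (nat_lit 172502011179) (nat_lit 2) (nat_lit 5) (nat_lit 4) (nat_lit 5) (nat_lit 3) (nat_lit 4) (nat_lit 341) (nat_lit 221) (nat_lit 158)) (XT.lf (nat_lit 0) (nat_lit 1254923879) (nat_lit 76) (nat_lit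 4025579637) (nat_lit 152) (nat_lit 182554435696) (nat_lit 1) (nat_lit 5) (nat_lit 2) (nat_lit 5) (nat_lit 3) (nat_lit 4) (nat_lit 342) (nat_lit 221) (nat_lit 157)))))) (XT.nd (nat_lit 390) (nat_lit 0) (nat_lit 0) (XT.nd (nat_lit 156) (nat_lit 0) (nat_lit 0) (XT.nd (nat_lit 78) (nat_lit 0) (nat_lit 0) (XT.lf (nat_lit 0) (nat_lit 6496743236) (nat_lit 76) (nat_lit 1350987469) (nat_lit 152) (nat_lit 189238042136) (nat_lit 1) (nat_lit 5) (nat_lit 2) (nat_lit 5) (nat_lit 3) (nat_lit 4) (nat_lit 343) (nat_lit 221) (nat_lit 156)) (XT.lf (nat_lit 0) (nat_lit 10555421221) (nat_lit 152) (nat_lit 194841137616) (nat_lit 0) (nat_lit 1401991447) (nat_lit 1) (nat_lit 5) (nat_lit 3) (nat_lit 4) (nat_lit 1) (nat_lit 4) (nat_lit 344) (nat_lit 221) (nat_lit 155))) (XT.nd (nat_lit 78) (nat_lit 0) (nat_lit 0) (XT.lf (nat_lit 0) (nat_lit 13410499688) (nat_lit 152) (nat_lit 199346941173) (nat_lit 0) (nat_lit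 4238932451) (nat_lit 1) (nat_lit 5) (nat_lit 3) (nat_lit 4) (nat_lit 1) (nat_lit 4) (nat_lit 345) (nat_lit 221) (nat_lit 154)) (XT.nd (nat_lit 78) (nat_lit 0) (nat_lit 0) (XT.lf (nat_lit 0) (nat_lit 16398671211) (nat_lit 152) (nat_lit 204096075681) (nat_lit 0) (nat_lit 7209830200) (nat_lit 1) (nat_lit 5) (nat_lit 3) (nat_lit 4) (nat_lit 1) (nat_lit 4) (nat_lit 346) (nat_lit 221) (nat_lit 153)) (XT.lf (nat_lit 0) (nat_lit 19527050485) (nat_lit 152) (nat_lit 209099848603) (nat_lit 0) (nat_lit 10321758260) (nat_lit 1) (nat_lit 5) (nat_lit 3) (nat_lit 4) (nat_lit 1) (nat_lit 4) (nat_lit 347) (nat_lit 221) (nat_lit 152))))) (XT.nd (nat_lit 156) (nat_lit 0) (nat_lit 0) (XT.nd (nat_lit 78) (nat_lit 0) (nat_lit 0) (XT.lf (nat_lit 0) (nat_lit 22803086031) (nat_lit 152) (nat_lit 214370173684) (nat_lit 0) (nat_lit 13582125985) (nat_lit 1) (nat_lit 5) (nat_lit 3) (nat_lit 4) (nat_lit 1) (nat_lit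 4) (nat_lit 348) (nat_lit 221) (nat_lit 151)) (XT.lf (nat_lit 0) (nat_lit 26234577935) (nat_lit 152) (nat_lit 219919599317) (nat_lit 0) (nat_lit 16998696153) (nat_lit 1) (nat_lit 5) (nat_lit 3) (nat_lit 4) (nat_lit 1) (nat_lit 4) (nat_lit 349) (nat_lit 221) (nat_lit 150))) (XT.nd (nat_lit 78) (nat_lit 0) (nat_lit 0) (XT.lf (nat_lit 0) (nat_lit 29829696415) (nat_lit 152) (nat_lit 225761338420) (nat_lit 0) (nat_lit 20579603456) (nat_lit 1) (nat_lit 5) (nat_lit 3) (nat_lit 4) (nat_lit 1) (nat_lit 4) (nat_lit 350) (nat_lit 221) (nat_lit 149)) (XT.nd (nat_lit 78) (nat_lit 0) (nat_lit 0) (XT.lf (nat_lit 0) (nat_lit 33597001277) (nat_lit 152) (nat_lit 231909299895) (nat_lit 0) (nat_lit 24333373864) (nat_lit 1) (nat_lit 5) (nat_lit 3) (nat_lit 4) (nat_lit 1) (nat_lit 4) (nat_lit 351) (nat_lit 221) (nat_lit 148)) (XT.lf (nat_lit 0) (nat_lit 37545462294) (nat_lit 152) (nat_lit 238378121747) (nat_lit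 0) (nat_lit 28268944926) (nat_lit 1) (nat_lit 5) (nat_lit 3) (nat_lit 4) (nat_lit 1) (nat_lit 4) (nat_lit 352) (nat_lit 221) (nat_lit 147))))))))
noncomputable def xc56 : XT := (XT.nd (nat_lit 31902) (nat_lit 0) (nat_lit 608) (XT.nd (nat_lit 702) (nat_lit 0) (nat_lit 0) (XT.nd (nat_lit 312) (nat_lit 0) (nat_lit 0) (XT.nd (nat_lit 156) (nat_lit 0) (nat_lit 0) (XT.nd (nat_lit 78) (nat_lit 0) (nat_lit 0) (XT.lf (nat_lit 0) (nat_lit 41684480565) (nat_lit 152) (nat_lit 245183205932) (nat_lit 0) (nat_lit 32395687048) (nat_lit 1) (nat_lit 5) (nat_lit 3) (nat_lit 4) (nat_lit 1) (nat_lit 4) (nat_lit 353) (nat_lit 221) (nat_lit 146)) (XT.lf (nat_lit 0) (nat_lit 46023910894) (nat_lit 152) (nat_lit 252340755031) (nat_lit 0) (nat_lit 36723425807) (nat_lit 1) (nat_lit 5) (nat_lit 3) (nat_lit 4) (nat_lit 1) (nat_lit 4) (nat_lit 354) (nat_lit 221) (nat_lit 145))) (XT.nd (nat_lit 78) (nat_lit 0) (nat_lit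 0) (XT.lf (nat_lit 0) (nat_lit 50574085259) (nat_lit 152) (nat_lit 259867810828) (nat_lit 0) (nat_lit 41262465343) (nat_lit 1) (nat_lit 5) (nat_lit 3) (nat_lit 4) (nat_lit 1) (nat_lit 4) (nat_lit 355) (nat_lit 221) (nat_lit 144)) (XT.lf (nat_lit 0) (nat_lit 55345837408) (nat_lit 152) (nat_lit 267782294884) (nat_lit 0) (nat_lit 46023612893) (nat_lit 1) (nat_lit 5) (nat_lit 3) (nat_lit 4) (nat_lit 1) (nat_lit 4) (nat_lit 356) (nat_lit 221) (nat_lit 143)))) (XT.nd (nat_lit 156) (nat_lit 0) (nat_lit 0) (XT.nd (nat_lit 78) (nat_lit 0) (nat_lit 0) (XT.lf (nat_lit 0) (nat_lit 60350528656) (nat_lit 152) (nat_lit 276103051210) (nat_lit 0) (nat_lit 51018204523) (nat_lit 1) (nat_lit 5) (nat_lit 3) (nat_lit 4) (nat_lit 1) (nat_lit 4) (nat_lit 357) (nat_lit 221) (nat_lit 142)) (XT.lf (nat_lit 0) (nat_lit 65600074933) (nat_lit 152) (nat_lit 284849891129) (nat_lit 0) (nat_lit 56258132117) (nat_lit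 1) (nat_lit 5) (nat_lit 3) (nat_lit 4) (nat_lit 1) (nat_lit 4) (nat_lit 358) (nat_lit 221) (nat_lit 141))) (XT.nd (nat_lit 78) (nat_lit 0) (nat_lit 0) (XT.lf (nat_lit 0) (nat_lit 71106975161) (nat_lit 152) (nat_lit 294043640451) (nat_lit 0) (nat_lit 61755871694) (nat_lit 1) (nat_lit 5) (nat_lit 3) (nat_lit 4) (nat_lit 1) (nat_lit 4) (nat_lit 359) (nat_lit 221) (nat_lit 140)) (XT.nd (nat_lit 78) (nat_lit 0) (nat_lit 0) (XT.lf (nat_lit 0) (nat_lit 76884341006) (nat_lit 152) (nat_lit 303706189055) (nat_lit 0) (nat_lit 67524513109) (nat_lit 1) (nat_lit 5) (nat_lit 3) (nat_lit 4) (nat_lit 1) (nat_lit 4) (nat_lit 360) (nat_lit 221) (nat_lit 139)) (XT.lf (nat_lit 0) (nat_lit 82945928101) (nat_lit 152) (nat_lit 313860543010) (nat_lit 0) (nat_lit 73577791224) (nat_lit 1) (nat_lit 5) (nat_lit 3) (nat_lit 4) (nat_lit 1) (nat_lit 4) (nat_lit 361) (nat_lit 221) (nat_lit 138)))))) (XT.nd (nat_lit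 30810) (nat_lit 0) (nat_lit 1520) (XT.nd (nat_lit 156) (nat_lit 0) (nat_lit 0) (XT.nd (nat_lit 78) (nat_lit 0) (nat_lit 0) (XT.lf (nat_lit 0) (nat_lit 89306168797) (nat_lit 152) (nat_lit 324530879348) (nat_lit 0) (nat_lit 79930118604) (nat_lit 1) (nat_lit 5) (nat_lit 3) (nat_lit 4) (nat_lit 1) (nat_lit 4) (nat_lit 362) (nat_lit 221) (nat_lit 137)) (XT.lf (nat_lit 0) (nat_lit 95980206522) (nat_lit 152) (nat_lit 335742603633) (nat_lit 0) (nat_lit 86596619840) (nat_lit 1) (nat_lit 5) (nat_lit 3) (nat_lit 4) (nat_lit 1) (nat_lit 4) (nat_lit 363) (nat_lit 221) (nat_lit 136))) (XT.nd (nat_lit 78) (nat_lit 0) (nat_lit 0) (XT.lf (nat_lit 0) (nat_lit 102983931845) (nat_lit 152) (nat_lit 347522410446) (nat_lit 0) (nat_lit 93593167552) (nat_lit 1) (nat_lit 5) (nat_lit 3) (nat_lit 4) (nat_lit 1) (nat_lit 4) (nat_lit 364) (nat_lit 221) (nat_lit 135)) (XT.lf (nat_lit 0) (nat_lit 110334020301) (nat_lit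 152) (nat_lit 359898346946) (nat_lit 0) (nat_lit 100936420189) (nat_lit 1) (nat_lit 5) (nat_lit 3) (nat_lit 4) (nat_lit 1) (nat_lit 4) (nat_lit 365) (nat_lit 221) (nat_lit 134)))) (XT.nd (nat_lit 156) (nat_lit 304) (nat_lit 0) (XT.nd (nat_lit 78) (nat_lit 0) (nat_lit 0) (XT.lf (nat_lit 0) (nat_lit 499440755) (nat_lit 228) (nat_lit 4652784820) (nat_lit 0) (nat_lit 499440755) (nat_lit 25) (nat_lit 5) (nat_lit 28) (nat_lit 4) (nat_lit 25) (nat_lit 4) (nat_lit 276) (nat_lit 222) (nat_lit 222)) (XT.lf (nat_lit 0) (nat_lit 4820208473) (nat_lit 228) (nat_lit 2667382296) (nat_lit 0) (nat_lit 4149421434) (nat_lit 25) (nat_lit 5) (nat_lit 28) (nat_lit 4) (nat_lit 25) (nat_lit 4) (nat_lit 277) (nat_lit 222) (nat_lit 221))) (XT.nd (nat_lit 78) (nat_lit 152) (nat_lit 0) (XT.lf (nat_lit 0) (nat_lit 4213897193) (nat_lit 152) (nat_lit 4543555179) (nat_lit 152) (nat_lit 3233923343) (nat_lit 23) (nat_lit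 4) (nat_lit 25) (nat_lit 5) (nat_lit 25) (nat_lit 4) (nat_lit 278) (nat_lit 222) (nat_lit 220)) (XT.nd (nat_lit 78) (nat_lit 76) (nat_lit 0) (XT.lf (nat_lit 0) (nat_lit 416967317) (nat_lit 228) (nat_lit 1063272452) (nat_lit 76) (nat_lit 10887736915) (nat_lit 22) (nat_lit 5) (nat_lit 25) (nat_lit 5) (nat_lit 23) (nat_lit 4) (nat_lit 279) (nat_lit 222) (nat_lit 219)) (XT.lf (nat_lit 0) (nat_lit 4128726577) (nat_lit 152) (nat_lit 6882740674) (nat_lit 0) (nat_lit 1750148941) (nat_lit 21) (nat_lit 5) (nat_lit 23) (nat_lit 4) (nat_lit 21) (nat_lit 4) (nat_lit 280) (nat_lit 222) (nat_lit 218))))))) (XT.nd (nat_lit 702) (nat_lit 304) (nat_lit 0) (XT.nd (nat_lit 312) (nat_lit 304) (nat_lit 0) (XT.nd (nat_lit 156) (nat_lit 152) (nat_lit 0) (XT.nd (nat_lit 78) (nat_lit 152) (nat_lit 0) (XT.lf (nat_lit 0) (nat_lit 7936981111) (nat_lit 152) (nat_lit 209786443) (nat_lit 0) (nat_lit 5032824279) (nat_lit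 21) (nat_lit 5) (nat_lit 23) (nat_lit 4) (nat_lit 21) (nat_lit 4) (nat_lit 281) (nat_lit 222) (nat_lit 217)) (XT.lf (nat_lit 0) (nat_lit 6808803539) (nat_lit 152) (nat_lit 5107757773) (nat_lit 152) (nat_lit 1703049324) (nat_lit 19) (nat_lit 4) (nat_lit 21) (nat_lit 5) (nat_lit 21) (nat_lit 4) (nat_lit 282) (nat_lit 222) (nat_lit 216))) (XT.nd (nat_lit 78) (nat_lit 76) (nat_lit 0) (XT.lf (nat_lit 0) (nat_lit 1827888285) (nat_lit 228) (nat_lit 134253287) (nat_lit 76) (nat_lit 12124147232) (nat_lit 18) (nat_lit 5) (nat_lit 21) (nat_lit 5) (nat_lit 19) (nat_lit 4) (nat_lit 283) (nat_lit 222) (nat_lit 215)) (XT.lf (nat_lit 0) (nat_lit 5488516297) (nat_lit 152) (nat_lit 7726507489) (nat_lit 0) (nat_lit 1359526446) (nat_lit 17) (nat_lit 5) (nat_lit 19) (nat_lit 4) (nat_lit 17) (nat_lit 4) (nat_lit 284) (nat_lit 222) (nat_lit 214)))) (XT.nd (nat_lit 156) (nat_lit 152) (nat_lit 0) (XT.nd (nat_lit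 78) (nat_lit 152) (nat_lit 0) (XT.lf (nat_lit 0) (nat_lit 9249244103) (nat_lit 152) (nat_lit 1133834340) (nat_lit 0) (nat_lit 4708449199) (nat_lit 17) (nat_lit 5) (nat_lit 19) (nat_lit 4) (nat_lit 17) (nat_lit 4) (nat_lit 285) (nat_lit 222) (nat_lit 213)) (XT.lf (nat_lit 0) (nat_lit 5784434974) (nat_lit 152) (nat_lit 7392066683) (nat_lit 152) (nat_lit 2459076490) (nat_lit 15) (nat_lit 4) (nat_lit 17) (nat_lit 5) (nat_lit 17) (nat_lit 4) (nat_lit 286) (nat_lit 222) (nat_lit 212))) (XT.nd (nat_lit 78) (nat_lit 76) (nat_lit 0) (XT.lf (nat_lit 0) (nat_lit 966485760) (nat_lit 228) (nat_lit 3325213705) (nat_lit 76) (nat_lit 11919003942) (nat_lit 14) (nat_lit 5) (nat_lit 17) (nat_lit 5) (nat_lit 15) (nat_lit 4) (nat_lit 287) (nat_lit 222) (nat_lit 211)) (XT.nd (nat_lit 78) (nat_lit 0) (nat_lit 0) (XT.lf (nat_lit 0) (nat_lit 3415108665) (nat_lit 76) (nat_lit 1012867368) (nat_lit 152) (nat_lit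 12387357326) (nat_lit 13) (nat_lit 5) (nat_lit 14) (nat_lit 5) (nat_lit 15) (nat_lit 4) (nat_lit 288) (nat_lit 222) (nat_lit 210)) (XT.lf (nat_lit 0) (nat_lit 8052798797) (nat_lit 152) (nat_lit 7060478465) (nat_lit 0) (nat_lit 2337527140) (nat_lit 13) (nat_lit 5) (nat_lit 15) (nat_lit 4) (nat_lit 13) (nat_lit 4) (nat_lit 289) (nat_lit 222) (nat_lit 209)))))) (XT.nd (nat_lit 312) (nat_lit 76) (nat_lit 0) (XT.nd (nat_lit 156) (nat_lit 152) (nat_lit 0) (XT.nd (nat_lit 78) (nat_lit 76) (nat_lit 0) (XT.lf (nat_lit 0) (nat_lit 11775546171) (nat_lit 152) (nat_lit 593806065) (nat_lit 0) (nat_lit 5752979244) (nat_lit 13) (nat_lit 5) (nat_lit 15) (nat_lit 4) (nat_lit 13) (nat_lit 4) (nat_lit 290) (nat_lit 222) (nat_lit 208)) (XT.lf (nat_lit 0) (nat_lit 6230415238) (nat_lit 76) (nat_lit 9456127147) (nat_lit 76) (nat_lit 3140898057) (nat_lit 12) (nat_lit 4) (nat_lit 13) (nat_lit 5) (nat_lit 13)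 (nat_lit 4) (nat_lit 291) (nat_lit 222) (nat_lit 207))) (XT.nd (nat_lit 78) (nat_lit 76) (nat_lit 0) (XT.lf (nat_lit 0) (nat_lit 133495747) (nat_lit 152) (nat_lit 6320288678) (nat_lit 76) (nat_lit 13118174204) (nat_lit 11) (nat_lit 5) (nat_lit 13) (nat_lit 5) (nat_lit 12) (nat_lit 4) (nat_lit 292) (nat_lit 222) (nat_lit 206)) (XT.lf (nat_lit 0) (nat_lit 62934861) (nat_lit 76) (nat_lit 3313817835) (nat_lit 152) (nat_lit 16978936583) (nat_lit 10) (nat_lit 5) (nat_lit 11) (nat_lit 5) (nat_lit 12) (nat_lit 4) (nat_lit 293) (nat_lit 222) (nat_lit 205)))) (XT.nd (nat_lit 156) (nat_lit 76) (nat_lit 0) (XT.nd (nat_lit 78) (nat_lit 0) (nat_lit 0) (XT.lf (nat_lit 0) (nat_lit 6801246253) (nat_lit 152) (nat_lit 14348795247) (nat_lit 0) (nat_lit 27702682) (nat_lit 10) (nat_lit 5) (nat_lit 12) (nat_lit 4) (nat_lit 10) (nat_lit 4) (nat_lit 294) (nat_lit 222) (nat_lit 204)) (XT.lf (nat_lit 0) (nat_lit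 10366094153) (nat_lit 152) (nat_lit 8313196124) (nat_lit 0) (nat_lit 3363242120) (nat_lit 10) (nat_lit 5) (nat_lit 12) (nat_lit 4) (nat_lit 10) (nat_lit 4) (nat_lit 295) (nat_lit 222) (nat_lit 203))) (XT.nd (nat_lit 78) (nat_lit 76) (nat_lit 0) (XT.lf (nat_lit 0) (nat_lit 14028046148) (nat_lit 152) (nat_lit 2119848594) (nat_lit 0) (nat_lit 6806805104) (nat_lit 10) (nat_lit 5) (nat_lit 12) (nat_lit 4) (nat_lit 10) (nat_lit 4) (nat_lit 296) (nat_lit 222) (nat_lit 202)) (XT.nd (nat_lit 78) (nat_lit 0) (nat_lit 0) (XT.lf (nat_lit 0) (nat_lit 4386385125) (nat_lit 76) (nat_lit 13477919811) (nat_lit 76) (nat_lit 6048689231) (nat_lit 9) (nat_lit 4) (nat_lit 10) (nat_lit 5) (nat_lit 10) (nat_lit 4) (nat_lit 297) (nat_lit 222) (nat_lit 201)) (XT.lf (nat_lit 0) (nat_lit 11156566451) (nat_lit 76) (nat_lit 10696008933) (nat_lit 76) (nat_lit 3068693082) (nat_lit 9) (nat_lit 4) (nat_lit 10) (nat_lit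 5) (nat_lit 10) (nat_lit 4) (nat_lit 298) (nat_lit 222) (nat_lit 200))))))))
noncomputable def xc57 : XT := (XT.nd (nat_lit 1404) (nat_lit 76) (nat_lit 0) (XT.nd (nat_lit 702) (nat_lit 152) (nat_lit 0) (XT.nd (nat_lit 312) (nat_lit 76) (nat_lit 0) (XT.nd (nat_lit 156) (nat_lit 76) (nat_lit 0) (XT.nd (nat_lit 78) (nat_lit 76) (nat_lit 0) (XT.lf (nat_lit 0) (nat_lit 18136723093) (nat_lit 76) (nat_lit 7831439175) (nat_lit 76) (nat_lit 15470684) (nat_lit 9) (nat_lit 4) (nat_lit 10) (nat_lit 5) (nat_lit 10) (nat_lit 4) (nat_lit 299) (nat_lit 222) (nat_lit 199)) (XT.lf (nat_lit 0) (nat_lit 3018444143) (nat_lit 152) (nat_lit 1807827177) (nat_lit 76) (nat_lit 22273911517) (nat_lit 8) (nat_lit 5) (nat_lit 10) (nat_lit 5) (nat_lit 9) (nat_lit 4) (nat_lit 300) (nat_lit 222) (nat_lit 198))) (XT.nd (nat_lit 78) (nat_lit 0) (nat_lit 0) (XT.lf (nat_lit 0) (nat_lit 4560060931) (nat_lit 76) (nat_lit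 1648140096) (nat_lit 152) (nat_lit 22064175062) (nat_lit 7) (nat_lit 5) (nat_lit 8) (nat_lit 5) (nat_lit 9) (nat_lit 4) (nat_lit 301) (nat_lit 222) (nat_lit 197)) (XT.lf (nat_lit 0) (nat_lit 9548938051) (nat_lit 152) (nat_lit 18338850465) (nat_lit 0) (nat_lit 1615874794) (nat_lit 7) (nat_lit 5) (nat_lit 9) (nat_lit 4) (nat_lit 7) (nat_lit 4) (nat_lit 302) (nat_lit 222) (nat_lit 196)))) (XT.nd (nat_lit 156) (nat_lit 76) (nat_lit 0) (XT.nd (nat_lit 78) (nat_lit 0) (nat_lit 0) (XT.lf (nat_lit 0) (nat_lit 13020878740) (nat_lit 152) (nat_lit 12837482722) (nat_lit 0) (nat_lit 4940001204) (nat_lit 7) (nat_lit 5) (nat_lit 9) (nat_lit 4) (nat_lit 7) (nat_lit 4) (nat_lit 303) (nat_lit 222) (nat_lit 195)) (XT.lf (nat_lit 0) (nat_lit 16606557535) (nat_lit 152) (nat_lit 7169381349) (nat_lit 0) (nat_lit 8384904494) (nat_lit 7) (nat_lit 5) (nat_lit 9) (nat_lit 4) (nat_lit 7) (nat_lit 4) (nat_lit 304)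 (nat_lit 222) (nat_lit 194))) (XT.nd (nat_lit 78) (nat_lit 76) (nat_lit 0) (XT.lf (nat_lit 0) (nat_lit 20314511766) (nat_lit 152) (nat_lit 1321050866) (nat_lit 0) (nat_lit 11958786817) (nat_lit 7) (nat_lit 5) (nat_lit 9) (nat_lit 4) (nat_lit 7) (nat_lit 4) (nat_lit 305) (nat_lit 222) (nat_lit 193)) (XT.nd (nat_lit 78) (nat_lit 0) (nat_lit 0) (XT.lf (nat_lit 0) (nat_lit 4877545230) (nat_lit 76) (nat_lit 19352176817) (nat_lit 76) (nat_lit 10868764335) (nat_lit 6) (nat_lit 4) (nat_lit 7) (nat_lit 5) (nat_lit 7) (nat_lit 4) (nat_lit 306) (nat_lit 222) (nat_lit 192)) (XT.lf (nat_lit 0) (nat_lit 11335257101) (nat_lit 76) (nat_lit 16974590569) (nat_lit 76) (nat_lit 8369570914) (nat_lit 6) (nat_lit 4) (nat_lit 7) (nat_lit 5) (nat_lit 7) (nat_lit 4) (nat_lit 307) (nat_lit 222) (nat_lit 191)))))) (XT.nd (nat_lit 312) (nat_lit 76) (nat_lit 0) (XT.nd (nat_lit 156) (nat_lit 76) (nat_lit 0) (XT.nd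 (nat_lit 78) (nat_lit 0) (nat_lit 0) (XT.lf (nat_lit 0) (nat_lit 18023780342) (nat_lit 76) (nat_lit 14519515607) (nat_lit 76) (nat_lit 5798679596) (nat_lit 6) (nat_lit 4) (nat_lit 7) (nat_lit 5) (nat_lit 7) (nat_lit 4) (nat_lit 308) (nat_lit 222) (nat_lit 190)) (XT.lf (nat_lit 0) (nat_lit 24959040010) (nat_lit 76) (nat_lit 11981106513) (nat_lit 76) (nat_lit 3149969211) (nat_lit 6) (nat_lit 4) (nat_lit 7) (nat_lit 5) (nat_lit 7) (nat_lit 4) (nat_lit 309) (nat_lit 222) (nat_lit 189))) (XT.nd (nat_lit 78) (nat_lit 76) (nat_lit 0) (XT.lf (nat_lit 0) (nat_lit 32157548627) (nat_lit 76) (nat_lit 9353319457) (nat_lit 76) (nat_lit 417133305) (nat_lit 6) (nat_lit 4) (nat_lit 7) (nat_lit 5) (nat_lit 7) (nat_lit 4) (nat_lit 310) (nat_lit 222) (nat_lit 188)) (XT.lf (nat_lit 0) (nat_lit 2329317127) (nat_lit 152) (nat_lit 4261132561) (nat_lit 76) (nat_lit 37267680258) (nat_lit 5) (nat_lit 5) (nat_lit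 7) (nat_lit 5) (nat_lit 6) (nat_lit 4) (nat_lit 311) (nat_lit 222) (nat_lit 187)))) (XT.nd (nat_lit 156) (nat_lit 0) (nat_lit 0) (XT.nd (nat_lit 78) (nat_lit 0) (nat_lit 0) (XT.lf (nat_lit 0) (nat_lit 1487229419) (nat_lit 76) (nat_lit 3692645944) (nat_lit 152) (nat_lit 40705541922) (nat_lit 4) (nat_lit 5) (nat_lit 5) (nat_lit 5) (nat_lit 6) (nat_lit 4) (nat_lit 312) (nat_lit 222) (nat_lit 186)) (XT.lf (nat_lit 0) (nat_lit 7595004735) (nat_lit 76) (nat_lit 608539145) (nat_lit 152) (nat_lit 39809028799) (nat_lit 4) (nat_lit 5) (nat_lit 5) (nat_lit 5) (nat_lit 6) (nat_lit 4) (nat_lit 313) (nat_lit 222) (nat_lit 185))) (XT.nd (nat_lit 78) (nat_lit 0) (nat_lit 0) (XT.lf (nat_lit 0) (nat_lit 11379341168) (nat_lit 152) (nat_lit 36352800984) (nat_lit 0) (nat_lit 2513927673) (nat_lit 4) (nat_lit 5) (nat_lit 6) (nat_lit 4) (nat_lit 4) (nat_lit 4) (nat_lit 314) (nat_lit 222) (nat_lit 184)) (XT.nd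 (nat_lit 78) (nat_lit 0) (nat_lit 0) (XT.lf (nat_lit 0) (nat_lit 14685701720) (nat_lit 152) (nat_lit 32165082039) (nat_lit 0) (nat_lit 5741899157) (nat_lit 4) (nat_lit 5) (nat_lit 6) (nat_lit 4) (nat_lit 4) (nat_lit 4) (nat_lit 315) (nat_lit 222) (nat_lit 183)) (XT.lf (nat_lit 0) (nat_lit 18120996823) (nat_lit 152) (nat_lit 27834939350) (nat_lit 0) (nat_lit 9102538004) (nat_lit 4) (nat_lit 5) (nat_lit 6) (nat_lit 4) (nat_lit 4) (nat_lit 4) (nat_lit 316) (nat_lit 222) (nat_lit 182))))))) (XT.nd (nat_lit 702) (nat_lit 0) (nat_lit 0) (XT.nd (nat_lit 312) (nat_lit 76) (nat_lit 0) (XT.nd (nat_lit 156) (nat_lit 0) (nat_lit 0) (XT.nd (nat_lit 78) (nat_lit 0) (nat_lit 0) (XT.lf (nat_lit 0) (nat_lit 21693405750) (nat_lit 152) (nat_lit 23352063054) (nat_lit 0) (nat_lit 12603845736) (nat_lit 4) (nat_lit 5) (nat_lit 6) (nat_lit 4) (nat_lit 4) (nat_lit 4) (nat_lit 317) (nat_lit 222) (nat_lit 181))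 (XT.lf (nat_lit 0) (nat_lit 25411434238) (nat_lit 152) (nat_lit 18705779635) (nat_lit 0) (nat_lit 16254158799) (nat_lit 4) (nat_lit 5) (nat_lit 6) (nat_lit 4) (nat_lit 4) (nat_lit 4) (nat_lit 318) (nat_lit 222) (nat_lit 180))) (XT.nd (nat_lit 78) (nat_lit 0) (nat_lit 0) (XT.lf (nat_lit 0) (nat_lit 29283934735) (nat_lit 152) (nat_lit 13885026514) (nat_lit 0) (nat_lit 20062168415) (nat_lit 4) (nat_lit 5) (nat_lit 6) (nat_lit 4) (nat_lit 4) (nat_lit 4) (nat_lit 319) (nat_lit 222) (nat_lit 179)) (XT.lf (nat_lit 0) (nat_lit 33320127480) (nat_lit 152) (nat_lit 8878325707) (nat_lit 0) (nat_lit 24036941274) (nat_lit 4) (nat_lit 5) (nat_lit 6) (nat_lit 4) (nat_lit 4) (nat_lit 4) (nat_lit 320) (nat_lit 222) (nat_lit 178)))) (XT.nd (nat_lit 156) (nat_lit 0) (nat_lit 0) (XT.nd (nat_lit 78) (nat_lit 76) (nat_lit 0) (XT.lf (nat_lit 0) (nat_lit 37529622456) (nat_lit 152) (nat_lit 3673756498) (nat_lit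 0) (nat_lit 28187941121) (nat_lit 4) (nat_lit 5) (nat_lit 6) (nat_lit 4) (nat_lit 4) (nat_lit 4) (nat_lit 321) (nat_lit 222) (nat_lit 177)) (XT.lf (nat_lit 0) (nat_lit 1798640678) (nat_lit 76) (nat_lit 40151883414) (nat_lit 76) (nat_lit 30754492431) (nat_lit 3) (nat_lit 4) (nat_lit 4) (nat_lit 5) (nat_lit 4) (nat_lit 4) (nat_lit 322) (nat_lit 222) (nat_lit 176))) (XT.nd (nat_lit 78) (nat_lit 0) (nat_lit 0) (XT.lf (nat_lit 0) (nat_lit 7623039955) (nat_lit 76) (nat_lit 39005023079) (nat_lit 76) (nat_lit 29554575289) (nat_lit 3) (nat_lit 4) (nat_lit 4) (nat_lit 5) (nat_lit 4) (nat_lit 4) (nat_lit 323) (nat_lit 222) (nat_lit 175)) (XT.nd (nat_lit 78) (nat_lit 0) (nat_lit 0) (XT.lf (nat_lit 0) (nat_lit 13691837971) (nat_lit 76) (nat_lit 37822284174) (nat_lit 76) (nat_lit 28321306092) (nat_lit 3) (nat_lit 4) (nat_lit 4) (nat_lit 5) (nat_lit 4) (nat_lit 4) (nat_lit 324) (nat_lit 222) (nat_lit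 174)) (XT.lf (nat_lit 0) (nat_lit 20019484242) (nat_lit 76) (nat_lit 36600850654) (nat_lit 76) (nat_lit 27051748484) (nat_lit 3) (nat_lit 4) (nat_lit 4) (nat_lit 5) (nat_lit 4) (nat_lit 4) (nat_lit 325) (nat_lit 222) (nat_lit 173)))))) (XT.nd (nat_lit 312) (nat_lit 0) (nat_lit 0) (XT.nd (nat_lit 156) (nat_lit 0) (nat_lit 0) (XT.nd (nat_lit 78) (nat_lit 0) (nat_lit 0) (XT.lf (nat_lit 0) (nat_lit 26621044595) (nat_lit 76) (nat_lit 35337814344) (nat_lit 76) (nat_lit 25742879709) (nat_lit 3) (nat_lit 4) (nat_lit 4) (nat_lit 5) (nat_lit 4) (nat_lit 4) (nat_lit 326) (nat_lit 222) (nat_lit 172)) (XT.lf (nat_lit 0) (nat_lit 33512237029) (nat_lit 76) (nat_lit 34030168015) (nat_lit 76) (nat_lit 24391583413) (nat_lit 3) (nat_lit 4) (nat_lit 4) (nat_lit 5) (nat_lit 4) (nat_lit 4) (nat_lit 327) (nat_lit 222) (nat_lit 171))) (XT.nd (nat_lit 78) (nat_lit 0) (nat_lit 0) (XT.lf (nat_lit 0) (nat_lit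 40709469146) (nat_lit 76) (nat_lit 32674798222) (nat_lit 76) (nat_lit 22994642224) (nat_lit 3) (nat_lit 4) (nat_lit 4) (nat_lit 5) (nat_lit 4) (nat_lit 4) (nat_lit 328) (nat_lit 222) (nat_lit 170)) (XT.lf (nat_lit 0) (nat_lit 48229877212) (nat_lit 76) (nat_lit 31268477895) (nat_lit 76) (nat_lit 21548730091) (nat_lit 3) (nat_lit 4) (nat_lit 4) (nat_lit 5) (nat_lit 4) (nat_lit 4) (nat_lit 329) (nat_lit 222) (nat_lit 169)))) (XT.nd (nat_lit 156) (nat_lit 0) (nat_lit 0) (XT.nd (nat_lit 78) (nat_lit 0) (nat_lit 0) (XT.lf (nat_lit 0) (nat_lit 56091366962) (nat_lit 76) (nat_lit 29807858653) (nat_lit 76) (nat_lit 20050404367) (nat_lit 3) (nat_lit 4) (nat_lit 4) (nat_lit 5) (nat_lit 4) (nat_lit 4) (nat_lit 330) (nat_lit 222) (nat_lit 168)) (XT.lf (nat_lit 0) (nat_lit 64312656228) (nat_lit 76) (nat_lit 28289462830) (nat_lit 76) (nat_lit 18496097608) (nat_lit 3) (nat_lit 4) (nat_lit 4) (nat_lit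 5) (nat_lit 4) (nat_lit 4) (nat_lit 331) (nat_lit 222) (nat_lit 167))) (XT.nd (nat_lit 78) (nat_lit 0) (nat_lit 0) (XT.lf (nat_lit 0) (nat_lit 72913319508) (nat_lit 76) (nat_lit 26709675198) (nat_lit 76) (nat_lit 16882109086) (nat_lit 3) (nat_lit 4) (nat_lit 4) (nat_lit 5) (nat_lit 4) (nat_lit 4) (nat_lit 332) (nat_lit 222) (nat_lit 166)) (XT.nd (nat_lit 78) (nat_lit 0) (nat_lit 0) (XT.lf (nat_lit 0) (nat_lit 81913834572) (nat_lit 76) (nat_lit 25064734359) (nat_lit 76) (nat_lit 15204595969) (nat_lit 3) (nat_lit 4) (nat_lit 4) (nat_lit 5) (nat_lit 4) (nat_lit 4) (nat_lit 333) (nat_lit 222) (nat_lit 165)) (XT.lf (nat_lit 0) (nat_lit 91335631218) (nat_lit 76) (nat_lit 23350723786) (nat_lit 76) (nat_lit 13459564180) (nat_lit 3) (nat_lit 4) (nat_lit 4) (nat_lit 5) (nat_lit 4) (nat_lit 4) (nat_lit 334) (nat_lit 222) (nat_lit 164))))))))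
noncomputable def xc58 : XT := (XT.nd (nat_lit 1404) (nat_lit 0) (nat_lit 0) (XT.nd (nat_lit 702) (nat_lit 0) (nat_lit 0) (XT.nd (nat_lit 312) (nat_lit 152) (nat_lit 0) (XT.nd (nat_lit 156) (nat_lit 0) (nat_lit 0) (XT.nd (nat_lit 78) (nat_lit 0) (nat_lit 0) (XT.lf (nat_lit 0) (nat_lit 101201142294) (nat_lit 76) (nat_lit 21563562501) (nat_lit 76) (nat_lit 11642858880) (nat_lit 3) (nat_lit 4) (nat_lit 4) (nat_lit 5) (nat_lit 4) (nat_lit 4) (nat_lit 335) (nat_lit 222) (nat_lit 163)) (XT.lf (nat_lit 0) (nat_lit 111533857114) (nat_lit 76) (nat_lit 19698995359) (nat_lit 76) (nat_lit 9750154581) (nat_lit 3) (nat_lit 4) (nat_lit 4) (nat_lit 5) (nat_lit 4) (nat_lit 4) (nat_lit 336) (nat_lit 222) (nat_lit 162))) (XT.nd (nat_lit 78) (nat_lit 0) (nat_lit 0) (XT.lf (nat_lit 0) (nat_lit 122358377378) (nat_lit 76) (nat_lit 17752582915) (nat_lit 76) (nat_lit 7776944843) (nat_lit 3) (nat_lit 4) (nat_lit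 4) (nat_lit 5) (nat_lit 4) (nat_lit 4) (nat_lit 337) (nat_lit 222) (nat_lit 161)) (XT.lf (nat_lit 0) (nat_lit 133700475754) (nat_lit 76) (nat_lit 15719690853) (nat_lit 76) (nat_lit 5718531549) (nat_lit 3) (nat_lit 4) (nat_lit 4) (nat_lit 5) (nat_lit 4) (nat_lit 4) (nat_lit 338) (nat_lit 222) (nat_lit 160)))) (XT.nd (nat_lit 156) (nat_lit 152) (nat_lit 0) (XT.nd (nat_lit 78) (nat_lit 0) (nat_lit 0) (XT.lf (nat_lit 0) (nat_lit 145587157239) (nat_lit 76) (nat_lit 13595478953) (nat_lit 76) (nat_lit 3570013715) (nat_lit 3) (nat_lit 4) (nat_lit 4) (nat_lit 5) (nat_lit 4) (nat_lit 4) (nat_lit 339) (nat_lit 222) (nat_lit 159)) (XT.lf (nat_lit 0) (nat_lit 158046723455) (nat_lit 76) (nat_lit 11374889568) (nat_lit 76) (nat_lit 1326275822) (nat_lit 3) (nat_lit 4) (nat_lit 4) (nat_lit 5) (nat_lit 4) (nat_lit 4) (nat_lit 340) (nat_lit 222) (nat_lit 158))) (XT.nd (nat_lit 78) (nat_lit 76) (nat_lit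 0) (XT.lf (nat_lit 0) (nat_lit 985441226) (nat_lit 152) (nat_lit 8050505431) (nat_lit 76) (nat_lit 170106709885) (nat_lit 2) (nat_lit 5) (nat_lit 4) (nat_lit 5) (nat_lit 3) (nat_lit 4) (nat_lit 341) (nat_lit 222) (nat_lit 157)) (XT.nd (nat_lit 78) (nat_lit 76) (nat_lit 0) (XT.lf (nat_lit 0) (nat_lit 3357455855) (nat_lit 152) (nat_lit 3208871822) (nat_lit 76) (nat_lit 181390291263) (nat_lit 2) (nat_lit 5) (nat_lit 4) (nat_lit 5) (nat_lit 3) (nat_lit 4) (nat_lit 342) (nat_lit 222) (nat_lit 156)) (XT.lf (nat_lit 0) (nat_lit 1917336770) (nat_lit 76) (nat_lit 3950463058) (nat_lit 152) (nat_lit 191342500428) (nat_lit 1) (nat_lit 5) (nat_lit 2) (nat_lit 5) (nat_lit 3) (nat_lit 4) (nat_lit 343) (nat_lit 222) (nat_lit 155)))))) (XT.nd (nat_lit 312) (nat_lit 0) (nat_lit 0) (XT.nd (nat_lit 156) (nat_lit 0) (nat_lit 0) (XT.nd (nat_lit 78) (nat_lit 0) (nat_lit 0) (XT.lf (nat_lit 0) (nat_lit 7392691538)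 (nat_lit 76) (nat_lit 1155302975) (nat_lit 152) (nat_lit 198376461335) (nat_lit 1) (nat_lit 5) (nat_lit 2) (nat_lit 5) (nat_lit 3) (nat_lit 4) (nat_lit 344) (nat_lit 222) (nat_lit 154)) (XT.lf (nat_lit 0) (nat_lit 11380322845) (nat_lit 152) (nat_lit 204028330728) (nat_lit 0) (nat_lit 1714766009) (nat_lit 1) (nat_lit 5) (nat_lit 3) (nat_lit 4) (nat_lit 1) (nat_lit 4) (nat_lit 345) (nat_lit 222) (nat_lit 153))) (XT.nd (nat_lit 78) (nat_lit 0) (nat_lit 0) (XT.lf (nat_lit 0) (nat_lit 14364006160) (nat_lit 152) (nat_lit 208785846547) (nat_lit 0) (nat_lit 4681998112) (nat_lit 1) (nat_lit 5) (nat_lit 3) (nat_lit 4) (nat_lit 1) (nat_lit 4) (nat_lit 346) (nat_lit 222) (nat_lit 152)) (XT.lf (nat_lit 0) (nat_lit 17488110951) (nat_lit 152) (nat_lit 213797601671) (nat_lit 0) (nat_lit 7790435080) (nat_lit 1) (nat_lit 5) (nat_lit 3) (nat_lit 4) (nat_lit 1) (nat_lit 4) (nat_lit 347) (nat_lit 222) (nat_lit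 151)))) (XT.nd (nat_lit 156) (nat_lit 0) (nat_lit 0) (XT.nd (nat_lit 78) (nat_lit 0) (nat_lit 0) (XT.lf (nat_lit 0) (nat_lit 20760075561) (nat_lit 152) (nat_lit 219075528848) (nat_lit 0) (nat_lit 11047477954) (nat_lit 1) (nat_lit 5) (nat_lit 3) (nat_lit 4) (nat_lit 1) (nat_lit 4) (nat_lit 348) (nat_lit 222) (nat_lit 150)) (XT.lf (nat_lit 0) (nat_lit 24187690382) (nat_lit 152) (nat_lit 224632194573) (nat_lit 0) (nat_lit 14460881599) (nat_lit 1) (nat_lit 5) (nat_lit 3) (nat_lit 4) (nat_lit 1) (nat_lit 4) (nat_lit 349) (nat_lit 222) (nat_lit 149))) (XT.nd (nat_lit 78) (nat_lit 0) (nat_lit 0) (XT.lf (nat_lit 0) (nat_lit 27779116402) (nat_lit 152) (nat_lit 230480829001) (nat_lit 0) (nat_lit 18038773166) (nat_lit 1) (nat_lit 5) (nat_lit 3) (nat_lit 4) (nat_lit 1) (nat_lit 4) (nat_lit 350) (nat_lit 222) (nat_lit 148)) (XT.nd (nat_lit 78) (nat_lit 0) (nat_lit 0) (XT.lf (nat_lit 0) (nat_lit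 31542904636) (nat_lit 152) (nat_lit 236635357453) (nat_lit 0) (nat_lit 21789671443) (nat_lit 1) (nat_lit 5) (nat_lit 3) (nat_lit 4) (nat_lit 1) (nat_lit 4) (nat_lit 351) (nat_lit 222) (nat_lit 147)) (XT.lf (nat_lit 0) (nat_lit 35488016484) (nat_lit 152) (nat_lit 243110433569) (nat_lit 0) (nat_lit 25722507143) (nat_lit 1) (nat_lit 5) (nat_lit 3) (nat_lit 4) (nat_lit 1) (nat_lit 4) (nat_lit 352) (nat_lit 222) (nat_lit 146))))))) (XT.nd (nat_lit 702) (nat_lit 0) (nat_lit 0) (XT.nd (nat_lit 312) (nat_lit 0) (nat_lit 0) (XT.nd (nat_lit 156) (nat_lit 0) (nat_lit 0) (XT.nd (nat_lit 78) (nat_lit 0) (nat_lit 0) (XT.lf (nat_lit 0) (nat_lit 39623845069) (nat_lit 152) (nat_lit 249921474195) (nat_lit 0) (nat_lit 29846644158) (nat_lit 1) (nat_lit 5) (nat_lit 3) (nat_lit 4) (nat_lit 1) (nat_lit 4) (nat_lit 353) (nat_lit 222) (nat_lit 145)) (XT.lf (nat_lit 0) (nat_lit 43960237603) (nat_lit 152) (nat_lit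 257084696096) (nat_lit 0) (nat_lit 34171901863) (nat_lit 1) (nat_lit 5) (nat_lit 3) (nat_lit 4) (nat_lit 1) (nat_lit 4) (nat_lit 354) (nat_lit 222) (nat_lit 144))) (XT.nd (nat_lit 78) (nat_lit 0) (nat_lit 0) (XT.lf (nat_lit 0) (nat_lit 48507518829) (nat_lit 152) (nat_lit 264617154561) (nat_lit 0) (nat_lit 38708578490) (nat_lit 1) (nat_lit 5) (nat_lit 3) (nat_lit 4) (nat_lit 1) (nat_lit 4) (nat_lit 355) (nat_lit 222) (nat_lit 143)) (XT.lf (nat_lit 0) (nat_lit 53276515608) (nat_lit 152) (nat_lit 272536784015) (nat_lit 0) (nat_lit 43467475651) (nat_lit 1) (nat_lit 5) (nat_lit 3) (nat_lit 4) (nat_lit 1) (nat_lit 4) (nat_lit 356) (nat_lit 222) (nat_lit 142)))) (XT.nd (nat_lit 156) (nat_lit 0) (nat_lit 0) (XT.nd (nat_lit 78) (nat_lit 0) (nat_lit 0) (XT.lf (nat_lit 0) (nat_lit 58278582694) (nat_lit 152) (nat_lit 280862440720) (nat_lit 0) (nat_lit 48459924053) (nat_lit 1) (nat_lit 5) (nat_lit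 3) (nat_lit 4) (nat_lit 1) (nat_lit 4) (nat_lit 357) (nat_lit 222) (nat_lit 141)) (XT.lf (nat_lit 0) (nat_lit 63525629770) (nat_lit 152) (nat_lit 289613947667) (nat_lit 0) (nat_lit 53697810478) (nat_lit 1) (nat_lit 5) (nat_lit 3) (nat_lit 4) (nat_lit 1) (nat_lit 4) (nat_lit 358) (nat_lit 222) (nat_lit 140))) (XT.nd (nat_lit 78) (nat_lit 0) (nat_lit 0) (XT.lf (nat_lit 0) (nat_lit 69030149805) (nat_lit 152) (nat_lit 298812141777) (nat_lit 0) (nat_lit 59193606084) (nat_lit 1) (nat_lit 5) (nat_lit 3) (nat_lit 4) (nat_lit 1) (nat_lit 4) (nat_lit 359) (nat_lit 222) (nat_lit 139)) (XT.nd (nat_lit 78) (nat_lit 0) (nat_lit 0) (XT.lf (nat_lit 0) (nat_lit 74805248800) (nat_lit 152) (nat_lit 308478923514) (nat_lit 0) (nat_lit 64960396098) (nat_lit 1) (nat_lit 5) (nat_lit 3) (nat_lit 4) (nat_lit 1) (nat_lit 4) (nat_lit 360) (nat_lit 222) (nat_lit 138)) (XT.lf (nat_lit 0) (nat_lit 80864676991) (nat_lit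 152) (nat_lit 318637309022) (nat_lit 0) (nat_lit 71011910974) (nat_lit 1) (nat_lit 5) (nat_lit 3) (nat_lit 4) (nat_lit 1) (nat_lit 4) (nat_lit 361) (nat_lit 222) (nat_lit 137)))))) (XT.nd (nat_lit 30654) (nat_lit 0) (nat_lit 1672) (XT.nd (nat_lit 156) (nat_lit 0) (nat_lit 0) (XT.nd (nat_lit 78) (nat_lit 0) (nat_lit 0) (XT.lf (nat_lit 0) (nat_lit 87222861586) (nat_lit 152) (nat_lit 329311484936) (nat_lit 0) (nat_lit 77362559079) (nat_lit 1) (nat_lit 5) (nat_lit 3) (nat_lit 4) (nat_lit 1) (nat_lit 4) (nat_lit 362) (nat_lit 222) (nat_lit 136)) (XT.lf (nat_lit 0) (nat_lit 93894941122) (nat_lit 152) (nat_lit 340526865959) (nat_lit 0) (nat_lit 84027461005) (nat_lit 1) (nat_lit 5) (nat_lit 3) (nat_lit 4) (nat_lit 1) (nat_lit 4) (nat_lit 363) (nat_lit 222) (nat_lit 135))) (XT.nd (nat_lit 78) (nat_lit 0) (nat_lit 0) (XT.lf (nat_lit 0) (nat_lit 100896801502) (nat_lit 152) (nat_lit 352310155380)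 (nat_lit 0) (nat_lit 91022485566) (nat_lit 1) (nat_lit 5) (nat_lit 3) (nat_lit 4) (nat_lit 1) (nat_lit 4) (nat_lit 364) (nat_lit 222) (nat_lit 134)) (XT.lf (nat_lit 0) (nat_lit 108245113821) (nat_lit 152) (nat_lit 364689408649) (nat_lit 0) (nat_lit 98364287582) (nat_lit 1) (nat_lit 5) (nat_lit 3) (nat_lit 4) (nat_lit 1) (nat_lit 4) (nat_lit 365) (nat_lit 222) (nat_lit 133)))) (XT.nd (nat_lit 156) (nat_lit 380) (nat_lit 0) (XT.nd (nat_lit 78) (nat_lit 152) (nat_lit 0) (XT.lf (nat_lit 0) (nat_lit 2517882943) (nat_lit 228) (nat_lit 305360687) (nat_lit 0) (nat_lit 2517882943) (nat_lit 30) (nat_lit 5) (nat_lit 33) (nat_lit 4) (nat_lit 30) (nat_lit 4) (nat_lit 274) (nat_lit 223) (nat_lit 223)) (XT.lf (nat_lit 0) (nat_lit 6205036561) (nat_lit 152) (nat_lit 2759844290) (nat_lit 152) (nat_lit 2020301580) (nat_lit 28) (nat_lit 4) (nat_lit 30) (nat_lit 5) (nat_lit 30) (nat_lit 4) (nat_lit 275)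 (nat_lit 223) (nat_lit 222))) (XT.nd (nat_lit 78) (nat_lit 152) (nat_lit 0) (XT.lf (nat_lit 0) (nat_lit 1631019041) (nat_lit 228) (nat_lit 9420141671) (nat_lit 0) (nat_lit 255905613) (nat_lit 25) (nat_lit 5) (nat_lit 28) (nat_lit 4) (nat_lit 25) (nat_lit 4) (nat_lit 276) (nat_lit 223) (nat_lit 221)) (XT.nd (nat_lit 78) (nat_lit 152) (nat_lit 0) (XT.lf (nat_lit 0) (nat_lit 5383594709) (nat_lit 228) (nat_lit 2891070544) (nat_lit 0) (nat_lit 3369636482) (nat_lit 25) (nat_lit 5) (nat_lit 28) (nat_lit 4) (nat_lit 25) (nat_lit 4) (nat_lit 277) (nat_lit 223) (nat_lit 220)) (XT.lf (nat_lit 0) (nat_lit 3875456522) (nat_lit 152) (nat_lit 5374620656) (nat_lit 152) (nat_lit 2752238812) (nat_lit 23) (nat_lit 4) (nat_lit 25) (nat_lit 5) (nat_lit 25) (nat_lit 4) (nat_lit 278) (nat_lit 223) (nat_lit 219))))))))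
noncomputable def xc59 : XT := (XT.nd (nat_lit 1404) (nat_lit 456) (nat_lit 0) (XT.nd (nat_lit 702) (nat_lit 304) (nat_lit 0) (XT.nd (nat_lit 312) (nat_lit 380) (nat_lit 0) (XT.nd (nat_lit 156) (nat_lit 152) (nat_lit 0) (XT.nd (nat_lit 78) (nat_lit 76) (nat_lit 0) (XT.lf (nat_lit 0) (nat_lit 818126841) (nat_lit 228) (nat_lit 1524672883) (nat_lit 76) (nat_lit 10039098814) (nat_lit 22) (nat_lit 5) (nat_lit 25) (nat_lit 5) (nat_lit 23) (nat_lit 4) (nat_lit 279) (nat_lit 223) (nat_lit 218)) (XT.lf (nat_lit 0) (nat_lit 4444630232) (nat_lit 152) (nat_lit 7465581574) (nat_lit 0) (nat_lit 869686362) (nat_lit 21) (nat_lit 5) (nat_lit 23) (nat_lit 4) (nat_lit 21) (nat_lit 4) (nat_lit 280) (nat_lit 223) (nat_lit 217))) (XT.nd (nat_lit 78) (nat_lit 152) (nat_lit 0) (XT.lf (nat_lit 0) (nat_lit 8191718149) (nat_lit 152) (nat_lit 893084023) (nat_lit 0) (nat_lit 4116222663) (nat_lit 21) (nat_lit 5)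 (nat_lit 23) (nat_lit 4) (nat_lit 21) (nat_lit 4) (nat_lit 281) (nat_lit 223) (nat_lit 216)) (XT.lf (nat_lit 0) (nat_lit 6004076644) (nat_lit 152) (nat_lit 6096403742) (nat_lit 152) (nat_lit 1544192431) (nat_lit 19) (nat_lit 4) (nat_lit 21) (nat_lit 5) (nat_lit 21) (nat_lit 4) (nat_lit 282) (nat_lit 223) (nat_lit 215)))) (XT.nd (nat_lit 156) (nat_lit 228) (nat_lit 0) (XT.nd (nat_lit 78) (nat_lit 76) (nat_lit 0) (XT.lf (nat_lit 0) (nat_lit 1923696224) (nat_lit 228) (nat_lit 1062649122) (nat_lit 76) (nat_lit 11127859929) (nat_lit 18) (nat_lit 5) (nat_lit 21) (nat_lit 5) (nat_lit 19) (nat_lit 4) (nat_lit 283) (nat_lit 223) (nat_lit 214)) (XT.lf (nat_lit 0) (nat_lit 5495841366) (nat_lit 152) (nat_lit 8794924077) (nat_lit 0) (nat_lit 316201663) (nat_lit 17) (nat_lit 5) (nat_lit 19) (nat_lit 4) (nat_lit 17) (nat_lit 4) (nat_lit 284) (nat_lit 223) (nat_lit 213))) (XT.nd (nat_lit 78) (nat_lit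 228) (nat_lit 0) (XT.lf (nat_lit 0) (nat_lit 9202023863) (nat_lit 152) (nat_lit 2294531677) (nat_lit 0) (nat_lit 3630188872) (nat_lit 17) (nat_lit 5) (nat_lit 19) (nat_lit 4) (nat_lit 17) (nat_lit 4) (nat_lit 285) (nat_lit 223) (nat_lit 212)) (XT.nd (nat_lit 78) (nat_lit 76) (nat_lit 0) (XT.lf (nat_lit 0) (nat_lit 4494567392) (nat_lit 152) (nat_lit 8562627663) (nat_lit 152) (nat_lit 2617273349) (nat_lit 15) (nat_lit 4) (nat_lit 17) (nat_lit 5) (nat_lit 17) (nat_lit 4) (nat_lit 286) (nat_lit 223) (nat_lit 211)) (XT.lf (nat_lit 0) (nat_lit 761631012) (nat_lit 228) (nat_lit 4739743426) (nat_lit 76) (nat_lit 10750991519) (nat_lit 14) (nat_lit 5) (nat_lit 17) (nat_lit 5) (nat_lit 15) (nat_lit 4) (nat_lit 287) (nat_lit 223) (nat_lit 210)))))) (XT.nd (nat_lit 312) (nat_lit 152) (nat_lit 0) (XT.nd (nat_lit 156) (nat_lit 76) (nat_lit 0) (XT.nd (nat_lit 78) (nat_lit 0) (nat_lit 0) (XT.lf (nat_lit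 0) (nat_lit 1866989678) (nat_lit 76) (nat_lit 2282702865) (nat_lit 152) (nat_lit 12711034554) (nat_lit 13) (nat_lit 5) (nat_lit 14) (nat_lit 5) (nat_lit 15) (nat_lit 4) (nat_lit 288) (nat_lit 223) (nat_lit 209)) (XT.lf (nat_lit 0) (nat_lit 7705947709) (nat_lit 152) (nat_lit 8718778552) (nat_lit 0) (nat_lit 1074957165) (nat_lit 13) (nat_lit 5) (nat_lit 15) (nat_lit 4) (nat_lit 13) (nat_lit 4) (nat_lit 289) (nat_lit 223) (nat_lit 208))) (XT.nd (nat_lit 78) (nat_lit 76) (nat_lit 0) (XT.lf (nat_lit 0) (nat_lit 11382274220) (nat_lit 152) (nat_lit 2332690013) (nat_lit 0) (nat_lit 4458621512) (nat_lit 13) (nat_lit 5) (nat_lit 15) (nat_lit 4) (nat_lit 13) (nat_lit 4) (nat_lit 290) (nat_lit 223) (nat_lit 207)) (XT.lf (nat_lit 0) (nat_lit 4354751813) (nat_lit 76) (nat_lit 10865023911) (nat_lit 76) (nat_lit 3662645334) (nat_lit 12) (nat_lit 4) (nat_lit 13) (nat_lit 5) (nat_lit 13) (nat_lit 4)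 (nat_lit 291) (nat_lit 223) (nat_lit 206)))) (XT.nd (nat_lit 156) (nat_lit 76) (nat_lit 0) (XT.nd (nat_lit 78) (nat_lit 76) (nat_lit 0) (XT.lf (nat_lit 0) (nat_lit 11302758655) (nat_lit 76) (nat_lit 7897166695) (nat_lit 76) (nat_lit 429334909) (nat_lit 12) (nat_lit 4) (nat_lit 13) (nat_lit 5) (nat_lit 13) (nat_lit 4) (nat_lit 292) (nat_lit 223) (nat_lit 205)) (XT.lf (nat_lit 0) (nat_lit 2784736894) (nat_lit 152) (nat_lit 2011933732) (nat_lit 76) (nat_lit 15618846358) (nat_lit 11) (nat_lit 5) (nat_lit 13) (nat_lit 5) (nat_lit 12) (nat_lit 4) (nat_lit 293) (nat_lit 223) (nat_lit 204))) (XT.nd (nat_lit 78) (nat_lit 0) (nat_lit 0) (XT.lf (nat_lit 0) (nat_lit 4615864381) (nat_lit 76) (nat_lit 1519395439) (nat_lit 152) (nat_lit 15106053061) (nat_lit 10) (nat_lit 5) (nat_lit 11) (nat_lit 5) (nat_lit 12) (nat_lit 4) (nat_lit 294) (nat_lit 223) (nat_lit 203)) (XT.nd (nat_lit 78) (nat_lit 0)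 (nat_lit 0) (XT.lf (nat_lit 0) (nat_lit 9636806042) (nat_lit 152) (nat_lit 10636386649) (nat_lit 0) (nat_lit 1836113933) (nat_lit 10) (nat_lit 5) (nat_lit 12) (nat_lit 4) (nat_lit 10) (nat_lit 4) (nat_lit 295) (nat_lit 223) (nat_lit 202)) (XT.lf (nat_lit 0) (nat_lit 13261063124) (nat_lit 152) (nat_lit 4509952730) (nat_lit 0) (nat_lit 5252381480) (nat_lit 10) (nat_lit 5) (nat_lit 12) (nat_lit 4) (nat_lit 10) (nat_lit 4) (nat_lit 296) (nat_lit 223) (nat_lit 201))))))) (XT.nd (nat_lit 702) (nat_lit 228) (nat_lit 0) (XT.nd (nat_lit 312) (nat_lit 76) (nat_lit 0) (XT.nd (nat_lit 156) (nat_lit 76) (nat_lit 0) (XT.nd (nat_lit 78) (nat_lit 0) (nat_lit 0) (XT.lf (nat_lit 0) (nat_lit 1851418993) (nat_lit 76) (nat_lit 15170425076) (nat_lit 76) (nat_lit 6963658160) (nat_lit 9) (nat_lit 4) (nat_lit 10) (nat_lit 5) (nat_lit 10) (nat_lit 4) (nat_lit 297) (nat_lit 223) (nat_lit 200)) (XT.lf (nat_lit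 0) (nat_lit 8558900929) (nat_lit 76) (nat_lit 12416044278) (nat_lit 76) (nat_lit 4020624723) (nat_lit 9) (nat_lit 4) (nat_lit 10) (nat_lit 5) (nat_lit 10) (nat_lit 4) (nat_lit 298) (nat_lit 223) (nat_lit 199))) (XT.nd (nat_lit 78) (nat_lit 76) (nat_lit 0) (XT.lf (nat_lit 0) (nat_lit 15479343866) (nat_lit 76) (nat_lit 9577693643) (nat_lit 76) (nat_lit 1002604908) (nat_lit 9) (nat_lit 4) (nat_lit 10) (nat_lit 5) (nat_lit 10) (nat_lit 4) (nat_lit 299) (nat_lit 223) (nat_lit 198)) (XT.lf (nat_lit 0) (nat_lit 2030451160) (nat_lit 152) (nat_lit 4583777361) (nat_lit 76) (nat_lit 20564387217) (nat_lit 8) (nat_lit 5) (nat_lit 10) (nat_lit 5) (nat_lit 9) (nat_lit 4) (nat_lit 300) (nat_lit 223) (nat_lit 197)))) (XT.nd (nat_lit 156) (nat_lit 0) (nat_lit 0) (XT.nd (nat_lit 78) (nat_lit 0) (nat_lit 0) (XT.lf (nat_lit 0) (nat_lit 1635286929) (nat_lit 76) (nat_lit 3508349370) (nat_lit 152) (nat_lit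 23211030021) (nat_lit 7) (nat_lit 5) (nat_lit 8) (nat_lit 5) (nat_lit 9) (nat_lit 4) (nat_lit 301) (nat_lit 223) (nat_lit 196)) (XT.lf (nat_lit 0) (nat_lit 8213082208) (nat_lit 76) (nat_lit 214944467) (nat_lit 152) (nat_lit 21160771570) (nat_lit 7) (nat_lit 5) (nat_lit 8) (nat_lit 5) (nat_lit 9) (nat_lit 4) (nat_lit 302) (nat_lit 223) (nat_lit 195))) (XT.nd (nat_lit 78) (nat_lit 0) (nat_lit 0) (XT.lf (nat_lit 0) (nat_lit 11867412002) (nat_lit 152) (nat_lit 15923838632) (nat_lit 0) (nat_lit 3093900805) (nat_lit 7) (nat_lit 5) (nat_lit 9) (nat_lit 4) (nat_lit 7) (nat_lit 4) (nat_lit 303) (nat_lit 223) (nat_lit 194)) (XT.nd (nat_lit 78) (nat_lit 0) (nat_lit 0) (XT.lf (nat_lit 0) (nat_lit 15425281771) (nat_lit 152) (nat_lit 10306066995) (nat_lit 0) (nat_lit 6517698665) (nat_lit 7) (nat_lit 5) (nat_lit 9) (nat_lit 4) (nat_lit 7) (nat_lit 4) (nat_lit 304) (nat_lit 223) (nat_lit 193)) (XT.lf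 (nat_lit 0) (nat_lit 19106751216) (nat_lit 152) (nat_lit 4505669594) (nat_lit 0) (nat_lit 10071480577) (nat_lit 7) (nat_lit 5) (nat_lit 9) (nat_lit 4) (nat_lit 7) (nat_lit 4) (nat_lit 305) (nat_lit 223) (nat_lit 192)))))) (XT.nd (nat_lit 390) (nat_lit 152) (nat_lit 0) (XT.nd (nat_lit 156) (nat_lit 0) (nat_lit 0) (XT.nd (nat_lit 78) (nat_lit 0) (nat_lit 0) (XT.lf (nat_lit 0) (nat_lit 1540468657) (nat_lit 76) (nat_lit 21404168115) (nat_lit 76) (nat_lit 12247290303) (nat_lit 6) (nat_lit 4) (nat_lit 7) (nat_lit 5) (nat_lit 7) (nat_lit 4) (nat_lit 306) (nat_lit 223) (nat_lit 191)) (XT.lf (nat_lit 0) (nat_lit 7953266273) (nat_lit 76) (nat_lit 19046772403) (nat_lit 76) (nat_lit 9774078235) (nat_lit 6) (nat_lit 4) (nat_lit 7) (nat_lit 5) (nat_lit 7) (nat_lit 4) (nat_lit 307) (nat_lit 223) (nat_lit 190))) (XT.nd (nat_lit 78) (nat_lit 0) (nat_lit 0) (XT.lf (nat_lit 0) (nat_lit 14599014033) (nat_lit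 76) (nat_lit 16610926522) (nat_lit 76) (nat_lit 7227931063) (nat_lit 6) (nat_lit 4) (nat_lit 7) (nat_lit 5) (nat_lit 7) (nat_lit 4) (nat_lit 308) (nat_lit 223) (nat_lit 189)) (XT.nd (nat_lit 78) (nat_lit 0) (nat_lit 0) (XT.lf (nat_lit 0) (nat_lit 21493535148) (nat_lit 76) (nat_lit 14090830839) (nat_lit 76) (nat_lit 4602786531) (nat_lit 6) (nat_lit 4) (nat_lit 7) (nat_lit 5) (nat_lit 7) (nat_lit 4) (nat_lit 309) (nat_lit 223) (nat_lit 188)) (XT.lf (nat_lit 0) (nat_lit 28653245142) (nat_lit 76) (nat_lit 11480485126) (nat_lit 76) (nat_lit 1892394296) (nat_lit 6) (nat_lit 4) (nat_lit 7) (nat_lit 5) (nat_lit 7) (nat_lit 4) (nat_lit 310) (nat_lit 223) (nat_lit 187))))) (XT.nd (nat_lit 156) (nat_lit 76) (nat_lit 0) (XT.nd (nat_lit 78) (nat_lit 0) (nat_lit 0) (XT.lf (nat_lit 0) (nat_lit 880582909) (nat_lit 152) (nat_lit 7878178267) (nat_lit 76) (nat_lit 35199694937) (nat_lit 5) (nat_lit 5)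 (nat_lit 7) (nat_lit 5) (nat_lit 6) (nat_lit 4) (nat_lit 311) (nat_lit 223) (nat_lit 186)) (XT.lf (nat_lit 0) (nat_lit 3688215809) (nat_lit 152) (nat_lit 2213275967) (nat_lit 76) (nat_lit 40086413946) (nat_lit 5) (nat_lit 5) (nat_lit 7) (nat_lit 5) (nat_lit 6) (nat_lit 4) (nat_lit 312) (nat_lit 223) (nat_lit 185))) (XT.nd (nat_lit 78) (nat_lit 0) (nat_lit 0) (XT.lf (nat_lit 0) (nat_lit 3786037769) (nat_lit 76) (nat_lit 2870830569) (nat_lit 152) (nat_lit 41460958822) (nat_lit 4) (nat_lit 5) (nat_lit 5) (nat_lit 5) (nat_lit 6) (nat_lit 4) (nat_lit 313) (nat_lit 223) (nat_lit 184)) (XT.nd (nat_lit 78) (nat_lit 0) (nat_lit 0) (XT.lf (nat_lit 0) (nat_lit 9778709477) (nat_lit 152) (nat_lit 40265999435) (nat_lit 0) (nat_lit 309327717) (nat_lit 4) (nat_lit 5) (nat_lit 6) (nat_lit 4) (nat_lit 4) (nat_lit 4) (nat_lit 314) (nat_lit 223) (nat_lit 183)) (XT.lf (nat_lit 0) (nat_lit 13067321991) (nat_lit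 152) (nat_lit 36110944979) (nat_lit 0) (nat_lit 3523283976) (nat_lit 4) (nat_lit 5) (nat_lit 6) (nat_lit 4) (nat_lit 4) (nat_lit 4) (nat_lit 315) (nat_lit 223) (nat_lit 182))))))))
noncomputable def xc60 : XT := (XT.nd (nat_lit 1404) (nat_lit 152) (nat_lit 0) (XT.nd (nat_lit 702) (nat_lit 0) (nat_lit 0) (XT.nd (nat_lit 312) (nat_lit 76) (nat_lit 0) (XT.nd (nat_lit 156) (nat_lit 0) (nat_lit 0) (XT.nd (nat_lit 78) (nat_lit 0) (nat_lit 0) (XT.lf (nat_lit 0) (nat_lit 16485714201) (nat_lit 152) (nat_lit 31811911328) (nat_lit 0) (nat_lit 6870574990) (nat_lit 4) (nat_lit 5) (nat_lit 6) (nat_lit 4) (nat_lit 4) (nat_lit 4) (nat_lit 316) (nat_lit 223) (nat_lit 181)) (XT.lf (nat_lit 0) (nat_lit 20042025136) (nat_lit 152) (nat_lit 27358662686) (nat_lit 0) (nat_lit 10359170500) (nat_lit 4) (nat_lit 5) (nat_lit 6) (nat_lit 4) (nat_lit 4) (nat_lit 4) (nat_lit 317) (nat_lit 223) (nat_lit 180))) (XT.nd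 (nat_lit 78) (nat_lit 0) (nat_lit 0) (XT.lf (nat_lit 0) (nat_lit 23744722201) (nat_lit 152) (nat_lit 22740596081) (nat_lit 0) (nat_lit 13997376685) (nat_lit 4) (nat_lit 5) (nat_lit 6) (nat_lit 4) (nat_lit 4) (nat_lit 4) (nat_lit 318) (nat_lit 223) (nat_lit 179)) (XT.lf (nat_lit 0) (nat_lit 27602621344) (nat_lit 152) (nat_lit 17946716116) (nat_lit 0) (nat_lit 17793855941) (nat_lit 4) (nat_lit 5) (nat_lit 6) (nat_lit 4) (nat_lit 4) (nat_lit 4) (nat_lit 319) (nat_lit 223) (nat_lit 178)))) (XT.nd (nat_lit 156) (nat_lit 76) (nat_lit 0) (XT.nd (nat_lit 78) (nat_lit 0) (nat_lit 0) (XT.lf (nat_lit 0) (nat_lit 31624908037) (nat_lit 152) (nat_lit 12965608792) (nat_lit 0) (nat_lit 21757647505) (nat_lit 4) (nat_lit 5) (nat_lit 6) (nat_lit 4) (nat_lit 4) (nat_lit 4) (nat_lit 320) (nat_lit 223) (nat_lit 177)) (XT.lf (nat_lit 0) (nat_lit 35821159154) (nat_lit 152) (nat_lit 7785414328) (nat_lit 0)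 (nat_lit 25898188975) (nat_lit 4) (nat_lit 5) (nat_lit 6) (nat_lit 4) (nat_lit 4) (nat_lit 4) (nat_lit 321) (nat_lit 223) (nat_lit 176))) (XT.nd (nat_lit 78) (nat_lit 76) (nat_lit 0) (XT.lf (nat_lit 0) (nat_lit 40201365770) (nat_lit 152) (nat_lit 2393798928) (nat_lit 0) (nat_lit 30225338784) (nat_lit 4) (nat_lit 5) (nat_lit 6) (nat_lit 4) (nat_lit 4) (nat_lit 4) (nat_lit 322) (nat_lit 223) (nat_lit 175)) (XT.nd (nat_lit 78) (nat_lit 0) (nat_lit 0) (XT.lf (nat_lit 0) (nat_lit 3328610923) (nat_lit 76) (nat_lit 41499314969) (nat_lit 76) (nat_lit 31472757690) (nat_lit 3) (nat_lit 4) (nat_lit 4) (nat_lit 5) (nat_lit 4) (nat_lit 4) (nat_lit 323) (nat_lit 223) (nat_lit 174)) (XT.lf (nat_lit 0) (nat_lit 9375656916) (nat_lit 76) (nat_lit 40326547932) (nat_lit 76) (nat_lit 30251866565) (nat_lit 3) (nat_lit 4) (nat_lit 4) (nat_lit 5) (nat_lit 4) (nat_lit 4) (nat_lit 324) (nat_lit 223) (nat_lit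 173)))))) (XT.nd (nat_lit 312) (nat_lit 0) (nat_lit 0) (XT.nd (nat_lit 156) (nat_lit 0) (nat_lit 0) (XT.nd (nat_lit 78) (nat_lit 0) (nat_lit 0) (XT.lf (nat_lit 0) (nat_lit 15682586977) (nat_lit 76) (nat_lit 39114611430) (nat_lit 76) (nat_lit 28994097598) (nat_lit 3) (nat_lit 4) (nat_lit 4) (nat_lit 5) (nat_lit 4) (nat_lit 4) (nat_lit 325) (nat_lit 223) (nat_lit 172)) (XT.lf (nat_lit 0) (nat_lit 22264417604) (nat_lit 76) (nat_lit 37860619898) (nat_lit 76) (nat_lit 27696456100) (nat_lit 3) (nat_lit 4) (nat_lit 4) (nat_lit 5) (nat_lit 4) (nat_lit 4) (nat_lit 326) (nat_lit 223) (nat_lit 171))) (XT.nd (nat_lit 78) (nat_lit 0) (nat_lit 0) (XT.lf (nat_lit 0) (nat_lit 29136819825) (nat_lit 76) (nat_lit 36561587643) (nat_lit 76) (nat_lit 26355852449) (nat_lit 3) (nat_lit 4) (nat_lit 4) (nat_lit 5) (nat_lit 4) (nat_lit 4) (nat_lit 327) (nat_lit 223) (nat_lit 170)) (XT.lf (nat_lit 0) (nat_lit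 36316156499) (nat_lit 76) (nat_lit 35214421732) (nat_lit 76) (nat_lit 24969094731) (nat_lit 3) (nat_lit 4) (nat_lit 4) (nat_lit 5) (nat_lit 4) (nat_lit 4) (nat_lit 328) (nat_lit 223) (nat_lit 169)))) (XT.nd (nat_lit 156) (nat_lit 0) (nat_lit 0) (XT.nd (nat_lit 78) (nat_lit 0) (nat_lit 0) (XT.lf (nat_lit 0) (nat_lit 43819521288) (nat_lit 76) (nat_lit 33815914625) (nat_lit 76) (nat_lit 23532881142) (nat_lit 3) (nat_lit 4) (nat_lit 4) (nat_lit 5) (nat_lit 4) (nat_lit 4) (nat_lit 329) (nat_lit 223) (nat_lit 168)) (XT.lf (nat_lit 0) (nat_lit 51664779345) (nat_lit 76) (nat_lit 32362736544) (nat_lit 76) (nat_lit 22043792126) (nat_lit 3) (nat_lit 4) (nat_lit 4) (nat_lit 5) (nat_lit 4) (nat_lit 4) (nat_lit 330) (nat_lit 223) (nat_lit 167))) (XT.nd (nat_lit 78) (nat_lit 0) (nat_lit 0) (XT.lf (nat_lit 0) (nat_lit 59870609855) (nat_lit 76) (nat_lit 30851427542) (nat_lit 76) (nat_lit 20498282233)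 (nat_lit 3) (nat_lit 4) (nat_lit 4) (nat_lit 5) (nat_lit 4) (nat_lit 4) (nat_lit 331) (nat_lit 223) (nat_lit 166)) (XT.nd (nat_lit 78) (nat_lit 0) (nat_lit 0) (XT.lf (nat_lit 0) (nat_lit 68456550510) (nat_lit 76) (nat_lit 29278389263) (nat_lit 76) (nat_lit 18892671677) (nat_lit 3) (nat_lit 4) (nat_lit 4) (nat_lit 5) (nat_lit 4) (nat_lit 4) (nat_lit 332) (nat_lit 223) (nat_lit 165)) (XT.lf (nat_lit 0) (nat_lit 77443044027) (nat_lit 76) (nat_lit 27639876379) (nat_lit 76) (nat_lit 17223137576) (nat_lit 3) (nat_lit 4) (nat_lit 4) (nat_lit 5) (nat_lit 4) (nat_lit 4) (nat_lit 333) (nat_lit 223) (nat_lit 164))))))) (XT.nd (nat_lit 702) (nat_lit 76) (nat_lit 0) (XT.nd (nat_lit 312) (nat_lit 76) (nat_lit 0) (XT.nd (nat_lit 156) (nat_lit 0) (nat_lit 0) (XT.nd (nat_lit 78) (nat_lit 0) (nat_lit 0) (XT.lf (nat_lit 0) (nat_lit 86851486818) (nat_lit 76) (nat_lit 25931987668) (nat_lit 76) (nat_lit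 15485704850) (nat_lit 3) (nat_lit 4) (nat_lit 4) (nat_lit 5) (nat_lit 4) (nat_lit 4) (nat_lit 334) (nat_lit 223) (nat_lit 163)) (XT.lf (nat_lit 0) (nat_lit 96704279938) (nat_lit 76) (nat_lit 24150656728) (nat_lit 76) (nat_lit 13676236753) (nat_lit 3) (nat_lit 4) (nat_lit 4) (nat_lit 5) (nat_lit 4) (nat_lit 4) (nat_lit 335) (nat_lit 223) (nat_lit 162))) (XT.nd (nat_lit 78) (nat_lit 0) (nat_lit 0) (XT.lf (nat_lit 0) (nat_lit 107024882418) (nat_lit 76) (nat_lit 22291642296) (nat_lit 76) (nat_lit 11790425028) (nat_lit 3) (nat_lit 4) (nat_lit 4) (nat_lit 5) (nat_lit 4) (nat_lit 4) (nat_lit 336) (nat_lit 223) (nat_lit 161)) (XT.lf (nat_lit 0) (nat_lit 117837867121) (nat_lit 76) (nat_lit 20350518146) (nat_lit 76) (nat_lit 9823779647) (nat_lit 3) (nat_lit 4) (nat_lit 4) (nat_lit 5) (nat_lit 4) (nat_lit 4) (nat_lit 337) (nat_lit 223) (nat_lit 160)))) (XT.nd (nat_lit 156) (nat_lit 76) (nat_lit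 0) (XT.nd (nat_lit 78) (nat_lit 0) (nat_lit 0) (XT.lf (nat_lit 0) (nat_lit 129168979248) (nat_lit 76) (nat_lit 18322662555) (nat_lit 76) (nat_lit 7771618121) (nat_lit 3) (nat_lit 4) (nat_lit 4) (nat_lit 5) (nat_lit 4) (nat_lit 4) (nat_lit 338) (nat_lit 223) (nat_lit 159)) (XT.lf (nat_lit 0) (nat_lit 141045197639) (nat_lit 76) (nat_lit 16203247294) (nat_lit 76) (nat_lit 5629054351) (nat_lit 3) (nat_lit 4) (nat_lit 4) (nat_lit 5) (nat_lit 4) (nat_lit 4) (nat_lit 339) (nat_lit 223) (nat_lit 158))) (XT.nd (nat_lit 78) (nat_lit 76) (nat_lit 0) (XT.lf (nat_lit 0) (nat_lit 153494799003) (nat_lit 76) (nat_lit 13987226138) (nat_lit 76) (nat_lit 3390986995) (nat_lit 3) (nat_lit 4) (nat_lit 4) (nat_lit 5) (nat_lit 4) (nat_lit 4) (nat_lit 340) (nat_lit 223) (nat_lit 157)) (XT.nd (nat_lit 78) (nat_lit 76) (nat_lit 0) (XT.lf (nat_lit 0) (nat_lit 166547425248) (nat_lit 76) (nat_lit 11669322844) (nat_lit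 76) (nat_lit 1052087322) (nat_lit 3) (nat_lit 4) (nat_lit 4) (nat_lit 5) (nat_lit 4) (nat_lit 4) (nat_lit 341) (nat_lit 223) (nat_lit 156)) (XT.lf (nat_lit 0) (nat_lit 1348621946) (nat_lit 152) (nat_lit 7872557085) (nat_lit 76) (nat_lit 178862692545) (nat_lit 2) (nat_lit 5) (nat_lit 4) (nat_lit 5) (nat_lit 3) (nat_lit 4) (nat_lit 342) (nat_lit 223) (nat_lit 155)))))) (XT.nd (nat_lit 312) (nat_lit 0) (nat_lit 0) (XT.nd (nat_lit 156) (nat_lit 0) (nat_lit 0) (XT.nd (nat_lit 78) (nat_lit 76) (nat_lit 0) (XT.lf (nat_lit 0) (nat_lit 3824289275) (nat_lit 152) (nat_lit 2816483396) (nat_lit 76) (nat_lit 190698517413) (nat_lit 2) (nat_lit 5) (nat_lit 4) (nat_lit 5) (nat_lit 3) (nat_lit 4) (nat_lit 343) (nat_lit 223) (nat_lit 154)) (XT.lf (nat_lit 0) (nat_lit 2557118980) (nat_lit 76) (nat_lit 3897287289) (nat_lit 152) (nat_lit 200601546490) (nat_lit 1) (nat_lit 5) (nat_lit 2) (nat_lit 5) (nat_lit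 3) (nat_lit 4) (nat_lit 344) (nat_lit 223) (nat_lit 153))) (XT.nd (nat_lit 78) (nat_lit 0) (nat_lit 0) (XT.lf (nat_lit 0) (nat_lit 8280340754) (nat_lit 76) (nat_lit 974307246) (nat_lit 152) (nat_lit 208001875869) (nat_lit 1) (nat_lit 5) (nat_lit 2) (nat_lit 5) (nat_lit 3) (nat_lit 4) (nat_lit 345) (nat_lit 223) (nat_lit 152)) (XT.lf (nat_lit 0) (nat_lit 12218845166) (nat_lit 152) (nat_lit 213726469470) (nat_lit 0) (nat_lit 2020617680) (nat_lit 1) (nat_lit 5) (nat_lit 3) (nat_lit 4) (nat_lit 1) (nat_lit 4) (nat_lit 346) (nat_lit 223) (nat_lit 151)))) (XT.nd (nat_lit 156) (nat_lit 0) (nat_lit 0) (XT.nd (nat_lit 78) (nat_lit 0) (nat_lit 0) (XT.lf (nat_lit 0) (nat_lit 15338879020) (nat_lit 152) (nat_lit 218745826690) (nat_lit 0) (nat_lit 5125729798) (nat_lit 1) (nat_lit 5) (nat_lit 3) (nat_lit 4) (nat_lit 1) (nat_lit 4) (nat_lit 347) (nat_lit 223) (nat_lit 150)) (XT.lf (nat_lit 0) (nat_lit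 18606966548) (nat_lit 152) (nat_lit 224030993959) (nat_lit 0) (nat_lit 8379606149) (nat_lit 1) (nat_lit 5) (nat_lit 3) (nat_lit 4) (nat_lit 1) (nat_lit 4) (nat_lit 348) (nat_lit 223) (nat_lit 149))) (XT.nd (nat_lit 78) (nat_lit 0) (nat_lit 0) (XT.lf (nat_lit 0) (nat_lit 22030888909) (nat_lit 152) (nat_lit 229594555009) (nat_lit 0) (nat_lit 11789994057) (nat_lit 1) (nat_lit 5) (nat_lit 3) (nat_lit 4) (nat_lit 1) (nat_lit 4) (nat_lit 349) (nat_lit 223) (nat_lit 148)) (XT.nd (nat_lit 78) (nat_lit 0) (nat_lit 0) (XT.lf (nat_lit 0) (nat_lit 25618798302) (nat_lit 152) (nat_lit 235449756414) (nat_lit 0) (nat_lit 15365013493) (nat_lit 1) (nat_lit 5) (nat_lit 3) (nat_lit 4) (nat_lit 1) (nat_lit 4) (nat_lit 350) (nat_lit 223) (nat_lit 147)) (XT.lf (nat_lit 0) (nat_lit 29379237366) (nat_lit 152) (nat_lit 241610539130) (nat_lit 0) (nat_lit 19113176409) (nat_lit 1) (nat_lit 5) (nat_lit 3) (nat_lit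 4) (nat_lit 1) (nat_lit 4) (nat_lit 351) (nat_lit 223) (nat_lit 146))))))))
noncomputable def xc61 : XT := (XT.nd (nat_lit 31590) (nat_lit 0) (nat_lit 684) (XT.nd (nat_lit 702) (nat_lit 0) (nat_lit 0) (XT.nd (nat_lit 312) (nat_lit 0) (nat_lit 0) (XT.nd (nat_lit 156) (nat_lit 0) (nat_lit 0) (XT.nd (nat_lit 78) (nat_lit 0) (nat_lit 0) (XT.lf (nat_lit 0) (nat_lit 33321159529) (nat_lit 152) (nat_lit 248091571687) (nat_lit 0) (nat_lit 23043407001) (nat_lit 1) (nat_lit 5) (nat_lit 3) (nat_lit 4) (nat_lit 1) (nat_lit 4) (nat_lit 352) (nat_lit 223) (nat_lit 145)) (XT.lf (nat_lit 0) (nat_lit 37453950318) (nat_lit 152) (nat_lit 254908285115) (nat_lit 0) (nat_lit 27165062962) (nat_lit 1) (nat_lit 5) (nat_lit 3) (nat_lit 4) (nat_lit 1) (nat_lit 4) (nat_lit 353) (nat_lit 223) (nat_lit 144))) (XT.nd (nat_lit 78) (nat_lit 0) (nat_lit 0) (XT.lf (nat_lit 0) (nat_lit 41787449713) (nat_lit 152) (nat_lit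 262076909683) (nat_lit 0) (nat_lit 31487957759) (nat_lit 1) (nat_lit 5) (nat_lit 3) (nat_lit 4) (nat_lit 1) (nat_lit 4) (nat_lit 354) (nat_lit 223) (nat_lit 143)) (XT.lf (nat_lit 0) (nat_lit 46331975570) (nat_lit 152) (nat_lit 269614513547) (nat_lit 0) (nat_lit 36022383997) (nat_lit 1) (nat_lit 5) (nat_lit 3) (nat_lit 4) (nat_lit 1) (nat_lit 4) (nat_lit 355) (nat_lit 223) (nat_lit 142)))) (XT.nd (nat_lit 156) (nat_lit 0) (nat_lit 0) (XT.nd (nat_lit 78) (nat_lit 0) (nat_lit 0) (XT.lf (nat_lit 0) (nat_lit 51098348186) (nat_lit 152) (nat_lit 277539043381) (nat_lit 0) (nat_lit 40779137930) (nat_lit 1) (nat_lit 5) (nat_lit 3) (nat_lit 4) (nat_lit 1) (nat_lit 4) (nat_lit 356) (nat_lit 223) (nat_lit 141)) (XT.lf (nat_lit 0) (nat_lit 56097916070) (nat_lit 152) (nat_lit 285869367113) (nat_lit 0) (nat_lit 45769545162) (nat_lit 1) (nat_lit 5) (nat_lit 3) (nat_lit 4) (nat_lit 1) (nat_lit 4) (nat_lit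 357) (nat_lit 223) (nat_lit 140))) (XT.nd (nat_lit 78) (nat_lit 0) (nat_lit 0) (XT.lf (nat_lit 0) (nat_lit 61342582954) (nat_lit 152) (nat_lit 294625318848) (nat_lit 0) (nat_lit 51005487616) (nat_lit 1) (nat_lit 5) (nat_lit 3) (nat_lit 4) (nat_lit 1) (nat_lit 4) (nat_lit 358) (nat_lit 223) (nat_lit 139)) (XT.nd (nat_lit 78) (nat_lit 0) (nat_lit 0) (XT.lf (nat_lit 0) (nat_lit 66844836139) (nat_lit 152) (nat_lit 303827746091) (nat_lit 0) (nat_lit 56499431821) (nat_lit 1) (nat_lit 5) (nat_lit 3) (nat_lit 4) (nat_lit 1) (nat_lit 4) (nat_lit 359) (nat_lit 223) (nat_lit 138)) (XT.lf (nat_lit 0) (nat_lit 72617776230) (nat_lit 152) (nat_lit 313498559381) (nat_lit 0) (nat_lit 62264458597) (nat_lit 1) (nat_lit 5) (nat_lit 3) (nat_lit 4) (nat_lit 1) (nat_lit 4) (nat_lit 360) (nat_lit 223) (nat_lit 137)))))) (XT.nd (nat_lit 312) (nat_lit 0) (nat_lit 0) (XT.nd (nat_lit 156) (nat_lit 0) (nat_lit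 0) (XT.nd (nat_lit 78) (nat_lit 0) (nat_lit 0) (XT.lf (nat_lit 0) (nat_lit 78675148321) (nat_lit 152) (nat_lit 323660784465) (nat_lit 0) (nat_lit 68314294198) (nat_lit 1) (nat_lit 5) (nat_lit 3) (nat_lit 4) (nat_lit 1) (nat_lit 4) (nat_lit 361) (nat_lit 223) (nat_lit 136)) (XT.lf (nat_lit 0) (nat_lit 85031374726) (nat_lit 152) (nat_lit 334338617117) (nat_lit 0) (nat_lit 74663342993) (nat_lit 1) (nat_lit 5) (nat_lit 3) (nat_lit 4) (nat_lit 1) (nat_lit 4) (nat_lit 362) (nat_lit 223) (nat_lit 135))) (XT.nd (nat_lit 78) (nat_lit 0) (nat_lit 0) (XT.lf (nat_lit 0) (nat_lit 91701589319) (nat_lit 152) (nat_lit 345557480748) (nat_lit 0) (nat_lit 81326721767) (nat_lit 1) (nat_lit 5) (nat_lit 3) (nat_lit 4) (nat_lit 1) (nat_lit 4) (nat_lit 363) (nat_lit 223) (nat_lit 134)) (XT.lf (nat_lit 0) (nat_lit 98701673563) (nat_lit 152) (nat_lit 357344086939) (nat_lit 0) (nat_lit 88320295707) (nat_lit 1)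 (nat_lit 5) (nat_lit 3) (nat_lit 4) (nat_lit 1) (nat_lit 4) (nat_lit 364) (nat_lit 223) (nat_lit 133)))) (XT.nd (nat_lit 30342) (nat_lit 0) (nat_lit 2052) (XT.nd (nat_lit 30264) (nat_lit 0) (nat_lit 2432) (XT.lf (nat_lit 0) (nat_lit 106048294324) (nat_lit 152) (nat_lit 369726499036) (nat_lit 0) (nat_lit 95660716179) (nat_lit 1) (nat_lit 5) (nat_lit 3) (nat_lit 4) (nat_lit 1) (nat_lit 4) (nat_lit 365) (nat_lit 223) (nat_lit 132)) (XT.lf (nat_lit 0) (nat_lit 3436250989) (nat_lit 228) (nat_lit 812459959) (nat_lit 228) (nat_lit 812459959) (nat_lit 33) (nat_lit 4) (nat_lit 36) (nat_lit 5) (nat_lit 36) (nat_lit 4) (nat_lit 272) (nat_lit 224) (nat_lit 224))) (XT.nd (nat_lit 78) (nat_lit 152) (nat_lit 0) (XT.lf (nat_lit 0) (nat_lit 2025335245) (nat_lit 228) (nat_lit 7122112614) (nat_lit 0) (nat_lit 1248815400) (nat_lit 30) (nat_lit 5) (nat_lit 33) (nat_lit 4) (nat_lit 30) (nat_lit 4) (nat_lit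 273) (nat_lit 224) (nat_lit 223)) (XT.nd (nat_lit 78) (nat_lit 152) (nat_lit 0) (XT.lf (nat_lit 0) (nat_lit 5742012045) (nat_lit 228) (nat_lit 717942246) (nat_lit 0) (nat_lit 4225949491) (nat_lit 30) (nat_lit 5) (nat_lit 33) (nat_lit 4) (nat_lit 30) (nat_lit 4) (nat_lit 274) (nat_lit 224) (nat_lit 222)) (XT.lf (nat_lit 0) (nat_lit 5988778979) (nat_lit 152) (nat_lit 3612044324) (nat_lit 152) (nat_lit 1391655380) (nat_lit 28) (nat_lit 4) (nat_lit 30) (nat_lit 5) (nat_lit 30) (nat_lit 4) (nat_lit 275) (nat_lit 224) (nat_lit 221))))))) (XT.nd (nat_lit 702) (nat_lit 532) (nat_lit 0) (XT.nd (nat_lit 312) (nat_lit 380) (nat_lit 0) (XT.nd (nat_lit 156) (nat_lit 228) (nat_lit 0) (XT.nd (nat_lit 78) (nat_lit 0) (nat_lit 0) (XT.lf (nat_lit 0) (nat_lit 1543989823) (nat_lit 152) (nat_lit 619505691) (nat_lit 228) (nat_lit 9154297078) (nat_lit 25) (nat_lit 5) (nat_lit 27) (nat_lit 5) (nat_lit 28)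 (nat_lit 4) (nat_lit 276) (nat_lit 224) (nat_lit 220)) (XT.lf (nat_lit 0) (nat_lit 5840921539) (nat_lit 228) (nat_lit 3338979632) (nat_lit 0) (nat_lit 2478996985) (nat_lit 25) (nat_lit 5) (nat_lit 28) (nat_lit 4) (nat_lit 25) (nat_lit 4) (nat_lit 277) (nat_lit 224) (nat_lit 219))) (XT.nd (nat_lit 78) (nat_lit 76) (nat_lit 0) (XT.lf (nat_lit 0) (nat_lit 3310493462) (nat_lit 152) (nat_lit 6325730439) (nat_lit 152) (nat_lit 2384354821) (nat_lit 23) (nat_lit 4) (nat_lit 25) (nat_lit 5) (nat_lit 25) (nat_lit 4) (nat_lit 278) (nat_lit 224) (nat_lit 218)) (XT.lf (nat_lit 0) (nat_lit 1112228538) (nat_lit 228) (nat_lit 2213165269) (nat_lit 76) (nat_lit 9077677992) (nat_lit 22) (nat_lit 5) (nat_lit 25) (nat_lit 5) (nat_lit 23) (nat_lit 4) (nat_lit 279) (nat_lit 224) (nat_lit 217)))) (XT.nd (nat_lit 156) (nat_lit 304) (nat_lit 0) (XT.nd (nat_lit 78) (nat_lit 0) (nat_lit 0) (XT.lf (nat_lit 0) (nat_lit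 4519870413) (nat_lit 76) (nat_lit 133145871) (nat_lit 152) (nat_lit 8152433622) (nat_lit 21) (nat_lit 5) (nat_lit 22) (nat_lit 5) (nat_lit 23) (nat_lit 4) (nat_lit 280) (nat_lit 224) (nat_lit 216)) (XT.lf (nat_lit 0) (nat_lit 8339771500) (nat_lit 152) (nat_lit 1806676191) (nat_lit 0) (nat_lit 3083233799) (nat_lit 21) (nat_lit 5) (nat_lit 23) (nat_lit 4) (nat_lit 21) (nat_lit 4) (nat_lit 281) (nat_lit 224) (nat_lit 215))) (XT.nd (nat_lit 78) (nat_lit 152) (nat_lit 0) (XT.lf (nat_lit 0) (nat_lit 4966147078) (nat_lit 152) (nat_lit 7210701743) (nat_lit 152) (nat_lit 1500148972) (nat_lit 19) (nat_lit 4) (nat_lit 21) (nat_lit 5) (nat_lit 21) (nat_lit 4) (nat_lit 282) (nat_lit 224) (nat_lit 214)) (XT.nd (nat_lit 78) (nat_lit 76) (nat_lit 0) (XT.lf (nat_lit 0) (nat_lit 1911125691) (nat_lit 228) (nat_lit 2225140410) (nat_lit 76) (nat_lit 10013066245) (nat_lit 18) (nat_lit 5) (nat_lit 21) (nat_lit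 5) (nat_lit 19) (nat_lit 4) (nat_lit 283) (nat_lit 224) (nat_lit 213)) (XT.lf (nat_lit 0) (nat_lit 4526397053) (nat_lit 76) (nat_lit 879042060) (nat_lit 152) (nat_lit 9240619278) (nat_lit 17) (nat_lit 5) (nat_lit 18) (nat_lit 5) (nat_lit 19) (nat_lit 4) (nat_lit 284) (nat_lit 224) (nat_lit 212)))))) (XT.nd (nat_lit 390) (nat_lit 228) (nat_lit 0) (XT.nd (nat_lit 156) (nat_lit 152) (nat_lit 0) (XT.nd (nat_lit 78) (nat_lit 152) (nat_lit 0) (XT.lf (nat_lit 0) (nat_lit 9045949388) (nat_lit 152) (nat_lit 3693431055) (nat_lit 0) (nat_lit 2429808036) (nat_lit 17) (nat_lit 5) (nat_lit 19) (nat_lit 4) (nat_lit 17) (nat_lit 4) (nat_lit 285) (nat_lit 224) (nat_lit 211)) (XT.lf (nat_lit 0) (nat_lit 2962945178) (nat_lit 152) (nat_lit 9864788282) (nat_lit 152) (nat_lit 2892914243) (nat_lit 15) (nat_lit 4) (nat_lit 17) (nat_lit 5) (nat_lit 17) (nat_lit 4) (nat_lit 286) (nat_lit 224) (nat_lit 210)))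 (XT.nd (nat_lit 78) (nat_lit 76) (nat_lit 0) (XT.lf (nat_lit 0) (nat_lit 445554084) (nat_lit 228) (nat_lit 6397281202) (nat_lit 76) (nat_lit 9458447812) (nat_lit 14) (nat_lit 5) (nat_lit 17) (nat_lit 5) (nat_lit 15) (nat_lit 4) (nat_lit 287) (nat_lit 224) (nat_lit 209)) (XT.nd (nat_lit 78) (nat_lit 0) (nat_lit 0) (XT.lf (nat_lit 0) (nat_lit 71961908) (nat_lit 76) (nat_lit 3686715661) (nat_lit 152) (nat_lit 13154770478) (nat_lit 13) (nat_lit 5) (nat_lit 14) (nat_lit 5) (nat_lit 15) (nat_lit 4) (nat_lit 288) (nat_lit 224) (nat_lit 208)) (XT.lf (nat_lit 0) (nat_lit 6925335063) (nat_lit 76) (nat_lit 326351494) (nat_lit 152) (nat_lit 10303934324) (nat_lit 13) (nat_lit 5) (nat_lit 14) (nat_lit 5) (nat_lit 15) (nat_lit 4) (nat_lit 289) (nat_lit 224) (nat_lit 207))))) (XT.nd (nat_lit 156) (nat_lit 152) (nat_lit 0) (XT.nd (nat_lit 78) (nat_lit 76) (nat_lit 0) (XT.lf (nat_lit 0) (nat_lit 10878707460)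 (nat_lit 152) (nat_lit 4315848551) (nat_lit 0) (nat_lit 3037484085) (nat_lit 13) (nat_lit 5) (nat_lit 15) (nat_lit 4) (nat_lit 13) (nat_lit 4) (nat_lit 290) (nat_lit 224) (nat_lit 206)) (XT.lf (nat_lit 0) (nat_lit 2230512411) (nat_lit 76) (nat_lit 12410426132) (nat_lit 76) (nat_lit 4303749547) (nat_lit 12) (nat_lit 4) (nat_lit 13) (nat_lit 5) (nat_lit 13) (nat_lit 4) (nat_lit 291) (nat_lit 224) (nat_lit 205))) (XT.nd (nat_lit 78) (nat_lit 152) (nat_lit 0) (XT.lf (nat_lit 0) (nat_lit 9106606219) (nat_lit 76) (nat_lit 9473259098) (nat_lit 76) (nat_lit 1113769934) (nat_lit 12) (nat_lit 4) (nat_lit 13) (nat_lit 5) (nat_lit 13) (nat_lit 4) (nat_lit 292) (nat_lit 224) (nat_lit 204)) (XT.nd (nat_lit 78) (nat_lit 76) (nat_lit 0) (XT.lf (nat_lit 0) (nat_lit 2082261441) (nat_lit 152) (nat_lit 4331627094) (nat_lit 76) (nat_lit 14068577532) (nat_lit 11) (nat_lit 5) (nat_lit 13) (nat_lit 5) (nat_lit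 12) (nat_lit 4) (nat_lit 293) (nat_lit 224) (nat_lit 203)) (XT.lf (nat_lit 0) (nat_lit 2150746239) (nat_lit 76) (nat_lit 3205506322) (nat_lit 152) (nat_lit 15955876437) (nat_lit 10) (nat_lit 5) (nat_lit 11) (nat_lit 5) (nat_lit 12) (nat_lit 4) (nat_lit 294) (nat_lit 224) (nat_lit 202))))))))
noncomputable def xc62 : XT := (XT.nd (nat_lit 1404) (nat_lit 152) (nat_lit 0) (XT.nd (nat_lit 702) (nat_lit 152) (nat_lit 0) (XT.nd (nat_lit 312) (nat_lit 152) (nat_lit 0) (XT.nd (nat_lit 156) (nat_lit 76) (nat_lit 0) (XT.nd (nat_lit 78) (nat_lit 0) (nat_lit 0) (XT.lf (nat_lit 0) (nat_lit 8793778953) (nat_lit 152) (nat_lit 13212909603) (nat_lit 0) (nat_lit 176673692) (nat_lit 10) (nat_lit 5) (nat_lit 12) (nat_lit 4) (nat_lit 10) (nat_lit 4) (nat_lit 295) (nat_lit 224) (nat_lit 201)) (XT.lf (nat_lit 0) (nat_lit 12382136118) (nat_lit 152) (nat_lit 7150202933) (nat_lit 0) (nat_lit 3566945585) (nat_lit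 10) (nat_lit 5) (nat_lit 12) (nat_lit 4) (nat_lit 10) (nat_lit 4) (nat_lit 296) (nat_lit 224) (nat_lit 200))) (XT.nd (nat_lit 78) (nat_lit 76) (nat_lit 0) (XT.lf (nat_lit 0) (nat_lit 16079820827) (nat_lit 152) (nat_lit 908780797) (nat_lit 0) (nat_lit 7075977655) (nat_lit 10) (nat_lit 5) (nat_lit 12) (nat_lit 4) (nat_lit 10) (nat_lit 4) (nat_lit 297) (nat_lit 224) (nat_lit 199)) (XT.lf (nat_lit 0) (nat_lit 5708939035) (nat_lit 76) (nat_lit 14275830593) (nat_lit 76) (nat_lit 5092318240) (nat_lit 9) (nat_lit 4) (nat_lit 10) (nat_lit 5) (nat_lit 10) (nat_lit 4) (nat_lit 298) (nat_lit 224) (nat_lit 198)))) (XT.nd (nat_lit 156) (nat_lit 76) (nat_lit 0) (XT.nd (nat_lit 78) (nat_lit 76) (nat_lit 0) (XT.lf (nat_lit 0) (nat_lit 12572511778) (nat_lit 76) (nat_lit 11462450553) (nat_lit 76) (nat_lit 2107824694) (nat_lit 9) (nat_lit 4) (nat_lit 10) (nat_lit 5) (nat_lit 10) (nat_lit 4) (nat_lit 299)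 (nat_lit 224) (nat_lit 197)) (XT.lf (nat_lit 0) (nat_lit 929697482) (nat_lit 152) (nat_lit 7611711263) (nat_lit 76) (nat_lit 18722788513) (nat_lit 8) (nat_lit 5) (nat_lit 10) (nat_lit 5) (nat_lit 9) (nat_lit 4) (nat_lit 300) (nat_lit 224) (nat_lit 196))) (XT.nd (nat_lit 78) (nat_lit 76) (nat_lit 0) (XT.lf (nat_lit 0) (nat_lit 3987915182) (nat_lit 152) (nat_lit 1497569971) (nat_lit 76) (nat_lit 22957538431) (nat_lit 8) (nat_lit 5) (nat_lit 10) (nat_lit 5) (nat_lit 9) (nat_lit 4) (nat_lit 301) (nat_lit 224) (nat_lit 195)) (XT.nd (nat_lit 78) (nat_lit 0) (nat_lit 0) (XT.lf (nat_lit 0) (nat_lit 4978973400) (nat_lit 76) (nat_lit 2240335758) (nat_lit 152) (nat_lit 22460522242) (nat_lit 7) (nat_lit 5) (nat_lit 8) (nat_lit 5) (nat_lit 9) (nat_lit 4) (nat_lit 302) (nat_lit 224) (nat_lit 194)) (XT.lf (nat_lit 0) (nat_lit 10599263424) (nat_lit 152) (nat_lit 19267688296) (nat_lit 0) (nat_lit 1112229254)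 (nat_lit 7) (nat_lit 5) (nat_lit 9) (nat_lit 4) (nat_lit 7) (nat_lit 4) (nat_lit 303) (nat_lit 224) (nat_lit 193)))))) (XT.nd (nat_lit 312) (nat_lit 76) (nat_lit 0) (XT.nd (nat_lit 156) (nat_lit 76) (nat_lit 0) (XT.nd (nat_lit 78) (nat_lit 0) (nat_lit 0) (XT.lf (nat_lit 0) (nat_lit 14130648406) (nat_lit 152) (nat_lit 13697849741) (nat_lit 0) (nat_lit 4515926704) (nat_lit 7) (nat_lit 5) (nat_lit 9) (nat_lit 4) (nat_lit 7) (nat_lit 4) (nat_lit 304) (nat_lit 224) (nat_lit 192)) (XT.lf (nat_lit 0) (nat_lit 17786894244) (nat_lit 152) (nat_lit 7943102895) (nat_lit 0) (nat_lit 8050565368) (nat_lit 7) (nat_lit 5) (nat_lit 9) (nat_lit 4) (nat_lit 7) (nat_lit 4) (nat_lit 305) (nat_lit 224) (nat_lit 191))) (XT.nd (nat_lit 78) (nat_lit 76) (nat_lit 0) (XT.lf (nat_lit 0) (nat_lit 21576706285) (nat_lit 152) (nat_lit 1989745979) (nat_lit 0) (nat_lit 11724561054) (nat_lit 7) (nat_lit 5) (nat_lit 9)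 (nat_lit 4) (nat_lit 7) (nat_lit 4) (nat_lit 306) (nat_lit 224) (nat_lit 190)) (XT.lf (nat_lit 0) (nat_lit 4314486167) (nat_lit 76) (nat_lit 21261982945) (nat_lit 76) (nat_lit 11299536422) (nat_lit 6) (nat_lit 4) (nat_lit 7) (nat_lit 5) (nat_lit 7) (nat_lit 4) (nat_lit 307) (nat_lit 224) (nat_lit 189)))) (XT.nd (nat_lit 156) (nat_lit 76) (nat_lit 0) (XT.nd (nat_lit 78) (nat_lit 0) (nat_lit 0) (XT.lf (nat_lit 0) (nat_lit 10919495374) (nat_lit 76) (nat_lit 18844450474) (nat_lit 76) (nat_lit 8776955103) (nat_lit 6) (nat_lit 4) (nat_lit 7) (nat_lit 5) (nat_lit 7) (nat_lit 4) (nat_lit 308) (nat_lit 224) (nat_lit 188)) (XT.lf (nat_lit 0) (nat_lit 17775217867) (nat_lit 76) (nat_lit 16341796135) (nat_lit 76) (nat_lit 6174254241) (nat_lit 6) (nat_lit 4) (nat_lit 7) (nat_lit 5) (nat_lit 7) (nat_lit 4) (nat_lit 309) (nat_lit 224) (nat_lit 187))) (XT.nd (nat_lit 78) (nat_lit 76) (nat_lit 0) (XT.lf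 (nat_lit 0) (nat_lit 24897976792) (nat_lit 76) (nat_lit 13748061225) (nat_lit 76) (nat_lit 3485236929) (nat_lit 6) (nat_lit 4) (nat_lit 7) (nat_lit 5) (nat_lit 7) (nat_lit 4) (nat_lit 310) (nat_lit 224) (nat_lit 186)) (XT.nd (nat_lit 78) (nat_lit 76) (nat_lit 0) (XT.lf (nat_lit 0) (nat_lit 32304731101) (nat_lit 76) (nat_lit 11057070187) (nat_lit 76) (nat_lit 703500745) (nat_lit 6) (nat_lit 4) (nat_lit 7) (nat_lit 5) (nat_lit 7) (nat_lit 4) (nat_lit 311) (nat_lit 224) (nat_lit 185)) (XT.lf (nat_lit 0) (nat_lit 2107881413) (nat_lit 152) (nat_lit 6118836492) (nat_lit 76) (nat_lit 37869536518) (nat_lit 5) (nat_lit 5) (nat_lit 7) (nat_lit 5) (nat_lit 6) (nat_lit 4) (nat_lit 312) (nat_lit 224) (nat_lit 184))))))) (XT.nd (nat_lit 702) (nat_lit 76) (nat_lit 0) (XT.nd (nat_lit 312) (nat_lit 0) (nat_lit 0) (XT.nd (nat_lit 156) (nat_lit 0) (nat_lit 0) (XT.nd (nat_lit 78) (nat_lit 76) (nat_lit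 0) (XT.lf (nat_lit 0) (nat_lit 4999549798) (nat_lit 152) (nat_lit 273224825) (nat_lit 76) (nat_lit 42957264962) (nat_lit 5) (nat_lit 5) (nat_lit 7) (nat_lit 5) (nat_lit 6) (nat_lit 4) (nat_lit 313) (nat_lit 224) (nat_lit 183)) (XT.lf (nat_lit 0) (nat_lit 5992978551) (nat_lit 76) (nat_lit 2101494390) (nat_lit 152) (nat_lit 42373135837) (nat_lit 4) (nat_lit 5) (nat_lit 5) (nat_lit 5) (nat_lit 6) (nat_lit 4) (nat_lit 314) (nat_lit 224) (nat_lit 182))) (XT.nd (nat_lit 78) (nat_lit 0) (nat_lit 0) (XT.lf (nat_lit 0) (nat_lit 11333372346) (nat_lit 152) (nat_lit 40317874593) (nat_lit 0) (nat_lit 1166374979) (nat_lit 4) (nat_lit 5) (nat_lit 6) (nat_lit 4) (nat_lit 4) (nat_lit 4) (nat_lit 315) (nat_lit 224) (nat_lit 181)) (XT.lf (nat_lit 0) (nat_lit 14735666563) (nat_lit 152) (nat_lit 36048468596) (nat_lit 0) (nat_lit 4500953771) (nat_lit 4) (nat_lit 5) (nat_lit 6) (nat_lit 4) (nat_lit 4) (nat_lit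 4) (nat_lit 316) (nat_lit 224) (nat_lit 180)))) (XT.nd (nat_lit 156) (nat_lit 0) (nat_lit 0) (XT.nd (nat_lit 78) (nat_lit 0) (nat_lit 0) (XT.lf (nat_lit 0) (nat_lit 18276646075) (nat_lit 152) (nat_lit 31623436769) (nat_lit 0) (nat_lit 7977442403) (nat_lit 4) (nat_lit 5) (nat_lit 6) (nat_lit 4) (nat_lit 4) (nat_lit 4) (nat_lit 317) (nat_lit 224) (nat_lit 179)) (XT.lf (nat_lit 0) (nat_lit 21964741786) (nat_lit 152) (nat_lit 27032243320) (nat_lit 0) (nat_lit 11604118228) (nat_lit 4) (nat_lit 5) (nat_lit 6) (nat_lit 4) (nat_lit 4) (nat_lit 4) (nat_lit 318) (nat_lit 224) (nat_lit 178))) (XT.nd (nat_lit 78) (nat_lit 0) (nat_lit 0) (XT.lf (nat_lit 0) (nat_lit 25808734877) (nat_lit 152) (nat_lit 22263956837) (nat_lit 0) (nat_lit 15389616189) (nat_lit 4) (nat_lit 5) (nat_lit 6) (nat_lit 4) (nat_lit 4) (nat_lit 4) (nat_lit 319) (nat_lit 224) (nat_lit 177)) (XT.nd (nat_lit 78) (nat_lit 0) (nat_lit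 0) (XT.lf (nat_lit 0) (nat_lit 29817777711) (nat_lit 152) (nat_lit 17307224258) (nat_lit 0) (nat_lit 19342949376) (nat_lit 4) (nat_lit 5) (nat_lit 6) (nat_lit 4) (nat_lit 4) (nat_lit 4) (nat_lit 320) (nat_lit 224) (nat_lit 176)) (XT.lf (nat_lit 0) (nat_lit 34001415630) (nat_lit 152) (nat_lit 12150243836) (nat_lit 0) (nat_lit 23473530487) (nat_lit 4) (nat_lit 5) (nat_lit 6) (nat_lit 4) (nat_lit 4) (nat_lit 4) (nat_lit 321) (nat_lit 224) (nat_lit 175)))))) (XT.nd (nat_lit 312) (nat_lit 0) (nat_lit 0) (XT.nd (nat_lit 156) (nat_lit 76) (nat_lit 0) (XT.nd (nat_lit 78) (nat_lit 0) (nat_lit 0) (XT.lf (nat_lit 0) (nat_lit 38369609675) (nat_lit 152) (nat_lit 6780737049) (nat_lit 0) (nat_lit 27791194240) (nat_lit 4) (nat_lit 5) (nat_lit 6) (nat_lit 4) (nat_lit 4) (nat_lit 4) (nat_lit 322) (nat_lit 224) (nat_lit 174)) (XT.lf (nat_lit 0) (nat_lit 42932760309) (nat_lit 152) (nat_lit 1185919355)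 (nat_lit 0) (nat_lit 32306220786) (nat_lit 4) (nat_lit 5) (nat_lit 6) (nat_lit 4) (nat_lit 4) (nat_lit 4) (nat_lit 323) (nat_lit 224) (nat_lit 173))) (XT.nd (nat_lit 78) (nat_lit 0) (nat_lit 0) (XT.lf (nat_lit 0) (nat_lit 4801198577) (nat_lit 76) (nat_lit 42975493764) (nat_lit 76) (nat_lit 32303121776) (nat_lit 3) (nat_lit 4) (nat_lit 4) (nat_lit 5) (nat_lit 4) (nat_lit 4) (nat_lit 324) (nat_lit 224) (nat_lit 172)) (XT.lf (nat_lit 0) (nat_lit 11088398912) (nat_lit 76) (nat_lit 41772602040) (nat_lit 76) (nat_lit 31056580086) (nat_lit 3) (nat_lit 4) (nat_lit 4) (nat_lit 5) (nat_lit 4) (nat_lit 4) (nat_lit 325) (nat_lit 224) (nat_lit 171)))) (XT.nd (nat_lit 156) (nat_lit 0) (nat_lit 0) (XT.nd (nat_lit 78) (nat_lit 0) (nat_lit 0) (XT.lf (nat_lit 0) (nat_lit 17651439326) (nat_lit 76) (nat_lit 40527224583) (nat_lit 76) (nat_lit 29769631232) (nat_lit 3) (nat_lit 4) (nat_lit 4) (nat_lit 5)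 (nat_lit 4) (nat_lit 4) (nat_lit 326) (nat_lit 224) (nat_lit 170)) (XT.lf (nat_lit 0) (nat_lit 24505946104) (nat_lit 76) (nat_lit 39236396209) (nat_lit 76) (nat_lit 28439211052) (nat_lit 3) (nat_lit 4) (nat_lit 4) (nat_lit 5) (nat_lit 4) (nat_lit 4) (nat_lit 327) (nat_lit 224) (nat_lit 169))) (XT.nd (nat_lit 78) (nat_lit 0) (nat_lit 0) (XT.lf (nat_lit 0) (nat_lit 31668239501) (nat_lit 76) (nat_lit 37897043517) (nat_lit 76) (nat_lit 27062151878) (nat_lit 3) (nat_lit 4) (nat_lit 4) (nat_lit 5) (nat_lit 4) (nat_lit 4) (nat_lit 328) (nat_lit 224) (nat_lit 168)) (XT.nd (nat_lit 78) (nat_lit 0) (nat_lit 0) (XT.lf (nat_lit 0) (nat_lit 39155372596) (nat_lit 76) (nat_lit 36505977572) (nat_lit 76) (nat_lit 25635174997) (nat_lit 3) (nat_lit 4) (nat_lit 4) (nat_lit 5) (nat_lit 4) (nat_lit 4) (nat_lit 329) (nat_lit 224) (nat_lit 167)) (XT.lf (nat_lit 0) (nat_lit 46985171897) (nat_lit 76) (nat_lit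 35059886312) (nat_lit 76) (nat_lit 24154882847) (nat_lit 3) (nat_lit 4) (nat_lit 4) (nat_lit 5) (nat_lit 4) (nat_lit 4) (nat_lit 330) (nat_lit 224) (nat_lit 166))))))))
noncomputable def xc63 : XT := (XT.nd (nat_lit 1404) (nat_lit 0) (nat_lit 0) (XT.nd (nat_lit 702) (nat_lit 152) (nat_lit 0) (XT.nd (nat_lit 312) (nat_lit 0) (nat_lit 0) (XT.nd (nat_lit 156) (nat_lit 0) (nat_lit 0) (XT.nd (nat_lit 78) (nat_lit 0) (nat_lit 0) (XT.lf (nat_lit 0) (nat_lit 55176279782) (nat_lit 76) (nat_lit 33555326663) (nat_lit 76) (nat_lit 22617750920) (nat_lit 3) (nat_lit 4) (nat_lit 4) (nat_lit 5) (nat_lit 4) (nat_lit 4) (nat_lit 331) (nat_lit 224) (nat_lit 165)) (XT.lf (nat_lit 0) (nat_lit 63748198891) (nat_lit 76) (nat_lit 31988716339) (nat_lit 76) (nat_lit 21020119381) (nat_lit 3) (nat_lit 4) (nat_lit 4) (nat_lit 5) (nat_lit 4) (nat_lit 4) (nat_lit 332) (nat_lit 224) (nat_lit 164))) (XT.nd (nat_lit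 78) (nat_lit 0) (nat_lit 0) (XT.lf (nat_lit 0) (nat_lit 72721338553) (nat_lit 76) (nat_lit 30356325317) (nat_lit 76) (nat_lit 19358184343) (nat_lit 3) (nat_lit 4) (nat_lit 4) (nat_lit 5) (nat_lit 4) (nat_lit 4) (nat_lit 333) (nat_lit 224) (nat_lit 163)) (XT.lf (nat_lit 0) (nat_lit 82117063388) (nat_lit 76) (nat_lit 28654266951) (nat_lit 76) (nat_lit 17627988819) (nat_lit 3) (nat_lit 4) (nat_lit 4) (nat_lit 5) (nat_lit 4) (nat_lit 4) (nat_lit 334) (nat_lit 224) (nat_lit 162)))) (XT.nd (nat_lit 156) (nat_lit 0) (nat_lit 0) (XT.nd (nat_lit 78) (nat_lit 0) (nat_lit 0) (XT.lf (nat_lit 0) (nat_lit 91957744169) (nat_lit 76) (nat_lit 26878488721) (nat_lit 76) (nat_lit 15825413296) (nat_lit 3) (nat_lit 4) (nat_lit 4) (nat_lit 5) (nat_lit 4) (nat_lit 4) (nat_lit 335) (nat_lit 224) (nat_lit 161)) (XT.lf (nat_lit 0) (nat_lit 102266811087) (nat_lit 76) (nat_lit 25024762583) (nat_lit 76) (nat_lit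 13946165927) (nat_lit 3) (nat_lit 4) (nat_lit 4) (nat_lit 5) (nat_lit 4) (nat_lit 4) (nat_lit 336) (nat_lit 224) (nat_lit 160))) (XT.nd (nat_lit 78) (nat_lit 0) (nat_lit 0) (XT.lf (nat_lit 0) (nat_lit 113068809541) (nat_lit 76) (nat_lit 23088674905) (nat_lit 76) (nat_lit 11985772314) (nat_lit 3) (nat_lit 4) (nat_lit 4) (nat_lit 5) (nat_lit 4) (nat_lit 4) (nat_lit 337) (nat_lit 224) (nat_lit 159)) (XT.nd (nat_lit 78) (nat_lit 0) (nat_lit 0) (XT.lf (nat_lit 0) (nat_lit 124389458574) (nat_lit 76) (nat_lit 21065615953) (nat_lit 76) (nat_lit 9939564853) (nat_lit 3) (nat_lit 4) (nat_lit 4) (nat_lit 5) (nat_lit 4) (nat_lit 4) (nat_lit 338) (nat_lit 224) (nat_lit 158)) (XT.lf (nat_lit 0) (nat_lit 136255712112) (nat_lit 76) (nat_lit 18950768920) (nat_lit 76) (nat_lit 7802671621) (nat_lit 3) (nat_lit 4) (nat_lit 4) (nat_lit 5) (nat_lit 4) (nat_lit 4) (nat_lit 339) (nat_lit 224) (nat_lit 157))))))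 (XT.nd (nat_lit 312) (nat_lit 76) (nat_lit 0) (XT.nd (nat_lit 156) (nat_lit 76) (nat_lit 0) (XT.nd (nat_lit 78) (nat_lit 0) (nat_lit 0) (XT.lf (nat_lit 0) (nat_lit 148695823141) (nat_lit 76) (nat_lit 16739098457) (nat_lit 76) (nat_lit 5570004777) (nat_lit 3) (nat_lit 4) (nat_lit 4) (nat_lit 5) (nat_lit 4) (nat_lit 4) (nat_lit 340) (nat_lit 224) (nat_lit 156)) (XT.lf (nat_lit 0) (nat_lit 161739410972) (nat_lit 76) (nat_lit 14425338680) (nat_lit 76) (nat_lit 3236248449) (nat_lit 3) (nat_lit 4) (nat_lit 4) (nat_lit 5) (nat_lit 4) (nat_lit 4) (nat_lit 341) (nat_lit 224) (nat_lit 155))) (XT.nd (nat_lit 78) (nat_lit 76) (nat_lit 0) (XT.lf (nat_lit 0) (nat_lit 175417531767) (nat_lit 76) (nat_lit 12003980640) (nat_lit 76) (nat_lit 795846072) (nat_lit 3) (nat_lit 4) (nat_lit 4) (nat_lit 5) (nat_lit 4) (nat_lit 4) (nat_lit 342) (nat_lit 224) (nat_lit 154)) (XT.lf (nat_lit 0) (nat_lit 1700777450)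 (nat_lit 152) (nat_lit 7739678257) (nat_lit 76) (nat_lit 188033171541) (nat_lit 2) (nat_lit 5) (nat_lit 4) (nat_lit 5) (nat_lit 3) (nat_lit 4) (nat_lit 343) (nat_lit 224) (nat_lit 153)))) (XT.nd (nat_lit 156) (nat_lit 0) (nat_lit 0) (XT.nd (nat_lit 78) (nat_lit 76) (nat_lit 0) (XT.lf (nat_lit 0) (nat_lit 4286669840) (nat_lit 152) (nat_lit 2455872630) (nat_lit 76) (nat_lit 200449961729) (nat_lit 2) (nat_lit 5) (nat_lit 4) (nat_lit 5) (nat_lit 3) (nat_lit 4) (nat_lit 344) (nat_lit 224) (nat_lit 152)) (XT.lf (nat_lit 0) (nat_lit 3178322205) (nat_lit 76) (nat_lit 3864760342) (nat_lit 152) (nat_lit 210352187116) (nat_lit 1) (nat_lit 5) (nat_lit 2) (nat_lit 5) (nat_lit 3) (nat_lit 4) (nat_lit 345) (nat_lit 224) (nat_lit 151))) (XT.nd (nat_lit 78) (nat_lit 0) (nat_lit 0) (XT.lf (nat_lit 0) (nat_lit 9164212340) (nat_lit 76) (nat_lit 806459454) (nat_lit 152) (nat_lit 218135839474) (nat_lit 1)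 (nat_lit 5) (nat_lit 2) (nat_lit 5) (nat_lit 3) (nat_lit 4) (nat_lit 346) (nat_lit 224) (nat_lit 150)) (XT.nd (nat_lit 78) (nat_lit 0) (nat_lit 0) (XT.lf (nat_lit 0) (nat_lit 13074237474) (nat_lit 152) (nat_lit 223956305148) (nat_lit 0) (nat_lit 2321297879) (nat_lit 1) (nat_lit 5) (nat_lit 3) (nat_lit 4) (nat_lit 1) (nat_lit 4) (nat_lit 347) (nat_lit 224) (nat_lit 149)) (XT.lf (nat_lit 0) (nat_lit 16338632542) (nat_lit 152) (nat_lit 229248367743) (nat_lit 0) (nat_lit 5572158493) (nat_lit 1) (nat_lit 5) (nat_lit 3) (nat_lit 4) (nat_lit 1) (nat_lit 4) (nat_lit 348) (nat_lit 224) (nat_lit 148))))))) (XT.nd (nat_lit 702) (nat_lit 0) (nat_lit 0) (XT.nd (nat_lit 312) (nat_lit 0) (nat_lit 0) (XT.nd (nat_lit 156) (nat_lit 0) (nat_lit 0) (XT.nd (nat_lit 78) (nat_lit 0) (nat_lit 0) (XT.lf (nat_lit 0) (nat_lit 19759038276) (nat_lit 152) (nat_lit 234818495770) (nat_lit 0) (nat_lit 8979674271) (nat_lit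 1) (nat_lit 5) (nat_lit 3) (nat_lit 4) (nat_lit 1) (nat_lit 4) (nat_lit 349) (nat_lit 224) (nat_lit 147)) (XT.lf (nat_lit 0) (nat_lit 23343598498) (nat_lit 152) (nat_lit 240679951439) (nat_lit 0) (nat_lit 12551958345) (nat_lit 1) (nat_lit 5) (nat_lit 3) (nat_lit 4) (nat_lit 1) (nat_lit 4) (nat_lit 350) (nat_lit 224) (nat_lit 146))) (XT.nd (nat_lit 78) (nat_lit 0) (nat_lit 0) (XT.lf (nat_lit 0) (nat_lit 27100847877) (nat_lit 152) (nat_lit 246846690596) (nat_lit 0) (nat_lit 16297516154) (nat_lit 1) (nat_lit 5) (nat_lit 3) (nat_lit 4) (nat_lit 1) (nat_lit 4) (nat_lit 351) (nat_lit 224) (nat_lit 145)) (XT.lf (nat_lit 0) (nat_lit 31039732244) (nat_lit 152) (nat_lit 253333395954) (nat_lit 0) (nat_lit 20225265692) (nat_lit 1) (nat_lit 5) (nat_lit 3) (nat_lit 4) (nat_lit 1) (nat_lit 4) (nat_lit 352) (nat_lit 224) (nat_lit 144)))) (XT.nd (nat_lit 156) (nat_lit 0) (nat_lit 0) (XT.nd (nat_lit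 78) (nat_lit 0) (nat_lit 0) (XT.lf (nat_lit 0) (nat_lit 35169629895) (nat_lit 152) (nat_lit 260155512050) (nat_lit 0) (nat_lit 24344558744) (nat_lit 1) (nat_lit 5) (nat_lit 3) (nat_lit 4) (nat_lit 1) (nat_lit 4) (nat_lit 353) (nat_lit 224) (nat_lit 143)) (XT.lf (nat_lit 0) (nat_lit 39500373920) (nat_lit 152) (nat_lit 267329282017) (nat_lit 0) (nat_lit 28665203151) (nat_lit 1) (nat_lit 5) (nat_lit 3) (nat_lit 4) (nat_lit 1) (nat_lit 4) (nat_lit 354) (nat_lit 224) (nat_lit 142))) (XT.nd (nat_lit 78) (nat_lit 0) (nat_lit 0) (XT.lf (nat_lit 0) (nat_lit 44042275615) (nat_lit 152) (nat_lit 274871786259) (nat_lit 0) (nat_lit 33197486162) (nat_lit 1) (nat_lit 5) (nat_lit 3) (nat_lit 4) (nat_lit 1) (nat_lit 4) (nat_lit 355) (nat_lit 224) (nat_lit 141)) (XT.nd (nat_lit 78) (nat_lit 0) (nat_lit 0) (XT.lf (nat_lit 0) (nat_lit 48806149029) (nat_lit 152) (nat_lit 282800983121) (nat_lit 0) (nat_lit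 37952198925) (nat_lit 1) (nat_lit 5) (nat_lit 3) (nat_lit 4) (nat_lit 1) (nat_lit 4) (nat_lit 356) (nat_lit 224) (nat_lit 140)) (XT.lf (nat_lit 0) (nat_lit 53803336721) (nat_lit 152) (nat_lit 291135751642) (nat_lit 0) (nat_lit 42940662187) (nat_lit 1) (nat_lit 5) (nat_lit 3) (nat_lit 4) (nat_lit 1) (nat_lit 4) (nat_lit 357) (nat_lit 224) (nat_lit 139)))))) (XT.nd (nat_lit 390) (nat_lit 0) (nat_lit 0) (XT.nd (nat_lit 156) (nat_lit 0) (nat_lit 0) (XT.nd (nat_lit 78) (nat_lit 0) (nat_lit 0) (XT.lf (nat_lit 0) (nat_lit 59045736754) (nat_lit 152) (nat_lit 299895936509) (nat_lit 0) (nat_lit 48174753240) (nat_lit 1) (nat_lit 5) (nat_lit 3) (nat_lit 4) (nat_lit 1) (nat_lit 4) (nat_lit 358) (nat_lit 224) (nat_lit 138)) (XT.lf (nat_lit 0) (nat_lit 64545831036) (nat_lit 152) (nat_lit 309102395305) (nat_lit 0) (nat_lit 53666934206) (nat_lit 1) (nat_lit 5) (nat_lit 3) (nat_lit 4) (nat_lit 1) (nat_lit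 4) (nat_lit 359) (nat_lit 224) (nat_lit 137))) (XT.nd (nat_lit 78) (nat_lit 0) (nat_lit 0) (XT.lf (nat_lit 0) (nat_lit 70316715026) (nat_lit 152) (nat_lit 318777048171) (nat_lit 0) (nat_lit 59430281707) (nat_lit 1) (nat_lit 5) (nat_lit 3) (nat_lit 4) (nat_lit 1) (nat_lit 4) (nat_lit 360) (nat_lit 224) (nat_lit 136)) (XT.nd (nat_lit 78) (nat_lit 0) (nat_lit 0) (XT.lf (nat_lit 0) (nat_lit 76372128927) (nat_lit 152) (nat_lit 328942929993) (nat_lit 0) (nat_lit 65478517998) (nat_lit 1) (nat_lit 5) (nat_lit 3) (nat_lit 4) (nat_lit 1) (nat_lit 4) (nat_lit 361) (nat_lit 224) (nat_lit 135)) (XT.lf (nat_lit 0) (nat_lit 82726490390) (nat_lit 152) (nat_lit 339624245254) (nat_lit 0) (nat_lit 71826043642) (nat_lit 1) (nat_lit 5) (nat_lit 3) (nat_lit 4) (nat_lit 1) (nat_lit 4) (nat_lit 362) (nat_lit 224) (nat_lit 134))))) (XT.nd (nat_lit 156) (nat_lit 0) (nat_lit 0) (XT.nd (nat_lit 78) (nat_lit 0)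 (nat_lit 0) (XT.lf (nat_lit 0) (nat_lit 89394928847) (nat_lit 152) (nat_lit 350846425654) (nat_lit 0) (nat_lit 78487971795) (nat_lit 1) (nat_lit 5) (nat_lit 3) (nat_lit 4) (nat_lit 1) (nat_lit 4) (nat_lit 363) (nat_lit 224) (nat_lit 133)) (XT.lf (nat_lit 0) (nat_lit 96393321532) (nat_lit 152) (nat_lit 362636190673) (nat_lit 0) (nat_lit 85480164191) (nat_lit 1) (nat_lit 5) (nat_lit 3) (nat_lit 4) (nat_lit 1) (nat_lit 4) (nat_lit 364) (nat_lit 224) (nat_lit 132))) (XT.nd (nat_lit 30108) (nat_lit 0) (nat_lit 2432) (XT.lf (nat_lit 0) (nat_lit 103738331285) (nat_lit 152) (nat_lit 375021611178) (nat_lit 0) (nat_lit 92819268907) (nat_lit 1) (nat_lit 5) (nat_lit 3) (nat_lit 4) (nat_lit 1) (nat_lit 4) (nat_lit 365) (nat_lit 224) (nat_lit 131)) (XT.nd (nat_lit 78) (nat_lit 228) (nat_lit 0) (XT.lf (nat_lit 0) (nat_lit 909421514) (nat_lit 228) (nat_lit 2989268466) (nat_lit 0) (nat_lit 909421514)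 (nat_lit 36) (nat_lit 5) (nat_lit 39) (nat_lit 4) (nat_lit 36) (nat_lit 4) (nat_lit 270) (nat_lit 225) (nat_lit 225)) (XT.lf (nat_lit 0) (nat_lit 241939671) (nat_lit 228) (nat_lit 5238938774) (nat_lit 228) (nat_lit 4382825645) (nat_lit 33) (nat_lit 4) (nat_lit 36) (nat_lit 5) (nat_lit 36) (nat_lit 4) (nat_lit 271) (nat_lit 225) (nat_lit 224))))))))
noncomputable def xc64 : XT := (XT.nd (nat_lit 1404) (nat_lit 532) (nat_lit 0) (XT.nd (nat_lit 702) (nat_lit 608) (nat_lit 0) (XT.nd (nat_lit 312) (nat_lit 532) (nat_lit 0) (XT.nd (nat_lit 156) (nat_lit 152) (nat_lit 0) (XT.nd (nat_lit 78) (nat_lit 228) (nat_lit 0) (XT.lf (nat_lit 0) (nat_lit 6769169186) (nat_lit 228) (nat_lit 2514146770) (nat_lit 228) (nat_lit 842687804) (nat_lit 33) (nat_lit 4) (nat_lit 36) (nat_lit 5) (nat_lit 36) (nat_lit 4) (nat_lit 272) (nat_lit 225) (nat_lit 223)) (XT.lf (nat_lit 0) (nat_lit 2696620026) (nat_lit 228)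 (nat_lit 7341915402) (nat_lit 0) (nat_lit 365211635) (nat_lit 30) (nat_lit 5) (nat_lit 33) (nat_lit 4) (nat_lit 30) (nat_lit 4) (nat_lit 273) (nat_lit 225) (nat_lit 222))) (XT.nd (nat_lit 78) (nat_lit 152) (nat_lit 0) (XT.lf (nat_lit 0) (nat_lit 6346369507) (nat_lit 228) (nat_lit 1039860151) (nat_lit 0) (nat_lit 3310634726) (nat_lit 30) (nat_lit 5) (nat_lit 33) (nat_lit 4) (nat_lit 30) (nat_lit 4) (nat_lit 274) (nat_lit 225) (nat_lit 221)) (XT.lf (nat_lit 0) (nat_lit 5555748916) (nat_lit 152) (nat_lit 4578930732) (nat_lit 152) (nat_lit 872408912) (nat_lit 28) (nat_lit 4) (nat_lit 30) (nat_lit 5) (nat_lit 30) (nat_lit 4) (nat_lit 275) (nat_lit 225) (nat_lit 220)))) (XT.nd (nat_lit 156) (nat_lit 304) (nat_lit 0) (XT.nd (nat_lit 78) (nat_lit 0) (nat_lit 0) (XT.lf (nat_lit 0) (nat_lit 972046581) (nat_lit 152) (nat_lit 1621813515) (nat_lit 228) (nat_lit 8741862838) (nat_lit 25) (nat_lit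 5) (nat_lit 27) (nat_lit 5) (nat_lit 28) (nat_lit 4) (nat_lit 276) (nat_lit 225) (nat_lit 219)) (XT.lf (nat_lit 0) (nat_lit 6193277836) (nat_lit 228) (nat_lit 4012176008) (nat_lit 0) (nat_lit 1475382374) (nat_lit 25) (nat_lit 5) (nat_lit 28) (nat_lit 4) (nat_lit 25) (nat_lit 4) (nat_lit 277) (nat_lit 225) (nat_lit 218))) (XT.nd (nat_lit 78) (nat_lit 152) (nat_lit 0) (XT.lf (nat_lit 0) (nat_lit 2517662863) (nat_lit 152) (nat_lit 7399149074) (nat_lit 152) (nat_lit 2129395455) (nat_lit 23) (nat_lit 4) (nat_lit 25) (nat_lit 5) (nat_lit 25) (nat_lit 4) (nat_lit 278) (nat_lit 225) (nat_lit 217)) (XT.nd (nat_lit 78) (nat_lit 76) (nat_lit 0) (XT.lf (nat_lit 0) (nat_lit 1299972651) (nat_lit 228) (nat_lit 3130388878) (nat_lit 76) (nat_lit 8001185351) (nat_lit 22) (nat_lit 5) (nat_lit 25) (nat_lit 5) (nat_lit 23) (nat_lit 4) (nat_lit 279) (nat_lit 225) (nat_lit 216)) (XT.lf (nat_lit 0) (nat_lit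 3479064310) (nat_lit 76) (nat_lit 1289203368) (nat_lit 152) (nat_lit 8069370227) (nat_lit 21) (nat_lit 5) (nat_lit 22) (nat_lit 5) (nat_lit 23) (nat_lit 4) (nat_lit 280) (nat_lit 225) (nat_lit 215)))))) (XT.nd (nat_lit 312) (nat_lit 304) (nat_lit 0) (XT.nd (nat_lit 156) (nat_lit 152) (nat_lit 0) (XT.nd (nat_lit 78) (nat_lit 152) (nat_lit 0) (XT.lf (nat_lit 0) (nat_lit 8381493671) (nat_lit 152) (nat_lit 2952738166) (nat_lit 0) (nat_lit 1931398189) (nat_lit 21) (nat_lit 5) (nat_lit 23) (nat_lit 4) (nat_lit 21) (nat_lit 4) (nat_lit 281) (nat_lit 225) (nat_lit 214)) (XT.lf (nat_lit 0) (nat_lit 3692543579) (nat_lit 152) (nat_lit 8453304869) (nat_lit 152) (nat_lit 1570814082) (nat_lit 19) (nat_lit 4) (nat_lit 21) (nat_lit 5) (nat_lit 21) (nat_lit 4) (nat_lit 282) (nat_lit 225) (nat_lit 213))) (XT.nd (nat_lit 78) (nat_lit 76) (nat_lit 0) (XT.lf (nat_lit 0) (nat_lit 1790146757) (nat_lit 228)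 (nat_lit 3624494986) (nat_lit 76) (nat_lit 8777111909) (nat_lit 18) (nat_lit 5) (nat_lit 21) (nat_lit 5) (nat_lit 19) (nat_lit 4) (nat_lit 283) (nat_lit 225) (nat_lit 212)) (XT.lf (nat_lit 0) (nat_lit 2994990157) (nat_lit 76) (nat_lit 2215488518) (nat_lit 152) (nat_lit 9481769269) (nat_lit 17) (nat_lit 5) (nat_lit 18) (nat_lit 5) (nat_lit 19) (nat_lit 4) (nat_lit 284) (nat_lit 225) (nat_lit 211)))) (XT.nd (nat_lit 156) (nat_lit 152) (nat_lit 0) (XT.nd (nat_lit 78) (nat_lit 152) (nat_lit 0) (XT.lf (nat_lit 0) (nat_lit 8780649071) (nat_lit 152) (nat_lit 5333863189) (nat_lit 0) (nat_lit 1104448642) (nat_lit 17) (nat_lit 5) (nat_lit 19) (nat_lit 4) (nat_lit 17) (nat_lit 4) (nat_lit 285) (nat_lit 225) (nat_lit 210)) (XT.lf (nat_lit 0) (nat_lit 1185921613) (nat_lit 152) (nat_lit 11301648925) (nat_lit 152) (nat_lit 3286655459) (nat_lit 15) (nat_lit 4) (nat_lit 17) (nat_lit 5) (nat_lit 17)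 (nat_lit 4) (nat_lit 286) (nat_lit 225) (nat_lit 209))) (XT.nd (nat_lit 78) (nat_lit 76) (nat_lit 0) (XT.lf (nat_lit 0) (nat_lit 17502413) (nat_lit 228) (nat_lit 8301773552) (nat_lit 76) (nat_lit 8038295334) (nat_lit 14) (nat_lit 5) (nat_lit 17) (nat_lit 5) (nat_lit 15) (nat_lit 4) (nat_lit 287) (nat_lit 225) (nat_lit 208)) (XT.nd (nat_lit 78) (nat_lit 76) (nat_lit 0) (XT.lf (nat_lit 0) (nat_lit 3284823674) (nat_lit 228) (nat_lit 1911060237) (nat_lit 76) (nat_lit 11776196645) (nat_lit 14) (nat_lit 5) (nat_lit 17) (nat_lit 5) (nat_lit 15) (nat_lit 4) (nat_lit 288) (nat_lit 225) (nat_lit 207)) (XT.lf (nat_lit 0) (nat_lit 4804127529) (nat_lit 76) (nat_lit 1899159526) (nat_lit 152) (nat_lit 10914745233) (nat_lit 13) (nat_lit 5) (nat_lit 14) (nat_lit 5) (nat_lit 15) (nat_lit 4) (nat_lit 289) (nat_lit 225) (nat_lit 206))))))) (XT.nd (nat_lit 702) (nat_lit 228) (nat_lit 0) (XT.nd (nat_lit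 312) (nat_lit 152) (nat_lit 0) (XT.nd (nat_lit 156) (nat_lit 152) (nat_lit 0) (XT.nd (nat_lit 78) (nat_lit 0) (nat_lit 0) (XT.lf (nat_lit 0) (nat_lit 10263646924) (nat_lit 152) (nat_lit 6548003487) (nat_lit 0) (nat_lit 1486183301) (nat_lit 13) (nat_lit 5) (nat_lit 15) (nat_lit 4) (nat_lit 13) (nat_lit 4) (nat_lit 290) (nat_lit 225) (nat_lit 205)) (XT.lf (nat_lit 0) (nat_lit 13950953369) (nat_lit 152) (nat_lit 142644218) (nat_lit 0) (nat_lit 4920677167) (nat_lit 13) (nat_lit 5) (nat_lit 15) (nat_lit 4) (nat_lit 13) (nat_lit 4) (nat_lit 291) (nat_lit 225) (nat_lit 204))) (XT.nd (nat_lit 78) (nat_lit 76) (nat_lit 0) (XT.lf (nat_lit 0) (nat_lit 6660244522) (nat_lit 76) (nat_lit 11188075049) (nat_lit 76) (nat_lit 1917024961) (nat_lit 12) (nat_lit 4) (nat_lit 13) (nat_lit 5) (nat_lit 13) (nat_lit 4) (nat_lit 292) (nat_lit 225) (nat_lit 203)) (XT.lf (nat_lit 0) (nat_lit 1266671188) (nat_lit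 152) (nat_lit 6903682614) (nat_lit 76) (nat_lit 12386391262) (nat_lit 11) (nat_lit 5) (nat_lit 13) (nat_lit 5) (nat_lit 12) (nat_lit 4) (nat_lit 293) (nat_lit 225) (nat_lit 202)))) (XT.nd (nat_lit 156) (nat_lit 76) (nat_lit 0) (XT.nd (nat_lit 78) (nat_lit 76) (nat_lit 0) (XT.lf (nat_lit 0) (nat_lit 4470850367) (nat_lit 152) (nat_lit 553504309) (nat_lit 76) (nat_lit 16365582432) (nat_lit 11) (nat_lit 5) (nat_lit 13) (nat_lit 5) (nat_lit 12) (nat_lit 4) (nat_lit 294) (nat_lit 225) (nat_lit 201)) (XT.lf (nat_lit 0) (nat_lit 6188556979) (nat_lit 76) (nat_lit 1672562082) (nat_lit 152) (nat_lit 14402450864) (nat_lit 10) (nat_lit 5) (nat_lit 11) (nat_lit 5) (nat_lit 12) (nat_lit 4) (nat_lit 295) (nat_lit 225) (nat_lit 200))) (XT.nd (nat_lit 78) (nat_lit 76) (nat_lit 0) (XT.lf (nat_lit 0) (nat_lit 11389172448) (nat_lit 152) (nat_lit 10046885514) (nat_lit 0) (nat_lit 1746484477) (nat_lit 10)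 (nat_lit 5) (nat_lit 12) (nat_lit 4) (nat_lit 10) (nat_lit 4) (nat_lit 296) (nat_lit 225) (nat_lit 199)) (XT.nd (nat_lit 78) (nat_lit 76) (nat_lit 0) (XT.lf (nat_lit 0) (nat_lit 15054294874) (nat_lit 152) (nat_lit 3863265871) (nat_lit 0) (nat_lit 5231937723) (nat_lit 10) (nat_lit 5) (nat_lit 12) (nat_lit 4) (nat_lit 10) (nat_lit 4) (nat_lit 297) (nat_lit 225) (nat_lit 198)) (XT.lf (nat_lit 0) (nat_lit 2599895147) (nat_lit 76) (nat_lit 16279795942) (nat_lit 76) (nat_lit 6286325285) (nat_lit 9) (nat_lit 4) (nat_lit 10) (nat_lit 5) (nat_lit 10) (nat_lit 4) (nat_lit 298) (nat_lit 225) (nat_lit 197)))))) (XT.nd (nat_lit 312) (nat_lit 76) (nat_lit 0) (XT.nd (nat_lit 156) (nat_lit 152) (nat_lit 0) (XT.nd (nat_lit 78) (nat_lit 0) (nat_lit 0) (XT.lf (nat_lit 0) (nat_lit 9409305799) (nat_lit 76) (nat_lit 13490197419) (nat_lit 76) (nat_lit 3333761519) (nat_lit 9) (nat_lit 4) (nat_lit 10) (nat_lit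 5) (nat_lit 10) (nat_lit 4) (nat_lit 299) (nat_lit 225) (nat_lit 196)) (XT.lf (nat_lit 0) (nat_lit 16453441949) (nat_lit 76) (nat_lit 10607549552) (nat_lit 76) (nat_lit 295908659) (nat_lit 9) (nat_lit 4) (nat_lit 10) (nat_lit 5) (nat_lit 10) (nat_lit 4) (nat_lit 300) (nat_lit 225) (nat_lit 195))) (XT.nd (nat_lit 78) (nat_lit 76) (nat_lit 0) (XT.lf (nat_lit 0) (nat_lit 2743745654) (nat_lit 152) (nat_lit 4834776580) (nat_lit 76) (nat_lit 20958863036) (nat_lit 8) (nat_lit 5) (nat_lit 10) (nat_lit 5) (nat_lit 9) (nat_lit 4) (nat_lit 301) (nat_lit 225) (nat_lit 194)) (XT.lf (nat_lit 0) (nat_lit 1482151781) (nat_lit 76) (nat_lit 4411693320) (nat_lit 152) (nat_lit 23884437540) (nat_lit 7) (nat_lit 5) (nat_lit 8) (nat_lit 5) (nat_lit 9) (nat_lit 4) (nat_lit 302) (nat_lit 225) (nat_lit 193)))) (XT.nd (nat_lit 156) (nat_lit 76) (nat_lit 0) (XT.nd (nat_lit 78) (nat_lit 0) (nat_lit 0) (XT.lf (nat_lit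 0) (nat_lit 8186581593) (nat_lit 76) (nat_lit 1043118006) (nat_lit 152) (nat_lit 21850161251) (nat_lit 7) (nat_lit 5) (nat_lit 8) (nat_lit 5) (nat_lit 9) (nat_lit 4) (nat_lit 303) (nat_lit 225) (nat_lit 192)) (XT.lf (nat_lit 0) (nat_lit 12719574979) (nat_lit 152) (nat_lit 17352805261) (nat_lit 0) (nat_lit 2374822486) (nat_lit 7) (nat_lit 5) (nat_lit 9) (nat_lit 4) (nat_lit 7) (nat_lit 4) (nat_lit 304) (nat_lit 225) (nat_lit 191))) (XT.nd (nat_lit 78) (nat_lit 76) (nat_lit 0) (XT.lf (nat_lit 0) (nat_lit 16351798335) (nat_lit 152) (nat_lit 11641535133) (nat_lit 0) (nat_lit 5891229486) (nat_lit 7) (nat_lit 5) (nat_lit 9) (nat_lit 4) (nat_lit 7) (nat_lit 4) (nat_lit 305) (nat_lit 225) (nat_lit 190)) (XT.nd (nat_lit 78) (nat_lit 76) (nat_lit 0) (XT.lf (nat_lit 0) (nat_lit 20118731822) (nat_lit 152) (nat_lit 5729584615) (nat_lit 0) (nat_lit 9547861682) (nat_lit 7) (nat_lit 5) (nat_lit 9)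 (nat_lit 4) (nat_lit 7) (nat_lit 4) (nat_lit 306) (nat_lit 225) (nat_lit 189)) (XT.lf (nat_lit 0) (nat_lit 410253022) (nat_lit 76) (nat_lit 23625496506) (nat_lit 76) (nat_lit 12949577517) (nat_lit 6) (nat_lit 4) (nat_lit 7) (nat_lit 5) (nat_lit 7) (nat_lit 4) (nat_lit 307) (nat_lit 225) (nat_lit 188))))))))
noncomputable def xc65 : XT := (XT.nd (nat_lit 1404) (nat_lit 0) (nat_lit 0) (XT.nd (nat_lit 702) (nat_lit 76) (nat_lit 0) (XT.nd (nat_lit 312) (nat_lit 152) (nat_lit 0) (XT.nd (nat_lit 156) (nat_lit 0) (nat_lit 0) (XT.nd (nat_lit 78) (nat_lit 0) (nat_lit 0) (XT.lf (nat_lit 0) (nat_lit 6976463607) (nat_lit 76) (nat_lit 21225405379) (nat_lit 76) (nat_lit 10449439867) (nat_lit 6) (nat_lit 4) (nat_lit 7) (nat_lit 5) (nat_lit 7) (nat_lit 4) (nat_lit 308) (nat_lit 225) (nat_lit 187)) (XT.lf (nat_lit 0) (nat_lit 13795235030) (nat_lit 76) (nat_lit 18739361843) (nat_lit 76) (nat_lit 7868113929)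 (nat_lit 6) (nat_lit 4) (nat_lit 7) (nat_lit 5) (nat_lit 7) (nat_lit 4) (nat_lit 309) (nat_lit 225) (nat_lit 186))) (XT.nd (nat_lit 78) (nat_lit 0) (nat_lit 0) (XT.lf (nat_lit 0) (nat_lit 20882802462) (nat_lit 76) (nat_lit 16161446746) (nat_lit 76) (nat_lit 5199453687) (nat_lit 6) (nat_lit 4) (nat_lit 7) (nat_lit 5) (nat_lit 7) (nat_lit 4) (nat_lit 310) (nat_lit 225) (nat_lit 185)) (XT.lf (nat_lit 0) (nat_lit 28256041062) (nat_lit 76) (nat_lit 13485522196) (nat_lit 76) (nat_lit 2437105189) (nat_lit 6) (nat_lit 4) (nat_lit 7) (nat_lit 5) (nat_lit 7) (nat_lit 4) (nat_lit 311) (nat_lit 225) (nat_lit 184)))) (XT.nd (nat_lit 156) (nat_lit 76) (nat_lit 0) (XT.nd (nat_lit 78) (nat_lit 0) (nat_lit 0) (XT.lf (nat_lit 0) (nat_lit 411889653) (nat_lit 152) (nat_lit 10286351739) (nat_lit 76) (nat_lit 35513640958) (nat_lit 5) (nat_lit 5) (nat_lit 7) (nat_lit 5) (nat_lit 6) (nat_lit 4) (nat_lit 312)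 (nat_lit 225) (nat_lit 183)) (XT.lf (nat_lit 0) (nat_lit 3286535672) (nat_lit 152) (nat_lit 4471716469) (nat_lit 76) (nat_lit 40588280313) (nat_lit 5) (nat_lit 5) (nat_lit 7) (nat_lit 5) (nat_lit 6) (nat_lit 4) (nat_lit 313) (nat_lit 225) (nat_lit 182))) (XT.nd (nat_lit 78) (nat_lit 0) (nat_lit 0) (XT.lf (nat_lit 0) (nat_lit 1625189034) (nat_lit 76) (nat_lit 4671864569) (nat_lit 152) (nat_lit 44291281473) (nat_lit 4) (nat_lit 5) (nat_lit 5) (nat_lit 5) (nat_lit 6) (nat_lit 4) (nat_lit 314) (nat_lit 225) (nat_lit 181)) (XT.nd (nat_lit 78) (nat_lit 0) (nat_lit 0) (XT.lf (nat_lit 0) (nat_lit 8122685431) (nat_lit 76) (nat_lit 1378562119) (nat_lit 152) (nat_lit 43438848478) (nat_lit 4) (nat_lit 5) (nat_lit 5) (nat_lit 5) (nat_lit 6) (nat_lit 4) (nat_lit 315) (nat_lit 225) (nat_lit 180)) (XT.lf (nat_lit 0) (nat_lit 12866687127) (nat_lit 152) (nat_lit 40554698197) (nat_lit 0) (nat_lit 1988032391)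 (nat_lit 4) (nat_lit 5) (nat_lit 6) (nat_lit 4) (nat_lit 4) (nat_lit 4) (nat_lit 316) (nat_lit 225) (nat_lit 179)))))) (XT.nd (nat_lit 312) (nat_lit 76) (nat_lit 0) (XT.nd (nat_lit 156) (nat_lit 0) (nat_lit 0) (XT.nd (nat_lit 78) (nat_lit 0) (nat_lit 0) (XT.lf (nat_lit 0) (nat_lit 16393065285) (nat_lit 152) (nat_lit 36156539526) (nat_lit 0) (nat_lit 5452990662) (nat_lit 4) (nat_lit 5) (nat_lit 6) (nat_lit 4) (nat_lit 4) (nat_lit 4) (nat_lit 317) (nat_lit 225) (nat_lit 178)) (XT.lf (nat_lit 0) (nat_lit 20067254944) (nat_lit 152) (nat_lit 31590939559) (nat_lit 0) (nat_lit 9068685192) (nat_lit 4) (nat_lit 5) (nat_lit 6) (nat_lit 4) (nat_lit 4) (nat_lit 4) (nat_lit 318) (nat_lit 225) (nat_lit 177))) (XT.nd (nat_lit 78) (nat_lit 0) (nat_lit 0) (XT.lf (nat_lit 0) (nat_lit 23898004176) (nat_lit 152) (nat_lit 26847027821) (nat_lit 0) (nat_lit 12843724777) (nat_lit 4) (nat_lit 5) (nat_lit 6)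 (nat_lit 4) (nat_lit 4) (nat_lit 4) (nat_lit 319) (nat_lit 225) (nat_lit 176)) (XT.lf (nat_lit 0) (nat_lit 27894433812) (nat_lit 152) (nat_lit 21913509284) (nat_lit 0) (nat_lit 16787097605) (nat_lit 4) (nat_lit 5) (nat_lit 6) (nat_lit 4) (nat_lit 4) (nat_lit 4) (nat_lit 320) (nat_lit 225) (nat_lit 175)))) (XT.nd (nat_lit 156) (nat_lit 76) (nat_lit 0) (XT.nd (nat_lit 78) (nat_lit 0) (nat_lit 0) (XT.lf (nat_lit 0) (nat_lit 32066059160) (nat_lit 152) (nat_lit 16778637475) (nat_lit 0) (nat_lit 20908192661) (nat_lit 4) (nat_lit 5) (nat_lit 6) (nat_lit 4) (nat_lit 4) (nat_lit 4) (nat_lit 321) (nat_lit 225) (nat_lit 174)) (XT.lf (nat_lit 0) (nat_lit 36422812662) (nat_lit 152) (nat_lit 11430186509) (nat_lit 0) (nat_lit 25216822075) (nat_lit 4) (nat_lit 5) (nat_lit 6) (nat_lit 4) (nat_lit 4) (nat_lit 4) (nat_lit 322) (nat_lit 225) (nat_lit 173))) (XT.nd (nat_lit 78) (nat_lit 76) (nat_lit 0)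 (XT.lf (nat_lit 0) (nat_lit 40975067540) (nat_lit 152) (nat_lit 5855421978) (nat_lit 0) (nat_lit 29723244488) (nat_lit 4) (nat_lit 5) (nat_lit 6) (nat_lit 4) (nat_lit 4) (nat_lit 4) (nat_lit 323) (nat_lit 225) (nat_lit 172)) (XT.nd (nat_lit 78) (nat_lit 76) (nat_lit 0) (XT.lf (nat_lit 0) (nat_lit 45733662497) (nat_lit 152) (nat_lit 41070634) (nat_lit 0) (nat_lit 34438189479) (nat_lit 4) (nat_lit 5) (nat_lit 6) (nat_lit 4) (nat_lit 4) (nat_lit 4) (nat_lit 324) (nat_lit 225) (nat_lit 171)) (XT.lf (nat_lit 0) (nat_lit 6225981506) (nat_lit 76) (nat_lit 44581151034) (nat_lit 76) (nat_lit 33244106619) (nat_lit 3) (nat_lit 4) (nat_lit 4) (nat_lit 5) (nat_lit 4) (nat_lit 4) (nat_lit 325) (nat_lit 225) (nat_lit 170))))))) (XT.nd (nat_lit 702) (nat_lit 0) (nat_lit 0) (XT.nd (nat_lit 312) (nat_lit 0) (nat_lit 0) (XT.nd (nat_lit 156) (nat_lit 0) (nat_lit 0) (XT.nd (nat_lit 78) (nat_lit 0) (nat_lit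 0) (XT.lf (nat_lit 0) (nat_lit 12771126477) (nat_lit 76) (nat_lit 43343977458) (nat_lit 76) (nat_lit 31967341237) (nat_lit 3) (nat_lit 4) (nat_lit 4) (nat_lit 5) (nat_lit 4) (nat_lit 4) (nat_lit 326) (nat_lit 225) (nat_lit 169)) (XT.lf (nat_lit 0) (nat_lit 19608589977) (nat_lit 76) (nat_lit 42060962304) (nat_lit 76) (nat_lit 30646619600) (nat_lit 3) (nat_lit 4) (nat_lit 4) (nat_lit 5) (nat_lit 4) (nat_lit 4) (nat_lit 327) (nat_lit 225) (nat_lit 168))) (XT.nd (nat_lit 78) (nat_lit 0) (nat_lit 0) (XT.lf (nat_lit 0) (nat_lit 26754651680) (nat_lit 76) (nat_lit 40729050774) (nat_lit 76) (nat_lit 29278797135) (nat_lit 3) (nat_lit 4) (nat_lit 4) (nat_lit 5) (nat_lit 4) (nat_lit 4) (nat_lit 328) (nat_lit 225) (nat_lit 167)) (XT.lf (nat_lit 0) (nat_lit 34226326020) (nat_lit 76) (nat_lit 39345071649) (nat_lit 76) (nat_lit 27860617119) (nat_lit 3) (nat_lit 4) (nat_lit 4) (nat_lit 5) (nat_lit 4)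 (nat_lit 4) (nat_lit 329) (nat_lit 225) (nat_lit 166)))) (XT.nd (nat_lit 156) (nat_lit 0) (nat_lit 0) (XT.nd (nat_lit 78) (nat_lit 0) (nat_lit 0) (XT.lf (nat_lit 0) (nat_lit 42041402696) (nat_lit 76) (nat_lit 37905729742) (nat_lit 76) (nat_lit 26388702936) (nat_lit 3) (nat_lit 4) (nat_lit 4) (nat_lit 5) (nat_lit 4) (nat_lit 4) (nat_lit 330) (nat_lit 225) (nat_lit 165)) (XT.lf (nat_lit 0) (nat_lit 50218489035) (nat_lit 76) (nat_lit 36407598048) (nat_lit 76) (nat_lit 24859550025) (nat_lit 3) (nat_lit 4) (nat_lit 4) (nat_lit 5) (nat_lit 4) (nat_lit 4) (nat_lit 331) (nat_lit 225) (nat_lit 164))) (XT.nd (nat_lit 78) (nat_lit 0) (nat_lit 0) (XT.lf (nat_lit 0) (nat_lit 58777054289) (nat_lit 76) (nat_lit 34847109587) (nat_lit 76) (nat_lit 23269517549) (nat_lit 3) (nat_lit 4) (nat_lit 4) (nat_lit 5) (nat_lit 4) (nat_lit 4) (nat_lit 332) (nat_lit 225) (nat_lit 163)) (XT.nd (nat_lit 78) (nat_lit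 0) (nat_lit 0) (XT.lf (nat_lit 0) (nat_lit 67737475995) (nat_lit 76) (nat_lit 33220548910) (nat_lit 76) (nat_lit 21614819714) (nat_lit 3) (nat_lit 4) (nat_lit 4) (nat_lit 5) (nat_lit 4) (nat_lit 4) (nat_lit 333) (nat_lit 225) (nat_lit 162)) (XT.lf (nat_lit 0) (nat_lit 77121088490) (nat_lit 76) (nat_lit 31524043253) (nat_lit 76) (nat_lit 19891516764) (nat_lit 3) (nat_lit 4) (nat_lit 4) (nat_lit 5) (nat_lit 4) (nat_lit 4) (nat_lit 334) (nat_lit 225) (nat_lit 161)))))) (XT.nd (nat_lit 312) (nat_lit 0) (nat_lit 0) (XT.nd (nat_lit 156) (nat_lit 0) (nat_lit 0) (XT.nd (nat_lit 78) (nat_lit 0) (nat_lit 0) (XT.lf (nat_lit 0) (nat_lit 86950233709) (nat_lit 76) (nat_lit 29753553318) (nat_lit 76) (nat_lit 18095505597) (nat_lit 3) (nat_lit 4) (nat_lit 4) (nat_lit 5) (nat_lit 4) (nat_lit 4) (nat_lit 335) (nat_lit 225) (nat_lit 160)) (XT.lf (nat_lit 0) (nat_lit 97248314378) (nat_lit 76) (nat_lit 27904863651)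 (nat_lit 76) (nat_lit 16222509996) (nat_lit 3) (nat_lit 4) (nat_lit 4) (nat_lit 5) (nat_lit 4) (nat_lit 4) (nat_lit 336) (nat_lit 225) (nat_lit 159))) (XT.nd (nat_lit 78) (nat_lit 0) (nat_lit 0) (XT.lf (nat_lit 0) (nat_lit 108039849738) (nat_lit 76) (nat_lit 25973572612) (nat_lit 76) (nat_lit 14268070448) (nat_lit 3) (nat_lit 4) (nat_lit 4) (nat_lit 5) (nat_lit 4) (nat_lit 4) (nat_lit 337) (nat_lit 225) (nat_lit 158)) (XT.lf (nat_lit 0) (nat_lit 119350533919) (nat_lit 76) (nat_lit 23955081887) (nat_lit 76) (nat_lit 12227533524) (nat_lit 3) (nat_lit 4) (nat_lit 4) (nat_lit 5) (nat_lit 4) (nat_lit 4) (nat_lit 338) (nat_lit 225) (nat_lit 157)))) (XT.nd (nat_lit 156) (nat_lit 0) (nat_lit 0) (XT.nd (nat_lit 78) (nat_lit 0) (nat_lit 0) (XT.lf (nat_lit 0) (nat_lit 131207297123) (nat_lit 76) (nat_lit 21844585548) (nat_lit 76) (nat_lit 10096040805) (nat_lit 3) (nat_lit 4) (nat_lit 4) (nat_lit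 5) (nat_lit 4) (nat_lit 4) (nat_lit 339) (nat_lit 225) (nat_lit 156)) (XT.lf (nat_lit 0) (nat_lit 143638369738) (nat_lit 76) (nat_lit 19637058602) (nat_lit 76) (nat_lit 7868517306) (nat_lit 3) (nat_lit 4) (nat_lit 4) (nat_lit 5) (nat_lit 4) (nat_lit 4) (nat_lit 340) (nat_lit 225) (nat_lit 155))) (XT.nd (nat_lit 78) (nat_lit 0) (nat_lit 0) (XT.lf (nat_lit 0) (nat_lit 156673349555) (nat_lit 76) (nat_lit 17327245032) (nat_lit 76) (nat_lit 5539659401) (nat_lit 3) (nat_lit 4) (nat_lit 4) (nat_lit 5) (nat_lit 4) (nat_lit 4) (nat_lit 341) (nat_lit 225) (nat_lit 154)) (XT.nd (nat_lit 78) (nat_lit 0) (nat_lit 0) (XT.lf (nat_lit 0) (nat_lit 170343272242) (nat_lit 76) (nat_lit 14909645284) (nat_lit 76) (nat_lit 3103922190) (nat_lit 3) (nat_lit 4) (nat_lit 4) (nat_lit 5) (nat_lit 4) (nat_lit 4) (nat_lit 342) (nat_lit 225) (nat_lit 153)) (XT.lf (nat_lit 0) (nat_lit 184680685232) (nat_lit 76) (nat_lit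 12378503166) (nat_lit 76) (nat_lit 555506298) (nat_lit 3) (nat_lit 4) (nat_lit 4) (nat_lit 5) (nat_lit 4) (nat_lit 4) (nat_lit 343) (nat_lit 225) (nat_lit 152))))))))
noncomputable def xc66 : XT := (XT.nd (nat_lit 1404) (nat_lit 0) (nat_lit 0) (XT.nd (nat_lit 702) (nat_lit 0) (nat_lit 0) (XT.nd (nat_lit 312) (nat_lit 0) (nat_lit 0) (XT.nd (nat_lit 156) (nat_lit 76) (nat_lit 0) (XT.nd (nat_lit 78) (nat_lit 0) (nat_lit 0) (XT.lf (nat_lit 0) (nat_lit 2044069752) (nat_lit 152) (nat_lit 7649105088) (nat_lit 76) (nat_lit 197641038162) (nat_lit 2) (nat_lit 5) (nat_lit 4) (nat_lit 5) (nat_lit 3) (nat_lit 4) (nat_lit 344) (nat_lit 225) (nat_lit 151)) (XT.lf (nat_lit 0) (nat_lit 4746958980) (nat_lit 152) (nat_lit 2123849993) (nat_lit 76) (nat_lit 210668848429) (nat_lit 2) (nat_lit 5) (nat_lit 4) (nat_lit 5) (nat_lit 3) (nat_lit 4) (nat_lit 345) (nat_lit 225) (nat_lit 150))) (XT.nd (nat_lit 78)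 (nat_lit 0) (nat_lit 0) (XT.lf (nat_lit 0) (nat_lit 3784718837) (nat_lit 76) (nat_lit 3851747736) (nat_lit 152) (nat_lit 220616339149) (nat_lit 1) (nat_lit 5) (nat_lit 2) (nat_lit 5) (nat_lit 3) (nat_lit 4) (nat_lit 346) (nat_lit 225) (nat_lit 149)) (XT.lf (nat_lit 0) (nat_lit 10048594883) (nat_lit 76) (nat_lit 650353262) (nat_lit 152) (nat_lit 228801243521) (nat_lit 1) (nat_lit 5) (nat_lit 2) (nat_lit 5) (nat_lit 3) (nat_lit 4) (nat_lit 347) (nat_lit 225) (nat_lit 148)))) (XT.nd (nat_lit 156) (nat_lit 0) (nat_lit 0) (XT.nd (nat_lit 78) (nat_lit 0) (nat_lit 0) (XT.lf (nat_lit 0) (nat_lit 13949672748) (nat_lit 152) (nat_lit 234740072518) (nat_lit 0) (nat_lit 2618450587) (nat_lit 1) (nat_lit 5) (nat_lit 3) (nat_lit 4) (nat_lit 1) (nat_lit 4) (nat_lit 348) (nat_lit 225) (nat_lit 147)) (XT.lf (nat_lit 0) (nat_lit 17366729313) (nat_lit 152) (nat_lit 240316454809) (nat_lit 0) (nat_lit 6023231003)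 (nat_lit 1) (nat_lit 5) (nat_lit 3) (nat_lit 4) (nat_lit 1) (nat_lit 4) (nat_lit 349) (nat_lit 225) (nat_lit 146))) (XT.nd (nat_lit 78) (nat_lit 0) (nat_lit 0) (XT.lf (nat_lit 0) (nat_lit 20948099850) (nat_lit 152) (nat_lit 246183866919) (nat_lit 0) (nat_lit 9592909970) (nat_lit 1) (nat_lit 5) (nat_lit 3) (nat_lit 4) (nat_lit 1) (nat_lit 4) (nat_lit 350) (nat_lit 225) (nat_lit 145)) (XT.nd (nat_lit 78) (nat_lit 0) (nat_lit 0) (XT.lf (nat_lit 0) (nat_lit 24702311433) (nat_lit 152) (nat_lit 252356278878) (nat_lit 0) (nat_lit 13335986725) (nat_lit 1) (nat_lit 5) (nat_lit 3) (nat_lit 4) (nat_lit 1) (nat_lit 4) (nat_lit 351) (nat_lit 225) (nat_lit 144)) (XT.lf (nat_lit 0) (nat_lit 28638302662) (nat_lit 152) (nat_lit 258848386904) (nat_lit 0) (nat_lit 17261373354) (nat_lit 1) (nat_lit 5) (nat_lit 3) (nat_lit 4) (nat_lit 1) (nat_lit 4) (nat_lit 352) (nat_lit 225) (nat_lit 143)))))) (XT.nd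 (nat_lit 312) (nat_lit 0) (nat_lit 0) (XT.nd (nat_lit 156) (nat_lit 0) (nat_lit 0) (XT.nd (nat_lit 78) (nat_lit 0) (nat_lit 0) (XT.lf (nat_lit 0) (nat_lit 32765444943) (nat_lit 152) (nat_lit 265675648398) (nat_lit 0) (nat_lit 21378416017) (nat_lit 1) (nat_lit 5) (nat_lit 3) (nat_lit 4) (nat_lit 1) (nat_lit 4) (nat_lit 353) (nat_lit 225) (nat_lit 142)) (XT.lf (nat_lit 0) (nat_lit 37093564806) (nat_lit 152) (nat_lit 272854318744) (nat_lit 0) (nat_lit 25696917197) (nat_lit 1) (nat_lit 5) (nat_lit 3) (nat_lit 4) (nat_lit 1) (nat_lit 4) (nat_lit 354) (nat_lit 225) (nat_lit 141))) (XT.nd (nat_lit 78) (nat_lit 0) (nat_lit 0) (XT.lf (nat_lit 0) (nat_lit 41632967298) (nat_lit 152) (nat_lit 280401490015) (nat_lit 0) (nat_lit 30227159038) (nat_lit 1) (nat_lit 5) (nat_lit 3) (nat_lit 4) (nat_lit 1) (nat_lit 4) (nat_lit 355) (nat_lit 225) (nat_lit 140)) (XT.lf (nat_lit 0) (nat_lit 46394460520) (nat_lit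 152) (nat_lit 288335131665) (nat_lit 0) (nat_lit 34979927830) (nat_lit 1) (nat_lit 5) (nat_lit 3) (nat_lit 4) (nat_lit 1) (nat_lit 4) (nat_lit 356) (nat_lit 225) (nat_lit 139)))) (XT.nd (nat_lit 156) (nat_lit 0) (nat_lit 0) (XT.nd (nat_lit 78) (nat_lit 0) (nat_lit 0) (XT.lf (nat_lit 0) (nat_lit 51389381362) (nat_lit 152) (nat_lit 296674133317) (nat_lit 0) (nat_lit 39966539691) (nat_lit 1) (nat_lit 5) (nat_lit 3) (nat_lit 4) (nat_lit 1) (nat_lit 4) (nat_lit 357) (nat_lit 225) (nat_lit 138)) (XT.lf (nat_lit 0) (nat_lit 56629622491) (nat_lit 152) (nat_lit 305438349738) (nat_lit 0) (nat_lit 45198867506) (nat_lit 1) (nat_lit 5) (nat_lit 3) (nat_lit 4) (nat_lit 1) (nat_lit 4) (nat_lit 358) (nat_lit 225) (nat_lit 137))) (XT.nd (nat_lit 78) (nat_lit 0) (nat_lit 0) (XT.lf (nat_lit 0) (nat_lit 62127660673) (nat_lit 152) (nat_lit 314648648110) (nat_lit 0) (nat_lit 50689369197) (nat_lit 1) (nat_lit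 5) (nat_lit 3) (nat_lit 4) (nat_lit 1) (nat_lit 4) (nat_lit 359) (nat_lit 225) (nat_lit 136)) (XT.nd (nat_lit 78) (nat_lit 0) (nat_lit 0) (XT.lf (nat_lit 0) (nat_lit 67896586473) (nat_lit 152) (nat_lit 324326957714) (nat_lit 0) (nat_lit 56451117388) (nat_lit 1) (nat_lit 5) (nat_lit 3) (nat_lit 4) (nat_lit 1) (nat_lit 4) (nat_lit 360) (nat_lit 225) (nat_lit 135)) (XT.lf (nat_lit 0) (nat_lit 73950135431) (nat_lit 152) (nat_lit 334496322145) (nat_lit 0) (nat_lit 62497830527) (nat_lit 1) (nat_lit 5) (nat_lit 3) (nat_lit 4) (nat_lit 1) (nat_lit 4) (nat_lit 361) (nat_lit 225) (nat_lit 134))))))) (XT.nd (nat_lit 30576) (nat_lit 0) (nat_lit 1520) (XT.nd (nat_lit 30186) (nat_lit 0) (nat_lit 2432) (XT.nd (nat_lit 156) (nat_lit 0) (nat_lit 0) (XT.nd (nat_lit 78) (nat_lit 0) (nat_lit 0) (XT.lf (nat_lit 0) (nat_lit 80302720758) (nat_lit 152) (nat_lit 345180954174) (nat_lit 0) (nat_lit 68843905549)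 (nat_lit 1) (nat_lit 5) (nat_lit 3) (nat_lit 4) (nat_lit 1) (nat_lit 4) (nat_lit 362) (nat_lit 225) (nat_lit 133)) (XT.lf (nat_lit 0) (nat_lit 86969467656) (nat_lit 152) (nat_lit 356406293403) (nat_lit 0) (nat_lit 75504452159) (nat_lit 1) (nat_lit 5) (nat_lit 3) (nat_lit 4) (nat_lit 1) (nat_lit 4) (nat_lit 363) (nat_lit 225) (nat_lit 132))) (XT.nd (nat_lit 78) (nat_lit 0) (nat_lit 0) (XT.lf (nat_lit 0) (nat_lit 93966249334) (nat_lit 152) (nat_lit 368199066829) (nat_lit 0) (nat_lit 82495328799) (nat_lit 1) (nat_lit 5) (nat_lit 3) (nat_lit 4) (nat_lit 1) (nat_lit 4) (nat_lit 364) (nat_lit 225) (nat_lit 131)) (XT.lf (nat_lit 0) (nat_lit 101309724794) (nat_lit 152) (nat_lit 380587352485) (nat_lit 0) (nat_lit 89833180414) (nat_lit 1) (nat_lit 5) (nat_lit 3) (nat_lit 4) (nat_lit 1) (nat_lit 4) (nat_lit 365) (nat_lit 225) (nat_lit 130)))) (XT.nd (nat_lit 156) (nat_lit 456) (nat_lit 0) (XT.nd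 (nat_lit 78) (nat_lit 0) (nat_lit 0) (XT.lf (nat_lit 0) (nat_lit 220326687) (nat_lit 228) (nat_lit 2179797512) (nat_lit 228) (nat_lit 2179797512) (nat_lit 39) (nat_lit 4) (nat_lit 42) (nat_lit 5) (nat_lit 42) (nat_lit 4) (nat_lit 268) (nat_lit 226) (nat_lit 226)) (XT.lf (nat_lit 0) (nat_lit 6714382483) (nat_lit 228) (nat_lit 1806449701) (nat_lit 228) (nat_lit 862584977) (nat_lit 39) (nat_lit 4) (nat_lit 42) (nat_lit 5) (nat_lit 42) (nat_lit 4) (nat_lit 269) (nat_lit 226) (nat_lit 225))) (XT.nd (nat_lit 78) (nat_lit 228) (nat_lit 0) (XT.lf (nat_lit 0) (nat_lit 2645725771) (nat_lit 228) (nat_lit 6083563705) (nat_lit 0) (nat_lit 890693856) (nat_lit 36) (nat_lit 5) (nat_lit 39) (nat_lit 4) (nat_lit 36) (nat_lit 4) (nat_lit 270) (nat_lit 226) (nat_lit 224)) (XT.nd (nat_lit 78) (nat_lit 0) (nat_lit 0) (XT.lf (nat_lit 0) (nat_lit 30107448) (nat_lit 228) (nat_lit 6205740690) (nat_lit 228) (nat_lit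 3635362938) (nat_lit 33) (nat_lit 4) (nat_lit 36) (nat_lit 5) (nat_lit 36) (nat_lit 4) (nat_lit 271) (nat_lit 226) (nat_lit 223)) (XT.lf (nat_lit 0) (nat_lit 6458924779) (nat_lit 228) (nat_lit 3512485563) (nat_lit 228) (nat_lit 165587966) (nat_lit 33) (nat_lit 4) (nat_lit 36) (nat_lit 5) (nat_lit 36) (nat_lit 4) (nat_lit 272) (nat_lit 226) (nat_lit 222)))))) (XT.nd (nat_lit 312) (nat_lit 304) (nat_lit 0) (XT.nd (nat_lit 156) (nat_lit 380) (nat_lit 0) (XT.nd (nat_lit 78) (nat_lit 0) (nat_lit 0) (XT.lf (nat_lit 0) (nat_lit 2626059805) (nat_lit 152) (nat_lit 648330492) (nat_lit 228) (nat_lit 7143836082) (nat_lit 30) (nat_lit 5) (nat_lit 32) (nat_lit 5) (nat_lit 33) (nat_lit 4) (nat_lit 273) (nat_lit 226) (nat_lit 221)) (XT.lf (nat_lit 0) (nat_lit 6850277219) (nat_lit 228) (nat_lit 1577241559) (nat_lit 0) (nat_lit 2287642270) (nat_lit 30) (nat_lit 5) (nat_lit 33) (nat_lit 4) (nat_lit 30)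 (nat_lit 4) (nat_lit 274) (nat_lit 226) (nat_lit 220))) (XT.nd (nat_lit 78) (nat_lit 228) (nat_lit 0) (XT.lf (nat_lit 0) (nat_lit 4904915348) (nat_lit 152) (nat_lit 5662805624) (nat_lit 152) (nat_lit 461325877) (nat_lit 28) (nat_lit 4) (nat_lit 30) (nat_lit 5) (nat_lit 30) (nat_lit 4) (nat_lit 275) (nat_lit 226) (nat_lit 219)) (XT.lf (nat_lit 0) (nat_lit 174067045) (nat_lit 152) (nat_lit 2744942910) (nat_lit 228) (nat_lit 8442096463) (nat_lit 25) (nat_lit 5) (nat_lit 27) (nat_lit 5) (nat_lit 28) (nat_lit 4) (nat_lit 276) (nat_lit 226) (nat_lit 218)))) (XT.nd (nat_lit 156) (nat_lit 152) (nat_lit 0) (XT.nd (nat_lit 78) (nat_lit 152) (nat_lit 0) (XT.lf (nat_lit 0) (nat_lit 6441502544) (nat_lit 228) (nat_lit 4912262522) (nat_lit 0) (nat_lit 356403088) (nat_lit 25) (nat_lit 5) (nat_lit 28) (nat_lit 4) (nat_lit 25) (nat_lit 4) (nat_lit 277) (nat_lit 226) (nat_lit 217)) (XT.lf (nat_lit 0)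 (nat_lit 1495077033) (nat_lit 152) (nat_lit 8597432321) (nat_lit 152) (nat_lit 1986753669) (nat_lit 23) (nat_lit 4) (nat_lit 25) (nat_lit 5) (nat_lit 25) (nat_lit 4) (nat_lit 278) (nat_lit 226) (nat_lit 216))) (XT.nd (nat_lit 78) (nat_lit 76) (nat_lit 0) (XT.lf (nat_lit 0) (nat_lit 1381806190) (nat_lit 228) (nat_lit 4278527576) (nat_lit 76) (nat_lit 6807057815) (nat_lit 22) (nat_lit 5) (nat_lit 25) (nat_lit 5) (nat_lit 23) (nat_lit 4) (nat_lit 279) (nat_lit 226) (nat_lit 215)) (XT.nd (nat_lit 78) (nat_lit 0) (nat_lit 0) (XT.lf (nat_lit 0) (nat_lit 2204148733) (nat_lit 76) (nat_lit 2572482889) (nat_lit 152) (nat_lit 8100608540) (nat_lit 21) (nat_lit 5) (nat_lit 22) (nat_lit 5) (nat_lit 23) (nat_lit 4) (nat_lit 280) (nat_lit 226) (nat_lit 214)) (XT.lf (nat_lit 0) (nat_lit 8316984001) (nat_lit 152) (nat_lit 4333998668) (nat_lit 0) (nat_lit 657973369) (nat_lit 21) (nat_lit 5) (nat_lit 23)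 (nat_lit 4) (nat_lit 21) (nat_lit 4) (nat_lit 281) (nat_lit 226) (nat_lit 213))))))))
noncomputable def xc67 : XT := (XT.nd (nat_lit 1404) (nat_lit 380) (nat_lit 0) (XT.nd (nat_lit 702) (nat_lit 304) (nat_lit 0) (XT.nd (nat_lit 312) (nat_lit 304) (nat_lit 0) (XT.nd (nat_lit 156) (nat_lit 76) (nat_lit 0) (XT.nd (nat_lit 78) (nat_lit 76) (nat_lit 0) (XT.lf (nat_lit 0) (nat_lit 2180233760) (nat_lit 152) (nat_lit 9827171696) (nat_lit 152) (nat_lit 1756356011) (nat_lit 19) (nat_lit 4) (nat_lit 21) (nat_lit 5) (nat_lit 21) (nat_lit 4) (nat_lit 282) (nat_lit 226) (nat_lit 212)) (XT.lf (nat_lit 0) (nat_lit 1560471377) (nat_lit 228) (nat_lit 5264044649) (nat_lit 76) (nat_lit 7417054173) (nat_lit 18) (nat_lit 5) (nat_lit 21) (nat_lit 5) (nat_lit 19) (nat_lit 4) (nat_lit 283) (nat_lit 226) (nat_lit 211))) (XT.nd (nat_lit 78) (nat_lit 0) (nat_lit 0) (XT.lf (nat_lit 0) (nat_lit 1219531161) (nat_lit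 76) (nat_lit 3685864671) (nat_lit 152) (nat_lit 9840504908) (nat_lit 17) (nat_lit 5) (nat_lit 18) (nat_lit 5) (nat_lit 19) (nat_lit 4) (nat_lit 284) (nat_lit 226) (nat_lit 210)) (XT.lf (nat_lit 0) (nat_lit 8050535074) (nat_lit 76) (nat_lit 360585929) (nat_lit 152) (nat_lit 6864777696) (nat_lit 17) (nat_lit 5) (nat_lit 18) (nat_lit 5) (nat_lit 19) (nat_lit 4) (nat_lit 285) (nat_lit 226) (nat_lit 209)))) (XT.nd (nat_lit 156) (nat_lit 152) (nat_lit 0) (XT.nd (nat_lit 78) (nat_lit 152) (nat_lit 0) (XT.lf (nat_lit 0) (nat_lit 12049022593) (nat_lit 152) (nat_lit 813825564) (nat_lit 0) (nat_lit 2971826383) (nat_lit 17) (nat_lit 5) (nat_lit 19) (nat_lit 4) (nat_lit 17) (nat_lit 4) (nat_lit 286) (nat_lit 226) (nat_lit 208)) (XT.lf (nat_lit 0) (nat_lit 5954743143) (nat_lit 152) (nat_lit 9925345353) (nat_lit 152) (nat_lit 540853872) (nat_lit 15) (nat_lit 4) (nat_lit 17) (nat_lit 5) (nat_lit 17)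 (nat_lit 4) (nat_lit 287) (nat_lit 226) (nat_lit 207))) (XT.nd (nat_lit 78) (nat_lit 76) (nat_lit 0) (XT.lf (nat_lit 0) (nat_lit 2701226949) (nat_lit 228) (nat_lit 4139638396) (nat_lit 76) (nat_lit 10197187666) (nat_lit 14) (nat_lit 5) (nat_lit 17) (nat_lit 5) (nat_lit 15) (nat_lit 4) (nat_lit 288) (nat_lit 226) (nat_lit 206)) (XT.nd (nat_lit 78) (nat_lit 0) (nat_lit 0) (XT.lf (nat_lit 0) (nat_lit 2430436696) (nat_lit 76) (nat_lit 3611668771) (nat_lit 152) (nat_lit 11645827675) (nat_lit 13) (nat_lit 5) (nat_lit 14) (nat_lit 5) (nat_lit 15) (nat_lit 4) (nat_lit 289) (nat_lit 226) (nat_lit 205)) (XT.lf (nat_lit 0) (nat_lit 9333284041) (nat_lit 76) (nat_lit 205553404) (nat_lit 152) (nat_lit 8832125334) (nat_lit 13) (nat_lit 5) (nat_lit 14) (nat_lit 5) (nat_lit 15) (nat_lit 4) (nat_lit 290) (nat_lit 226) (nat_lit 204)))))) (XT.nd (nat_lit 312) (nat_lit 152) (nat_lit 0) (XT.nd (nat_lit 156)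 (nat_lit 76) (nat_lit 0) (XT.nd (nat_lit 78) (nat_lit 76) (nat_lit 0) (XT.lf (nat_lit 0) (nat_lit 13184744066) (nat_lit 152) (nat_lit 2695406746) (nat_lit 0) (nat_lit 3209367588) (nat_lit 13) (nat_lit 5) (nat_lit 15) (nat_lit 4) (nat_lit 13) (nat_lit 4) (nat_lit 291) (nat_lit 226) (nat_lit 203)) (XT.lf (nat_lit 0) (nat_lit 3957848894) (nat_lit 76) (nat_lit 13045697442) (nat_lit 76) (nat_lit 2841012502) (nat_lit 12) (nat_lit 4) (nat_lit 13) (nat_lit 5) (nat_lit 13) (nat_lit 4) (nat_lit 292) (nat_lit 226) (nat_lit 202))) (XT.nd (nat_lit 78) (nat_lit 0) (nat_lit 0) (XT.lf (nat_lit 0) (nat_lit 336024253) (nat_lit 152) (nat_lit 9734224232) (nat_lit 76) (nat_lit 10568282342) (nat_lit 11) (nat_lit 5) (nat_lit 13) (nat_lit 5) (nat_lit 12) (nat_lit 4) (nat_lit 293) (nat_lit 226) (nat_lit 201)) (XT.lf (nat_lit 0) (nat_lit 3505696036) (nat_lit 152) (nat_lit 3444386611) (nat_lit 76) (nat_lit 14523402276)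 (nat_lit 11) (nat_lit 5) (nat_lit 13) (nat_lit 5) (nat_lit 12) (nat_lit 4) (nat_lit 294) (nat_lit 226) (nat_lit 200)))) (XT.nd (nat_lit 156) (nat_lit 76) (nat_lit 0) (XT.nd (nat_lit 78) (nat_lit 0) (nat_lit 0) (XT.lf (nat_lit 0) (nat_lit 3142721605) (nat_lit 76) (nat_lit 3672824913) (nat_lit 152) (nat_lit 15535627069) (nat_lit 10) (nat_lit 5) (nat_lit 11) (nat_lit 5) (nat_lit 12) (nat_lit 4) (nat_lit 295) (nat_lit 226) (nat_lit 199)) (XT.lf (nat_lit 0) (nat_lit 10062858685) (nat_lit 76) (nat_lit 220390135) (nat_lit 152) (nat_lit 12989948106) (nat_lit 10) (nat_lit 5) (nat_lit 11) (nat_lit 5) (nat_lit 12) (nat_lit 4) (nat_lit 296) (nat_lit 226) (nat_lit 198))) (XT.nd (nat_lit 78) (nat_lit 76) (nat_lit 0) (XT.lf (nat_lit 0) (nat_lit 13913918641) (nat_lit 152) (nat_lit 7078327686) (nat_lit 0) (nat_lit 3249660947) (nat_lit 10) (nat_lit 5) (nat_lit 12) (nat_lit 4) (nat_lit 10) (nat_lit 4)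 (nat_lit 297) (nat_lit 226) (nat_lit 197)) (XT.nd (nat_lit 78) (nat_lit 76) (nat_lit 0) (XT.lf (nat_lit 0) (nat_lit 17669188257) (nat_lit 152) (nat_lit 750808113) (nat_lit 0) (nat_lit 6841965319) (nat_lit 10) (nat_lit 5) (nat_lit 12) (nat_lit 4) (nat_lit 10) (nat_lit 4) (nat_lit 298) (nat_lit 226) (nat_lit 196)) (XT.lf (nat_lit 0) (nat_lit 5982194487) (nat_lit 76) (nat_lit 15665762211) (nat_lit 76) (nat_lit 4683334280) (nat_lit 9) (nat_lit 4) (nat_lit 10) (nat_lit 5) (nat_lit 10) (nat_lit 4) (nat_lit 299) (nat_lit 226) (nat_lit 195))))))) (XT.nd (nat_lit 702) (nat_lit 152) (nat_lit 0) (XT.nd (nat_lit 312) (nat_lit 76) (nat_lit 0) (XT.nd (nat_lit 156) (nat_lit 76) (nat_lit 0) (XT.nd (nat_lit 78) (nat_lit 76) (nat_lit 0) (XT.lf (nat_lit 0) (nat_lit 12977204025) (nat_lit 76) (nat_lit 12804684882) (nat_lit 76) (nat_lit 1674442672) (nat_lit 9) (nat_lit 4) (nat_lit 10) (nat_lit 5) (nat_lit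 10) (nat_lit 4) (nat_lit 300) (nat_lit 226) (nat_lit 194)) (XT.lf (nat_lit 0) (nat_lit 1382633995) (nat_lit 152) (nat_lit 8436618023) (nat_lit 76) (nat_lit 18820000604) (nat_lit 8) (nat_lit 5) (nat_lit 10) (nat_lit 5) (nat_lit 9) (nat_lit 4) (nat_lit 301) (nat_lit 226) (nat_lit 193))) (XT.nd (nat_lit 78) (nat_lit 76) (nat_lit 0) (XT.lf (nat_lit 0) (nat_lit 4484164953) (nat_lit 152) (nat_lit 2212551468) (nat_lit 76) (nat_lit 23185885642) (nat_lit 8) (nat_lit 5) (nat_lit 10) (nat_lit 5) (nat_lit 9) (nat_lit 4) (nat_lit 302) (nat_lit 226) (nat_lit 192)) (XT.lf (nat_lit 0) (nat_lit 4374030345) (nat_lit 76) (nat_lit 3385387947) (nat_lit 152) (nat_lit 23427814557) (nat_lit 7) (nat_lit 5) (nat_lit 8) (nat_lit 5) (nat_lit 9) (nat_lit 4) (nat_lit 303) (nat_lit 226) (nat_lit 191)))) (XT.nd (nat_lit 156) (nat_lit 76) (nat_lit 0) (XT.nd (nat_lit 78) (nat_lit 0) (nat_lit 0) (XT.lf (nat_lit 0) (nat_lit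 11188701793) (nat_lit 152) (nat_lit 21279635830) (nat_lit 0) (nat_lit 89288146) (nat_lit 7) (nat_lit 5) (nat_lit 9) (nat_lit 4) (nat_lit 7) (nat_lit 4) (nat_lit 304) (nat_lit 226) (nat_lit 190)) (XT.lf (nat_lit 0) (nat_lit 14798046594) (nat_lit 152) (nat_lit 15609772100) (nat_lit 0) (nat_lit 3588331656) (nat_lit 7) (nat_lit 5) (nat_lit 9) (nat_lit 4) (nat_lit 7) (nat_lit 4) (nat_lit 305) (nat_lit 226) (nat_lit 189))) (XT.nd (nat_lit 78) (nat_lit 76) (nat_lit 0) (XT.lf (nat_lit 0) (nat_lit 18543190981) (nat_lit 152) (nat_lit 9737256248) (nat_lit 0) (nat_lit 7228427194) (nat_lit 7) (nat_lit 5) (nat_lit 9) (nat_lit 4) (nat_lit 7) (nat_lit 4) (nat_lit 306) (nat_lit 226) (nat_lit 188)) (XT.nd (nat_lit 78) (nat_lit 76) (nat_lit 0) (XT.lf (nat_lit 0) (nat_lit 22433051965) (nat_lit 152) (nat_lit 3648106092) (nat_lit 0) (nat_lit 11018241655) (nat_lit 7) (nat_lit 5) (nat_lit 9) (nat_lit 4) (nat_lit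 7) (nat_lit 4) (nat_lit 307) (nat_lit 226) (nat_lit 187)) (XT.lf (nat_lit 0) (nat_lit 2760530560) (nat_lit 76) (nat_lit 23759460176) (nat_lit 76) (nat_lit 12249367464) (nat_lit 6) (nat_lit 4) (nat_lit 7) (nat_lit 5) (nat_lit 7) (nat_lit 4) (nat_lit 308) (nat_lit 226) (nat_lit 186)))))) (XT.nd (nat_lit 390) (nat_lit 76) (nat_lit 0) (XT.nd (nat_lit 156) (nat_lit 76) (nat_lit 0) (XT.nd (nat_lit 78) (nat_lit 0) (nat_lit 0) (XT.lf (nat_lit 0) (nat_lit 9544110490) (nat_lit 76) (nat_lit 21289236453) (nat_lit 76) (nat_lit 9688398595) (nat_lit 6) (nat_lit 4) (nat_lit 7) (nat_lit 5) (nat_lit 7) (nat_lit 4) (nat_lit 309) (nat_lit 226) (nat_lit 185)) (XT.lf (nat_lit 0) (nat_lit 16598162213) (nat_lit 76) (nat_lit 18726387844) (nat_lit 76) (nat_lit 7039126039) (nat_lit 6) (nat_lit 4) (nat_lit 7) (nat_lit 5) (nat_lit 7) (nat_lit 4) (nat_lit 310) (nat_lit 226) (nat_lit 184))) (XT.nd (nat_lit 78) (nat_lit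 76) (nat_lit 0) (XT.lf (nat_lit 0) (nat_lit 23939481090) (nat_lit 76) (nat_lit 16064812331) (nat_lit 76) (nat_lit 4295242003) (nat_lit 6) (nat_lit 4) (nat_lit 7) (nat_lit 5) (nat_lit 7) (nat_lit 4) (nat_lit 311) (nat_lit 226) (nat_lit 183)) (XT.nd (nat_lit 78) (nat_lit 76) (nat_lit 0) (XT.lf (nat_lit 0) (nat_lit 31585546454) (nat_lit 76) (nat_lit 13298172827) (nat_lit 76) (nat_lit 1450213431) (nat_lit 6) (nat_lit 4) (nat_lit 7) (nat_lit 5) (nat_lit 7) (nat_lit 4) (nat_lit 312) (nat_lit 226) (nat_lit 182)) (XT.lf (nat_lit 0) (nat_lit 1454636696) (nat_lit 152) (nat_lit 8940610423) (nat_lit 76) (nat_lit 38075291548) (nat_lit 5) (nat_lit 5) (nat_lit 7) (nat_lit 5) (nat_lit 6) (nat_lit 4) (nat_lit 313) (nat_lit 226) (nat_lit 181))))) (XT.nd (nat_lit 156) (nat_lit 0) (nat_lit 0) (XT.nd (nat_lit 78) (nat_lit 76) (nat_lit 0) (XT.lf (nat_lit 0) (nat_lit 4424341084) (nat_lit 152) (nat_lit 2923817623)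 (nat_lit 76) (nat_lit 43366235798) (nat_lit 5) (nat_lit 5) (nat_lit 7) (nat_lit 5) (nat_lit 6) (nat_lit 4) (nat_lit 314) (nat_lit 226) (nat_lit 180)) (XT.lf (nat_lit 0) (nat_lit 3449360822) (nat_lit 76) (nat_lit 4116879711) (nat_lit 152) (nat_lit 45503041593) (nat_lit 4) (nat_lit 5) (nat_lit 5) (nat_lit 5) (nat_lit 6) (nat_lit 4) (nat_lit 315) (nat_lit 226) (nat_lit 179))) (XT.nd (nat_lit 78) (nat_lit 0) (nat_lit 0) (XT.lf (nat_lit 0) (nat_lit 10188736213) (nat_lit 76) (nat_lit 696463476) (nat_lit 152) (nat_lit 44655739518) (nat_lit 4) (nat_lit 5) (nat_lit 5) (nat_lit 5) (nat_lit 6) (nat_lit 4) (nat_lit 316) (nat_lit 226) (nat_lit 178)) (XT.nd (nat_lit 78) (nat_lit 0) (nat_lit 0) (XT.lf (nat_lit 0) (nat_lit 14386798049) (nat_lit 152) (nat_lit 40968764059) (nat_lit 0) (nat_lit 2779804680) (nat_lit 4) (nat_lit 5) (nat_lit 6) (nat_lit 4) (nat_lit 4) (nat_lit 4) (nat_lit 317) (nat_lit 226)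 (nat_lit 177)) (XT.lf (nat_lit 0) (nat_lit 18047743850) (nat_lit 152) (nat_lit 36427538837) (nat_lit 0) (nat_lit 6385040833) (nat_lit 4) (nat_lit 5) (nat_lit 6) (nat_lit 4) (nat_lit 4) (nat_lit 4) (nat_lit 318) (nat_lit 226) (nat_lit 176))))))))
noncomputable def xc68 : XT := (XT.nd (nat_lit 1404) (nat_lit 152) (nat_lit 0) (XT.nd (nat_lit 702) (nat_lit 0) (nat_lit 0) (XT.nd (nat_lit 312) (nat_lit 76) (nat_lit 0) (XT.nd (nat_lit 156) (nat_lit 0) (nat_lit 0) (XT.nd (nat_lit 78) (nat_lit 0) (nat_lit 0) (XT.lf (nat_lit 0) (nat_lit 21865879883) (nat_lit 152) (nat_lit 31706841142) (nat_lit 0) (nat_lit 10150120059) (nat_lit 4) (nat_lit 5) (nat_lit 6) (nat_lit 4) (nat_lit 4) (nat_lit 4) (nat_lit 319) (nat_lit 226) (nat_lit 175)) (XT.lf (nat_lit 0) (nat_lit 25850296948) (nat_lit 152) (nat_lit 26795431217) (nat_lit 0) (nat_lit 14084006832) (nat_lit 4) (nat_lit 5) (nat_lit 6) (nat_lit 4) (nat_lit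 4) (nat_lit 4) (nat_lit 320) (nat_lit 226) (nat_lit 174))) (XT.nd (nat_lit 78) (nat_lit 0) (nat_lit 0) (XT.lf (nat_lit 0) (nat_lit 30010481753) (nat_lit 152) (nat_lit 21681615229) (nat_lit 0) (nat_lit 18196067548) (nat_lit 4) (nat_lit 5) (nat_lit 6) (nat_lit 4) (nat_lit 4) (nat_lit 4) (nat_lit 321) (nat_lit 226) (nat_lit 173)) (XT.lf (nat_lit 0) (nat_lit 34356339499) (nat_lit 152) (nat_lit 16353217426) (nat_lit 0) (nat_lit 22496092830) (nat_lit 4) (nat_lit 5) (nat_lit 6) (nat_lit 4) (nat_lit 4) (nat_lit 4) (nat_lit 322) (nat_lit 226) (nat_lit 172)))) (XT.nd (nat_lit 156) (nat_lit 76) (nat_lit 0) (XT.nd (nat_lit 78) (nat_lit 0) (nat_lit 0) (XT.lf (nat_lit 0) (nat_lit 38898217468) (nat_lit 152) (nat_lit 10797551146) (nat_lit 0) (nat_lit 26994320832) (nat_lit 4) (nat_lit 5) (nat_lit 6) (nat_lit 4) (nat_lit 4) (nat_lit 4) (nat_lit 323) (nat_lit 226) (nat_lit 171)) (XT.lf (nat_lit 0) (nat_lit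 43646929653) (nat_lit 152) (nat_lit 5001388612) (nat_lit 0) (nat_lit 31701461621) (nat_lit 4) (nat_lit 5) (nat_lit 6) (nat_lit 4) (nat_lit 4) (nat_lit 4) (nat_lit 324) (nat_lit 226) (nat_lit 170))) (XT.nd (nat_lit 78) (nat_lit 0) (nat_lit 0) (XT.lf (nat_lit 0) (nat_lit 1083757572) (nat_lit 76) (nat_lit 47546945433) (nat_lit 76) (nat_lit 35561885595) (nat_lit 3) (nat_lit 4) (nat_lit 4) (nat_lit 5) (nat_lit 4) (nat_lit 4) (nat_lit 325) (nat_lit 226) (nat_lit 169)) (XT.nd (nat_lit 78) (nat_lit 0) (nat_lit 0) (XT.lf (nat_lit 0) (nat_lit 7611859266) (nat_lit 76) (nat_lit 46317585077) (nat_lit 76) (nat_lit 34294818756) (nat_lit 3) (nat_lit 4) (nat_lit 4) (nat_lit 5) (nat_lit 4) (nat_lit 4) (nat_lit 326) (nat_lit 226) (nat_lit 168)) (XT.lf (nat_lit 0) (nat_lit 14433091072) (nat_lit 76) (nat_lit 45042011085) (nat_lit 76) (nat_lit 32983333829) (nat_lit 3) (nat_lit 4) (nat_lit 4) (nat_lit 5)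 (nat_lit 4) (nat_lit 4) (nat_lit 327) (nat_lit 226) (nat_lit 167)))))) (XT.nd (nat_lit 312) (nat_lit 0) (nat_lit 0) (XT.nd (nat_lit 156) (nat_lit 0) (nat_lit 0) (XT.nd (nat_lit 78) (nat_lit 0) (nat_lit 0) (XT.lf (nat_lit 0) (nat_lit 21563694020) (nat_lit 76) (nat_lit 43717186375) (nat_lit 76) (nat_lit 31624308228) (nat_lit 3) (nat_lit 4) (nat_lit 4) (nat_lit 5) (nat_lit 4) (nat_lit 4) (nat_lit 328) (nat_lit 226) (nat_lit 166)) (XT.lf (nat_lit 0) (nat_lit 29020645735) (nat_lit 76) (nat_lit 42339956604) (nat_lit 76) (nat_lit 30214506180) (nat_lit 3) (nat_lit 4) (nat_lit 4) (nat_lit 5) (nat_lit 4) (nat_lit 4) (nat_lit 329) (nat_lit 226) (nat_lit 165))) (XT.nd (nat_lit 78) (nat_lit 0) (nat_lit 0) (XT.lf (nat_lit 0) (nat_lit 36821700864) (nat_lit 76) (nat_lit 40907042652) (nat_lit 76) (nat_lit 28750571012) (nat_lit 3) (nat_lit 4) (nat_lit 4) (nat_lit 5) (nat_lit 4) (nat_lit 4) (nat_lit 330)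 (nat_lit 226) (nat_lit 164)) (XT.lf (nat_lit 0) (nat_lit 44985433349) (nat_lit 76) (nat_lit 39415032820) (nat_lit 76) (nat_lit 27229017165) (nat_lit 3) (nat_lit 4) (nat_lit 4) (nat_lit 5) (nat_lit 4) (nat_lit 4) (nat_lit 331) (nat_lit 226) (nat_lit 163)))) (XT.nd (nat_lit 156) (nat_lit 0) (nat_lit 0) (XT.nd (nat_lit 78) (nat_lit 0) (nat_lit 0) (XT.lf (nat_lit 0) (nat_lit 53531280646) (nat_lit 76) (nat_lit 37860374704) (nat_lit 76) (nat_lit 25646221891) (nat_lit 3) (nat_lit 4) (nat_lit 4) (nat_lit 5) (nat_lit 4) (nat_lit 4) (nat_lit 332) (nat_lit 226) (nat_lit 162)) (XT.lf (nat_lit 0) (nat_lit 62479590013) (nat_lit 76) (nat_lit 36239366736) (nat_lit 76) (nat_lit 23998416630) (nat_lit 3) (nat_lit 4) (nat_lit 4) (nat_lit 5) (nat_lit 4) (nat_lit 4) (nat_lit 333) (nat_lit 226) (nat_lit 161))) (XT.nd (nat_lit 78) (nat_lit 0) (nat_lit 0) (XT.lf (nat_lit 0) (nat_lit 71851666946) (nat_lit 76)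 (nat_lit 34548149374) (nat_lit 76) (nat_lit 22281678037) (nat_lit 3) (nat_lit 4) (nat_lit 4) (nat_lit 5) (nat_lit 4) (nat_lit 4) (nat_lit 334) (nat_lit 226) (nat_lit 160)) (XT.nd (nat_lit 78) (nat_lit 0) (nat_lit 0) (XT.lf (nat_lit 0) (nat_lit 81669825916) (nat_lit 76) (nat_lit 32782695910) (nat_lit 76) (nat_lit 20491918638) (nat_lit 3) (nat_lit 4) (nat_lit 4) (nat_lit 5) (nat_lit 4) (nat_lit 4) (nat_lit 335) (nat_lit 226) (nat_lit 159)) (XT.lf (nat_lit 0) (nat_lit 91957443491) (nat_lit 76) (nat_lit 30938802883) (nat_lit 76) (nat_lit 18624877101) (nat_lit 3) (nat_lit 4) (nat_lit 4) (nat_lit 5) (nat_lit 4) (nat_lit 4) (nat_lit 336) (nat_lit 226) (nat_lit 158))))))) (XT.nd (nat_lit 702) (nat_lit 76) (nat_lit 0) (XT.nd (nat_lit 312) (nat_lit 76) (nat_lit 0) (XT.nd (nat_lit 156) (nat_lit 0) (nat_lit 0) (XT.nd (nat_lit 78) (nat_lit 0) (nat_lit 0) (XT.lf (nat_lit 0) (nat_lit 102739013999)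 (nat_lit 76) (nat_lit 29012080071) (nat_lit 76) (nat_lit 16676108091) (nat_lit 3) (nat_lit 4) (nat_lit 4) (nat_lit 5) (nat_lit 4) (nat_lit 4) (nat_lit 337) (nat_lit 226) (nat_lit 157)) (XT.lf (nat_lit 0) (nat_lit 114040207845) (nat_lit 76) (nat_lit 26997940040) (nat_lit 76) (nat_lit 14640971679) (nat_lit 3) (nat_lit 4) (nat_lit 4) (nat_lit 5) (nat_lit 4) (nat_lit 4) (nat_lit 338) (nat_lit 226) (nat_lit 156))) (XT.nd (nat_lit 78) (nat_lit 0) (nat_lit 0) (XT.lf (nat_lit 0) (nat_lit 125887932635) (nat_lit 76) (nat_lit 24891587218) (nat_lit 76) (nat_lit 12514622304) (nat_lit 3) (nat_lit 4) (nat_lit 4) (nat_lit 5) (nat_lit 4) (nat_lit 4) (nat_lit 339) (nat_lit 226) (nat_lit 155)) (XT.lf (nat_lit 0) (nat_lit 138310397236) (nat_lit 76) (nat_lit 22688006478) (nat_lit 76) (nat_lit 10291997229) (nat_lit 3) (nat_lit 4) (nat_lit 4) (nat_lit 5) (nat_lit 4) (nat_lit 4) (nat_lit 340) (nat_lit 226)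 (nat_lit 154)))) (XT.nd (nat_lit 156) (nat_lit 76) (nat_lit 0) (XT.nd (nat_lit 78) (nat_lit 0) (nat_lit 0) (XT.lf (nat_lit 0) (nat_lit 151337178945) (nat_lit 76) (nat_lit 20381951201) (nat_lit 76) (nat_lit 7967804490) (nat_lit 3) (nat_lit 4) (nat_lit 4) (nat_lit 5) (nat_lit 4) (nat_lit 4) (nat_lit 341) (nat_lit 226) (nat_lit 153)) (XT.lf (nat_lit 0) (nat_lit 164999293910) (nat_lit 76) (nat_lit 17967930779) (nat_lit 76) (nat_lit 5536510293) (nat_lit 3) (nat_lit 4) (nat_lit 4) (nat_lit 5) (nat_lit 4) (nat_lit 4) (nat_lit 342) (nat_lit 226) (nat_lit 152))) (XT.nd (nat_lit 78) (nat_lit 76) (nat_lit 0) (XT.lf (nat_lit 0) (nat_lit 179329270975) (nat_lit 76) (nat_lit 15440197543) (nat_lit 76) (nat_lit 2992325844) (nat_lit 3) (nat_lit 4) (nat_lit 4) (nat_lit 5) (nat_lit 4) (nat_lit 4) (nat_lit 343) (nat_lit 226) (nat_lit 151)) (XT.nd (nat_lit 78) (nat_lit 76) (nat_lit 0) (XT.lf (nat_lit 0)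 (nat_lit 194361229133) (nat_lit 76) (nat_lit 12792733082) (nat_lit 76) (nat_lit 329193561) (nat_lit 3) (nat_lit 4) (nat_lit 4) (nat_lit 5) (nat_lit 4) (nat_lit 4) (nat_lit 344) (nat_lit 226) (nat_lit 150)) (XT.lf (nat_lit 0) (nat_lit 2380516714) (nat_lit 152) (nat_lit 7598401991) (nat_lit 76) (nat_lit 207710126844) (nat_lit 2) (nat_lit 5) (nat_lit 4) (nat_lit 5) (nat_lit 3) (nat_lit 4) (nat_lit 345) (nat_lit 226) (nat_lit 149)))))) (XT.nd (nat_lit 312) (nat_lit 0) (nat_lit 0) (XT.nd (nat_lit 156) (nat_lit 0) (nat_lit 0) (XT.nd (nat_lit 78) (nat_lit 76) (nat_lit 0) (XT.lf (nat_lit 0) (nat_lit 5207395952) (nat_lit 152) (nat_lit 1817510730) (nat_lit 76) (nat_lit 221380421112) (nat_lit 2) (nat_lit 5) (nat_lit 4) (nat_lit 5) (nat_lit 3) (nat_lit 4) (nat_lit 346) (nat_lit 226) (nat_lit 148)) (XT.lf (nat_lit 0) (nat_lit 4379832804) (nat_lit 76) (nat_lit 3857259728) (nat_lit 152) (nat_lit 231417262844)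 (nat_lit 1) (nat_lit 5) (nat_lit 2) (nat_lit 5) (nat_lit 3) (nat_lit 4) (nat_lit 347) (nat_lit 226) (nat_lit 147))) (XT.nd (nat_lit 78) (nat_lit 0) (nat_lit 0) (XT.lf (nat_lit 0) (nat_lit 10937575127) (nat_lit 76) (nat_lit 504703882) (nat_lit 152) (nat_lit 240022359732) (nat_lit 1) (nat_lit 5) (nat_lit 2) (nat_lit 5) (nat_lit 3) (nat_lit 4) (nat_lit 348) (nat_lit 226) (nat_lit 146)) (XT.lf (nat_lit 0) (nat_lit 14848266046) (nat_lit 152) (nat_lit 246101522505) (nat_lit 0) (nat_lit 2913625102) (nat_lit 1) (nat_lit 5) (nat_lit 3) (nat_lit 4) (nat_lit 1) (nat_lit 4) (nat_lit 349) (nat_lit 226) (nat_lit 145)))) (XT.nd (nat_lit 156) (nat_lit 0) (nat_lit 0) (XT.nd (nat_lit 78) (nat_lit 0) (nat_lit 0) (XT.lf (nat_lit 0) (nat_lit 18426598788) (nat_lit 152) (nat_lit 251974607417) (nat_lit 0) (nat_lit 6480823015) (nat_lit 1) (nat_lit 5) (nat_lit 3) (nat_lit 4) (nat_lit 1) (nat_lit 4) (nat_lit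 350) (nat_lit 226) (nat_lit 144)) (XT.lf (nat_lit 0) (nat_lit 22177917233) (nat_lit 152) (nat_lit 258152422044) (nat_lit 0) (nat_lit 10221536861) (nat_lit 1) (nat_lit 5) (nat_lit 3) (nat_lit 4) (nat_lit 1) (nat_lit 4) (nat_lit 351) (nat_lit 226) (nat_lit 143))) (XT.nd (nat_lit 78) (nat_lit 0) (nat_lit 0) (XT.lf (nat_lit 0) (nat_lit 26111153091) (nat_lit 152) (nat_lit 264649675468) (nat_lit 0) (nat_lit 14144673102) (nat_lit 1) (nat_lit 5) (nat_lit 3) (nat_lit 4) (nat_lit 1) (nat_lit 4) (nat_lit 352) (nat_lit 226) (nat_lit 142)) (XT.nd (nat_lit 78) (nat_lit 0) (nat_lit 0) (XT.lf (nat_lit 0) (nat_lit 30235671210) (nat_lit 152) (nat_lit 271481837341) (nat_lit 0) (nat_lit 18259572537) (nat_lit 1) (nat_lit 5) (nat_lit 3) (nat_lit 4) (nat_lit 1) (nat_lit 4) (nat_lit 353) (nat_lit 226) (nat_lit 141)) (XT.lf (nat_lit 0) (nat_lit 34561291871) (nat_lit 152) (nat_lit 278665174715) (nat_lit 0) (nat_lit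 22576032547) (nat_lit 1) (nat_lit 5) (nat_lit 3) (nat_lit 4) (nat_lit 1) (nat_lit 4) (nat_lit 354) (nat_lit 226) (nat_lit 140))))))))
noncomputable def xc69 : XT := (XT.nd (nat_lit 31200) (nat_lit 0) (nat_lit 912) (XT.nd (nat_lit 702) (nat_lit 0) (nat_lit 0) (XT.nd (nat_lit 312) (nat_lit 0) (nat_lit 0) (XT.nd (nat_lit 156) (nat_lit 0) (nat_lit 0) (XT.nd (nat_lit 78) (nat_lit 0) (nat_lit 0) (XT.lf (nat_lit 0) (nat_lit 39098314171) (nat_lit 152) (nat_lit 286216790774) (nat_lit 0) (nat_lit 27104330417) (nat_lit 1) (nat_lit 5) (nat_lit 3) (nat_lit 4) (nat_lit 1) (nat_lit 4) (nat_lit 355) (nat_lit 226) (nat_lit 139)) (XT.lf (nat_lit 0) (nat_lit 43857540544) (nat_lit 152) (nat_lit 294154665556) (nat_lit 0) (nat_lit 31855247809) (nat_lit 1) (nat_lit 5) (nat_lit 3) (nat_lit 4) (nat_lit 1) (nat_lit 4) (nat_lit 356) (nat_lit 226) (nat_lit 138))) (XT.nd (nat_lit 78) (nat_lit 0) (nat_lit 0) (XT.lf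 (nat_lit 0) (nat_lit 48850302481) (nat_lit 152) (nat_lit 302497698762) (nat_lit 0) (nat_lit 36840096431) (nat_lit 1) (nat_lit 5) (nat_lit 3) (nat_lit 4) (nat_lit 1) (nat_lit 4) (nat_lit 357) (nat_lit 226) (nat_lit 137)) (XT.lf (nat_lit 0) (nat_lit 54088487510) (nat_lit 152) (nat_lit 311265754759) (nat_lit 0) (nat_lit 42070744970) (nat_lit 1) (nat_lit 5) (nat_lit 3) (nat_lit 4) (nat_lit 1) (nat_lit 4) (nat_lit 358) (nat_lit 226) (nat_lit 136)))) (XT.nd (nat_lit 156) (nat_lit 0) (nat_lit 0) (XT.nd (nat_lit 78) (nat_lit 0) (nat_lit 0) (XT.lf (nat_lit 0) (nat_lit 59584567502) (nat_lit 152) (nat_lit 320479709869) (nat_lit 0) (nat_lit 47559647352) (nat_lit 1) (nat_lit 5) (nat_lit 3) (nat_lit 4) (nat_lit 1) (nat_lit 4) (nat_lit 359) (nat_lit 226) (nat_lit 135)) (XT.lf (nat_lit 0) (nat_lit 65351628359) (nat_lit 152) (nat_lit 330161502081) (nat_lit 0) (nat_lit 53319872391) (nat_lit 1) (nat_lit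 5) (nat_lit 3) (nat_lit 4) (nat_lit 1) (nat_lit 4) (nat_lit 360) (nat_lit 226) (nat_lit 134))) (XT.nd (nat_lit 78) (nat_lit 0) (nat_lit 0) (XT.lf (nat_lit 0) (nat_lit 71403401181) (nat_lit 152) (nat_lit 340334183281) (nat_lit 0) (nat_lit 59365134909) (nat_lit 1) (nat_lit 5) (nat_lit 3) (nat_lit 4) (nat_lit 1) (nat_lit 4) (nat_lit 361) (nat_lit 226) (nat_lit 133)) (XT.nd (nat_lit 78) (nat_lit 0) (nat_lit 0) (XT.lf (nat_lit 0) (nat_lit 77754294949) (nat_lit 152) (nat_lit 351021974139) (nat_lit 0) (nat_lit 65709828388) (nat_lit 1) (nat_lit 5) (nat_lit 3) (nat_lit 4) (nat_lit 1) (nat_lit 4) (nat_lit 362) (nat_lit 226) (nat_lit 132)) (XT.lf (nat_lit 0) (nat_lit 84419430840) (nat_lit 152) (nat_lit 362250321775) (nat_lit 0) (nat_lit 72369059241) (nat_lit 1) (nat_lit 5) (nat_lit 3) (nat_lit 4) (nat_lit 1) (nat_lit 4) (nat_lit 363) (nat_lit 226) (nat_lit 131)))))) (XT.nd (nat_lit 30108) (nat_lit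 0) (nat_lit 2204) (XT.nd (nat_lit 29952) (nat_lit 0) (nat_lit 2888) (XT.nd (nat_lit 29874) (nat_lit 0) (nat_lit 3420) (XT.lf (nat_lit 0) (nat_lit 91414678224) (nat_lit 152) (nat_lit 374045960352) (nat_lit 0) (nat_lit 79358682780) (nat_lit 1) (nat_lit 5) (nat_lit 3) (nat_lit 4) (nat_lit 1) (nat_lit 4) (nat_lit 364) (nat_lit 226) (nat_lit 130)) (XT.lf (nat_lit 0) (nat_lit 3104378378) (nat_lit 304) (nat_lit 635089447) (nat_lit 304) (nat_lit 635089447) (nat_lit 46) (nat_lit 4) (nat_lit 50) (nat_lit 5) (nat_lit 50) (nat_lit 4) (nat_lit 266) (nat_lit 227) (nat_lit 227))) (XT.nd (nat_lit 78) (nat_lit 228) (nat_lit 0) (XT.lf (nat_lit 0) (nat_lit 2196561534) (nat_lit 304) (nat_lit 5547758786) (nat_lit 0) (nat_lit 1205503573) (nat_lit 42) (nat_lit 5) (nat_lit 46) (nat_lit 4) (nat_lit 42) (nat_lit 4) (nat_lit 267) (nat_lit 227) (nat_lit 226)) (XT.lf (nat_lit 0) (nat_lit 339819561) (nat_lit 228)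 (nat_lit 5379363745) (nat_lit 228) (nat_lit 3444441059) (nat_lit 39) (nat_lit 4) (nat_lit 42) (nat_lit 5) (nat_lit 42) (nat_lit 4) (nat_lit 268) (nat_lit 227) (nat_lit 225)))) (XT.nd (nat_lit 156) (nat_lit 456) (nat_lit 0) (XT.nd (nat_lit 78) (nat_lit 228) (nat_lit 0) (XT.lf (nat_lit 0) (nat_lit 6517516466) (nat_lit 228) (nat_lit 2853562003) (nat_lit 228) (nat_lit 19720532) (nat_lit 39) (nat_lit 4) (nat_lit 42) (nat_lit 5) (nat_lit 42) (nat_lit 4) (nat_lit 269) (nat_lit 227) (nat_lit 224)) (XT.lf (nat_lit 0) (nat_lit 3229992481) (nat_lit 152) (nat_lit 145591461) (nat_lit 228) (nat_lit 6255575715) (nat_lit 36) (nat_lit 5) (nat_lit 38) (nat_lit 5) (nat_lit 39) (nat_lit 4) (nat_lit 270) (nat_lit 227) (nat_lit 223))) (XT.nd (nat_lit 78) (nat_lit 456) (nat_lit 0) (XT.lf (nat_lit 0) (nat_lit 6897624341) (nat_lit 228) (nat_lit 381448936) (nat_lit 0) (nat_lit 2606862020) (nat_lit 36) (nat_lit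 5) (nat_lit 39) (nat_lit 4) (nat_lit 36) (nat_lit 4) (nat_lit 271) (nat_lit 227) (nat_lit 222)) (XT.nd (nat_lit 78) (nat_lit 152) (nat_lit 0) (XT.lf (nat_lit 0) (nat_lit 394933451) (nat_lit 304) (nat_lit 4220691454) (nat_lit 76) (nat_lit 5539408241) (nat_lit 32) (nat_lit 5) (nat_lit 36) (nat_lit 5) (nat_lit 33) (nat_lit 4) (nat_lit 272) (nat_lit 227) (nat_lit 221)) (XT.lf (nat_lit 0) (nat_lit 1968376983) (nat_lit 152) (nat_lit 1789188092) (nat_lit 228) (nat_lit 6682293438) (nat_lit 30) (nat_lit 5) (nat_lit 32) (nat_lit 5) (nat_lit 33) (nat_lit 4) (nat_lit 273) (nat_lit 227) (nat_lit 220))))))) (XT.nd (nat_lit 702) (nat_lit 456) (nat_lit 0) (XT.nd (nat_lit 312) (nat_lit 456) (nat_lit 0) (XT.nd (nat_lit 156) (nat_lit 228) (nat_lit 0) (XT.nd (nat_lit 78) (nat_lit 152) (nat_lit 0) (XT.lf (nat_lit 0) (nat_lit 7254934960) (nat_lit 228) (nat_lit 2331365950) (nat_lit 0) (nat_lit 1154536427)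 (nat_lit 30) (nat_lit 5) (nat_lit 33) (nat_lit 4) (nat_lit 30) (nat_lit 4) (nat_lit 274) (nat_lit 227) (nat_lit 219)) (XT.lf (nat_lit 0) (nat_lit 4034728672) (nat_lit 152) (nat_lit 6866249653) (nat_lit 152) (nat_lit 157427503) (nat_lit 28) (nat_lit 4) (nat_lit 30) (nat_lit 5) (nat_lit 30) (nat_lit 4) (nat_lit 275) (nat_lit 227) (nat_lit 218))) (XT.nd (nat_lit 78) (nat_lit 152) (nat_lit 0) (XT.lf (nat_lit 0) (nat_lit 3153019003) (nat_lit 228) (nat_lit 824584256) (nat_lit 76) (nat_lit 7415735233) (nat_lit 27) (nat_lit 5) (nat_lit 30) (nat_lit 5) (nat_lit 28) (nat_lit 4) (nat_lit 276) (nat_lit 227) (nat_lit 217)) (XT.lf (nat_lit 0) (nat_lit 5690668094) (nat_lit 152) (nat_lit 909721888) (nat_lit 228) (nat_lit 5145863657) (nat_lit 25) (nat_lit 5) (nat_lit 27) (nat_lit 5) (nat_lit 28) (nat_lit 4) (nat_lit 277) (nat_lit 227) (nat_lit 216)))) (XT.nd (nat_lit 156) (nat_lit 228) (nat_lit 0) (XT.nd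 (nat_lit 78) (nat_lit 76) (nat_lit 0) (XT.lf (nat_lit 0) (nat_lit 240301244) (nat_lit 152) (nat_lit 9923433236) (nat_lit 152) (nat_lit 1956089838) (nat_lit 23) (nat_lit 4) (nat_lit 25) (nat_lit 5) (nat_lit 25) (nat_lit 4) (nat_lit 278) (nat_lit 227) (nat_lit 215)) (XT.lf (nat_lit 0) (nat_lit 1357923997) (nat_lit 228) (nat_lit 5660315027) (nat_lit 76) (nat_lit 5492452221) (nat_lit 22) (nat_lit 5) (nat_lit 25) (nat_lit 5) (nat_lit 23) (nat_lit 4) (nat_lit 279) (nat_lit 227) (nat_lit 214))) (XT.nd (nat_lit 78) (nat_lit 152) (nat_lit 0) (XT.lf (nat_lit 0) (nat_lit 692088170) (nat_lit 76) (nat_lit 3986039860) (nat_lit 152) (nat_lit 8246222939) (nat_lit 21) (nat_lit 5) (nat_lit 22) (nat_lit 5) (nat_lit 23) (nat_lit 4) (nat_lit 280) (nat_lit 227) (nat_lit 213)) (XT.nd (nat_lit 78) (nat_lit 152) (nat_lit 0) (XT.lf (nat_lit 0) (nat_lit 7393482781) (nat_lit 76) (nat_lit 764542769) (nat_lit 152)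 (nat_lit 5201140297) (nat_lit 21) (nat_lit 5) (nat_lit 22) (nat_lit 5) (nat_lit 23) (nat_lit 4) (nat_lit 281) (nat_lit 227) (nat_lit 212)) (XT.lf (nat_lit 0) (nat_lit 425616881) (nat_lit 152) (nat_lit 11335573338) (nat_lit 152) (nat_lit 2057216527) (nat_lit 19) (nat_lit 4) (nat_lit 21) (nat_lit 5) (nat_lit 21) (nat_lit 4) (nat_lit 282) (nat_lit 227) (nat_lit 211)))))) (XT.nd (nat_lit 312) (nat_lit 304) (nat_lit 0) (XT.nd (nat_lit 156) (nat_lit 76) (nat_lit 0) (XT.nd (nat_lit 78) (nat_lit 0) (nat_lit 0) (XT.lf (nat_lit 0) (nat_lit 1221552705) (nat_lit 228) (nat_lit 7147693087) (nat_lit 76) (nat_lit 5929654804) (nat_lit 18) (nat_lit 5) (nat_lit 21) (nat_lit 5) (nat_lit 19) (nat_lit 4) (nat_lit 283) (nat_lit 227) (nat_lit 210)) (XT.lf (nat_lit 0) (nat_lit 4502020125) (nat_lit 228) (nat_lit 778467563) (nat_lit 76) (nat_lit 9526029040) (nat_lit 18) (nat_lit 5) (nat_lit 21) (nat_lit 5) (nat_lit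 19) (nat_lit 4) (nat_lit 284) (nat_lit 227) (nat_lit 209))) (XT.nd (nat_lit 78) (nat_lit 0) (nat_lit 0) (XT.lf (nat_lit 0) (nat_lit 5952693823) (nat_lit 76) (nat_lit 1998084557) (nat_lit 152) (nat_lit 7388644405) (nat_lit 17) (nat_lit 5) (nat_lit 18) (nat_lit 5) (nat_lit 19) (nat_lit 4) (nat_lit 285) (nat_lit 227) (nat_lit 208)) (XT.lf (nat_lit 0) (nat_lit 11520376350) (nat_lit 152) (nat_lit 3021929338) (nat_lit 0) (nat_lit 1359365024) (nat_lit 17) (nat_lit 5) (nat_lit 19) (nat_lit 4) (nat_lit 17) (nat_lit 4) (nat_lit 286) (nat_lit 227) (nat_lit 207)))) (XT.nd (nat_lit 156) (nat_lit 76) (nat_lit 0) (XT.nd (nat_lit 78) (nat_lit 76) (nat_lit 0) (XT.lf (nat_lit 0) (nat_lit 3602491304) (nat_lit 152) (nat_lit 11671523156) (nat_lit 152) (nat_lit 1217849667) (nat_lit 15) (nat_lit 4) (nat_lit 17) (nat_lit 5) (nat_lit 17) (nat_lit 4) (nat_lit 287) (nat_lit 227) (nat_lit 206)) (XT.lf (nat_lit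 0) (nat_lit 2005374351) (nat_lit 228) (nat_lit 6621381936) (nat_lit 76) (nat_lit 8484822376) (nat_lit 14) (nat_lit 5) (nat_lit 17) (nat_lit 5) (nat_lit 15) (nat_lit 4) (nat_lit 288) (nat_lit 227) (nat_lit 205))) (XT.nd (nat_lit 78) (nat_lit 76) (nat_lit 0) (XT.lf (nat_lit 0) (nat_lit 5269711803) (nat_lit 228) (nat_lit 194943370) (nat_lit 76) (nat_lit 12300677493) (nat_lit 14) (nat_lit 5) (nat_lit 17) (nat_lit 5) (nat_lit 15) (nat_lit 4) (nat_lit 289) (nat_lit 227) (nat_lit 204)) (XT.nd (nat_lit 78) (nat_lit 0) (nat_lit 0) (XT.lf (nat_lit 0) (nat_lit 6636672946) (nat_lit 76) (nat_lit 2088857830) (nat_lit 152) (nat_lit 9724921763) (nat_lit 13) (nat_lit 5) (nat_lit 14) (nat_lit 5) (nat_lit 15) (nat_lit 4) (nat_lit 290) (nat_lit 227) (nat_lit 203)) (XT.lf (nat_lit 0) (nat_lit 12305661776) (nat_lit 152) (nat_lit 5505243505) (nat_lit 0) (nat_lit 1361434126) (nat_lit 13) (nat_lit 5) (nat_lit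 15) (nat_lit 4) (nat_lit 13) (nat_lit 4) (nat_lit 291) (nat_lit 227) (nat_lit 202))))))))
noncomputable def xc70 : XT := (XT.nd (nat_lit 1404) (nat_lit 228) (nat_lit 0) (XT.nd (nat_lit 702) (nat_lit 228) (nat_lit 0) (XT.nd (nat_lit 312) (nat_lit 152) (nat_lit 0) (XT.nd (nat_lit 156) (nat_lit 76) (nat_lit 0) (XT.nd (nat_lit 78) (nat_lit 0) (nat_lit 0) (XT.lf (nat_lit 0) (nat_lit 992985060) (nat_lit 76) (nat_lit 15050549189) (nat_lit 76) (nat_lit 3887932528) (nat_lit 12) (nat_lit 4) (nat_lit 13) (nat_lit 5) (nat_lit 13) (nat_lit 4) (nat_lit 292) (nat_lit 227) (nat_lit 201)) (XT.lf (nat_lit 0) (nat_lit 7885970463) (nat_lit 76) (nat_lit 12106039855) (nat_lit 76) (nat_lit 735433658) (nat_lit 12) (nat_lit 4) (nat_lit 13) (nat_lit 5) (nat_lit 13) (nat_lit 4) (nat_lit 293) (nat_lit 227) (nat_lit 200))) (XT.nd (nat_lit 78) (nat_lit 0) (nat_lit 0) (XT.lf (nat_lit 0) (nat_lit 2424912408) (nat_lit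 152) (nat_lit 6597621031) (nat_lit 76) (nat_lit 12542116888) (nat_lit 11) (nat_lit 5) (nat_lit 13) (nat_lit 5) (nat_lit 12) (nat_lit 4) (nat_lit 294) (nat_lit 227) (nat_lit 199)) (XT.lf (nat_lit 0) (nat_lit 5654396974) (nat_lit 152) (nat_lit 165830311) (nat_lit 76) (nat_lit 16626163274) (nat_lit 11) (nat_lit 5) (nat_lit 13) (nat_lit 5) (nat_lit 12) (nat_lit 4) (nat_lit 295) (nat_lit 227) (nat_lit 198)))) (XT.nd (nat_lit 156) (nat_lit 76) (nat_lit 0) (XT.nd (nat_lit 78) (nat_lit 0) (nat_lit 0) (XT.lf (nat_lit 0) (nat_lit 6694975645) (nat_lit 76) (nat_lit 2393799444) (nat_lit 152) (nat_lit 14281336707) (nat_lit 10) (nat_lit 5) (nat_lit 11) (nat_lit 5) (nat_lit 12) (nat_lit 4) (nat_lit 296) (nat_lit 227) (nat_lit 197)) (XT.lf (nat_lit 0) (nat_lit 12655976948) (nat_lit 152) (nat_lit 10561621150) (nat_lit 0) (nat_lit 1124427621) (nat_lit 10) (nat_lit 5) (nat_lit 12) (nat_lit 4) (nat_lit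 10) (nat_lit 4) (nat_lit 297) (nat_lit 227) (nat_lit 196))) (XT.nd (nat_lit 78) (nat_lit 76) (nat_lit 0) (XT.lf (nat_lit 0) (nat_lit 16383118039) (nat_lit 152) (nat_lit 4284033545) (nat_lit 0) (nat_lit 4696363718) (nat_lit 10) (nat_lit 5) (nat_lit 12) (nat_lit 4) (nat_lit 10) (nat_lit 4) (nat_lit 298) (nat_lit 227) (nat_lit 195)) (XT.nd (nat_lit 78) (nat_lit 0) (nat_lit 0) (XT.lf (nat_lit 0) (nat_lit 2283018054) (nat_lit 76) (nat_lit 17994324845) (nat_lit 76) (nat_lit 6159756245) (nat_lit 9) (nat_lit 4) (nat_lit 10) (nat_lit 5) (nat_lit 10) (nat_lit 4) (nat_lit 299) (nat_lit 227) (nat_lit 194)) (XT.lf (nat_lit 0) (nat_lit 9231240341) (nat_lit 76) (nat_lit 15153790886) (nat_lit 76) (nat_lit 3178446781) (nat_lit 9) (nat_lit 4) (nat_lit 10) (nat_lit 5) (nat_lit 10) (nat_lit 4) (nat_lit 300) (nat_lit 227) (nat_lit 193)))))) (XT.nd (nat_lit 312) (nat_lit 76) (nat_lit 0) (XT.nd (nat_lit 156)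 (nat_lit 76) (nat_lit 0) (XT.nd (nat_lit 78) (nat_lit 76) (nat_lit 0) (XT.lf (nat_lit 0) (nat_lit 16435527206) (nat_lit 76) (nat_lit 12211338712) (nat_lit 76) (nat_lit 101922698) (nat_lit 9) (nat_lit 4) (nat_lit 10) (nat_lit 5) (nat_lit 10) (nat_lit 4) (nat_lit 301) (nat_lit 227) (nat_lit 192)) (XT.lf (nat_lit 0) (nat_lit 2978653330) (nat_lit 152) (nat_lit 6130864218) (nat_lit 76) (nat_lit 20883933448) (nat_lit 8) (nat_lit 5) (nat_lit 10) (nat_lit 5) (nat_lit 9) (nat_lit 4) (nat_lit 302) (nat_lit 227) (nat_lit 191))) (XT.nd (nat_lit 78) (nat_lit 0) (nat_lit 0) (XT.lf (nat_lit 0) (nat_lit 283597571) (nat_lit 76) (nat_lit 5883382082) (nat_lit 152) (nat_lit 25135469927) (nat_lit 7) (nat_lit 5) (nat_lit 8) (nat_lit 5) (nat_lit 9) (nat_lit 4) (nat_lit 303) (nat_lit 227) (nat_lit 190)) (XT.lf (nat_lit 0) (nat_lit 7148533200) (nat_lit 76) (nat_lit 2423691324) (nat_lit 152) (nat_lit 23101840333)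 (nat_lit 7) (nat_lit 5) (nat_lit 8) (nat_lit 5) (nat_lit 9) (nat_lit 4) (nat_lit 304) (nat_lit 227) (nat_lit 189)))) (XT.nd (nat_lit 156) (nat_lit 76) (nat_lit 0) (XT.nd (nat_lit 78) (nat_lit 0) (nat_lit 0) (XT.lf (nat_lit 0) (nat_lit 13121939612) (nat_lit 152) (nat_lit 19857261979) (nat_lit 0) (nat_lit 1136388787) (nat_lit 7) (nat_lit 5) (nat_lit 9) (nat_lit 4) (nat_lit 7) (nat_lit 4) (nat_lit 305) (nat_lit 227) (nat_lit 188)) (XT.lf (nat_lit 0) (nat_lit 16846332476) (nat_lit 152) (nat_lit 14022302951) (nat_lit 0) (nat_lit 4760735128) (nat_lit 7) (nat_lit 5) (nat_lit 9) (nat_lit 4) (nat_lit 7) (nat_lit 4) (nat_lit 306) (nat_lit 227) (nat_lit 187))) (XT.nd (nat_lit 78) (nat_lit 76) (nat_lit 0) (XT.lf (nat_lit 0) (nat_lit 20716430104) (nat_lit 152) (nat_lit 7968921199) (nat_lit 0) (nat_lit 8535550353) (nat_lit 7) (nat_lit 5) (nat_lit 9) (nat_lit 4) (nat_lit 7) (nat_lit 4) (nat_lit 307)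 (nat_lit 227) (nat_lit 186)) (XT.nd (nat_lit 78) (nat_lit 76) (nat_lit 0) (XT.lf (nat_lit 0) (nat_lit 24741447014) (nat_lit 152) (nat_lit 1682703910) (nat_lit 0) (nat_lit 12469822118) (nat_lit 7) (nat_lit 5) (nat_lit 9) (nat_lit 4) (nat_lit 7) (nat_lit 4) (nat_lit 308) (nat_lit 227) (nat_lit 185)) (XT.lf (nat_lit 0) (nat_lit 5011722519) (nat_lit 76) (nat_lit 23997491094) (nat_lit 76) (nat_lit 11639442251) (nat_lit 6) (nat_lit 4) (nat_lit 7) (nat_lit 5) (nat_lit 7) (nat_lit 4) (nat_lit 309) (nat_lit 227) (nat_lit 184))))))) (XT.nd (nat_lit 702) (nat_lit 76) (nat_lit 0) (XT.nd (nat_lit 312) (nat_lit 152) (nat_lit 0) (XT.nd (nat_lit 156) (nat_lit 0) (nat_lit 0) (XT.nd (nat_lit 78) (nat_lit 0) (nat_lit 0) (XT.lf (nat_lit 0) (nat_lit 12033854519) (nat_lit 76) (nat_lit 21448991522) (nat_lit 76) (nat_lit 9008634157) (nat_lit 6) (nat_lit 4) (nat_lit 7) (nat_lit 5) (nat_lit 7) (nat_lit 4) (nat_lit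 310) (nat_lit 227) (nat_lit 183)) (XT.lf (nat_lit 0) (nat_lit 19344773662) (nat_lit 76) (nat_lit 18801081758) (nat_lit 76) (nat_lit 6282335324) (nat_lit 6) (nat_lit 4) (nat_lit 7) (nat_lit 5) (nat_lit 7) (nat_lit 4) (nat_lit 311) (nat_lit 227) (nat_lit 182))) (XT.nd (nat_lit 78) (nat_lit 0) (nat_lit 0) (XT.lf (nat_lit 0) (nat_lit 26961886896) (nat_lit 76) (nat_lit 16047457253) (nat_lit 76) (nat_lit 3454054564) (nat_lit 6) (nat_lit 4) (nat_lit 7) (nat_lit 5) (nat_lit 7) (nat_lit 4) (nat_lit 312) (nat_lit 227) (nat_lit 181)) (XT.lf (nat_lit 0) (nat_lit 34903330206) (nat_lit 76) (nat_lit 13181561759) (nat_lit 76) (nat_lit 517057874) (nat_lit 6) (nat_lit 4) (nat_lit 7) (nat_lit 5) (nat_lit 7) (nat_lit 4) (nat_lit 313) (nat_lit 227) (nat_lit 180)))) (XT.nd (nat_lit 156) (nat_lit 76) (nat_lit 0) (XT.nd (nat_lit 78) (nat_lit 0) (nat_lit 0) (XT.lf (nat_lit 0) (nat_lit 2454491034) (nat_lit 152)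 (nat_lit 7700512688) (nat_lit 76) (nat_lit 40691952762) (nat_lit 5) (nat_lit 5) (nat_lit 7) (nat_lit 5) (nat_lit 6) (nat_lit 4) (nat_lit 314) (nat_lit 227) (nat_lit 179)) (XT.lf (nat_lit 0) (nat_lit 5528531951) (nat_lit 152) (nat_lit 1463219688) (nat_lit 76) (nat_lit 46213496766) (nat_lit 5) (nat_lit 5) (nat_lit 7) (nat_lit 5) (nat_lit 6) (nat_lit 4) (nat_lit 315) (nat_lit 227) (nat_lit 178))) (XT.nd (nat_lit 78) (nat_lit 0) (nat_lit 0) (XT.lf (nat_lit 0) (nat_lit 5202701730) (nat_lit 76) (nat_lit 3607460126) (nat_lit 152) (nat_lit 46868620927) (nat_lit 4) (nat_lit 5) (nat_lit 5) (nat_lit 5) (nat_lit 6) (nat_lit 4) (nat_lit 316) (nat_lit 227) (nat_lit 177)) (XT.nd (nat_lit 78) (nat_lit 0) (nat_lit 0) (XT.lf (nat_lit 0) (nat_lit 12203766231) (nat_lit 76) (nat_lit 50083250) (nat_lit 152) (nat_lit 46022266736) (nat_lit 4) (nat_lit 5) (nat_lit 5) (nat_lit 5) (nat_lit 6) (nat_lit 4) (nat_lit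 317) (nat_lit 227) (nat_lit 176)) (XT.lf (nat_lit 0) (nat_lit 15901400143) (nat_lit 152) (nat_lit 41553556867) (nat_lit 0) (nat_lit 3546795521) (nat_lit 4) (nat_lit 5) (nat_lit 6) (nat_lit 4) (nat_lit 4) (nat_lit 4) (nat_lit 318) (nat_lit 227) (nat_lit 175)))))) (XT.nd (nat_lit 312) (nat_lit 76) (nat_lit 0) (XT.nd (nat_lit 156) (nat_lit 0) (nat_lit 0) (XT.nd (nat_lit 78) (nat_lit 0) (nat_lit 0) (XT.lf (nat_lit 0) (nat_lit 19707523605) (nat_lit 152) (nat_lit 36854967784) (nat_lit 0) (nat_lit 7302388691) (nat_lit 4) (nat_lit 5) (nat_lit 6) (nat_lit 4) (nat_lit 4) (nat_lit 4) (nat_lit 319) (nat_lit 227) (nat_lit 174)) (XT.lf (nat_lit 0) (nat_lit 23680500127) (nat_lit 152) (nat_lit 31964613680) (nat_lit 0) (nat_lit 11227241125) (nat_lit 4) (nat_lit 5) (nat_lit 6) (nat_lit 4) (nat_lit 4) (nat_lit 4) (nat_lit 320) (nat_lit 227) (nat_lit 173))) (XT.nd (nat_lit 78) (nat_lit 0) (nat_lit 0) (XT.lf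 (nat_lit 0) (nat_lit 27829789177) (nat_lit 152) (nat_lit 26870850855) (nat_lit 0) (nat_lit 15330697709) (nat_lit 4) (nat_lit 5) (nat_lit 6) (nat_lit 4) (nat_lit 4) (nat_lit 4) (nat_lit 321) (nat_lit 227) (nat_lit 172)) (XT.lf (nat_lit 0) (nat_lit 32165270013) (nat_lit 152) (nat_lit 21561551302) (nat_lit 0) (nat_lit 19622528579) (nat_lit 4) (nat_lit 5) (nat_lit 6) (nat_lit 4) (nat_lit 4) (nat_lit 4) (nat_lit 322) (nat_lit 227) (nat_lit 171)))) (XT.nd (nat_lit 156) (nat_lit 76) (nat_lit 0) (XT.nd (nat_lit 78) (nat_lit 0) (nat_lit 0) (XT.lf (nat_lit 0) (nat_lit 36697265210) (nat_lit 152) (nat_lit 16024073832) (nat_lit 0) (nat_lit 24112952380) (nat_lit 4) (nat_lit 5) (nat_lit 6) (nat_lit 4) (nat_lit 4) (nat_lit 4) (nat_lit 323) (nat_lit 227) (nat_lit 170)) (XT.lf (nat_lit 0) (nat_lit 41436565232) (nat_lit 152) (nat_lit 10245233974) (nat_lit 0) (nat_lit 28812660596) (nat_lit 4) (nat_lit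 5) (nat_lit 6) (nat_lit 4) (nat_lit 4) (nat_lit 4) (nat_lit 324) (nat_lit 227) (nat_lit 169))) (XT.nd (nat_lit 78) (nat_lit 76) (nat_lit 0) (XT.lf (nat_lit 0) (nat_lit 46394454128) (nat_lit 152) (nat_lit 4211272586) (nat_lit 0) (nat_lit 33732843009) (nat_lit 4) (nat_lit 5) (nat_lit 6) (nat_lit 4) (nat_lit 4) (nat_lit 4) (nat_lit 325) (nat_lit 227) (nat_lit 168)) (XT.nd (nat_lit 78) (nat_lit 0) (nat_lit 0) (XT.lf (nat_lit 0) (nat_lit 2161353722) (nat_lit 76) (nat_lit 49455127459) (nat_lit 76) (nat_lit 36757605404) (nat_lit 3) (nat_lit 4) (nat_lit 4) (nat_lit 5) (nat_lit 4) (nat_lit 4) (nat_lit 326) (nat_lit 227) (nat_lit 167)) (XT.lf (nat_lit 0) (nat_lit 8967126773) (nat_lit 76) (nat_lit 48186640287) (nat_lit 76) (nat_lit 35454917342) (nat_lit 3) (nat_lit 4) (nat_lit 4) (nat_lit 5) (nat_lit 4) (nat_lit 4) (nat_lit 327) (nat_lit 227) (nat_lit 166))))))))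
noncomputable def xc71 : XT := (XT.nd (nat_lit 1404) (nat_lit 152) (nat_lit 0) (XT.nd (nat_lit 702) (nat_lit 0) (nat_lit 0) (XT.nd (nat_lit 312) (nat_lit 0) (nat_lit 0) (XT.nd (nat_lit 156) (nat_lit 0) (nat_lit 0) (XT.nd (nat_lit 78) (nat_lit 0) (nat_lit 0) (XT.lf (nat_lit 0) (nat_lit 16083007097) (nat_lit 76) (nat_lit 46868564931) (nat_lit 76) (nat_lit 34104269708) (nat_lit 3) (nat_lit 4) (nat_lit 4) (nat_lit 5) (nat_lit 4) (nat_lit 4) (nat_lit 328) (nat_lit 227) (nat_lit 165)) (XT.lf (nat_lit 0) (nat_lit 23525937265) (nat_lit 76) (nat_lit 45497763114) (nat_lit 76) (nat_lit 32702446676) (nat_lit 3) (nat_lit 4) (nat_lit 4) (nat_lit 5) (nat_lit 4) (nat_lit 4) (nat_lit 329) (nat_lit 227) (nat_lit 164))) (XT.nd (nat_lit 78) (nat_lit 0) (nat_lit 0) (XT.lf (nat_lit 0) (nat_lit 31313638540) (nat_lit 76) (nat_lit 44070971025) (nat_lit 76) (nat_lit 31246110571) (nat_lit 3) (nat_lit 4) (nat_lit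 4) (nat_lit 5) (nat_lit 4) (nat_lit 4) (nat_lit 330) (nat_lit 227) (nat_lit 163)) (XT.lf (nat_lit 0) (nat_lit 39464653067) (nat_lit 76) (nat_lit 42584791538) (nat_lit 76) (nat_lit 29731793927) (nat_lit 3) (nat_lit 4) (nat_lit 4) (nat_lit 5) (nat_lit 4) (nat_lit 4) (nat_lit 331) (nat_lit 227) (nat_lit 162)))) (XT.nd (nat_lit 156) (nat_lit 0) (nat_lit 0) (XT.nd (nat_lit 78) (nat_lit 0) (nat_lit 0) (XT.lf (nat_lit 0) (nat_lit 47998388025) (nat_lit 76) (nat_lit 41035686131) (nat_lit 76) (nat_lit 28155891227) (nat_lit 3) (nat_lit 4) (nat_lit 4) (nat_lit 5) (nat_lit 4) (nat_lit 4) (nat_lit 332) (nat_lit 227) (nat_lit 161)) (XT.lf (nat_lit 0) (nat_lit 56935161830) (nat_lit 76) (nat_lit 39419966458) (nat_lit 76) (nat_lit 26514650322) (nat_lit 3) (nat_lit 4) (nat_lit 4) (nat_lit 5) (nat_lit 4) (nat_lit 4) (nat_lit 333) (nat_lit 227) (nat_lit 160))) (XT.nd (nat_lit 78) (nat_lit 0) (nat_lit 0)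 (XT.lf (nat_lit 0) (nat_lit 66296252515) (nat_lit 76) (nat_lit 37733785567) (nat_lit 76) (nat_lit 24804163497) (nat_lit 3) (nat_lit 4) (nat_lit 4) (nat_lit 5) (nat_lit 4) (nat_lit 4) (nat_lit 334) (nat_lit 227) (nat_lit 159)) (XT.nd (nat_lit 78) (nat_lit 0) (nat_lit 0) (XT.lf (nat_lit 0) (nat_lit 76103948390) (nat_lit 76) (nat_lit 35973128742) (nat_lit 76) (nat_lit 23020358163) (nat_lit 3) (nat_lit 4) (nat_lit 4) (nat_lit 5) (nat_lit 4) (nat_lit 4) (nat_lit 335) (nat_lit 227) (nat_lit 158)) (XT.lf (nat_lit 0) (nat_lit 86381601114) (nat_lit 76) (nat_lit 34133803943) (nat_lit 76) (nat_lit 21158987164) (nat_lit 3) (nat_lit 4) (nat_lit 4) (nat_lit 5) (nat_lit 4) (nat_lit 4) (nat_lit 336) (nat_lit 227) (nat_lit 157)))))) (XT.nd (nat_lit 312) (nat_lit 0) (nat_lit 0) (XT.nd (nat_lit 156) (nat_lit 0) (nat_lit 0) (XT.nd (nat_lit 78) (nat_lit 0) (nat_lit 0) (XT.lf (nat_lit 0) (nat_lit 97153681286)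 (nat_lit 76) (nat_lit 32211431824) (nat_lit 76) (nat_lit 19215618665) (nat_lit 3) (nat_lit 4) (nat_lit 4) (nat_lit 5) (nat_lit 4) (nat_lit 4) (nat_lit 337) (nat_lit 227) (nat_lit 156)) (XT.lf (nat_lit 0) (nat_lit 108445836719) (nat_lit 76) (nat_lit 30201435310) (nat_lit 76) (nat_lit 17185625599) (nat_lit 3) (nat_lit 4) (nat_lit 4) (nat_lit 5) (nat_lit 4) (nat_lit 4) (nat_lit 338) (nat_lit 227) (nat_lit 155))) (XT.nd (nat_lit 78) (nat_lit 0) (nat_lit 0) (XT.lf (nat_lit 0) (nat_lit 120284953494) (nat_lit 76) (nat_lit 28099028695) (nat_lit 76) (nat_lit 15064174648) (nat_lit 3) (nat_lit 4) (nat_lit 4) (nat_lit 5) (nat_lit 4) (nat_lit 4) (nat_lit 339) (nat_lit 227) (nat_lit 154)) (XT.lf (nat_lit 0) (nat_lit 132699219987) (nat_lit 76) (nat_lit 25899206248) (nat_lit 76) (nat_lit 12846214738) (nat_lit 3) (nat_lit 4) (nat_lit 4) (nat_lit 5) (nat_lit 4) (nat_lit 4) (nat_lit 340) (nat_lit 227)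 (nat_lit 153)))) (XT.nd (nat_lit 156) (nat_lit 0) (nat_lit 0) (XT.nd (nat_lit 78) (nat_lit 0) (nat_lit 0) (XT.lf (nat_lit 0) (nat_lit 145718193975) (nat_lit 76) (nat_lit 23596730297) (nat_lit 76) (nat_lit 10526465013) (nat_lit 3) (nat_lit 4) (nat_lit 4) (nat_lit 5) (nat_lit 4) (nat_lit 4) (nat_lit 341) (nat_lit 227) (nat_lit 152)) (XT.lf (nat_lit 0) (nat_lit 159372873013) (nat_lit 76) (nat_lit 21186118756) (nat_lit 76) (nat_lit 8099402260) (nat_lit 3) (nat_lit 4) (nat_lit 4) (nat_lit 5) (nat_lit 4) (nat_lit 4) (nat_lit 342) (nat_lit 227) (nat_lit 151))) (XT.nd (nat_lit 78) (nat_lit 0) (nat_lit 0) (XT.lf (nat_lit 0) (nat_lit 173695768244) (nat_lit 76) (nat_lit 18661632075) (nat_lit 76) (nat_lit 5559247756) (nat_lit 3) (nat_lit 4) (nat_lit 4) (nat_lit 5) (nat_lit 4) (nat_lit 4) (nat_lit 343) (nat_lit 227) (nat_lit 150)) (XT.nd (nat_lit 78) (nat_lit 0) (nat_lit 0) (XT.lf (nat_lit 0) (nat_lit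 188720981799) (nat_lit 76) (nat_lit 16017259570) (nat_lit 76) (nat_lit 2899953516) (nat_lit 3) (nat_lit 4) (nat_lit 4) (nat_lit 5) (nat_lit 4) (nat_lit 4) (nat_lit 344) (nat_lit 227) (nat_lit 149)) (XT.lf (nat_lit 0) (nat_lit 204484287995) (nat_lit 76) (nat_lit 13246705117) (nat_lit 76) (nat_lit 115187886) (nat_lit 3) (nat_lit 4) (nat_lit 4) (nat_lit 5) (nat_lit 4) (nat_lit 4) (nat_lit 345) (nat_lit 227) (nat_lit 148))))))) (XT.nd (nat_lit 702) (nat_lit 0) (nat_lit 0) (XT.nd (nat_lit 312) (nat_lit 0) (nat_lit 0) (XT.nd (nat_lit 156) (nat_lit 76) (nat_lit 0) (XT.nd (nat_lit 78) (nat_lit 0) (nat_lit 0) (XT.lf (nat_lit 0) (nat_lit 2712008286) (nat_lit 152) (nat_lit 7585434698) (nat_lit 76) (nat_lit 218265281055) (nat_lit 2) (nat_lit 5) (nat_lit 4) (nat_lit 5) (nat_lit 3) (nat_lit 4) (nat_lit 346) (nat_lit 227) (nat_lit 147)) (XT.lf (nat_lit 0) (nat_lit 5670114070) (nat_lit 152) (nat_lit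 1534207797) (nat_lit 76) (nat_lit 232611011566) (nat_lit 2) (nat_lit 5) (nat_lit 4) (nat_lit 5) (nat_lit 3) (nat_lit 4) (nat_lit 347) (nat_lit 227) (nat_lit 146))) (XT.nd (nat_lit 78) (nat_lit 0) (nat_lit 0) (XT.lf (nat_lit 0) (nat_lit 4966967777) (nat_lit 76) (nat_lit 3880439816) (nat_lit 152) (nat_lit 242779606019) (nat_lit 1) (nat_lit 5) (nat_lit 2) (nat_lit 5) (nat_lit 3) (nat_lit 4) (nat_lit 348) (nat_lit 227) (nat_lit 145)) (XT.lf (nat_lit 0) (nat_lit 11835066582) (nat_lit 76) (nat_lit 368336316) (nat_lit 152) (nat_lit 251824887275) (nat_lit 1) (nat_lit 5) (nat_lit 2) (nat_lit 5) (nat_lit 3) (nat_lit 4) (nat_lit 349) (nat_lit 227) (nat_lit 144)))) (XT.nd (nat_lit 156) (nat_lit 0) (nat_lit 0) (XT.nd (nat_lit 78) (nat_lit 0) (nat_lit 0) (XT.lf (nat_lit 0) (nat_lit 15773091739) (nat_lit 152) (nat_lit 258065960409) (nat_lit 0) (nat_lit 3208287750) (nat_lit 1) (nat_lit 5) (nat_lit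 3) (nat_lit 4) (nat_lit 1) (nat_lit 4) (nat_lit 350) (nat_lit 227) (nat_lit 143)) (XT.lf (nat_lit 0) (nat_lit 19521654814) (nat_lit 152) (nat_lit 264248920434) (nat_lit 0) (nat_lit 6946751207) (nat_lit 1) (nat_lit 5) (nat_lit 3) (nat_lit 4) (nat_lit 1) (nat_lit 4) (nat_lit 351) (nat_lit 227) (nat_lit 142))) (XT.nd (nat_lit 78) (nat_lit 0) (nat_lit 0) (XT.lf (nat_lit 0) (nat_lit 23452266510) (nat_lit 152) (nat_lit 270751074238) (nat_lit 0) (nat_lit 10867744219) (nat_lit 1) (nat_lit 5) (nat_lit 3) (nat_lit 4) (nat_lit 1) (nat_lit 4) (nat_lit 352) (nat_lit 227) (nat_lit 141)) (XT.nd (nat_lit 78) (nat_lit 0) (nat_lit 0) (XT.lf (nat_lit 0) (nat_lit 27574285427) (nat_lit 152) (nat_lit 277587903139) (nat_lit 0) (nat_lit 14980602485) (nat_lit 1) (nat_lit 5) (nat_lit 3) (nat_lit 4) (nat_lit 1) (nat_lit 4) (nat_lit 353) (nat_lit 227) (nat_lit 140)) (XT.lf (nat_lit 0) (nat_lit 31897525896) (nat_lit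 152) (nat_lit 284775685301) (nat_lit 0) (nat_lit 19295118524) (nat_lit 1) (nat_lit 5) (nat_lit 3) (nat_lit 4) (nat_lit 1) (nat_lit 4) (nat_lit 354) (nat_lit 227) (nat_lit 139)))))) (XT.nd (nat_lit 390) (nat_lit 0) (nat_lit 0) (XT.nd (nat_lit 156) (nat_lit 0) (nat_lit 0) (XT.nd (nat_lit 78) (nat_lit 0) (nat_lit 0) (XT.lf (nat_lit 0) (nat_lit 36432281346) (nat_lit 152) (nat_lit 292331534491) (nat_lit 0) (nat_lit 23821564994) (nat_lit 1) (nat_lit 5) (nat_lit 3) (nat_lit 4) (nat_lit 1) (nat_lit 4) (nat_lit 355) (nat_lit 227) (nat_lit 138)) (XT.lf (nat_lit 0) (nat_lit 41189348814) (nat_lit 152) (nat_lit 300273440827) (nat_lit 0) (nat_lit 28570719147) (nat_lit 1) (nat_lit 5) (nat_lit 3) (nat_lit 4) (nat_lit 1) (nat_lit 4) (nat_lit 356) (nat_lit 227) (nat_lit 137))) (XT.nd (nat_lit 78) (nat_lit 0) (nat_lit 0) (XT.lf (nat_lit 0) (nat_lit 46180054651) (nat_lit 152) (nat_lit 308620313609) (nat_lit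 0) (nat_lit 33553888494) (nat_lit 1) (nat_lit 5) (nat_lit 3) (nat_lit 4) (nat_lit 1) (nat_lit 4) (nat_lit 357) (nat_lit 227) (nat_lit 136)) (XT.nd (nat_lit 78) (nat_lit 0) (nat_lit 0) (XT.lf (nat_lit 0) (nat_lit 51416281491) (nat_lit 152) (nat_lit 317392026344) (nat_lit 0) (nat_lit 38782937724) (nat_lit 1) (nat_lit 5) (nat_lit 3) (nat_lit 4) (nat_lit 1) (nat_lit 4) (nat_lit 358) (nat_lit 227) (nat_lit 135)) (XT.lf (nat_lit 0) (nat_lit 56910496539) (nat_lit 152) (nat_lit 326609464062) (nat_lit 0) (nat_lit 44270316953) (nat_lit 1) (nat_lit 5) (nat_lit 3) (nat_lit 4) (nat_lit 1) (nat_lit 4) (nat_lit 359) (nat_lit 227) (nat_lit 134))))) (XT.nd (nat_lit 156) (nat_lit 0) (nat_lit 0) (XT.nd (nat_lit 78) (nat_lit 0) (nat_lit 0) (XT.lf (nat_lit 0) (nat_lit 62675781261) (nat_lit 152) (nat_lit 336294573044) (nat_lit 0) (nat_lit 50029091371) (nat_lit 1) (nat_lit 5) (nat_lit 3) (nat_lit 4) (nat_lit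 1) (nat_lit 4) (nat_lit 360) (nat_lit 227) (nat_lit 133)) (XT.lf (nat_lit 0) (nat_lit 68725862524) (nat_lit 152) (nat_lit 346470413072) (nat_lit 0) (nat_lit 56072972345) (nat_lit 1) (nat_lit 5) (nat_lit 3) (nat_lit 4) (nat_lit 1) (nat_lit 4) (nat_lit 361) (nat_lit 227) (nat_lit 132))) (XT.nd (nat_lit 78) (nat_lit 0) (nat_lit 0) (XT.lf (nat_lit 0) (nat_lit 75075145285) (nat_lit 152) (nat_lit 357161212337) (nat_lit 0) (nat_lit 62416350068) (nat_lit 1) (nat_lit 5) (nat_lit 3) (nat_lit 4) (nat_lit 1) (nat_lit 4) (nat_lit 362) (nat_lit 227) (nat_lit 131)) (XT.nd (nat_lit 78) (nat_lit 0) (nat_lit 0) (XT.lf (nat_lit 0) (nat_lit 81738746882) (nat_lit 152) (nat_lit 368392425124) (nat_lit 0) (nat_lit 69074327821) (nat_lit 1) (nat_lit 5) (nat_lit 3) (nat_lit 4) (nat_lit 1) (nat_lit 4) (nat_lit 363) (nat_lit 227) (nat_lit 130)) (XT.lf (nat_lit 0) (nat_lit 88732533035) (nat_lit 152) (nat_lit 380190792415)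 (nat_lit 0) (nat_lit 76062757930) (nat_lit 1) (nat_lit 5) (nat_lit 3) (nat_lit 4) (nat_lit 1) (nat_lit 4) (nat_lit 364) (nat_lit 227) (nat_lit 129))))))))
noncomputable def xc72 : XT := (XT.nd (nat_lit 1404) (nat_lit 836) (nat_lit 0) (XT.nd (nat_lit 702) (nat_lit 836) (nat_lit 0) (XT.nd (nat_lit 312) (nat_lit 760) (nat_lit 0) (XT.nd (nat_lit 156) (nat_lit 304) (nat_lit 0) (XT.nd (nat_lit 78) (nat_lit 304) (nat_lit 0) (XT.lf (nat_lit 0) (nat_lit 746812352) (nat_lit 304) (nat_lit 2696156730) (nat_lit 0) (nat_lit 746812352) (nat_lit 50) (nat_lit 5) (nat_lit 54) (nat_lit 4) (nat_lit 50) (nat_lit 4) (nat_lit 264) (nat_lit 228) (nat_lit 228)) (XT.lf (nat_lit 0) (nat_lit 223199808) (nat_lit 304) (nat_lit 4714794682) (nat_lit 304) (nat_lit 3622153280) (nat_lit 46) (nat_lit 4) (nat_lit 50) (nat_lit 5) (nat_lit 50) (nat_lit 4) (nat_lit 265) (nat_lit 228) (nat_lit 227))) (XT.nd (nat_lit 78) (nat_lit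 304) (nat_lit 0) (XT.lf (nat_lit 0) (nat_lit 6115479676) (nat_lit 304) (nat_lit 2385309611) (nat_lit 304) (nat_lit 252057350) (nat_lit 46) (nat_lit 4) (nat_lit 50) (nat_lit 5) (nat_lit 50) (nat_lit 4) (nat_lit 266) (nat_lit 228) (nat_lit 226)) (XT.lf (nat_lit 0) (nat_lit 3092547445) (nat_lit 304) (nat_lit 5747852114) (nat_lit 0) (nat_lit 117013900) (nat_lit 42) (nat_lit 5) (nat_lit 46) (nat_lit 4) (nat_lit 42) (nat_lit 4) (nat_lit 267) (nat_lit 228) (nat_lit 225)))) (XT.nd (nat_lit 156) (nat_lit 456) (nat_lit 0) (XT.nd (nat_lit 78) (nat_lit 76) (nat_lit 0) (XT.lf (nat_lit 0) (nat_lit 37078040) (nat_lit 228) (nat_lit 6506175243) (nat_lit 228) (nat_lit 2631722912) (nat_lit 39) (nat_lit 4) (nat_lit 42) (nat_lit 5) (nat_lit 42) (nat_lit 4) (nat_lit 268) (nat_lit 228) (nat_lit 224)) (XT.lf (nat_lit 0) (nat_lit 700973115) (nat_lit 304) (nat_lit 3293570572) (nat_lit 76) (nat_lit 5410471269)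 (nat_lit 38) (nat_lit 5) (nat_lit 42) (nat_lit 5) (nat_lit 39) (nat_lit 4) (nat_lit 269) (nat_lit 228) (nat_lit 223))) (XT.nd (nat_lit 78) (nat_lit 304) (nat_lit 0) (XT.lf (nat_lit 0) (nat_lit 2703189106) (nat_lit 152) (nat_lit 1320762310) (nat_lit 228) (nat_lit 5625137351) (nat_lit 36) (nat_lit 5) (nat_lit 38) (nat_lit 5) (nat_lit 39) (nat_lit 4) (nat_lit 270) (nat_lit 228) (nat_lit 222)) (XT.nd (nat_lit 78) (nat_lit 304) (nat_lit 0) (XT.lf (nat_lit 0) (nat_lit 7465416662) (nat_lit 228) (nat_lit 998559785) (nat_lit 0) (nat_lit 1444053670) (nat_lit 36) (nat_lit 5) (nat_lit 39) (nat_lit 4) (nat_lit 36) (nat_lit 4) (nat_lit 271) (nat_lit 228) (nat_lit 221)) (XT.lf (nat_lit 0) (nat_lit 851270132) (nat_lit 304) (nat_lit 4980585610) (nat_lit 76) (nat_lit 4348565206) (nat_lit 32) (nat_lit 5) (nat_lit 36) (nat_lit 5) (nat_lit 33) (nat_lit 4) (nat_lit 272) (nat_lit 228) (nat_lit 220)))))) (XT.nd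 (nat_lit 312) (nat_lit 456) (nat_lit 0) (XT.nd (nat_lit 156) (nat_lit 228) (nat_lit 0) (XT.nd (nat_lit 78) (nat_lit 0) (nat_lit 0) (XT.lf (nat_lit 0) (nat_lit 1093402319) (nat_lit 152) (nat_lit 3048001943) (nat_lit 228) (nat_lit 6327585230) (nat_lit 30) (nat_lit 5) (nat_lit 32) (nat_lit 5) (nat_lit 33) (nat_lit 4) (nat_lit 273) (nat_lit 228) (nat_lit 219)) (XT.lf (nat_lit 0) (nat_lit 7468377951) (nat_lit 152) (nat_lit 94402131) (nat_lit 228) (nat_lit 3211100609) (nat_lit 30) (nat_lit 5) (nat_lit 32) (nat_lit 5) (nat_lit 33) (nat_lit 4) (nat_lit 274) (nat_lit 228) (nat_lit 218))) (XT.nd (nat_lit 78) (nat_lit 0) (nat_lit 0) (XT.lf (nat_lit 0) (nat_lit 38729212) (nat_lit 228) (nat_lit 8152743054) (nat_lit 76) (nat_lit 2903731903) (nat_lit 27) (nat_lit 5) (nat_lit 30) (nat_lit 5) (nat_lit 28) (nat_lit 4) (nat_lit 275) (nat_lit 228) (nat_lit 217)) (XT.lf (nat_lit 0) (nat_lit 3289427527)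 (nat_lit 228) (nat_lit 2040669664) (nat_lit 76) (nat_lit 6102749554) (nat_lit 27) (nat_lit 5) (nat_lit 30) (nat_lit 5) (nat_lit 28) (nat_lit 4) (nat_lit 276) (nat_lit 228) (nat_lit 216)))) (XT.nd (nat_lit 156) (nat_lit 304) (nat_lit 0) (XT.nd (nat_lit 78) (nat_lit 0) (nat_lit 0) (XT.lf (nat_lit 0) (nat_lit 4351175680) (nat_lit 152) (nat_lit 2312605281) (nat_lit 228) (nat_lit 5125724502) (nat_lit 25) (nat_lit 5) (nat_lit 27) (nat_lit 5) (nat_lit 28) (nat_lit 4) (nat_lit 277) (nat_lit 228) (nat_lit 215)) (XT.lf (nat_lit 0) (nat_lit 10150167468) (nat_lit 228) (nat_lit 1209655394) (nat_lit 0) (nat_lit 807189461) (nat_lit 25) (nat_lit 5) (nat_lit 28) (nat_lit 4) (nat_lit 25) (nat_lit 4) (nat_lit 278) (nat_lit 228) (nat_lit 214))) (XT.nd (nat_lit 78) (nat_lit 76) (nat_lit 0) (XT.lf (nat_lit 0) (nat_lit 1228269209) (nat_lit 228) (nat_lit 7279041199) (nat_lit 76) (nat_lit 4054238558) (nat_lit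 22) (nat_lit 5) (nat_lit 25) (nat_lit 5) (nat_lit 23) (nat_lit 4) (nat_lit 279) (nat_lit 228) (nat_lit 213)) (XT.nd (nat_lit 78) (nat_lit 76) (nat_lit 0) (XT.lf (nat_lit 0) (nat_lit 4489083144) (nat_lit 228) (nat_lit 1026767938) (nat_lit 76) (nat_lit 7462403373) (nat_lit 22) (nat_lit 5) (nat_lit 25) (nat_lit 5) (nat_lit 23) (nat_lit 4) (nat_lit 280) (nat_lit 228) (nat_lit 212)) (XT.lf (nat_lit 0) (nat_lit 5563956018) (nat_lit 76) (nat_lit 2340994935) (nat_lit 152) (nat_lit 5511392495) (nat_lit 21) (nat_lit 5) (nat_lit 22) (nat_lit 5) (nat_lit 23) (nat_lit 4) (nat_lit 281) (nat_lit 228) (nat_lit 211))))))) (XT.nd (nat_lit 702) (nat_lit 228) (nat_lit 0) (XT.nd (nat_lit 312) (nat_lit 304) (nat_lit 0) (XT.nd (nat_lit 156) (nat_lit 76) (nat_lit 0) (XT.nd (nat_lit 78) (nat_lit 228) (nat_lit 0) (XT.lf (nat_lit 0) (nat_lit 11431214241) (nat_lit 152) (nat_lit 1525059365) (nat_lit 0) (nat_lit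 923224979) (nat_lit 21) (nat_lit 5) (nat_lit 23) (nat_lit 4) (nat_lit 21) (nat_lit 4) (nat_lit 282) (nat_lit 228) (nat_lit 210)) (XT.lf (nat_lit 0) (nat_lit 772583791) (nat_lit 228) (nat_lit 9279925178) (nat_lit 76) (nat_lit 4311372375) (nat_lit 18) (nat_lit 5) (nat_lit 21) (nat_lit 5) (nat_lit 19) (nat_lit 4) (nat_lit 283) (nat_lit 228) (nat_lit 209))) (XT.nd (nat_lit 78) (nat_lit 76) (nat_lit 0) (XT.lf (nat_lit 0) (nat_lit 4009797177) (nat_lit 228) (nat_lit 2982430771) (nat_lit 76) (nat_lit 7881491981) (nat_lit 18) (nat_lit 5) (nat_lit 21) (nat_lit 5) (nat_lit 19) (nat_lit 4) (nat_lit 284) (nat_lit 228) (nat_lit 208)) (XT.lf (nat_lit 0) (nat_lit 3605283473) (nat_lit 76) (nat_lit 3775427987) (nat_lit 152) (nat_lit 8029863631) (nat_lit 17) (nat_lit 5) (nat_lit 18) (nat_lit 5) (nat_lit 19) (nat_lit 4) (nat_lit 285) (nat_lit 228) (nat_lit 207)))) (XT.nd (nat_lit 156) (nat_lit 152) (nat_lit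 0) (XT.nd (nat_lit 78) (nat_lit 152) (nat_lit 0) (XT.lf (nat_lit 0) (nat_lit 10488139039) (nat_lit 76) (nat_lit 399963073) (nat_lit 152) (nat_lit 5087885469) (nat_lit 17) (nat_lit 5) (nat_lit 18) (nat_lit 5) (nat_lit 19) (nat_lit 4) (nat_lit 286) (nat_lit 228) (nat_lit 206)) (XT.lf (nat_lit 0) (nat_lit 993738043) (nat_lit 152) (nat_lit 13562263353) (nat_lit 152) (nat_lit 2014518158) (nat_lit 15) (nat_lit 4) (nat_lit 17) (nat_lit 5) (nat_lit 17) (nat_lit 4) (nat_lit 287) (nat_lit 228) (nat_lit 205))) (XT.nd (nat_lit 78) (nat_lit 76) (nat_lit 0) (XT.lf (nat_lit 0) (nat_lit 1195609089) (nat_lit 228) (nat_lit 9362199770) (nat_lit 76) (nat_lit 6635023716) (nat_lit 14) (nat_lit 5) (nat_lit 17) (nat_lit 5) (nat_lit 15) (nat_lit 4) (nat_lit 288) (nat_lit 228) (nat_lit 204)) (XT.nd (nat_lit 78) (nat_lit 76) (nat_lit 0) (XT.lf (nat_lit 0) (nat_lit 4423189265) (nat_lit 228) (nat_lit 2998472989)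 (nat_lit 76) (nat_lit 10426806775) (nat_lit 14) (nat_lit 5) (nat_lit 17) (nat_lit 5) (nat_lit 15) (nat_lit 4) (nat_lit 289) (nat_lit 228) (nat_lit 203)) (XT.lf (nat_lit 0) (nat_lit 3678745672) (nat_lit 76) (nat_lit 4119074104) (nat_lit 152) (nat_lit 10739871015) (nat_lit 13) (nat_lit 5) (nat_lit 14) (nat_lit 5) (nat_lit 15) (nat_lit 4) (nat_lit 290) (nat_lit 228) (nat_lit 202)))))) (XT.nd (nat_lit 312) (nat_lit 76) (nat_lit 0) (XT.nd (nat_lit 156) (nat_lit 152) (nat_lit 0) (XT.nd (nat_lit 78) (nat_lit 0) (nat_lit 0) (XT.lf (nat_lit 0) (nat_lit 10673462979) (nat_lit 76) (nat_lit 648271806) (nat_lit 152) (nat_lit 7940694114) (nat_lit 13) (nat_lit 5) (nat_lit 14) (nat_lit 5) (nat_lit 15) (nat_lit 4) (nat_lit 291) (nat_lit 228) (nat_lit 201)) (XT.lf (nat_lit 0) (nat_lit 15000992199) (nat_lit 152) (nat_lit 2169667183) (nat_lit 0) (nat_lit 2853866157) (nat_lit 13) (nat_lit 5) (nat_lit 15)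 (nat_lit 4) (nat_lit 13) (nat_lit 4) (nat_lit 292) (nat_lit 228) (nat_lit 200))) (XT.nd (nat_lit 78) (nat_lit 76) (nat_lit 0) (XT.lf (nat_lit 0) (nat_lit 4595233479) (nat_lit 76) (nat_lit 14286940973) (nat_lit 76) (nat_lit 1941729660) (nat_lit 12) (nat_lit 4) (nat_lit 13) (nat_lit 5) (nat_lit 13) (nat_lit 4) (nat_lit 293) (nat_lit 228) (nat_lit 199)) (XT.lf (nat_lit 0) (nat_lit 1225926187) (nat_lit 152) (nat_lit 10020715269) (nat_lit 76) (nat_lit 10417008924) (nat_lit 11) (nat_lit 5) (nat_lit 13) (nat_lit 5) (nat_lit 12) (nat_lit 4) (nat_lit 294) (nat_lit 228) (nat_lit 198)))) (XT.nd (nat_lit 156) (nat_lit 0) (nat_lit 0) (XT.nd (nat_lit 78) (nat_lit 76) (nat_lit 0) (XT.lf (nat_lit 0) (nat_lit 4425601967) (nat_lit 152) (nat_lit 3641049101) (nat_lit 76) (nat_lit 14480261671) (nat_lit 11) (nat_lit 5) (nat_lit 13) (nat_lit 5) (nat_lit 12) (nat_lit 4) (nat_lit 295) (nat_lit 228) (nat_lit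 197)) (XT.lf (nat_lit 0) (nat_lit 3053566594) (nat_lit 76) (nat_lit 4721171568) (nat_lit 152) (nat_lit 15700188088) (nat_lit 10) (nat_lit 5) (nat_lit 11) (nat_lit 5) (nat_lit 12) (nat_lit 4) (nat_lit 296) (nat_lit 228) (nat_lit 196))) (XT.nd (nat_lit 78) (nat_lit 0) (nat_lit 0) (XT.lf (nat_lit 0) (nat_lit 10109196499) (nat_lit 76) (nat_lit 1186807589) (nat_lit 152) (nat_lit 13153161624) (nat_lit 10) (nat_lit 5) (nat_lit 11) (nat_lit 5) (nat_lit 12) (nat_lit 4) (nat_lit 297) (nat_lit 228) (nat_lit 195)) (XT.nd (nat_lit 78) (nat_lit 0) (nat_lit 0) (XT.lf (nat_lit 0) (nat_lit 14977826716) (nat_lit 152) (nat_lit 8091406469) (nat_lit 0) (nat_lit 2403715405) (nat_lit 10) (nat_lit 5) (nat_lit 12) (nat_lit 4) (nat_lit 10) (nat_lit 4) (nat_lit 298) (nat_lit 228) (nat_lit 194)) (XT.lf (nat_lit 0) (nat_lit 18810893865) (nat_lit 152) (nat_lit 1642715472) (nat_lit 0) (nat_lit 6096007050) (nat_lit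 10) (nat_lit 5) (nat_lit 12) (nat_lit 4) (nat_lit 10) (nat_lit 4) (nat_lit 299) (nat_lit 228) (nat_lit 193))))))))
noncomputable def xc73 : XT := (XT.nd (nat_lit 1404) (nat_lit 76) (nat_lit 0) (XT.nd (nat_lit 702) (nat_lit 228) (nat_lit 0) (XT.nd (nat_lit 312) (nat_lit 76) (nat_lit 0) (XT.nd (nat_lit 156) (nat_lit 76) (nat_lit 0) (XT.nd (nat_lit 78) (nat_lit 0) (nat_lit 0) (XT.lf (nat_lit 0) (nat_lit 5206631937) (nat_lit 76) (nat_lit 17660460673) (nat_lit 76) (nat_lit 4811501949) (nat_lit 9) (nat_lit 4) (nat_lit 10) (nat_lit 5) (nat_lit 10) (nat_lit 4) (nat_lit 300) (nat_lit 228) (nat_lit 192)) (XT.lf (nat_lit 0) (nat_lit 12368481387) (nat_lit 76) (nat_lit 14736641940) (nat_lit 76) (nat_lit 1759995684) (nat_lit 9) (nat_lit 4) (nat_lit 10) (nat_lit 5) (nat_lit 10) (nat_lit 4) (nat_lit 301) (nat_lit 228) (nat_lit 191))) (XT.nd (nat_lit 78) (nat_lit 0) (nat_lit 0) (XT.lf (nat_lit 0) (nat_lit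 1350585137) (nat_lit 152) (nat_lit 10329553896) (nat_lit 76) (nat_lit 18432111358) (nat_lit 8) (nat_lit 5) (nat_lit 10) (nat_lit 5) (nat_lit 9) (nat_lit 4) (nat_lit 302) (nat_lit 228) (nat_lit 190)) (XT.lf (nat_lit 0) (nat_lit 4512518092) (nat_lit 152) (nat_lit 3963407695) (nat_lit 76) (nat_lit 22946663284) (nat_lit 8) (nat_lit 5) (nat_lit 10) (nat_lit 5) (nat_lit 9) (nat_lit 4) (nat_lit 303) (nat_lit 228) (nat_lit 189)))) (XT.nd (nat_lit 156) (nat_lit 0) (nat_lit 0) (XT.nd (nat_lit 78) (nat_lit 0) (nat_lit 0) (XT.lf (nat_lit 0) (nat_lit 2731873962) (nat_lit 76) (nat_lit 5100440690) (nat_lit 152) (nat_lit 24966181565) (nat_lit 7) (nat_lit 5) (nat_lit 8) (nat_lit 5) (nat_lit 9) (nat_lit 4) (nat_lit 304) (nat_lit 228) (nat_lit 188)) (XT.lf (nat_lit 0) (nat_lit 9824147014) (nat_lit 76) (nat_lit 1519056370) (nat_lit 152) (nat_lit 22898778198) (nat_lit 7) (nat_lit 5) (nat_lit 8) (nat_lit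 5) (nat_lit 9) (nat_lit 4) (nat_lit 305) (nat_lit 228) (nat_lit 187))) (XT.nd (nat_lit 78) (nat_lit 0) (nat_lit 0) (XT.lf (nat_lit 0) (nat_lit 15024116166) (nat_lit 152) (nat_lit 18594927217) (nat_lit 0) (nat_lit 2138910025) (nat_lit 7) (nat_lit 5) (nat_lit 9) (nat_lit 4) (nat_lit 7) (nat_lit 4) (nat_lit 306) (nat_lit 228) (nat_lit 186)) (XT.nd (nat_lit 78) (nat_lit 0) (nat_lit 0) (XT.lf (nat_lit 0) (nat_lit 18875391550) (nat_lit 152) (nat_lit 12575610612) (nat_lit 0) (nat_lit 5899440264) (nat_lit 7) (nat_lit 5) (nat_lit 9) (nat_lit 4) (nat_lit 7) (nat_lit 4) (nat_lit 307) (nat_lit 228) (nat_lit 185)) (XT.lf (nat_lit 0) (nat_lit 22882482514) (nat_lit 152) (nat_lit 6321836319) (nat_lit 0) (nat_lit 9820107280) (nat_lit 7) (nat_lit 5) (nat_lit 9) (nat_lit 4) (nat_lit 7) (nat_lit 4) (nat_lit 308) (nat_lit 228) (nat_lit 184)))))) (XT.nd (nat_lit 312) (nat_lit 152) (nat_lit 0) (XT.nd (nat_lit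 156) (nat_lit 0) (nat_lit 0) (XT.nd (nat_lit 78) (nat_lit 0) (nat_lit 0) (XT.lf (nat_lit 0) (nat_lit 187279719) (nat_lit 76) (nat_lit 26870573992) (nat_lit 76) (nat_lit 13725890237) (nat_lit 6) (nat_lit 4) (nat_lit 7) (nat_lit 5) (nat_lit 7) (nat_lit 4) (nat_lit 309) (nat_lit 228) (nat_lit 183)) (XT.lf (nat_lit 0) (nat_lit 7179011983) (nat_lit 76) (nat_lit 24335740170) (nat_lit 76) (nat_lit 11112667346) (nat_lit 6) (nat_lit 4) (nat_lit 7) (nat_lit 5) (nat_lit 7) (nat_lit 4) (nat_lit 310) (nat_lit 228) (nat_lit 182))) (XT.nd (nat_lit 78) (nat_lit 0) (nat_lit 0) (XT.lf (nat_lit 0) (nat_lit 14460978996) (nat_lit 76) (nat_lit 21700845404) (nat_lit 76) (nat_lit 8403116325) (nat_lit 6) (nat_lit 4) (nat_lit 7) (nat_lit 5) (nat_lit 7) (nat_lit 4) (nat_lit 311) (nat_lit 228) (nat_lit 181)) (XT.lf (nat_lit 0) (nat_lit 22050518774) (nat_lit 76) (nat_lit 18959616136) (nat_lit 76) (nat_lit 5590785861)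 (nat_lit 6) (nat_lit 4) (nat_lit 7) (nat_lit 5) (nat_lit 7) (nat_lit 4) (nat_lit 312) (nat_lit 228) (nat_lit 180)))) (XT.nd (nat_lit 156) (nat_lit 76) (nat_lit 0) (XT.nd (nat_lit 78) (nat_lit 76) (nat_lit 0) (XT.lf (nat_lit 0) (nat_lit 29965701649) (nat_lit 76) (nat_lit 16105525631) (nat_lit 76) (nat_lit 2668979931) (nat_lit 6) (nat_lit 4) (nat_lit 7) (nat_lit 5) (nat_lit 7) (nat_lit 4) (nat_lit 313) (nat_lit 228) (nat_lit 179)) (XT.lf (nat_lit 0) (nat_lit 357439579) (nat_lit 152) (nat_lit 12768285441) (nat_lit 76) (nat_lit 37861880304) (nat_lit 5) (nat_lit 5) (nat_lit 7) (nat_lit 5) (nat_lit 6) (nat_lit 4) (nat_lit 314) (nat_lit 228) (nat_lit 178))) (XT.nd (nat_lit 78) (nat_lit 76) (nat_lit 0) (XT.lf (nat_lit 0) (nat_lit 3418143027) (nat_lit 152) (nat_lit 6555263259) (nat_lit 76) (nat_lit 43373168665) (nat_lit 5) (nat_lit 5) (nat_lit 7) (nat_lit 5) (nat_lit 6) (nat_lit 4) (nat_lit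 315) (nat_lit 228) (nat_lit 177)) (XT.nd (nat_lit 78) (nat_lit 76) (nat_lit 0) (XT.lf (nat_lit 0) (nat_lit 6605841826) (nat_lit 152) (nat_lit 78975851) (nat_lit 76) (nat_lit 49139998523) (nat_lit 5) (nat_lit 5) (nat_lit 7) (nat_lit 5) (nat_lit 6) (nat_lit 4) (nat_lit 316) (nat_lit 228) (nat_lit 176)) (XT.lf (nat_lit 0) (nat_lit 6896735109) (nat_lit 76) (nat_lit 3139067989) (nat_lit 152) (nat_lit 48387042679) (nat_lit 4) (nat_lit 5) (nat_lit 5) (nat_lit 5) (nat_lit 6) (nat_lit 4) (nat_lit 317) (nat_lit 228) (nat_lit 175))))))) (XT.nd (nat_lit 702) (nat_lit 76) (nat_lit 0) (XT.nd (nat_lit 312) (nat_lit 0) (nat_lit 0) (XT.nd (nat_lit 156) (nat_lit 0) (nat_lit 0) (XT.nd (nat_lit 78) (nat_lit 0) (nat_lit 0) (XT.lf (nat_lit 0) (nat_lit 13623113481) (nat_lit 152) (nat_lit 46981198453) (nat_lit 0) (nat_lit 547191529) (nat_lit 4) (nat_lit 5) (nat_lit 6) (nat_lit 4) (nat_lit 4) (nat_lit 4) (nat_lit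 318) (nat_lit 228) (nat_lit 174)) (XT.lf (nat_lit 0) (nat_lit 17417796401) (nat_lit 152) (nat_lit 42303665191) (nat_lit 0) (nat_lit 4293750360) (nat_lit 4) (nat_lit 5) (nat_lit 6) (nat_lit 4) (nat_lit 4) (nat_lit 4) (nat_lit 319) (nat_lit 228) (nat_lit 173))) (XT.nd (nat_lit 78) (nat_lit 0) (nat_lit 0) (XT.lf (nat_lit 0) (nat_lit 21379877167) (nat_lit 152) (nat_lit 37433364250) (nat_lit 0) (nat_lit 8209998662) (nat_lit 4) (nat_lit 5) (nat_lit 6) (nat_lit 4) (nat_lit 4) (nat_lit 4) (nat_lit 320) (nat_lit 228) (nat_lit 172)) (XT.lf (nat_lit 0) (nat_lit 25518789307) (nat_lit 152) (nat_lit 32358699676) (nat_lit 0) (nat_lit 12305260835) (nat_lit 4) (nat_lit 5) (nat_lit 6) (nat_lit 4) (nat_lit 4) (nat_lit 4) (nat_lit 321) (nat_lit 228) (nat_lit 171)))) (XT.nd (nat_lit 156) (nat_lit 0) (nat_lit 0) (XT.nd (nat_lit 78) (nat_lit 0) (nat_lit 0) (XT.lf (nat_lit 0) (nat_lit 29844387372) (nat_lit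 152) (nat_lit 27067588932) (nat_lit 0) (nat_lit 16589287503) (nat_lit 4) (nat_lit 5) (nat_lit 6) (nat_lit 4) (nat_lit 4) (nat_lit 4) (nat_lit 322) (nat_lit 228) (nat_lit 170)) (XT.lf (nat_lit 0) (nat_lit 34366970405) (nat_lit 152) (nat_lit 21547434138) (nat_lit 0) (nat_lit 21072278731) (nat_lit 4) (nat_lit 5) (nat_lit 6) (nat_lit 4) (nat_lit 4) (nat_lit 4) (nat_lit 323) (nat_lit 228) (nat_lit 169))) (XT.nd (nat_lit 78) (nat_lit 0) (nat_lit 0) (XT.lf (nat_lit 0) (nat_lit 39097306463) (nat_lit 152) (nat_lit 15785092067) (nat_lit 0) (nat_lit 25764908306) (nat_lit 4) (nat_lit 5) (nat_lit 6) (nat_lit 4) (nat_lit 4) (nat_lit 4) (nat_lit 324) (nat_lit 228) (nat_lit 168)) (XT.nd (nat_lit 78) (nat_lit 0) (nat_lit 0) (XT.lf (nat_lit 0) (nat_lit 44046658248) (nat_lit 152) (nat_lit 9766842857) (nat_lit 0) (nat_lit 30678349156) (nat_lit 4) (nat_lit 5) (nat_lit 6) (nat_lit 4) (nat_lit 4) (nat_lit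 4) (nat_lit 325) (nat_lit 228) (nat_lit 167)) (XT.lf (nat_lit 0) (nat_lit 49226809933) (nat_lit 152) (nat_lit 3478357344) (nat_lit 0) (nat_lit 35824299950) (nat_lit 4) (nat_lit 5) (nat_lit 6) (nat_lit 4) (nat_lit 4) (nat_lit 4) (nat_lit 326) (nat_lit 228) (nat_lit 166)))))) (XT.nd (nat_lit 312) (nat_lit 0) (nat_lit 0) (XT.nd (nat_lit 156) (nat_lit 0) (nat_lit 0) (XT.nd (nat_lit 78) (nat_lit 0) (nat_lit 0) (XT.lf (nat_lit 0) (nat_lit 3197682879) (nat_lit 76) (nat_lit 51502337123) (nat_lit 76) (nat_lit 38067254863) (nat_lit 3) (nat_lit 4) (nat_lit 4) (nat_lit 5) (nat_lit 4) (nat_lit 4) (nat_lit 327) (nat_lit 228) (nat_lit 165)) (XT.lf (nat_lit 0) (nat_lit 10299541655) (nat_lit 76) (nat_lit 50190689722) (nat_lit 76) (nat_lit 36724586245) (nat_lit 3) (nat_lit 4) (nat_lit 4) (nat_lit 5) (nat_lit 4) (nat_lit 4) (nat_lit 328) (nat_lit 228) (nat_lit 164))) (XT.nd (nat_lit 78) (nat_lit 0) (nat_lit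 0) (XT.lf (nat_lit 0) (nat_lit 17729117969) (nat_lit 76) (nat_lit 48826009768) (nat_lit 76) (nat_lit 35330362276) (nat_lit 3) (nat_lit 4) (nat_lit 4) (nat_lit 5) (nat_lit 4) (nat_lit 4) (nat_lit 329) (nat_lit 228) (nat_lit 163)) (XT.lf (nat_lit 0) (nat_lit 25504101287) (nat_lit 76) (nat_lit 47405048023) (nat_lit 76) (nat_lit 33881263374) (nat_lit 3) (nat_lit 4) (nat_lit 4) (nat_lit 5) (nat_lit 4) (nat_lit 4) (nat_lit 330) (nat_lit 228) (nat_lit 162)))) (XT.nd (nat_lit 156) (nat_lit 0) (nat_lit 0) (XT.nd (nat_lit 78) (nat_lit 0) (nat_lit 0) (XT.lf (nat_lit 0) (nat_lit 33643003476) (nat_lit 76) (nat_lit 45924421246) (nat_lit 76) (nat_lit 32373839304) (nat_lit 3) (nat_lit 4) (nat_lit 4) (nat_lit 5) (nat_lit 4) (nat_lit 4) (nat_lit 331) (nat_lit 228) (nat_lit 161)) (XT.lf (nat_lit 0) (nat_lit 42165202872) (nat_lit 76) (nat_lit 44380604134) (nat_lit 76) (nat_lit 30804500960) (nat_lit 3)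 (nat_lit 4) (nat_lit 4) (nat_lit 5) (nat_lit 4) (nat_lit 4) (nat_lit 332) (nat_lit 228) (nat_lit 160))) (XT.nd (nat_lit 78) (nat_lit 0) (nat_lit 0) (XT.lf (nat_lit 0) (nat_lit 51090990428) (nat_lit 76) (nat_lit 42769920932) (nat_lit 76) (nat_lit 29169511823) (nat_lit 3) (nat_lit 4) (nat_lit 4) (nat_lit 5) (nat_lit 4) (nat_lit 4) (nat_lit 333) (nat_lit 228) (nat_lit 159)) (XT.nd (nat_lit 78) (nat_lit 0) (nat_lit 0) (XT.lf (nat_lit 0) (nat_lit 60441618018) (nat_lit 76) (nat_lit 41088536680) (nat_lit 76) (nat_lit 27464979063) (nat_lit 3) (nat_lit 4) (nat_lit 4) (nat_lit 5) (nat_lit 4) (nat_lit 4) (nat_lit 334) (nat_lit 228) (nat_lit 158)) (XT.lf (nat_lit 0) (nat_lit 70239349042) (nat_lit 76) (nat_lit 39332448083) (nat_lit 76) (nat_lit 25686844266) (nat_lit 3) (nat_lit 4) (nat_lit 4) (nat_lit 5) (nat_lit 4) (nat_lit 4) (nat_lit 335) (nat_lit 228) (nat_lit 157))))))))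
noncomputable def xc74 : XT := (XT.nd (nat_lit 1404) (nat_lit 0) (nat_lit 0) (XT.nd (nat_lit 702) (nat_lit 152) (nat_lit 0) (XT.nd (nat_lit 312) (nat_lit 0) (nat_lit 0) (XT.nd (nat_lit 156) (nat_lit 0) (nat_lit 0) (XT.nd (nat_lit 78) (nat_lit 0) (nat_lit 0) (XT.lf (nat_lit 0) (nat_lit 80507511431) (nat_lit 76) (nat_lit 37497473977) (nat_lit 76) (nat_lit 23830873780) (nat_lit 3) (nat_lit 4) (nat_lit 4) (nat_lit 5) (nat_lit 4) (nat_lit 4) (nat_lit 336) (nat_lit 228) (nat_lit 156)) (XT.lf (nat_lit 0) (nat_lit 91270553189) (nat_lit 76) (nat_lit 35579245375) (nat_lit 76) (nat_lit 21892648626) (nat_lit 3) (nat_lit 4) (nat_lit 4) (nat_lit 5) (nat_lit 4) (nat_lit 4) (nat_lit 337) (nat_lit 228) (nat_lit 155))) (XT.nd (nat_lit 78) (nat_lit 0) (nat_lit 0) (XT.lf (nat_lit 0) (nat_lit 102554100608) (nat_lit 76) (nat_lit 33573195068) (nat_lit 76) (nat_lit 19867553983) (nat_lit 3) (nat_lit 4) (nat_lit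 4) (nat_lit 5) (nat_lit 4) (nat_lit 4) (nat_lit 338) (nat_lit 228) (nat_lit 154)) (XT.lf (nat_lit 0) (nat_lit 114385019275) (nat_lit 76) (nat_lit 31474546745) (nat_lit 76) (nat_lit 17750768198) (nat_lit 3) (nat_lit 4) (nat_lit 4) (nat_lit 5) (nat_lit 4) (nat_lit 4) (nat_lit 339) (nat_lit 228) (nat_lit 153)))) (XT.nd (nat_lit 156) (nat_lit 0) (nat_lit 0) (XT.nd (nat_lit 78) (nat_lit 0) (nat_lit 0) (XT.lf (nat_lit 0) (nat_lit 126791478046) (nat_lit 76) (nat_lit 29278303624) (nat_lit 76) (nat_lit 15537251303) (nat_lit 3) (nat_lit 4) (nat_lit 4) (nat_lit 5) (nat_lit 4) (nat_lit 4) (nat_lit 340) (nat_lit 228) (nat_lit 152)) (XT.lf (nat_lit 0) (nat_lit 139803016108) (nat_lit 76) (nat_lit 26979236555) (nat_lit 76) (nat_lit 13221733020) (nat_lit 3) (nat_lit 4) (nat_lit 4) (nat_lit 5) (nat_lit 4) (nat_lit 4) (nat_lit 341) (nat_lit 228) (nat_lit 151))) (XT.nd (nat_lit 78) (nat_lit 0) (nat_lit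 0) (XT.lf (nat_lit 0) (nat_lit 153450613312) (nat_lit 76) (nat_lit 24571871569) (nat_lit 76) (nat_lit 10798700212) (nat_lit 3) (nat_lit 4) (nat_lit 4) (nat_lit 5) (nat_lit 4) (nat_lit 4) (nat_lit 342) (nat_lit 228) (nat_lit 150)) (XT.nd (nat_lit 78) (nat_lit 0) (nat_lit 0) (XT.lf (nat_lit 0) (nat_lit 167766763939) (nat_lit 76) (nat_lit 22050476844) (nat_lit 76) (nat_lit 8262383751) (nat_lit 3) (nat_lit 4) (nat_lit 4) (nat_lit 5) (nat_lit 4) (nat_lit 4) (nat_lit 343) (nat_lit 228) (nat_lit 149)) (XT.lf (nat_lit 0) (nat_lit 182785554061) (nat_lit 76) (nat_lit 19409049059) (nat_lit 76) (nat_lit 5606744790) (nat_lit 3) (nat_lit 4) (nat_lit 4) (nat_lit 5) (nat_lit 4) (nat_lit 4) (nat_lit 344) (nat_lit 228) (nat_lit 148)))))) (XT.nd (nat_lit 312) (nat_lit 76) (nat_lit 0) (XT.nd (nat_lit 156) (nat_lit 0) (nat_lit 0) (XT.nd (nat_lit 78) (nat_lit 76) (nat_lit 0) (XT.lf (nat_lit 0) (nat_lit 198542742703)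 (nat_lit 76) (nat_lit 16641299102) (nat_lit 76) (nat_lit 2825460379) (nat_lit 3) (nat_lit 4) (nat_lit 4) (nat_lit 5) (nat_lit 4) (nat_lit 4) (nat_lit 345) (nat_lit 228) (nat_lit 147)) (XT.lf (nat_lit 0) (nat_lit 85272107) (nat_lit 152) (nat_lit 13653920857) (nat_lit 76) (nat_lit 214989130747) (nat_lit 2) (nat_lit 5) (nat_lit 4) (nat_lit 5) (nat_lit 3) (nat_lit 4) (nat_lit 346) (nat_lit 228) (nat_lit 146))) (XT.nd (nat_lit 78) (nat_lit 0) (nat_lit 0) (XT.lf (nat_lit 0) (nat_lit 3040321386) (nat_lit 152) (nat_lit 7608345985) (nat_lit 76) (nat_lit 229332420725) (nat_lit 2) (nat_lit 5) (nat_lit 4) (nat_lit 5) (nat_lit 3) (nat_lit 4) (nat_lit 347) (nat_lit 228) (nat_lit 145)) (XT.lf (nat_lit 0) (nat_lit 6137155664) (nat_lit 152) (nat_lit 1271527284) (nat_lit 76) (nat_lit 244388110351) (nat_lit 2) (nat_lit 5) (nat_lit 4) (nat_lit 5) (nat_lit 3) (nat_lit 4) (nat_lit 348) (nat_lit 228) (nat_lit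 144)))) (XT.nd (nat_lit 156) (nat_lit 0) (nat_lit 0) (XT.nd (nat_lit 78) (nat_lit 0) (nat_lit 0) (XT.lf (nat_lit 0) (nat_lit 5549233021) (nat_lit 76) (nat_lit 3920554416) (nat_lit 152) (nat_lit 254729452564) (nat_lit 1) (nat_lit 5) (nat_lit 2) (nat_lit 5) (nat_lit 3) (nat_lit 4) (nat_lit 349) (nat_lit 228) (nat_lit 143)) (XT.lf (nat_lit 0) (nat_lit 12744835964) (nat_lit 76) (nat_lit 240174664) (nat_lit 152) (nat_lit 264236004251) (nat_lit 1) (nat_lit 5) (nat_lit 2) (nat_lit 5) (nat_lit 3) (nat_lit 4) (nat_lit 350) (nat_lit 228) (nat_lit 142))) (XT.nd (nat_lit 78) (nat_lit 0) (nat_lit 0) (XT.lf (nat_lit 0) (nat_lit 16727199742) (nat_lit 152) (nat_lit 270660289521) (nat_lit 0) (nat_lit 3503832653) (nat_lit 1) (nat_lit 5) (nat_lit 3) (nat_lit 4) (nat_lit 1) (nat_lit 4) (nat_lit 351) (nat_lit 228) (nat_lit 141)) (XT.nd (nat_lit 78) (nat_lit 0) (nat_lit 0) (XT.lf (nat_lit 0) (nat_lit 20655312236)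 (nat_lit 152) (nat_lit 277167110352) (nat_lit 0) (nat_lit 7422784496) (nat_lit 1) (nat_lit 5) (nat_lit 3) (nat_lit 4) (nat_lit 1) (nat_lit 4) (nat_lit 352) (nat_lit 228) (nat_lit 140)) (XT.lf (nat_lit 0) (nat_lit 24774950961) (nat_lit 152) (nat_lit 284008384042) (nat_lit 0) (nat_lit 11533698791) (nat_lit 1) (nat_lit 5) (nat_lit 3) (nat_lit 4) (nat_lit 1) (nat_lit 4) (nat_lit 353) (nat_lit 228) (nat_lit 139))))))) (XT.nd (nat_lit 702) (nat_lit 0) (nat_lit 0) (XT.nd (nat_lit 312) (nat_lit 0) (nat_lit 0) (XT.nd (nat_lit 156) (nat_lit 0) (nat_lit 0) (XT.nd (nat_lit 78) (nat_lit 0) (nat_lit 0) (XT.lf (nat_lit 0) (nat_lit 29095924580) (nat_lit 152) (nat_lit 291200399336) (nat_lit 0) (nat_lit 15846363429) (nat_lit 1) (nat_lit 5) (nat_lit 3) (nat_lit 4) (nat_lit 1) (nat_lit 4) (nat_lit 354) (nat_lit 228) (nat_lit 138)) (XT.lf (nat_lit 0) (nat_lit 33628521125) (nat_lit 152) (nat_lit 298760280080)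 (nat_lit 0) (nat_lit 20371046660) (nat_lit 1) (nat_lit 5) (nat_lit 3) (nat_lit 4) (nat_lit 1) (nat_lit 4) (nat_lit 355) (nat_lit 228) (nat_lit 137))) (XT.nd (nat_lit 78) (nat_lit 0) (nat_lit 0) (XT.lf (nat_lit 0) (nat_lit 38383532493) (nat_lit 152) (nat_lit 306706025991) (nat_lit 0) (nat_lit 25118521538) (nat_lit 1) (nat_lit 5) (nat_lit 3) (nat_lit 4) (nat_lit 1) (nat_lit 4) (nat_lit 356) (nat_lit 228) (nat_lit 136)) (XT.lf (nat_lit 0) (nat_lit 43372280141) (nat_lit 152) (nat_lit 315056555512) (nat_lit 0) (nat_lit 30100091575) (nat_lit 1) (nat_lit 5) (nat_lit 3) (nat_lit 4) (nat_lit 1) (nat_lit 4) (nat_lit 357) (nat_lit 228) (nat_lit 135)))) (XT.nd (nat_lit 156) (nat_lit 0) (nat_lit 0) (XT.nd (nat_lit 78) (nat_lit 0) (nat_lit 0) (XT.lf (nat_lit 0) (nat_lit 48606642037) (nat_lit 152) (nat_lit 323831750855) (nat_lit 0) (nat_lit 35327617653) (nat_lit 1) (nat_lit 5) (nat_lit 3) (nat_lit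 4) (nat_lit 1) (nat_lit 4) (nat_lit 358) (nat_lit 228) (nat_lit 134)) (XT.lf (nat_lit 0) (nat_lit 54099080949) (nat_lit 152) (nat_lit 333052505343) (nat_lit 0) (nat_lit 40813546262) (nat_lit 1) (nat_lit 5) (nat_lit 3) (nat_lit 4) (nat_lit 1) (nat_lit 4) (nat_lit 359) (nat_lit 228) (nat_lit 133))) (XT.nd (nat_lit 78) (nat_lit 0) (nat_lit 0) (XT.lf (nat_lit 0) (nat_lit 59862674113) (nat_lit 152) (nat_lit 342740773152) (nat_lit 0) (nat_lit 46570939136) (nat_lit 1) (nat_lit 5) (nat_lit 3) (nat_lit 4) (nat_lit 1) (nat_lit 4) (nat_lit 360) (nat_lit 228) (nat_lit 132)) (XT.nd (nat_lit 78) (nat_lit 0) (nat_lit 0) (XT.lf (nat_lit 0) (nat_lit 65911144368) (nat_lit 152) (nat_lit 352919621588) (nat_lit 0) (nat_lit 52613504354) (nat_lit 1) (nat_lit 5) (nat_lit 3) (nat_lit 4) (nat_lit 1) (nat_lit 4) (nat_lit 361) (nat_lit 228) (nat_lit 131)) (XT.lf (nat_lit 0) (nat_lit 72258892836) (nat_lit 152)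 (nat_lit 363613286004) (nat_lit 0) (nat_lit 58955628976) (nat_lit 1) (nat_lit 5) (nat_lit 3) (nat_lit 4) (nat_lit 1) (nat_lit 4) (nat_lit 362) (nat_lit 228) (nat_lit 130)))))) (XT.nd (nat_lit 29796) (nat_lit 0) (nat_lit 3116) (XT.nd (nat_lit 29640) (nat_lit 0) (nat_lit 4028) (XT.nd (nat_lit 78) (nat_lit 0) (nat_lit 0) (XT.lf (nat_lit 0) (nat_lit 78921033202) (nat_lit 152) (nat_lit 374847227505) (nat_lit 0) (nat_lit 65612413299) (nat_lit 1) (nat_lit 5) (nat_lit 3) (nat_lit 4) (nat_lit 1) (nat_lit 4) (nat_lit 363) (nat_lit 228) (nat_lit 129)) (XT.lf (nat_lit 0) (nat_lit 85913427705) (nat_lit 152) (nat_lit 386648193572) (nat_lit 0) (nat_lit 72599706809) (nat_lit 1) (nat_lit 5) (nat_lit 3) (nat_lit 4) (nat_lit 1) (nat_lit 4) (nat_lit 364) (nat_lit 228) (nat_lit 128))) (XT.nd (nat_lit 78) (nat_lit 304) (nat_lit 0) (XT.lf (nat_lit 0) (nat_lit 2004185817) (nat_lit 380) (nat_lit 16121001) (nat_lit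 0) (nat_lit 2004185817) (nat_lit 58) (nat_lit 5) (nat_lit 63) (nat_lit 4) (nat_lit 58) (nat_lit 4) (nat_lit 262) (nat_lit 229) (nat_lit 229)) (XT.lf (nat_lit 0) (nat_lit 5550462670) (nat_lit 304) (nat_lit 1932415083) (nat_lit 304) (nat_lit 727777937) (nat_lit 54) (nat_lit 4) (nat_lit 58) (nat_lit 5) (nat_lit 58) (nat_lit 4) (nat_lit 263) (nat_lit 229) (nat_lit 228)))) (XT.nd (nat_lit 156) (nat_lit 304) (nat_lit 0) (XT.nd (nat_lit 78) (nat_lit 304) (nat_lit 0) (XT.lf (nat_lit 0) (nat_lit 2568100157) (nat_lit 304) (nat_lit 5487119673) (nat_lit 0) (nat_lit 328185282) (nat_lit 50) (nat_lit 5) (nat_lit 54) (nat_lit 4) (nat_lit 50) (nat_lit 4) (nat_lit 264) (nat_lit 229) (nat_lit 227)) (XT.lf (nat_lit 0) (nat_lit 31981795) (nat_lit 304) (nat_lit 5908171251) (nat_lit 304) (nat_lit 2627645517) (nat_lit 46) (nat_lit 4) (nat_lit 50) (nat_lit 5) (nat_lit 50) (nat_lit 4) (nat_lit 265) (nat_lit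 229) (nat_lit 226))) (XT.nd (nat_lit 78) (nat_lit 228) (nat_lit 0) (XT.lf (nat_lit 0) (nat_lit 649987593) (nat_lit 380) (nat_lit 2939109128) (nat_lit 76) (nat_lit 5174430901) (nat_lit 45) (nat_lit 5) (nat_lit 50) (nat_lit 5) (nat_lit 46) (nat_lit 4) (nat_lit 266) (nat_lit 229) (nat_lit 225)) (XT.nd (nat_lit 78) (nat_lit 0) (nat_lit 0) (XT.lf (nat_lit 0) (nat_lit 2805949122) (nat_lit 228) (nat_lit 1106927727) (nat_lit 304) (nat_lit 5058869701) (nat_lit 42) (nat_lit 5) (nat_lit 45) (nat_lit 5) (nat_lit 46) (nat_lit 4) (nat_lit 267) (nat_lit 229) (nat_lit 224)) (XT.lf (nat_lit 0) (nat_lit 7281731750) (nat_lit 304) (nat_lit 453303733) (nat_lit 0) (nat_lit 1458524888) (nat_lit 42) (nat_lit 5) (nat_lit 46) (nat_lit 4) (nat_lit 42) (nat_lit 4) (nat_lit 268) (nat_lit 229) (nat_lit 223))))))))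
noncomputable def xc75 : XT := (XT.nd (nat_lit 1404) (nat_lit 760) (nat_lit 0) (XT.nd (nat_lit 702) (nat_lit 608) (nat_lit 0) (XT.nd (nat_lit 312) (nat_lit 532) (nat_lit 0) (XT.nd (nat_lit 156) (nat_lit 304) (nat_lit 0) (XT.nd (nat_lit 78) (nat_lit 152) (nat_lit 0) (XT.lf (nat_lit 0) (nat_lit 1326924967) (nat_lit 304) (nat_lit 3918356516) (nat_lit 76) (nat_lit 4181444539) (nat_lit 38) (nat_lit 5) (nat_lit 42) (nat_lit 5) (nat_lit 39) (nat_lit 4) (nat_lit 269) (nat_lit 229) (nat_lit 222)) (XT.lf (nat_lit 0) (nat_lit 1969839540) (nat_lit 152) (nat_lit 2608166354) (nat_lit 228) (nat_lit 5096525758) (nat_lit 36) (nat_lit 5) (nat_lit 38) (nat_lit 5) (nat_lit 39) (nat_lit 4) (nat_lit 270) (nat_lit 229) (nat_lit 221))) (XT.nd (nat_lit 78) (nat_lit 304) (nat_lit 0) (XT.lf (nat_lit 0) (nat_lit 7940106925) (nat_lit 228) (nat_lit 1823658037) (nat_lit 0) (nat_lit 173806683) (nat_lit 36) (nat_lit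 5) (nat_lit 39) (nat_lit 4) (nat_lit 36) (nat_lit 4) (nat_lit 271) (nat_lit 229) (nat_lit 220)) (XT.lf (nat_lit 0) (nat_lit 1209808441) (nat_lit 304) (nat_lit 5956979975) (nat_lit 76) (nat_lit 3046563008) (nat_lit 32) (nat_lit 5) (nat_lit 36) (nat_lit 5) (nat_lit 33) (nat_lit 4) (nat_lit 272) (nat_lit 229) (nat_lit 219)))) (XT.nd (nat_lit 156) (nat_lit 380) (nat_lit 0) (XT.nd (nat_lit 78) (nat_lit 152) (nat_lit 0) (XT.lf (nat_lit 0) (nat_lit 4426836558) (nat_lit 304) (nat_lit 917133) (nat_lit 76) (nat_lit 6077934249) (nat_lit 32) (nat_lit 5) (nat_lit 36) (nat_lit 5) (nat_lit 33) (nat_lit 4) (nat_lit 273) (nat_lit 229) (nat_lit 218)) (XT.lf (nat_lit 0) (nat_lit 6292436358) (nat_lit 152) (nat_lit 1501120741) (nat_lit 228) (nat_lit 3019862110) (nat_lit 30) (nat_lit 5) (nat_lit 32) (nat_lit 5) (nat_lit 33) (nat_lit 4) (nat_lit 274) (nat_lit 229) (nat_lit 217))) (XT.nd (nat_lit 78) (nat_lit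 152) (nat_lit 0) (XT.lf (nat_lit 0) (nat_lit 127248632) (nat_lit 228) (nat_lit 9514194359) (nat_lit 76) (nat_lit 1498077648) (nat_lit 27) (nat_lit 5) (nat_lit 30) (nat_lit 5) (nat_lit 28) (nat_lit 4) (nat_lit 275) (nat_lit 229) (nat_lit 216)) (XT.nd (nat_lit 78) (nat_lit 152) (nat_lit 0) (XT.lf (nat_lit 0) (nat_lit 3325842634) (nat_lit 228) (nat_lit 3482655852) (nat_lit 76) (nat_lit 4671362640) (nat_lit 27) (nat_lit 5) (nat_lit 30) (nat_lit 5) (nat_lit 28) (nat_lit 4) (nat_lit 276) (nat_lit 229) (nat_lit 215)) (XT.lf (nat_lit 0) (nat_lit 2782274984) (nat_lit 152) (nat_lit 3843802992) (nat_lit 228) (nat_lit 5214236053) (nat_lit 25) (nat_lit 5) (nat_lit 27) (nat_lit 5) (nat_lit 28) (nat_lit 4) (nat_lit 277) (nat_lit 229) (nat_lit 214)))))) (XT.nd (nat_lit 312) (nat_lit 304) (nat_lit 0) (XT.nd (nat_lit 156) (nat_lit 76) (nat_lit 0) (XT.nd (nat_lit 78) (nat_lit 228) (nat_lit 0) (XT.lf (nat_lit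 0) (nat_lit 9326663583) (nat_lit 152) (nat_lit 724343380) (nat_lit 228) (nat_lit 2169970879) (nat_lit 25) (nat_lit 5) (nat_lit 27) (nat_lit 5) (nat_lit 28) (nat_lit 4) (nat_lit 278) (nat_lit 229) (nat_lit 213)) (XT.lf (nat_lit 0) (nat_lit 992533123) (nat_lit 228) (nat_lit 9138560204) (nat_lit 76) (nat_lit 2488992507) (nat_lit 22) (nat_lit 5) (nat_lit 25) (nat_lit 5) (nat_lit 23) (nat_lit 4) (nat_lit 279) (nat_lit 229) (nat_lit 212))) (XT.nd (nat_lit 78) (nat_lit 76) (nat_lit 0) (XT.lf (nat_lit 0) (nat_lit 4207075952) (nat_lit 228) (nat_lit 2960552459) (nat_lit 76) (nat_lit 5871549096) (nat_lit 22) (nat_lit 5) (nat_lit 25) (nat_lit 5) (nat_lit 23) (nat_lit 4) (nat_lit 280) (nat_lit 229) (nat_lit 211)) (XT.lf (nat_lit 0) (nat_lit 3493164162) (nat_lit 76) (nat_lit 4053381014) (nat_lit 152) (nat_lit 5934610424) (nat_lit 21) (nat_lit 5) (nat_lit 22) (nat_lit 5) (nat_lit 23) (nat_lit 4) (nat_lit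 281) (nat_lit 229) (nat_lit 210)))) (XT.nd (nat_lit 156) (nat_lit 76) (nat_lit 0) (XT.nd (nat_lit 78) (nat_lit 228) (nat_lit 0) (XT.lf (nat_lit 0) (nat_lit 10229694354) (nat_lit 76) (nat_lit 785167658) (nat_lit 152) (nat_lit 2932411924) (nat_lit 21) (nat_lit 5) (nat_lit 22) (nat_lit 5) (nat_lit 23) (nat_lit 4) (nat_lit 282) (nat_lit 229) (nat_lit 209)) (XT.lf (nat_lit 0) (nat_lit 212495661) (nat_lit 228) (nat_lit 11665817665) (nat_lit 76) (nat_lit 2558353833) (nat_lit 18) (nat_lit 5) (nat_lit 21) (nat_lit 5) (nat_lit 19) (nat_lit 4) (nat_lit 283) (nat_lit 229) (nat_lit 208))) (XT.nd (nat_lit 78) (nat_lit 76) (nat_lit 0) (XT.lf (nat_lit 0) (nat_lit 3408514730) (nat_lit 228) (nat_lit 5436638608) (nat_lit 76) (nat_lit 6103469029) (nat_lit 18) (nat_lit 5) (nat_lit 21) (nat_lit 5) (nat_lit 19) (nat_lit 4) (nat_lit 284) (nat_lit 229) (nat_lit 207)) (XT.nd (nat_lit 78) (nat_lit 0) (nat_lit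 0) (XT.lf (nat_lit 0) (nat_lit 1002714952) (nat_lit 76) (nat_lit 5696847989) (nat_lit 152) (nat_lit 8789962088) (nat_lit 17) (nat_lit 5) (nat_lit 18) (nat_lit 5) (nat_lit 19) (nat_lit 4) (nat_lit 285) (nat_lit 229) (nat_lit 206)) (XT.lf (nat_lit 0) (nat_lit 7821557671) (nat_lit 76) (nat_lit 2347032041) (nat_lit 152) (nat_lit 5888317617) (nat_lit 17) (nat_lit 5) (nat_lit 18) (nat_lit 5) (nat_lit 19) (nat_lit 4) (nat_lit 286) (nat_lit 229) (nat_lit 205))))))) (XT.nd (nat_lit 702) (nat_lit 304) (nat_lit 0) (XT.nd (nat_lit 312) (nat_lit 152) (nat_lit 0) (XT.nd (nat_lit 156) (nat_lit 76) (nat_lit 0) (XT.nd (nat_lit 78) (nat_lit 228) (nat_lit 0) (XT.lf (nat_lit 0) (nat_lit 13753656345) (nat_lit 152) (nat_lit 1817628935) (nat_lit 0) (nat_lit 1084344812) (nat_lit 17) (nat_lit 5) (nat_lit 19) (nat_lit 4) (nat_lit 17) (nat_lit 4) (nat_lit 287) (nat_lit 229) (nat_lit 204)) (XT.lf (nat_lit 0) (nat_lit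 270003150) (nat_lit 228) (nat_lit 12368617655) (nat_lit 76) (nat_lit 4643387404) (nat_lit 14) (nat_lit 5) (nat_lit 17) (nat_lit 5) (nat_lit 15) (nat_lit 4) (nat_lit 288) (nat_lit 229) (nat_lit 203))) (XT.nd (nat_lit 78) (nat_lit 76) (nat_lit 0) (XT.lf (nat_lit 0) (nat_lit 3462576397) (nat_lit 228) (nat_lit 6064616383) (nat_lit 76) (nat_lit 8412244693) (nat_lit 14) (nat_lit 5) (nat_lit 17) (nat_lit 5) (nat_lit 15) (nat_lit 4) (nat_lit 289) (nat_lit 229) (nat_lit 202)) (XT.lf (nat_lit 0) (nat_lit 452459535) (nat_lit 76) (nat_lit 6301036072) (nat_lit 152) (nat_lit 11879389635) (nat_lit 13) (nat_lit 5) (nat_lit 14) (nat_lit 5) (nat_lit 15) (nat_lit 4) (nat_lit 290) (nat_lit 229) (nat_lit 201)))) (XT.nd (nat_lit 156) (nat_lit 152) (nat_lit 0) (XT.nd (nat_lit 78) (nat_lit 0) (nat_lit 0) (XT.lf (nat_lit 0) (nat_lit 7391212847) (nat_lit 76) (nat_lit 2853571699) (nat_lit 152) (nat_lit 9114508625)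 (nat_lit 13) (nat_lit 5) (nat_lit 14) (nat_lit 5) (nat_lit 15) (nat_lit 4) (nat_lit 291) (nat_lit 229) (nat_lit 200)) (XT.lf (nat_lit 0) (nat_lit 13858191580) (nat_lit 152) (nat_lit 5568893004) (nat_lit 0) (nat_lit 697634429) (nat_lit 13) (nat_lit 5) (nat_lit 15) (nat_lit 4) (nat_lit 13) (nat_lit 4) (nat_lit 292) (nat_lit 229) (nat_lit 199))) (XT.nd (nat_lit 78) (nat_lit 76) (nat_lit 0) (XT.lf (nat_lit 0) (nat_lit 1029951288) (nat_lit 76) (nat_lit 16623835195) (nat_lit 76) (nat_lit 3274625405) (nat_lit 12) (nat_lit 4) (nat_lit 13) (nat_lit 5) (nat_lit 13) (nat_lit 4) (nat_lit 293) (nat_lit 229) (nat_lit 198)) (XT.nd (nat_lit 78) (nat_lit 76) (nat_lit 0) (XT.lf (nat_lit 0) (nat_lit 8047307322) (nat_lit 76) (nat_lit 13626108271) (nat_lit 76) (nat_lit 97229300) (nat_lit 12) (nat_lit 4) (nat_lit 13) (nat_lit 5) (nat_lit 13) (nat_lit 4) (nat_lit 294) (nat_lit 229) (nat_lit 197)) (XT.lf (nat_lit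 0) (nat_lit 3077169104) (nat_lit 152) (nat_lit 7391795811) (nat_lit 76) (nat_lit 12186467882) (nat_lit 11) (nat_lit 5) (nat_lit 13) (nat_lit 5) (nat_lit 12) (nat_lit 4) (nat_lit 295) (nat_lit 229) (nat_lit 196)))))) (XT.nd (nat_lit 390) (nat_lit 152) (nat_lit 0) (XT.nd (nat_lit 156) (nat_lit 76) (nat_lit 0) (XT.nd (nat_lit 78) (nat_lit 76) (nat_lit 0) (XT.lf (nat_lit 0) (nat_lit 6351593120) (nat_lit 152) (nat_lit 842191821) (nat_lit 76) (nat_lit 16393425718) (nat_lit 11) (nat_lit 5) (nat_lit 13) (nat_lit 5) (nat_lit 12) (nat_lit 4) (nat_lit 296) (nat_lit 229) (nat_lit 195)) (XT.lf (nat_lit 0) (nat_lit 6139075469) (nat_lit 76) (nat_lit 3693723643) (nat_lit 152) (nat_lit 14730681379) (nat_lit 10) (nat_lit 5) (nat_lit 11) (nat_lit 5) (nat_lit 12) (nat_lit 4) (nat_lit 297) (nat_lit 229) (nat_lit 194))) (XT.nd (nat_lit 78) (nat_lit 76) (nat_lit 0) (XT.lf (nat_lit 0) (nat_lit 13407828272)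 (nat_lit 76) (nat_lit 42808442) (nat_lit 152) (nat_lit 12139851978) (nat_lit 10) (nat_lit 5) (nat_lit 11) (nat_lit 5) (nat_lit 12) (nat_lit 4) (nat_lit 298) (nat_lit 229) (nat_lit 193)) (XT.nd (nat_lit 78) (nat_lit 76) (nat_lit 0) (XT.lf (nat_lit 0) (nat_lit 17258737026) (nat_lit 152) (nat_lit 5776434173) (nat_lit 0) (nat_lit 3633258458) (nat_lit 10) (nat_lit 5) (nat_lit 12) (nat_lit 4) (nat_lit 10) (nat_lit 4) (nat_lit 299) (nat_lit 229) (nat_lit 192)) (XT.lf (nat_lit 0) (nat_lit 893796411) (nat_lit 76) (nat_lit 20330662504) (nat_lit 76) (nat_lit 6577496403) (nat_lit 9) (nat_lit 4) (nat_lit 10) (nat_lit 5) (nat_lit 10) (nat_lit 4) (nat_lit 300) (nat_lit 229) (nat_lit 191))))) (XT.nd (nat_lit 156) (nat_lit 152) (nat_lit 0) (XT.nd (nat_lit 78) (nat_lit 0) (nat_lit 0) (XT.lf (nat_lit 0) (nat_lit 8015229275) (nat_lit 76) (nat_lit 17424589906) (nat_lit 76) (nat_lit 3549816632) (nat_lit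 9) (nat_lit 4) (nat_lit 10) (nat_lit 5) (nat_lit 10) (nat_lit 4) (nat_lit 301) (nat_lit 229) (nat_lit 190)) (XT.lf (nat_lit 0) (nat_lit 15413825210) (nat_lit 76) (nat_lit 14407860894) (nat_lit 76) (nat_lit 417271264) (nat_lit 9) (nat_lit 4) (nat_lit 10) (nat_lit 5) (nat_lit 10) (nat_lit 4) (nat_lit 302) (nat_lit 229) (nat_lit 189))) (XT.nd (nat_lit 78) (nat_lit 76) (nat_lit 0) (XT.lf (nat_lit 0) (nat_lit 2737097342) (nat_lit 152) (nat_lit 8489841369) (nat_lit 76) (nat_lit 20323748511) (nat_lit 8) (nat_lit 5) (nat_lit 10) (nat_lit 5) (nat_lit 9) (nat_lit 4) (nat_lit 303) (nat_lit 229) (nat_lit 188)) (XT.nd (nat_lit 78) (nat_lit 76) (nat_lit 0) (XT.lf (nat_lit 0) (nat_lit 5994318232) (nat_lit 152) (nat_lit 1917587392) (nat_lit 76) (nat_lit 25017836053) (nat_lit 8) (nat_lit 5) (nat_lit 10) (nat_lit 5) (nat_lit 9) (nat_lit 4) (nat_lit 304) (nat_lit 229) (nat_lit 187)) (XT.lf (nat_lit 0)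 (nat_lit 5076264950) (nat_lit 76) (nat_lit 4378491753) (nat_lit 152) (nat_lit 24921010498) (nat_lit 7) (nat_lit 5) (nat_lit 8) (nat_lit 5) (nat_lit 9) (nat_lit 4) (nat_lit 305) (nat_lit 229) (nat_lit 186))))))))
noncomputable def xc76 : XT := (XT.nd (nat_lit 1404) (nat_lit 76) (nat_lit 0) (XT.nd (nat_lit 702) (nat_lit 152) (nat_lit 0) (XT.nd (nat_lit 312) (nat_lit 76) (nat_lit 0) (XT.nd (nat_lit 156) (nat_lit 0) (nat_lit 0) (XT.nd (nat_lit 78) (nat_lit 0) (nat_lit 0) (XT.lf (nat_lit 0) (nat_lit 12418018450) (nat_lit 76) (nat_lit 664560644) (nat_lit 152) (nat_lit 22811831256) (nat_lit 7) (nat_lit 5) (nat_lit 8) (nat_lit 5) (nat_lit 9) (nat_lit 4) (nat_lit 306) (nat_lit 229) (nat_lit 185)) (XT.lf (nat_lit 0) (nat_lit 16905552879) (nat_lit 152) (nat_lit 17479142638) (nat_lit 0) (nat_lit 3103634936) (nat_lit 7) (nat_lit 5) (nat_lit 9) (nat_lit 4) (nat_lit 7) (nat_lit 4) (nat_lit 307) (nat_lit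 229) (nat_lit 184))) (XT.nd (nat_lit 78) (nat_lit 0) (nat_lit 0) (XT.lf (nat_lit 0) (nat_lit 20895571513) (nat_lit 152) (nat_lit 11256266438) (nat_lit 0) (nat_lit 7011345049) (nat_lit 7) (nat_lit 5) (nat_lit 9) (nat_lit 4) (nat_lit 7) (nat_lit 4) (nat_lit 308) (nat_lit 229) (nat_lit 183)) (XT.lf (nat_lit 0) (nat_lit 25051759388) (nat_lit 152) (nat_lit 4782571274) (nat_lit 0) (nat_lit 11089143855) (nat_lit 7) (nat_lit 5) (nat_lit 9) (nat_lit 4) (nat_lit 7) (nat_lit 4) (nat_lit 309) (nat_lit 229) (nat_lit 182)))) (XT.nd (nat_lit 156) (nat_lit 0) (nat_lit 0) (XT.nd (nat_lit 78) (nat_lit 0) (nat_lit 0) (XT.lf (nat_lit 0) (nat_lit 2022075456) (nat_lit 76) (nat_lit 27393506998) (nat_lit 76) (nat_lit 13356235209) (nat_lit 6) (nat_lit 4) (nat_lit 7) (nat_lit 5) (nat_lit 7) (nat_lit 4) (nat_lit 310) (nat_lit 229) (nat_lit 181)) (XT.lf (nat_lit 0) (nat_lit 9276469012) (nat_lit 76) (nat_lit 24771007469)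 (nat_lit 76) (nat_lit 10662634485) (nat_lit 6) (nat_lit 4) (nat_lit 7) (nat_lit 5) (nat_lit 7) (nat_lit 4) (nat_lit 311) (nat_lit 229) (nat_lit 180))) (XT.nd (nat_lit 78) (nat_lit 0) (nat_lit 0) (XT.lf (nat_lit 0) (nat_lit 16839748355) (nat_lit 76) (nat_lit 22041583189) (nat_lit 76) (nat_lit 7865494780) (nat_lit 6) (nat_lit 4) (nat_lit 7) (nat_lit 5) (nat_lit 7) (nat_lit 4) (nat_lit 312) (nat_lit 229) (nat_lit 179)) (XT.nd (nat_lit 78) (nat_lit 0) (nat_lit 0) (XT.lf (nat_lit 0) (nat_lit 24729921293) (nat_lit 76) (nat_lit 19198735529) (nat_lit 76) (nat_lit 4958156240) (nat_lit 6) (nat_lit 4) (nat_lit 7) (nat_lit 5) (nat_lit 7) (nat_lit 4) (nat_lit 313) (nat_lit 229) (nat_lit 178)) (XT.lf (nat_lit 0) (nat_lit 32965773951) (nat_lit 76) (nat_lit 16235695804) (nat_lit 76) (nat_lit 1933696628) (nat_lit 6) (nat_lit 4) (nat_lit 7) (nat_lit 5) (nat_lit 7) (nat_lit 4) (nat_lit 314) (nat_lit 229)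 (nat_lit 177)))))) (XT.nd (nat_lit 312) (nat_lit 0) (nat_lit 0) (XT.nd (nat_lit 156) (nat_lit 76) (nat_lit 0) (XT.nd (nat_lit 78) (nat_lit 0) (nat_lit 0) (XT.lf (nat_lit 0) (nat_lit 1176194835) (nat_lit 152) (nat_lit 11949294891) (nat_lit 76) (nat_lit 40370801238) (nat_lit 5) (nat_lit 5) (nat_lit 7) (nat_lit 5) (nat_lit 6) (nat_lit 4) (nat_lit 315) (nat_lit 229) (nat_lit 176)) (XT.lf (nat_lit 0) (nat_lit 4351796157) (nat_lit 152) (nat_lit 5495021830) (nat_lit 76) (nat_lit 46128328926) (nat_lit 5) (nat_lit 5) (nat_lit 7) (nat_lit 5) (nat_lit 6) (nat_lit 4) (nat_lit 316) (nat_lit 229) (nat_lit 175))) (XT.nd (nat_lit 78) (nat_lit 0) (nat_lit 0) (XT.lf (nat_lit 0) (nat_lit 1279950913) (nat_lit 76) (nat_lit 6402591366) (nat_lit 152) (nat_lit 50895604326) (nat_lit 4) (nat_lit 5) (nat_lit 5) (nat_lit 5) (nat_lit 6) (nat_lit 4) (nat_lit 317) (nat_lit 229) (nat_lit 174)) (XT.lf (nat_lit 0) (nat_lit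 8542159885) (nat_lit 76) (nat_lit 2707572279) (nat_lit 152) (nat_lit 50058087064) (nat_lit 4) (nat_lit 5) (nat_lit 5) (nat_lit 5) (nat_lit 6) (nat_lit 4) (nat_lit 318) (nat_lit 229) (nat_lit 173)))) (XT.nd (nat_lit 156) (nat_lit 0) (nat_lit 0) (XT.nd (nat_lit 78) (nat_lit 0) (nat_lit 0) (XT.lf (nat_lit 0) (nat_lit 14991246537) (nat_lit 152) (nat_lit 48065906453) (nat_lit 0) (nat_lit 1117041641) (nat_lit 4) (nat_lit 5) (nat_lit 6) (nat_lit 4) (nat_lit 4) (nat_lit 4) (nat_lit 319) (nat_lit 229) (nat_lit 172)) (XT.lf (nat_lit 0) (nat_lit 18942950393) (nat_lit 152) (nat_lit 43214703762) (nat_lit 0) (nat_lit 5025095531) (nat_lit 4) (nat_lit 5) (nat_lit 6) (nat_lit 4) (nat_lit 4) (nat_lit 4) (nat_lit 320) (nat_lit 229) (nat_lit 171))) (XT.nd (nat_lit 78) (nat_lit 0) (nat_lit 0) (XT.lf (nat_lit 0) (nat_lit 23071979761) (nat_lit 152) (nat_lit 38158227997) (nat_lit 0) (nat_lit 9112553503) (nat_lit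 4) (nat_lit 5) (nat_lit 6) (nat_lit 4) (nat_lit 4) (nat_lit 4) (nat_lit 321) (nat_lit 229) (nat_lit 170)) (XT.nd (nat_lit 78) (nat_lit 0) (nat_lit 0) (XT.lf (nat_lit 0) (nat_lit 27388165663) (nat_lit 152) (nat_lit 32884439930) (nat_lit 0) (nat_lit 13389147598) (nat_lit 4) (nat_lit 5) (nat_lit 6) (nat_lit 4) (nat_lit 4) (nat_lit 4) (nat_lit 322) (nat_lit 229) (nat_lit 169)) (XT.lf (nat_lit 0) (nat_lit 31901784732) (nat_lit 152) (nat_lit 27380782923) (nat_lit 0) (nat_lit 17865060185) (nat_lit 4) (nat_lit 5) (nat_lit 6) (nat_lit 4) (nat_lit 4) (nat_lit 4) (nat_lit 323) (nat_lit 229) (nat_lit 168))))))) (XT.nd (nat_lit 702) (nat_lit 0) (nat_lit 0) (XT.nd (nat_lit 312) (nat_lit 76) (nat_lit 0) (XT.nd (nat_lit 156) (nat_lit 0) (nat_lit 0) (XT.nd (nat_lit 78) (nat_lit 0) (nat_lit 0) (XT.lf (nat_lit 0) (nat_lit 36623583680) (nat_lit 152) (nat_lit 21634153030) (nat_lit 0) (nat_lit 22550948197)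 (nat_lit 4) (nat_lit 5) (nat_lit 6) (nat_lit 4) (nat_lit 4) (nat_lit 4) (nat_lit 324) (nat_lit 229) (nat_lit 167)) (XT.lf (nat_lit 0) (nat_lit 41564804885) (nat_lit 152) (nat_lit 15630867799) (nat_lit 0) (nat_lit 27457968512) (nat_lit 4) (nat_lit 5) (nat_lit 6) (nat_lit 4) (nat_lit 4) (nat_lit 4) (nat_lit 325) (nat_lit 229) (nat_lit 166))) (XT.nd (nat_lit 78) (nat_lit 0) (nat_lit 0) (XT.lf (nat_lit 0) (nat_lit 46737213160) (nat_lit 152) (nat_lit 9356633694) (nat_lit 0) (nat_lit 32597804509) (nat_lit 4) (nat_lit 5) (nat_lit 6) (nat_lit 4) (nat_lit 4) (nat_lit 4) (nat_lit 326) (nat_lit 229) (nat_lit 165)) (XT.lf (nat_lit 0) (nat_lit 52153123762) (nat_lit 152) (nat_lit 2796512062) (nat_lit 0) (nat_lit 37982693896) (nat_lit 4) (nat_lit 5) (nat_lit 6) (nat_lit 4) (nat_lit 4) (nat_lit 4) (nat_lit 327) (nat_lit 229) (nat_lit 164)))) (XT.nd (nat_lit 156) (nat_lit 0) (nat_lit 0) (XT.nd (nat_lit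 78) (nat_lit 0) (nat_lit 0) (XT.lf (nat_lit 0) (nat_lit 4199527541) (nat_lit 76) (nat_lit 53691470570) (nat_lit 76) (nat_lit 39491496688) (nat_lit 3) (nat_lit 4) (nat_lit 4) (nat_lit 5) (nat_lit 4) (nat_lit 4) (nat_lit 328) (nat_lit 229) (nat_lit 163)) (XT.lf (nat_lit 0) (nat_lit 11616385898) (nat_lit 76) (nat_lit 52332620961) (nat_lit 76) (nat_lit 38104509922) (nat_lit 3) (nat_lit 4) (nat_lit 4) (nat_lit 5) (nat_lit 4) (nat_lit 4) (nat_lit 329) (nat_lit 229) (nat_lit 162))) (XT.nd (nat_lit 78) (nat_lit 0) (nat_lit 0) (XT.lf (nat_lit 0) (nat_lit 19379256877) (nat_lit 76) (nat_lit 50917211926) (nat_lit 76) (nat_lit 36662303594) (nat_lit 3) (nat_lit 4) (nat_lit 4) (nat_lit 5) (nat_lit 4) (nat_lit 4) (nat_lit 330) (nat_lit 229) (nat_lit 161)) (XT.nd (nat_lit 78) (nat_lit 0) (nat_lit 0) (XT.lf (nat_lit 0) (nat_lit 27506623503) (nat_lit 76) (nat_lit 49441873443) (nat_lit 76) (nat_lit 35161443880)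 (nat_lit 3) (nat_lit 4) (nat_lit 4) (nat_lit 5) (nat_lit 4) (nat_lit 4) (nat_lit 331) (nat_lit 229) (nat_lit 160)) (XT.lf (nat_lit 0) (nat_lit 36017836651) (nat_lit 76) (nat_lit 47903092802) (nat_lit 76) (nat_lit 33598357304) (nat_lit 3) (nat_lit 4) (nat_lit 4) (nat_lit 5) (nat_lit 4) (nat_lit 4) (nat_lit 332) (nat_lit 229) (nat_lit 159)))))) (XT.nd (nat_lit 312) (nat_lit 0) (nat_lit 0) (XT.nd (nat_lit 156) (nat_lit 0) (nat_lit 0) (XT.nd (nat_lit 78) (nat_lit 0) (nat_lit 0) (XT.lf (nat_lit 0) (nat_lit 44933161113) (nat_lit 76) (nat_lit 46297206240) (nat_lit 76) (nat_lit 31969322232) (nat_lit 3) (nat_lit 4) (nat_lit 4) (nat_lit 5) (nat_lit 4) (nat_lit 4) (nat_lit 333) (nat_lit 229) (nat_lit 158)) (XT.lf (nat_lit 0) (nat_lit 54273823851) (nat_lit 76) (nat_lit 44620390216) (nat_lit 76) (nat_lit 30270460009) (nat_lit 3) (nat_lit 4) (nat_lit 4) (nat_lit 5) (nat_lit 4) (nat_lit 4) (nat_lit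 334) (nat_lit 229) (nat_lit 157))) (XT.nd (nat_lit 78) (nat_lit 0) (nat_lit 0) (XT.lf (nat_lit 0) (nat_lit 64062064540) (nat_lit 76) (nat_lit 42868652312) (nat_lit 76) (nat_lit 28497725725) (nat_lit 3) (nat_lit 4) (nat_lit 4) (nat_lit 5) (nat_lit 4) (nat_lit 4) (nat_lit 335) (nat_lit 229) (nat_lit 156)) (XT.lf (nat_lit 0) (nat_lit 74321188514) (nat_lit 76) (nat_lit 41037821723) (nat_lit 76) (nat_lit 26646898583) (nat_lit 3) (nat_lit 4) (nat_lit 4) (nat_lit 5) (nat_lit 4) (nat_lit 4) (nat_lit 336) (nat_lit 229) (nat_lit 155)))) (XT.nd (nat_lit 156) (nat_lit 0) (nat_lit 0) (XT.nd (nat_lit 78) (nat_lit 0) (nat_lit 0) (XT.lf (nat_lit 0) (nat_lit 85075622259) (nat_lit 76) (nat_lit 39123539328) (nat_lit 76) (nat_lit 24713571853) (nat_lit 3) (nat_lit 4) (nat_lit 4) (nat_lit 5) (nat_lit 4) (nat_lit 4) (nat_lit 337) (nat_lit 229) (nat_lit 154)) (XT.lf (nat_lit 0) (nat_lit 96350971569) (nat_lit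 76) (nat_lit 37121247314) (nat_lit 76) (nat_lit 22693142376) (nat_lit 3) (nat_lit 4) (nat_lit 4) (nat_lit 5) (nat_lit 4) (nat_lit 4) (nat_lit 338) (nat_lit 229) (nat_lit 153))) (XT.nd (nat_lit 78) (nat_lit 0) (nat_lit 0) (XT.lf (nat_lit 0) (nat_lit 108174082515) (nat_lit 76) (nat_lit 35026178317) (nat_lit 76) (nat_lit 20580799605) (nat_lit 3) (nat_lit 4) (nat_lit 4) (nat_lit 5) (nat_lit 4) (nat_lit 4) (nat_lit 339) (nat_lit 229) (nat_lit 152)) (XT.nd (nat_lit 78) (nat_lit 0) (nat_lit 0) (XT.lf (nat_lit 0) (nat_lit 120573105360) (nat_lit 76) (nat_lit 32833344078) (nat_lit 76) (nat_lit 18371514153) (nat_lit 3) (nat_lit 4) (nat_lit 4) (nat_lit 5) (nat_lit 4) (nat_lit 4) (nat_lit 340) (nat_lit 229) (nat_lit 151)) (XT.lf (nat_lit 0) (nat_lit 133577561587) (nat_lit 76) (nat_lit 30537523563) (nat_lit 76) (nat_lit 16060025816) (nat_lit 3) (nat_lit 4) (nat_lit 4) (nat_lit 5) (nat_lit 4) (nat_lit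 4) (nat_lit 341) (nat_lit 229) (nat_lit 150))))))))
noncomputable def xc77 : XT := (XT.nd (nat_lit 1404) (nat_lit 0) (nat_lit 0) (XT.nd (nat_lit 702) (nat_lit 0) (nat_lit 0) (XT.nd (nat_lit 312) (nat_lit 152) (nat_lit 0) (XT.nd (nat_lit 156) (nat_lit 0) (nat_lit 0) (XT.nd (nat_lit 78) (nat_lit 0) (nat_lit 0) (XT.lf (nat_lit 0) (nat_lit 147218414188) (nat_lit 76) (nat_lit 28133250533) (nat_lit 76) (nat_lit 13640831050) (nat_lit 3) (nat_lit 4) (nat_lit 4) (nat_lit 5) (nat_lit 4) (nat_lit 4) (nat_lit 342) (nat_lit 229) (nat_lit 149)) (XT.lf (nat_lit 0) (nat_lit 161528141383) (nat_lit 76) (nat_lit 25614800528) (nat_lit 76) (nat_lit 11108169869) (nat_lit 3) (nat_lit 4) (nat_lit 4) (nat_lit 5) (nat_lit 4) (nat_lit 4) (nat_lit 343) (nat_lit 229) (nat_lit 148))) (XT.nd (nat_lit 78) (nat_lit 0) (nat_lit 0) (XT.lf (nat_lit 0) (nat_lit 176540813950) (nat_lit 76) (nat_lit 22976177239) (nat_lit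 76) (nat_lit 8456012126) (nat_lit 3) (nat_lit 4) (nat_lit 4) (nat_lit 5) (nat_lit 4) (nat_lit 4) (nat_lit 344) (nat_lit 229) (nat_lit 147)) (XT.lf (nat_lit 0) (nat_lit 192292176349) (nat_lit 76) (nat_lit 20211098230) (nat_lit 76) (nat_lit 5678043160) (nat_lit 3) (nat_lit 4) (nat_lit 4) (nat_lit 5) (nat_lit 4) (nat_lit 4) (nat_lit 345) (nat_lit 229) (nat_lit 146)))) (XT.nd (nat_lit 156) (nat_lit 76) (nat_lit 0) (XT.nd (nat_lit 78) (nat_lit 76) (nat_lit 0) (XT.lf (nat_lit 0) (nat_lit 208819731824) (nat_lit 76) (nat_lit 17312979978) (nat_lit 76) (nat_lit 2767648760) (nat_lit 3) (nat_lit 4) (nat_lit 4) (nat_lit 5) (nat_lit 4) (nat_lit 4) (nat_lit 346) (nat_lit 229) (nat_lit 145)) (XT.lf (nat_lit 0) (nat_lit 273071604) (nat_lit 152) (nat_lit 13997225998) (nat_lit 76) (nat_lit 225885135491) (nat_lit 2) (nat_lit 5) (nat_lit 4) (nat_lit 5) (nat_lit 3) (nat_lit 4) (nat_lit 347) (nat_lit 229)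 (nat_lit 144))) (XT.nd (nat_lit 78) (nat_lit 76) (nat_lit 0) (XT.lf (nat_lit 0) (nat_lit 3367133542) (nat_lit 152) (nat_lit 7665533854) (nat_lit 76) (nat_lit 240938611482) (nat_lit 2) (nat_lit 5) (nat_lit 4) (nat_lit 5) (nat_lit 3) (nat_lit 4) (nat_lit 348) (nat_lit 229) (nat_lit 143)) (XT.nd (nat_lit 78) (nat_lit 76) (nat_lit 0) (XT.lf (nat_lit 0) (nat_lit 6610485911) (nat_lit 152) (nat_lit 1027266096) (nat_lit 76) (nat_lit 256740439412) (nat_lit 2) (nat_lit 5) (nat_lit 4) (nat_lit 5) (nat_lit 3) (nat_lit 4) (nat_lit 349) (nat_lit 229) (nat_lit 142)) (XT.lf (nat_lit 0) (nat_lit 6129567103) (nat_lit 76) (nat_lit 3976983597) (nat_lit 152) (nat_lit 267294375299) (nat_lit 1) (nat_lit 5) (nat_lit 2) (nat_lit 5) (nat_lit 3) (nat_lit 4) (nat_lit 350) (nat_lit 229) (nat_lit 141)))))) (XT.nd (nat_lit 312) (nat_lit 0) (nat_lit 0) (XT.nd (nat_lit 156) (nat_lit 0) (nat_lit 0) (XT.nd (nat_lit 78)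 (nat_lit 0) (nat_lit 0) (XT.lf (nat_lit 0) (nat_lit 13670527696) (nat_lit 76) (nat_lit 119232407) (nat_lit 152) (nat_lit 277284423614) (nat_lit 1) (nat_lit 5) (nat_lit 2) (nat_lit 5) (nat_lit 3) (nat_lit 4) (nat_lit 351) (nat_lit 229) (nat_lit 140)) (XT.lf (nat_lit 0) (nat_lit 17713630854) (nat_lit 152) (nat_lit 283913060089) (nat_lit 0) (nat_lit 3801591646) (nat_lit 1) (nat_lit 5) (nat_lit 3) (nat_lit 4) (nat_lit 1) (nat_lit 4) (nat_lit 352) (nat_lit 229) (nat_lit 139))) (XT.nd (nat_lit 78) (nat_lit 0) (nat_lit 0) (XT.lf (nat_lit 0) (nat_lit 21831002729) (nat_lit 152) (nat_lit 290758566910) (nat_lit 0) (nat_lit 7910654540) (nat_lit 1) (nat_lit 5) (nat_lit 3) (nat_lit 4) (nat_lit 1) (nat_lit 4) (nat_lit 353) (nat_lit 229) (nat_lit 138)) (XT.lf (nat_lit 0) (nat_lit 26149817443) (nat_lit 152) (nat_lit 297954613758) (nat_lit 0) (nat_lit 12221555940) (nat_lit 1) (nat_lit 5) (nat_lit 3)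 (nat_lit 4) (nat_lit 1) (nat_lit 4) (nat_lit 354) (nat_lit 229) (nat_lit 137)))) (XT.nd (nat_lit 156) (nat_lit 0) (nat_lit 0) (XT.nd (nat_lit 78) (nat_lit 0) (nat_lit 0) (XT.lf (nat_lit 0) (nat_lit 30680357889) (nat_lit 152) (nat_lit 305518334078) (nat_lit 0) (nat_lit 16744559895) (nat_lit 1) (nat_lit 5) (nat_lit 3) (nat_lit 4) (nat_lit 1) (nat_lit 4) (nat_lit 355) (nat_lit 229) (nat_lit 136)) (XT.lf (nat_lit 0) (nat_lit 35433411067) (nat_lit 152) (nat_lit 313467736728) (nat_lit 0) (nat_lit 21490435464) (nat_lit 1) (nat_lit 5) (nat_lit 3) (nat_lit 4) (nat_lit 1) (nat_lit 4) (nat_lit 356) (nat_lit 229) (nat_lit 135))) (XT.nd (nat_lit 78) (nat_lit 0) (nat_lit 0) (XT.lf (nat_lit 0) (nat_lit 40420293771) (nat_lit 152) (nat_lit 321821748856) (nat_lit 0) (nat_lit 26470482349) (nat_lit 1) (nat_lit 5) (nat_lit 3) (nat_lit 4) (nat_lit 1) (nat_lit 4) (nat_lit 357) (nat_lit 229) (nat_lit 134))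 (XT.nd (nat_lit 78) (nat_lit 0) (nat_lit 0) (XT.lf (nat_lit 0) (nat_lit 45652879532) (nat_lit 152) (nat_lit 330600260969) (nat_lit 0) (nat_lit 31696557806) (nat_lit 1) (nat_lit 5) (nat_lit 3) (nat_lit 4) (nat_lit 1) (nat_lit 4) (nat_lit 358) (nat_lit 229) (nat_lit 133)) (XT.lf (nat_lit 0) (nat_lit 51143626886) (nat_lit 152) (nat_lit 339824174285) (nat_lit 0) (nat_lit 37181104871) (nat_lit 1) (nat_lit 5) (nat_lit 3) (nat_lit 4) (nat_lit 1) (nat_lit 4) (nat_lit 359) (nat_lit 229) (nat_lit 132))))))) (XT.nd (nat_lit 30030) (nat_lit 0) (nat_lit 2356) (XT.nd (nat_lit 312) (nat_lit 0) (nat_lit 0) (XT.nd (nat_lit 156) (nat_lit 0) (nat_lit 0) (XT.nd (nat_lit 78) (nat_lit 0) (nat_lit 0) (XT.lf (nat_lit 0) (nat_lit 56905609041) (nat_lit 152) (nat_lit 349515450502) (nat_lit 0) (nat_lit 42937181989) (nat_lit 1) (nat_lit 5) (nat_lit 3) (nat_lit 4) (nat_lit 1) (nat_lit 4) (nat_lit 360) (nat_lit 229)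 (nat_lit 131)) (XT.lf (nat_lit 0) (nat_lit 62952545004) (nat_lit 152) (nat_lit 359697164088) (nat_lit 0) (nat_lit 48978494106) (nat_lit 1) (nat_lit 5) (nat_lit 3) (nat_lit 4) (nat_lit 1) (nat_lit 4) (nat_lit 361) (nat_lit 229) (nat_lit 130))) (XT.nd (nat_lit 78) (nat_lit 0) (nat_lit 0) (XT.lf (nat_lit 0) (nat_lit 69298832240) (nat_lit 152) (nat_lit 370393557218) (nat_lit 0) (nat_lit 55319425299) (nat_lit 1) (nat_lit 5) (nat_lit 3) (nat_lit 4) (nat_lit 1) (nat_lit 4) (nat_lit 362) (nat_lit 229) (nat_lit 129)) (XT.lf (nat_lit 0) (nat_lit 75959580956) (nat_lit 152) (nat_lit 381630097495) (nat_lit 0) (nat_lit 61975073022) (nat_lit 1) (nat_lit 5) (nat_lit 3) (nat_lit 4) (nat_lit 1) (nat_lit 4) (nat_lit 363) (nat_lit 229) (nat_lit 128)))) (XT.nd (nat_lit 29484) (nat_lit 0) (nat_lit 3952) (XT.nd (nat_lit 29406) (nat_lit 0) (nat_lit 4712) (XT.lf (nat_lit 0) (nat_lit 82950650080) (nat_lit 152)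 (nat_lit 393433538586) (nat_lit 0) (nat_lit 68961284057) (nat_lit 1) (nat_lit 5) (nat_lit 3) (nat_lit 4) (nat_lit 1) (nat_lit 4) (nat_lit 364) (nat_lit 229) (nat_lit 127)) (XT.lf (nat_lit 0) (nat_lit 2527598364) (nat_lit 380) (nat_lit 674787798) (nat_lit 380) (nat_lit 674787798) (nat_lit 63) (nat_lit 4) (nat_lit 68) (nat_lit 5) (nat_lit 68) (nat_lit 4) (nat_lit 260) (nat_lit 230) (nat_lit 230))) (XT.nd (nat_lit 78) (nat_lit 380) (nat_lit 0) (XT.lf (nat_lit 0) (nat_lit 1906515945) (nat_lit 380) (nat_lit 5350169661) (nat_lit 0) (nat_lit 641646942) (nat_lit 58) (nat_lit 5) (nat_lit 63) (nat_lit 4) (nat_lit 58) (nat_lit 4) (nat_lit 261) (nat_lit 230) (nat_lit 229)) (XT.nd (nat_lit 78) (nat_lit 380) (nat_lit 0) (XT.lf (nat_lit 0) (nat_lit 5201429376) (nat_lit 380) (nat_lit 119446313) (nat_lit 0) (nat_lit 2731923227) (nat_lit 58) (nat_lit 5) (nat_lit 63) (nat_lit 4) (nat_lit 58) (nat_lit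 4) (nat_lit 262) (nat_lit 230) (nat_lit 228)) (XT.lf (nat_lit 0) (nat_lit 374186766) (nat_lit 380) (nat_lit 2849696750) (nat_lit 76) (nat_lit 4994053400) (nat_lit 53) (nat_lit 5) (nat_lit 58) (nat_lit 5) (nat_lit 54) (nat_lit 4) (nat_lit 263) (nat_lit 230) (nat_lit 227)))))) (XT.nd (nat_lit 312) (nat_lit 760) (nat_lit 0) (XT.nd (nat_lit 156) (nat_lit 608) (nat_lit 0) (XT.nd (nat_lit 78) (nat_lit 0) (nat_lit 0) (XT.lf (nat_lit 0) (nat_lit 2607410132) (nat_lit 228) (nat_lit 961775797) (nat_lit 304) (nat_lit 4825004257) (nat_lit 50) (nat_lit 5) (nat_lit 53) (nat_lit 5) (nat_lit 54) (nat_lit 4) (nat_lit 264) (nat_lit 230) (nat_lit 226)) (XT.lf (nat_lit 0) (nat_lit 6859693527) (nat_lit 304) (nat_lit 339678216) (nat_lit 0) (nat_lit 1383472687) (nat_lit 50) (nat_lit 5) (nat_lit 54) (nat_lit 4) (nat_lit 50) (nat_lit 4) (nat_lit 265) (nat_lit 230) (nat_lit 225))) (XT.nd (nat_lit 78) (nat_lit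 228) (nat_lit 0) (XT.lf (nat_lit 0) (nat_lit 1454535884) (nat_lit 380) (nat_lit 3438287002) (nat_lit 76) (nat_lit 3888760826) (nat_lit 45) (nat_lit 5) (nat_lit 50) (nat_lit 5) (nat_lit 46) (nat_lit 4) (nat_lit 266) (nat_lit 230) (nat_lit 224)) (XT.lf (nat_lit 0) (nat_lit 2204733463) (nat_lit 228) (nat_lit 2440992299) (nat_lit 304) (nat_lit 4347820387) (nat_lit 42) (nat_lit 5) (nat_lit 45) (nat_lit 5) (nat_lit 46) (nat_lit 4) (nat_lit 267) (nat_lit 230) (nat_lit 223)))) (XT.nd (nat_lit 156) (nat_lit 456) (nat_lit 0) (XT.nd (nat_lit 78) (nat_lit 304) (nat_lit 0) (XT.lf (nat_lit 0) (nat_lit 7932809510) (nat_lit 304) (nat_lit 1139806670) (nat_lit 0) (nat_lit 146983339) (nat_lit 42) (nat_lit 5) (nat_lit 46) (nat_lit 4) (nat_lit 42) (nat_lit 4) (nat_lit 268) (nat_lit 230) (nat_lit 222)) (XT.lf (nat_lit 0) (nat_lit 1860256563) (nat_lit 304) (nat_lit 4748820060) (nat_lit 76) (nat_lit 2846922661)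 (nat_lit 38) (nat_lit 5) (nat_lit 42) (nat_lit 5) (nat_lit 39) (nat_lit 4) (nat_lit 269) (nat_lit 230) (nat_lit 221))) (XT.nd (nat_lit 78) (nat_lit 304) (nat_lit 0) (XT.lf (nat_lit 0) (nat_lit 1028197715) (nat_lit 152) (nat_lit 4010868841) (nat_lit 228) (nat_lit 4668482337) (nat_lit 36) (nat_lit 5) (nat_lit 38) (nat_lit 5) (nat_lit 39) (nat_lit 4) (nat_lit 270) (nat_lit 230) (nat_lit 220)) (XT.nd (nat_lit 78) (nat_lit 304) (nat_lit 0) (XT.lf (nat_lit 0) (nat_lit 7095482515) (nat_lit 152) (nat_lit 1246809011) (nat_lit 228) (nat_lit 1631365382) (nat_lit 36) (nat_lit 5) (nat_lit 38) (nat_lit 5) (nat_lit 39) (nat_lit 4) (nat_lit 271) (nat_lit 230) (nat_lit 219)) (XT.lf (nat_lit 0) (nat_lit 1471402039) (nat_lit 304) (nat_lit 7152199299) (nat_lit 76) (nat_lit 1630301642) (nat_lit 32) (nat_lit 5) (nat_lit 36) (nat_lit 5) (nat_lit 33) (nat_lit 4) (nat_lit 272) (nat_lit 230) (nat_lit 218))))))))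
noncomputable def xc78 : XT := (XT.nd (nat_lit 1404) (nat_lit 532) (nat_lit 0) (XT.nd (nat_lit 702) (nat_lit 532) (nat_lit 0) (XT.nd (nat_lit 312) (nat_lit 456) (nat_lit 0) (XT.nd (nat_lit 156) (nat_lit 228) (nat_lit 0) (XT.nd (nat_lit 78) (nat_lit 152) (nat_lit 0) (XT.lf (nat_lit 0) (nat_lit 4635063547) (nat_lit 304) (nat_lit 1275116824) (nat_lit 76) (nat_lit 4638834761) (nat_lit 32) (nat_lit 5) (nat_lit 36) (nat_lit 5) (nat_lit 33) (nat_lit 4) (nat_lit 273) (nat_lit 230) (nat_lit 217)) (XT.lf (nat_lit 0) (nat_lit 4898399380) (nat_lit 152) (nat_lit 3030794542) (nat_lit 228) (nat_lit 2931284183) (nat_lit 30) (nat_lit 5) (nat_lit 32) (nat_lit 5) (nat_lit 33) (nat_lit 4) (nat_lit 274) (nat_lit 230) (nat_lit 216))) (XT.nd (nat_lit 78) (nat_lit 0) (nat_lit 0) (XT.lf (nat_lit 0) (nat_lit 82250495) (nat_lit 152) (nat_lit 31623416) (nat_lit 228) (nat_lit 11077685053) (nat_lit 27) (nat_lit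 5) (nat_lit 29) (nat_lit 5) (nat_lit 30) (nat_lit 5) (nat_lit 275) (nat_lit 230) (nat_lit 215)) (XT.lf (nat_lit 0) (nat_lit 3262351027) (nat_lit 228) (nat_lit 5153976121) (nat_lit 76) (nat_lit 3118166427) (nat_lit 27) (nat_lit 5) (nat_lit 30) (nat_lit 5) (nat_lit 28) (nat_lit 4) (nat_lit 276) (nat_lit 230) (nat_lit 214)))) (XT.nd (nat_lit 156) (nat_lit 304) (nat_lit 0) (XT.nd (nat_lit 78) (nat_lit 0) (nat_lit 0) (XT.lf (nat_lit 0) (nat_lit 980230526) (nat_lit 152) (nat_lit 5506960731) (nat_lit 228) (nat_lit 5411609054) (nat_lit 25) (nat_lit 5) (nat_lit 27) (nat_lit 5) (nat_lit 28) (nat_lit 4) (nat_lit 277) (nat_lit 230) (nat_lit 213)) (XT.lf (nat_lit 0) (nat_lit 7452749798) (nat_lit 152) (nat_lit 2413238699) (nat_lit 228) (nat_lit 2415862287) (nat_lit 25) (nat_lit 5) (nat_lit 27) (nat_lit 5) (nat_lit 28) (nat_lit 4) (nat_lit 278) (nat_lit 230) (nat_lit 212))) (XT.nd (nat_lit 78) (nat_lit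 76) (nat_lit 0) (XT.lf (nat_lit 0) (nat_lit 650154465) (nat_lit 228) (nat_lit 11243299468) (nat_lit 76) (nat_lit 792987291) (nat_lit 22) (nat_lit 5) (nat_lit 25) (nat_lit 5) (nat_lit 23) (nat_lit 4) (nat_lit 279) (nat_lit 230) (nat_lit 211)) (XT.nd (nat_lit 78) (nat_lit 76) (nat_lit 0) (XT.lf (nat_lit 0) (nat_lit 3820629573) (nat_lit 228) (nat_lit 5136020786) (nat_lit 76) (nat_lit 4151155094) (nat_lit 22) (nat_lit 5) (nat_lit 25) (nat_lit 5) (nat_lit 23) (nat_lit 4) (nat_lit 280) (nat_lit 230) (nat_lit 210)) (XT.lf (nat_lit 0) (nat_lit 1176176756) (nat_lit 76) (nat_lit 5905778117) (nat_lit 152) (nat_lit 6471801746) (nat_lit 21) (nat_lit 5) (nat_lit 22) (nat_lit 5) (nat_lit 23) (nat_lit 4) (nat_lit 281) (nat_lit 230) (nat_lit 209)))))) (XT.nd (nat_lit 312) (nat_lit 304) (nat_lit 0) (XT.nd (nat_lit 156) (nat_lit 76) (nat_lit 0) (XT.nd (nat_lit 78) (nat_lit 152) (nat_lit 0) (XT.lf (nat_lit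 0) (nat_lit 7846432403) (nat_lit 76) (nat_lit 2662833852) (nat_lit 152) (nat_lit 3512721711) (nat_lit 21) (nat_lit 5) (nat_lit 22) (nat_lit 5) (nat_lit 23) (nat_lit 4) (nat_lit 282) (nat_lit 230) (nat_lit 208)) (XT.lf (nat_lit 0) (nat_lit 198589009) (nat_lit 152) (nat_lit 13843214930) (nat_lit 152) (nat_lit 475256398) (nat_lit 19) (nat_lit 4) (nat_lit 21) (nat_lit 5) (nat_lit 21) (nat_lit 4) (nat_lit 283) (nat_lit 230) (nat_lit 207))) (XT.nd (nat_lit 78) (nat_lit 0) (nat_lit 0) (XT.lf (nat_lit 0) (nat_lit 2696741159) (nat_lit 228) (nat_lit 8146934425) (nat_lit 76) (nat_lit 4187726796) (nat_lit 18) (nat_lit 5) (nat_lit 21) (nat_lit 5) (nat_lit 19) (nat_lit 4) (nat_lit 284) (nat_lit 230) (nat_lit 206)) (XT.lf (nat_lit 0) (nat_lit 5934769719) (nat_lit 228) (nat_lit 1801638041) (nat_lit 76) (nat_lit 7838599881) (nat_lit 18) (nat_lit 5) (nat_lit 21) (nat_lit 5) (nat_lit 19) (nat_lit 4) (nat_lit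 285) (nat_lit 230) (nat_lit 205)))) (XT.nd (nat_lit 156) (nat_lit 228) (nat_lit 0) (XT.nd (nat_lit 78) (nat_lit 0) (nat_lit 0) (XT.lf (nat_lit 0) (nat_lit 4896669770) (nat_lit 76) (nat_lit 4441531012) (nat_lit 152) (nat_lit 6807518102) (nat_lit 17) (nat_lit 5) (nat_lit 18) (nat_lit 5) (nat_lit 19) (nat_lit 4) (nat_lit 286) (nat_lit 230) (nat_lit 204)) (XT.lf (nat_lit 0) (nat_lit 11873415622) (nat_lit 76) (nat_lit 997565190) (nat_lit 152) (nat_lit 3876121983) (nat_lit 17) (nat_lit 5) (nat_lit 18) (nat_lit 5) (nat_lit 19) (nat_lit 4) (nat_lit 287) (nat_lit 230) (nat_lit 203))) (XT.nd (nat_lit 78) (nat_lit 76) (nat_lit 0) (XT.lf (nat_lit 0) (nat_lit 1718422066) (nat_lit 152) (nat_lit 14861044347) (nat_lit 152) (nat_lit 799227563) (nat_lit 15) (nat_lit 4) (nat_lit 17) (nat_lit 5) (nat_lit 17) (nat_lit 4) (nat_lit 288) (nat_lit 230) (nat_lit 202)) (XT.nd (nat_lit 78) (nat_lit 0) (nat_lit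 0) (XT.lf (nat_lit 0) (nat_lit 2385586025) (nat_lit 228) (nat_lit 9400673894) (nat_lit 76) (nat_lit 6252194670) (nat_lit 14) (nat_lit 5) (nat_lit 17) (nat_lit 5) (nat_lit 15) (nat_lit 4) (nat_lit 289) (nat_lit 230) (nat_lit 201)) (XT.lf (nat_lit 0) (nat_lit 5637688758) (nat_lit 228) (nat_lit 2952252304) (nat_lit 76) (nat_lit 10143940637) (nat_lit 14) (nat_lit 5) (nat_lit 17) (nat_lit 5) (nat_lit 15) (nat_lit 4) (nat_lit 290) (nat_lit 230) (nat_lit 200))))))) (XT.nd (nat_lit 702) (nat_lit 228) (nat_lit 0) (XT.nd (nat_lit 312) (nat_lit 152) (nat_lit 0) (XT.nd (nat_lit 156) (nat_lit 76) (nat_lit 0) (XT.nd (nat_lit 78) (nat_lit 0) (nat_lit 0) (XT.lf (nat_lit 0) (nat_lit 3835587170) (nat_lit 76) (nat_lit 5214701104) (nat_lit 152) (nat_lit 10413972507) (nat_lit 13) (nat_lit 5) (nat_lit 14) (nat_lit 5) (nat_lit 15) (nat_lit 4) (nat_lit 291) (nat_lit 230) (nat_lit 199)) (XT.lf (nat_lit 0) (nat_lit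 10961254116) (nat_lit 76) (nat_lit 1661596216) (nat_lit 152) (nat_lit 7608913476) (nat_lit 13) (nat_lit 5) (nat_lit 14) (nat_lit 5) (nat_lit 15) (nat_lit 4) (nat_lit 292) (nat_lit 230) (nat_lit 198))) (XT.nd (nat_lit 78) (nat_lit 76) (nat_lit 0) (XT.lf (nat_lit 0) (nat_lit 16347924253) (nat_lit 152) (nat_lit 2728159598) (nat_lit 0) (nat_lit 1962932153) (nat_lit 13) (nat_lit 5) (nat_lit 15) (nat_lit 4) (nat_lit 13) (nat_lit 4) (nat_lit 293) (nat_lit 230) (nat_lit 197)) (XT.lf (nat_lit 0) (nat_lit 4150317585) (nat_lit 76) (nat_lit 16145331954) (nat_lit 76) (nat_lit 1589226349) (nat_lit 12) (nat_lit 4) (nat_lit 13) (nat_lit 5) (nat_lit 13) (nat_lit 4) (nat_lit 294) (nat_lit 230) (nat_lit 196)))) (XT.nd (nat_lit 156) (nat_lit 76) (nat_lit 0) (XT.nd (nat_lit 78) (nat_lit 0) (nat_lit 0) (XT.lf (nat_lit 0) (nat_lit 1605887831) (nat_lit 152) (nat_lit 11427000793) (nat_lit 76) (nat_lit 9739320495)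 (nat_lit 11) (nat_lit 5) (nat_lit 13) (nat_lit 5) (nat_lit 12) (nat_lit 4) (nat_lit 295) (nat_lit 230) (nat_lit 195)) (XT.lf (nat_lit 0) (nat_lit 4854561898) (nat_lit 152) (nat_lit 4922423950) (nat_lit 76) (nat_lit 13928316004) (nat_lit 11) (nat_lit 5) (nat_lit 13) (nat_lit 5) (nat_lit 12) (nat_lit 4) (nat_lit 296) (nat_lit 230) (nat_lit 194))) (XT.nd (nat_lit 78) (nat_lit 0) (nat_lit 0) (XT.lf (nat_lit 0) (nat_lit 1879631536) (nat_lit 76) (nat_lit 6365110735) (nat_lit 152) (nat_lit 16441406763) (nat_lit 10) (nat_lit 5) (nat_lit 11) (nat_lit 5) (nat_lit 12) (nat_lit 4) (nat_lit 297) (nat_lit 230) (nat_lit 193)) (XT.nd (nat_lit 78) (nat_lit 0) (nat_lit 0) (XT.lf (nat_lit 0) (nat_lit 9106193002) (nat_lit 76) (nat_lit 2732372182) (nat_lit 152) (nat_lit 13875817613) (nat_lit 10) (nat_lit 5) (nat_lit 11) (nat_lit 5) (nat_lit 12) (nat_lit 4) (nat_lit 298) (nat_lit 230) (nat_lit 192)) (XT.lf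 (nat_lit 0) (nat_lit 15581532462) (nat_lit 152) (nat_lit 10201051073) (nat_lit 0) (nat_lit 1013020525) (nat_lit 10) (nat_lit 5) (nat_lit 12) (nat_lit 4) (nat_lit 10) (nat_lit 4) (nat_lit 299) (nat_lit 230) (nat_lit 191)))))) (XT.nd (nat_lit 312) (nat_lit 76) (nat_lit 0) (XT.nd (nat_lit 156) (nat_lit 76) (nat_lit 0) (XT.nd (nat_lit 78) (nat_lit 76) (nat_lit 0) (XT.lf (nat_lit 0) (nat_lit 19511260250) (nat_lit 152) (nat_lit 3598550558) (nat_lit 0) (nat_lit 4821141138) (nat_lit 10) (nat_lit 5) (nat_lit 12) (nat_lit 4) (nat_lit 10) (nat_lit 4) (nat_lit 300) (nat_lit 230) (nat_lit 190)) (XT.lf (nat_lit 0) (nat_lit 3365405986) (nat_lit 76) (nat_lit 20281582486) (nat_lit 76) (nat_lit 5475647019) (nat_lit 9) (nat_lit 4) (nat_lit 10) (nat_lit 5) (nat_lit 10) (nat_lit 4) (nat_lit 301) (nat_lit 230) (nat_lit 189))) (XT.nd (nat_lit 78) (nat_lit 76) (nat_lit 0) (XT.lf (nat_lit 0) (nat_lit 10727342886)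 (nat_lit 76) (nat_lit 17280949741) (nat_lit 76) (nat_lit 2364712983) (nat_lit 9) (nat_lit 4) (nat_lit 10) (nat_lit 5) (nat_lit 10) (nat_lit 4) (nat_lit 302) (nat_lit 230) (nat_lit 188)) (XT.lf (nat_lit 0) (nat_lit 832062459) (nat_lit 152) (nat_lit 13315557565) (nat_lit 76) (nat_lit 17539650390) (nat_lit 8) (nat_lit 5) (nat_lit 10) (nat_lit 5) (nat_lit 9) (nat_lit 4) (nat_lit 303) (nat_lit 230) (nat_lit 187)))) (XT.nd (nat_lit 156) (nat_lit 0) (nat_lit 0) (XT.nd (nat_lit 78) (nat_lit 76) (nat_lit 0) (XT.lf (nat_lit 0) (nat_lit 4070308624) (nat_lit 152) (nat_lit 6777199449) (nat_lit 76) (nat_lit 22219783179) (nat_lit 8) (nat_lit 5) (nat_lit 10) (nat_lit 5) (nat_lit 9) (nat_lit 4) (nat_lit 304) (nat_lit 230) (nat_lit 186)) (XT.lf (nat_lit 0) (nat_lit 22623019) (nat_lit 76) (nat_lit 7411151396) (nat_lit 152) (nat_lit 27084407800) (nat_lit 7) (nat_lit 5) (nat_lit 8) (nat_lit 5) (nat_lit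 9) (nat_lit 4) (nat_lit 305) (nat_lit 230) (nat_lit 185))) (XT.nd (nat_lit 78) (nat_lit 0) (nat_lit 0) (XT.lf (nat_lit 0) (nat_lit 7332615421) (nat_lit 76) (nat_lit 3711274870) (nat_lit 152) (nat_lit 24993836402) (nat_lit 7) (nat_lit 5) (nat_lit 8) (nat_lit 5) (nat_lit 9) (nat_lit 4) (nat_lit 306) (nat_lit 230) (nat_lit 184)) (XT.nd (nat_lit 78) (nat_lit 0) (nat_lit 0) (XT.lf (nat_lit 0) (nat_lit 14802223999) (nat_lit 152) (nat_lit 22691192355) (nat_lit 0) (nat_lit 141477689) (nat_lit 7) (nat_lit 5) (nat_lit 9) (nat_lit 4) (nat_lit 7) (nat_lit 4) (nat_lit 307) (nat_lit 230) (nat_lit 183)) (XT.lf (nat_lit 0) (nat_lit 18775983272) (nat_lit 152) (nat_lit 16497742909) (nat_lit 0) (nat_lit 4036847893) (nat_lit 7) (nat_lit 5) (nat_lit 9) (nat_lit 4) (nat_lit 7) (nat_lit 4) (nat_lit 308) (nat_lit 230) (nat_lit 182))))))))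
noncomputable def xc79 : XT := (XT.nd (nat_lit 1404) (nat_lit 76) (nat_lit 0) (XT.nd (nat_lit 702) (nat_lit 76) (nat_lit 0) (XT.nd (nat_lit 312) (nat_lit 76) (nat_lit 0) (XT.nd (nat_lit 156) (nat_lit 76) (nat_lit 0) (XT.nd (nat_lit 78) (nat_lit 0) (nat_lit 0) (XT.lf (nat_lit 0) (nat_lit 22916686040) (nat_lit 152) (nat_lit 10052073225) (nat_lit 0) (nat_lit 8102894406) (nat_lit 7) (nat_lit 5) (nat_lit 9) (nat_lit 4) (nat_lit 7) (nat_lit 4) (nat_lit 309) (nat_lit 230) (nat_lit 181)) (XT.lf (nat_lit 0) (nat_lit 27234191121) (nat_lit 152) (nat_lit 3338836471) (nat_lit 0) (nat_lit 12349298291) (nat_lit 7) (nat_lit 5) (nat_lit 9) (nat_lit 4) (nat_lit 7) (nat_lit 4) (nat_lit 310) (nat_lit 230) (nat_lit 180))) (XT.nd (nat_lit 78) (nat_lit 0) (nat_lit 0) (XT.lf (nat_lit 0) (nat_lit 3778899637) (nat_lit 76) (nat_lit 28018877863) (nat_lit 76) (nat_lit 13066269609) (nat_lit 6) (nat_lit 4) (nat_lit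 7) (nat_lit 5) (nat_lit 7) (nat_lit 4) (nat_lit 311) (nat_lit 230) (nat_lit 179)) (XT.lf (nat_lit 0) (nat_lit 11317169043) (nat_lit 76) (nat_lit 25300696429) (nat_lit 76) (nat_lit 10283597294) (nat_lit 6) (nat_lit 4) (nat_lit 7) (nat_lit 5) (nat_lit 7) (nat_lit 4) (nat_lit 312) (nat_lit 230) (nat_lit 178)))) (XT.nd (nat_lit 156) (nat_lit 76) (nat_lit 0) (XT.nd (nat_lit 78) (nat_lit 0) (nat_lit 0) (XT.lf (nat_lit 0) (nat_lit 19183522992) (nat_lit 76) (nat_lit 22468556240) (nat_lit 76) (nat_lit 7390037219) (nat_lit 6) (nat_lit 4) (nat_lit 7) (nat_lit 5) (nat_lit 7) (nat_lit 4) (nat_lit 313) (nat_lit 230) (nat_lit 177)) (XT.lf (nat_lit 0) (nat_lit 27396690899) (nat_lit 76) (nat_lit 19515714107) (nat_lit 76) (nat_lit 4378699956) (nat_lit 6) (nat_lit 4) (nat_lit 7) (nat_lit 5) (nat_lit 7) (nat_lit 4) (nat_lit 314) (nat_lit 230) (nat_lit 176))) (XT.nd (nat_lit 78) (nat_lit 76) (nat_lit 0)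 (XT.lf (nat_lit 0) (nat_lit 35976227927) (nat_lit 76) (nat_lit 16435139452) (nat_lit 76) (nat_lit 1242415654) (nat_lit 6) (nat_lit 4) (nat_lit 7) (nat_lit 5) (nat_lit 7) (nat_lit 4) (nat_lit 315) (nat_lit 230) (nat_lit 175)) (XT.nd (nat_lit 78) (nat_lit 0) (nat_lit 0) (XT.lf (nat_lit 0) (nat_lit 1961429318) (nat_lit 152) (nat_lit 11224850501) (nat_lit 76) (nat_lit 42947914469) (nat_lit 5) (nat_lit 5) (nat_lit 7) (nat_lit 5) (nat_lit 6) (nat_lit 4) (nat_lit 316) (nat_lit 230) (nat_lit 174)) (XT.lf (nat_lit 0) (nat_lit 5261219051) (nat_lit 152) (nat_lit 4510811841) (nat_lit 76) (nat_lit 48966719819) (nat_lit 5) (nat_lit 5) (nat_lit 7) (nat_lit 5) (nat_lit 6) (nat_lit 4) (nat_lit 317) (nat_lit 230) (nat_lit 173)))))) (XT.nd (nat_lit 312) (nat_lit 0) (nat_lit 0) (XT.nd (nat_lit 156) (nat_lit 0) (nat_lit 0) (XT.nd (nat_lit 78) (nat_lit 0) (nat_lit 0) (XT.lf (nat_lit 0) (nat_lit 2582603716)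 (nat_lit 76) (nat_lit 6162293211) (nat_lit 152) (nat_lit 52727710495) (nat_lit 4) (nat_lit 5) (nat_lit 5) (nat_lit 5) (nat_lit 6) (nat_lit 4) (nat_lit 318) (nat_lit 230) (nat_lit 172)) (XT.lf (nat_lit 0) (nat_lit 10148939553) (nat_lit 76) (nat_lit 2309210204) (nat_lit 152) (nat_lit 51882254229) (nat_lit 4) (nat_lit 5) (nat_lit 5) (nat_lit 5) (nat_lit 6) (nat_lit 4) (nat_lit 319) (nat_lit 230) (nat_lit 171))) (XT.nd (nat_lit 78) (nat_lit 0) (nat_lit 0) (XT.lf (nat_lit 0) (nat_lit 16363917600) (nat_lit 152) (nat_lit 49322397310) (nat_lit 0) (nat_lit 1664948631) (nat_lit 4) (nat_lit 5) (nat_lit 6) (nat_lit 4) (nat_lit 4) (nat_lit 4) (nat_lit 320) (nat_lit 230) (nat_lit 170)) (XT.lf (nat_lit 0) (nat_lit 20483534804) (nat_lit 152) (nat_lit 44283244221) (nat_lit 0) (nat_lit 5744974030) (nat_lit 4) (nat_lit 5) (nat_lit 6) (nat_lit 4) (nat_lit 4) (nat_lit 4) (nat_lit 321) (nat_lit 230) (nat_lit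 169)))) (XT.nd (nat_lit 156) (nat_lit 0) (nat_lit 0) (XT.nd (nat_lit 78) (nat_lit 0) (nat_lit 0) (XT.lf (nat_lit 0) (nat_lit 24790756741) (nat_lit 152) (nat_lit 39025953941) (nat_lit 0) (nat_lit 10014489485) (nat_lit 4) (nat_lit 5) (nat_lit 6) (nat_lit 4) (nat_lit 4) (nat_lit 4) (nat_lit 322) (nat_lit 230) (nat_lit 168)) (XT.lf (nat_lit 0) (nat_lit 29295838701) (nat_lit 152) (nat_lit 33538009112) (nat_lit 0) (nat_lit 14483660509) (nat_lit 4) (nat_lit 5) (nat_lit 6) (nat_lit 4) (nat_lit 4) (nat_lit 4) (nat_lit 323) (nat_lit 230) (nat_lit 167))) (XT.nd (nat_lit 78) (nat_lit 0) (nat_lit 0) (XT.lf (nat_lit 0) (nat_lit 34009507068) (nat_lit 152) (nat_lit 27806343197) (nat_lit 0) (nat_lit 19163127985) (nat_lit 4) (nat_lit 5) (nat_lit 6) (nat_lit 4) (nat_lit 4) (nat_lit 4) (nat_lit 324) (nat_lit 230) (nat_lit 166)) (XT.nd (nat_lit 78) (nat_lit 0) (nat_lit 0) (XT.lf (nat_lit 0) (nat_lit 38942984863)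 (nat_lit 152) (nat_lit 21817309375) (nat_lit 0) (nat_lit 24064033503) (nat_lit 4) (nat_lit 5) (nat_lit 6) (nat_lit 4) (nat_lit 4) (nat_lit 4) (nat_lit 325) (nat_lit 230) (nat_lit 165)) (XT.lf (nat_lit 0) (nat_lit 44108018462) (nat_lit 152) (nat_lit 15556648040) (nat_lit 0) (nat_lit 29198045886) (nat_lit 4) (nat_lit 5) (nat_lit 6) (nat_lit 4) (nat_lit 4) (nat_lit 4) (nat_lit 326) (nat_lit 230) (nat_lit 164))))))) (XT.nd (nat_lit 702) (nat_lit 0) (nat_lit 0) (XT.nd (nat_lit 312) (nat_lit 0) (nat_lit 0) (XT.nd (nat_lit 156) (nat_lit 76) (nat_lit 0) (XT.nd (nat_lit 78) (nat_lit 0) (nat_lit 0) (XT.lf (nat_lit 0) (nat_lit 49516905563) (nat_lit 152) (nat_lit 9009452856) (nat_lit 0) (nat_lit 34577388972) (nat_lit 4) (nat_lit 5) (nat_lit 6) (nat_lit 4) (nat_lit 4) (nat_lit 4) (nat_lit 327) (nat_lit 230) (nat_lit 163)) (XT.lf (nat_lit 0) (nat_lit 55182524470) (nat_lit 152) (nat_lit 2160135262)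 (nat_lit 0) (nat_lit 40214870721) (nat_lit 4) (nat_lit 5) (nat_lit 6) (nat_lit 4) (nat_lit 4) (nat_lit 4) (nat_lit 328) (nat_lit 230) (nat_lit 162))) (XT.nd (nat_lit 78) (nat_lit 0) (nat_lit 0) (XT.lf (nat_lit 0) (nat_lit 5173186927) (nat_lit 76) (nat_lit 56025945769) (nat_lit 76) (nat_lit 41031494727) (nat_lit 3) (nat_lit 4) (nat_lit 4) (nat_lit 5) (nat_lit 4) (nat_lit 4) (nat_lit 329) (nat_lit 230) (nat_lit 161)) (XT.lf (nat_lit 0) (nat_lit 12924522344) (nat_lit 76) (nat_lit 54615825028) (nat_lit 76) (nat_lit 39595852755) (nat_lit 3) (nat_lit 4) (nat_lit 4) (nat_lit 5) (nat_lit 4) (nat_lit 4) (nat_lit 330) (nat_lit 230) (nat_lit 160)))) (XT.nd (nat_lit 156) (nat_lit 0) (nat_lit 0) (XT.nd (nat_lit 78) (nat_lit 0) (nat_lit 0) (XT.lf (nat_lit 0) (nat_lit 21040902722) (nat_lit 76) (nat_lit 53145523017) (nat_lit 76) (nat_lit 38101244809) (nat_lit 3) (nat_lit 4) (nat_lit 4) (nat_lit 5)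 (nat_lit 4) (nat_lit 4) (nat_lit 331) (nat_lit 230) (nat_lit 159)) (XT.lf (nat_lit 0) (nat_lit 29541652775) (nat_lit 76) (nat_lit 51611539015) (nat_lit 76) (nat_lit 36544112298) (nat_lit 3) (nat_lit 4) (nat_lit 4) (nat_lit 5) (nat_lit 4) (nat_lit 4) (nat_lit 332) (nat_lit 230) (nat_lit 158))) (XT.nd (nat_lit 78) (nat_lit 0) (nat_lit 0) (XT.lf (nat_lit 0) (nat_lit 38447012385) (nat_lit 76) (nat_lit 50010220680) (nat_lit 76) (nat_lit 34920747764) (nat_lit 3) (nat_lit 4) (nat_lit 4) (nat_lit 5) (nat_lit 4) (nat_lit 4) (nat_lit 333) (nat_lit 230) (nat_lit 157)) (XT.nd (nat_lit 78) (nat_lit 0) (nat_lit 0) (XT.lf (nat_lit 0) (nat_lit 47778184789) (nat_lit 76) (nat_lit 48337755349) (nat_lit 76) (nat_lit 33227286053) (nat_lit 3) (nat_lit 4) (nat_lit 4) (nat_lit 5) (nat_lit 4) (nat_lit 4) (nat_lit 334) (nat_lit 230) (nat_lit 156)) (XT.lf (nat_lit 0) (nat_lit 57557387063) (nat_lit 76) (nat_lit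 46590160962) (nat_lit 76) (nat_lit 31459695113) (nat_lit 3) (nat_lit 4) (nat_lit 4) (nat_lit 5) (nat_lit 4) (nat_lit 4) (nat_lit 335) (nat_lit 230) (nat_lit 155)))))) (XT.nd (nat_lit 390) (nat_lit 0) (nat_lit 0) (XT.nd (nat_lit 156) (nat_lit 0) (nat_lit 0) (XT.nd (nat_lit 78) (nat_lit 0) (nat_lit 0) (XT.lf (nat_lit 0) (nat_lit 67807903024) (nat_lit 76) (nat_lit 44763276580) (nat_lit 76) (nat_lit 29613766395) (nat_lit 3) (nat_lit 4) (nat_lit 4) (nat_lit 5) (nat_lit 4) (nat_lit 4) (nat_lit 336) (nat_lit 230) (nat_lit 154)) (XT.lf (nat_lit 0) (nat_lit 78554138660) (nat_lit 76) (nat_lit 42852752478) (nat_lit 76) (nat_lit 27685104831) (nat_lit 3) (nat_lit 4) (nat_lit 4) (nat_lit 5) (nat_lit 4) (nat_lit 4) (nat_lit 337) (nat_lit 230) (nat_lit 153))) (XT.nd (nat_lit 78) (nat_lit 0) (nat_lit 0) (XT.lf (nat_lit 0) (nat_lit 89821680249) (nat_lit 76) (nat_lit 40854039790) (nat_lit 76) (nat_lit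 25669118368) (nat_lit 3) (nat_lit 4) (nat_lit 4) (nat_lit 5) (nat_lit 4) (nat_lit 4) (nat_lit 338) (nat_lit 230) (nat_lit 152)) (XT.nd (nat_lit 78) (nat_lit 0) (nat_lit 0) (XT.lf (nat_lit 0) (nat_lit 101637355269) (nat_lit 76) (nat_lit 38762379675) (nat_lit 76) (nat_lit 23561007040) (nat_lit 3) (nat_lit 4) (nat_lit 4) (nat_lit 5) (nat_lit 4) (nat_lit 4) (nat_lit 339) (nat_lit 230) (nat_lit 151)) (XT.lf (nat_lit 0) (nat_lit 114029296279) (nat_lit 76) (nat_lit 36572791990) (nat_lit 76) (nat_lit 21355751533) (nat_lit 3) (nat_lit 4) (nat_lit 4) (nat_lit 5) (nat_lit 4) (nat_lit 4) (nat_lit 340) (nat_lit 230) (nat_lit 150))))) (XT.nd (nat_lit 156) (nat_lit 0) (nat_lit 0) (XT.nd (nat_lit 78) (nat_lit 0) (nat_lit 0) (XT.lf (nat_lit 0) (nat_lit 127027007903) (nat_lit 76) (nat_lit 34280063431) (nat_lit 76) (nat_lit 19048101239) (nat_lit 3) (nat_lit 4) (nat_lit 4) (nat_lit 5) (nat_lit 4) (nat_lit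 4) (nat_lit 341) (nat_lit 230) (nat_lit 149)) (XT.lf (nat_lit 0) (nat_lit 140661437071) (nat_lit 76) (nat_lit 31878735122) (nat_lit 76) (nat_lit 16632561753) (nat_lit 3) (nat_lit 4) (nat_lit 4) (nat_lit 5) (nat_lit 4) (nat_lit 4) (nat_lit 342) (nat_lit 230) (nat_lit 148))) (XT.nd (nat_lit 78) (nat_lit 0) (nat_lit 0) (XT.lf (nat_lit 0) (nat_lit 154965046712) (nat_lit 76) (nat_lit 29363089613) (nat_lit 76) (nat_lit 14103381790) (nat_lit 3) (nat_lit 4) (nat_lit 4) (nat_lit 5) (nat_lit 4) (nat_lit 4) (nat_lit 343) (nat_lit 230) (nat_lit 147)) (XT.nd (nat_lit 78) (nat_lit 0) (nat_lit 0) (XT.lf (nat_lit 0) (nat_lit 169971893037) (nat_lit 76) (nat_lit 26727137272) (nat_lit 76) (nat_lit 11454539493) (nat_lit 3) (nat_lit 4) (nat_lit 4) (nat_lit 5) (nat_lit 4) (nat_lit 4) (nat_lit 344) (nat_lit 230) (nat_lit 146)) (XT.lf (nat_lit 0) (nat_lit 185717706633) (nat_lit 76) (nat_lit 23964602022) (nat_lit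 76) (nat_lit 8679728095) (nat_lit 3) (nat_lit 4) (nat_lit 4) (nat_lit 5) (nat_lit 4) (nat_lit 4) (nat_lit 345) (nat_lit 230) (nat_lit 145))))))))
noncomputable def xc80 : XT := (XT.nd (nat_lit 1404) (nat_lit 0) (nat_lit 0) (XT.nd (nat_lit 702) (nat_lit 0) (nat_lit 0) (XT.nd (nat_lit 312) (nat_lit 76) (nat_lit 0) (XT.nd (nat_lit 156) (nat_lit 76) (nat_lit 0) (XT.nd (nat_lit 78) (nat_lit 0) (nat_lit 0) (XT.lf (nat_lit 0) (nat_lit 202239977534) (nat_lit 76) (nat_lit 21068906399) (nat_lit 76) (nat_lit 5772340902) (nat_lit 3) (nat_lit 4) (nat_lit 4) (nat_lit 5) (nat_lit 4) (nat_lit 4) (nat_lit 346) (nat_lit 230) (nat_lit 144)) (XT.lf (nat_lit 0) (nat_lit 219578044479) (nat_lit 76) (nat_lit 18033155889) (nat_lit 76) (nat_lit 2725455563) (nat_lit 3) (nat_lit 4) (nat_lit 4) (nat_lit 5) (nat_lit 4) (nat_lit 4) (nat_lit 347) (nat_lit 230) (nat_lit 143))) (XT.nd (nat_lit 78) (nat_lit 0) (nat_lit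 0) (XT.lf (nat_lit 0) (nat_lit 453197648) (nat_lit 152) (nat_lit 14389249745) (nat_lit 76) (nat_lit 237312315809) (nat_lit 2) (nat_lit 5) (nat_lit 4) (nat_lit 5) (nat_lit 3) (nat_lit 4) (nat_lit 348) (nat_lit 230) (nat_lit 142)) (XT.lf (nat_lit 0) (nat_lit 3694035423) (nat_lit 152) (nat_lit 7755631925) (nat_lit 76) (nat_lit 253112135907) (nat_lit 2) (nat_lit 5) (nat_lit 4) (nat_lit 5) (nat_lit 3) (nat_lit 4) (nat_lit 349) (nat_lit 230) (nat_lit 141)))) (XT.nd (nat_lit 156) (nat_lit 0) (nat_lit 0) (XT.nd (nat_lit 78) (nat_lit 76) (nat_lit 0) (XT.lf (nat_lit 0) (nat_lit 7092005639) (nat_lit 152) (nat_lit 799411665) (nat_lit 76) (nat_lit 269698026956) (nat_lit 2) (nat_lit 5) (nat_lit 4) (nat_lit 5) (nat_lit 3) (nat_lit 4) (nat_lit 350) (nat_lit 230) (nat_lit 140)) (XT.lf (nat_lit 0) (nat_lit 6710759682) (nat_lit 76) (nat_lit 4049212786) (nat_lit 152) (nat_lit 280503493255) (nat_lit 1)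 (nat_lit 5) (nat_lit 2) (nat_lit 5) (nat_lit 3) (nat_lit 4) (nat_lit 351) (nat_lit 230) (nat_lit 139))) (XT.nd (nat_lit 78) (nat_lit 0) (nat_lit 0) (XT.lf (nat_lit 0) (nat_lit 14615686675) (nat_lit 76) (nat_lit 4603560) (nat_lit 152) (nat_lit 291000453547) (nat_lit 1) (nat_lit 5) (nat_lit 2) (nat_lit 5) (nat_lit 3) (nat_lit 4) (nat_lit 352) (nat_lit 230) (nat_lit 138)) (XT.nd (nat_lit 78) (nat_lit 0) (nat_lit 0) (XT.lf (nat_lit 0) (nat_lit 18735431331) (nat_lit 152) (nat_lit 297854523608) (nat_lit 0) (nat_lit 4102843437) (nat_lit 1) (nat_lit 5) (nat_lit 3) (nat_lit 4) (nat_lit 1) (nat_lit 4) (nat_lit 353) (nat_lit 230) (nat_lit 137)) (XT.lf (nat_lit 0) (nat_lit 23052189945) (nat_lit 152) (nat_lit 305054410032) (nat_lit 0) (nat_lit 8412065562) (nat_lit 1) (nat_lit 5) (nat_lit 3) (nat_lit 4) (nat_lit 1) (nat_lit 4) (nat_lit 354) (nat_lit 230) (nat_lit 136)))))) (XT.nd (nat_lit 312) (nat_lit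 0) (nat_lit 0) (XT.nd (nat_lit 156) (nat_lit 0) (nat_lit 0) (XT.nd (nat_lit 78) (nat_lit 0) (nat_lit 0) (XT.lf (nat_lit 0) (nat_lit 27580772201) (nat_lit 152) (nat_lit 312621787090) (nat_lit 0) (nat_lit 12933470208) (nat_lit 1) (nat_lit 5) (nat_lit 3) (nat_lit 4) (nat_lit 1) (nat_lit 4) (nat_lit 355) (nat_lit 230) (nat_lit 135)) (XT.lf (nat_lit 0) (nat_lit 32331960437) (nat_lit 152) (nat_lit 320574672347) (nat_lit 0) (nat_lit 17677822624) (nat_lit 1) (nat_lit 5) (nat_lit 3) (nat_lit 4) (nat_lit 1) (nat_lit 4) (nat_lit 356) (nat_lit 230) (nat_lit 134))) (XT.nd (nat_lit 78) (nat_lit 0) (nat_lit 0) (XT.lf (nat_lit 0) (nat_lit 37317067005) (nat_lit 152) (nat_lit 328932001245) (nat_lit 0) (nat_lit 22656418889) (nat_lit 1) (nat_lit 5) (nat_lit 3) (nat_lit 4) (nat_lit 1) (nat_lit 4) (nat_lit 357) (nat_lit 230) (nat_lit 133)) (XT.lf (nat_lit 0) (nat_lit 42547961207) (nat_lit 152) (nat_lit 337713672186)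 (nat_lit 0) (nat_lit 27881112802) (nat_lit 1) (nat_lit 5) (nat_lit 3) (nat_lit 4) (nat_lit 1) (nat_lit 4) (nat_lit 358) (nat_lit 230) (nat_lit 132)))) (XT.nd (nat_lit 156) (nat_lit 0) (nat_lit 0) (XT.nd (nat_lit 78) (nat_lit 0) (nat_lit 0) (XT.lf (nat_lit 0) (nat_lit 48037097553) (nat_lit 152) (nat_lit 346940593910) (nat_lit 0) (nat_lit 33364344110) (nat_lit 1) (nat_lit 5) (nat_lit 3) (nat_lit 4) (nat_lit 1) (nat_lit 4) (nat_lit 359) (nat_lit 230) (nat_lit 131)) (XT.lf (nat_lit 0) (nat_lit 53797545415) (nat_lit 152) (nat_lit 356634735277) (nat_lit 0) (nat_lit 39119168128) (nat_lit 1) (nat_lit 5) (nat_lit 3) (nat_lit 4) (nat_lit 1) (nat_lit 4) (nat_lit 360) (nat_lit 230) (nat_lit 130))) (XT.nd (nat_lit 78) (nat_lit 0) (nat_lit 0) (XT.lf (nat_lit 0) (nat_lit 59843020146) (nat_lit 152) (nat_lit 366819177578) (nat_lit 0) (nat_lit 45159286815) (nat_lit 1) (nat_lit 5) (nat_lit 3) (nat_lit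 4) (nat_lit 1) (nat_lit 4) (nat_lit 361) (nat_lit 230) (nat_lit 129)) (XT.nd (nat_lit 78) (nat_lit 0) (nat_lit 0) (XT.lf (nat_lit 0) (nat_lit 66187915733) (nat_lit 152) (nat_lit 377518169484) (nat_lit 0) (nat_lit 51499081409) (nat_lit 1) (nat_lit 5) (nat_lit 3) (nat_lit 4) (nat_lit 1) (nat_lit 4) (nat_lit 362) (nat_lit 230) (nat_lit 128)) (XT.lf (nat_lit 0) (nat_lit 72847339069) (nat_lit 152) (nat_lit 388757184785) (nat_lit 0) (nat_lit 58153646656) (nat_lit 1) (nat_lit 5) (nat_lit 3) (nat_lit 4) (nat_lit 1) (nat_lit 4) (nat_lit 363) (nat_lit 230) (nat_lit 127))))))) (XT.nd (nat_lit 29874) (nat_lit 0) (nat_lit 2204) (XT.nd (nat_lit 29484) (nat_lit 0) (nat_lit 3724) (XT.nd (nat_lit 29328) (nat_lit 0) (nat_lit 4712) (XT.nd (nat_lit 29250) (nat_lit 0) (nat_lit 5092) (XT.lf (nat_lit 0) (nat_lit 79837145926) (nat_lit 152) (nat_lit 400562983042) (nat_lit 0) (nat_lit 65138826762) (nat_lit 1)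 (nat_lit 5) (nat_lit 3) (nat_lit 4) (nat_lit 1) (nat_lit 4) (nat_lit 364) (nat_lit 230) (nat_lit 126)) (XT.lf (nat_lit 0) (nat_lit 591687038) (nat_lit 456) (nat_lit 2563441584) (nat_lit 0) (nat_lit 591687038) (nat_lit 68) (nat_lit 5) (nat_lit 74) (nat_lit 4) (nat_lit 68) (nat_lit 4) (nat_lit 258) (nat_lit 231) (nat_lit 231))) (XT.nd (nat_lit 78) (nat_lit 380) (nat_lit 0) (XT.lf (nat_lit 0) (nat_lit 4408580171) (nat_lit 456) (nat_lit 198145420) (nat_lit 0) (nat_lit 3014062095) (nat_lit 68) (nat_lit 5) (nat_lit 74) (nat_lit 4) (nat_lit 68) (nat_lit 4) (nat_lit 259) (nat_lit 231) (nat_lit 230)) (XT.lf (nat_lit 0) (nat_lit 4972915252) (nat_lit 380) (nat_lit 2753964831) (nat_lit 380) (nat_lit 31334301) (nat_lit 63) (nat_lit 4) (nat_lit 68) (nat_lit 5) (nat_lit 68) (nat_lit 4) (nat_lit 260) (nat_lit 231) (nat_lit 229)))) (XT.nd (nat_lit 156) (nat_lit 608) (nat_lit 0) (XT.nd (nat_lit 78) (nat_lit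 0) (nat_lit 0) (XT.lf (nat_lit 0) (nat_lit 2365184383) (nat_lit 304) (nat_lit 733685819) (nat_lit 380) (nat_lit 4806707571) (nat_lit 58) (nat_lit 5) (nat_lit 62) (nat_lit 5) (nat_lit 63) (nat_lit 4) (nat_lit 261) (nat_lit 231) (nat_lit 228)) (XT.lf (nat_lit 0) (nat_lit 6313937063) (nat_lit 380) (nat_lit 381266876) (nat_lit 0) (nat_lit 1369044989) (nat_lit 58) (nat_lit 5) (nat_lit 63) (nat_lit 4) (nat_lit 58) (nat_lit 4) (nat_lit 262) (nat_lit 231) (nat_lit 227))) (XT.nd (nat_lit 78) (nat_lit 228) (nat_lit 0) (XT.lf (nat_lit 0) (nat_lit 1368016326) (nat_lit 380) (nat_lit 3233100007) (nat_lit 76) (nat_lit 3631203141) (nat_lit 53) (nat_lit 5) (nat_lit 58) (nat_lit 5) (nat_lit 54) (nat_lit 4) (nat_lit 263) (nat_lit 231) (nat_lit 226)) (XT.nd (nat_lit 78) (nat_lit 0) (nat_lit 0) (XT.lf (nat_lit 0) (nat_lit 2128543782) (nat_lit 228) (nat_lit 2362523592) (nat_lit 304) (nat_lit 3921286305)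 (nat_lit 50) (nat_lit 5) (nat_lit 53) (nat_lit 5) (nat_lit 54) (nat_lit 4) (nat_lit 264) (nat_lit 231) (nat_lit 225)) (XT.lf (nat_lit 0) (nat_lit 7696819707) (nat_lit 304) (nat_lit 896735631) (nat_lit 0) (nat_lit 11865139) (nat_lit 50) (nat_lit 5) (nat_lit 54) (nat_lit 4) (nat_lit 50) (nat_lit 4) (nat_lit 265) (nat_lit 231) (nat_lit 224)))))) (XT.nd (nat_lit 312) (nat_lit 608) (nat_lit 0) (XT.nd (nat_lit 156) (nat_lit 304) (nat_lit 0) (XT.nd (nat_lit 78) (nat_lit 228) (nat_lit 0) (XT.lf (nat_lit 0) (nat_lit 2171570522) (nat_lit 380) (nat_lit 4132153783) (nat_lit 76) (nat_lit 2503530363) (nat_lit 45) (nat_lit 5) (nat_lit 50) (nat_lit 5) (nat_lit 46) (nat_lit 4) (nat_lit 266) (nat_lit 231) (nat_lit 223)) (XT.lf (nat_lit 0) (nat_lit 1406464591) (nat_lit 228) (nat_lit 3884487152) (nat_lit 304) (nat_lit 3732006784) (nat_lit 42) (nat_lit 5) (nat_lit 45) (nat_lit 5) (nat_lit 46) (nat_lit 4)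 (nat_lit 267) (nat_lit 231) (nat_lit 222))) (XT.nd (nat_lit 78) (nat_lit 304) (nat_lit 0) (XT.lf (nat_lit 0) (nat_lit 7206432523) (nat_lit 228) (nat_lit 1311501546) (nat_lit 304) (nat_lit 734226699) (nat_lit 42) (nat_lit 5) (nat_lit 45) (nat_lit 5) (nat_lit 46) (nat_lit 4) (nat_lit 268) (nat_lit 231) (nat_lit 221)) (XT.lf (nat_lit 0) (nat_lit 2302237742) (nat_lit 304) (nat_lit 5786938500) (nat_lit 76) (nat_lit 1403728203) (nat_lit 38) (nat_lit 5) (nat_lit 42) (nat_lit 5) (nat_lit 39) (nat_lit 4) (nat_lit 269) (nat_lit 231) (nat_lit 220)))) (XT.nd (nat_lit 156) (nat_lit 456) (nat_lit 0) (XT.nd (nat_lit 78) (nat_lit 152) (nat_lit 0) (XT.lf (nat_lit 0) (nat_lit 5410166813) (nat_lit 304) (nat_lit 120010293) (nat_lit 76) (nat_lit 4217945212) (nat_lit 38) (nat_lit 5) (nat_lit 42) (nat_lit 5) (nat_lit 39) (nat_lit 4) (nat_lit 270) (nat_lit 231) (nat_lit 219)) (XT.lf (nat_lit 0) (nat_lit 5867370455)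 (nat_lit 152) (nat_lit 2790683083) (nat_lit 228) (nat_lit 1359062012) (nat_lit 36) (nat_lit 5) (nat_lit 38) (nat_lit 5) (nat_lit 39) (nat_lit 4) (nat_lit 271) (nat_lit 231) (nat_lit 218))) (XT.nd (nat_lit 78) (nat_lit 152) (nat_lit 0) (XT.lf (nat_lit 0) (nat_lit 1636673769) (nat_lit 304) (nat_lit 8569089342) (nat_lit 76) (nat_lit 96409058) (nat_lit 32) (nat_lit 5) (nat_lit 36) (nat_lit 5) (nat_lit 33) (nat_lit 4) (nat_lit 272) (nat_lit 231) (nat_lit 217)) (XT.nd (nat_lit 78) (nat_lit 152) (nat_lit 0) (XT.lf (nat_lit 0) (nat_lit 4749509935) (nat_lit 304) (nat_lit 2767226265) (nat_lit 76) (nat_lit 3083191584) (nat_lit 32) (nat_lit 5) (nat_lit 36) (nat_lit 5) (nat_lit 33) (nat_lit 4) (nat_lit 273) (nat_lit 231) (nat_lit 216)) (XT.lf (nat_lit 0) (nat_lit 3282947882) (nat_lit 152) (nat_lit 4687065616) (nat_lit 228) (nat_lit 2945155929) (nat_lit 30) (nat_lit 5) (nat_lit 32) (nat_lit 5) (nat_lit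 33) (nat_lit 4) (nat_lit 274) (nat_lit 231) (nat_lit 215))))))))
noncomputable def xc81 : XT := (XT.nd (nat_lit 1404) (nat_lit 456) (nat_lit 0) (XT.nd (nat_lit 702) (nat_lit 608) (nat_lit 0) (XT.nd (nat_lit 312) (nat_lit 304) (nat_lit 0) (XT.nd (nat_lit 156) (nat_lit 152) (nat_lit 0) (XT.nd (nat_lit 78) (nat_lit 152) (nat_lit 0) (XT.lf (nat_lit 0) (nat_lit 51097974) (nat_lit 228) (nat_lit 1662467848) (nat_lit 76) (nat_lit 9535250982) (nat_lit 29) (nat_lit 5) (nat_lit 32) (nat_lit 5) (nat_lit 30) (nat_lit 5) (nat_lit 275) (nat_lit 231) (nat_lit 214)) (XT.lf (nat_lit 0) (nat_lit 3098801536) (nat_lit 228) (nat_lit 7058609804) (nat_lit 76) (nat_lit 1439462830) (nat_lit 27) (nat_lit 5) (nat_lit 30) (nat_lit 5) (nat_lit 28) (nat_lit 4) (nat_lit 276) (nat_lit 231) (nat_lit 213))) (XT.nd (nat_lit 78) (nat_lit 152) (nat_lit 0) (XT.lf (nat_lit 0) (nat_lit 6263327956) (nat_lit 228) (nat_lit 1025345714)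 (nat_lit 76) (nat_lit 4675602999) (nat_lit 27) (nat_lit 5) (nat_lit 30) (nat_lit 5) (nat_lit 28) (nat_lit 4) (nat_lit 277) (nat_lit 231) (nat_lit 212)) (XT.lf (nat_lit 0) (nat_lit 5344824019) (nat_lit 152) (nat_lit 4236828346) (nat_lit 228) (nat_lit 2768774679) (nat_lit 25) (nat_lit 5) (nat_lit 27) (nat_lit 5) (nat_lit 28) (nat_lit 4) (nat_lit 278) (nat_lit 231) (nat_lit 211)))) (XT.nd (nat_lit 156) (nat_lit 76) (nat_lit 0) (XT.nd (nat_lit 78) (nat_lit 152) (nat_lit 0) (XT.lf (nat_lit 0) (nat_lit 230407088) (nat_lit 228) (nat_lit 827705375) (nat_lit 76) (nat_lit 11701156208) (nat_lit 24) (nat_lit 5) (nat_lit 27) (nat_lit 5) (nat_lit 25) (nat_lit 5) (nat_lit 279) (nat_lit 231) (nat_lit 210)) (XT.lf (nat_lit 0) (nat_lit 3328823896) (nat_lit 228) (nat_lit 7558352605) (nat_lit 76) (nat_lit 2297125191) (nat_lit 22) (nat_lit 5) (nat_lit 25) (nat_lit 5) (nat_lit 23) (nat_lit 4) (nat_lit 280)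 (nat_lit 231) (nat_lit 209))) (XT.nd (nat_lit 78) (nat_lit 76) (nat_lit 0) (XT.lf (nat_lit 0) (nat_lit 6531815059) (nat_lit 228) (nat_lit 1347953409) (nat_lit 76) (nat_lit 5753463835) (nat_lit 22) (nat_lit 5) (nat_lit 25) (nat_lit 5) (nat_lit 23) (nat_lit 4) (nat_lit 281) (nat_lit 231) (nat_lit 208)) (XT.nd (nat_lit 78) (nat_lit 0) (nat_lit 0) (XT.lf (nat_lit 0) (nat_lit 5214614197) (nat_lit 76) (nat_lit 4683718248) (nat_lit 152) (nat_lit 4206230658) (nat_lit 21) (nat_lit 5) (nat_lit 22) (nat_lit 5) (nat_lit 23) (nat_lit 4) (nat_lit 282) (nat_lit 231) (nat_lit 207)) (XT.lf (nat_lit 0) (nat_lit 12028876503) (nat_lit 76) (nat_lit 1350881474) (nat_lit 152) (nat_lit 1222490010) (nat_lit 21) (nat_lit 5) (nat_lit 22) (nat_lit 5) (nat_lit 23) (nat_lit 4) (nat_lit 283) (nat_lit 231) (nat_lit 206)))))) (XT.nd (nat_lit 312) (nat_lit 304) (nat_lit 0) (XT.nd (nat_lit 156) (nat_lit 76) (nat_lit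 0) (XT.nd (nat_lit 78) (nat_lit 0) (nat_lit 0) (XT.lf (nat_lit 0) (nat_lit 1872781764) (nat_lit 228) (nat_lit 11119771308) (nat_lit 76) (nat_lit 2129703991) (nat_lit 18) (nat_lit 5) (nat_lit 21) (nat_lit 5) (nat_lit 19) (nat_lit 4) (nat_lit 284) (nat_lit 231) (nat_lit 205)) (XT.lf (nat_lit 0) (nat_lit 5075225123) (nat_lit 228) (nat_lit 4833488292) (nat_lit 76) (nat_lit 5758977327) (nat_lit 18) (nat_lit 5) (nat_lit 21) (nat_lit 5) (nat_lit 19) (nat_lit 4) (nat_lit 285) (nat_lit 231) (nat_lit 204))) (XT.nd (nat_lit 78) (nat_lit 0) (nat_lit 0) (XT.lf (nat_lit 0) (nat_lit 1706511318) (nat_lit 76) (nat_lit 6688446887) (nat_lit 152) (nat_lit 7847675496) (nat_lit 17) (nat_lit 5) (nat_lit 18) (nat_lit 5) (nat_lit 19) (nat_lit 4) (nat_lit 286) (nat_lit 231) (nat_lit 203)) (XT.lf (nat_lit 0) (nat_lit 8627960465) (nat_lit 76) (nat_lit 3266637607) (nat_lit 152) (nat_lit 4951121135) (nat_lit 17)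 (nat_lit 5) (nat_lit 18) (nat_lit 5) (nat_lit 19) (nat_lit 4) (nat_lit 287) (nat_lit 231) (nat_lit 202)))) (XT.nd (nat_lit 156) (nat_lit 76) (nat_lit 0) (XT.nd (nat_lit 78) (nat_lit 228) (nat_lit 0) (XT.lf (nat_lit 0) (nat_lit 15508936199) (nat_lit 152) (nat_lit 1699177803) (nat_lit 0) (nat_lit 273946227) (nat_lit 17) (nat_lit 5) (nat_lit 19) (nat_lit 4) (nat_lit 17) (nat_lit 4) (nat_lit 288) (nat_lit 231) (nat_lit 201)) (XT.lf (nat_lit 0) (nat_lit 1189653886) (nat_lit 228) (nat_lit 13014588517) (nat_lit 76) (nat_lit 3941513730) (nat_lit 14) (nat_lit 5) (nat_lit 17) (nat_lit 5) (nat_lit 15) (nat_lit 4) (nat_lit 289) (nat_lit 231) (nat_lit 200))) (XT.nd (nat_lit 78) (nat_lit 76) (nat_lit 0) (XT.lf (nat_lit 0) (nat_lit 4411516317) (nat_lit 228) (nat_lit 6617760067) (nat_lit 76) (nat_lit 7813455556) (nat_lit 14) (nat_lit 5) (nat_lit 17) (nat_lit 5) (nat_lit 15) (nat_lit 4) (nat_lit 290)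 (nat_lit 231) (nat_lit 199)) (XT.nd (nat_lit 78) (nat_lit 76) (nat_lit 0) (XT.lf (nat_lit 0) (nat_lit 7735431283) (nat_lit 228) (nat_lit 1819660) (nat_lit 76) (nat_lit 11840329243) (nat_lit 14) (nat_lit 5) (nat_lit 17) (nat_lit 5) (nat_lit 15) (nat_lit 4) (nat_lit 291) (nat_lit 231) (nat_lit 198)) (XT.lf (nat_lit 0) (nat_lit 7075443316) (nat_lit 76) (nat_lit 4204337047) (nat_lit 152) (nat_lit 9066746769) (nat_lit 13) (nat_lit 5) (nat_lit 14) (nat_lit 5) (nat_lit 15) (nat_lit 4) (nat_lit 292) (nat_lit 231) (nat_lit 197))))))) (XT.nd (nat_lit 702) (nat_lit 228) (nat_lit 0) (XT.nd (nat_lit 312) (nat_lit 76) (nat_lit 0) (XT.nd (nat_lit 156) (nat_lit 152) (nat_lit 0) (XT.nd (nat_lit 78) (nat_lit 0) (nat_lit 0) (XT.lf (nat_lit 0) (nat_lit 14412247095) (nat_lit 76) (nat_lit 534105443) (nat_lit 152) (nat_lit 6210383566) (nat_lit 13) (nat_lit 5) (nat_lit 14) (nat_lit 5) (nat_lit 15) (nat_lit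 4) (nat_lit 293) (nat_lit 231) (nat_lit 196)) (XT.lf (nat_lit 0) (nat_lit 18795091980) (nat_lit 152) (nat_lit 35381133) (nat_lit 0) (nat_lit 3177102346) (nat_lit 13) (nat_lit 5) (nat_lit 15) (nat_lit 4) (nat_lit 13) (nat_lit 4) (nat_lit 294) (nat_lit 231) (nat_lit 195))) (XT.nd (nat_lit 78) (nat_lit 0) (nat_lit 0) (XT.lf (nat_lit 0) (nat_lit 8255098) (nat_lit 152) (nat_lit 15756271676) (nat_lit 76) (nat_lit 7132992968) (nat_lit 11) (nat_lit 5) (nat_lit 13) (nat_lit 5) (nat_lit 12) (nat_lit 4) (nat_lit 295) (nat_lit 231) (nat_lit 194)) (XT.lf (nat_lit 0) (nat_lit 3232405402) (nat_lit 152) (nat_lit 9294577831) (nat_lit 76) (nat_lit 11304881499) (nat_lit 11) (nat_lit 5) (nat_lit 13) (nat_lit 5) (nat_lit 12) (nat_lit 4) (nat_lit 296) (nat_lit 231) (nat_lit 193)))) (XT.nd (nat_lit 156) (nat_lit 0) (nat_lit 0) (XT.nd (nat_lit 78) (nat_lit 76) (nat_lit 0) (XT.lf (nat_lit 0) (nat_lit 6569883497)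 (nat_lit 152) (nat_lit 2593523242) (nat_lit 76) (nat_lit 15651965118) (nat_lit 11) (nat_lit 5) (nat_lit 13) (nat_lit 5) (nat_lit 12) (nat_lit 4) (nat_lit 297) (nat_lit 231) (nat_lit 192)) (XT.lf (nat_lit 0) (nat_lit 4507102407) (nat_lit 76) (nat_lit 5591901849) (nat_lit 152) (nat_lit 15747860115) (nat_lit 10) (nat_lit 5) (nat_lit 11) (nat_lit 5) (nat_lit 12) (nat_lit 4) (nat_lit 298) (nat_lit 231) (nat_lit 191))) (XT.nd (nat_lit 78) (nat_lit 0) (nat_lit 0) (XT.lf (nat_lit 0) (nat_lit 11974349600) (nat_lit 76) (nat_lit 1829500864) (nat_lit 152) (nat_lit 13126163746) (nat_lit 10) (nat_lit 5) (nat_lit 11) (nat_lit 5) (nat_lit 12) (nat_lit 4) (nat_lit 299) (nat_lit 231) (nat_lit 190)) (XT.nd (nat_lit 78) (nat_lit 0) (nat_lit 0) (XT.lf (nat_lit 0) (nat_lit 17684024678) (nat_lit 152) (nat_lit 8361860462) (nat_lit 0) (nat_lit 2021976081) (nat_lit 10) (nat_lit 5) (nat_lit 12) (nat_lit 4) (nat_lit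 10) (nat_lit 4) (nat_lit 300) (nat_lit 231) (nat_lit 189)) (XT.lf (nat_lit 0) (nat_lit 21747219064) (nat_lit 152) (nat_lit 1541103642) (nat_lit 0) (nat_lit 5974869177) (nat_lit 10) (nat_lit 5) (nat_lit 12) (nat_lit 4) (nat_lit 10) (nat_lit 4) (nat_lit 301) (nat_lit 231) (nat_lit 188)))))) (XT.nd (nat_lit 312) (nat_lit 76) (nat_lit 0) (XT.nd (nat_lit 156) (nat_lit 76) (nat_lit 0) (XT.nd (nat_lit 78) (nat_lit 0) (nat_lit 0) (XT.lf (nat_lit 0) (nat_lit 5734964044) (nat_lit 76) (nat_lit 20329119077) (nat_lit 76) (nat_lit 4451720340) (nat_lit 9) (nat_lit 4) (nat_lit 10) (nat_lit 5) (nat_lit 10) (nat_lit 4) (nat_lit 302) (nat_lit 231) (nat_lit 187)) (XT.lf (nat_lit 0) (nat_lit 13360174563) (nat_lit 76) (nat_lit 17224480530) (nat_lit 76) (nat_lit 1247035271) (nat_lit 9) (nat_lit 4) (nat_lit 10) (nat_lit 5) (nat_lit 10) (nat_lit 4) (nat_lit 303) (nat_lit 231) (nat_lit 186))) (XT.nd (nat_lit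 78) (nat_lit 0) (nat_lit 0) (XT.lf (nat_lit 0) (nat_lit 2013052644) (nat_lit 152) (nat_lit 11945969740) (nat_lit 76) (nat_lit 19254582665) (nat_lit 8) (nat_lit 5) (nat_lit 10) (nat_lit 5) (nat_lit 9) (nat_lit 4) (nat_lit 304) (nat_lit 231) (nat_lit 185)) (XT.lf (nat_lit 0) (nat_lit 5358954591) (nat_lit 152) (nat_lit 5177615894) (nat_lit 76) (nat_lit 24128819723) (nat_lit 8) (nat_lit 5) (nat_lit 10) (nat_lit 5) (nat_lit 9) (nat_lit 4) (nat_lit 305) (nat_lit 231) (nat_lit 184)))) (XT.nd (nat_lit 156) (nat_lit 0) (nat_lit 0) (XT.nd (nat_lit 78) (nat_lit 0) (nat_lit 0) (XT.lf (nat_lit 0) (nat_lit 1930932478) (nat_lit 76) (nat_lit 6937764708) (nat_lit 152) (nat_lit 27321271408) (nat_lit 7) (nat_lit 5) (nat_lit 8) (nat_lit 5) (nat_lit 9) (nat_lit 4) (nat_lit 306) (nat_lit 231) (nat_lit 183)) (XT.lf (nat_lit 0) (nat_lit 9515606487) (nat_lit 76) (nat_lit 3093082177) (nat_lit 152) (nat_lit 25179378907)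 (nat_lit 7) (nat_lit 5) (nat_lit 8) (nat_lit 5) (nat_lit 9) (nat_lit 4) (nat_lit 307) (nat_lit 231) (nat_lit 182))) (XT.nd (nat_lit 78) (nat_lit 0) (nat_lit 0) (XT.lf (nat_lit 0) (nat_lit 16518671150) (nat_lit 152) (nat_lit 22058745438) (nat_lit 0) (nat_lit 889533679) (nat_lit 7) (nat_lit 5) (nat_lit 9) (nat_lit 4) (nat_lit 7) (nat_lit 4) (nat_lit 308) (nat_lit 231) (nat_lit 181)) (XT.nd (nat_lit 78) (nat_lit 0) (nat_lit 0) (XT.lf (nat_lit 0) (nat_lit 20644626198) (nat_lit 152) (nat_lit 15639766688) (nat_lit 0) (nat_lit 4944387531) (nat_lit 7) (nat_lit 5) (nat_lit 9) (nat_lit 4) (nat_lit 7) (nat_lit 4) (nat_lit 309) (nat_lit 231) (nat_lit 180)) (XT.lf (nat_lit 0) (nat_lit 24948085831) (nat_lit 152) (nat_lit 8951949870) (nat_lit 0) (nat_lit 9180131739) (nat_lit 7) (nat_lit 5) (nat_lit 9) (nat_lit 4) (nat_lit 7) (nat_lit 4) (nat_lit 310) (nat_lit 231) (nat_lit 179))))))))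
noncomputable def xc82 : XT := (XT.nd (nat_lit 1404) (nat_lit 76) (nat_lit 0) (XT.nd (nat_lit 702) (nat_lit 0) (nat_lit 0) (XT.nd (nat_lit 312) (nat_lit 152) (nat_lit 0) (XT.nd (nat_lit 156) (nat_lit 0) (nat_lit 0) (XT.nd (nat_lit 78) (nat_lit 76) (nat_lit 0) (XT.lf (nat_lit 0) (nat_lit 29439296380) (nat_lit 152) (nat_lit 1979371613) (nat_lit 0) (nat_lit 13606851408) (nat_lit 7) (nat_lit 5) (nat_lit 9) (nat_lit 4) (nat_lit 7) (nat_lit 4) (nat_lit 311) (nat_lit 231) (nat_lit 178)) (XT.lf (nat_lit 0) (nat_lit 5469631838) (nat_lit 76) (nat_lit 28744715647) (nat_lit 76) (nat_lit 12850850789) (nat_lit 6) (nat_lit 4) (nat_lit 7) (nat_lit 5) (nat_lit 7) (nat_lit 4) (nat_lit 312) (nat_lit 231) (nat_lit 177))) (XT.nd (nat_lit 78) (nat_lit 0) (nat_lit 0) (XT.lf (nat_lit 0) (nat_lit 13313301037) (nat_lit 76) (nat_lit 25922773051) (nat_lit 76) (nat_lit 9970413064) (nat_lit 6) (nat_lit 4) (nat_lit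 7) (nat_lit 5) (nat_lit 7) (nat_lit 4) (nat_lit 313) (nat_lit 231) (nat_lit 176)) (XT.lf (nat_lit 0) (nat_lit 21504864419) (nat_lit 76) (nat_lit 22979642911) (nat_lit 76) (nat_lit 6971573276) (nat_lit 6) (nat_lit 4) (nat_lit 7) (nat_lit 5) (nat_lit 7) (nat_lit 4) (nat_lit 314) (nat_lit 231) (nat_lit 175)))) (XT.nd (nat_lit 156) (nat_lit 152) (nat_lit 0) (XT.nd (nat_lit 78) (nat_lit 0) (nat_lit 0) (XT.lf (nat_lit 0) (nat_lit 30063825709) (nat_lit 76) (nat_lit 19908317773) (nat_lit 76) (nat_lit 3847191331) (nat_lit 6) (nat_lit 4) (nat_lit 7) (nat_lit 5) (nat_lit 7) (nat_lit 4) (nat_lit 315) (nat_lit 231) (nat_lit 174)) (XT.lf (nat_lit 0) (nat_lit 39010563385) (nat_lit 76) (nat_lit 16701484958) (nat_lit 76) (nat_lit 589828224) (nat_lit 6) (nat_lit 4) (nat_lit 7) (nat_lit 5) (nat_lit 7) (nat_lit 4) (nat_lit 316) (nat_lit 231) (nat_lit 173))) (XT.nd (nat_lit 78) (nat_lit 76) (nat_lit 0)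 (XT.lf (nat_lit 0) (nat_lit 2718389438) (nat_lit 152) (nat_lit 10587082472) (nat_lit 76) (nat_lit 45601952523) (nat_lit 5) (nat_lit 5) (nat_lit 7) (nat_lit 5) (nat_lit 6) (nat_lit 4) (nat_lit 317) (nat_lit 231) (nat_lit 172)) (XT.nd (nat_lit 78) (nat_lit 76) (nat_lit 0) (XT.lf (nat_lit 0) (nat_lit 6151793008) (nat_lit 152) (nat_lit 3594437620) (nat_lit 76) (nat_lit 51897572315) (nat_lit 5) (nat_lit 5) (nat_lit 7) (nat_lit 5) (nat_lit 6) (nat_lit 4) (nat_lit 318) (nat_lit 231) (nat_lit 171)) (XT.lf (nat_lit 0) (nat_lit 3835230734) (nat_lit 76) (nat_lit 5962083406) (nat_lit 152) (nat_lit 54717679650) (nat_lit 4) (nat_lit 5) (nat_lit 5) (nat_lit 5) (nat_lit 6) (nat_lit 4) (nat_lit 319) (nat_lit 231) (nat_lit 170)))))) (XT.nd (nat_lit 312) (nat_lit 0) (nat_lit 0) (XT.nd (nat_lit 156) (nat_lit 0) (nat_lit 0) (XT.nd (nat_lit 78) (nat_lit 0) (nat_lit 0) (XT.lf (nat_lit 0) (nat_lit 11726383513)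 (nat_lit 76) (nat_lit 1940552176) (nat_lit 152) (nat_lit 53860732303) (nat_lit 4) (nat_lit 5) (nat_lit 5) (nat_lit 5) (nat_lit 6) (nat_lit 4) (nat_lit 320) (nat_lit 231) (nat_lit 169)) (XT.lf (nat_lit 0) (nat_lit 17747291471) (nat_lit 152) (nat_lit 50748331719) (nat_lit 0) (nat_lit 2194504370) (nat_lit 4) (nat_lit 5) (nat_lit 6) (nat_lit 4) (nat_lit 4) (nat_lit 4) (nat_lit 321) (nat_lit 231) (nat_lit 168))) (XT.nd (nat_lit 78) (nat_lit 0) (nat_lit 0) (XT.lf (nat_lit 0) (nat_lit 22045976299) (nat_lit 152) (nat_lit 45506753617) (nat_lit 0) (nat_lit 6457278262) (nat_lit 4) (nat_lit 5) (nat_lit 6) (nat_lit 4) (nat_lit 4) (nat_lit 4) (nat_lit 322) (nat_lit 231) (nat_lit 167)) (XT.lf (nat_lit 0) (nat_lit 26542927677) (nat_lit 152) (nat_lit 40033772766) (nat_lit 0) (nat_lit 10920028750) (nat_lit 4) (nat_lit 5) (nat_lit 6) (nat_lit 4) (nat_lit 4) (nat_lit 4) (nat_lit 323) (nat_lit 231) (nat_lit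 166)))) (XT.nd (nat_lit 156) (nat_lit 0) (nat_lit 0) (XT.nd (nat_lit 78) (nat_lit 0) (nat_lit 0) (XT.lf (nat_lit 0) (nat_lit 31248852635) (nat_lit 152) (nat_lit 34316358261) (nat_lit 0) (nat_lit 15593381430) (nat_lit 4) (nat_lit 5) (nat_lit 6) (nat_lit 4) (nat_lit 4) (nat_lit 4) (nat_lit 324) (nat_lit 231) (nat_lit 165)) (XT.lf (nat_lit 0) (nat_lit 36174955754) (nat_lit 152) (nat_lit 28340897208) (nat_lit 0) (nat_lit 20488463333) (nat_lit 4) (nat_lit 5) (nat_lit 6) (nat_lit 4) (nat_lit 4) (nat_lit 4) (nat_lit 325) (nat_lit 231) (nat_lit 164))) (XT.nd (nat_lit 78) (nat_lit 0) (nat_lit 0) (XT.lf (nat_lit 0) (nat_lit 41332965851) (nat_lit 152) (nat_lit 22093162321) (nat_lit 0) (nat_lit 25616929415) (nat_lit 4) (nat_lit 5) (nat_lit 6) (nat_lit 4) (nat_lit 4) (nat_lit 4) (nat_lit 326) (nat_lit 231) (nat_lit 163)) (XT.nd (nat_lit 78) (nat_lit 0) (nat_lit 0) (XT.lf (nat_lit 0) (nat_lit 46735163904)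 (nat_lit 152) (nat_lit 15558278039) (nat_lit 0) (nat_lit 30990990310) (nat_lit 4) (nat_lit 5) (nat_lit 6) (nat_lit 4) (nat_lit 4) (nat_lit 4) (nat_lit 327) (nat_lit 231) (nat_lit 162)) (XT.lf (nat_lit 0) (nat_lit 52394412288) (nat_lit 152) (nat_lit 8720685115) (nat_lit 0) (nat_lit 36623441401) (nat_lit 4) (nat_lit 5) (nat_lit 6) (nat_lit 4) (nat_lit 4) (nat_lit 4) (nat_lit 328) (nat_lit 231) (nat_lit 161))))))) (XT.nd (nat_lit 702) (nat_lit 0) (nat_lit 0) (XT.nd (nat_lit 312) (nat_lit 0) (nat_lit 0) (XT.nd (nat_lit 156) (nat_lit 0) (nat_lit 0) (XT.nd (nat_lit 78) (nat_lit 76) (nat_lit 0) (XT.lf (nat_lit 0) (nat_lit 58324185405) (nat_lit 152) (nat_lit 1564103565) (nat_lit 0) (nat_lit 42527693286) (nat_lit 4) (nat_lit 5) (nat_lit 6) (nat_lit 4) (nat_lit 4) (nat_lit 4) (nat_lit 329) (nat_lit 231) (nat_lit 160)) (XT.lf (nat_lit 0) (nat_lit 6124529275) (nat_lit 76) (nat_lit 58509693551)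 (nat_lit 76) (nat_lit 42688895498) (nat_lit 3) (nat_lit 4) (nat_lit 4) (nat_lit 5) (nat_lit 4) (nat_lit 4) (nat_lit 330) (nat_lit 231) (nat_lit 159))) (XT.nd (nat_lit 78) (nat_lit 0) (nat_lit 0) (XT.lf (nat_lit 0) (nat_lit 14230446558) (nat_lit 76) (nat_lit 57044188179) (nat_lit 76) (nat_lit 41200241617) (nat_lit 3) (nat_lit 4) (nat_lit 4) (nat_lit 5) (nat_lit 4) (nat_lit 4) (nat_lit 331) (nat_lit 231) (nat_lit 158)) (XT.lf (nat_lit 0) (nat_lit 22721231760) (nat_lit 76) (nat_lit 55514772405) (nat_lit 76) (nat_lit 39648779644) (nat_lit 3) (nat_lit 4) (nat_lit 4) (nat_lit 5) (nat_lit 4) (nat_lit 4) (nat_lit 332) (nat_lit 231) (nat_lit 157)))) (XT.nd (nat_lit 156) (nat_lit 0) (nat_lit 0) (XT.nd (nat_lit 78) (nat_lit 0) (nat_lit 0) (XT.lf (nat_lit 0) (nat_lit 31617101035) (nat_lit 76) (nat_lit 53917804763) (nat_lit 76) (nat_lit 38030815622) (nat_lit 3) (nat_lit 4) (nat_lit 4) (nat_lit 5)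 (nat_lit 4) (nat_lit 4) (nat_lit 333) (nat_lit 231) (nat_lit 156)) (XT.lf (nat_lit 0) (nat_lit 40939235024) (nat_lit 76) (nat_lit 52249482950) (nat_lit 76) (nat_lit 36342497256) (nat_lit 3) (nat_lit 4) (nat_lit 4) (nat_lit 5) (nat_lit 4) (nat_lit 4) (nat_lit 334) (nat_lit 231) (nat_lit 155))) (XT.nd (nat_lit 78) (nat_lit 0) (nat_lit 0) (XT.lf (nat_lit 0) (nat_lit 50709829285) (nat_lit 76) (nat_lit 50505834770) (nat_lit 76) (nat_lit 34579804740) (nat_lit 3) (nat_lit 4) (nat_lit 4) (nat_lit 5) (nat_lit 4) (nat_lit 4) (nat_lit 335) (nat_lit 231) (nat_lit 154)) (XT.nd (nat_lit 78) (nat_lit 0) (nat_lit 0) (XT.lf (nat_lit 0) (nat_lit 60952147137) (nat_lit 76) (nat_lit 48682708680) (nat_lit 76) (nat_lit 32738541187) (nat_lit 3) (nat_lit 4) (nat_lit 4) (nat_lit 5) (nat_lit 4) (nat_lit 4) (nat_lit 336) (nat_lit 231) (nat_lit 153)) (XT.lf (nat_lit 0) (nat_lit 71690575052) (nat_lit 76) (nat_lit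 46775763904) (nat_lit 76) (nat_lit 30814322638) (nat_lit 3) (nat_lit 4) (nat_lit 4) (nat_lit 5) (nat_lit 4) (nat_lit 4) (nat_lit 337) (nat_lit 231) (nat_lit 152)))))) (XT.nd (nat_lit 312) (nat_lit 0) (nat_lit 0) (XT.nd (nat_lit 156) (nat_lit 0) (nat_lit 0) (XT.nd (nat_lit 78) (nat_lit 0) (nat_lit 0) (XT.lf (nat_lit 0) (nat_lit 82950680714) (nat_lit 76) (nat_lit 44780460097) (nat_lit 76) (nat_lit 28802567618) (nat_lit 3) (nat_lit 4) (nat_lit 4) (nat_lit 5) (nat_lit 4) (nat_lit 4) (nat_lit 338) (nat_lit 231) (nat_lit 151)) (XT.lf (nat_lit 0) (nat_lit 94759273900) (nat_lit 76) (nat_lit 42692046536) (nat_lit 76) (nat_lit 26698486235) (nat_lit 3) (nat_lit 4) (nat_lit 4) (nat_lit 5) (nat_lit 4) (nat_lit 4) (nat_lit 339) (nat_lit 231) (nat_lit 150))) (XT.nd (nat_lit 78) (nat_lit 0) (nat_lit 0) (XT.lf (nat_lit 0) (nat_lit 107144470307) (nat_lit 76) (nat_lit 40505550808) (nat_lit 76) (nat_lit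 24497068771) (nat_lit 3) (nat_lit 4) (nat_lit 4) (nat_lit 5) (nat_lit 4) (nat_lit 4) (nat_lit 340) (nat_lit 231) (nat_lit 149)) (XT.lf (nat_lit 0) (nat_lit 120135758498) (nat_lit 76) (nat_lit 38215766970) (nat_lit 76) (nat_lit 22193073756) (nat_lit 3) (nat_lit 4) (nat_lit 4) (nat_lit 5) (nat_lit 4) (nat_lit 4) (nat_lit 341) (nat_lit 231) (nat_lit 148)))) (XT.nd (nat_lit 156) (nat_lit 0) (nat_lit 0) (XT.nd (nat_lit 78) (nat_lit 0) (nat_lit 0) (XT.lf (nat_lit 0) (nat_lit 133764070112) (nat_lit 76) (nat_lit 35817243156) (nat_lit 76) (nat_lit 19781015488) (nat_lit 3) (nat_lit 4) (nat_lit 4) (nat_lit 5) (nat_lit 4) (nat_lit 4) (nat_lit 342) (nat_lit 231) (nat_lit 147)) (XT.lf (nat_lit 0) (nat_lit 148061853510) (nat_lit 76) (nat_lit 33304268595) (nat_lit 76) (nat_lit 17255150971) (nat_lit 3) (nat_lit 4) (nat_lit 4) (nat_lit 5) (nat_lit 4) (nat_lit 4) (nat_lit 343) (nat_lit 231) (nat_lit 146)))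 (XT.nd (nat_lit 78) (nat_lit 0) (nat_lit 0) (XT.lf (nat_lit 0) (nat_lit 163063151033) (nat_lit 76) (nat_lit 30670860014) (nat_lit 76) (nat_lit 14609466242) (nat_lit 3) (nat_lit 4) (nat_lit 4) (nat_lit 5) (nat_lit 4) (nat_lit 4) (nat_lit 344) (nat_lit 231) (nat_lit 145)) (XT.nd (nat_lit 78) (nat_lit 0) (nat_lit 0) (XT.lf (nat_lit 0) (nat_lit 178803680056) (nat_lit 76) (nat_lit 27910747394) (nat_lit 76) (nat_lit 11837662051) (nat_lit 3) (nat_lit 4) (nat_lit 4) (nat_lit 5) (nat_lit 4) (nat_lit 4) (nat_lit 345) (nat_lit 231) (nat_lit 144)) (XT.lf (nat_lit 0) (nat_lit 195320918029) (nat_lit 76) (nat_lit 25017359036) (nat_lit 76) (nat_lit 8933138865) (nat_lit 3) (nat_lit 4) (nat_lit 4) (nat_lit 5) (nat_lit 4) (nat_lit 4) (nat_lit 346) (nat_lit 231) (nat_lit 143))))))))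
noncomputable def xc83 : XT := (XT.nd (nat_lit 30420) (nat_lit 0) (nat_lit 2204) (XT.nd (nat_lit 702) (nat_lit 0) (nat_lit 0) (XT.nd (nat_lit 312) (nat_lit 76) (nat_lit 0) (XT.nd (nat_lit 156) (nat_lit 76) (nat_lit 0) (XT.nd (nat_lit 78) (nat_lit 0) (nat_lit 0) (XT.lf (nat_lit 0) (nat_lit 212654191710) (nat_lit 76) (nat_lit 21983805922) (nat_lit 76) (nat_lit 5888981152) (nat_lit 3) (nat_lit 4) (nat_lit 4) (nat_lit 5) (nat_lit 4) (nat_lit 4) (nat_lit 347) (nat_lit 231) (nat_lit 142)) (XT.lf (nat_lit 0) (nat_lit 230844770797) (nat_lit 76) (nat_lit 18802865305) (nat_lit 76) (nat_lit 2697940917) (nat_lit 3) (nat_lit 4) (nat_lit 4) (nat_lit 5) (nat_lit 4) (nat_lit 4) (nat_lit 348) (nat_lit 231) (nat_lit 141))) (XT.nd (nat_lit 78) (nat_lit 0) (nat_lit 0) (XT.lf (nat_lit 0) (nat_lit 626852962) (nat_lit 152) (nat_lit 14829494497) (nat_lit 76) (nat_lit 249298497172) (nat_lit 2) (nat_lit 5) (nat_lit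 4) (nat_lit 5) (nat_lit 3) (nat_lit 4) (nat_lit 349) (nat_lit 231) (nat_lit 140)) (XT.lf (nat_lit 0) (nat_lit 4022542367) (nat_lit 152) (nat_lit 7877491869) (nat_lit 76) (nat_lit 265882567057) (nat_lit 2) (nat_lit 5) (nat_lit 4) (nat_lit 5) (nat_lit 3) (nat_lit 4) (nat_lit 350) (nat_lit 231) (nat_lit 139)))) (XT.nd (nat_lit 156) (nat_lit 0) (nat_lit 0) (XT.nd (nat_lit 78) (nat_lit 76) (nat_lit 0) (XT.lf (nat_lit 0) (nat_lit 7583563229) (nat_lit 152) (nat_lit 586123532) (nat_lit 76) (nat_lit 283292284832) (nat_lit 2) (nat_lit 5) (nat_lit 4) (nat_lit 5) (nat_lit 3) (nat_lit 4) (nat_lit 351) (nat_lit 231) (nat_lit 138)) (XT.lf (nat_lit 0) (nat_lit 7295471564) (nat_lit 76) (nat_lit 4136825360) (nat_lit 152) (nat_lit 294387533396) (nat_lit 1) (nat_lit 5) (nat_lit 2) (nat_lit 5) (nat_lit 3) (nat_lit 4) (nat_lit 352) (nat_lit 231) (nat_lit 137))) (XT.nd (nat_lit 78) (nat_lit 0) (nat_lit 0)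 (XT.lf (nat_lit 0) (nat_lit 15480866359) (nat_lit 152) (nat_lit 305313149270) (nat_lit 0) (nat_lit 101199266) (nat_lit 1) (nat_lit 5) (nat_lit 3) (nat_lit 4) (nat_lit 1) (nat_lit 4) (nat_lit 353) (nat_lit 231) (nat_lit 136)) (XT.nd (nat_lit 78) (nat_lit 0) (nat_lit 0) (XT.lf (nat_lit 0) (nat_lit 19795666783) (nat_lit 152) (nat_lit 312516692432) (nat_lit 0) (nat_lit 4408822080) (nat_lit 1) (nat_lit 5) (nat_lit 3) (nat_lit 4) (nat_lit 1) (nat_lit 4) (nat_lit 354) (nat_lit 231) (nat_lit 135)) (XT.lf (nat_lit 0) (nat_lit 24322384096) (nat_lit 152) (nat_lit 320087552098) (nat_lit 0) (nat_lit 8928703574) (nat_lit 1) (nat_lit 5) (nat_lit 3) (nat_lit 4) (nat_lit 1) (nat_lit 4) (nat_lit 355) (nat_lit 231) (nat_lit 134)))))) (XT.nd (nat_lit 312) (nat_lit 0) (nat_lit 0) (XT.nd (nat_lit 156) (nat_lit 0) (nat_lit 0) (XT.nd (nat_lit 78) (nat_lit 0) (nat_lit 0) (XT.lf (nat_lit 0) (nat_lit 29071796195)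 (nat_lit 152) (nat_lit 328043754126) (nat_lit 0) (nat_lit 13671605370) (nat_lit 1) (nat_lit 5) (nat_lit 3) (nat_lit 4) (nat_lit 1) (nat_lit 4) (nat_lit 356) (nat_lit 231) (nat_lit 133)) (XT.lf (nat_lit 0) (nat_lit 34055211205) (nat_lit 152) (nat_lit 336404241852) (nat_lit 0) (nat_lit 18648820090) (nat_lit 1) (nat_lit 5) (nat_lit 3) (nat_lit 4) (nat_lit 1) (nat_lit 4) (nat_lit 357) (nat_lit 231) (nat_lit 132))) (XT.nd (nat_lit 78) (nat_lit 0) (nat_lit 0) (XT.lf (nat_lit 0) (nat_lit 39284494400) (nat_lit 152) (nat_lit 345188921200) (nat_lit 0) (nat_lit 23872198247) (nat_lit 1) (nat_lit 5) (nat_lit 3) (nat_lit 4) (nat_lit 1) (nat_lit 4) (nat_lit 358) (nat_lit 231) (nat_lit 131)) (XT.lf (nat_lit 0) (nat_lit 44772096453) (nat_lit 152) (nat_lit 354418708074) (nat_lit 0) (nat_lit 29354176455) (nat_lit 1) (nat_lit 5) (nat_lit 3) (nat_lit 4) (nat_lit 1) (nat_lit 4) (nat_lit 359) (nat_lit 231)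 (nat_lit 130)))) (XT.nd (nat_lit 156) (nat_lit 0) (nat_lit 0) (XT.nd (nat_lit 78) (nat_lit 0) (nat_lit 0) (XT.lf (nat_lit 0) (nat_lit 50531083083) (nat_lit 152) (nat_lit 364115578156) (nat_lit 0) (nat_lit 35107807043) (nat_lit 1) (nat_lit 5) (nat_lit 3) (nat_lit 4) (nat_lit 1) (nat_lit 4) (nat_lit 360) (nat_lit 231) (nat_lit 129)) (XT.lf (nat_lit 0) (nat_lit 56575166165) (nat_lit 152) (nat_lit 374302619232) (nat_lit 0) (nat_lit 41146789131) (nat_lit 1) (nat_lit 5) (nat_lit 3) (nat_lit 4) (nat_lit 1) (nat_lit 4) (nat_lit 361) (nat_lit 231) (nat_lit 128))) (XT.nd (nat_lit 78) (nat_lit 0) (nat_lit 0) (XT.lf (nat_lit 0) (nat_lit 62918736371) (nat_lit 152) (nat_lit 385004086163) (nat_lit 0) (nat_lit 47485501249) (nat_lit 1) (nat_lit 5) (nat_lit 3) (nat_lit 4) (nat_lit 1) (nat_lit 4) (nat_lit 362) (nat_lit 231) (nat_lit 127)) (XT.nd (nat_lit 78) (nat_lit 0) (nat_lit 0) (XT.lf (nat_lit 0)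 (nat_lit 69576897441) (nat_lit 152) (nat_lit 396245458630) (nat_lit 0) (nat_lit 54139035567) (nat_lit 1) (nat_lit 5) (nat_lit 3) (nat_lit 4) (nat_lit 1) (nat_lit 4) (nat_lit 363) (nat_lit 231) (nat_lit 126)) (XT.lf (nat_lit 0) (nat_lit 76565502139) (nat_lit 152) (nat_lit 408053501808) (nat_lit 0) (nat_lit 61123233835) (nat_lit 1) (nat_lit 5) (nat_lit 3) (nat_lit 4) (nat_lit 1) (nat_lit 4) (nat_lit 364) (nat_lit 231) (nat_lit 125))))))) (XT.nd (nat_lit 702) (nat_lit 1520) (nat_lit 0) (XT.nd (nat_lit 312) (nat_lit 1368) (nat_lit 0) (XT.nd (nat_lit 156) (nat_lit 456) (nat_lit 0) (XT.nd (nat_lit 78) (nat_lit 684) (nat_lit 0) (XT.lf (nat_lit 0) (nat_lit 1808171799) (nat_lit 684) (nat_lit 16006998) (nat_lit 0) (nat_lit 1808171799) (nat_lit 83) (nat_lit 5) (nat_lit 92) (nat_lit 4) (nat_lit 83) (nat_lit 4) (nat_lit 256) (nat_lit 232) (nat_lit 232)) (XT.lf (nat_lit 0) (nat_lit 4814349912) (nat_lit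 684) (nat_lit 2049665531) (nat_lit 684) (nat_lit 512209352) (nat_lit 74) (nat_lit 4) (nat_lit 83) (nat_lit 5) (nat_lit 83) (nat_lit 4) (nat_lit 257) (nat_lit 232) (nat_lit 231))) (XT.nd (nat_lit 78) (nat_lit 0) (nat_lit 0) (XT.lf (nat_lit 0) (nat_lit 2282269541) (nat_lit 380) (nat_lit 295276653) (nat_lit 456) (nat_lit 4919846965) (nat_lit 68) (nat_lit 5) (nat_lit 73) (nat_lit 5) (nat_lit 74) (nat_lit 4) (nat_lit 258) (nat_lit 232) (nat_lit 230)) (XT.lf (nat_lit 0) (nat_lit 5727016519) (nat_lit 456) (nat_lit 361423729) (nat_lit 0) (nat_lit 1540142010) (nat_lit 68) (nat_lit 5) (nat_lit 74) (nat_lit 4) (nat_lit 68) (nat_lit 4) (nat_lit 259) (nat_lit 232) (nat_lit 229)))) (XT.nd (nat_lit 156) (nat_lit 608) (nat_lit 0) (XT.nd (nat_lit 78) (nat_lit 304) (nat_lit 0) (XT.lf (nat_lit 0) (nat_lit 1165365477) (nat_lit 456) (nat_lit 3062744282) (nat_lit 76) (nat_lit 3540773407) (nat_lit 62) (nat_lit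 5) (nat_lit 68) (nat_lit 5) (nat_lit 63) (nat_lit 4) (nat_lit 260) (nat_lit 232) (nat_lit 228)) (XT.lf (nat_lit 0) (nat_lit 1998453804) (nat_lit 304) (nat_lit 2223416664) (nat_lit 380) (nat_lit 3698198916) (nat_lit 58) (nat_lit 5) (nat_lit 62) (nat_lit 5) (nat_lit 63) (nat_lit 4) (nat_lit 261) (nat_lit 232) (nat_lit 227))) (XT.nd (nat_lit 78) (nat_lit 608) (nat_lit 0) (XT.lf (nat_lit 0) (nat_lit 7263621249) (nat_lit 304) (nat_lit 86269179) (nat_lit 380) (nat_lit 733404798) (nat_lit 58) (nat_lit 5) (nat_lit 62) (nat_lit 5) (nat_lit 63) (nat_lit 4) (nat_lit 262) (nat_lit 232) (nat_lit 226)) (XT.nd (nat_lit 78) (nat_lit 228) (nat_lit 0) (XT.lf (nat_lit 0) (nat_lit 2279370442) (nat_lit 380) (nat_lit 3799953003) (nat_lit 76) (nat_lit 2175082295) (nat_lit 53) (nat_lit 5) (nat_lit 58) (nat_lit 5) (nat_lit 54) (nat_lit 4) (nat_lit 263) (nat_lit 232) (nat_lit 225)) (XT.lf (nat_lit 0) (nat_lit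 1464104210) (nat_lit 228) (nat_lit 3866541927) (nat_lit 304) (nat_lit 3107557366) (nat_lit 50) (nat_lit 5) (nat_lit 53) (nat_lit 5) (nat_lit 54) (nat_lit 4) (nat_lit 264) (nat_lit 232) (nat_lit 224)))))) (XT.nd (nat_lit 390) (nat_lit 608) (nat_lit 0) (XT.nd (nat_lit 156) (nat_lit 532) (nat_lit 0) (XT.nd (nat_lit 78) (nat_lit 380) (nat_lit 0) (XT.lf (nat_lit 0) (nat_lit 6969356828) (nat_lit 228) (nat_lit 1507200208) (nat_lit 304) (nat_lit 157871803) (nat_lit 50) (nat_lit 5) (nat_lit 53) (nat_lit 5) (nat_lit 54) (nat_lit 4) (nat_lit 265) (nat_lit 232) (nat_lit 223)) (XT.lf (nat_lit 0) (nat_lit 2802798733) (nat_lit 380) (nat_lit 5022361533) (nat_lit 76) (nat_lit 1015441342) (nat_lit 45) (nat_lit 5) (nat_lit 50) (nat_lit 5) (nat_lit 46) (nat_lit 4) (nat_lit 266) (nat_lit 232) (nat_lit 222))) (XT.nd (nat_lit 78) (nat_lit 304) (nat_lit 0) (XT.lf (nat_lit 0) (nat_lit 409241864) (nat_lit 228)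 (nat_lit 5440849178) (nat_lit 304) (nat_lit 3209962671) (nat_lit 42) (nat_lit 5) (nat_lit 45) (nat_lit 5) (nat_lit 46) (nat_lit 4) (nat_lit 267) (nat_lit 232) (nat_lit 221)) (XT.nd (nat_lit 78) (nat_lit 304) (nat_lit 0) (XT.lf (nat_lit 0) (nat_lit 6135323426) (nat_lit 228) (nat_lit 2886768302) (nat_lit 304) (nat_lit 270050259) (nat_lit 42) (nat_lit 5) (nat_lit 45) (nat_lit 5) (nat_lit 46) (nat_lit 4) (nat_lit 268) (nat_lit 232) (nat_lit 220)) (XT.lf (nat_lit 0) (nat_lit 2499778830) (nat_lit 228) (nat_lit 156586767) (nat_lit 304) (nat_lit 6881041535) (nat_lit 38) (nat_lit 5) (nat_lit 41) (nat_lit 5) (nat_lit 42) (nat_lit 5) (nat_lit 269) (nat_lit 232) (nat_lit 219))))) (XT.nd (nat_lit 156) (nat_lit 456) (nat_lit 0) (XT.nd (nat_lit 78) (nat_lit 152) (nat_lit 0) (XT.lf (nat_lit 0) (nat_lit 5709632888) (nat_lit 304) (nat_lit 1441760881) (nat_lit 76) (nat_lit 2644082630) (nat_lit 38) (nat_lit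 5) (nat_lit 42) (nat_lit 5) (nat_lit 39) (nat_lit 4) (nat_lit 270) (nat_lit 232) (nat_lit 218)) (XT.lf (nat_lit 0) (nat_lit 4429596853) (nat_lit 152) (nat_lit 4455744587) (nat_lit 228) (nat_lit 1182849771) (nat_lit 36) (nat_lit 5) (nat_lit 38) (nat_lit 5) (nat_lit 39) (nat_lit 4) (nat_lit 271) (nat_lit 232) (nat_lit 217))) (XT.nd (nat_lit 78) (nat_lit 152) (nat_lit 0) (XT.lf (nat_lit 0) (nat_lit 120851794) (nat_lit 228) (nat_lit 1610306742) (nat_lit 304) (nat_lit 8625858310) (nat_lit 32) (nat_lit 5) (nat_lit 35) (nat_lit 5) (nat_lit 36) (nat_lit 5) (nat_lit 272) (nat_lit 232) (nat_lit 216)) (XT.nd (nat_lit 78) (nat_lit 152) (nat_lit 0) (XT.lf (nat_lit 0) (nat_lit 4770448214) (nat_lit 304) (nat_lit 4480798095) (nat_lit 76) (nat_lit 1407300806) (nat_lit 32) (nat_lit 5) (nat_lit 36) (nat_lit 5) (nat_lit 33) (nat_lit 4) (nat_lit 273) (nat_lit 232) (nat_lit 215)) (XT.lf (nat_lit 0) (nat_lit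 1442235550) (nat_lit 152) (nat_lit 6473877465) (nat_lit 228) (nat_lit 3061510376) (nat_lit 30) (nat_lit 5) (nat_lit 32) (nat_lit 5) (nat_lit 33) (nat_lit 4) (nat_lit 274) (nat_lit 232) (nat_lit 214))))))))
noncomputable def xc84 : XT := (XT.nd (nat_lit 1404) (nat_lit 456) (nat_lit 0) (XT.nd (nat_lit 702) (nat_lit 608) (nat_lit 0) (XT.nd (nat_lit 312) (nat_lit 304) (nat_lit 0) (XT.nd (nat_lit 156) (nat_lit 152) (nat_lit 0) (XT.nd (nat_lit 78) (nat_lit 228) (nat_lit 0) (XT.lf (nat_lit 0) (nat_lit 7679376206) (nat_lit 152) (nat_lit 3523415966) (nat_lit 228) (nat_lit 110855728) (nat_lit 30) (nat_lit 5) (nat_lit 32) (nat_lit 5) (nat_lit 33) (nat_lit 4) (nat_lit 275) (nat_lit 232) (nat_lit 213)) (XT.lf (nat_lit 0) (nat_lit 2459814816) (nat_lit 152) (nat_lit 380937442) (nat_lit 228) (nat_lit 8826101801) (nat_lit 27) (nat_lit 5) (nat_lit 29) (nat_lit 5) (nat_lit 30) (nat_lit 5) (nat_lit 276)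 (nat_lit 232) (nat_lit 212))) (XT.nd (nat_lit 78) (nat_lit 152) (nat_lit 0) (XT.lf (nat_lit 0) (nat_lit 5956464830) (nat_lit 228) (nat_lit 3234083901) (nat_lit 76) (nat_lit 2846224781) (nat_lit 27) (nat_lit 5) (nat_lit 30) (nat_lit 5) (nat_lit 28) (nat_lit 4) (nat_lit 277) (nat_lit 232) (nat_lit 211)) (XT.lf (nat_lit 0) (nat_lit 2997867375) (nat_lit 152) (nat_lit 6199454201) (nat_lit 228) (nat_lit 3229548323) (nat_lit 25) (nat_lit 5) (nat_lit 27) (nat_lit 5) (nat_lit 28) (nat_lit 4) (nat_lit 278) (nat_lit 232) (nat_lit 210)))) (XT.nd (nat_lit 156) (nat_lit 76) (nat_lit 0) (XT.nd (nat_lit 78) (nat_lit 228) (nat_lit 0) (XT.lf (nat_lit 0) (nat_lit 9526425281) (nat_lit 152) (nat_lit 3046873463) (nat_lit 228) (nat_lit 264660281) (nat_lit 25) (nat_lit 5) (nat_lit 27) (nat_lit 5) (nat_lit 28) (nat_lit 4) (nat_lit 279) (nat_lit 232) (nat_lit 209)) (XT.lf (nat_lit 0) (nat_lit 2730487956) (nat_lit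 228) (nat_lit 10233315372) (nat_lit 76) (nat_lit 305045029) (nat_lit 22) (nat_lit 5) (nat_lit 25) (nat_lit 5) (nat_lit 23) (nat_lit 4) (nat_lit 280) (nat_lit 232) (nat_lit 208))) (XT.nd (nat_lit 78) (nat_lit 76) (nat_lit 0) (XT.lf (nat_lit 0) (nat_lit 5895411765) (nat_lit 228) (nat_lit 4084014600) (nat_lit 76) (nat_lit 3740315723) (nat_lit 22) (nat_lit 5) (nat_lit 25) (nat_lit 5) (nat_lit 23) (nat_lit 4) (nat_lit 281) (nat_lit 232) (nat_lit 207)) (XT.nd (nat_lit 78) (nat_lit 0) (nat_lit 0) (XT.lf (nat_lit 0) (nat_lit 2327973500) (nat_lit 76) (nat_lit 6852632477) (nat_lit 152) (nat_lit 5014589976) (nat_lit 21) (nat_lit 5) (nat_lit 22) (nat_lit 5) (nat_lit 23) (nat_lit 4) (nat_lit 282) (nat_lit 232) (nat_lit 206)) (XT.lf (nat_lit 0) (nat_lit 9084985363) (nat_lit 76) (nat_lit 3541624094) (nat_lit 152) (nat_lit 2068096680) (nat_lit 21) (nat_lit 5) (nat_lit 22) (nat_lit 5) (nat_lit 23) (nat_lit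 4) (nat_lit 283) (nat_lit 232) (nat_lit 205)))))) (XT.nd (nat_lit 312) (nat_lit 304) (nat_lit 0) (XT.nd (nat_lit 156) (nat_lit 76) (nat_lit 0) (XT.nd (nat_lit 78) (nat_lit 0) (nat_lit 0) (XT.lf (nat_lit 0) (nat_lit 857896679) (nat_lit 152) (nat_lit 77995792) (nat_lit 228) (nat_lit 14285449380) (nat_lit 18) (nat_lit 5) (nat_lit 20) (nat_lit 5) (nat_lit 21) (nat_lit 5) (nat_lit 284) (nat_lit 232) (nat_lit 204)) (XT.lf (nat_lit 0) (nat_lit 4103227430) (nat_lit 228) (nat_lit 8132147631) (nat_lit 76) (nat_lit 3533202706) (nat_lit 18) (nat_lit 5) (nat_lit 21) (nat_lit 5) (nat_lit 19) (nat_lit 4) (nat_lit 285) (nat_lit 232) (nat_lit 203))) (XT.nd (nat_lit 78) (nat_lit 76) (nat_lit 0) (XT.lf (nat_lit 0) (nat_lit 7364040263) (nat_lit 228) (nat_lit 1700293904) (nat_lit 76) (nat_lit 7282177160) (nat_lit 18) (nat_lit 5) (nat_lit 21) (nat_lit 5) (nat_lit 19) (nat_lit 4) (nat_lit 286) (nat_lit 232)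 (nat_lit 202)) (XT.lf (nat_lit 0) (nat_lit 5112272319) (nat_lit 76) (nat_lit 5692421655) (nat_lit 152) (nat_lit 6147894631) (nat_lit 17) (nat_lit 5) (nat_lit 18) (nat_lit 5) (nat_lit 19) (nat_lit 4) (nat_lit 287) (nat_lit 232) (nat_lit 201)))) (XT.nd (nat_lit 156) (nat_lit 152) (nat_lit 0) (XT.nd (nat_lit 78) (nat_lit 152) (nat_lit 0) (XT.lf (nat_lit 0) (nat_lit 12221677951) (nat_lit 76) (nat_lit 2162876557) (nat_lit 152) (nat_lit 3206139440) (nat_lit 17) (nat_lit 5) (nat_lit 18) (nat_lit 5) (nat_lit 19) (nat_lit 4) (nat_lit 288) (nat_lit 232) (nat_lit 200)) (XT.lf (nat_lit 0) (nat_lit 1344463890) (nat_lit 152) (nat_lit 16784728446) (nat_lit 152) (nat_lit 132301966) (nat_lit 15) (nat_lit 4) (nat_lit 17) (nat_lit 5) (nat_lit 17) (nat_lit 4) (nat_lit 289) (nat_lit 232) (nat_lit 199))) (XT.nd (nat_lit 78) (nat_lit 76) (nat_lit 0) (XT.lf (nat_lit 0) (nat_lit 3064994667) (nat_lit 228) (nat_lit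 10567272683) (nat_lit 76) (nat_lit 5327780991) (nat_lit 14) (nat_lit 5) (nat_lit 17) (nat_lit 5) (nat_lit 15) (nat_lit 4) (nat_lit 290) (nat_lit 232) (nat_lit 198)) (XT.nd (nat_lit 78) (nat_lit 76) (nat_lit 0) (XT.lf (nat_lit 0) (nat_lit 6361480787) (nat_lit 228) (nat_lit 3998128776) (nat_lit 76) (nat_lit 9336691737) (nat_lit 14) (nat_lit 5) (nat_lit 17) (nat_lit 5) (nat_lit 15) (nat_lit 4) (nat_lit 291) (nat_lit 232) (nat_lit 197)) (XT.lf (nat_lit 0) (nat_lit 2900956456) (nat_lit 76) (nat_lit 6913575264) (nat_lit 152) (nat_lit 10655313123) (nat_lit 13) (nat_lit 5) (nat_lit 14) (nat_lit 5) (nat_lit 15) (nat_lit 4) (nat_lit 292) (nat_lit 232) (nat_lit 196))))))) (XT.nd (nat_lit 702) (nat_lit 228) (nat_lit 0) (XT.nd (nat_lit 312) (nat_lit 76) (nat_lit 0) (XT.nd (nat_lit 156) (nat_lit 152) (nat_lit 0) (XT.nd (nat_lit 78) (nat_lit 0) (nat_lit 0) (XT.lf (nat_lit 0) (nat_lit 10193910980)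 (nat_lit 76) (nat_lit 3261629535) (nat_lit 152) (nat_lit 7825821647) (nat_lit 13) (nat_lit 5) (nat_lit 14) (nat_lit 5) (nat_lit 15) (nat_lit 4) (nat_lit 293) (nat_lit 232) (nat_lit 195)) (XT.lf (nat_lit 0) (nat_lit 17237077686) (nat_lit 152) (nat_lit 4378494352) (nat_lit 0) (nat_lit 520018334) (nat_lit 13) (nat_lit 5) (nat_lit 15) (nat_lit 4) (nat_lit 13) (nat_lit 4) (nat_lit 294) (nat_lit 232) (nat_lit 194))) (XT.nd (nat_lit 78) (nat_lit 76) (nat_lit 0) (XT.lf (nat_lit 0) (nat_lit 2612625652) (nat_lit 76) (nat_lit 18641262141) (nat_lit 76) (nat_lit 1776388509) (nat_lit 12) (nat_lit 4) (nat_lit 13) (nat_lit 5) (nat_lit 13) (nat_lit 4) (nat_lit 295) (nat_lit 232) (nat_lit 193)) (XT.lf (nat_lit 0) (nat_lit 1481261357) (nat_lit 152) (nat_lit 13969063354) (nat_lit 76) (nat_lit 8516875930) (nat_lit 11) (nat_lit 5) (nat_lit 13) (nat_lit 5) (nat_lit 12) (nat_lit 4) (nat_lit 296) (nat_lit 232)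 (nat_lit 192)))) (XT.nd (nat_lit 156) (nat_lit 76) (nat_lit 0) (XT.nd (nat_lit 78) (nat_lit 0) (nat_lit 0) (XT.lf (nat_lit 0) (nat_lit 4796495676) (nat_lit 152) (nat_lit 7306904907) (nat_lit 76) (nat_lit 12848443015) (nat_lit 11) (nat_lit 5) (nat_lit 13) (nat_lit 5) (nat_lit 12) (nat_lit 4) (nat_lit 297) (nat_lit 232) (nat_lit 191)) (XT.lf (nat_lit 0) (nat_lit 8234063390) (nat_lit 152) (nat_lit 387578627) (nat_lit 76) (nat_lit 17366294270) (nat_lit 11) (nat_lit 5) (nat_lit 13) (nat_lit 5) (nat_lit 12) (nat_lit 4) (nat_lit 298) (nat_lit 232) (nat_lit 190))) (XT.nd (nat_lit 78) (nat_lit 0) (nat_lit 0) (XT.lf (nat_lit 0) (nat_lit 7030407002) (nat_lit 76) (nat_lit 4881506536) (nat_lit 152) (nat_lit 15160543837) (nat_lit 10) (nat_lit 5) (nat_lit 11) (nat_lit 5) (nat_lit 12) (nat_lit 4) (nat_lit 299) (nat_lit 232) (nat_lit 189)) (XT.nd (nat_lit 78) (nat_lit 0) (nat_lit 0) (XT.lf (nat_lit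 0) (nat_lit 14761590388) (nat_lit 76) (nat_lit 978127901) (nat_lit 152) (nat_lit 12473224996) (nat_lit 10) (nat_lit 5) (nat_lit 11) (nat_lit 5) (nat_lit 12) (nat_lit 4) (nat_lit 300) (nat_lit 232) (nat_lit 188)) (XT.lf (nat_lit 0) (nat_lit 19768602866) (nat_lit 152) (nat_lit 6649120681) (nat_lit 0) (nat_lit 2992285344) (nat_lit 10) (nat_lit 5) (nat_lit 12) (nat_lit 4) (nat_lit 10) (nat_lit 4) (nat_lit 301) (nat_lit 232) (nat_lit 187)))))) (XT.nd (nat_lit 312) (nat_lit 76) (nat_lit 0) (XT.nd (nat_lit 156) (nat_lit 76) (nat_lit 0) (XT.nd (nat_lit 78) (nat_lit 0) (nat_lit 0) (XT.lf (nat_lit 0) (nat_lit 424802068) (nat_lit 76) (nat_lit 23559626447) (nat_lit 76) (nat_lit 6683262402) (nat_lit 9) (nat_lit 4) (nat_lit 10) (nat_lit 5) (nat_lit 10) (nat_lit 4) (nat_lit 302) (nat_lit 232) (nat_lit 186)) (XT.lf (nat_lit 0) (nat_lit 8018345134) (nat_lit 76) (nat_lit 20468892460) (nat_lit 76) (nat_lit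 3497246014) (nat_lit 9) (nat_lit 4) (nat_lit 10) (nat_lit 5) (nat_lit 10) (nat_lit 4) (nat_lit 303) (nat_lit 232) (nat_lit 185))) (XT.nd (nat_lit 78) (nat_lit 76) (nat_lit 0) (XT.lf (nat_lit 0) (nat_lit 15929738422) (nat_lit 76) (nat_lit 17250768775) (nat_lit 76) (nat_lit 188377183) (nat_lit 9) (nat_lit 4) (nat_lit 10) (nat_lit 5) (nat_lit 10) (nat_lit 4) (nat_lit 304) (nat_lit 232) (nat_lit 184)) (XT.lf (nat_lit 0) (nat_lit 3147162929) (nat_lit 152) (nat_lit 10697131535) (nat_lit 76) (nat_lit 20977356927) (nat_lit 8) (nat_lit 5) (nat_lit 10) (nat_lit 5) (nat_lit 9) (nat_lit 4) (nat_lit 305) (nat_lit 232) (nat_lit 183)))) (XT.nd (nat_lit 156) (nat_lit 0) (nat_lit 0) (XT.nd (nat_lit 78) (nat_lit 76) (nat_lit 0) (XT.lf (nat_lit 0) (nat_lit 6611147704) (nat_lit 152) (nat_lit 3678271268) (nat_lit 76) (nat_lit 26059113213) (nat_lit 8) (nat_lit 5) (nat_lit 10) (nat_lit 5) (nat_lit 9) (nat_lit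 4) (nat_lit 306) (nat_lit 232) (nat_lit 182)) (XT.lf (nat_lit 0) (nat_lit 3757346049) (nat_lit 76) (nat_lit 6519170623) (nat_lit 152) (nat_lit 27673859439) (nat_lit 7) (nat_lit 5) (nat_lit 8) (nat_lit 5) (nat_lit 9) (nat_lit 4) (nat_lit 307) (nat_lit 232) (nat_lit 181))) (XT.nd (nat_lit 78) (nat_lit 0) (nat_lit 0) (XT.lf (nat_lit 0) (nat_lit 11638879141) (nat_lit 76) (nat_lit 2518705505) (nat_lit 152) (nat_lit 25473133053) (nat_lit 7) (nat_lit 5) (nat_lit 8) (nat_lit 5) (nat_lit 9) (nat_lit 4) (nat_lit 308) (nat_lit 232) (nat_lit 180)) (XT.nd (nat_lit 78) (nat_lit 0) (nat_lit 0) (XT.lf (nat_lit 0) (nat_lit 18230170196) (nat_lit 152) (nat_lit 21558955694) (nat_lit 0) (nat_lit 1606102975) (nat_lit 7) (nat_lit 5) (nat_lit 9) (nat_lit 4) (nat_lit 7) (nat_lit 4) (nat_lit 309) (nat_lit 232) (nat_lit 179)) (XT.lf (nat_lit 0) (nat_lit 22520253211) (nat_lit 152) (nat_lit 14895348340) (nat_lit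 0) (nat_lit 5831695110) (nat_lit 7) (nat_lit 5) (nat_lit 9) (nat_lit 4) (nat_lit 7) (nat_lit 4) (nat_lit 310) (nat_lit 232) (nat_lit 178))))))))
noncomputable def xc85 : XT := (XT.nd (nat_lit 1404) (nat_lit 76) (nat_lit 0) (XT.nd (nat_lit 702) (nat_lit 76) (nat_lit 0) (XT.nd (nat_lit 312) (nat_lit 76) (nat_lit 0) (XT.nd (nat_lit 156) (nat_lit 76) (nat_lit 0) (XT.nd (nat_lit 78) (nat_lit 0) (nat_lit 0) (XT.lf (nat_lit 0) (nat_lit 26998724125) (nat_lit 152) (nat_lit 7945826715) (nat_lit 0) (nat_lit 10248746138) (nat_lit 7) (nat_lit 5) (nat_lit 9) (nat_lit 4) (nat_lit 7) (nat_lit 4) (nat_lit 311) (nat_lit 232) (nat_lit 177)) (XT.lf (nat_lit 0) (nat_lit 31676245964) (nat_lit 152) (nat_lit 693844337) (nat_lit 0) (nat_lit 14867772847) (nat_lit 7) (nat_lit 5) (nat_lit 9) (nat_lit 4) (nat_lit 7) (nat_lit 4) (nat_lit 312) (nat_lit 232) (nat_lit 176))) (XT.nd (nat_lit 78) (nat_lit 0) (nat_lit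 0) (XT.lf (nat_lit 0) (nat_lit 7105278708) (nat_lit 76) (nat_lit 29569610288) (nat_lit 76) (nat_lit 12705427524) (nat_lit 6) (nat_lit 4) (nat_lit 7) (nat_lit 5) (nat_lit 7) (nat_lit 4) (nat_lit 313) (nat_lit 232) (nat_lit 175)) (XT.lf (nat_lit 0) (nat_lit 15276266353) (nat_lit 76) (nat_lit 26635729664) (nat_lit 76) (nat_lit 9718490093) (nat_lit 6) (nat_lit 4) (nat_lit 7) (nat_lit 5) (nat_lit 7) (nat_lit 4) (nat_lit 314) (nat_lit 232) (nat_lit 174)))) (XT.nd (nat_lit 156) (nat_lit 76) (nat_lit 0) (XT.nd (nat_lit 78) (nat_lit 0) (nat_lit 0) (XT.lf (nat_lit 0) (nat_lit 23815631702) (nat_lit 76) (nat_lit 23573213590) (nat_lit 76) (nat_lit 6605443726) (nat_lit 6) (nat_lit 4) (nat_lit 7) (nat_lit 5) (nat_lit 7) (nat_lit 4) (nat_lit 315) (nat_lit 232) (nat_lit 173)) (XT.lf (nat_lit 0) (nat_lit 32743706577) (nat_lit 76) (nat_lit 20374770360) (nat_lit 76) (nat_lit 3358876408) (nat_lit 6) (nat_lit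 4) (nat_lit 7) (nat_lit 5) (nat_lit 7) (nat_lit 4) (nat_lit 316) (nat_lit 232) (nat_lit 172))) (XT.nd (nat_lit 78) (nat_lit 0) (nat_lit 0) (XT.lf (nat_lit 0) (nat_lit 28015464) (nat_lit 152) (nat_lit 17004294714) (nat_lit 76) (nat_lit 42053258379) (nat_lit 5) (nat_lit 5) (nat_lit 7) (nat_lit 5) (nat_lit 6) (nat_lit 4) (nat_lit 317) (nat_lit 232) (nat_lit 171)) (XT.nd (nat_lit 78) (nat_lit 0) (nat_lit 0) (XT.lf (nat_lit 0) (nat_lit 3451940343) (nat_lit 152) (nat_lit 10028898679) (nat_lit 76) (nat_lit 48341589678) (nat_lit 5) (nat_lit 5) (nat_lit 7) (nat_lit 5) (nat_lit 6) (nat_lit 4) (nat_lit 318) (nat_lit 232) (nat_lit 170)) (XT.lf (nat_lit 0) (nat_lit 7028555451) (nat_lit 152) (nat_lit 2738409104) (nat_lit 76) (nat_lit 54930107625) (nat_lit 5) (nat_lit 5) (nat_lit 7) (nat_lit 5) (nat_lit 6) (nat_lit 4) (nat_lit 319) (nat_lit 232) (nat_lit 169)))))) (XT.nd (nat_lit 312) (nat_lit 0)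 (nat_lit 0) (XT.nd (nat_lit 156) (nat_lit 0) (nat_lit 0) (XT.nd (nat_lit 78) (nat_lit 0) (nat_lit 0) (XT.lf (nat_lit 0) (nat_lit 5046037016) (nat_lit 76) (nat_lit 5799122301) (nat_lit 152) (nat_lit 56867244931) (nat_lit 4) (nat_lit 5) (nat_lit 5) (nat_lit 5) (nat_lit 6) (nat_lit 4) (nat_lit 320) (nat_lit 232) (nat_lit 168)) (XT.lf (nat_lit 0) (nat_lit 13283221494) (nat_lit 76) (nat_lit 1598469999) (nat_lit 152) (nat_lit 55995370154) (nat_lit 4) (nat_lit 5) (nat_lit 5) (nat_lit 5) (nat_lit 6) (nat_lit 4) (nat_lit 321) (nat_lit 232) (nat_lit 167))) (XT.nd (nat_lit 78) (nat_lit 0) (nat_lit 0) (XT.lf (nat_lit 0) (nat_lit 19147289144) (nat_lit 152) (nat_lit 52342269434) (nat_lit 0) (nat_lit 2709044379) (nat_lit 4) (nat_lit 5) (nat_lit 6) (nat_lit 4) (nat_lit 4) (nat_lit 4) (nat_lit 322) (nat_lit 232) (nat_lit 166)) (XT.lf (nat_lit 0) (nat_lit 23636497113) (nat_lit 152) (nat_lit 46883539991)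 (nat_lit 0) (nat_lit 7165680071) (nat_lit 4) (nat_lit 5) (nat_lit 6) (nat_lit 4) (nat_lit 4) (nat_lit 4) (nat_lit 323) (nat_lit 232) (nat_lit 165)))) (XT.nd (nat_lit 156) (nat_lit 0) (nat_lit 0) (XT.nd (nat_lit 78) (nat_lit 0) (nat_lit 0) (XT.lf (nat_lit 0) (nat_lit 28335047394) (nat_lit 152) (nat_lit 41179698256) (nat_lit 0) (nat_lit 11833209136) (nat_lit 4) (nat_lit 5) (nat_lit 6) (nat_lit 4) (nat_lit 4) (nat_lit 4) (nat_lit 324) (nat_lit 232) (nat_lit 164)) (XT.lf (nat_lit 0) (nat_lit 33254127012) (nat_lit 152) (nat_lit 35217163651) (nat_lit 0) (nat_lit 16722744738) (nat_lit 4) (nat_lit 5) (nat_lit 6) (nat_lit 4) (nat_lit 4) (nat_lit 4) (nat_lit 325) (nat_lit 232) (nat_lit 163))) (XT.nd (nat_lit 78) (nat_lit 0) (nat_lit 0) (XT.lf (nat_lit 0) (nat_lit 38405448061) (nat_lit 152) (nat_lit 28981739666) (nat_lit 0) (nat_lit 21845928629) (nat_lit 4) (nat_lit 5) (nat_lit 6) (nat_lit 4)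 (nat_lit 4) (nat_lit 4) (nat_lit 326) (nat_lit 232) (nat_lit 162)) (XT.nd (nat_lit 78) (nat_lit 0) (nat_lit 0) (XT.lf (nat_lit 0) (nat_lit 43801275591) (nat_lit 152) (nat_lit 22458580053) (nat_lit 0) (nat_lit 27214958867) (nat_lit 4) (nat_lit 5) (nat_lit 6) (nat_lit 4) (nat_lit 4) (nat_lit 4) (nat_lit 327) (nat_lit 232) (nat_lit 161)) (XT.lf (nat_lit 0) (nat_lit 49454456811) (nat_lit 152) (nat_lit 15632153480) (nat_lit 0) (nat_lit 32842618855) (nat_lit 4) (nat_lit 5) (nat_lit 6) (nat_lit 4) (nat_lit 4) (nat_lit 4) (nat_lit 328) (nat_lit 232) (nat_lit 160))))))) (XT.nd (nat_lit 702) (nat_lit 0) (nat_lit 0) (XT.nd (nat_lit 312) (nat_lit 0) (nat_lit 0) (XT.nd (nat_lit 156) (nat_lit 76) (nat_lit 0) (XT.nd (nat_lit 78) (nat_lit 0) (nat_lit 0) (XT.lf (nat_lit 0) (nat_lit 55378451675) (nat_lit 152) (nat_lit 8486206551) (nat_lit 0) (nat_lit 38742307785) (nat_lit 4) (nat_lit 5) (nat_lit 6) (nat_lit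 4) (nat_lit 4) (nat_lit 4) (nat_lit 329) (nat_lit 232) (nat_lit 159)) (XT.lf (nat_lit 0) (nat_lit 61587364935) (nat_lit 152) (nat_lit 1003725105) (nat_lit 0) (nat_lit 44928072535) (nat_lit 4) (nat_lit 5) (nat_lit 6) (nat_lit 4) (nat_lit 4) (nat_lit 4) (nat_lit 330) (nat_lit 232) (nat_lit 158))) (XT.nd (nat_lit 78) (nat_lit 0) (nat_lit 0) (XT.lf (nat_lit 0) (nat_lit 7059039640) (nat_lit 76) (nat_lit 61147151466) (nat_lit 76) (nat_lit 44465812868) (nat_lit 3) (nat_lit 4) (nat_lit 4) (nat_lit 5) (nat_lit 4) (nat_lit 4) (nat_lit 331) (nat_lit 232) (nat_lit 157)) (XT.lf (nat_lit 0) (nat_lit 15540334507) (nat_lit 76) (nat_lit 59622086385) (nat_lit 76) (nat_lit 42919751407) (nat_lit 3) (nat_lit 4) (nat_lit 4) (nat_lit 5) (nat_lit 4) (nat_lit 4) (nat_lit 332) (nat_lit 232) (nat_lit 156)))) (XT.nd (nat_lit 156) (nat_lit 0) (nat_lit 0) (XT.nd (nat_lit 78) (nat_lit 0) (nat_lit 0) (XT.lf (nat_lit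 0) (nat_lit 24427165367) (nat_lit 76) (nat_lit 58029262261) (nat_lit 76) (nat_lit 41306930730) (nat_lit 3) (nat_lit 4) (nat_lit 4) (nat_lit 5) (nat_lit 4) (nat_lit 4) (nat_lit 333) (nat_lit 232) (nat_lit 155)) (XT.lf (nat_lit 0) (nat_lit 33740691343) (nat_lit 76) (nat_lit 56364886654) (nat_lit 76) (nat_lit 39623510787) (nat_lit 3) (nat_lit 4) (nat_lit 4) (nat_lit 5) (nat_lit 4) (nat_lit 4) (nat_lit 334) (nat_lit 232) (nat_lit 154))) (XT.nd (nat_lit 78) (nat_lit 0) (nat_lit 0) (XT.lf (nat_lit 0) (nat_lit 43503087496) (nat_lit 76) (nat_lit 54624996767) (nat_lit 76) (nat_lit 37865483437) (nat_lit 3) (nat_lit 4) (nat_lit 4) (nat_lit 5) (nat_lit 4) (nat_lit 4) (nat_lit 335) (nat_lit 232) (nat_lit 153)) (XT.nd (nat_lit 78) (nat_lit 0) (nat_lit 0) (XT.lf (nat_lit 0) (nat_lit 53737597626) (nat_lit 76) (nat_lit 52805450003) (nat_lit 76) (nat_lit 36028662899) (nat_lit 3) (nat_lit 4) (nat_lit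 4) (nat_lit 5) (nat_lit 4) (nat_lit 4) (nat_lit 336) (nat_lit 232) (nat_lit 152)) (XT.lf (nat_lit 0) (nat_lit 64468589615) (nat_lit 76) (nat_lit 50901914109) (nat_lit 76) (nat_lit 34108675792) (nat_lit 3) (nat_lit 4) (nat_lit 4) (nat_lit 5) (nat_lit 4) (nat_lit 4) (nat_lit 337) (nat_lit 232) (nat_lit 151)))))) (XT.nd (nat_lit 312) (nat_lit 0) (nat_lit 0) (XT.nd (nat_lit 156) (nat_lit 0) (nat_lit 0) (XT.nd (nat_lit 78) (nat_lit 0) (nat_lit 0) (XT.lf (nat_lit 0) (nat_lit 75721613443) (nat_lit 76) (nat_lit 48909856856) (nat_lit 76) (nat_lit 32100950717) (nat_lit 3) (nat_lit 4) (nat_lit 4) (nat_lit 5) (nat_lit 4) (nat_lit 4) (nat_lit 338) (nat_lit 232) (nat_lit 150)) (XT.lf (nat_lit 0) (nat_lit 87523462025) (nat_lit 76) (nat_lit 46824535252) (nat_lit 76) (nat_lit 30000707377) (nat_lit 3) (nat_lit 4) (nat_lit 4) (nat_lit 5) (nat_lit 4) (nat_lit 4) (nat_lit 339) (nat_lit 232) (nat_lit 149)))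 (XT.nd (nat_lit 78) (nat_lit 0) (nat_lit 0) (XT.lf (nat_lit 0) (nat_lit 99902235000) (nat_lit 76) (nat_lit 44640984244) (nat_lit 76) (nat_lit 27802945193) (nat_lit 3) (nat_lit 4) (nat_lit 4) (nat_lit 5) (nat_lit 4) (nat_lit 4) (nat_lit 340) (nat_lit 232) (nat_lit 148)) (XT.lf (nat_lit 0) (nat_lit 112887405637) (nat_lit 76) (nat_lit 42354004901) (nat_lit 76) (nat_lit 25502431396) (nat_lit 3) (nat_lit 4) (nat_lit 4) (nat_lit 5) (nat_lit 4) (nat_lit 4) (nat_lit 341) (nat_lit 232) (nat_lit 147)))) (XT.nd (nat_lit 156) (nat_lit 0) (nat_lit 0) (XT.nd (nat_lit 78) (nat_lit 0) (nat_lit 0) (XT.lf (nat_lit 0) (nat_lit 126509891008) (nat_lit 76) (nat_lit 39958152036) (nat_lit 76) (nat_lit 23093688575) (nat_lit 3) (nat_lit 4) (nat_lit 4) (nat_lit 5) (nat_lit 4) (nat_lit 4) (nat_lit 342) (nat_lit 232) (nat_lit 146)) (XT.lf (nat_lit 0) (nat_lit 140802125604) (nat_lit 76) (nat_lit 37447721235) (nat_lit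 76) (nat_lit 20570981625) (nat_lit 3) (nat_lit 4) (nat_lit 4) (nat_lit 5) (nat_lit 4) (nat_lit 4) (nat_lit 343) (nat_lit 232) (nat_lit 145))) (XT.nd (nat_lit 78) (nat_lit 0) (nat_lit 0) (XT.lf (nat_lit 0) (nat_lit 155798138553) (nat_lit 76) (nat_lit 34816735283) (nat_lit 76) (nat_lit 17928304103) (nat_lit 3) (nat_lit 4) (nat_lit 4) (nat_lit 5) (nat_lit 4) (nat_lit 4) (nat_lit 344) (nat_lit 232) (nat_lit 144)) (XT.nd (nat_lit 78) (nat_lit 0) (nat_lit 0) (XT.lf (nat_lit 0) (nat_lit 171533634649) (nat_lit 76) (nat_lit 32058929928) (nat_lit 76) (nat_lit 15159363919) (nat_lit 3) (nat_lit 4) (nat_lit 4) (nat_lit 5) (nat_lit 4) (nat_lit 4) (nat_lit 345) (nat_lit 232) (nat_lit 143)) (XT.lf (nat_lit 0) (nat_lit 188046079358) (nat_lit 76) (nat_lit 29167738966) (nat_lit 76) (nat_lit 12257568359) (nat_lit 3) (nat_lit 4) (nat_lit 4) (nat_lit 5) (nat_lit 4) (nat_lit 4) (nat_lit 346) (nat_lit 232)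 (nat_lit 142))))))))
noncomputable def xc86 : XT := (XT.nd (nat_lit 30264) (nat_lit 0) (nat_lit 2660) (XT.nd (nat_lit 702) (nat_lit 0) (nat_lit 0) (XT.nd (nat_lit 312) (nat_lit 76) (nat_lit 0) (XT.nd (nat_lit 156) (nat_lit 76) (nat_lit 0) (XT.nd (nat_lit 78) (nat_lit 0) (nat_lit 0) (XT.lf (nat_lit 0) (nat_lit 205374788025) (nat_lit 76) (nat_lit 26136278609) (nat_lit 76) (nat_lit 9216008384) (nat_lit 3) (nat_lit 4) (nat_lit 4) (nat_lit 5) (nat_lit 4) (nat_lit 4) (nat_lit 347) (nat_lit 232) (nat_lit 141)) (XT.lf (nat_lit 0) (nat_lit 223561019481) (nat_lit 76) (nat_lit 22957331095) (nat_lit 76) (nat_lit 6027442187) (nat_lit 3) (nat_lit 4) (nat_lit 4) (nat_lit 5) (nat_lit 4) (nat_lit 4) (nat_lit 348) (nat_lit 232) (nat_lit 140))) (XT.nd (nat_lit 78) (nat_lit 76) (nat_lit 0) (XT.lf (nat_lit 0) (nat_lit 242648074275) (nat_lit 76) (nat_lit 19623327501) (nat_lit 76) (nat_lit 2684277942) (nat_lit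 3) (nat_lit 4) (nat_lit 4) (nat_lit 5) (nat_lit 4) (nat_lit 4) (nat_lit 349) (nat_lit 232) (nat_lit 139)) (XT.lf (nat_lit 0) (nat_lit 795152918) (nat_lit 152) (nat_lit 15317710505) (nat_lit 76) (nat_lit 261872778559) (nat_lit 2) (nat_lit 5) (nat_lit 4) (nat_lit 5) (nat_lit 3) (nat_lit 4) (nat_lit 350) (nat_lit 232) (nat_lit 138)))) (XT.nd (nat_lit 156) (nat_lit 76) (nat_lit 0) (XT.nd (nat_lit 78) (nat_lit 0) (nat_lit 0) (XT.lf (nat_lit 0) (nat_lit 4354105017) (nat_lit 152) (nat_lit 8030167684) (nat_lit 76) (nat_lit 279280844485) (nat_lit 2) (nat_lit 5) (nat_lit 4) (nat_lit 5) (nat_lit 3) (nat_lit 4) (nat_lit 351) (nat_lit 232) (nat_lit 137)) (XT.lf (nat_lit 0) (nat_lit 8086965706) (nat_lit 152) (nat_lit 385716587) (nat_lit 76) (nat_lit 297556088668) (nat_lit 2) (nat_lit 5) (nat_lit 4) (nat_lit 5) (nat_lit 3) (nat_lit 4) (nat_lit 352) (nat_lit 232) (nat_lit 136))) (XT.nd (nat_lit 78)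 (nat_lit 0) (nat_lit 0) (XT.lf (nat_lit 0) (nat_lit 7886253214) (nat_lit 76) (nat_lit 4239496048) (nat_lit 152) (nat_lit 308978896895) (nat_lit 1) (nat_lit 5) (nat_lit 2) (nat_lit 5) (nat_lit 3) (nat_lit 4) (nat_lit 353) (nat_lit 232) (nat_lit 135)) (XT.nd (nat_lit 78) (nat_lit 0) (nat_lit 0) (XT.lf (nat_lit 0) (nat_lit 16372494330) (nat_lit 152) (nat_lit 320359228299) (nat_lit 0) (nat_lit 202293963) (nat_lit 1) (nat_lit 5) (nat_lit 3) (nat_lit 4) (nat_lit 1) (nat_lit 4) (nat_lit 354) (nat_lit 232) (nat_lit 134)) (XT.lf (nat_lit 0) (nat_lit 20897435507) (nat_lit 152) (nat_lit 327933404735) (nat_lit 0) (nat_lit 4720724836) (nat_lit 1) (nat_lit 5) (nat_lit 3) (nat_lit 4) (nat_lit 1) (nat_lit 4) (nat_lit 355) (nat_lit 232) (nat_lit 133)))))) (XT.nd (nat_lit 312) (nat_lit 0) (nat_lit 0) (XT.nd (nat_lit 156) (nat_lit 0) (nat_lit 0) (XT.nd (nat_lit 78) (nat_lit 0) (nat_lit 0) (XT.lf (nat_lit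 0) (nat_lit 25645156048) (nat_lit 152) (nat_lit 335892765590) (nat_lit 0) (nat_lit 9462245088) (nat_lit 1) (nat_lit 5) (nat_lit 3) (nat_lit 4) (nat_lit 1) (nat_lit 4) (nat_lit 356) (nat_lit 232) (nat_lit 132)) (XT.lf (nat_lit 0) (nat_lit 30626960050) (nat_lit 152) (nat_lit 344256261724) (nat_lit 0) (nat_lit 14438144052) (nat_lit 1) (nat_lit 5) (nat_lit 3) (nat_lit 4) (nat_lit 1) (nat_lit 4) (nat_lit 357) (nat_lit 232) (nat_lit 131))) (XT.nd (nat_lit 78) (nat_lit 0) (nat_lit 0) (XT.lf (nat_lit 0) (nat_lit 35854708951) (nat_lit 152) (nat_lit 353043806223) (nat_lit 0) (nat_lit 19660269108) (nat_lit 1) (nat_lit 5) (nat_lit 3) (nat_lit 4) (nat_lit 1) (nat_lit 4) (nat_lit 358) (nat_lit 232) (nat_lit 130)) (XT.lf (nat_lit 0) (nat_lit 41340849772) (nat_lit 152) (nat_lit 362276321811) (nat_lit 0) (nat_lit 25141053887) (nat_lit 1) (nat_lit 5) (nat_lit 3) (nat_lit 4) (nat_lit 1) (nat_lit 4) (nat_lit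 359) (nat_lit 232) (nat_lit 129)))) (XT.nd (nat_lit 156) (nat_lit 0) (nat_lit 0) (XT.nd (nat_lit 78) (nat_lit 0) (nat_lit 0) (XT.lf (nat_lit 0) (nat_lit 47098444754) (nat_lit 152) (nat_lit 371975790669) (nat_lit 0) (nat_lit 30893547875) (nat_lit 1) (nat_lit 5) (nat_lit 3) (nat_lit 4) (nat_lit 1) (nat_lit 4) (nat_lit 360) (nat_lit 232) (nat_lit 128)) (XT.lf (nat_lit 0) (nat_lit 53141202455) (nat_lit 152) (nat_lit 382165306770) (nat_lit 0) (nat_lit 36931447488) (nat_lit 1) (nat_lit 5) (nat_lit 3) (nat_lit 4) (nat_lit 1) (nat_lit 4) (nat_lit 361) (nat_lit 232) (nat_lit 127))) (XT.nd (nat_lit 78) (nat_lit 0) (nat_lit 0) (XT.lf (nat_lit 0) (nat_lit 59483510395) (nat_lit 152) (nat_lit 392869130866) (nat_lit 0) (nat_lit 43269128676) (nat_lit 1) (nat_lit 5) (nat_lit 3) (nat_lit 4) (nat_lit 1) (nat_lit 4) (nat_lit 362) (nat_lit 232) (nat_lit 126)) (XT.nd (nat_lit 78) (nat_lit 0) (nat_lit 0)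 (XT.lf (nat_lit 0) (nat_lit 66140469306) (nat_lit 152) (nat_lit 404112748254) (nat_lit 0) (nat_lit 49921681157) (nat_lit 1) (nat_lit 5) (nat_lit 3) (nat_lit 4) (nat_lit 1) (nat_lit 4) (nat_lit 363) (nat_lit 232) (nat_lit 125)) (XT.lf (nat_lit 0) (nat_lit 73127929090) (nat_lit 152) (nat_lit 415922929451) (nat_lit 0) (nat_lit 56904944342) (nat_lit 1) (nat_lit 5) (nat_lit 3) (nat_lit 4) (nat_lit 1) (nat_lit 4) (nat_lit 364) (nat_lit 232) (nat_lit 124))))))) (XT.nd (nat_lit 702) (nat_lit 1596) (nat_lit 0) (XT.nd (nat_lit 312) (nat_lit 1216) (nat_lit 0) (XT.nd (nat_lit 156) (nat_lit 760) (nat_lit 0) (XT.nd (nat_lit 78) (nat_lit 684) (nat_lit 0) (XT.lf (nat_lit 0) (nat_lit 2523934332) (nat_lit 532) (nat_lit 504622380) (nat_lit 532) (nat_lit 504622380) (nat_lit 92) (nat_lit 4) (nat_lit 99) (nat_lit 5) (nat_lit 99) (nat_lit 4) (nat_lit 254) (nat_lit 233) (nat_lit 233)) (XT.lf (nat_lit 0) (nat_lit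 2064194383) (nat_lit 684) (nat_lit 4648657200) (nat_lit 0) (nat_lit 449865396) (nat_lit 83) (nat_lit 5) (nat_lit 92) (nat_lit 4) (nat_lit 83) (nat_lit 4) (nat_lit 255) (nat_lit 233) (nat_lit 232))) (XT.nd (nat_lit 78) (nat_lit 760) (nat_lit 0) (XT.lf (nat_lit 0) (nat_lit 5156381970) (nat_lit 684) (nat_lit 107721664) (nat_lit 0) (nat_lit 2004596804) (nat_lit 83) (nat_lit 5) (nat_lit 92) (nat_lit 4) (nat_lit 83) (nat_lit 4) (nat_lit 256) (nat_lit 233) (nat_lit 231)) (XT.lf (nat_lit 0) (nat_lit 916462380) (nat_lit 760) (nat_lit 2737281266) (nat_lit 76) (nat_lit 3729669318) (nat_lit 73) (nat_lit 5) (nat_lit 83) (nat_lit 5) (nat_lit 74) (nat_lit 4) (nat_lit 257) (nat_lit 233) (nat_lit 230)))) (XT.nd (nat_lit 156) (nat_lit 836) (nat_lit 0) (XT.nd (nat_lit 78) (nat_lit 0) (nat_lit 0) (XT.lf (nat_lit 0) (nat_lit 2016876329) (nat_lit 380) (nat_lit 1898940037) (nat_lit 456) (nat_lit 3592311441)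 (nat_lit 68) (nat_lit 5) (nat_lit 73) (nat_lit 5) (nat_lit 74) (nat_lit 4) (nat_lit 258) (nat_lit 233) (nat_lit 229)) (XT.lf (nat_lit 0) (nat_lit 6955538215) (nat_lit 380) (nat_lit 17241243) (nat_lit 456) (nat_lit 671397045) (nat_lit 68) (nat_lit 5) (nat_lit 73) (nat_lit 5) (nat_lit 74) (nat_lit 4) (nat_lit 259) (nat_lit 233) (nat_lit 228))) (XT.nd (nat_lit 78) (nat_lit 380) (nat_lit 0) (XT.lf (nat_lit 0) (nat_lit 2283556806) (nat_lit 456) (nat_lit 3512545382) (nat_lit 76) (nat_lit 1991257576) (nat_lit 62) (nat_lit 5) (nat_lit 68) (nat_lit 5) (nat_lit 63) (nat_lit 4) (nat_lit 260) (nat_lit 233) (nat_lit 227)) (XT.nd (nat_lit 78) (nat_lit 76) (nat_lit 0) (XT.lf (nat_lit 0) (nat_lit 1457964584) (nat_lit 304) (nat_lit 3809876826) (nat_lit 380) (nat_lit 2674517932) (nat_lit 58) (nat_lit 5) (nat_lit 62) (nat_lit 5) (nat_lit 63) (nat_lit 4) (nat_lit 261) (nat_lit 233) (nat_lit 226)) (XT.lf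 (nat_lit 0) (nat_lit 217912768) (nat_lit 380) (nat_lit 1461459575) (nat_lit 76) (nat_lit 6429323407) (nat_lit 57) (nat_lit 5) (nat_lit 62) (nat_lit 5) (nat_lit 58) (nat_lit 5) (nat_lit 262) (nat_lit 233) (nat_lit 225)))))) (XT.nd (nat_lit 312) (nat_lit 684) (nat_lit 0) (XT.nd (nat_lit 156) (nat_lit 380) (nat_lit 0) (XT.nd (nat_lit 78) (nat_lit 228) (nat_lit 0) (XT.lf (nat_lit 0) (nat_lit 3110419006) (nat_lit 380) (nat_lit 4551605389) (nat_lit 76) (nat_lit 622223908) (nat_lit 53) (nat_lit 5) (nat_lit 58) (nat_lit 5) (nat_lit 54) (nat_lit 4) (nat_lit 263) (nat_lit 233) (nat_lit 224)) (XT.lf (nat_lit 0) (nat_lit 612509415) (nat_lit 228) (nat_lit 5477411800) (nat_lit 304) (nat_lit 2381879991) (nat_lit 50) (nat_lit 5) (nat_lit 53) (nat_lit 5) (nat_lit 54) (nat_lit 4) (nat_lit 264) (nat_lit 233) (nat_lit 223))) (XT.nd (nat_lit 78) (nat_lit 304) (nat_lit 0) (XT.lf (nat_lit 0) (nat_lit 491737896)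 (nat_lit 304) (nat_lit 2632708486) (nat_lit 76) (nat_lit 5546182615) (nat_lit 49) (nat_lit 5) (nat_lit 53) (nat_lit 5) (nat_lit 50) (nat_lit 5) (nat_lit 265) (nat_lit 233) (nat_lit 222)) (XT.lf (nat_lit 0) (nat_lit 2760867656) (nat_lit 304) (nat_lit 598195289) (nat_lit 380) (nat_lit 5522174010) (nat_lit 45) (nat_lit 5) (nat_lit 49) (nat_lit 5) (nat_lit 50) (nat_lit 5) (nat_lit 266) (nat_lit 233) (nat_lit 221)))) (XT.nd (nat_lit 156) (nat_lit 380) (nat_lit 0) (XT.nd (nat_lit 78) (nat_lit 304) (nat_lit 0) (XT.lf (nat_lit 0) (nat_lit 6336798272) (nat_lit 380) (nat_lit 764046236) (nat_lit 76) (nat_lit 2003459354) (nat_lit 45) (nat_lit 5) (nat_lit 50) (nat_lit 5) (nat_lit 46) (nat_lit 4) (nat_lit 267) (nat_lit 233) (nat_lit 220)) (XT.lf (nat_lit 0) (nat_lit 101015236) (nat_lit 304) (nat_lit 4474981651) (nat_lit 76) (nat_lit 4763678556) (nat_lit 41) (nat_lit 5) (nat_lit 45) (nat_lit 5) (nat_lit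 42) (nat_lit 5) (nat_lit 268) (nat_lit 233) (nat_lit 219))) (XT.nd (nat_lit 78) (nat_lit 152) (nat_lit 0) (XT.lf (nat_lit 0) (nat_lit 1062584966) (nat_lit 228) (nat_lit 1882956455) (nat_lit 304) (nat_lit 6642968977) (nat_lit 38) (nat_lit 5) (nat_lit 41) (nat_lit 5) (nat_lit 42) (nat_lit 5) (nat_lit 269) (nat_lit 233) (nat_lit 218)) (XT.nd (nat_lit 78) (nat_lit 152) (nat_lit 0) (XT.lf (nat_lit 0) (nat_lit 5922124746) (nat_lit 304) (nat_lit 2973109823) (nat_lit 76) (nat_lit 955291966) (nat_lit 38) (nat_lit 5) (nat_lit 42) (nat_lit 5) (nat_lit 39) (nat_lit 4) (nat_lit 270) (nat_lit 233) (nat_lit 217)) (XT.lf (nat_lit 0) (nat_lit 2778738437) (nat_lit 152) (nat_lit 6245957957) (nat_lit 228) (nat_lit 1102309105) (nat_lit 36) (nat_lit 5) (nat_lit 38) (nat_lit 5) (nat_lit 39) (nat_lit 4) (nat_lit 271) (nat_lit 233) (nat_lit 216))))))))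
noncomputable def xc87 : XT := (XT.nd (nat_lit 1404) (nat_lit 760) (nat_lit 0) (XT.nd (nat_lit 702) (nat_lit 380) (nat_lit 0) (XT.nd (nat_lit 312) (nat_lit 608) (nat_lit 0) (XT.nd (nat_lit 156) (nat_lit 152) (nat_lit 0) (XT.nd (nat_lit 78) (nat_lit 228) (nat_lit 0) (XT.lf (nat_lit 0) (nat_lit 1760248219) (nat_lit 228) (nat_lit 1661193642) (nat_lit 76) (nat_lit 6996867388) (nat_lit 35) (nat_lit 5) (nat_lit 38) (nat_lit 5) (nat_lit 36) (nat_lit 5) (nat_lit 272) (nat_lit 233) (nat_lit 215)) (XT.lf (nat_lit 0) (nat_lit 4298447718) (nat_lit 228) (nat_lit 405816450) (nat_lit 304) (nat_lit 6020431731) (nat_lit 32) (nat_lit 5) (nat_lit 35) (nat_lit 5) (nat_lit 36) (nat_lit 5) (nat_lit 273) (nat_lit 233) (nat_lit 214))) (XT.nd (nat_lit 78) (nat_lit 152) (nat_lit 0) (XT.lf (nat_lit 0) (nat_lit 7777170858) (nat_lit 304) (nat_lit 608016491) (nat_lit 76) (nat_lit 2662311012) (nat_lit 32) (nat_lit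 5) (nat_lit 36) (nat_lit 5) (nat_lit 33) (nat_lit 4) (nat_lit 274) (nat_lit 233) (nat_lit 213)) (XT.lf (nat_lit 0) (nat_lit 5545091071) (nat_lit 152) (nat_lit 5466139976) (nat_lit 228) (nat_lit 375006849) (nat_lit 30) (nat_lit 5) (nat_lit 32) (nat_lit 5) (nat_lit 33) (nat_lit 4) (nat_lit 275) (nat_lit 233) (nat_lit 212)))) (XT.nd (nat_lit 156) (nat_lit 380) (nat_lit 0) (XT.nd (nat_lit 78) (nat_lit 0) (nat_lit 0) (XT.lf (nat_lit 0) (nat_lit 119835730) (nat_lit 152) (nat_lit 2387166761) (nat_lit 228) (nat_lit 9236626688) (nat_lit 27) (nat_lit 5) (nat_lit 29) (nat_lit 5) (nat_lit 30) (nat_lit 5) (nat_lit 276) (nat_lit 233) (nat_lit 211)) (XT.lf (nat_lit 0) (nat_lit 5550567107) (nat_lit 228) (nat_lit 5682616432) (nat_lit 76) (nat_lit 884045119) (nat_lit 27) (nat_lit 5) (nat_lit 30) (nat_lit 5) (nat_lit 28) (nat_lit 4) (nat_lit 277) (nat_lit 233) (nat_lit 210))) (XT.nd (nat_lit 78) (nat_lit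 228) (nat_lit 0) (XT.lf (nat_lit 0) (nat_lit 406291874) (nat_lit 152) (nat_lit 8305789181) (nat_lit 228) (nat_lit 3799280299) (nat_lit 25) (nat_lit 5) (nat_lit 27) (nat_lit 5) (nat_lit 28) (nat_lit 4) (nat_lit 278) (nat_lit 233) (nat_lit 209)) (XT.nd (nat_lit 78) (nat_lit 228) (nat_lit 0) (XT.lf (nat_lit 0) (nat_lit 6875722707) (nat_lit 152) (nat_lit 5174382815) (nat_lit 228) (nat_lit 874308471) (nat_lit 25) (nat_lit 5) (nat_lit 27) (nat_lit 5) (nat_lit 28) (nat_lit 4) (nat_lit 279) (nat_lit 233) (nat_lit 208)) (XT.lf (nat_lit 0) (nat_lit 163379674) (nat_lit 152) (nat_lit 1890330831) (nat_lit 228) (nat_lit 11306460578) (nat_lit 22) (nat_lit 5) (nat_lit 24) (nat_lit 5) (nat_lit 25) (nat_lit 5) (nat_lit 280) (nat_lit 233) (nat_lit 207)))))) (XT.nd (nat_lit 312) (nat_lit 304) (nat_lit 0) (XT.nd (nat_lit 156) (nat_lit 76) (nat_lit 0) (XT.nd (nat_lit 78) (nat_lit 0) (nat_lit 0) (XT.lf (nat_lit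 0) (nat_lit 5152866329) (nat_lit 228) (nat_lit 7076166251) (nat_lit 76) (nat_lit 1585377539) (nat_lit 22) (nat_lit 5) (nat_lit 25) (nat_lit 5) (nat_lit 23) (nat_lit 4) (nat_lit 281) (nat_lit 233) (nat_lit 206)) (XT.lf (nat_lit 0) (nat_lit 8367186139) (nat_lit 228) (nat_lit 794105911) (nat_lit 76) (nat_lit 5132169851) (nat_lit 22) (nat_lit 5) (nat_lit 25) (nat_lit 5) (nat_lit 23) (nat_lit 4) (nat_lit 282) (nat_lit 233) (nat_lit 205))) (XT.nd (nat_lit 78) (nat_lit 0) (nat_lit 0) (XT.lf (nat_lit 0) (nat_lit 5882124991) (nat_lit 76) (nat_lit 5884521180) (nat_lit 152) (nat_lit 3028704703) (nat_lit 21) (nat_lit 5) (nat_lit 22) (nat_lit 5) (nat_lit 23) (nat_lit 4) (nat_lit 283) (nat_lit 233) (nat_lit 204)) (XT.lf (nat_lit 0) (nat_lit 12813284932) (nat_lit 76) (nat_lit 2470378707) (nat_lit 152) (nat_lit 41392208) (nat_lit 21) (nat_lit 5) (nat_lit 22) (nat_lit 5) (nat_lit 23) (nat_lit 4) (nat_lit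 284) (nat_lit 233) (nat_lit 203)))) (XT.nd (nat_lit 156) (nat_lit 76) (nat_lit 0) (XT.nd (nat_lit 78) (nat_lit 0) (nat_lit 0) (XT.lf (nat_lit 0) (nat_lit 3016462359) (nat_lit 228) (nat_lit 11705470009) (nat_lit 76) (nat_lit 1155976555) (nat_lit 18) (nat_lit 5) (nat_lit 21) (nat_lit 5) (nat_lit 19) (nat_lit 4) (nat_lit 285) (nat_lit 233) (nat_lit 202)) (XT.lf (nat_lit 0) (nat_lit 6246535357) (nat_lit 228) (nat_lit 5324594248) (nat_lit 76) (nat_lit 4886292333) (nat_lit 18) (nat_lit 5) (nat_lit 21) (nat_lit 5) (nat_lit 19) (nat_lit 4) (nat_lit 286) (nat_lit 233) (nat_lit 201))) (XT.nd (nat_lit 78) (nat_lit 0) (nat_lit 0) (XT.lf (nat_lit 0) (nat_lit 1317980497) (nat_lit 76) (nat_lit 8280693010) (nat_lit 152) (nat_lit 7469291930) (nat_lit 17) (nat_lit 5) (nat_lit 18) (nat_lit 5) (nat_lit 19) (nat_lit 4) (nat_lit 287) (nat_lit 233) (nat_lit 200)) (XT.nd (nat_lit 78) (nat_lit 0) (nat_lit 0)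 (XT.lf (nat_lit 0) (nat_lit 8379618756) (nat_lit 76) (nat_lit 4770287566) (nat_lit 152) (nat_lit 4557634360) (nat_lit 17) (nat_lit 5) (nat_lit 18) (nat_lit 5) (nat_lit 19) (nat_lit 4) (nat_lit 288) (nat_lit 233) (nat_lit 199)) (XT.lf (nat_lit 0) (nat_lit 15701078820) (nat_lit 76) (nat_lit 1121729745) (nat_lit 152) (nat_lit 1559155934) (nat_lit 17) (nat_lit 5) (nat_lit 18) (nat_lit 5) (nat_lit 19) (nat_lit 4) (nat_lit 289) (nat_lit 233) (nat_lit 198))))))) (XT.nd (nat_lit 702) (nat_lit 304) (nat_lit 0) (XT.nd (nat_lit 312) (nat_lit 152) (nat_lit 0) (XT.nd (nat_lit 156) (nat_lit 76) (nat_lit 0) (XT.nd (nat_lit 78) (nat_lit 0) (nat_lit 0) (XT.lf (nat_lit 0) (nat_lit 1594917802) (nat_lit 228) (nat_lit 14810193754) (nat_lit 76) (nat_lit 2680998669) (nat_lit 14) (nat_lit 5) (nat_lit 17) (nat_lit 5) (nat_lit 15) (nat_lit 4) (nat_lit 290) (nat_lit 233) (nat_lit 197)) (XT.lf (nat_lit 0) (nat_lit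 4865281214) (nat_lit 228) (nat_lit 8285617942) (nat_lit 76) (nat_lit 6672801853) (nat_lit 14) (nat_lit 5) (nat_lit 17) (nat_lit 5) (nat_lit 15) (nat_lit 4) (nat_lit 291) (nat_lit 233) (nat_lit 196))) (XT.nd (nat_lit 78) (nat_lit 76) (nat_lit 0) (XT.lf (nat_lit 0) (nat_lit 8248161316) (nat_lit 228) (nat_lit 1521827237) (nat_lit 76) (nat_lit 10830794718) (nat_lit 14) (nat_lit 5) (nat_lit 17) (nat_lit 5) (nat_lit 15) (nat_lit 4) (nat_lit 292) (nat_lit 233) (nat_lit 195)) (XT.lf (nat_lit 0) (nat_lit 5679047610) (nat_lit 76) (nat_lit 6161230823) (nat_lit 152) (nat_lit 9574495483) (nat_lit 13) (nat_lit 5) (nat_lit 14) (nat_lit 5) (nat_lit 15) (nat_lit 4) (nat_lit 293) (nat_lit 233) (nat_lit 194)))) (XT.nd (nat_lit 156) (nat_lit 152) (nat_lit 0) (XT.nd (nat_lit 78) (nat_lit 0) (nat_lit 0) (XT.lf (nat_lit 0) (nat_lit 13211266846) (nat_lit 76) (nat_lit 2378974626) (nat_lit 152) (nat_lit 6680366734)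 (nat_lit 13) (nat_lit 5) (nat_lit 14) (nat_lit 5) (nat_lit 15) (nat_lit 4) (nat_lit 294) (nat_lit 233) (nat_lit 193)) (XT.lf (nat_lit 0) (nat_lit 19506789481) (nat_lit 152) (nat_lit 2153461445) (nat_lit 0) (nat_lit 1510082384) (nat_lit 13) (nat_lit 5) (nat_lit 15) (nat_lit 4) (nat_lit 13) (nat_lit 4) (nat_lit 295) (nat_lit 233) (nat_lit 192))) (XT.nd (nat_lit 78) (nat_lit 76) (nat_lit 0) (XT.lf (nat_lit 0) (nat_lit 5147795888) (nat_lit 76) (nat_lit 18547144945) (nat_lit 76) (nat_lit 416365939) (nat_lit 12) (nat_lit 4) (nat_lit 13) (nat_lit 5) (nat_lit 13) (nat_lit 4) (nat_lit 296) (nat_lit 233) (nat_lit 191)) (XT.nd (nat_lit 78) (nat_lit 0) (nat_lit 0) (XT.lf (nat_lit 0) (nat_lit 2891010143) (nat_lit 152) (nat_lit 12331895745) (nat_lit 76) (nat_lit 9874450622) (nat_lit 11) (nat_lit 5) (nat_lit 13) (nat_lit 5) (nat_lit 12) (nat_lit 4) (nat_lit 297) (nat_lit 233) (nat_lit 190)) (XT.lf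 (nat_lit 0) (nat_lit 6308402096) (nat_lit 152) (nat_lit 5447849413) (nat_lit 76) (nat_lit 14378227924) (nat_lit 11) (nat_lit 5) (nat_lit 13) (nat_lit 5) (nat_lit 12) (nat_lit 4) (nat_lit 298) (nat_lit 233) (nat_lit 189)))))) (XT.nd (nat_lit 390) (nat_lit 152) (nat_lit 0) (XT.nd (nat_lit 156) (nat_lit 76) (nat_lit 0) (XT.nd (nat_lit 78) (nat_lit 0) (nat_lit 0) (XT.lf (nat_lit 0) (nat_lit 1768109894) (nat_lit 76) (nat_lit 8116768135) (nat_lit 152) (nat_lit 17339211628) (nat_lit 10) (nat_lit 5) (nat_lit 11) (nat_lit 5) (nat_lit 12) (nat_lit 4) (nat_lit 299) (nat_lit 233) (nat_lit 188)) (XT.lf (nat_lit 0) (nat_lit 9466235264) (nat_lit 76) (nat_lit 4227631380) (nat_lit 152) (nat_lit 14671669184) (nat_lit 10) (nat_lit 5) (nat_lit 11) (nat_lit 5) (nat_lit 12) (nat_lit 4) (nat_lit 300) (nat_lit 233) (nat_lit 187))) (XT.nd (nat_lit 78) (nat_lit 76) (nat_lit 0) (XT.lf (nat_lit 0) (nat_lit 17484725062)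 (nat_lit 76) (nat_lit 171843361) (nat_lit 152) (nat_lit 11909360679) (nat_lit 10) (nat_lit 5) (nat_lit 11) (nat_lit 5) (nat_lit 12) (nat_lit 4) (nat_lit 301) (nat_lit 233) (nat_lit 186)) (XT.nd (nat_lit 78) (nat_lit 76) (nat_lit 0) (XT.lf (nat_lit 0) (nat_lit 21845810292) (nat_lit 152) (nat_lit 5048848549) (nat_lit 0) (nat_lit 3930299120) (nat_lit 10) (nat_lit 5) (nat_lit 12) (nat_lit 4) (nat_lit 10) (nat_lit 4) (nat_lit 302) (nat_lit 233) (nat_lit 185)) (XT.lf (nat_lit 0) (nat_lit 2347597303) (nat_lit 76) (nat_lit 23902671988) (nat_lit 76) (nat_lit 5896415671) (nat_lit 9) (nat_lit 4) (nat_lit 10) (nat_lit 5) (nat_lit 10) (nat_lit 4) (nat_lit 303) (nat_lit 233) (nat_lit 184))))) (XT.nd (nat_lit 156) (nat_lit 76) (nat_lit 0) (XT.nd (nat_lit 78) (nat_lit 76) (nat_lit 0) (XT.lf (nat_lit 0) (nat_lit 10230267278) (nat_lit 76) (nat_lit 20697160149) (nat_lit 76) (nat_lit 2604479884) (nat_lit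 9) (nat_lit 4) (nat_lit 10) (nat_lit 5) (nat_lit 10) (nat_lit 4) (nat_lit 304) (nat_lit 233) (nat_lit 183)) (XT.lf (nat_lit 0) (nat_lit 792780049) (nat_lit 152) (nat_lit 16549789684) (nat_lit 76) (nat_lit 17644785739) (nat_lit 8) (nat_lit 5) (nat_lit 10) (nat_lit 5) (nat_lit 9) (nat_lit 4) (nat_lit 305) (nat_lit 233) (nat_lit 182))) (XT.nd (nat_lit 78) (nat_lit 76) (nat_lit 0) (XT.lf (nat_lit 0) (nat_lit 4241897631) (nat_lit 152) (nat_lit 9557487711) (nat_lit 76) (nat_lit 22715608110) (nat_lit 8) (nat_lit 5) (nat_lit 10) (nat_lit 5) (nat_lit 9) (nat_lit 4) (nat_lit 306) (nat_lit 233) (nat_lit 181)) (XT.nd (nat_lit 78) (nat_lit 76) (nat_lit 0) (XT.lf (nat_lit 0) (nat_lit 7834444666) (nat_lit 152) (nat_lit 2267422544) (nat_lit 76) (nat_lit 28018624432) (nat_lit 8) (nat_lit 5) (nat_lit 10) (nat_lit 5) (nat_lit 9) (nat_lit 4) (nat_lit 307) (nat_lit 233) (nat_lit 180)) (XT.lf (nat_lit 0)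 (nat_lit 5514253666) (nat_lit 76) (nat_lit 6150814125) (nat_lit 152) (nat_lit 28138300222) (nat_lit 7) (nat_lit 5) (nat_lit 8) (nat_lit 5) (nat_lit 9) (nat_lit 4) (nat_lit 308) (nat_lit 233) (nat_lit 179))))))))
noncomputable def xc88 : XT := (XT.nd (nat_lit 1404) (nat_lit 76) (nat_lit 0) (XT.nd (nat_lit 702) (nat_lit 152) (nat_lit 0) (XT.nd (nat_lit 312) (nat_lit 76) (nat_lit 0) (XT.nd (nat_lit 156) (nat_lit 0) (nat_lit 0) (XT.nd (nat_lit 78) (nat_lit 0) (nat_lit 0) (XT.lf (nat_lit 0) (nat_lit 13715147207) (nat_lit 76) (nat_lit 1983388372) (nat_lit 152) (nat_lit 25871311430) (nat_lit 7) (nat_lit 5) (nat_lit 8) (nat_lit 5) (nat_lit 9) (nat_lit 4) (nat_lit 309) (nat_lit 233) (nat_lit 178)) (XT.lf (nat_lit 0) (nat_lit 19944912709) (nat_lit 152) (nat_lit 21183182830) (nat_lit 0) (nat_lit 2296015936) (nat_lit 7) (nat_lit 5) (nat_lit 9) (nat_lit 4) (nat_lit 7) (nat_lit 4) (nat_lit 310) (nat_lit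 233) (nat_lit 177))) (XT.nd (nat_lit 78) (nat_lit 0) (nat_lit 0) (XT.lf (nat_lit 0) (nat_lit 24411250637) (nat_lit 152) (nat_lit 14255619901) (nat_lit 0) (nat_lit 6703858734) (nat_lit 7) (nat_lit 5) (nat_lit 9) (nat_lit 4) (nat_lit 7) (nat_lit 4) (nat_lit 311) (nat_lit 233) (nat_lit 176)) (XT.lf (nat_lit 0) (nat_lit 29077217251) (nat_lit 152) (nat_lit 7024550568) (nat_lit 0) (nat_lit 11314115701) (nat_lit 7) (nat_lit 5) (nat_lit 9) (nat_lit 4) (nat_lit 7) (nat_lit 4) (nat_lit 312) (nat_lit 233) (nat_lit 175)))) (XT.nd (nat_lit 156) (nat_lit 0) (nat_lit 0) (XT.nd (nat_lit 78) (nat_lit 0) (nat_lit 0) (XT.lf (nat_lit 0) (nat_lit 544675001) (nat_lit 76) (nat_lit 33417750896) (nat_lit 76) (nat_lit 15601592539) (nat_lit 6) (nat_lit 4) (nat_lit 7) (nat_lit 5) (nat_lit 7) (nat_lit 4) (nat_lit 313) (nat_lit 233) (nat_lit 174)) (XT.lf (nat_lit 0) (nat_lit 8696066705) (nat_lit 76) (nat_lit 30492679336)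 (nat_lit 76) (nat_lit 12625990687) (nat_lit 6) (nat_lit 4) (nat_lit 7) (nat_lit 5) (nat_lit 7) (nat_lit 4) (nat_lit 314) (nat_lit 233) (nat_lit 173))) (XT.nd (nat_lit 78) (nat_lit 0) (nat_lit 0) (XT.lf (nat_lit 0) (nat_lit 17216769253) (nat_lit 76) (nat_lit 27438552846) (nat_lit 76) (nat_lit 9523740109) (nat_lit 6) (nat_lit 4) (nat_lit 7) (nat_lit 5) (nat_lit 7) (nat_lit 4) (nat_lit 315) (nat_lit 233) (nat_lit 172)) (XT.nd (nat_lit 78) (nat_lit 0) (nat_lit 0) (XT.lf (nat_lit 0) (nat_lit 26127070032) (nat_lit 76) (nat_lit 24248099697) (nat_lit 76) (nat_lit 6287454495) (nat_lit 6) (nat_lit 4) (nat_lit 7) (nat_lit 5) (nat_lit 7) (nat_lit 4) (nat_lit 316) (nat_lit 233) (nat_lit 171)) (XT.lf (nat_lit 0) (nat_lit 35448184044) (nat_lit 76) (nat_lit 20913723571) (nat_lit 76) (nat_lit 2909428403) (nat_lit 6) (nat_lit 4) (nat_lit 7) (nat_lit 5) (nat_lit 7) (nat_lit 4) (nat_lit 317) (nat_lit 233)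 (nat_lit 170)))))) (XT.nd (nat_lit 312) (nat_lit 0) (nat_lit 0) (XT.nd (nat_lit 156) (nat_lit 76) (nat_lit 0) (XT.nd (nat_lit 78) (nat_lit 0) (nat_lit 0) (XT.lf (nat_lit 0) (nat_lit 598589030) (nat_lit 152) (nat_lit 16818759053) (nat_lit 76) (nat_lit 44593577992) (nat_lit 5) (nat_lit 5) (nat_lit 7) (nat_lit 5) (nat_lit 6) (nat_lit 4) (nat_lit 318) (nat_lit 233) (nat_lit 169)) (XT.lf (nat_lit 0) (nat_lit 4166606686) (nat_lit 152) (nat_lit 9543914663) (nat_lit 76) (nat_lit 51175485061) (nat_lit 5) (nat_lit 5) (nat_lit 7) (nat_lit 5) (nat_lit 6) (nat_lit 4) (nat_lit 319) (nat_lit 233) (nat_lit 168))) (XT.nd (nat_lit 78) (nat_lit 76) (nat_lit 0) (XT.lf (nat_lit 0) (nat_lit 7896239725) (nat_lit 152) (nat_lit 1935873416) (nat_lit 76) (nat_lit 58073580529) (nat_lit 5) (nat_lit 5) (nat_lit 7) (nat_lit 5) (nat_lit 6) (nat_lit 4) (nat_lit 320) (nat_lit 233) (nat_lit 167)) (XT.lf (nat_lit 0) (nat_lit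 6222642491) (nat_lit 76) (nat_lit 5670878620) (nat_lit 152) (nat_lit 59178798830) (nat_lit 4) (nat_lit 5) (nat_lit 5) (nat_lit 5) (nat_lit 6) (nat_lit 4) (nat_lit 321) (nat_lit 233) (nat_lit 166)))) (XT.nd (nat_lit 156) (nat_lit 0) (nat_lit 0) (XT.nd (nat_lit 78) (nat_lit 0) (nat_lit 0) (XT.lf (nat_lit 0) (nat_lit 14827671735) (nat_lit 76) (nat_lit 1280107979) (nat_lit 152) (nat_lit 58288654522) (nat_lit 4) (nat_lit 5) (nat_lit 5) (nat_lit 5) (nat_lit 6) (nat_lit 4) (nat_lit 322) (nat_lit 233) (nat_lit 165)) (XT.lf (nat_lit 0) (nat_lit 20569626934) (nat_lit 152) (nat_lit 54103619756) (nat_lit 0) (nat_lit 3211675546) (nat_lit 4) (nat_lit 5) (nat_lit 6) (nat_lit 4) (nat_lit 4) (nat_lit 4) (nat_lit 323) (nat_lit 233) (nat_lit 164))) (XT.nd (nat_lit 78) (nat_lit 0) (nat_lit 0) (XT.lf (nat_lit 0) (nat_lit 25261153714) (nat_lit 152) (nat_lit 48412704468) (nat_lit 0) (nat_lit 7873658311) (nat_lit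 4) (nat_lit 5) (nat_lit 6) (nat_lit 4) (nat_lit 4) (nat_lit 4) (nat_lit 324) (nat_lit 233) (nat_lit 163)) (XT.nd (nat_lit 78) (nat_lit 0) (nat_lit 0) (XT.lf (nat_lit 0) (nat_lit 30173544283) (nat_lit 152) (nat_lit 42462480766) (nat_lit 0) (nat_lit 12757911722) (nat_lit 4) (nat_lit 5) (nat_lit 6) (nat_lit 4) (nat_lit 4) (nat_lit 4) (nat_lit 325) (nat_lit 233) (nat_lit 162)) (XT.lf (nat_lit 0) (nat_lit 35318494809) (nat_lit 152) (nat_lit 36238781450) (nat_lit 0) (nat_lit 17876064956) (nat_lit 4) (nat_lit 5) (nat_lit 6) (nat_lit 4) (nat_lit 4) (nat_lit 4) (nat_lit 326) (nat_lit 233) (nat_lit 161))))))) (XT.nd (nat_lit 702) (nat_lit 0) (nat_lit 0) (XT.nd (nat_lit 312) (nat_lit 76) (nat_lit 0) (XT.nd (nat_lit 156) (nat_lit 0) (nat_lit 0) (XT.nd (nat_lit 78) (nat_lit 0) (nat_lit 0) (XT.lf (nat_lit 0) (nat_lit 40708255175) (nat_lit 152) (nat_lit 29726788189) (nat_lit 0) (nat_lit 23240304090)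 (nat_lit 4) (nat_lit 5) (nat_lit 6) (nat_lit 4) (nat_lit 4) (nat_lit 4) (nat_lit 327) (nat_lit 233) (nat_lit 160)) (XT.lf (nat_lit 0) (nat_lit 46355658143) (nat_lit 152) (nat_lit 22910996236) (nat_lit 0) (nat_lit 28863401124) (nat_lit 4) (nat_lit 5) (nat_lit 6) (nat_lit 4) (nat_lit 4) (nat_lit 4) (nat_lit 328) (nat_lit 233) (nat_lit 159))) (XT.nd (nat_lit 78) (nat_lit 0) (nat_lit 0) (XT.lf (nat_lit 0) (nat_lit 52274149911) (nat_lit 152) (nat_lit 15775177517) (nat_lit 0) (nat_lit 34758744383) (nat_lit 4) (nat_lit 5) (nat_lit 6) (nat_lit 4) (nat_lit 4) (nat_lit 4) (nat_lit 329) (nat_lit 233) (nat_lit 158)) (XT.lf (nat_lit 0) (nat_lit 58477822126) (nat_lit 152) (nat_lit 8302341986) (nat_lit 0) (nat_lit 40940370398) (nat_lit 4) (nat_lit 5) (nat_lit 6) (nat_lit 4) (nat_lit 4) (nat_lit 4) (nat_lit 330) (nat_lit 233) (nat_lit 157)))) (XT.nd (nat_lit 156) (nat_lit 0) (nat_lit 0) (XT.nd (nat_lit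 78) (nat_lit 76) (nat_lit 0) (XT.lf (nat_lit 0) (nat_lit 64981445435) (nat_lit 152) (nat_lit 474697177) (nat_lit 0) (nat_lit 47422997327) (nat_lit 4) (nat_lit 5) (nat_lit 6) (nat_lit 4) (nat_lit 4) (nat_lit 4) (nat_lit 331) (nat_lit 233) (nat_lit 156)) (XT.lf (nat_lit 0) (nat_lit 7981863642) (nat_lit 76) (nat_lit 63943260275) (nat_lit 76) (nat_lit 46364815615) (nat_lit 3) (nat_lit 4) (nat_lit 4) (nat_lit 5) (nat_lit 4) (nat_lit 4) (nat_lit 332) (nat_lit 233) (nat_lit 155))) (XT.nd (nat_lit 78) (nat_lit 0) (nat_lit 0) (XT.lf (nat_lit 0) (nat_lit 16860086489) (nat_lit 76) (nat_lit 62354382358) (nat_lit 76) (nat_lit 44756893362) (nat_lit 3) (nat_lit 4) (nat_lit 4) (nat_lit 5) (nat_lit 4) (nat_lit 4) (nat_lit 333) (nat_lit 233) (nat_lit 154)) (XT.nd (nat_lit 78) (nat_lit 0) (nat_lit 0) (XT.lf (nat_lit 0) (nat_lit 26165414356) (nat_lit 76) (nat_lit 60693765043) (nat_lit 76) (nat_lit 43078138585)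 (nat_lit 3) (nat_lit 4) (nat_lit 4) (nat_lit 5) (nat_lit 4) (nat_lit 4) (nat_lit 334) (nat_lit 233) (nat_lit 153)) (XT.lf (nat_lit 0) (nat_lit 35920002787) (nat_lit 76) (nat_lit 58957454482) (nat_lit 76) (nat_lit 41324554249) (nat_lit 3) (nat_lit 4) (nat_lit 4) (nat_lit 5) (nat_lit 4) (nat_lit 4) (nat_lit 335) (nat_lit 233) (nat_lit 152)))))) (XT.nd (nat_lit 312) (nat_lit 0) (nat_lit 0) (XT.nd (nat_lit 156) (nat_lit 0) (nat_lit 0) (XT.nd (nat_lit 78) (nat_lit 0) (nat_lit 0) (XT.lf (nat_lit 0) (nat_lit 46147076992) (nat_lit 76) (nat_lit 57141316600) (nat_lit 76) (nat_lit 39491965154) (nat_lit 3) (nat_lit 4) (nat_lit 4) (nat_lit 5) (nat_lit 4) (nat_lit 4) (nat_lit 336) (nat_lit 233) (nat_lit 151)) (XT.lf (nat_lit 0) (nat_lit 56870987146) (nat_lit 76) (nat_lit 55241027260) (nat_lit 76) (nat_lit 37576007992) (nat_lit 3) (nat_lit 4) (nat_lit 4) (nat_lit 5) (nat_lit 4) (nat_lit 4) (nat_lit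 337) (nat_lit 233) (nat_lit 150))) (XT.nd (nat_lit 78) (nat_lit 0) (nat_lit 0) (XT.lf (nat_lit 0) (nat_lit 68117266371) (nat_lit 76) (nat_lit 53252061964) (nat_lit 76) (nat_lit 35572120961) (nat_lit 3) (nat_lit 4) (nat_lit 4) (nat_lit 5) (nat_lit 4) (nat_lit 4) (nat_lit 338) (nat_lit 233) (nat_lit 149)) (XT.lf (nat_lit 0) (nat_lit 79912691520) (nat_lit 76) (nat_lit 51169685080) (nat_lit 76) (nat_lit 33475532900) (nat_lit 3) (nat_lit 4) (nat_lit 4) (nat_lit 5) (nat_lit 4) (nat_lit 4) (nat_lit 339) (nat_lit 233) (nat_lit 148)))) (XT.nd (nat_lit 156) (nat_lit 0) (nat_lit 0) (XT.nd (nat_lit 78) (nat_lit 0) (nat_lit 0) (XT.lf (nat_lit 0) (nat_lit 92285346941) (nat_lit 76) (nat_lit 48988938568) (nat_lit 76) (nat_lit 31281251933) (nat_lit 3) (nat_lit 4) (nat_lit 4) (nat_lit 5) (nat_lit 4) (nat_lit 4) (nat_lit 340) (nat_lit 233) (nat_lit 147)) (XT.lf (nat_lit 0) (nat_lit 105264691335) (nat_lit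 76) (nat_lit 46704630173) (nat_lit 76) (nat_lit 28984053583) (nat_lit 3) (nat_lit 4) (nat_lit 4) (nat_lit 5) (nat_lit 4) (nat_lit 4) (nat_lit 341) (nat_lit 233) (nat_lit 146))) (XT.nd (nat_lit 78) (nat_lit 0) (nat_lit 0) (XT.lf (nat_lit 0) (nat_lit 118881627904) (nat_lit 76) (nat_lit 44311321068) (nat_lit 76) (nat_lit 26578468329) (nat_lit 3) (nat_lit 4) (nat_lit 4) (nat_lit 5) (nat_lit 4) (nat_lit 4) (nat_lit 342) (nat_lit 233) (nat_lit 145)) (XT.nd (nat_lit 78) (nat_lit 0) (nat_lit 0) (XT.lf (nat_lit 0) (nat_lit 133168577926) (nat_lit 76) (nat_lit 41803312896) (nat_lit 76) (nat_lit 24058768587) (nat_lit 3) (nat_lit 4) (nat_lit 4) (nat_lit 5) (nat_lit 4) (nat_lit 4) (nat_lit 343) (nat_lit 233) (nat_lit 144)) (XT.lf (nat_lit 0) (nat_lit 148159557948) (nat_lit 76) (nat_lit 39174634209) (nat_lit 76) (nat_lit 21418955072) (nat_lit 3) (nat_lit 4) (nat_lit 4) (nat_lit 5) (nat_lit 4) (nat_lit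 4) (nat_lit 344) (nat_lit 233) (nat_lit 143))))))))
noncomputable def xc89 : XT := (XT.nd (nat_lit 1404) (nat_lit 0) (nat_lit 0) (XT.nd (nat_lit 702) (nat_lit 76) (nat_lit 0) (XT.nd (nat_lit 312) (nat_lit 76) (nat_lit 0) (XT.nd (nat_lit 156) (nat_lit 0) (nat_lit 0) (XT.nd (nat_lit 78) (nat_lit 0) (nat_lit 0) (XT.lf (nat_lit 0) (nat_lit 163890260780) (nat_lit 76) (nat_lit 36419026250) (nat_lit 76) (nat_lit 18652742513) (nat_lit 3) (nat_lit 4) (nat_lit 4) (nat_lit 5) (nat_lit 4) (nat_lit 4) (nat_lit 345) (nat_lit 233) (nat_lit 142)) (XT.lf (nat_lit 0) (nat_lit 180398140475) (nat_lit 76) (nat_lit 33529928045) (nat_lit 76) (nat_lit 15753544691) (nat_lit 3) (nat_lit 4) (nat_lit 4) (nat_lit 5) (nat_lit 4) (nat_lit 4) (nat_lit 346) (nat_lit 233) (nat_lit 141))) (XT.nd (nat_lit 78) (nat_lit 0) (nat_lit 0) (XT.lf (nat_lit 0) (nat_lit 197722501511) (nat_lit 76) (nat_lit 30500460792) (nat_lit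 76) (nat_lit 12714458754) (nat_lit 3) (nat_lit 4) (nat_lit 4) (nat_lit 5) (nat_lit 4) (nat_lit 4) (nat_lit 347) (nat_lit 233) (nat_lit 140)) (XT.lf (nat_lit 0) (nat_lit 215904592365) (nat_lit 76) (nat_lit 27323411471) (nat_lit 76) (nat_lit 9528248782) (nat_lit 3) (nat_lit 4) (nat_lit 4) (nat_lit 5) (nat_lit 4) (nat_lit 4) (nat_lit 348) (nat_lit 233) (nat_lit 139)))) (XT.nd (nat_lit 156) (nat_lit 76) (nat_lit 0) (XT.nd (nat_lit 78) (nat_lit 0) (nat_lit 0) (XT.lf (nat_lit 0) (nat_lit 234987703729) (nat_lit 76) (nat_lit 23991215680) (nat_lit 76) (nat_lit 6187328561) (nat_lit 3) (nat_lit 4) (nat_lit 4) (nat_lit 5) (nat_lit 4) (nat_lit 4) (nat_lit 349) (nat_lit 233) (nat_lit 138)) (XT.lf (nat_lit 0) (nat_lit 255017271584) (nat_lit 76) (nat_lit 20495939619) (nat_lit 76) (nat_lit 2683743520) (nat_lit 3) (nat_lit 4) (nat_lit 4) (nat_lit 5) (nat_lit 4) (nat_lit 4) (nat_lit 350) (nat_lit 233)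 (nat_lit 137))) (XT.nd (nat_lit 78) (nat_lit 0) (nat_lit 0) (XT.lf (nat_lit 0) (nat_lit 959134880) (nat_lit 152) (nat_lit 15853882909) (nat_lit 76) (nat_lit 275065607082) (nat_lit 2) (nat_lit 5) (nat_lit 4) (nat_lit 5) (nat_lit 3) (nat_lit 4) (nat_lit 351) (nat_lit 233) (nat_lit 136)) (XT.nd (nat_lit 78) (nat_lit 0) (nat_lit 0) (XT.lf (nat_lit 0) (nat_lit 4690119139) (nat_lit 152) (nat_lit 8212901667) (nat_lit 76) (nat_lit 293339352990) (nat_lit 2) (nat_lit 5) (nat_lit 4) (nat_lit 5) (nat_lit 3) (nat_lit 4) (nat_lit 352) (nat_lit 233) (nat_lit 135)) (XT.lf (nat_lit 0) (nat_lit 8603989107) (nat_lit 152) (nat_lit 196645843) (nat_lit 76) (nat_lit 312523860988) (nat_lit 2) (nat_lit 5) (nat_lit 4) (nat_lit 5) (nat_lit 3) (nat_lit 4) (nat_lit 353) (nat_lit 233) (nat_lit 134)))))) (XT.nd (nat_lit 312) (nat_lit 0) (nat_lit 0) (XT.nd (nat_lit 156) (nat_lit 0) (nat_lit 0) (XT.nd (nat_lit 78)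 (nat_lit 0) (nat_lit 0) (XT.lf (nat_lit 0) (nat_lit 8485561858) (nat_lit 76) (nat_lit 4356985064) (nat_lit 152) (nat_lit 324311730020) (nat_lit 1) (nat_lit 5) (nat_lit 2) (nat_lit 5) (nat_lit 3) (nat_lit 4) (nat_lit 354) (nat_lit 233) (nat_lit 133)) (XT.lf (nat_lit 0) (nat_lit 17297771793) (nat_lit 152) (nat_lit 336178025601) (nat_lit 0) (nat_lit 299514996) (nat_lit 1) (nat_lit 5) (nat_lit 3) (nat_lit 4) (nat_lit 1) (nat_lit 4) (nat_lit 355) (nat_lit 233) (nat_lit 132))) (XT.nd (nat_lit 78) (nat_lit 0) (nat_lit 0) (XT.lf (nat_lit 0) (nat_lit 22043881327) (nat_lit 152) (nat_lit 344140394864) (nat_lit 0) (nat_lit 5039719492) (nat_lit 1) (nat_lit 5) (nat_lit 3) (nat_lit 4) (nat_lit 1) (nat_lit 4) (nat_lit 356) (nat_lit 233) (nat_lit 131)) (XT.lf (nat_lit 0) (nat_lit 27024151035) (nat_lit 152) (nat_lit 352506756148) (nat_lit 0) (nat_lit 10014365356) (nat_lit 1) (nat_lit 5) (nat_lit 3) (nat_lit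 4) (nat_lit 1) (nat_lit 4) (nat_lit 357) (nat_lit 233) (nat_lit 130)))) (XT.nd (nat_lit 156) (nat_lit 0) (nat_lit 0) (XT.nd (nat_lit 78) (nat_lit 0) (nat_lit 0) (XT.lf (nat_lit 0) (nat_lit 32250438705) (nat_lit 152) (nat_lit 361297029361) (nat_lit 0) (nat_lit 15235296982) (nat_lit 1) (nat_lit 5) (nat_lit 3) (nat_lit 4) (nat_lit 1) (nat_lit 4) (nat_lit 358) (nat_lit 233) (nat_lit 129)) (XT.lf (nat_lit 0) (nat_lit 37735187877) (nat_lit 152) (nat_lit 370532143725) (nat_lit 0) (nat_lit 20714945161) (nat_lit 1) (nat_lit 5) (nat_lit 3) (nat_lit 4) (nat_lit 1) (nat_lit 4) (nat_lit 359) (nat_lit 233) (nat_lit 128))) (XT.nd (nat_lit 78) (nat_lit 0) (nat_lit 0) (XT.lf (nat_lit 0) (nat_lit 43491457479) (nat_lit 152) (nat_lit 380234087607) (nat_lit 0) (nat_lit 26466356674) (nat_lit 1) (nat_lit 5) (nat_lit 3) (nat_lit 4) (nat_lit 1) (nat_lit 4) (nat_lit 360) (nat_lit 233) (nat_lit 127)) (XT.nd (nat_lit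 78) (nat_lit 0) (nat_lit 0) (XT.lf (nat_lit 0) (nat_lit 49532952913) (nat_lit 152) (nat_lit 390425960874) (nat_lit 0) (nat_lit 32503225357) (nat_lit 1) (nat_lit 5) (nat_lit 3) (nat_lit 4) (nat_lit 1) (nat_lit 4) (nat_lit 361) (nat_lit 233) (nat_lit 126)) (XT.lf (nat_lit 0) (nat_lit 55874058694) (nat_lit 152) (nat_lit 401132029891) (nat_lit 0) (nat_lit 38839924708) (nat_lit 1) (nat_lit 5) (nat_lit 3) (nat_lit 4) (nat_lit 1) (nat_lit 4) (nat_lit 362) (nat_lit 233) (nat_lit 125))))))) (XT.nd (nat_lit 29406) (nat_lit 0) (nat_lit 3344) (XT.nd (nat_lit 29016) (nat_lit 0) (nat_lit 5092) (XT.nd (nat_lit 28860) (nat_lit 0) (nat_lit 6916) (XT.nd (nat_lit 78) (nat_lit 0) (nat_lit 0) (XT.lf (nat_lit 0) (nat_lit 62529872692) (nat_lit 152) (nat_lit 412377785298) (nat_lit 0) (nat_lit 45491542106) (nat_lit 1) (nat_lit 5) (nat_lit 3) (nat_lit 4) (nat_lit 1) (nat_lit 4) (nat_lit 363) (nat_lit 233) (nat_lit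 124)) (XT.lf (nat_lit 0) (nat_lit 69516242083) (nat_lit 152) (nat_lit 424190002704) (nat_lit 0) (nat_lit 52473914735) (nat_lit 1) (nat_lit 5) (nat_lit 3) (nat_lit 4) (nat_lit 1) (nat_lit 4) (nat_lit 364) (nat_lit 233) (nat_lit 123))) (XT.nd (nat_lit 78) (nat_lit 532) (nat_lit 0) (XT.lf (nat_lit 0) (nat_lit 797759902) (nat_lit 532) (nat_lit 1852717391) (nat_lit 0) (nat_lit 797759902) (nat_lit 99) (nat_lit 5) (nat_lit 106) (nat_lit 4) (nat_lit 99) (nat_lit 4) (nat_lit 252) (nat_lit 234) (nat_lit 234)) (XT.lf (nat_lit 0) (nat_lit 537569035) (nat_lit 532) (nat_lit 4110506843) (nat_lit 532) (nat_lit 2330709134) (nat_lit 92) (nat_lit 4) (nat_lit 99) (nat_lit 5) (nat_lit 99) (nat_lit 4) (nat_lit 253) (nat_lit 234) (nat_lit 233)))) (XT.nd (nat_lit 156) (nat_lit 1140) (nat_lit 0) (XT.nd (nat_lit 78) (nat_lit 608) (nat_lit 0) (XT.lf (nat_lit 0) (nat_lit 669016394) (nat_lit 608) (nat_lit 2103359537)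 (nat_lit 76) (nat_lit 4297523383) (nat_lit 91) (nat_lit 5) (nat_lit 99) (nat_lit 5) (nat_lit 92) (nat_lit 4) (nat_lit 254) (nat_lit 234) (nat_lit 232)) (XT.lf (nat_lit 0) (nat_lit 2346059436) (nat_lit 608) (nat_lit 1280882793) (nat_lit 684) (nat_lit 3542973294) (nat_lit 83) (nat_lit 5) (nat_lit 91) (nat_lit 5) (nat_lit 92) (nat_lit 4) (nat_lit 255) (nat_lit 234) (nat_lit 231))) (XT.nd (nat_lit 78) (nat_lit 1140) (nat_lit 0) (XT.lf (nat_lit 0) (nat_lit 6628378679) (nat_lit 684) (nat_lit 335024921) (nat_lit 0) (nat_lit 317304095) (nat_lit 83) (nat_lit 5) (nat_lit 92) (nat_lit 4) (nat_lit 83) (nat_lit 4) (nat_lit 256) (nat_lit 234) (nat_lit 230)) (XT.nd (nat_lit 78) (nat_lit 380) (nat_lit 0) (XT.lf (nat_lit 0) (nat_lit 2256132636) (nat_lit 760) (nat_lit 3080520753) (nat_lit 76) (nat_lit 2061552573) (nat_lit 73) (nat_lit 5) (nat_lit 83) (nat_lit 5) (nat_lit 74) (nat_lit 4) (nat_lit 257)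 (nat_lit 234) (nat_lit 229)) (XT.lf (nat_lit 0) (nat_lit 1589977641) (nat_lit 380) (nat_lit 3592306628) (nat_lit 456) (nat_lit 2344530888) (nat_lit 68) (nat_lit 5) (nat_lit 73) (nat_lit 5) (nat_lit 74) (nat_lit 4) (nat_lit 258) (nat_lit 234) (nat_lit 228)))))) (XT.nd (nat_lit 312) (nat_lit 912) (nat_lit 0) (XT.nd (nat_lit 156) (nat_lit 380) (nat_lit 0) (XT.nd (nat_lit 78) (nat_lit 380) (nat_lit 0) (XT.lf (nat_lit 0) (nat_lit 492219204) (nat_lit 456) (nat_lit 1214475442) (nat_lit 76) (nat_lit 5959217539) (nat_lit 67) (nat_lit 5) (nat_lit 73) (nat_lit 5) (nat_lit 68) (nat_lit 5) (nat_lit 259) (nat_lit 234) (nat_lit 227)) (XT.lf (nat_lit 0) (nat_lit 3326904939) (nat_lit 456) (nat_lit 4135284171) (nat_lit 76) (nat_lit 351523519) (nat_lit 62) (nat_lit 5) (nat_lit 68) (nat_lit 5) (nat_lit 63) (nat_lit 4) (nat_lit 260) (nat_lit 234) (nat_lit 226))) (XT.nd (nat_lit 78) (nat_lit 76) (nat_lit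 0) (XT.lf (nat_lit 0) (nat_lit 742429844) (nat_lit 304) (nat_lit 5496843591) (nat_lit 380) (nat_lit 1733227283) (nat_lit 58) (nat_lit 5) (nat_lit 62) (nat_lit 5) (nat_lit 63) (nat_lit 4) (nat_lit 261) (nat_lit 234) (nat_lit 225)) (XT.lf (nat_lit 0) (nat_lit 1069006937) (nat_lit 380) (nat_lit 2292759870) (nat_lit 76) (nat_lit 4779513764) (nat_lit 57) (nat_lit 5) (nat_lit 62) (nat_lit 5) (nat_lit 58) (nat_lit 5) (nat_lit 262) (nat_lit 234) (nat_lit 224)))) (XT.nd (nat_lit 156) (nat_lit 608) (nat_lit 0) (XT.nd (nat_lit 78) (nat_lit 0) (nat_lit 0) (XT.lf (nat_lit 0) (nat_lit 2814609745) (nat_lit 304) (nat_lit 1065161109) (nat_lit 380) (nat_lit 4441315853) (nat_lit 53) (nat_lit 5) (nat_lit 57) (nat_lit 5) (nat_lit 58) (nat_lit 5) (nat_lit 263) (nat_lit 234) (nat_lit 223)) (XT.lf (nat_lit 0) (nat_lit 6777386873) (nat_lit 380) (nat_lit 414560951) (nat_lit 76) (nat_lit 1320944635) (nat_lit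 53) (nat_lit 5) (nat_lit 58) (nat_lit 5) (nat_lit 54) (nat_lit 4) (nat_lit 264) (nat_lit 234) (nat_lit 222))) (XT.nd (nat_lit 78) (nat_lit 304) (nat_lit 0) (XT.lf (nat_lit 0) (nat_lit 1055490725) (nat_lit 304) (nat_lit 3794968969) (nat_lit 76) (nat_lit 3863996448) (nat_lit 49) (nat_lit 5) (nat_lit 53) (nat_lit 5) (nat_lit 50) (nat_lit 5) (nat_lit 265) (nat_lit 234) (nat_lit 221)) (XT.nd (nat_lit 78) (nat_lit 0) (nat_lit 0) (XT.lf (nat_lit 0) (nat_lit 1491232656) (nat_lit 304) (nat_lit 2359248675) (nat_lit 380) (nat_lit 5078336444) (nat_lit 45) (nat_lit 5) (nat_lit 49) (nat_lit 5) (nat_lit 50) (nat_lit 5) (nat_lit 266) (nat_lit 234) (nat_lit 220)) (XT.lf (nat_lit 0) (nat_lit 6749456853) (nat_lit 380) (nat_lit 2121882834) (nat_lit 76) (nat_lit 284613416) (nat_lit 45) (nat_lit 5) (nat_lit 50) (nat_lit 5) (nat_lit 46) (nat_lit 4) (nat_lit 267) (nat_lit 234) (nat_lit 219))))))))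
noncomputable def xc90 : XT := (XT.nd (nat_lit 1404) (nat_lit 608) (nat_lit 0) (XT.nd (nat_lit 702) (nat_lit 836) (nat_lit 0) (XT.nd (nat_lit 312) (nat_lit 532) (nat_lit 0) (XT.nd (nat_lit 156) (nat_lit 380) (nat_lit 0) (XT.nd (nat_lit 78) (nat_lit 0) (nat_lit 0) (XT.lf (nat_lit 0) (nat_lit 377402655) (nat_lit 304) (nat_lit 6004551424) (nat_lit 76) (nat_lit 3012860460) (nat_lit 41) (nat_lit 5) (nat_lit 45) (nat_lit 5) (nat_lit 42) (nat_lit 5) (nat_lit 268) (nat_lit 234) (nat_lit 218)) (XT.lf (nat_lit 0) (nat_lit 3156950576) (nat_lit 304) (nat_lit 566532592) (nat_lit 76) (nat_lit 5923527910) (nat_lit 41) (nat_lit 5) (nat_lit 45) (nat_lit 5) (nat_lit 42) (nat_lit 5) (nat_lit 269) (nat_lit 234) (nat_lit 217))) (XT.nd (nat_lit 78) (nat_lit 152) (nat_lit 0) (XT.lf (nat_lit 0) (nat_lit 5181263999) (nat_lit 228) (nat_lit 880633479) (nat_lit 304) (nat_lit 3850818864) (nat_lit 38) (nat_lit 5)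 (nat_lit 41) (nat_lit 5) (nat_lit 42) (nat_lit 5) (nat_lit 270) (nat_lit 234) (nat_lit 216)) (XT.lf (nat_lit 0) (nat_lit 910864593) (nat_lit 152) (nat_lit 8165585604) (nat_lit 228) (nat_lit 1117248250) (nat_lit 36) (nat_lit 5) (nat_lit 38) (nat_lit 5) (nat_lit 39) (nat_lit 4) (nat_lit 271) (nat_lit 234) (nat_lit 215)))) (XT.nd (nat_lit 156) (nat_lit 228) (nat_lit 0) (XT.nd (nat_lit 78) (nat_lit 228) (nat_lit 0) (XT.lf (nat_lit 0) (nat_lit 1701038321) (nat_lit 228) (nat_lit 3659572198) (nat_lit 76) (nat_lit 5126733480) (nat_lit 35) (nat_lit 5) (nat_lit 38) (nat_lit 5) (nat_lit 36) (nat_lit 5) (nat_lit 272) (nat_lit 234) (nat_lit 214)) (XT.lf (nat_lit 0) (nat_lit 2170981721) (nat_lit 228) (nat_lit 2398238843) (nat_lit 304) (nat_lit 6228390051) (nat_lit 32) (nat_lit 5) (nat_lit 35) (nat_lit 5) (nat_lit 36) (nat_lit 5) (nat_lit 273) (nat_lit 234) (nat_lit 213))) (XT.nd (nat_lit 78) (nat_lit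 228) (nat_lit 0) (XT.lf (nat_lit 0) (nat_lit 7569205823) (nat_lit 304) (nat_lit 2839173091) (nat_lit 76) (nat_lit 715764312) (nat_lit 32) (nat_lit 5) (nat_lit 36) (nat_lit 5) (nat_lit 33) (nat_lit 4) (nat_lit 274) (nat_lit 234) (nat_lit 212)) (XT.nd (nat_lit 78) (nat_lit 76) (nat_lit 0) (XT.lf (nat_lit 0) (nat_lit 3179277289) (nat_lit 152) (nat_lit 7547228754) (nat_lit 228) (nat_lit 740294789) (nat_lit 30) (nat_lit 5) (nat_lit 32) (nat_lit 5) (nat_lit 33) (nat_lit 4) (nat_lit 275) (nat_lit 234) (nat_lit 211)) (XT.lf (nat_lit 0) (nat_lit 2111992692) (nat_lit 228) (nat_lit 2384039169) (nat_lit 76) (nat_lit 7330588709) (nat_lit 29) (nat_lit 5) (nat_lit 32) (nat_lit 5) (nat_lit 30) (nat_lit 5) (nat_lit 276) (nat_lit 234) (nat_lit 210)))))) (XT.nd (nat_lit 312) (nat_lit 456) (nat_lit 0) (XT.nd (nat_lit 156) (nat_lit 228) (nat_lit 0) (XT.nd (nat_lit 78) (nat_lit 0) (nat_lit 0) (XT.lf (nat_lit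 0) (nat_lit 3808473612) (nat_lit 152) (nat_lit 1255801329) (nat_lit 228) (nat_lit 7140578396) (nat_lit 27) (nat_lit 5) (nat_lit 29) (nat_lit 5) (nat_lit 30) (nat_lit 5) (nat_lit 277) (nat_lit 234) (nat_lit 209)) (XT.lf (nat_lit 0) (nat_lit 8162809395) (nat_lit 228) (nat_lit 2358103355) (nat_lit 76) (nat_lit 2081288135) (nat_lit 27) (nat_lit 5) (nat_lit 30) (nat_lit 5) (nat_lit 28) (nat_lit 4) (nat_lit 278) (nat_lit 234) (nat_lit 208))) (XT.nd (nat_lit 78) (nat_lit 76) (nat_lit 0) (XT.lf (nat_lit 0) (nat_lit 3977046432) (nat_lit 152) (nat_lit 7449608073) (nat_lit 228) (nat_lit 1592370725) (nat_lit 25) (nat_lit 5) (nat_lit 27) (nat_lit 5) (nat_lit 28) (nat_lit 4) (nat_lit 279) (nat_lit 234) (nat_lit 207)) (XT.lf (nat_lit 0) (nat_lit 1321033522) (nat_lit 228) (nat_lit 2878771741) (nat_lit 76) (nat_lit 9257474372) (nat_lit 24) (nat_lit 5) (nat_lit 27) (nat_lit 5) (nat_lit 25) (nat_lit 5)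 (nat_lit 280) (nat_lit 234) (nat_lit 206)))) (XT.nd (nat_lit 156) (nat_lit 304) (nat_lit 0) (XT.nd (nat_lit 78) (nat_lit 0) (nat_lit 0) (XT.lf (nat_lit 0) (nat_lit 3573795306) (nat_lit 152) (nat_lit 740171633) (nat_lit 228) (nat_lit 9602917050) (nat_lit 22) (nat_lit 5) (nat_lit 24) (nat_lit 5) (nat_lit 25) (nat_lit 5) (nat_lit 281) (nat_lit 234) (nat_lit 205)) (XT.lf (nat_lit 0) (nat_lit 7483846584) (nat_lit 228) (nat_lit 4102251307) (nat_lit 76) (nat_lit 2812111504) (nat_lit 22) (nat_lit 5) (nat_lit 25) (nat_lit 5) (nat_lit 23) (nat_lit 4) (nat_lit 282) (nat_lit 234) (nat_lit 204))) (XT.nd (nat_lit 78) (nat_lit 228) (nat_lit 0) (XT.lf (nat_lit 0) (nat_lit 2412669529) (nat_lit 76) (nat_lit 8385151058) (nat_lit 152) (nat_lit 4106601240) (nat_lit 21) (nat_lit 5) (nat_lit 22) (nat_lit 5) (nat_lit 23) (nat_lit 4) (nat_lit 283) (nat_lit 234) (nat_lit 203)) (XT.nd (nat_lit 78) (nat_lit 228)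 (nat_lit 0) (XT.lf (nat_lit 0) (nat_lit 9294374384) (nat_lit 76) (nat_lit 4989864771) (nat_lit 152) (nat_lit 1151464408) (nat_lit 21) (nat_lit 5) (nat_lit 22) (nat_lit 5) (nat_lit 23) (nat_lit 4) (nat_lit 284) (nat_lit 234) (nat_lit 202)) (XT.lf (nat_lit 0) (nat_lit 410637971) (nat_lit 152) (nat_lit 1423936034) (nat_lit 228) (nat_lit 14160258934) (nat_lit 18) (nat_lit 5) (nat_lit 20) (nat_lit 5) (nat_lit 21) (nat_lit 5) (nat_lit 285) (nat_lit 234) (nat_lit 201))))))) (XT.nd (nat_lit 702) (nat_lit 228) (nat_lit 0) (XT.nd (nat_lit 312) (nat_lit 304) (nat_lit 0) (XT.nd (nat_lit 156) (nat_lit 76) (nat_lit 0) (XT.nd (nat_lit 78) (nat_lit 0) (nat_lit 0) (XT.lf (nat_lit 0) (nat_lit 5013139339) (nat_lit 228) (nat_lit 9229638019) (nat_lit 76) (nat_lit 2334184423) (nat_lit 18) (nat_lit 5) (nat_lit 21) (nat_lit 5) (nat_lit 19) (nat_lit 4) (nat_lit 286) (nat_lit 234) (nat_lit 200)) (XT.lf (nat_lit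 0) (nat_lit 8316818185) (nat_lit 228) (nat_lit 2675485398) (nat_lit 76) (nat_lit 6197663179) (nat_lit 18) (nat_lit 5) (nat_lit 21) (nat_lit 5) (nat_lit 19) (nat_lit 4) (nat_lit 287) (nat_lit 234) (nat_lit 199))) (XT.nd (nat_lit 78) (nat_lit 0) (nat_lit 0) (XT.lf (nat_lit 0) (nat_lit 4252196494) (nat_lit 76) (nat_lit 7545437021) (nat_lit 152) (nat_lit 6035466049) (nat_lit 17) (nat_lit 5) (nat_lit 18) (nat_lit 5) (nat_lit 19) (nat_lit 4) (nat_lit 288) (nat_lit 234) (nat_lit 198)) (XT.lf (nat_lit 0) (nat_lit 11530330144) (nat_lit 76) (nat_lit 3914239431) (nat_lit 152) (nat_lit 3064287051) (nat_lit 17) (nat_lit 5) (nat_lit 18) (nat_lit 5) (nat_lit 19) (nat_lit 4) (nat_lit 289) (nat_lit 234) (nat_lit 197)))) (XT.nd (nat_lit 156) (nat_lit 76) (nat_lit 0) (XT.nd (nat_lit 78) (nat_lit 152) (nat_lit 0) (XT.lf (nat_lit 0) (nat_lit 2083131) (nat_lit 152) (nat_lit 133257333) (nat_lit 76) (nat_lit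 19085662399) (nat_lit 16) (nat_lit 5) (nat_lit 18) (nat_lit 5) (nat_lit 17) (nat_lit 5) (nat_lit 290) (nat_lit 234) (nat_lit 196)) (XT.lf (nat_lit 0) (nat_lit 3243270181) (nat_lit 228) (nat_lit 12874495465) (nat_lit 76) (nat_lit 3842316996) (nat_lit 14) (nat_lit 5) (nat_lit 17) (nat_lit 5) (nat_lit 15) (nat_lit 4) (nat_lit 291) (nat_lit 234) (nat_lit 195))) (XT.nd (nat_lit 78) (nat_lit 76) (nat_lit 0) (XT.lf (nat_lit 0) (nat_lit 6602456216) (nat_lit 228) (nat_lit 6151129337) (nat_lit 76) (nat_lit 7984792797) (nat_lit 14) (nat_lit 5) (nat_lit 17) (nat_lit 5) (nat_lit 15) (nat_lit 4) (nat_lit 292) (nat_lit 234) (nat_lit 194)) (XT.nd (nat_lit 78) (nat_lit 0) (nat_lit 0) (XT.lf (nat_lit 0) (nat_lit 856907311) (nat_lit 76) (nat_lit 9239813121) (nat_lit 152) (nat_lit 11460568582) (nat_lit 13) (nat_lit 5) (nat_lit 14) (nat_lit 5) (nat_lit 15) (nat_lit 4) (nat_lit 293) (nat_lit 234) (nat_lit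 193)) (XT.lf (nat_lit 0) (nat_lit 8351247911) (nat_lit 76) (nat_lit 5473352949) (nat_lit 152) (nat_lit 8589652642) (nat_lit 13) (nat_lit 5) (nat_lit 14) (nat_lit 5) (nat_lit 15) (nat_lit 4) (nat_lit 294) (nat_lit 234) (nat_lit 192)))))) (XT.nd (nat_lit 312) (nat_lit 76) (nat_lit 0) (XT.nd (nat_lit 156) (nat_lit 152) (nat_lit 0) (XT.nd (nat_lit 78) (nat_lit 0) (nat_lit 0) (XT.lf (nat_lit 0) (nat_lit 16146352017) (nat_lit 76) (nat_lit 1549409629) (nat_lit 152) (nat_lit 5620511151) (nat_lit 13) (nat_lit 5) (nat_lit 14) (nat_lit 5) (nat_lit 15) (nat_lit 4) (nat_lit 295) (nat_lit 234) (nat_lit 191)) (XT.lf (nat_lit 0) (nat_lit 21759097582) (nat_lit 152) (nat_lit 44392908) (nat_lit 0) (nat_lit 2460020185) (nat_lit 13) (nat_lit 5) (nat_lit 15) (nat_lit 4) (nat_lit 13) (nat_lit 4) (nat_lit 296) (nat_lit 234) (nat_lit 190))) (XT.nd (nat_lit 78) (nat_lit 0) (nat_lit 0) (XT.lf (nat_lit 0) (nat_lit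 848890025) (nat_lit 152) (nat_lit 17680460018) (nat_lit 76) (nat_lit 6722907006) (nat_lit 11) (nat_lit 5) (nat_lit 13) (nat_lit 5) (nat_lit 12) (nat_lit 4) (nat_lit 297) (nat_lit 234) (nat_lit 189)) (XT.lf (nat_lit 0) (nat_lit 4247066970) (nat_lit 152) (nat_lit 10830013637) (nat_lit 76) (nat_lit 11213280542) (nat_lit 11) (nat_lit 5) (nat_lit 13) (nat_lit 5) (nat_lit 12) (nat_lit 4) (nat_lit 298) (nat_lit 234) (nat_lit 188)))) (XT.nd (nat_lit 156) (nat_lit 0) (nat_lit 0) (XT.nd (nat_lit 78) (nat_lit 76) (nat_lit 0) (XT.lf (nat_lit 0) (nat_lit 7777637744) (nat_lit 152) (nat_lit 3702644841) (nat_lit 76) (nat_lit 15902003500) (nat_lit 11) (nat_lit 5) (nat_lit 13) (nat_lit 5) (nat_lit 12) (nat_lit 4) (nat_lit 299) (nat_lit 234) (nat_lit 187)) (XT.lf (nat_lit 0) (nat_lit 3841570544) (nat_lit 76) (nat_lit 7667415607) (nat_lit 152) (nat_lit 17018646643) (nat_lit 10) (nat_lit 5) (nat_lit 11)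 (nat_lit 5) (nat_lit 12) (nat_lit 4) (nat_lit 300) (nat_lit 234) (nat_lit 186))) (XT.nd (nat_lit 78) (nat_lit 0) (nat_lit 0) (XT.lf (nat_lit 0) (nat_lit 11830075747) (nat_lit 76) (nat_lit 3624545392) (nat_lit 152) (nat_lit 14274275913) (nat_lit 10) (nat_lit 5) (nat_lit 11) (nat_lit 5) (nat_lit 12) (nat_lit 4) (nat_lit 301) (nat_lit 234) (nat_lit 185)) (XT.nd (nat_lit 78) (nat_lit 0) (nat_lit 0) (XT.lf (nat_lit 0) (nat_lit 19573510487) (nat_lit 152) (nat_lit 10841753647) (nat_lit 0) (nat_lit 576196209) (nat_lit 10) (nat_lit 5) (nat_lit 12) (nat_lit 4) (nat_lit 10) (nat_lit 4) (nat_lit 302) (nat_lit 234) (nat_lit 184)) (XT.lf (nat_lit 0) (nat_lit 23925653898) (nat_lit 152) (nat_lit 3548249556) (nat_lit 0) (nat_lit 4841915672) (nat_lit 10) (nat_lit 5) (nat_lit 12) (nat_lit 4) (nat_lit 10) (nat_lit 4) (nat_lit 303) (nat_lit 234) (nat_lit 183))))))))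
noncomputable def xc91 : XT := (XT.nd (nat_lit 1404) (nat_lit 152) (nat_lit 0) (XT.nd (nat_lit 702) (nat_lit 152) (nat_lit 0) (XT.nd (nat_lit 312) (nat_lit 76) (nat_lit 0) (XT.nd (nat_lit 156) (nat_lit 76) (nat_lit 0) (XT.nd (nat_lit 78) (nat_lit 0) (nat_lit 0) (XT.lf (nat_lit 0) (nat_lit 4189743727) (nat_lit 76) (nat_lit 24340494221) (nat_lit 76) (nat_lit 5174447474) (nat_lit 9) (nat_lit 4) (nat_lit 10) (nat_lit 5) (nat_lit 10) (nat_lit 4) (nat_lit 304) (nat_lit 234) (nat_lit 182)) (XT.lf (nat_lit 0) (nat_lit 12384415460) (nat_lit 76) (nat_lit 21010769237) (nat_lit 76) (nat_lit 1766333421) (nat_lit 9) (nat_lit 4) (nat_lit 10) (nat_lit 5) (nat_lit 10) (nat_lit 4) (nat_lit 305) (nat_lit 234) (nat_lit 181))) (XT.nd (nat_lit 78) (nat_lit 0) (nat_lit 0) (XT.lf (nat_lit 0) (nat_lit 1725158628) (nat_lit 152) (nat_lit 15782516882) (nat_lit 76) (nat_lit 19183580585) (nat_lit 8) (nat_lit 5)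 (nat_lit 10) (nat_lit 5) (nat_lit 9) (nat_lit 4) (nat_lit 306) (nat_lit 234) (nat_lit 180)) (XT.lf (nat_lit 0) (nat_lit 5304220681) (nat_lit 152) (nat_lit 8516540870) (nat_lit 76) (nat_lit 24476679524) (nat_lit 8) (nat_lit 5) (nat_lit 10) (nat_lit 5) (nat_lit 9) (nat_lit 4) (nat_lit 307) (nat_lit 234) (nat_lit 179)))) (XT.nd (nat_lit 156) (nat_lit 0) (nat_lit 0) (XT.nd (nat_lit 78) (nat_lit 76) (nat_lit 0) (XT.lf (nat_lit 0) (nat_lit 9035908012) (nat_lit 152) (nat_lit 934297266) (nat_lit 76) (nat_lit 30015070900) (nat_lit 8) (nat_lit 5) (nat_lit 10) (nat_lit 5) (nat_lit 9) (nat_lit 4) (nat_lit 308) (nat_lit 234) (nat_lit 178)) (XT.lf (nat_lit 0) (nat_lit 7213132168) (nat_lit 76) (nat_lit 5828590632) (nat_lit 152) (nat_lit 28711426399) (nat_lit 7) (nat_lit 5) (nat_lit 8) (nat_lit 5) (nat_lit 9) (nat_lit 4) (nat_lit 309) (nat_lit 234) (nat_lit 177))) (XT.nd (nat_lit 78) (nat_lit 0) (nat_lit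 0) (XT.lf (nat_lit 0) (nat_lit 15756300585) (nat_lit 76) (nat_lit 1482782362) (nat_lit 152) (nat_lit 26370792398) (nat_lit 7) (nat_lit 5) (nat_lit 8) (nat_lit 5) (nat_lit 9) (nat_lit 4) (nat_lit 310) (nat_lit 234) (nat_lit 176)) (XT.nd (nat_lit 78) (nat_lit 0) (nat_lit 0) (XT.lf (nat_lit 0) (nat_lit 21670715263) (nat_lit 152) (nat_lit 20923774489) (nat_lit 0) (nat_lit 2963748988) (nat_lit 7) (nat_lit 5) (nat_lit 9) (nat_lit 4) (nat_lit 7) (nat_lit 4) (nat_lit 311) (nat_lit 234) (nat_lit 175)) (XT.lf (nat_lit 0) (nat_lit 26325676901) (nat_lit 152) (nat_lit 13712622342) (nat_lit 0) (nat_lit 7565653819) (nat_lit 7) (nat_lit 5) (nat_lit 9) (nat_lit 4) (nat_lit 7) (nat_lit 4) (nat_lit 312) (nat_lit 234) (nat_lit 174)))))) (XT.nd (nat_lit 312) (nat_lit 76) (nat_lit 0) (XT.nd (nat_lit 156) (nat_lit 0) (nat_lit 0) (XT.nd (nat_lit 78) (nat_lit 76) (nat_lit 0) (XT.lf (nat_lit 0) (nat_lit 31191900715)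 (nat_lit 152) (nat_lit 6179798521) (nat_lit 0) (nat_lit 12381347341) (nat_lit 7) (nat_lit 5) (nat_lit 9) (nat_lit 4) (nat_lit 7) (nat_lit 4) (nat_lit 313) (nat_lit 234) (nat_lit 173)) (XT.lf (nat_lit 0) (nat_lit 1748598334) (nat_lit 76) (nat_lit 34559675140) (nat_lit 76) (nat_lit 15700997678) (nat_lit 6) (nat_lit 4) (nat_lit 7) (nat_lit 5) (nat_lit 7) (nat_lit 4) (nat_lit 314) (nat_lit 234) (nat_lit 172))) (XT.nd (nat_lit 78) (nat_lit 0) (nat_lit 0) (XT.lf (nat_lit 0) (nat_lit 10251526786) (nat_lit 76) (nat_lit 31513538730) (nat_lit 76) (nat_lit 12609028803) (nat_lit 6) (nat_lit 4) (nat_lit 7) (nat_lit 5) (nat_lit 7) (nat_lit 4) (nat_lit 315) (nat_lit 234) (nat_lit 171)) (XT.lf (nat_lit 0) (nat_lit 19144899854) (nat_lit 76) (nat_lit 28330695181) (nat_lit 76) (nat_lit 9382535288) (nat_lit 6) (nat_lit 4) (nat_lit 7) (nat_lit 5) (nat_lit 7) (nat_lit 4) (nat_lit 316) (nat_lit 234) (nat_lit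 170)))) (XT.nd (nat_lit 156) (nat_lit 76) (nat_lit 0) (XT.nd (nat_lit 78) (nat_lit 0) (nat_lit 0) (XT.lf (nat_lit 0) (nat_lit 28449892237) (nat_lit 76) (nat_lit 25003566294) (nat_lit 76) (nat_lit 6013835004) (nat_lit 6) (nat_lit 4) (nat_lit 7) (nat_lit 5) (nat_lit 7) (nat_lit 4) (nat_lit 317) (nat_lit 234) (nat_lit 169)) (XT.lf (nat_lit 0) (nat_lit 38188658678) (nat_lit 76) (nat_lit 21524230333) (nat_lit 76) (nat_lit 2494907236) (nat_lit 6) (nat_lit 4) (nat_lit 7) (nat_lit 5) (nat_lit 7) (nat_lit 4) (nat_lit 318) (nat_lit 234) (nat_lit 168))) (XT.nd (nat_lit 78) (nat_lit 0) (nat_lit 0) (XT.lf (nat_lit 0) (nat_lit 1144774983) (nat_lit 152) (nat_lit 16720240863) (nat_lit 76) (nat_lit 47220224415) (nat_lit 5) (nat_lit 5) (nat_lit 7) (nat_lit 5) (nat_lit 6) (nat_lit 4) (nat_lit 319) (nat_lit 234) (nat_lit 167)) (XT.nd (nat_lit 78) (nat_lit 0) (nat_lit 0) (XT.lf (nat_lit 0) (nat_lit 4866609879)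 (nat_lit 152) (nat_lit 9126390260) (nat_lit 76) (nat_lit 54112323621) (nat_lit 5) (nat_lit 5) (nat_lit 7) (nat_lit 5) (nat_lit 6) (nat_lit 4) (nat_lit 320) (nat_lit 234) (nat_lit 166)) (XT.lf (nat_lit 0) (nat_lit 8759311576) (nat_lit 152) (nat_lit 1180552672) (nat_lit 76) (nat_lit 61337320801) (nat_lit 5) (nat_lit 5) (nat_lit 7) (nat_lit 5) (nat_lit 6) (nat_lit 4) (nat_lit 321) (nat_lit 234) (nat_lit 165))))))) (XT.nd (nat_lit 702) (nat_lit 76) (nat_lit 0) (XT.nd (nat_lit 312) (nat_lit 0) (nat_lit 0) (XT.nd (nat_lit 156) (nat_lit 0) (nat_lit 0) (XT.nd (nat_lit 78) (nat_lit 0) (nat_lit 0) (XT.lf (nat_lit 0) (nat_lit 7372145250) (nat_lit 76) (nat_lit 5575103009) (nat_lit 152) (nat_lit 61655372925) (nat_lit 4) (nat_lit 5) (nat_lit 5) (nat_lit 5) (nat_lit 6) (nat_lit 4) (nat_lit 322) (nat_lit 234) (nat_lit 164)) (XT.lf (nat_lit 0) (nat_lit 16367503545) (nat_lit 76) (nat_lit 982856671) (nat_lit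 152) (nat_lit 60743691203) (nat_lit 4) (nat_lit 5) (nat_lit 5) (nat_lit 5) (nat_lit 6) (nat_lit 4) (nat_lit 323) (nat_lit 234) (nat_lit 163))) (XT.nd (nat_lit 78) (nat_lit 0) (nat_lit 0) (XT.lf (nat_lit 0) (nat_lit 22019852800) (nat_lit 152) (nat_lit 56032598341) (nat_lit 0) (nat_lit 3705301454) (nat_lit 4) (nat_lit 5) (nat_lit 6) (nat_lit 4) (nat_lit 4) (nat_lit 4) (nat_lit 324) (nat_lit 234) (nat_lit 162)) (XT.lf (nat_lit 0) (nat_lit 26925872846) (nat_lit 152) (nat_lit 50094099308) (nat_lit 0) (nat_lit 8584524207) (nat_lit 4) (nat_lit 5) (nat_lit 6) (nat_lit 4) (nat_lit 4) (nat_lit 4) (nat_lit 325) (nat_lit 234) (nat_lit 161)))) (XT.nd (nat_lit 156) (nat_lit 0) (nat_lit 0) (XT.nd (nat_lit 78) (nat_lit 0) (nat_lit 0) (XT.lf (nat_lit 0) (nat_lit 32064756208) (nat_lit 152) (nat_lit 43881566344) (nat_lit 0) (nat_lit 13697886338) (nat_lit 4) (nat_lit 5) (nat_lit 6) (nat_lit 4) (nat_lit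 4) (nat_lit 4) (nat_lit 326) (nat_lit 234) (nat_lit 160)) (XT.lf (nat_lit 0) (nat_lit 37448738323) (nat_lit 152) (nat_lit 37380207703) (nat_lit 0) (nat_lit 19057562518) (nat_lit 4) (nat_lit 5) (nat_lit 6) (nat_lit 4) (nat_lit 4) (nat_lit 4) (nat_lit 327) (nat_lit 234) (nat_lit 159))) (XT.nd (nat_lit 78) (nat_lit 0) (nat_lit 0) (XT.lf (nat_lit 0) (nat_lit 43090638194) (nat_lit 152) (nat_lit 30574543960) (nat_lit 0) (nat_lit 24676313880) (nat_lit 4) (nat_lit 5) (nat_lit 6) (nat_lit 4) (nat_lit 4) (nat_lit 4) (nat_lit 328) (nat_lit 234) (nat_lit 158)) (XT.nd (nat_lit 78) (nat_lit 0) (nat_lit 0) (XT.lf (nat_lit 0) (nat_lit 49003888917) (nat_lit 152) (nat_lit 23448371155) (nat_lit 0) (nat_lit 30567518404) (nat_lit 4) (nat_lit 5) (nat_lit 6) (nat_lit 4) (nat_lit 4) (nat_lit 4) (nat_lit 329) (nat_lit 234) (nat_lit 157)) (XT.lf (nat_lit 0) (nat_lit 55202569660) (nat_lit 152) (nat_lit 15984722209)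 (nat_lit 0) (nat_lit 36745202767) (nat_lit 4) (nat_lit 5) (nat_lit 6) (nat_lit 4) (nat_lit 4) (nat_lit 4) (nat_lit 330) (nat_lit 234) (nat_lit 156)))))) (XT.nd (nat_lit 390) (nat_lit 0) (nat_lit 0) (XT.nd (nat_lit 156) (nat_lit 0) (nat_lit 0) (XT.nd (nat_lit 78) (nat_lit 76) (nat_lit 0) (XT.lf (nat_lit 0) (nat_lit 61701439188) (nat_lit 152) (nat_lit 8165826529) (nat_lit 0) (nat_lit 43224075742) (nat_lit 4) (nat_lit 5) (nat_lit 6) (nat_lit 4) (nat_lit 4) (nat_lit 4) (nat_lit 331) (nat_lit 234) (nat_lit 155)) (XT.lf (nat_lit 0) (nat_lit 27822806) (nat_lit 76) (nat_lit 68488582584) (nat_lit 76) (nat_lit 49992174802) (nat_lit 3) (nat_lit 4) (nat_lit 4) (nat_lit 5) (nat_lit 4) (nat_lit 4) (nat_lit 332) (nat_lit 234) (nat_lit 154))) (XT.nd (nat_lit 78) (nat_lit 0) (nat_lit 0) (XT.lf (nat_lit 0) (nat_lit 8897847545) (nat_lit 76) (nat_lit 66903462959) (nat_lit 76) (nat_lit 48388917714) (nat_lit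 3) (nat_lit 4) (nat_lit 4) (nat_lit 5) (nat_lit 4) (nat_lit 4) (nat_lit 333) (nat_lit 234) (nat_lit 153)) (XT.nd (nat_lit 78) (nat_lit 0) (nat_lit 0) (XT.lf (nat_lit 0) (nat_lit 18195367690) (nat_lit 76) (nat_lit 65246424970) (nat_lit 76) (nat_lit 46714605952) (nat_lit 3) (nat_lit 4) (nat_lit 4) (nat_lit 5) (nat_lit 4) (nat_lit 4) (nat_lit 334) (nat_lit 234) (nat_lit 152)) (XT.lf (nat_lit 0) (nat_lit 27942520195) (nat_lit 76) (nat_lit 63513523291) (nat_lit 76) (nat_lit 44965253059) (nat_lit 3) (nat_lit 4) (nat_lit 4) (nat_lit 5) (nat_lit 4) (nat_lit 4) (nat_lit 335) (nat_lit 234) (nat_lit 151))))) (XT.nd (nat_lit 156) (nat_lit 0) (nat_lit 0) (XT.nd (nat_lit 78) (nat_lit 0) (nat_lit 0) (XT.lf (nat_lit 0) (nat_lit 38162512565) (nat_lit 76) (nat_lit 61700631963) (nat_lit 76) (nat_lit 43136693909) (nat_lit 3) (nat_lit 4) (nat_lit 4) (nat_lit 5) (nat_lit 4) (nat_lit 4) (nat_lit 336) (nat_lit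 234) (nat_lit 150)) (XT.lf (nat_lit 0) (nat_lit 48879678116) (nat_lit 76) (nat_lit 59803434580) (nat_lit 76) (nat_lit 41224574791) (nat_lit 3) (nat_lit 4) (nat_lit 4) (nat_lit 5) (nat_lit 4) (nat_lit 4) (nat_lit 337) (nat_lit 234) (nat_lit 149))) (XT.nd (nat_lit 78) (nat_lit 0) (nat_lit 0) (XT.lf (nat_lit 0) (nat_lit 60119533909) (nat_lit 76) (nat_lit 57817414004) (nat_lit 76) (nat_lit 39224343038) (nat_lit 3) (nat_lit 4) (nat_lit 4) (nat_lit 5) (nat_lit 4) (nat_lit 4) (nat_lit 338) (nat_lit 234) (nat_lit 148)) (XT.nd (nat_lit 78) (nat_lit 0) (nat_lit 0) (XT.lf (nat_lit 0) (nat_lit 71908841504) (nat_lit 76) (nat_lit 55737841615) (nat_lit 76) (nat_lit 37131236196) (nat_lit 3) (nat_lit 4) (nat_lit 4) (nat_lit 5) (nat_lit 4) (nat_lit 4) (nat_lit 339) (nat_lit 234) (nat_lit 147)) (XT.lf (nat_lit 0) (nat_lit 84275670681) (nat_lit 76) (nat_lit 53559766051) (nat_lit 76) (nat_lit 34940270675)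 (nat_lit 3) (nat_lit 4) (nat_lit 4) (nat_lit 5) (nat_lit 4) (nat_lit 4) (nat_lit 340) (nat_lit 234) (nat_lit 146))))))))
noncomputable def xc92 : XT := (XT.nd (nat_lit 1404) (nat_lit 0) (nat_lit 0) (XT.nd (nat_lit 702) (nat_lit 152) (nat_lit 0) (XT.nd (nat_lit 312) (nat_lit 0) (nat_lit 0) (XT.nd (nat_lit 156) (nat_lit 0) (nat_lit 0) (XT.nd (nat_lit 78) (nat_lit 0) (nat_lit 0) (XT.lf (nat_lit 0) (nat_lit 97249466273) (nat_lit 76) (nat_lit 51278001417) (nat_lit 76) (nat_lit 32646229893) (nat_lit 3) (nat_lit 4) (nat_lit 4) (nat_lit 5) (nat_lit 4) (nat_lit 4) (nat_lit 341) (nat_lit 234) (nat_lit 145)) (XT.lf (nat_lit 0) (nat_lit 110861118269) (nat_lit 76) (nat_lit 48887114940) (nat_lit 76) (nat_lit 30243651846) (nat_lit 3) (nat_lit 4) (nat_lit 4) (nat_lit 5) (nat_lit 4) (nat_lit 4) (nat_lit 342) (nat_lit 234) (nat_lit 144))) (XT.nd (nat_lit 78) (nat_lit 0) (nat_lit 0) (XT.lf (nat_lit 0)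 (nat_lit 125143035363) (nat_lit 76) (nat_lit 46381414034) (nat_lit 76) (nat_lit 27726816110) (nat_lit 3) (nat_lit 4) (nat_lit 4) (nat_lit 5) (nat_lit 4) (nat_lit 4) (nat_lit 343) (nat_lit 234) (nat_lit 143)) (XT.lf (nat_lit 0) (nat_lit 140129222121) (nat_lit 76) (nat_lit 43754932743) (nat_lit 76) (nat_lit 25089730221) (nat_lit 3) (nat_lit 4) (nat_lit 4) (nat_lit 5) (nat_lit 4) (nat_lit 4) (nat_lit 344) (nat_lit 234) (nat_lit 142)))) (XT.nd (nat_lit 156) (nat_lit 0) (nat_lit 0) (XT.nd (nat_lit 78) (nat_lit 0) (nat_lit 0) (XT.lf (nat_lit 0) (nat_lit 155855359940) (nat_lit 76) (nat_lit 41001417541) (nat_lit 76) (nat_lit 22326115401) (nat_lit 3) (nat_lit 4) (nat_lit 4) (nat_lit 5) (nat_lit 4) (nat_lit 4) (nat_lit 345) (nat_lit 234) (nat_lit 141)) (XT.lf (nat_lit 0) (nat_lit 172358892004) (nat_lit 76) (nat_lit 38114312440) (nat_lit 76) (nat_lit 19429391616) (nat_lit 3) (nat_lit 4) (nat_lit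 4) (nat_lit 5) (nat_lit 4) (nat_lit 4) (nat_lit 346) (nat_lit 234) (nat_lit 140))) (XT.nd (nat_lit 78) (nat_lit 0) (nat_lit 0) (XT.lf (nat_lit 0) (nat_lit 189679112437) (nat_lit 76) (nat_lit 35086743379) (nat_lit 76) (nat_lit 16392661904) (nat_lit 3) (nat_lit 4) (nat_lit 4) (nat_lit 5) (nat_lit 4) (nat_lit 4) (nat_lit 347) (nat_lit 234) (nat_lit 139)) (XT.nd (nat_lit 78) (nat_lit 0) (nat_lit 0) (XT.lf (nat_lit 0) (nat_lit 207857259861) (nat_lit 76) (nat_lit 31911501861) (nat_lit 76) (nat_lit 13208695956) (nat_lit 3) (nat_lit 4) (nat_lit 4) (nat_lit 5) (nat_lit 4) (nat_lit 4) (nat_lit 348) (nat_lit 234) (nat_lit 138)) (XT.lf (nat_lit 0) (nat_lit 226936615578) (nat_lit 76) (nat_lit 28581027787) (nat_lit 76) (nat_lit 9869912902) (nat_lit 3) (nat_lit 4) (nat_lit 4) (nat_lit 5) (nat_lit 4) (nat_lit 4) (nat_lit 349) (nat_lit 234) (nat_lit 137)))))) (XT.nd (nat_lit 312) (nat_lit 76) (nat_lit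 0) (XT.nd (nat_lit 156) (nat_lit 76) (nat_lit 0) (XT.nd (nat_lit 78) (nat_lit 0) (nat_lit 0) (XT.lf (nat_lit 0) (nat_lit 246962606625) (nat_lit 76) (nat_lit 25087391456) (nat_lit 76) (nat_lit 6368363257) (nat_lit 3) (nat_lit 4) (nat_lit 4) (nat_lit 5) (nat_lit 4) (nat_lit 4) (nat_lit 350) (nat_lit 234) (nat_lit 136)) (XT.lf (nat_lit 0) (nat_lit 267982913934) (nat_lit 76) (nat_lit 21422274688) (nat_lit 76) (nat_lit 2695709998) (nat_lit 3) (nat_lit 4) (nat_lit 4) (nat_lit 5) (nat_lit 4) (nat_lit 4) (nat_lit 351) (nat_lit 234) (nat_lit 135))) (XT.nd (nat_lit 78) (nat_lit 0) (nat_lit 0) (XT.lf (nat_lit 0) (nat_lit 1119766740) (nat_lit 152) (nat_lit 16438220482) (nat_lit 76) (nat_lit 288908855323) (nat_lit 2) (nat_lit 5) (nat_lit 4) (nat_lit 5) (nat_lit 3) (nat_lit 4) (nat_lit 352) (nat_lit 234) (nat_lit 134)) (XT.lf (nat_lit 0) (nat_lit 5031934731) (nat_lit 152) (nat_lit 8425111919) (nat_lit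 76) (nat_lit 308092004341) (nat_lit 2) (nat_lit 5) (nat_lit 4) (nat_lit 5) (nat_lit 3) (nat_lit 4) (nat_lit 353) (nat_lit 234) (nat_lit 133)))) (XT.nd (nat_lit 156) (nat_lit 0) (nat_lit 0) (XT.nd (nat_lit 78) (nat_lit 76) (nat_lit 0) (XT.lf (nat_lit 0) (nat_lit 9136388214) (nat_lit 152) (nat_lit 17492582) (nat_lit 76) (nat_lit 328231657563) (nat_lit 2) (nat_lit 5) (nat_lit 4) (nat_lit 5) (nat_lit 3) (nat_lit 4) (nat_lit 354) (nat_lit 234) (nat_lit 132)) (XT.lf (nat_lit 0) (nat_lit 9095777350) (nat_lit 76) (nat_lit 4489132923) (nat_lit 152) (nat_lit 340421999768) (nat_lit 1) (nat_lit 5) (nat_lit 2) (nat_lit 5) (nat_lit 3) (nat_lit 4) (nat_lit 355) (nat_lit 234) (nat_lit 131))) (XT.nd (nat_lit 78) (nat_lit 0) (nat_lit 0) (XT.lf (nat_lit 0) (nat_lit 18259397568) (nat_lit 152) (nat_lit 352806279159) (nat_lit 0) (nat_lit 393498759) (nat_lit 1) (nat_lit 5) (nat_lit 3) (nat_lit 4) (nat_lit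 1) (nat_lit 4) (nat_lit 356) (nat_lit 234) (nat_lit 130)) (XT.nd (nat_lit 78) (nat_lit 0) (nat_lit 0) (XT.lf (nat_lit 0) (nat_lit 23238206046) (nat_lit 152) (nat_lit 361175369158) (nat_lit 0) (nat_lit 5366951194) (nat_lit 1) (nat_lit 5) (nat_lit 3) (nat_lit 4) (nat_lit 1) (nat_lit 4) (nat_lit 357) (nat_lit 234) (nat_lit 129)) (XT.lf (nat_lit 0) (nat_lit 28463102066) (nat_lit 152) (nat_lit 369968241147) (nat_lit 0) (nat_lit 10586746221) (nat_lit 1) (nat_lit 5) (nat_lit 3) (nat_lit 4) (nat_lit 1) (nat_lit 4) (nat_lit 358) (nat_lit 234) (nat_lit 128))))))) (XT.nd (nat_lit 29328) (nat_lit 0) (nat_lit 4256) (XT.nd (nat_lit 312) (nat_lit 0) (nat_lit 0) (XT.nd (nat_lit 156) (nat_lit 0) (nat_lit 0) (XT.nd (nat_lit 78) (nat_lit 0) (nat_lit 0) (XT.lf (nat_lit 0) (nat_lit 33946525858) (nat_lit 152) (nat_lit 379205830535) (nat_lit 0) (nat_lit 16065311924) (nat_lit 1) (nat_lit 5) (nat_lit 3) (nat_lit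 4) (nat_lit 1) (nat_lit 4) (nat_lit 359) (nat_lit 234) (nat_lit 127)) (XT.lf (nat_lit 0) (nat_lit 39701533193) (nat_lit 152) (nat_lit 388910131584) (nat_lit 0) (nat_lit 21815692507) (nat_lit 1) (nat_lit 5) (nat_lit 3) (nat_lit 4) (nat_lit 1) (nat_lit 4) (nat_lit 360) (nat_lit 234) (nat_lit 126))) (XT.nd (nat_lit 78) (nat_lit 0) (nat_lit 0) (XT.lf (nat_lit 0) (nat_lit 45741826469) (nat_lit 152) (nat_lit 399104249771) (nat_lit 0) (nat_lit 27851579353) (nat_lit 1) (nat_lit 5) (nat_lit 3) (nat_lit 4) (nat_lit 1) (nat_lit 4) (nat_lit 361) (nat_lit 234) (nat_lit 125)) (XT.lf (nat_lit 0) (nat_lit 52081787336) (nat_lit 152) (nat_lit 409812456807) (nat_lit 0) (nat_lit 34187343621) (nat_lit 1) (nat_lit 5) (nat_lit 3) (nat_lit 4) (nat_lit 1) (nat_lit 4) (nat_lit 362) (nat_lit 234) (nat_lit 124)))) (XT.nd (nat_lit 28782) (nat_lit 0) (nat_lit 6916) (XT.nd (nat_lit 28704) (nat_lit 0) (nat_lit 7980)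 (XT.lf (nat_lit 0) (nat_lit 58736510940) (nat_lit 152) (nat_lit 421060248423) (nat_lit 0) (nat_lit 40838070464) (nat_lit 1) (nat_lit 5) (nat_lit 3) (nat_lit 4) (nat_lit 1) (nat_lit 4) (nat_lit 363) (nat_lit 234) (nat_lit 123)) (XT.lf (nat_lit 0) (nat_lit 847772963) (nat_lit 380) (nat_lit 1264835840) (nat_lit 380) (nat_lit 1264835840) (nat_lit 106) (nat_lit 4) (nat_lit 111) (nat_lit 5) (nat_lit 111) (nat_lit 4) (nat_lit 250) (nat_lit 235) (nat_lit 235))) (XT.nd (nat_lit 78) (nat_lit 988) (nat_lit 0) (XT.lf (nat_lit 0) (nat_lit 453058289) (nat_lit 456) (nat_lit 1033457480) (nat_lit 76) (nat_lit 5337413685) (nat_lit 105) (nat_lit 5) (nat_lit 111) (nat_lit 5) (nat_lit 106) (nat_lit 4) (nat_lit 251) (nat_lit 235) (nat_lit 234)) (XT.nd (nat_lit 78) (nat_lit 532) (nat_lit 0) (XT.lf (nat_lit 0) (nat_lit 3119679601) (nat_lit 456) (nat_lit 270902920) (nat_lit 532) (nat_lit 3509907705) (nat_lit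 99) (nat_lit 5) (nat_lit 105) (nat_lit 5) (nat_lit 106) (nat_lit 4) (nat_lit 252) (nat_lit 235) (nat_lit 233)) (XT.lf (nat_lit 0) (nat_lit 394071558) (nat_lit 532) (nat_lit 5968354770) (nat_lit 532) (nat_lit 624724030) (nat_lit 92) (nat_lit 4) (nat_lit 99) (nat_lit 5) (nat_lit 99) (nat_lit 4) (nat_lit 253) (nat_lit 235) (nat_lit 232)))))) (XT.nd (nat_lit 312) (nat_lit 1216) (nat_lit 0) (XT.nd (nat_lit 156) (nat_lit 760) (nat_lit 0) (XT.nd (nat_lit 78) (nat_lit 608) (nat_lit 0) (XT.lf (nat_lit 0) (nat_lit 2247185943) (nat_lit 608) (nat_lit 2351228543) (nat_lit 76) (nat_lit 2482463797) (nat_lit 91) (nat_lit 5) (nat_lit 99) (nat_lit 5) (nat_lit 92) (nat_lit 4) (nat_lit 254) (nat_lit 235) (nat_lit 231)) (XT.lf (nat_lit 0) (nat_lit 2021742674) (nat_lit 608) (nat_lit 3108578584) (nat_lit 684) (nat_lit 2054583915) (nat_lit 83) (nat_lit 5) (nat_lit 91) (nat_lit 5) (nat_lit 92) (nat_lit 4) (nat_lit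 255) (nat_lit 235) (nat_lit 230))) (XT.nd (nat_lit 78) (nat_lit 684) (nat_lit 0) (XT.lf (nat_lit 0) (nat_lit 735322697) (nat_lit 684) (nat_lit 749704879) (nat_lit 76) (nat_lit 5813961980) (nat_lit 82) (nat_lit 5) (nat_lit 91) (nat_lit 5) (nat_lit 83) (nat_lit 5) (nat_lit 256) (nat_lit 235) (nat_lit 229)) (XT.lf (nat_lit 0) (nat_lit 3526385006) (nat_lit 760) (nat_lit 3584413557) (nat_lit 76) (nat_lit 310240298) (nat_lit 73) (nat_lit 5) (nat_lit 83) (nat_lit 5) (nat_lit 74) (nat_lit 4) (nat_lit 257) (nat_lit 235) (nat_lit 228)))) (XT.nd (nat_lit 156) (nat_lit 760) (nat_lit 0) (XT.nd (nat_lit 78) (nat_lit 76) (nat_lit 0) (XT.lf (nat_lit 0) (nat_lit 1000557052) (nat_lit 380) (nat_lit 5379408253) (nat_lit 456) (nat_lit 1173534399) (nat_lit 68) (nat_lit 5) (nat_lit 73) (nat_lit 5) (nat_lit 74) (nat_lit 4) (nat_lit 258) (nat_lit 235) (nat_lit 227)) (XT.lf (nat_lit 0) (nat_lit 1563149414) (nat_lit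 456) (nat_lit 1916722309) (nat_lit 76) (nat_lit 4215142577) (nat_lit 67) (nat_lit 5) (nat_lit 73) (nat_lit 5) (nat_lit 68) (nat_lit 5) (nat_lit 259) (nat_lit 235) (nat_lit 226))) (XT.nd (nat_lit 78) (nat_lit 380) (nat_lit 0) (XT.lf (nat_lit 0) (nat_lit 2892150669) (nat_lit 380) (nat_lit 1428039058) (nat_lit 456) (nat_lit 3526699993) (nat_lit 62) (nat_lit 5) (nat_lit 67) (nat_lit 5) (nat_lit 68) (nat_lit 5) (nat_lit 260) (nat_lit 235) (nat_lit 225)) (XT.nd (nat_lit 78) (nat_lit 380) (nat_lit 0) (XT.lf (nat_lit 0) (nat_lit 7140819117) (nat_lit 456) (nat_lit 145057804) (nat_lit 76) (nat_lit 724571373) (nat_lit 62) (nat_lit 5) (nat_lit 68) (nat_lit 5) (nat_lit 63) (nat_lit 4) (nat_lit 261) (nat_lit 235) (nat_lit 224)) (XT.lf (nat_lit 0) (nat_lit 1845377655) (nat_lit 380) (nat_lit 3304103647) (nat_lit 76) (nat_lit 3032218496) (nat_lit 57) (nat_lit 5) (nat_lit 62) (nat_lit 5) (nat_lit 58)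 (nat_lit 5) (nat_lit 262) (nat_lit 235) (nat_lit 223))))))))
noncomputable def xc93 : XT := (XT.nd (nat_lit 1404) (nat_lit 988) (nat_lit 0) (XT.nd (nat_lit 702) (nat_lit 1064) (nat_lit 0) (XT.nd (nat_lit 312) (nat_lit 532) (nat_lit 0) (XT.nd (nat_lit 156) (nat_lit 608) (nat_lit 0) (XT.nd (nat_lit 78) (nat_lit 0) (nat_lit 0) (XT.lf (nat_lit 0) (nat_lit 1703365428) (nat_lit 304) (nat_lit 2880941878) (nat_lit 380) (nat_lit 3780948879) (nat_lit 53) (nat_lit 5) (nat_lit 57) (nat_lit 5) (nat_lit 58) (nat_lit 5) (nat_lit 263) (nat_lit 235) (nat_lit 222)) (XT.lf (nat_lit 0) (nat_lit 6946161887) (nat_lit 304) (nat_lit 461577528) (nat_lit 380) (nat_lit 1153182707) (nat_lit 53) (nat_lit 5) (nat_lit 57) (nat_lit 5) (nat_lit 58) (nat_lit 5) (nat_lit 264) (nat_lit 235) (nat_lit 221))) (XT.nd (nat_lit 78) (nat_lit 304) (nat_lit 0) (XT.lf (nat_lit 0) (nat_lit 1539781836) (nat_lit 304) (nat_lit 5152155926)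 (nat_lit 76) (nat_lit 2074200103) (nat_lit 49) (nat_lit 5) (nat_lit 53) (nat_lit 5) (nat_lit 50) (nat_lit 5) (nat_lit 265) (nat_lit 235) (nat_lit 220)) (XT.lf (nat_lit 0) (nat_lit 23509124) (nat_lit 304) (nat_lit 4238336722) (nat_lit 380) (nat_lit 4722430411) (nat_lit 45) (nat_lit 5) (nat_lit 49) (nat_lit 5) (nat_lit 50) (nat_lit 5) (nat_lit 266) (nat_lit 235) (nat_lit 219)))) (XT.nd (nat_lit 156) (nat_lit 228) (nat_lit 0) (XT.nd (nat_lit 78) (nat_lit 304) (nat_lit 0) (XT.lf (nat_lit 0) (nat_lit 5508631714) (nat_lit 304) (nat_lit 1598992942) (nat_lit 380) (nat_lit 2106570985) (nat_lit 45) (nat_lit 5) (nat_lit 49) (nat_lit 5) (nat_lit 50) (nat_lit 5) (nat_lit 267) (nat_lit 235) (nat_lit 218)) (XT.lf (nat_lit 0) (nat_lit 568413356) (nat_lit 304) (nat_lit 7744953470) (nat_lit 76) (nat_lit 1144534542) (nat_lit 41) (nat_lit 5) (nat_lit 45) (nat_lit 5) (nat_lit 42) (nat_lit 5) (nat_lit 268)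 (nat_lit 235) (nat_lit 217))) (XT.nd (nat_lit 78) (nat_lit 228) (nat_lit 0) (XT.lf (nat_lit 0) (nat_lit 3301877147) (nat_lit 304) (nat_lit 2369352193) (nat_lit 76) (nat_lit 4041280079) (nat_lit 41) (nat_lit 5) (nat_lit 45) (nat_lit 5) (nat_lit 42) (nat_lit 5) (nat_lit 269) (nat_lit 235) (nat_lit 216)) (XT.nd (nat_lit 78) (nat_lit 0) (nat_lit 0) (XT.lf (nat_lit 0) (nat_lit 3257424221) (nat_lit 228) (nat_lit 2875473651) (nat_lit 304) (nat_lit 3849115316) (nat_lit 38) (nat_lit 5) (nat_lit 41) (nat_lit 5) (nat_lit 42) (nat_lit 5) (nat_lit 270) (nat_lit 235) (nat_lit 215)) (XT.lf (nat_lit 0) (nat_lit 9059125323) (nat_lit 304) (nat_lit 1140753534) (nat_lit 76) (nat_lit 67630029) (nat_lit 38) (nat_lit 5) (nat_lit 42) (nat_lit 5) (nat_lit 39) (nat_lit 4) (nat_lit 271) (nat_lit 235) (nat_lit 214)))))) (XT.nd (nat_lit 312) (nat_lit 456) (nat_lit 0) (XT.nd (nat_lit 156) (nat_lit 380) (nat_lit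 0) (XT.nd (nat_lit 78) (nat_lit 0) (nat_lit 0) (XT.lf (nat_lit 0) (nat_lit 1551501030) (nat_lit 228) (nat_lit 5882909930) (nat_lit 76) (nat_lit 3129968847) (nat_lit 35) (nat_lit 5) (nat_lit 38) (nat_lit 5) (nat_lit 36) (nat_lit 5) (nat_lit 272) (nat_lit 235) (nat_lit 213)) (XT.lf (nat_lit 0) (nat_lit 4345199595) (nat_lit 228) (nat_lit 179931691) (nat_lit 76) (nat_lit 6353323399) (nat_lit 35) (nat_lit 5) (nat_lit 38) (nat_lit 5) (nat_lit 36) (nat_lit 5) (nat_lit 273) (nat_lit 235) (nat_lit 212))) (XT.nd (nat_lit 78) (nat_lit 152) (nat_lit 0) (XT.lf (nat_lit 0) (nat_lit 5883075422) (nat_lit 228) (nat_lit 1408114609) (nat_lit 304) (nat_lit 3916577078) (nat_lit 32) (nat_lit 5) (nat_lit 35) (nat_lit 5) (nat_lit 36) (nat_lit 5) (nat_lit 274) (nat_lit 235) (nat_lit 211)) (XT.lf (nat_lit 0) (nat_lit 576301969) (nat_lit 152) (nat_lit 9771637274) (nat_lit 228) (nat_lit 1207589282) (nat_lit 30)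 (nat_lit 5) (nat_lit 32) (nat_lit 5) (nat_lit 33) (nat_lit 4) (nat_lit 275) (nat_lit 235) (nat_lit 210)))) (XT.nd (nat_lit 156) (nat_lit 228) (nat_lit 0) (XT.nd (nat_lit 78) (nat_lit 152) (nat_lit 0) (XT.lf (nat_lit 0) (nat_lit 1621995130) (nat_lit 228) (nat_lit 5124985318) (nat_lit 76) (nat_lit 5170684745) (nat_lit 29) (nat_lit 5) (nat_lit 32) (nat_lit 5) (nat_lit 30) (nat_lit 5) (nat_lit 276) (nat_lit 235) (nat_lit 209)) (XT.lf (nat_lit 0) (nat_lit 921272411) (nat_lit 152) (nat_lit 3572061559) (nat_lit 228) (nat_lit 7806677037) (nat_lit 27) (nat_lit 5) (nat_lit 29) (nat_lit 5) (nat_lit 30) (nat_lit 5) (nat_lit 277) (nat_lit 235) (nat_lit 208))) (XT.nd (nat_lit 78) (nat_lit 228) (nat_lit 0) (XT.lf (nat_lit 0) (nat_lit 7339165861) (nat_lit 152) (nat_lit 184148066) (nat_lit 228) (nat_lit 5177535092) (nat_lit 27) (nat_lit 5) (nat_lit 29) (nat_lit 5) (nat_lit 30) (nat_lit 5) (nat_lit 278)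 (nat_lit 235) (nat_lit 207)) (XT.nd (nat_lit 78) (nat_lit 76) (nat_lit 0) (XT.lf (nat_lit 0) (nat_lit 823494847) (nat_lit 152) (nat_lit 9877966441) (nat_lit 228) (nat_lit 2420556717) (nat_lit 25) (nat_lit 5) (nat_lit 27) (nat_lit 5) (nat_lit 28) (nat_lit 4) (nat_lit 279) (nat_lit 235) (nat_lit 206)) (XT.lf (nat_lit 0) (nat_lit 485977140) (nat_lit 228) (nat_lit 6174619792) (nat_lit 76) (nat_lit 6902045064) (nat_lit 24) (nat_lit 5) (nat_lit 27) (nat_lit 5) (nat_lit 25) (nat_lit 5) (nat_lit 280) (nat_lit 235) (nat_lit 205))))))) (XT.nd (nat_lit 702) (nat_lit 456) (nat_lit 0) (XT.nd (nat_lit 312) (nat_lit 304) (nat_lit 0) (XT.nd (nat_lit 156) (nat_lit 76) (nat_lit 0) (XT.nd (nat_lit 78) (nat_lit 0) (nat_lit 0) (XT.lf (nat_lit 0) (nat_lit 117580120) (nat_lit 152) (nat_lit 3275581123) (nat_lit 228) (nat_lit 10633424190) (nat_lit 22) (nat_lit 5) (nat_lit 24) (nat_lit 5) (nat_lit 25) (nat_lit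 5) (nat_lit 281) (nat_lit 235) (nat_lit 204)) (XT.lf (nat_lit 0) (nat_lit 6492137934) (nat_lit 228) (nat_lit 7678848913) (nat_lit 76) (nat_lit 340518298) (nat_lit 22) (nat_lit 5) (nat_lit 25) (nat_lit 5) (nat_lit 23) (nat_lit 4) (nat_lit 282) (nat_lit 235) (nat_lit 203))) (XT.nd (nat_lit 78) (nat_lit 76) (nat_lit 0) (XT.lf (nat_lit 0) (nat_lit 9738616636) (nat_lit 228) (nat_lit 1289020783) (nat_lit 76) (nat_lit 3993501740) (nat_lit 22) (nat_lit 5) (nat_lit 25) (nat_lit 5) (nat_lit 23) (nat_lit 4) (nat_lit 283) (nat_lit 235) (nat_lit 202)) (XT.lf (nat_lit 0) (nat_lit 5502963142) (nat_lit 76) (nat_lit 7672139594) (nat_lit 152) (nat_lit 2379859369) (nat_lit 21) (nat_lit 5) (nat_lit 22) (nat_lit 5) (nat_lit 23) (nat_lit 4) (nat_lit 284) (nat_lit 235) (nat_lit 201)))) (XT.nd (nat_lit 156) (nat_lit 76) (nat_lit 0) (XT.nd (nat_lit 78) (nat_lit 152) (nat_lit 0) (XT.lf (nat_lit 0) (nat_lit 610833950)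 (nat_lit 152) (nat_lit 3539827845) (nat_lit 76) (nat_lit 11966162133) (nat_lit 20) (nat_lit 5) (nat_lit 22) (nat_lit 5) (nat_lit 21) (nat_lit 5) (nat_lit 285) (nat_lit 235) (nat_lit 200)) (XT.lf (nat_lit 0) (nat_lit 3274253272) (nat_lit 152) (nat_lit 392794909) (nat_lit 228) (nat_lit 13038060661) (nat_lit 18) (nat_lit 5) (nat_lit 20) (nat_lit 5) (nat_lit 21) (nat_lit 5) (nat_lit 286) (nat_lit 235) (nat_lit 199))) (XT.nd (nat_lit 78) (nat_lit 76) (nat_lit 0) (XT.lf (nat_lit 0) (nat_lit 6938040173) (nat_lit 228) (nat_lit 6914607004) (nat_lit 76) (nat_lit 3467137672) (nat_lit 18) (nat_lit 5) (nat_lit 21) (nat_lit 5) (nat_lit 19) (nat_lit 4) (nat_lit 287) (nat_lit 235) (nat_lit 198)) (XT.nd (nat_lit 78) (nat_lit 76) (nat_lit 0) (XT.lf (nat_lit 0) (nat_lit 10327177062) (nat_lit 228) (nat_lit 164961653) (nat_lit 76) (nat_lit 7475397793) (nat_lit 18) (nat_lit 5) (nat_lit 21) (nat_lit 5) (nat_lit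 19) (nat_lit 4) (nat_lit 288) (nat_lit 235) (nat_lit 197)) (XT.lf (nat_lit 0) (nat_lit 7066454366) (nat_lit 76) (nat_lit 6880268383) (nat_lit 152) (nat_lit 4697973611) (nat_lit 17) (nat_lit 5) (nat_lit 18) (nat_lit 5) (nat_lit 19) (nat_lit 4) (nat_lit 289) (nat_lit 235) (nat_lit 196)))))) (XT.nd (nat_lit 390) (nat_lit 152) (nat_lit 0) (XT.nd (nat_lit 156) (nat_lit 76) (nat_lit 0) (XT.nd (nat_lit 78) (nat_lit 228) (nat_lit 0) (XT.lf (nat_lit 0) (nat_lit 14584606696) (nat_lit 76) (nat_lit 3117150936) (nat_lit 152) (nat_lit 1656295937) (nat_lit 17) (nat_lit 5) (nat_lit 18) (nat_lit 5) (nat_lit 19) (nat_lit 4) (nat_lit 290) (nat_lit 235) (nat_lit 195)) (XT.lf (nat_lit 0) (nat_lit 1491585759) (nat_lit 228) (nat_lit 17775687245) (nat_lit 76) (nat_lit 838497915) (nat_lit 14) (nat_lit 5) (nat_lit 17) (nat_lit 5) (nat_lit 15) (nat_lit 4) (nat_lit 291) (nat_lit 235) (nat_lit 194))) (XT.nd (nat_lit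 78) (nat_lit 76) (nat_lit 0) (XT.lf (nat_lit 0) (nat_lit 4828206016) (nat_lit 228) (nat_lit 11090820713) (nat_lit 76) (nat_lit 4966195561) (nat_lit 14) (nat_lit 5) (nat_lit 17) (nat_lit 5) (nat_lit 15) (nat_lit 4) (nat_lit 292) (nat_lit 235) (nat_lit 193)) (XT.nd (nat_lit 78) (nat_lit 76) (nat_lit 0) (XT.lf (nat_lit 0) (nat_lit 8287600289) (nat_lit 228) (nat_lit 4146876732) (nat_lit 76) (nat_lit 9271425499) (nat_lit 14) (nat_lit 5) (nat_lit 17) (nat_lit 5) (nat_lit 15) (nat_lit 4) (nat_lit 293) (nat_lit 235) (nat_lit 192)) (XT.lf (nat_lit 0) (nat_lit 3174274505) (nat_lit 76) (nat_lit 8753290048) (nat_lit 152) (nat_lit 10639723092) (nat_lit 13) (nat_lit 5) (nat_lit 14) (nat_lit 5) (nat_lit 15) (nat_lit 4) (nat_lit 294) (nat_lit 235) (nat_lit 191))))) (XT.nd (nat_lit 156) (nat_lit 152) (nat_lit 0) (XT.nd (nat_lit 78) (nat_lit 0) (nat_lit 0) (XT.lf (nat_lit 0) (nat_lit 10935021573) (nat_lit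 76) (nat_lit 4843674189) (nat_lit 152) (nat_lit 7691636303) (nat_lit 13) (nat_lit 5) (nat_lit 14) (nat_lit 5) (nat_lit 15) (nat_lit 4) (nat_lit 295) (nat_lit 235) (nat_lit 190)) (XT.lf (nat_lit 0) (nat_lit 19016727966) (nat_lit 76) (nat_lit 766550198) (nat_lit 152) (nat_lit 4637251975) (nat_lit 13) (nat_lit 5) (nat_lit 14) (nat_lit 5) (nat_lit 15) (nat_lit 4) (nat_lit 296) (nat_lit 235) (nat_lit 189))) (XT.nd (nat_lit 78) (nat_lit 76) (nat_lit 0) (XT.lf (nat_lit 0) (nat_lit 2028977379) (nat_lit 76) (nat_lit 22008001293) (nat_lit 76) (nat_lit 1378858964) (nat_lit 12) (nat_lit 4) (nat_lit 13) (nat_lit 5) (nat_lit 13) (nat_lit 4) (nat_lit 297) (nat_lit 235) (nat_lit 188)) (XT.nd (nat_lit 78) (nat_lit 0) (nat_lit 0) (XT.lf (nat_lit 0) (nat_lit 2045150070) (nat_lit 152) (nat_lit 16546885976) (nat_lit 76) (nat_lit 7863916536) (nat_lit 11) (nat_lit 5) (nat_lit 13) (nat_lit 5) (nat_lit 12)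 (nat_lit 4) (nat_lit 298) (nat_lit 235) (nat_lit 187)) (XT.lf (nat_lit 0) (nat_lit 5558292264) (nat_lit 152) (nat_lit 9449993326) (nat_lit 76) (nat_lit 12540481884) (nat_lit 11) (nat_lit 5) (nat_lit 13) (nat_lit 5) (nat_lit 12) (nat_lit 4) (nat_lit 299) (nat_lit 235) (nat_lit 186))))))))
noncomputable def xc94 : XT := (XT.nd (nat_lit 1404) (nat_lit 228) (nat_lit 0) (XT.nd (nat_lit 702) (nat_lit 152) (nat_lit 0) (XT.nd (nat_lit 312) (nat_lit 152) (nat_lit 0) (XT.nd (nat_lit 156) (nat_lit 0) (nat_lit 0) (XT.nd (nat_lit 78) (nat_lit 76) (nat_lit 0) (XT.lf (nat_lit 0) (nat_lit 9213064342) (nat_lit 152) (nat_lit 2057757090) (nat_lit 76) (nat_lit 17427139213) (nat_lit 11) (nat_lit 5) (nat_lit 13) (nat_lit 5) (nat_lit 12) (nat_lit 4) (nat_lit 300) (nat_lit 235) (nat_lit 185)) (XT.lf (nat_lit 0) (nat_lit 5834152613) (nat_lit 76) (nat_lit 7275103000) (nat_lit 152) (nat_lit 16792458280) (nat_lit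 10) (nat_lit 5) (nat_lit 11) (nat_lit 5) (nat_lit 12) (nat_lit 4) (nat_lit 301) (nat_lit 235) (nat_lit 184))) (XT.nd (nat_lit 78) (nat_lit 0) (nat_lit 0) (XT.lf (nat_lit 0) (nat_lit 14136344812) (nat_lit 76) (nat_lit 3067026578) (nat_lit 152) (nat_lit 13962160475) (nat_lit 10) (nat_lit 5) (nat_lit 11) (nat_lit 5) (nat_lit 12) (nat_lit 4) (nat_lit 302) (nat_lit 235) (nat_lit 183)) (XT.lf (nat_lit 0) (nat_lit 21492712765) (nat_lit 152) (nat_lit 9714278071) (nat_lit 0) (nat_lit 1286055158) (nat_lit 10) (nat_lit 5) (nat_lit 12) (nat_lit 4) (nat_lit 10) (nat_lit 4) (nat_lit 303) (nat_lit 235) (nat_lit 182)))) (XT.nd (nat_lit 156) (nat_lit 76) (nat_lit 0) (XT.nd (nat_lit 78) (nat_lit 76) (nat_lit 0) (XT.lf (nat_lit 0) (nat_lit 26017676358) (nat_lit 152) (nat_lit 2135601788) (nat_lit 0) (nat_lit 5732629683) (nat_lit 10) (nat_lit 5) (nat_lit 12) (nat_lit 4) (nat_lit 10) (nat_lit 4) (nat_lit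 304) (nat_lit 235) (nat_lit 181)) (XT.lf (nat_lit 0) (nat_lit 5963645026) (nat_lit 76) (nat_lit 24870615199) (nat_lit 76) (nat_lit 4510912268) (nat_lit 9) (nat_lit 4) (nat_lit 10) (nat_lit 5) (nat_lit 10) (nat_lit 4) (nat_lit 305) (nat_lit 235) (nat_lit 180))) (XT.nd (nat_lit 78) (nat_lit 76) (nat_lit 0) (XT.lf (nat_lit 0) (nat_lit 14493554435) (nat_lit 76) (nat_lit 21407113667) (nat_lit 76) (nat_lit 976309540) (nat_lit 9) (nat_lit 4) (nat_lit 10) (nat_lit 5) (nat_lit 10) (nat_lit 4) (nat_lit 306) (nat_lit 235) (nat_lit 179)) (XT.nd (nat_lit 78) (nat_lit 0) (nat_lit 0) (XT.lf (nat_lit 0) (nat_lit 2621157673) (nat_lit 152) (nat_lit 15125146321) (nat_lit 76) (nat_lit 20738274860) (nat_lit 8) (nat_lit 5) (nat_lit 10) (nat_lit 5) (nat_lit 9) (nat_lit 4) (nat_lit 307) (nat_lit 235) (nat_lit 178)) (XT.lf (nat_lit 0) (nat_lit 6340613727) (nat_lit 152) (nat_lit 7564752290) (nat_lit 76) (nat_lit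 26267670877) (nat_lit 8) (nat_lit 5) (nat_lit 10) (nat_lit 5) (nat_lit 9) (nat_lit 4) (nat_lit 308) (nat_lit 235) (nat_lit 177)))))) (XT.nd (nat_lit 312) (nat_lit 76) (nat_lit 0) (XT.nd (nat_lit 156) (nat_lit 0) (nat_lit 0) (XT.nd (nat_lit 78) (nat_lit 0) (nat_lit 0) (XT.lf (nat_lit 0) (nat_lit 341947196) (nat_lit 76) (nat_lit 9885554030) (nat_lit 152) (nat_lit 31719365886) (nat_lit 7) (nat_lit 5) (nat_lit 8) (nat_lit 5) (nat_lit 9) (nat_lit 4) (nat_lit 309) (nat_lit 235) (nat_lit 176)) (XT.lf (nat_lit 0) (nat_lit 8864642126) (nat_lit 76) (nat_lit 5548805470) (nat_lit 152) (nat_lit 29390726668) (nat_lit 7) (nat_lit 5) (nat_lit 8) (nat_lit 5) (nat_lit 9) (nat_lit 4) (nat_lit 310) (nat_lit 235) (nat_lit 175))) (XT.nd (nat_lit 78) (nat_lit 0) (nat_lit 0) (XT.lf (nat_lit 0) (nat_lit 17773499757) (nat_lit 76) (nat_lit 1012907487) (nat_lit 152) (nat_lit 26969073874) (nat_lit 7) (nat_lit 5)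 (nat_lit 8) (nat_lit 5) (nat_lit 9) (nat_lit 4) (nat_lit 311) (nat_lit 235) (nat_lit 174)) (XT.lf (nat_lit 0) (nat_lit 23415073629) (nat_lit 152) (nat_lit 20773983638) (nat_lit 0) (nat_lit 3613462293) (nat_lit 7) (nat_lit 5) (nat_lit 9) (nat_lit 4) (nat_lit 7) (nat_lit 4) (nat_lit 312) (nat_lit 235) (nat_lit 173)))) (XT.nd (nat_lit 156) (nat_lit 76) (nat_lit 0) (XT.nd (nat_lit 78) (nat_lit 0) (nat_lit 0) (XT.lf (nat_lit 0) (nat_lit 28271315605) (nat_lit 152) (nat_lit 13259225292) (nat_lit 0) (nat_lit 8421580182) (nat_lit 7) (nat_lit 5) (nat_lit 9) (nat_lit 4) (nat_lit 7) (nat_lit 4) (nat_lit 313) (nat_lit 235) (nat_lit 172)) (XT.lf (nat_lit 0) (nat_lit 33350881331) (nat_lit 152) (nat_lit 5403999717) (nat_lit 0) (nat_lit 13455313443) (nat_lit 7) (nat_lit 5) (nat_lit 9) (nat_lit 4) (nat_lit 7) (nat_lit 4) (nat_lit 314) (nat_lit 235) (nat_lit 171))) (XT.nd (nat_lit 78) (nat_lit 0) (nat_lit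 0) (XT.lf (nat_lit 0) (nat_lit 2903320389) (nat_lit 76) (nat_lit 35807873589) (nat_lit 76) (nat_lit 15868655735) (nat_lit 6) (nat_lit 4) (nat_lit 7) (nat_lit 5) (nat_lit 7) (nat_lit 4) (nat_lit 315) (nat_lit 235) (nat_lit 170)) (XT.nd (nat_lit 78) (nat_lit 0) (nat_lit 0) (XT.lf (nat_lit 0) (nat_lit 11780571828) (nat_lit 76) (nat_lit 32632277279) (nat_lit 76) (nat_lit 12651488028) (nat_lit 6) (nat_lit 4) (nat_lit 7) (nat_lit 5) (nat_lit 7) (nat_lit 4) (nat_lit 316) (nat_lit 235) (nat_lit 169)) (XT.lf (nat_lit 0) (nat_lit 21070210279) (nat_lit 76) (nat_lit 29312050523) (nat_lit 76) (nat_lit 9291669466) (nat_lit 6) (nat_lit 4) (nat_lit 7) (nat_lit 5) (nat_lit 7) (nat_lit 4) (nat_lit 317) (nat_lit 235) (nat_lit 168))))))) (XT.nd (nat_lit 702) (nat_lit 76) (nat_lit 0) (XT.nd (nat_lit 312) (nat_lit 76) (nat_lit 0) (XT.nd (nat_lit 156) (nat_lit 76) (nat_lit 0) (XT.nd (nat_lit 78) (nat_lit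 0) (nat_lit 0) (XT.lf (nat_lit 0) (nat_lit 30794353927) (nat_lit 76) (nat_lit 25839288021) (nat_lit 76) (nat_lit 5781200482) (nat_lit 6) (nat_lit 4) (nat_lit 7) (nat_lit 5) (nat_lit 7) (nat_lit 4) (nat_lit 318) (nat_lit 235) (nat_lit 167)) (XT.lf (nat_lit 0) (nat_lit 40976155495) (nat_lit 76) (nat_lit 22205721290) (nat_lit 76) (nat_lit 2111722815) (nat_lit 6) (nat_lit 4) (nat_lit 7) (nat_lit 5) (nat_lit 7) (nat_lit 4) (nat_lit 319) (nat_lit 235) (nat_lit 166))) (XT.nd (nat_lit 78) (nat_lit 0) (nat_lit 0) (XT.lf (nat_lit 0) (nat_lit 1670273597) (nat_lit 152) (nat_lit 16704138491) (nat_lit 76) (nat_lit 49941296880) (nat_lit 5) (nat_lit 5) (nat_lit 7) (nat_lit 5) (nat_lit 6) (nat_lit 4) (nat_lit 320) (nat_lit 235) (nat_lit 165)) (XT.lf (nat_lit 0) (nat_lit 5555902149) (nat_lit 152) (nat_lit 8771172235) (nat_lit 76) (nat_lit 57160855274) (nat_lit 5) (nat_lit 5) (nat_lit 7) (nat_lit 5) (nat_lit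 6) (nat_lit 4) (nat_lit 321) (nat_lit 235) (nat_lit 164)))) (XT.nd (nat_lit 156) (nat_lit 0) (nat_lit 0) (XT.nd (nat_lit 78) (nat_lit 76) (nat_lit 0) (XT.lf (nat_lit 0) (nat_lit 9622002656) (nat_lit 152) (nat_lit 466687412) (nat_lit 76) (nat_lit 64730773004) (nat_lit 5) (nat_lit 5) (nat_lit 7) (nat_lit 5) (nat_lit 6) (nat_lit 4) (nat_lit 322) (nat_lit 235) (nat_lit 163)) (XT.lf (nat_lit 0) (nat_lit 8501179392) (nat_lit 76) (nat_lit 5509804152) (nat_lit 152) (nat_lit 64300621528) (nat_lit 4) (nat_lit 5) (nat_lit 5) (nat_lit 5) (nat_lit 6) (nat_lit 4) (nat_lit 323) (nat_lit 235) (nat_lit 162))) (XT.nd (nat_lit 78) (nat_lit 0) (nat_lit 0) (XT.lf (nat_lit 0) (nat_lit 17910094797) (nat_lit 76) (nat_lit 704329021) (nat_lit 152) (nat_lit 63364190008) (nat_lit 4) (nat_lit 5) (nat_lit 5) (nat_lit 5) (nat_lit 6) (nat_lit 4) (nat_lit 324) (nat_lit 235) (nat_lit 161)) (XT.nd (nat_lit 78) (nat_lit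 0) (nat_lit 0) (XT.lf (nat_lit 0) (nat_lit 23503380151) (nat_lit 152) (nat_lit 58130189798) (nat_lit 0) (nat_lit 4192645556) (nat_lit 4) (nat_lit 5) (nat_lit 6) (nat_lit 4) (nat_lit 4) (nat_lit 4) (nat_lit 325) (nat_lit 235) (nat_lit 160)) (XT.lf (nat_lit 0) (nat_lit 28636485262) (nat_lit 152) (nat_lit 51928291454) (nat_lit 0) (nat_lit 9301444732) (nat_lit 4) (nat_lit 5) (nat_lit 6) (nat_lit 4) (nat_lit 4) (nat_lit 4) (nat_lit 326) (nat_lit 235) (nat_lit 159)))))) (XT.nd (nat_lit 312) (nat_lit 76) (nat_lit 0) (XT.nd (nat_lit 156) (nat_lit 0) (nat_lit 0) (XT.nd (nat_lit 78) (nat_lit 0) (nat_lit 0) (XT.lf (nat_lit 0) (nat_lit 34014964279) (nat_lit 152) (nat_lit 45437061023) (nat_lit 0) (nat_lit 14656775240) (nat_lit 4) (nat_lit 5) (nat_lit 6) (nat_lit 4) (nat_lit 4) (nat_lit 4) (nat_lit 327) (nat_lit 235) (nat_lit 158)) (XT.lf (nat_lit 0) (nat_lit 39651623105) (nat_lit 152) (nat_lit 38641043195)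 (nat_lit 0) (nat_lit 20271387867) (nat_lit 4) (nat_lit 5) (nat_lit 6) (nat_lit 4) (nat_lit 4) (nat_lit 4) (nat_lit 328) (nat_lit 235) (nat_lit 157))) (XT.nd (nat_lit 78) (nat_lit 0) (nat_lit 0) (XT.lf (nat_lit 0) (nat_lit 45559882357) (nat_lit 152) (nat_lit 31524056975) (nat_lit 0) (nat_lit 26158650739) (nat_lit 4) (nat_lit 5) (nat_lit 6) (nat_lit 4) (nat_lit 4) (nat_lit 4) (nat_lit 329) (nat_lit 235) (nat_lit 156)) (XT.lf (nat_lit 0) (nat_lit 51753809319) (nat_lit 152) (nat_lit 24069157157) (nat_lit 0) (nat_lit 32332581148) (nat_lit 4) (nat_lit 5) (nat_lit 6) (nat_lit 4) (nat_lit 4) (nat_lit 4) (nat_lit 330) (nat_lit 235) (nat_lit 155)))) (XT.nd (nat_lit 156) (nat_lit 76) (nat_lit 0) (XT.nd (nat_lit 78) (nat_lit 0) (nat_lit 0) (XT.lf (nat_lit 0) (nat_lit 58248151435) (nat_lit 152) (nat_lit 16258593980) (nat_lit 0) (nat_lit 38807878928) (nat_lit 4) (nat_lit 5) (nat_lit 6) (nat_lit 4)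 (nat_lit 4) (nat_lit 4) (nat_lit 331) (nat_lit 235) (nat_lit 154)) (XT.lf (nat_lit 0) (nat_lit 65058371425) (nat_lit 152) (nat_lit 8073770866) (nat_lit 0) (nat_lit 45599961456) (nat_lit 4) (nat_lit 5) (nat_lit 6) (nat_lit 4) (nat_lit 4) (nat_lit 4) (nat_lit 332) (nat_lit 235) (nat_lit 153))) (XT.nd (nat_lit 78) (nat_lit 0) (nat_lit 0) (XT.lf (nat_lit 0) (nat_lit 521490823) (nat_lit 76) (nat_lit 71687335208) (nat_lit 76) (nat_lit 52211651465) (nat_lit 3) (nat_lit 4) (nat_lit 4) (nat_lit 5) (nat_lit 4) (nat_lit 4) (nat_lit 333) (nat_lit 235) (nat_lit 152)) (XT.nd (nat_lit 78) (nat_lit 0) (nat_lit 0) (XT.lf (nat_lit 0) (nat_lit 9811575043) (nat_lit 76) (nat_lit 70033706102) (nat_lit 76) (nat_lit 50541571145) (nat_lit 3) (nat_lit 4) (nat_lit 4) (nat_lit 5) (nat_lit 4) (nat_lit 4) (nat_lit 334) (nat_lit 235) (nat_lit 151)) (XT.lf (nat_lit 0) (nat_lit 19551645714) (nat_lit 76) (nat_lit 68304050976)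 (nat_lit 76) (nat_lit 48796248197) (nat_lit 3) (nat_lit 4) (nat_lit 4) (nat_lit 5) (nat_lit 4) (nat_lit 4) (nat_lit 335) (nat_lit 235) (nat_lit 150))))))))
noncomputable def xc95 : XT := (XT.nd (nat_lit 1404) (nat_lit 76) (nat_lit 0) (XT.nd (nat_lit 702) (nat_lit 76) (nat_lit 0) (XT.nd (nat_lit 312) (nat_lit 0) (nat_lit 0) (XT.nd (nat_lit 156) (nat_lit 0) (nat_lit 0) (XT.nd (nat_lit 78) (nat_lit 0) (nat_lit 0) (XT.lf (nat_lit 0) (nat_lit 29764893480) (nat_lit 76) (nat_lit 66494251605) (nat_lit 76) (nat_lit 46971527091) (nat_lit 3) (nat_lit 4) (nat_lit 4) (nat_lit 5) (nat_lit 4) (nat_lit 4) (nat_lit 336) (nat_lit 235) (nat_lit 149)) (XT.lf (nat_lit 0) (nat_lit 40475635599) (nat_lit 76) (nat_lit 64599998942) (nat_lit 76) (nat_lit 45063063251) (nat_lit 3) (nat_lit 4) (nat_lit 4) (nat_lit 5) (nat_lit 4) (nat_lit 4) (nat_lit 337) (nat_lit 235) (nat_lit 148))) (XT.nd (nat_lit 78) (nat_lit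 0) (nat_lit 0) (XT.lf (nat_lit 0) (nat_lit 51709373836) (nat_lit 76) (nat_lit 62616782862) (nat_lit 76) (nat_lit 43066312717) (nat_lit 3) (nat_lit 4) (nat_lit 4) (nat_lit 5) (nat_lit 4) (nat_lit 4) (nat_lit 338) (nat_lit 235) (nat_lit 147)) (XT.lf (nat_lit 0) (nat_lit 63492855189) (nat_lit 76) (nat_lit 60539881421) (nat_lit 76) (nat_lit 40976521321) (nat_lit 3) (nat_lit 4) (nat_lit 4) (nat_lit 5) (nat_lit 4) (nat_lit 4) (nat_lit 339) (nat_lit 235) (nat_lit 146)))) (XT.nd (nat_lit 156) (nat_lit 0) (nat_lit 0) (XT.nd (nat_lit 78) (nat_lit 0) (nat_lit 0) (XT.lf (nat_lit 0) (nat_lit 75854135564) (nat_lit 76) (nat_lit 58364349617) (nat_lit 76) (nat_lit 38788713368) (nat_lit 3) (nat_lit 4) (nat_lit 4) (nat_lit 5) (nat_lit 4) (nat_lit 4) (nat_lit 340) (nat_lit 235) (nat_lit 145)) (XT.lf (nat_lit 0) (nat_lit 88822646583) (nat_lit 76) (nat_lit 56085007612) (nat_lit 76) (nat_lit 36497679793)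 (nat_lit 3) (nat_lit 4) (nat_lit 4) (nat_lit 5) (nat_lit 4) (nat_lit 4) (nat_lit 341) (nat_lit 235) (nat_lit 144))) (XT.nd (nat_lit 78) (nat_lit 0) (nat_lit 0) (XT.lf (nat_lit 0) (nat_lit 102429265651) (nat_lit 76) (nat_lit 53696428400) (nat_lit 76) (nat_lit 34097965752) (nat_lit 3) (nat_lit 4) (nat_lit 4) (nat_lit 5) (nat_lit 4) (nat_lit 4) (nat_lit 342) (nat_lit 235) (nat_lit 143)) (XT.nd (nat_lit 78) (nat_lit 0) (nat_lit 0) (XT.lf (nat_lit 0) (nat_lit 116706389482) (nat_lit 76) (nat_lit 51192924890) (nat_lit 76) (nat_lit 31583857643) (nat_lit 3) (nat_lit 4) (nat_lit 4) (nat_lit 5) (nat_lit 4) (nat_lit 4) (nat_lit 343) (nat_lit 235) (nat_lit 142)) (XT.lf (nat_lit 0) (nat_lit 131688011226) (nat_lit 76) (nat_lit 48568536357) (nat_lit 76) (nat_lit 28949369492) (nat_lit 3) (nat_lit 4) (nat_lit 4) (nat_lit 5) (nat_lit 4) (nat_lit 4) (nat_lit 344) (nat_lit 235) (nat_lit 141)))))) (XT.nd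 (nat_lit 312) (nat_lit 76) (nat_lit 0) (XT.nd (nat_lit 156) (nat_lit 0) (nat_lit 0) (XT.nd (nat_lit 78) (nat_lit 0) (nat_lit 0) (XT.lf (nat_lit 0) (nat_lit 147409801413) (nat_lit 76) (nat_lit 45817014258) (nat_lit 76) (nat_lit 26188228709) (nat_lit 3) (nat_lit 4) (nat_lit 4) (nat_lit 5) (nat_lit 4) (nat_lit 4) (nat_lit 345) (nat_lit 235) (nat_lit 140)) (XT.lf (nat_lit 0) (nat_lit 163909192875) (nat_lit 76) (nat_lit 42931807349) (nat_lit 76) (nat_lit 23293861150) (nat_lit 3) (nat_lit 4) (nat_lit 4) (nat_lit 5) (nat_lit 4) (nat_lit 4) (nat_lit 346) (nat_lit 235) (nat_lit 139))) (XT.nd (nat_lit 78) (nat_lit 0) (nat_lit 0) (XT.lf (nat_lit 0) (nat_lit 181225469878) (nat_lit 76) (nat_lit 39906046091) (nat_lit 76) (nat_lit 20259375462) (nat_lit 3) (nat_lit 4) (nat_lit 4) (nat_lit 5) (nat_lit 4) (nat_lit 4) (nat_lit 347) (nat_lit 235) (nat_lit 138)) (XT.lf (nat_lit 0) (nat_lit 199399861654)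 (nat_lit 76) (nat_lit 36732526290) (nat_lit 76) (nat_lit 17077546680) (nat_lit 3) (nat_lit 4) (nat_lit 4) (nat_lit 5) (nat_lit 4) (nat_lit 4) (nat_lit 348) (nat_lit 235) (nat_lit 137)))) (XT.nd (nat_lit 156) (nat_lit 76) (nat_lit 0) (XT.nd (nat_lit 78) (nat_lit 0) (nat_lit 0) (XT.lf (nat_lit 0) (nat_lit 218475640563) (nat_lit 76) (nat_lit 33403691946) (nat_lit 76) (nat_lit 13740799022) (nat_lit 3) (nat_lit 4) (nat_lit 4) (nat_lit 5) (nat_lit 4) (nat_lit 4) (nat_lit 349) (nat_lit 235) (nat_lit 136)) (XT.lf (nat_lit 0) (nat_lit 238498225127) (nat_lit 76) (nat_lit 29911617264) (nat_lit 76) (nat_lit 10241187849) (nat_lit 3) (nat_lit 4) (nat_lit 4) (nat_lit 5) (nat_lit 4) (nat_lit 4) (nat_lit 350) (nat_lit 235) (nat_lit 135))) (XT.nd (nat_lit 78) (nat_lit 76) (nat_lit 0) (XT.lf (nat_lit 0) (nat_lit 259515288166) (nat_lit 76) (nat_lit 26247987780) (nat_lit 76) (nat_lit 6570380755) (nat_lit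 3) (nat_lit 4) (nat_lit 4) (nat_lit 5) (nat_lit 4) (nat_lit 4) (nat_lit 351) (nat_lit 235) (nat_lit 134)) (XT.nd (nat_lit 78) (nat_lit 76) (nat_lit 0) (XT.lf (nat_lit 0) (nat_lit 281576870307) (nat_lit 76) (nat_lit 22404080566) (nat_lit 76) (nat_lit 2719637722) (nat_lit 3) (nat_lit 4) (nat_lit 4) (nat_lit 5) (nat_lit 4) (nat_lit 4) (nat_lit 352) (nat_lit 235) (nat_lit 133)) (XT.lf (nat_lit 0) (nat_lit 1277954729) (nat_lit 152) (nat_lit 17071145952) (nat_lit 76) (nat_lit 303435901614) (nat_lit 2) (nat_lit 5) (nat_lit 4) (nat_lit 5) (nat_lit 3) (nat_lit 4) (nat_lit 353) (nat_lit 235) (nat_lit 132))))))) (XT.nd (nat_lit 702) (nat_lit 0) (nat_lit 0) (XT.nd (nat_lit 312) (nat_lit 0) (nat_lit 0) (XT.nd (nat_lit 156) (nat_lit 0) (nat_lit 0) (XT.nd (nat_lit 78) (nat_lit 76) (nat_lit 0) (XT.lf (nat_lit 0) (nat_lit 5380864469) (nat_lit 152) (nat_lit 8666381273) (nat_lit 76) (nat_lit 323574322201)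 (nat_lit 2) (nat_lit 5) (nat_lit 4) (nat_lit 5) (nat_lit 3) (nat_lit 4) (nat_lit 354) (nat_lit 235) (nat_lit 131)) (XT.lf (nat_lit 0) (nat_lit 158108723) (nat_lit 76) (nat_lit 9530265519) (nat_lit 152) (nat_lit 344561617041) (nat_lit 1) (nat_lit 5) (nat_lit 2) (nat_lit 5) (nat_lit 3) (nat_lit 4) (nat_lit 355) (nat_lit 235) (nat_lit 130))) (XT.nd (nat_lit 78) (nat_lit 0) (nat_lit 0) (XT.lf (nat_lit 0) (nat_lit 9719216920) (nat_lit 76) (nat_lit 4635855879) (nat_lit 152) (nat_lit 357347574357) (nat_lit 1) (nat_lit 5) (nat_lit 2) (nat_lit 5) (nat_lit 3) (nat_lit 4) (nat_lit 356) (nat_lit 235) (nat_lit 129)) (XT.lf (nat_lit 0) (nat_lit 19260110925) (nat_lit 152) (nat_lit 370282740309) (nat_lit 0) (nat_lit 484836295) (nat_lit 1) (nat_lit 5) (nat_lit 3) (nat_lit 4) (nat_lit 1) (nat_lit 4) (nat_lit 357) (nat_lit 235) (nat_lit 128)))) (XT.nd (nat_lit 156) (nat_lit 0) (nat_lit 0) (XT.nd (nat_lit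 78) (nat_lit 0) (nat_lit 0) (XT.lf (nat_lit 0) (nat_lit 24483681566) (nat_lit 152) (nat_lit 379078087322) (nat_lit 0) (nat_lit 5703548846) (nat_lit 1) (nat_lit 5) (nat_lit 3) (nat_lit 4) (nat_lit 1) (nat_lit 4) (nat_lit 358) (nat_lit 235) (nat_lit 127)) (XT.lf (nat_lit 0) (nat_lit 29965843091) (nat_lit 152) (nat_lit 388318033877) (nat_lit 0) (nat_lit 11181083620) (nat_lit 1) (nat_lit 5) (nat_lit 3) (nat_lit 4) (nat_lit 1) (nat_lit 4) (nat_lit 359) (nat_lit 235) (nat_lit 126))) (XT.nd (nat_lit 78) (nat_lit 0) (nat_lit 0) (XT.lf (nat_lit 0) (nat_lit 35719648267) (nat_lit 152) (nat_lit 398024579845) (nat_lit 0) (nat_lit 16930482366) (nat_lit 1) (nat_lit 5) (nat_lit 3) (nat_lit 4) (nat_lit 1) (nat_lit 4) (nat_lit 360) (nat_lit 235) (nat_lit 125)) (XT.nd (nat_lit 78) (nat_lit 0) (nat_lit 0) (XT.lf (nat_lit 0) (nat_lit 41758796629) (nat_lit 152) (nat_lit 408220836052) (nat_lit 0) (nat_lit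 22965434129) (nat_lit 1) (nat_lit 5) (nat_lit 3) (nat_lit 4) (nat_lit 1) (nat_lit 4) (nat_lit 361) (nat_lit 235) (nat_lit 124)) (XT.lf (nat_lit 0) (nat_lit 48097667104) (nat_lit 152) (nat_lit 418931079296) (nat_lit 0) (nat_lit 29300307841) (nat_lit 1) (nat_lit 5) (nat_lit 3) (nat_lit 4) (nat_lit 1) (nat_lit 4) (nat_lit 362) (nat_lit 235) (nat_lit 123)))))) (XT.nd (nat_lit 28860) (nat_lit 0) (nat_lit 6156) (XT.nd (nat_lit 28626) (nat_lit 0) (nat_lit 7904) (XT.nd (nat_lit 28548) (nat_lit 0) (nat_lit 8360) (XT.lf (nat_lit 0) (nat_lit 54751352238) (nat_lit 152) (nat_lit 430180810159) (nat_lit 0) (nat_lit 35950186536) (nat_lit 1) (nat_lit 5) (nat_lit 3) (nat_lit 4) (nat_lit 1) (nat_lit 4) (nat_lit 363) (nat_lit 235) (nat_lit 122)) (XT.lf (nat_lit 0) (nat_lit 149241359) (nat_lit 380) (nat_lit 3022410638) (nat_lit 0) (nat_lit 149241359) (nat_lit 111) (nat_lit 5) (nat_lit 116) (nat_lit 4) (nat_lit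 111) (nat_lit 4) (nat_lit 248) (nat_lit 236) (nat_lit 236))) (XT.nd (nat_lit 78) (nat_lit 456) (nat_lit 0) (XT.lf (nat_lit 0) (nat_lit 3246188446) (nat_lit 380) (nat_lit 2263374901) (nat_lit 0) (nat_lit 1185850124) (nat_lit 111) (nat_lit 5) (nat_lit 116) (nat_lit 4) (nat_lit 111) (nat_lit 4) (nat_lit 249) (nat_lit 236) (nat_lit 235)) (XT.nd (nat_lit 78) (nat_lit 76) (nat_lit 0) (XT.lf (nat_lit 0) (nat_lit 1630742353) (nat_lit 380) (nat_lit 4575520139) (nat_lit 380) (nat_lit 552954842) (nat_lit 106) (nat_lit 4) (nat_lit 111) (nat_lit 5) (nat_lit 111) (nat_lit 4) (nat_lit 250) (nat_lit 236) (nat_lit 234)) (XT.lf (nat_lit 0) (nat_lit 2289417296) (nat_lit 456) (nat_lit 1198047432) (nat_lit 76) (nat_lit 3343433788) (nat_lit 105) (nat_lit 5) (nat_lit 111) (nat_lit 5) (nat_lit 106) (nat_lit 4) (nat_lit 251) (nat_lit 236) (nat_lit 233))))) (XT.nd (nat_lit 156) (nat_lit 684) (nat_lit 0) (XT.nd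 (nat_lit 78) (nat_lit 608) (nat_lit 0) (XT.lf (nat_lit 0) (nat_lit 2886093194) (nat_lit 456) (nat_lit 2263781827) (nat_lit 532) (nat_lit 1761751490) (nat_lit 99) (nat_lit 5) (nat_lit 105) (nat_lit 5) (nat_lit 106) (nat_lit 4) (nat_lit 252) (nat_lit 236) (nat_lit 232)) (XT.lf (nat_lit 0) (nat_lit 75097451) (nat_lit 532) (nat_lit 918376672) (nat_lit 608) (nat_lit 6008920299) (nat_lit 91) (nat_lit 5) (nat_lit 98) (nat_lit 5) (nat_lit 99) (nat_lit 5) (nat_lit 253) (nat_lit 236) (nat_lit 231))) (XT.nd (nat_lit 78) (nat_lit 684) (nat_lit 0) (XT.lf (nat_lit 0) (nat_lit 3761323567) (nat_lit 608) (nat_lit 2746929566) (nat_lit 76) (nat_lit 591855958) (nat_lit 91) (nat_lit 5) (nat_lit 99) (nat_lit 5) (nat_lit 92) (nat_lit 4) (nat_lit 254) (nat_lit 236) (nat_lit 230)) (XT.nd (nat_lit 78) (nat_lit 76) (nat_lit 0) (XT.lf (nat_lit 0) (nat_lit 1547956000) (nat_lit 608) (nat_lit 5022699053) (nat_lit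 684) (nat_lit 637429364) (nat_lit 83) (nat_lit 5) (nat_lit 91) (nat_lit 5) (nat_lit 92) (nat_lit 4) (nat_lit 255) (nat_lit 236) (nat_lit 229)) (XT.lf (nat_lit 0) (nat_lit 2041617734) (nat_lit 684) (nat_lit 1333103223) (nat_lit 76) (nat_lit 3949850876) (nat_lit 82) (nat_lit 5) (nat_lit 91) (nat_lit 5) (nat_lit 83) (nat_lit 5) (nat_lit 256) (nat_lit 236) (nat_lit 228))))))))
noncomputable def xc96 : XT := (XT.nd (nat_lit 1404) (nat_lit 1368) (nat_lit 0) (XT.nd (nat_lit 702) (nat_lit 1292) (nat_lit 0) (XT.nd (nat_lit 312) (nat_lit 988) (nat_lit 0) (XT.nd (nat_lit 156) (nat_lit 456) (nat_lit 0) (XT.nd (nat_lit 78) (nat_lit 380) (nat_lit 0) (XT.lf (nat_lit 0) (nat_lit 3175921777) (nat_lit 684) (nat_lit 1578974336) (nat_lit 760) (nat_lit 2695837303) (nat_lit 73) (nat_lit 5) (nat_lit 82) (nat_lit 5) (nat_lit 83) (nat_lit 5) (nat_lit 257) (nat_lit 236) (nat_lit 227)) (XT.lf (nat_lit 0) (nat_lit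 247211179) (nat_lit 380) (nat_lit 7264499915) (nat_lit 456) (nat_lit 76533889) (nat_lit 68) (nat_lit 5) (nat_lit 73) (nat_lit 5) (nat_lit 74) (nat_lit 4) (nat_lit 258) (nat_lit 236) (nat_lit 226))) (XT.nd (nat_lit 78) (nat_lit 380) (nat_lit 0) (XT.lf (nat_lit 0) (nat_lit 2565432317) (nat_lit 456) (nat_lit 2786568516) (nat_lit 76) (nat_lit 2380075425) (nat_lit 67) (nat_lit 5) (nat_lit 73) (nat_lit 5) (nat_lit 68) (nat_lit 5) (nat_lit 259) (nat_lit 236) (nat_lit 225)) (XT.lf (nat_lit 0) (nat_lit 1929957999) (nat_lit 380) (nat_lit 3320723783) (nat_lit 456) (nat_lit 2637042969) (nat_lit 62) (nat_lit 5) (nat_lit 67) (nat_lit 5) (nat_lit 68) (nat_lit 5) (nat_lit 260) (nat_lit 236) (nat_lit 224)))) (XT.nd (nat_lit 156) (nat_lit 608) (nat_lit 0) (XT.nd (nat_lit 78) (nat_lit 380) (nat_lit 0) (XT.lf (nat_lit 0) (nat_lit 6854911245) (nat_lit 380) (nat_lit 1149702747) (nat_lit 456) (nat_lit 50178981)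 (nat_lit 62) (nat_lit 5) (nat_lit 67) (nat_lit 5) (nat_lit 68) (nat_lit 5) (nat_lit 261) (nat_lit 236) (nat_lit 223)) (XT.lf (nat_lit 0) (nat_lit 2548873423) (nat_lit 380) (nat_lit 4497898865) (nat_lit 76) (nat_lit 1183277377) (nat_lit 57) (nat_lit 5) (nat_lit 62) (nat_lit 5) (nat_lit 58) (nat_lit 5) (nat_lit 262) (nat_lit 236) (nat_lit 222))) (XT.nd (nat_lit 78) (nat_lit 304) (nat_lit 0) (XT.lf (nat_lit 0) (nat_lit 406801808) (nat_lit 304) (nat_lit 4808868155) (nat_lit 380) (nat_lit 3201693736) (nat_lit 53) (nat_lit 5) (nat_lit 57) (nat_lit 5) (nat_lit 58) (nat_lit 5) (nat_lit 263) (nat_lit 236) (nat_lit 221)) (XT.nd (nat_lit 78) (nat_lit 304) (nat_lit 0) (XT.lf (nat_lit 0) (nat_lit 5589316229) (nat_lit 304) (nat_lit 2399425509) (nat_lit 380) (nat_lit 626949715) (nat_lit 53) (nat_lit 5) (nat_lit 57) (nat_lit 5) (nat_lit 58) (nat_lit 5) (nat_lit 264) (nat_lit 236) (nat_lit 220)) (XT.lf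 (nat_lit 0) (nat_lit 1945764301) (nat_lit 304) (nat_lit 6707500754) (nat_lit 76) (nat_lit 172532160) (nat_lit 49) (nat_lit 5) (nat_lit 53) (nat_lit 5) (nat_lit 50) (nat_lit 5) (nat_lit 265) (nat_lit 236) (nat_lit 219)))))) (XT.nd (nat_lit 312) (nat_lit 684) (nat_lit 0) (XT.nd (nat_lit 156) (nat_lit 304) (nat_lit 0) (XT.nd (nat_lit 78) (nat_lit 304) (nat_lit 0) (XT.lf (nat_lit 0) (nat_lit 4619831444) (nat_lit 304) (nat_lit 1593121718) (nat_lit 76) (nat_lit 2833506510) (nat_lit 49) (nat_lit 5) (nat_lit 53) (nat_lit 5) (nat_lit 50) (nat_lit 5) (nat_lit 266) (nat_lit 236) (nat_lit 218)) (XT.lf (nat_lit 0) (nat_lit 3779767842) (nat_lit 304) (nat_lit 3613855304) (nat_lit 380) (nat_lit 1886473569) (nat_lit 45) (nat_lit 5) (nat_lit 49) (nat_lit 5) (nat_lit 50) (nat_lit 5) (nat_lit 267) (nat_lit 236) (nat_lit 217))) (XT.nd (nat_lit 78) (nat_lit 228) (nat_lit 0) (XT.lf (nat_lit 0) (nat_lit 691040463)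 (nat_lit 380) (nat_lit 179629255) (nat_lit 76) (nat_lit 8657589504) (nat_lit 44) (nat_lit 5) (nat_lit 49) (nat_lit 5) (nat_lit 45) (nat_lit 5) (nat_lit 268) (nat_lit 236) (nat_lit 216)) (XT.lf (nat_lit 0) (nat_lit 3364076271) (nat_lit 304) (nat_lit 4384175619) (nat_lit 76) (nat_lit 2037738980) (nat_lit 41) (nat_lit 5) (nat_lit 45) (nat_lit 5) (nat_lit 42) (nat_lit 5) (nat_lit 269) (nat_lit 236) (nat_lit 215)))) (XT.nd (nat_lit 156) (nat_lit 456) (nat_lit 0) (XT.nd (nat_lit 78) (nat_lit 0) (nat_lit 0) (XT.lf (nat_lit 0) (nat_lit 1117495139) (nat_lit 228) (nat_lit 5002391903) (nat_lit 304) (nat_lit 3939465423) (nat_lit 38) (nat_lit 5) (nat_lit 41) (nat_lit 5) (nat_lit 42) (nat_lit 5) (nat_lit 270) (nat_lit 236) (nat_lit 214)) (XT.lf (nat_lit 0) (nat_lit 6932270194) (nat_lit 228) (nat_lit 2072074632) (nat_lit 304) (nat_lit 1342684515) (nat_lit 38) (nat_lit 5) (nat_lit 41) (nat_lit 5) (nat_lit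 42) (nat_lit 5) (nat_lit 271) (nat_lit 236) (nat_lit 213))) (XT.nd (nat_lit 78) (nat_lit 228) (nat_lit 0) (XT.lf (nat_lit 0) (nat_lit 1311280305) (nat_lit 228) (nat_lit 8336500499) (nat_lit 76) (nat_lit 1001819287) (nat_lit 35) (nat_lit 5) (nat_lit 38) (nat_lit 5) (nat_lit 36) (nat_lit 5) (nat_lit 272) (nat_lit 236) (nat_lit 212)) (XT.nd (nat_lit 78) (nat_lit 228) (nat_lit 0) (XT.lf (nat_lit 0) (nat_lit 4066323089) (nat_lit 228) (nat_lit 2688846744) (nat_lit 76) (nat_lit 4210517999) (nat_lit 35) (nat_lit 5) (nat_lit 38) (nat_lit 5) (nat_lit 36) (nat_lit 5) (nat_lit 273) (nat_lit 236) (nat_lit 211)) (XT.lf (nat_lit 0) (nat_lit 3236772154) (nat_lit 228) (nat_lit 3697410131) (nat_lit 304) (nat_lit 4364800793) (nat_lit 32) (nat_lit 5) (nat_lit 35) (nat_lit 5) (nat_lit 36) (nat_lit 5) (nat_lit 274) (nat_lit 236) (nat_lit 210))))))) (XT.nd (nat_lit 702) (nat_lit 608) (nat_lit 0) (XT.nd (nat_lit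 312) (nat_lit 380) (nat_lit 0) (XT.nd (nat_lit 156) (nat_lit 152) (nat_lit 0) (XT.nd (nat_lit 78) (nat_lit 228) (nat_lit 0) (XT.lf (nat_lit 0) (nat_lit 9445750386) (nat_lit 228) (nat_lit 471684805) (nat_lit 304) (nat_lit 1733056748) (nat_lit 32) (nat_lit 5) (nat_lit 35) (nat_lit 5) (nat_lit 36) (nat_lit 5) (nat_lit 275) (nat_lit 236) (nat_lit 209)) (XT.lf (nat_lit 0) (nat_lit 1033972172) (nat_lit 228) (nat_lit 8113364269) (nat_lit 76) (nat_lit 2869736929) (nat_lit 29) (nat_lit 5) (nat_lit 32) (nat_lit 5) (nat_lit 30) (nat_lit 5) (nat_lit 276) (nat_lit 236) (nat_lit 208))) (XT.nd (nat_lit 78) (nat_lit 152) (nat_lit 0) (XT.lf (nat_lit 0) (nat_lit 3856769172) (nat_lit 228) (nat_lit 2147875470) (nat_lit 76) (nat_lit 6397264373) (nat_lit 29) (nat_lit 5) (nat_lit 32) (nat_lit 5) (nat_lit 30) (nat_lit 5) (nat_lit 277) (nat_lit 236) (nat_lit 207)) (XT.lf (nat_lit 0) (nat_lit 4148544192) (nat_lit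 152) (nat_lit 2670242420) (nat_lit 228) (nat_lit 5987418295) (nat_lit 27) (nat_lit 5) (nat_lit 29) (nat_lit 5) (nat_lit 30) (nat_lit 5) (nat_lit 278) (nat_lit 236) (nat_lit 206)))) (XT.nd (nat_lit 156) (nat_lit 228) (nat_lit 0) (XT.nd (nat_lit 78) (nat_lit 152) (nat_lit 0) (XT.lf (nat_lit 0) (nat_lit 9913274481) (nat_lit 228) (nat_lit 2509466218) (nat_lit 76) (nat_lit 808873073) (nat_lit 27) (nat_lit 5) (nat_lit 30) (nat_lit 5) (nat_lit 28) (nat_lit 4) (nat_lit 279) (nat_lit 236) (nat_lit 205)) (XT.lf (nat_lit 0) (nat_lit 3931673122) (nat_lit 152) (nat_lit 9273520681) (nat_lit 228) (nat_lit 471075027) (nat_lit 25) (nat_lit 5) (nat_lit 27) (nat_lit 5) (nat_lit 28) (nat_lit 4) (nat_lit 280) (nat_lit 236) (nat_lit 204))) (XT.nd (nat_lit 78) (nat_lit 152) (nat_lit 0) (XT.lf (nat_lit 0) (nat_lit 2419076273) (nat_lit 228) (nat_lit 3496182067) (nat_lit 76) (nat_lit 8226976331) (nat_lit 24)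 (nat_lit 5) (nat_lit 27) (nat_lit 5) (nat_lit 25) (nat_lit 5) (nat_lit 281) (nat_lit 236) (nat_lit 203)) (XT.nd (nat_lit 78) (nat_lit 0) (nat_lit 0) (XT.lf (nat_lit 0) (nat_lit 3062447700) (nat_lit 152) (nat_lit 2364162477) (nat_lit 228) (nat_lit 9205163161) (nat_lit 22) (nat_lit 5) (nat_lit 24) (nat_lit 5) (nat_lit 25) (nat_lit 5) (nat_lit 282) (nat_lit 236) (nat_lit 202)) (XT.lf (nat_lit 0) (nat_lit 8607771233) (nat_lit 228) (nat_lit 5188178892) (nat_lit 76) (nat_lit 1348767699) (nat_lit 22) (nat_lit 5) (nat_lit 25) (nat_lit 5) (nat_lit 23) (nat_lit 4) (nat_lit 283) (nat_lit 236) (nat_lit 201)))))) (XT.nd (nat_lit 312) (nat_lit 304) (nat_lit 0) (XT.nd (nat_lit 156) (nat_lit 228) (nat_lit 0) (XT.nd (nat_lit 78) (nat_lit 0) (nat_lit 0) (XT.lf (nat_lit 0) (nat_lit 1430024035) (nat_lit 76) (nat_lit 10523589545) (nat_lit 152) (nat_lit 3729501841) (nat_lit 21) (nat_lit 5) (nat_lit 22) (nat_lit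 5) (nat_lit 23) (nat_lit 4) (nat_lit 284) (nat_lit 236) (nat_lit 200)) (XT.lf (nat_lit 0) (nat_lit 8471680584) (nat_lit 76) (nat_lit 7028745197) (nat_lit 152) (nat_lit 746406140) (nat_lit 21) (nat_lit 5) (nat_lit 22) (nat_lit 5) (nat_lit 23) (nat_lit 4) (nat_lit 285) (nat_lit 236) (nat_lit 199))) (XT.nd (nat_lit 78) (nat_lit 152) (nat_lit 0) (XT.lf (nat_lit 0) (nat_lit 2256953719) (nat_lit 152) (nat_lit 1095784021) (nat_lit 76) (nat_lit 13486835653) (nat_lit 20) (nat_lit 5) (nat_lit 22) (nat_lit 5) (nat_lit 21) (nat_lit 5) (nat_lit 286) (nat_lit 236) (nat_lit 198)) (XT.lf (nat_lit 0) (nat_lit 5438479297) (nat_lit 228) (nat_lit 11451661073) (nat_lit 76) (nat_lit 568617285) (nat_lit 18) (nat_lit 5) (nat_lit 21) (nat_lit 5) (nat_lit 19) (nat_lit 4) (nat_lit 287) (nat_lit 236) (nat_lit 197)))) (XT.nd (nat_lit 156) (nat_lit 228) (nat_lit 0) (XT.nd (nat_lit 78) (nat_lit 76) (nat_lit 0) (XT.lf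 (nat_lit 0) (nat_lit 8803530722) (nat_lit 228) (nat_lit 4741958292) (nat_lit 76) (nat_lit 4562257846) (nat_lit 18) (nat_lit 5) (nat_lit 21) (nat_lit 5) (nat_lit 19) (nat_lit 4) (nat_lit 288) (nat_lit 236) (nat_lit 196)) (XT.lf (nat_lit 0) (nat_lit 2298823212) (nat_lit 76) (nat_lit 10026878575) (nat_lit 152) (nat_lit 6464105343) (nat_lit 17) (nat_lit 5) (nat_lit 18) (nat_lit 5) (nat_lit 19) (nat_lit 4) (nat_lit 289) (nat_lit 236) (nat_lit 195))) (XT.nd (nat_lit 78) (nat_lit 228) (nat_lit 0) (XT.lf (nat_lit 0) (nat_lit 9779548556) (nat_lit 76) (nat_lit 6278757548) (nat_lit 152) (nat_lit 3446009943) (nat_lit 17) (nat_lit 5) (nat_lit 18) (nat_lit 5) (nat_lit 19) (nat_lit 4) (nat_lit 290) (nat_lit 236) (nat_lit 194)) (XT.nd (nat_lit 78) (nat_lit 228) (nat_lit 0) (XT.lf (nat_lit 0) (nat_lit 17561238432) (nat_lit 76) (nat_lit 2372509194) (nat_lit 152) (nat_lit 323051354) (nat_lit 17) (nat_lit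 5) (nat_lit 18) (nat_lit 5) (nat_lit 19) (nat_lit 4) (nat_lit 291) (nat_lit 236) (nat_lit 193)) (XT.lf (nat_lit 0) (nat_lit 2921186310) (nat_lit 228) (nat_lit 16352662536) (nat_lit 76) (nat_lit 1767815873) (nat_lit 14) (nat_lit 5) (nat_lit 17) (nat_lit 5) (nat_lit 15) (nat_lit 4) (nat_lit 292) (nat_lit 236) (nat_lit 192))))))))
noncomputable def xc97 : XT := (XT.nd (nat_lit 1404) (nat_lit 228) (nat_lit 0) (XT.nd (nat_lit 702) (nat_lit 304) (nat_lit 0) (XT.nd (nat_lit 312) (nat_lit 152) (nat_lit 0) (XT.nd (nat_lit 156) (nat_lit 76) (nat_lit 0) (XT.nd (nat_lit 78) (nat_lit 0) (nat_lit 0) (XT.lf (nat_lit 0) (nat_lit 6360112757) (nat_lit 228) (nat_lit 9443638823) (nat_lit 76) (nat_lit 6059641588) (nat_lit 14) (nat_lit 5) (nat_lit 17) (nat_lit 5) (nat_lit 15) (nat_lit 4) (nat_lit 293) (nat_lit 236) (nat_lit 191)) (XT.lf (nat_lit 0) (nat_lit 9931024533) (nat_lit 228) (nat_lit 2257341592)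 (nat_lit 76) (nat_lit 10539888440) (nat_lit 14) (nat_lit 5) (nat_lit 17) (nat_lit 5) (nat_lit 15) (nat_lit 4) (nat_lit 294) (nat_lit 236) (nat_lit 190))) (XT.nd (nat_lit 78) (nat_lit 0) (nat_lit 0) (XT.lf (nat_lit 0) (nat_lit 5396046579) (nat_lit 76) (nat_lit 8330624638) (nat_lit 152) (nat_lit 9907424513) (nat_lit 13) (nat_lit 5) (nat_lit 14) (nat_lit 5) (nat_lit 15) (nat_lit 4) (nat_lit 295) (nat_lit 236) (nat_lit 189)) (XT.lf (nat_lit 0) (nat_lit 13446590126) (nat_lit 76) (nat_lit 4266496077) (nat_lit 152) (nat_lit 6872137420) (nat_lit 13) (nat_lit 5) (nat_lit 14) (nat_lit 5) (nat_lit 15) (nat_lit 4) (nat_lit 296) (nat_lit 236) (nat_lit 188)))) (XT.nd (nat_lit 156) (nat_lit 76) (nat_lit 0) (XT.nd (nat_lit 78) (nat_lit 76) (nat_lit 0) (XT.lf (nat_lit 0) (nat_lit 21838819102) (nat_lit 76) (nat_lit 24533116) (nat_lit 152) (nat_lit 3722371051) (nat_lit 13) (nat_lit 5) (nat_lit 14) (nat_lit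 5) (nat_lit 15) (nat_lit 4) (nat_lit 297) (nat_lit 236) (nat_lit 187)) (XT.lf (nat_lit 0) (nat_lit 4014445436) (nat_lit 76) (nat_lit 22304362238) (nat_lit 76) (nat_lit 312596297) (nat_lit 12) (nat_lit 4) (nat_lit 13) (nat_lit 5) (nat_lit 13) (nat_lit 4) (nat_lit 298) (nat_lit 236) (nat_lit 186))) (XT.nd (nat_lit 78) (nat_lit 0) (nat_lit 0) (XT.lf (nat_lit 0) (nat_lit 3193952283) (nat_lit 152) (nat_lit 15544210282) (nat_lit 76) (nat_lit 8987147900) (nat_lit 11) (nat_lit 5) (nat_lit 13) (nat_lit 5) (nat_lit 12) (nat_lit 4) (nat_lit 299) (nat_lit 236) (nat_lit 185)) (XT.nd (nat_lit 78) (nat_lit 0) (nat_lit 0) (XT.lf (nat_lit 0) (nat_lit 6832916125) (nat_lit 152) (nat_lit 8179616808) (nat_lit 76) (nat_lit 13862777918) (nat_lit 11) (nat_lit 5) (nat_lit 13) (nat_lit 5) (nat_lit 12) (nat_lit 4) (nat_lit 300) (nat_lit 236) (nat_lit 184)) (XT.lf (nat_lit 0) (nat_lit 10622964462) (nat_lit 152)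 (nat_lit 500762864) (nat_lit 76) (nat_lit 18960659926) (nat_lit 11) (nat_lit 5) (nat_lit 13) (nat_lit 5) (nat_lit 12) (nat_lit 4) (nat_lit 301) (nat_lit 236) (nat_lit 183)))))) (XT.nd (nat_lit 312) (nat_lit 228) (nat_lit 0) (XT.nd (nat_lit 156) (nat_lit 0) (nat_lit 0) (XT.nd (nat_lit 78) (nat_lit 0) (nat_lit 0) (XT.lf (nat_lit 0) (nat_lit 7758970032) (nat_lit 76) (nat_lit 6935290451) (nat_lit 152) (nat_lit 16655100972) (nat_lit 10) (nat_lit 5) (nat_lit 11) (nat_lit 5) (nat_lit 12) (nat_lit 4) (nat_lit 302) (nat_lit 236) (nat_lit 182)) (XT.lf (nat_lit 0) (nat_lit 16398504708) (nat_lit 76) (nat_lit 2550313432) (nat_lit 152) (nat_lit 13729811144) (nat_lit 10) (nat_lit 5) (nat_lit 11) (nat_lit 5) (nat_lit 12) (nat_lit 4) (nat_lit 303) (nat_lit 236) (nat_lit 181))) (XT.nd (nat_lit 78) (nat_lit 0) (nat_lit 0) (XT.lf (nat_lit 0) (nat_lit 23420433893) (nat_lit 152) (nat_lit 8685648884) (nat_lit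 0) (nat_lit 1968089560) (nat_lit 10) (nat_lit 5) (nat_lit 12) (nat_lit 4) (nat_lit 10) (nat_lit 4) (nat_lit 304) (nat_lit 236) (nat_lit 180)) (XT.lf (nat_lit 0) (nat_lit 28131022548) (nat_lit 152) (nat_lit 800150363) (nat_lit 0) (nat_lit 6607577019) (nat_lit 10) (nat_lit 5) (nat_lit 12) (nat_lit 4) (nat_lit 10) (nat_lit 4) (nat_lit 305) (nat_lit 236) (nat_lit 179)))) (XT.nd (nat_lit 156) (nat_lit 152) (nat_lit 0) (XT.nd (nat_lit 78) (nat_lit 0) (nat_lit 0) (XT.lf (nat_lit 0) (nat_lit 7680796994) (nat_lit 76) (nat_lit 25491104024) (nat_lit 76) (nat_lit 3899943071) (nat_lit 9) (nat_lit 4) (nat_lit 10) (nat_lit 5) (nat_lit 10) (nat_lit 4) (nat_lit 306) (nat_lit 236) (nat_lit 178)) (XT.lf (nat_lit 0) (nat_lit 16569631887) (nat_lit 76) (nat_lit 21884096079) (nat_lit 76) (nat_lit 228444245) (nat_lit 9) (nat_lit 4) (nat_lit 10) (nat_lit 5) (nat_lit 10) (nat_lit 4) (nat_lit 307) (nat_lit 236)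 (nat_lit 177))) (XT.nd (nat_lit 78) (nat_lit 76) (nat_lit 0) (XT.lf (nat_lit 0) (nat_lit 3486674616) (nat_lit 152) (nat_lit 14569388756) (nat_lit 76) (nat_lit 22315338486) (nat_lit 8) (nat_lit 5) (nat_lit 10) (nat_lit 5) (nat_lit 9) (nat_lit 4) (nat_lit 308) (nat_lit 236) (nat_lit 176)) (XT.nd (nat_lit 78) (nat_lit 76) (nat_lit 0) (XT.lf (nat_lit 0) (nat_lit 7357129232) (nat_lit 152) (nat_lit 6693451923) (nat_lit 76) (nat_lit 28095482882) (nat_lit 8) (nat_lit 5) (nat_lit 10) (nat_lit 5) (nat_lit 9) (nat_lit 4) (nat_lit 309) (nat_lit 236) (nat_lit 175)) (XT.lf (nat_lit 0) (nat_lit 1588428698) (nat_lit 76) (nat_lit 9835817738) (nat_lit 152) (nat_lit 32585076036) (nat_lit 7) (nat_lit 5) (nat_lit 8) (nat_lit 5) (nat_lit 9) (nat_lit 4) (nat_lit 310) (nat_lit 236) (nat_lit 174))))))) (XT.nd (nat_lit 702) (nat_lit 152) (nat_lit 0) (XT.nd (nat_lit 312) (nat_lit 76) (nat_lit 0) (XT.nd (nat_lit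 156) (nat_lit 0) (nat_lit 0) (XT.nd (nat_lit 78) (nat_lit 0) (nat_lit 0) (XT.lf (nat_lit 0) (nat_lit 10478716273) (nat_lit 76) (nat_lit 5308137178) (nat_lit 152) (nat_lit 30174302864) (nat_lit 7) (nat_lit 5) (nat_lit 8) (nat_lit 5) (nat_lit 9) (nat_lit 4) (nat_lit 311) (nat_lit 236) (nat_lit 173)) (XT.lf (nat_lit 0) (nat_lit 19777262403) (nat_lit 76) (nat_lit 570116133) (nat_lit 152) (nat_lit 27664232198) (nat_lit 7) (nat_lit 5) (nat_lit 8) (nat_lit 5) (nat_lit 9) (nat_lit 4) (nat_lit 312) (nat_lit 236) (nat_lit 172))) (XT.nd (nat_lit 78) (nat_lit 0) (nat_lit 0) (XT.lf (nat_lit 0) (nat_lit 25185212890) (nat_lit 152) (nat_lit 20727894089) (nat_lit 0) (nat_lit 4249034143) (nat_lit 7) (nat_lit 5) (nat_lit 9) (nat_lit 4) (nat_lit 7) (nat_lit 4) (nat_lit 313) (nat_lit 236) (nat_lit 171)) (XT.lf (nat_lit 0) (nat_lit 30255724795) (nat_lit 152) (nat_lit 12889054432) (nat_lit 0) (nat_lit 9275896082)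 (nat_lit 7) (nat_lit 5) (nat_lit 9) (nat_lit 4) (nat_lit 7) (nat_lit 4) (nat_lit 314) (nat_lit 236) (nat_lit 170)))) (XT.nd (nat_lit 156) (nat_lit 0) (nat_lit 0) (XT.nd (nat_lit 78) (nat_lit 76) (nat_lit 0) (XT.lf (nat_lit 0) (nat_lit 35562085788) (nat_lit 152) (nat_lit 4690264346) (nat_lit 0) (nat_lit 14540685678) (nat_lit 7) (nat_lit 5) (nat_lit 9) (nat_lit 4) (nat_lit 7) (nat_lit 4) (nat_lit 315) (nat_lit 236) (nat_lit 169)) (XT.lf (nat_lit 0) (nat_lit 4016551840) (nat_lit 76) (nat_lit 37163087852) (nat_lit 76) (nat_lit 16102095935) (nat_lit 6) (nat_lit 4) (nat_lit 7) (nat_lit 5) (nat_lit 7) (nat_lit 4) (nat_lit 316) (nat_lit 236) (nat_lit 168))) (XT.nd (nat_lit 78) (nat_lit 0) (nat_lit 0) (XT.lf (nat_lit 0) (nat_lit 13291567497) (nat_lit 76) (nat_lit 33849434555) (nat_lit 76) (nat_lit 12750736157) (nat_lit 6) (nat_lit 4) (nat_lit 7) (nat_lit 5) (nat_lit 7) (nat_lit 4) (nat_lit 317)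 (nat_lit 236) (nat_lit 167)) (XT.nd (nat_lit 78) (nat_lit 0) (nat_lit 0) (XT.lf (nat_lit 0) (nat_lit 23001784676) (nat_lit 76) (nat_lit 30382932490) (nat_lit 76) (nat_lit 9248323156) (nat_lit 6) (nat_lit 4) (nat_lit 7) (nat_lit 5) (nat_lit 7) (nat_lit 4) (nat_lit 318) (nat_lit 236) (nat_lit 166)) (XT.lf (nat_lit 0) (nat_lit 33170322941) (nat_lit 76) (nat_lit 26755328080) (nat_lit 76) (nat_lit 5586517855) (nat_lit 6) (nat_lit 4) (nat_lit 7) (nat_lit 5) (nat_lit 7) (nat_lit 4) (nat_lit 319) (nat_lit 236) (nat_lit 165)))))) (XT.nd (nat_lit 312) (nat_lit 0) (nat_lit 0) (XT.nd (nat_lit 156) (nat_lit 76) (nat_lit 0) (XT.nd (nat_lit 78) (nat_lit 76) (nat_lit 0) (XT.lf (nat_lit 0) (nat_lit 43821393097) (nat_lit 76) (nat_lit 22957984171) (nat_lit 76) (nat_lit 1756601669) (nat_lit 6) (nat_lit 4) (nat_lit 7) (nat_lit 5) (nat_lit 7) (nat_lit 4) (nat_lit 320) (nat_lit 236) (nat_lit 164)) (XT.lf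 (nat_lit 0) (nat_lit 2178512778) (nat_lit 152) (nat_lit 16766452522) (nat_lit 76) (nat_lit 52764947888) (nat_lit 5) (nat_lit 5) (nat_lit 7) (nat_lit 5) (nat_lit 6) (nat_lit 4) (nat_lit 321) (nat_lit 236) (nat_lit 163))) (XT.nd (nat_lit 78) (nat_lit 76) (nat_lit 0) (XT.lf (nat_lit 0) (nat_lit 6238197734) (nat_lit 152) (nat_lit 8473642377) (nat_lit 76) (nat_lit 60329932479) (nat_lit 5) (nat_lit 5) (nat_lit 7) (nat_lit 5) (nat_lit 6) (nat_lit 4) (nat_lit 322) (nat_lit 236) (nat_lit 162)) (XT.lf (nat_lit 0) (nat_lit 217991958) (nat_lit 76) (nat_lit 10273752846) (nat_lit 152) (nat_lit 68048946439) (nat_lit 4) (nat_lit 5) (nat_lit 5) (nat_lit 5) (nat_lit 6) (nat_lit 4) (nat_lit 323) (nat_lit 236) (nat_lit 161)))) (XT.nd (nat_lit 156) (nat_lit 0) (nat_lit 0) (XT.nd (nat_lit 78) (nat_lit 0) (nat_lit 0) (XT.lf (nat_lit 0) (nat_lit 9615967957) (nat_lit 76) (nat_lit 5473227233) (nat_lit 152) (nat_lit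 67118809028) (nat_lit 4) (nat_lit 5) (nat_lit 5) (nat_lit 5) (nat_lit 6) (nat_lit 4) (nat_lit 324) (nat_lit 236) (nat_lit 160)) (XT.lf (nat_lit 0) (nat_lit 19462484866) (nat_lit 76) (nat_lit 442338685) (nat_lit 152) (nat_lit 66154453245) (nat_lit 4) (nat_lit 5) (nat_lit 5) (nat_lit 5) (nat_lit 6) (nat_lit 4) (nat_lit 325) (nat_lit 236) (nat_lit 159))) (XT.nd (nat_lit 78) (nat_lit 0) (nat_lit 0) (XT.lf (nat_lit 0) (nat_lit 25025519419) (nat_lit 152) (nat_lit 60398115650) (nat_lit 0) (nat_lit 4676272419) (nat_lit 4) (nat_lit 5) (nat_lit 6) (nat_lit 4) (nat_lit 4) (nat_lit 4) (nat_lit 326) (nat_lit 236) (nat_lit 158)) (XT.nd (nat_lit 78) (nat_lit 0) (nat_lit 0) (XT.lf (nat_lit 0) (nat_lit 30398757391) (nat_lit 152) (nat_lit 53916531134) (nat_lit 0) (nat_lit 10027464192) (nat_lit 4) (nat_lit 5) (nat_lit 6) (nat_lit 4) (nat_lit 4) (nat_lit 4) (nat_lit 327) (nat_lit 236) (nat_lit 157)) (XT.lf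 (nat_lit 0) (nat_lit 36030424746) (nat_lit 152) (nat_lit 47129699890) (nat_lit 0) (nat_lit 15638135167) (nat_lit 4) (nat_lit 5) (nat_lit 6) (nat_lit 4) (nat_lit 4) (nat_lit 4) (nat_lit 328) (nat_lit 236) (nat_lit 156))))))))
noncomputable def xc98 : XT := (XT.nd (nat_lit 1404) (nat_lit 152) (nat_lit 0) (XT.nd (nat_lit 702) (nat_lit 0) (nat_lit 0) (XT.nd (nat_lit 312) (nat_lit 76) (nat_lit 0) (XT.nd (nat_lit 156) (nat_lit 0) (nat_lit 0) (XT.nd (nat_lit 78) (nat_lit 0) (nat_lit 0) (XT.lf (nat_lit 0) (nat_lit 41933930216) (nat_lit 152) (nat_lit 40021462799) (nat_lit 0) (nat_lit 21521644084) (nat_lit 4) (nat_lit 5) (nat_lit 6) (nat_lit 4) (nat_lit 4) (nat_lit 4) (nat_lit 329) (nat_lit 236) (nat_lit 155)) (XT.lf (nat_lit 0) (nat_lit 48123329766) (nat_lit 152) (nat_lit 32574895484) (nat_lit 0) (nat_lit 27691999299) (nat_lit 4) (nat_lit 5) (nat_lit 6) (nat_lit 4) (nat_lit 4) (nat_lit 4) (nat_lit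 330) (nat_lit 236) (nat_lit 154))) (XT.nd (nat_lit 78) (nat_lit 0) (nat_lit 0) (XT.lf (nat_lit 0) (nat_lit 54613360062) (nat_lit 152) (nat_lit 24772268025) (nat_lit 0) (nat_lit 34163892132) (nat_lit 4) (nat_lit 5) (nat_lit 6) (nat_lit 4) (nat_lit 4) (nat_lit 4) (nat_lit 331) (nat_lit 236) (nat_lit 153)) (XT.lf (nat_lit 0) (nat_lit 61419473557) (nat_lit 152) (nat_lit 16595002737) (nat_lit 0) (nat_lit 40952731852) (nat_lit 4) (nat_lit 5) (nat_lit 6) (nat_lit 4) (nat_lit 4) (nat_lit 4) (nat_lit 332) (nat_lit 236) (nat_lit 152)))) (XT.nd (nat_lit 156) (nat_lit 0) (nat_lit 0) (XT.nd (nat_lit 78) (nat_lit 76) (nat_lit 0) (XT.lf (nat_lit 0) (nat_lit 68557875282) (nat_lit 152) (nat_lit 8023629940) (nat_lit 0) (nat_lit 48074682364) (nat_lit 4) (nat_lit 5) (nat_lit 6) (nat_lit 4) (nat_lit 4) (nat_lit 4) (nat_lit 333) (nat_lit 236) (nat_lit 151)) (XT.lf (nat_lit 0) (nat_lit 994075003) (nat_lit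 76) (nat_lit 75067006726) (nat_lit 76) (nat_lit 54568145986) (nat_lit 3) (nat_lit 4) (nat_lit 4) (nat_lit 5) (nat_lit 4) (nat_lit 4) (nat_lit 334) (nat_lit 236) (nat_lit 150))) (XT.nd (nat_lit 78) (nat_lit 0) (nat_lit 0) (XT.lf (nat_lit 0) (nat_lit 10727401070) (nat_lit 76) (nat_lit 73340443556) (nat_lit 76) (nat_lit 52826661081) (nat_lit 3) (nat_lit 4) (nat_lit 4) (nat_lit 5) (nat_lit 4) (nat_lit 4) (nat_lit 335) (nat_lit 236) (nat_lit 149)) (XT.nd (nat_lit 78) (nat_lit 0) (nat_lit 0) (XT.lf (nat_lit 0) (nat_lit 20934225404) (nat_lit 76) (nat_lit 71533588906) (nat_lit 76) (nat_lit 51005595254) (nat_lit 3) (nat_lit 4) (nat_lit 4) (nat_lit 5) (nat_lit 4) (nat_lit 4) (nat_lit 336) (nat_lit 236) (nat_lit 148)) (XT.lf (nat_lit 0) (nat_lit 31638849968) (nat_lit 76) (nat_lit 69642140738) (nat_lit 76) (nat_lit 49100612633) (nat_lit 3) (nat_lit 4) (nat_lit 4) (nat_lit 5) (nat_lit 4) (nat_lit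 4) (nat_lit 337) (nat_lit 236) (nat_lit 147)))))) (XT.nd (nat_lit 312) (nat_lit 0) (nat_lit 0) (XT.nd (nat_lit 156) (nat_lit 0) (nat_lit 0) (XT.nd (nat_lit 78) (nat_lit 0) (nat_lit 0) (XT.lf (nat_lit 0) (nat_lit 42866761964) (nat_lit 76) (nat_lit 67661595606) (nat_lit 76) (nat_lit 47107177545) (nat_lit 3) (nat_lit 4) (nat_lit 4) (nat_lit 5) (nat_lit 4) (nat_lit 4) (nat_lit 338) (nat_lit 236) (nat_lit 146)) (XT.lf (nat_lit 0) (nat_lit 54644694514) (nat_lit 76) (nat_lit 65587237926) (nat_lit 76) (nat_lit 45020543716) (nat_lit 3) (nat_lit 4) (nat_lit 4) (nat_lit 5) (nat_lit 4) (nat_lit 4) (nat_lit 339) (nat_lit 236) (nat_lit 145))) (XT.nd (nat_lit 78) (nat_lit 0) (nat_lit 0) (XT.lf (nat_lit 0) (nat_lit 67000690316) (nat_lit 76) (nat_lit 63414128751) (nat_lit 76) (nat_lit 42835742970) (nat_lit 3) (nat_lit 4) (nat_lit 4) (nat_lit 5) (nat_lit 4) (nat_lit 4) (nat_lit 340) (nat_lit 236) (nat_lit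 144)) (XT.lf (nat_lit 0) (nat_lit 79964168407) (nat_lit 76) (nat_lit 61137094011) (nat_lit 76) (nat_lit 40547573402) (nat_lit 3) (nat_lit 4) (nat_lit 4) (nat_lit 5) (nat_lit 4) (nat_lit 4) (nat_lit 341) (nat_lit 236) (nat_lit 143)))) (XT.nd (nat_lit 156) (nat_lit 0) (nat_lit 0) (XT.nd (nat_lit 78) (nat_lit 0) (nat_lit 0) (XT.lf (nat_lit 0) (nat_lit 93565994211) (nat_lit 76) (nat_lit 58750712195) (nat_lit 76) (nat_lit 38150586987) (nat_lit 3) (nat_lit 4) (nat_lit 4) (nat_lit 5) (nat_lit 4) (nat_lit 4) (nat_lit 342) (nat_lit 236) (nat_lit 142)) (XT.lf (nat_lit 0) (nat_lit 107838553028) (nat_lit 76) (nat_lit 56249301442) (nat_lit 76) (nat_lit 35639076616) (nat_lit 3) (nat_lit 4) (nat_lit 4) (nat_lit 5) (nat_lit 4) (nat_lit 4) (nat_lit 343) (nat_lit 236) (nat_lit 141))) (XT.nd (nat_lit 78) (nat_lit 0) (nat_lit 0) (XT.lf (nat_lit 0) (nat_lit 122815827141) (nat_lit 76) (nat_lit 53626906012)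 (nat_lit 76) (nat_lit 33007062502) (nat_lit 3) (nat_lit 4) (nat_lit 4) (nat_lit 5) (nat_lit 4) (nat_lit 4) (nat_lit 344) (nat_lit 236) (nat_lit 140)) (XT.nd (nat_lit 78) (nat_lit 0) (nat_lit 0) (XT.lf (nat_lit 0) (nat_lit 138533476726) (nat_lit 76) (nat_lit 50877282105) (nat_lit 76) (nat_lit 30248277945) (nat_lit 3) (nat_lit 4) (nat_lit 4) (nat_lit 5) (nat_lit 4) (nat_lit 4) (nat_lit 345) (nat_lit 236) (nat_lit 139)) (XT.lf (nat_lit 0) (nat_lit 155028924758) (nat_lit 76) (nat_lit 47993883000) (nat_lit 76) (nat_lit 27356154410) (nat_lit 3) (nat_lit 4) (nat_lit 4) (nat_lit 5) (nat_lit 4) (nat_lit 4) (nat_lit 346) (nat_lit 236) (nat_lit 138))))))) (XT.nd (nat_lit 702) (nat_lit 76) (nat_lit 0) (XT.nd (nat_lit 312) (nat_lit 76) (nat_lit 0) (XT.nd (nat_lit 156) (nat_lit 0) (nat_lit 0) (XT.nd (nat_lit 78) (nat_lit 0) (nat_lit 0) (XT.lf (nat_lit 0) (nat_lit 172341446113) (nat_lit 76) (nat_lit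 44969843459) (nat_lit 76) (nat_lit 24323805888) (nat_lit 3) (nat_lit 4) (nat_lit 4) (nat_lit 5) (nat_lit 4) (nat_lit 4) (nat_lit 347) (nat_lit 236) (nat_lit 137)) (XT.lf (nat_lit 0) (nat_lit 190512261082) (nat_lit 76) (nat_lit 41797963388) (nat_lit 76) (nat_lit 21144012503) (nat_lit 3) (nat_lit 4) (nat_lit 4) (nat_lit 5) (nat_lit 4) (nat_lit 4) (nat_lit 348) (nat_lit 236) (nat_lit 136))) (XT.nd (nat_lit 78) (nat_lit 0) (nat_lit 0) (XT.lf (nat_lit 0) (nat_lit 209584633508) (nat_lit 76) (nat_lit 38470690693) (nat_lit 76) (nat_lit 17809203317) (nat_lit 3) (nat_lit 4) (nat_lit 4) (nat_lit 5) (nat_lit 4) (nat_lit 4) (nat_lit 349) (nat_lit 236) (nat_lit 135)) (XT.lf (nat_lit 0) (nat_lit 229603973802) (nat_lit 76) (nat_lit 34980103295) (nat_lit 76) (nat_lit 14311438309) (nat_lit 3) (nat_lit 4) (nat_lit 4) (nat_lit 5) (nat_lit 4) (nat_lit 4) (nat_lit 350) (nat_lit 236) (nat_lit 134)))) (XT.nd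 (nat_lit 156) (nat_lit 76) (nat_lit 0) (XT.nd (nat_lit 78) (nat_lit 0) (nat_lit 0) (XT.lf (nat_lit 0) (nat_lit 250617947060) (nat_lit 76) (nat_lit 31317890271) (nat_lit 76) (nat_lit 10642389466) (nat_lit 3) (nat_lit 4) (nat_lit 4) (nat_lit 5) (nat_lit 4) (nat_lit 4) (nat_lit 351) (nat_lit 236) (nat_lit 133)) (XT.lf (nat_lit 0) (nat_lit 272676586552) (nat_lit 76) (nat_lit 27475332068) (nat_lit 76) (nat_lit 6793320959) (nat_lit 3) (nat_lit 4) (nat_lit 4) (nat_lit 5) (nat_lit 4) (nat_lit 4) (nat_lit 352) (nat_lit 236) (nat_lit 132))) (XT.nd (nat_lit 78) (nat_lit 76) (nat_lit 0) (XT.lf (nat_lit 0) (nat_lit 295832412849) (nat_lit 76) (nat_lit 23443279736) (nat_lit 76) (nat_lit 2755068338) (nat_lit 3) (nat_lit 4) (nat_lit 4) (nat_lit 5) (nat_lit 4) (nat_lit 4) (nat_lit 353) (nat_lit 236) (nat_lit 131)) (XT.nd (nat_lit 78) (nat_lit 0) (nat_lit 0) (XT.lf (nat_lit 0) (nat_lit 1434550562) (nat_lit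 152) (nat_lit 17753287781) (nat_lit 76) (nat_lit 318681713498) (nat_lit 2) (nat_lit 5) (nat_lit 4) (nat_lit 5) (nat_lit 3) (nat_lit 4) (nat_lit 354) (nat_lit 236) (nat_lit 130)) (XT.lf (nat_lit 0) (nat_lit 5738191594) (nat_lit 152) (nat_lit 8936447510) (nat_lit 76) (nat_lit 339823530504) (nat_lit 2) (nat_lit 5) (nat_lit 4) (nat_lit 5) (nat_lit 3) (nat_lit 4) (nat_lit 355) (nat_lit 236) (nat_lit 129)))))) (XT.nd (nat_lit 312) (nat_lit 0) (nat_lit 0) (XT.nd (nat_lit 156) (nat_lit 0) (nat_lit 0) (XT.nd (nat_lit 78) (nat_lit 0) (nat_lit 0) (XT.lf (nat_lit 0) (nat_lit 326633876) (nat_lit 76) (nat_lit 9932746708) (nat_lit 152) (nat_lit 361698721322) (nat_lit 1) (nat_lit 5) (nat_lit 2) (nat_lit 5) (nat_lit 3) (nat_lit 4) (nat_lit 356) (nat_lit 236) (nat_lit 128)) (XT.lf (nat_lit 0) (nat_lit 10358148925) (nat_lit 76) (nat_lit 4797141924) (nat_lit 152) (nat_lit 375128308722) (nat_lit 1) (nat_lit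 5) (nat_lit 2) (nat_lit 5) (nat_lit 3) (nat_lit 4) (nat_lit 357) (nat_lit 236) (nat_lit 127))) (XT.nd (nat_lit 78) (nat_lit 0) (nat_lit 0) (XT.lf (nat_lit 0) (nat_lit 20302702393) (nat_lit 152) (nat_lit 388648257996) (nat_lit 0) (nat_lit 574078198) (nat_lit 1) (nat_lit 5) (nat_lit 3) (nat_lit 4) (nat_lit 1) (nat_lit 4) (nat_lit 358) (nat_lit 236) (nat_lit 126)) (XT.lf (nat_lit 0) (nat_lit 25783661760) (nat_lit 152) (nat_lit 397890449471) (nat_lit 0) (nat_lit 6050631134) (nat_lit 1) (nat_lit 5) (nat_lit 3) (nat_lit 4) (nat_lit 1) (nat_lit 4) (nat_lit 359) (nat_lit 236) (nat_lit 125)))) (XT.nd (nat_lit 156) (nat_lit 0) (nat_lit 0) (XT.nd (nat_lit 78) (nat_lit 0) (nat_lit 0) (XT.lf (nat_lit 0) (nat_lit 31536322023) (nat_lit 152) (nat_lit 407599133459) (nat_lit 0) (nat_lit 11799094797) (nat_lit 1) (nat_lit 5) (nat_lit 3) (nat_lit 4) (nat_lit 1) (nat_lit 4) (nat_lit 360) (nat_lit 236) (nat_lit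 124)) (XT.lf (nat_lit 0) (nat_lit 37574379992) (nat_lit 152) (nat_lit 417797425874) (nat_lit 0) (nat_lit 17833156005) (nat_lit 1) (nat_lit 5) (nat_lit 3) (nat_lit 4) (nat_lit 1) (nat_lit 4) (nat_lit 361) (nat_lit 236) (nat_lit 123))) (XT.nd (nat_lit 78) (nat_lit 0) (nat_lit 0) (XT.lf (nat_lit 0) (nat_lit 43912211996) (nat_lit 152) (nat_lit 428509608366) (nat_lit 0) (nat_lit 24167181569) (nat_lit 1) (nat_lit 5) (nat_lit 3) (nat_lit 4) (nat_lit 1) (nat_lit 4) (nat_lit 362) (nat_lit 236) (nat_lit 122)) (XT.nd (nat_lit 28392) (nat_lit 0) (nat_lit 8968) (XT.lf (nat_lit 0) (nat_lit 50564908111) (nat_lit 152) (nat_lit 439761186129) (nat_lit 0) (nat_lit 30816252503) (nat_lit 1) (nat_lit 5) (nat_lit 3) (nat_lit 4) (nat_lit 1) (nat_lit 4) (nat_lit 363) (nat_lit 236) (nat_lit 121)) (XT.lf (nat_lit 0) (nat_lit 1597968176) (nat_lit 228) (nat_lit 80464319) (nat_lit 0) (nat_lit 1597968176) (nat_lit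 119) (nat_lit 5) (nat_lit 122) (nat_lit 4) (nat_lit 119) (nat_lit 4) (nat_lit 246) (nat_lit 237) (nat_lit 237))))))))
noncomputable def xc99 : XT := (XT.nd (nat_lit 1404) (nat_lit 2356) (nat_lit 0) (XT.nd (nat_lit 702) (nat_lit 2204) (nat_lit 0) (XT.nd (nat_lit 312) (nat_lit 1748) (nat_lit 0) (XT.nd (nat_lit 156) (nat_lit 456) (nat_lit 0) (XT.nd (nat_lit 78) (nat_lit 380) (nat_lit 0) (XT.lf (nat_lit 0) (nat_lit 3470385820) (nat_lit 228) (nat_lit 2697810025) (nat_lit 228) (nat_lit 426287025) (nat_lit 116) (nat_lit 4) (nat_lit 119) (nat_lit 5) (nat_lit 119) (nat_lit 4) (nat_lit 247) (nat_lit 237) (nat_lit 236)) (XT.lf (nat_lit 0) (nat_lit 504360940) (nat_lit 304) (nat_lit 1905024025) (nat_lit 380) (nat_lit 4235405942) (nat_lit 111) (nat_lit 5) (nat_lit 115) (nat_lit 5) (nat_lit 116) (nat_lit 4) (nat_lit 248) (nat_lit 237) (nat_lit 235))) (XT.nd (nat_lit 78) (nat_lit 456) (nat_lit 0) (XT.lf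 (nat_lit 0) (nat_lit 4296345900) (nat_lit 304) (nat_lit 967830910) (nat_lit 380) (nat_lit 1439249923) (nat_lit 111) (nat_lit 5) (nat_lit 115) (nat_lit 5) (nat_lit 116) (nat_lit 4) (nat_lit 249) (nat_lit 237) (nat_lit 234)) (XT.lf (nat_lit 0) (nat_lit 1315829576) (nat_lit 456) (nat_lit 5357257499) (nat_lit 76) (nat_lit 98063554) (nat_lit 105) (nat_lit 5) (nat_lit 111) (nat_lit 5) (nat_lit 106) (nat_lit 4) (nat_lit 250) (nat_lit 237) (nat_lit 233)))) (XT.nd (nat_lit 156) (nat_lit 1292) (nat_lit 0) (XT.nd (nat_lit 78) (nat_lit 456) (nat_lit 0) (XT.lf (nat_lit 0) (nat_lit 4067084138) (nat_lit 456) (nat_lit 1496983354) (nat_lit 76) (nat_lit 1282317535) (nat_lit 105) (nat_lit 5) (nat_lit 111) (nat_lit 5) (nat_lit 106) (nat_lit 4) (nat_lit 251) (nat_lit 237) (nat_lit 232)) (XT.lf (nat_lit 0) (nat_lit 2516745132) (nat_lit 456) (nat_lit 4335106774) (nat_lit 532) (nat_lit 79344564) (nat_lit 99)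 (nat_lit 5) (nat_lit 105) (nat_lit 5) (nat_lit 106) (nat_lit 4) (nat_lit 252) (nat_lit 237) (nat_lit 231))) (XT.nd (nat_lit 78) (nat_lit 1216) (nat_lit 0) (XT.lf (nat_lit 0) (nat_lit 2551985259) (nat_lit 532) (nat_lit 402685429) (nat_lit 76) (nat_lit 4069753907) (nat_lit 98) (nat_lit 5) (nat_lit 105) (nat_lit 5) (nat_lit 99) (nat_lit 5) (nat_lit 253) (nat_lit 237) (nat_lit 230)) (XT.nd (nat_lit 78) (nat_lit 684) (nat_lit 0) (XT.lf (nat_lit 0) (nat_lit 3812882102) (nat_lit 532) (nat_lit 1424390988) (nat_lit 608) (nat_lit 1889252500) (nat_lit 91) (nat_lit 5) (nat_lit 98) (nat_lit 5) (nat_lit 99) (nat_lit 5) (nat_lit 254) (nat_lit 237) (nat_lit 229)) (XT.lf (nat_lit 0) (nat_lit 689080425) (nat_lit 684) (nat_lit 6327051294) (nat_lit 76) (nat_lit 222821013) (nat_lit 82) (nat_lit 5) (nat_lit 91) (nat_lit 5) (nat_lit 83) (nat_lit 5) (nat_lit 255) (nat_lit 237) (nat_lit 228)))))) (XT.nd (nat_lit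 312) (nat_lit 1064) (nat_lit 0) (XT.nd (nat_lit 156) (nat_lit 456) (nat_lit 0) (XT.nd (nat_lit 78) (nat_lit 684) (nat_lit 0) (XT.lf (nat_lit 0) (nat_lit 3285343215) (nat_lit 684) (nat_lit 2071222607) (nat_lit 76) (nat_lit 2001718933) (nat_lit 82) (nat_lit 5) (nat_lit 91) (nat_lit 5) (nat_lit 83) (nat_lit 5) (nat_lit 256) (nat_lit 237) (nat_lit 227)) (XT.lf (nat_lit 0) (nat_lit 2353140197) (nat_lit 684) (nat_lit 3573223481) (nat_lit 760) (nat_lit 1561908014) (nat_lit 73) (nat_lit 5) (nat_lit 82) (nat_lit 5) (nat_lit 83) (nat_lit 5) (nat_lit 257) (nat_lit 237) (nat_lit 226))) (XT.nd (nat_lit 78) (nat_lit 380) (nat_lit 0) (XT.lf (nat_lit 0) (nat_lit 955768223) (nat_lit 760) (nat_lit 691740708) (nat_lit 76) (nat_lit 5981030784) (nat_lit 72) (nat_lit 5) (nat_lit 82) (nat_lit 5) (nat_lit 73) (nat_lit 5) (nat_lit 258) (nat_lit 237) (nat_lit 225)) (XT.lf (nat_lit 0) (nat_lit 3501454300) (nat_lit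 456) (nat_lit 3826085125) (nat_lit 76) (nat_lit 449646877) (nat_lit 67) (nat_lit 5) (nat_lit 73) (nat_lit 5) (nat_lit 68) (nat_lit 5) (nat_lit 259) (nat_lit 237) (nat_lit 224)))) (XT.nd (nat_lit 156) (nat_lit 608) (nat_lit 0) (XT.nd (nat_lit 78) (nat_lit 76) (nat_lit 0) (XT.lf (nat_lit 0) (nat_lit 795512733) (nat_lit 380) (nat_lit 5319414091) (nat_lit 456) (nat_lit 1821671608) (nat_lit 62) (nat_lit 5) (nat_lit 67) (nat_lit 5) (nat_lit 68) (nat_lit 5) (nat_lit 260) (nat_lit 237) (nat_lit 223)) (XT.lf (nat_lit 0) (nat_lit 687290443) (nat_lit 456) (nat_lit 2454745872) (nat_lit 76) (nat_lit 4963862090) (nat_lit 61) (nat_lit 5) (nat_lit 67) (nat_lit 5) (nat_lit 62) (nat_lit 5) (nat_lit 261) (nat_lit 237) (nat_lit 222))) (XT.nd (nat_lit 78) (nat_lit 304) (nat_lit 0) (XT.lf (nat_lit 0) (nat_lit 2396388085) (nat_lit 304) (nat_lit 797228113) (nat_lit 380) (nat_lit 5092206747) (nat_lit 57) (nat_lit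 5) (nat_lit 61) (nat_lit 5) (nat_lit 62) (nat_lit 5) (nat_lit 262) (nat_lit 237) (nat_lit 221)) (XT.nd (nat_lit 78) (nat_lit 304) (nat_lit 0) (XT.lf (nat_lit 0) (nat_lit 5792195294) (nat_lit 380) (nat_lit 1043660057) (nat_lit 76) (nat_lit 1640836300) (nat_lit 57) (nat_lit 5) (nat_lit 62) (nat_lit 5) (nat_lit 58) (nat_lit 5) (nat_lit 263) (nat_lit 237) (nat_lit 220)) (XT.lf (nat_lit 0) (nat_lit 4046934783) (nat_lit 304) (nat_lit 4453536836) (nat_lit 380) (nat_lit 177924510) (nat_lit 53) (nat_lit 5) (nat_lit 57) (nat_lit 5) (nat_lit 58) (nat_lit 5) (nat_lit 264) (nat_lit 237) (nat_lit 219))))))) (XT.nd (nat_lit 702) (nat_lit 988) (nat_lit 0) (XT.nd (nat_lit 312) (nat_lit 684) (nat_lit 0) (XT.nd (nat_lit 156) (nat_lit 380) (nat_lit 0) (XT.nd (nat_lit 78) (nat_lit 0) (nat_lit 0) (XT.lf (nat_lit 0) (nat_lit 397614556) (nat_lit 228) (nat_lit 1906556887) (nat_lit 304) (nat_lit 6587916465)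 (nat_lit 49) (nat_lit 5) (nat_lit 52) (nat_lit 5) (nat_lit 53) (nat_lit 5) (nat_lit 265) (nat_lit 237) (nat_lit 218)) (XT.lf (nat_lit 0) (nat_lit 4903110151) (nat_lit 304) (nat_lit 3407978646) (nat_lit 76) (nat_lit 805536294) (nat_lit 49) (nat_lit 5) (nat_lit 53) (nat_lit 5) (nat_lit 50) (nat_lit 5) (nat_lit 266) (nat_lit 237) (nat_lit 217))) (XT.nd (nat_lit 78) (nat_lit 76) (nat_lit 0) (XT.lf (nat_lit 0) (nat_lit 1848182379) (nat_lit 304) (nat_lit 5755360357) (nat_lit 380) (nat_lit 1750500025) (nat_lit 45) (nat_lit 5) (nat_lit 49) (nat_lit 5) (nat_lit 50) (nat_lit 5) (nat_lit 267) (nat_lit 237) (nat_lit 216)) (XT.lf (nat_lit 0) (nat_lit 779881967) (nat_lit 380) (nat_lit 2242820551) (nat_lit 76) (nat_lit 6581637801) (nat_lit 44) (nat_lit 5) (nat_lit 49) (nat_lit 5) (nat_lit 45) (nat_lit 5) (nat_lit 268) (nat_lit 237) (nat_lit 215)))) (XT.nd (nat_lit 156) (nat_lit 456) (nat_lit 0) (XT.nd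 (nat_lit 78) (nat_lit 0) (nat_lit 0) (XT.lf (nat_lit 0) (nat_lit 3250274526) (nat_lit 228) (nat_lit 94903219) (nat_lit 304) (nat_lit 6522378552) (nat_lit 41) (nat_lit 5) (nat_lit 44) (nat_lit 5) (nat_lit 45) (nat_lit 5) (nat_lit 269) (nat_lit 237) (nat_lit 214)) (XT.lf (nat_lit 0) (nat_lit 6042250377) (nat_lit 304) (nat_lit 1203814762) (nat_lit 76) (nat_lit 2897882356) (nat_lit 41) (nat_lit 5) (nat_lit 45) (nat_lit 5) (nat_lit 42) (nat_lit 5) (nat_lit 270) (nat_lit 237) (nat_lit 213))) (XT.nd (nat_lit 78) (nat_lit 228) (nat_lit 0) (XT.lf (nat_lit 0) (nat_lit 4518107765) (nat_lit 228) (nat_lit 4350442258) (nat_lit 304) (nat_lit 1566070535) (nat_lit 38) (nat_lit 5) (nat_lit 41) (nat_lit 5) (nat_lit 42) (nat_lit 5) (nat_lit 271) (nat_lit 237) (nat_lit 212)) (XT.nd (nat_lit 78) (nat_lit 152) (nat_lit 0) (XT.lf (nat_lit 0) (nat_lit 1004923621) (nat_lit 304) (nat_lit 294622313) (nat_lit 76)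 (nat_lit 9442405853) (nat_lit 37) (nat_lit 5) (nat_lit 41) (nat_lit 5) (nat_lit 38) (nat_lit 5) (nat_lit 272) (nat_lit 237) (nat_lit 211)) (XT.lf (nat_lit 0) (nat_lit 3698031947) (nat_lit 228) (nat_lit 5431222017) (nat_lit 76) (nat_lit 1931958546) (nat_lit 35) (nat_lit 5) (nat_lit 38) (nat_lit 5) (nat_lit 36) (nat_lit 5) (nat_lit 273) (nat_lit 237) (nat_lit 210)))))) (XT.nd (nat_lit 390) (nat_lit 380) (nat_lit 0) (XT.nd (nat_lit 156) (nat_lit 380) (nat_lit 0) (XT.nd (nat_lit 78) (nat_lit 0) (nat_lit 0) (XT.lf (nat_lit 0) (nat_lit 351881423) (nat_lit 228) (nat_lit 6133906557) (nat_lit 304) (nat_lit 4912797562) (nat_lit 32) (nat_lit 5) (nat_lit 35) (nat_lit 5) (nat_lit 36) (nat_lit 5) (nat_lit 274) (nat_lit 237) (nat_lit 209)) (XT.lf (nat_lit 0) (nat_lit 6511488088) (nat_lit 228) (nat_lit 2923389652) (nat_lit 304) (nat_lit 2316993991) (nat_lit 32) (nat_lit 5) (nat_lit 35) (nat_lit 5)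 (nat_lit 36) (nat_lit 5) (nat_lit 275) (nat_lit 237) (nat_lit 208))) (XT.nd (nat_lit 78) (nat_lit 152) (nat_lit 0) (XT.lf (nat_lit 0) (nat_lit 346523763) (nat_lit 228) (nat_lit 11356291212) (nat_lit 76) (nat_lit 422266812) (nat_lit 29) (nat_lit 5) (nat_lit 32) (nat_lit 5) (nat_lit 30) (nat_lit 5) (nat_lit 276) (nat_lit 237) (nat_lit 207)) (XT.nd (nat_lit 78) (nat_lit 152) (nat_lit 0) (XT.lf (nat_lit 0) (nat_lit 3136789148) (nat_lit 228) (nat_lit 5439642851) (nat_lit 76) (nat_lit 3935171767) (nat_lit 29) (nat_lit 5) (nat_lit 32) (nat_lit 5) (nat_lit 30) (nat_lit 5) (nat_lit 277) (nat_lit 237) (nat_lit 206)) (XT.lf (nat_lit 0) (nat_lit 699883426) (nat_lit 152) (nat_lit 5314097411) (nat_lit 228) (nat_lit 6906217013) (nat_lit 27) (nat_lit 5) (nat_lit 29) (nat_lit 5) (nat_lit 30) (nat_lit 5) (nat_lit 278) (nat_lit 237) (nat_lit 205))))) (XT.nd (nat_lit 156) (nat_lit 228) (nat_lit 0) (XT.nd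 (nat_lit 78) (nat_lit 152) (nat_lit 0) (XT.lf (nat_lit 0) (nat_lit 7241420980) (nat_lit 152) (nat_lit 1823779740) (nat_lit 228) (nat_lit 4282623592) (nat_lit 27) (nat_lit 5) (nat_lit 29) (nat_lit 5) (nat_lit 30) (nat_lit 5) (nat_lit 279) (nat_lit 237) (nat_lit 204)) (XT.lf (nat_lit 0) (nat_lit 198893215) (nat_lit 152) (nat_lit 12042459727) (nat_lit 228) (nat_lit 1556966398) (nat_lit 25) (nat_lit 5) (nat_lit 27) (nat_lit 5) (nat_lit 28) (nat_lit 4) (nat_lit 280) (nat_lit 237) (nat_lit 203))) (XT.nd (nat_lit 78) (nat_lit 152) (nat_lit 0) (XT.lf (nat_lit 0) (nat_lit 1339107455) (nat_lit 228) (nat_lit 7379180367) (nat_lit 76) (nat_lit 5548333504) (nat_lit 24) (nat_lit 5) (nat_lit 27) (nat_lit 5) (nat_lit 25) (nat_lit 5) (nat_lit 281) (nat_lit 237) (nat_lit 202)) (XT.nd (nat_lit 78) (nat_lit 152) (nat_lit 0) (XT.lf (nat_lit 0) (nat_lit 4271368205) (nat_lit 228) (nat_lit 961541089) (nat_lit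 76) (nat_lit 9527058946) (nat_lit 24) (nat_lit 5) (nat_lit 27) (nat_lit 5) (nat_lit 25) (nat_lit 5) (nat_lit 282) (nat_lit 237) (nat_lit 201)) (XT.lf (nat_lit 0) (nat_lit 5881319359) (nat_lit 152) (nat_lit 1507134591) (nat_lit 228) (nat_lit 7887705004) (nat_lit 22) (nat_lit 5) (nat_lit 24) (nat_lit 5) (nat_lit 25) (nat_lit 5) (nat_lit 283) (nat_lit 237) (nat_lit 200))))))))
noncomputable def xc100 : XT := (XT.nd (nat_lit 1404) (nat_lit 380) (nat_lit 0) (XT.nd (nat_lit 702) (nat_lit 380) (nat_lit 0) (XT.nd (nat_lit 312) (nat_lit 152) (nat_lit 0) (XT.nd (nat_lit 156) (nat_lit 228) (nat_lit 0) (XT.nd (nat_lit 78) (nat_lit 76) (nat_lit 0) (XT.lf (nat_lit 0) (nat_lit 10662673538) (nat_lit 228) (nat_lit 2840229591) (nat_lit 76) (nat_lit 2315275005) (nat_lit 22) (nat_lit 5) (nat_lit 25) (nat_lit 5) (nat_lit 23) (nat_lit 4) (nat_lit 284) (nat_lit 237) (nat_lit 199)) (XT.lf (nat_lit 0) (nat_lit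 4066829318) (nat_lit 76) (nat_lit 10071672474) (nat_lit 152) (nat_lit 2246980554) (nat_lit 21) (nat_lit 5) (nat_lit 22) (nat_lit 5) (nat_lit 23) (nat_lit 4) (nat_lit 285) (nat_lit 237) (nat_lit 198))) (XT.nd (nat_lit 78) (nat_lit 152) (nat_lit 0) (XT.lf (nat_lit 0) (nat_lit 780003476) (nat_lit 152) (nat_lit 5655448722) (nat_lit 76) (nat_lit 10545198144) (nat_lit 20) (nat_lit 5) (nat_lit 22) (nat_lit 5) (nat_lit 21) (nat_lit 5) (nat_lit 286) (nat_lit 237) (nat_lit 197)) (XT.lf (nat_lit 0) (nat_lit 1267345969) (nat_lit 152) (nat_lit 2587619194) (nat_lit 228) (nat_lit 13750230907) (nat_lit 18) (nat_lit 5) (nat_lit 20) (nat_lit 5) (nat_lit 21) (nat_lit 5) (nat_lit 287) (nat_lit 237) (nat_lit 196)))) (XT.nd (nat_lit 156) (nat_lit 152) (nat_lit 0) (XT.nd (nat_lit 78) (nat_lit 0) (nat_lit 0) (XT.lf (nat_lit 0) (nat_lit 7156678063) (nat_lit 228) (nat_lit 9625787877) (nat_lit 76) (nat_lit 1474917949)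 (nat_lit 18) (nat_lit 5) (nat_lit 21) (nat_lit 5) (nat_lit 19) (nat_lit 4) (nat_lit 288) (nat_lit 237) (nat_lit 195)) (XT.lf (nat_lit 0) (nat_lit 10621111830) (nat_lit 228) (nat_lit 2694812159) (nat_lit 76) (nat_lit 5626437214) (nat_lit 18) (nat_lit 5) (nat_lit 21) (nat_lit 5) (nat_lit 19) (nat_lit 4) (nat_lit 289) (nat_lit 237) (nat_lit 194))) (XT.nd (nat_lit 78) (nat_lit 76) (nat_lit 0) (XT.lf (nat_lit 0) (nat_lit 4661165775) (nat_lit 76) (nat_lit 9627723215) (nat_lit 152) (nat_lit 5371251230) (nat_lit 17) (nat_lit 5) (nat_lit 18) (nat_lit 5) (nat_lit 19) (nat_lit 4) (nat_lit 290) (nat_lit 237) (nat_lit 193)) (XT.nd (nat_lit 78) (nat_lit 76) (nat_lit 0) (XT.lf (nat_lit 0) (nat_lit 12408908271) (nat_lit 76) (nat_lit 5735077055) (nat_lit 152) (nat_lit 2269682459) (nat_lit 17) (nat_lit 5) (nat_lit 18) (nat_lit 5) (nat_lit 19) (nat_lit 4) (nat_lit 291) (nat_lit 237) (nat_lit 192)) (XT.lf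 (nat_lit 0) (nat_lit 914951257) (nat_lit 152) (nat_lit 743908853) (nat_lit 76) (nat_lit 19547313275) (nat_lit 16) (nat_lit 5) (nat_lit 18) (nat_lit 5) (nat_lit 17) (nat_lit 5) (nat_lit 292) (nat_lit 237) (nat_lit 191)))))) (XT.nd (nat_lit 312) (nat_lit 152) (nat_lit 0) (XT.nd (nat_lit 156) (nat_lit 76) (nat_lit 0) (XT.nd (nat_lit 78) (nat_lit 0) (nat_lit 0) (XT.lf (nat_lit 0) (nat_lit 4296289854) (nat_lit 228) (nat_lit 15073416686) (nat_lit 76) (nat_lit 2661098333) (nat_lit 14) (nat_lit 5) (nat_lit 17) (nat_lit 5) (nat_lit 15) (nat_lit 4) (nat_lit 293) (nat_lit 237) (nat_lit 190)) (XT.lf (nat_lit 0) (nat_lit 7848636708) (nat_lit 228) (nat_lit 7918793167) (nat_lit 76) (nat_lit 7129187159) (nat_lit 14) (nat_lit 5) (nat_lit 17) (nat_lit 5) (nat_lit 15) (nat_lit 4) (nat_lit 294) (nat_lit 237) (nat_lit 189))) (XT.nd (nat_lit 78) (nat_lit 76) (nat_lit 0) (XT.lf (nat_lit 0) (nat_lit 11542355106)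 (nat_lit 228) (nat_lit 468277626) (nat_lit 76) (nat_lit 11796943330) (nat_lit 14) (nat_lit 5) (nat_lit 17) (nat_lit 5) (nat_lit 15) (nat_lit 4) (nat_lit 295) (nat_lit 237) (nat_lit 188)) (XT.lf (nat_lit 0) (nat_lit 7537103645) (nat_lit 76) (nat_lit 7966811279) (nat_lit 152) (nat_lit 9256052215) (nat_lit 13) (nat_lit 5) (nat_lit 14) (nat_lit 5) (nat_lit 15) (nat_lit 4) (nat_lit 296) (nat_lit 237) (nat_lit 187)))) (XT.nd (nat_lit 156) (nat_lit 152) (nat_lit 0) (XT.nd (nat_lit 78) (nat_lit 0) (nat_lit 0) (XT.lf (nat_lit 0) (nat_lit 15901067001) (nat_lit 76) (nat_lit 3736635556) (nat_lit 152) (nat_lit 6123607602) (nat_lit 13) (nat_lit 5) (nat_lit 14) (nat_lit 5) (nat_lit 15) (nat_lit 4) (nat_lit 297) (nat_lit 237) (nat_lit 186)) (XT.lf (nat_lit 0) (nat_lit 23956655980) (nat_lit 152) (nat_lit 2196972138) (nat_lit 0) (nat_lit 660206371) (nat_lit 13) (nat_lit 5) (nat_lit 15) (nat_lit 4) (nat_lit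 13) (nat_lit 4) (nat_lit 298) (nat_lit 237) (nat_lit 185))) (XT.nd (nat_lit 78) (nat_lit 0) (nat_lit 0) (XT.lf (nat_lit 0) (nat_lit 678988421) (nat_lit 152) (nat_lit 21999805749) (nat_lit 76) (nat_lit 5233541231) (nat_lit 11) (nat_lit 5) (nat_lit 13) (nat_lit 5) (nat_lit 12) (nat_lit 4) (nat_lit 299) (nat_lit 237) (nat_lit 184)) (XT.nd (nat_lit 78) (nat_lit 0) (nat_lit 0) (XT.lf (nat_lit 0) (nat_lit 4302896800) (nat_lit 152) (nat_lit 14661538715) (nat_lit 76) (nat_lit 10098669048) (nat_lit 11) (nat_lit 5) (nat_lit 13) (nat_lit 5) (nat_lit 12) (nat_lit 4) (nat_lit 300) (nat_lit 237) (nat_lit 183)) (XT.lf (nat_lit 0) (nat_lit 8078606601) (nat_lit 152) (nat_lit 7007757572) (nat_lit 76) (nat_lit 15186548960) (nat_lit 11) (nat_lit 5) (nat_lit 13) (nat_lit 5) (nat_lit 12) (nat_lit 4) (nat_lit 301) (nat_lit 237) (nat_lit 182))))))) (XT.nd (nat_lit 702) (nat_lit 152) (nat_lit 0) (XT.nd (nat_lit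 312) (nat_lit 152) (nat_lit 0) (XT.nd (nat_lit 156) (nat_lit 0) (nat_lit 0) (XT.nd (nat_lit 78) (nat_lit 0) (nat_lit 0) (XT.lf (nat_lit 0) (nat_lit 1012156292) (nat_lit 76) (nat_lit 11018753912) (nat_lit 152) (nat_lit 19512941270) (nat_lit 10) (nat_lit 5) (nat_lit 11) (nat_lit 5) (nat_lit 12) (nat_lit 4) (nat_lit 302) (nat_lit 237) (nat_lit 181)) (XT.lf (nat_lit 0) (nat_lit 9628197253) (nat_lit 76) (nat_lit 6643898331) (nat_lit 152) (nat_lit 16601706158) (nat_lit 10) (nat_lit 5) (nat_lit 11) (nat_lit 5) (nat_lit 12) (nat_lit 4) (nat_lit 303) (nat_lit 237) (nat_lit 180))) (XT.nd (nat_lit 78) (nat_lit 0) (nat_lit 0) (XT.lf (nat_lit 0) (nat_lit 18629171582) (nat_lit 76) (nat_lit 2070060873) (nat_lit 152) (nat_lit 13572349452) (nat_lit 10) (nat_lit 5) (nat_lit 11) (nat_lit 5) (nat_lit 12) (nat_lit 4) (nat_lit 304) (nat_lit 237) (nat_lit 179)) (XT.lf (nat_lit 0) (nat_lit 25365229276) (nat_lit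 152) (nat_lit 7746377504) (nat_lit 0) (nat_lit 2626794850) (nat_lit 10) (nat_lit 5) (nat_lit 12) (nat_lit 4) (nat_lit 10) (nat_lit 4) (nat_lit 305) (nat_lit 237) (nat_lit 178)))) (XT.nd (nat_lit 156) (nat_lit 76) (nat_lit 0) (XT.nd (nat_lit 78) (nat_lit 0) (nat_lit 0) (XT.lf (nat_lit 0) (nat_lit 483462434) (nat_lit 76) (nat_lit 29798586765) (nat_lit 76) (nat_lit 6995661459) (nat_lit 9) (nat_lit 4) (nat_lit 10) (nat_lit 5) (nat_lit 10) (nat_lit 4) (nat_lit 306) (nat_lit 237) (nat_lit 177)) (XT.lf (nat_lit 0) (nat_lit 9351884205) (nat_lit 76) (nat_lit 26200541824) (nat_lit 76) (nat_lit 3336196632) (nat_lit 9) (nat_lit 4) (nat_lit 10) (nat_lit 5) (nat_lit 10) (nat_lit 4) (nat_lit 307) (nat_lit 237) (nat_lit 176))) (XT.nd (nat_lit 78) (nat_lit 0) (nat_lit 0) (XT.lf (nat_lit 0) (nat_lit 467295585) (nat_lit 152) (nat_lit 21964884372) (nat_lit 76) (nat_lit 18148663412) (nat_lit 8) (nat_lit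 5) (nat_lit 10) (nat_lit 5) (nat_lit 9) (nat_lit 4) (nat_lit 308) (nat_lit 237) (nat_lit 175)) (XT.nd (nat_lit 78) (nat_lit 0) (nat_lit 0) (XT.lf (nat_lit 0) (nat_lit 4327184364) (nat_lit 152) (nat_lit 14107822022) (nat_lit 76) (nat_lit 23921037278) (nat_lit 8) (nat_lit 5) (nat_lit 10) (nat_lit 5) (nat_lit 9) (nat_lit 4) (nat_lit 309) (nat_lit 237) (nat_lit 174)) (XT.lf (nat_lit 0) (nat_lit 8359439043) (nat_lit 152) (nat_lit 5894756736) (nat_lit 76) (nat_lit 29966858804) (nat_lit 8) (nat_lit 5) (nat_lit 10) (nat_lit 5) (nat_lit 9) (nat_lit 4) (nat_lit 310) (nat_lit 237) (nat_lit 173)))))) (XT.nd (nat_lit 312) (nat_lit 76) (nat_lit 0) (XT.nd (nat_lit 156) (nat_lit 0) (nat_lit 0) (XT.nd (nat_lit 78) (nat_lit 0) (nat_lit 0) (XT.lf (nat_lit 0) (nat_lit 2782937791) (nat_lit 76) (nat_lit 9834171896) (nat_lit 152) (nat_lit 33561034469) (nat_lit 7) (nat_lit 5) (nat_lit 8) (nat_lit 5) (nat_lit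 9) (nat_lit 4) (nat_lit 311) (nat_lit 237) (nat_lit 172)) (XT.lf (nat_lit 0) (nat_lit 12064640332) (nat_lit 76) (nat_lit 5103604296) (nat_lit 152) (nat_lit 31060831942) (nat_lit 7) (nat_lit 5) (nat_lit 8) (nat_lit 5) (nat_lit 9) (nat_lit 4) (nat_lit 312) (nat_lit 237) (nat_lit 171))) (XT.nd (nat_lit 78) (nat_lit 0) (nat_lit 0) (XT.lf (nat_lit 0) (nat_lit 21777542900) (nat_lit 76) (nat_lit 151060281) (nat_lit 152) (nat_lit 28454885651) (nat_lit 7) (nat_lit 5) (nat_lit 8) (nat_lit 5) (nat_lit 9) (nat_lit 4) (nat_lit 313) (nat_lit 237) (nat_lit 170)) (XT.lf (nat_lit 0) (nat_lit 26988133925) (nat_lit 152) (nat_lit 20780353437) (nat_lit 0) (nat_lit 4874092413) (nat_lit 7) (nat_lit 5) (nat_lit 9) (nat_lit 4) (nat_lit 7) (nat_lit 4) (nat_lit 314) (nat_lit 237) (nat_lit 169)))) (XT.nd (nat_lit 156) (nat_lit 76) (nat_lit 0) (XT.nd (nat_lit 78) (nat_lit 0) (nat_lit 0) (XT.lf (nat_lit 0) (nat_lit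 32286282835) (nat_lit 152) (nat_lit 12596425861) (nat_lit 0) (nat_lit 10132649517) (nat_lit 7) (nat_lit 5) (nat_lit 9) (nat_lit 4) (nat_lit 7) (nat_lit 4) (nat_lit 315) (nat_lit 237) (nat_lit 168)) (XT.lf (nat_lit 0) (nat_lit 37833306078) (nat_lit 152) (nat_lit 4032319190) (nat_lit 0) (nat_lit 15641966277) (nat_lit 7) (nat_lit 5) (nat_lit 9) (nat_lit 4) (nat_lit 7) (nat_lit 4) (nat_lit 316) (nat_lit 237) (nat_lit 167))) (XT.nd (nat_lit 78) (nat_lit 0) (nat_lit 0) (XT.lf (nat_lit 0) (nat_lit 5095443315) (nat_lit 76) (nat_lit 38626521685) (nat_lit 76) (nat_lit 16399270949) (nat_lit 6) (nat_lit 4) (nat_lit 7) (nat_lit 5) (nat_lit 7) (nat_lit 4) (nat_lit 317) (nat_lit 237) (nat_lit 166)) (XT.nd (nat_lit 78) (nat_lit 0) (nat_lit 0) (XT.lf (nat_lit 0) (nat_lit 14792397190) (nat_lit 76) (nat_lit 35165981941) (nat_lit 76) (nat_lit 12904530314) (nat_lit 6) (nat_lit 4) (nat_lit 7) (nat_lit 5)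 (nat_lit 7) (nat_lit 4) (nat_lit 318) (nat_lit 237) (nat_lit 165)) (XT.lf (nat_lit 0) (nat_lit 24948303737) (nat_lit 76) (nat_lit 31544055931) (nat_lit 76) (nat_lit 9250032027) (nat_lit 6) (nat_lit 4) (nat_lit 7) (nat_lit 5) (nat_lit 7) (nat_lit 4) (nat_lit 319) (nat_lit 237) (nat_lit 164))))))))
noncomputable def xc101 : XT := (XT.nd (nat_lit 1404) (nat_lit 76) (nat_lit 0) (XT.nd (nat_lit 702) (nat_lit 76) (nat_lit 0) (XT.nd (nat_lit 312) (nat_lit 76) (nat_lit 0) (XT.nd (nat_lit 156) (nat_lit 76) (nat_lit 0) (XT.nd (nat_lit 78) (nat_lit 0) (nat_lit 0) (XT.lf (nat_lit 0) (nat_lit 35587343685) (nat_lit 76) (nat_lit 27752120023) (nat_lit 76) (nat_lit 5427074903) (nat_lit 6) (nat_lit 4) (nat_lit 7) (nat_lit 5) (nat_lit 7) (nat_lit 4) (nat_lit 320) (nat_lit 237) (nat_lit 163)) (XT.lf (nat_lit 0) (nat_lit 46734848082) (nat_lit 76) (nat_lit 23781145798) (nat_lit 76) (nat_lit 1426556662) (nat_lit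 6) (nat_lit 4) (nat_lit 7) (nat_lit 5) (nat_lit 7) (nat_lit 4) (nat_lit 321) (nat_lit 237) (nat_lit 162))) (XT.nd (nat_lit 78) (nat_lit 0) (nat_lit 0) (XT.lf (nat_lit 0) (nat_lit 2672676967) (nat_lit 152) (nat_lit 16903738510) (nat_lit 76) (nat_lit 55699418560) (nat_lit 5) (nat_lit 5) (nat_lit 7) (nat_lit 5) (nat_lit 6) (nat_lit 4) (nat_lit 322) (nat_lit 237) (nat_lit 161)) (XT.lf (nat_lit 0) (nat_lit 6917001478) (nat_lit 152) (nat_lit 8229670555) (nat_lit 76) (nat_lit 63628546510) (nat_lit 5) (nat_lit 5) (nat_lit 7) (nat_lit 5) (nat_lit 6) (nat_lit 4) (nat_lit 323) (nat_lit 237) (nat_lit 160)))) (XT.nd (nat_lit 156) (nat_lit 0) (nat_lit 0) (XT.nd (nat_lit 78) (nat_lit 0) (nat_lit 0) (XT.lf (nat_lit 0) (nat_lit 885776885) (nat_lit 76) (nat_lit 10490233701) (nat_lit 152) (nat_lit 71073447497) (nat_lit 4) (nat_lit 5) (nat_lit 5) (nat_lit 5) (nat_lit 6) (nat_lit 4) (nat_lit 324) (nat_lit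 237) (nat_lit 159)) (XT.lf (nat_lit 0) (nat_lit 10722371430) (nat_lit 76) (nat_lit 5463834512) (nat_lit 152) (nat_lit 70114800657) (nat_lit 4) (nat_lit 5) (nat_lit 5) (nat_lit 5) (nat_lit 6) (nat_lit 4) (nat_lit 325) (nat_lit 237) (nat_lit 158))) (XT.nd (nat_lit 78) (nat_lit 0) (nat_lit 0) (XT.lf (nat_lit 0) (nat_lit 21031423467) (nat_lit 76) (nat_lit 194880302) (nat_lit 152) (nat_lit 69119367505) (nat_lit 4) (nat_lit 5) (nat_lit 5) (nat_lit 5) (nat_lit 6) (nat_lit 4) (nat_lit 326) (nat_lit 237) (nat_lit 157)) (XT.nd (nat_lit 78) (nat_lit 0) (nat_lit 0) (XT.lf (nat_lit 0) (nat_lit 26591507643) (nat_lit 152) (nat_lit 62838807249) (nat_lit 0) (nat_lit 5158607205) (nat_lit 4) (nat_lit 5) (nat_lit 6) (nat_lit 4) (nat_lit 4) (nat_lit 4) (nat_lit 327) (nat_lit 237) (nat_lit 156)) (XT.lf (nat_lit 0) (nat_lit 32218421217) (nat_lit 152) (nat_lit 56060725134) (nat_lit 0) (nat_lit 10765524225)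 (nat_lit 4) (nat_lit 5) (nat_lit 6) (nat_lit 4) (nat_lit 4) (nat_lit 4) (nat_lit 328) (nat_lit 237) (nat_lit 155)))))) (XT.nd (nat_lit 312) (nat_lit 76) (nat_lit 0) (XT.nd (nat_lit 156) (nat_lit 0) (nat_lit 0) (XT.nd (nat_lit 78) (nat_lit 0) (nat_lit 0) (XT.lf (nat_lit 0) (nat_lit 38117399275) (nat_lit 152) (nat_lit 48960820546) (nat_lit 0) (nat_lit 16645457948) (nat_lit 4) (nat_lit 5) (nat_lit 6) (nat_lit 4) (nat_lit 4) (nat_lit 4) (nat_lit 329) (nat_lit 237) (nat_lit 154)) (XT.lf (nat_lit 0) (nat_lit 44302487005) (nat_lit 152) (nat_lit 41522188949) (nat_lit 0) (nat_lit 22812408215) (nat_lit 4) (nat_lit 5) (nat_lit 6) (nat_lit 4) (nat_lit 4) (nat_lit 4) (nat_lit 330) (nat_lit 237) (nat_lit 153))) (XT.nd (nat_lit 78) (nat_lit 0) (nat_lit 0) (XT.lf (nat_lit 0) (nat_lit 50788410805) (nat_lit 152) (nat_lit 33727119316) (nat_lit 0) (nat_lit 29281058241) (nat_lit 4) (nat_lit 5) (nat_lit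 6) (nat_lit 4) (nat_lit 4) (nat_lit 4) (nat_lit 331) (nat_lit 237) (nat_lit 152)) (XT.lf (nat_lit 0) (nat_lit 57590613351) (nat_lit 152) (nat_lit 25557051957) (nat_lit 0) (nat_lit 36066809574) (nat_lit 4) (nat_lit 5) (nat_lit 6) (nat_lit 4) (nat_lit 4) (nat_lit 4) (nat_lit 332) (nat_lit 237) (nat_lit 151)))) (XT.nd (nat_lit 156) (nat_lit 76) (nat_lit 0) (XT.nd (nat_lit 78) (nat_lit 0) (nat_lit 0) (XT.lf (nat_lit 0) (nat_lit 64725290364) (nat_lit 152) (nat_lit 16992534332) (nat_lit 0) (nat_lit 43185818765) (nat_lit 4) (nat_lit 5) (nat_lit 6) (nat_lit 4) (nat_lit 4) (nat_lit 4) (nat_lit 333) (nat_lit 237) (nat_lit 150)) (XT.lf (nat_lit 0) (nat_lit 72209429169) (nat_lit 152) (nat_lit 8013174730) (nat_lit 0) (nat_lit 50655035835) (nat_lit 4) (nat_lit 5) (nat_lit 6) (nat_lit 4) (nat_lit 4) (nat_lit 4) (nat_lit 334) (nat_lit 237) (nat_lit 149))) (XT.nd (nat_lit 78) (nat_lit 0) (nat_lit 0)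 (XT.lf (nat_lit 0) (nat_lit 1448776158) (nat_lit 76) (nat_lit 78634692443) (nat_lit 76) (nat_lit 57066087932) (nat_lit 3) (nat_lit 4) (nat_lit 4) (nat_lit 5) (nat_lit 4) (nat_lit 4) (nat_lit 335) (nat_lit 237) (nat_lit 148)) (XT.nd (nat_lit 78) (nat_lit 0) (nat_lit 0) (XT.lf (nat_lit 0) (nat_lit 11649482938) (nat_lit 76) (nat_lit 76830642287) (nat_lit 76) (nat_lit 55248503323) (nat_lit 3) (nat_lit 4) (nat_lit 4) (nat_lit 5) (nat_lit 4) (nat_lit 4) (nat_lit 336) (nat_lit 237) (nat_lit 147)) (XT.lf (nat_lit 0) (nat_lit 22348281259) (nat_lit 76) (nat_lit 74941865068) (nat_lit 76) (nat_lit 53346836147) (nat_lit 3) (nat_lit 4) (nat_lit 4) (nat_lit 5) (nat_lit 4) (nat_lit 4) (nat_lit 337) (nat_lit 237) (nat_lit 146))))))) (XT.nd (nat_lit 702) (nat_lit 76) (nat_lit 0) (XT.nd (nat_lit 312) (nat_lit 0) (nat_lit 0) (XT.nd (nat_lit 156) (nat_lit 0) (nat_lit 0) (XT.nd (nat_lit 78) (nat_lit 0) (nat_lit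 0) (XT.lf (nat_lit 0) (nat_lit 33570644452) (nat_lit 76) (nat_lit 72963863696) (nat_lit 76) (nat_lit 51356558627) (nat_lit 3) (nat_lit 4) (nat_lit 4) (nat_lit 5) (nat_lit 4) (nat_lit 4) (nat_lit 338) (nat_lit 237) (nat_lit 145)) (XT.lf (nat_lit 0) (nat_lit 45343292429) (nat_lit 76) (nat_lit 70891928645) (nat_lit 76) (nat_lit 49272932005) (nat_lit 3) (nat_lit 4) (nat_lit 4) (nat_lit 5) (nat_lit 4) (nat_lit 4) (nat_lit 339) (nat_lit 237) (nat_lit 144))) (XT.nd (nat_lit 78) (nat_lit 0) (nat_lit 0) (XT.lf (nat_lit 0) (nat_lit 57694255304) (nat_lit 76) (nat_lit 68721126735) (nat_lit 76) (nat_lit 47090995267) (nat_lit 3) (nat_lit 4) (nat_lit 4) (nat_lit 5) (nat_lit 4) (nat_lit 4) (nat_lit 340) (nat_lit 237) (nat_lit 143)) (XT.lf (nat_lit 0) (nat_lit 70652940131) (nat_lit 76) (nat_lit 66446289391) (nat_lit 76) (nat_lit 44805553324) (nat_lit 3) (nat_lit 4) (nat_lit 4) (nat_lit 5) (nat_lit 4)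 (nat_lit 4) (nat_lit 341) (nat_lit 237) (nat_lit 142)))) (XT.nd (nat_lit 156) (nat_lit 0) (nat_lit 0) (XT.nd (nat_lit 78) (nat_lit 0) (nat_lit 0) (XT.lf (nat_lit 0) (nat_lit 84250200921) (nat_lit 76) (nat_lit 64062000333) (nat_lit 76) (nat_lit 42411164648) (nat_lit 3) (nat_lit 4) (nat_lit 4) (nat_lit 5) (nat_lit 4) (nat_lit 4) (nat_lit 342) (nat_lit 237) (nat_lit 141)) (XT.lf (nat_lit 0) (nat_lit 98518412107) (nat_lit 76) (nat_lit 61562582682) (nat_lit 76) (nat_lit 39902128314) (nat_lit 3) (nat_lit 4) (nat_lit 4) (nat_lit 5) (nat_lit 4) (nat_lit 4) (nat_lit 343) (nat_lit 237) (nat_lit 140))) (XT.nd (nat_lit 78) (nat_lit 0) (nat_lit 0) (XT.lf (nat_lit 0) (nat_lit 113491545618) (nat_lit 76) (nat_lit 58942085445) (nat_lit 76) (nat_lit 37272470425) (nat_lit 3) (nat_lit 4) (nat_lit 4) (nat_lit 5) (nat_lit 4) (nat_lit 4) (nat_lit 344) (nat_lit 237) (nat_lit 139)) (XT.nd (nat_lit 78) (nat_lit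 0) (nat_lit 0) (XT.lf (nat_lit 0) (nat_lit 129205251772) (nat_lit 76) (nat_lit 56194269342) (nat_lit 76) (nat_lit 34515929892) (nat_lit 3) (nat_lit 4) (nat_lit 4) (nat_lit 5) (nat_lit 4) (nat_lit 4) (nat_lit 345) (nat_lit 237) (nat_lit 138)) (XT.lf (nat_lit 0) (nat_lit 145696944157) (nat_lit 76) (nat_lit 53312591953) (nat_lit 76) (nat_lit 31625943523) (nat_lit 3) (nat_lit 4) (nat_lit 4) (nat_lit 5) (nat_lit 4) (nat_lit 4) (nat_lit 346) (nat_lit 237) (nat_lit 137)))))) (XT.nd (nat_lit 312) (nat_lit 76) (nat_lit 0) (XT.nd (nat_lit 156) (nat_lit 0) (nat_lit 0) (XT.nd (nat_lit 78) (nat_lit 0) (nat_lit 0) (XT.lf (nat_lit 0) (nat_lit 163005888705) (nat_lit 76) (nat_lit 50290192143) (nat_lit 76) (nat_lit 28595630398) (nat_lit 3) (nat_lit 4) (nat_lit 4) (nat_lit 5) (nat_lit 4) (nat_lit 4) (nat_lit 347) (nat_lit 237) (nat_lit 136)) (XT.lf (nat_lit 0) (nat_lit 181173297190) (nat_lit 76) (nat_lit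 47119873720) (nat_lit 76) (nat_lit 25417775485) (nat_lit 3) (nat_lit 4) (nat_lit 4) (nat_lit 5) (nat_lit 4) (nat_lit 4) (nat_lit 348) (nat_lit 237) (nat_lit 135))) (XT.nd (nat_lit 78) (nat_lit 0) (nat_lit 0) (XT.lf (nat_lit 0) (nat_lit 200242425346) (nat_lit 76) (nat_lit 43794088309) (nat_lit 76) (nat_lit 22084812464) (nat_lit 3) (nat_lit 4) (nat_lit 4) (nat_lit 5) (nat_lit 4) (nat_lit 4) (nat_lit 349) (nat_lit 237) (nat_lit 134)) (XT.lf (nat_lit 0) (nat_lit 220258675859) (nat_lit 76) (nat_lit 40304917371) (nat_lit 76) (nat_lit 18588805707) (nat_lit 3) (nat_lit 4) (nat_lit 4) (nat_lit 5) (nat_lit 4) (nat_lit 4) (nat_lit 350) (nat_lit 237) (nat_lit 133)))) (XT.nd (nat_lit 156) (nat_lit 76) (nat_lit 0) (XT.nd (nat_lit 78) (nat_lit 0) (nat_lit 0) (XT.lf (nat_lit 0) (nat_lit 241269706469) (nat_lit 76) (nat_lit 36644053358) (nat_lit 76) (nat_lit 14921431390) (nat_lit 3) (nat_lit 4) (nat_lit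 4) (nat_lit 5) (nat_lit 4) (nat_lit 4) (nat_lit 351) (nat_lit 237) (nat_lit 132)) (XT.lf (nat_lit 0) (nat_lit 263325543439) (nat_lit 76) (nat_lit 32802779926) (nat_lit 76) (nat_lit 11073957669) (nat_lit 3) (nat_lit 4) (nat_lit 4) (nat_lit 5) (nat_lit 4) (nat_lit 4) (nat_lit 352) (nat_lit 237) (nat_lit 131))) (XT.nd (nat_lit 78) (nat_lit 76) (nat_lit 0) (XT.lf (nat_lit 0) (nat_lit 286478700667) (nat_lit 76) (nat_lit 28771951187) (nat_lit 76) (nat_lit 7037223893) (nat_lit 3) (nat_lit 4) (nat_lit 4) (nat_lit 5) (nat_lit 4) (nat_lit 4) (nat_lit 353) (nat_lit 237) (nat_lit 130)) (XT.nd (nat_lit 78) (nat_lit 76) (nat_lit 0) (XT.lf (nat_lit 0) (nat_lit 310784304717) (nat_lit 76) (nat_lit 24541969928) (nat_lit 76) (nat_lit 2801618789) (nat_lit 3) (nat_lit 4) (nat_lit 4) (nat_lit 5) (nat_lit 4) (nat_lit 4) (nat_lit 354) (nat_lit 237) (nat_lit 129)) (XT.lf (nat_lit 0) (nat_lit 1590357997) (nat_lit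 152) (nat_lit 18485473288) (nat_lit 76) (nat_lit 334682934595) (nat_lit 2) (nat_lit 5) (nat_lit 4) (nat_lit 5) (nat_lit 3) (nat_lit 4) (nat_lit 355) (nat_lit 237) (nat_lit 128))))))))
noncomputable def xc102 : XT := (XT.nd (nat_lit 29562) (nat_lit 0) (nat_lit 2812) (XT.nd (nat_lit 28860) (nat_lit 0) (nat_lit 7372) (XT.nd (nat_lit 312) (nat_lit 0) (nat_lit 0) (XT.nd (nat_lit 156) (nat_lit 0) (nat_lit 0) (XT.nd (nat_lit 78) (nat_lit 76) (nat_lit 0) (XT.lf (nat_lit 0) (nat_lit 6105177276) (nat_lit 152) (nat_lit 9235194759) (nat_lit 76) (nat_lit 356878645527) (nat_lit 2) (nat_lit 5) (nat_lit 4) (nat_lit 5) (nat_lit 3) (nat_lit 4) (nat_lit 356) (nat_lit 237) (nat_lit 127)) (XT.lf (nat_lit 0) (nat_lit 488652388) (nat_lit 76) (nat_lit 10362234759) (nat_lit 152) (nat_lit 379701138957) (nat_lit 1) (nat_lit 5) (nat_lit 2) (nat_lit 5) (nat_lit 3) (nat_lit 4) (nat_lit 357) (nat_lit 237) (nat_lit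 126))) (XT.nd (nat_lit 78) (nat_lit 0) (nat_lit 0) (XT.lf (nat_lit 0) (nat_lit 11014805722) (nat_lit 76) (nat_lit 4973047320) (nat_lit 152) (nat_lit 393806135176) (nat_lit 1) (nat_lit 5) (nat_lit 2) (nat_lit 5) (nat_lit 3) (nat_lit 4) (nat_lit 358) (nat_lit 237) (nat_lit 125)) (XT.lf (nat_lit 0) (nat_lit 21390024290) (nat_lit 152) (nat_lit 407945868785) (nat_lit 0) (nat_lit 661739104) (nat_lit 1) (nat_lit 5) (nat_lit 3) (nat_lit 4) (nat_lit 1) (nat_lit 4) (nat_lit 359) (nat_lit 237) (nat_lit 124)))) (XT.nd (nat_lit 156) (nat_lit 0) (nat_lit 0) (XT.nd (nat_lit 78) (nat_lit 0) (nat_lit 0) (XT.lf (nat_lit 0) (nat_lit 27141594159) (nat_lit 152) (nat_lit 417656588982) (nat_lit 0) (nat_lit 6409312211) (nat_lit 1) (nat_lit 5) (nat_lit 3) (nat_lit 4) (nat_lit 1) (nat_lit 4) (nat_lit 360) (nat_lit 237) (nat_lit 123)) (XT.lf (nat_lit 0) (nat_lit 33178613659) (nat_lit 152) (nat_lit 427856820643)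 (nat_lit 0) (nat_lit 12442525271) (nat_lit 1) (nat_lit 5) (nat_lit 3) (nat_lit 4) (nat_lit 1) (nat_lit 4) (nat_lit 361) (nat_lit 237) (nat_lit 122))) (XT.nd (nat_lit 78) (nat_lit 0) (nat_lit 0) (XT.lf (nat_lit 0) (nat_lit 39515456644) (nat_lit 152) (nat_lit 438570850036) (nat_lit 0) (nat_lit 18775743075) (nat_lit 1) (nat_lit 5) (nat_lit 3) (nat_lit 4) (nat_lit 1) (nat_lit 4) (nat_lit 362) (nat_lit 237) (nat_lit 121)) (XT.nd (nat_lit 28236) (nat_lit 0) (nat_lit 9196) (XT.lf (nat_lit 0) (nat_lit 46167210836) (nat_lit 152) (nat_lit 449824186753) (nat_lit 0) (nat_lit 25424044714) (nat_lit 1) (nat_lit 5) (nat_lit 3) (nat_lit 4) (nat_lit 1) (nat_lit 4) (nat_lit 363) (nat_lit 237) (nat_lit 120)) (XT.lf (nat_lit 0) (nat_lit 3005631118) (nat_lit 76) (nat_lit 120053259) (nat_lit 76) (nat_lit 120053259) (nat_lit 122) (nat_lit 4) (nat_lit 123) (nat_lit 5) (nat_lit 123) (nat_lit 4) (nat_lit 244)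 (nat_lit 238) (nat_lit 238)))))) (XT.nd (nat_lit 312) (nat_lit 988) (nat_lit 0) (XT.nd (nat_lit 156) (nat_lit 608) (nat_lit 0) (XT.nd (nat_lit 78) (nat_lit 0) (nat_lit 0) (XT.lf (nat_lit 0) (nat_lit 2639949412) (nat_lit 228) (nat_lit 3624644389) (nat_lit 0) (nat_lit 254850262) (nat_lit 119) (nat_lit 5) (nat_lit 122) (nat_lit 4) (nat_lit 119) (nat_lit 4) (nat_lit 245) (nat_lit 238) (nat_lit 237)) (XT.lf (nat_lit 0) (nat_lit 5498077771) (nat_lit 228) (nat_lit 217836491) (nat_lit 0) (nat_lit 841455620) (nat_lit 119) (nat_lit 5) (nat_lit 122) (nat_lit 4) (nat_lit 119) (nat_lit 4) (nat_lit 246) (nat_lit 238) (nat_lit 236))) (XT.nd (nat_lit 78) (nat_lit 304) (nat_lit 0) (XT.lf (nat_lit 0) (nat_lit 1728881249) (nat_lit 304) (nat_lit 3275770829) (nat_lit 76) (nat_lit 1597445663) (nat_lit 115) (nat_lit 5) (nat_lit 119) (nat_lit 5) (nat_lit 116) (nat_lit 4) (nat_lit 247) (nat_lit 238) (nat_lit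 235)) (XT.lf (nat_lit 0) (nat_lit 282680374) (nat_lit 304) (nat_lit 4187073814) (nat_lit 380) (nat_lit 2186739948) (nat_lit 111) (nat_lit 5) (nat_lit 115) (nat_lit 5) (nat_lit 116) (nat_lit 4) (nat_lit 248) (nat_lit 238) (nat_lit 234)))) (XT.nd (nat_lit 156) (nat_lit 532) (nat_lit 0) (XT.nd (nat_lit 78) (nat_lit 380) (nat_lit 0) (XT.lf (nat_lit 0) (nat_lit 513490188) (nat_lit 380) (nat_lit 2708184463) (nat_lit 76) (nat_lit 3497130209) (nat_lit 110) (nat_lit 5) (nat_lit 115) (nat_lit 5) (nat_lit 111) (nat_lit 5) (nat_lit 249) (nat_lit 238) (nat_lit 233)) (XT.lf (nat_lit 0) (nat_lit 1024014352) (nat_lit 380) (nat_lit 2118013972) (nat_lit 456) (nat_lit 3647714609) (nat_lit 105) (nat_lit 5) (nat_lit 110) (nat_lit 5) (nat_lit 111) (nat_lit 5) (nat_lit 250) (nat_lit 238) (nat_lit 232))) (XT.nd (nat_lit 78) (nat_lit 532) (nat_lit 0) (XT.lf (nat_lit 0) (nat_lit 4925039431) (nat_lit 380) (nat_lit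 878975189) (nat_lit 456) (nat_lit 1065725075) (nat_lit 105) (nat_lit 5) (nat_lit 110) (nat_lit 5) (nat_lit 111) (nat_lit 5) (nat_lit 251) (nat_lit 238) (nat_lit 231)) (XT.nd (nat_lit 78) (nat_lit 0) (nat_lit 0) (XT.lf (nat_lit 0) (nat_lit 1491986976) (nat_lit 532) (nat_lit 4972554990) (nat_lit 76) (nat_lit 493501515) (nat_lit 98) (nat_lit 5) (nat_lit 105) (nat_lit 5) (nat_lit 99) (nat_lit 5) (nat_lit 252) (nat_lit 238) (nat_lit 230)) (XT.lf (nat_lit 0) (nat_lit 4055181297) (nat_lit 532) (nat_lit 1019355668) (nat_lit 76) (nat_lit 1980210745) (nat_lit 98) (nat_lit 5) (nat_lit 105) (nat_lit 5) (nat_lit 99) (nat_lit 5) (nat_lit 253) (nat_lit 238) (nat_lit 229))))))) (XT.nd (nat_lit 702) (nat_lit 1444) (nat_lit 0) (XT.nd (nat_lit 312) (nat_lit 1216) (nat_lit 0) (XT.nd (nat_lit 156) (nat_lit 684) (nat_lit 0) (XT.nd (nat_lit 78) (nat_lit 684) (nat_lit 0) (XT.lf (nat_lit 0) (nat_lit 3119418806)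 (nat_lit 532) (nat_lit 3547751054) (nat_lit 608) (nat_lit 493589755) (nat_lit 91) (nat_lit 5) (nat_lit 98) (nat_lit 5) (nat_lit 99) (nat_lit 5) (nat_lit 254) (nat_lit 238) (nat_lit 228)) (XT.lf (nat_lit 0) (nat_lit 83579688) (nat_lit 608) (nat_lit 1878356309) (nat_lit 684) (nat_lit 5314291194) (nat_lit 82) (nat_lit 5) (nat_lit 90) (nat_lit 5) (nat_lit 91) (nat_lit 5) (nat_lit 255) (nat_lit 238) (nat_lit 227))) (XT.nd (nat_lit 78) (nat_lit 684) (nat_lit 0) (XT.lf (nat_lit 0) (nat_lit 4433794168) (nat_lit 608) (nat_lit 36231904) (nat_lit 684) (nat_lit 2930154235) (nat_lit 82) (nat_lit 5) (nat_lit 90) (nat_lit 5) (nat_lit 91) (nat_lit 5) (nat_lit 256) (nat_lit 238) (nat_lit 226)) (XT.lf (nat_lit 0) (nat_lit 1371575628) (nat_lit 684) (nat_lit 5666997405) (nat_lit 760) (nat_lit 495420227) (nat_lit 73) (nat_lit 5) (nat_lit 82) (nat_lit 5) (nat_lit 83) (nat_lit 5) (nat_lit 257) (nat_lit 238)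 (nat_lit 225)))) (XT.nd (nat_lit 156) (nat_lit 760) (nat_lit 0) (XT.nd (nat_lit 78) (nat_lit 380) (nat_lit 0) (XT.lf (nat_lit 0) (nat_lit 1932296061) (nat_lit 760) (nat_lit 1792361632) (nat_lit 76) (nat_lit 3951745861) (nat_lit 72) (nat_lit 5) (nat_lit 82) (nat_lit 5) (nat_lit 73) (nat_lit 5) (nat_lit 258) (nat_lit 238) (nat_lit 224)) (XT.lf (nat_lit 0) (nat_lit 2765934076) (nat_lit 380) (nat_lit 1633005706) (nat_lit 456) (nat_lit 3430237266) (nat_lit 67) (nat_lit 5) (nat_lit 72) (nat_lit 5) (nat_lit 73) (nat_lit 5) (nat_lit 259) (nat_lit 238) (nat_lit 223))) (XT.nd (nat_lit 78) (nat_lit 760) (nat_lit 0) (XT.lf (nat_lit 0) (nat_lit 6923005786) (nat_lit 456) (nat_lit 497438620) (nat_lit 76) (nat_lit 572781565) (nat_lit 67) (nat_lit 5) (nat_lit 73) (nat_lit 5) (nat_lit 68) (nat_lit 5) (nat_lit 260) (nat_lit 238) (nat_lit 222)) (XT.nd (nat_lit 78) (nat_lit 304) (nat_lit 0) (XT.lf (nat_lit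 0) (nat_lit 1355668375) (nat_lit 456) (nat_lit 3889534605) (nat_lit 76) (nat_lit 2919838457) (nat_lit 61) (nat_lit 5) (nat_lit 67) (nat_lit 5) (nat_lit 62) (nat_lit 5) (nat_lit 261) (nat_lit 238) (nat_lit 221)) (XT.lf (nat_lit 0) (nat_lit 858313867) (nat_lit 304) (nat_lit 2931221262) (nat_lit 380) (nat_lit 4559197599) (nat_lit 57) (nat_lit 5) (nat_lit 61) (nat_lit 5) (nat_lit 62) (nat_lit 5) (nat_lit 262) (nat_lit 238) (nat_lit 220)))))) (XT.nd (nat_lit 312) (nat_lit 836) (nat_lit 0) (XT.nd (nat_lit 156) (nat_lit 228) (nat_lit 0) (XT.nd (nat_lit 78) (nat_lit 380) (nat_lit 0) (XT.lf (nat_lit 0) (nat_lit 5869560124) (nat_lit 304) (nat_lit 445120191) (nat_lit 380) (nat_lit 2228729766) (nat_lit 57) (nat_lit 5) (nat_lit 61) (nat_lit 5) (nat_lit 62) (nat_lit 5) (nat_lit 263) (nat_lit 238) (nat_lit 219)) (XT.lf (nat_lit 0) (nat_lit 188722011) (nat_lit 380) (nat_lit 6436884140) (nat_lit 76)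 (nat_lit 2123427104) (nat_lit 52) (nat_lit 5) (nat_lit 57) (nat_lit 5) (nat_lit 53) (nat_lit 5) (nat_lit 264) (nat_lit 238) (nat_lit 218))) (XT.nd (nat_lit 78) (nat_lit 228) (nat_lit 0) (XT.lf (nat_lit 0) (nat_lit 2614578833) (nat_lit 380) (nat_lit 1476970448) (nat_lit 76) (nat_lit 4873682384) (nat_lit 52) (nat_lit 5) (nat_lit 57) (nat_lit 5) (nat_lit 53) (nat_lit 5) (nat_lit 265) (nat_lit 238) (nat_lit 217)) (XT.lf (nat_lit 0) (nat_lit 3746075565) (nat_lit 228) (nat_lit 1387577811) (nat_lit 304) (nat_lit 4060221350) (nat_lit 49) (nat_lit 5) (nat_lit 52) (nat_lit 5) (nat_lit 53) (nat_lit 5) (nat_lit 266) (nat_lit 238) (nat_lit 216)))) (XT.nd (nat_lit 156) (nat_lit 456) (nat_lit 0) (XT.nd (nat_lit 78) (nat_lit 380) (nat_lit 0) (XT.lf (nat_lit 0) (nat_lit 7742422243) (nat_lit 304) (nat_lit 281418715) (nat_lit 76) (nat_lit 1412141930) (nat_lit 49) (nat_lit 5) (nat_lit 53) (nat_lit 5) (nat_lit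 50) (nat_lit 5) (nat_lit 267) (nat_lit 238) (nat_lit 215)) (XT.lf (nat_lit 0) (nat_lit 789642617) (nat_lit 380) (nat_lit 4517600518) (nat_lit 76) (nat_lit 4381358008) (nat_lit 44) (nat_lit 5) (nat_lit 49) (nat_lit 5) (nat_lit 45) (nat_lit 5) (nat_lit 268) (nat_lit 238) (nat_lit 214))) (XT.nd (nat_lit 78) (nat_lit 228) (nat_lit 0) (XT.lf (nat_lit 0) (nat_lit 848240914) (nat_lit 228) (nat_lit 2430392250) (nat_lit 304) (nat_lit 6677091913) (nat_lit 41) (nat_lit 5) (nat_lit 44) (nat_lit 5) (nat_lit 45) (nat_lit 5) (nat_lit 269) (nat_lit 238) (nat_lit 213)) (XT.nd (nat_lit 78) (nat_lit 228) (nat_lit 0) (XT.lf (nat_lit 0) (nat_lit 5901328739) (nat_lit 304) (nat_lit 3708904701) (nat_lit 76) (nat_lit 625689968) (nat_lit 41) (nat_lit 5) (nat_lit 45) (nat_lit 5) (nat_lit 42) (nat_lit 5) (nat_lit 270) (nat_lit 238) (nat_lit 212)) (XT.lf (nat_lit 0) (nat_lit 1879665406) (nat_lit 228) (nat_lit 6770661379)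 (nat_lit 304) (nat_lit 1880218844) (nat_lit 38) (nat_lit 5) (nat_lit 41) (nat_lit 5) (nat_lit 42) (nat_lit 5) (nat_lit 271) (nat_lit 238) (nat_lit 211))))))))
noncomputable def xc103 : XT := (XT.nd (nat_lit 1404) (nat_lit 684) (nat_lit 0) (XT.nd (nat_lit 702) (nat_lit 684) (nat_lit 0) (XT.nd (nat_lit 312) (nat_lit 380) (nat_lit 0) (XT.nd (nat_lit 156) (nat_lit 228) (nat_lit 0) (XT.nd (nat_lit 78) (nat_lit 152) (nat_lit 0) (XT.lf (nat_lit 0) (nat_lit 665036517) (nat_lit 304) (nat_lit 3073461746) (nat_lit 76) (nat_lit 7101489765) (nat_lit 37) (nat_lit 5) (nat_lit 41) (nat_lit 5) (nat_lit 38) (nat_lit 5) (nat_lit 272) (nat_lit 238) (nat_lit 210)) (XT.lf (nat_lit 0) (nat_lit 2743408391) (nat_lit 152) (nat_lit 503908314) (nat_lit 228) (nat_lit 7917546082) (nat_lit 35) (nat_lit 5) (nat_lit 37) (nat_lit 5) (nat_lit 38) (nat_lit 5) (nat_lit 273) (nat_lit 238) (nat_lit 209))) (XT.nd (nat_lit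 78) (nat_lit 228) (nat_lit 0) (XT.lf (nat_lit 0) (nat_lit 5988319146) (nat_lit 228) (nat_lit 2689537306) (nat_lit 76) (nat_lit 2826786218) (nat_lit 35) (nat_lit 5) (nat_lit 38) (nat_lit 5) (nat_lit 36) (nat_lit 5) (nat_lit 274) (nat_lit 238) (nat_lit 208)) (XT.lf (nat_lit 0) (nat_lit 3334120567) (nat_lit 228) (nat_lit 5527372375) (nat_lit 304) (nat_lit 3000297591) (nat_lit 32) (nat_lit 5) (nat_lit 35) (nat_lit 5) (nat_lit 36) (nat_lit 5) (nat_lit 275) (nat_lit 238) (nat_lit 207)))) (XT.nd (nat_lit 156) (nat_lit 152) (nat_lit 0) (XT.nd (nat_lit 78) (nat_lit 228) (nat_lit 0) (XT.lf (nat_lit 0) (nat_lit 9660533990) (nat_lit 228) (nat_lit 2199816744) (nat_lit 304) (nat_lit 377472405) (nat_lit 32) (nat_lit 5) (nat_lit 35) (nat_lit 5) (nat_lit 36) (nat_lit 5) (nat_lit 276) (nat_lit 238) (nat_lit 206)) (XT.lf (nat_lit 0) (nat_lit 2317296016) (nat_lit 228) (nat_lit 8991353742) (nat_lit 76)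 (nat_lit 1321425859) (nat_lit 29) (nat_lit 5) (nat_lit 32) (nat_lit 5) (nat_lit 30) (nat_lit 5) (nat_lit 277) (nat_lit 238) (nat_lit 205))) (XT.nd (nat_lit 78) (nat_lit 152) (nat_lit 0) (XT.lf (nat_lit 0) (nat_lit 5154053429) (nat_lit 228) (nat_lit 2918527822) (nat_lit 76) (nat_lit 4968164361) (nat_lit 29) (nat_lit 5) (nat_lit 32) (nat_lit 5) (nat_lit 30) (nat_lit 5) (nat_lit 278) (nat_lit 238) (nat_lit 204)) (XT.nd (nat_lit 78) (nat_lit 0) (nat_lit 0) (XT.lf (nat_lit 0) (nat_lit 3482924815) (nat_lit 152) (nat_lit 4646492947) (nat_lit 228) (nat_lit 5342798704) (nat_lit 27) (nat_lit 5) (nat_lit 29) (nat_lit 5) (nat_lit 30) (nat_lit 5) (nat_lit 279) (nat_lit 238) (nat_lit 203)) (XT.lf (nat_lit 0) (nat_lit 10220679855) (nat_lit 152) (nat_lit 1026102695) (nat_lit 228) (nat_lit 2678917476) (nat_lit 27) (nat_lit 5) (nat_lit 29) (nat_lit 5) (nat_lit 30) (nat_lit 5) (nat_lit 280) (nat_lit 238)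 (nat_lit 202)))))) (XT.nd (nat_lit 312) (nat_lit 304) (nat_lit 0) (XT.nd (nat_lit 156) (nat_lit 152) (nat_lit 0) (XT.nd (nat_lit 78) (nat_lit 0) (nat_lit 0) (XT.lf (nat_lit 0) (nat_lit 148847680) (nat_lit 228) (nat_lit 11544423311) (nat_lit 76) (nat_lit 2706862354) (nat_lit 24) (nat_lit 5) (nat_lit 27) (nat_lit 5) (nat_lit 25) (nat_lit 5) (nat_lit 281) (nat_lit 238) (nat_lit 201)) (XT.lf (nat_lit 0) (nat_lit 3054956274) (nat_lit 228) (nat_lit 5167710736) (nat_lit 76) (nat_lit 6672163321) (nat_lit 24) (nat_lit 5) (nat_lit 27) (nat_lit 5) (nat_lit 25) (nat_lit 5) (nat_lit 282) (nat_lit 238) (nat_lit 200))) (XT.nd (nat_lit 78) (nat_lit 0) (nat_lit 0) (XT.lf (nat_lit 0) (nat_lit 1495808152) (nat_lit 152) (nat_lit 4582856931) (nat_lit 228) (nat_lit 9337065252) (nat_lit 22) (nat_lit 5) (nat_lit 24) (nat_lit 5) (nat_lit 25) (nat_lit 5) (nat_lit 283) (nat_lit 238) (nat_lit 199)) (XT.lf (nat_lit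 0) (nat_lit 8593298501) (nat_lit 152) (nat_lit 697923511) (nat_lit 228) (nat_lit 6669649152) (nat_lit 22) (nat_lit 5) (nat_lit 24) (nat_lit 5) (nat_lit 25) (nat_lit 5) (nat_lit 284) (nat_lit 238) (nat_lit 198)))) (XT.nd (nat_lit 156) (nat_lit 228) (nat_lit 0) (XT.nd (nat_lit 78) (nat_lit 76) (nat_lit 0) (XT.lf (nat_lit 0) (nat_lit 12669289068) (nat_lit 228) (nat_lit 617290280) (nat_lit 76) (nat_lit 3246520770) (nat_lit 22) (nat_lit 5) (nat_lit 25) (nat_lit 5) (nat_lit 23) (nat_lit 4) (nat_lit 285) (nat_lit 238) (nat_lit 197)) (XT.lf (nat_lit 0) (nat_lit 6596977207) (nat_lit 76) (nat_lit 9688093695) (nat_lit 152) (nat_lit 845500667) (nat_lit 21) (nat_lit 5) (nat_lit 22) (nat_lit 5) (nat_lit 23) (nat_lit 4) (nat_lit 286) (nat_lit 238) (nat_lit 196))) (XT.nd (nat_lit 78) (nat_lit 152) (nat_lit 0) (XT.lf (nat_lit 0) (nat_lit 2214600732) (nat_lit 152) (nat_lit 3674072390) (nat_lit 76) (nat_lit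 11869231974) (nat_lit 20) (nat_lit 5) (nat_lit 22) (nat_lit 5) (nat_lit 21) (nat_lit 5) (nat_lit 287) (nat_lit 238) (nat_lit 195)) (XT.nd (nat_lit 78) (nat_lit 0) (nat_lit 0) (XT.lf (nat_lit 0) (nat_lit 3558343506) (nat_lit 152) (nat_lit 1853289544) (nat_lit 228) (nat_lit 13003724072) (nat_lit 18) (nat_lit 5) (nat_lit 20) (nat_lit 5) (nat_lit 21) (nat_lit 5) (nat_lit 288) (nat_lit 238) (nat_lit 194)) (XT.lf (nat_lit 0) (nat_lit 8826325844) (nat_lit 228) (nat_lit 7931606749) (nat_lit 76) (nat_lit 2344917634) (nat_lit 18) (nat_lit 5) (nat_lit 21) (nat_lit 5) (nat_lit 19) (nat_lit 4) (nat_lit 289) (nat_lit 238) (nat_lit 193))))))) (XT.nd (nat_lit 702) (nat_lit 304) (nat_lit 0) (XT.nd (nat_lit 312) (nat_lit 76) (nat_lit 0) (XT.nd (nat_lit 156) (nat_lit 228) (nat_lit 0) (XT.nd (nat_lit 78) (nat_lit 76) (nat_lit 0) (XT.lf (nat_lit 0) (nat_lit 12401513972) (nat_lit 228) (nat_lit 757676080)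 (nat_lit 76) (nat_lit 6666096015) (nat_lit 18) (nat_lit 5) (nat_lit 21) (nat_lit 5) (nat_lit 19) (nat_lit 4) (nat_lit 290) (nat_lit 238) (nat_lit 192)) (XT.lf (nat_lit 0) (nat_lit 6932683384) (nat_lit 76) (nat_lit 9292329975) (nat_lit 152) (nat_lit 4355406191) (nat_lit 17) (nat_lit 5) (nat_lit 18) (nat_lit 5) (nat_lit 19) (nat_lit 4) (nat_lit 291) (nat_lit 238) (nat_lit 191))) (XT.nd (nat_lit 78) (nat_lit 228) (nat_lit 0) (XT.lf (nat_lit 0) (nat_lit 14970743514) (nat_lit 76) (nat_lit 5243945765) (nat_lit 152) (nat_lit 1159921248) (nat_lit 17) (nat_lit 5) (nat_lit 18) (nat_lit 5) (nat_lit 19) (nat_lit 4) (nat_lit 292) (nat_lit 238) (nat_lit 190)) (XT.lf (nat_lit 0) (nat_lit 1143132796) (nat_lit 152) (nat_lit 963121953) (nat_lit 228) (nat_lit 20101529632) (nat_lit 14) (nat_lit 5) (nat_lit 16) (nat_lit 5) (nat_lit 17) (nat_lit 5) (nat_lit 293) (nat_lit 238) (nat_lit 189)))) (XT.nd (nat_lit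 156) (nat_lit 76) (nat_lit 0) (XT.nd (nat_lit 78) (nat_lit 0) (nat_lit 0) (XT.lf (nat_lit 0) (nat_lit 5625883693) (nat_lit 228) (nat_lit 13925156475) (nat_lit 76) (nat_lit 3524213718) (nat_lit 14) (nat_lit 5) (nat_lit 17) (nat_lit 5) (nat_lit 15) (nat_lit 4) (nat_lit 294) (nat_lit 238) (nat_lit 188)) (XT.lf (nat_lit 0) (nat_lit 9302763159) (nat_lit 228) (nat_lit 6503369926) (nat_lit 76) (nat_lit 8180942201) (nat_lit 14) (nat_lit 5) (nat_lit 17) (nat_lit 5) (nat_lit 15) (nat_lit 4) (nat_lit 295) (nat_lit 238) (nat_lit 187))) (XT.nd (nat_lit 78) (nat_lit 0) (nat_lit 0) (XT.lf (nat_lit 0) (nat_lit 1274198319) (nat_lit 76) (nat_lit 11876306077) (nat_lit 152) (nat_lit 11794672350) (nat_lit 13) (nat_lit 5) (nat_lit 14) (nat_lit 5) (nat_lit 15) (nat_lit 4) (nat_lit 296) (nat_lit 238) (nat_lit 186)) (XT.nd (nat_lit 78) (nat_lit 0) (nat_lit 0) (XT.lf (nat_lit 0) (nat_lit 9611242036) (nat_lit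 76) (nat_lit 7657356295) (nat_lit 152) (nat_lit 8678724647) (nat_lit 13) (nat_lit 5) (nat_lit 14) (nat_lit 5) (nat_lit 15) (nat_lit 4) (nat_lit 297) (nat_lit 238) (nat_lit 185)) (XT.lf (nat_lit 0) (nat_lit 18312580550) (nat_lit 76) (nat_lit 3249376335) (nat_lit 152) (nat_lit 5439187811) (nat_lit 13) (nat_lit 5) (nat_lit 14) (nat_lit 5) (nat_lit 15) (nat_lit 4) (nat_lit 298) (nat_lit 238) (nat_lit 184)))))) (XT.nd (nat_lit 390) (nat_lit 76) (nat_lit 0) (XT.nd (nat_lit 156) (nat_lit 76) (nat_lit 0) (XT.nd (nat_lit 78) (nat_lit 152) (nat_lit 0) (XT.lf (nat_lit 0) (nat_lit 26062006542) (nat_lit 152) (nat_lit 731423870) (nat_lit 0) (nat_lit 1314660381) (nat_lit 13) (nat_lit 5) (nat_lit 15) (nat_lit 4) (nat_lit 13) (nat_lit 4) (nat_lit 299) (nat_lit 238) (nat_lit 183)) (XT.lf (nat_lit 0) (nat_lit 1616982511) (nat_lit 152) (nat_lit 21518955960) (nat_lit 76) (nat_lit 6125850438) (nat_lit 11)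 (nat_lit 5) (nat_lit 13) (nat_lit 5) (nat_lit 12) (nat_lit 4) (nat_lit 300) (nat_lit 238) (nat_lit 182))) (XT.nd (nat_lit 78) (nat_lit 76) (nat_lit 0) (XT.lf (nat_lit 0) (nat_lit 5379036563) (nat_lit 152) (nat_lit 13889053674) (nat_lit 76) (nat_lit 11204204544) (nat_lit 11) (nat_lit 5) (nat_lit 13) (nat_lit 5) (nat_lit 12) (nat_lit 4) (nat_lit 301) (nat_lit 238) (nat_lit 181)) (XT.nd (nat_lit 78) (nat_lit 76) (nat_lit 0) (XT.lf (nat_lit 0) (nat_lit 9302532096) (nat_lit 152) (nat_lit 5924276901) (nat_lit 76) (nat_lit 16517878354) (nat_lit 11) (nat_lit 5) (nat_lit 13) (nat_lit 5) (nat_lit 12) (nat_lit 4) (nat_lit 302) (nat_lit 238) (nat_lit 180)) (XT.lf (nat_lit 0) (nat_lit 2473505744) (nat_lit 76) (nat_lit 10961923376) (nat_lit 152) (nat_lit 19644636084) (nat_lit 10) (nat_lit 5) (nat_lit 11) (nat_lit 5) (nat_lit 12) (nat_lit 4) (nat_lit 303) (nat_lit 238) (nat_lit 179))))) (XT.nd (nat_lit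 156) (nat_lit 76) (nat_lit 0) (XT.nd (nat_lit 78) (nat_lit 0) (nat_lit 0) (XT.lf (nat_lit 0) (nat_lit 11453170581) (nat_lit 76) (nat_lit 6397266360) (nat_lit 152) (nat_lit 16628027420) (nat_lit 10) (nat_lit 5) (nat_lit 11) (nat_lit 5) (nat_lit 12) (nat_lit 4) (nat_lit 304) (nat_lit 238) (nat_lit 178)) (XT.lf (nat_lit 0) (nat_lit 20840214413) (nat_lit 76) (nat_lit 1622300214) (nat_lit 152) (nat_lit 13485477356) (nat_lit 10) (nat_lit 5) (nat_lit 11) (nat_lit 5) (nat_lit 12) (nat_lit 4) (nat_lit 305) (nat_lit 238) (nat_lit 177))) (XT.nd (nat_lit 78) (nat_lit 76) (nat_lit 0) (XT.lf (nat_lit 0) (nat_lit 27335326284) (nat_lit 152) (nat_lit 6887842571) (nat_lit 0) (nat_lit 3266343946) (nat_lit 10) (nat_lit 5) (nat_lit 12) (nat_lit 4) (nat_lit 10) (nat_lit 4) (nat_lit 306) (nat_lit 238) (nat_lit 176)) (XT.nd (nat_lit 78) (nat_lit 0) (nat_lit 0) (XT.lf (nat_lit 0) (nat_lit 1733394949) (nat_lit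 76) (nat_lit 30750309055) (nat_lit 76) (nat_lit 6622831587) (nat_lit 9) (nat_lit 4) (nat_lit 10) (nat_lit 5) (nat_lit 10) (nat_lit 4) (nat_lit 307) (nat_lit 238) (nat_lit 175)) (XT.lf (nat_lit 0) (nat_lit 10986868313) (nat_lit 76) (nat_lit 26997990773) (nat_lit 76) (nat_lit 2814803658) (nat_lit 9) (nat_lit 4) (nat_lit 10) (nat_lit 5) (nat_lit 10) (nat_lit 4) (nat_lit 308) (nat_lit 238) (nat_lit 174))))))))
noncomputable def xc104 : XT := (XT.nd (nat_lit 1404) (nat_lit 76) (nat_lit 0) (XT.nd (nat_lit 702) (nat_lit 228) (nat_lit 0) (XT.nd (nat_lit 312) (nat_lit 0) (nat_lit 0) (XT.nd (nat_lit 156) (nat_lit 76) (nat_lit 0) (XT.nd (nat_lit 78) (nat_lit 0) (nat_lit 0) (XT.lf (nat_lit 0) (nat_lit 1125113714) (nat_lit 152) (nat_lit 21929760807) (nat_lit 76) (nat_lit 19522698360) (nat_lit 8) (nat_lit 5) (nat_lit 10) (nat_lit 5) (nat_lit 9) (nat_lit 4) (nat_lit 309) (nat_lit 238) (nat_lit 173))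 (XT.lf (nat_lit 0) (nat_lit 5147784868) (nat_lit 152) (nat_lit 13733815234) (nat_lit 76) (nat_lit 25561471787) (nat_lit 8) (nat_lit 5) (nat_lit 10) (nat_lit 5) (nat_lit 9) (nat_lit 4) (nat_lit 310) (nat_lit 238) (nat_lit 172))) (XT.nd (nat_lit 78) (nat_lit 76) (nat_lit 0) (XT.lf (nat_lit 0) (nat_lit 9352878887) (nat_lit 152) (nat_lit 5161496584) (nat_lit 76) (nat_lit 31888423311) (nat_lit 8) (nat_lit 5) (nat_lit 10) (nat_lit 5) (nat_lit 9) (nat_lit 4) (nat_lit 311) (nat_lit 238) (nat_lit 171)) (XT.lf (nat_lit 0) (nat_lit 3933502057) (nat_lit 76) (nat_lit 9878318832) (nat_lit 152) (nat_lit 34646528035) (nat_lit 7) (nat_lit 5) (nat_lit 8) (nat_lit 5) (nat_lit 9) (nat_lit 4) (nat_lit 312) (nat_lit 238) (nat_lit 170)))) (XT.nd (nat_lit 156) (nat_lit 0) (nat_lit 0) (XT.nd (nat_lit 78) (nat_lit 0) (nat_lit 0) (XT.lf (nat_lit 0) (nat_lit 13631126993) (nat_lit 76) (nat_lit 4932535312) (nat_lit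 152) (nat_lit 32049532436) (nat_lit 7) (nat_lit 5) (nat_lit 8) (nat_lit 5) (nat_lit 9) (nat_lit 4) (nat_lit 313) (nat_lit 238) (nat_lit 169)) (XT.lf (nat_lit 0) (nat_lit 23540328742) (nat_lit 152) (nat_lit 29096685538) (nat_lit 0) (nat_lit 239421951) (nat_lit 7) (nat_lit 5) (nat_lit 9) (nat_lit 4) (nat_lit 7) (nat_lit 4) (nat_lit 314) (nat_lit 238) (nat_lit 168))) (XT.nd (nat_lit 78) (nat_lit 0) (nat_lit 0) (XT.lf (nat_lit 0) (nat_lit 28830656621) (nat_lit 152) (nat_lit 20926912735) (nat_lit 0) (nat_lit 5492043348) (nat_lit 7) (nat_lit 5) (nat_lit 9) (nat_lit 4) (nat_lit 7) (nat_lit 4) (nat_lit 315) (nat_lit 238) (nat_lit 167)) (XT.nd (nat_lit 78) (nat_lit 0) (nat_lit 0) (XT.lf (nat_lit 0) (nat_lit 34370231263) (nat_lit 152) (nat_lit 12376286799) (nat_lit 0) (nat_lit 10995707055) (nat_lit 7) (nat_lit 5) (nat_lit 9) (nat_lit 4) (nat_lit 7) (nat_lit 4) (nat_lit 316) (nat_lit 238) (nat_lit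 166)) (XT.lf (nat_lit 0) (nat_lit 40172242130) (nat_lit 152) (nat_lit 3424449096) (nat_lit 0) (nat_lit 16763517031) (nat_lit 7) (nat_lit 5) (nat_lit 9) (nat_lit 4) (nat_lit 7) (nat_lit 4) (nat_lit 317) (nat_lit 238) (nat_lit 165)))))) (XT.nd (nat_lit 312) (nat_lit 152) (nat_lit 0) (XT.nd (nat_lit 156) (nat_lit 0) (nat_lit 0) (XT.nd (nat_lit 78) (nat_lit 0) (nat_lit 0) (XT.lf (nat_lit 0) (nat_lit 6146645307) (nat_lit 76) (nat_lit 40199824586) (nat_lit 76) (nat_lit 16758527210) (nat_lit 6) (nat_lit 4) (nat_lit 7) (nat_lit 5) (nat_lit 7) (nat_lit 4) (nat_lit 318) (nat_lit 238) (nat_lit 164)) (XT.lf (nat_lit 0) (nat_lit 16290521646) (nat_lit 76) (nat_lit 36583306577) (nat_lit 76) (nat_lit 13110987985) (nat_lit 6) (nat_lit 4) (nat_lit 7) (nat_lit 5) (nat_lit 7) (nat_lit 4) (nat_lit 319) (nat_lit 238) (nat_lit 163))) (XT.nd (nat_lit 78) (nat_lit 0) (nat_lit 0) (XT.lf (nat_lit 0) (nat_lit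 26918104253) (nat_lit 76) (nat_lit 32796521147) (nat_lit 76) (nat_lit 9294658539) (nat_lit 6) (nat_lit 4) (nat_lit 7) (nat_lit 5) (nat_lit 7) (nat_lit 4) (nat_lit 320) (nat_lit 238) (nat_lit 162)) (XT.lf (nat_lit 0) (nat_lit 38054696897) (nat_lit 76) (nat_lit 28830452138) (nat_lit 76) (nat_lit 5300452372) (nat_lit 6) (nat_lit 4) (nat_lit 7) (nat_lit 5) (nat_lit 7) (nat_lit 4) (nat_lit 321) (nat_lit 238) (nat_lit 161)))) (XT.nd (nat_lit 156) (nat_lit 76) (nat_lit 0) (XT.nd (nat_lit 78) (nat_lit 76) (nat_lit 0) (XT.lf (nat_lit 0) (nat_lit 49726815275) (nat_lit 76) (nat_lit 24675656529) (nat_lit 76) (nat_lit 1118859471) (nat_lit 6) (nat_lit 4) (nat_lit 7) (nat_lit 5) (nat_lit 7) (nat_lit 4) (nat_lit 322) (nat_lit 238) (nat_lit 160)) (XT.lf (nat_lit 0) (nat_lit 3155733536) (nat_lit 152) (nat_lit 17113064539) (nat_lit 76) (nat_lit 58753072733) (nat_lit 5) (nat_lit 5) (nat_lit 7) (nat_lit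 5) (nat_lit 6) (nat_lit 4) (nat_lit 323) (nat_lit 238) (nat_lit 159))) (XT.nd (nat_lit 78) (nat_lit 76) (nat_lit 0) (XT.lf (nat_lit 0) (nat_lit 7595635096) (nat_lit 152) (nat_lit 8035572277) (nat_lit 76) (nat_lit 67065862640) (nat_lit 5) (nat_lit 5) (nat_lit 7) (nat_lit 5) (nat_lit 6) (nat_lit 4) (nat_lit 324) (nat_lit 238) (nat_lit 158)) (XT.nd (nat_lit 78) (nat_lit 0) (nat_lit 0) (XT.lf (nat_lit 0) (nat_lit 1525880087) (nat_lit 76) (nat_lit 10745170069) (nat_lit 152) (nat_lit 74284311470) (nat_lit 4) (nat_lit 5) (nat_lit 5) (nat_lit 5) (nat_lit 6) (nat_lit 4) (nat_lit 325) (nat_lit 238) (nat_lit 157)) (XT.lf (nat_lit 0) (nat_lit 11825932247) (nat_lit 76) (nat_lit 5480287840) (nat_lit 152) (nat_lit 73294056497) (nat_lit 4) (nat_lit 5) (nat_lit 5) (nat_lit 5) (nat_lit 6) (nat_lit 4) (nat_lit 326) (nat_lit 238) (nat_lit 156))))))) (XT.nd (nat_lit 702) (nat_lit 76) (nat_lit 0) (XT.nd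 (nat_lit 312) (nat_lit 0) (nat_lit 0) (XT.nd (nat_lit 156) (nat_lit 0) (nat_lit 0) (XT.nd (nat_lit 78) (nat_lit 0) (nat_lit 0) (XT.lf (nat_lit 0) (nat_lit 22584150155) (nat_lit 152) (nat_lit 72225132883) (nat_lit 0) (nat_lit 38611762) (nat_lit 4) (nat_lit 5) (nat_lit 6) (nat_lit 4) (nat_lit 4) (nat_lit 4) (nat_lit 327) (nat_lit 238) (nat_lit 155)) (XT.lf (nat_lit 0) (nat_lit 28206536317) (nat_lit 152) (nat_lit 65455383272) (nat_lit 0) (nat_lit 5641953588) (nat_lit 4) (nat_lit 5) (nat_lit 6) (nat_lit 4) (nat_lit 4) (nat_lit 4) (nat_lit 328) (nat_lit 238) (nat_lit 154))) (XT.nd (nat_lit 78) (nat_lit 0) (nat_lit 0) (XT.lf (nat_lit 0) (nat_lit 34101202555) (nat_lit 152) (nat_lit 58363414401) (nat_lit 0) (nat_lit 11518482363) (nat_lit 4) (nat_lit 5) (nat_lit 6) (nat_lit 4) (nat_lit 4) (nat_lit 4) (nat_lit 329) (nat_lit 238) (nat_lit 153)) (XT.lf (nat_lit 0) (nat_lit 40282183789) (nat_lit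 152) (nat_lit 50932340631) (nat_lit 0) (nat_lit 17682189823) (nat_lit 4) (nat_lit 5) (nat_lit 6) (nat_lit 4) (nat_lit 4) (nat_lit 4) (nat_lit 330) (nat_lit 238) (nat_lit 152)))) (XT.nd (nat_lit 156) (nat_lit 0) (nat_lit 0) (XT.nd (nat_lit 78) (nat_lit 0) (nat_lit 0) (XT.lf (nat_lit 0) (nat_lit 46764196641) (nat_lit 152) (nat_lit 43144468928) (nat_lit 0) (nat_lit 24147751462) (nat_lit 4) (nat_lit 5) (nat_lit 6) (nat_lit 4) (nat_lit 4) (nat_lit 4) (nat_lit 331) (nat_lit 238) (nat_lit 151)) (XT.lf (nat_lit 0) (nat_lit 53562674474) (nat_lit 152) (nat_lit 34981256740) (nat_lit 0) (nat_lit 30930561473) (nat_lit 4) (nat_lit 5) (nat_lit 6) (nat_lit 4) (nat_lit 4) (nat_lit 4) (nat_lit 332) (nat_lit 238) (nat_lit 150))) (XT.nd (nat_lit 78) (nat_lit 0) (nat_lit 0) (XT.lf (nat_lit 0) (nat_lit 60693804142) (nat_lit 152) (nat_lit 26423267849) (nat_lit 0) (nat_lit 38046769405) (nat_lit 4) (nat_lit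 5) (nat_lit 6) (nat_lit 4) (nat_lit 4) (nat_lit 4) (nat_lit 333) (nat_lit 238) (nat_lit 149)) (XT.nd (nat_lit 78) (nat_lit 0) (nat_lit 0) (XT.lf (nat_lit 0) (nat_lit 68174564523) (nat_lit 152) (nat_lit 17450126090) (nat_lit 0) (nat_lit 45513318610) (nat_lit 4) (nat_lit 5) (nat_lit 6) (nat_lit 4) (nat_lit 4) (nat_lit 4) (nat_lit 334) (nat_lit 238) (nat_lit 148)) (XT.lf (nat_lit 0) (nat_lit 76022766952) (nat_lit 152) (nat_lit 8040466840) (nat_lit 0) (nat_lit 53347986585) (nat_lit 4) (nat_lit 5) (nat_lit 6) (nat_lit 4) (nat_lit 4) (nat_lit 4) (nat_lit 335) (nat_lit 238) (nat_lit 147)))))) (XT.nd (nat_lit 312) (nat_lit 0) (nat_lit 0) (XT.nd (nat_lit 156) (nat_lit 0) (nat_lit 0) (XT.nd (nat_lit 78) (nat_lit 0) (nat_lit 0) (XT.lf (nat_lit 0) (nat_lit 1888559551) (nat_lit 76) (nat_lit 82398023782) (nat_lit 76) (nat_lit 59710353459) (nat_lit 3) (nat_lit 4) (nat_lit 4) (nat_lit 5) (nat_lit 4)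 (nat_lit 4) (nat_lit 336) (nat_lit 238) (nat_lit 146)) (XT.lf (nat_lit 0) (nat_lit 12581809070) (nat_lit 76) (nat_lit 80511790323) (nat_lit 76) (nat_lit 57811843851) (nat_lit 3) (nat_lit 4) (nat_lit 4) (nat_lit 5) (nat_lit 4) (nat_lit 4) (nat_lit 337) (nat_lit 238) (nat_lit 145))) (XT.nd (nat_lit 78) (nat_lit 0) (nat_lit 0) (XT.lf (nat_lit 0) (nat_lit 23798887690) (nat_lit 76) (nat_lit 78536211580) (nat_lit 76) (nat_lit 55824573538) (nat_lit 3) (nat_lit 4) (nat_lit 4) (nat_lit 5) (nat_lit 4) (nat_lit 4) (nat_lit 338) (nat_lit 238) (nat_lit 144)) (XT.lf (nat_lit 0) (nat_lit 35566502739) (nat_lit 76) (nat_lit 76466583794) (nat_lit 76) (nat_lit 53743810923) (nat_lit 3) (nat_lit 4) (nat_lit 4) (nat_lit 5) (nat_lit 4) (nat_lit 4) (nat_lit 339) (nat_lit 238) (nat_lit 143)))) (XT.nd (nat_lit 156) (nat_lit 0) (nat_lit 0) (XT.nd (nat_lit 78) (nat_lit 0) (nat_lit 0) (XT.lf (nat_lit 0) (nat_lit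 47912672350) (nat_lit 76) (nat_lit 74297979279) (nat_lit 76) (nat_lit 51564601810) (nat_lit 3) (nat_lit 4) (nat_lit 4) (nat_lit 5) (nat_lit 4) (nat_lit 4) (nat_lit 340) (nat_lit 238) (nat_lit 142)) (XT.lf (nat_lit 0) (nat_lit 60866792163) (nat_lit 76) (nat_lit 72025234693) (nat_lit 76) (nat_lit 49281757606) (nat_lit 3) (nat_lit 4) (nat_lit 4) (nat_lit 5) (nat_lit 4) (nat_lit 4) (nat_lit 341) (nat_lit 238) (nat_lit 141))) (XT.nd (nat_lit 78) (nat_lit 0) (nat_lit 0) (XT.lf (nat_lit 0) (nat_lit 74459705322) (nat_lit 76) (nat_lit 69642938738) (nat_lit 76) (nat_lit 46889842967) (nat_lit 3) (nat_lit 4) (nat_lit 4) (nat_lit 5) (nat_lit 4) (nat_lit 4) (nat_lit 342) (nat_lit 238) (nat_lit 140)) (XT.nd (nat_lit 78) (nat_lit 0) (nat_lit 0) (XT.lf (nat_lit 0) (nat_lit 88723775906) (nat_lit 76) (nat_lit 67145419280) (nat_lit 76) (nat_lit 44383162858) (nat_lit 3) (nat_lit 4) (nat_lit 4) (nat_lit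 5) (nat_lit 4) (nat_lit 4) (nat_lit 343) (nat_lit 238) (nat_lit 139)) (XT.lf (nat_lit 0) (nat_lit 103692965987) (nat_lit 76) (nat_lit 64526729846) (nat_lit 76) (nat_lit 41755748994) (nat_lit 3) (nat_lit 4) (nat_lit 4) (nat_lit 5) (nat_lit 4) (nat_lit 4) (nat_lit 344) (nat_lit 238) (nat_lit 138))))))))
noncomputable def xc105 : XT := (XT.nd (nat_lit 1404) (nat_lit 0) (nat_lit 0) (XT.nd (nat_lit 702) (nat_lit 152) (nat_lit 0) (XT.nd (nat_lit 312) (nat_lit 0) (nat_lit 0) (XT.nd (nat_lit 156) (nat_lit 0) (nat_lit 0) (XT.nd (nat_lit 78) (nat_lit 0) (nat_lit 0) (XT.lf (nat_lit 0) (nat_lit 119402916493) (nat_lit 76) (nat_lit 61780635460) (nat_lit 76) (nat_lit 39001345628) (nat_lit 3) (nat_lit 4) (nat_lit 4) (nat_lit 5) (nat_lit 4) (nat_lit 4) (nat_lit 345) (nat_lit 238) (nat_lit 137)) (XT.lf (nat_lit 0) (nat_lit 135891032070) (nat_lit 76) (nat_lit 58900597802) (nat_lit 76) (nat_lit 36113394655)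 (nat_lit 3) (nat_lit 4) (nat_lit 4) (nat_lit 5) (nat_lit 4) (nat_lit 4) (nat_lit 346) (nat_lit 238) (nat_lit 136))) (XT.nd (nat_lit 78) (nat_lit 0) (nat_lit 0) (XT.lf (nat_lit 0) (nat_lit 153196570135) (nat_lit 76) (nat_lit 55879759639) (nat_lit 76) (nat_lit 33085020002) (nat_lit 3) (nat_lit 4) (nat_lit 4) (nat_lit 5) (nat_lit 4) (nat_lit 4) (nat_lit 347) (nat_lit 238) (nat_lit 135)) (XT.lf (nat_lit 0) (nat_lit 171360734350) (nat_lit 76) (nat_lit 52710928501) (nat_lit 76) (nat_lit 29909011253) (nat_lit 3) (nat_lit 4) (nat_lit 4) (nat_lit 5) (nat_lit 4) (nat_lit 4) (nat_lit 348) (nat_lit 238) (nat_lit 134)))) (XT.nd (nat_lit 156) (nat_lit 0) (nat_lit 0) (XT.nd (nat_lit 78) (nat_lit 0) (nat_lit 0) (XT.lf (nat_lit 0) (nat_lit 190426772726) (nat_lit 76) (nat_lit 49386559550) (nat_lit 76) (nat_lit 26577806484) (nat_lit 3) (nat_lit 4) (nat_lit 4) (nat_lit 5) (nat_lit 4) (nat_lit 4) (nat_lit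 349) (nat_lit 238) (nat_lit 133)) (XT.lf (nat_lit 0) (nat_lit 210440080591) (nat_lit 76) (nat_lit 45898737623) (nat_lit 76) (nat_lit 23083474253) (nat_lit 3) (nat_lit 4) (nat_lit 4) (nat_lit 5) (nat_lit 4) (nat_lit 4) (nat_lit 350) (nat_lit 238) (nat_lit 132))) (XT.nd (nat_lit 78) (nat_lit 0) (nat_lit 0) (XT.lf (nat_lit 0) (nat_lit 231448308679) (nat_lit 76) (nat_lit 42239158381) (nat_lit 76) (nat_lit 19417694722) (nat_lit 3) (nat_lit 4) (nat_lit 4) (nat_lit 5) (nat_lit 4) (nat_lit 4) (nat_lit 351) (nat_lit 238) (nat_lit 131)) (XT.nd (nat_lit 78) (nat_lit 0) (nat_lit 0) (XT.lf (nat_lit 0) (nat_lit 253501476580) (nat_lit 76) (nat_lit 38399108542) (nat_lit 76) (nat_lit 15571739845) (nat_lit 3) (nat_lit 4) (nat_lit 4) (nat_lit 5) (nat_lit 4) (nat_lit 4) (nat_lit 352) (nat_lit 238) (nat_lit 130)) (XT.lf (nat_lit 0) (nat_lit 276652091837) (nat_lit 76) (nat_lit 34369445128) (nat_lit 76) (nat_lit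 11536452587) (nat_lit 3) (nat_lit 4) (nat_lit 4) (nat_lit 5) (nat_lit 4) (nat_lit 4) (nat_lit 353) (nat_lit 238) (nat_lit 129)))))) (XT.nd (nat_lit 312) (nat_lit 76) (nat_lit 0) (XT.nd (nat_lit 156) (nat_lit 76) (nat_lit 0) (XT.nd (nat_lit 78) (nat_lit 0) (nat_lit 0) (XT.lf (nat_lit 0) (nat_lit 300955274963) (nat_lit 76) (nat_lit 30140573704) (nat_lit 76) (nat_lit 7302225119) (nat_lit 3) (nat_lit 4) (nat_lit 4) (nat_lit 5) (nat_lit 4) (nat_lit 4) (nat_lit 354) (nat_lit 238) (nat_lit 128)) (XT.lf (nat_lit 0) (nat_lit 326468890679) (nat_lit 76) (nat_lit 25702425527) (nat_lit 76) (nat_lit 2858975950) (nat_lit 3) (nat_lit 4) (nat_lit 4) (nat_lit 5) (nat_lit 4) (nat_lit 4) (nat_lit 355) (nat_lit 238) (nat_lit 127))) (XT.nd (nat_lit 78) (nat_lit 0) (nat_lit 0) (XT.lf (nat_lit 0) (nat_lit 1746138850) (nat_lit 152) (nat_lit 19268723022) (nat_lit 76) (nat_lit 351477975132) (nat_lit 2) (nat_lit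 5) (nat_lit 4) (nat_lit 5) (nat_lit 3) (nat_lit 4) (nat_lit 356) (nat_lit 238) (nat_lit 126)) (XT.lf (nat_lit 0) (nat_lit 6483067524) (nat_lit 152) (nat_lit 9562645993) (nat_lit 76) (nat_lit 374780571905) (nat_lit 2) (nat_lit 5) (nat_lit 4) (nat_lit 5) (nat_lit 3) (nat_lit 4) (nat_lit 357) (nat_lit 238) (nat_lit 125)))) (XT.nd (nat_lit 156) (nat_lit 0) (nat_lit 0) (XT.nd (nat_lit 78) (nat_lit 0) (nat_lit 0) (XT.lf (nat_lit 0) (nat_lit 645227245) (nat_lit 76) (nat_lit 10819440116) (nat_lit 152) (nat_lit 398611349255) (nat_lit 1) (nat_lit 5) (nat_lit 2) (nat_lit 5) (nat_lit 3) (nat_lit 4) (nat_lit 358) (nat_lit 238) (nat_lit 124)) (XT.lf (nat_lit 0) (nat_lit 11691395759) (nat_lit 76) (nat_lit 5163693609) (nat_lit 152) (nat_lit 413425159411) (nat_lit 1) (nat_lit 5) (nat_lit 2) (nat_lit 5) (nat_lit 3) (nat_lit 4) (nat_lit 359) (nat_lit 238) (nat_lit 123))) (XT.nd (nat_lit 78) (nat_lit 0)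 (nat_lit 0) (XT.lf (nat_lit 0) (nat_lit 22525001040) (nat_lit 152) (nat_lit 428220892736) (nat_lit 0) (nat_lit 748301792) (nat_lit 1) (nat_lit 5) (nat_lit 3) (nat_lit 4) (nat_lit 1) (nat_lit 4) (nat_lit 360) (nat_lit 238) (nat_lit 122)) (XT.nd (nat_lit 78) (nat_lit 0) (nat_lit 0) (XT.lf (nat_lit 0) (nat_lit 28561031520) (nat_lit 152) (nat_lit 438422971299) (nat_lit 0) (nat_lit 6780707092) (nat_lit 1) (nat_lit 5) (nat_lit 3) (nat_lit 4) (nat_lit 1) (nat_lit 4) (nat_lit 361) (nat_lit 238) (nat_lit 121)) (XT.lf (nat_lit 0) (nat_lit 34896932582) (nat_lit 152) (nat_lit 449138759645) (nat_lit 0) (nat_lit 13113155601) (nat_lit 1) (nat_lit 5) (nat_lit 3) (nat_lit 4) (nat_lit 1) (nat_lit 4) (nat_lit 362) (nat_lit 238) (nat_lit 120))))))) (XT.nd (nat_lit 28704) (nat_lit 0) (nat_lit 5396) (XT.nd (nat_lit 28314) (nat_lit 0) (nat_lit 8284) (XT.nd (nat_lit 28158) (nat_lit 0) (nat_lit 9120) (XT.nd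 (nat_lit 28080) (nat_lit 0) (nat_lit 9272) (XT.lf (nat_lit 0) (nat_lit 41547789704) (nat_lit 152) (nat_lit 460393771556) (nat_lit 0) (nat_lit 19760724578) (nat_lit 1) (nat_lit 5) (nat_lit 3) (nat_lit 4) (nat_lit 1) (nat_lit 4) (nat_lit 363) (nat_lit 238) (nat_lit 119)) (XT.lf (nat_lit 0) (nat_lit 1498265896) (nat_lit 76) (nat_lit 230112889) (nat_lit 0) (nat_lit 1498265896) (nat_lit 123) (nat_lit 5) (nat_lit 124) (nat_lit 0) (nat_lit 123) (nat_lit 4) (nat_lit 242) (nat_lit 239) (nat_lit 239))) (XT.nd (nat_lit 78) (nat_lit 76) (nat_lit 0) (XT.lf (nat_lit 0) (nat_lit 2714085167) (nat_lit 76) (nat_lit 3192590361) (nat_lit 76) (nat_lit 563018547) (nat_lit 122) (nat_lit 4) (nat_lit 123) (nat_lit 5) (nat_lit 123) (nat_lit 4) (nat_lit 243) (nat_lit 239) (nat_lit 238)) (XT.lf (nat_lit 0) (nat_lit 2226212847) (nat_lit 152) (nat_lit 570189584) (nat_lit 76) (nat_lit 3697987946) (nat_lit 121) (nat_lit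 5) (nat_lit 123) (nat_lit 5) (nat_lit 122) (nat_lit 4) (nat_lit 244) (nat_lit 239) (nat_lit 237)))) (XT.nd (nat_lit 156) (nat_lit 608) (nat_lit 0) (XT.nd (nat_lit 78) (nat_lit 76) (nat_lit 0) (XT.lf (nat_lit 0) (nat_lit 2750470647) (nat_lit 152) (nat_lit 2259039459) (nat_lit 228) (nat_lit 1517535965) (nat_lit 119) (nat_lit 5) (nat_lit 121) (nat_lit 5) (nat_lit 122) (nat_lit 4) (nat_lit 245) (nat_lit 239) (nat_lit 236)) (XT.lf (nat_lit 0) (nat_lit 1170188223) (nat_lit 228) (nat_lit 432907779) (nat_lit 76) (nat_lit 4965779763) (nat_lit 118) (nat_lit 5) (nat_lit 121) (nat_lit 5) (nat_lit 119) (nat_lit 5) (nat_lit 246) (nat_lit 239) (nat_lit 235))) (XT.nd (nat_lit 78) (nat_lit 380) (nat_lit 0) (XT.lf (nat_lit 0) (nat_lit 3048289097) (nat_lit 228) (nat_lit 782131052) (nat_lit 304) (nat_lit 2787421798) (nat_lit 115) (nat_lit 5) (nat_lit 118) (nat_lit 5) (nat_lit 119) (nat_lit 5) (nat_lit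 247) (nat_lit 239) (nat_lit 234)) (XT.nd (nat_lit 78) (nat_lit 380) (nat_lit 0) (XT.lf (nat_lit 0) (nat_lit 6480673971) (nat_lit 304) (nat_lit 61515153) (nat_lit 76) (nat_lit 134926245) (nat_lit 115) (nat_lit 5) (nat_lit 119) (nat_lit 5) (nat_lit 116) (nat_lit 4) (nat_lit 248) (nat_lit 239) (nat_lit 233)) (XT.lf (nat_lit 0) (nat_lit 2366296631) (nat_lit 380) (nat_lit 3161576142) (nat_lit 76) (nat_lit 1214003016) (nat_lit 110) (nat_lit 5) (nat_lit 115) (nat_lit 5) (nat_lit 111) (nat_lit 5) (nat_lit 249) (nat_lit 239) (nat_lit 232)))))) (XT.nd (nat_lit 312) (nat_lit 1976) (nat_lit 0) (XT.nd (nat_lit 156) (nat_lit 456) (nat_lit 0) (XT.nd (nat_lit 78) (nat_lit 76) (nat_lit 0) (XT.lf (nat_lit 0) (nat_lit 501092117) (nat_lit 380) (nat_lit 4416262485) (nat_lit 456) (nat_lit 1899632219) (nat_lit 105) (nat_lit 5) (nat_lit 110) (nat_lit 5) (nat_lit 111) (nat_lit 5) (nat_lit 250) (nat_lit 239)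 (nat_lit 231)) (XT.lf (nat_lit 0) (nat_lit 592320416) (nat_lit 456) (nat_lit 2559988228) (nat_lit 76) (nat_lit 3747823281) (nat_lit 104) (nat_lit 5) (nat_lit 110) (nat_lit 5) (nat_lit 105) (nat_lit 5) (nat_lit 251) (nat_lit 239) (nat_lit 230))) (XT.nd (nat_lit 78) (nat_lit 0) (nat_lit 0) (XT.lf (nat_lit 0) (nat_lit 1287435094) (nat_lit 456) (nat_lit 1744549040) (nat_lit 532) (nat_lit 3960074796) (nat_lit 98) (nat_lit 5) (nat_lit 104) (nat_lit 5) (nat_lit 105) (nat_lit 5) (nat_lit 252) (nat_lit 239) (nat_lit 229)) (XT.lf (nat_lit 0) (nat_lit 5311478873) (nat_lit 456) (nat_lit 197066683) (nat_lit 532) (nat_lit 1584795195) (nat_lit 98) (nat_lit 5) (nat_lit 104) (nat_lit 5) (nat_lit 105) (nat_lit 5) (nat_lit 253) (nat_lit 239) (nat_lit 228)))) (XT.nd (nat_lit 156) (nat_lit 1368) (nat_lit 0) (XT.nd (nat_lit 78) (nat_lit 0) (nat_lit 0) (XT.lf (nat_lit 0) (nat_lit 814569017) (nat_lit 608)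 (nat_lit 4935346288) (nat_lit 76) (nat_lit 1452797765) (nat_lit 90) (nat_lit 5) (nat_lit 98) (nat_lit 5) (nat_lit 91) (nat_lit 5) (nat_lit 254) (nat_lit 239) (nat_lit 227)) (XT.lf (nat_lit 0) (nat_lit 3194370929) (nat_lit 608) (nat_lit 874117236) (nat_lit 76) (nat_lit 3252515916) (nat_lit 90) (nat_lit 5) (nat_lit 98) (nat_lit 5) (nat_lit 91) (nat_lit 5) (nat_lit 255) (nat_lit 239) (nat_lit 226))) (XT.nd (nat_lit 78) (nat_lit 760) (nat_lit 0) (XT.lf (nat_lit 0) (nat_lit 3394744764) (nat_lit 608) (nat_lit 2236969183) (nat_lit 684) (nat_lit 1816982945) (nat_lit 82) (nat_lit 5) (nat_lit 90) (nat_lit 5) (nat_lit 91) (nat_lit 5) (nat_lit 256) (nat_lit 239) (nat_lit 225)) (XT.nd (nat_lit 78) (nat_lit 0) (nat_lit 0) (XT.lf (nat_lit 0) (nat_lit 216031282) (nat_lit 684) (nat_lit 278278284) (nat_lit 760) (nat_lit 7093085047) (nat_lit 72) (nat_lit 5) (nat_lit 81) (nat_lit 5) (nat_lit 82) (nat_lit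 5) (nat_lit 257) (nat_lit 239) (nat_lit 224)) (XT.lf (nat_lit 0) (nat_lit 2848657296) (nat_lit 760) (nat_lit 3058682214) (nat_lit 76) (nat_lit 1825129042) (nat_lit 72) (nat_lit 5) (nat_lit 82) (nat_lit 5) (nat_lit 73) (nat_lit 5) (nat_lit 258) (nat_lit 239) (nat_lit 223))))))))
noncomputable def xc106 : XT := (XT.nd (nat_lit 1404) (nat_lit 1368) (nat_lit 0) (XT.nd (nat_lit 702) (nat_lit 1292) (nat_lit 0) (XT.nd (nat_lit 312) (nat_lit 912) (nat_lit 0) (XT.nd (nat_lit 156) (nat_lit 456) (nat_lit 0) (XT.nd (nat_lit 78) (nat_lit 0) (nat_lit 0) (XT.lf (nat_lit 0) (nat_lit 1404629248) (nat_lit 380) (nat_lit 3838782449) (nat_lit 456) (nat_lit 2645591283) (nat_lit 67) (nat_lit 5) (nat_lit 72) (nat_lit 5) (nat_lit 73) (nat_lit 5) (nat_lit 259) (nat_lit 239) (nat_lit 222)) (XT.lf (nat_lit 0) (nat_lit 6093598124) (nat_lit 380) (nat_lit 1615627073) (nat_lit 456) (nat_lit 346897870) (nat_lit 67)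 (nat_lit 5) (nat_lit 72) (nat_lit 5) (nat_lit 73) (nat_lit 5) (nat_lit 260) (nat_lit 239) (nat_lit 221))) (XT.nd (nat_lit 78) (nat_lit 0) (nat_lit 0) (XT.lf (nat_lit 0) (nat_lit 1958152231) (nat_lit 456) (nat_lit 5506880658) (nat_lit 76) (nat_lit 767369170) (nat_lit 61) (nat_lit 5) (nat_lit 67) (nat_lit 5) (nat_lit 62) (nat_lit 5) (nat_lit 261) (nat_lit 239) (nat_lit 220)) (XT.lf (nat_lit 0) (nat_lit 4332479869) (nat_lit 456) (nat_lit 837986927) (nat_lit 76) (nat_lit 3248740463) (nat_lit 61) (nat_lit 5) (nat_lit 67) (nat_lit 5) (nat_lit 62) (nat_lit 5) (nat_lit 262) (nat_lit 239) (nat_lit 219)))) (XT.nd (nat_lit 156) (nat_lit 228) (nat_lit 0) (XT.nd (nat_lit 78) (nat_lit 380) (nat_lit 0) (XT.lf (nat_lit 0) (nat_lit 4094898737) (nat_lit 304) (nat_lit 2704478203) (nat_lit 380) (nat_lit 1817550509) (nat_lit 57) (nat_lit 5) (nat_lit 61) (nat_lit 5) (nat_lit 62) (nat_lit 5) (nat_lit 263)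 (nat_lit 239) (nat_lit 218)) (XT.lf (nat_lit 0) (nat_lit 380749216) (nat_lit 304) (nat_lit 97606170) (nat_lit 380) (nat_lit 8349411837) (nat_lit 52) (nat_lit 5) (nat_lit 56) (nat_lit 5) (nat_lit 57) (nat_lit 5) (nat_lit 264) (nat_lit 239) (nat_lit 217))) (XT.nd (nat_lit 78) (nat_lit 228) (nat_lit 0) (XT.lf (nat_lit 0) (nat_lit 2860463006) (nat_lit 380) (nat_lit 3536683422) (nat_lit 76) (nat_lit 2649119336) (nat_lit 52) (nat_lit 5) (nat_lit 57) (nat_lit 5) (nat_lit 53) (nat_lit 5) (nat_lit 265) (nat_lit 239) (nat_lit 216)) (XT.nd (nat_lit 78) (nat_lit 0) (nat_lit 0) (XT.lf (nat_lit 0) (nat_lit 1567980408) (nat_lit 228) (nat_lit 3737336405) (nat_lit 304) (nat_lit 3973410355) (nat_lit 49) (nat_lit 5) (nat_lit 52) (nat_lit 5) (nat_lit 53) (nat_lit 5) (nat_lit 266) (nat_lit 239) (nat_lit 215)) (XT.lf (nat_lit 0) (nat_lit 6952499780) (nat_lit 228) (nat_lit 899762216) (nat_lit 304) (nat_lit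 1671766713) (nat_lit 49) (nat_lit 5) (nat_lit 52) (nat_lit 5) (nat_lit 53) (nat_lit 5) (nat_lit 267) (nat_lit 239) (nat_lit 214)))))) (XT.nd (nat_lit 312) (nat_lit 684) (nat_lit 0) (XT.nd (nat_lit 156) (nat_lit 228) (nat_lit 0) (XT.nd (nat_lit 78) (nat_lit 0) (nat_lit 0) (XT.lf (nat_lit 0) (nat_lit 720345652) (nat_lit 380) (nat_lit 7009385299) (nat_lit 76) (nat_lit 2051511363) (nat_lit 44) (nat_lit 5) (nat_lit 49) (nat_lit 5) (nat_lit 45) (nat_lit 5) (nat_lit 268) (nat_lit 239) (nat_lit 213)) (XT.lf (nat_lit 0) (nat_lit 3159137777) (nat_lit 380) (nat_lit 1718667699) (nat_lit 76) (nat_lit 5173158974) (nat_lit 44) (nat_lit 5) (nat_lit 49) (nat_lit 5) (nat_lit 45) (nat_lit 5) (nat_lit 269) (nat_lit 239) (nat_lit 212))) (XT.nd (nat_lit 78) (nat_lit 0) (nat_lit 0) (XT.lf (nat_lit 0) (nat_lit 3866678500) (nat_lit 228) (nat_lit 1841410448) (nat_lit 304) (nat_lit 4626845129) (nat_lit 41) (nat_lit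 5) (nat_lit 44) (nat_lit 5) (nat_lit 45) (nat_lit 5) (nat_lit 270) (nat_lit 239) (nat_lit 211)) (XT.lf (nat_lit 0) (nat_lit 8364601886) (nat_lit 304) (nat_lit 957673864) (nat_lit 76) (nat_lit 1311984877) (nat_lit 41) (nat_lit 5) (nat_lit 45) (nat_lit 5) (nat_lit 42) (nat_lit 5) (nat_lit 271) (nat_lit 239) (nat_lit 210)))) (XT.nd (nat_lit 156) (nat_lit 380) (nat_lit 0) (XT.nd (nat_lit 78) (nat_lit 0) (nat_lit 0) (XT.lf (nat_lit 0) (nat_lit 238272506) (nat_lit 304) (nat_lit 6087645355) (nat_lit 76) (nat_lit 4620651238) (nat_lit 37) (nat_lit 5) (nat_lit 41) (nat_lit 5) (nat_lit 38) (nat_lit 5) (nat_lit 272) (nat_lit 239) (nat_lit 209)) (XT.lf (nat_lit 0) (nat_lit 2745254639) (nat_lit 304) (nat_lit 403367576) (nat_lit 76) (nat_lit 8126655716) (nat_lit 37) (nat_lit 5) (nat_lit 41) (nat_lit 5) (nat_lit 38) (nat_lit 5) (nat_lit 273) (nat_lit 239) (nat_lit 208))) (XT.nd (nat_lit 78) (nat_lit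 228) (nat_lit 0) (XT.lf (nat_lit 0) (nat_lit 5406550894) (nat_lit 228) (nat_lit 5964508408) (nat_lit 76) (nat_lit 248049699) (nat_lit 35) (nat_lit 5) (nat_lit 38) (nat_lit 5) (nat_lit 36) (nat_lit 5) (nat_lit 274) (nat_lit 239) (nat_lit 207)) (XT.nd (nat_lit 78) (nat_lit 228) (nat_lit 0) (XT.lf (nat_lit 0) (nat_lit 8197381908) (nat_lit 228) (nat_lit 90911394) (nat_lit 76) (nat_lit 3692143439) (nat_lit 35) (nat_lit 5) (nat_lit 38) (nat_lit 5) (nat_lit 36) (nat_lit 5) (nat_lit 275) (nat_lit 239) (nat_lit 206)) (XT.lf (nat_lit 0) (nat_lit 6189847070) (nat_lit 228) (nat_lit 4975414907) (nat_lit 304) (nat_lit 1192816008) (nat_lit 32) (nat_lit 5) (nat_lit 35) (nat_lit 5) (nat_lit 36) (nat_lit 5) (nat_lit 276) (nat_lit 239) (nat_lit 205))))))) (XT.nd (nat_lit 702) (nat_lit 608) (nat_lit 0) (XT.nd (nat_lit 312) (nat_lit 380) (nat_lit 0) (XT.nd (nat_lit 156) (nat_lit 152) (nat_lit 0) (XT.nd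 (nat_lit 78) (nat_lit 152) (nat_lit 0) (XT.lf (nat_lit 0) (nat_lit 1420953189) (nat_lit 304) (nat_lit 75907876) (nat_lit 76) (nat_lit 11259514850) (nat_lit 31) (nat_lit 5) (nat_lit 35) (nat_lit 5) (nat_lit 32) (nat_lit 5) (nat_lit 277) (nat_lit 239) (nat_lit 204)) (XT.lf (nat_lit 0) (nat_lit 4204993982) (nat_lit 228) (nat_lit 6780828885) (nat_lit 76) (nat_lit 2183910490) (nat_lit 29) (nat_lit 5) (nat_lit 32) (nat_lit 5) (nat_lit 30) (nat_lit 5) (nat_lit 278) (nat_lit 239) (nat_lit 203))) (XT.nd (nat_lit 78) (nat_lit 152) (nat_lit 0) (XT.lf (nat_lit 0) (nat_lit 7099216257) (nat_lit 228) (nat_lit 531032742) (nat_lit 76) (nat_lit 5975061473) (nat_lit 29) (nat_lit 5) (nat_lit 32) (nat_lit 5) (nat_lit 30) (nat_lit 5) (nat_lit 279) (nat_lit 239) (nat_lit 202)) (XT.lf (nat_lit 0) (nat_lit 6149630890) (nat_lit 152) (nat_lit 4032278516) (nat_lit 228) (nat_lit 3878665025) (nat_lit 27) (nat_lit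 5) (nat_lit 29) (nat_lit 5) (nat_lit 30) (nat_lit 5) (nat_lit 280) (nat_lit 239) (nat_lit 201)))) (XT.nd (nat_lit 156) (nat_lit 152) (nat_lit 0) (XT.nd (nat_lit 78) (nat_lit 228) (nat_lit 0) (XT.lf (nat_lit 0) (nat_lit 13105580356) (nat_lit 152) (nat_lit 271180135) (nat_lit 228) (nat_lit 1164031336) (nat_lit 27) (nat_lit 5) (nat_lit 29) (nat_lit 5) (nat_lit 30) (nat_lit 5) (nat_lit 281) (nat_lit 239) (nat_lit 200)) (XT.lf (nat_lit 0) (nat_lit 1726664775) (nat_lit 228) (nat_lit 9664093382) (nat_lit 76) (nat_lit 3648313226) (nat_lit 24) (nat_lit 5) (nat_lit 27) (nat_lit 5) (nat_lit 25) (nat_lit 5) (nat_lit 282) (nat_lit 239) (nat_lit 199))) (XT.nd (nat_lit 78) (nat_lit 152) (nat_lit 0) (XT.lf (nat_lit 0) (nat_lit 4703299051) (nat_lit 228) (nat_lit 3085571421) (nat_lit 76) (nat_lit 7773493158) (nat_lit 24) (nat_lit 5) (nat_lit 27) (nat_lit 5) (nat_lit 25) (nat_lit 5) (nat_lit 283) (nat_lit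 239) (nat_lit 198)) (XT.nd (nat_lit 78) (nat_lit 0) (nat_lit 0) (XT.lf (nat_lit 0) (nat_lit 3873373011) (nat_lit 152) (nat_lit 3969554244) (nat_lit 228) (nat_lit 8268260322) (nat_lit 22) (nat_lit 5) (nat_lit 24) (nat_lit 5) (nat_lit 25) (nat_lit 5) (nat_lit 284) (nat_lit 239) (nat_lit 197)) (XT.lf (nat_lit 0) (nat_lit 11147657794) (nat_lit 228) (nat_lit 5472175842) (nat_lit 76) (nat_lit 67284657) (nat_lit 22) (nat_lit 5) (nat_lit 25) (nat_lit 5) (nat_lit 23) (nat_lit 4) (nat_lit 285) (nat_lit 239) (nat_lit 196)))))) (XT.nd (nat_lit 312) (nat_lit 304) (nat_lit 0) (XT.nd (nat_lit 156) (nat_lit 152) (nat_lit 0) (XT.nd (nat_lit 78) (nat_lit 76) (nat_lit 0) (XT.lf (nat_lit 0) (nat_lit 1546420397) (nat_lit 76) (nat_lit 13116968558) (nat_lit 152) (nat_lit 2626236594) (nat_lit 21) (nat_lit 5) (nat_lit 22) (nat_lit 5) (nat_lit 23) (nat_lit 4) (nat_lit 286) (nat_lit 239) (nat_lit 195)) (XT.lf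 (nat_lit 0) (nat_lit 469778744) (nat_lit 152) (nat_lit 8890081254) (nat_lit 76) (nat_lit 8559573408) (nat_lit 20) (nat_lit 5) (nat_lit 22) (nat_lit 5) (nat_lit 21) (nat_lit 5) (nat_lit 287) (nat_lit 239) (nat_lit 194))) (XT.nd (nat_lit 78) (nat_lit 152) (nat_lit 0) (XT.lf (nat_lit 0) (nat_lit 3591178462) (nat_lit 152) (nat_lit 1804126334) (nat_lit 76) (nat_lit 13185391008) (nat_lit 20) (nat_lit 5) (nat_lit 22) (nat_lit 5) (nat_lit 21) (nat_lit 5) (nat_lit 288) (nat_lit 239) (nat_lit 193)) (XT.lf (nat_lit 0) (nat_lit 5756786975) (nat_lit 152) (nat_lit 1162543037) (nat_lit 228) (nat_lit 12353213332) (nat_lit 18) (nat_lit 5) (nat_lit 20) (nat_lit 5) (nat_lit 21) (nat_lit 5) (nat_lit 289) (nat_lit 239) (nat_lit 192)))) (XT.nd (nat_lit 156) (nat_lit 228) (nat_lit 0) (XT.nd (nat_lit 78) (nat_lit 76) (nat_lit 0) (XT.lf (nat_lit 0) (nat_lit 10457495994) (nat_lit 228) (nat_lit 6354971195) (nat_lit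 76) (nat_lit 3184389173) (nat_lit 18) (nat_lit 5) (nat_lit 21) (nat_lit 5) (nat_lit 19) (nat_lit 4) (nat_lit 290) (nat_lit 239) (nat_lit 191)) (XT.lf (nat_lit 0) (nat_lit 1119525142) (nat_lit 76) (nat_lit 13052737604) (nat_lit 152) (nat_lit 6585188558) (nat_lit 17) (nat_lit 5) (nat_lit 18) (nat_lit 5) (nat_lit 19) (nat_lit 4) (nat_lit 291) (nat_lit 239) (nat_lit 190))) (XT.nd (nat_lit 78) (nat_lit 228) (nat_lit 0) (XT.lf (nat_lit 0) (nat_lit 9128260248) (nat_lit 76) (nat_lit 9016103481) (nat_lit 152) (nat_lit 3408180944) (nat_lit 17) (nat_lit 5) (nat_lit 18) (nat_lit 5) (nat_lit 19) (nat_lit 4) (nat_lit 292) (nat_lit 239) (nat_lit 189)) (XT.nd (nat_lit 78) (nat_lit 228) (nat_lit 0) (XT.lf (nat_lit 0) (nat_lit 17480178495) (nat_lit 76) (nat_lit 4800578297) (nat_lit 152) (nat_lit 108397733) (nat_lit 17) (nat_lit 5) (nat_lit 18) (nat_lit 5) (nat_lit 19) (nat_lit 4) (nat_lit 293) (nat_lit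 239) (nat_lit 188)) (XT.lf (nat_lit 0) (nat_lit 2969054904) (nat_lit 152) (nat_lit 292992751) (nat_lit 228) (nat_lit 20002314067) (nat_lit 14) (nat_lit 5) (nat_lit 16) (nat_lit 5) (nat_lit 17) (nat_lit 5) (nat_lit 294) (nat_lit 239) (nat_lit 187))))))))
noncomputable def xc107 : XT := (XT.nd (nat_lit 1404) (nat_lit 304) (nat_lit 0) (XT.nd (nat_lit 702) (nat_lit 228) (nat_lit 0) (XT.nd (nat_lit 312) (nat_lit 152) (nat_lit 0) (XT.nd (nat_lit 156) (nat_lit 76) (nat_lit 0) (XT.nd (nat_lit 78) (nat_lit 0) (nat_lit 0) (XT.lf (nat_lit 0) (nat_lit 6918315607) (nat_lit 228) (nat_lit 12896306775) (nat_lit 76) (nat_lit 4362610770) (nat_lit 14) (nat_lit 5) (nat_lit 17) (nat_lit 5) (nat_lit 15) (nat_lit 4) (nat_lit 295) (nat_lit 239) (nat_lit 186)) (XT.lf (nat_lit 0) (nat_lit 10730889630) (nat_lit 228) (nat_lit 5185578876) (nat_lit 76) (nat_lit 9220642993) (nat_lit 14) (nat_lit 5) (nat_lit 17) (nat_lit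 5) (nat_lit 15) (nat_lit 4) (nat_lit 296) (nat_lit 239) (nat_lit 185))) (XT.nd (nat_lit 78) (nat_lit 0) (nat_lit 0) (XT.lf (nat_lit 0) (nat_lit 2954368433) (nat_lit 76) (nat_lit 11796030383) (nat_lit 152) (nat_lit 11393805797) (nat_lit 13) (nat_lit 5) (nat_lit 14) (nat_lit 5) (nat_lit 15) (nat_lit 4) (nat_lit 297) (nat_lit 239) (nat_lit 184)) (XT.lf (nat_lit 0) (nat_lit 11631290041) (nat_lit 76) (nat_lit 7398232683) (nat_lit 152) (nat_lit 8169232145) (nat_lit 13) (nat_lit 5) (nat_lit 14) (nat_lit 5) (nat_lit 15) (nat_lit 4) (nat_lit 298) (nat_lit 239) (nat_lit 183)))) (XT.nd (nat_lit 156) (nat_lit 76) (nat_lit 0) (XT.nd (nat_lit 78) (nat_lit 76) (nat_lit 0) (XT.lf (nat_lit 0) (nat_lit 20694386628) (nat_lit 76) (nat_lit 2800424746) (nat_lit 152) (nat_lit 4812643645) (nat_lit 13) (nat_lit 5) (nat_lit 14) (nat_lit 5) (nat_lit 15) (nat_lit 4) (nat_lit 299) (nat_lit 239) (nat_lit 182)) (XT.lf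 (nat_lit 0) (nat_lit 682789883) (nat_lit 76) (nat_lit 27516122611) (nat_lit 76) (nat_lit 1271931528) (nat_lit 12) (nat_lit 4) (nat_lit 13) (nat_lit 5) (nat_lit 13) (nat_lit 4) (nat_lit 300) (nat_lit 239) (nat_lit 181))) (XT.nd (nat_lit 78) (nat_lit 0) (nat_lit 0) (XT.lf (nat_lit 0) (nat_lit 2517826801) (nat_lit 152) (nat_lit 21161035208) (nat_lit 76) (nat_lit 7004144906) (nat_lit 11) (nat_lit 5) (nat_lit 13) (nat_lit 5) (nat_lit 12) (nat_lit 4) (nat_lit 301) (nat_lit 239) (nat_lit 180)) (XT.nd (nat_lit 78) (nat_lit 0) (nat_lit 0) (XT.lf (nat_lit 0) (nat_lit 6428936168) (nat_lit 152) (nat_lit 13217917262) (nat_lit 76) (nat_lit 12309178529) (nat_lit 11) (nat_lit 5) (nat_lit 13) (nat_lit 5) (nat_lit 12) (nat_lit 4) (nat_lit 302) (nat_lit 239) (nat_lit 179)) (XT.lf (nat_lit 0) (nat_lit 10511418487) (nat_lit 152) (nat_lit 4919929703) (nat_lit 76) (nat_lit 17862594898) (nat_lit 11) (nat_lit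 5) (nat_lit 13) (nat_lit 5) (nat_lit 12) (nat_lit 4) (nat_lit 303) (nat_lit 239) (nat_lit 178)))))) (XT.nd (nat_lit 312) (nat_lit 152) (nat_lit 0) (XT.nd (nat_lit 156) (nat_lit 0) (nat_lit 0) (XT.nd (nat_lit 78) (nat_lit 0) (nat_lit 0) (XT.lf (nat_lit 0) (nat_lit 3876765284) (nat_lit 76) (nat_lit 10958755843) (nat_lit 152) (nat_lit 19861378320) (nat_lit 10) (nat_lit 5) (nat_lit 11) (nat_lit 5) (nat_lit 12) (nat_lit 4) (nat_lit 304) (nat_lit 239) (nat_lit 177)) (XT.lf (nat_lit 0) (nat_lit 13244480778) (nat_lit 76) (nat_lit 6192116629) (nat_lit 152) (nat_lit 16730391106) (nat_lit 10) (nat_lit 5) (nat_lit 11) (nat_lit 5) (nat_lit 12) (nat_lit 4) (nat_lit 305) (nat_lit 239) (nat_lit 176))) (XT.nd (nat_lit 78) (nat_lit 0) (nat_lit 0) (XT.lf (nat_lit 0) (nat_lit 23042845770) (nat_lit 76) (nat_lit 1203402797) (nat_lit 152) (nat_lit 13465429620) (nat_lit 10) (nat_lit 5) (nat_lit 11) (nat_lit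 5) (nat_lit 12) (nat_lit 4) (nat_lit 306) (nat_lit 239) (nat_lit 175)) (XT.lf (nat_lit 0) (nat_lit 29338678126) (nat_lit 152) (nat_lit 6102208569) (nat_lit 0) (nat_lit 3890622007) (nat_lit 10) (nat_lit 5) (nat_lit 12) (nat_lit 4) (nat_lit 10) (nat_lit 4) (nat_lit 307) (nat_lit 239) (nat_lit 174)))) (XT.nd (nat_lit 156) (nat_lit 76) (nat_lit 0) (XT.nd (nat_lit 78) (nat_lit 0) (nat_lit 0) (XT.lf (nat_lit 0) (nat_lit 2931864598) (nat_lit 76) (nat_lit 31799654849) (nat_lit 76) (nat_lit 6298541923) (nat_lit 9) (nat_lit 4) (nat_lit 10) (nat_lit 5) (nat_lit 10) (nat_lit 4) (nat_lit 308) (nat_lit 239) (nat_lit 173)) (XT.lf (nat_lit 0) (nat_lit 12595068779) (nat_lit 76) (nat_lit 27882966827) (nat_lit 76) (nat_lit 2331323610) (nat_lit 9) (nat_lit 4) (nat_lit 10) (nat_lit 5) (nat_lit 10) (nat_lit 4) (nat_lit 309) (nat_lit 239) (nat_lit 172))) (XT.nd (nat_lit 78) (nat_lit 0) (nat_lit 0) (XT.lf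 (nat_lit 0) (nat_lit 1756837291) (nat_lit 152) (nat_lit 21998250858) (nat_lit 76) (nat_lit 20922054845) (nat_lit 8) (nat_lit 5) (nat_lit 10) (nat_lit 5) (nat_lit 9) (nat_lit 4) (nat_lit 310) (nat_lit 239) (nat_lit 171)) (XT.nd (nat_lit 78) (nat_lit 0) (nat_lit 0) (XT.lf (nat_lit 0) (nat_lit 5953238769) (nat_lit 152) (nat_lit 13441460292) (nat_lit 76) (nat_lit 27242613536) (nat_lit 8) (nat_lit 5) (nat_lit 10) (nat_lit 5) (nat_lit 9) (nat_lit 4) (nat_lit 311) (nat_lit 239) (nat_lit 170)) (XT.lf (nat_lit 0) (nat_lit 10342489172) (nat_lit 152) (nat_lit 4487146933) (nat_lit 76) (nat_lit 33866718914) (nat_lit 8) (nat_lit 5) (nat_lit 10) (nat_lit 5) (nat_lit 9) (nat_lit 4) (nat_lit 312) (nat_lit 239) (nat_lit 169))))))) (XT.nd (nat_lit 702) (nat_lit 152) (nat_lit 0) (XT.nd (nat_lit 312) (nat_lit 76) (nat_lit 0) (XT.nd (nat_lit 156) (nat_lit 0) (nat_lit 0) (XT.nd (nat_lit 78) (nat_lit 0) (nat_lit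 0) (XT.lf (nat_lit 0) (nat_lit 5047562536) (nat_lit 76) (nat_lit 9966283156) (nat_lit 152) (nat_lit 35841386720) (nat_lit 7) (nat_lit 5) (nat_lit 8) (nat_lit 5) (nat_lit 9) (nat_lit 4) (nat_lit 313) (nat_lit 239) (nat_lit 168)) (XT.lf (nat_lit 0) (nat_lit 15186383701) (nat_lit 76) (nat_lit 4792541489) (nat_lit 152) (nat_lit 33140135042) (nat_lit 7) (nat_lit 5) (nat_lit 8) (nat_lit 5) (nat_lit 9) (nat_lit 4) (nat_lit 314) (nat_lit 239) (nat_lit 167))) (XT.nd (nat_lit 78) (nat_lit 0) (nat_lit 0) (XT.lf (nat_lit 0) (nat_lit 25186979465) (nat_lit 152) (nat_lit 29701559460) (nat_lit 0) (nat_lit 607818111) (nat_lit 7) (nat_lit 5) (nat_lit 9) (nat_lit 4) (nat_lit 7) (nat_lit 4) (nat_lit 315) (nat_lit 239) (nat_lit 166)) (XT.lf (nat_lit 0) (nat_lit 30719460201) (nat_lit 152) (nat_lit 21163772319) (nat_lit 0) (nat_lit 6106097956) (nat_lit 7) (nat_lit 5) (nat_lit 9) (nat_lit 4) (nat_lit 7) (nat_lit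 4) (nat_lit 316) (nat_lit 239) (nat_lit 165)))) (XT.nd (nat_lit 156) (nat_lit 76) (nat_lit 0) (XT.nd (nat_lit 78) (nat_lit 0) (nat_lit 0) (XT.lf (nat_lit 0) (nat_lit 36514714968) (nat_lit 152) (nat_lit 12224162040) (nat_lit 0) (nat_lit 11868780445) (nat_lit 7) (nat_lit 5) (nat_lit 9) (nat_lit 4) (nat_lit 7) (nat_lit 4) (nat_lit 317) (nat_lit 239) (nat_lit 164)) (XT.lf (nat_lit 0) (nat_lit 42586541990) (nat_lit 152) (nat_lit 2861443838) (nat_lit 0) (nat_lit 17909586252) (nat_lit 7) (nat_lit 5) (nat_lit 9) (nat_lit 4) (nat_lit 7) (nat_lit 4) (nat_lit 318) (nat_lit 239) (nat_lit 163))) (XT.nd (nat_lit 78) (nat_lit 0) (nat_lit 0) (XT.lf (nat_lit 0) (nat_lit 7176362903) (nat_lit 76) (nat_lit 41885078234) (nat_lit 76) (nat_lit 17178578480) (nat_lit 6) (nat_lit 4) (nat_lit 7) (nat_lit 5) (nat_lit 7) (nat_lit 4) (nat_lit 319) (nat_lit 239) (nat_lit 162)) (XT.nd (nat_lit 78) (nat_lit 0) (nat_lit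 0) (XT.lf (nat_lit 0) (nat_lit 17793033757) (nat_lit 76) (nat_lit 38103198019) (nat_lit 76) (nat_lit 13368561108) (nat_lit 6) (nat_lit 4) (nat_lit 7) (nat_lit 5) (nat_lit 7) (nat_lit 4) (nat_lit 320) (nat_lit 239) (nat_lit 161)) (XT.lf (nat_lit 0) (nat_lit 28919234255) (nat_lit 76) (nat_lit 34141800645) (nat_lit 76) (nat_lit 9380366441) (nat_lit 6) (nat_lit 4) (nat_lit 7) (nat_lit 5) (nat_lit 7) (nat_lit 4) (nat_lit 321) (nat_lit 239) (nat_lit 160)))))) (XT.nd (nat_lit 390) (nat_lit 0) (nat_lit 0) (XT.nd (nat_lit 156) (nat_lit 152) (nat_lit 0) (XT.nd (nat_lit 78) (nat_lit 0) (nat_lit 0) (XT.lf (nat_lit 0) (nat_lit 40581455351) (nat_lit 76) (nat_lit 29991454212) (nat_lit 76) (nat_lit 5204498777) (nat_lit 6) (nat_lit 4) (nat_lit 7) (nat_lit 5) (nat_lit 7) (nat_lit 4) (nat_lit 322) (nat_lit 239) (nat_lit 159)) (XT.lf (nat_lit 0) (nat_lit 52807464237) (nat_lit 76) (nat_lit 25642276944)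 (nat_lit 76) (nat_lit 831015573) (nat_lit 6) (nat_lit 4) (nat_lit 7) (nat_lit 5) (nat_lit 7) (nat_lit 4) (nat_lit 323) (nat_lit 239) (nat_lit 158))) (XT.nd (nat_lit 78) (nat_lit 76) (nat_lit 0) (XT.lf (nat_lit 0) (nat_lit 3630456921) (nat_lit 152) (nat_lit 17391973189) (nat_lit 76) (nat_lit 61934429993) (nat_lit 5) (nat_lit 5) (nat_lit 7) (nat_lit 5) (nat_lit 6) (nat_lit 4) (nat_lit 324) (nat_lit 239) (nat_lit 157)) (XT.nd (nat_lit 78) (nat_lit 76) (nat_lit 0) (XT.lf (nat_lit 0) (nat_lit 8277261334) (nat_lit 152) (nat_lit 7888070341) (nat_lit 76) (nat_lit 70651254461) (nat_lit 5) (nat_lit 5) (nat_lit 7) (nat_lit 5) (nat_lit 6) (nat_lit 4) (nat_lit 325) (nat_lit 239) (nat_lit 156)) (XT.lf (nat_lit 0) (nat_lit 2142595277) (nat_lit 76) (nat_lit 11037915813) (nat_lit 152) (nat_lit 77687589717) (nat_lit 4) (nat_lit 5) (nat_lit 5) (nat_lit 5) (nat_lit 6) (nat_lit 4) (nat_lit 326) (nat_lit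 239) (nat_lit 155))))) (XT.nd (nat_lit 156) (nat_lit 0) (nat_lit 0) (XT.nd (nat_lit 78) (nat_lit 0) (nat_lit 0) (XT.lf (nat_lit 0) (nat_lit 12931915703) (nat_lit 76) (nat_lit 5521432938) (nat_lit 152) (nat_lit 76662628536) (nat_lit 4) (nat_lit 5) (nat_lit 5) (nat_lit 5) (nat_lit 6) (nat_lit 4) (nat_lit 327) (nat_lit 239) (nat_lit 154)) (XT.lf (nat_lit 0) (nat_lit 23985217940) (nat_lit 152) (nat_lit 75336042538) (nat_lit 0) (nat_lit 255224276) (nat_lit 4) (nat_lit 5) (nat_lit 6) (nat_lit 4) (nat_lit 4) (nat_lit 4) (nat_lit 328) (nat_lit 239) (nat_lit 153))) (XT.nd (nat_lit 78) (nat_lit 0) (nat_lit 0) (XT.lf (nat_lit 0) (nat_lit 29875777683) (nat_lit 152) (nat_lit 68251631493) (nat_lit 0) (nat_lit 6128510245) (nat_lit 4) (nat_lit 5) (nat_lit 6) (nat_lit 4) (nat_lit 4) (nat_lit 4) (nat_lit 329) (nat_lit 239) (nat_lit 152)) (XT.nd (nat_lit 78) (nat_lit 0) (nat_lit 0) (XT.lf (nat_lit 0)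 (nat_lit 36052847968) (nat_lit 152) (nat_lit 60827755652) (nat_lit 0) (nat_lit 12289129317) (nat_lit 4) (nat_lit 5) (nat_lit 6) (nat_lit 4) (nat_lit 4) (nat_lit 4) (nat_lit 330) (nat_lit 239) (nat_lit 151)) (XT.lf (nat_lit 0) (nat_lit 42531136108) (nat_lit 152) (nat_lit 53046739120) (nat_lit 0) (nat_lit 18751749634) (nat_lit 4) (nat_lit 5) (nat_lit 6) (nat_lit 4) (nat_lit 4) (nat_lit 4) (nat_lit 331) (nat_lit 239) (nat_lit 150))))))))
noncomputable def xc108 : XT := (XT.nd (nat_lit 1404) (nat_lit 152) (nat_lit 0) (XT.nd (nat_lit 702) (nat_lit 0) (nat_lit 0) (XT.nd (nat_lit 312) (nat_lit 76) (nat_lit 0) (XT.nd (nat_lit 156) (nat_lit 0) (nat_lit 0) (XT.nd (nat_lit 78) (nat_lit 0) (nat_lit 0) (XT.lf (nat_lit 0) (nat_lit 49326066596) (nat_lit 152) (nat_lit 44890055667) (nat_lit 0) (nat_lit 25531758387) (nat_lit 4) (nat_lit 5) (nat_lit 6) (nat_lit 4) (nat_lit 4) (nat_lit 4) (nat_lit 332)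 (nat_lit 239) (nat_lit 149)) (XT.lf (nat_lit 0) (nat_lit 56453817839) (nat_lit 152) (nat_lit 36338284618) (nat_lit 0) (nat_lit 32645298454) (nat_lit 4) (nat_lit 5) (nat_lit 6) (nat_lit 4) (nat_lit 4) (nat_lit 4) (nat_lit 333) (nat_lit 239) (nat_lit 148))) (XT.nd (nat_lit 78) (nat_lit 0) (nat_lit 0) (XT.lf (nat_lit 0) (nat_lit 63931360674) (nat_lit 152) (nat_lit 27371064614) (nat_lit 0) (nat_lit 40109306835) (nat_lit 4) (nat_lit 5) (nat_lit 6) (nat_lit 4) (nat_lit 4) (nat_lit 4) (nat_lit 334) (nat_lit 239) (nat_lit 147)) (XT.lf (nat_lit 0) (nat_lit 71776498773) (nat_lit 152) (nat_lit 17967045130) (nat_lit 0) (nat_lit 47941554978) (nat_lit 4) (nat_lit 5) (nat_lit 6) (nat_lit 4) (nat_lit 4) (nat_lit 4) (nat_lit 335) (nat_lit 239) (nat_lit 146)))) (XT.nd (nat_lit 156) (nat_lit 0) (nat_lit 0) (XT.nd (nat_lit 78) (nat_lit 76) (nat_lit 0) (XT.lf (nat_lit 0) (nat_lit 80007911037) (nat_lit 152)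 (nat_lit 8103835644) (nat_lit 0) (nat_lit 56160691093) (nat_lit 4) (nat_lit 5) (nat_lit 6) (nat_lit 4) (nat_lit 4) (nat_lit 4) (nat_lit 336) (nat_lit 239) (nat_lit 145)) (XT.lf (nat_lit 0) (nat_lit 2316179896) (nat_lit 76) (nat_lit 86365178229) (nat_lit 76) (nat_lit 62506266715) (nat_lit 3) (nat_lit 4) (nat_lit 4) (nat_lit 5) (nat_lit 4) (nat_lit 4) (nat_lit 337) (nat_lit 239) (nat_lit 144))) (XT.nd (nat_lit 78) (nat_lit 0) (nat_lit 0) (XT.lf (nat_lit 0) (nat_lit 13528225588) (nat_lit 76) (nat_lit 84391906752) (nat_lit 76) (nat_lit 60521860409) (nat_lit 3) (nat_lit 4) (nat_lit 4) (nat_lit 5) (nat_lit 4) (nat_lit 4) (nat_lit 338) (nat_lit 239) (nat_lit 143)) (XT.nd (nat_lit 78) (nat_lit 0) (nat_lit 0) (XT.lf (nat_lit 0) (nat_lit 25291047373) (nat_lit 76) (nat_lit 82324476361) (nat_lit 76) (nat_lit 58443825420) (nat_lit 3) (nat_lit 4) (nat_lit 4) (nat_lit 5) (nat_lit 4) (nat_lit 4) (nat_lit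 339) (nat_lit 239) (nat_lit 142)) (XT.lf (nat_lit 0) (nat_lit 37632651970) (nat_lit 76) (nat_lit 80157964605) (nat_lit 76) (nat_lit 56267214046) (nat_lit 3) (nat_lit 4) (nat_lit 4) (nat_lit 5) (nat_lit 4) (nat_lit 4) (nat_lit 340) (nat_lit 239) (nat_lit 141)))))) (XT.nd (nat_lit 312) (nat_lit 0) (nat_lit 0) (XT.nd (nat_lit 156) (nat_lit 0) (nat_lit 0) (XT.nd (nat_lit 78) (nat_lit 0) (nat_lit 0) (XT.lf (nat_lit 0) (nat_lit 50582424152) (nat_lit 76) (nat_lit 77887213121) (nat_lit 76) (nat_lit 53986843878) (nat_lit 3) (nat_lit 4) (nat_lit 4) (nat_lit 5) (nat_lit 4) (nat_lit 4) (nat_lit 341) (nat_lit 239) (nat_lit 140)) (XT.lf (nat_lit 0) (nat_lit 64171196710) (nat_lit 76) (nat_lit 75506815359) (nat_lit 76) (nat_lit 51597285465) (nat_lit 3) (nat_lit 4) (nat_lit 4) (nat_lit 5) (nat_lit 4) (nat_lit 4) (nat_lit 342) (nat_lit 239) (nat_lit 139))) (XT.nd (nat_lit 78) (nat_lit 0) (nat_lit 0)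 (XT.lf (nat_lit 0) (nat_lit 78431323863) (nat_lit 76) (nat_lit 73011103704) (nat_lit 76) (nat_lit 49092849380) (nat_lit 3) (nat_lit 4) (nat_lit 4) (nat_lit 5) (nat_lit 4) (nat_lit 4) (nat_lit 343) (nat_lit 239) (nat_lit 138)) (XT.lf (nat_lit 0) (nat_lit 93396758296) (nat_lit 76) (nat_lit 70394135987) (nat_lit 76) (nat_lit 46467572682) (nat_lit 3) (nat_lit 4) (nat_lit 4) (nat_lit 5) (nat_lit 4) (nat_lit 4) (nat_lit 344) (nat_lit 239) (nat_lit 137)))) (XT.nd (nat_lit 156) (nat_lit 0) (nat_lit 0) (XT.nd (nat_lit 78) (nat_lit 0) (nat_lit 0) (XT.lf (nat_lit 0) (nat_lit 109103131995) (nat_lit 76) (nat_lit 67649681331) (nat_lit 76) (nat_lit 43715204712) (nat_lit 3) (nat_lit 4) (nat_lit 4) (nat_lit 5) (nat_lit 4) (nat_lit 4) (nat_lit 345) (nat_lit 239) (nat_lit 136)) (XT.lf (nat_lit 0) (nat_lit 125587841089) (nat_lit 76) (nat_lit 64771205321) (nat_lit 76) (nat_lit 40829192211) (nat_lit 3) (nat_lit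 4) (nat_lit 4) (nat_lit 5) (nat_lit 4) (nat_lit 4) (nat_lit 346) (nat_lit 239) (nat_lit 135))) (XT.nd (nat_lit 78) (nat_lit 0) (nat_lit 0) (XT.lf (nat_lit 0) (nat_lit 142890134884) (nat_lit 76) (nat_lit 61751854442) (nat_lit 76) (nat_lit 37802663723) (nat_lit 3) (nat_lit 4) (nat_lit 4) (nat_lit 5) (nat_lit 4) (nat_lit 4) (nat_lit 347) (nat_lit 239) (nat_lit 134)) (XT.nd (nat_lit 78) (nat_lit 0) (nat_lit 0) (XT.lf (nat_lit 0) (nat_lit 161051209319) (nat_lit 76) (nat_lit 58584439765) (nat_lit 76) (nat_lit 34628413226) (nat_lit 3) (nat_lit 4) (nat_lit 4) (nat_lit 5) (nat_lit 4) (nat_lit 4) (nat_lit 348) (nat_lit 239) (nat_lit 133)) (XT.lf (nat_lit 0) (nat_lit 180114305046) (nat_lit 76) (nat_lit 55261419824) (nat_lit 76) (nat_lit 31298882982) (nat_lit 3) (nat_lit 4) (nat_lit 4) (nat_lit 5) (nat_lit 4) (nat_lit 4) (nat_lit 349) (nat_lit 239) (nat_lit 132))))))) (XT.nd (nat_lit 702) (nat_lit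 76) (nat_lit 0) (XT.nd (nat_lit 312) (nat_lit 76) (nat_lit 0) (XT.nd (nat_lit 156) (nat_lit 0) (nat_lit 0) (XT.nd (nat_lit 78) (nat_lit 0) (nat_lit 0) (XT.lf (nat_lit 0) (nat_lit 200124810388) (nat_lit 76) (nat_lit 51774882669) (nat_lit 76) (nat_lit 27806145538) (nat_lit 3) (nat_lit 4) (nat_lit 4) (nat_lit 5) (nat_lit 4) (nat_lit 4) (nat_lit 350) (nat_lit 239) (nat_lit 131)) (XT.lf (nat_lit 0) (nat_lit 221130369407) (nat_lit 76) (nat_lit 48116527020) (nat_lit 76) (nat_lit 24141884851) (nat_lit 3) (nat_lit 4) (nat_lit 4) (nat_lit 5) (nat_lit 4) (nat_lit 4) (nat_lit 351) (nat_lit 239) (nat_lit 130))) (XT.nd (nat_lit 78) (nat_lit 0) (nat_lit 0) (XT.lf (nat_lit 0) (nat_lit 243180995338) (nat_lit 76) (nat_lit 44277642506) (nat_lit 76) (nat_lit 20297376492) (nat_lit 3) (nat_lit 4) (nat_lit 4) (nat_lit 5) (nat_lit 4) (nat_lit 4) (nat_lit 352) (nat_lit 239) (nat_lit 129)) (XT.lf (nat_lit 0)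 (nat_lit 266329189671) (nat_lit 76) (nat_lit 40249088926) (nat_lit 76) (nat_lit 16263466870) (nat_lit 3) (nat_lit 4) (nat_lit 4) (nat_lit 5) (nat_lit 4) (nat_lit 4) (nat_lit 353) (nat_lit 239) (nat_lit 128)))) (XT.nd (nat_lit 156) (nat_lit 76) (nat_lit 0) (XT.nd (nat_lit 78) (nat_lit 0) (nat_lit 0) (XT.lf (nat_lit 0) (nat_lit 290630067155) (nat_lit 76) (nat_lit 36021274487) (nat_lit 76) (nat_lit 12030551437) (nat_lit 3) (nat_lit 4) (nat_lit 4) (nat_lit 5) (nat_lit 4) (nat_lit 4) (nat_lit 354) (nat_lit 239) (nat_lit 127)) (XT.lf (nat_lit 0) (nat_lit 316141487022) (nat_lit 76) (nat_lit 31584132963) (nat_lit 76) (nat_lit 7588551824) (nat_lit 3) (nat_lit 4) (nat_lit 4) (nat_lit 5) (nat_lit 4) (nat_lit 4) (nat_lit 355) (nat_lit 239) (nat_lit 126))) (XT.nd (nat_lit 78) (nat_lit 76) (nat_lit 0) (XT.lf (nat_lit 0) (nat_lit 342924190747) (nat_lit 76) (nat_lit 26927099731) (nat_lit 76) (nat_lit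 2926891841) (nat_lit 3) (nat_lit 4) (nat_lit 4) (nat_lit 5) (nat_lit 4) (nat_lit 4) (nat_lit 356) (nat_lit 239) (nat_lit 125)) (XT.nd (nat_lit 78) (nat_lit 0) (nat_lit 0) (XT.lf (nat_lit 0) (nat_lit 1902618540) (nat_lit 152) (nat_lit 20104246312) (nat_lit 76) (nat_lit 369107106366) (nat_lit 2) (nat_lit 5) (nat_lit 4) (nat_lit 5) (nat_lit 3) (nat_lit 4) (nat_lit 357) (nat_lit 239) (nat_lit 124)) (XT.lf (nat_lit 0) (nat_lit 6873099707) (nat_lit 152) (nat_lit 9918956519) (nat_lit 76) (nat_lit 393572202860) (nat_lit 2) (nat_lit 5) (nat_lit 4) (nat_lit 5) (nat_lit 3) (nat_lit 4) (nat_lit 358) (nat_lit 239) (nat_lit 123)))))) (XT.nd (nat_lit 312) (nat_lit 0) (nat_lit 0) (XT.nd (nat_lit 156) (nat_lit 0) (nat_lit 0) (XT.nd (nat_lit 78) (nat_lit 0) (nat_lit 0) (XT.lf (nat_lit 0) (nat_lit 797345513) (nat_lit 76) (nat_lit 11305168240) (nat_lit 152) (nat_lit 418474028600) (nat_lit 1) (nat_lit 5)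 (nat_lit 2) (nat_lit 5) (nat_lit 3) (nat_lit 4) (nat_lit 359) (nat_lit 239) (nat_lit 122)) (XT.lf (nat_lit 0) (nat_lit 12390114981) (nat_lit 76) (nat_lit 5369265068) (nat_lit 152) (nat_lit 434031762031) (nat_lit 1) (nat_lit 5) (nat_lit 2) (nat_lit 5) (nat_lit 3) (nat_lit 4) (nat_lit 360) (nat_lit 239) (nat_lit 121))) (XT.nd (nat_lit 78) (nat_lit 0) (nat_lit 0) (XT.lf (nat_lit 0) (nat_lit 23710639332) (nat_lit 152) (nat_lit 449521035342) (nat_lit 0) (nat_lit 834220949) (nat_lit 1) (nat_lit 5) (nat_lit 3) (nat_lit 4) (nat_lit 1) (nat_lit 4) (nat_lit 361) (nat_lit 239) (nat_lit 120)) (XT.lf (nat_lit 0) (nat_lit 30045643324) (nat_lit 152) (nat_lit 460238498882) (nat_lit 0) (nat_lit 7165936796) (nat_lit 1) (nat_lit 5) (nat_lit 3) (nat_lit 4) (nat_lit 1) (nat_lit 4) (nat_lit 362) (nat_lit 239) (nat_lit 119)))) (XT.nd (nat_lit 28002) (nat_lit 0) (nat_lit 9120) (XT.nd (nat_lit 27924) (nat_lit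 0) (nat_lit 9348) (XT.lf (nat_lit 0) (nat_lit 36695646095) (nat_lit 152) (nat_lit 471495106216) (nat_lit 0) (nat_lit 13812807999) (nat_lit 1) (nat_lit 5) (nat_lit 3) (nat_lit 4) (nat_lit 1) (nat_lit 4) (nat_lit 363) (nat_lit 239) (nat_lit 118)) (XT.lf (nat_lit 0) (nat_lit 1073741823) (nat_lit 0) (nat_lit 0) (nat_lit 0) (nat_lit 0) (nat_lit 124) (nat_lit 0) (nat_lit 1) (nat_lit 0) (nat_lit 1) (nat_lit 0) (nat_lit 240) (nat_lit 240) (nat_lit 240))) (XT.nd (nat_lit 78) (nat_lit 152) (nat_lit 0) (XT.lf (nat_lit 0) (nat_lit 2853839803) (nat_lit 76) (nat_lit 3498596203) (nat_lit 0) (nat_lit 92789398) (nat_lit 123) (nat_lit 5) (nat_lit 124) (nat_lit 0) (nat_lit 123) (nat_lit 4) (nat_lit 241) (nat_lit 240) (nat_lit 239)) (XT.nd (nat_lit 78) (nat_lit 152) (nat_lit 0) (XT.lf (nat_lit 0) (nat_lit 5669211342) (nat_lit 76) (nat_lit 510394400) (nat_lit 0) (nat_lit 278589123) (nat_lit 123) (nat_lit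 5) (nat_lit 124) (nat_lit 0) (nat_lit 123) (nat_lit 4) (nat_lit 242) (nat_lit 240) (nat_lit 238)) (XT.lf (nat_lit 0) (nat_lit 1949793107) (nat_lit 152) (nat_lit 3897900455) (nat_lit 76) (nat_lit 630084495) (nat_lit 121) (nat_lit 5) (nat_lit 123) (nat_lit 5) (nat_lit 122) (nat_lit 4) (nat_lit 243) (nat_lit 240) (nat_lit 237))))))))
noncomputable def xc109 : XT := (XT.nd (nat_lit 1404) (nat_lit 2432) (nat_lit 0) (XT.nd (nat_lit 702) (nat_lit 2812) (nat_lit 0) (XT.nd (nat_lit 312) (nat_lit 1292) (nat_lit 0) (XT.nd (nat_lit 156) (nat_lit 228) (nat_lit 0) (XT.nd (nat_lit 78) (nat_lit 228) (nat_lit 0) (XT.lf (nat_lit 0) (nat_lit 4638361884) (nat_lit 152) (nat_lit 771433615) (nat_lit 76) (nat_lit 1096792125) (nat_lit 121) (nat_lit 5) (nat_lit 123) (nat_lit 5) (nat_lit 122) (nat_lit 4) (nat_lit 244) (nat_lit 240) (nat_lit 236)) (XT.lf (nat_lit 0) (nat_lit 769705521) (nat_lit 228) (nat_lit 4062975262)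 (nat_lit 76) (nat_lit 1710478603) (nat_lit 118) (nat_lit 5) (nat_lit 121) (nat_lit 5) (nat_lit 119) (nat_lit 5) (nat_lit 245) (nat_lit 240) (nat_lit 235))) (XT.nd (nat_lit 78) (nat_lit 228) (nat_lit 0) (XT.lf (nat_lit 0) (nat_lit 3331555838) (nat_lit 228) (nat_lit 792922948) (nat_lit 76) (nat_lit 2463554182) (nat_lit 118) (nat_lit 5) (nat_lit 121) (nat_lit 5) (nat_lit 119) (nat_lit 5) (nat_lit 246) (nat_lit 240) (nat_lit 234)) (XT.lf (nat_lit 0) (nat_lit 2627253059) (nat_lit 228) (nat_lit 3284339017) (nat_lit 304) (nat_lit 729762929) (nat_lit 115) (nat_lit 5) (nat_lit 118) (nat_lit 5) (nat_lit 119) (nat_lit 5) (nat_lit 247) (nat_lit 240) (nat_lit 233)))) (XT.nd (nat_lit 156) (nat_lit 912) (nat_lit 0) (XT.nd (nat_lit 78) (nat_lit 304) (nat_lit 0) (XT.lf (nat_lit 0) (nat_lit 1727107857) (nat_lit 304) (nat_lit 582394755) (nat_lit 76) (nat_lit 4393713724) (nat_lit 114) (nat_lit 5) (nat_lit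 118) (nat_lit 5) (nat_lit 115) (nat_lit 5) (nat_lit 248) (nat_lit 240) (nat_lit 232)) (XT.lf (nat_lit 0) (nat_lit 3008618225) (nat_lit 304) (nat_lit 1179442005) (nat_lit 380) (nat_lit 2584837041) (nat_lit 110) (nat_lit 5) (nat_lit 114) (nat_lit 5) (nat_lit 115) (nat_lit 5) (nat_lit 249) (nat_lit 240) (nat_lit 231))) (XT.nd (nat_lit 78) (nat_lit 912) (nat_lit 0) (XT.lf (nat_lit 0) (nat_lit 6646865227) (nat_lit 380) (nat_lit 149514257) (nat_lit 76) (nat_lit 56526181) (nat_lit 110) (nat_lit 5) (nat_lit 115) (nat_lit 5) (nat_lit 111) (nat_lit 5) (nat_lit 250) (nat_lit 240) (nat_lit 230)) (XT.nd (nat_lit 78) (nat_lit 456) (nat_lit 0) (XT.lf (nat_lit 0) (nat_lit 2164305912) (nat_lit 456) (nat_lit 3329854421) (nat_lit 76) (nat_lit 1444196633) (nat_lit 104) (nat_lit 5) (nat_lit 110) (nat_lit 5) (nat_lit 105) (nat_lit 5) (nat_lit 251) (nat_lit 240) (nat_lit 229)) (XT.lf (nat_lit 0) (nat_lit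 441075735) (nat_lit 456) (nat_lit 4087822980) (nat_lit 532) (nat_lit 2505384749) (nat_lit 98) (nat_lit 5) (nat_lit 104) (nat_lit 5) (nat_lit 105) (nat_lit 5) (nat_lit 252) (nat_lit 240) (nat_lit 228)))))) (XT.nd (nat_lit 312) (nat_lit 1596) (nat_lit 0) (XT.nd (nat_lit 156) (nat_lit 608) (nat_lit 0) (XT.nd (nat_lit 78) (nat_lit 608) (nat_lit 0) (XT.lf (nat_lit 0) (nat_lit 4416511978) (nat_lit 456) (nat_lit 2529277951) (nat_lit 532) (nat_lit 192993100) (nat_lit 98) (nat_lit 5) (nat_lit 104) (nat_lit 5) (nat_lit 105) (nat_lit 5) (nat_lit 253) (nat_lit 240) (nat_lit 227)) (XT.lf (nat_lit 0) (nat_lit 1247995478) (nat_lit 532) (nat_lit 816121345) (nat_lit 608) (nat_lit 5188049885) (nat_lit 90) (nat_lit 5) (nat_lit 97) (nat_lit 5) (nat_lit 98) (nat_lit 5) (nat_lit 254) (nat_lit 240) (nat_lit 226))) (XT.nd (nat_lit 78) (nat_lit 608) (nat_lit 0) (XT.lf (nat_lit 0) (nat_lit 4375347297) (nat_lit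 608) (nat_lit 1980971718) (nat_lit 76) (nat_lit 1017769617) (nat_lit 90) (nat_lit 5) (nat_lit 98) (nat_lit 5) (nat_lit 91) (nat_lit 5) (nat_lit 255) (nat_lit 240) (nat_lit 225)) (XT.lf (nat_lit 0) (nat_lit 2201340088) (nat_lit 608) (nat_lit 4539546885) (nat_lit 684) (nat_lit 764677343) (nat_lit 82) (nat_lit 5) (nat_lit 90) (nat_lit 5) (nat_lit 91) (nat_lit 5) (nat_lit 256) (nat_lit 240) (nat_lit 224)))) (XT.nd (nat_lit 156) (nat_lit 836) (nat_lit 0) (XT.nd (nat_lit 78) (nat_lit 684) (nat_lit 0) (XT.lf (nat_lit 0) (nat_lit 1457160223) (nat_lit 684) (nat_lit 1107065926) (nat_lit 76) (nat_lit 5082177935) (nat_lit 81) (nat_lit 5) (nat_lit 90) (nat_lit 5) (nat_lit 82) (nat_lit 5) (nat_lit 257) (nat_lit 240) (nat_lit 223)) (XT.lf (nat_lit 0) (nat_lit 3296310740) (nat_lit 684) (nat_lit 417237243) (nat_lit 760) (nat_lit 4082994505) (nat_lit 72) (nat_lit 5) (nat_lit 81) (nat_lit 5) (nat_lit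 82) (nat_lit 5) (nat_lit 258) (nat_lit 240) (nat_lit 222))) (XT.nd (nat_lit 78) (nat_lit 836) (nat_lit 0) (XT.lf (nat_lit 0) (nat_lit 6031633622) (nat_lit 760) (nat_lit 124328655) (nat_lit 76) (nat_lit 1801106616) (nat_lit 72) (nat_lit 5) (nat_lit 82) (nat_lit 5) (nat_lit 73) (nat_lit 5) (nat_lit 259) (nat_lit 240) (nat_lit 221)) (XT.nd (nat_lit 78) (nat_lit 380) (nat_lit 0) (XT.lf (nat_lit 0) (nat_lit 311681883) (nat_lit 456) (nat_lit 3619447949) (nat_lit 76) (nat_lit 4195393051) (nat_lit 66) (nat_lit 5) (nat_lit 72) (nat_lit 5) (nat_lit 67) (nat_lit 5) (nat_lit 260) (nat_lit 240) (nat_lit 220)) (XT.lf (nat_lit 0) (nat_lit 972125087) (nat_lit 380) (nat_lit 1548223517) (nat_lit 456) (nat_lit 5786583446) (nat_lit 61) (nat_lit 5) (nat_lit 66) (nat_lit 5) (nat_lit 67) (nat_lit 5) (nat_lit 261) (nat_lit 240) (nat_lit 219))))))) (XT.nd (nat_lit 702) (nat_lit 912) (nat_lit 0) (XT.nd (nat_lit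 312) (nat_lit 836) (nat_lit 0) (XT.nd (nat_lit 156) (nat_lit 380) (nat_lit 0) (XT.nd (nat_lit 78) (nat_lit 304) (nat_lit 0) (XT.lf (nat_lit 0) (nat_lit 4826562772) (nat_lit 456) (nat_lit 2690772874) (nat_lit 76) (nat_lit 979937708) (nat_lit 61) (nat_lit 5) (nat_lit 67) (nat_lit 5) (nat_lit 62) (nat_lit 5) (nat_lit 262) (nat_lit 240) (nat_lit 218)) (XT.lf (nat_lit 0) (nat_lit 2132610404) (nat_lit 304) (nat_lit 5088363701) (nat_lit 380) (nat_lit 1477767945) (nat_lit 57) (nat_lit 5) (nat_lit 61) (nat_lit 5) (nat_lit 62) (nat_lit 5) (nat_lit 263) (nat_lit 240) (nat_lit 217))) (XT.nd (nat_lit 78) (nat_lit 304) (nat_lit 0) (XT.lf (nat_lit 0) (nat_lit 759965146) (nat_lit 380) (nat_lit 1728268747) (nat_lit 76) (nat_lit 6423560237) (nat_lit 56) (nat_lit 5) (nat_lit 61) (nat_lit 5) (nat_lit 57) (nat_lit 5) (nat_lit 264) (nat_lit 240) (nat_lit 216)) (XT.lf (nat_lit 0) (nat_lit 3036201526) (nat_lit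 380) (nat_lit 5799154592) (nat_lit 76) (nat_lit 300337420) (nat_lit 52) (nat_lit 5) (nat_lit 57) (nat_lit 5) (nat_lit 53) (nat_lit 5) (nat_lit 265) (nat_lit 240) (nat_lit 215)))) (XT.nd (nat_lit 156) (nat_lit 608) (nat_lit 0) (XT.nd (nat_lit 78) (nat_lit 228) (nat_lit 0) (XT.lf (nat_lit 0) (nat_lit 5418275177) (nat_lit 380) (nat_lit 791027865) (nat_lit 76) (nat_lit 3162093105) (nat_lit 52) (nat_lit 5) (nat_lit 57) (nat_lit 5) (nat_lit 53) (nat_lit 5) (nat_lit 266) (nat_lit 240) (nat_lit 214)) (XT.lf (nat_lit 0) (nat_lit 4521732226) (nat_lit 228) (nat_lit 3393541810) (nat_lit 304) (nat_lit 1704018298) (nat_lit 49) (nat_lit 5) (nat_lit 52) (nat_lit 5) (nat_lit 53) (nat_lit 5) (nat_lit 267) (nat_lit 240) (nat_lit 213))) (XT.nd (nat_lit 78) (nat_lit 228) (nat_lit 0) (XT.lf (nat_lit 0) (nat_lit 151374729) (nat_lit 304) (nat_lit 427119889) (nat_lit 380) (nat_lit 9303656362) (nat_lit 44) (nat_lit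 5) (nat_lit 48) (nat_lit 5) (nat_lit 49) (nat_lit 5) (nat_lit 268) (nat_lit 240) (nat_lit 212)) (XT.nd (nat_lit 78) (nat_lit 228) (nat_lit 0) (XT.lf (nat_lit 0) (nat_lit 2975422963) (nat_lit 380) (nat_lit 4479080426) (nat_lit 76) (nat_lit 2699546994) (nat_lit 44) (nat_lit 5) (nat_lit 49) (nat_lit 5) (nat_lit 45) (nat_lit 5) (nat_lit 269) (nat_lit 240) (nat_lit 211)) (XT.lf (nat_lit 0) (nat_lit 970040692) (nat_lit 228) (nat_lit 4475589530) (nat_lit 304) (nat_lit 4996407057) (nat_lit 41) (nat_lit 5) (nat_lit 44) (nat_lit 5) (nat_lit 45) (nat_lit 5) (nat_lit 270) (nat_lit 240) (nat_lit 210)))))) (XT.nd (nat_lit 312) (nat_lit 456) (nat_lit 0) (XT.nd (nat_lit 156) (nat_lit 228) (nat_lit 0) (XT.nd (nat_lit 78) (nat_lit 228) (nat_lit 0) (XT.lf (nat_lit 0) (nat_lit 6759355320) (nat_lit 228) (nat_lit 1289035244) (nat_lit 304) (nat_lit 2695737155) (nat_lit 41) (nat_lit 5) (nat_lit 44) (nat_lit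 5) (nat_lit 45) (nat_lit 5) (nat_lit 271) (nat_lit 240) (nat_lit 209)) (XT.lf (nat_lit 0) (nat_lit 1712918290) (nat_lit 228) (nat_lit 9063284546) (nat_lit 304) (nat_lit 285523037) (nat_lit 38) (nat_lit 5) (nat_lit 41) (nat_lit 5) (nat_lit 42) (nat_lit 5) (nat_lit 272) (nat_lit 240) (nat_lit 208))) (XT.nd (nat_lit 78) (nat_lit 152) (nat_lit 0) (XT.lf (nat_lit 0) (nat_lit 2199677842) (nat_lit 304) (nat_lit 3702725474) (nat_lit 76) (nat_lit 5489866145) (nat_lit 37) (nat_lit 5) (nat_lit 41) (nat_lit 5) (nat_lit 38) (nat_lit 5) (nat_lit 273) (nat_lit 240) (nat_lit 207)) (XT.lf (nat_lit 0) (nat_lit 2208386340) (nat_lit 152) (nat_lit 2565268901) (nat_lit 228) (nat_lit 6966873970) (nat_lit 35) (nat_lit 5) (nat_lit 37) (nat_lit 5) (nat_lit 38) (nat_lit 5) (nat_lit 274) (nat_lit 240) (nat_lit 206)))) (XT.nd (nat_lit 156) (nat_lit 228) (nat_lit 0) (XT.nd (nat_lit 78) (nat_lit 228) (nat_lit 0)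 (XT.lf (nat_lit 0) (nat_lit 7495589681) (nat_lit 228) (nat_lit 3659778803) (nat_lit 76) (nat_lit 949993050) (nat_lit 35) (nat_lit 5) (nat_lit 38) (nat_lit 5) (nat_lit 36) (nat_lit 5) (nat_lit 275) (nat_lit 240) (nat_lit 205)) (XT.lf (nat_lit 0) (nat_lit 2462358677) (nat_lit 228) (nat_lit 7915442591) (nat_lit 304) (nat_lit 2109541841) (nat_lit 32) (nat_lit 5) (nat_lit 35) (nat_lit 5) (nat_lit 36) (nat_lit 5) (nat_lit 276) (nat_lit 240) (nat_lit 204))) (XT.nd (nat_lit 78) (nat_lit 152) (nat_lit 0) (XT.lf (nat_lit 0) (nat_lit 506309313) (nat_lit 304) (nat_lit 3957985569) (nat_lit 76) (nat_lit 8423476355) (nat_lit 31) (nat_lit 5) (nat_lit 35) (nat_lit 5) (nat_lit 32) (nat_lit 5) (nat_lit 277) (nat_lit 240) (nat_lit 203)) (XT.nd (nat_lit 78) (nat_lit 0) (nat_lit 0) (XT.lf (nat_lit 0) (nat_lit 2376455807) (nat_lit 152) (nat_lit 789485969) (nat_lit 228) (nat_lit 10141456476) (nat_lit 29) (nat_lit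 5) (nat_lit 31) (nat_lit 5) (nat_lit 32) (nat_lit 5) (nat_lit 278) (nat_lit 240) (nat_lit 202)) (XT.lf (nat_lit 0) (nat_lit 6022348592) (nat_lit 228) (nat_lit 4707087976) (nat_lit 76) (nat_lit 3015476390) (nat_lit 29) (nat_lit 5) (nat_lit 32) (nat_lit 5) (nat_lit 30) (nat_lit 5) (nat_lit 279) (nat_lit 240) (nat_lit 201))))))))
noncomputable def xc110 : XT := (XT.nd (nat_lit 1404) (nat_lit 532) (nat_lit 0) (XT.nd (nat_lit 702) (nat_lit 456) (nat_lit 0) (XT.nd (nat_lit 312) (nat_lit 304) (nat_lit 0) (XT.nd (nat_lit 156) (nat_lit 228) (nat_lit 0) (XT.nd (nat_lit 78) (nat_lit 0) (nat_lit 0) (XT.lf (nat_lit 0) (nat_lit 1797845871) (nat_lit 152) (nat_lit 7214976717) (nat_lit 228) (nat_lit 5192009874) (nat_lit 27) (nat_lit 5) (nat_lit 29) (nat_lit 5) (nat_lit 30) (nat_lit 5) (nat_lit 280) (nat_lit 240) (nat_lit 200)) (XT.lf (nat_lit 0) (nat_lit 8717937681) (nat_lit 152) (nat_lit 3466056543)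 (nat_lit 228) (nat_lit 2502282072) (nat_lit 27) (nat_lit 5) (nat_lit 29) (nat_lit 5) (nat_lit 30) (nat_lit 5) (nat_lit 281) (nat_lit 240) (nat_lit 199))) (XT.nd (nat_lit 78) (nat_lit 0) (nat_lit 0) (XT.lf (nat_lit 0) (nat_lit 283331109) (nat_lit 228) (nat_lit 14461394700) (nat_lit 76) (nat_lit 448309017) (nat_lit 24) (nat_lit 5) (nat_lit 27) (nat_lit 5) (nat_lit 25) (nat_lit 5) (nat_lit 282) (nat_lit 240) (nat_lit 198)) (XT.lf (nat_lit 0) (nat_lit 3237374169) (nat_lit 228) (nat_lit 7918226764) (nat_lit 76) (nat_lit 4561892383) (nat_lit 24) (nat_lit 5) (nat_lit 27) (nat_lit 5) (nat_lit 25) (nat_lit 5) (nat_lit 283) (nat_lit 240) (nat_lit 197)))) (XT.nd (nat_lit 156) (nat_lit 152) (nat_lit 0) (XT.nd (nat_lit 78) (nat_lit 152) (nat_lit 0) (XT.lf (nat_lit 0) (nat_lit 6295012723) (nat_lit 228) (nat_lit 1116924957) (nat_lit 76) (nat_lit 8858514002) (nat_lit 24) (nat_lit 5) (nat_lit 27) (nat_lit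 5) (nat_lit 25) (nat_lit 5) (nat_lit 284) (nat_lit 240) (nat_lit 196)) (XT.lf (nat_lit 0) (nat_lit 6155725971) (nat_lit 152) (nat_lit 3403909024) (nat_lit 228) (nat_lit 7288786088) (nat_lit 22) (nat_lit 5) (nat_lit 24) (nat_lit 5) (nat_lit 25) (nat_lit 5) (nat_lit 285) (nat_lit 240) (nat_lit 195))) (XT.nd (nat_lit 78) (nat_lit 152) (nat_lit 0) (XT.lf (nat_lit 0) (nat_lit 12977889710) (nat_lit 228) (nat_lit 3702851223) (nat_lit 76) (nat_lit 775092916) (nat_lit 22) (nat_lit 5) (nat_lit 25) (nat_lit 5) (nat_lit 23) (nat_lit 4) (nat_lit 286) (nat_lit 240) (nat_lit 194)) (XT.nd (nat_lit 78) (nat_lit 76) (nat_lit 0) (XT.lf (nat_lit 0) (nat_lit 3633724289) (nat_lit 76) (nat_lit 13006452746) (nat_lit 152) (nat_lit 1449846089) (nat_lit 21) (nat_lit 5) (nat_lit 22) (nat_lit 5) (nat_lit 23) (nat_lit 4) (nat_lit 287) (nat_lit 240) (nat_lit 193)) (XT.lf (nat_lit 0) (nat_lit 1698836913) (nat_lit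 152) (nat_lit 7378728483) (nat_lit 76) (nat_lit 9675835351) (nat_lit 20) (nat_lit 5) (nat_lit 22) (nat_lit 5) (nat_lit 21) (nat_lit 5) (nat_lit 288) (nat_lit 240) (nat_lit 192)))))) (XT.nd (nat_lit 312) (nat_lit 228) (nat_lit 0) (XT.nd (nat_lit 156) (nat_lit 76) (nat_lit 0) (XT.nd (nat_lit 78) (nat_lit 152) (nat_lit 0) (XT.lf (nat_lit 0) (nat_lit 4918898558) (nat_lit 152) (nat_lit 31611857) (nat_lit 76) (nat_lit 14500168437) (nat_lit 20) (nat_lit 5) (nat_lit 22) (nat_lit 5) (nat_lit 21) (nat_lit 5) (nat_lit 289) (nat_lit 240) (nat_lit 191)) (XT.lf (nat_lit 0) (nat_lit 7877303235) (nat_lit 152) (nat_lit 510093332) (nat_lit 228) (nat_lit 11791103528) (nat_lit 18) (nat_lit 5) (nat_lit 20) (nat_lit 5) (nat_lit 21) (nat_lit 5) (nat_lit 290) (nat_lit 240) (nat_lit 190))) (XT.nd (nat_lit 78) (nat_lit 76) (nat_lit 0) (XT.lf (nat_lit 0) (nat_lit 12059603318) (nat_lit 228) (nat_lit 4882954773)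 (nat_lit 76) (nat_lit 3998688593) (nat_lit 18) (nat_lit 5) (nat_lit 21) (nat_lit 5) (nat_lit 19) (nat_lit 4) (nat_lit 291) (nat_lit 240) (nat_lit 189)) (XT.lf (nat_lit 0) (nat_lit 2936399203) (nat_lit 76) (nat_lit 12999809729) (nat_lit 152) (nat_lit 5804928409) (nat_lit 17) (nat_lit 5) (nat_lit 18) (nat_lit 5) (nat_lit 19) (nat_lit 4) (nat_lit 292) (nat_lit 240) (nat_lit 188)))) (XT.nd (nat_lit 156) (nat_lit 152) (nat_lit 0) (XT.nd (nat_lit 78) (nat_lit 76) (nat_lit 0) (XT.lf (nat_lit 0) (nat_lit 11261718789) (nat_lit 76) (nat_lit 8794942221) (nat_lit 152) (nat_lit 2521904679) (nat_lit 17) (nat_lit 5) (nat_lit 18) (nat_lit 5) (nat_lit 19) (nat_lit 4) (nat_lit 293) (nat_lit 240) (nat_lit 187)) (XT.lf (nat_lit 0) (nat_lit 863982190) (nat_lit 152) (nat_lit 3522025032) (nat_lit 76) (nat_lit 19072759489) (nat_lit 16) (nat_lit 5) (nat_lit 18) (nat_lit 5) (nat_lit 17) (nat_lit 5) (nat_lit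 294) (nat_lit 240) (nat_lit 186))) (XT.nd (nat_lit 78) (nat_lit 0) (nat_lit 0) (XT.lf (nat_lit 0) (nat_lit 4383335192) (nat_lit 228) (nat_lit 19662309454) (nat_lit 76) (nat_lit 332857770) (nat_lit 14) (nat_lit 5) (nat_lit 17) (nat_lit 5) (nat_lit 15) (nat_lit 4) (nat_lit 295) (nat_lit 240) (nat_lit 185)) (XT.nd (nat_lit 78) (nat_lit 0) (nat_lit 0) (XT.lf (nat_lit 0) (nat_lit 8181363114) (nat_lit 228) (nat_lit 11976398737) (nat_lit 76) (nat_lit 5181363862) (nat_lit 14) (nat_lit 5) (nat_lit 17) (nat_lit 5) (nat_lit 15) (nat_lit 4) (nat_lit 296) (nat_lit 240) (nat_lit 184)) (XT.lf (nat_lit 0) (nat_lit 12140892899) (nat_lit 228) (nat_lit 3954645079) (nat_lit 76) (nat_lit 10253696623) (nat_lit 14) (nat_lit 5) (nat_lit 17) (nat_lit 5) (nat_lit 15) (nat_lit 4) (nat_lit 297) (nat_lit 240) (nat_lit 183))))))) (XT.nd (nat_lit 702) (nat_lit 228) (nat_lit 0) (XT.nd (nat_lit 312) (nat_lit 152) (nat_lit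 0) (XT.nd (nat_lit 156) (nat_lit 76) (nat_lit 0) (XT.nd (nat_lit 78) (nat_lit 0) (nat_lit 0) (XT.lf (nat_lit 0) (nat_lit 4568263906) (nat_lit 76) (nat_lit 11774411496) (nat_lit 152) (nat_lit 11064992530) (nat_lit 13) (nat_lit 5) (nat_lit 14) (nat_lit 5) (nat_lit 15) (nat_lit 4) (nat_lit 298) (nat_lit 240) (nat_lit 182)) (XT.lf (nat_lit 0) (nat_lit 13609213640) (nat_lit 76) (nat_lit 7185839168) (nat_lit 152) (nat_lit 7721976079) (nat_lit 13) (nat_lit 5) (nat_lit 14) (nat_lit 5) (nat_lit 15) (nat_lit 4) (nat_lit 299) (nat_lit 240) (nat_lit 181))) (XT.nd (nat_lit 78) (nat_lit 76) (nat_lit 0) (XT.lf (nat_lit 0) (nat_lit 23058971766) (nat_lit 76) (nat_lit 2385869651) (nat_lit 152) (nat_lit 4238306616) (nat_lit 13) (nat_lit 5) (nat_lit 14) (nat_lit 5) (nat_lit 15) (nat_lit 4) (nat_lit 300) (nat_lit 240) (nat_lit 180)) (XT.lf (nat_lit 0) (nat_lit 2055866640) (nat_lit 76) (nat_lit 28320513151)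 (nat_lit 76) (nat_lit 528758668) (nat_lit 12) (nat_lit 4) (nat_lit 13) (nat_lit 5) (nat_lit 13) (nat_lit 4) (nat_lit 301) (nat_lit 240) (nat_lit 179)))) (XT.nd (nat_lit 156) (nat_lit 76) (nat_lit 0) (XT.nd (nat_lit 78) (nat_lit 0) (nat_lit 0) (XT.lf (nat_lit 0) (nat_lit 3387477928) (nat_lit 152) (nat_lit 20918525925) (nat_lit 76) (nat_lit 7873174778) (nat_lit 11) (nat_lit 5) (nat_lit 13) (nat_lit 5) (nat_lit 12) (nat_lit 4) (nat_lit 302) (nat_lit 240) (nat_lit 178)) (XT.lf (nat_lit 0) (nat_lit 7458725630) (nat_lit 152) (nat_lit 12640183561) (nat_lit 76) (nat_lit 13418754243) (nat_lit 11) (nat_lit 5) (nat_lit 13) (nat_lit 5) (nat_lit 12) (nat_lit 4) (nat_lit 303) (nat_lit 240) (nat_lit 177))) (XT.nd (nat_lit 78) (nat_lit 76) (nat_lit 0) (XT.lf (nat_lit 0) (nat_lit 11711601463) (nat_lit 152) (nat_lit 3986278983) (nat_lit 76) (nat_lit 19226312060) (nat_lit 11) (nat_lit 5) (nat_lit 13)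 (nat_lit 5) (nat_lit 12) (nat_lit 4) (nat_lit 304) (nat_lit 240) (nat_lit 176)) (XT.nd (nat_lit 78) (nat_lit 0) (nat_lit 0) (XT.lf (nat_lit 0) (nat_lit 5231224185) (nat_lit 76) (nat_lit 11006681207) (nat_lit 152) (nat_lit 20160125632) (nat_lit 10) (nat_lit 5) (nat_lit 11) (nat_lit 5) (nat_lit 12) (nat_lit 4) (nat_lit 305) (nat_lit 240) (nat_lit 175)) (XT.lf (nat_lit 0) (nat_lit 15012057805) (nat_lit 76) (nat_lit 6025520148) (nat_lit 152) (nat_lit 16905651991) (nat_lit 10) (nat_lit 5) (nat_lit 11) (nat_lit 5) (nat_lit 12) (nat_lit 4) (nat_lit 306) (nat_lit 240) (nat_lit 174)))))) (XT.nd (nat_lit 312) (nat_lit 152) (nat_lit 0) (XT.nd (nat_lit 156) (nat_lit 76) (nat_lit 0) (XT.nd (nat_lit 78) (nat_lit 0) (nat_lit 0) (XT.lf (nat_lit 0) (nat_lit 25247705190) (nat_lit 76) (nat_lit 810046925) (nat_lit 152) (nat_lit 13508930939) (nat_lit 10) (nat_lit 5) (nat_lit 11) (nat_lit 5) (nat_lit 12)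 (nat_lit 4) (nat_lit 307) (nat_lit 240) (nat_lit 173)) (XT.lf (nat_lit 0) (nat_lit 31383013871) (nat_lit 152) (nat_lit 5382351986) (nat_lit 0) (nat_lit 4503258200) (nat_lit 10) (nat_lit 5) (nat_lit 12) (nat_lit 4) (nat_lit 10) (nat_lit 4) (nat_lit 308) (nat_lit 240) (nat_lit 172))) (XT.nd (nat_lit 78) (nat_lit 0) (nat_lit 0) (XT.lf (nat_lit 0) (nat_lit 4086893114) (nat_lit 76) (nat_lit 32946853320) (nat_lit 76) (nat_lit 6018973561) (nat_lit 9) (nat_lit 4) (nat_lit 10) (nat_lit 5) (nat_lit 10) (nat_lit 4) (nat_lit 309) (nat_lit 240) (nat_lit 171)) (XT.lf (nat_lit 0) (nat_lit 14185236775) (nat_lit 76) (nat_lit 28855415863) (nat_lit 76) (nat_lit 1881703639) (nat_lit 9) (nat_lit 4) (nat_lit 10) (nat_lit 5) (nat_lit 10) (nat_lit 4) (nat_lit 310) (nat_lit 240) (nat_lit 170)))) (XT.nd (nat_lit 156) (nat_lit 76) (nat_lit 0) (XT.nd (nat_lit 78) (nat_lit 0) (nat_lit 0) (XT.lf (nat_lit 0) (nat_lit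 2366645497) (nat_lit 152) (nat_lit 22165738921) (nat_lit 76) (nat_lit 22352032025) (nat_lit 8) (nat_lit 5) (nat_lit 10) (nat_lit 5) (nat_lit 9) (nat_lit 4) (nat_lit 311) (nat_lit 240) (nat_lit 169)) (XT.lf (nat_lit 0) (nat_lit 6748011509) (nat_lit 152) (nat_lit 13225509992) (nat_lit 76) (nat_lit 28970338915) (nat_lit 8) (nat_lit 5) (nat_lit 10) (nat_lit 5) (nat_lit 9) (nat_lit 4) (nat_lit 312) (nat_lit 240) (nat_lit 168))) (XT.nd (nat_lit 78) (nat_lit 76) (nat_lit 0) (XT.lf (nat_lit 0) (nat_lit 11333052489) (nat_lit 152) (nat_lit 3865767789) (nat_lit 76) (nat_lit 35908240291) (nat_lit 8) (nat_lit 5) (nat_lit 10) (nat_lit 5) (nat_lit 9) (nat_lit 4) (nat_lit 313) (nat_lit 240) (nat_lit 167)) (XT.nd (nat_lit 78) (nat_lit 0) (nat_lit 0) (XT.lf (nat_lit 0) (nat_lit 6132036241) (nat_lit 76) (nat_lit 10096387229) (nat_lit 152) (nat_lit 37145956994) (nat_lit 7) (nat_lit 5) (nat_lit 8) (nat_lit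 5) (nat_lit 9) (nat_lit 4) (nat_lit 314) (nat_lit 240) (nat_lit 166)) (XT.lf (nat_lit 0) (nat_lit 16738174866) (nat_lit 76) (nat_lit 4681492293) (nat_lit 152) (nat_lit 34332856973) (nat_lit 7) (nat_lit 5) (nat_lit 8) (nat_lit 5) (nat_lit 9) (nat_lit 4) (nat_lit 315) (nat_lit 240) (nat_lit 165))))))))
noncomputable def xc111 : XT := (XT.nd (nat_lit 1404) (nat_lit 76) (nat_lit 0) (XT.nd (nat_lit 702) (nat_lit 152) (nat_lit 0) (XT.nd (nat_lit 312) (nat_lit 76) (nat_lit 0) (XT.nd (nat_lit 156) (nat_lit 0) (nat_lit 0) (XT.nd (nat_lit 78) (nat_lit 0) (nat_lit 0) (XT.lf (nat_lit 0) (nat_lit 26872300580) (nat_lit 152) (nat_lit 30415698335) (nat_lit 0) (nat_lit 961497054) (nat_lit 7) (nat_lit 5) (nat_lit 9) (nat_lit 4) (nat_lit 7) (nat_lit 4) (nat_lit 316) (nat_lit 240) (nat_lit 164)) (XT.lf (nat_lit 0) (nat_lit 32661120965) (nat_lit 152) (nat_lit 21487733222) (nat_lit 0) (nat_lit 6719296223)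 (nat_lit 7) (nat_lit 5) (nat_lit 9) (nat_lit 4) (nat_lit 7) (nat_lit 4) (nat_lit 317) (nat_lit 240) (nat_lit 163))) (XT.nd (nat_lit 78) (nat_lit 0) (nat_lit 0) (XT.lf (nat_lit 0) (nat_lit 38726820005) (nat_lit 152) (nat_lit 12136105654) (nat_lit 0) (nat_lit 12755451248) (nat_lit 7) (nat_lit 5) (nat_lit 9) (nat_lit 4) (nat_lit 7) (nat_lit 4) (nat_lit 318) (nat_lit 240) (nat_lit 162)) (XT.lf (nat_lit 0) (nat_lit 45083839842) (nat_lit 152) (nat_lit 2338549851) (nat_lit 0) (nat_lit 19084333927) (nat_lit 7) (nat_lit 5) (nat_lit 9) (nat_lit 4) (nat_lit 7) (nat_lit 4) (nat_lit 319) (nat_lit 240) (nat_lit 161)))) (XT.nd (nat_lit 156) (nat_lit 0) (nat_lit 0) (XT.nd (nat_lit 78) (nat_lit 0) (nat_lit 0) (XT.lf (nat_lit 0) (nat_lit 8190405837) (nat_lit 76) (nat_lit 43684785587) (nat_lit 76) (nat_lit 17658482379) (nat_lit 6) (nat_lit 4) (nat_lit 7) (nat_lit 5) (nat_lit 7) (nat_lit 4) (nat_lit 320)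 (nat_lit 240) (nat_lit 160)) (XT.lf (nat_lit 0) (nat_lit 19306709054) (nat_lit 76) (nat_lit 39727837388) (nat_lit 76) (nat_lit 13676012949) (nat_lit 6) (nat_lit 4) (nat_lit 7) (nat_lit 5) (nat_lit 7) (nat_lit 4) (nat_lit 321) (nat_lit 240) (nat_lit 159))) (XT.nd (nat_lit 78) (nat_lit 0) (nat_lit 0) (XT.lf (nat_lit 0) (nat_lit 30959504167) (nat_lit 76) (nat_lit 35581728265) (nat_lit 76) (nat_lit 9505597892) (nat_lit 6) (nat_lit 4) (nat_lit 7) (nat_lit 5) (nat_lit 7) (nat_lit 4) (nat_lit 322) (nat_lit 240) (nat_lit 158)) (XT.nd (nat_lit 78) (nat_lit 0) (nat_lit 0) (XT.lf (nat_lit 0) (nat_lit 43176535927) (nat_lit 76) (nat_lit 31236586531) (nat_lit 76) (nat_lit 5137307648) (nat_lit 6) (nat_lit 4) (nat_lit 7) (nat_lit 5) (nat_lit 7) (nat_lit 4) (nat_lit 323) (nat_lit 240) (nat_lit 157)) (XT.lf (nat_lit 0) (nat_lit 55986892505) (nat_lit 76) (nat_lit 26682066608) (nat_lit 76) (nat_lit 560741526)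 (nat_lit 6) (nat_lit 4) (nat_lit 7) (nat_lit 5) (nat_lit 7) (nat_lit 4) (nat_lit 324) (nat_lit 240) (nat_lit 156)))))) (XT.nd (nat_lit 312) (nat_lit 0) (nat_lit 0) (XT.nd (nat_lit 156) (nat_lit 76) (nat_lit 0) (XT.nd (nat_lit 78) (nat_lit 0) (nat_lit 0) (XT.lf (nat_lit 0) (nat_lit 4099450705) (nat_lit 152) (nat_lit 17738447516) (nat_lit 76) (nat_lit 65252197863) (nat_lit 5) (nat_lit 5) (nat_lit 7) (nat_lit 5) (nat_lit 6) (nat_lit 4) (nat_lit 325) (nat_lit 240) (nat_lit 155)) (XT.lf (nat_lit 0) (nat_lit 8964906246) (nat_lit 152) (nat_lit 7784260208) (nat_lit 76) (nat_lit 74394337537) (nat_lit 5) (nat_lit 5) (nat_lit 7) (nat_lit 5) (nat_lit 6) (nat_lit 4) (nat_lit 326) (nat_lit 240) (nat_lit 154))) (XT.nd (nat_lit 78) (nat_lit 0) (nat_lit 0) (XT.lf (nat_lit 0) (nat_lit 2739902987) (nat_lit 76) (nat_lit 11368031323) (nat_lit 152) (nat_lit 81289939883) (nat_lit 4) (nat_lit 5) (nat_lit 5)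 (nat_lit 5) (nat_lit 6) (nat_lit 4) (nat_lit 327) (nat_lit 240) (nat_lit 153)) (XT.lf (nat_lit 0) (nat_lit 14045347627) (nat_lit 76) (nat_lit 5586285270) (nat_lit 152) (nat_lit 80227160609) (nat_lit 4) (nat_lit 5) (nat_lit 5) (nat_lit 5) (nat_lit 6) (nat_lit 4) (nat_lit 328) (nat_lit 240) (nat_lit 152)))) (XT.nd (nat_lit 156) (nat_lit 0) (nat_lit 0) (XT.nd (nat_lit 78) (nat_lit 0) (nat_lit 0) (XT.lf (nat_lit 0) (nat_lit 25431064123) (nat_lit 152) (nat_lit 78649015196) (nat_lit 0) (nat_lit 462708326) (nat_lit 4) (nat_lit 5) (nat_lit 6) (nat_lit 4) (nat_lit 4) (nat_lit 4) (nat_lit 329) (nat_lit 240) (nat_lit 151)) (XT.lf (nat_lit 0) (nat_lit 31604409696) (nat_lit 152) (nat_lit 71231994526) (nat_lit 0) (nat_lit 6620386077) (nat_lit 4) (nat_lit 5) (nat_lit 6) (nat_lit 4) (nat_lit 4) (nat_lit 4) (nat_lit 330) (nat_lit 240) (nat_lit 150))) (XT.nd (nat_lit 78) (nat_lit 0) (nat_lit 0) (XT.lf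 (nat_lit 0) (nat_lit 38079150490) (nat_lit 152) (nat_lit 63457506728) (nat_lit 0) (nat_lit 13080205136) (nat_lit 4) (nat_lit 5) (nat_lit 6) (nat_lit 4) (nat_lit 4) (nat_lit 4) (nat_lit 331) (nat_lit 240) (nat_lit 149)) (XT.nd (nat_lit 78) (nat_lit 0) (nat_lit 0) (XT.lf (nat_lit 0) (nat_lit 44870702554) (nat_lit 152) (nat_lit 55307041118) (nat_lit 0) (nat_lit 19857546023) (nat_lit 4) (nat_lit 5) (nat_lit 6) (nat_lit 4) (nat_lit 4) (nat_lit 4) (nat_lit 332) (nat_lit 240) (nat_lit 148)) (XT.lf (nat_lit 0) (nat_lit 51995236251) (nat_lit 152) (nat_lit 46761191823) (nat_lit 0) (nat_lit 26968545266) (nat_lit 4) (nat_lit 5) (nat_lit 6) (nat_lit 4) (nat_lit 4) (nat_lit 4) (nat_lit 333) (nat_lit 240) (nat_lit 147))))))) (XT.nd (nat_lit 702) (nat_lit 0) (nat_lit 0) (XT.nd (nat_lit 312) (nat_lit 76) (nat_lit 0) (XT.nd (nat_lit 156) (nat_lit 0) (nat_lit 0) (XT.nd (nat_lit 78) (nat_lit 0) (nat_lit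 0) (XT.lf (nat_lit 0) (nat_lit 59469714755) (nat_lit 152) (nat_lit 37799611585) (nat_lit 0) (nat_lit 34430133814) (nat_lit 4) (nat_lit 5) (nat_lit 6) (nat_lit 4) (nat_lit 4) (nat_lit 4) (nat_lit 334) (nat_lit 240) (nat_lit 146)) (XT.lf (nat_lit 0) (nat_lit 67311934444) (nat_lit 152) (nat_lit 28400963307) (nat_lit 0) (nat_lit 42260077354) (nat_lit 4) (nat_lit 5) (nat_lit 6) (nat_lit 4) (nat_lit 4) (nat_lit 4) (nat_lit 335) (nat_lit 240) (nat_lit 145))) (XT.nd (nat_lit 78) (nat_lit 0) (nat_lit 0) (XT.lf (nat_lit 0) (nat_lit 75540567270) (nat_lit 152) (nat_lit 18542869256) (nat_lit 0) (nat_lit 50477018610) (nat_lit 4) (nat_lit 5) (nat_lit 6) (nat_lit 4) (nat_lit 4) (nat_lit 4) (nat_lit 336) (nat_lit 240) (nat_lit 144)) (XT.lf (nat_lit 0) (nat_lit 84175205216) (nat_lit 152) (nat_lit 8201857778) (nat_lit 0) (nat_lit 59100521728) (nat_lit 4) (nat_lit 5) (nat_lit 6) (nat_lit 4) (nat_lit 4)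 (nat_lit 4) (nat_lit 337) (nat_lit 240) (nat_lit 143)))) (XT.nd (nat_lit 156) (nat_lit 0) (nat_lit 0) (XT.nd (nat_lit 78) (nat_lit 0) (nat_lit 0) (XT.lf (nat_lit 0) (nat_lit 2734204190) (nat_lit 76) (nat_lit 90544891343) (nat_lit 76) (nat_lit 65459603256) (nat_lit 3) (nat_lit 4) (nat_lit 4) (nat_lit 5) (nat_lit 4) (nat_lit 4) (nat_lit 338) (nat_lit 240) (nat_lit 142)) (XT.lf (nat_lit 0) (nat_lit 14492460962) (nat_lit 76) (nat_lit 88479553711) (nat_lit 76) (nat_lit 63384166005) (nat_lit 3) (nat_lit 4) (nat_lit 4) (nat_lit 5) (nat_lit 4) (nat_lit 4) (nat_lit 339) (nat_lit 240) (nat_lit 141))) (XT.nd (nat_lit 78) (nat_lit 0) (nat_lit 0) (XT.lf (nat_lit 0) (nat_lit 26829717927) (nat_lit 76) (nat_lit 86315035057) (nat_lit 76) (nat_lit 61210028668) (nat_lit 3) (nat_lit 4) (nat_lit 4) (nat_lit 5) (nat_lit 4) (nat_lit 4) (nat_lit 340) (nat_lit 240) (nat_lit 140)) (XT.nd (nat_lit 78) (nat_lit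 0) (nat_lit 0) (XT.lf (nat_lit 0) (nat_lit 39775349507) (nat_lit 76) (nat_lit 84046181766) (nat_lit 76) (nat_lit 58932014726) (nat_lit 3) (nat_lit 4) (nat_lit 4) (nat_lit 5) (nat_lit 4) (nat_lit 4) (nat_lit 341) (nat_lit 240) (nat_lit 139)) (XT.lf (nat_lit 0) (nat_lit 53360178634) (nat_lit 76) (nat_lit 81667591807) (nat_lit 76) (nat_lit 56544700337) (nat_lit 3) (nat_lit 4) (nat_lit 4) (nat_lit 5) (nat_lit 4) (nat_lit 4) (nat_lit 342) (nat_lit 240) (nat_lit 138)))))) (XT.nd (nat_lit 390) (nat_lit 0) (nat_lit 0) (XT.nd (nat_lit 156) (nat_lit 0) (nat_lit 0) (XT.nd (nat_lit 78) (nat_lit 0) (nat_lit 0) (XT.lf (nat_lit 0) (nat_lit 67616550140) (nat_lit 76) (nat_lit 79173601869) (nat_lit 76) (nat_lit 54042401419) (nat_lit 3) (nat_lit 4) (nat_lit 4) (nat_lit 5) (nat_lit 4) (nat_lit 4) (nat_lit 343) (nat_lit 240) (nat_lit 137)) (XT.lf (nat_lit 0) (nat_lit 82578407765) (nat_lit 76) (nat_lit 76558273882)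 (nat_lit 76) (nat_lit 51419160117) (nat_lit 3) (nat_lit 4) (nat_lit 4) (nat_lit 5) (nat_lit 4) (nat_lit 4) (nat_lit 344) (nat_lit 240) (nat_lit 136))) (XT.nd (nat_lit 78) (nat_lit 0) (nat_lit 0) (XT.lf (nat_lit 0) (nat_lit 98281374981) (nat_lit 76) (nat_lit 73815380874) (nat_lit 76) (nat_lit 48668730619) (nat_lit 3) (nat_lit 4) (nat_lit 4) (nat_lit 5) (nat_lit 4) (nat_lit 4) (nat_lit 345) (nat_lit 240) (nat_lit 135)) (XT.nd (nat_lit 78) (nat_lit 0) (nat_lit 0) (XT.lf (nat_lit 0) (nat_lit 114762839805) (nat_lit 76) (nat_lit 70938392148) (nat_lit 76) (nat_lit 45784564283) (nat_lit 3) (nat_lit 4) (nat_lit 4) (nat_lit 5) (nat_lit 4) (nat_lit 4) (nat_lit 346) (nat_lit 240) (nat_lit 134)) (XT.lf (nat_lit 0) (nat_lit 132062043820) (nat_lit 76) (nat_lit 67920457731) (nat_lit 76) (nat_lit 42759794046) (nat_lit 3) (nat_lit 4) (nat_lit 4) (nat_lit 5) (nat_lit 4) (nat_lit 4) (nat_lit 347) (nat_lit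 240) (nat_lit 133))))) (XT.nd (nat_lit 156) (nat_lit 0) (nat_lit 0) (XT.nd (nat_lit 78) (nat_lit 0) (nat_lit 0) (XT.lf (nat_lit 0) (nat_lit 150220175606) (nat_lit 76) (nat_lit 64754392063) (nat_lit 76) (nat_lit 39587218075) (nat_lit 3) (nat_lit 4) (nat_lit 4) (nat_lit 5) (nat_lit 4) (nat_lit 4) (nat_lit 348) (nat_lit 240) (nat_lit 132)) (XT.lf (nat_lit 0) (nat_lit 169280468811) (nat_lit 76) (nat_lit 61432656895) (nat_lit 76) (nat_lit 36259282617) (nat_lit 3) (nat_lit 4) (nat_lit 4) (nat_lit 5) (nat_lit 4) (nat_lit 4) (nat_lit 349) (nat_lit 240) (nat_lit 131))) (XT.nd (nat_lit 78) (nat_lit 0) (nat_lit 0) (XT.lf (nat_lit 0) (nat_lit 189288305085) (nat_lit 76) (nat_lit 57947343331) (nat_lit 76) (nat_lit 32768064017) (nat_lit 3) (nat_lit 4) (nat_lit 4) (nat_lit 5) (nat_lit 4) (nat_lit 4) (nat_lit 350) (nat_lit 240) (nat_lit 130)) (XT.nd (nat_lit 78) (nat_lit 0) (nat_lit 0) (XT.lf (nat_lit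 0) (nat_lit 210291322133) (nat_lit 76) (nat_lit 54290153008) (nat_lit 76) (nat_lit 29105249848) (nat_lit 3) (nat_lit 4) (nat_lit 4) (nat_lit 5) (nat_lit 4) (nat_lit 4) (nat_lit 351) (nat_lit 240) (nat_lit 129)) (XT.lf (nat_lit 0) (nat_lit 232339527140) (nat_lit 76) (nat_lit 50452378328) (nat_lit 76) (nat_lit 25262119126) (nat_lit 3) (nat_lit 4) (nat_lit 4) (nat_lit 5) (nat_lit 4) (nat_lit 4) (nat_lit 352) (nat_lit 240) (nat_lit 128))))))))
noncomputable def xc112 : XT := (XT.nd (nat_lit 29328) (nat_lit 0) (nat_lit 3876) (XT.nd (nat_lit 702) (nat_lit 0) (nat_lit 0) (XT.nd (nat_lit 312) (nat_lit 152) (nat_lit 0) (XT.nd (nat_lit 156) (nat_lit 0) (nat_lit 0) (XT.nd (nat_lit 78) (nat_lit 0) (nat_lit 0) (XT.lf (nat_lit 0) (nat_lit 255485415831) (nat_lit 76) (nat_lit 46424881734) (nat_lit 76) (nat_lit 21229521538) (nat_lit 3) (nat_lit 4) (nat_lit 4) (nat_lit 5) (nat_lit 4) (nat_lit 4) (nat_lit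 353) (nat_lit 240) (nat_lit 127)) (XT.lf (nat_lit 0) (nat_lit 279784097466) (nat_lit 76) (nat_lit 42198073947) (nat_lit 76) (nat_lit 16997855662) (nat_lit 3) (nat_lit 4) (nat_lit 4) (nat_lit 5) (nat_lit 4) (nat_lit 4) (nat_lit 354) (nat_lit 240) (nat_lit 126))) (XT.nd (nat_lit 78) (nat_lit 0) (nat_lit 0) (XT.lf (nat_lit 0) (nat_lit 305293426047) (nat_lit 76) (nat_lit 37761891139) (nat_lit 76) (nat_lit 12557046103) (nat_lit 3) (nat_lit 4) (nat_lit 4) (nat_lit 5) (nat_lit 4) (nat_lit 4) (nat_lit 355) (nat_lit 240) (nat_lit 125)) (XT.lf (nat_lit 0) (nat_lit 332074138072) (nat_lit 76) (nat_lit 33105770971) (nat_lit 76) (nat_lit 7896519505) (nat_lit 3) (nat_lit 4) (nat_lit 4) (nat_lit 5) (nat_lit 4) (nat_lit 4) (nat_lit 356) (nat_lit 240) (nat_lit 124)))) (XT.nd (nat_lit 156) (nat_lit 76) (nat_lit 0) (XT.nd (nat_lit 78) (nat_lit 76) (nat_lit 0) (XT.lf (nat_lit 0) (nat_lit 360189997140) (nat_lit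 76) (nat_lit 28218627441) (nat_lit 76) (nat_lit 3005179375) (nat_lit 3) (nat_lit 4) (nat_lit 4) (nat_lit 5) (nat_lit 4) (nat_lit 4) (nat_lit 357) (nat_lit 240) (nat_lit 123)) (XT.lf (nat_lit 0) (nat_lit 2060491188) (nat_lit 152) (nat_lit 20993437891) (nat_lit 76) (nat_lit 387612559170) (nat_lit 2) (nat_lit 5) (nat_lit 4) (nat_lit 5) (nat_lit 3) (nat_lit 4) (nat_lit 358) (nat_lit 240) (nat_lit 122))) (XT.nd (nat_lit 78) (nat_lit 76) (nat_lit 0) (XT.lf (nat_lit 0) (nat_lit 7276508712) (nat_lit 152) (nat_lit 10304408406) (nat_lit 76) (nat_lit 413298524894) (nat_lit 2) (nat_lit 5) (nat_lit 4) (nat_lit 5) (nat_lit 3) (nat_lit 4) (nat_lit 359) (nat_lit 240) (nat_lit 121)) (XT.nd (nat_lit 78) (nat_lit 0) (nat_lit 0) (XT.lf (nat_lit 0) (nat_lit 945926536) (nat_lit 76) (nat_lit 11820318821) (nat_lit 152) (nat_lit 439336153505) (nat_lit 1) (nat_lit 5) (nat_lit 2) (nat_lit 5) (nat_lit 3) (nat_lit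 4) (nat_lit 360) (nat_lit 240) (nat_lit 120)) (XT.lf (nat_lit 0) (nat_lit 13113157632) (nat_lit 76) (nat_lit 5590006579) (nat_lit 152) (nat_lit 455674705824) (nat_lit 1) (nat_lit 5) (nat_lit 2) (nat_lit 5) (nat_lit 3) (nat_lit 4) (nat_lit 361) (nat_lit 240) (nat_lit 119)))))) (XT.nd (nat_lit 28236) (nat_lit 0) (nat_lit 8588) (XT.nd (nat_lit 28080) (nat_lit 0) (nat_lit 9044) (XT.nd (nat_lit 78) (nat_lit 0) (nat_lit 0) (XT.lf (nat_lit 0) (nat_lit 24950038183) (nat_lit 152) (nat_lit 471896495698) (nat_lit 0) (nat_lit 919926614) (nat_lit 1) (nat_lit 5) (nat_lit 3) (nat_lit 4) (nat_lit 1) (nat_lit 4) (nat_lit 362) (nat_lit 240) (nat_lit 118)) (XT.lf (nat_lit 0) (nat_lit 31599227285) (nat_lit 152) (nat_lit 483154622483) (nat_lit 0) (nat_lit 7566133272) (nat_lit 1) (nat_lit 5) (nat_lit 3) (nat_lit 4) (nat_lit 1) (nat_lit 4) (nat_lit 363) (nat_lit 240) (nat_lit 117))) (XT.nd (nat_lit 78) (nat_lit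 228) (nat_lit 0) (XT.lf (nat_lit 0) (nat_lit 1403905064) (nat_lit 0) (nat_lit 1403905064) (nat_lit 76) (nat_lit 418734767) (nat_lit 123) (nat_lit 5) (nat_lit 123) (nat_lit 3) (nat_lit 124) (nat_lit 0) (nat_lit 241) (nat_lit 241) (nat_lit 238)) (XT.lf (nat_lit 0) (nat_lit 1812332138) (nat_lit 228) (nat_lit 730429717) (nat_lit 228) (nat_lit 3926690691) (nat_lit 120) (nat_lit 3) (nat_lit 123) (nat_lit 3) (nat_lit 123) (nat_lit 5) (nat_lit 242) (nat_lit 241) (nat_lit 237)))) (XT.nd (nat_lit 156) (nat_lit 228) (nat_lit 0) (XT.nd (nat_lit 78) (nat_lit 228) (nat_lit 0) (XT.lf (nat_lit 76) (nat_lit 2300811893) (nat_lit 0) (nat_lit 2132387741) (nat_lit 228) (nat_lit 2060273682) (nat_lit 121) (nat_lit 5) (nat_lit 120) (nat_lit 3) (nat_lit 123) (nat_lit 5) (nat_lit 243) (nat_lit 241) (nat_lit 236)) (XT.lf (nat_lit 0) (nat_lit 491683879) (nat_lit 228) (nat_lit 1113802074) (nat_lit 304) (nat_lit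 4921141209) (nat_lit 117) (nat_lit 5) (nat_lit 120) (nat_lit 3) (nat_lit 121) (nat_lit 5) (nat_lit 244) (nat_lit 241) (nat_lit 235))) (XT.nd (nat_lit 78) (nat_lit 228) (nat_lit 0) (XT.lf (nat_lit 76) (nat_lit 2061597340) (nat_lit 0) (nat_lit 914519141) (nat_lit 304) (nat_lit 3590672595) (nat_lit 118) (nat_lit 5) (nat_lit 117) (nat_lit 5) (nat_lit 121) (nat_lit 5) (nat_lit 245) (nat_lit 241) (nat_lit 234)) (XT.nd (nat_lit 78) (nat_lit 228) (nat_lit 0) (XT.lf (nat_lit 76) (nat_lit 5346268857) (nat_lit 0) (nat_lit 105443873) (nat_lit 304) (nat_lit 1164608703) (nat_lit 118) (nat_lit 5) (nat_lit 117) (nat_lit 5) (nat_lit 121) (nat_lit 5) (nat_lit 246) (nat_lit 241) (nat_lit 233)) (XT.lf (nat_lit 0) (nat_lit 1236714420) (nat_lit 304) (nat_lit 4604658325) (nat_lit 76) (nat_lit 831611070) (nat_lit 114) (nat_lit 5) (nat_lit 118) (nat_lit 5) (nat_lit 115) (nat_lit 5) (nat_lit 247) (nat_lit 241)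 (nat_lit 232))))))) (XT.nd (nat_lit 702) (nat_lit 2204) (nat_lit 0) (XT.nd (nat_lit 312) (nat_lit 1748) (nat_lit 0) (XT.nd (nat_lit 156) (nat_lit 456) (nat_lit 0) (XT.nd (nat_lit 78) (nat_lit 304) (nat_lit 0) (XT.lf (nat_lit 0) (nat_lit 3601345262) (nat_lit 304) (nat_lit 1231472005) (nat_lit 76) (nat_lit 1905201294) (nat_lit 114) (nat_lit 5) (nat_lit 118) (nat_lit 5) (nat_lit 115) (nat_lit 5) (nat_lit 248) (nat_lit 241) (nat_lit 231)) (XT.lf (nat_lit 0) (nat_lit 2291712438) (nat_lit 304) (nat_lit 3693789455) (nat_lit 380) (nat_lit 826322103) (nat_lit 110) (nat_lit 5) (nat_lit 114) (nat_lit 5) (nat_lit 115) (nat_lit 5) (nat_lit 249) (nat_lit 241) (nat_lit 230))) (XT.nd (nat_lit 78) (nat_lit 380) (nat_lit 0) (XT.lf (nat_lit 0) (nat_lit 1437392600) (nat_lit 380) (nat_lit 975207535) (nat_lit 76) (nat_lit 4481548228) (nat_lit 109) (nat_lit 5) (nat_lit 114) (nat_lit 5) (nat_lit 110) (nat_lit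 5) (nat_lit 250) (nat_lit 241) (nat_lit 229)) (XT.lf (nat_lit 0) (nat_lit 2729887600) (nat_lit 380) (nat_lit 973393900) (nat_lit 456) (nat_lit 3281296410) (nat_lit 104) (nat_lit 5) (nat_lit 109) (nat_lit 5) (nat_lit 110) (nat_lit 5) (nat_lit 251) (nat_lit 241) (nat_lit 228)))) (XT.nd (nat_lit 156) (nat_lit 1216) (nat_lit 0) (XT.nd (nat_lit 78) (nat_lit 532) (nat_lit 0) (XT.lf (nat_lit 0) (nat_lit 5986879161) (nat_lit 456) (nat_lit 529731716) (nat_lit 76) (nat_lit 568177523) (nat_lit 104) (nat_lit 5) (nat_lit 110) (nat_lit 5) (nat_lit 105) (nat_lit 5) (nat_lit 252) (nat_lit 241) (nat_lit 227)) (XT.lf (nat_lit 0) (nat_lit 1108950930) (nat_lit 532) (nat_lit 3828769682) (nat_lit 76) (nat_lit 2254164761) (nat_lit 97) (nat_lit 5) (nat_lit 104) (nat_lit 5) (nat_lit 98) (nat_lit 5) (nat_lit 253) (nat_lit 241) (nat_lit 226))) (XT.nd (nat_lit 78) (nat_lit 684) (nat_lit 0) (XT.lf (nat_lit 0) (nat_lit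 54156911) (nat_lit 532) (nat_lit 3231872242) (nat_lit 608) (nat_lit 4022984316) (nat_lit 90) (nat_lit 5) (nat_lit 97) (nat_lit 5) (nat_lit 98) (nat_lit 5) (nat_lit 254) (nat_lit 241) (nat_lit 225)) (XT.nd (nat_lit 78) (nat_lit 684) (nat_lit 0) (XT.lf (nat_lit 0) (nat_lit 4171142098) (nat_lit 532) (nat_lit 1356407255) (nat_lit 608) (nat_lit 1907064260) (nat_lit 90) (nat_lit 5) (nat_lit 97) (nat_lit 5) (nat_lit 98) (nat_lit 5) (nat_lit 255) (nat_lit 241) (nat_lit 224)) (XT.lf (nat_lit 0) (nat_lit 221930052) (nat_lit 684) (nat_lit 6723758793) (nat_lit 76) (nat_lit 625050155) (nat_lit 81) (nat_lit 5) (nat_lit 90) (nat_lit 5) (nat_lit 82) (nat_lit 5) (nat_lit 256) (nat_lit 241) (nat_lit 223)))))) (XT.nd (nat_lit 312) (nat_lit 1064) (nat_lit 0) (XT.nd (nat_lit 156) (nat_lit 456) (nat_lit 0) (XT.nd (nat_lit 78) (nat_lit 684) (nat_lit 0) (XT.lf (nat_lit 0) (nat_lit 2369386748) (nat_lit 684)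 (nat_lit 2585664313) (nat_lit 76) (nat_lit 2758592556) (nat_lit 81) (nat_lit 5) (nat_lit 90) (nat_lit 5) (nat_lit 82) (nat_lit 5) (nat_lit 257) (nat_lit 241) (nat_lit 222)) (XT.lf (nat_lit 0) (nat_lit 1722458228) (nat_lit 684) (nat_lit 2831214107) (nat_lit 760) (nat_lit 3313873334) (nat_lit 72) (nat_lit 5) (nat_lit 81) (nat_lit 5) (nat_lit 82) (nat_lit 5) (nat_lit 258) (nat_lit 241) (nat_lit 221))) (XT.nd (nat_lit 78) (nat_lit 456) (nat_lit 0) (XT.lf (nat_lit 0) (nat_lit 6245233211) (nat_lit 684) (nat_lit 551518646) (nat_lit 760) (nat_lit 1235221514) (nat_lit 72) (nat_lit 5) (nat_lit 81) (nat_lit 5) (nat_lit 82) (nat_lit 5) (nat_lit 259) (nat_lit 241) (nat_lit 220)) (XT.lf (nat_lit 0) (nat_lit 898615861) (nat_lit 456) (nat_lit 5462314731) (nat_lit 76) (nat_lit 1844154344) (nat_lit 66) (nat_lit 5) (nat_lit 72) (nat_lit 5) (nat_lit 67) (nat_lit 5) (nat_lit 260) (nat_lit 241) (nat_lit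 219)))) (XT.nd (nat_lit 156) (nat_lit 684) (nat_lit 0) (XT.nd (nat_lit 78) (nat_lit 380) (nat_lit 0) (XT.lf (nat_lit 0) (nat_lit 3048938100) (nat_lit 456) (nat_lit 947110485) (nat_lit 76) (nat_lit 4392493173) (nat_lit 66) (nat_lit 5) (nat_lit 72) (nat_lit 5) (nat_lit 67) (nat_lit 5) (nat_lit 261) (nat_lit 241) (nat_lit 218)) (XT.lf (nat_lit 0) (nat_lit 3828020076) (nat_lit 380) (nat_lit 1454244292) (nat_lit 456) (nat_lit 3300387309) (nat_lit 61) (nat_lit 5) (nat_lit 66) (nat_lit 5) (nat_lit 67) (nat_lit 5) (nat_lit 262) (nat_lit 241) (nat_lit 217))) (XT.nd (nat_lit 78) (nat_lit 684) (nat_lit 0) (XT.lf (nat_lit 0) (nat_lit 7580818737) (nat_lit 456) (nat_lit 21273587) (nat_lit 76) (nat_lit 1186939202) (nat_lit 61) (nat_lit 5) (nat_lit 67) (nat_lit 5) (nat_lit 62) (nat_lit 5) (nat_lit 263) (nat_lit 241) (nat_lit 216)) (XT.nd (nat_lit 78) (nat_lit 304) (nat_lit 0) (XT.lf (nat_lit 0) (nat_lit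 981160222) (nat_lit 380) (nat_lit 4022531105) (nat_lit 76) (nat_lit 4000275790) (nat_lit 56) (nat_lit 5) (nat_lit 61) (nat_lit 5) (nat_lit 57) (nat_lit 5) (nat_lit 264) (nat_lit 241) (nat_lit 215)) (XT.lf (nat_lit 0) (nat_lit 927067302) (nat_lit 304) (nat_lit 2250278670) (nat_lit 380) (nat_lit 6054625281) (nat_lit 52) (nat_lit 5) (nat_lit 56) (nat_lit 5) (nat_lit 57) (nat_lit 5) (nat_lit 265) (nat_lit 241) (nat_lit 214))))))))
noncomputable def xc113 : XT := (XT.nd (nat_lit 1404) (nat_lit 836) (nat_lit 0) (XT.nd (nat_lit 702) (nat_lit 988) (nat_lit 0) (XT.nd (nat_lit 312) (nat_lit 532) (nat_lit 0) (XT.nd (nat_lit 156) (nat_lit 380) (nat_lit 0) (XT.nd (nat_lit 78) (nat_lit 228) (nat_lit 0) (XT.lf (nat_lit 0) (nat_lit 5487810669) (nat_lit 380) (nat_lit 3305788771) (nat_lit 76) (nat_lit 677752198) (nat_lit 52) (nat_lit 5) (nat_lit 57) (nat_lit 5) (nat_lit 53) (nat_lit 5) (nat_lit 266)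 (nat_lit 241) (nat_lit 213)) (XT.lf (nat_lit 0) (nat_lit 1880389275) (nat_lit 228) (nat_lit 6028442632) (nat_lit 304) (nat_lit 1814307494) (nat_lit 49) (nat_lit 5) (nat_lit 52) (nat_lit 5) (nat_lit 53) (nat_lit 5) (nat_lit 267) (nat_lit 241) (nat_lit 212))) (XT.nd (nat_lit 78) (nat_lit 304) (nat_lit 0) (XT.lf (nat_lit 0) (nat_lit 435003129) (nat_lit 304) (nat_lit 2639523237) (nat_lit 76) (nat_lit 6913478467) (nat_lit 48) (nat_lit 5) (nat_lit 52) (nat_lit 5) (nat_lit 49) (nat_lit 5) (nat_lit 268) (nat_lit 241) (nat_lit 211)) (XT.lf (nat_lit 0) (nat_lit 2713807887) (nat_lit 380) (nat_lit 7466718682) (nat_lit 76) (nat_lit 85363918) (nat_lit 44) (nat_lit 5) (nat_lit 49) (nat_lit 5) (nat_lit 45) (nat_lit 5) (nat_lit 269) (nat_lit 241) (nat_lit 210)))) (XT.nd (nat_lit 156) (nat_lit 304) (nat_lit 0) (XT.nd (nat_lit 78) (nat_lit 228) (nat_lit 0) (XT.lf (nat_lit 0) (nat_lit 5136946971) (nat_lit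 380) (nat_lit 2090087383) (nat_lit 76) (nat_lit 3329272699) (nat_lit 44) (nat_lit 5) (nat_lit 49) (nat_lit 5) (nat_lit 45) (nat_lit 5) (nat_lit 270) (nat_lit 241) (nat_lit 209)) (XT.lf (nat_lit 0) (nat_lit 3589345483) (nat_lit 228) (nat_lit 4085611171) (nat_lit 304) (nat_lit 3186751000) (nat_lit 41) (nat_lit 5) (nat_lit 44) (nat_lit 5) (nat_lit 45) (nat_lit 5) (nat_lit 271) (nat_lit 241) (nat_lit 208))) (XT.nd (nat_lit 78) (nat_lit 304) (nat_lit 0) (XT.lf (nat_lit 0) (nat_lit 9545706663) (nat_lit 228) (nat_lit 768955734) (nat_lit 304) (nat_lit 869117908) (nat_lit 41) (nat_lit 5) (nat_lit 44) (nat_lit 5) (nat_lit 45) (nat_lit 5) (nat_lit 272) (nat_lit 241) (nat_lit 207)) (XT.nd (nat_lit 78) (nat_lit 0) (nat_lit 0) (XT.lf (nat_lit 0) (nat_lit 1566455028) (nat_lit 304) (nat_lit 7250327115) (nat_lit 76) (nat_lit 2701475398) (nat_lit 37) (nat_lit 5) (nat_lit 41) (nat_lit 5) (nat_lit 38)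 (nat_lit 5) (nat_lit 273) (nat_lit 241) (nat_lit 206)) (XT.lf (nat_lit 0) (nat_lit 4077908183) (nat_lit 304) (nat_lit 1448585422) (nat_lit 76) (nat_lit 6343209652) (nat_lit 37) (nat_lit 5) (nat_lit 41) (nat_lit 5) (nat_lit 38) (nat_lit 5) (nat_lit 274) (nat_lit 241) (nat_lit 205)))))) (XT.nd (nat_lit 312) (nat_lit 532) (nat_lit 0) (XT.nd (nat_lit 156) (nat_lit 304) (nat_lit 0) (XT.nd (nat_lit 78) (nat_lit 0) (nat_lit 0) (XT.lf (nat_lit 0) (nat_lit 4718738816) (nat_lit 152) (nat_lit 2015113107) (nat_lit 228) (nat_lit 5504040096) (nat_lit 35) (nat_lit 5) (nat_lit 37) (nat_lit 5) (nat_lit 38) (nat_lit 5) (nat_lit 275) (nat_lit 241) (nat_lit 204)) (XT.lf (nat_lit 0) (nat_lit 9519993875) (nat_lit 228) (nat_lit 1481810804) (nat_lit 76) (nat_lit 1622926595) (nat_lit 35) (nat_lit 5) (nat_lit 38) (nat_lit 5) (nat_lit 36) (nat_lit 5) (nat_lit 276) (nat_lit 241) (nat_lit 203))) (XT.nd (nat_lit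 78) (nat_lit 76) (nat_lit 0) (XT.lf (nat_lit 0) (nat_lit 4908353599) (nat_lit 228) (nat_lit 7595675504) (nat_lit 304) (nat_lit 524059890) (nat_lit 32) (nat_lit 5) (nat_lit 35) (nat_lit 5) (nat_lit 36) (nat_lit 5) (nat_lit 277) (nat_lit 241) (nat_lit 202)) (XT.lf (nat_lit 0) (nat_lit 2090517915) (nat_lit 304) (nat_lit 1889125180) (nat_lit 76) (nat_lit 9471620226) (nat_lit 31) (nat_lit 5) (nat_lit 35) (nat_lit 5) (nat_lit 32) (nat_lit 5) (nat_lit 278) (nat_lit 241) (nat_lit 201)))) (XT.nd (nat_lit 156) (nat_lit 380) (nat_lit 0) (XT.nd (nat_lit 78) (nat_lit 0) (nat_lit 0) (XT.lf (nat_lit 0) (nat_lit 4725477625) (nat_lit 152) (nat_lit 118241028) (nat_lit 228) (nat_lit 9050264265) (nat_lit 29) (nat_lit 5) (nat_lit 31) (nat_lit 5) (nat_lit 32) (nat_lit 5) (nat_lit 279) (nat_lit 241) (nat_lit 200)) (XT.lf (nat_lit 0) (nat_lit 7781157551) (nat_lit 228) (nat_lit 2753977655) (nat_lit 76) (nat_lit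 3821461434) (nat_lit 29) (nat_lit 5) (nat_lit 32) (nat_lit 5) (nat_lit 30) (nat_lit 5) (nat_lit 280) (nat_lit 241) (nat_lit 199))) (XT.nd (nat_lit 78) (nat_lit 228) (nat_lit 0) (XT.lf (nat_lit 0) (nat_lit 4040905066) (nat_lit 152) (nat_lit 6844453268) (nat_lit 228) (nat_lit 3956071126) (nat_lit 27) (nat_lit 5) (nat_lit 29) (nat_lit 5) (nat_lit 30) (nat_lit 5) (nat_lit 281) (nat_lit 241) (nat_lit 198)) (XT.nd (nat_lit 78) (nat_lit 228) (nat_lit 0) (XT.lf (nat_lit 0) (nat_lit 11204469709) (nat_lit 152) (nat_lit 2942909575) (nat_lit 228) (nat_lit 1203073088) (nat_lit 27) (nat_lit 5) (nat_lit 29) (nat_lit 5) (nat_lit 30) (nat_lit 5) (nat_lit 282) (nat_lit 241) (nat_lit 197)) (XT.lf (nat_lit 0) (nat_lit 1654046384) (nat_lit 228) (nat_lit 13061539399) (nat_lit 76) (nat_lit 1167070654) (nat_lit 24) (nat_lit 5) (nat_lit 27) (nat_lit 5) (nat_lit 25) (nat_lit 5) (nat_lit 283) (nat_lit 241) (nat_lit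 196))))))) (XT.nd (nat_lit 702) (nat_lit 380) (nat_lit 0) (XT.nd (nat_lit 312) (nat_lit 304) (nat_lit 0) (XT.nd (nat_lit 156) (nat_lit 0) (nat_lit 0) (XT.nd (nat_lit 78) (nat_lit 152) (nat_lit 0) (XT.lf (nat_lit 0) (nat_lit 4691194039) (nat_lit 228) (nat_lit 6292304735) (nat_lit 76) (nat_lit 5453173846) (nat_lit 24) (nat_lit 5) (nat_lit 27) (nat_lit 5) (nat_lit 25) (nat_lit 5) (nat_lit 284) (nat_lit 241) (nat_lit 195)) (XT.lf (nat_lit 0) (nat_lit 777674834) (nat_lit 152) (nat_lit 7074659886) (nat_lit 228) (nat_lit 9167513070) (nat_lit 22) (nat_lit 5) (nat_lit 24) (nat_lit 5) (nat_lit 25) (nat_lit 5) (nat_lit 285) (nat_lit 241) (nat_lit 194))) (XT.nd (nat_lit 78) (nat_lit 0) (nat_lit 0) (XT.lf (nat_lit 0) (nat_lit 8358010509) (nat_lit 152) (nat_lit 2881022450) (nat_lit 228) (nat_lit 6389835597) (nat_lit 22) (nat_lit 5) (nat_lit 24) (nat_lit 5) (nat_lit 25) (nat_lit 5) (nat_lit 286) (nat_lit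 241) (nat_lit 193)) (XT.lf (nat_lit 0) (nat_lit 14781295783) (nat_lit 228) (nat_lit 2034992958) (nat_lit 76) (nat_lit 1452799059) (nat_lit 22) (nat_lit 5) (nat_lit 25) (nat_lit 5) (nat_lit 23) (nat_lit 4) (nat_lit 287) (nat_lit 241) (nat_lit 192)))) (XT.nd (nat_lit 156) (nat_lit 152) (nat_lit 0) (XT.nd (nat_lit 78) (nat_lit 76) (nat_lit 0) (XT.lf (nat_lit 0) (nat_lit 5638524220) (nat_lit 76) (nat_lit 12961660427) (nat_lit 152) (nat_lit 336213827) (nat_lit 21) (nat_lit 5) (nat_lit 22) (nat_lit 5) (nat_lit 23) (nat_lit 4) (nat_lit 288) (nat_lit 241) (nat_lit 191)) (XT.lf (nat_lit 0) (nat_lit 2877265590) (nat_lit 152) (nat_lit 5973645103) (nat_lit 76) (nat_lit 10783920336) (nat_lit 20) (nat_lit 5) (nat_lit 22) (nat_lit 5) (nat_lit 21) (nat_lit 5) (nat_lit 289) (nat_lit 241) (nat_lit 190))) (XT.nd (nat_lit 78) (nat_lit 0) (nat_lit 0) (XT.lf (nat_lit 0) (nat_lit 1711116639) (nat_lit 152)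 (nat_lit 4521858203) (nat_lit 228) (nat_lit 14135340514) (nat_lit 18) (nat_lit 5) (nat_lit 20) (nat_lit 5) (nat_lit 21) (nat_lit 5) (nat_lit 290) (nat_lit 241) (nat_lit 189)) (XT.nd (nat_lit 78) (nat_lit 0) (nat_lit 0) (XT.lf (nat_lit 0) (nat_lit 9826244709) (nat_lit 228) (nat_lit 11203356440) (nat_lit 76) (nat_lit 105430158) (nat_lit 18) (nat_lit 5) (nat_lit 21) (nat_lit 5) (nat_lit 19) (nat_lit 4) (nat_lit 291) (nat_lit 241) (nat_lit 188)) (XT.lf (nat_lit 0) (nat_lit 13641479198) (nat_lit 228) (nat_lit 3503732913) (nat_lit 76) (nat_lit 4792799858) (nat_lit 18) (nat_lit 5) (nat_lit 21) (nat_lit 5) (nat_lit 19) (nat_lit 4) (nat_lit 292) (nat_lit 241) (nat_lit 187)))))) (XT.nd (nat_lit 312) (nat_lit 76) (nat_lit 0) (XT.nd (nat_lit 156) (nat_lit 228) (nat_lit 0) (XT.nd (nat_lit 78) (nat_lit 0) (nat_lit 0) (XT.lf (nat_lit 0) (nat_lit 4680405381) (nat_lit 76) (nat_lit 13009832183) (nat_lit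 152) (nat_lit 5088807865) (nat_lit 17) (nat_lit 5) (nat_lit 18) (nat_lit 5) (nat_lit 19) (nat_lit 4) (nat_lit 293) (nat_lit 241) (nat_lit 186)) (XT.lf (nat_lit 0) (nat_lit 13345934459) (nat_lit 76) (nat_lit 8625195967) (nat_lit 152) (nat_lit 1689555186) (nat_lit 17) (nat_lit 5) (nat_lit 18) (nat_lit 5) (nat_lit 19) (nat_lit 4) (nat_lit 294) (nat_lit 241) (nat_lit 185))) (XT.nd (nat_lit 78) (nat_lit 152) (nat_lit 0) (XT.lf (nat_lit 0) (nat_lit 1790770358) (nat_lit 152) (nat_lit 2219103347) (nat_lit 76) (nat_lit 20576539380) (nat_lit 16) (nat_lit 5) (nat_lit 18) (nat_lit 5) (nat_lit 17) (nat_lit 5) (nat_lit 295) (nat_lit 241) (nat_lit 184)) (XT.lf (nat_lit 0) (nat_lit 5475960739) (nat_lit 228) (nat_lit 19155212186) (nat_lit 76) (nat_lit 921522138) (nat_lit 14) (nat_lit 5) (nat_lit 17) (nat_lit 5) (nat_lit 15) (nat_lit 4) (nat_lit 296) (nat_lit 241) (nat_lit 183)))) (XT.nd (nat_lit 156)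 (nat_lit 76) (nat_lit 0) (XT.nd (nat_lit 78) (nat_lit 0) (nat_lit 0) (XT.lf (nat_lit 0) (nat_lit 9422296781) (nat_lit 228) (nat_lit 11155968445) (nat_lit 76) (nat_lit 5985214417) (nat_lit 14) (nat_lit 5) (nat_lit 17) (nat_lit 5) (nat_lit 15) (nat_lit 4) (nat_lit 297) (nat_lit 241) (nat_lit 182)) (XT.lf (nat_lit 0) (nat_lit 13540190413) (nat_lit 228) (nat_lit 2800710448) (nat_lit 76) (nat_lit 11285221799) (nat_lit 14) (nat_lit 5) (nat_lit 17) (nat_lit 5) (nat_lit 15) (nat_lit 4) (nat_lit 298) (nat_lit 241) (nat_lit 181))) (XT.nd (nat_lit 78) (nat_lit 0) (nat_lit 0) (XT.lf (nat_lit 0) (nat_lit 6126542907) (nat_lit 76) (nat_lit 11808555738) (nat_lit 152) (nat_lit 10803272944) (nat_lit 13) (nat_lit 5) (nat_lit 14) (nat_lit 5) (nat_lit 15) (nat_lit 4) (nat_lit 299) (nat_lit 241) (nat_lit 180)) (XT.nd (nat_lit 78) (nat_lit 0) (nat_lit 0) (XT.lf (nat_lit 0) (nat_lit 15556213185) (nat_lit 76)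 (nat_lit 7016963191) (nat_lit 152) (nat_lit 7331913729) (nat_lit 13) (nat_lit 5) (nat_lit 14) (nat_lit 5) (nat_lit 15) (nat_lit 4) (nat_lit 300) (nat_lit 241) (nat_lit 179)) (XT.lf (nat_lit 0) (nat_lit 25418147842) (nat_lit 76) (nat_lit 2002146052) (nat_lit 152) (nat_lit 3711020847) (nat_lit 13) (nat_lit 5) (nat_lit 14) (nat_lit 5) (nat_lit 15) (nat_lit 4) (nat_lit 301) (nat_lit 241) (nat_lit 178))))))))
noncomputable def xc114 : XT := (XT.nd (nat_lit 1404) (nat_lit 228) (nat_lit 0) (XT.nd (nat_lit 702) (nat_lit 152) (nat_lit 0) (XT.nd (nat_lit 312) (nat_lit 152) (nat_lit 0) (XT.nd (nat_lit 156) (nat_lit 0) (nat_lit 0) (XT.nd (nat_lit 78) (nat_lit 0) (nat_lit 0) (XT.lf (nat_lit 0) (nat_lit 170915810) (nat_lit 152) (nat_lit 29044437671) (nat_lit 76) (nat_lit 3199305186) (nat_lit 11) (nat_lit 5) (nat_lit 13) (nat_lit 5) (nat_lit 12) (nat_lit 4) (nat_lit 302) (nat_lit 241) (nat_lit 177))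 (XT.lf (nat_lit 0) (nat_lit 4231463876) (nat_lit 152) (nat_lit 20784805017) (nat_lit 76) (nat_lit 8737420933) (nat_lit 11) (nat_lit 5) (nat_lit 13) (nat_lit 5) (nat_lit 12) (nat_lit 4) (nat_lit 303) (nat_lit 241) (nat_lit 176))) (XT.nd (nat_lit 78) (nat_lit 0) (nat_lit 0) (XT.lf (nat_lit 0) (nat_lit 8474149580) (nat_lit 152) (nat_lit 12148719210) (nat_lit 76) (nat_lit 14537870447) (nat_lit 11) (nat_lit 5) (nat_lit 13) (nat_lit 5) (nat_lit 12) (nat_lit 4) (nat_lit 304) (nat_lit 241) (nat_lit 175)) (XT.lf (nat_lit 0) (nat_lit 12909074554) (nat_lit 152) (nat_lit 3115618144) (nat_lit 76) (nat_lit 20614464322) (nat_lit 11) (nat_lit 5) (nat_lit 13) (nat_lit 5) (nat_lit 12) (nat_lit 4) (nat_lit 305) (nat_lit 241) (nat_lit 174)))) (XT.nd (nat_lit 156) (nat_lit 76) (nat_lit 0) (XT.nd (nat_lit 78) (nat_lit 0) (nat_lit 0) (XT.lf (nat_lit 0) (nat_lit 6545502525) (nat_lit 76) (nat_lit 11103489256)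 (nat_lit 152) (nat_lit 20538361751) (nat_lit 10) (nat_lit 5) (nat_lit 11) (nat_lit 5) (nat_lit 12) (nat_lit 4) (nat_lit 306) (nat_lit 241) (nat_lit 173)) (XT.lf (nat_lit 0) (nat_lit 16765248439) (nat_lit 76) (nat_lit 5894866620) (nat_lit 152) (nat_lit 17151153484) (nat_lit 10) (nat_lit 5) (nat_lit 11) (nat_lit 5) (nat_lit 12) (nat_lit 4) (nat_lit 307) (nat_lit 241) (nat_lit 172))) (XT.nd (nat_lit 78) (nat_lit 76) (nat_lit 0) (XT.lf (nat_lit 0) (nat_lit 27464935920) (nat_lit 76) (nat_lit 439187810) (nat_lit 152) (nat_lit 13613157384) (nat_lit 10) (nat_lit 5) (nat_lit 11) (nat_lit 5) (nat_lit 12) (nat_lit 4) (nat_lit 308) (nat_lit 241) (nat_lit 171)) (XT.nd (nat_lit 78) (nat_lit 76) (nat_lit 0) (XT.lf (nat_lit 0) (nat_lit 33475885054) (nat_lit 152) (nat_lit 4721794291) (nat_lit 0) (nat_lit 5107654754) (nat_lit 10) (nat_lit 5) (nat_lit 12) (nat_lit 4) (nat_lit 10) (nat_lit 4) (nat_lit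 309) (nat_lit 241) (nat_lit 170)) (XT.lf (nat_lit 0) (nat_lit 5205918301) (nat_lit 76) (nat_lit 34192577600) (nat_lit 76) (nat_lit 5780697333) (nat_lit 9) (nat_lit 4) (nat_lit 10) (nat_lit 5) (nat_lit 10) (nat_lit 4) (nat_lit 310) (nat_lit 241) (nat_lit 169)))))) (XT.nd (nat_lit 312) (nat_lit 76) (nat_lit 0) (XT.nd (nat_lit 156) (nat_lit 0) (nat_lit 0) (XT.nd (nat_lit 78) (nat_lit 76) (nat_lit 0) (XT.lf (nat_lit 0) (nat_lit 15765622930) (nat_lit 76) (nat_lit 29915692955) (nat_lit 76) (nat_lit 1462241292) (nat_lit 9) (nat_lit 4) (nat_lit 10) (nat_lit 5) (nat_lit 10) (nat_lit 4) (nat_lit 311) (nat_lit 241) (nat_lit 168)) (XT.lf (nat_lit 0) (nat_lit 2958416630) (nat_lit 152) (nat_lit 22428289377) (nat_lit 76) (nat_lit 23817819057) (nat_lit 8) (nat_lit 5) (nat_lit 10) (nat_lit 5) (nat_lit 9) (nat_lit 4) (nat_lit 312) (nat_lit 241) (nat_lit 167))) (XT.nd (nat_lit 78) (nat_lit 0) (nat_lit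 0) (XT.lf (nat_lit 0) (nat_lit 7536306235) (nat_lit 152) (nat_lit 13081322168) (nat_lit 76) (nat_lit 30750461033) (nat_lit 8) (nat_lit 5) (nat_lit 10) (nat_lit 5) (nat_lit 9) (nat_lit 4) (nat_lit 313) (nat_lit 241) (nat_lit 166)) (XT.lf (nat_lit 0) (nat_lit 12329128114) (nat_lit 152) (nat_lit 3291948251) (nat_lit 76) (nat_lit 38019466755) (nat_lit 8) (nat_lit 5) (nat_lit 10) (nat_lit 5) (nat_lit 9) (nat_lit 4) (nat_lit 314) (nat_lit 241) (nat_lit 165)))) (XT.nd (nat_lit 156) (nat_lit 0) (nat_lit 0) (XT.nd (nat_lit 78) (nat_lit 0) (nat_lit 0) (XT.lf (nat_lit 0) (nat_lit 7193373272) (nat_lit 76) (nat_lit 10267229190) (nat_lit 152) (nat_lit 38561078823) (nat_lit 7) (nat_lit 5) (nat_lit 8) (nat_lit 5) (nat_lit 9) (nat_lit 4) (nat_lit 315) (nat_lit 241) (nat_lit 164)) (XT.lf (nat_lit 0) (nat_lit 18293879056) (nat_lit 76) (nat_lit 4597493192) (nat_lit 152) (nat_lit 35628379802) (nat_lit 7)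 (nat_lit 5) (nat_lit 8) (nat_lit 5) (nat_lit 9) (nat_lit 4) (nat_lit 316) (nat_lit 241) (nat_lit 163))) (XT.nd (nat_lit 78) (nat_lit 0) (nat_lit 0) (XT.lf (nat_lit 0) (nat_lit 28602284898) (nat_lit 152) (nat_lit 31237218763) (nat_lit 0) (nat_lit 1302803688) (nat_lit 7) (nat_lit 5) (nat_lit 9) (nat_lit 4) (nat_lit 7) (nat_lit 4) (nat_lit 317) (nat_lit 241) (nat_lit 162)) (XT.nd (nat_lit 78) (nat_lit 0) (nat_lit 0) (XT.lf (nat_lit 0) (nat_lit 34662147765) (nat_lit 152) (nat_lit 21896153704) (nat_lit 0) (nat_lit 7334529397) (nat_lit 7) (nat_lit 5) (nat_lit 9) (nat_lit 4) (nat_lit 7) (nat_lit 4) (nat_lit 318) (nat_lit 241) (nat_lit 161)) (XT.lf (nat_lit 0) (nat_lit 41013609340) (nat_lit 152) (nat_lit 12108657433) (nat_lit 0) (nat_lit 13659193680) (nat_lit 7) (nat_lit 5) (nat_lit 9) (nat_lit 4) (nat_lit 7) (nat_lit 4) (nat_lit 319) (nat_lit 241) (nat_lit 160))))))) (XT.nd (nat_lit 702) (nat_lit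 0) (nat_lit 0) (XT.nd (nat_lit 312) (nat_lit 152) (nat_lit 0) (XT.nd (nat_lit 156) (nat_lit 0) (nat_lit 0) (XT.nd (nat_lit 78) (nat_lit 76) (nat_lit 0) (XT.lf (nat_lit 0) (nat_lit 47671792153) (nat_lit 152) (nat_lit 1851426388) (nat_lit 0) (nat_lit 20291855261) (nat_lit 7) (nat_lit 5) (nat_lit 9) (nat_lit 4) (nat_lit 7) (nat_lit 4) (nat_lit 320) (nat_lit 241) (nat_lit 159)) (XT.lf (nat_lit 0) (nat_lit 9194234328) (nat_lit 76) (nat_lit 45601862454) (nat_lit 76) (nat_lit 18197619628) (nat_lit 6) (nat_lit 4) (nat_lit 7) (nat_lit 5) (nat_lit 7) (nat_lit 4) (nat_lit 321) (nat_lit 241) (nat_lit 158))) (XT.nd (nat_lit 78) (nat_lit 0) (nat_lit 0) (XT.lf (nat_lit 0) (nat_lit 20838052315) (nat_lit 76) (nat_lit 41459788865) (nat_lit 76) (nat_lit 14032397530) (nat_lit 6) (nat_lit 4) (nat_lit 7) (nat_lit 5) (nat_lit 7) (nat_lit 4) (nat_lit 322) (nat_lit 241) (nat_lit 157)) (XT.lf (nat_lit 0) (nat_lit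 33046534431) (nat_lit 76) (nat_lit 37118490496) (nat_lit 76) (nat_lit 9669052961) (nat_lit 6) (nat_lit 4) (nat_lit 7) (nat_lit 5) (nat_lit 7) (nat_lit 4) (nat_lit 323) (nat_lit 241) (nat_lit 156)))) (XT.nd (nat_lit 156) (nat_lit 152) (nat_lit 0) (XT.nd (nat_lit 78) (nat_lit 0) (nat_lit 0) (XT.lf (nat_lit 0) (nat_lit 45848748490) (nat_lit 76) (nat_lit 32567630921) (nat_lit 76) (nat_lit 5097197006) (nat_lit 6) (nat_lit 4) (nat_lit 7) (nat_lit 5) (nat_lit 7) (nat_lit 4) (nat_lit 324) (nat_lit 241) (nat_lit 155)) (XT.lf (nat_lit 0) (nat_lit 59275175956) (nat_lit 76) (nat_lit 27796374761) (nat_lit 76) (nat_lit 305944293) (nat_lit 6) (nat_lit 4) (nat_lit 7) (nat_lit 5) (nat_lit 7) (nat_lit 4) (nat_lit 325) (nat_lit 241) (nat_lit 154))) (XT.nd (nat_lit 78) (nat_lit 76) (nat_lit 0) (XT.lf (nat_lit 0) (nat_lit 4565167854) (nat_lit 152) (nat_lit 18150880701) (nat_lit 76) (nat_lit 68715303330)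 (nat_lit 5) (nat_lit 5) (nat_lit 7) (nat_lit 5) (nat_lit 6) (nat_lit 4) (nat_lit 326) (nat_lit 241) (nat_lit 153)) (XT.nd (nat_lit 78) (nat_lit 76) (nat_lit 0) (XT.lf (nat_lit 0) (nat_lit 9661479763) (nat_lit 152) (nat_lit 7721578751) (nat_lit 76) (nat_lit 78305002580) (nat_lit 5) (nat_lit 5) (nat_lit 7) (nat_lit 5) (nat_lit 6) (nat_lit 4) (nat_lit 327) (nat_lit 241) (nat_lit 152)) (XT.lf (nat_lit 0) (nat_lit 3321503984) (nat_lit 76) (nat_lit 11735271637) (nat_lit 152) (nat_lit 85098627969) (nat_lit 4) (nat_lit 5) (nat_lit 5) (nat_lit 5) (nat_lit 6) (nat_lit 4) (nat_lit 328) (nat_lit 241) (nat_lit 151)))))) (XT.nd (nat_lit 312) (nat_lit 0) (nat_lit 0) (XT.nd (nat_lit 156) (nat_lit 0) (nat_lit 0) (XT.nd (nat_lit 78) (nat_lit 0) (nat_lit 0) (XT.lf (nat_lit 0) (nat_lit 15171049149) (nat_lit 76) (nat_lit 5674017388) (nat_lit 152) (nat_lit 83994891109) (nat_lit 4) (nat_lit 5) (nat_lit 5)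 (nat_lit 5) (nat_lit 6) (nat_lit 4) (nat_lit 329) (nat_lit 241) (nat_lit 150)) (XT.lf (nat_lit 0) (nat_lit 26926277452) (nat_lit 152) (nat_lit 82169829249) (nat_lit 0) (nat_lit 662463095) (nat_lit 4) (nat_lit 5) (nat_lit 6) (nat_lit 4) (nat_lit 4) (nat_lit 4) (nat_lit 330) (nat_lit 241) (nat_lit 149))) (XT.nd (nat_lit 78) (nat_lit 0) (nat_lit 0) (XT.lf (nat_lit 0) (nat_lit 33397639822) (nat_lit 152) (nat_lit 74401559294) (nat_lit 0) (nat_lit 7119614288) (nat_lit 4) (nat_lit 5) (nat_lit 6) (nat_lit 4) (nat_lit 4) (nat_lit 4) (nat_lit 331) (nat_lit 241) (nat_lit 148)) (XT.lf (nat_lit 0) (nat_lit 40185974339) (nat_lit 152) (nat_lit 66257015438) (nat_lit 0) (nat_lit 13894414351) (nat_lit 4) (nat_lit 5) (nat_lit 6) (nat_lit 4) (nat_lit 4) (nat_lit 4) (nat_lit 332) (nat_lit 241) (nat_lit 147)))) (XT.nd (nat_lit 156) (nat_lit 0) (nat_lit 0) (XT.nd (nat_lit 78) (nat_lit 0) (nat_lit 0) (XT.lf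 (nat_lit 0) (nat_lit 47307443705) (nat_lit 152) (nat_lit 57716805910) (nat_lit 0) (nat_lit 21002993761) (nat_lit 4) (nat_lit 5) (nat_lit 6) (nat_lit 4) (nat_lit 4) (nat_lit 4) (nat_lit 333) (nat_lit 241) (nat_lit 146)) (XT.lf (nat_lit 0) (nat_lit 54779003800) (nat_lit 152) (nat_lit 48760596877) (nat_lit 0) (nat_lit 28462277707) (nat_lit 4) (nat_lit 5) (nat_lit 6) (nat_lit 4) (nat_lit 4) (nat_lit 4) (nat_lit 334) (nat_lit 241) (nat_lit 145))) (XT.nd (nat_lit 78) (nat_lit 0) (nat_lit 0) (XT.lf (nat_lit 0) (nat_lit 62618444051) (nat_lit 152) (nat_lit 39367064034) (nat_lit 0) (nat_lit 36290026388) (nat_lit 4) (nat_lit 5) (nat_lit 6) (nat_lit 4) (nat_lit 4) (nat_lit 4) (nat_lit 335) (nat_lit 241) (nat_lit 144)) (XT.nd (nat_lit 78) (nat_lit 0) (nat_lit 0) (XT.lf (nat_lit 0) (nat_lit 70844429794) (nat_lit 152) (nat_lit 29513841825) (nat_lit 0) (nat_lit 44504877302) (nat_lit 4) (nat_lit 5)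 (nat_lit 6) (nat_lit 4) (nat_lit 4) (nat_lit 4) (nat_lit 336) (nat_lit 241) (nat_lit 143)) (XT.lf (nat_lit 0) (nat_lit 79476546708) (nat_lit 152) (nat_lit 19177470197) (nat_lit 0) (nat_lit 53126389617) (nat_lit 4) (nat_lit 5) (nat_lit 6) (nat_lit 4) (nat_lit 4) (nat_lit 4) (nat_lit 337) (nat_lit 241) (nat_lit 142))))))))
noncomputable def xc115 : XT := (XT.nd (nat_lit 1404) (nat_lit 152) (nat_lit 0) (XT.nd (nat_lit 702) (nat_lit 0) (nat_lit 0) (XT.nd (nat_lit 312) (nat_lit 0) (nat_lit 0) (XT.nd (nat_lit 156) (nat_lit 0) (nat_lit 0) (XT.nd (nat_lit 78) (nat_lit 76) (nat_lit 0) (XT.lf (nat_lit 0) (nat_lit 88535347452) (nat_lit 152) (nat_lit 8333338741) (nat_lit 0) (nat_lit 62175090744) (nat_lit 4) (nat_lit 5) (nat_lit 6) (nat_lit 4) (nat_lit 4) (nat_lit 4) (nat_lit 338) (nat_lit 241) (nat_lit 141)) (XT.lf (nat_lit 0) (nat_lit 3145032585) (nat_lit 76) (nat_lit 94946470788) (nat_lit 76)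 (nat_lit 68576595396) (nat_lit 3) (nat_lit 4) (nat_lit 4) (nat_lit 5) (nat_lit 4) (nat_lit 4) (nat_lit 339) (nat_lit 241) (nat_lit 140))) (XT.nd (nat_lit 78) (nat_lit 0) (nat_lit 0) (XT.lf (nat_lit 0) (nat_lit 15478148948) (nat_lit 76) (nat_lit 92783850327) (nat_lit 76) (nat_lit 66404814284) (nat_lit 3) (nat_lit 4) (nat_lit 4) (nat_lit 5) (nat_lit 4) (nat_lit 4) (nat_lit 340) (nat_lit 241) (nat_lit 139)) (XT.lf (nat_lit 0) (nat_lit 28419837098) (nat_lit 76) (nat_lit 90516804839) (nat_lit 76) (nat_lit 64129044366) (nat_lit 3) (nat_lit 4) (nat_lit 4) (nat_lit 5) (nat_lit 4) (nat_lit 4) (nat_lit 341) (nat_lit 241) (nat_lit 138)))) (XT.nd (nat_lit 156) (nat_lit 0) (nat_lit 0) (XT.nd (nat_lit 78) (nat_lit 0) (nat_lit 0) (XT.lf (nat_lit 0) (nat_lit 42000910577) (nat_lit 76) (nat_lit 88139936597) (nat_lit 76) (nat_lit 61743867143) (nat_lit 3) (nat_lit 4) (nat_lit 4) (nat_lit 5) (nat_lit 4)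 (nat_lit 4) (nat_lit 342) (nat_lit 241) (nat_lit 137)) (XT.lf (nat_lit 0) (nat_lit 56253705275) (nat_lit 76) (nat_lit 85647586390) (nat_lit 76) (nat_lit 59243603621) (nat_lit 3) (nat_lit 4) (nat_lit 4) (nat_lit 5) (nat_lit 4) (nat_lit 4) (nat_lit 343) (nat_lit 241) (nat_lit 136))) (XT.nd (nat_lit 78) (nat_lit 0) (nat_lit 0) (XT.lf (nat_lit 0) (nat_lit 71212156418) (nat_lit 76) (nat_lit 83033820051) (nat_lit 76) (nat_lit 56622300792) (nat_lit 3) (nat_lit 4) (nat_lit 4) (nat_lit 5) (nat_lit 4) (nat_lit 4) (nat_lit 344) (nat_lit 241) (nat_lit 135)) (XT.nd (nat_lit 78) (nat_lit 0) (nat_lit 0) (XT.lf (nat_lit 0) (nat_lit 86911879364) (nat_lit 76) (nat_lit 80292414327) (nat_lit 76) (nat_lit 53873717459) (nat_lit 3) (nat_lit 4) (nat_lit 4) (nat_lit 5) (nat_lit 4) (nat_lit 4) (nat_lit 345) (nat_lit 241) (nat_lit 134)) (XT.lf (nat_lit 0) (nat_lit 103390254407) (nat_lit 76) (nat_lit 77416842062)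 (nat_lit 76) (nat_lit 50991309374) (nat_lit 3) (nat_lit 4) (nat_lit 4) (nat_lit 5) (nat_lit 4) (nat_lit 4) (nat_lit 346) (nat_lit 241) (nat_lit 133)))))) (XT.nd (nat_lit 312) (nat_lit 0) (nat_lit 0) (XT.nd (nat_lit 156) (nat_lit 0) (nat_lit 0) (XT.nd (nat_lit 78) (nat_lit 0) (nat_lit 0) (XT.lf (nat_lit 0) (nat_lit 120686515773) (nat_lit 76) (nat_lit 74400256654) (nat_lit 76) (nat_lit 47968213663) (nat_lit 3) (nat_lit 4) (nat_lit 4) (nat_lit 5) (nat_lit 4) (nat_lit 4) (nat_lit 347) (nat_lit 241) (nat_lit 132)) (XT.lf (nat_lit 0) (nat_lit 138841845037) (nat_lit 76) (nat_lit 71235475759) (nat_lit 76) (nat_lit 44797232478) (nat_lit 3) (nat_lit 4) (nat_lit 4) (nat_lit 5) (nat_lit 4) (nat_lit 4) (nat_lit 348) (nat_lit 241) (nat_lit 131))) (XT.nd (nat_lit 78) (nat_lit 0) (nat_lit 0) (XT.lf (nat_lit 0) (nat_lit 157899469173) (nat_lit 76) (nat_lit 67914964182) (nat_lit 76) (nat_lit 41470815865)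 (nat_lit 3) (nat_lit 4) (nat_lit 4) (nat_lit 5) (nat_lit 4) (nat_lit 4) (nat_lit 349) (nat_lit 241) (nat_lit 130)) (XT.lf (nat_lit 0) (nat_lit 177904763477) (nat_lit 76) (nat_lit 64430815945) (nat_lit 76) (nat_lit 37981043782) (nat_lit 3) (nat_lit 4) (nat_lit 4) (nat_lit 5) (nat_lit 4) (nat_lit 4) (nat_lit 350) (nat_lit 241) (nat_lit 129)))) (XT.nd (nat_lit 156) (nat_lit 0) (nat_lit 0) (XT.nd (nat_lit 78) (nat_lit 0) (nat_lit 0) (XT.lf (nat_lit 0) (nat_lit 198905359602) (nat_lit 76) (nat_lit 60774735456) (nat_lit 76) (nat_lit 34319607250) (nat_lit 3) (nat_lit 4) (nat_lit 4) (nat_lit 5) (nat_lit 4) (nat_lit 4) (nat_lit 351) (nat_lit 241) (nat_lit 128)) (XT.lf (nat_lit 0) (nat_lit 220951258966) (nat_lit 76) (nat_lit 56938017761) (nat_lit 76) (nat_lit 30477788562) (nat_lit 3) (nat_lit 4) (nat_lit 4) (nat_lit 5) (nat_lit 4) (nat_lit 4) (nat_lit 352) (nat_lit 241) (nat_lit 127))) (XT.nd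 (nat_lit 78) (nat_lit 0) (nat_lit 0) (XT.lf (nat_lit 0) (nat_lit 244094951808) (nat_lit 76) (nat_lit 52911527819) (nat_lit 76) (nat_lit 26446440531) (nat_lit 3) (nat_lit 4) (nat_lit 4) (nat_lit 5) (nat_lit 4) (nat_lit 4) (nat_lit 353) (nat_lit 241) (nat_lit 126)) (XT.nd (nat_lit 78) (nat_lit 0) (nat_lit 0) (XT.lf (nat_lit 0) (nat_lit 268391542157) (nat_lit 76) (nat_lit 48685678748) (nat_lit 76) (nat_lit 22215964709) (nat_lit 3) (nat_lit 4) (nat_lit 4) (nat_lit 5) (nat_lit 4) (nat_lit 4) (nat_lit 354) (nat_lit 241) (nat_lit 125)) (XT.lf (nat_lit 0) (nat_lit 293898879038) (nat_lit 76) (nat_lit 44250409003) (nat_lit 76) (nat_lit 17776288534) (nat_lit 3) (nat_lit 4) (nat_lit 4) (nat_lit 5) (nat_lit 4) (nat_lit 4) (nat_lit 355) (nat_lit 241) (nat_lit 124))))))) (XT.nd (nat_lit 28782) (nat_lit 0) (nat_lit 7296) (XT.nd (nat_lit 312) (nat_lit 76) (nat_lit 0) (XT.nd (nat_lit 156) (nat_lit 76)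 (nat_lit 0) (XT.nd (nat_lit 78) (nat_lit 0) (nat_lit 0) (XT.lf (nat_lit 0) (nat_lit 320677694205) (nat_lit 76) (nat_lit 39595158419) (nat_lit 76) (nat_lit 13116841350) (nat_lit 3) (nat_lit 4) (nat_lit 4) (nat_lit 5) (nat_lit 4) (nat_lit 4) (nat_lit 356) (nat_lit 241) (nat_lit 123)) (XT.lf (nat_lit 0) (nat_lit 348791746743) (nat_lit 76) (nat_lit 34708843065) (nat_lit 76) (nat_lit 8226529234) (nat_lit 3) (nat_lit 4) (nat_lit 4) (nat_lit 5) (nat_lit 4) (nat_lit 4) (nat_lit 357) (nat_lit 241) (nat_lit 122))) (XT.nd (nat_lit 78) (nat_lit 76) (nat_lit 0) (XT.lf (nat_lit 0) (nat_lit 378307974871) (nat_lit 76) (nat_lit 29579828857) (nat_lit 76) (nat_lit 3093708587) (nat_lit 3) (nat_lit 4) (nat_lit 4) (nat_lit 5) (nat_lit 4) (nat_lit 4) (nat_lit 358) (nat_lit 241) (nat_lit 121)) (XT.lf (nat_lit 0) (nat_lit 2220424337) (nat_lit 152) (nat_lit 21937875558) (nat_lit 76) (nat_lit 407038627025) (nat_lit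 2) (nat_lit 5) (nat_lit 4) (nat_lit 5) (nat_lit 3) (nat_lit 4) (nat_lit 359) (nat_lit 241) (nat_lit 120)))) (XT.nd (nat_lit 156) (nat_lit 0) (nat_lit 0) (XT.nd (nat_lit 78) (nat_lit 76) (nat_lit 0) (XT.lf (nat_lit 0) (nat_lit 7694532805) (nat_lit 152) (nat_lit 10719405752) (nat_lit 76) (nat_lit 434006727231) (nat_lit 2) (nat_lit 5) (nat_lit 4) (nat_lit 5) (nat_lit 3) (nat_lit 4) (nat_lit 360) (nat_lit 241) (nat_lit 119)) (XT.lf (nat_lit 0) (nat_lit 1091829435) (nat_lit 76) (nat_lit 12365885484) (nat_lit 152) (nat_lit 461247109458) (nat_lit 1) (nat_lit 5) (nat_lit 2) (nat_lit 5) (nat_lit 3) (nat_lit 4) (nat_lit 361) (nat_lit 241) (nat_lit 118))) (XT.nd (nat_lit 28158) (nat_lit 0) (nat_lit 8816) (XT.lf (nat_lit 0) (nat_lit 13862726535) (nat_lit 76) (nat_lit 5826221880) (nat_lit 152) (nat_lit 478405248999) (nat_lit 1) (nat_lit 5) (nat_lit 2) (nat_lit 5) (nat_lit 3) (nat_lit 4) (nat_lit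 362) (nat_lit 241) (nat_lit 117)) (XT.nd (nat_lit 78) (nat_lit 228) (nat_lit 0) (XT.lf (nat_lit 0) (nat_lit 2176396018) (nat_lit 228) (nat_lit 534229257) (nat_lit 228) (nat_lit 534229257) (nat_lit 120) (nat_lit 3) (nat_lit 123) (nat_lit 3) (nat_lit 123) (nat_lit 5) (nat_lit 242) (nat_lit 242) (nat_lit 236)) (XT.lf (nat_lit 0) (nat_lit 358704193) (nat_lit 228) (nat_lit 4615386305) (nat_lit 304) (nat_lit 1543987088) (nat_lit 117) (nat_lit 5) (nat_lit 120) (nat_lit 3) (nat_lit 121) (nat_lit 5) (nat_lit 243) (nat_lit 242) (nat_lit 235)))))) (XT.nd (nat_lit 390) (nat_lit 1216) (nat_lit 0) (XT.nd (nat_lit 156) (nat_lit 304) (nat_lit 0) (XT.nd (nat_lit 78) (nat_lit 0) (nat_lit 0) (XT.lf (nat_lit 0) (nat_lit 2767612109) (nat_lit 228) (nat_lit 1612406730) (nat_lit 304) (nat_lit 2173823036) (nat_lit 117) (nat_lit 5) (nat_lit 120) (nat_lit 3) (nat_lit 121) (nat_lit 5) (nat_lit 244) (nat_lit 242)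 (nat_lit 234)) (XT.lf (nat_lit 76) (nat_lit 1503498483) (nat_lit 0) (nat_lit 3666396529) (nat_lit 304) (nat_lit 1428562335) (nat_lit 118) (nat_lit 5) (nat_lit 117) (nat_lit 5) (nat_lit 121) (nat_lit 5) (nat_lit 245) (nat_lit 242) (nat_lit 233))) (XT.nd (nat_lit 78) (nat_lit 0) (nat_lit 0) (XT.lf (nat_lit 0) (nat_lit 893520455) (nat_lit 304) (nat_lit 1919049929) (nat_lit 380) (nat_lit 3838557269) (nat_lit 113) (nat_lit 5) (nat_lit 117) (nat_lit 5) (nat_lit 118) (nat_lit 5) (nat_lit 246) (nat_lit 242) (nat_lit 232)) (XT.nd (nat_lit 78) (nat_lit 0) (nat_lit 0) (XT.lf (nat_lit 76) (nat_lit 1350216785) (nat_lit 0) (nat_lit 1813883744) (nat_lit 380) (nat_lit 3547752729) (nat_lit 114) (nat_lit 5) (nat_lit 113) (nat_lit 5) (nat_lit 118) (nat_lit 5) (nat_lit 247) (nat_lit 242) (nat_lit 231)) (XT.lf (nat_lit 76) (nat_lit 4765712675) (nat_lit 0) (nat_lit 679708206) (nat_lit 380) (nat_lit 1335917363)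 (nat_lit 114) (nat_lit 5) (nat_lit 113) (nat_lit 5) (nat_lit 118) (nat_lit 5) (nat_lit 248) (nat_lit 242) (nat_lit 230))))) (XT.nd (nat_lit 156) (nat_lit 912) (nat_lit 0) (XT.nd (nat_lit 78) (nat_lit 0) (nat_lit 0) (XT.lf (nat_lit 0) (nat_lit 855312377) (nat_lit 380) (nat_lit 5425087947) (nat_lit 76) (nat_lit 578637591) (nat_lit 109) (nat_lit 5) (nat_lit 114) (nat_lit 5) (nat_lit 110) (nat_lit 5) (nat_lit 249) (nat_lit 242) (nat_lit 229)) (XT.lf (nat_lit 0) (nat_lit 3031183080) (nat_lit 380) (nat_lit 1937417457) (nat_lit 76) (nat_lit 1975432458) (nat_lit 109) (nat_lit 5) (nat_lit 114) (nat_lit 5) (nat_lit 110) (nat_lit 5) (nat_lit 250) (nat_lit 242) (nat_lit 228))) (XT.nd (nat_lit 78) (nat_lit 532) (nat_lit 0) (XT.lf (nat_lit 0) (nat_lit 1692245379) (nat_lit 380) (nat_lit 3530153207) (nat_lit 456) (nat_lit 1816031860) (nat_lit 104) (nat_lit 5) (nat_lit 109) (nat_lit 5) (nat_lit 110)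 (nat_lit 5) (nat_lit 251) (nat_lit 242) (nat_lit 227)) (XT.nd (nat_lit 78) (nat_lit 456) (nat_lit 0) (XT.lf (nat_lit 0) (nat_lit 288806736) (nat_lit 456) (nat_lit 1661300703) (nat_lit 76) (nat_lit 5191798729) (nat_lit 103) (nat_lit 5) (nat_lit 109) (nat_lit 5) (nat_lit 104) (nat_lit 5) (nat_lit 252) (nat_lit 242) (nat_lit 226)) (XT.lf (nat_lit 0) (nat_lit 2162027633) (nat_lit 456) (nat_lit 197368288) (nat_lit 532) (nat_lit 4894009041) (nat_lit 97) (nat_lit 5) (nat_lit 103) (nat_lit 5) (nat_lit 104) (nat_lit 5) (nat_lit 253) (nat_lit 242) (nat_lit 225))))))))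
noncomputable def xc116 : XT := (XT.nd (nat_lit 1404) (nat_lit 1596) (nat_lit 0) (XT.nd (nat_lit 702) (nat_lit 1520) (nat_lit 0) (XT.nd (nat_lit 312) (nat_lit 1520) (nat_lit 0) (XT.nd (nat_lit 156) (nat_lit 684) (nat_lit 0) (XT.nd (nat_lit 78) (nat_lit 532) (nat_lit 0) (XT.lf (nat_lit 0) (nat_lit 4479960891) (nat_lit 532) (nat_lit 1251023084) (nat_lit 76) (nat_lit 1642567451) (nat_lit 97) (nat_lit 5) (nat_lit 104) (nat_lit 5) (nat_lit 98) (nat_lit 5) (nat_lit 254) (nat_lit 242) (nat_lit 224)) (XT.lf (nat_lit 0) (nat_lit 2781385562) (nat_lit 532) (nat_lit 3869160942) (nat_lit 608) (nat_lit 852335324) (nat_lit 90) (nat_lit 5) (nat_lit 97) (nat_lit 5) (nat_lit 98) (nat_lit 5) (nat_lit 255) (nat_lit 242) (nat_lit 223))) (XT.nd (nat_lit 78) (nat_lit 608) (nat_lit 0) (XT.lf (nat_lit 0) (nat_lit 1170129161) (nat_lit 608) (nat_lit 687324694) (nat_lit 76) (nat_lit 5784535058) (nat_lit 89) (nat_lit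 5) (nat_lit 97) (nat_lit 5) (nat_lit 90) (nat_lit 5) (nat_lit 256) (nat_lit 242) (nat_lit 222)) (XT.lf (nat_lit 0) (nat_lit 3229788255) (nat_lit 684) (nat_lit 4230198702) (nat_lit 76) (nat_lit 329454994) (nat_lit 81) (nat_lit 5) (nat_lit 90) (nat_lit 5) (nat_lit 82) (nat_lit 5) (nat_lit 257) (nat_lit 242) (nat_lit 221)))) (XT.nd (nat_lit 156) (nat_lit 836) (nat_lit 0) (XT.nd (nat_lit 78) (nat_lit 684) (nat_lit 0) (XT.lf (nat_lit 0) (nat_lit 5341914849) (nat_lit 684) (nat_lit 19949404) (nat_lit 76) (nat_lit 2585238690) (nat_lit 81) (nat_lit 5) (nat_lit 90) (nat_lit 5) (nat_lit 82) (nat_lit 5) (nat_lit 258) (nat_lit 242) (nat_lit 220)) (XT.lf (nat_lit 0) (nat_lit 4460111552) (nat_lit 684) (nat_lit 3080793424) (nat_lit 760) (nat_lit 572973938) (nat_lit 72) (nat_lit 5) (nat_lit 81) (nat_lit 5) (nat_lit 82) (nat_lit 5) (nat_lit 259) (nat_lit 242) (nat_lit 219))) (XT.nd (nat_lit 78) (nat_lit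 380) (nat_lit 0) (XT.lf (nat_lit 0) (nat_lit 791598348) (nat_lit 380) (nat_lit 644874370) (nat_lit 456) (nat_lit 6855290947) (nat_lit 66) (nat_lit 5) (nat_lit 71) (nat_lit 5) (nat_lit 72) (nat_lit 5) (nat_lit 260) (nat_lit 242) (nat_lit 218)) (XT.nd (nat_lit 78) (nat_lit 380) (nat_lit 0) (XT.lf (nat_lit 0) (nat_lit 3535615342) (nat_lit 456) (nat_lit 3017992505) (nat_lit 76) (nat_lit 1924295841) (nat_lit 66) (nat_lit 5) (nat_lit 72) (nat_lit 5) (nat_lit 67) (nat_lit 5) (nat_lit 261) (nat_lit 242) (nat_lit 217)) (XT.lf (nat_lit 0) (nat_lit 1646260771) (nat_lit 380) (nat_lit 4049463824) (nat_lit 456) (nat_lit 2980068167) (nat_lit 61) (nat_lit 5) (nat_lit 66) (nat_lit 5) (nat_lit 67) (nat_lit 5) (nat_lit 262) (nat_lit 242) (nat_lit 216)))))) (XT.nd (nat_lit 312) (nat_lit 836) (nat_lit 0) (XT.nd (nat_lit 156) (nat_lit 304) (nat_lit 0) (XT.nd (nat_lit 78) (nat_lit 380) (nat_lit 0) (XT.lf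 (nat_lit 0) (nat_lit 6565714716) (nat_lit 380) (nat_lit 1371500360) (nat_lit 456) (nat_lit 947923400) (nat_lit 61) (nat_lit 5) (nat_lit 66) (nat_lit 5) (nat_lit 67) (nat_lit 5) (nat_lit 263) (nat_lit 242) (nat_lit 215)) (XT.lf (nat_lit 0) (nat_lit 1136522708) (nat_lit 380) (nat_lit 6519686739) (nat_lit 76) (nat_lit 1448593426) (nat_lit 56) (nat_lit 5) (nat_lit 61) (nat_lit 5) (nat_lit 57) (nat_lit 5) (nat_lit 264) (nat_lit 242) (nat_lit 214))) (XT.nd (nat_lit 78) (nat_lit 304) (nat_lit 0) (XT.lf (nat_lit 0) (nat_lit 3282511995) (nat_lit 380) (nat_lit 1640726666) (nat_lit 76) (nat_lit 4412175499) (nat_lit 56) (nat_lit 5) (nat_lit 61) (nat_lit 5) (nat_lit 57) (nat_lit 5) (nat_lit 265) (nat_lit 242) (nat_lit 213)) (XT.lf (nat_lit 0) (nat_lit 3514691483) (nat_lit 304) (nat_lit 2006239824) (nat_lit 380) (nat_lit 4057558203) (nat_lit 52) (nat_lit 5) (nat_lit 56) (nat_lit 5) (nat_lit 57) (nat_lit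 5) (nat_lit 266) (nat_lit 242) (nat_lit 212)))) (XT.nd (nat_lit 156) (nat_lit 532) (nat_lit 0) (XT.nd (nat_lit 78) (nat_lit 304) (nat_lit 0) (XT.lf (nat_lit 0) (nat_lit 7848186750) (nat_lit 380) (nat_lit 946521702) (nat_lit 76) (nat_lit 1040345392) (nat_lit 52) (nat_lit 5) (nat_lit 57) (nat_lit 5) (nat_lit 53) (nat_lit 5) (nat_lit 267) (nat_lit 242) (nat_lit 211)) (XT.lf (nat_lit 0) (nat_lit 219717524) (nat_lit 304) (nat_lit 5648020935) (nat_lit 76) (nat_lit 4234808046) (nat_lit 48) (nat_lit 5) (nat_lit 52) (nat_lit 5) (nat_lit 49) (nat_lit 5) (nat_lit 268) (nat_lit 242) (nat_lit 210))) (XT.nd (nat_lit 78) (nat_lit 532) (nat_lit 0) (XT.lf (nat_lit 0) (nat_lit 2422246395) (nat_lit 304) (nat_lit 336143253) (nat_lit 76) (nat_lit 7625932566) (nat_lit 48) (nat_lit 5) (nat_lit 52) (nat_lit 5) (nat_lit 49) (nat_lit 5) (nat_lit 269) (nat_lit 242) (nat_lit 209)) (XT.nd (nat_lit 78) (nat_lit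 228) (nat_lit 0) (XT.lf (nat_lit 0) (nat_lit 4766405767) (nat_lit 380) (nat_lit 5351533603) (nat_lit 76) (nat_lit 560821024) (nat_lit 44) (nat_lit 5) (nat_lit 49) (nat_lit 5) (nat_lit 45) (nat_lit 5) (nat_lit 270) (nat_lit 242) (nat_lit 208)) (XT.lf (nat_lit 0) (nat_lit 181228710) (nat_lit 228) (nat_lit 7041021273) (nat_lit 304) (nat_lit 3766088455) (nat_lit 41) (nat_lit 5) (nat_lit 44) (nat_lit 5) (nat_lit 45) (nat_lit 5) (nat_lit 271) (nat_lit 242) (nat_lit 207))))))) (XT.nd (nat_lit 702) (nat_lit 684) (nat_lit 0) (XT.nd (nat_lit 312) (nat_lit 456) (nat_lit 0) (XT.nd (nat_lit 156) (nat_lit 152) (nat_lit 0) (XT.nd (nat_lit 78) (nat_lit 304) (nat_lit 0) (XT.lf (nat_lit 0) (nat_lit 6100606641) (nat_lit 228) (nat_lit 3733195281) (nat_lit 304) (nat_lit 1478082735) (nat_lit 41) (nat_lit 5) (nat_lit 44) (nat_lit 5) (nat_lit 45) (nat_lit 5) (nat_lit 272) (nat_lit 242) (nat_lit 206)) (XT.lf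 (nat_lit 0) (nat_lit 594771146) (nat_lit 228) (nat_lit 253261500) (nat_lit 304) (nat_lit 10805311792) (nat_lit 37) (nat_lit 5) (nat_lit 40) (nat_lit 5) (nat_lit 41) (nat_lit 5) (nat_lit 273) (nat_lit 242) (nat_lit 205))) (XT.nd (nat_lit 78) (nat_lit 152) (nat_lit 0) (XT.lf (nat_lit 0) (nat_lit 3328822017) (nat_lit 304) (nat_lit 5289723161) (nat_lit 76) (nat_lit 3387835072) (nat_lit 37) (nat_lit 5) (nat_lit 41) (nat_lit 5) (nat_lit 38) (nat_lit 5) (nat_lit 274) (nat_lit 242) (nat_lit 204)) (XT.lf (nat_lit 0) (nat_lit 714344319) (nat_lit 152) (nat_lit 5182463844) (nat_lit 228) (nat_lit 6482212926) (nat_lit 35) (nat_lit 5) (nat_lit 37) (nat_lit 5) (nat_lit 38) (nat_lit 5) (nat_lit 275) (nat_lit 242) (nat_lit 203)))) (XT.nd (nat_lit 156) (nat_lit 228) (nat_lit 0) (XT.nd (nat_lit 78) (nat_lit 228) (nat_lit 0) (XT.lf (nat_lit 0) (nat_lit 7131485879) (nat_lit 152) (nat_lit 1500522513) (nat_lit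 228) (nat_lit 4136450652) (nat_lit 35) (nat_lit 5) (nat_lit 37) (nat_lit 5) (nat_lit 38) (nat_lit 5) (nat_lit 276) (nat_lit 242) (nat_lit 202)) (XT.lf (nat_lit 0) (nat_lit 604917329) (nat_lit 228) (nat_lit 10896778934) (nat_lit 304) (nat_lit 1675887027) (nat_lit 32) (nat_lit 5) (nat_lit 35) (nat_lit 5) (nat_lit 36) (nat_lit 5) (nat_lit 277) (nat_lit 242) (nat_lit 201))) (XT.nd (nat_lit 78) (nat_lit 152) (nat_lit 0) (XT.lf (nat_lit 0) (nat_lit 952009094) (nat_lit 304) (nat_lit 6358312288) (nat_lit 76) (nat_lit 6292557354) (nat_lit 31) (nat_lit 5) (nat_lit 35) (nat_lit 5) (nat_lit 32) (nat_lit 5) (nat_lit 278) (nat_lit 242) (nat_lit 200)) (XT.nd (nat_lit 78) (nat_lit 0) (nat_lit 0) (XT.lf (nat_lit 0) (nat_lit 74831473) (nat_lit 152) (nat_lit 3535342695) (nat_lit 228) (nat_lit 10440218412) (nat_lit 29) (nat_lit 5) (nat_lit 31) (nat_lit 5) (nat_lit 32) (nat_lit 5) (nat_lit 279) (nat_lit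 242) (nat_lit 199)) (XT.lf (nat_lit 0) (nat_lit 6472243855) (nat_lit 228) (nat_lit 7540740067) (nat_lit 76) (nat_lit 503831284) (nat_lit 29) (nat_lit 5) (nat_lit 32) (nat_lit 5) (nat_lit 30) (nat_lit 5) (nat_lit 280) (nat_lit 242) (nat_lit 198)))))) (XT.nd (nat_lit 312) (nat_lit 304) (nat_lit 0) (XT.nd (nat_lit 156) (nat_lit 228) (nat_lit 0) (XT.nd (nat_lit 78) (nat_lit 152) (nat_lit 0) (XT.lf (nat_lit 0) (nat_lit 9492384617) (nat_lit 228) (nat_lit 906674525) (nat_lit 76) (nat_lit 4606830402) (nat_lit 29) (nat_lit 5) (nat_lit 32) (nat_lit 5) (nat_lit 30) (nat_lit 5) (nat_lit 281) (nat_lit 242) (nat_lit 197)) (XT.lf (nat_lit 0) (nat_lit 6195936171) (nat_lit 152) (nat_lit 6523390413) (nat_lit 228) (nat_lit 2797376504) (nat_lit 27) (nat_lit 5) (nat_lit 29) (nat_lit 5) (nat_lit 30) (nat_lit 5) (nat_lit 282) (nat_lit 242) (nat_lit 196))) (XT.nd (nat_lit 78) (nat_lit 152) (nat_lit 0) (XT.lf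 (nat_lit 0) (nat_lit 27758463) (nat_lit 228) (nat_lit 2430125993) (nat_lit 76) (nat_lit 13596451154) (nat_lit 26) (nat_lit 5) (nat_lit 29) (nat_lit 5) (nat_lit 27) (nat_lit 5) (nat_lit 283) (nat_lit 242) (nat_lit 195)) (XT.lf (nat_lit 0) (nat_lit 2967178380) (nat_lit 228) (nat_lit 11789060781) (nat_lit 76) (nat_lit 1857030705) (nat_lit 24) (nat_lit 5) (nat_lit 27) (nat_lit 5) (nat_lit 25) (nat_lit 5) (nat_lit 284) (nat_lit 242) (nat_lit 194)))) (XT.nd (nat_lit 156) (nat_lit 152) (nat_lit 0) (XT.nd (nat_lit 78) (nat_lit 152) (nat_lit 0) (XT.lf (nat_lit 0) (nat_lit 6097591529) (nat_lit 228) (nat_lit 4773057507) (nat_lit 76) (nat_lit 6327362556) (nat_lit 24) (nat_lit 5) (nat_lit 27) (nat_lit 5) (nat_lit 25) (nat_lit 5) (nat_lit 285) (nat_lit 242) (nat_lit 193)) (XT.lf (nat_lit 0) (nat_lit 2620842613) (nat_lit 152) (nat_lit 6768314761) (nat_lit 228) (nat_lit 8422660347) (nat_lit 22) (nat_lit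 5) (nat_lit 24) (nat_lit 5) (nat_lit 25) (nat_lit 5) (nat_lit 286) (nat_lit 242) (nat_lit 192))) (XT.nd (nat_lit 78) (nat_lit 152) (nat_lit 0) (XT.lf (nat_lit 0) (nat_lit 10494276785) (nat_lit 152) (nat_lit 2396427745) (nat_lit 228) (nat_lit 5563395590) (nat_lit 22) (nat_lit 5) (nat_lit 24) (nat_lit 5) (nat_lit 25) (nat_lit 5) (nat_lit 287) (nat_lit 242) (nat_lit 191)) (XT.nd (nat_lit 78) (nat_lit 152) (nat_lit 0) (XT.lf (nat_lit 0) (nat_lit 16567536616) (nat_lit 228) (nat_lit 456016232) (nat_lit 76) (nat_lit 2104986855) (nat_lit 22) (nat_lit 5) (nat_lit 25) (nat_lit 5) (nat_lit 23) (nat_lit 4) (nat_lit 288) (nat_lit 242) (nat_lit 190)) (XT.lf (nat_lit 0) (nat_lit 699690500) (nat_lit 152) (nat_lit 12267713595) (nat_lit 76) (nat_lit 6862528217) (nat_lit 20) (nat_lit 5) (nat_lit 22) (nat_lit 5) (nat_lit 21) (nat_lit 5) (nat_lit 289) (nat_lit 242) (nat_lit 189))))))))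
noncomputable def xc117 : XT := (XT.nd (nat_lit 1404) (nat_lit 304) (nat_lit 0) (XT.nd (nat_lit 702) (nat_lit 304) (nat_lit 0) (XT.nd (nat_lit 312) (nat_lit 304) (nat_lit 0) (XT.nd (nat_lit 156) (nat_lit 0) (nat_lit 0) (XT.nd (nat_lit 78) (nat_lit 152) (nat_lit 0) (XT.lf (nat_lit 0) (nat_lit 4012953660) (nat_lit 152) (nat_lit 4663239100) (nat_lit 76) (nat_lit 11889368704) (nat_lit 20) (nat_lit 5) (nat_lit 22) (nat_lit 5) (nat_lit 21) (nat_lit 5) (nat_lit 290) (nat_lit 242) (nat_lit 188)) (XT.lf (nat_lit 0) (nat_lit 3379807692) (nat_lit 152) (nat_lit 4134128108) (nat_lit 228) (nat_lit 13822977450) (nat_lit 18) (nat_lit 5) (nat_lit 20) (nat_lit 5) (nat_lit 21) (nat_lit 5) (nat_lit 291) (nat_lit 242) (nat_lit 187))) (XT.nd (nat_lit 78) (nat_lit 0) (nat_lit 0) (XT.lf (nat_lit 0) (nat_lit 11249838577) (nat_lit 228) (nat_lit 10217457979) (nat_lit 76) (nat_lit 676584367) (nat_lit 18) (nat_lit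 5) (nat_lit 21) (nat_lit 5) (nat_lit 19) (nat_lit 4) (nat_lit 292) (nat_lit 242) (nat_lit 186)) (XT.lf (nat_lit 0) (nat_lit 15211440426) (nat_lit 228) (nat_lit 2206475479) (nat_lit 76) (nat_lit 5571375756) (nat_lit 18) (nat_lit 5) (nat_lit 21) (nat_lit 5) (nat_lit 19) (nat_lit 4) (nat_lit 293) (nat_lit 242) (nat_lit 185)))) (XT.nd (nat_lit 156) (nat_lit 228) (nat_lit 0) (XT.nd (nat_lit 78) (nat_lit 0) (nat_lit 0) (XT.lf (nat_lit 0) (nat_lit 6363120632) (nat_lit 76) (nat_lit 13079853921) (nat_lit 152) (nat_lit 4430443756) (nat_lit 17) (nat_lit 5) (nat_lit 18) (nat_lit 5) (nat_lit 19) (nat_lit 4) (nat_lit 294) (nat_lit 242) (nat_lit 184)) (XT.lf (nat_lit 0) (nat_lit 15392940689) (nat_lit 76) (nat_lit 8503627317) (nat_lit 152) (nat_lit 904695324) (nat_lit 17) (nat_lit 5) (nat_lit 18) (nat_lit 5) (nat_lit 19) (nat_lit 4) (nat_lit 295) (nat_lit 242) (nat_lit 183))) (XT.nd (nat_lit 78) (nat_lit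 152) (nat_lit 0) (XT.lf (nat_lit 0) (nat_lit 2681750198) (nat_lit 152) (nat_lit 988541112) (nat_lit 76) (nat_lit 22104361284) (nat_lit 16) (nat_lit 5) (nat_lit 18) (nat_lit 5) (nat_lit 17) (nat_lit 5) (nat_lit 296) (nat_lit 242) (nat_lit 182)) (XT.nd (nat_lit 78) (nat_lit 0) (nat_lit 0) (XT.lf (nat_lit 0) (nat_lit 6542011645) (nat_lit 228) (nat_lit 18761305911) (nat_lit 76) (nat_lit 1486438590) (nat_lit 14) (nat_lit 5) (nat_lit 17) (nat_lit 5) (nat_lit 15) (nat_lit 4) (nat_lit 297) (nat_lit 242) (nat_lit 181)) (XT.lf (nat_lit 0) (nat_lit 10647938162) (nat_lit 228) (nat_lit 10426465072) (nat_lit 76) (nat_lit 6778608800) (nat_lit 14) (nat_lit 5) (nat_lit 17) (nat_lit 5) (nat_lit 15) (nat_lit 4) (nat_lit 298) (nat_lit 242) (nat_lit 180)))))) (XT.nd (nat_lit 312) (nat_lit 228) (nat_lit 0) (XT.nd (nat_lit 156) (nat_lit 0) (nat_lit 0) (XT.nd (nat_lit 78) (nat_lit 76) (nat_lit 0) (XT.lf (nat_lit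 0) (nat_lit 14935796639) (nat_lit 228) (nat_lit 1714744261) (nat_lit 76) (nat_lit 12320086376) (nat_lit 14) (nat_lit 5) (nat_lit 17) (nat_lit 5) (nat_lit 15) (nat_lit 4) (nat_lit 299) (nat_lit 242) (nat_lit 179)) (XT.lf (nat_lit 0) (nat_lit 7639097541) (nat_lit 76) (nat_lit 11895966444) (nat_lit 152) (nat_lit 10604235492) (nat_lit 13) (nat_lit 5) (nat_lit 14) (nat_lit 5) (nat_lit 15) (nat_lit 4) (nat_lit 300) (nat_lit 242) (nat_lit 178))) (XT.nd (nat_lit 78) (nat_lit 0) (nat_lit 0) (XT.lf (nat_lit 0) (nat_lit 17482811928) (nat_lit 76) (nat_lit 6888747463) (nat_lit 152) (nat_lit 6994508368) (nat_lit 13) (nat_lit 5) (nat_lit 14) (nat_lit 5) (nat_lit 15) (nat_lit 4) (nat_lit 301) (nat_lit 242) (nat_lit 177)) (XT.lf (nat_lit 0) (nat_lit 27783139124) (nat_lit 76) (nat_lit 1646002033) (nat_lit 152) (nat_lit 3226094701) (nat_lit 13) (nat_lit 5) (nat_lit 14) (nat_lit 5) (nat_lit 15) (nat_lit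 4) (nat_lit 302) (nat_lit 242) (nat_lit 176)))) (XT.nd (nat_lit 156) (nat_lit 76) (nat_lit 0) (XT.nd (nat_lit 78) (nat_lit 0) (nat_lit 0) (XT.lf (nat_lit 0) (nat_lit 821949269) (nat_lit 152) (nat_lit 29373186026) (nat_lit 76) (nat_lit 3807448937) (nat_lit 11) (nat_lit 5) (nat_lit 13) (nat_lit 5) (nat_lit 12) (nat_lit 4) (nat_lit 303) (nat_lit 242) (nat_lit 175)) (XT.lf (nat_lit 0) (nat_lit 5054930087) (nat_lit 152) (nat_lit 20754070479) (nat_lit 76) (nat_lit 9601128639) (nat_lit 11) (nat_lit 5) (nat_lit 13) (nat_lit 5) (nat_lit 12) (nat_lit 4) (nat_lit 304) (nat_lit 242) (nat_lit 174))) (XT.nd (nat_lit 78) (nat_lit 76) (nat_lit 0) (XT.lf (nat_lit 0) (nat_lit 9480612313) (nat_lit 152) (nat_lit 11737131563) (nat_lit 76) (nat_lit 15671275073) (nat_lit 11) (nat_lit 5) (nat_lit 13) (nat_lit 5) (nat_lit 12) (nat_lit 4) (nat_lit 305) (nat_lit 242) (nat_lit 173)) (XT.nd (nat_lit 78) (nat_lit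 76) (nat_lit 0) (XT.lf (nat_lit 0) (nat_lit 14109533286) (nat_lit 152) (nat_lit 2300900376) (nat_lit 76) (nat_lit 22032340970) (nat_lit 11) (nat_lit 5) (nat_lit 13) (nat_lit 5) (nat_lit 12) (nat_lit 4) (nat_lit 306) (nat_lit 242) (nat_lit 172)) (XT.lf (nat_lit 0) (nat_lit 7827623121) (nat_lit 76) (nat_lit 11247302257) (nat_lit 152) (nat_lit 20994059736) (nat_lit 10) (nat_lit 5) (nat_lit 11) (nat_lit 5) (nat_lit 12) (nat_lit 4) (nat_lit 307) (nat_lit 242) (nat_lit 171))))))) (XT.nd (nat_lit 702) (nat_lit 76) (nat_lit 0) (XT.nd (nat_lit 312) (nat_lit 152) (nat_lit 0) (XT.nd (nat_lit 156) (nat_lit 76) (nat_lit 0) (XT.nd (nat_lit 78) (nat_lit 0) (nat_lit 0) (XT.lf (nat_lit 0) (nat_lit 18512887499) (nat_lit 76) (nat_lit 5797837131) (nat_lit 152) (nat_lit 17464692013) (nat_lit 10) (nat_lit 5) (nat_lit 11) (nat_lit 5) (nat_lit 12) (nat_lit 4) (nat_lit 308) (nat_lit 242) (nat_lit 170)) (XT.lf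 (nat_lit 0) (nat_lit 29704255704) (nat_lit 76) (nat_lit 88030228) (nat_lit 152) (nat_lit 13775701782) (nat_lit 10) (nat_lit 5) (nat_lit 11) (nat_lit 5) (nat_lit 12) (nat_lit 4) (nat_lit 309) (nat_lit 242) (nat_lit 169))) (XT.nd (nat_lit 78) (nat_lit 76) (nat_lit 0) (XT.lf (nat_lit 0) (nat_lit 35624709229) (nat_lit 152) (nat_lit 4114641109) (nat_lit 0) (nat_lit 5707013586) (nat_lit 10) (nat_lit 5) (nat_lit 12) (nat_lit 4) (nat_lit 10) (nat_lit 4) (nat_lit 310) (nat_lit 242) (nat_lit 168)) (XT.lf (nat_lit 0) (nat_lit 6295856421) (nat_lit 76) (nat_lit 35537926764) (nat_lit 76) (nat_lit 5580639315) (nat_lit 9) (nat_lit 4) (nat_lit 10) (nat_lit 5) (nat_lit 10) (nat_lit 4) (nat_lit 311) (nat_lit 242) (nat_lit 167)))) (XT.nd (nat_lit 156) (nat_lit 76) (nat_lit 0) (XT.nd (nat_lit 78) (nat_lit 76) (nat_lit 0) (XT.lf (nat_lit 0) (nat_lit 17344039509) (nat_lit 76) (nat_lit 31064544540) (nat_lit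 76) (nat_lit 1069550609) (nat_lit 9) (nat_lit 4) (nat_lit 10) (nat_lit 5) (nat_lit 10) (nat_lit 4) (nat_lit 312) (nat_lit 242) (nat_lit 166)) (XT.lf (nat_lit 0) (nat_lit 3535760462) (nat_lit 152) (nat_lit 22782595918) (nat_lit 76) (nat_lit 25324524460) (nat_lit 8) (nat_lit 5) (nat_lit 10) (nat_lit 5) (nat_lit 9) (nat_lit 4) (nat_lit 313) (nat_lit 242) (nat_lit 165))) (XT.nd (nat_lit 78) (nat_lit 76) (nat_lit 0) (XT.lf (nat_lit 0) (nat_lit 8322095833) (nat_lit 152) (nat_lit 13004809298) (nat_lit 76) (nat_lit 32588759751) (nat_lit 8) (nat_lit 5) (nat_lit 10) (nat_lit 5) (nat_lit 9) (nat_lit 4) (nat_lit 314) (nat_lit 242) (nat_lit 164)) (XT.nd (nat_lit 78) (nat_lit 76) (nat_lit 0) (XT.lf (nat_lit 0) (nat_lit 13335083840) (nat_lit 152) (nat_lit 2760756161) (nat_lit 76) (nat_lit 40206893108) (nat_lit 8) (nat_lit 5) (nat_lit 10) (nat_lit 5) (nat_lit 9) (nat_lit 4) (nat_lit 315) (nat_lit 242)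 (nat_lit 163)) (XT.lf (nat_lit 0) (nat_lit 8237609028) (nat_lit 76) (nat_lit 10477663302) (nat_lit 152) (nat_lit 40088066079) (nat_lit 7) (nat_lit 5) (nat_lit 8) (nat_lit 5) (nat_lit 9) (nat_lit 4) (nat_lit 316) (nat_lit 242) (nat_lit 162)))))) (XT.nd (nat_lit 312) (nat_lit 76) (nat_lit 0) (XT.nd (nat_lit 156) (nat_lit 0) (nat_lit 0) (XT.nd (nat_lit 78) (nat_lit 0) (nat_lit 0) (XT.lf (nat_lit 0) (nat_lit 19860541667) (nat_lit 76) (nat_lit 4538865616) (nat_lit 152) (nat_lit 37027830520) (nat_lit 7) (nat_lit 5) (nat_lit 8) (nat_lit 5) (nat_lit 9) (nat_lit 4) (nat_lit 317) (nat_lit 242) (nat_lit 161)) (XT.lf (nat_lit 0) (nat_lit 30382847478) (nat_lit 152) (nat_lit 32164826197) (nat_lit 0) (nat_lit 1633913741) (nat_lit 7) (nat_lit 5) (nat_lit 9) (nat_lit 4) (nat_lit 7) (nat_lit 4) (nat_lit 318) (nat_lit 242) (nat_lit 160))) (XT.nd (nat_lit 78) (nat_lit 0) (nat_lit 0) (XT.lf (nat_lit 0)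 (nat_lit 36729015472) (nat_lit 152) (nat_lit 22386910433) (nat_lit 0) (nat_lit 7954560504) (nat_lit 7) (nat_lit 5) (nat_lit 9) (nat_lit 4) (nat_lit 7) (nat_lit 4) (nat_lit 319) (nat_lit 242) (nat_lit 159)) (XT.lf (nat_lit 0) (nat_lit 43382156778) (nat_lit 152) (nat_lit 12138803680) (nat_lit 0) (nat_lit 14583395875) (nat_lit 7) (nat_lit 5) (nat_lit 9) (nat_lit 4) (nat_lit 7) (nat_lit 4) (nat_lit 320) (nat_lit 242) (nat_lit 158)))) (XT.nd (nat_lit 156) (nat_lit 0) (nat_lit 0) (XT.nd (nat_lit 78) (nat_lit 76) (nat_lit 0) (XT.lf (nat_lit 0) (nat_lit 50358112208) (nat_lit 152) (nat_lit 1396105683) (nat_lit 0) (nat_lit 21536202797) (nat_lit 7) (nat_lit 5) (nat_lit 9) (nat_lit 4) (nat_lit 7) (nat_lit 4) (nat_lit 321) (nat_lit 242) (nat_lit 157)) (XT.lf (nat_lit 0) (nat_lit 10193001100) (nat_lit 76) (nat_lit 47639631394) (nat_lit 76) (nat_lit 18795675783) (nat_lit 6) (nat_lit 4) (nat_lit 7)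 (nat_lit 5) (nat_lit 7) (nat_lit 4) (nat_lit 322) (nat_lit 242) (nat_lit 156))) (XT.nd (nat_lit 78) (nat_lit 0) (nat_lit 0) (XT.lf (nat_lit 0) (nat_lit 22393340698) (nat_lit 76) (nat_lit 43301993372) (nat_lit 76) (nat_lit 14437041381) (nat_lit 6) (nat_lit 4) (nat_lit 7) (nat_lit 5) (nat_lit 7) (nat_lit 4) (nat_lit 323) (nat_lit 242) (nat_lit 155)) (XT.nd (nat_lit 78) (nat_lit 0) (nat_lit 0) (XT.lf (nat_lit 0) (nat_lit 35187799978) (nat_lit 76) (nat_lit 38754619843) (nat_lit 76) (nat_lit 9869671300) (nat_lit 6) (nat_lit 4) (nat_lit 7) (nat_lit 5) (nat_lit 7) (nat_lit 4) (nat_lit 324) (nat_lit 242) (nat_lit 154)) (XT.lf (nat_lit 0) (nat_lit 48606841940) (nat_lit 76) (nat_lit 33986683727) (nat_lit 76) (nat_lit 5082690847) (nat_lit 6) (nat_lit 4) (nat_lit 7) (nat_lit 5) (nat_lit 7) (nat_lit 4) (nat_lit 325) (nat_lit 242) (nat_lit 153))))))))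
noncomputable def xc118 : XT := (XT.nd (nat_lit 1404) (nat_lit 76) (nat_lit 0) (XT.nd (nat_lit 702) (nat_lit 76) (nat_lit 0) (XT.nd (nat_lit 312) (nat_lit 0) (nat_lit 0) (XT.nd (nat_lit 156) (nat_lit 76) (nat_lit 0) (XT.nd (nat_lit 78) (nat_lit 76) (nat_lit 0) (XT.lf (nat_lit 0) (nat_lit 62682416682) (nat_lit 76) (nat_lit 28986832794) (nat_lit 76) (nat_lit 64702452) (nat_lit 6) (nat_lit 4) (nat_lit 7) (nat_lit 5) (nat_lit 7) (nat_lit 4) (nat_lit 326) (nat_lit 242) (nat_lit 152)) (XT.lf (nat_lit 0) (nat_lit 5029929298) (nat_lit 152) (nat_lit 18628049053) (nat_lit 76) (nat_lit 72332923893) (nat_lit 5) (nat_lit 5) (nat_lit 7) (nat_lit 5) (nat_lit 6) (nat_lit 4) (nat_lit 327) (nat_lit 242) (nat_lit 151))) (XT.nd (nat_lit 78) (nat_lit 76) (nat_lit 0) (XT.lf (nat_lit 0) (nat_lit 10369794752) (nat_lit 152) (nat_lit 7697776085) (nat_lit 76) (nat_lit 82393448324) (nat_lit 5) (nat_lit 5) (nat_lit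 7) (nat_lit 5) (nat_lit 6) (nat_lit 4) (nat_lit 328) (nat_lit 242) (nat_lit 150)) (XT.lf (nat_lit 0) (nat_lit 3890849792) (nat_lit 76) (nat_lit 12139576033) (nat_lit 152) (nat_lit 89121533147) (nat_lit 4) (nat_lit 5) (nat_lit 5) (nat_lit 5) (nat_lit 6) (nat_lit 4) (nat_lit 329) (nat_lit 242) (nat_lit 149)))) (XT.nd (nat_lit 156) (nat_lit 0) (nat_lit 0) (XT.nd (nat_lit 78) (nat_lit 0) (nat_lit 0) (XT.lf (nat_lit 0) (nat_lit 16313668853) (nat_lit 76) (nat_lit 5783947605) (nat_lit 152) (nat_lit 87973658312) (nat_lit 4) (nat_lit 5) (nat_lit 5) (nat_lit 5) (nat_lit 6) (nat_lit 4) (nat_lit 330) (nat_lit 242) (nat_lit 148)) (XT.lf (nat_lit 0) (nat_lit 28475457650) (nat_lit 152) (nat_lit 85904954084) (nat_lit 0) (nat_lit 855785208) (nat_lit 4) (nat_lit 5) (nat_lit 6) (nat_lit 4) (nat_lit 4) (nat_lit 4) (nat_lit 331) (nat_lit 242) (nat_lit 147))) (XT.nd (nat_lit 78) (nat_lit 0) (nat_lit 0) (XT.lf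 (nat_lit 0) (nat_lit 35260727837) (nat_lit 152) (nat_lit 77766049994) (nat_lit 0) (nat_lit 7628165439) (nat_lit 4) (nat_lit 5) (nat_lit 6) (nat_lit 4) (nat_lit 4) (nat_lit 4) (nat_lit 332) (nat_lit 242) (nat_lit 146)) (XT.nd (nat_lit 78) (nat_lit 0) (nat_lit 0) (XT.lf (nat_lit 0) (nat_lit 42379278793) (nat_lit 152) (nat_lit 69231211672) (nat_lit 0) (nat_lit 14734440247) (nat_lit 4) (nat_lit 5) (nat_lit 6) (nat_lit 4) (nat_lit 4) (nat_lit 4) (nat_lit 333) (nat_lit 242) (nat_lit 145)) (XT.lf (nat_lit 0) (nat_lit 49848059450) (nat_lit 152) (nat_lit 60280118074) (nat_lit 0) (nat_lit 22191529333) (nat_lit 4) (nat_lit 5) (nat_lit 6) (nat_lit 4) (nat_lit 4) (nat_lit 4) (nat_lit 334) (nat_lit 242) (nat_lit 144)))))) (XT.nd (nat_lit 312) (nat_lit 76) (nat_lit 0) (XT.nd (nat_lit 156) (nat_lit 0) (nat_lit 0) (XT.nd (nat_lit 78) (nat_lit 0) (nat_lit 0) (XT.lf (nat_lit 0) (nat_lit 57684852617) (nat_lit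 152) (nat_lit 50891457073) (nat_lit 0) (nat_lit 30017187673) (nat_lit 4) (nat_lit 5) (nat_lit 6) (nat_lit 4) (nat_lit 4) (nat_lit 4) (nat_lit 335) (nat_lit 242) (nat_lit 143)) (XT.lf (nat_lit 0) (nat_lit 65908317328) (nat_lit 152) (nat_lit 41042874713) (nat_lit 0) (nat_lit 38230047784) (nat_lit 4) (nat_lit 5) (nat_lit 6) (nat_lit 4) (nat_lit 4) (nat_lit 4) (nat_lit 336) (nat_lit 242) (nat_lit 142))) (XT.nd (nat_lit 78) (nat_lit 0) (nat_lit 0) (XT.lf (nat_lit 0) (nat_lit 74538033259) (nat_lit 152) (nat_lit 30710921990) (nat_lit 0) (nat_lit 46849664097) (nat_lit 4) (nat_lit 5) (nat_lit 6) (nat_lit 4) (nat_lit 4) (nat_lit 4) (nat_lit 337) (nat_lit 242) (nat_lit 141)) (XT.lf (nat_lit 0) (nat_lit 83594547352) (nat_lit 152) (nat_lit 19870999015) (nat_lit 0) (nat_lit 55896559507) (nat_lit 4) (nat_lit 5) (nat_lit 6) (nat_lit 4) (nat_lit 4) (nat_lit 4) (nat_lit 338) (nat_lit 242) (nat_lit 140))))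 (XT.nd (nat_lit 156) (nat_lit 0) (nat_lit 0) (XT.nd (nat_lit 78) (nat_lit 76) (nat_lit 0) (XT.lf (nat_lit 0) (nat_lit 93099422738) (nat_lit 152) (nat_lit 8497296449) (nat_lit 0) (nat_lit 65392274242) (nat_lit 4) (nat_lit 5) (nat_lit 6) (nat_lit 4) (nat_lit 4) (nat_lit 4) (nat_lit 339) (nat_lit 242) (nat_lit 139)) (XT.lf (nat_lit 0) (nat_lit 3550917488) (nat_lit 76) (nat_lit 99579812357) (nat_lit 76) (nat_lit 71863939431) (nat_lit 3) (nat_lit 4) (nat_lit 4) (nat_lit 5) (nat_lit 4) (nat_lit 4) (nat_lit 340) (nat_lit 242) (nat_lit 138))) (XT.nd (nat_lit 78) (nat_lit 0) (nat_lit 0) (XT.lf (nat_lit 0) (nat_lit 16488849990) (nat_lit 76) (nat_lit 97314488586) (nat_lit 76) (nat_lit 69590306679) (nat_lit 3) (nat_lit 4) (nat_lit 4) (nat_lit 5) (nat_lit 4) (nat_lit 4) (nat_lit 341) (nat_lit 242) (nat_lit 137)) (XT.nd (nat_lit 78) (nat_lit 0) (nat_lit 0) (XT.lf (nat_lit 0) (nat_lit 30066346662)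 (nat_lit 76) (nat_lit 94939260074) (nat_lit 76) (nat_lit 67207164852) (nat_lit 3) (nat_lit 4) (nat_lit 4) (nat_lit 5) (nat_lit 4) (nat_lit 4) (nat_lit 342) (nat_lit 242) (nat_lit 136)) (XT.lf (nat_lit 0) (nat_lit 44315734877) (nat_lit 76) (nat_lit 92448471515) (nat_lit 76) (nat_lit 64708839803) (nat_lit 3) (nat_lit 4) (nat_lit 4) (nat_lit 5) (nat_lit 4) (nat_lit 4) (nat_lit 343) (nat_lit 242) (nat_lit 135))))))) (XT.nd (nat_lit 702) (nat_lit 76) (nat_lit 0) (XT.nd (nat_lit 312) (nat_lit 0) (nat_lit 0) (XT.nd (nat_lit 156) (nat_lit 0) (nat_lit 0) (XT.nd (nat_lit 78) (nat_lit 0) (nat_lit 0) (XT.lf (nat_lit 0) (nat_lit 59270941749) (nat_lit 76) (nat_lit 89836192460) (nat_lit 76) (nat_lit 62089383138) (nat_lit 3) (nat_lit 4) (nat_lit 4) (nat_lit 5) (nat_lit 4) (nat_lit 4) (nat_lit 344) (nat_lit 242) (nat_lit 134)) (XT.lf (nat_lit 0) (nat_lit 74967574915) (nat_lit 76) (nat_lit 87096203197)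 (nat_lit 76) (nat_lit 59342558056) (nat_lit 3) (nat_lit 4) (nat_lit 4) (nat_lit 5) (nat_lit 4) (nat_lit 4) (nat_lit 345) (nat_lit 242) (nat_lit 133))) (XT.nd (nat_lit 78) (nat_lit 0) (nat_lit 0) (XT.lf (nat_lit 0) (nat_lit 91443007310) (nat_lit 76) (nat_lit 84221979942) (nat_lit 76) (nat_lit 56461824498) (nat_lit 3) (nat_lit 4) (nat_lit 4) (nat_lit 5) (nat_lit 4) (nat_lit 4) (nat_lit 346) (nat_lit 242) (nat_lit 132)) (XT.lf (nat_lit 0) (nat_lit 108736466154) (nat_lit 76) (nat_lit 81206679306) (nat_lit 76) (nat_lit 53440323573) (nat_lit 3) (nat_lit 4) (nat_lit 4) (nat_lit 5) (nat_lit 4) (nat_lit 4) (nat_lit 347) (nat_lit 242) (nat_lit 131)))) (XT.nd (nat_lit 156) (nat_lit 0) (nat_lit 0) (XT.nd (nat_lit 78) (nat_lit 0) (nat_lit 0) (XT.lf (nat_lit 0) (nat_lit 126889126349) (nat_lit 76) (nat_lit 78043122003) (nat_lit 76) (nat_lit 50270861232) (nat_lit 3) (nat_lit 4) (nat_lit 4) (nat_lit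 5) (nat_lit 4) (nat_lit 4) (nat_lit 348) (nat_lit 242) (nat_lit 130)) (XT.lf (nat_lit 0) (nat_lit 145944208515) (nat_lit 76) (nat_lit 74723775752) (nat_lit 76) (nat_lit 46945891136) (nat_lit 3) (nat_lit 4) (nat_lit 4) (nat_lit 5) (nat_lit 4) (nat_lit 4) (nat_lit 349) (nat_lit 242) (nat_lit 129))) (XT.nd (nat_lit 78) (nat_lit 0) (nat_lit 0) (XT.lf (nat_lit 0) (nat_lit 165947081894) (nat_lit 76) (nat_lit 71240737349) (nat_lit 76) (nat_lit 43457496690) (nat_lit 3) (nat_lit 4) (nat_lit 4) (nat_lit 5) (nat_lit 4) (nat_lit 4) (nat_lit 350) (nat_lit 242) (nat_lit 128)) (XT.nd (nat_lit 78) (nat_lit 0) (nat_lit 0) (XT.lf (nat_lit 0) (nat_lit 186945372377) (nat_lit 76) (nat_lit 67585713845) (nat_lit 76) (nat_lit 39797372192) (nat_lit 3) (nat_lit 4) (nat_lit 4) (nat_lit 5) (nat_lit 4) (nat_lit 4) (nat_lit 351) (nat_lit 242) (nat_lit 127)) (XT.lf (nat_lit 0) (nat_lit 208989075892) (nat_lit 76)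 (nat_lit 63750002802) (nat_lit 76) (nat_lit 35956803061) (nat_lit 3) (nat_lit 4) (nat_lit 4) (nat_lit 5) (nat_lit 4) (nat_lit 4) (nat_lit 352) (nat_lit 242) (nat_lit 126)))))) (XT.nd (nat_lit 312) (nat_lit 76) (nat_lit 0) (XT.nd (nat_lit 156) (nat_lit 0) (nat_lit 0) (XT.nd (nat_lit 78) (nat_lit 0) (nat_lit 0) (XT.lf (nat_lit 0) (nat_lit 232130677449) (nat_lit 76) (nat_lit 59724471576) (nat_lit 76) (nat_lit 31926645084) (nat_lit 3) (nat_lit 4) (nat_lit 4) (nat_lit 5) (nat_lit 4) (nat_lit 4) (nat_lit 353) (nat_lit 242) (nat_lit 125)) (XT.lf (nat_lit 0) (nat_lit 256425276097) (nat_lit 76) (nat_lit 55499535569) (nat_lit 76) (nat_lit 27697302647) (nat_lit 3) (nat_lit 4) (nat_lit 4) (nat_lit 5) (nat_lit 4) (nat_lit 4) (nat_lit 354) (nat_lit 242) (nat_lit 124))) (XT.nd (nat_lit 78) (nat_lit 0) (nat_lit 0) (XT.lf (nat_lit 0) (nat_lit 281930716121) (nat_lit 76) (nat_lit 51065135409) (nat_lit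 76) (nat_lit 23258705886) (nat_lit 3) (nat_lit 4) (nat_lit 4) (nat_lit 5) (nat_lit 4) (nat_lit 4) (nat_lit 355) (nat_lit 242) (nat_lit 123)) (XT.lf (nat_lit 0) (nat_lit 308707724758) (nat_lit 76) (nat_lit 46410713000) (nat_lit 76) (nat_lit 18600286716) (nat_lit 3) (nat_lit 4) (nat_lit 4) (nat_lit 5) (nat_lit 4) (nat_lit 4) (nat_lit 356) (nat_lit 242) (nat_lit 122)))) (XT.nd (nat_lit 156) (nat_lit 76) (nat_lit 0) (XT.nd (nat_lit 78) (nat_lit 0) (nat_lit 0) (XT.lf (nat_lit 0) (nat_lit 336820056790) (nat_lit 76) (nat_lit 41525186384) (nat_lit 76) (nat_lit 13710953660) (nat_lit 3) (nat_lit 4) (nat_lit 4) (nat_lit 5) (nat_lit 4) (nat_lit 4) (nat_lit 357) (nat_lit 242) (nat_lit 121)) (XT.lf (nat_lit 0) (nat_lit 366334646341) (nat_lit 76) (nat_lit 36396923355) (nat_lit 76) (nat_lit 8579065451) (nat_lit 3) (nat_lit 4) (nat_lit 4) (nat_lit 5) (nat_lit 4) (nat_lit 4) (nat_lit 358) (nat_lit 242)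 (nat_lit 120))) (XT.nd (nat_lit 78) (nat_lit 76) (nat_lit 0) (XT.lf (nat_lit 0) (nat_lit 397321766244) (nat_lit 76) (nat_lit 31013713764) (nat_lit 76) (nat_lit 3192403306) (nat_lit 3) (nat_lit 4) (nat_lit 4) (nat_lit 5) (nat_lit 4) (nat_lit 4) (nat_lit 359) (nat_lit 242) (nat_lit 119)) (XT.nd (nat_lit 78) (nat_lit 0) (nat_lit 0) (XT.lf (nat_lit 0) (nat_lit 2383063323) (nat_lit 152) (nat_lit 22939318789) (nat_lit 76) (nat_lit 427431773702) (nat_lit 2) (nat_lit 5) (nat_lit 4) (nat_lit 5) (nat_lit 3) (nat_lit 4) (nat_lit 360) (nat_lit 242) (nat_lit 118)) (XT.lf (nat_lit 0) (nat_lit 8128419225) (nat_lit 152) (nat_lit 11164470757) (nat_lit 76) (nat_lit 455746316283) (nat_lit 2) (nat_lit 5) (nat_lit 4) (nat_lit 5) (nat_lit 3) (nat_lit 4) (nat_lit 361) (nat_lit 242) (nat_lit 117))))))))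
noncomputable def xc119 : XT := (XT.nd (nat_lit 29562) (nat_lit 0) (nat_lit 2356) (XT.nd (nat_lit 28860) (nat_lit 0) (nat_lit 5320) (XT.nd (nat_lit 28470) (nat_lit 0) (nat_lit 8132) (XT.nd (nat_lit 28314) (nat_lit 0) (nat_lit 8512) (XT.nd (nat_lit 28236) (nat_lit 0) (nat_lit 8816) (XT.lf (nat_lit 0) (nat_lit 1235859976) (nat_lit 76) (nat_lit 12942955922) (nat_lit 152) (nat_lit 484258805772) (nat_lit 1) (nat_lit 5) (nat_lit 2) (nat_lit 5) (nat_lit 3) (nat_lit 4) (nat_lit 362) (nat_lit 242) (nat_lit 116)) (XT.lf (nat_lit 0) (nat_lit 673084571) (nat_lit 0) (nat_lit 673084571) (nat_lit 228) (nat_lit 1928741327) (nat_lit 117) (nat_lit 5) (nat_lit 117) (nat_lit 3) (nat_lit 120) (nat_lit 3) (nat_lit 243) (nat_lit 243) (nat_lit 234))) (XT.nd (nat_lit 78) (nat_lit 304) (nat_lit 0) (XT.lf (nat_lit 0) (nat_lit 4358572587) (nat_lit 0) (nat_lit 658500976) (nat_lit 228) (nat_lit 1573066369) (nat_lit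 117) (nat_lit 5) (nat_lit 117) (nat_lit 3) (nat_lit 120) (nat_lit 3) (nat_lit 244) (nat_lit 243) (nat_lit 233)) (XT.lf (nat_lit 0) (nat_lit 667002886) (nat_lit 304) (nat_lit 5816850599) (nat_lit 380) (nat_lit 155227627) (nat_lit 113) (nat_lit 5) (nat_lit 117) (nat_lit 5) (nat_lit 118) (nat_lit 5) (nat_lit 245) (nat_lit 243) (nat_lit 232)))) (XT.nd (nat_lit 156) (nat_lit 380) (nat_lit 0) (XT.nd (nat_lit 78) (nat_lit 0) (nat_lit 0) (XT.lf (nat_lit 0) (nat_lit 2874739121) (nat_lit 304) (nat_lit 2704823077) (nat_lit 380) (nat_lit 1114804158) (nat_lit 113) (nat_lit 5) (nat_lit 117) (nat_lit 5) (nat_lit 118) (nat_lit 5) (nat_lit 246) (nat_lit 243) (nat_lit 231)) (XT.lf (nat_lit 76) (nat_lit 497555481) (nat_lit 0) (nat_lit 4569095433) (nat_lit 380) (nat_lit 1692659175) (nat_lit 114) (nat_lit 5) (nat_lit 113) (nat_lit 5) (nat_lit 118) (nat_lit 5) (nat_lit 247) (nat_lit 243) (nat_lit 230)))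 (XT.nd (nat_lit 78) (nat_lit 0) (nat_lit 0) (XT.lf (nat_lit 0) (nat_lit 438414549) (nat_lit 380) (nat_lit 2965187656) (nat_lit 456) (nat_lit 3428253062) (nat_lit 108) (nat_lit 5) (nat_lit 113) (nat_lit 5) (nat_lit 114) (nat_lit 5) (nat_lit 248) (nat_lit 243) (nat_lit 229)) (XT.nd (nat_lit 78) (nat_lit 0) (nat_lit 0) (XT.lf (nat_lit 76) (nat_lit 400572113) (nat_lit 0) (nat_lit 2099604444) (nat_lit 456) (nat_lit 4412916961) (nat_lit 109) (nat_lit 5) (nat_lit 108) (nat_lit 5) (nat_lit 114) (nat_lit 5) (nat_lit 249) (nat_lit 243) (nat_lit 228)) (XT.lf (nat_lit 76) (nat_lit 3958158400) (nat_lit 0) (nat_lit 636573963) (nat_lit 456) (nat_lit 2407656212) (nat_lit 109) (nat_lit 5) (nat_lit 108) (nat_lit 5) (nat_lit 114) (nat_lit 5) (nat_lit 250) (nat_lit 243) (nat_lit 227)))))) (XT.nd (nat_lit 312) (nat_lit 1976) (nat_lit 0) (XT.nd (nat_lit 156) (nat_lit 456) (nat_lit 0) (XT.nd (nat_lit 78)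 (nat_lit 76) (nat_lit 0) (XT.lf (nat_lit 0) (nat_lit 517563477) (nat_lit 380) (nat_lit 6184417148) (nat_lit 456) (nat_lit 399226846) (nat_lit 104) (nat_lit 5) (nat_lit 109) (nat_lit 5) (nat_lit 110) (nat_lit 5) (nat_lit 251) (nat_lit 243) (nat_lit 226)) (XT.lf (nat_lit 0) (nat_lit 1605525594) (nat_lit 456) (nat_lit 2962454375) (nat_lit 76) (nat_lit 2638536527) (nat_lit 103) (nat_lit 5) (nat_lit 109) (nat_lit 5) (nat_lit 104) (nat_lit 5) (nat_lit 252) (nat_lit 243) (nat_lit 225))) (XT.nd (nat_lit 78) (nat_lit 0) (nat_lit 0) (XT.lf (nat_lit 0) (nat_lit 776948052) (nat_lit 456) (nat_lit 2825408850) (nat_lit 532) (nat_lit 3719538987) (nat_lit 97) (nat_lit 5) (nat_lit 103) (nat_lit 5) (nat_lit 104) (nat_lit 5) (nat_lit 253) (nat_lit 243) (nat_lit 224)) (XT.lf (nat_lit 0) (nat_lit 4726310348) (nat_lit 456) (nat_lit 919859903) (nat_lit 532) (nat_lit 1799893212) (nat_lit 97) (nat_lit 5) (nat_lit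 103) (nat_lit 5) (nat_lit 104) (nat_lit 5) (nat_lit 254) (nat_lit 243) (nat_lit 223)))) (XT.nd (nat_lit 156) (nat_lit 1368) (nat_lit 0) (XT.nd (nat_lit 78) (nat_lit 0) (nat_lit 0) (XT.lf (nat_lit 0) (nat_lit 145896319) (nat_lit 608) (nat_lit 6344454987) (nat_lit 76) (nat_lit 1089407639) (nat_lit 89) (nat_lit 5) (nat_lit 97) (nat_lit 5) (nat_lit 90) (nat_lit 5) (nat_lit 255) (nat_lit 243) (nat_lit 222)) (XT.lf (nat_lit 0) (nat_lit 2094126984) (nat_lit 608) (nat_lit 2364496419) (nat_lit 76) (nat_lit 3262083488) (nat_lit 89) (nat_lit 5) (nat_lit 97) (nat_lit 5) (nat_lit 90) (nat_lit 5) (nat_lit 256) (nat_lit 243) (nat_lit 221))) (XT.nd (nat_lit 78) (nat_lit 760) (nat_lit 0) (XT.lf (nat_lit 0) (nat_lit 1791950241) (nat_lit 608) (nat_lit 2284124666) (nat_lit 684) (nat_lit 3796121570) (nat_lit 81) (nat_lit 5) (nat_lit 89) (nat_lit 5) (nat_lit 90) (nat_lit 5) (nat_lit 257) (nat_lit 243) (nat_lit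 220)) (XT.nd (nat_lit 78) (nat_lit 760) (nat_lit 0) (XT.lf (nat_lit 0) (nat_lit 6109428871) (nat_lit 684) (nat_lit 1875043756) (nat_lit 76) (nat_lit 49467273) (nat_lit 81) (nat_lit 5) (nat_lit 90) (nat_lit 5) (nat_lit 82) (nat_lit 5) (nat_lit 258) (nat_lit 243) (nat_lit 219)) (XT.lf (nat_lit 0) (nat_lit 31345210) (nat_lit 760) (nat_lit 5701311023) (nat_lit 76) (nat_lit 2471751530) (nat_lit 71) (nat_lit 5) (nat_lit 81) (nat_lit 5) (nat_lit 72) (nat_lit 5) (nat_lit 259) (nat_lit 243) (nat_lit 218))))))) (XT.nd (nat_lit 702) (nat_lit 1292) (nat_lit 0) (XT.nd (nat_lit 312) (nat_lit 912) (nat_lit 0) (XT.nd (nat_lit 156) (nat_lit 380) (nat_lit 0) (XT.nd (nat_lit 78) (nat_lit 380) (nat_lit 0) (XT.lf (nat_lit 0) (nat_lit 1969618472) (nat_lit 760) (nat_lit 1329834244) (nat_lit 76) (nat_lit 5085158463) (nat_lit 71) (nat_lit 5) (nat_lit 81) (nat_lit 5) (nat_lit 72) (nat_lit 5) (nat_lit 260) (nat_lit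 243) (nat_lit 217)) (XT.lf (nat_lit 0) (nat_lit 3288128857) (nat_lit 380) (nat_lit 688989692) (nat_lit 456) (nat_lit 4598333085) (nat_lit 66) (nat_lit 5) (nat_lit 71) (nat_lit 5) (nat_lit 72) (nat_lit 5) (nat_lit 261) (nat_lit 243) (nat_lit 216))) (XT.nd (nat_lit 78) (nat_lit 380) (nat_lit 0) (XT.lf (nat_lit 0) (nat_lit 6063478820) (nat_lit 456) (nat_lit 704095792) (nat_lit 76) (nat_lit 2009566216) (nat_lit 66) (nat_lit 5) (nat_lit 72) (nat_lit 5) (nat_lit 67) (nat_lit 5) (nat_lit 262) (nat_lit 243) (nat_lit 215)) (XT.lf (nat_lit 0) (nat_lit 4153615368) (nat_lit 380) (nat_lit 4103883543) (nat_lit 456) (nat_lit 731468457) (nat_lit 61) (nat_lit 5) (nat_lit 66) (nat_lit 5) (nat_lit 67) (nat_lit 5) (nat_lit 263) (nat_lit 243) (nat_lit 214)))) (XT.nd (nat_lit 156) (nat_lit 532) (nat_lit 0) (XT.nd (nat_lit 78) (nat_lit 304) (nat_lit 0) (XT.lf (nat_lit 0) (nat_lit 1246884343) (nat_lit 456)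 (nat_lit 31071138) (nat_lit 76) (nat_lit 7935562908) (nat_lit 60) (nat_lit 5) (nat_lit 66) (nat_lit 5) (nat_lit 61) (nat_lit 5) (nat_lit 264) (nat_lit 243) (nat_lit 213)) (XT.lf (nat_lit 0) (nat_lit 3338390521) (nat_lit 380) (nat_lit 4385736796) (nat_lit 76) (nat_lit 1722819212) (nat_lit 56) (nat_lit 5) (nat_lit 61) (nat_lit 5) (nat_lit 57) (nat_lit 5) (nat_lit 265) (nat_lit 243) (nat_lit 212))) (XT.nd (nat_lit 78) (nat_lit 228) (nat_lit 0) (XT.lf (nat_lit 0) (nat_lit 640532595) (nat_lit 304) (nat_lit 4859002345) (nat_lit 380) (nat_lit 4194438963) (nat_lit 52) (nat_lit 5) (nat_lit 56) (nat_lit 5) (nat_lit 57) (nat_lit 5) (nat_lit 266) (nat_lit 243) (nat_lit 211)) (XT.nd (nat_lit 78) (nat_lit 228) (nat_lit 0) (XT.lf (nat_lit 0) (nat_lit 5995433601) (nat_lit 304) (nat_lit 1783147934) (nat_lit 380) (nat_lit 2174451221) (nat_lit 52) (nat_lit 5) (nat_lit 56) (nat_lit 5) (nat_lit 57) (nat_lit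 5) (nat_lit 267) (nat_lit 243) (nat_lit 210)) (XT.lf (nat_lit 0) (nat_lit 1338850978) (nat_lit 228) (nat_lit 8814698709) (nat_lit 304) (nat_lit 72560554) (nat_lit 49) (nat_lit 5) (nat_lit 52) (nat_lit 5) (nat_lit 53) (nat_lit 5) (nat_lit 268) (nat_lit 243) (nat_lit 209)))))) (XT.nd (nat_lit 390) (nat_lit 608) (nat_lit 0) (XT.nd (nat_lit 156) (nat_lit 304) (nat_lit 0) (XT.nd (nat_lit 78) (nat_lit 304) (nat_lit 0) (XT.lf (nat_lit 0) (nat_lit 2102601600) (nat_lit 304) (nat_lit 3611035176) (nat_lit 76) (nat_lit 4795862902) (nat_lit 48) (nat_lit 5) (nat_lit 52) (nat_lit 5) (nat_lit 49) (nat_lit 5) (nat_lit 269) (nat_lit 243) (nat_lit 208)) (XT.lf (nat_lit 0) (nat_lit 1917356790) (nat_lit 304) (nat_lit 2438697428) (nat_lit 380) (nat_lit 6452488148) (nat_lit 44) (nat_lit 5) (nat_lit 48) (nat_lit 5) (nat_lit 49) (nat_lit 5) (nat_lit 270) (nat_lit 243) (nat_lit 207))) (XT.nd (nat_lit 78) (nat_lit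 304) (nat_lit 0) (XT.lf (nat_lit 0) (nat_lit 6743417652) (nat_lit 380) (nat_lit 3361948366) (nat_lit 76) (nat_lit 1016244307) (nat_lit 44) (nat_lit 5) (nat_lit 49) (nat_lit 5) (nat_lit 45) (nat_lit 5) (nat_lit 271) (nat_lit 243) (nat_lit 206)) (XT.nd (nat_lit 78) (nat_lit 76) (nat_lit 0) (XT.lf (nat_lit 0) (nat_lit 2411046225) (nat_lit 228) (nat_lit 6862885243) (nat_lit 304) (nat_lit 2175339721) (nat_lit 41) (nat_lit 5) (nat_lit 44) (nat_lit 5) (nat_lit 45) (nat_lit 5) (nat_lit 272) (nat_lit 243) (nat_lit 205)) (XT.lf (nat_lit 0) (nat_lit 137793395) (nat_lit 304) (nat_lit 3274787962) (nat_lit 76) (nat_lit 8380515770) (nat_lit 40) (nat_lit 5) (nat_lit 44) (nat_lit 5) (nat_lit 41) (nat_lit 5) (nat_lit 273) (nat_lit 243) (nat_lit 204))))) (XT.nd (nat_lit 156) (nat_lit 380) (nat_lit 0) (XT.nd (nat_lit 78) (nat_lit 0) (nat_lit 0) (XT.lf (nat_lit 0) (nat_lit 2490134105) (nat_lit 304) (nat_lit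 9394854596) (nat_lit 76) (nat_lit 267620865) (nat_lit 37) (nat_lit 5) (nat_lit 41) (nat_lit 5) (nat_lit 38) (nat_lit 5) (nat_lit 274) (nat_lit 243) (nat_lit 203)) (XT.lf (nat_lit 0) (nat_lit 5022740884) (nat_lit 304) (nat_lit 3447070715) (nat_lit 76) (nat_lit 4057259392) (nat_lit 37) (nat_lit 5) (nat_lit 41) (nat_lit 5) (nat_lit 38) (nat_lit 5) (nat_lit 275) (nat_lit 243) (nat_lit 202))) (XT.nd (nat_lit 78) (nat_lit 228) (nat_lit 0) (XT.lf (nat_lit 0) (nat_lit 2823214032) (nat_lit 152) (nat_lit 4855542989) (nat_lit 228) (nat_lit 5241760288) (nat_lit 35) (nat_lit 5) (nat_lit 37) (nat_lit 5) (nat_lit 38) (nat_lit 5) (nat_lit 276) (nat_lit 243) (nat_lit 201)) (XT.nd (nat_lit 78) (nat_lit 228) (nat_lit 0) (XT.lf (nat_lit 0) (nat_lit 9462491122) (nat_lit 152) (nat_lit 1017411452) (nat_lit 228) (nat_lit 2853212914) (nat_lit 35) (nat_lit 5) (nat_lit 37) (nat_lit 5) (nat_lit 38) (nat_lit 5)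 (nat_lit 277) (nat_lit 243) (nat_lit 200)) (XT.lf (nat_lit 0) (nat_lit 2641751675) (nat_lit 228) (nat_lit 10823508202) (nat_lit 304) (nat_lit 298967380) (nat_lit 32) (nat_lit 5) (nat_lit 35) (nat_lit 5) (nat_lit 36) (nat_lit 5) (nat_lit 278) (nat_lit 243) (nat_lit 199))))))))
noncomputable def xc120 : XT := (XT.nd (nat_lit 1404) (nat_lit 684) (nat_lit 0) (XT.nd (nat_lit 702) (nat_lit 380) (nat_lit 0) (XT.nd (nat_lit 312) (nat_lit 380) (nat_lit 0) (XT.nd (nat_lit 156) (nat_lit 152) (nat_lit 0) (XT.nd (nat_lit 78) (nat_lit 152) (nat_lit 0) (XT.lf (nat_lit 0) (nat_lit 2346240052) (nat_lit 304) (nat_lit 4718115675) (nat_lit 76) (nat_lit 7148785527) (nat_lit 31) (nat_lit 5) (nat_lit 35) (nat_lit 5) (nat_lit 32) (nat_lit 5) (nat_lit 279) (nat_lit 243) (nat_lit 198)) (XT.lf (nat_lit 0) (nat_lit 2005102819) (nat_lit 152) (nat_lit 3098163828) (nat_lit 228) (nat_lit 9581587904) (nat_lit 29) (nat_lit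 5) (nat_lit 31) (nat_lit 5) (nat_lit 32) (nat_lit 5) (nat_lit 280) (nat_lit 243) (nat_lit 197))) (XT.nd (nat_lit 78) (nat_lit 152) (nat_lit 0) (XT.lf (nat_lit 0) (nat_lit 8055064799) (nat_lit 228) (nat_lit 6027298962) (nat_lit 76) (nat_lit 1095018939) (nat_lit 29) (nat_lit 5) (nat_lit 32) (nat_lit 5) (nat_lit 30) (nat_lit 5) (nat_lit 281) (nat_lit 243) (nat_lit 196)) (XT.lf (nat_lit 0) (nat_lit 876500581) (nat_lit 152) (nat_lit 10303434325) (nat_lit 228) (nat_lit 4513399867) (nat_lit 27) (nat_lit 5) (nat_lit 29) (nat_lit 5) (nat_lit 30) (nat_lit 5) (nat_lit 282) (nat_lit 243) (nat_lit 195)))) (XT.nd (nat_lit 156) (nat_lit 304) (nat_lit 0) (XT.nd (nat_lit 78) (nat_lit 76) (nat_lit 0) (XT.lf (nat_lit 0) (nat_lit 8277148718) (nat_lit 152) (nat_lit 6247940415) (nat_lit 228) (nat_lit 1706861494) (nat_lit 27) (nat_lit 5) (nat_lit 29) (nat_lit 5) (nat_lit 30) (nat_lit 5) (nat_lit 283) (nat_lit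 243) (nat_lit 194)) (XT.lf (nat_lit 0) (nat_lit 1163435785) (nat_lit 228) (nat_lit 825162185) (nat_lit 76) (nat_lit 14809837181) (nat_lit 26) (nat_lit 5) (nat_lit 29) (nat_lit 5) (nat_lit 27) (nat_lit 5) (nat_lit 284) (nat_lit 243) (nat_lit 193))) (XT.nd (nat_lit 78) (nat_lit 152) (nat_lit 0) (XT.lf (nat_lit 0) (nat_lit 4231573288) (nat_lit 228) (nat_lit 10631978139) (nat_lit 76) (nat_lit 2522767972) (nat_lit 24) (nat_lit 5) (nat_lit 27) (nat_lit 5) (nat_lit 25) (nat_lit 5) (nat_lit 285) (nat_lit 243) (nat_lit 192)) (XT.nd (nat_lit 78) (nat_lit 152) (nat_lit 0) (XT.lf (nat_lit 0) (nat_lit 7465362523) (nat_lit 228) (nat_lit 3348343067) (nat_lit 76) (nat_lit 7189336142) (nat_lit 24) (nat_lit 5) (nat_lit 27) (nat_lit 5) (nat_lit 25) (nat_lit 5) (nat_lit 286) (nat_lit 243) (nat_lit 191)) (XT.lf (nat_lit 0) (nat_lit 4388423554) (nat_lit 152) (nat_lit 6508020187) (nat_lit 228) (nat_lit 7752429757)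 (nat_lit 22) (nat_lit 5) (nat_lit 24) (nat_lit 5) (nat_lit 25) (nat_lit 5) (nat_lit 287) (nat_lit 243) (nat_lit 190)))))) (XT.nd (nat_lit 312) (nat_lit 228) (nat_lit 0) (XT.nd (nat_lit 156) (nat_lit 76) (nat_lit 0) (XT.nd (nat_lit 78) (nat_lit 76) (nat_lit 0) (XT.lf (nat_lit 0) (nat_lit 12577599014) (nat_lit 152) (nat_lit 1946048835) (nat_lit 228) (nat_lit 4802171458) (nat_lit 22) (nat_lit 5) (nat_lit 24) (nat_lit 5) (nat_lit 25) (nat_lit 5) (nat_lit 288) (nat_lit 243) (nat_lit 189)) (XT.lf (nat_lit 0) (nat_lit 1080225276) (nat_lit 76) (nat_lit 17282373055) (nat_lit 152) (nat_lit 1672543243) (nat_lit 21) (nat_lit 5) (nat_lit 22) (nat_lit 5) (nat_lit 23) (nat_lit 4) (nat_lit 289) (nat_lit 243) (nat_lit 188))) (XT.nd (nat_lit 78) (nat_lit 0) (nat_lit 0) (XT.lf (nat_lit 0) (nat_lit 1679270063) (nat_lit 152) (nat_lit 11348634267) (nat_lit 76) (nat_lit 7744942581) (nat_lit 20) (nat_lit 5)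 (nat_lit 22) (nat_lit 5) (nat_lit 21) (nat_lit 5) (nat_lit 290) (nat_lit 243) (nat_lit 187)) (XT.lf (nat_lit 0) (nat_lit 5113215665) (nat_lit 152) (nat_lit 3436910572) (nat_lit 76) (nat_lit 12997444714) (nat_lit 20) (nat_lit 5) (nat_lit 22) (nat_lit 5) (nat_lit 21) (nat_lit 5) (nat_lit 291) (nat_lit 243) (nat_lit 186)))) (XT.nd (nat_lit 156) (nat_lit 76) (nat_lit 0) (XT.nd (nat_lit 78) (nat_lit 0) (nat_lit 0) (XT.lf (nat_lit 0) (nat_lit 4984748391) (nat_lit 152) (nat_lit 3784078953) (nat_lit 228) (nat_lit 13589745289) (nat_lit 18) (nat_lit 5) (nat_lit 20) (nat_lit 5) (nat_lit 21) (nat_lit 5) (nat_lit 292) (nat_lit 243) (nat_lit 185)) (XT.lf (nat_lit 0) (nat_lit 12657937428) (nat_lit 228) (nat_lit 9326003183) (nat_lit 76) (nat_lit 1223685876) (nat_lit 18) (nat_lit 5) (nat_lit 21) (nat_lit 5) (nat_lit 19) (nat_lit 4) (nat_lit 293) (nat_lit 243) (nat_lit 184))) (XT.nd (nat_lit 78) (nat_lit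 76) (nat_lit 0) (XT.lf (nat_lit 0) (nat_lit 16777352373) (nat_lit 228) (nat_lit 981249068) (nat_lit 76) (nat_lit 6338775297) (nat_lit 18) (nat_lit 5) (nat_lit 21) (nat_lit 5) (nat_lit 19) (nat_lit 4) (nat_lit 294) (nat_lit 243) (nat_lit 183)) (XT.nd (nat_lit 78) (nat_lit 0) (nat_lit 0) (XT.lf (nat_lit 0) (nat_lit 7995285717) (nat_lit 76) (nat_lit 13207343333) (nat_lit 152) (nat_lit 3824025353) (nat_lit 17) (nat_lit 5) (nat_lit 18) (nat_lit 5) (nat_lit 19) (nat_lit 4) (nat_lit 295) (nat_lit 243) (nat_lit 182)) (XT.lf (nat_lit 0) (nat_lit 17414024917) (nat_lit 76) (nat_lit 8427376984) (nat_lit 152) (nat_lit 161415241) (nat_lit 17) (nat_lit 5) (nat_lit 18) (nat_lit 5) (nat_lit 19) (nat_lit 4) (nat_lit 296) (nat_lit 243) (nat_lit 181))))))) (XT.nd (nat_lit 702) (nat_lit 228) (nat_lit 0) (XT.nd (nat_lit 312) (nat_lit 228) (nat_lit 0) (XT.nd (nat_lit 156) (nat_lit 0) (nat_lit 0) (XT.nd (nat_lit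 78) (nat_lit 0) (nat_lit 0) (XT.lf (nat_lit 0) (nat_lit 184740512) (nat_lit 152) (nat_lit 3360912416) (nat_lit 228) (nat_lit 23480326268) (nat_lit 14) (nat_lit 5) (nat_lit 16) (nat_lit 5) (nat_lit 17) (nat_lit 5) (nat_lit 297) (nat_lit 243) (nat_lit 180)) (XT.lf (nat_lit 0) (nat_lit 7587708933) (nat_lit 228) (nat_lit 18473369497) (nat_lit 76) (nat_lit 2031364006) (nat_lit 14) (nat_lit 5) (nat_lit 17) (nat_lit 5) (nat_lit 15) (nat_lit 4) (nat_lit 298) (nat_lit 243) (nat_lit 179))) (XT.nd (nat_lit 78) (nat_lit 0) (nat_lit 0) (XT.lf (nat_lit 0) (nat_lit 11864712885) (nat_lit 228) (nat_lit 9780167650) (nat_lit 76) (nat_lit 7565733037) (nat_lit 14) (nat_lit 5) (nat_lit 17) (nat_lit 5) (nat_lit 15) (nat_lit 4) (nat_lit 299) (nat_lit 243) (nat_lit 178)) (XT.lf (nat_lit 0) (nat_lit 16334374867) (nat_lit 228) (nat_lit 688461783) (nat_lit 76) (nat_lit 13362941930) (nat_lit 14) (nat_lit 5) (nat_lit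 17) (nat_lit 5) (nat_lit 15) (nat_lit 4) (nat_lit 300) (nat_lit 243) (nat_lit 177)))) (XT.nd (nat_lit 156) (nat_lit 152) (nat_lit 0) (XT.nd (nat_lit 78) (nat_lit 0) (nat_lit 0) (XT.lf (nat_lit 0) (nat_lit 9115136308) (nat_lit 76) (nat_lit 12034513445) (nat_lit 152) (nat_lit 10463970079) (nat_lit 13) (nat_lit 5) (nat_lit 14) (nat_lit 5) (nat_lit 15) (nat_lit 4) (nat_lit 301) (nat_lit 243) (nat_lit 176)) (XT.lf (nat_lit 0) (nat_lit 19398937181) (nat_lit 76) (nat_lit 6798659769) (nat_lit 152) (nat_lit 6705684084) (nat_lit 13) (nat_lit 5) (nat_lit 14) (nat_lit 5) (nat_lit 15) (nat_lit 4) (nat_lit 302) (nat_lit 243) (nat_lit 175))) (XT.nd (nat_lit 78) (nat_lit 152) (nat_lit 0) (XT.lf (nat_lit 0) (nat_lit 30164662420) (nat_lit 76) (nat_lit 1314468737) (nat_lit 152) (nat_lit 2779256863) (nat_lit 13) (nat_lit 5) (nat_lit 14) (nat_lit 5) (nat_lit 15) (nat_lit 4) (nat_lit 303) (nat_lit 243) (nat_lit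 174)) (XT.nd (nat_lit 78) (nat_lit 0) (nat_lit 0) (XT.lf (nat_lit 0) (nat_lit 1445801987) (nat_lit 152) (nat_lit 29822821719) (nat_lit 76) (nat_lit 4404332488) (nat_lit 11) (nat_lit 5) (nat_lit 13) (nat_lit 5) (nat_lit 12) (nat_lit 4) (nat_lit 304) (nat_lit 243) (nat_lit 173)) (XT.lf (nat_lit 0) (nat_lit 5862681596) (nat_lit 152) (nat_lit 20821275328) (nat_lit 76) (nat_lit 10468338503) (nat_lit 11) (nat_lit 5) (nat_lit 13) (nat_lit 5) (nat_lit 12) (nat_lit 4) (nat_lit 305) (nat_lit 243) (nat_lit 172)))))) (XT.nd (nat_lit 312) (nat_lit 152) (nat_lit 0) (XT.nd (nat_lit 156) (nat_lit 76) (nat_lit 0) (XT.nd (nat_lit 78) (nat_lit 0) (nat_lit 0) (XT.lf (nat_lit 0) (nat_lit 10483219123) (nat_lit 152) (nat_lit 11399703689) (nat_lit 76) (nat_lit 16823556382) (nat_lit 11) (nat_lit 5) (nat_lit 13) (nat_lit 5) (nat_lit 12) (nat_lit 4) (nat_lit 306) (nat_lit 243) (nat_lit 171)) (XT.lf (nat_lit 0)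 (nat_lit 15318415849) (nat_lit 152) (nat_lit 1535674488) (nat_lit 76) (nat_lit 23485117594) (nat_lit 11) (nat_lit 5) (nat_lit 13) (nat_lit 5) (nat_lit 12) (nat_lit 4) (nat_lit 307) (nat_lit 243) (nat_lit 170))) (XT.nd (nat_lit 78) (nat_lit 0) (nat_lit 0) (XT.lf (nat_lit 0) (nat_lit 9085077266) (nat_lit 76) (nat_lit 11436550397) (nat_lit 152) (nat_lit 21525649252) (nat_lit 10) (nat_lit 5) (nat_lit 11) (nat_lit 5) (nat_lit 12) (nat_lit 4) (nat_lit 308) (nat_lit 243) (nat_lit 169)) (XT.lf (nat_lit 0) (nat_lit 20263363292) (nat_lit 76) (nat_lit 5732379490) (nat_lit 152) (nat_lit 17844485213) (nat_lit 10) (nat_lit 5) (nat_lit 11) (nat_lit 5) (nat_lit 12) (nat_lit 4) (nat_lit 309) (nat_lit 243) (nat_lit 168)))) (XT.nd (nat_lit 156) (nat_lit 152) (nat_lit 0) (XT.nd (nat_lit 78) (nat_lit 0) (nat_lit 0) (XT.lf (nat_lit 0) (nat_lit 31732866560) (nat_lit 152) (nat_lit 13752387019) (nat_lit 0)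 (nat_lit 238122933) (nat_lit 10) (nat_lit 5) (nat_lit 12) (nat_lit 4) (nat_lit 10) (nat_lit 4) (nat_lit 310) (nat_lit 243) (nat_lit 167)) (XT.lf (nat_lit 0) (nat_lit 37836810833) (nat_lit 152) (nat_lit 3555526999) (nat_lit 0) (nat_lit 6304360723) (nat_lit 10) (nat_lit 5) (nat_lit 12) (nat_lit 4) (nat_lit 10) (nat_lit 4) (nat_lit 311) (nat_lit 243) (nat_lit 166))) (XT.nd (nat_lit 78) (nat_lit 76) (nat_lit 0) (XT.lf (nat_lit 0) (nat_lit 7363159178) (nat_lit 76) (nat_lit 36984410662) (nat_lit 76) (nat_lit 5416049617) (nat_lit 9) (nat_lit 4) (nat_lit 10) (nat_lit 5) (nat_lit 10) (nat_lit 4) (nat_lit 312) (nat_lit 243) (nat_lit 165)) (XT.nd (nat_lit 78) (nat_lit 76) (nat_lit 0) (XT.lf (nat_lit 0) (nat_lit 18927917615) (nat_lit 76) (nat_lit 32303093252) (nat_lit 76) (nat_lit 700531316) (nat_lit 9) (nat_lit 4) (nat_lit 10) (nat_lit 5) (nat_lit 10) (nat_lit 4) (nat_lit 313) (nat_lit 243) (nat_lit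 164)) (XT.lf (nat_lit 0) (nat_lit 4102047805) (nat_lit 152) (nat_lit 23225936211) (nat_lit 76) (nat_lit 26877203698) (nat_lit 8) (nat_lit 5) (nat_lit 10) (nat_lit 5) (nat_lit 9) (nat_lit 4) (nat_lit 314) (nat_lit 243) (nat_lit 163))))))))
noncomputable def xc121 : XT := (XT.nd (nat_lit 1404) (nat_lit 76) (nat_lit 0) (XT.nd (nat_lit 702) (nat_lit 152) (nat_lit 0) (XT.nd (nat_lit 312) (nat_lit 76) (nat_lit 0) (XT.nd (nat_lit 156) (nat_lit 76) (nat_lit 0) (XT.nd (nat_lit 78) (nat_lit 0) (nat_lit 0) (XT.lf (nat_lit 0) (nat_lit 9109152359) (nat_lit 152) (nat_lit 12992393093) (nat_lit 76) (nat_lit 34491010134) (nat_lit 8) (nat_lit 5) (nat_lit 10) (nat_lit 5) (nat_lit 9) (nat_lit 4) (nat_lit 315) (nat_lit 243) (nat_lit 162)) (XT.lf (nat_lit 0) (nat_lit 14355125397) (nat_lit 152) (nat_lit 2267692378) (nat_lit 76) (nat_lit 42477059093) (nat_lit 8) (nat_lit 5) (nat_lit 10) (nat_lit 5) (nat_lit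 9) (nat_lit 4) (nat_lit 316) (nat_lit 243) (nat_lit 161))) (XT.nd (nat_lit 78) (nat_lit 0) (nat_lit 0) (XT.lf (nat_lit 0) (nat_lit 9270412012) (nat_lit 76) (nat_lit 10726782433) (nat_lit 152) (nat_lit 41728690076) (nat_lit 7) (nat_lit 5) (nat_lit 8) (nat_lit 5) (nat_lit 9) (nat_lit 4) (nat_lit 317) (nat_lit 243) (nat_lit 160)) (XT.lf (nat_lit 0) (nat_lit 21444923544) (nat_lit 76) (nat_lit 4504128865) (nat_lit 152) (nat_lit 38532765564) (nat_lit 7) (nat_lit 5) (nat_lit 8) (nat_lit 5) (nat_lit 9) (nat_lit 4) (nat_lit 318) (nat_lit 243) (nat_lit 159)))) (XT.nd (nat_lit 156) (nat_lit 76) (nat_lit 0) (XT.nd (nat_lit 78) (nat_lit 0) (nat_lit 0) (XT.lf (nat_lit 0) (nat_lit 32219856822) (nat_lit 152) (nat_lit 33197780883) (nat_lit 0) (nat_lit 1956851940) (nat_lit 7) (nat_lit 5) (nat_lit 9) (nat_lit 4) (nat_lit 7) (nat_lit 4) (nat_lit 319) (nat_lit 243) (nat_lit 158)) (XT.lf (nat_lit 0) (nat_lit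 38868196694) (nat_lit 152) (nat_lit 22958363931) (nat_lit 0) (nat_lit 8582043302) (nat_lit 7) (nat_lit 5) (nat_lit 9) (nat_lit 4) (nat_lit 7) (nat_lit 4) (nat_lit 320) (nat_lit 243) (nat_lit 157))) (XT.nd (nat_lit 78) (nat_lit 76) (nat_lit 0) (XT.lf (nat_lit 0) (nat_lit 45839579329) (nat_lit 152) (nat_lit 12223941937) (nat_lit 0) (nat_lit 15531379739) (nat_lit 7) (nat_lit 5) (nat_lit 9) (nat_lit 4) (nat_lit 7) (nat_lit 4) (nat_lit 321) (nat_lit 243) (nat_lit 156)) (XT.nd (nat_lit 78) (nat_lit 76) (nat_lit 0) (XT.lf (nat_lit 0) (nat_lit 53150603259) (nat_lit 152) (nat_lit 968956751) (nat_lit 0) (nat_lit 22821407289) (nat_lit 7) (nat_lit 5) (nat_lit 9) (nat_lit 4) (nat_lit 7) (nat_lit 4) (nat_lit 322) (nat_lit 243) (nat_lit 155)) (XT.lf (nat_lit 0) (nat_lit 11191589981) (nat_lit 76) (nat_lit 49801817786) (nat_lit 76) (nat_lit 19452625263) (nat_lit 6) (nat_lit 4) (nat_lit 7) (nat_lit 5)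 (nat_lit 7) (nat_lit 4) (nat_lit 323) (nat_lit 243) (nat_lit 154)))))) (XT.nd (nat_lit 312) (nat_lit 76) (nat_lit 0) (XT.nd (nat_lit 156) (nat_lit 76) (nat_lit 0) (XT.nd (nat_lit 78) (nat_lit 0) (nat_lit 0) (XT.lf (nat_lit 0) (nat_lit 23978663757) (nat_lit 76) (nat_lit 45257764301) (nat_lit 76) (nat_lit 14889527442) (nat_lit 6) (nat_lit 4) (nat_lit 7) (nat_lit 5) (nat_lit 7) (nat_lit 4) (nat_lit 324) (nat_lit 243) (nat_lit 153)) (XT.lf (nat_lit 0) (nat_lit 37390671905) (nat_lit 76) (nat_lit 40492990130) (nat_lit 76) (nat_lit 10106615809) (nat_lit 6) (nat_lit 4) (nat_lit 7) (nat_lit 5) (nat_lit 7) (nat_lit 4) (nat_lit 325) (nat_lit 243) (nat_lit 152))) (XT.nd (nat_lit 78) (nat_lit 76) (nat_lit 0) (XT.lf (nat_lit 0) (nat_lit 51459547778) (nat_lit 76) (nat_lit 35496150575) (nat_lit 76) (nat_lit 5092502479) (nat_lit 6) (nat_lit 4) (nat_lit 7) (nat_lit 5) (nat_lit 7) (nat_lit 4) (nat_lit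 326) (nat_lit 243) (nat_lit 151)) (XT.lf (nat_lit 0) (nat_lit 159477853) (nat_lit 152) (nat_lit 30093169710) (nat_lit 76) (nat_lit 66056610011) (nat_lit 5) (nat_lit 5) (nat_lit 7) (nat_lit 5) (nat_lit 6) (nat_lit 4) (nat_lit 327) (nat_lit 243) (nat_lit 150)))) (XT.nd (nat_lit 156) (nat_lit 76) (nat_lit 0) (XT.nd (nat_lit 78) (nat_lit 0) (nat_lit 0) (XT.lf (nat_lit 0) (nat_lit 5495941003) (nat_lit 152) (nat_lit 19169088074) (nat_lit 76) (nat_lit 76114518293) (nat_lit 5) (nat_lit 5) (nat_lit 7) (nat_lit 5) (nat_lit 6) (nat_lit 4) (nat_lit 328) (nat_lit 243) (nat_lit 149)) (XT.lf (nat_lit 0) (nat_lit 11092584718) (nat_lit 152) (nat_lit 7710890193) (nat_lit 76) (nat_lit 86670214269) (nat_lit 5) (nat_lit 5) (nat_lit 7) (nat_lit 5) (nat_lit 6) (nat_lit 4) (nat_lit 329) (nat_lit 243) (nat_lit 148))) (XT.nd (nat_lit 78) (nat_lit 0) (nat_lit 0) (XT.lf (nat_lit 0) (nat_lit 4451170613) (nat_lit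 76) (nat_lit 12581058975) (nat_lit 152) (nat_lit 93367155183) (nat_lit 4) (nat_lit 5) (nat_lit 5) (nat_lit 5) (nat_lit 6) (nat_lit 4) (nat_lit 330) (nat_lit 243) (nat_lit 147)) (XT.nd (nat_lit 78) (nat_lit 0) (nat_lit 0) (XT.lf (nat_lit 0) (nat_lit 17477712611) (nat_lit 76) (nat_lit 5915529880) (nat_lit 152) (nat_lit 92171908254) (nat_lit 4) (nat_lit 5) (nat_lit 5) (nat_lit 5) (nat_lit 6) (nat_lit 4) (nat_lit 331) (nat_lit 243) (nat_lit 146)) (XT.lf (nat_lit 0) (nat_lit 30083236269) (nat_lit 152) (nat_lit 89861547251) (nat_lit 0) (nat_lit 1043879647) (nat_lit 4) (nat_lit 5) (nat_lit 6) (nat_lit 4) (nat_lit 4) (nat_lit 4) (nat_lit 332) (nat_lit 243) (nat_lit 145))))))) (XT.nd (nat_lit 702) (nat_lit 0) (nat_lit 0) (XT.nd (nat_lit 312) (nat_lit 76) (nat_lit 0) (XT.nd (nat_lit 156) (nat_lit 0) (nat_lit 0) (XT.nd (nat_lit 78) (nat_lit 0) (nat_lit 0) (XT.lf (nat_lit 0) (nat_lit 37199007787)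 (nat_lit 152) (nat_lit 81331824363) (nat_lit 0) (nat_lit 8147959595) (nat_lit 4) (nat_lit 5) (nat_lit 6) (nat_lit 4) (nat_lit 4) (nat_lit 4) (nat_lit 333) (nat_lit 243) (nat_lit 144)) (XT.lf (nat_lit 0) (nat_lit 44665141360) (nat_lit 152) (nat_lit 72385602608) (nat_lit 0) (nat_lit 15602958339) (nat_lit 4) (nat_lit 5) (nat_lit 6) (nat_lit 4) (nat_lit 4) (nat_lit 4) (nat_lit 334) (nat_lit 243) (nat_lit 143))) (XT.nd (nat_lit 78) (nat_lit 0) (nat_lit 0) (XT.lf (nat_lit 0) (nat_lit 52499413496) (nat_lit 152) (nat_lit 63001581456) (nat_lit 0) (nat_lit 23426625876) (nat_lit 4) (nat_lit 5) (nat_lit 6) (nat_lit 4) (nat_lit 4) (nat_lit 4) (nat_lit 335) (nat_lit 243) (nat_lit 142)) (XT.lf (nat_lit 0) (nat_lit 60720477223) (nat_lit 152) (nat_lit 53157418001) (nat_lit 0) (nat_lit 31637589986) (nat_lit 4) (nat_lit 5) (nat_lit 6) (nat_lit 4) (nat_lit 4) (nat_lit 4) (nat_lit 336) (nat_lit 243) (nat_lit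 141)))) (XT.nd (nat_lit 156) (nat_lit 76) (nat_lit 0) (XT.nd (nat_lit 78) (nat_lit 0) (nat_lit 0) (XT.lf (nat_lit 0) (nat_lit 69347906504) (nat_lit 152) (nat_lit 42829673758) (nat_lit 0) (nat_lit 40255400583) (nat_lit 4) (nat_lit 5) (nat_lit 6) (nat_lit 4) (nat_lit 4) (nat_lit 4) (nat_lit 337) (nat_lit 243) (nat_lit 140)) (XT.lf (nat_lit 0) (nat_lit 78402242835) (nat_lit 152) (nat_lit 31993758860) (nat_lit 0) (nat_lit 49300576263) (nat_lit 4) (nat_lit 5) (nat_lit 6) (nat_lit 4) (nat_lit 4) (nat_lit 4) (nat_lit 338) (nat_lit 243) (nat_lit 139))) (XT.nd (nat_lit 78) (nat_lit 76) (nat_lit 0) (XT.lf (nat_lit 0) (nat_lit 87905044162) (nat_lit 152) (nat_lit 20623873509) (nat_lit 0) (nat_lit 58794653160) (nat_lit 4) (nat_lit 5) (nat_lit 6) (nat_lit 4) (nat_lit 4) (nat_lit 4) (nat_lit 339) (nat_lit 243) (nat_lit 138)) (XT.nd (nat_lit 78) (nat_lit 76) (nat_lit 0) (XT.lf (nat_lit 0) (nat_lit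 97878936201) (nat_lit 152) (nat_lit 8692946550) (nat_lit 0) (nat_lit 68760236218) (nat_lit 4) (nat_lit 5) (nat_lit 6) (nat_lit 4) (nat_lit 4) (nat_lit 4) (nat_lit 340) (nat_lit 243) (nat_lit 137)) (XT.lf (nat_lit 0) (nat_lit 3953981072) (nat_lit 76) (nat_lit 104455417967) (nat_lit 76) (nat_lit 75328804670) (nat_lit 3) (nat_lit 4) (nat_lit 4) (nat_lit 5) (nat_lit 4) (nat_lit 4) (nat_lit 341) (nat_lit 243) (nat_lit 136)))))) (XT.nd (nat_lit 312) (nat_lit 0) (nat_lit 0) (XT.nd (nat_lit 156) (nat_lit 0) (nat_lit 0) (XT.nd (nat_lit 78) (nat_lit 0) (nat_lit 0) (XT.lf (nat_lit 0) (nat_lit 17528071261) (nat_lit 76) (nat_lit 102081751103) (nat_lit 76) (nat_lit 72947601316) (nat_lit 3) (nat_lit 4) (nat_lit 4) (nat_lit 5) (nat_lit 4) (nat_lit 4) (nat_lit 342) (nat_lit 243) (nat_lit 135)) (XT.lf (nat_lit 0) (nat_lit 31774215206) (nat_lit 76) (nat_lit 99592449828) (nat_lit 76) (nat_lit 70451122431)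 (nat_lit 3) (nat_lit 4) (nat_lit 4) (nat_lit 5) (nat_lit 4) (nat_lit 4) (nat_lit 343) (nat_lit 243) (nat_lit 134))) (XT.nd (nat_lit 78) (nat_lit 0) (nat_lit 0) (XT.lf (nat_lit 0) (nat_lit 46726332297) (nat_lit 76) (nat_lit 96981587234) (nat_lit 76) (nat_lit 67833424018) (nat_lit 3) (nat_lit 4) (nat_lit 4) (nat_lit 5) (nat_lit 4) (nat_lit 4) (nat_lit 344) (nat_lit 243) (nat_lit 133)) (XT.lf (nat_lit 0) (nat_lit 62420022815) (nat_lit 76) (nat_lit 94242946982) (nat_lit 76) (nat_lit 65088273461) (nat_lit 3) (nat_lit 4) (nat_lit 4) (nat_lit 5) (nat_lit 4) (nat_lit 4) (nat_lit 345) (nat_lit 243) (nat_lit 132)))) (XT.nd (nat_lit 156) (nat_lit 0) (nat_lit 0) (XT.nd (nat_lit 78) (nat_lit 0) (nat_lit 0) (XT.lf (nat_lit 0) (nat_lit 78892652687) (nat_lit 76) (nat_lit 91370008498) (nat_lit 76) (nat_lit 62209134689) (nat_lit 3) (nat_lit 4) (nat_lit 4) (nat_lit 5) (nat_lit 4) (nat_lit 4) (nat_lit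 346) (nat_lit 243) (nat_lit 131)) (XT.lf (nat_lit 0) (nat_lit 96183442462) (nat_lit 76) (nat_lit 88355931455) (nat_lit 76) (nat_lit 59189152608) (nat_lit 3) (nat_lit 4) (nat_lit 4) (nat_lit 5) (nat_lit 4) (nat_lit 4) (nat_lit 347) (nat_lit 243) (nat_lit 130))) (XT.nd (nat_lit 78) (nat_lit 0) (nat_lit 0) (XT.lf (nat_lit 0) (nat_lit 114333560687) (nat_lit 76) (nat_lit 85193539477) (nat_lit 76) (nat_lit 56021136785) (nat_lit 3) (nat_lit 4) (nat_lit 4) (nat_lit 5) (nat_lit 4) (nat_lit 4) (nat_lit 348) (nat_lit 243) (nat_lit 129)) (XT.nd (nat_lit 78) (nat_lit 0) (nat_lit 0) (XT.lf (nat_lit 0) (nat_lit 133386221929) (nat_lit 76) (nat_lit 81875303061) (nat_lit 76) (nat_lit 52697544326) (nat_lit 3) (nat_lit 4) (nat_lit 4) (nat_lit 5) (nat_lit 4) (nat_lit 4) (nat_lit 349) (nat_lit 243) (nat_lit 128)) (XT.lf (nat_lit 0) (nat_lit 153386789666) (nat_lit 76) (nat_lit 78393321642) (nat_lit 76) (nat_lit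 49210461914) (nat_lit 3) (nat_lit 4) (nat_lit 4) (nat_lit 5) (nat_lit 4) (nat_lit 4) (nat_lit 350) (nat_lit 243) (nat_lit 127))))))))
noncomputable def xc122 : XT := (XT.nd (nat_lit 29640) (nat_lit 0) (nat_lit 3800) (XT.nd (nat_lit 702) (nat_lit 76) (nat_lit 0) (XT.nd (nat_lit 312) (nat_lit 0) (nat_lit 0) (XT.nd (nat_lit 156) (nat_lit 0) (nat_lit 0) (XT.nd (nat_lit 78) (nat_lit 0) (nat_lit 0) (XT.lf (nat_lit 0) (nat_lit 174382884300) (nat_lit 76) (nat_lit 74739304790) (nat_lit 76) (nat_lit 45551586973) (nat_lit 3) (nat_lit 4) (nat_lit 4) (nat_lit 5) (nat_lit 4) (nat_lit 4) (nat_lit 351) (nat_lit 243) (nat_lit 126)) (XT.lf (nat_lit 0) (nat_lit 196424496530) (nat_lit 76) (nat_lit 70904552464) (nat_lit 76) (nat_lit 41712207896) (nat_lit 3) (nat_lit 4) (nat_lit 4) (nat_lit 5) (nat_lit 4) (nat_lit 4) (nat_lit 352) (nat_lit 243) (nat_lit 125))) (XT.nd (nat_lit 78) (nat_lit 0) (nat_lit 0)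 (XT.lf (nat_lit 0) (nat_lit 219564106386) (nat_lit 76) (nat_lit 66879934302) (nat_lit 76) (nat_lit 37683183303) (nat_lit 3) (nat_lit 4) (nat_lit 4) (nat_lit 5) (nat_lit 4) (nat_lit 4) (nat_lit 353) (nat_lit 243) (nat_lit 124)) (XT.lf (nat_lit 0) (nat_lit 243856808177) (nat_lit 76) (nat_lit 62655867878) (nat_lit 76) (nat_lit 33454920280) (nat_lit 3) (nat_lit 4) (nat_lit 4) (nat_lit 5) (nat_lit 4) (nat_lit 4) (nat_lit 354) (nat_lit 243) (nat_lit 123)))) (XT.nd (nat_lit 156) (nat_lit 0) (nat_lit 0) (XT.nd (nat_lit 78) (nat_lit 0) (nat_lit 0) (XT.lf (nat_lit 0) (nat_lit 269360441670) (nat_lit 76) (nat_lit 58222295893) (nat_lit 76) (nat_lit 29017351534) (nat_lit 3) (nat_lit 4) (nat_lit 4) (nat_lit 5) (nat_lit 4) (nat_lit 4) (nat_lit 355) (nat_lit 243) (nat_lit 122)) (XT.lf (nat_lit 0) (nat_lit 296135729801) (nat_lit 76) (nat_lit 53568662223) (nat_lit 76) (nat_lit 24359911423) (nat_lit 3)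 (nat_lit 4) (nat_lit 4) (nat_lit 5) (nat_lit 4) (nat_lit 4) (nat_lit 356) (nat_lit 243) (nat_lit 121))) (XT.nd (nat_lit 78) (nat_lit 0) (nat_lit 0) (XT.lf (nat_lit 0) (nat_lit 324246423257) (nat_lit 76) (nat_lit 48683886787) (nat_lit 76) (nat_lit 19471510806) (nat_lit 3) (nat_lit 4) (nat_lit 4) (nat_lit 5) (nat_lit 4) (nat_lit 4) (nat_lit 357) (nat_lit 243) (nat_lit 120)) (XT.nd (nat_lit 78) (nat_lit 0) (nat_lit 0) (XT.lf (nat_lit 0) (nat_lit 353759452259) (nat_lit 76) (nat_lit 43556339167) (nat_lit 76) (nat_lit 14340510634) (nat_lit 3) (nat_lit 4) (nat_lit 4) (nat_lit 5) (nat_lit 4) (nat_lit 4) (nat_lit 358) (nat_lit 243) (nat_lit 119)) (XT.lf (nat_lit 0) (nat_lit 384745085925) (nat_lit 76) (nat_lit 38173810917) (nat_lit 76) (nat_lit 8954694238) (nat_lit 3) (nat_lit 4) (nat_lit 4) (nat_lit 5) (nat_lit 4) (nat_lit 4) (nat_lit 359) (nat_lit 243) (nat_lit 118)))))) (XT.nd (nat_lit 28548)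 (nat_lit 0) (nat_lit 7980) (XT.nd (nat_lit 156) (nat_lit 0) (nat_lit 0) (XT.nd (nat_lit 78) (nat_lit 76) (nat_lit 0) (XT.lf (nat_lit 0) (nat_lit 417277099572) (nat_lit 76) (nat_lit 32523486494) (nat_lit 76) (nat_lit 3301238247) (nat_lit 3) (nat_lit 4) (nat_lit 4) (nat_lit 5) (nat_lit 4) (nat_lit 4) (nat_lit 360) (nat_lit 243) (nat_lit 117)) (XT.lf (nat_lit 0) (nat_lit 2549035327) (nat_lit 152) (nat_lit 23999708269) (nat_lit 76) (nat_lit 448840745902) (nat_lit 2) (nat_lit 5) (nat_lit 4) (nat_lit 5) (nat_lit 3) (nat_lit 4) (nat_lit 361) (nat_lit 243) (nat_lit 116))) (XT.nd (nat_lit 28314) (nat_lit 0) (nat_lit 8360) (XT.lf (nat_lit 0) (nat_lit 8579429556) (nat_lit 152) (nat_lit 11640240524) (nat_lit 76) (nat_lit 478569235445) (nat_lit 2) (nat_lit 5) (nat_lit 4) (nat_lit 5) (nat_lit 3) (nat_lit 4) (nat_lit 362) (nat_lit 243) (nat_lit 115)) (XT.lf (nat_lit 0) (nat_lit 308309073) (nat_lit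 380) (nat_lit 1504299393) (nat_lit 380) (nat_lit 1504299393) (nat_lit 112) (nat_lit 3) (nat_lit 117) (nat_lit 3) (nat_lit 117) (nat_lit 5) (nat_lit 244) (nat_lit 244) (nat_lit 232)))) (XT.nd (nat_lit 156) (nat_lit 380) (nat_lit 0) (XT.nd (nat_lit 78) (nat_lit 0) (nat_lit 0) (XT.lf (nat_lit 0) (nat_lit 2722420154) (nat_lit 380) (nat_lit 39264236) (nat_lit 380) (nat_lit 3924339427) (nat_lit 112) (nat_lit 3) (nat_lit 117) (nat_lit 3) (nat_lit 117) (nat_lit 5) (nat_lit 245) (nat_lit 244) (nat_lit 231)) (XT.lf (nat_lit 76) (nat_lit 3107452398) (nat_lit 0) (nat_lit 1740765055) (nat_lit 380) (nat_lit 1897473269) (nat_lit 113) (nat_lit 5) (nat_lit 112) (nat_lit 3) (nat_lit 117) (nat_lit 5) (nat_lit 246) (nat_lit 244) (nat_lit 230))) (XT.nd (nat_lit 78) (nat_lit 0) (nat_lit 76) (XT.lf (nat_lit 0) (nat_lit 132767456) (nat_lit 380) (nat_lit 473967847) (nat_lit 456) (nat_lit 6208447346) (nat_lit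 107) (nat_lit 5) (nat_lit 112) (nat_lit 3) (nat_lit 113) (nat_lit 5) (nat_lit 247) (nat_lit 244) (nat_lit 229)) (XT.nd (nat_lit 78) (nat_lit 0) (nat_lit 0) (XT.lf (nat_lit 0) (nat_lit 2131332465) (nat_lit 380) (nat_lit 4064835961) (nat_lit 456) (nat_lit 694400643) (nat_lit 108) (nat_lit 5) (nat_lit 113) (nat_lit 5) (nat_lit 114) (nat_lit 5) (nat_lit 248) (nat_lit 244) (nat_lit 228)) (XT.lf (nat_lit 0) (nat_lit 4128659231) (nat_lit 380) (nat_lit 749391927) (nat_lit 456) (nat_lit 2097212158) (nat_lit 108) (nat_lit 5) (nat_lit 113) (nat_lit 5) (nat_lit 114) (nat_lit 5) (nat_lit 249) (nat_lit 244) (nat_lit 227))))))) (XT.nd (nat_lit 702) (nat_lit 2204) (nat_lit 0) (XT.nd (nat_lit 312) (nat_lit 1596) (nat_lit 0) (XT.nd (nat_lit 156) (nat_lit 0) (nat_lit 0) (XT.nd (nat_lit 78) (nat_lit 456) (nat_lit 0) (XT.lf (nat_lit 76) (nat_lit 2746525909) (nat_lit 0) (nat_lit 3408615547) (nat_lit 456)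 (nat_lit 913043679) (nat_lit 109) (nat_lit 5) (nat_lit 108) (nat_lit 5) (nat_lit 114) (nat_lit 5) (nat_lit 250) (nat_lit 244) (nat_lit 226)) (XT.lf (nat_lit 0) (nat_lit 982816186) (nat_lit 456) (nat_lit 815638084) (nat_lit 532) (nat_lit 5371772514) (nat_lit 102) (nat_lit 5) (nat_lit 108) (nat_lit 5) (nat_lit 109) (nat_lit 5) (nat_lit 251) (nat_lit 244) (nat_lit 225))) (XT.nd (nat_lit 78) (nat_lit 0) (nat_lit 76) (XT.lf (nat_lit 76) (nat_lit 2870075730) (nat_lit 0) (nat_lit 11308775) (nat_lit 532) (nat_lit 4398702676) (nat_lit 103) (nat_lit 5) (nat_lit 102) (nat_lit 5) (nat_lit 109) (nat_lit 5) (nat_lit 252) (nat_lit 244) (nat_lit 224)) (XT.lf (nat_lit 0) (nat_lit 4816258534) (nat_lit 456) (nat_lit 733008901) (nat_lit 76) (nat_lit 1849480533) (nat_lit 103) (nat_lit 5) (nat_lit 109) (nat_lit 5) (nat_lit 104) (nat_lit 5) (nat_lit 253) (nat_lit 244) (nat_lit 223)))) (XT.nd (nat_lit 156)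 (nat_lit 1140) (nat_lit 0) (XT.nd (nat_lit 78) (nat_lit 76) (nat_lit 0) (XT.lf (nat_lit 0) (nat_lit 3155015773) (nat_lit 456) (nat_lit 3645368055) (nat_lit 532) (nat_lit 725690907) (nat_lit 97) (nat_lit 5) (nat_lit 103) (nat_lit 5) (nat_lit 104) (nat_lit 5) (nat_lit 254) (nat_lit 244) (nat_lit 222)) (XT.lf (nat_lit 0) (nat_lit 1102077264) (nat_lit 532) (nat_lit 491481672) (nat_lit 76) (nat_lit 6069713264) (nat_lit 96) (nat_lit 5) (nat_lit 103) (nat_lit 5) (nat_lit 97) (nat_lit 5) (nat_lit 255) (nat_lit 244) (nat_lit 221))) (XT.nd (nat_lit 78) (nat_lit 608) (nat_lit 0) (XT.lf (nat_lit 0) (nat_lit 2972653058) (nat_lit 608) (nat_lit 4205390164) (nat_lit 76) (nat_lit 630210657) (nat_lit 89) (nat_lit 5) (nat_lit 97) (nat_lit 5) (nat_lit 90) (nat_lit 5) (nat_lit 256) (nat_lit 244) (nat_lit 220)) (XT.nd (nat_lit 78) (nat_lit 608) (nat_lit 0) (XT.lf (nat_lit 0) (nat_lit 4884035165) (nat_lit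 608) (nat_lit 143399743) (nat_lit 76) (nat_lit 2935980648) (nat_lit 89) (nat_lit 5) (nat_lit 97) (nat_lit 5) (nat_lit 90) (nat_lit 5) (nat_lit 257) (nat_lit 244) (nat_lit 219)) (XT.lf (nat_lit 0) (nat_lit 4183138258) (nat_lit 608) (nat_lit 2690009749) (nat_lit 684) (nat_lit 1254359980) (nat_lit 81) (nat_lit 5) (nat_lit 89) (nat_lit 5) (nat_lit 90) (nat_lit 5) (nat_lit 258) (nat_lit 244) (nat_lit 218)))))) (XT.nd (nat_lit 312) (nat_lit 1064) (nat_lit 0) (XT.nd (nat_lit 156) (nat_lit 380) (nat_lit 0) (XT.nd (nat_lit 78) (nat_lit 0) (nat_lit 0) (XT.lf (nat_lit 0) (nat_lit 358155144) (nat_lit 684) (nat_lit 208753779) (nat_lit 760) (nat_lit 7736324915) (nat_lit 71) (nat_lit 5) (nat_lit 80) (nat_lit 5) (nat_lit 81) (nat_lit 5) (nat_lit 259) (nat_lit 244) (nat_lit 217)) (XT.lf (nat_lit 0) (nat_lit 2463374781) (nat_lit 760) (nat_lit 3608063745) (nat_lit 76) (nat_lit 2414207404) (nat_lit 71)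 (nat_lit 5) (nat_lit 81) (nat_lit 5) (nat_lit 72) (nat_lit 5) (nat_lit 260) (nat_lit 244) (nat_lit 216))) (XT.nd (nat_lit 78) (nat_lit 0) (nat_lit 0) (XT.lf (nat_lit 0) (nat_lit 897458145) (nat_lit 380) (nat_lit 3499379097) (nat_lit 456) (nat_lit 4283463694) (nat_lit 66) (nat_lit 5) (nat_lit 71) (nat_lit 5) (nat_lit 72) (nat_lit 5) (nat_lit 261) (nat_lit 244) (nat_lit 215)) (XT.lf (nat_lit 0) (nat_lit 5681061914) (nat_lit 380) (nat_lit 734207071) (nat_lit 456) (nat_lit 2470224878) (nat_lit 66) (nat_lit 5) (nat_lit 71) (nat_lit 5) (nat_lit 72) (nat_lit 5) (nat_lit 262) (nat_lit 244) (nat_lit 214)))) (XT.nd (nat_lit 156) (nat_lit 608) (nat_lit 0) (XT.nd (nat_lit 78) (nat_lit 76) (nat_lit 0) (XT.lf (nat_lit 0) (nat_lit 1545818191) (nat_lit 380) (nat_lit 6977470449) (nat_lit 456) (nat_lit 578433980) (nat_lit 61) (nat_lit 5) (nat_lit 66) (nat_lit 5) (nat_lit 67) (nat_lit 5) (nat_lit 263)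 (nat_lit 244) (nat_lit 213)) (XT.lf (nat_lit 0) (nat_lit 1361633086) (nat_lit 456) (nat_lit 2790095854) (nat_lit 76) (nat_lit 5176187315) (nat_lit 60) (nat_lit 5) (nat_lit 66) (nat_lit 5) (nat_lit 61) (nat_lit 5) (nat_lit 264) (nat_lit 244) (nat_lit 212))) (XT.nd (nat_lit 78) (nat_lit 304) (nat_lit 0) (XT.lf (nat_lit 0) (nat_lit 2204634972) (nat_lit 304) (nat_lit 1143864432) (nat_lit 380) (nat_lit 6218165264) (nat_lit 56) (nat_lit 5) (nat_lit 60) (nat_lit 5) (nat_lit 61) (nat_lit 5) (nat_lit 265) (nat_lit 244) (nat_lit 211)) (XT.nd (nat_lit 78) (nat_lit 304) (nat_lit 0) (XT.lf (nat_lit 0) (nat_lit 5450926082) (nat_lit 380) (nat_lit 2373790729) (nat_lit 76) (nat_lit 1991995196) (nat_lit 56) (nat_lit 5) (nat_lit 61) (nat_lit 5) (nat_lit 57) (nat_lit 5) (nat_lit 266) (nat_lit 244) (nat_lit 210)) (XT.lf (nat_lit 0) (nat_lit 2867804504) (nat_lit 304) (nat_lit 4793948766) (nat_lit 380) (nat_lit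 2417508634) (nat_lit 52) (nat_lit 5) (nat_lit 56) (nat_lit 5) (nat_lit 57) (nat_lit 5) (nat_lit 267) (nat_lit 244) (nat_lit 209))))))))
noncomputable def xc123 : XT := (XT.nd (nat_lit 1404) (nat_lit 836) (nat_lit 0) (XT.nd (nat_lit 702) (nat_lit 988) (nat_lit 0) (XT.nd (nat_lit 312) (nat_lit 532) (nat_lit 0) (XT.nd (nat_lit 156) (nat_lit 304) (nat_lit 0) (XT.nd (nat_lit 78) (nat_lit 304) (nat_lit 0) (XT.lf (nat_lit 0) (nat_lit 8385915070) (nat_lit 304) (nat_lit 1578968477) (nat_lit 380) (nat_lit 391123994) (nat_lit 52) (nat_lit 5) (nat_lit 56) (nat_lit 5) (nat_lit 57) (nat_lit 5) (nat_lit 268) (nat_lit 244) (nat_lit 208)) (XT.lf (nat_lit 0) (nat_lit 1709010118) (nat_lit 304) (nat_lit 7121492894) (nat_lit 76) (nat_lit 1813473023) (nat_lit 48) (nat_lit 5) (nat_lit 52) (nat_lit 5) (nat_lit 49) (nat_lit 5) (nat_lit 269) (nat_lit 244) (nat_lit 207))) (XT.nd (nat_lit 78) (nat_lit 304) (nat_lit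 0) (XT.lf (nat_lit 0) (nat_lit 3905598528) (nat_lit 304) (nat_lit 1687834730) (nat_lit 76) (nat_lit 5352494553) (nat_lit 48) (nat_lit 5) (nat_lit 52) (nat_lit 5) (nat_lit 49) (nat_lit 5) (nat_lit 270) (nat_lit 244) (nat_lit 206)) (XT.lf (nat_lit 0) (nat_lit 4083045347) (nat_lit 304) (nat_lit 2140143329) (nat_lit 380) (nat_lit 5039358498) (nat_lit 44) (nat_lit 5) (nat_lit 48) (nat_lit 5) (nat_lit 49) (nat_lit 5) (nat_lit 271) (nat_lit 244) (nat_lit 205)))) (XT.nd (nat_lit 156) (nat_lit 304) (nat_lit 0) (XT.nd (nat_lit 78) (nat_lit 228) (nat_lit 0) (XT.lf (nat_lit 0) (nat_lit 8657633067) (nat_lit 380) (nat_lit 1482733388) (nat_lit 76) (nat_lit 1454704805) (nat_lit 44) (nat_lit 5) (nat_lit 49) (nat_lit 5) (nat_lit 45) (nat_lit 5) (nat_lit 272) (nat_lit 244) (nat_lit 204)) (XT.lf (nat_lit 0) (nat_lit 4545889765) (nat_lit 228) (nat_lit 6725134181) (nat_lit 304) (nat_lit 670453051) (nat_lit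 41) (nat_lit 5) (nat_lit 44) (nat_lit 5) (nat_lit 45) (nat_lit 5) (nat_lit 273) (nat_lit 244) (nat_lit 203))) (XT.nd (nat_lit 78) (nat_lit 228) (nat_lit 0) (XT.lf (nat_lit 0) (nat_lit 1632308457) (nat_lit 304) (nat_lit 1467712765) (nat_lit 76) (nat_lit 9205095108) (nat_lit 40) (nat_lit 5) (nat_lit 44) (nat_lit 5) (nat_lit 41) (nat_lit 5) (nat_lit 274) (nat_lit 244) (nat_lit 202)) (XT.nd (nat_lit 78) (nat_lit 0) (nat_lit 0) (XT.lf (nat_lit 0) (nat_lit 4069381540) (nat_lit 304) (nat_lit 7857798656) (nat_lit 76) (nat_lit 757223400) (nat_lit 37) (nat_lit 5) (nat_lit 41) (nat_lit 5) (nat_lit 38) (nat_lit 5) (nat_lit 275) (nat_lit 244) (nat_lit 201)) (XT.lf (nat_lit 0) (nat_lit 6659345290) (nat_lit 304) (nat_lit 1708187423) (nat_lit 76) (nat_lit 4713666639) (nat_lit 37) (nat_lit 5) (nat_lit 41) (nat_lit 5) (nat_lit 38) (nat_lit 5) (nat_lit 276) (nat_lit 244) (nat_lit 200)))))) (XT.nd (nat_lit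 312) (nat_lit 532) (nat_lit 0) (XT.nd (nat_lit 156) (nat_lit 304) (nat_lit 0) (XT.nd (nat_lit 78) (nat_lit 0) (nat_lit 0) (XT.lf (nat_lit 0) (nat_lit 4844785161) (nat_lit 152) (nat_lit 4566760913) (nat_lit 228) (nat_lit 4084743282) (nat_lit 35) (nat_lit 5) (nat_lit 37) (nat_lit 5) (nat_lit 38) (nat_lit 5) (nat_lit 277) (nat_lit 244) (nat_lit 199)) (XT.lf (nat_lit 0) (nat_lit 11726482753) (nat_lit 152) (nat_lit 562035142) (nat_lit 228) (nat_lit 1644344969) (nat_lit 35) (nat_lit 5) (nat_lit 37) (nat_lit 5) (nat_lit 38) (nat_lit 5) (nat_lit 278) (nat_lit 244) (nat_lit 198))) (XT.nd (nat_lit 78) (nat_lit 0) (nat_lit 0) (XT.lf (nat_lit 0) (nat_lit 978636756) (nat_lit 304) (nat_lit 9808829469) (nat_lit 76) (nat_lit 3598663717) (nat_lit 31) (nat_lit 5) (nat_lit 35) (nat_lit 5) (nat_lit 32) (nat_lit 5) (nat_lit 279) (nat_lit 244) (nat_lit 197)) (XT.lf (nat_lit 0) (nat_lit 3684985618) (nat_lit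 304) (nat_lit 3177955946) (nat_lit 76) (nat_lit 7997472245) (nat_lit 31) (nat_lit 5) (nat_lit 35) (nat_lit 5) (nat_lit 32) (nat_lit 5) (nat_lit 280) (nat_lit 244) (nat_lit 196)))) (XT.nd (nat_lit 156) (nat_lit 380) (nat_lit 0) (XT.nd (nat_lit 78) (nat_lit 0) (nat_lit 0) (XT.lf (nat_lit 0) (nat_lit 3852777254) (nat_lit 152) (nat_lit 2696204898) (nat_lit 228) (nat_lit 8808384824) (nat_lit 29) (nat_lit 5) (nat_lit 31) (nat_lit 5) (nat_lit 32) (nat_lit 5) (nat_lit 281) (nat_lit 244) (nat_lit 195)) (XT.lf (nat_lit 0) (nat_lit 9599957495) (nat_lit 228) (nat_lit 4613944538) (nat_lit 76) (nat_lit 1663145025) (nat_lit 29) (nat_lit 5) (nat_lit 32) (nat_lit 5) (nat_lit 30) (nat_lit 5) (nat_lit 282) (nat_lit 244) (nat_lit 194))) (XT.nd (nat_lit 78) (nat_lit 228) (nat_lit 0) (XT.lf (nat_lit 0) (nat_lit 2607388218) (nat_lit 152) (nat_lit 10245635072) (nat_lit 228) (nat_lit 3567275731) (nat_lit 27)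 (nat_lit 5) (nat_lit 29) (nat_lit 5) (nat_lit 30) (nat_lit 5) (nat_lit 283) (nat_lit 244) (nat_lit 193)) (XT.nd (nat_lit 78) (nat_lit 228) (nat_lit 0) (XT.lf (nat_lit 0) (nat_lit 10297732448) (nat_lit 152) (nat_lit 6014650798) (nat_lit 228) (nat_lit 676210160) (nat_lit 27) (nat_lit 5) (nat_lit 29) (nat_lit 5) (nat_lit 30) (nat_lit 5) (nat_lit 284) (nat_lit 244) (nat_lit 192)) (XT.lf (nat_lit 0) (nat_lit 722668905) (nat_lit 152) (nat_lit 1539055477) (nat_lit 228) (nat_lit 15322900817) (nat_lit 24) (nat_lit 5) (nat_lit 26) (nat_lit 5) (nat_lit 27) (nat_lit 5) (nat_lit 285) (nat_lit 244) (nat_lit 191))))))) (XT.nd (nat_lit 702) (nat_lit 380) (nat_lit 0) (XT.nd (nat_lit 312) (nat_lit 304) (nat_lit 0) (XT.nd (nat_lit 156) (nat_lit 152) (nat_lit 0) (XT.nd (nat_lit 78) (nat_lit 0) (nat_lit 0) (XT.lf (nat_lit 0) (nat_lit 5455429493) (nat_lit 228) (nat_lit 9579417699) (nat_lit 76) (nat_lit 3168530616)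 (nat_lit 24) (nat_lit 5) (nat_lit 27) (nat_lit 5) (nat_lit 25) (nat_lit 5) (nat_lit 286) (nat_lit 244) (nat_lit 190)) (XT.lf (nat_lit 0) (nat_lit 8802704497) (nat_lit 228) (nat_lit 2007037033) (nat_lit 76) (nat_lit 8043683183) (nat_lit 24) (nat_lit 5) (nat_lit 27) (nat_lit 5) (nat_lit 25) (nat_lit 5) (nat_lit 287) (nat_lit 244) (nat_lit 189))) (XT.nd (nat_lit 78) (nat_lit 0) (nat_lit 0) (XT.lf (nat_lit 0) (nat_lit 6092233674) (nat_lit 152) (nat_lit 6290373294) (nat_lit 228) (nat_lit 7150152282) (nat_lit 22) (nat_lit 5) (nat_lit 24) (nat_lit 5) (nat_lit 25) (nat_lit 5) (nat_lit 288) (nat_lit 244) (nat_lit 188)) (XT.lf (nat_lit 0) (nat_lit 14620182720) (nat_lit 152) (nat_lit 1526162799) (nat_lit 228) (nat_lit 4099519114) (nat_lit 22) (nat_lit 5) (nat_lit 24) (nat_lit 5) (nat_lit 25) (nat_lit 5) (nat_lit 289) (nat_lit 244) (nat_lit 187)))) (XT.nd (nat_lit 156) (nat_lit 152) (nat_lit 0)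 (XT.nd (nat_lit 78) (nat_lit 76) (nat_lit 0) (XT.lf (nat_lit 0) (nat_lit 2562693841) (nat_lit 76) (nat_lit 17601850951) (nat_lit 152) (nat_lit 826810770) (nat_lit 21) (nat_lit 5) (nat_lit 22) (nat_lit 5) (nat_lit 23) (nat_lit 4) (nat_lit 290) (nat_lit 244) (nat_lit 186)) (XT.lf (nat_lit 0) (nat_lit 2620009112) (nat_lit 152) (nat_lit 10526075045) (nat_lit 76) (nat_lit 8621339781) (nat_lit 20) (nat_lit 5) (nat_lit 22) (nat_lit 5) (nat_lit 21) (nat_lit 5) (nat_lit 291) (nat_lit 244) (nat_lit 185))) (XT.nd (nat_lit 78) (nat_lit 152) (nat_lit 0) (XT.lf (nat_lit 0) (nat_lit 6184853158) (nat_lit 152) (nat_lit 2284955209) (nat_lit 76) (nat_lit 14113174160) (nat_lit 20) (nat_lit 5) (nat_lit 22) (nat_lit 5) (nat_lit 21) (nat_lit 5) (nat_lit 292) (nat_lit 244) (nat_lit 184)) (XT.nd (nat_lit 78) (nat_lit 0) (nat_lit 0) (XT.lf (nat_lit 0) (nat_lit 6536435075) (nat_lit 152) (nat_lit 3468289195) (nat_lit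 228) (nat_lit 13430791706) (nat_lit 18) (nat_lit 5) (nat_lit 20) (nat_lit 5) (nat_lit 21) (nat_lit 5) (nat_lit 293) (nat_lit 244) (nat_lit 183)) (XT.lf (nat_lit 0) (nat_lit 14057824705) (nat_lit 228) (nat_lit 8520350784) (nat_lit 76) (nat_lit 1750423268) (nat_lit 18) (nat_lit 5) (nat_lit 21) (nat_lit 5) (nat_lit 19) (nat_lit 4) (nat_lit 294) (nat_lit 244) (nat_lit 182)))))) (XT.nd (nat_lit 390) (nat_lit 76) (nat_lit 0) (XT.nd (nat_lit 156) (nat_lit 228) (nat_lit 0) (XT.nd (nat_lit 78) (nat_lit 0) (nat_lit 0) (XT.lf (nat_lit 0) (nat_lit 187058920) (nat_lit 76) (nat_lit 18162548638) (nat_lit 152) (nat_lit 6914959559) (nat_lit 17) (nat_lit 5) (nat_lit 18) (nat_lit 5) (nat_lit 19) (nat_lit 4) (nat_lit 295) (nat_lit 244) (nat_lit 181)) (XT.lf (nat_lit 0) (nat_lit 9586894949) (nat_lit 76) (nat_lit 13390156500) (nat_lit 152) (nat_lit 3264260097) (nat_lit 17) (nat_lit 5) (nat_lit 18) (nat_lit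 5) (nat_lit 19) (nat_lit 4) (nat_lit 296) (nat_lit 244) (nat_lit 180))) (XT.nd (nat_lit 78) (nat_lit 152) (nat_lit 0) (XT.lf (nat_lit 0) (nat_lit 528253754) (nat_lit 152) (nat_lit 7856732513) (nat_lit 76) (nat_lit 18882616601) (nat_lit 16) (nat_lit 5) (nat_lit 18) (nat_lit 5) (nat_lit 17) (nat_lit 5) (nat_lit 297) (nat_lit 244) (nat_lit 179)) (XT.nd (nat_lit 78) (nat_lit 0) (nat_lit 0) (XT.lf (nat_lit 0) (nat_lit 1334139529) (nat_lit 152) (nat_lit 3065944929) (nat_lit 228) (nat_lit 23942506082) (nat_lit 14) (nat_lit 5) (nat_lit 16) (nat_lit 5) (nat_lit 17) (nat_lit 5) (nat_lit 298) (nat_lit 244) (nat_lit 178)) (XT.lf (nat_lit 0) (nat_lit 8618882775) (nat_lit 228) (nat_lit 18285018280) (nat_lit 76) (nat_lit 2559783442) (nat_lit 14) (nat_lit 5) (nat_lit 17) (nat_lit 5) (nat_lit 15) (nat_lit 4) (nat_lit 299) (nat_lit 244) (nat_lit 177))))) (XT.nd (nat_lit 156) (nat_lit 0) (nat_lit 0) (XT.nd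 (nat_lit 78) (nat_lit 76) (nat_lit 0) (XT.lf (nat_lit 0) (nat_lit 13078699383) (nat_lit 228) (nat_lit 9210109660) (nat_lit 76) (nat_lit 8350544675) (nat_lit 14) (nat_lit 5) (nat_lit 17) (nat_lit 5) (nat_lit 15) (nat_lit 4) (nat_lit 300) (nat_lit 244) (nat_lit 176)) (XT.lf (nat_lit 0) (nat_lit 295197945) (nat_lit 76) (nat_lit 17451695821) (nat_lit 152) (nat_lit 14127666602) (nat_lit 13) (nat_lit 5) (nat_lit 14) (nat_lit 5) (nat_lit 15) (nat_lit 4) (nat_lit 301) (nat_lit 244) (nat_lit 175))) (XT.nd (nat_lit 78) (nat_lit 0) (nat_lit 0) (XT.lf (nat_lit 0) (nat_lit 10563259463) (nat_lit 76) (nat_lit 12222405719) (nat_lit 152) (nat_lit 10379026009) (nat_lit 13) (nat_lit 5) (nat_lit 14) (nat_lit 5) (nat_lit 15) (nat_lit 4) (nat_lit 302) (nat_lit 244) (nat_lit 174)) (XT.nd (nat_lit 78) (nat_lit 0) (nat_lit 0) (XT.lf (nat_lit 0) (nat_lit 21313994840) (nat_lit 76) (nat_lit 6744465711) (nat_lit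 152) (nat_lit 6461784884) (nat_lit 13) (nat_lit 5) (nat_lit 14) (nat_lit 5) (nat_lit 15) (nat_lit 4) (nat_lit 303) (nat_lit 244) (nat_lit 173)) (XT.lf (nat_lit 0) (nat_lit 32573001065) (nat_lit 76) (nat_lit 1004833083) (nat_lit 152) (nat_lit 2366616464) (nat_lit 13) (nat_lit 5) (nat_lit 14) (nat_lit 5) (nat_lit 15) (nat_lit 4) (nat_lit 304) (nat_lit 244) (nat_lit 172))))))))
noncomputable def xc124 : XT := (XT.nd (nat_lit 1404) (nat_lit 228) (nat_lit 0) (XT.nd (nat_lit 702) (nat_lit 152) (nat_lit 0) (XT.nd (nat_lit 312) (nat_lit 152) (nat_lit 0) (XT.nd (nat_lit 156) (nat_lit 0) (nat_lit 0) (XT.nd (nat_lit 78) (nat_lit 0) (nat_lit 0) (XT.lf (nat_lit 0) (nat_lit 2046668281) (nat_lit 152) (nat_lit 30389678353) (nat_lit 76) (nat_lit 4993266667) (nat_lit 11) (nat_lit 5) (nat_lit 13) (nat_lit 5) (nat_lit 12) (nat_lit 4) (nat_lit 305) (nat_lit 244) (nat_lit 171)) (XT.lf (nat_lit 0) (nat_lit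 6659221575) (nat_lit 152) (nat_lit 20982068188) (nat_lit 76) (nat_lit 11342915004) (nat_lit 11) (nat_lit 5) (nat_lit 13) (nat_lit 5) (nat_lit 12) (nat_lit 4) (nat_lit 306) (nat_lit 244) (nat_lit 170))) (XT.nd (nat_lit 78) (nat_lit 0) (nat_lit 0) (XT.lf (nat_lit 0) (nat_lit 11486814270) (nat_lit 152) (nat_lit 11131335629) (nat_lit 76) (nat_lit 17999171892) (nat_lit 11) (nat_lit 5) (nat_lit 13) (nat_lit 5) (nat_lit 12) (nat_lit 4) (nat_lit 307) (nat_lit 244) (nat_lit 169)) (XT.lf (nat_lit 0) (nat_lit 16540940632) (nat_lit 152) (nat_lit 814026551) (nat_lit 76) (nat_lit 24977885561) (nat_lit 11) (nat_lit 5) (nat_lit 13) (nat_lit 5) (nat_lit 12) (nat_lit 4) (nat_lit 308) (nat_lit 244) (nat_lit 168)))) (XT.nd (nat_lit 156) (nat_lit 76) (nat_lit 0) (XT.nd (nat_lit 78) (nat_lit 0) (nat_lit 0) (XT.lf (nat_lit 0) (nat_lit 10324884861) (nat_lit 76) (nat_lit 11669949825) (nat_lit 152) (nat_lit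 22131987523) (nat_lit 10) (nat_lit 5) (nat_lit 11) (nat_lit 5) (nat_lit 12) (nat_lit 4) (nat_lit 309) (nat_lit 244) (nat_lit 167)) (XT.lf (nat_lit 0) (nat_lit 22024677867) (nat_lit 76) (nat_lit 5696685995) (nat_lit 152) (nat_lit 18289143577) (nat_lit 10) (nat_lit 5) (nat_lit 11) (nat_lit 5) (nat_lit 12) (nat_lit 4) (nat_lit 310) (nat_lit 244) (nat_lit 166))) (XT.nd (nat_lit 78) (nat_lit 76) (nat_lit 0) (XT.lf (nat_lit 0) (nat_lit 33729858596) (nat_lit 152) (nat_lit 13711581451) (nat_lit 0) (nat_lit 547168563) (nat_lit 10) (nat_lit 5) (nat_lit 12) (nat_lit 4) (nat_lit 10) (nat_lit 4) (nat_lit 311) (nat_lit 244) (nat_lit 165)) (XT.nd (nat_lit 78) (nat_lit 76) (nat_lit 0) (XT.lf (nat_lit 0) (nat_lit 40119459667) (nat_lit 152) (nat_lit 3039565331) (nat_lit 0) (nat_lit 6902568743) (nat_lit 10) (nat_lit 5) (nat_lit 12) (nat_lit 4) (nat_lit 10) (nat_lit 4) (nat_lit 312) (nat_lit 244) (nat_lit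 164)) (XT.lf (nat_lit 0) (nat_lit 8413865833) (nat_lit 76) (nat_lit 38533937371) (nat_lit 76) (nat_lit 5284474171) (nat_lit 9) (nat_lit 4) (nat_lit 10) (nat_lit 5) (nat_lit 10) (nat_lit 4) (nat_lit 313) (nat_lit 244) (nat_lit 163)))))) (XT.nd (nat_lit 312) (nat_lit 76) (nat_lit 0) (XT.nd (nat_lit 156) (nat_lit 0) (nat_lit 0) (XT.nd (nat_lit 78) (nat_lit 76) (nat_lit 0) (XT.lf (nat_lit 0) (nat_lit 20524359872) (nat_lit 76) (nat_lit 33632825226) (nat_lit 76) (nat_lit 352340809) (nat_lit 9) (nat_lit 4) (nat_lit 10) (nat_lit 5) (nat_lit 10) (nat_lit 4) (nat_lit 314) (nat_lit 244) (nat_lit 162)) (XT.lf (nat_lit 0) (nat_lit 4660437561) (nat_lit 152) (nat_lit 23756131431) (nat_lit 76) (nat_lit 28480885213) (nat_lit 8) (nat_lit 5) (nat_lit 10) (nat_lit 5) (nat_lit 9) (nat_lit 4) (nat_lit 315) (nat_lit 244) (nat_lit 161))) (XT.nd (nat_lit 78) (nat_lit 0) (nat_lit 0) (XT.lf (nat_lit 0) (nat_lit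 9901074134) (nat_lit 152) (nat_lit 13040963614) (nat_lit 76) (nat_lit 36463009526) (nat_lit 8) (nat_lit 5) (nat_lit 10) (nat_lit 5) (nat_lit 9) (nat_lit 4) (nat_lit 316) (nat_lit 244) (nat_lit 160)) (XT.lf (nat_lit 0) (nat_lit 15393323722) (nat_lit 152) (nat_lit 1808649251) (nat_lit 76) (nat_lit 44836577652) (nat_lit 8) (nat_lit 5) (nat_lit 10) (nat_lit 5) (nat_lit 9) (nat_lit 4) (nat_lit 317) (nat_lit 244) (nat_lit 159)))) (XT.nd (nat_lit 156) (nat_lit 0) (nat_lit 0) (XT.nd (nat_lit 78) (nat_lit 0) (nat_lit 0) (XT.lf (nat_lit 0) (nat_lit 10297127653) (nat_lit 76) (nat_lit 11013902477) (nat_lit 152) (nat_lit 43485166025) (nat_lit 7) (nat_lit 5) (nat_lit 8) (nat_lit 5) (nat_lit 9) (nat_lit 4) (nat_lit 318) (nat_lit 244) (nat_lit 158)) (XT.lf (nat_lit 0) (nat_lit 23053545950) (nat_lit 76) (nat_lit 4491983805) (nat_lit 152) (nat_lit 40145157599) (nat_lit 7) (nat_lit 5) (nat_lit 8) (nat_lit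 5) (nat_lit 9) (nat_lit 4) (nat_lit 319) (nat_lit 244) (nat_lit 157))) (XT.nd (nat_lit 78) (nat_lit 0) (nat_lit 0) (XT.lf (nat_lit 0) (nat_lit 34119164376) (nat_lit 152) (nat_lit 34335867999) (nat_lit 0) (nat_lit 2273508606) (nat_lit 7) (nat_lit 5) (nat_lit 9) (nat_lit 4) (nat_lit 7) (nat_lit 4) (nat_lit 320) (nat_lit 244) (nat_lit 156)) (XT.nd (nat_lit 78) (nat_lit 0) (nat_lit 0) (XT.lf (nat_lit 0) (nat_lit 41086191969) (nat_lit 152) (nat_lit 23609327911) (nat_lit 0) (nat_lit 9219539819) (nat_lit 7) (nat_lit 5) (nat_lit 9) (nat_lit 4) (nat_lit 7) (nat_lit 4) (nat_lit 321) (nat_lit 244) (nat_lit 155)) (XT.lf (nat_lit 0) (nat_lit 48393068239) (nat_lit 152) (nat_lit 12361849304) (nat_lit 0) (nat_lit 16506419537) (nat_lit 7) (nat_lit 5) (nat_lit 9) (nat_lit 4) (nat_lit 7) (nat_lit 4) (nat_lit 322) (nat_lit 244) (nat_lit 154))))))) (XT.nd (nat_lit 702) (nat_lit 0) (nat_lit 0) (XT.nd (nat_lit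 312) (nat_lit 152) (nat_lit 0) (XT.nd (nat_lit 156) (nat_lit 0) (nat_lit 0) (XT.nd (nat_lit 78) (nat_lit 76) (nat_lit 0) (XT.lf (nat_lit 0) (nat_lit 56057190511) (nat_lit 152) (nat_lit 566652465) (nat_lit 0) (nat_lit 24151497473) (nat_lit 7) (nat_lit 5) (nat_lit 9) (nat_lit 4) (nat_lit 7) (nat_lit 4) (nat_lit 323) (nat_lit 244) (nat_lit 153)) (XT.lf (nat_lit 0) (nat_lit 12194651408) (nat_lit 76) (nat_lit 52092547971) (nat_lit 76) (nat_lit 20168717470) (nat_lit 6) (nat_lit 4) (nat_lit 7) (nat_lit 5) (nat_lit 7) (nat_lit 4) (nat_lit 324) (nat_lit 244) (nat_lit 152))) (XT.nd (nat_lit 78) (nat_lit 0) (nat_lit 0) (XT.lf (nat_lit 0) (nat_lit 25599960686) (nat_lit 76) (nat_lit 47330785178) (nat_lit 76) (nat_lit 15389680903) (nat_lit 6) (nat_lit 4) (nat_lit 7) (nat_lit 5) (nat_lit 7) (nat_lit 4) (nat_lit 325) (nat_lit 244) (nat_lit 151)) (XT.lf (nat_lit 0) (nat_lit 39662456683) (nat_lit 76)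 (nat_lit 42336813601) (nat_lit 76) (nat_lit 10379258113) (nat_lit 6) (nat_lit 4) (nat_lit 7) (nat_lit 5) (nat_lit 7) (nat_lit 4) (nat_lit 326) (nat_lit 244) (nat_lit 150)))) (XT.nd (nat_lit 156) (nat_lit 76) (nat_lit 0) (XT.nd (nat_lit 78) (nat_lit 76) (nat_lit 0) (XT.lf (nat_lit 0) (nat_lit 54415621531) (nat_lit 76) (nat_lit 37098742831) (nat_lit 76) (nat_lit 5125519521) (nat_lit 6) (nat_lit 4) (nat_lit 7) (nat_lit 5) (nat_lit 7) (nat_lit 4) (nat_lit 327) (nat_lit 244) (nat_lit 149)) (XT.lf (nat_lit 0) (nat_lit 371751973) (nat_lit 152) (nat_lit 31226053498) (nat_lit 76) (nat_lit 69516534040) (nat_lit 5) (nat_lit 5) (nat_lit 7) (nat_lit 5) (nat_lit 6) (nat_lit 4) (nat_lit 328) (nat_lit 244) (nat_lit 148))) (XT.nd (nat_lit 78) (nat_lit 76) (nat_lit 0) (XT.lf (nat_lit 0) (nat_lit 5965309699) (nat_lit 152) (nat_lit 19773471338) (nat_lit 76) (nat_lit 80069857092) (nat_lit 5) (nat_lit 5)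 (nat_lit 7) (nat_lit 5) (nat_lit 6) (nat_lit 4) (nat_lit 329) (nat_lit 244) (nat_lit 147)) (XT.nd (nat_lit 78) (nat_lit 76) (nat_lit 0) (XT.lf (nat_lit 0) (nat_lit 11832520283) (nat_lit 152) (nat_lit 7759224093) (nat_lit 76) (nat_lit 91146213444) (nat_lit 5) (nat_lit 5) (nat_lit 7) (nat_lit 5) (nat_lit 6) (nat_lit 4) (nat_lit 330) (nat_lit 244) (nat_lit 146)) (XT.lf (nat_lit 0) (nat_lit 5005500872) (nat_lit 76) (nat_lit 13060002300) (nat_lit 152) (nat_lit 97844624397) (nat_lit 4) (nat_lit 5) (nat_lit 5) (nat_lit 5) (nat_lit 6) (nat_lit 4) (nat_lit 331) (nat_lit 244) (nat_lit 145)))))) (XT.nd (nat_lit 312) (nat_lit 0) (nat_lit 0) (XT.nd (nat_lit 156) (nat_lit 0) (nat_lit 0) (XT.nd (nat_lit 78) (nat_lit 0) (nat_lit 0) (XT.lf (nat_lit 0) (nat_lit 18667571316) (nat_lit 76) (nat_lit 6068344828) (nat_lit 152) (nat_lit 96598705052) (nat_lit 4) (nat_lit 5) (nat_lit 5) (nat_lit 5) (nat_lit 6)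 (nat_lit 4) (nat_lit 332) (nat_lit 244) (nat_lit 144)) (XT.lf (nat_lit 0) (nat_lit 31754296710) (nat_lit 152) (nat_lit 94047454966) (nat_lit 0) (nat_lit 1227869709) (nat_lit 4) (nat_lit 5) (nat_lit 6) (nat_lit 4) (nat_lit 4) (nat_lit 4) (nat_lit 333) (nat_lit 244) (nat_lit 143))) (XT.nd (nat_lit 78) (nat_lit 0) (nat_lit 0) (XT.lf (nat_lit 0) (nat_lit 39217909251) (nat_lit 152) (nat_lit 85105873059) (nat_lit 0) (nat_lit 8680877651) (nat_lit 4) (nat_lit 5) (nat_lit 6) (nat_lit 4) (nat_lit 4) (nat_lit 4) (nat_lit 334) (nat_lit 244) (nat_lit 142)) (XT.lf (nat_lit 0) (nat_lit 47049780403) (nat_lit 152) (nat_lit 75726270812) (nat_lit 0) (nat_lit 16502649186) (nat_lit 4) (nat_lit 5) (nat_lit 6) (nat_lit 4) (nat_lit 4) (nat_lit 4) (nat_lit 335) (nat_lit 244) (nat_lit 141)))) (XT.nd (nat_lit 156) (nat_lit 0) (nat_lit 0) (XT.nd (nat_lit 78) (nat_lit 0) (nat_lit 0) (XT.lf (nat_lit 0) (nat_lit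 55268557480) (nat_lit 152) (nat_lit 65886315837) (nat_lit 0) (nat_lit 24711807579) (nat_lit 4) (nat_lit 5) (nat_lit 6) (nat_lit 4) (nat_lit 4) (nat_lit 4) (nat_lit 336) (nat_lit 244) (nat_lit 140)) (XT.lf (nat_lit 0) (nat_lit 63893808998) (nat_lit 152) (nat_lit 55562579671) (nat_lit 0) (nat_lit 33327898446) (nat_lit 4) (nat_lit 5) (nat_lit 6) (nat_lit 4) (nat_lit 4) (nat_lit 4) (nat_lit 337) (nat_lit 244) (nat_lit 139))) (XT.nd (nat_lit 78) (nat_lit 0) (nat_lit 0) (XT.lf (nat_lit 0) (nat_lit 72946071271) (nat_lit 152) (nat_lit 44730481989) (nat_lit 0) (nat_lit 42371436289) (nat_lit 4) (nat_lit 5) (nat_lit 6) (nat_lit 4) (nat_lit 4) (nat_lit 4) (nat_lit 338) (nat_lit 244) (nat_lit 138)) (XT.nd (nat_lit 78) (nat_lit 0) (nat_lit 0) (XT.lf (nat_lit 0) (nat_lit 82446897303) (nat_lit 152) (nat_lit 33364232082) (nat_lit 0) (nat_lit 51863953340) (nat_lit 4) (nat_lit 5) (nat_lit 6) (nat_lit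 4) (nat_lit 4) (nat_lit 4) (nat_lit 339) (nat_lit 244) (nat_lit 137)) (XT.lf (nat_lit 0) (nat_lit 92418908109) (nat_lit 152) (nat_lit 21436767450) (nat_lit 0) (nat_lit 61828050832) (nat_lit 4) (nat_lit 5) (nat_lit 6) (nat_lit 4) (nat_lit 4) (nat_lit 4) (nat_lit 340) (nat_lit 244) (nat_lit 136))))))))
noncomputable def xc125 : XT := (XT.nd (nat_lit 1404) (nat_lit 76) (nat_lit 0) (XT.nd (nat_lit 702) (nat_lit 0) (nat_lit 0) (XT.nd (nat_lit 312) (nat_lit 0) (nat_lit 0) (XT.nd (nat_lit 156) (nat_lit 0) (nat_lit 0) (XT.nd (nat_lit 78) (nat_lit 76) (nat_lit 0) (XT.lf (nat_lit 0) (nat_lit 102885846571) (nat_lit 152) (nat_lit 8919689369) (nat_lit 0) (nat_lit 72287452804) (nat_lit 4) (nat_lit 5) (nat_lit 6) (nat_lit 4) (nat_lit 4) (nat_lit 4) (nat_lit 341) (nat_lit 244) (nat_lit 135)) (XT.lf (nat_lit 0) (nat_lit 4356231336) (nat_lit 76) (nat_lit 109584415616) (nat_lit 76) (nat_lit 78978844239)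 (nat_lit 3) (nat_lit 4) (nat_lit 4) (nat_lit 5) (nat_lit 4) (nat_lit 4) (nat_lit 342) (nat_lit 244) (nat_lit 134))) (XT.nd (nat_lit 78) (nat_lit 0) (nat_lit 0) (XT.lf (nat_lit 0) (nat_lit 18599285500) (nat_lit 76) (nat_lit 107096530802) (nat_lit 76) (nat_lit 76484123606) (nat_lit 3) (nat_lit 4) (nat_lit 4) (nat_lit 5) (nat_lit 4) (nat_lit 4) (nat_lit 343) (nat_lit 244) (nat_lit 133)) (XT.lf (nat_lit 0) (nat_lit 33548459943) (nat_lit 76) (nat_lit 104487017218) (nat_lit 76) (nat_lit 73868099718) (nat_lit 3) (nat_lit 4) (nat_lit 4) (nat_lit 5) (nat_lit 4) (nat_lit 4) (nat_lit 344) (nat_lit 244) (nat_lit 132)))) (XT.nd (nat_lit 156) (nat_lit 0) (nat_lit 0) (XT.nd (nat_lit 78) (nat_lit 0) (nat_lit 0) (XT.lf (nat_lit 0) (nat_lit 49239347938) (nat_lit 76) (nat_lit 101749661738) (nat_lit 76) (nat_lit 71124543948) (nat_lit 3) (nat_lit 4) (nat_lit 4) (nat_lit 5) (nat_lit 4) (nat_lit 4) (nat_lit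 345) (nat_lit 244) (nat_lit 131)) (XT.lf (nat_lit 0) (nat_lit 65709308742) (nat_lit 76) (nat_lit 98877946846) (nat_lit 76) (nat_lit 68246924020) (nat_lit 3) (nat_lit 4) (nat_lit 4) (nat_lit 5) (nat_lit 4) (nat_lit 4) (nat_lit 346) (nat_lit 244) (nat_lit 130))) (XT.nd (nat_lit 78) (nat_lit 0) (nat_lit 0) (XT.lf (nat_lit 0) (nat_lit 82997556547) (nat_lit 76) (nat_lit 95865035129) (nat_lit 76) (nat_lit 65228388457) (nat_lit 3) (nat_lit 4) (nat_lit 4) (nat_lit 5) (nat_lit 4) (nat_lit 4) (nat_lit 347) (nat_lit 244) (nat_lit 129)) (XT.nd (nat_lit 78) (nat_lit 0) (nat_lit 0) (XT.lf (nat_lit 0) (nat_lit 101145253848) (nat_lit 76) (nat_lit 92703752985) (nat_lit 76) (nat_lit 62061750271) (nat_lit 3) (nat_lit 4) (nat_lit 4) (nat_lit 5) (nat_lit 4) (nat_lit 4) (nat_lit 348) (nat_lit 244) (nat_lit 128)) (XT.lf (nat_lit 0) (nat_lit 120195609448) (nat_lit 76) (nat_lit 89386573554) (nat_lit 76) (nat_lit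 58739469846) (nat_lit 3) (nat_lit 4) (nat_lit 4) (nat_lit 5) (nat_lit 4) (nat_lit 4) (nat_lit 349) (nat_lit 244) (nat_lit 127)))))) (XT.nd (nat_lit 312) (nat_lit 0) (nat_lit 0) (XT.nd (nat_lit 156) (nat_lit 0) (nat_lit 0) (XT.nd (nat_lit 78) (nat_lit 0) (nat_lit 0) (XT.lf (nat_lit 0) (nat_lit 140193981336) (nat_lit 76) (nat_lit 85905598788) (nat_lit 76) (nat_lit 55253636991) (nat_lit 3) (nat_lit 4) (nat_lit 4) (nat_lit 5) (nat_lit 4) (nat_lit 4) (nat_lit 350) (nat_lit 244) (nat_lit 126)) (XT.lf (nat_lit 0) (nat_lit 161187984684) (nat_lit 76) (nat_lit 82252540652) (nat_lit 76) (nat_lit 51595952104) (nat_lit 3) (nat_lit 4) (nat_lit 4) (nat_lit 5) (nat_lit 4) (nat_lit 4) (nat_lit 351) (nat_lit 244) (nat_lit 125))) (XT.nd (nat_lit 78) (nat_lit 0) (nat_lit 0) (XT.lf (nat_lit 0) (nat_lit 183227605214) (nat_lit 76) (nat_lit 78418701389) (nat_lit 76) (nat_lit 47757706411) (nat_lit 3) (nat_lit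 4) (nat_lit 4) (nat_lit 5) (nat_lit 4) (nat_lit 4) (nat_lit 352) (nat_lit 244) (nat_lit 124)) (XT.lf (nat_lit 0) (nat_lit 206365318212) (nat_lit 76) (nat_lit 74394952811) (nat_lit 76) (nat_lit 43729761233) (nat_lit 3) (nat_lit 4) (nat_lit 4) (nat_lit 5) (nat_lit 4) (nat_lit 4) (nat_lit 353) (nat_lit 244) (nat_lit 123)))) (XT.nd (nat_lit 156) (nat_lit 0) (nat_lit 0) (XT.nd (nat_lit 78) (nat_lit 0) (nat_lit 0) (XT.lf (nat_lit 0) (nat_lit 230656213473) (nat_lit 76) (nat_lit 70171714563) (nat_lit 76) (nat_lit 39502526223) (nat_lit 3) (nat_lit 4) (nat_lit 4) (nat_lit 5) (nat_lit 4) (nat_lit 4) (nat_lit 354) (nat_lit 244) (nat_lit 122)) (XT.lf (nat_lit 0) (nat_lit 256158126460) (nat_lit 76) (nat_lit 65738931316) (nat_lit 76) (nat_lit 35065936537) (nat_lit 3) (nat_lit 4) (nat_lit 4) (nat_lit 5) (nat_lit 4) (nat_lit 4) (nat_lit 355) (nat_lit 244) (nat_lit 121))) (XT.nd (nat_lit 78) (nat_lit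 0) (nat_lit 0) (XT.lf (nat_lit 0) (nat_lit 282931776015) (nat_lit 76) (nat_lit 61086048825) (nat_lit 76) (nat_lit 30409428865) (nat_lit 3) (nat_lit 4) (nat_lit 4) (nat_lit 5) (nat_lit 4) (nat_lit 4) (nat_lit 356) (nat_lit 244) (nat_lit 120)) (XT.nd (nat_lit 78) (nat_lit 0) (nat_lit 0) (XT.lf (nat_lit 0) (nat_lit 311040908921) (nat_lit 76) (nat_lit 56201988798) (nat_lit 76) (nat_lit 25521916285) (nat_lit 3) (nat_lit 4) (nat_lit 4) (nat_lit 5) (nat_lit 4) (nat_lit 4) (nat_lit 357) (nat_lit 244) (nat_lit 119)) (XT.lf (nat_lit 0) (nat_lit 340552451686) (nat_lit 76) (nat_lit 51075122520) (nat_lit 76) (nat_lit 20391761861) (nat_lit 3) (nat_lit 4) (nat_lit 4) (nat_lit 5) (nat_lit 4) (nat_lit 4) (nat_lit 358) (nat_lit 244) (nat_lit 118))))))) (XT.nd (nat_lit 29016) (nat_lit 0) (nat_lit 5928) (XT.nd (nat_lit 28626) (nat_lit 0) (nat_lit 7980) (XT.nd (nat_lit 156) (nat_lit 76) (nat_lit 0) (XT.nd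 (nat_lit 78) (nat_lit 0) (nat_lit 0) (XT.lf (nat_lit 0) (nat_lit 371536669887) (nat_lit 76) (nat_lit 45693243167) (nat_lit 76) (nat_lit 15006750941) (nat_lit 3) (nat_lit 4) (nat_lit 4) (nat_lit 5) (nat_lit 4) (nat_lit 4) (nat_lit 359) (nat_lit 244) (nat_lit 117)) (XT.lf (nat_lit 0) (nat_lit 404067335474) (nat_lit 76) (nat_lit 40043536741) (nat_lit 76) (nat_lit 9354062070) (nat_lit 3) (nat_lit 4) (nat_lit 4) (nat_lit 5) (nat_lit 4) (nat_lit 4) (nat_lit 360) (nat_lit 244) (nat_lit 116))) (XT.nd (nat_lit 78) (nat_lit 76) (nat_lit 0) (XT.lf (nat_lit 0) (nat_lit 438221902411) (nat_lit 76) (nat_lit 34112551560) (nat_lit 76) (nat_lit 3420236464) (nat_lit 3) (nat_lit 4) (nat_lit 4) (nat_lit 5) (nat_lit 4) (nat_lit 4) (nat_lit 361) (nat_lit 244) (nat_lit 115)) (XT.lf (nat_lit 0) (nat_lit 2718953160) (nat_lit 152) (nat_lit 25121166281) (nat_lit 76) (nat_lit 471316691147) (nat_lit 2) (nat_lit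 5) (nat_lit 4) (nat_lit 5) (nat_lit 3) (nat_lit 4) (nat_lit 362) (nat_lit 244) (nat_lit 114)))) (XT.nd (nat_lit 156) (nat_lit 0) (nat_lit 0) (XT.nd (nat_lit 78) (nat_lit 380) (nat_lit 0) (XT.lf (nat_lit 0) (nat_lit 2381474288) (nat_lit 380) (nat_lit 494707932) (nat_lit 380) (nat_lit 494707932) (nat_lit 112) (nat_lit 3) (nat_lit 117) (nat_lit 3) (nat_lit 117) (nat_lit 5) (nat_lit 245) (nat_lit 245) (nat_lit 230)) (XT.lf (nat_lit 0) (nat_lit 4944152) (nat_lit 380) (nat_lit 4713670568) (nat_lit 456) (nat_lit 2087000607) (nat_lit 107) (nat_lit 5) (nat_lit 112) (nat_lit 3) (nat_lit 113) (nat_lit 5) (nat_lit 246) (nat_lit 245) (nat_lit 229))) (XT.nd (nat_lit 78) (nat_lit 0) (nat_lit 0) (XT.lf (nat_lit 0) (nat_lit 1913516596) (nat_lit 380) (nat_lit 1613529558) (nat_lit 456) (nat_lit 3349872668) (nat_lit 107) (nat_lit 5) (nat_lit 112) (nat_lit 3) (nat_lit 113) (nat_lit 5) (nat_lit 247) (nat_lit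 245) (nat_lit 228)) (XT.nd (nat_lit 78) (nat_lit 0) (nat_lit 0) (XT.lf (nat_lit 76) (nat_lit 1626304285) (nat_lit 0) (nat_lit 2197631745) (nat_lit 456) (nat_lit 3133010725) (nat_lit 108) (nat_lit 5) (nat_lit 107) (nat_lit 5) (nat_lit 113) (nat_lit 5) (nat_lit 248) (nat_lit 245) (nat_lit 227)) (XT.lf (nat_lit 76) (nat_lit 5017868365) (nat_lit 0) (nat_lit 724991737) (nat_lit 456) (nat_lit 1302924116) (nat_lit 108) (nat_lit 5) (nat_lit 107) (nat_lit 5) (nat_lit 113) (nat_lit 5) (nat_lit 249) (nat_lit 245) (nat_lit 226)))))) (XT.nd (nat_lit 390) (nat_lit 1216) (nat_lit 0) (XT.nd (nat_lit 156) (nat_lit 456) (nat_lit 0) (XT.nd (nat_lit 78) (nat_lit 0) (nat_lit 0) (XT.lf (nat_lit 0) (nat_lit 523773077) (nat_lit 456) (nat_lit 5749332247) (nat_lit 532) (nat_lit 869644700) (nat_lit 102) (nat_lit 5) (nat_lit 108) (nat_lit 5) (nat_lit 109) (nat_lit 5) (nat_lit 250) (nat_lit 245) (nat_lit 225))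 (XT.lf (nat_lit 0) (nat_lit 2338599985) (nat_lit 456) (nat_lit 2292932520) (nat_lit 532) (nat_lit 2615329609) (nat_lit 102) (nat_lit 5) (nat_lit 108) (nat_lit 5) (nat_lit 109) (nat_lit 5) (nat_lit 251) (nat_lit 245) (nat_lit 224))) (XT.nd (nat_lit 78) (nat_lit 456) (nat_lit 0) (XT.lf (nat_lit 76) (nat_lit 1309139448) (nat_lit 0) (nat_lit 2854315544) (nat_lit 532) (nat_lit 3197136713) (nat_lit 103) (nat_lit 5) (nat_lit 102) (nat_lit 5) (nat_lit 109) (nat_lit 5) (nat_lit 252) (nat_lit 245) (nat_lit 223)) (XT.nd (nat_lit 78) (nat_lit 456) (nat_lit 0) (XT.lf (nat_lit 76) (nat_lit 5102985755) (nat_lit 0) (nat_lit 918002473) (nat_lit 532) (nat_lit 1462306093) (nat_lit 103) (nat_lit 5) (nat_lit 102) (nat_lit 5) (nat_lit 109) (nat_lit 5) (nat_lit 253) (nat_lit 245) (nat_lit 222)) (XT.lf (nat_lit 0) (nat_lit 294034229) (nat_lit 532) (nat_lit 6187121769) (nat_lit 76) (nat_lit 1133707272) (nat_lit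 96) (nat_lit 5) (nat_lit 103) (nat_lit 5) (nat_lit 97) (nat_lit 5) (nat_lit 254) (nat_lit 245) (nat_lit 221))))) (XT.nd (nat_lit 156) (nat_lit 684) (nat_lit 0) (XT.nd (nat_lit 78) (nat_lit 532) (nat_lit 0) (XT.lf (nat_lit 0) (nat_lit 2054295304) (nat_lit 532) (nat_lit 2354141382) (nat_lit 76) (nat_lit 3345422557) (nat_lit 96) (nat_lit 5) (nat_lit 103) (nat_lit 5) (nat_lit 97) (nat_lit 5) (nat_lit 255) (nat_lit 245) (nat_lit 220)) (XT.lf (nat_lit 0) (nat_lit 1654590970) (nat_lit 532) (nat_lit 2187358944) (nat_lit 608) (nat_lit 4061180868) (nat_lit 89) (nat_lit 5) (nat_lit 96) (nat_lit 5) (nat_lit 97) (nat_lit 5) (nat_lit 256) (nat_lit 245) (nat_lit 219))) (XT.nd (nat_lit 78) (nat_lit 684) (nat_lit 0) (XT.lf (nat_lit 0) (nat_lit 5678620789) (nat_lit 608) (nat_lit 2187734437) (nat_lit 76) (nat_lit 195809748) (nat_lit 89) (nat_lit 5) (nat_lit 97) (nat_lit 5) (nat_lit 90) (nat_lit 5) (nat_lit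 257) (nat_lit 245) (nat_lit 218)) (XT.nd (nat_lit 78) (nat_lit 76) (nat_lit 0) (XT.lf (nat_lit 0) (nat_lit 2036442712) (nat_lit 608) (nat_lit 5559146006) (nat_lit 684) (nat_lit 634406364) (nat_lit 81) (nat_lit 5) (nat_lit 89) (nat_lit 5) (nat_lit 90) (nat_lit 5) (nat_lit 258) (nat_lit 245) (nat_lit 217)) (XT.lf (nat_lit 0) (nat_lit 1123390070) (nat_lit 684) (nat_lit 1946656328) (nat_lit 76) (nat_lit 5337490382) (nat_lit 80) (nat_lit 5) (nat_lit 89) (nat_lit 5) (nat_lit 81) (nat_lit 5) (nat_lit 259) (nat_lit 245) (nat_lit 216))))))))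
noncomputable def xc126 : XT := (XT.nd (nat_lit 1404) (nat_lit 1444) (nat_lit 0) (XT.nd (nat_lit 702) (nat_lit 1140) (nat_lit 0) (XT.nd (nat_lit 312) (nat_lit 1064) (nat_lit 0) (XT.nd (nat_lit 156) (nat_lit 380) (nat_lit 0) (XT.nd (nat_lit 78) (nat_lit 0) (nat_lit 0) (XT.lf (nat_lit 0) (nat_lit 2515361050) (nat_lit 684) (nat_lit 397401691) (nat_lit 760) (nat_lit 5682653462) (nat_lit 71) (nat_lit 5) (nat_lit 80) (nat_lit 5) (nat_lit 81) (nat_lit 5) (nat_lit 260) (nat_lit 245) (nat_lit 215)) (XT.lf (nat_lit 0) (nat_lit 4791044483) (nat_lit 760) (nat_lit 1631267087) (nat_lit 76) (nat_lit 2370625981) (nat_lit 71) (nat_lit 5) (nat_lit 81) (nat_lit 5) (nat_lit 72) (nat_lit 5) (nat_lit 261) (nat_lit 245) (nat_lit 214))) (XT.nd (nat_lit 78) (nat_lit 0) (nat_lit 0) (XT.lf (nat_lit 0) (nat_lit 3064737352) (nat_lit 380) (nat_lit 3684603190) (nat_lit 456) (nat_lit 2251898915) (nat_lit 66) (nat_lit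 5) (nat_lit 71) (nat_lit 5) (nat_lit 72) (nat_lit 5) (nat_lit 262) (nat_lit 245) (nat_lit 213)) (XT.lf (nat_lit 0) (nat_lit 7986454343) (nat_lit 380) (nat_lit 780684222) (nat_lit 456) (nat_lit 454938061) (nat_lit 66) (nat_lit 5) (nat_lit 71) (nat_lit 5) (nat_lit 72) (nat_lit 5) (nat_lit 263) (nat_lit 245) (nat_lit 212)))) (XT.nd (nat_lit 156) (nat_lit 608) (nat_lit 0) (XT.nd (nat_lit 78) (nat_lit 0) (nat_lit 0) (XT.lf (nat_lit 0) (nat_lit 1416933809) (nat_lit 456) (nat_lit 5757519547) (nat_lit 76) (nat_lit 2277020908) (nat_lit 60) (nat_lit 5) (nat_lit 66) (nat_lit 5) (nat_lit 61) (nat_lit 5) (nat_lit 264) (nat_lit 245) (nat_lit 211)) (XT.lf (nat_lit 0) (nat_lit 3339095992) (nat_lit 456) (nat_lit 866079142) (nat_lit 76) (nat_lit 5488366826) (nat_lit 60) (nat_lit 5) (nat_lit 66) (nat_lit 5) (nat_lit 61) (nat_lit 5) (nat_lit 265) (nat_lit 245) (nat_lit 210))) (XT.nd (nat_lit 78) (nat_lit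 304) (nat_lit 0) (XT.lf (nat_lit 0) (nat_lit 4345105621) (nat_lit 304) (nat_lit 1020974808) (nat_lit 380) (nat_lit 4581361055) (nat_lit 56) (nat_lit 5) (nat_lit 60) (nat_lit 5) (nat_lit 61) (nat_lit 5) (nat_lit 266) (nat_lit 245) (nat_lit 209)) (XT.nd (nat_lit 78) (nat_lit 304) (nat_lit 0) (XT.lf (nat_lit 0) (nat_lit 7488203483) (nat_lit 380) (nat_lit 468686245) (nat_lit 76) (nat_lit 2257613119) (nat_lit 56) (nat_lit 5) (nat_lit 61) (nat_lit 5) (nat_lit 57) (nat_lit 5) (nat_lit 267) (nat_lit 245) (nat_lit 208)) (XT.lf (nat_lit 0) (nat_lit 5002346910) (nat_lit 304) (nat_lit 4754277772) (nat_lit 380) (nat_lit 736431887) (nat_lit 52) (nat_lit 5) (nat_lit 56) (nat_lit 5) (nat_lit 57) (nat_lit 5) (nat_lit 268) (nat_lit 245) (nat_lit 207)))))) (XT.nd (nat_lit 312) (nat_lit 532) (nat_lit 0) (XT.nd (nat_lit 156) (nat_lit 304) (nat_lit 0) (XT.nd (nat_lit 78) (nat_lit 228) (nat_lit 0) (XT.lf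 (nat_lit 0) (nat_lit 1263681713) (nat_lit 380) (nat_lit 106768953) (nat_lit 76) (nat_lit 9416463459) (nat_lit 51) (nat_lit 5) (nat_lit 56) (nat_lit 5) (nat_lit 52) (nat_lit 5) (nat_lit 269) (nat_lit 245) (nat_lit 206)) (XT.lf (nat_lit 0) (nat_lit 3411476670) (nat_lit 304) (nat_lit 5473994011) (nat_lit 76) (nat_lit 2205897632) (nat_lit 48) (nat_lit 5) (nat_lit 52) (nat_lit 5) (nat_lit 49) (nat_lit 5) (nat_lit 270) (nat_lit 245) (nat_lit 205))) (XT.nd (nat_lit 78) (nat_lit 0) (nat_lit 0) (XT.lf (nat_lit 0) (nat_lit 140433548) (nat_lit 304) (nat_lit 5502652748) (nat_lit 380) (nat_lit 5769260158) (nat_lit 44) (nat_lit 5) (nat_lit 48) (nat_lit 5) (nat_lit 49) (nat_lit 5) (nat_lit 271) (nat_lit 245) (nat_lit 204)) (XT.lf (nat_lit 0) (nat_lit 6164586020) (nat_lit 304) (nat_lit 1865754605) (nat_lit 380) (nat_lit 3716946326) (nat_lit 44) (nat_lit 5) (nat_lit 48) (nat_lit 5) (nat_lit 49) (nat_lit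 5) (nat_lit 272) (nat_lit 245) (nat_lit 203)))) (XT.nd (nat_lit 156) (nat_lit 228) (nat_lit 0) (XT.nd (nat_lit 78) (nat_lit 76) (nat_lit 0) (XT.lf (nat_lit 0) (nat_lit 310025384) (nat_lit 228) (nat_lit 10215755580) (nat_lit 304) (nat_lit 1573863445) (nat_lit 41) (nat_lit 5) (nat_lit 44) (nat_lit 5) (nat_lit 45) (nat_lit 5) (nat_lit 273) (nat_lit 245) (nat_lit 202)) (XT.lf (nat_lit 0) (nat_lit 735342003) (nat_lit 304) (nat_lit 5877409279) (nat_lit 76) (nat_lit 5852410399) (nat_lit 40) (nat_lit 5) (nat_lit 44) (nat_lit 5) (nat_lit 41) (nat_lit 5) (nat_lit 274) (nat_lit 245) (nat_lit 201))) (XT.nd (nat_lit 78) (nat_lit 0) (nat_lit 0) (XT.lf (nat_lit 0) (nat_lit 254638554) (nat_lit 228) (nat_lit 2812581031) (nat_lit 304) (nat_lit 9782535956) (nat_lit 37) (nat_lit 5) (nat_lit 40) (nat_lit 5) (nat_lit 41) (nat_lit 5) (nat_lit 275) (nat_lit 245) (nat_lit 200)) (XT.nd (nat_lit 78) (nat_lit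 0) (nat_lit 0) (XT.lf (nat_lit 0) (nat_lit 5592343343) (nat_lit 304) (nat_lit 6430463038) (nat_lit 76) (nat_lit 1227031502) (nat_lit 37) (nat_lit 5) (nat_lit 41) (nat_lit 5) (nat_lit 38) (nat_lit 5) (nat_lit 276) (nat_lit 245) (nat_lit 199)) (XT.lf (nat_lit 0) (nat_lit 8248972292) (nat_lit 304) (nat_lit 60048650) (nat_lit 76) (nat_lit 5360728001) (nat_lit 37) (nat_lit 5) (nat_lit 41) (nat_lit 5) (nat_lit 38) (nat_lit 5) (nat_lit 277) (nat_lit 245) (nat_lit 198))))))) (XT.nd (nat_lit 702) (nat_lit 456) (nat_lit 0) (XT.nd (nat_lit 312) (nat_lit 532) (nat_lit 0) (XT.nd (nat_lit 156) (nat_lit 304) (nat_lit 0) (XT.nd (nat_lit 78) (nat_lit 0) (nat_lit 0) (XT.lf (nat_lit 0) (nat_lit 6792612109) (nat_lit 152) (nat_lit 4312959071) (nat_lit 228) (nat_lit 3001810360) (nat_lit 35) (nat_lit 5) (nat_lit 37) (nat_lit 5) (nat_lit 38) (nat_lit 5) (nat_lit 278) (nat_lit 245) (nat_lit 197)) (XT.lf (nat_lit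 0) (nat_lit 13937176119) (nat_lit 152) (nat_lit 130956054) (nat_lit 228) (nat_lit 500685944) (nat_lit 35) (nat_lit 5) (nat_lit 37) (nat_lit 5) (nat_lit 38) (nat_lit 5) (nat_lit 279) (nat_lit 245) (nat_lit 196))) (XT.nd (nat_lit 78) (nat_lit 0) (nat_lit 0) (XT.lf (nat_lit 0) (nat_lit 2190838654) (nat_lit 304) (nat_lit 8607779978) (nat_lit 76) (nat_lit 4246451610) (nat_lit 31) (nat_lit 5) (nat_lit 35) (nat_lit 5) (nat_lit 32) (nat_lit 5) (nat_lit 280) (nat_lit 245) (nat_lit 195)) (XT.lf (nat_lit 0) (nat_lit 4977111146) (nat_lit 304) (nat_lit 1725909968) (nat_lit 76) (nat_lit 8842921768) (nat_lit 31) (nat_lit 5) (nat_lit 35) (nat_lit 5) (nat_lit 32) (nat_lit 5) (nat_lit 281) (nat_lit 245) (nat_lit 194)))) (XT.nd (nat_lit 156) (nat_lit 380) (nat_lit 0) (XT.nd (nat_lit 78) (nat_lit 0) (nat_lit 0) (XT.lf (nat_lit 0) (nat_lit 5630376928) (nat_lit 152) (nat_lit 2325920247) (nat_lit 228) (nat_lit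 8112946944) (nat_lit 29) (nat_lit 5) (nat_lit 31) (nat_lit 5) (nat_lit 32) (nat_lit 5) (nat_lit 282) (nat_lit 245) (nat_lit 193)) (XT.lf (nat_lit 0) (nat_lit 11115909525) (nat_lit 228) (nat_lit 3289340747) (nat_lit 76) (nat_lit 2211948662) (nat_lit 29) (nat_lit 5) (nat_lit 32) (nat_lit 5) (nat_lit 30) (nat_lit 5) (nat_lit 283) (nat_lit 245) (nat_lit 192))) (XT.nd (nat_lit 78) (nat_lit 228) (nat_lit 0) (XT.lf (nat_lit 0) (nat_lit 4267973147) (nat_lit 152) (nat_lit 10238215265) (nat_lit 228) (nat_lit 2682787700) (nat_lit 27) (nat_lit 5) (nat_lit 29) (nat_lit 5) (nat_lit 30) (nat_lit 5) (nat_lit 284) (nat_lit 245) (nat_lit 191)) (XT.nd (nat_lit 78) (nat_lit 152) (nat_lit 0) (XT.lf (nat_lit 0) (nat_lit 292546257) (nat_lit 228) (nat_lit 5522928802) (nat_lit 76) (nat_lit 11972466512) (nat_lit 26) (nat_lit 5) (nat_lit 29) (nat_lit 5) (nat_lit 27) (nat_lit 5) (nat_lit 285) (nat_lit 245) (nat_lit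 190)) (XT.lf (nat_lit 0) (nat_lit 2226137469) (nat_lit 152) (nat_lit 1104765041) (nat_lit 228) (nat_lit 15083583940) (nat_lit 24) (nat_lit 5) (nat_lit 26) (nat_lit 5) (nat_lit 27) (nat_lit 5) (nat_lit 286) (nat_lit 245) (nat_lit 189)))))) (XT.nd (nat_lit 312) (nat_lit 304) (nat_lit 0) (XT.nd (nat_lit 156) (nat_lit 152) (nat_lit 0) (XT.nd (nat_lit 78) (nat_lit 0) (nat_lit 0) (XT.lf (nat_lit 0) (nat_lit 6646366537) (nat_lit 228) (nat_lit 8621509357) (nat_lit 76) (nat_lit 3798271655) (nat_lit 24) (nat_lit 5) (nat_lit 27) (nat_lit 5) (nat_lit 25) (nat_lit 5) (nat_lit 287) (nat_lit 245) (nat_lit 188)) (XT.lf (nat_lit 0) (nat_lit 10117283121) (nat_lit 228) (nat_lit 738932478) (nat_lit 76) (nat_lit 8894738302) (nat_lit 24) (nat_lit 5) (nat_lit 27) (nat_lit 5) (nat_lit 25) (nat_lit 5) (nat_lit 288) (nat_lit 245) (nat_lit 187))) (XT.nd (nat_lit 78) (nat_lit 0) (nat_lit 0) (XT.lf (nat_lit 0)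 (nat_lit 7743229887) (nat_lit 152) (nat_lit 6112331503) (nat_lit 228) (nat_lit 6609792355) (nat_lit 22) (nat_lit 5) (nat_lit 24) (nat_lit 5) (nat_lit 25) (nat_lit 5) (nat_lit 289) (nat_lit 245) (nat_lit 186)) (XT.lf (nat_lit 0) (nat_lit 16633462836) (nat_lit 152) (nat_lit 1133365743) (nat_lit 228) (nat_lit 3449383126) (nat_lit 22) (nat_lit 5) (nat_lit 24) (nat_lit 5) (nat_lit 25) (nat_lit 5) (nat_lit 290) (nat_lit 245) (nat_lit 185)))) (XT.nd (nat_lit 156) (nat_lit 152) (nat_lit 0) (XT.nd (nat_lit 78) (nat_lit 76) (nat_lit 0) (XT.lf (nat_lit 0) (nat_lit 3986481414) (nat_lit 76) (nat_lit 17987938277) (nat_lit 152) (nat_lit 25194724) (nat_lit 21) (nat_lit 5) (nat_lit 22) (nat_lit 5) (nat_lit 23) (nat_lit 4) (nat_lit 291) (nat_lit 245) (nat_lit 184)) (XT.lf (nat_lit 0) (nat_lit 3528130243) (nat_lit 152) (nat_lit 9791616043) (nat_lit 76) (nat_lit 9496080305) (nat_lit 20) (nat_lit 5) (nat_lit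 22) (nat_lit 5) (nat_lit 21) (nat_lit 5) (nat_lit 292) (nat_lit 245) (nat_lit 183))) (XT.nd (nat_lit 78) (nat_lit 152) (nat_lit 0) (XT.lf (nat_lit 0) (nat_lit 7234210746) (nat_lit 152) (nat_lit 1198476537) (nat_lit 76) (nat_lit 15241379091) (nat_lit 20) (nat_lit 5) (nat_lit 22) (nat_lit 5) (nat_lit 21) (nat_lit 5) (nat_lit 293) (nat_lit 245) (nat_lit 182)) (XT.nd (nat_lit 78) (nat_lit 0) (nat_lit 0) (XT.lf (nat_lit 0) (nat_lit 8044616706) (nat_lit 152) (nat_lit 3183659477) (nat_lit 228) (nat_lit 13341840727) (nat_lit 18) (nat_lit 5) (nat_lit 20) (nat_lit 5) (nat_lit 21) (nat_lit 5) (nat_lit 294) (nat_lit 245) (nat_lit 181)) (XT.lf (nat_lit 0) (nat_lit 15456398848) (nat_lit 228) (nat_lit 7792669858) (nat_lit 76) (nat_lit 2260214815) (nat_lit 18) (nat_lit 5) (nat_lit 21) (nat_lit 5) (nat_lit 19) (nat_lit 4) (nat_lit 295) (nat_lit 245) (nat_lit 180))))))))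
noncomputable def xc127 : XT := (XT.nd (nat_lit 1404) (nat_lit 456) (nat_lit 0) (XT.nd (nat_lit 702) (nat_lit 228) (nat_lit 0) (XT.nd (nat_lit 312) (nat_lit 76) (nat_lit 0) (XT.nd (nat_lit 156) (nat_lit 228) (nat_lit 0) (XT.nd (nat_lit 78) (nat_lit 0) (nat_lit 0) (XT.lf (nat_lit 0) (nat_lit 1331502292) (nat_lit 76) (nat_lit 18615862738) (nat_lit 152) (nat_lit 6545501324) (nat_lit 17) (nat_lit 5) (nat_lit 18) (nat_lit 5) (nat_lit 19) (nat_lit 4) (nat_lit 296) (nat_lit 245) (nat_lit 179)) (XT.lf (nat_lit 0) (nat_lit 11147278197) (nat_lit 76) (nat_lit 13626508771) (nat_lit 152) (nat_lit 2746324329) (nat_lit 17) (nat_lit 5) (nat_lit 18) (nat_lit 5) (nat_lit 19) (nat_lit 4) (nat_lit 297) (nat_lit 245) (nat_lit 178))) (XT.nd (nat_lit 78) (nat_lit 152) (nat_lit 0) (XT.lf (nat_lit 0) (nat_lit 1182616688) (nat_lit 152) (nat_lit 7198455151) (nat_lit 76) (nat_lit 20217723020) (nat_lit 16) (nat_lit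 5) (nat_lit 18) (nat_lit 5) (nat_lit 17) (nat_lit 5) (nat_lit 298) (nat_lit 245) (nat_lit 177)) (XT.lf (nat_lit 0) (nat_lit 2435007042) (nat_lit 152) (nat_lit 2799275637) (nat_lit 228) (nat_lit 24493974697) (nat_lit 14) (nat_lit 5) (nat_lit 16) (nat_lit 5) (nat_lit 17) (nat_lit 5) (nat_lit 299) (nat_lit 245) (nat_lit 176)))) (XT.nd (nat_lit 156) (nat_lit 76) (nat_lit 0) (XT.nd (nat_lit 78) (nat_lit 0) (nat_lit 0) (XT.lf (nat_lit 0) (nat_lit 9641018203) (nat_lit 228) (nat_lit 18190634554) (nat_lit 76) (nat_lit 3074939268) (nat_lit 14) (nat_lit 5) (nat_lit 17) (nat_lit 5) (nat_lit 15) (nat_lit 4) (nat_lit 300) (nat_lit 245) (nat_lit 175)) (XT.lf (nat_lit 0) (nat_lit 14295673674) (nat_lit 228) (nat_lit 8710010723) (nat_lit 76) (nat_lit 9136802055) (nat_lit 14) (nat_lit 5) (nat_lit 17) (nat_lit 5) (nat_lit 15) (nat_lit 4) (nat_lit 301) (nat_lit 245) (nat_lit 174))) (XT.nd (nat_lit 78) (nat_lit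 0) (nat_lit 0) (XT.lf (nat_lit 0) (nat_lit 1255068642) (nat_lit 76) (nat_lit 17930153566) (nat_lit 152) (nat_lit 14254866529) (nat_lit 13) (nat_lit 5) (nat_lit 14) (nat_lit 5) (nat_lit 15) (nat_lit 4) (nat_lit 302) (nat_lit 245) (nat_lit 173)) (XT.nd (nat_lit 78) (nat_lit 0) (nat_lit 0) (XT.lf (nat_lit 0) (nat_lit 11991527960) (nat_lit 76) (nat_lit 12458166914) (nat_lit 152) (nat_lit 10346374068) (nat_lit 13) (nat_lit 5) (nat_lit 14) (nat_lit 5) (nat_lit 15) (nat_lit 4) (nat_lit 303) (nat_lit 245) (nat_lit 172)) (XT.lf (nat_lit 0) (nat_lit 23236937938) (nat_lit 76) (nat_lit 6724204149) (nat_lit 152) (nat_lit 6259537708) (nat_lit 13) (nat_lit 5) (nat_lit 14) (nat_lit 5) (nat_lit 15) (nat_lit 4) (nat_lit 304) (nat_lit 245) (nat_lit 171)))))) (XT.nd (nat_lit 312) (nat_lit 76) (nat_lit 0) (XT.nd (nat_lit 156) (nat_lit 0) (nat_lit 0) (XT.nd (nat_lit 78) (nat_lit 152) (nat_lit 0) (XT.lf (nat_lit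 0) (nat_lit 35018073362) (nat_lit 76) (nat_lit 714612976) (nat_lit 152) (nat_lit 1984626887) (nat_lit 13) (nat_lit 5) (nat_lit 14) (nat_lit 5) (nat_lit 15) (nat_lit 4) (nat_lit 305) (nat_lit 245) (nat_lit 170)) (XT.lf (nat_lit 0) (nat_lit 2628435885) (nat_lit 152) (nat_lit 31070809027) (nat_lit 76) (nat_lit 5577367691) (nat_lit 11) (nat_lit 5) (nat_lit 13) (nat_lit 5) (nat_lit 12) (nat_lit 4) (nat_lit 306) (nat_lit 245) (nat_lit 169))) (XT.nd (nat_lit 78) (nat_lit 0) (nat_lit 0) (XT.lf (nat_lit 0) (nat_lit 7448786644) (nat_lit 152) (nat_lit 21232739936) (nat_lit 76) (nat_lit 12228572841) (nat_lit 11) (nat_lit 5) (nat_lit 13) (nat_lit 5) (nat_lit 12) (nat_lit 4) (nat_lit 307) (nat_lit 245) (nat_lit 168)) (XT.lf (nat_lit 0) (nat_lit 12496015926) (nat_lit 152) (nat_lit 10927491304) (nat_lit 76) (nat_lit 19202475331) (nat_lit 11) (nat_lit 5) (nat_lit 13) (nat_lit 5) (nat_lit 12) (nat_lit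 4) (nat_lit 308) (nat_lit 245) (nat_lit 167)))) (XT.nd (nat_lit 156) (nat_lit 0) (nat_lit 0) (XT.nd (nat_lit 78) (nat_lit 76) (nat_lit 0) (XT.lf (nat_lit 0) (nat_lit 17782140943) (nat_lit 152) (nat_lit 130526825) (nat_lit 76) (nat_lit 26515679691) (nat_lit 11) (nat_lit 5) (nat_lit 13) (nat_lit 5) (nat_lit 12) (nat_lit 4) (nat_lit 309) (nat_lit 245) (nat_lit 166)) (XT.lf (nat_lit 0) (nat_lit 11553649495) (nat_lit 76) (nat_lit 11946483059) (nat_lit 152) (nat_lit 22812333664) (nat_lit 10) (nat_lit 5) (nat_lit 11) (nat_lit 5) (nat_lit 12) (nat_lit 4) (nat_lit 310) (nat_lit 245) (nat_lit 165))) (XT.nd (nat_lit 78) (nat_lit 0) (nat_lit 0) (XT.lf (nat_lit 0) (nat_lit 23804502610) (nat_lit 76) (nat_lit 5689173384) (nat_lit 152) (nat_lit 18797645294) (nat_lit 10) (nat_lit 5) (nat_lit 11) (nat_lit 5) (nat_lit 12) (nat_lit 4) (nat_lit 311) (nat_lit 245) (nat_lit 164)) (XT.nd (nat_lit 78) (nat_lit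 0) (nat_lit 0) (XT.lf (nat_lit 0) (nat_lit 35788549899) (nat_lit 152) (nat_lit 13736457649) (nat_lit 0) (nat_lit 844041262) (nat_lit 10) (nat_lit 5) (nat_lit 12) (nat_lit 4) (nat_lit 10) (nat_lit 4) (nat_lit 312) (nat_lit 245) (nat_lit 163)) (XT.lf (nat_lit 0) (nat_lit 42479907292) (nat_lit 152) (nat_lit 2562302765) (nat_lit 0) (nat_lit 7504377438) (nat_lit 10) (nat_lit 5) (nat_lit 12) (nat_lit 4) (nat_lit 10) (nat_lit 4) (nat_lit 313) (nat_lit 245) (nat_lit 162))))))) (XT.nd (nat_lit 702) (nat_lit 228) (nat_lit 0) (XT.nd (nat_lit 312) (nat_lit 76) (nat_lit 0) (XT.nd (nat_lit 156) (nat_lit 76) (nat_lit 0) (XT.nd (nat_lit 78) (nat_lit 0) (nat_lit 0) (XT.lf (nat_lit 0) (nat_lit 9453650912) (nat_lit 76) (nat_lit 40188803107) (nat_lit 76) (nat_lit 5183729238) (nat_lit 9) (nat_lit 4) (nat_lit 10) (nat_lit 5) (nat_lit 10) (nat_lit 4) (nat_lit 314) (nat_lit 245) (nat_lit 161)) (XT.lf (nat_lit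 0) (nat_lit 22140189092) (nat_lit 76) (nat_lit 35055579694) (nat_lit 76) (nat_lit 22368668) (nat_lit 9) (nat_lit 4) (nat_lit 10) (nat_lit 5) (nat_lit 10) (nat_lit 4) (nat_lit 315) (nat_lit 245) (nat_lit 160))) (XT.nd (nat_lit 78) (nat_lit 0) (nat_lit 0) (XT.lf (nat_lit 0) (nat_lit 5213901494) (nat_lit 152) (nat_lit 24371510256) (nat_lit 76) (nat_lit 30140595078) (nat_lit 8) (nat_lit 5) (nat_lit 10) (nat_lit 5) (nat_lit 9) (nat_lit 4) (nat_lit 316) (nat_lit 245) (nat_lit 159)) (XT.lf (nat_lit 0) (nat_lit 10701310750) (nat_lit 152) (nat_lit 13147842512) (nat_lit 76) (nat_lit 38510603436) (nat_lit 8) (nat_lit 5) (nat_lit 10) (nat_lit 5) (nat_lit 9) (nat_lit 4) (nat_lit 317) (nat_lit 245) (nat_lit 158)))) (XT.nd (nat_lit 156) (nat_lit 0) (nat_lit 0) (XT.nd (nat_lit 78) (nat_lit 76) (nat_lit 0) (XT.lf (nat_lit 0) (nat_lit 16453640298) (nat_lit 152) (nat_lit 1379872873) (nat_lit 76) (nat_lit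 47292162186) (nat_lit 8) (nat_lit 5) (nat_lit 10) (nat_lit 5) (nat_lit 9) (nat_lit 4) (nat_lit 318) (nat_lit 245) (nat_lit 157)) (XT.lf (nat_lit 0) (nat_lit 11322818540) (nat_lit 76) (nat_lit 11338548550) (nat_lit 152) (nat_lit 45360142191) (nat_lit 7) (nat_lit 5) (nat_lit 8) (nat_lit 5) (nat_lit 9) (nat_lit 4) (nat_lit 319) (nat_lit 245) (nat_lit 156))) (XT.nd (nat_lit 78) (nat_lit 0) (nat_lit 0) (XT.lf (nat_lit 0) (nat_lit 24692732299) (nat_lit 76) (nat_lit 4501298185) (nat_lit 152) (nat_lit 41867384874) (nat_lit 7) (nat_lit 5) (nat_lit 8) (nat_lit 5) (nat_lit 9) (nat_lit 4) (nat_lit 320) (nat_lit 245) (nat_lit 155)) (XT.nd (nat_lit 78) (nat_lit 0) (nat_lit 0) (XT.lf (nat_lit 0) (nat_lit 36086632538) (nat_lit 152) (nat_lit 35579371669) (nat_lit 0) (nat_lit 2585654848) (nat_lit 7) (nat_lit 5) (nat_lit 9) (nat_lit 4) (nat_lit 7) (nat_lit 4) (nat_lit 321) (nat_lit 245) (nat_lit 154))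 (XT.lf (nat_lit 0) (nat_lit 43389558656) (nat_lit 152) (nat_lit 24339042183) (nat_lit 0) (nat_lit 9869536631) (nat_lit 7) (nat_lit 5) (nat_lit 9) (nat_lit 4) (nat_lit 7) (nat_lit 4) (nat_lit 322) (nat_lit 245) (nat_lit 153)))))) (XT.nd (nat_lit 390) (nat_lit 152) (nat_lit 0) (XT.nd (nat_lit 156) (nat_lit 76) (nat_lit 0) (XT.nd (nat_lit 78) (nat_lit 0) (nat_lit 0) (XT.lf (nat_lit 0) (nat_lit 51049918878) (nat_lit 152) (nat_lit 12550654032) (nat_lit 0) (nat_lit 17511759390) (nat_lit 7) (nat_lit 5) (nat_lit 9) (nat_lit 4) (nat_lit 7) (nat_lit 4) (nat_lit 323) (nat_lit 245) (nat_lit 152)) (XT.lf (nat_lit 0) (nat_lit 59085952158) (nat_lit 152) (nat_lit 186139624) (nat_lit 0) (nat_lit 25530518896) (nat_lit 7) (nat_lit 5) (nat_lit 9) (nat_lit 4) (nat_lit 7) (nat_lit 4) (nat_lit 324) (nat_lit 245) (nat_lit 151))) (XT.nd (nat_lit 78) (nat_lit 0) (nat_lit 0) (XT.lf (nat_lit 0) (nat_lit 13206635160)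 (nat_lit 76) (nat_lit 54516349333) (nat_lit 76) (nat_lit 20944464857) (nat_lit 6) (nat_lit 4) (nat_lit 7) (nat_lit 5) (nat_lit 7) (nat_lit 4) (nat_lit 325) (nat_lit 245) (nat_lit 150)) (XT.nd (nat_lit 78) (nat_lit 0) (nat_lit 0) (XT.lf (nat_lit 0) (nat_lit 27263055085) (nat_lit 76) (nat_lit 49525109164) (nat_lit 76) (nat_lit 15937556866) (nat_lit 6) (nat_lit 4) (nat_lit 7) (nat_lit 5) (nat_lit 7) (nat_lit 4) (nat_lit 326) (nat_lit 245) (nat_lit 149)) (XT.lf (nat_lit 0) (nat_lit 42010433197) (nat_lit 76) (nat_lit 44289639735) (nat_lit 76) (nat_lit 10687165702) (nat_lit 6) (nat_lit 4) (nat_lit 7) (nat_lit 5) (nat_lit 7) (nat_lit 4) (nat_lit 327) (nat_lit 245) (nat_lit 148))))) (XT.nd (nat_lit 156) (nat_lit 76) (nat_lit 0) (XT.nd (nat_lit 78) (nat_lit 76) (nat_lit 0) (XT.lf (nat_lit 0) (nat_lit 57483882302) (nat_lit 76) (nat_lit 38797475644) (nat_lit 76) (nat_lit 5180790434) (nat_lit 6)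 (nat_lit 4) (nat_lit 7) (nat_lit 5) (nat_lit 7) (nat_lit 4) (nat_lit 328) (nat_lit 245) (nat_lit 147)) (XT.lf (nat_lit 0) (nat_lit 575645901) (nat_lit 152) (nat_lit 32450145564) (nat_lit 76) (nat_lit 73134849203) (nat_lit 5) (nat_lit 5) (nat_lit 7) (nat_lit 5) (nat_lit 6) (nat_lit 4) (nat_lit 329) (nat_lit 245) (nat_lit 146))) (XT.nd (nat_lit 78) (nat_lit 76) (nat_lit 0) (XT.lf (nat_lit 0) (nat_lit 6440057402) (nat_lit 152) (nat_lit 20440991943) (nat_lit 76) (nat_lit 84209053243) (nat_lit 5) (nat_lit 5) (nat_lit 7) (nat_lit 5) (nat_lit 6) (nat_lit 4) (nat_lit 330) (nat_lit 245) (nat_lit 145)) (XT.nd (nat_lit 78) (nat_lit 76) (nat_lit 0) (XT.lf (nat_lit 0) (nat_lit 12592224601) (nat_lit 152) (nat_lit 7841325335) (nat_lit 76) (nat_lit 95832765351) (nat_lit 5) (nat_lit 5) (nat_lit 7) (nat_lit 5) (nat_lit 6) (nat_lit 4) (nat_lit 331) (nat_lit 245) (nat_lit 144)) (XT.lf (nat_lit 0) (nat_lit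 5556702653) (nat_lit 76) (nat_lit 13576848561) (nat_lit 152) (nat_lit 102563714079) (nat_lit 4) (nat_lit 5) (nat_lit 5) (nat_lit 5) (nat_lit 6) (nat_lit 4) (nat_lit 332) (nat_lit 245) (nat_lit 143))))))))
noncomputable def xc128 : XT := (XT.nd (nat_lit 1404) (nat_lit 0) (nat_lit 0) (XT.nd (nat_lit 702) (nat_lit 76) (nat_lit 0) (XT.nd (nat_lit 312) (nat_lit 0) (nat_lit 0) (XT.nd (nat_lit 156) (nat_lit 0) (nat_lit 0) (XT.nd (nat_lit 78) (nat_lit 0) (nat_lit 0) (XT.lf (nat_lit 0) (nat_lit 19887546775) (nat_lit 76) (nat_lit 6242091732) (nat_lit 152) (nat_lit 101263743602) (nat_lit 4) (nat_lit 5) (nat_lit 5) (nat_lit 5) (nat_lit 6) (nat_lit 4) (nat_lit 333) (nat_lit 245) (nat_lit 142)) (XT.lf (nat_lit 0) (nat_lit 33493393520) (nat_lit 152) (nat_lit 98471215788) (nat_lit 0) (nat_lit 1408806125) (nat_lit 4) (nat_lit 5) (nat_lit 6) (nat_lit 4) (nat_lit 4) (nat_lit 4) (nat_lit 334) (nat_lit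 245) (nat_lit 141))) (XT.nd (nat_lit 78) (nat_lit 0) (nat_lit 0) (XT.lf (nat_lit 0) (nat_lit 41322978023) (nat_lit 152) (nat_lit 89095822021) (nat_lit 0) (nat_lit 9228771943) (nat_lit 4) (nat_lit 5) (nat_lit 6) (nat_lit 4) (nat_lit 4) (nat_lit 4) (nat_lit 335) (nat_lit 245) (nat_lit 140)) (XT.lf (nat_lit 0) (nat_lit 49539577337) (nat_lit 152) (nat_lit 79259875123) (nat_lit 0) (nat_lit 17436210607) (nat_lit 4) (nat_lit 5) (nat_lit 6) (nat_lit 4) (nat_lit 4) (nat_lit 4) (nat_lit 336) (nat_lit 245) (nat_lit 139)))) (XT.nd (nat_lit 156) (nat_lit 0) (nat_lit 0) (XT.nd (nat_lit 78) (nat_lit 0) (nat_lit 0) (XT.lf (nat_lit 0) (nat_lit 58162754796) (nat_lit 152) (nat_lit 68939956172) (nat_lit 0) (nat_lit 26050663636) (nat_lit 4) (nat_lit 5) (nat_lit 6) (nat_lit 4) (nat_lit 4) (nat_lit 4) (nat_lit 337) (nat_lit 245) (nat_lit 138)) (XT.lf (nat_lit 0) (nat_lit 67213041774) (nat_lit 152) (nat_lit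 58111493934) (nat_lit 0) (nat_lit 35092641633) (nat_lit 4) (nat_lit 5) (nat_lit 6) (nat_lit 4) (nat_lit 4) (nat_lit 4) (nat_lit 338) (nat_lit 245) (nat_lit 137))) (XT.nd (nat_lit 78) (nat_lit 0) (nat_lit 0) (XT.lf (nat_lit 0) (nat_lit 76711986573) (nat_lit 152) (nat_lit 46748706354) (nat_lit 0) (nat_lit 44583673117) (nat_lit 4) (nat_lit 5) (nat_lit 6) (nat_lit 4) (nat_lit 4) (nat_lit 4) (nat_lit 339) (nat_lit 245) (nat_lit 136)) (XT.nd (nat_lit 78) (nat_lit 0) (nat_lit 0) (XT.lf (nat_lit 0) (nat_lit 86682205728) (nat_lit 152) (nat_lit 34824539177) (nat_lit 0) (nat_lit 54546355782) (nat_lit 4) (nat_lit 5) (nat_lit 6) (nat_lit 4) (nat_lit 4) (nat_lit 4) (nat_lit 340) (nat_lit 245) (nat_lit 135)) (XT.lf (nat_lit 0) (nat_lit 97147437857) (nat_lit 152) (nat_lit 22310601529) (nat_lit 0) (nat_lit 65004410301) (nat_lit 4) (nat_lit 5) (nat_lit 6) (nat_lit 4) (nat_lit 4) (nat_lit 4) (nat_lit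 341) (nat_lit 245) (nat_lit 134)))))) (XT.nd (nat_lit 312) (nat_lit 0) (nat_lit 0) (XT.nd (nat_lit 156) (nat_lit 0) (nat_lit 0) (XT.nd (nat_lit 78) (nat_lit 76) (nat_lit 0) (XT.lf (nat_lit 0) (nat_lit 108132600179) (nat_lit 152) (nat_lit 9177098319) (nat_lit 0) (nat_lit 75982736805) (nat_lit 4) (nat_lit 5) (nat_lit 6) (nat_lit 4) (nat_lit 4) (nat_lit 4) (nat_lit 342) (nat_lit 245) (nat_lit 133)) (XT.lf (nat_lit 0) (nat_lit 4759576880) (nat_lit 76) (nat_lit 114978581296) (nat_lit 76) (nat_lit 82822207617) (nat_lit 3) (nat_lit 4) (nat_lit 4) (nat_lit 5) (nat_lit 4) (nat_lit 4) (nat_lit 343) (nat_lit 245) (nat_lit 132))) (XT.nd (nat_lit 78) (nat_lit 0) (nat_lit 0) (XT.lf (nat_lit 0) (nat_lit 19705948801) (nat_lit 76) (nat_lit 112370352484) (nat_lit 76) (nat_lit 80207778516) (nat_lit 3) (nat_lit 4) (nat_lit 4) (nat_lit 5) (nat_lit 4) (nat_lit 4) (nat_lit 344) (nat_lit 245) (nat_lit 131))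 (XT.lf (nat_lit 0) (nat_lit 35394167728) (nat_lit 76) (nat_lit 109634220595) (nat_lit 76) (nat_lit 77465741590) (nat_lit 3) (nat_lit 4) (nat_lit 4) (nat_lit 5) (nat_lit 4) (nat_lit 4) (nat_lit 345) (nat_lit 245) (nat_lit 130)))) (XT.nd (nat_lit 156) (nat_lit 0) (nat_lit 0) (XT.nd (nat_lit 78) (nat_lit 0) (nat_lit 0) (XT.lf (nat_lit 0) (nat_lit 51861586561) (nat_lit 76) (nat_lit 106763671030) (nat_lit 76) (nat_lit 74589568179) (nat_lit 3) (nat_lit 4) (nat_lit 4) (nat_lit 5) (nat_lit 4) (nat_lit 4) (nat_lit 346) (nat_lit 245) (nat_lit 129)) (XT.lf (nat_lit 0) (nat_lit 69147413442) (nat_lit 76) (nat_lit 103751869146) (nat_lit 76) (nat_lit 71572410253) (nat_lit 3) (nat_lit 4) (nat_lit 4) (nat_lit 5) (nat_lit 4) (nat_lit 4) (nat_lit 347) (nat_lit 245) (nat_lit 128))) (XT.nd (nat_lit 78) (nat_lit 0) (nat_lit 0) (XT.lf (nat_lit 0) (nat_lit 87292805101) (nat_lit 76) (nat_lit 100591643988) (nat_lit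 76) (nat_lit 68407084101) (nat_lit 3) (nat_lit 4) (nat_lit 4) (nat_lit 5) (nat_lit 4) (nat_lit 4) (nat_lit 348) (nat_lit 245) (nat_lit 127)) (XT.nd (nat_lit 78) (nat_lit 0) (nat_lit 0) (XT.lf (nat_lit 0) (nat_lit 106340964851) (nat_lit 76) (nat_lit 97275471208) (nat_lit 76) (nat_lit 65086053233) (nat_lit 3) (nat_lit 4) (nat_lit 4) (nat_lit 5) (nat_lit 4) (nat_lit 4) (nat_lit 349) (nat_lit 245) (nat_lit 126)) (XT.lf (nat_lit 0) (nat_lit 126337245454) (nat_lit 76) (nat_lit 93795455159) (nat_lit 76) (nat_lit 61601410432) (nat_lit 3) (nat_lit 4) (nat_lit 4) (nat_lit 5) (nat_lit 4) (nat_lit 4) (nat_lit 350) (nat_lit 245) (nat_lit 125))))))) (XT.nd (nat_lit 702) (nat_lit 0) (nat_lit 0) (XT.nd (nat_lit 312) (nat_lit 0) (nat_lit 0) (XT.nd (nat_lit 156) (nat_lit 0) (nat_lit 0) (XT.nd (nat_lit 78) (nat_lit 0) (nat_lit 0) (XT.lf (nat_lit 0) (nat_lit 147329257102) (nat_lit 76) (nat_lit 90143310086)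 (nat_lit 76) (nat_lit 57944858930) (nat_lit 3) (nat_lit 4) (nat_lit 4) (nat_lit 5) (nat_lit 4) (nat_lit 4) (nat_lit 351) (nat_lit 245) (nat_lit 124)) (XT.lf (nat_lit 0) (nat_lit 169366980774) (nat_lit 76) (nat_lit 86310340408) (nat_lit 76) (nat_lit 54107692651) (nat_lit 3) (nat_lit 4) (nat_lit 4) (nat_lit 5) (nat_lit 4) (nat_lit 4) (nat_lit 352) (nat_lit 245) (nat_lit 123))) (XT.nd (nat_lit 78) (nat_lit 0) (nat_lit 0) (XT.lf (nat_lit 0) (nat_lit 192502887242) (nat_lit 76) (nat_lit 82287420005) (nat_lit 76) (nat_lit 50080775486) (nat_lit 3) (nat_lit 4) (nat_lit 4) (nat_lit 5) (nat_lit 4) (nat_lit 4) (nat_lit 353) (nat_lit 245) (nat_lit 122)) (XT.lf (nat_lit 0) (nat_lit 216792061997) (nat_lit 76) (nat_lit 78064970495) (nat_lit 76) (nat_lit 45854519537) (nat_lit 3) (nat_lit 4) (nat_lit 4) (nat_lit 5) (nat_lit 4) (nat_lit 4) (nat_lit 354) (nat_lit 245) (nat_lit 121)))) (XT.nd (nat_lit 156)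 (nat_lit 0) (nat_lit 0) (XT.nd (nat_lit 78) (nat_lit 0) (nat_lit 0) (XT.lf (nat_lit 0) (nat_lit 242292336408) (nat_lit 76) (nat_lit 73632938428) (nat_lit 76) (nat_lit 41418862289) (nat_lit 3) (nat_lit 4) (nat_lit 4) (nat_lit 5) (nat_lit 4) (nat_lit 4) (nat_lit 355) (nat_lit 245) (nat_lit 120)) (XT.lf (nat_lit 0) (nat_lit 269064425413) (nat_lit 76) (nat_lit 68980771346) (nat_lit 76) (nat_lit 36763242654) (nat_lit 3) (nat_lit 4) (nat_lit 4) (nat_lit 5) (nat_lit 4) (nat_lit 4) (nat_lit 356) (nat_lit 245) (nat_lit 119))) (XT.nd (nat_lit 78) (nat_lit 0) (nat_lit 0) (XT.lf (nat_lit 0) (nat_lit 297172072082) (nat_lit 76) (nat_lit 64097392660) (nat_lit 76) (nat_lit 31876575823) (nat_lit 3) (nat_lit 4) (nat_lit 4) (nat_lit 5) (nat_lit 4) (nat_lit 4) (nat_lit 357) (nat_lit 245) (nat_lit 118)) (XT.nd (nat_lit 78) (nat_lit 0) (nat_lit 0) (XT.lf (nat_lit 0) (nat_lit 326682199382) (nat_lit 76) (nat_lit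 58971175280) (nat_lit 76) (nat_lit 26747226875) (nat_lit 3) (nat_lit 4) (nat_lit 4) (nat_lit 5) (nat_lit 4) (nat_lit 4) (nat_lit 358) (nat_lit 245) (nat_lit 117)) (XT.lf (nat_lit 0) (nat_lit 357665069523) (nat_lit 76) (nat_lit 53589913924) (nat_lit 76) (nat_lit 21362983074) (nat_lit 3) (nat_lit 4) (nat_lit 4) (nat_lit 5) (nat_lit 4) (nat_lit 4) (nat_lit 359) (nat_lit 245) (nat_lit 116)))))) (XT.nd (nat_lit 28704) (nat_lit 0) (nat_lit 7448) (XT.nd (nat_lit 156) (nat_lit 0) (nat_lit 0) (XT.nd (nat_lit 78) (nat_lit 0) (nat_lit 0) (XT.lf (nat_lit 0) (nat_lit 390194451242) (nat_lit 76) (nat_lit 47940796067) (nat_lit 76) (nat_lit 15711024793) (nat_lit 3) (nat_lit 4) (nat_lit 4) (nat_lit 5) (nat_lit 4) (nat_lit 4) (nat_lit 360) (nat_lit 245) (nat_lit 115)) (XT.lf (nat_lit 0) (nat_lit 424347795447) (nat_lit 76) (nat_lit 42010371427) (nat_lit 76) (nat_lit 9777894987) (nat_lit 3) (nat_lit 4)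 (nat_lit 4) (nat_lit 5) (nat_lit 4) (nat_lit 4) (nat_lit 361) (nat_lit 245) (nat_lit 114))) (XT.nd (nat_lit 28470) (nat_lit 0) (nat_lit 7904) (XT.lf (nat_lit 0) (nat_lit 460206419626) (nat_lit 76) (nat_lit 35784519946) (nat_lit 76) (nat_lit 3549467158) (nat_lit 3) (nat_lit 4) (nat_lit 4) (nat_lit 5) (nat_lit 4) (nat_lit 4) (nat_lit 362) (nat_lit 245) (nat_lit 113)) (XT.lf (nat_lit 0) (nat_lit 457016015) (nat_lit 0) (nat_lit 457016015) (nat_lit 380) (nat_lit 2522476763) (nat_lit 107) (nat_lit 5) (nat_lit 107) (nat_lit 3) (nat_lit 112) (nat_lit 3) (nat_lit 246) (nat_lit 246) (nat_lit 228)))) (XT.nd (nat_lit 156) (nat_lit 456) (nat_lit 0) (XT.nd (nat_lit 78) (nat_lit 0) (nat_lit 0) (XT.lf (nat_lit 0) (nat_lit 3664330393) (nat_lit 380) (nat_lit 2877435464) (nat_lit 456) (nat_lit 406404768) (nat_lit 107) (nat_lit 5) (nat_lit 112) (nat_lit 3) (nat_lit 113) (nat_lit 5) (nat_lit 247) (nat_lit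 246) (nat_lit 227)) (XT.lf (nat_lit 76) (nat_lit 288276450) (nat_lit 0) (nat_lit 5210311097) (nat_lit 456) (nat_lit 1533642207) (nat_lit 108) (nat_lit 5) (nat_lit 107) (nat_lit 5) (nat_lit 113) (nat_lit 5) (nat_lit 248) (nat_lit 246) (nat_lit 226))) (XT.nd (nat_lit 78) (nat_lit 0) (nat_lit 0) (XT.lf (nat_lit 0) (nat_lit 232759173) (nat_lit 456) (nat_lit 3478641255) (nat_lit 532) (nat_lit 3412347570) (nat_lit 101) (nat_lit 5) (nat_lit 107) (nat_lit 5) (nat_lit 108) (nat_lit 5) (nat_lit 249) (nat_lit 246) (nat_lit 225)) (XT.nd (nat_lit 78) (nat_lit 0) (nat_lit 0) (XT.lf (nat_lit 0) (nat_lit 1930126691) (nat_lit 456) (nat_lit 139216513) (nat_lit 532) (nat_lit 5154927589) (nat_lit 101) (nat_lit 5) (nat_lit 107) (nat_lit 5) (nat_lit 108) (nat_lit 5) (nat_lit 250) (nat_lit 246) (nat_lit 224)) (XT.lf (nat_lit 76) (nat_lit 3415534832) (nat_lit 0) (nat_lit 249379065) (nat_lit 532) (nat_lit 3667654500)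 (nat_lit 102) (nat_lit 5) (nat_lit 101) (nat_lit 5) (nat_lit 108) (nat_lit 5) (nat_lit 251) (nat_lit 246) (nat_lit 223))))))))
noncomputable def xc129 : XT := (XT.nd (nat_lit 1404) (nat_lit 2052) (nat_lit 0) (XT.nd (nat_lit 702) (nat_lit 2204) (nat_lit 0) (XT.nd (nat_lit 312) (nat_lit 1140) (nat_lit 0) (XT.nd (nat_lit 156) (nat_lit 532) (nat_lit 0) (XT.nd (nat_lit 78) (nat_lit 0) (nat_lit 0) (XT.lf (nat_lit 0) (nat_lit 5418442994) (nat_lit 456) (nat_lit 385046956) (nat_lit 532) (nat_lit 1646549124) (nat_lit 102) (nat_lit 5) (nat_lit 108) (nat_lit 5) (nat_lit 109) (nat_lit 5) (nat_lit 252) (nat_lit 246) (nat_lit 222)) (XT.lf (nat_lit 76) (nat_lit 3364507123) (nat_lit 0) (nat_lit 3860010615) (nat_lit 532) (nat_lit 350963343) (nat_lit 103) (nat_lit 5) (nat_lit 102) (nat_lit 5) (nat_lit 109) (nat_lit 5) (nat_lit 253) (nat_lit 246) (nat_lit 221))) (XT.nd (nat_lit 78) (nat_lit 0) (nat_lit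 76) (XT.lf (nat_lit 0) (nat_lit 1284977358) (nat_lit 532) (nat_lit 479048567) (nat_lit 608) (nat_lit 5946549022) (nat_lit 95) (nat_lit 5) (nat_lit 102) (nat_lit 5) (nat_lit 103) (nat_lit 5) (nat_lit 254) (nat_lit 246) (nat_lit 220)) (XT.lf (nat_lit 0) (nat_lit 2967671926) (nat_lit 532) (nat_lit 4378788376) (nat_lit 76) (nat_lit 507132745) (nat_lit 96) (nat_lit 5) (nat_lit 103) (nat_lit 5) (nat_lit 97) (nat_lit 5) (nat_lit 255) (nat_lit 246) (nat_lit 219)))) (XT.nd (nat_lit 156) (nat_lit 684) (nat_lit 0) (XT.nd (nat_lit 78) (nat_lit 532) (nat_lit 0) (XT.lf (nat_lit 0) (nat_lit 4689330055) (nat_lit 532) (nat_lit 455001326) (nat_lit 76) (nat_lit 2861969980) (nat_lit 96) (nat_lit 5) (nat_lit 103) (nat_lit 5) (nat_lit 97) (nat_lit 5) (nat_lit 256) (nat_lit 246) (nat_lit 218)) (XT.lf (nat_lit 0) (nat_lit 3721637852) (nat_lit 532) (nat_lit 2755123633) (nat_lit 608) (nat_lit 1691166470) (nat_lit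 89) (nat_lit 5) (nat_lit 96) (nat_lit 5) (nat_lit 97) (nat_lit 5) (nat_lit 257) (nat_lit 246) (nat_lit 217))) (XT.nd (nat_lit 78) (nat_lit 684) (nat_lit 0) (XT.lf (nat_lit 0) (nat_lit 8061460035) (nat_lit 532) (nat_lit 224170017) (nat_lit 608) (nat_lit 55657199) (nat_lit 89) (nat_lit 5) (nat_lit 96) (nat_lit 5) (nat_lit 97) (nat_lit 5) (nat_lit 258) (nat_lit 246) (nat_lit 216)) (XT.nd (nat_lit 78) (nat_lit 0) (nat_lit 0) (XT.lf (nat_lit 0) (nat_lit 1639301463) (nat_lit 684) (nat_lit 4422002637) (nat_lit 76) (nat_lit 2459401435) (nat_lit 80) (nat_lit 5) (nat_lit 89) (nat_lit 5) (nat_lit 81) (nat_lit 5) (nat_lit 259) (nat_lit 246) (nat_lit 215)) (XT.lf (nat_lit 0) (nat_lit 3354900461) (nat_lit 684) (nat_lit 71772718) (nat_lit 76) (nat_lit 5285707768) (nat_lit 80) (nat_lit 5) (nat_lit 89) (nat_lit 5) (nat_lit 81) (nat_lit 5) (nat_lit 260) (nat_lit 246) (nat_lit 214)))))) (XT.nd (nat_lit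 312) (nat_lit 684) (nat_lit 0) (XT.nd (nat_lit 156) (nat_lit 456) (nat_lit 0) (XT.nd (nat_lit 78) (nat_lit 380) (nat_lit 0) (XT.lf (nat_lit 0) (nat_lit 4581535586) (nat_lit 684) (nat_lit 578913701) (nat_lit 760) (nat_lit 3753191850) (nat_lit 71) (nat_lit 5) (nat_lit 80) (nat_lit 5) (nat_lit 81) (nat_lit 5) (nat_lit 261) (nat_lit 246) (nat_lit 213)) (XT.lf (nat_lit 0) (nat_lit 251874980) (nat_lit 380) (nat_lit 6782201558) (nat_lit 456) (nat_lit 2092197274) (nat_lit 66) (nat_lit 5) (nat_lit 71) (nat_lit 5) (nat_lit 72) (nat_lit 5) (nat_lit 262) (nat_lit 246) (nat_lit 212))) (XT.nd (nat_lit 78) (nat_lit 456) (nat_lit 0) (XT.lf (nat_lit 0) (nat_lit 5143059298) (nat_lit 380) (nat_lit 3878135061) (nat_lit 456) (nat_lit 327543328) (nat_lit 66) (nat_lit 5) (nat_lit 71) (nat_lit 5) (nat_lit 72) (nat_lit 5) (nat_lit 263) (nat_lit 246) (nat_lit 211)) (XT.lf (nat_lit 0) (nat_lit 631058428) (nat_lit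 380) (nat_lit 794260381) (nat_lit 456) (nat_lit 8158547759) (nat_lit 60) (nat_lit 5) (nat_lit 65) (nat_lit 5) (nat_lit 66) (nat_lit 5) (nat_lit 264) (nat_lit 246) (nat_lit 210)))) (XT.nd (nat_lit 156) (nat_lit 380) (nat_lit 0) (XT.nd (nat_lit 78) (nat_lit 304) (nat_lit 0) (XT.lf (nat_lit 0) (nat_lit 3306238834) (nat_lit 456) (nat_lit 4080136947) (nat_lit 76) (nat_lit 2441700663) (nat_lit 60) (nat_lit 5) (nat_lit 66) (nat_lit 5) (nat_lit 61) (nat_lit 5) (nat_lit 265) (nat_lit 246) (nat_lit 209)) (XT.lf (nat_lit 0) (nat_lit 994109446) (nat_lit 304) (nat_lit 4259327261) (nat_lit 380) (nat_lit 4832604850) (nat_lit 56) (nat_lit 5) (nat_lit 60) (nat_lit 5) (nat_lit 61) (nat_lit 5) (nat_lit 266) (nat_lit 246) (nat_lit 208))) (XT.nd (nat_lit 78) (nat_lit 380) (nat_lit 0) (XT.lf (nat_lit 0) (nat_lit 6403847433) (nat_lit 304) (nat_lit 908683098) (nat_lit 380) (nat_lit 3043796480) (nat_lit 56)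 (nat_lit 5) (nat_lit 60) (nat_lit 5) (nat_lit 61) (nat_lit 5) (nat_lit 267) (nat_lit 246) (nat_lit 207)) (XT.nd (nat_lit 78) (nat_lit 76) (nat_lit 0) (XT.lf (nat_lit 0) (nat_lit 1387943124) (nat_lit 304) (nat_lit 8097003341) (nat_lit 380) (nat_lit 1154803700) (nat_lit 52) (nat_lit 5) (nat_lit 56) (nat_lit 5) (nat_lit 57) (nat_lit 5) (nat_lit 268) (nat_lit 246) (nat_lit 206)) (XT.lf (nat_lit 0) (nat_lit 833607437) (nat_lit 380) (nat_lit 3890871274) (nat_lit 76) (nat_lit 6210772997) (nat_lit 51) (nat_lit 5) (nat_lit 56) (nat_lit 5) (nat_lit 52) (nat_lit 5) (nat_lit 269) (nat_lit 246) (nat_lit 205))))))) (XT.nd (nat_lit 702) (nat_lit 836) (nat_lit 0) (XT.nd (nat_lit 312) (nat_lit 684) (nat_lit 0) (XT.nd (nat_lit 156) (nat_lit 304) (nat_lit 0) (XT.nd (nat_lit 78) (nat_lit 0) (nat_lit 0) (XT.lf (nat_lit 0) (nat_lit 1716449919) (nat_lit 228) (nat_lit 1143987786) (nat_lit 304) (nat_lit 8385376177)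 (nat_lit 48) (nat_lit 5) (nat_lit 51) (nat_lit 5) (nat_lit 52) (nat_lit 5) (nat_lit 270) (nat_lit 246) (nat_lit 204)) (XT.lf (nat_lit 0) (nat_lit 5048731724) (nat_lit 304) (nat_lit 3930393459) (nat_lit 76) (nat_lit 2589889528) (nat_lit 48) (nat_lit 5) (nat_lit 52) (nat_lit 5) (nat_lit 49) (nat_lit 5) (nat_lit 271) (nat_lit 246) (nat_lit 203))) (XT.nd (nat_lit 78) (nat_lit 0) (nat_lit 0) (XT.lf (nat_lit 0) (nat_lit 1935444183) (nat_lit 304) (nat_lit 5414551204) (nat_lit 380) (nat_lit 4558313549) (nat_lit 44) (nat_lit 5) (nat_lit 48) (nat_lit 5) (nat_lit 49) (nat_lit 5) (nat_lit 272) (nat_lit 246) (nat_lit 202)) (XT.lf (nat_lit 0) (nat_lit 8175661947) (nat_lit 304) (nat_lit 1613105019) (nat_lit 380) (nat_lit 2474784483) (nat_lit 44) (nat_lit 5) (nat_lit 48) (nat_lit 5) (nat_lit 49) (nat_lit 5) (nat_lit 273) (nat_lit 246) (nat_lit 201)))) (XT.nd (nat_lit 156) (nat_lit 380) (nat_lit 0)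 (XT.nd (nat_lit 78) (nat_lit 76) (nat_lit 0) (XT.lf (nat_lit 0) (nat_lit 2065547151) (nat_lit 228) (nat_lit 10311127897) (nat_lit 304) (nat_lit 258621918) (nat_lit 41) (nat_lit 5) (nat_lit 44) (nat_lit 5) (nat_lit 45) (nat_lit 5) (nat_lit 274) (nat_lit 246) (nat_lit 200)) (XT.lf (nat_lit 0) (nat_lit 2057175850) (nat_lit 304) (nat_lit 4468815997) (nat_lit 76) (nat_lit 6495363324) (nat_lit 40) (nat_lit 5) (nat_lit 44) (nat_lit 5) (nat_lit 41) (nat_lit 5) (nat_lit 275) (nat_lit 246) (nat_lit 199))) (XT.nd (nat_lit 78) (nat_lit 152) (nat_lit 0) (XT.lf (nat_lit 0) (nat_lit 1942375136) (nat_lit 228) (nat_lit 2528230037) (nat_lit 304) (nat_lit 8956459526) (nat_lit 37) (nat_lit 5) (nat_lit 40) (nat_lit 5) (nat_lit 41) (nat_lit 5) (nat_lit 276) (nat_lit 246) (nat_lit 198)) (XT.nd (nat_lit 78) (nat_lit 152) (nat_lit 0) (XT.lf (nat_lit 0) (nat_lit 7068779308) (nat_lit 304) (nat_lit 5100987958)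 (nat_lit 76) (nat_lit 1680171676) (nat_lit 37) (nat_lit 5) (nat_lit 41) (nat_lit 5) (nat_lit 38) (nat_lit 5) (nat_lit 277) (nat_lit 246) (nat_lit 197)) (XT.lf (nat_lit 0) (nat_lit 1559233391) (nat_lit 152) (nat_lit 8266358946) (nat_lit 228) (nat_lit 4467007012) (nat_lit 35) (nat_lit 5) (nat_lit 37) (nat_lit 5) (nat_lit 38) (nat_lit 5) (nat_lit 278) (nat_lit 246) (nat_lit 196)))))) (XT.nd (nat_lit 312) (nat_lit 532) (nat_lit 0) (XT.nd (nat_lit 156) (nat_lit 0) (nat_lit 0) (XT.nd (nat_lit 78) (nat_lit 304) (nat_lit 0) (XT.lf (nat_lit 0) (nat_lit 8679261028) (nat_lit 152) (nat_lit 4091291934) (nat_lit 228) (nat_lit 1984399666) (nat_lit 35) (nat_lit 5) (nat_lit 37) (nat_lit 5) (nat_lit 38) (nat_lit 5) (nat_lit 279) (nat_lit 246) (nat_lit 195)) (XT.lf (nat_lit 0) (nat_lit 585962989) (nat_lit 304) (nat_lit 14361473241) (nat_lit 76) (nat_lit 293392543) (nat_lit 31) (nat_lit 5) (nat_lit 35)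 (nat_lit 5) (nat_lit 32) (nat_lit 5) (nat_lit 280) (nat_lit 246) (nat_lit 194))) (XT.nd (nat_lit 78) (nat_lit 0) (nat_lit 0) (XT.lf (nat_lit 0) (nat_lit 3355500823) (nat_lit 304) (nat_lit 7503936810) (nat_lit 76) (nat_lit 4883132201) (nat_lit 31) (nat_lit 5) (nat_lit 35) (nat_lit 5) (nat_lit 32) (nat_lit 5) (nat_lit 281) (nat_lit 246) (nat_lit 193)) (XT.lf (nat_lit 0) (nat_lit 6230843119) (nat_lit 304) (nat_lit 351031974) (nat_lit 76) (nat_lit 9689218343) (nat_lit 31) (nat_lit 5) (nat_lit 35) (nat_lit 5) (nat_lit 32) (nat_lit 5) (nat_lit 282) (nat_lit 246) (nat_lit 192)))) (XT.nd (nat_lit 156) (nat_lit 380) (nat_lit 0) (XT.nd (nat_lit 78) (nat_lit 0) (nat_lit 0) (XT.lf (nat_lit 0) (nat_lit 7349501952) (nat_lit 152) (nat_lit 1984080301) (nat_lit 228) (nat_lit 7488338400) (nat_lit 29) (nat_lit 5) (nat_lit 31) (nat_lit 5) (nat_lit 32) (nat_lit 5) (nat_lit 283) (nat_lit 246) (nat_lit 191))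 (XT.lf (nat_lit 0) (nat_lit 12611345958) (nat_lit 228) (nat_lit 2043103914) (nat_lit 76) (nat_lit 2744901092) (nat_lit 29) (nat_lit 5) (nat_lit 32) (nat_lit 5) (nat_lit 30) (nat_lit 5) (nat_lit 284) (nat_lit 246) (nat_lit 190))) (XT.nd (nat_lit 78) (nat_lit 228) (nat_lit 0) (XT.lf (nat_lit 0) (nat_lit 5869322387) (nat_lit 152) (nat_lit 10278741394) (nat_lit 228) (nat_lit 1852889156) (nat_lit 27) (nat_lit 5) (nat_lit 29) (nat_lit 5) (nat_lit 30) (nat_lit 5) (nat_lit 285) (nat_lit 246) (nat_lit 189)) (XT.nd (nat_lit 78) (nat_lit 152) (nat_lit 0) (XT.lf (nat_lit 0) (nat_lit 1195918994) (nat_lit 228) (nat_lit 4446340736) (nat_lit 76) (nat_lit 12989150778) (nat_lit 26) (nat_lit 5) (nat_lit 29) (nat_lit 5) (nat_lit 27) (nat_lit 5) (nat_lit 286) (nat_lit 246) (nat_lit 188)) (XT.lf (nat_lit 0) (nat_lit 3668360549) (nat_lit 152) (nat_lit 696290632) (nat_lit 228) (nat_lit 14925779538) (nat_lit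 24) (nat_lit 5) (nat_lit 26) (nat_lit 5) (nat_lit 27) (nat_lit 5) (nat_lit 287) (nat_lit 246) (nat_lit 187))))))))
noncomputable def xc130 : XT := (XT.nd (nat_lit 1404) (nat_lit 456) (nat_lit 0) (XT.nd (nat_lit 702) (nat_lit 380) (nat_lit 0) (XT.nd (nat_lit 312) (nat_lit 304) (nat_lit 0) (XT.nd (nat_lit 156) (nat_lit 0) (nat_lit 0) (XT.nd (nat_lit 78) (nat_lit 152) (nat_lit 0) (XT.lf (nat_lit 0) (nat_lit 7811488102) (nat_lit 228) (nat_lit 7749293009) (nat_lit 76) (nat_lit 4415681391) (nat_lit 24) (nat_lit 5) (nat_lit 27) (nat_lit 5) (nat_lit 25) (nat_lit 5) (nat_lit 288) (nat_lit 246) (nat_lit 186)) (XT.lf (nat_lit 0) (nat_lit 480737810) (nat_lit 152) (nat_lit 10943061072) (nat_lit 228) (nat_lit 9273382265) (nat_lit 22) (nat_lit 5) (nat_lit 24) (nat_lit 5) (nat_lit 25) (nat_lit 5) (nat_lit 289) (nat_lit 246) (nat_lit 185))) (XT.nd (nat_lit 78) (nat_lit 0) (nat_lit 0) (XT.lf (nat_lit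 0) (nat_lit 9351601839) (nat_lit 152) (nat_lit 5971181225) (nat_lit 228) (nat_lit 6125889646) (nat_lit 22) (nat_lit 5) (nat_lit 24) (nat_lit 5) (nat_lit 25) (nat_lit 5) (nat_lit 290) (nat_lit 246) (nat_lit 184)) (XT.lf (nat_lit 0) (nat_lit 18628193556) (nat_lit 152) (nat_lit 764541789) (nat_lit 228) (nat_lit 2846240543) (nat_lit 22) (nat_lit 5) (nat_lit 24) (nat_lit 5) (nat_lit 25) (nat_lit 5) (nat_lit 291) (nat_lit 246) (nat_lit 183)))) (XT.nd (nat_lit 156) (nat_lit 152) (nat_lit 0) (XT.nd (nat_lit 78) (nat_lit 0) (nat_lit 0) (XT.lf (nat_lit 0) (nat_lit 714507176) (nat_lit 152) (nat_lit 17712650191) (nat_lit 76) (nat_lit 4634393140) (nat_lit 20) (nat_lit 5) (nat_lit 22) (nat_lit 5) (nat_lit 21) (nat_lit 5) (nat_lit 292) (nat_lit 246) (nat_lit 182)) (XT.lf (nat_lit 0) (nat_lit 4409408117) (nat_lit 152) (nat_lit 9137647862) (nat_lit 76) (nat_lit 10373309294) (nat_lit 20) (nat_lit 5)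 (nat_lit 22) (nat_lit 5) (nat_lit 21) (nat_lit 5) (nat_lit 293) (nat_lit 246) (nat_lit 181))) (XT.nd (nat_lit 78) (nat_lit 152) (nat_lit 0) (XT.lf (nat_lit 0) (nat_lit 8267227341) (nat_lit 152) (nat_lit 169306094) (nat_lit 76) (nat_lit 16386709926) (nat_lit 20) (nat_lit 5) (nat_lit 22) (nat_lit 5) (nat_lit 21) (nat_lit 5) (nat_lit 294) (nat_lit 246) (nat_lit 180)) (XT.nd (nat_lit 78) (nat_lit 0) (nat_lit 0) (XT.lf (nat_lit 0) (nat_lit 9518375774) (nat_lit 152) (nat_lit 2927382880) (nat_lit 228) (nat_lit 13319145403) (nat_lit 18) (nat_lit 5) (nat_lit 20) (nat_lit 5) (nat_lit 21) (nat_lit 5) (nat_lit 295) (nat_lit 246) (nat_lit 179)) (XT.lf (nat_lit 0) (nat_lit 16860223695) (nat_lit 228) (nat_lit 7135864834) (nat_lit 76) (nat_lit 2756237242) (nat_lit 18) (nat_lit 5) (nat_lit 21) (nat_lit 5) (nat_lit 19) (nat_lit 4) (nat_lit 296) (nat_lit 246) (nat_lit 178)))))) (XT.nd (nat_lit 312) (nat_lit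 76) (nat_lit 0) (XT.nd (nat_lit 156) (nat_lit 228) (nat_lit 0) (XT.nd (nat_lit 78) (nat_lit 0) (nat_lit 0) (XT.lf (nat_lit 0) (nat_lit 2427637883) (nat_lit 76) (nat_lit 19134126775) (nat_lit 152) (nat_lit 6224063273) (nat_lit 17) (nat_lit 5) (nat_lit 18) (nat_lit 5) (nat_lit 19) (nat_lit 4) (nat_lit 297) (nat_lit 246) (nat_lit 177)) (XT.lf (nat_lit 0) (nat_lit 12685175894) (nat_lit 76) (nat_lit 13914949352) (nat_lit 152) (nat_lit 2265818528) (nat_lit 17) (nat_lit 5) (nat_lit 18) (nat_lit 5) (nat_lit 19) (nat_lit 4) (nat_lit 298) (nat_lit 246) (nat_lit 176))) (XT.nd (nat_lit 78) (nat_lit 152) (nat_lit 0) (XT.lf (nat_lit 0) (nat_lit 1811316908) (nat_lit 152) (nat_lit 6604986537) (nat_lit 76) (nat_lit 21583235555) (nat_lit 16) (nat_lit 5) (nat_lit 18) (nat_lit 5) (nat_lit 17) (nat_lit 5) (nat_lit 299) (nat_lit 246) (nat_lit 175)) (XT.lf (nat_lit 0) (nat_lit 3494771486) (nat_lit 152) (nat_lit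 2558317389) (nat_lit 228) (nat_lit 25133043782) (nat_lit 14) (nat_lit 5) (nat_lit 16) (nat_lit 5) (nat_lit 17) (nat_lit 5) (nat_lit 300) (nat_lit 246) (nat_lit 174)))) (XT.nd (nat_lit 156) (nat_lit 76) (nat_lit 0) (XT.nd (nat_lit 78) (nat_lit 0) (nat_lit 0) (XT.lf (nat_lit 0) (nat_lit 10659297039) (nat_lit 228) (nat_lit 18185304930) (nat_lit 76) (nat_lit 3579857799) (nat_lit 14) (nat_lit 5) (nat_lit 17) (nat_lit 5) (nat_lit 15) (nat_lit 4) (nat_lit 301) (nat_lit 246) (nat_lit 173)) (XT.lf (nat_lit 0) (nat_lit 15521150621) (nat_lit 228) (nat_lit 8274214734) (nat_lit 76) (nat_lit 9928091270) (nat_lit 14) (nat_lit 5) (nat_lit 17) (nat_lit 5) (nat_lit 15) (nat_lit 4) (nat_lit 302) (nat_lit 246) (nat_lit 172))) (XT.nd (nat_lit 78) (nat_lit 0) (nat_lit 0) (XT.lf (nat_lit 0) (nat_lit 2175065430) (nat_lit 76) (nat_lit 18469176396) (nat_lit 152) (nat_lit 14442273435) (nat_lit 13) (nat_lit 5)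 (nat_lit 14) (nat_lit 5) (nat_lit 15) (nat_lit 4) (nat_lit 303) (nat_lit 246) (nat_lit 171)) (XT.nd (nat_lit 78) (nat_lit 0) (nat_lit 0) (XT.lf (nat_lit 0) (nat_lit 13407526602) (nat_lit 76) (nat_lit 12740613500) (nat_lit 152) (nat_lit 10363372371) (nat_lit 13) (nat_lit 5) (nat_lit 14) (nat_lit 5) (nat_lit 15) (nat_lit 4) (nat_lit 304) (nat_lit 246) (nat_lit 170)) (XT.lf (nat_lit 0) (nat_lit 25176329829) (nat_lit 76) (nat_lit 6736165060) (nat_lit 152) (nat_lit 6096018974) (nat_lit 13) (nat_lit 5) (nat_lit 14) (nat_lit 5) (nat_lit 15) (nat_lit 4) (nat_lit 305) (nat_lit 246) (nat_lit 169))))))) (XT.nd (nat_lit 702) (nat_lit 228) (nat_lit 0) (XT.nd (nat_lit 312) (nat_lit 76) (nat_lit 0) (XT.nd (nat_lit 156) (nat_lit 0) (nat_lit 0) (XT.nd (nat_lit 78) (nat_lit 152) (nat_lit 0) (XT.lf (nat_lit 0) (nat_lit 37509496072) (nat_lit 76) (nat_lit 441534772) (nat_lit 152) (nat_lit 1630052879) (nat_lit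 13) (nat_lit 5) (nat_lit 14) (nat_lit 5) (nat_lit 15) (nat_lit 4) (nat_lit 306) (nat_lit 246) (nat_lit 168)) (XT.lf (nat_lit 0) (nat_lit 3194718622) (nat_lit 152) (nat_lit 31863938372) (nat_lit 76) (nat_lit 6159580921) (nat_lit 11) (nat_lit 5) (nat_lit 13) (nat_lit 5) (nat_lit 12) (nat_lit 4) (nat_lit 307) (nat_lit 246) (nat_lit 167))) (XT.nd (nat_lit 78) (nat_lit 0) (nat_lit 0) (XT.lf (nat_lit 0) (nat_lit 8235379256) (nat_lit 152) (nat_lit 21570175879) (nat_lit 76) (nat_lit 13128901335) (nat_lit 11) (nat_lit 5) (nat_lit 13) (nat_lit 5) (nat_lit 12) (nat_lit 4) (nat_lit 308) (nat_lit 246) (nat_lit 166)) (XT.lf (nat_lit 0) (nat_lit 13515248417) (nat_lit 152) (nat_lit 10784150580) (nat_lit 76) (nat_lit 20437741814) (nat_lit 11) (nat_lit 5) (nat_lit 13) (nat_lit 5) (nat_lit 12) (nat_lit 4) (nat_lit 309) (nat_lit 246) (nat_lit 165)))) (XT.nd (nat_lit 156) (nat_lit 0) (nat_lit 0) (XT.nd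 (nat_lit 78) (nat_lit 0) (nat_lit 0) (XT.lf (nat_lit 0) (nat_lit 537006084) (nat_lit 76) (nat_lit 18518275309) (nat_lit 152) (nat_lit 27574882443) (nat_lit 10) (nat_lit 5) (nat_lit 11) (nat_lit 5) (nat_lit 12) (nat_lit 4) (nat_lit 310) (nat_lit 246) (nat_lit 164)) (XT.lf (nat_lit 0) (nat_lit 12777608969) (nat_lit 76) (nat_lit 12265381583) (nat_lit 152) (nat_lit 23566326098) (nat_lit 10) (nat_lit 5) (nat_lit 11) (nat_lit 5) (nat_lit 12) (nat_lit 4) (nat_lit 311) (nat_lit 246) (nat_lit 163))) (XT.nd (nat_lit 78) (nat_lit 0) (nat_lit 0) (XT.lf (nat_lit 0) (nat_lit 25610229644) (nat_lit 76) (nat_lit 5708464787) (nat_lit 152) (nat_lit 19369313987) (nat_lit 10) (nat_lit 5) (nat_lit 11) (nat_lit 5) (nat_lit 12) (nat_lit 4) (nat_lit 312) (nat_lit 246) (nat_lit 162)) (XT.nd (nat_lit 78) (nat_lit 0) (nat_lit 0) (XT.lf (nat_lit 0) (nat_lit 37915572291) (nat_lit 152) (nat_lit 13824003547) (nat_lit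 0) (nat_lit 1130700713) (nat_lit 10) (nat_lit 5) (nat_lit 12) (nat_lit 4) (nat_lit 10) (nat_lit 4) (nat_lit 313) (nat_lit 246) (nat_lit 161)) (XT.lf (nat_lit 0) (nat_lit 44925421606) (nat_lit 152) (nat_lit 2119677919) (nat_lit 0) (nat_lit 8112412870) (nat_lit 10) (nat_lit 5) (nat_lit 12) (nat_lit 4) (nat_lit 10) (nat_lit 4) (nat_lit 314) (nat_lit 246) (nat_lit 160)))))) (XT.nd (nat_lit 312) (nat_lit 76) (nat_lit 0) (XT.nd (nat_lit 156) (nat_lit 0) (nat_lit 0) (XT.nd (nat_lit 78) (nat_lit 76) (nat_lit 0) (XT.lf (nat_lit 0) (nat_lit 10487867958) (nat_lit 76) (nat_lit 41951684412) (nat_lit 76) (nat_lit 5111878384) (nat_lit 9) (nat_lit 4) (nat_lit 10) (nat_lit 5) (nat_lit 10) (nat_lit 4) (nat_lit 315) (nat_lit 246) (nat_lit 159)) (XT.lf (nat_lit 0) (nat_lit 282447541) (nat_lit 152) (nat_lit 36286309799) (nat_lit 76) (nat_lit 23494762382) (nat_lit 8) (nat_lit 5) (nat_lit 10) (nat_lit 5)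 (nat_lit 9) (nat_lit 4) (nat_lit 316) (nat_lit 246) (nat_lit 158))) (XT.nd (nat_lit 78) (nat_lit 0) (nat_lit 0) (XT.lf (nat_lit 0) (nat_lit 5765246958) (nat_lit 152) (nat_lit 25070876929) (nat_lit 76) (nat_lit 31861380483) (nat_lit 8) (nat_lit 5) (nat_lit 10) (nat_lit 5) (nat_lit 9) (nat_lit 4) (nat_lit 317) (nat_lit 246) (nat_lit 157)) (XT.lf (nat_lit 0) (nat_lit 11513186183) (nat_lit 152) (nat_lit 13310750028) (nat_lit 76) (nat_lit 40639710417) (nat_lit 8) (nat_lit 5) (nat_lit 10) (nat_lit 5) (nat_lit 9) (nat_lit 4) (nat_lit 318) (nat_lit 246) (nat_lit 156)))) (XT.nd (nat_lit 156) (nat_lit 0) (nat_lit 0) (XT.nd (nat_lit 78) (nat_lit 76) (nat_lit 0) (XT.lf (nat_lit 0) (nat_lit 17539950784) (nat_lit 152) (nat_lit 977928794) (nat_lit 76) (nat_lit 49850652971) (nat_lit 8) (nat_lit 5) (nat_lit 10) (nat_lit 5) (nat_lit 9) (nat_lit 4) (nat_lit 319) (nat_lit 246) (nat_lit 155)) (XT.lf (nat_lit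 0) (nat_lit 12352301421) (nat_lit 76) (nat_lit 11700442824) (nat_lit 152) (nat_lit 47356691581) (nat_lit 7) (nat_lit 5) (nat_lit 8) (nat_lit 5) (nat_lit 9) (nat_lit 4) (nat_lit 320) (nat_lit 246) (nat_lit 154))) (XT.nd (nat_lit 78) (nat_lit 0) (nat_lit 0) (XT.lf (nat_lit 0) (nat_lit 26368646965) (nat_lit 76) (nat_lit 4531093425) (nat_lit 152) (nat_lit 43702222956) (nat_lit 7) (nat_lit 5) (nat_lit 8) (nat_lit 5) (nat_lit 9) (nat_lit 4) (nat_lit 321) (nat_lit 246) (nat_lit 153)) (XT.nd (nat_lit 78) (nat_lit 0) (nat_lit 0) (XT.lf (nat_lit 0) (nat_lit 38128161392) (nat_lit 152) (nat_lit 36929052516) (nat_lit 0) (nat_lit 2894956467) (nat_lit 7) (nat_lit 5) (nat_lit 9) (nat_lit 4) (nat_lit 7) (nat_lit 4) (nat_lit 322) (nat_lit 246) (nat_lit 152)) (XT.lf (nat_lit 0) (nat_lit 45784938710) (nat_lit 152) (nat_lit 25147148829) (nat_lit 0) (nat_lit 10534460011) (nat_lit 7) (nat_lit 5) (nat_lit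 9) (nat_lit 4) (nat_lit 7) (nat_lit 4) (nat_lit 323) (nat_lit 246) (nat_lit 151))))))))
noncomputable def xc131 : XT := (XT.nd (nat_lit 1404) (nat_lit 76) (nat_lit 0) (XT.nd (nat_lit 702) (nat_lit 76) (nat_lit 0) (XT.nd (nat_lit 312) (nat_lit 76) (nat_lit 0) (XT.nd (nat_lit 156) (nat_lit 0) (nat_lit 0) (XT.nd (nat_lit 78) (nat_lit 76) (nat_lit 0) (XT.lf (nat_lit 0) (nat_lit 53817559700) (nat_lit 152) (nat_lit 12788810101) (nat_lit 0) (nat_lit 18550629788) (nat_lit 7) (nat_lit 5) (nat_lit 9) (nat_lit 4) (nat_lit 7) (nat_lit 4) (nat_lit 324) (nat_lit 246) (nat_lit 150)) (XT.lf (nat_lit 0) (nat_lit 181187410) (nat_lit 76) (nat_lit 62066791082) (nat_lit 76) (nat_lit 26784193348) (nat_lit 6) (nat_lit 4) (nat_lit 7) (nat_lit 5) (nat_lit 7) (nat_lit 4) (nat_lit 325) (nat_lit 246) (nat_lit 149))) (XT.nd (nat_lit 78) (nat_lit 0) (nat_lit 0) (XT.lf (nat_lit 0) (nat_lit 14231820598) (nat_lit 76)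 (nat_lit 57078152254) (nat_lit 76) (nat_lit 21780632784) (nat_lit 6) (nat_lit 4) (nat_lit 7) (nat_lit 5) (nat_lit 7) (nat_lit 4) (nat_lit 326) (nat_lit 246) (nat_lit 148)) (XT.lf (nat_lit 0) (nat_lit 28973687534) (nat_lit 76) (nat_lit 51845160293) (nat_lit 76) (nat_lit 16533429646) (nat_lit 6) (nat_lit 4) (nat_lit 7) (nat_lit 5) (nat_lit 7) (nat_lit 4) (nat_lit 327) (nat_lit 246) (nat_lit 147)))) (XT.nd (nat_lit 156) (nat_lit 76) (nat_lit 0) (XT.nd (nat_lit 78) (nat_lit 0) (nat_lit 0) (XT.lf (nat_lit 0) (nat_lit 44441887900) (nat_lit 76) (nat_lit 46355355694) (nat_lit 76) (nat_lit 11030090594) (nat_lit 6) (nat_lit 4) (nat_lit 7) (nat_lit 5) (nat_lit 7) (nat_lit 4) (nat_lit 328) (nat_lit 246) (nat_lit 146)) (XT.lf (nat_lit 0) (nat_lit 60673250744) (nat_lit 76) (nat_lit 40595667495) (nat_lit 76) (nat_lit 5257512438) (nat_lit 6) (nat_lit 4) (nat_lit 7) (nat_lit 5) (nat_lit 7) (nat_lit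 4) (nat_lit 329) (nat_lit 246) (nat_lit 145))) (XT.nd (nat_lit 78) (nat_lit 0) (nat_lit 0) (XT.lf (nat_lit 0) (nat_lit 772506500) (nat_lit 152) (nat_lit 33766792879) (nat_lit 76) (nat_lit 76920832898) (nat_lit 5) (nat_lit 5) (nat_lit 7) (nat_lit 5) (nat_lit 6) (nat_lit 4) (nat_lit 330) (nat_lit 246) (nat_lit 144)) (XT.nd (nat_lit 78) (nat_lit 0) (nat_lit 0) (XT.lf (nat_lit 0) (nat_lit 6922134847) (nat_lit 152) (nat_lit 21171746338) (nat_lit 76) (nat_lit 88542592795) (nat_lit 5) (nat_lit 5) (nat_lit 7) (nat_lit 5) (nat_lit 6) (nat_lit 4) (nat_lit 331) (nat_lit 246) (nat_lit 143)) (XT.lf (nat_lit 0) (nat_lit 13374287807) (nat_lit 152) (nat_lit 7955967599) (nat_lit 76) (nat_lit 100741629228) (nat_lit 5) (nat_lit 5) (nat_lit 7) (nat_lit 5) (nat_lit 6) (nat_lit 4) (nat_lit 332) (nat_lit 246) (nat_lit 142)))))) (XT.nd (nat_lit 312) (nat_lit 0) (nat_lit 0) (XT.nd (nat_lit 156) (nat_lit 0)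 (nat_lit 0) (XT.nd (nat_lit 78) (nat_lit 0) (nat_lit 0) (XT.lf (nat_lit 0) (nat_lit 6107487208) (nat_lit 76) (nat_lit 14132195431) (nat_lit 152) (nat_lit 107534855304) (nat_lit 4) (nat_lit 5) (nat_lit 5) (nat_lit 5) (nat_lit 6) (nat_lit 4) (nat_lit 333) (nat_lit 246) (nat_lit 141)) (XT.lf (nat_lit 0) (nat_lit 21141875945) (nat_lit 76) (nat_lit 6436581501) (nat_lit 152) (nat_lit 106177364612) (nat_lit 4) (nat_lit 5) (nat_lit 5) (nat_lit 5) (nat_lit 6) (nat_lit 4) (nat_lit 334) (nat_lit 246) (nat_lit 140))) (XT.nd (nat_lit 78) (nat_lit 0) (nat_lit 0) (XT.lf (nat_lit 0) (nat_lit 35305371110) (nat_lit 152) (nat_lit 103142067348) (nat_lit 0) (nat_lit 1587675392) (nat_lit 4) (nat_lit 5) (nat_lit 6) (nat_lit 4) (nat_lit 4) (nat_lit 4) (nat_lit 335) (nat_lit 246) (nat_lit 139)) (XT.lf (nat_lit 0) (nat_lit 43519896366) (nat_lit 152) (nat_lit 93309937665) (nat_lit 0) (nat_lit 9793476218) (nat_lit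 4) (nat_lit 5) (nat_lit 6) (nat_lit 4) (nat_lit 4) (nat_lit 4) (nat_lit 336) (nat_lit 246) (nat_lit 138)))) (XT.nd (nat_lit 156) (nat_lit 0) (nat_lit 0) (XT.nd (nat_lit 78) (nat_lit 0) (nat_lit 0) (XT.lf (nat_lit 0) (nat_lit 52141098530) (nat_lit 152) (nat_lit 82993654158) (nat_lit 0) (nat_lit 18406369401) (nat_lit 4) (nat_lit 5) (nat_lit 6) (nat_lit 4) (nat_lit 4) (nat_lit 4) (nat_lit 337) (nat_lit 246) (nat_lit 137)) (XT.lf (nat_lit 0) (nat_lit 61189504274) (nat_lit 152) (nat_lit 72168654247) (nat_lit 0) (nat_lit 27446861831) (nat_lit 4) (nat_lit 5) (nat_lit 6) (nat_lit 4) (nat_lit 4) (nat_lit 4) (nat_lit 338) (nat_lit 246) (nat_lit 136))) (XT.nd (nat_lit 78) (nat_lit 0) (nat_lit 0) (XT.lf (nat_lit 0) (nat_lit 70686657423) (nat_lit 152) (nat_lit 60809164122) (nat_lit 0) (nat_lit 36936478489) (nat_lit 4) (nat_lit 5) (nat_lit 6) (nat_lit 4) (nat_lit 4) (nat_lit 4) (nat_lit 339) (nat_lit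 246) (nat_lit 135)) (XT.nd (nat_lit 78) (nat_lit 0) (nat_lit 0) (XT.lf (nat_lit 0) (nat_lit 80655170245) (nat_lit 152) (nat_lit 48888137378) (nat_lit 0) (nat_lit 46897813701) (nat_lit 4) (nat_lit 5) (nat_lit 6) (nat_lit 4) (nat_lit 4) (nat_lit 4) (nat_lit 340) (nat_lit 246) (nat_lit 134)) (XT.lf (nat_lit 0) (nat_lit 91118777294) (nat_lit 152) (nat_lit 36377190618) (nat_lit 0) (nat_lit 57354584932) (nat_lit 4) (nat_lit 5) (nat_lit 6) (nat_lit 4) (nat_lit 4) (nat_lit 4) (nat_lit 341) (nat_lit 246) (nat_lit 133))))))) (XT.nd (nat_lit 702) (nat_lit 0) (nat_lit 0) (XT.nd (nat_lit 312) (nat_lit 0) (nat_lit 0) (XT.nd (nat_lit 156) (nat_lit 76) (nat_lit 0) (XT.nd (nat_lit 78) (nat_lit 0) (nat_lit 0) (XT.lf (nat_lit 0) (nat_lit 102102391921) (nat_lit 152) (nat_lit 23246535874) (nat_lit 0) (nat_lit 68331689255) (nat_lit 4) (nat_lit 5) (nat_lit 6) (nat_lit 4) (nat_lit 4) (nat_lit 4) (nat_lit 342)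 (nat_lit 246) (nat_lit 132)) (XT.lf (nat_lit 0) (nat_lit 113632165589) (nat_lit 152) (nat_lit 9464909681) (nat_lit 0) (nat_lit 79855262634) (nat_lit 4) (nat_lit 5) (nat_lit 6) (nat_lit 4) (nat_lit 4) (nat_lit 4) (nat_lit 343) (nat_lit 246) (nat_lit 131))) (XT.nd (nat_lit 78) (nat_lit 0) (nat_lit 0) (XT.lf (nat_lit 0) (nat_lit 5165840511) (nat_lit 76) (nat_lit 120650362877) (nat_lit 76) (nat_lit 86867554884) (nat_lit 3) (nat_lit 4) (nat_lit 4) (nat_lit 5) (nat_lit 4) (nat_lit 4) (nat_lit 344) (nat_lit 246) (nat_lit 130)) (XT.lf (nat_lit 0) (nat_lit 20851517467) (nat_lit 76) (nat_lit 117915396314) (nat_lit 76) (nat_lit 84126964475) (nat_lit 3) (nat_lit 4) (nat_lit 4) (nat_lit 5) (nat_lit 4) (nat_lit 4) (nat_lit 345) (nat_lit 246) (nat_lit 129)))) (XT.nd (nat_lit 156) (nat_lit 0) (nat_lit 0) (XT.nd (nat_lit 78) (nat_lit 0) (nat_lit 0) (XT.lf (nat_lit 0) (nat_lit 37316515376) (nat_lit 76)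 (nat_lit 115045956583) (nat_lit 76) (nat_lit 81252168701) (nat_lit 3) (nat_lit 4) (nat_lit 4) (nat_lit 5) (nat_lit 4) (nat_lit 4) (nat_lit 346) (nat_lit 246) (nat_lit 128)) (XT.lf (nat_lit 0) (nat_lit 54600036615) (nat_lit 76) (nat_lit 112035211684) (nat_lit 76) (nat_lit 78236322810) (nat_lit 3) (nat_lit 4) (nat_lit 4) (nat_lit 5) (nat_lit 4) (nat_lit 4) (nat_lit 347) (nat_lit 246) (nat_lit 127))) (XT.nd (nat_lit 78) (nat_lit 0) (nat_lit 0) (XT.lf (nat_lit 0) (nat_lit 72743232425) (nat_lit 76) (nat_lit 108875993178) (nat_lit 76) (nat_lit 75072246214) (nat_lit 3) (nat_lit 4) (nat_lit 4) (nat_lit 5) (nat_lit 4) (nat_lit 4) (nat_lit 348) (nat_lit 246) (nat_lit 126)) (XT.nd (nat_lit 78) (nat_lit 0) (nat_lit 0) (XT.lf (nat_lit 0) (nat_lit 91789300890) (nat_lit 76) (nat_lit 105560779115) (nat_lit 76) (nat_lit 71752405400) (nat_lit 3) (nat_lit 4) (nat_lit 4) (nat_lit 5) (nat_lit 4) (nat_lit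 4) (nat_lit 349) (nat_lit 246) (nat_lit 125)) (XT.lf (nat_lit 0) (nat_lit 111783589792) (nat_lit 76) (nat_lit 102081676128) (nat_lit 76) (nat_lit 68268895984) (nat_lit 3) (nat_lit 4) (nat_lit 4) (nat_lit 5) (nat_lit 4) (nat_lit 4) (nat_lit 350) (nat_lit 246) (nat_lit 124)))))) (XT.nd (nat_lit 390) (nat_lit 0) (nat_lit 0) (XT.nd (nat_lit 156) (nat_lit 0) (nat_lit 0) (XT.nd (nat_lit 78) (nat_lit 0) (nat_lit 0) (XT.lf (nat_lit 0) (nat_lit 132773704583) (nat_lit 76) (nat_lit 98430400640) (nat_lit 76) (nat_lit 64613423896) (nat_lit 3) (nat_lit 4) (nat_lit 4) (nat_lit 5) (nat_lit 4) (nat_lit 4) (nat_lit 351) (nat_lit 246) (nat_lit 123)) (XT.lf (nat_lit 0) (nat_lit 154809621724) (nat_lit 76) (nat_lit 94598259137) (nat_lit 76) (nat_lit 60777285631) (nat_lit 3) (nat_lit 4) (nat_lit 4) (nat_lit 5) (nat_lit 4) (nat_lit 4) (nat_lit 352) (nat_lit 246) (nat_lit 122))) (XT.nd (nat_lit 78) (nat_lit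 0) (nat_lit 0) (XT.lf (nat_lit 0) (nat_lit 177943807687) (nat_lit 76) (nat_lit 90576127472) (nat_lit 76) (nat_lit 56751347526) (nat_lit 3) (nat_lit 4) (nat_lit 4) (nat_lit 5) (nat_lit 4) (nat_lit 4) (nat_lit 353) (nat_lit 246) (nat_lit 121)) (XT.nd (nat_lit 78) (nat_lit 0) (nat_lit 0) (XT.lf (nat_lit 0) (nat_lit 202231343865) (nat_lit 76) (nat_lit 86354429142) (nat_lit 76) (nat_lit 52526024015) (nat_lit 3) (nat_lit 4) (nat_lit 4) (nat_lit 5) (nat_lit 4) (nat_lit 4) (nat_lit 354) (nat_lit 246) (nat_lit 120)) (XT.lf (nat_lit 0) (nat_lit 227730057727) (nat_lit 76) (nat_lit 81923112484) (nat_lit 76) (nat_lit 48091254804) (nat_lit 3) (nat_lit 4) (nat_lit 4) (nat_lit 5) (nat_lit 4) (nat_lit 4) (nat_lit 355) (nat_lit 246) (nat_lit 119))))) (XT.nd (nat_lit 156) (nat_lit 0) (nat_lit 0) (XT.nd (nat_lit 78) (nat_lit 0) (nat_lit 0) (XT.lf (nat_lit 0) (nat_lit 254500660494) (nat_lit 76) (nat_lit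 77271626744) (nat_lit 76) (nat_lit 43436480918) (nat_lit 3) (nat_lit 4) (nat_lit 4) (nat_lit 5) (nat_lit 4) (nat_lit 4) (nat_lit 356) (nat_lit 246) (nat_lit 118)) (XT.lf (nat_lit 0) (nat_lit 282606891699) (nat_lit 76) (nat_lit 72388896955) (nat_lit 76) (nat_lit 38550619562) (nat_lit 3) (nat_lit 4) (nat_lit 4) (nat_lit 5) (nat_lit 4) (nat_lit 4) (nat_lit 357) (nat_lit 246) (nat_lit 117))) (XT.nd (nat_lit 78) (nat_lit 0) (nat_lit 0) (XT.lf (nat_lit 0) (nat_lit 312115670939) (nat_lit 76) (nat_lit 67263297572) (nat_lit 76) (nat_lit 33422037734) (nat_lit 3) (nat_lit 4) (nat_lit 4) (nat_lit 5) (nat_lit 4) (nat_lit 4) (nat_lit 358) (nat_lit 246) (nat_lit 116)) (XT.nd (nat_lit 78) (nat_lit 0) (nat_lit 0) (XT.lf (nat_lit 0) (nat_lit 343097257211) (nat_lit 76) (nat_lit 61882624785) (nat_lit 76) (nat_lit 28038524523) (nat_lit 3) (nat_lit 4) (nat_lit 4) (nat_lit 5) (nat_lit 4) (nat_lit 4) (nat_lit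 359) (nat_lit 246) (nat_lit 115)) (XT.lf (nat_lit 0) (nat_lit 375625416199) (nat_lit 76) (nat_lit 56234067469) (nat_lit 76) (nat_lit 22387262042) (nat_lit 3) (nat_lit 4) (nat_lit 4) (nat_lit 5) (nat_lit 4) (nat_lit 4) (nat_lit 360) (nat_lit 246) (nat_lit 114))))))))
noncomputable def xc132 : XT := (XT.nd (nat_lit 29874) (nat_lit 0) (nat_lit 2432) (XT.nd (nat_lit 29172) (nat_lit 0) (nat_lit 5168) (XT.nd (nat_lit 28782) (nat_lit 0) (nat_lit 6992) (XT.nd (nat_lit 28626) (nat_lit 0) (nat_lit 7372) (XT.nd (nat_lit 78) (nat_lit 0) (nat_lit 0) (XT.lf (nat_lit 0) (nat_lit 409777595899) (nat_lit 76) (nat_lit 50304176678) (nat_lit 76) (nat_lit 16454794903) (nat_lit 3) (nat_lit 4) (nat_lit 4) (nat_lit 5) (nat_lit 4) (nat_lit 4) (nat_lit 361) (nat_lit 246) (nat_lit 113)) (XT.lf (nat_lit 0) (nat_lit 445635111025) (nat_lit 76) (nat_lit 44078833625) (nat_lit 76) (nat_lit 10226998184) (nat_lit 3) (nat_lit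 4) (nat_lit 4) (nat_lit 5) (nat_lit 4) (nat_lit 4) (nat_lit 362) (nat_lit 246) (nat_lit 112))) (XT.nd (nat_lit 78) (nat_lit 532) (nat_lit 0) (XT.lf (nat_lit 0) (nat_lit 1357945026) (nat_lit 0) (nat_lit 1357945026) (nat_lit 380) (nat_lit 797603733) (nat_lit 107) (nat_lit 5) (nat_lit 107) (nat_lit 3) (nat_lit 112) (nat_lit 3) (nat_lit 247) (nat_lit 247) (nat_lit 226)) (XT.lf (nat_lit 0) (nat_lit 68194465) (nat_lit 532) (nat_lit 1162346090) (nat_lit 532) (nat_lit 5884679266) (nat_lit 100) (nat_lit 3) (nat_lit 107) (nat_lit 3) (nat_lit 107) (nat_lit 5) (nat_lit 248) (nat_lit 247) (nat_lit 225)))) (XT.nd (nat_lit 156) (nat_lit 456) (nat_lit 0) (XT.nd (nat_lit 78) (nat_lit 0) (nat_lit 0) (XT.lf (nat_lit 0) (nat_lit 1695626337) (nat_lit 456) (nat_lit 5087273572) (nat_lit 532) (nat_lit 427327809) (nat_lit 101) (nat_lit 5) (nat_lit 107) (nat_lit 5) (nat_lit 108) (nat_lit 5) (nat_lit 249) (nat_lit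 247) (nat_lit 224)) (XT.lf (nat_lit 0) (nat_lit 3343835436) (nat_lit 456) (nat_lit 1777586917) (nat_lit 532) (nat_lit 2191969610) (nat_lit 101) (nat_lit 5) (nat_lit 107) (nat_lit 5) (nat_lit 108) (nat_lit 5) (nat_lit 250) (nat_lit 247) (nat_lit 223))) (XT.nd (nat_lit 78) (nat_lit 456) (nat_lit 0) (XT.lf (nat_lit 76) (nat_lit 1693734063) (nat_lit 0) (nat_lit 3311188903) (nat_lit 532) (nat_lit 2420626376) (nat_lit 102) (nat_lit 5) (nat_lit 101) (nat_lit 5) (nat_lit 108) (nat_lit 5) (nat_lit 251) (nat_lit 247) (nat_lit 222)) (XT.nd (nat_lit 78) (nat_lit 456) (nat_lit 0) (XT.lf (nat_lit 76) (nat_lit 5343211274) (nat_lit 0) (nat_lit 1343660355) (nat_lit 532) (nat_lit 859893877) (nat_lit 102) (nat_lit 5) (nat_lit 101) (nat_lit 5) (nat_lit 108) (nat_lit 5) (nat_lit 252) (nat_lit 247) (nat_lit 221)) (XT.lf (nat_lit 0) (nat_lit 699726890) (nat_lit 532) (nat_lit 6210819390) (nat_lit 608) (nat_lit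 765908681) (nat_lit 95) (nat_lit 5) (nat_lit 102) (nat_lit 5) (nat_lit 103) (nat_lit 5) (nat_lit 253) (nat_lit 247) (nat_lit 220)))))) (XT.nd (nat_lit 312) (nat_lit 1368) (nat_lit 0) (XT.nd (nat_lit 156) (nat_lit 456) (nat_lit 0) (XT.nd (nat_lit 78) (nat_lit 0) (nat_lit 0) (XT.lf (nat_lit 0) (nat_lit 2282574285) (nat_lit 532) (nat_lit 2514528019) (nat_lit 608) (nat_lit 3016409361) (nat_lit 95) (nat_lit 5) (nat_lit 102) (nat_lit 5) (nat_lit 103) (nat_lit 5) (nat_lit 254) (nat_lit 247) (nat_lit 219)) (XT.lf (nat_lit 76) (nat_lit 1350943478) (nat_lit 0) (nat_lit 2532985357) (nat_lit 608) (nat_lit 4076804883) (nat_lit 96) (nat_lit 5) (nat_lit 95) (nat_lit 5) (nat_lit 103) (nat_lit 5) (nat_lit 255) (nat_lit 247) (nat_lit 218))) (XT.nd (nat_lit 78) (nat_lit 456) (nat_lit 0) (XT.lf (nat_lit 76) (nat_lit 5439063784) (nat_lit 0) (nat_lit 90132275) (nat_lit 608) (nat_lit 2588195950) (nat_lit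 96) (nat_lit 5) (nat_lit 95) (nat_lit 5) (nat_lit 103) (nat_lit 5) (nat_lit 256) (nat_lit 247) (nat_lit 217)) (XT.lf (nat_lit 0) (nat_lit 1396278020) (nat_lit 532) (nat_lit 5846207226) (nat_lit 608) (nat_lit 1040364688) (nat_lit 89) (nat_lit 5) (nat_lit 96) (nat_lit 5) (nat_lit 97) (nat_lit 5) (nat_lit 257) (nat_lit 247) (nat_lit 216)))) (XT.nd (nat_lit 156) (nat_lit 684) (nat_lit 0) (XT.nd (nat_lit 78) (nat_lit 608) (nat_lit 0) (XT.lf (nat_lit 0) (nat_lit 540265064) (nat_lit 608) (nat_lit 2759244457) (nat_lit 76) (nat_lit 5158139346) (nat_lit 88) (nat_lit 5) (nat_lit 96) (nat_lit 5) (nat_lit 89) (nat_lit 5) (nat_lit 258) (nat_lit 247) (nat_lit 215)) (XT.lf (nat_lit 0) (nat_lit 1548696176) (nat_lit 608) (nat_lit 570490436) (nat_lit 684) (nat_lit 6523657183) (nat_lit 80) (nat_lit 5) (nat_lit 88) (nat_lit 5) (nat_lit 89) (nat_lit 5) (nat_lit 259) (nat_lit 247) (nat_lit 214))) (XT.nd (nat_lit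 78) (nat_lit 684) (nat_lit 0) (XT.lf (nat_lit 0) (nat_lit 3793019763) (nat_lit 684) (nat_lit 2764801410) (nat_lit 76) (nat_lit 2278888523) (nat_lit 80) (nat_lit 5) (nat_lit 89) (nat_lit 5) (nat_lit 81) (nat_lit 5) (nat_lit 260) (nat_lit 247) (nat_lit 213)) (XT.nd (nat_lit 78) (nat_lit 0) (nat_lit 0) (XT.lf (nat_lit 0) (nat_lit 1770153034) (nat_lit 684) (nat_lit 3753227810) (nat_lit 760) (nat_lit 3518445758) (nat_lit 71) (nat_lit 5) (nat_lit 80) (nat_lit 5) (nat_lit 81) (nat_lit 5) (nat_lit 261) (nat_lit 247) (nat_lit 212)) (XT.lf (nat_lit 0) (nat_lit 6570618247) (nat_lit 684) (nat_lit 754473377) (nat_lit 760) (nat_lit 1933056173) (nat_lit 71) (nat_lit 5) (nat_lit 80) (nat_lit 5) (nat_lit 81) (nat_lit 5) (nat_lit 262) (nat_lit 247) (nat_lit 211))))))) (XT.nd (nat_lit 702) (nat_lit 988) (nat_lit 0) (XT.nd (nat_lit 312) (nat_lit 912) (nat_lit 0) (XT.nd (nat_lit 156) (nat_lit 380) (nat_lit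 0) (XT.nd (nat_lit 78) (nat_lit 76) (nat_lit 0) (XT.lf (nat_lit 0) (nat_lit 2097883090) (nat_lit 380) (nat_lit 7130170410) (nat_lit 456) (nat_lit 256854249) (nat_lit 66) (nat_lit 5) (nat_lit 71) (nat_lit 5) (nat_lit 72) (nat_lit 5) (nat_lit 263) (nat_lit 247) (nat_lit 210)) (XT.lf (nat_lit 0) (nat_lit 1455527377) (nat_lit 456) (nat_lit 2600301304) (nat_lit 76) (nat_lit 5666143740) (nat_lit 65) (nat_lit 5) (nat_lit 71) (nat_lit 5) (nat_lit 66) (nat_lit 5) (nat_lit 264) (nat_lit 247) (nat_lit 209))) (XT.nd (nat_lit 78) (nat_lit 0) (nat_lit 0) (XT.lf (nat_lit 0) (nat_lit 2443704542) (nat_lit 380) (nat_lit 783964508) (nat_lit 456) (nat_lit 6744028425) (nat_lit 60) (nat_lit 5) (nat_lit 65) (nat_lit 5) (nat_lit 66) (nat_lit 5) (nat_lit 265) (nat_lit 247) (nat_lit 208)) (XT.lf (nat_lit 0) (nat_lit 5120946091) (nat_lit 456) (nat_lit 2501596333) (nat_lit 76) (nat_lit 2609888834) (nat_lit 60)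 (nat_lit 5) (nat_lit 66) (nat_lit 5) (nat_lit 61) (nat_lit 5) (nat_lit 266) (nat_lit 247) (nat_lit 207)))) (XT.nd (nat_lit 156) (nat_lit 608) (nat_lit 0) (XT.nd (nat_lit 78) (nat_lit 0) (nat_lit 0) (XT.lf (nat_lit 0) (nat_lit 2797611614) (nat_lit 304) (nat_lit 4316731291) (nat_lit 380) (nat_lit 3391727828) (nat_lit 56) (nat_lit 5) (nat_lit 60) (nat_lit 5) (nat_lit 61) (nat_lit 5) (nat_lit 267) (nat_lit 247) (nat_lit 206)) (XT.lf (nat_lit 0) (nat_lit 8394322372) (nat_lit 304) (nat_lit 805962649) (nat_lit 380) (nat_lit 1593598433) (nat_lit 56) (nat_lit 5) (nat_lit 60) (nat_lit 5) (nat_lit 61) (nat_lit 5) (nat_lit 268) (nat_lit 247) (nat_lit 205))) (XT.nd (nat_lit 78) (nat_lit 228) (nat_lit 0) (XT.lf (nat_lit 0) (nat_lit 333038403) (nat_lit 380) (nat_lit 7921845983) (nat_lit 76) (nat_lit 2838693828) (nat_lit 51) (nat_lit 5) (nat_lit 56) (nat_lit 5) (nat_lit 52) (nat_lit 5) (nat_lit 269)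 (nat_lit 247) (nat_lit 204)) (XT.nd (nat_lit 78) (nat_lit 228) (nat_lit 0) (XT.lf (nat_lit 0) (nat_lit 2310310011) (nat_lit 380) (nat_lit 2396252740) (nat_lit 76) (nat_lit 6700112476) (nat_lit 51) (nat_lit 5) (nat_lit 56) (nat_lit 5) (nat_lit 52) (nat_lit 5) (nat_lit 270) (nat_lit 247) (nat_lit 203)) (XT.lf (nat_lit 0) (nat_lit 3464189963) (nat_lit 228) (nat_lit 931904629) (nat_lit 304) (nat_lit 7338961132) (nat_lit 48) (nat_lit 5) (nat_lit 51) (nat_lit 5) (nat_lit 52) (nat_lit 5) (nat_lit 271) (nat_lit 247) (nat_lit 202)))))) (XT.nd (nat_lit 312) (nat_lit 380) (nat_lit 0) (XT.nd (nat_lit 156) (nat_lit 304) (nat_lit 0) (XT.nd (nat_lit 78) (nat_lit 304) (nat_lit 0) (XT.lf (nat_lit 0) (nat_lit 6631491412) (nat_lit 304) (nat_lit 2478568232) (nat_lit 76) (nat_lit 2967635264) (nat_lit 48) (nat_lit 5) (nat_lit 52) (nat_lit 5) (nat_lit 49) (nat_lit 5) (nat_lit 272) (nat_lit 247) (nat_lit 201))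 (XT.lf (nat_lit 0) (nat_lit 3653975085) (nat_lit 304) (nat_lit 5355814654) (nat_lit 380) (nat_lit 3426220504) (nat_lit 44) (nat_lit 5) (nat_lit 48) (nat_lit 5) (nat_lit 49) (nat_lit 5) (nat_lit 273) (nat_lit 247) (nat_lit 200))) (XT.nd (nat_lit 78) (nat_lit 304) (nat_lit 0) (XT.lf (nat_lit 0) (nat_lit 10128977132) (nat_lit 304) (nat_lit 1379984926) (nat_lit 380) (nat_lit 1303277305) (nat_lit 44) (nat_lit 5) (nat_lit 48) (nat_lit 5) (nat_lit 49) (nat_lit 5) (nat_lit 274) (nat_lit 247) (nat_lit 199)) (XT.lf (nat_lit 0) (nat_lit 961011470) (nat_lit 304) (nat_lit 9472603558) (nat_lit 76) (nat_lit 2769787729) (nat_lit 40) (nat_lit 5) (nat_lit 44) (nat_lit 5) (nat_lit 41) (nat_lit 5) (nat_lit 275) (nat_lit 247) (nat_lit 198)))) (XT.nd (nat_lit 156) (nat_lit 152) (nat_lit 0) (XT.nd (nat_lit 78) (nat_lit 228) (nat_lit 0) (XT.lf (nat_lit 0) (nat_lit 3325628063) (nat_lit 304) (nat_lit 3148071992)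 (nat_lit 76) (nat_lit 7137893309) (nat_lit 40) (nat_lit 5) (nat_lit 44) (nat_lit 5) (nat_lit 41) (nat_lit 5) (nat_lit 276) (nat_lit 247) (nat_lit 197)) (XT.lf (nat_lit 0) (nat_lit 3558772491) (nat_lit 228) (nat_lit 2269172110) (nat_lit 304) (nat_lit 8211354404) (nat_lit 37) (nat_lit 5) (nat_lit 40) (nat_lit 5) (nat_lit 41) (nat_lit 5) (nat_lit 277) (nat_lit 247) (nat_lit 196))) (XT.nd (nat_lit 78) (nat_lit 152) (nat_lit 0) (XT.lf (nat_lit 0) (nat_lit 8507768204) (nat_lit 304) (nat_lit 3858533291) (nat_lit 76) (nat_lit 2119544070) (nat_lit 37) (nat_lit 5) (nat_lit 41) (nat_lit 5) (nat_lit 38) (nat_lit 5) (nat_lit 278) (nat_lit 247) (nat_lit 195)) (XT.nd (nat_lit 78) (nat_lit 0) (nat_lit 0) (XT.lf (nat_lit 0) (nat_lit 3110545835) (nat_lit 152) (nat_lit 8263186331) (nat_lit 228) (nat_lit 3578451447) (nat_lit 35) (nat_lit 5) (nat_lit 37) (nat_lit 5) (nat_lit 38) (nat_lit 5) (nat_lit 279)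 (nat_lit 247) (nat_lit 194)) (XT.lf (nat_lit 0) (nat_lit 10516415292) (nat_lit 152) (nat_lit 3899198852) (nat_lit 228) (nat_lit 1024661634) (nat_lit 35) (nat_lit 5) (nat_lit 37) (nat_lit 5) (nat_lit 38) (nat_lit 5) (nat_lit 280) (nat_lit 247) (nat_lit 193))))))))
noncomputable def xc133 : XT := (XT.nd (nat_lit 1404) (nat_lit 608) (nat_lit 0) (XT.nd (nat_lit 702) (nat_lit 532) (nat_lit 0) (XT.nd (nat_lit 312) (nat_lit 380) (nat_lit 0) (XT.nd (nat_lit 156) (nat_lit 152) (nat_lit 0) (XT.nd (nat_lit 78) (nat_lit 0) (nat_lit 0) (XT.lf (nat_lit 0) (nat_lit 1620137554) (nat_lit 304) (nat_lit 13618373411) (nat_lit 76) (nat_lit 712212656) (nat_lit 31) (nat_lit 5) (nat_lit 35) (nat_lit 5) (nat_lit 32) (nat_lit 5) (nat_lit 281) (nat_lit 247) (nat_lit 192)) (XT.lf (nat_lit 0) (nat_lit 4480301021) (nat_lit 304) (nat_lit 6487539849) (nat_lit 76) (nat_lit 5512194036) (nat_lit 31) (nat_lit 5) (nat_lit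 35) (nat_lit 5) (nat_lit 32) (nat_lit 5) (nat_lit 282) (nat_lit 247) (nat_lit 191))) (XT.nd (nat_lit 78) (nat_lit 0) (nat_lit 0) (XT.lf (nat_lit 0) (nat_lit 988378129) (nat_lit 152) (nat_lit 6480891029) (nat_lit 228) (nat_lit 9567308887) (nat_lit 29) (nat_lit 5) (nat_lit 31) (nat_lit 5) (nat_lit 32) (nat_lit 5) (nat_lit 283) (nat_lit 247) (nat_lit 190)) (XT.lf (nat_lit 0) (nat_lit 9020928232) (nat_lit 152) (nat_lit 1667741496) (nat_lit 228) (nat_lit 6928282856) (nat_lit 29) (nat_lit 5) (nat_lit 31) (nat_lit 5) (nat_lit 32) (nat_lit 5) (nat_lit 284) (nat_lit 247) (nat_lit 189)))) (XT.nd (nat_lit 156) (nat_lit 228) (nat_lit 0) (XT.nd (nat_lit 78) (nat_lit 152) (nat_lit 0) (XT.lf (nat_lit 0) (nat_lit 14094195303) (nat_lit 228) (nat_lit 865709113) (nat_lit 76) (nat_lit 3265234580) (nat_lit 29) (nat_lit 5) (nat_lit 32) (nat_lit 5) (nat_lit 30) (nat_lit 5) (nat_lit 285) (nat_lit 247) (nat_lit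 188)) (XT.lf (nat_lit 0) (nat_lit 7421700600) (nat_lit 152) (nat_lit 10365118704) (nat_lit 228) (nat_lit 1071122793) (nat_lit 27) (nat_lit 5) (nat_lit 29) (nat_lit 5) (nat_lit 30) (nat_lit 5) (nat_lit 286) (nat_lit 247) (nat_lit 187))) (XT.nd (nat_lit 78) (nat_lit 152) (nat_lit 0) (XT.lf (nat_lit 0) (nat_lit 2061833242) (nat_lit 228) (nat_lit 3441687700) (nat_lit 76) (nat_lit 14017801913) (nat_lit 26) (nat_lit 5) (nat_lit 29) (nat_lit 5) (nat_lit 27) (nat_lit 5) (nat_lit 287) (nat_lit 247) (nat_lit 186)) (XT.nd (nat_lit 78) (nat_lit 0) (nat_lit 0) (XT.lf (nat_lit 0) (nat_lit 5058958810) (nat_lit 152) (nat_lit 310504110) (nat_lit 228) (nat_lit 14844872507) (nat_lit 24) (nat_lit 5) (nat_lit 26) (nat_lit 5) (nat_lit 27) (nat_lit 5) (nat_lit 288) (nat_lit 247) (nat_lit 185)) (XT.lf (nat_lit 0) (nat_lit 8957439593) (nat_lit 228) (nat_lit 6954633564) (nat_lit 76) (nat_lit 5024217073) (nat_lit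 24) (nat_lit 5) (nat_lit 27) (nat_lit 5) (nat_lit 25) (nat_lit 5) (nat_lit 289) (nat_lit 247) (nat_lit 184)))))) (XT.nd (nat_lit 312) (nat_lit 228) (nat_lit 0) (XT.nd (nat_lit 156) (nat_lit 152) (nat_lit 0) (XT.nd (nat_lit 78) (nat_lit 0) (nat_lit 0) (XT.lf (nat_lit 0) (nat_lit 1667832279) (nat_lit 152) (nat_lit 11064721885) (nat_lit 228) (nat_lit 8961439638) (nat_lit 22) (nat_lit 5) (nat_lit 24) (nat_lit 5) (nat_lit 25) (nat_lit 5) (nat_lit 290) (nat_lit 247) (nat_lit 183)) (XT.lf (nat_lit 0) (nat_lit 10926855814) (nat_lit 152) (nat_lit 5864509581) (nat_lit 228) (nat_lit 5693506281) (nat_lit 22) (nat_lit 5) (nat_lit 24) (nat_lit 5) (nat_lit 25) (nat_lit 5) (nat_lit 291) (nat_lit 247) (nat_lit 182))) (XT.nd (nat_lit 78) (nat_lit 152) (nat_lit 0) (XT.lf (nat_lit 0) (nat_lit 20614530743) (nat_lit 152) (nat_lit 416834873) (nat_lit 228) (nat_lit 2285049858) (nat_lit 22) (nat_lit 5) (nat_lit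 24) (nat_lit 5) (nat_lit 25) (nat_lit 5) (nat_lit 292) (nat_lit 247) (nat_lit 181)) (XT.lf (nat_lit 0) (nat_lit 1421538593) (nat_lit 152) (nat_lit 17509188431) (nat_lit 76) (nat_lit 5249374677) (nat_lit 20) (nat_lit 5) (nat_lit 22) (nat_lit 5) (nat_lit 21) (nat_lit 5) (nat_lit 293) (nat_lit 247) (nat_lit 180)))) (XT.nd (nat_lit 156) (nat_lit 76) (nat_lit 0) (XT.nd (nat_lit 78) (nat_lit 152) (nat_lit 0) (XT.lf (nat_lit 0) (nat_lit 5269217626) (nat_lit 152) (nat_lit 8557297617) (nat_lit 76) (nat_lit 11256986073) (nat_lit 20) (nat_lit 5) (nat_lit 22) (nat_lit 5) (nat_lit 21) (nat_lit 5) (nat_lit 294) (nat_lit 247) (nat_lit 179)) (XT.lf (nat_lit 0) (nat_lit 836853754) (nat_lit 152) (nat_lit 8465694970) (nat_lit 228) (nat_lit 16729887123) (nat_lit 18) (nat_lit 5) (nat_lit 20) (nat_lit 5) (nat_lit 21) (nat_lit 5) (nat_lit 295) (nat_lit 247) (nat_lit 178))) (XT.nd (nat_lit 78) (nat_lit 76)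 (nat_lit 0) (XT.lf (nat_lit 0) (nat_lit 10966202257) (nat_lit 152) (nat_lit 2696917946) (nat_lit 228) (nat_lit 13359445204) (nat_lit 18) (nat_lit 5) (nat_lit 20) (nat_lit 5) (nat_lit 21) (nat_lit 5) (nat_lit 296) (nat_lit 247) (nat_lit 177)) (XT.nd (nat_lit 78) (nat_lit 76) (nat_lit 0) (XT.lf (nat_lit 0) (nat_lit 18275574930) (nat_lit 228) (nat_lit 6543507493) (nat_lit 76) (nat_lit 3241451994) (nat_lit 18) (nat_lit 5) (nat_lit 21) (nat_lit 5) (nat_lit 19) (nat_lit 4) (nat_lit 297) (nat_lit 247) (nat_lit 176)) (XT.lf (nat_lit 0) (nat_lit 3482861479) (nat_lit 76) (nat_lit 19716657059) (nat_lit 152) (nat_lit 5946864515) (nat_lit 17) (nat_lit 5) (nat_lit 18) (nat_lit 5) (nat_lit 19) (nat_lit 4) (nat_lit 298) (nat_lit 247) (nat_lit 175))))))) (XT.nd (nat_lit 702) (nat_lit 304) (nat_lit 0) (XT.nd (nat_lit 312) (nat_lit 76) (nat_lit 0) (XT.nd (nat_lit 156) (nat_lit 152) (nat_lit 0) (XT.nd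 (nat_lit 78) (nat_lit 76) (nat_lit 0) (XT.lf (nat_lit 0) (nat_lit 14208807739) (nat_lit 76) (nat_lit 14254338673) (nat_lit 152) (nat_lit 1818726673) (nat_lit 17) (nat_lit 5) (nat_lit 18) (nat_lit 5) (nat_lit 19) (nat_lit 4) (nat_lit 299) (nat_lit 247) (nat_lit 174)) (XT.lf (nat_lit 0) (nat_lit 2418498975) (nat_lit 152) (nat_lit 6070481784) (nat_lit 76) (nat_lit 22984053917) (nat_lit 16) (nat_lit 5) (nat_lit 18) (nat_lit 5) (nat_lit 17) (nat_lit 5) (nat_lit 300) (nat_lit 247) (nat_lit 173))) (XT.nd (nat_lit 78) (nat_lit 0) (nat_lit 0) (XT.lf (nat_lit 0) (nat_lit 4520316493) (nat_lit 152) (nat_lit 2340725748) (nat_lit 228) (nat_lit 25858512615) (nat_lit 14) (nat_lit 5) (nat_lit 16) (nat_lit 5) (nat_lit 17) (nat_lit 5) (nat_lit 301) (nat_lit 247) (nat_lit 172)) (XT.lf (nat_lit 0) (nat_lit 11678636427) (nat_lit 228) (nat_lit 18264763961) (nat_lit 76) (nat_lit 4077373653) (nat_lit 14) (nat_lit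 5) (nat_lit 17) (nat_lit 5) (nat_lit 15) (nat_lit 4) (nat_lit 302) (nat_lit 247) (nat_lit 171)))) (XT.nd (nat_lit 156) (nat_lit 0) (nat_lit 0) (XT.nd (nat_lit 78) (nat_lit 76) (nat_lit 0) (XT.lf (nat_lit 0) (nat_lit 16760421996) (nat_lit 228) (nat_lit 7897633838) (nat_lit 76) (nat_lit 10727851038) (nat_lit 14) (nat_lit 5) (nat_lit 17) (nat_lit 5) (nat_lit 15) (nat_lit 4) (nat_lit 303) (nat_lit 247) (nat_lit 170)) (XT.lf (nat_lit 0) (nat_lit 3061363695) (nat_lit 76) (nat_lit 19068385920) (nat_lit 152) (nat_lit 14687891487) (nat_lit 13) (nat_lit 5) (nat_lit 14) (nat_lit 5) (nat_lit 15) (nat_lit 4) (nat_lit 304) (nat_lit 247) (nat_lit 169))) (XT.nd (nat_lit 78) (nat_lit 0) (nat_lit 0) (XT.lf (nat_lit 0) (nat_lit 14818421974) (nat_lit 76) (nat_lit 13068835322) (nat_lit 152) (nat_lit 10427735637) (nat_lit 13) (nat_lit 5) (nat_lit 14) (nat_lit 5) (nat_lit 15) (nat_lit 4) (nat_lit 305) (nat_lit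 247) (nat_lit 168)) (XT.nd (nat_lit 78) (nat_lit 0) (nat_lit 0) (XT.lf (nat_lit 0) (nat_lit 27140402551) (nat_lit 76) (nat_lit 6778869644) (nat_lit 152) (nat_lit 5968624349) (nat_lit 13) (nat_lit 5) (nat_lit 14) (nat_lit 5) (nat_lit 15) (nat_lit 4) (nat_lit 306) (nat_lit 247) (nat_lit 167)) (XT.lf (nat_lit 0) (nat_lit 40056643476) (nat_lit 76) (nat_lit 183512778) (nat_lit 152) (nat_lit 1299940691) (nat_lit 13) (nat_lit 5) (nat_lit 14) (nat_lit 5) (nat_lit 15) (nat_lit 4) (nat_lit 307) (nat_lit 247) (nat_lit 166)))))) (XT.nd (nat_lit 312) (nat_lit 76) (nat_lit 0) (XT.nd (nat_lit 156) (nat_lit 76) (nat_lit 0) (XT.nd (nat_lit 78) (nat_lit 0) (nat_lit 0) (XT.lf (nat_lit 0) (nat_lit 3748886248) (nat_lit 152) (nat_lit 32767420002) (nat_lit 76) (nat_lit 6742702683) (nat_lit 11) (nat_lit 5) (nat_lit 13) (nat_lit 5) (nat_lit 12) (nat_lit 4) (nat_lit 308) (nat_lit 247) (nat_lit 165)) (XT.lf (nat_lit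 0) (nat_lit 9022797452) (nat_lit 152) (nat_lit 21991812969) (nat_lit 76) (nat_lit 14047387084) (nat_lit 11) (nat_lit 5) (nat_lit 13) (nat_lit 5) (nat_lit 12) (nat_lit 4) (nat_lit 309) (nat_lit 247) (nat_lit 164))) (XT.nd (nat_lit 78) (nat_lit 76) (nat_lit 0) (XT.lf (nat_lit 0) (nat_lit 14548772013) (nat_lit 152) (nat_lit 10697766011) (nat_lit 76) (nat_lit 21709191459) (nat_lit 11) (nat_lit 5) (nat_lit 13) (nat_lit 5) (nat_lit 12) (nat_lit 4) (nat_lit 310) (nat_lit 247) (nat_lit 163)) (XT.lf (nat_lit 0) (nat_lit 1179358292) (nat_lit 76) (nat_lit 19179021808) (nat_lit 152) (nat_lit 28585412994) (nat_lit 10) (nat_lit 5) (nat_lit 11) (nat_lit 5) (nat_lit 12) (nat_lit 4) (nat_lit 311) (nat_lit 247) (nat_lit 162)))) (XT.nd (nat_lit 156) (nat_lit 76) (nat_lit 0) (XT.nd (nat_lit 78) (nat_lit 0) (nat_lit 0) (XT.lf (nat_lit 0) (nat_lit 14002681707) (nat_lit 76) (nat_lit 12626110409) (nat_lit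 152) (nat_lit 24393962812) (nat_lit 10) (nat_lit 5) (nat_lit 11) (nat_lit 5) (nat_lit 12) (nat_lit 4) (nat_lit 312) (nat_lit 247) (nat_lit 161)) (XT.lf (nat_lit 0) (nat_lit 27449019497) (nat_lit 76) (nat_lit 5753373499) (nat_lit 152) (nat_lit 20003799124) (nat_lit 10) (nat_lit 5) (nat_lit 11) (nat_lit 5) (nat_lit 12) (nat_lit 4) (nat_lit 313) (nat_lit 247) (nat_lit 160))) (XT.nd (nat_lit 78) (nat_lit 76) (nat_lit 0) (XT.lf (nat_lit 0) (nat_lit 40117559429) (nat_lit 152) (nat_lit 13971641835) (nat_lit 0) (nat_lit 1408965806) (nat_lit 10) (nat_lit 5) (nat_lit 12) (nat_lit 4) (nat_lit 10) (nat_lit 4) (nat_lit 314) (nat_lit 247) (nat_lit 159)) (XT.nd (nat_lit 78) (nat_lit 76) (nat_lit 0) (XT.lf (nat_lit 0) (nat_lit 47463319851) (nat_lit 152) (nat_lit 1707983824) (nat_lit 0) (nat_lit 8729204997) (nat_lit 10) (nat_lit 5) (nat_lit 12) (nat_lit 4) (nat_lit 10) (nat_lit 4) (nat_lit 315) (nat_lit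 247) (nat_lit 158)) (XT.lf (nat_lit 0) (nat_lit 11521589701) (nat_lit 76) (nat_lit 43825632488) (nat_lit 76) (nat_lit 5067211699) (nat_lit 9) (nat_lit 4) (nat_lit 10) (nat_lit 5) (nat_lit 10) (nat_lit 4) (nat_lit 316) (nat_lit 247) (nat_lit 157))))))))
noncomputable def xc134 : XT := (XT.nd (nat_lit 1404) (nat_lit 76) (nat_lit 0) (XT.nd (nat_lit 702) (nat_lit 228) (nat_lit 0) (XT.nd (nat_lit 312) (nat_lit 76) (nat_lit 0) (XT.nd (nat_lit 156) (nat_lit 0) (nat_lit 0) (XT.nd (nat_lit 78) (nat_lit 0) (nat_lit 0) (XT.lf (nat_lit 0) (nat_lit 573379813) (nat_lit 152) (nat_lit 37606140679) (nat_lit 76) (nat_lit 24873077311) (nat_lit 8) (nat_lit 5) (nat_lit 10) (nat_lit 5) (nat_lit 9) (nat_lit 4) (nat_lit 317) (nat_lit 247) (nat_lit 156)) (XT.lf (nat_lit 0) (nat_lit 6317137777) (nat_lit 152) (nat_lit 25853483052) (nat_lit 76) (nat_lit 33648332183) (nat_lit 8) (nat_lit 5) (nat_lit 10) (nat_lit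 5) (nat_lit 9) (nat_lit 4) (nat_lit 318) (nat_lit 247) (nat_lit 155))) (XT.nd (nat_lit 78) (nat_lit 0) (nat_lit 0) (XT.lf (nat_lit 0) (nat_lit 12339920226) (nat_lit 152) (nat_lit 13527775412) (nat_lit 76) (nat_lit 42856346106) (nat_lit 8) (nat_lit 5) (nat_lit 10) (nat_lit 5) (nat_lit 9) (nat_lit 4) (nat_lit 319) (nat_lit 247) (nat_lit 154)) (XT.lf (nat_lit 0) (nat_lit 18656067119) (nat_lit 152) (nat_lit 599670836) (nat_lit 76) (nat_lit 52519042923) (nat_lit 8) (nat_lit 5) (nat_lit 10) (nat_lit 5) (nat_lit 9) (nat_lit 4) (nat_lit 320) (nat_lit 247) (nat_lit 153)))) (XT.nd (nat_lit 156) (nat_lit 0) (nat_lit 0) (XT.nd (nat_lit 78) (nat_lit 0) (nat_lit 0) (XT.lf (nat_lit 0) (nat_lit 13390181302) (nat_lit 76) (nat_lit 12099493852) (nat_lit 152) (nat_lit 49478306007) (nat_lit 7) (nat_lit 5) (nat_lit 8) (nat_lit 5) (nat_lit 9) (nat_lit 4) (nat_lit 321) (nat_lit 247) (nat_lit 152)) (XT.lf (nat_lit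 0) (nat_lit 28087331514) (nat_lit 76) (nat_lit 4580532750) (nat_lit 152) (nat_lit 45652838720) (nat_lit 7) (nat_lit 5) (nat_lit 8) (nat_lit 5) (nat_lit 9) (nat_lit 4) (nat_lit 322) (nat_lit 247) (nat_lit 151))) (XT.nd (nat_lit 78) (nat_lit 0) (nat_lit 0) (XT.lf (nat_lit 0) (nat_lit 40249714339) (nat_lit 152) (nat_lit 38386128510) (nat_lit 0) (nat_lit 3202986718) (nat_lit 7) (nat_lit 5) (nat_lit 9) (nat_lit 4) (nat_lit 7) (nat_lit 4) (nat_lit 323) (nat_lit 247) (nat_lit 150)) (XT.nd (nat_lit 78) (nat_lit 0) (nat_lit 0) (XT.lf (nat_lit 0) (nat_lit 48279085529) (nat_lit 152) (nat_lit 26033671382) (nat_lit 0) (nat_lit 11216690086) (nat_lit 7) (nat_lit 5) (nat_lit 9) (nat_lit 4) (nat_lit 7) (nat_lit 4) (nat_lit 324) (nat_lit 247) (nat_lit 149)) (XT.lf (nat_lit 0) (nat_lit 56703580431) (nat_lit 152) (nat_lit 13075074523) (nat_lit 0) (nat_lit 19626263252) (nat_lit 7) (nat_lit 5) (nat_lit 9)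 (nat_lit 4) (nat_lit 7) (nat_lit 4) (nat_lit 325) (nat_lit 247) (nat_lit 148)))))) (XT.nd (nat_lit 312) (nat_lit 152) (nat_lit 0) (XT.nd (nat_lit 156) (nat_lit 0) (nat_lit 0) (XT.nd (nat_lit 78) (nat_lit 0) (nat_lit 0) (XT.lf (nat_lit 0) (nat_lit 537726475) (nat_lit 76) (nat_lit 65013926307) (nat_lit 76) (nat_lit 27922397952) (nat_lit 6) (nat_lit 4) (nat_lit 7) (nat_lit 5) (nat_lit 7) (nat_lit 4) (nat_lit 326) (nat_lit 247) (nat_lit 147)) (XT.lf (nat_lit 0) (nat_lit 15274344671) (nat_lit 76) (nat_lit 59783293839) (nat_lit 76) (nat_lit 22678231030) (nat_lit 6) (nat_lit 4) (nat_lit 7) (nat_lit 5) (nat_lit 7) (nat_lit 4) (nat_lit 327) (nat_lit 247) (nat_lit 146))) (XT.nd (nat_lit 78) (nat_lit 0) (nat_lit 0) (XT.lf (nat_lit 0) (nat_lit 30737546237) (nat_lit 76) (nat_lit 54295736377) (nat_lit 76) (nat_lit 17177783611) (nat_lit 6) (nat_lit 4) (nat_lit 7) (nat_lit 5) (nat_lit 7) (nat_lit 4)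 (nat_lit 328) (nat_lit 247) (nat_lit 145)) (XT.lf (nat_lit 0) (nat_lit 46964148320) (nat_lit 76) (nat_lit 48538188307) (nat_lit 76) (nat_lit 11407959393) (nat_lit 6) (nat_lit 4) (nat_lit 7) (nat_lit 5) (nat_lit 7) (nat_lit 4) (nat_lit 329) (nat_lit 247) (nat_lit 144)))) (XT.nd (nat_lit 156) (nat_lit 76) (nat_lit 0) (XT.nd (nat_lit 78) (nat_lit 76) (nat_lit 0) (XT.lf (nat_lit 0) (nat_lit 63992785687) (nat_lit 76) (nat_lit 42496941181) (nat_lit 76) (nat_lit 5355020697) (nat_lit 6) (nat_lit 4) (nat_lit 7) (nat_lit 5) (nat_lit 7) (nat_lit 4) (nat_lit 330) (nat_lit 247) (nat_lit 143)) (XT.lf (nat_lit 0) (nat_lit 963583800) (nat_lit 152) (nat_lit 35177708520) (nat_lit 76) (nat_lit 80884100153) (nat_lit 5) (nat_lit 5) (nat_lit 7) (nat_lit 5) (nat_lit 6) (nat_lit 4) (nat_lit 331) (nat_lit 247) (nat_lit 142))) (XT.nd (nat_lit 78) (nat_lit 76) (nat_lit 0) (XT.lf (nat_lit 0) (nat_lit 7413433947)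 (nat_lit 152) (nat_lit 21966120318) (nat_lit 76) (nat_lit 93081365873) (nat_lit 5) (nat_lit 5) (nat_lit 7) (nat_lit 5) (nat_lit 6) (nat_lit 4) (nat_lit 332) (nat_lit 247) (nat_lit 141)) (XT.nd (nat_lit 78) (nat_lit 76) (nat_lit 0) (XT.lf (nat_lit 0) (nat_lit 14181280633) (nat_lit 152) (nat_lit 8102134230) (nat_lit 76) (nat_lit 105885037773) (nat_lit 5) (nat_lit 5) (nat_lit 7) (nat_lit 5) (nat_lit 6) (nat_lit 4) (nat_lit 333) (nat_lit 247) (nat_lit 140)) (XT.lf (nat_lit 0) (nat_lit 6660434741) (nat_lit 76) (nat_lit 14726791090) (nat_lit 152) (nat_lit 112769154098) (nat_lit 4) (nat_lit 5) (nat_lit 5) (nat_lit 5) (nat_lit 6) (nat_lit 4) (nat_lit 334) (nat_lit 247) (nat_lit 139))))))) (XT.nd (nat_lit 702) (nat_lit 76) (nat_lit 0) (XT.nd (nat_lit 312) (nat_lit 0) (nat_lit 0) (XT.nd (nat_lit 156) (nat_lit 0) (nat_lit 0) (XT.nd (nat_lit 78) (nat_lit 0) (nat_lit 0) (XT.lf (nat_lit 0) (nat_lit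 22434753715) (nat_lit 76) (nat_lit 6651730469) (nat_lit 152) (nat_lit 111350571917) (nat_lit 4) (nat_lit 5) (nat_lit 5) (nat_lit 5) (nat_lit 6) (nat_lit 4) (nat_lit 335) (nat_lit 247) (nat_lit 138)) (XT.lf (nat_lit 0) (nat_lit 37195181991) (nat_lit 152) (nat_lit 108069955994) (nat_lit 0) (nat_lit 1765407426) (nat_lit 4) (nat_lit 5) (nat_lit 6) (nat_lit 4) (nat_lit 4) (nat_lit 4) (nat_lit 336) (nat_lit 247) (nat_lit 137))) (XT.nd (nat_lit 78) (nat_lit 0) (nat_lit 0) (XT.lf (nat_lit 0) (nat_lit 45814502923) (nat_lit 152) (nat_lit 97757134814) (nat_lit 0) (nat_lit 10376815042) (nat_lit 4) (nat_lit 5) (nat_lit 6) (nat_lit 4) (nat_lit 4) (nat_lit 4) (nat_lit 337) (nat_lit 247) (nat_lit 136)) (XT.lf (nat_lit 0) (nat_lit 54861117017) (nat_lit 152) (nat_lit 86935432357) (nat_lit 0) (nat_lit 19415892646) (nat_lit 4) (nat_lit 5) (nat_lit 6) (nat_lit 4) (nat_lit 4) (nat_lit 4) (nat_lit 338) (nat_lit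 247) (nat_lit 135)))) (XT.nd (nat_lit 156) (nat_lit 0) (nat_lit 0) (XT.nd (nat_lit 78) (nat_lit 0) (nat_lit 0) (XT.lf (nat_lit 0) (nat_lit 64356563832) (nat_lit 152) (nat_lit 75579082665) (nat_lit 0) (nat_lit 28904161851) (nat_lit 4) (nat_lit 5) (nat_lit 6) (nat_lit 4) (nat_lit 4) (nat_lit 4) (nat_lit 339) (nat_lit 247) (nat_lit 134)) (XT.lf (nat_lit 0) (nat_lit 74323451574) (nat_lit 152) (nat_lit 63661046810) (nat_lit 0) (nat_lit 38864213774) (nat_lit 4) (nat_lit 5) (nat_lit 6) (nat_lit 4) (nat_lit 4) (nat_lit 4) (nat_lit 340) (nat_lit 247) (nat_lit 133))) (XT.nd (nat_lit 78) (nat_lit 0) (nat_lit 0) (XT.lf (nat_lit 0) (nat_lit 84785510928) (nat_lit 152) (nat_lit 51152948515) (nat_lit 0) (nat_lit 49319762825) (nat_lit 4) (nat_lit 5) (nat_lit 6) (nat_lit 4) (nat_lit 4) (nat_lit 4) (nat_lit 341) (nat_lit 247) (nat_lit 132)) (XT.nd (nat_lit 78) (nat_lit 0) (nat_lit 0) (XT.lf (nat_lit 0)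 (nat_lit 95767651560) (nat_lit 152) (nat_lit 38025006595) (nat_lit 0) (nat_lit 60295703167) (nat_lit 4) (nat_lit 5) (nat_lit 6) (nat_lit 4) (nat_lit 4) (nat_lit 4) (nat_lit 342) (nat_lit 247) (nat_lit 131)) (XT.lf (nat_lit 0) (nat_lit 107296021423) (nat_lit 152) (nat_lit 24245964044) (nat_lit 0) (nat_lit 71818167993) (nat_lit 4) (nat_lit 5) (nat_lit 6) (nat_lit 4) (nat_lit 4) (nat_lit 4) (nat_lit 343) (nat_lit 247) (nat_lit 130)))))) (XT.nd (nat_lit 312) (nat_lit 0) (nat_lit 0) (XT.nd (nat_lit 156) (nat_lit 0) (nat_lit 0) (XT.nd (nat_lit 78) (nat_lit 76) (nat_lit 0) (XT.lf (nat_lit 0) (nat_lit 119398069017) (nat_lit 152) (nat_lit 9783013620) (nat_lit 0) (nat_lit 83914591742) (nat_lit 4) (nat_lit 5) (nat_lit 6) (nat_lit 4) (nat_lit 4) (nat_lit 4) (nat_lit 344) (nat_lit 247) (nat_lit 129)) (XT.lf (nat_lit 0) (nat_lit 5576771799) (nat_lit 76) (nat_lit 126612905978) (nat_lit 76) (nat_lit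 91124072660) (nat_lit 3) (nat_lit 4) (nat_lit 4) (nat_lit 5) (nat_lit 4) (nat_lit 4) (nat_lit 345) (nat_lit 247) (nat_lit 128))) (XT.nd (nat_lit 78) (nat_lit 0) (nat_lit 0) (XT.lf (nat_lit 0) (nat_lit 22039464067) (nat_lit 76) (nat_lit 123744523232) (nat_lit 76) (nat_lit 88250588920) (nat_lit 3) (nat_lit 4) (nat_lit 4) (nat_lit 5) (nat_lit 4) (nat_lit 4) (nat_lit 346) (nat_lit 247) (nat_lit 127)) (XT.lf (nat_lit 0) (nat_lit 39320789456) (nat_lit 76) (nat_lit 120734784986) (nat_lit 76) (nat_lit 85235992585) (nat_lit 3) (nat_lit 4) (nat_lit 4) (nat_lit 5) (nat_lit 4) (nat_lit 4) (nat_lit 347) (nat_lit 247) (nat_lit 126)))) (XT.nd (nat_lit 156) (nat_lit 0) (nat_lit 0) (XT.nd (nat_lit 78) (nat_lit 0) (nat_lit 0) (XT.lf (nat_lit 0) (nat_lit 57461893980) (nat_lit 76) (nat_lit 117576525196) (nat_lit 76) (nat_lit 82073106044) (nat_lit 3) (nat_lit 4) (nat_lit 4) (nat_lit 5) (nat_lit 4) (nat_lit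 4) (nat_lit 348) (nat_lit 247) (nat_lit 125)) (XT.lf (nat_lit 0) (nat_lit 76505970745) (nat_lit 76) (nat_lit 114262224196) (nat_lit 76) (nat_lit 78754398614) (nat_lit 3) (nat_lit 4) (nat_lit 4) (nat_lit 5) (nat_lit 4) (nat_lit 4) (nat_lit 349) (nat_lit 247) (nat_lit 124))) (XT.nd (nat_lit 78) (nat_lit 0) (nat_lit 0) (XT.lf (nat_lit 0) (nat_lit 96498362790) (nat_lit 76) (nat_lit 110783990794) (nat_lit 76) (nat_lit 75271968612) (nat_lit 3) (nat_lit 4) (nat_lit 4) (nat_lit 5) (nat_lit 4) (nat_lit 4) (nat_lit 350) (nat_lit 247) (nat_lit 123)) (XT.nd (nat_lit 78) (nat_lit 0) (nat_lit 0) (XT.lf (nat_lit 0) (nat_lit 117486671050) (nat_lit 76) (nat_lit 107133543481) (nat_lit 76) (nat_lit 71617524538) (nat_lit 3) (nat_lit 4) (nat_lit 4) (nat_lit 5) (nat_lit 4) (nat_lit 4) (nat_lit 351) (nat_lit 247) (nat_lit 122)) (XT.lf (nat_lit 0) (nat_lit 139520867686) (nat_lit 76) (nat_lit 103302190716)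 (nat_lit 76) (nat_lit 67782365333) (nat_lit 3) (nat_lit 4) (nat_lit 4) (nat_lit 5) (nat_lit 4) (nat_lit 4) (nat_lit 352) (nat_lit 247) (nat_lit 121))))))))
noncomputable def xc135 : XT := (XT.nd (nat_lit 30030) (nat_lit 0) (nat_lit 3116) (XT.nd (nat_lit 29328) (nat_lit 0) (nat_lit 6916) (XT.nd (nat_lit 312) (nat_lit 0) (nat_lit 0) (XT.nd (nat_lit 156) (nat_lit 0) (nat_lit 0) (XT.nd (nat_lit 78) (nat_lit 0) (nat_lit 0) (XT.lf (nat_lit 0) (nat_lit 162653415072) (nat_lit 76) (nat_lit 99280810231) (nat_lit 76) (nat_lit 63757359667) (nat_lit 3) (nat_lit 4) (nat_lit 4) (nat_lit 5) (nat_lit 4) (nat_lit 4) (nat_lit 353) (nat_lit 247) (nat_lit 120)) (XT.lf (nat_lit 0) (nat_lit 186939390701) (nat_lit 76) (nat_lit 95059827310) (nat_lit 76) (nat_lit 59532924193) (nat_lit 3) (nat_lit 4) (nat_lit 4) (nat_lit 5) (nat_lit 4) (nat_lit 4) (nat_lit 354) (nat_lit 247) (nat_lit 119))) (XT.nd (nat_lit 78)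 (nat_lit 0) (nat_lit 0) (XT.lf (nat_lit 0) (nat_lit 212436618325) (nat_lit 76) (nat_lit 90629191993) (nat_lit 76) (nat_lit 55099000731) (nat_lit 3) (nat_lit 4) (nat_lit 4) (nat_lit 5) (nat_lit 4) (nat_lit 4) (nat_lit 355) (nat_lit 247) (nat_lit 118)) (XT.lf (nat_lit 0) (nat_lit 239205805628) (nat_lit 76) (nat_lit 85978355150) (nat_lit 76) (nat_lit 50445032320) (nat_lit 3) (nat_lit 4) (nat_lit 4) (nat_lit 5) (nat_lit 4) (nat_lit 4) (nat_lit 356) (nat_lit 247) (nat_lit 117)))) (XT.nd (nat_lit 156) (nat_lit 0) (nat_lit 0) (XT.nd (nat_lit 78) (nat_lit 0) (nat_lit 0) (XT.lf (nat_lit 0) (nat_lit 267310688772) (nat_lit 76) (nat_lit 81096243359) (nat_lit 76) (nat_lit 45559938084) (nat_lit 3) (nat_lit 4) (nat_lit 4) (nat_lit 5) (nat_lit 4) (nat_lit 4) (nat_lit 357) (nat_lit 247) (nat_lit 116)) (XT.lf (nat_lit 0) (nat_lit 296818184144) (nat_lit 76) (nat_lit 75971232544) (nat_lit 76) (nat_lit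 40432086845) (nat_lit 3) (nat_lit 4) (nat_lit 4) (nat_lit 5) (nat_lit 4) (nat_lit 4) (nat_lit 358) (nat_lit 247) (nat_lit 115))) (XT.nd (nat_lit 78) (nat_lit 0) (nat_lit 0) (XT.lf (nat_lit 0) (nat_lit 327798547685) (nat_lit 76) (nat_lit 70591120299) (nat_lit 76) (nat_lit 35049269434) (nat_lit 3) (nat_lit 4) (nat_lit 4) (nat_lit 5) (nat_lit 4) (nat_lit 4) (nat_lit 359) (nat_lit 247) (nat_lit 114)) (XT.nd (nat_lit 78) (nat_lit 0) (nat_lit 0) (XT.lf (nat_lit 0) (nat_lit 360325542167) (nat_lit 76) (nat_lit 64943096832) (nat_lit 76) (nat_lit 29398669619) (nat_lit 3) (nat_lit 4) (nat_lit 4) (nat_lit 5) (nat_lit 4) (nat_lit 4) (nat_lit 360) (nat_lit 247) (nat_lit 113)) (XT.lf (nat_lit 0) (nat_lit 394476612814) (nat_lit 76) (nat_lit 59013714469) (nat_lit 76) (nat_lit 23466833592) (nat_lit 3) (nat_lit 4) (nat_lit 4) (nat_lit 5) (nat_lit 4) (nat_lit 4) (nat_lit 361) (nat_lit 247) (nat_lit 112))))))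 (XT.nd (nat_lit 312) (nat_lit 456) (nat_lit 0) (XT.nd (nat_lit 156) (nat_lit 0) (nat_lit 0) (XT.nd (nat_lit 78) (nat_lit 0) (nat_lit 0) (XT.lf (nat_lit 0) (nat_lit 814493955) (nat_lit 532) (nat_lit 1393997294) (nat_lit 532) (nat_lit 1393997294) (nat_lit 100) (nat_lit 3) (nat_lit 107) (nat_lit 3) (nat_lit 107) (nat_lit 5) (nat_lit 248) (nat_lit 248) (nat_lit 224)) (XT.lf (nat_lit 76) (nat_lit 424068360) (nat_lit 0) (nat_lit 2749724647) (nat_lit 532) (nat_lit 4130506845) (nat_lit 101) (nat_lit 5) (nat_lit 100) (nat_lit 3) (nat_lit 107) (nat_lit 5) (nat_lit 249) (nat_lit 248) (nat_lit 223))) (XT.nd (nat_lit 78) (nat_lit 0) (nat_lit 76) (XT.lf (nat_lit 76) (nat_lit 3841353838) (nat_lit 0) (nat_lit 905029872) (nat_lit 532) (nat_lit 2665036097) (nat_lit 101) (nat_lit 5) (nat_lit 100) (nat_lit 3) (nat_lit 107) (nat_lit 5) (nat_lit 250) (nat_lit 248) (nat_lit 222)) (XT.lf (nat_lit 0) (nat_lit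 6322309117) (nat_lit 456) (nat_lit 165798325) (nat_lit 532) (nat_lit 1039894315) (nat_lit 101) (nat_lit 5) (nat_lit 107) (nat_lit 5) (nat_lit 108) (nat_lit 5) (nat_lit 251) (nat_lit 248) (nat_lit 221)))) (XT.nd (nat_lit 156) (nat_lit 0) (nat_lit 0) (XT.nd (nat_lit 78) (nat_lit 0) (nat_lit 0) (XT.lf (nat_lit 0) (nat_lit 297222729) (nat_lit 532) (nat_lit 4204789471) (nat_lit 608) (nat_lit 3149402235) (nat_lit 94) (nat_lit 5) (nat_lit 101) (nat_lit 5) (nat_lit 102) (nat_lit 5) (nat_lit 252) (nat_lit 248) (nat_lit 220)) (XT.lf (nat_lit 0) (nat_lit 1752229983) (nat_lit 532) (nat_lit 610174207) (nat_lit 608) (nat_lit 5422026810) (nat_lit 94) (nat_lit 5) (nat_lit 101) (nat_lit 5) (nat_lit 102) (nat_lit 5) (nat_lit 253) (nat_lit 248) (nat_lit 219))) (XT.nd (nat_lit 78) (nat_lit 0) (nat_lit 76) (XT.lf (nat_lit 76) (nat_lit 3214748680) (nat_lit 0) (nat_lit 34107668) (nat_lit 608) (nat_lit 4677079361)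 (nat_lit 95) (nat_lit 5) (nat_lit 94) (nat_lit 5) (nat_lit 102) (nat_lit 5) (nat_lit 254) (nat_lit 248) (nat_lit 218)) (XT.nd (nat_lit 78) (nat_lit 0) (nat_lit 0) (XT.lf (nat_lit 0) (nat_lit 4790617853) (nat_lit 532) (nat_lit 915772661) (nat_lit 608) (nat_lit 2369877329) (nat_lit 95) (nat_lit 5) (nat_lit 102) (nat_lit 5) (nat_lit 103) (nat_lit 5) (nat_lit 255) (nat_lit 248) (nat_lit 217)) (XT.lf (nat_lit 76) (nat_lit 3115158189) (nat_lit 0) (nat_lit 3269375731) (nat_lit 608) (nat_lit 1851083991) (nat_lit 96) (nat_lit 5) (nat_lit 95) (nat_lit 5) (nat_lit 103) (nat_lit 5) (nat_lit 256) (nat_lit 248) (nat_lit 216))))))) (XT.nd (nat_lit 702) (nat_lit 1596) (nat_lit 0) (XT.nd (nat_lit 312) (nat_lit 1140) (nat_lit 0) (XT.nd (nat_lit 156) (nat_lit 608) (nat_lit 0) (XT.nd (nat_lit 78) (nat_lit 532) (nat_lit 0) (XT.lf (nat_lit 76) (nat_lit 7326890818) (nat_lit 0) (nat_lit 675344705) (nat_lit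 608) (nat_lit 403737999) (nat_lit 96) (nat_lit 5) (nat_lit 95) (nat_lit 5) (nat_lit 103) (nat_lit 5) (nat_lit 257) (nat_lit 248) (nat_lit 215)) (XT.lf (nat_lit 0) (nat_lit 1094156890) (nat_lit 608) (nat_lit 5421810961) (nat_lit 76) (nat_lit 2067532874) (nat_lit 88) (nat_lit 5) (nat_lit 96) (nat_lit 5) (nat_lit 89) (nat_lit 5) (nat_lit 258) (nat_lit 248) (nat_lit 214))) (XT.nd (nat_lit 78) (nat_lit 608) (nat_lit 0) (XT.lf (nat_lit 0) (nat_lit 2616399020) (nat_lit 608) (nat_lit 1190507260) (nat_lit 76) (nat_lit 4964725541) (nat_lit 88) (nat_lit 5) (nat_lit 96) (nat_lit 5) (nat_lit 89) (nat_lit 5) (nat_lit 259) (nat_lit 248) (nat_lit 213)) (XT.lf (nat_lit 0) (nat_lit 3305302995) (nat_lit 608) (nat_lit 897603055) (nat_lit 684) (nat_lit 4767055305) (nat_lit 80) (nat_lit 5) (nat_lit 88) (nat_lit 5) (nat_lit 89) (nat_lit 5) (nat_lit 260) (nat_lit 248) (nat_lit 212)))) (XT.nd (nat_lit 156)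 (nat_lit 456) (nat_lit 0) (XT.nd (nat_lit 78) (nat_lit 684) (nat_lit 0) (XT.lf (nat_lit 0) (nat_lit 5861811999) (nat_lit 684) (nat_lit 1199366779) (nat_lit 76) (nat_lit 2117564936) (nat_lit 80) (nat_lit 5) (nat_lit 89) (nat_lit 5) (nat_lit 81) (nat_lit 5) (nat_lit 261) (nat_lit 248) (nat_lit 211)) (XT.lf (nat_lit 0) (nat_lit 3534856763) (nat_lit 684) (nat_lit 4080521574) (nat_lit 760) (nat_lit 1782182075) (nat_lit 71) (nat_lit 5) (nat_lit 80) (nat_lit 5) (nat_lit 81) (nat_lit 5) (nat_lit 262) (nat_lit 248) (nat_lit 210))) (XT.nd (nat_lit 78) (nat_lit 456) (nat_lit 0) (XT.lf (nat_lit 0) (nat_lit 8495526375) (nat_lit 684) (nat_lit 925180258) (nat_lit 760) (nat_lit 208579485) (nat_lit 71) (nat_lit 5) (nat_lit 80) (nat_lit 5) (nat_lit 81) (nat_lit 5) (nat_lit 263) (nat_lit 248) (nat_lit 209)) (XT.nd (nat_lit 78) (nat_lit 0) (nat_lit 0) (XT.lf (nat_lit 0) (nat_lit 1442211471) (nat_lit 456)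 (nat_lit 6028078078) (nat_lit 76) (nat_lit 2399102096) (nat_lit 65) (nat_lit 5) (nat_lit 71) (nat_lit 5) (nat_lit 66) (nat_lit 5) (nat_lit 264) (nat_lit 248) (nat_lit 208)) (XT.lf (nat_lit 0) (nat_lit 3150471789) (nat_lit 456) (nat_lit 1088328666) (nat_lit 76) (nat_lit 5883582941) (nat_lit 65) (nat_lit 5) (nat_lit 71) (nat_lit 5) (nat_lit 66) (nat_lit 5) (nat_lit 265) (nat_lit 248) (nat_lit 207)))))) (XT.nd (nat_lit 390) (nat_lit 532) (nat_lit 0) (XT.nd (nat_lit 156) (nat_lit 684) (nat_lit 0) (XT.nd (nat_lit 78) (nat_lit 0) (nat_lit 0) (XT.lf (nat_lit 0) (nat_lit 4181393800) (nat_lit 380) (nat_lit 777803195) (nat_lit 456) (nat_lit 5428216946) (nat_lit 60) (nat_lit 5) (nat_lit 65) (nat_lit 5) (nat_lit 66) (nat_lit 5) (nat_lit 266) (nat_lit 248) (nat_lit 206)) (XT.lf (nat_lit 0) (nat_lit 6873043568) (nat_lit 456) (nat_lit 1009853055) (nat_lit 76) (nat_lit 2782200181) (nat_lit 60) (nat_lit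 5) (nat_lit 66) (nat_lit 5) (nat_lit 61) (nat_lit 5) (nat_lit 267) (nat_lit 248) (nat_lit 205))) (XT.nd (nat_lit 78) (nat_lit 380) (nat_lit 0) (XT.lf (nat_lit 0) (nat_lit 4528237498) (nat_lit 304) (nat_lit 4391468233) (nat_lit 380) (nat_lit 2035230532) (nat_lit 56) (nat_lit 5) (nat_lit 60) (nat_lit 5) (nat_lit 61) (nat_lit 5) (nat_lit 268) (nat_lit 248) (nat_lit 204)) (XT.nd (nat_lit 78) (nat_lit 380) (nat_lit 0) (XT.lf (nat_lit 0) (nat_lit 10329034017) (nat_lit 304) (nat_lit 711880189) (nat_lit 380) (nat_lit 219865320) (nat_lit 56) (nat_lit 5) (nat_lit 60) (nat_lit 5) (nat_lit 61) (nat_lit 5) (nat_lit 269) (nat_lit 248) (nat_lit 203)) (XT.lf (nat_lit 0) (nat_lit 1716378135) (nat_lit 380) (nat_lit 6709212474) (nat_lit 76) (nat_lit 3150915023) (nat_lit 51) (nat_lit 5) (nat_lit 56) (nat_lit 5) (nat_lit 52) (nat_lit 5) (nat_lit 270) (nat_lit 248) (nat_lit 202))))) (XT.nd (nat_lit 156)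 (nat_lit 304) (nat_lit 0) (XT.nd (nat_lit 78) (nat_lit 228) (nat_lit 0) (XT.lf (nat_lit 0) (nat_lit 3727432952) (nat_lit 380) (nat_lit 983945559) (nat_lit 76) (nat_lit 7197295722) (nat_lit 51) (nat_lit 5) (nat_lit 56) (nat_lit 5) (nat_lit 52) (nat_lit 5) (nat_lit 271) (nat_lit 248) (nat_lit 201)) (XT.lf (nat_lit 0) (nat_lit 5144807669) (nat_lit 228) (nat_lit 734252653) (nat_lit 304) (nat_lit 6376490726) (nat_lit 48) (nat_lit 5) (nat_lit 51) (nat_lit 5) (nat_lit 52) (nat_lit 5) (nat_lit 272) (nat_lit 248) (nat_lit 200))) (XT.nd (nat_lit 78) (nat_lit 304) (nat_lit 0) (XT.lf (nat_lit 0) (nat_lit 8169708253) (nat_lit 304) (nat_lit 1107399228) (nat_lit 76) (nat_lit 3341188238) (nat_lit 48) (nat_lit 5) (nat_lit 52) (nat_lit 5) (nat_lit 49) (nat_lit 5) (nat_lit 273) (nat_lit 248) (nat_lit 199)) (XT.nd (nat_lit 78) (nat_lit 0) (nat_lit 0) (XT.lf (nat_lit 0) (nat_lit 5307656779) (nat_lit 304)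 (nat_lit 5324771726) (nat_lit 380) (nat_lit 2363963527) (nat_lit 44) (nat_lit 5) (nat_lit 48) (nat_lit 5) (nat_lit 49) (nat_lit 5) (nat_lit 274) (nat_lit 248) (nat_lit 198)) (XT.lf (nat_lit 0) (nat_lit 12036362123) (nat_lit 304) (nat_lit 1164380687) (nat_lit 380) (nat_lit 193614502) (nat_lit 44) (nat_lit 5) (nat_lit 48) (nat_lit 5) (nat_lit 49) (nat_lit 5) (nat_lit 275) (nat_lit 248) (nat_lit 197))))))))
noncomputable def xc136 : XT := (XT.nd (nat_lit 1404) (nat_lit 836) (nat_lit 0) (XT.nd (nat_lit 702) (nat_lit 532) (nat_lit 0) (XT.nd (nat_lit 312) (nat_lit 608) (nat_lit 0) (XT.nd (nat_lit 156) (nat_lit 228) (nat_lit 0) (XT.nd (nat_lit 78) (nat_lit 0) (nat_lit 0) (XT.lf (nat_lit 0) (nat_lit 2119151016) (nat_lit 304) (nat_lit 8475581542) (nat_lit 76) (nat_lit 3210907418) (nat_lit 40) (nat_lit 5) (nat_lit 44) (nat_lit 5) (nat_lit 41) (nat_lit 5) (nat_lit 276) (nat_lit 248) (nat_lit 196))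 (XT.lf (nat_lit 0) (nat_lit 4549137059) (nat_lit 304) (nat_lit 1904854454) (nat_lit 76) (nat_lit 7783007310) (nat_lit 40) (nat_lit 5) (nat_lit 44) (nat_lit 5) (nat_lit 41) (nat_lit 5) (nat_lit 277) (nat_lit 248) (nat_lit 195))) (XT.nd (nat_lit 78) (nat_lit 0) (nat_lit 0) (XT.lf (nat_lit 0) (nat_lit 5114741589) (nat_lit 228) (nat_lit 2032998581) (nat_lit 304) (nat_lit 7539901174) (nat_lit 37) (nat_lit 5) (nat_lit 40) (nat_lit 5) (nat_lit 41) (nat_lit 5) (nat_lit 278) (nat_lit 248) (nat_lit 194)) (XT.lf (nat_lit 0) (nat_lit 9917782402) (nat_lit 304) (nat_lit 2693179624) (nat_lit 76) (nat_lit 2547846724) (nat_lit 37) (nat_lit 5) (nat_lit 41) (nat_lit 5) (nat_lit 38) (nat_lit 5) (nat_lit 279) (nat_lit 248) (nat_lit 193)))) (XT.nd (nat_lit 156) (nat_lit 456) (nat_lit 0) (XT.nd (nat_lit 78) (nat_lit 0) (nat_lit 0) (XT.lf (nat_lit 0) (nat_lit 4602445710) (nat_lit 152) (nat_lit 8298576429)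 (nat_lit 228) (nat_lit 2748842576) (nat_lit 35) (nat_lit 5) (nat_lit 37) (nat_lit 5) (nat_lit 38) (nat_lit 5) (nat_lit 280) (nat_lit 248) (nat_lit 192)) (XT.lf (nat_lit 0) (nat_lit 12314971851) (nat_lit 152) (nat_lit 3734378587) (nat_lit 228) (nat_lit 115388579) (nat_lit 35) (nat_lit 5) (nat_lit 37) (nat_lit 5) (nat_lit 38) (nat_lit 5) (nat_lit 281) (nat_lit 248) (nat_lit 191))) (XT.nd (nat_lit 78) (nat_lit 152) (nat_lit 0) (XT.lf (nat_lit 0) (nat_lit 2612596963) (nat_lit 304) (nat_lit 12973964651) (nat_lit 76) (nat_lit 1114399693) (nat_lit 31) (nat_lit 5) (nat_lit 35) (nat_lit 5) (nat_lit 32) (nat_lit 5) (nat_lit 282) (nat_lit 248) (nat_lit 190)) (XT.nd (nat_lit 78) (nat_lit 152) (nat_lit 0) (XT.lf (nat_lit 0) (nat_lit 5572366102) (nat_lit 304) (nat_lit 5549700240) (nat_lit 76) (nat_lit 6136924123) (nat_lit 31) (nat_lit 5) (nat_lit 35) (nat_lit 5) (nat_lit 32) (nat_lit 5) (nat_lit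 283) (nat_lit 248) (nat_lit 189)) (XT.lf (nat_lit 0) (nat_lit 2279655304) (nat_lit 152) (nat_lit 6409180513) (nat_lit 228) (nat_lit 9155700556) (nat_lit 29) (nat_lit 5) (nat_lit 31) (nat_lit 5) (nat_lit 32) (nat_lit 5) (nat_lit 284) (nat_lit 248) (nat_lit 188)))))) (XT.nd (nat_lit 312) (nat_lit 304) (nat_lit 0) (XT.nd (nat_lit 156) (nat_lit 76) (nat_lit 0) (XT.nd (nat_lit 78) (nat_lit 152) (nat_lit 0) (XT.lf (nat_lit 0) (nat_lit 10654696804) (nat_lit 152) (nat_lit 1374218983) (nat_lit 228) (nat_lit 6427102927) (nat_lit 29) (nat_lit 5) (nat_lit 31) (nat_lit 5) (nat_lit 32) (nat_lit 5) (nat_lit 285) (nat_lit 248) (nat_lit 187)) (XT.lf (nat_lit 0) (nat_lit 259913863) (nat_lit 152) (nat_lit 15316094130) (nat_lit 228) (nat_lit 3520112931) (nat_lit 27) (nat_lit 5) (nat_lit 29) (nat_lit 5) (nat_lit 30) (nat_lit 5) (nat_lit 286) (nat_lit 248) (nat_lit 186))) (XT.nd (nat_lit 78) (nat_lit 76)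 (nat_lit 0) (XT.lf (nat_lit 0) (nat_lit 8934656009) (nat_lit 152) (nat_lit 10495565334) (nat_lit 228) (nat_lit 331562542) (nat_lit 27) (nat_lit 5) (nat_lit 29) (nat_lit 5) (nat_lit 30) (nat_lit 5) (nat_lit 287) (nat_lit 248) (nat_lit 185)) (XT.lf (nat_lit 0) (nat_lit 2896097964) (nat_lit 228) (nat_lit 2500874060) (nat_lit 76) (nat_lit 15062631778) (nat_lit 26) (nat_lit 5) (nat_lit 29) (nat_lit 5) (nat_lit 27) (nat_lit 5) (nat_lit 288) (nat_lit 248) (nat_lit 184)))) (XT.nd (nat_lit 156) (nat_lit 152) (nat_lit 0) (XT.nd (nat_lit 78) (nat_lit 0) (nat_lit 0) (XT.lf (nat_lit 0) (nat_lit 6352252584) (nat_lit 228) (nat_lit 14782222744) (nat_lit 76) (nat_lit 53692908) (nat_lit 24) (nat_lit 5) (nat_lit 27) (nat_lit 5) (nat_lit 25) (nat_lit 5) (nat_lit 289) (nat_lit 248) (nat_lit 183)) (XT.lf (nat_lit 0) (nat_lit 10090460858) (nat_lit 228) (nat_lit 6230143840) (nat_lit 76) (nat_lit 5627130069)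 (nat_lit 24) (nat_lit 5) (nat_lit 27) (nat_lit 5) (nat_lit 25) (nat_lit 5) (nat_lit 290) (nat_lit 248) (nat_lit 182))) (XT.nd (nat_lit 78) (nat_lit 0) (nat_lit 0) (XT.lf (nat_lit 0) (nat_lit 2806151401) (nat_lit 152) (nat_lit 11232023974) (nat_lit 228) (nat_lit 8706008908) (nat_lit 22) (nat_lit 5) (nat_lit 24) (nat_lit 5) (nat_lit 25) (nat_lit 5) (nat_lit 291) (nat_lit 248) (nat_lit 181)) (XT.nd (nat_lit 78) (nat_lit 0) (nat_lit 0) (XT.lf (nat_lit 0) (nat_lit 12477891470) (nat_lit 152) (nat_lit 5790178865) (nat_lit 228) (nat_lit 5308179013) (nat_lit 22) (nat_lit 5) (nat_lit 24) (nat_lit 5) (nat_lit 25) (nat_lit 5) (nat_lit 292) (nat_lit 248) (nat_lit 180)) (XT.lf (nat_lit 0) (nat_lit 22602107628) (nat_lit 152) (nat_lit 87623097) (nat_lit 228) (nat_lit 1761204653) (nat_lit 22) (nat_lit 5) (nat_lit 24) (nat_lit 5) (nat_lit 25) (nat_lit 5) (nat_lit 293) (nat_lit 248) (nat_lit 179)))))))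 (XT.nd (nat_lit 702) (nat_lit 228) (nat_lit 0) (XT.nd (nat_lit 312) (nat_lit 304) (nat_lit 0) (XT.nd (nat_lit 156) (nat_lit 152) (nat_lit 0) (XT.nd (nat_lit 78) (nat_lit 0) (nat_lit 0) (XT.lf (nat_lit 0) (nat_lit 2101509907) (nat_lit 152) (nat_lit 17396807245) (nat_lit 76) (nat_lit 5859473234) (nat_lit 20) (nat_lit 5) (nat_lit 22) (nat_lit 5) (nat_lit 21) (nat_lit 5) (nat_lit 294) (nat_lit 248) (nat_lit 178)) (XT.lf (nat_lit 0) (nat_lit 6112577921) (nat_lit 152) (nat_lit 8044361919) (nat_lit 76) (nat_lit 12150911399) (nat_lit 20) (nat_lit 5) (nat_lit 22) (nat_lit 5) (nat_lit 21) (nat_lit 5) (nat_lit 295) (nat_lit 248) (nat_lit 177))) (XT.nd (nat_lit 78) (nat_lit 0) (nat_lit 0) (XT.lf (nat_lit 0) (nat_lit 1804322818) (nat_lit 152) (nat_lit 8530090120) (nat_lit 228) (nat_lit 16970517223) (nat_lit 18) (nat_lit 5) (nat_lit 20) (nat_lit 5) (nat_lit 21) (nat_lit 5) (nat_lit 296) (nat_lit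 248) (nat_lit 176)) (XT.lf (nat_lit 0) (nat_lit 12396061300) (nat_lit 152) (nat_lit 2489964226) (nat_lit 228) (nat_lit 13459927696) (nat_lit 18) (nat_lit 5) (nat_lit 20) (nat_lit 5) (nat_lit 21) (nat_lit 5) (nat_lit 297) (nat_lit 248) (nat_lit 175)))) (XT.nd (nat_lit 156) (nat_lit 228) (nat_lit 0) (XT.nd (nat_lit 78) (nat_lit 76) (nat_lit 0) (XT.lf (nat_lit 0) (nat_lit 19708482973) (nat_lit 228) (nat_lit 6009775310) (nat_lit 76) (nat_lit 3718629256) (nat_lit 18) (nat_lit 5) (nat_lit 21) (nat_lit 5) (nat_lit 19) (nat_lit 4) (nat_lit 298) (nat_lit 248) (nat_lit 174)) (XT.lf (nat_lit 0) (nat_lit 4504026505) (nat_lit 76) (nat_lit 20363101201) (nat_lit 152) (nat_lit 5710509854) (nat_lit 17) (nat_lit 5) (nat_lit 18) (nat_lit 5) (nat_lit 19) (nat_lit 4) (nat_lit 299) (nat_lit 248) (nat_lit 173))) (XT.nd (nat_lit 78) (nat_lit 228) (nat_lit 0) (XT.lf (nat_lit 0) (nat_lit 15725935699) (nat_lit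 76) (nat_lit 14643828262) (nat_lit 152) (nat_lit 1401379304) (nat_lit 17) (nat_lit 5) (nat_lit 18) (nat_lit 5) (nat_lit 19) (nat_lit 4) (nat_lit 300) (nat_lit 248) (nat_lit 172)) (XT.nd (nat_lit 78) (nat_lit 152) (nat_lit 0) (XT.lf (nat_lit 0) (nat_lit 3008010066) (nat_lit 152) (nat_lit 5589648432) (nat_lit 76) (nat_lit 24425008617) (nat_lit 16) (nat_lit 5) (nat_lit 18) (nat_lit 5) (nat_lit 17) (nat_lit 5) (nat_lit 301) (nat_lit 248) (nat_lit 171)) (XT.lf (nat_lit 0) (nat_lit 5518038833) (nat_lit 152) (nat_lit 2144376539) (nat_lit 228) (nat_lit 26669639284) (nat_lit 14) (nat_lit 5) (nat_lit 16) (nat_lit 5) (nat_lit 17) (nat_lit 5) (nat_lit 302) (nat_lit 248) (nat_lit 170)))))) (XT.nd (nat_lit 312) (nat_lit 152) (nat_lit 0) (XT.nd (nat_lit 156) (nat_lit 76) (nat_lit 0) (XT.nd (nat_lit 78) (nat_lit 0) (nat_lit 0) (XT.lf (nat_lit 0) (nat_lit 12703724290) (nat_lit 228) (nat_lit 18425343461)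 (nat_lit 76) (nat_lit 4570152054) (nat_lit 14) (nat_lit 5) (nat_lit 17) (nat_lit 5) (nat_lit 15) (nat_lit 4) (nat_lit 303) (nat_lit 248) (nat_lit 169)) (XT.lf (nat_lit 0) (nat_lit 18018591707) (nat_lit 228) (nat_lit 7575697722) (nat_lit 76) (nat_lit 11539395702) (nat_lit 14) (nat_lit 5) (nat_lit 17) (nat_lit 5) (nat_lit 15) (nat_lit 4) (nat_lit 304) (nat_lit 248) (nat_lit 168))) (XT.nd (nat_lit 78) (nat_lit 0) (nat_lit 0) (XT.lf (nat_lit 0) (nat_lit 3919688110) (nat_lit 76) (nat_lit 19727701547) (nat_lit 152) (nat_lit 14990090488) (nat_lit 13) (nat_lit 5) (nat_lit 14) (nat_lit 5) (nat_lit 15) (nat_lit 4) (nat_lit 305) (nat_lit 248) (nat_lit 167)) (XT.lf (nat_lit 0) (nat_lit 16231015673) (nat_lit 76) (nat_lit 13442178355) (nat_lit 152) (nat_lit 10537507587) (nat_lit 13) (nat_lit 5) (nat_lit 14) (nat_lit 5) (nat_lit 15) (nat_lit 4) (nat_lit 306) (nat_lit 248) (nat_lit 166)))) (XT.nd (nat_lit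 156) (nat_lit 152) (nat_lit 0) (XT.nd (nat_lit 78) (nat_lit 0) (nat_lit 0) (XT.lf (nat_lit 0) (nat_lit 29137110869) (nat_lit 76) (nat_lit 6851052428) (nat_lit 152) (nat_lit 5875041441) (nat_lit 13) (nat_lit 5) (nat_lit 14) (nat_lit 5) (nat_lit 15) (nat_lit 4) (nat_lit 307) (nat_lit 248) (nat_lit 165)) (XT.lf (nat_lit 0) (nat_lit 42608291256) (nat_lit 152) (nat_lit 931179698) (nat_lit 0) (nat_lit 59405186) (nat_lit 13) (nat_lit 5) (nat_lit 15) (nat_lit 4) (nat_lit 13) (nat_lit 4) (nat_lit 308) (nat_lit 248) (nat_lit 164))) (XT.nd (nat_lit 78) (nat_lit 0) (nat_lit 0) (XT.lf (nat_lit 0) (nat_lit 4294091735) (nat_lit 152) (nat_lit 33780198903) (nat_lit 76) (nat_lit 7329400371) (nat_lit 11) (nat_lit 5) (nat_lit 13) (nat_lit 5) (nat_lit 12) (nat_lit 4) (nat_lit 309) (nat_lit 248) (nat_lit 163)) (XT.nd (nat_lit 78) (nat_lit 0) (nat_lit 0) (XT.lf (nat_lit 0) (nat_lit 9814662252) (nat_lit 152)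 (nat_lit 22495601619) (nat_lit 76) (nat_lit 14987435061) (nat_lit 11) (nat_lit 5) (nat_lit 13) (nat_lit 5) (nat_lit 12) (nat_lit 4) (nat_lit 310) (nat_lit 248) (nat_lit 162)) (XT.lf (nat_lit 0) (nat_lit 15600710545) (nat_lit 152) (nat_lit 10665223836) (nat_lit 76) (nat_lit 23021011625) (nat_lit 11) (nat_lit 5) (nat_lit 13) (nat_lit 5) (nat_lit 12) (nat_lit 4) (nat_lit 311) (nat_lit 248) (nat_lit 161))))))))
noncomputable def xc137 : XT := (XT.nd (nat_lit 1404) (nat_lit 228) (nat_lit 0) (XT.nd (nat_lit 702) (nat_lit 152) (nat_lit 0) (XT.nd (nat_lit 312) (nat_lit 152) (nat_lit 0) (XT.nd (nat_lit 156) (nat_lit 0) (nat_lit 0) (XT.nd (nat_lit 78) (nat_lit 0) (nat_lit 0) (XT.lf (nat_lit 0) (nat_lit 1796604578) (nat_lit 76) (nat_lit 19897458371) (nat_lit 152) (nat_lit 29680703081) (nat_lit 10) (nat_lit 5) (nat_lit 11) (nat_lit 5) (nat_lit 12) (nat_lit 4) (nat_lit 312) (nat_lit 248) (nat_lit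 160)) (XT.lf (nat_lit 0) (nat_lit 15234509478) (nat_lit 76) (nat_lit 13028354475) (nat_lit 152) (nat_lit 25295584226) (nat_lit 10) (nat_lit 5) (nat_lit 11) (nat_lit 5) (nat_lit 12) (nat_lit 4) (nat_lit 313) (nat_lit 248) (nat_lit 159))) (XT.nd (nat_lit 78) (nat_lit 0) (nat_lit 0) (XT.lf (nat_lit 0) (nat_lit 29327845411) (nat_lit 76) (nat_lit 5822888408) (nat_lit 152) (nat_lit 20701058864) (nat_lit 10) (nat_lit 5) (nat_lit 11) (nat_lit 5) (nat_lit 12) (nat_lit 4) (nat_lit 314) (nat_lit 248) (nat_lit 158)) (XT.lf (nat_lit 0) (nat_lit 42401177557) (nat_lit 152) (nat_lit 14177197269) (nat_lit 0) (nat_lit 1680529794) (nat_lit 10) (nat_lit 5) (nat_lit 12) (nat_lit 4) (nat_lit 10) (nat_lit 4) (nat_lit 315) (nat_lit 248) (nat_lit 157)))) (XT.nd (nat_lit 156) (nat_lit 76) (nat_lit 0) (XT.nd (nat_lit 78) (nat_lit 76) (nat_lit 0) (XT.lf (nat_lit 0) (nat_lit 50101000279) (nat_lit 152) (nat_lit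 1323833818) (nat_lit 0) (nat_lit 9357204007) (nat_lit 10) (nat_lit 5) (nat_lit 12) (nat_lit 4) (nat_lit 10) (nat_lit 4) (nat_lit 316) (nat_lit 248) (nat_lit 156)) (XT.lf (nat_lit 0) (nat_lit 12559645010) (nat_lit 76) (nat_lit 45814069536) (nat_lit 76) (nat_lit 5048227064) (nat_lit 9) (nat_lit 4) (nat_lit 10) (nat_lit 5) (nat_lit 10) (nat_lit 4) (nat_lit 317) (nat_lit 248) (nat_lit 155))) (XT.nd (nat_lit 78) (nat_lit 0) (nat_lit 0) (XT.lf (nat_lit 0) (nat_lit 853123539) (nat_lit 152) (nat_lit 39037935596) (nat_lit 76) (nat_lit 26301381344) (nat_lit 8) (nat_lit 5) (nat_lit 10) (nat_lit 5) (nat_lit 9) (nat_lit 4) (nat_lit 318) (nat_lit 248) (nat_lit 154)) (XT.nd (nat_lit 78) (nat_lit 0) (nat_lit 0) (XT.lf (nat_lit 0) (nat_lit 6872113461) (nat_lit 152) (nat_lit 26719002807) (nat_lit 76) (nat_lit 35506606095) (nat_lit 8) (nat_lit 5) (nat_lit 10) (nat_lit 5) (nat_lit 9) (nat_lit 4) (nat_lit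 319) (nat_lit 248) (nat_lit 153)) (XT.lf (nat_lit 0) (nat_lit 13184648423) (nat_lit 152) (nat_lit 13797350470) (nat_lit 76) (nat_lit 45166646557) (nat_lit 8) (nat_lit 5) (nat_lit 10) (nat_lit 5) (nat_lit 9) (nat_lit 4) (nat_lit 320) (nat_lit 248) (nat_lit 152)))))) (XT.nd (nat_lit 312) (nat_lit 76) (nat_lit 0) (XT.nd (nat_lit 156) (nat_lit 0) (nat_lit 0) (XT.nd (nat_lit 78) (nat_lit 76) (nat_lit 0) (XT.lf (nat_lit 0) (nat_lit 19805758270) (nat_lit 152) (nat_lit 242212747) (nat_lit 76) (nat_lit 55304502826) (nat_lit 8) (nat_lit 5) (nat_lit 10) (nat_lit 5) (nat_lit 9) (nat_lit 4) (nat_lit 321) (nat_lit 248) (nat_lit 151)) (XT.lf (nat_lit 0) (nat_lit 14440882939) (nat_lit 76) (nat_lit 12535787263) (nat_lit 152) (nat_lit 51728892369) (nat_lit 7) (nat_lit 5) (nat_lit 8) (nat_lit 5) (nat_lit 9) (nat_lit 4) (nat_lit 322) (nat_lit 248) (nat_lit 150))) (XT.nd (nat_lit 78) (nat_lit 0) (nat_lit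 0) (XT.lf (nat_lit 0) (nat_lit 29854738635) (nat_lit 76) (nat_lit 4648910547) (nat_lit 152) (nat_lit 47722786429) (nat_lit 7) (nat_lit 5) (nat_lit 8) (nat_lit 5) (nat_lit 9) (nat_lit 4) (nat_lit 323) (nat_lit 248) (nat_lit 149)) (XT.lf (nat_lit 0) (nat_lit 42457342802) (nat_lit 152) (nat_lit 39952258851) (nat_lit 0) (nat_lit 3511238029) (nat_lit 7) (nat_lit 5) (nat_lit 9) (nat_lit 4) (nat_lit 7) (nat_lit 4) (nat_lit 324) (nat_lit 248) (nat_lit 148)))) (XT.nd (nat_lit 156) (nat_lit 76) (nat_lit 0) (XT.nd (nat_lit 78) (nat_lit 0) (nat_lit 0) (XT.lf (nat_lit 0) (nat_lit 50878890040) (nat_lit 152) (nat_lit 26998996777) (nat_lit 0) (nat_lit 11918574090) (nat_lit 7) (nat_lit 5) (nat_lit 9) (nat_lit 4) (nat_lit 7) (nat_lit 4) (nat_lit 325) (nat_lit 248) (nat_lit 147)) (XT.lf (nat_lit 0) (nat_lit 59715759676) (nat_lit 152) (nat_lit 13408487130) (nat_lit 0) (nat_lit 20741909272) (nat_lit 7)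 (nat_lit 5) (nat_lit 9) (nat_lit 4) (nat_lit 7) (nat_lit 4) (nat_lit 326) (nat_lit 248) (nat_lit 146))) (XT.nd (nat_lit 78) (nat_lit 0) (nat_lit 0) (XT.lf (nat_lit 0) (nat_lit 879787126) (nat_lit 76) (nat_lit 68122940692) (nat_lit 76) (nat_lit 29136200332) (nat_lit 6) (nat_lit 4) (nat_lit 7) (nat_lit 5) (nat_lit 7) (nat_lit 4) (nat_lit 327) (nat_lit 248) (nat_lit 145)) (XT.nd (nat_lit 78) (nat_lit 0) (nat_lit 0) (XT.lf (nat_lit 0) (nat_lit 16338227930) (nat_lit 76) (nat_lit 62637523359) (nat_lit 76) (nat_lit 23638506850) (nat_lit 6) (nat_lit 4) (nat_lit 7) (nat_lit 5) (nat_lit 7) (nat_lit 4) (nat_lit 328) (nat_lit 248) (nat_lit 144)) (XT.lf (nat_lit 0) (nat_lit 32560295954) (nat_lit 76) (nat_lit 56882013507) (nat_lit 76) (nat_lit 17871305429) (nat_lit 6) (nat_lit 4) (nat_lit 7) (nat_lit 5) (nat_lit 7) (nat_lit 4) (nat_lit 329) (nat_lit 248) (nat_lit 143))))))) (XT.nd (nat_lit 702) (nat_lit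 76) (nat_lit 0) (XT.nd (nat_lit 312) (nat_lit 76) (nat_lit 0) (XT.nd (nat_lit 156) (nat_lit 76) (nat_lit 0) (XT.nd (nat_lit 78) (nat_lit 0) (nat_lit 0) (XT.lf (nat_lit 0) (nat_lit 49584615170) (nat_lit 76) (nat_lit 50842707543) (nat_lit 76) (nat_lit 11820864636) (nat_lit 6) (nat_lit 4) (nat_lit 7) (nat_lit 5) (nat_lit 7) (nat_lit 4) (nat_lit 330) (nat_lit 248) (nat_lit 142)) (XT.lf (nat_lit 0) (nat_lit 67451719669) (nat_lit 76) (nat_lit 44505226165) (nat_lit 76) (nat_lit 5472778659) (nat_lit 6) (nat_lit 4) (nat_lit 7) (nat_lit 5) (nat_lit 7) (nat_lit 4) (nat_lit 331) (nat_lit 248) (nat_lit 141))) (XT.nd (nat_lit 78) (nat_lit 0) (nat_lit 0) (XT.lf (nat_lit 0) (nat_lit 1150041427) (nat_lit 152) (nat_lit 36684962198) (nat_lit 76) (nat_lit 85034632244) (nat_lit 5) (nat_lit 5) (nat_lit 7) (nat_lit 5) (nat_lit 6) (nat_lit 4) (nat_lit 332) (nat_lit 248) (nat_lit 140)) (XT.lf (nat_lit 0) (nat_lit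 7915799393) (nat_lit 152) (nat_lit 22824777050) (nat_lit 76) (nat_lit 97836698056) (nat_lit 5) (nat_lit 5) (nat_lit 7) (nat_lit 5) (nat_lit 6) (nat_lit 4) (nat_lit 333) (nat_lit 248) (nat_lit 139)))) (XT.nd (nat_lit 156) (nat_lit 0) (nat_lit 0) (XT.nd (nat_lit 78) (nat_lit 76) (nat_lit 0) (XT.lf (nat_lit 0) (nat_lit 15015767282) (nat_lit 152) (nat_lit 8279003528) (nat_lit 76) (nat_lit 111275731461) (nat_lit 5) (nat_lit 5) (nat_lit 7) (nat_lit 5) (nat_lit 6) (nat_lit 4) (nat_lit 334) (nat_lit 248) (nat_lit 138)) (XT.lf (nat_lit 0) (nat_lit 7218012643) (nat_lit 76) (nat_lit 15361530542) (nat_lit 152) (nat_lit 118278410921) (nat_lit 4) (nat_lit 5) (nat_lit 5) (nat_lit 5) (nat_lit 6) (nat_lit 4) (nat_lit 335) (nat_lit 248) (nat_lit 137))) (XT.nd (nat_lit 78) (nat_lit 0) (nat_lit 0) (XT.lf (nat_lit 0) (nat_lit 23770354415) (nat_lit 76) (nat_lit 6887554991) (nat_lit 152) (nat_lit 116795052055)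 (nat_lit 4) (nat_lit 5) (nat_lit 5) (nat_lit 5) (nat_lit 6) (nat_lit 4) (nat_lit 336) (nat_lit 248) (nat_lit 136)) (XT.nd (nat_lit 78) (nat_lit 0) (nat_lit 0) (XT.lf (nat_lit 0) (nat_lit 39167904652) (nat_lit 152) (nat_lit 113265549285) (nat_lit 0) (nat_lit 1942882572) (nat_lit 4) (nat_lit 5) (nat_lit 6) (nat_lit 4) (nat_lit 4) (nat_lit 4) (nat_lit 337) (nat_lit 248) (nat_lit 135)) (XT.lf (nat_lit 0) (nat_lit 48212812412) (nat_lit 152) (nat_lit 102446987261) (nat_lit 0) (nat_lit 10980612722) (nat_lit 4) (nat_lit 5) (nat_lit 6) (nat_lit 4) (nat_lit 4) (nat_lit 4) (nat_lit 338) (nat_lit 248) (nat_lit 134)))))) (XT.nd (nat_lit 312) (nat_lit 76) (nat_lit 0) (XT.nd (nat_lit 156) (nat_lit 0) (nat_lit 0) (XT.nd (nat_lit 78) (nat_lit 0) (nat_lit 0) (XT.lf (nat_lit 0) (nat_lit 57706634147) (nat_lit 152) (nat_lit 91093628457) (nat_lit 0) (nat_lit 20467598639) (nat_lit 4) (nat_lit 5) (nat_lit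 6) (nat_lit 4) (nat_lit 4) (nat_lit 4) (nat_lit 339) (nat_lit 248) (nat_lit 133)) (XT.lf (nat_lit 0) (nat_lit 67671974194) (nat_lit 152) (nat_lit 79178441067) (nat_lit 0) (nat_lit 30426428382) (nat_lit 4) (nat_lit 5) (nat_lit 6) (nat_lit 4) (nat_lit 4) (nat_lit 4) (nat_lit 340) (nat_lit 248) (nat_lit 132))) (XT.nd (nat_lit 78) (nat_lit 0) (nat_lit 0) (XT.lf (nat_lit 0) (nat_lit 78132559553) (nat_lit 152) (nat_lit 66673055596) (nat_lit 0) (nat_lit 40880813452) (nat_lit 4) (nat_lit 5) (nat_lit 6) (nat_lit 4) (nat_lit 4) (nat_lit 4) (nat_lit 341) (nat_lit 248) (nat_lit 131)) (XT.lf (nat_lit 0) (nat_lit 89113296380) (nat_lit 152) (nat_lit 53547697318) (nat_lit 0) (nat_lit 51855645241) (nat_lit 4) (nat_lit 5) (nat_lit 6) (nat_lit 4) (nat_lit 4) (nat_lit 4) (nat_lit 342) (nat_lit 248) (nat_lit 130)))) (XT.nd (nat_lit 156) (nat_lit 76) (nat_lit 0) (XT.nd (nat_lit 78) (nat_lit 0) (nat_lit 0)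 (XT.lf (nat_lit 0) (nat_lit 100640329286) (nat_lit 152) (nat_lit 39771115379) (nat_lit 0) (nat_lit 63377054302) (nat_lit 4) (nat_lit 5) (nat_lit 6) (nat_lit 4) (nat_lit 4) (nat_lit 4) (nat_lit 343) (nat_lit 248) (nat_lit 129)) (XT.lf (nat_lit 0) (nat_lit 112741103587) (nat_lit 152) (nat_lit 25310508394) (nat_lit 0) (nat_lit 75472472560) (nat_lit 4) (nat_lit 5) (nat_lit 6) (nat_lit 4) (nat_lit 4) (nat_lit 4) (nat_lit 344) (nat_lit 248) (nat_lit 128))) (XT.nd (nat_lit 78) (nat_lit 76) (nat_lit 0) (XT.lf (nat_lit 0) (nat_lit 125444430652) (nat_lit 152) (nat_lit 10131446346) (nat_lit 0) (nat_lit 88170698632) (nat_lit 4) (nat_lit 5) (nat_lit 6) (nat_lit 4) (nat_lit 4) (nat_lit 4) (nat_lit 345) (nat_lit 248) (nat_lit 127)) (XT.nd (nat_lit 78) (nat_lit 0) (nat_lit 0) (XT.lf (nat_lit 0) (nat_lit 5994058700) (nat_lit 76) (nat_lit 132880081851) (nat_lit 76) (nat_lit 95601491741) (nat_lit 3) (nat_lit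 4) (nat_lit 4) (nat_lit 5) (nat_lit 4) (nat_lit 4) (nat_lit 346) (nat_lit 248) (nat_lit 126)) (XT.lf (nat_lit 0) (nat_lit 23273292804) (nat_lit 76) (nat_lit 129871302321) (nat_lit 76) (nat_lit 92588085460) (nat_lit 3) (nat_lit 4) (nat_lit 4) (nat_lit 5) (nat_lit 4) (nat_lit 4) (nat_lit 347) (nat_lit 248) (nat_lit 125))))))))
noncomputable def xc138 : XT := (XT.nd (nat_lit 30108) (nat_lit 0) (nat_lit 3648) (XT.nd (nat_lit 702) (nat_lit 0) (nat_lit 0) (XT.nd (nat_lit 312) (nat_lit 0) (nat_lit 0) (XT.nd (nat_lit 156) (nat_lit 0) (nat_lit 0) (XT.nd (nat_lit 78) (nat_lit 0) (nat_lit 0) (XT.lf (nat_lit 0) (nat_lit 41412405628) (nat_lit 76) (nat_lit 126713955594) (nat_lit 76) (nat_lit 89426332304) (nat_lit 3) (nat_lit 4) (nat_lit 4) (nat_lit 5) (nat_lit 4) (nat_lit 4) (nat_lit 348) (nat_lit 248) (nat_lit 124)) (XT.lf (nat_lit 0) (nat_lit 60454585535) (nat_lit 76) (nat_lit 123400524179) (nat_lit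 76) (nat_lit 86108704289) (nat_lit 3) (nat_lit 4) (nat_lit 4) (nat_lit 5) (nat_lit 4) (nat_lit 4) (nat_lit 349) (nat_lit 248) (nat_lit 123))) (XT.nd (nat_lit 78) (nat_lit 0) (nat_lit 0) (XT.lf (nat_lit 0) (nat_lit 80445171050) (nat_lit 76) (nat_lit 119923118952) (nat_lit 76) (nat_lit 82627302300) (nat_lit 3) (nat_lit 4) (nat_lit 4) (nat_lit 5) (nat_lit 4) (nat_lit 4) (nat_lit 350) (nat_lit 248) (nat_lit 122)) (XT.lf (nat_lit 0) (nat_lit 101431758804) (nat_lit 76) (nat_lit 116273460377) (nat_lit 76) (nat_lit 78973837286) (nat_lit 3) (nat_lit 4) (nat_lit 4) (nat_lit 5) (nat_lit 4) (nat_lit 4) (nat_lit 351) (nat_lit 248) (nat_lit 121)))) (XT.nd (nat_lit 156) (nat_lit 0) (nat_lit 0) (XT.nd (nat_lit 78) (nat_lit 0) (nat_lit 0) (XT.lf (nat_lit 0) (nat_lit 123464316863) (nat_lit 76) (nat_lit 112442858792) (nat_lit 76) (nat_lit 75139610519) (nat_lit 3) (nat_lit 4) (nat_lit 4) (nat_lit 5) (nat_lit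 4) (nat_lit 4) (nat_lit 352) (nat_lit 248) (nat_lit 120)) (XT.lf (nat_lit 0) (nat_lit 146595303700) (nat_lit 76) (nat_lit 108422193716) (nat_lit 76) (nat_lit 71115492890) (nat_lit 3) (nat_lit 4) (nat_lit 4) (nat_lit 5) (nat_lit 4) (nat_lit 4) (nat_lit 353) (nat_lit 248) (nat_lit 119))) (XT.nd (nat_lit 78) (nat_lit 0) (nat_lit 0) (XT.lf (nat_lit 0) (nat_lit 170879793092) (nat_lit 76) (nat_lit 104201892136) (nat_lit 76) (nat_lit 66891903165) (nat_lit 3) (nat_lit 4) (nat_lit 4) (nat_lit 5) (nat_lit 4) (nat_lit 4) (nat_lit 354) (nat_lit 248) (nat_lit 118)) (XT.nd (nat_lit 78) (nat_lit 0) (nat_lit 0) (XT.lf (nat_lit 0) (nat_lit 196375605251) (nat_lit 76) (nat_lit 99771905717) (nat_lit 76) (nat_lit 62458785178) (nat_lit 3) (nat_lit 4) (nat_lit 4) (nat_lit 5) (nat_lit 4) (nat_lit 4) (nat_lit 355) (nat_lit 248) (nat_lit 117)) (XT.lf (nat_lit 0) (nat_lit 223143444494) (nat_lit 76) (nat_lit 95121686871)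 (nat_lit 76) (nat_lit 57805583887) (nat_lit 3) (nat_lit 4) (nat_lit 4) (nat_lit 5) (nat_lit 4) (nat_lit 4) (nat_lit 356) (nat_lit 248) (nat_lit 116)))))) (XT.nd (nat_lit 312) (nat_lit 0) (nat_lit 0) (XT.nd (nat_lit 156) (nat_lit 0) (nat_lit 0) (XT.nd (nat_lit 78) (nat_lit 0) (nat_lit 0) (XT.lf (nat_lit 0) (nat_lit 251247043770) (nat_lit 76) (nat_lit 90240163648) (nat_lit 76) (nat_lit 52921220241) (nat_lit 3) (nat_lit 4) (nat_lit 4) (nat_lit 5) (nat_lit 4) (nat_lit 4) (nat_lit 357) (nat_lit 248) (nat_lit 115)) (XT.lf (nat_lit 0) (nat_lit 280753316410) (nat_lit 76) (nat_lit 85115713375) (nat_lit 76) (nat_lit 47794064802) (nat_lit 3) (nat_lit 4) (nat_lit 4) (nat_lit 5) (nat_lit 4) (nat_lit 4) (nat_lit 358) (nat_lit 248) (nat_lit 114))) (XT.nd (nat_lit 78) (nat_lit 0) (nat_lit 0) (XT.lf (nat_lit 0) (nat_lit 311732515446) (nat_lit 76) (nat_lit 79736134979) (nat_lit 76) (nat_lit 42411910058)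 (nat_lit 3) (nat_lit 4) (nat_lit 4) (nat_lit 5) (nat_lit 4) (nat_lit 4) (nat_lit 359) (nat_lit 248) (nat_lit 113)) (XT.lf (nat_lit 0) (nat_lit 344258400875) (nat_lit 76) (nat_lit 74088619941) (nat_lit 76) (nat_lit 36761941354) (nat_lit 3) (nat_lit 4) (nat_lit 4) (nat_lit 5) (nat_lit 4) (nat_lit 4) (nat_lit 360) (nat_lit 248) (nat_lit 112)))) (XT.nd (nat_lit 28860) (nat_lit 0) (nat_lit 6840) (XT.nd (nat_lit 28782) (nat_lit 0) (nat_lit 7372) (XT.lf (nat_lit 0) (nat_lit 378408415280) (nat_lit 76) (nat_lit 68159721795) (nat_lit 76) (nat_lit 30830706384) (nat_lit 3) (nat_lit 4) (nat_lit 4) (nat_lit 5) (nat_lit 4) (nat_lit 4) (nat_lit 361) (nat_lit 248) (nat_lit 111)) (XT.lf (nat_lit 0) (nat_lit 2329298617) (nat_lit 532) (nat_lit 687050054) (nat_lit 532) (nat_lit 687050054) (nat_lit 100) (nat_lit 3) (nat_lit 107) (nat_lit 3) (nat_lit 107) (nat_lit 5) (nat_lit 249) (nat_lit 249) (nat_lit 222)))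 (XT.nd (nat_lit 78) (nat_lit 532) (nat_lit 0) (XT.lf (nat_lit 76) (nat_lit 1973512856) (nat_lit 0) (nat_lit 4190601288) (nat_lit 532) (nat_lit 1353323417) (nat_lit 101) (nat_lit 5) (nat_lit 100) (nat_lit 3) (nat_lit 107) (nat_lit 5) (nat_lit 250) (nat_lit 249) (nat_lit 221)) (XT.nd (nat_lit 78) (nat_lit 0) (nat_lit 0) (XT.lf (nat_lit 0) (nat_lit 41952362) (nat_lit 532) (nat_lit 2148942718) (nat_lit 608) (nat_lit 5446226376) (nat_lit 93) (nat_lit 5) (nat_lit 100) (nat_lit 3) (nat_lit 101) (nat_lit 5) (nat_lit 251) (nat_lit 249) (nat_lit 220)) (XT.lf (nat_lit 76) (nat_lit 1389907939) (nat_lit 0) (nat_lit 8127434) (nat_lit 608) (nat_lit 6367113483) (nat_lit 94) (nat_lit 5) (nat_lit 93) (nat_lit 5) (nat_lit 101) (nat_lit 5) (nat_lit 252) (nat_lit 249) (nat_lit 219))))))) (XT.nd (nat_lit 702) (nat_lit 2204) (nat_lit 0) (XT.nd (nat_lit 312) (nat_lit 1064) (nat_lit 0) (XT.nd (nat_lit 156)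 (nat_lit 0) (nat_lit 0) (XT.nd (nat_lit 78) (nat_lit 0) (nat_lit 0) (XT.lf (nat_lit 0) (nat_lit 2813246229) (nat_lit 532) (nat_lit 2806018358) (nat_lit 608) (nat_lit 2281027606) (nat_lit 94) (nat_lit 5) (nat_lit 101) (nat_lit 5) (nat_lit 102) (nat_lit 5) (nat_lit 253) (nat_lit 249) (nat_lit 218)) (XT.lf (nat_lit 76) (nat_lit 921192014) (nat_lit 0) (nat_lit 3315091250) (nat_lit 608) (nat_lit 3809323535) (nat_lit 95) (nat_lit 5) (nat_lit 94) (nat_lit 5) (nat_lit 102) (nat_lit 5) (nat_lit 254) (nat_lit 249) (nat_lit 217))) (XT.nd (nat_lit 78) (nat_lit 0) (nat_lit 76) (XT.lf (nat_lit 76) (nat_lit 4883161164) (nat_lit 0) (nat_lit 820305027) (nat_lit 608) (nat_lit 2496325891) (nat_lit 95) (nat_lit 5) (nat_lit 94) (nat_lit 5) (nat_lit 102) (nat_lit 5) (nat_lit 255) (nat_lit 249) (nat_lit 216)) (XT.lf (nat_lit 76) (nat_lit 622518990) (nat_lit 0) (nat_lit 6588700363) (nat_lit 608) (nat_lit 1152349248)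 (nat_lit 96) (nat_lit 5) (nat_lit 95) (nat_lit 5) (nat_lit 103) (nat_lit 5) (nat_lit 256) (nat_lit 249) (nat_lit 215)))) (XT.nd (nat_lit 156) (nat_lit 532) (nat_lit 0) (XT.nd (nat_lit 78) (nat_lit 0) (nat_lit 0) (XT.lf (nat_lit 0) (nat_lit 251722302) (nat_lit 608) (nat_lit 3729912335) (nat_lit 684) (nat_lit 4553858229) (nat_lit 87) (nat_lit 5) (nat_lit 95) (nat_lit 5) (nat_lit 96) (nat_lit 5) (nat_lit 257) (nat_lit 249) (nat_lit 214)) (XT.lf (nat_lit 76) (nat_lit 426493937) (nat_lit 0) (nat_lit 1201381441) (nat_lit 684) (nat_lit 7090372695) (nat_lit 88) (nat_lit 5) (nat_lit 87) (nat_lit 5) (nat_lit 96) (nat_lit 5) (nat_lit 258) (nat_lit 249) (nat_lit 213))) (XT.nd (nat_lit 78) (nat_lit 608) (nat_lit 0) (XT.lf (nat_lit 0) (nat_lit 3100408262) (nat_lit 608) (nat_lit 4067473489) (nat_lit 76) (nat_lit 1741080210) (nat_lit 88) (nat_lit 5) (nat_lit 96) (nat_lit 5) (nat_lit 89) (nat_lit 5)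 (nat_lit 259) (nat_lit 249) (nat_lit 212)) (XT.nd (nat_lit 78) (nat_lit 0) (nat_lit 0) (XT.lf (nat_lit 0) (nat_lit 307847091) (nat_lit 608) (nat_lit 4302791118) (nat_lit 684) (nat_lit 4500559837) (nat_lit 80) (nat_lit 5) (nat_lit 88) (nat_lit 5) (nat_lit 89) (nat_lit 5) (nat_lit 260) (nat_lit 249) (nat_lit 211)) (XT.lf (nat_lit 0) (nat_lit 4993626658) (nat_lit 608) (nat_lit 1213311414) (nat_lit 684) (nat_lit 3116260917) (nat_lit 80) (nat_lit 5) (nat_lit 88) (nat_lit 5) (nat_lit 89) (nat_lit 5) (nat_lit 261) (nat_lit 249) (nat_lit 210)))))) (XT.nd (nat_lit 312) (nat_lit 1064) (nat_lit 0) (XT.nd (nat_lit 156) (nat_lit 456) (nat_lit 0) (XT.nd (nat_lit 78) (nat_lit 0) (nat_lit 0) (XT.lf (nat_lit 0) (nat_lit 295402791) (nat_lit 684) (nat_lit 7568548380) (nat_lit 760) (nat_lit 1682976255) (nat_lit 71) (nat_lit 5) (nat_lit 80) (nat_lit 5) (nat_lit 81) (nat_lit 5) (nat_lit 262) (nat_lit 249)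 (nat_lit 209)) (XT.lf (nat_lit 0) (nat_lit 5231958855) (nat_lit 684) (nat_lit 4411198331) (nat_lit 760) (nat_lit 136882135) (nat_lit 71) (nat_lit 5) (nat_lit 80) (nat_lit 5) (nat_lit 81) (nat_lit 5) (nat_lit 263) (nat_lit 249) (nat_lit 208))) (XT.nd (nat_lit 78) (nat_lit 0) (nat_lit 0) (XT.lf (nat_lit 0) (nat_lit 328907635) (nat_lit 380) (nat_lit 1063178353) (nat_lit 456) (nat_lit 8634051919) (nat_lit 65) (nat_lit 5) (nat_lit 70) (nat_lit 5) (nat_lit 71) (nat_lit 5) (nat_lit 264) (nat_lit 249) (nat_lit 207)) (XT.lf (nat_lit 0) (nat_lit 3059243990) (nat_lit 456) (nat_lit 4765684170) (nat_lit 76) (nat_lit 2456325785) (nat_lit 65) (nat_lit 5) (nat_lit 71) (nat_lit 5) (nat_lit 66) (nat_lit 5) (nat_lit 265) (nat_lit 249) (nat_lit 206)))) (XT.nd (nat_lit 156) (nat_lit 684) (nat_lit 0) (XT.nd (nat_lit 78) (nat_lit 0) (nat_lit 0) (XT.lf (nat_lit 0) (nat_lit 358045853) (nat_lit 380) (nat_lit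 4426893859) (nat_lit 456) (nat_lit 5765562129) (nat_lit 60) (nat_lit 5) (nat_lit 65) (nat_lit 5) (nat_lit 66) (nat_lit 5) (nat_lit 266) (nat_lit 249) (nat_lit 205)) (XT.lf (nat_lit 0) (nat_lit 5855773268) (nat_lit 380) (nat_lit 775550916) (nat_lit 456) (nat_lit 4200296364) (nat_lit 60) (nat_lit 5) (nat_lit 65) (nat_lit 5) (nat_lit 66) (nat_lit 5) (nat_lit 267) (nat_lit 249) (nat_lit 204))) (XT.nd (nat_lit 78) (nat_lit 380) (nat_lit 0) (XT.lf (nat_lit 0) (nat_lit 419590000) (nat_lit 304) (nat_lit 8160618330) (nat_lit 380) (nat_lit 2546200331) (nat_lit 56) (nat_lit 5) (nat_lit 60) (nat_lit 5) (nat_lit 61) (nat_lit 5) (nat_lit 268) (nat_lit 249) (nat_lit 203)) (XT.nd (nat_lit 78) (nat_lit 380) (nat_lit 0) (XT.lf (nat_lit 0) (nat_lit 6197502255) (nat_lit 304) (nat_lit 4483060128) (nat_lit 380) (nat_lit 752789169) (nat_lit 56) (nat_lit 5) (nat_lit 60) (nat_lit 5) (nat_lit 61) (nat_lit 5)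 (nat_lit 269) (nat_lit 249) (nat_lit 202)) (XT.lf (nat_lit 0) (nat_lit 459574259) (nat_lit 304) (nat_lit 600226316) (nat_lit 380) (nat_lit 10696780250) (nat_lit 51) (nat_lit 5) (nat_lit 55) (nat_lit 5) (nat_lit 56) (nat_lit 5) (nat_lit 270) (nat_lit 249) (nat_lit 201))))))))
noncomputable def xc139 : XT := (XT.nd (nat_lit 1404) (nat_lit 988) (nat_lit 0) (XT.nd (nat_lit 702) (nat_lit 836) (nat_lit 0) (XT.nd (nat_lit 312) (nat_lit 532) (nat_lit 0) (XT.nd (nat_lit 156) (nat_lit 304) (nat_lit 0) (XT.nd (nat_lit 78) (nat_lit 228) (nat_lit 0) (XT.lf (nat_lit 0) (nat_lit 3041823175) (nat_lit 380) (nat_lit 5585511367) (nat_lit 76) (nat_lit 3462915653) (nat_lit 51) (nat_lit 5) (nat_lit 56) (nat_lit 5) (nat_lit 52) (nat_lit 5) (nat_lit 271) (nat_lit 249) (nat_lit 200)) (XT.lf (nat_lit 0) (nat_lit 368323657) (nat_lit 228) (nat_lit 4731827823) (nat_lit 304) (nat_lit 7341687299) (nat_lit 48) (nat_lit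 5) (nat_lit 51) (nat_lit 5) (nat_lit 52) (nat_lit 5) (nat_lit 272) (nat_lit 249) (nat_lit 199))) (XT.nd (nat_lit 78) (nat_lit 304) (nat_lit 0) (XT.lf (nat_lit 0) (nat_lit 6769311732) (nat_lit 228) (nat_lit 549425869) (nat_lit 304) (nat_lit 5489493529) (nat_lit 48) (nat_lit 5) (nat_lit 51) (nat_lit 5) (nat_lit 52) (nat_lit 5) (nat_lit 273) (nat_lit 249) (nat_lit 198)) (XT.lf (nat_lit 0) (nat_lit 199720542) (nat_lit 304) (nat_lit 9476051428) (nat_lit 380) (nat_lit 3515882230) (nat_lit 44) (nat_lit 5) (nat_lit 48) (nat_lit 5) (nat_lit 49) (nat_lit 5) (nat_lit 274) (nat_lit 249) (nat_lit 197)))) (XT.nd (nat_lit 156) (nat_lit 456) (nat_lit 0) (XT.nd (nat_lit 78) (nat_lit 76) (nat_lit 0) (XT.lf (nat_lit 0) (nat_lit 6907264508) (nat_lit 304) (nat_lit 5319959373) (nat_lit 380) (nat_lit 1363279161) (nat_lit 44) (nat_lit 5) (nat_lit 48) (nat_lit 5) (nat_lit 49) (nat_lit 5) (nat_lit 275) (nat_lit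 249) (nat_lit 196)) (XT.lf (nat_lit 0) (nat_lit 834707978) (nat_lit 380) (nat_lit 115611808) (nat_lit 76) (nat_lit 13060026438) (nat_lit 43) (nat_lit 5) (nat_lit 48) (nat_lit 5) (nat_lit 44) (nat_lit 5) (nat_lit 276) (nat_lit 249) (nat_lit 195))) (XT.nd (nat_lit 78) (nat_lit 228) (nat_lit 0) (XT.lf (nat_lit 0) (nat_lit 3231991988) (nat_lit 304) (nat_lit 7565435726) (nat_lit 76) (nat_lit 3645947395) (nat_lit 40) (nat_lit 5) (nat_lit 44) (nat_lit 5) (nat_lit 41) (nat_lit 5) (nat_lit 277) (nat_lit 249) (nat_lit 194)) (XT.nd (nat_lit 78) (nat_lit 228) (nat_lit 0) (XT.lf (nat_lit 0) (nat_lit 5735530504) (nat_lit 304) (nat_lit 729692516) (nat_lit 76) (nat_lit 8433581110) (nat_lit 40) (nat_lit 5) (nat_lit 44) (nat_lit 5) (nat_lit 41) (nat_lit 5) (nat_lit 278) (nat_lit 249) (nat_lit 193)) (XT.lf (nat_lit 0) (nat_lit 6620392931) (nat_lit 228) (nat_lit 1817521857) (nat_lit 304) (nat_lit 6935471334)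 (nat_lit 37) (nat_lit 5) (nat_lit 40) (nat_lit 5) (nat_lit 41) (nat_lit 5) (nat_lit 279) (nat_lit 249) (nat_lit 192)))))) (XT.nd (nat_lit 312) (nat_lit 380) (nat_lit 0) (XT.nd (nat_lit 156) (nat_lit 304) (nat_lit 0) (XT.nd (nat_lit 78) (nat_lit 152) (nat_lit 0) (XT.lf (nat_lit 0) (nat_lit 11306756137) (nat_lit 304) (nat_lit 1595838304) (nat_lit 76) (nat_lit 2967597745) (nat_lit 37) (nat_lit 5) (nat_lit 41) (nat_lit 5) (nat_lit 38) (nat_lit 5) (nat_lit 280) (nat_lit 249) (nat_lit 191)) (XT.lf (nat_lit 0) (nat_lit 6044697324) (nat_lit 152) (nat_lit 8370857434) (nat_lit 228) (nat_lit 1971516955) (nat_lit 35) (nat_lit 5) (nat_lit 37) (nat_lit 5) (nat_lit 38) (nat_lit 5) (nat_lit 281) (nat_lit 249) (nat_lit 190))) (XT.nd (nat_lit 78) (nat_lit 228) (nat_lit 0) (XT.lf (nat_lit 0) (nat_lit 726043107) (nat_lit 228) (nat_lit 2856427264) (nat_lit 76) (nat_lit 13346790329) (nat_lit 34) (nat_lit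 5) (nat_lit 37) (nat_lit 5) (nat_lit 35) (nat_lit 5) (nat_lit 282) (nat_lit 249) (nat_lit 189)) (XT.lf (nat_lit 0) (nat_lit 3569941124) (nat_lit 304) (nat_lit 12420551835) (nat_lit 76) (nat_lit 1502615283) (nat_lit 31) (nat_lit 5) (nat_lit 35) (nat_lit 5) (nat_lit 32) (nat_lit 5) (nat_lit 283) (nat_lit 249) (nat_lit 188)))) (XT.nd (nat_lit 156) (nat_lit 228) (nat_lit 0) (XT.nd (nat_lit 78) (nat_lit 152) (nat_lit 0) (XT.lf (nat_lit 0) (nat_lit 6638331372) (nat_lit 304) (nat_lit 4682317587) (nat_lit 76) (nat_lit 6760432810) (nat_lit 31) (nat_lit 5) (nat_lit 35) (nat_lit 5) (nat_lit 32) (nat_lit 5) (nat_lit 284) (nat_lit 249) (nat_lit 187)) (XT.lf (nat_lit 0) (nat_lit 3520040127) (nat_lit 152) (nat_lit 6370678027) (nat_lit 228) (nat_lit 8806253135) (nat_lit 29) (nat_lit 5) (nat_lit 31) (nat_lit 5) (nat_lit 32) (nat_lit 5) (nat_lit 285) (nat_lit 249) (nat_lit 186))) (XT.nd (nat_lit 78)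 (nat_lit 228) (nat_lit 0) (XT.lf (nat_lit 0) (nat_lit 12260195508) (nat_lit 152) (nat_lit 1101061826) (nat_lit 228) (nat_lit 5979665264) (nat_lit 29) (nat_lit 5) (nat_lit 31) (nat_lit 5) (nat_lit 32) (nat_lit 5) (nat_lit 286) (nat_lit 249) (nat_lit 185)) (XT.nd (nat_lit 78) (nat_lit 76) (nat_lit 0) (XT.lf (nat_lit 0) (nat_lit 1360405156) (nat_lit 152) (nat_lit 15712556640) (nat_lit 228) (nat_lit 2940769634) (nat_lit 27) (nat_lit 5) (nat_lit 29) (nat_lit 5) (nat_lit 30) (nat_lit 5) (nat_lit 287) (nat_lit 249) (nat_lit 184)) (XT.lf (nat_lit 0) (nat_lit 359357301) (nat_lit 228) (nat_lit 10303145937) (nat_lit 76) (nat_lit 10051655713) (nat_lit 26) (nat_lit 5) (nat_lit 29) (nat_lit 5) (nat_lit 27) (nat_lit 5) (nat_lit 288) (nat_lit 249) (nat_lit 183))))))) (XT.nd (nat_lit 702) (nat_lit 380) (nat_lit 0) (XT.nd (nat_lit 312) (nat_lit 304) (nat_lit 0) (XT.nd (nat_lit 156) (nat_lit 152) (nat_lit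 0) (XT.nd (nat_lit 78) (nat_lit 152) (nat_lit 0) (XT.lf (nat_lit 0) (nat_lit 3704098382) (nat_lit 228) (nat_lit 1616486447) (nat_lit 76) (nat_lit 16127726877) (nat_lit 26) (nat_lit 5) (nat_lit 29) (nat_lit 5) (nat_lit 27) (nat_lit 5) (nat_lit 289) (nat_lit 249) (nat_lit 182)) (XT.lf (nat_lit 0) (nat_lit 7322388341) (nat_lit 228) (nat_lit 14500170642) (nat_lit 76) (nat_lit 391331975) (nat_lit 24) (nat_lit 5) (nat_lit 27) (nat_lit 5) (nat_lit 25) (nat_lit 5) (nat_lit 290) (nat_lit 249) (nat_lit 181))) (XT.nd (nat_lit 78) (nat_lit 152) (nat_lit 0) (XT.lf (nat_lit 0) (nat_lit 11216434499) (nat_lit 228) (nat_lit 5569114613) (nat_lit 76) (nat_lit 6227490784) (nat_lit 24) (nat_lit 5) (nat_lit 27) (nat_lit 5) (nat_lit 25) (nat_lit 5) (nat_lit 291) (nat_lit 249) (nat_lit 180)) (XT.lf (nat_lit 0) (nat_lit 3903309319) (nat_lit 152) (nat_lit 11443571653) (nat_lit 228) (nat_lit 8503211656) (nat_lit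 22) (nat_lit 5) (nat_lit 24) (nat_lit 5) (nat_lit 25) (nat_lit 5) (nat_lit 292) (nat_lit 249) (nat_lit 179)))) (XT.nd (nat_lit 156) (nat_lit 304) (nat_lit 0) (XT.nd (nat_lit 78) (nat_lit 0) (nat_lit 0) (XT.lf (nat_lit 0) (nat_lit 14013072090) (nat_lit 152) (nat_lit 5746303503) (nat_lit 228) (nat_lit 4965875870) (nat_lit 22) (nat_lit 5) (nat_lit 24) (nat_lit 5) (nat_lit 25) (nat_lit 5) (nat_lit 293) (nat_lit 249) (nat_lit 178)) (XT.lf (nat_lit 0) (nat_lit 24378120632) (nat_lit 228) (nat_lit 1048507614) (nat_lit 76) (nat_lit 218287052) (nat_lit 22) (nat_lit 5) (nat_lit 25) (nat_lit 5) (nat_lit 23) (nat_lit 4) (nat_lit 294) (nat_lit 249) (nat_lit 177))) (XT.nd (nat_lit 78) (nat_lit 152) (nat_lit 0) (XT.lf (nat_lit 0) (nat_lit 2758870558) (nat_lit 152) (nat_lit 17370647056) (nat_lit 76) (nat_lit 6467757393) (nat_lit 20) (nat_lit 5) (nat_lit 22) (nat_lit 5) (nat_lit 21) (nat_lit 5) (nat_lit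 295) (nat_lit 249) (nat_lit 176)) (XT.nd (nat_lit 78) (nat_lit 152) (nat_lit 0) (XT.lf (nat_lit 0) (nat_lit 6944192679) (nat_lit 152) (nat_lit 7593246157) (nat_lit 76) (nat_lit 13058752681) (nat_lit 20) (nat_lit 5) (nat_lit 22) (nat_lit 5) (nat_lit 21) (nat_lit 5) (nat_lit 296) (nat_lit 249) (nat_lit 175)) (XT.lf (nat_lit 0) (nat_lit 2734109368) (nat_lit 152) (nat_lit 8631071181) (nat_lit 228) (nat_lit 17278576638) (nat_lit 18) (nat_lit 5) (nat_lit 20) (nat_lit 5) (nat_lit 21) (nat_lit 5) (nat_lit 297) (nat_lit 249) (nat_lit 174)))))) (XT.nd (nat_lit 390) (nat_lit 228) (nat_lit 0) (XT.nd (nat_lit 156) (nat_lit 152) (nat_lit 0) (XT.nd (nat_lit 78) (nat_lit 0) (nat_lit 0) (XT.lf (nat_lit 0) (nat_lit 13815455230) (nat_lit 152) (nat_lit 2304440108) (nat_lit 228) (nat_lit 13618194132) (nat_lit 18) (nat_lit 5) (nat_lit 20) (nat_lit 5) (nat_lit 21) (nat_lit 5) (nat_lit 298) (nat_lit 249) (nat_lit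 173)) (XT.lf (nat_lit 0) (nat_lit 21164772698) (nat_lit 228) (nat_lit 5529395542) (nat_lit 76) (nat_lit 4190369936) (nat_lit 18) (nat_lit 5) (nat_lit 21) (nat_lit 5) (nat_lit 19) (nat_lit 4) (nat_lit 299) (nat_lit 249) (nat_lit 172))) (XT.nd (nat_lit 78) (nat_lit 76) (nat_lit 0) (XT.lf (nat_lit 0) (nat_lit 5497501710) (nat_lit 76) (nat_lit 21073420695) (nat_lit 152) (nat_lit 5511955630) (nat_lit 17) (nat_lit 5) (nat_lit 18) (nat_lit 5) (nat_lit 19) (nat_lit 4) (nat_lit 300) (nat_lit 249) (nat_lit 171)) (XT.nd (nat_lit 78) (nat_lit 76) (nat_lit 0) (XT.lf (nat_lit 0) (nat_lit 17243921893) (nat_lit 76) (nat_lit 15082842946) (nat_lit 152) (nat_lit 1010419968) (nat_lit 17) (nat_lit 5) (nat_lit 18) (nat_lit 5) (nat_lit 19) (nat_lit 4) (nat_lit 301) (nat_lit 249) (nat_lit 170)) (XT.lf (nat_lit 0) (nat_lit 3583432014) (nat_lit 152) (nat_lit 5157695533) (nat_lit 76) (nat_lit 25910886715) (nat_lit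 16) (nat_lit 5) (nat_lit 18) (nat_lit 5) (nat_lit 17) (nat_lit 5) (nat_lit 302) (nat_lit 249) (nat_lit 169))))) (XT.nd (nat_lit 156) (nat_lit 76) (nat_lit 0) (XT.nd (nat_lit 78) (nat_lit 0) (nat_lit 0) (XT.lf (nat_lit 0) (nat_lit 6493901332) (nat_lit 152) (nat_lit 1967345482) (nat_lit 228) (nat_lit 27566115387) (nat_lit 14) (nat_lit 5) (nat_lit 16) (nat_lit 5) (nat_lit 17) (nat_lit 5) (nat_lit 303) (nat_lit 249) (nat_lit 168)) (XT.lf (nat_lit 0) (nat_lit 13739052039) (nat_lit 228) (nat_lit 18663927008) (nat_lit 76) (nat_lit 5060709287) (nat_lit 14) (nat_lit 5) (nat_lit 17) (nat_lit 5) (nat_lit 15) (nat_lit 4) (nat_lit 304) (nat_lit 249) (nat_lit 167))) (XT.nd (nat_lit 78) (nat_lit 76) (nat_lit 0) (XT.lf (nat_lit 0) (nat_lit 19300608468) (nat_lit 228) (nat_lit 7304307725) (nat_lit 76) (nat_lit 12365936564) (nat_lit 14) (nat_lit 5) (nat_lit 17) (nat_lit 5) (nat_lit 15) (nat_lit 4) (nat_lit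 305) (nat_lit 249) (nat_lit 166)) (XT.nd (nat_lit 78) (nat_lit 0) (nat_lit 0) (XT.lf (nat_lit 0) (nat_lit 4755360707) (nat_lit 76) (nat_lit 20447325926) (nat_lit 152) (nat_lit 15347580887) (nat_lit 13) (nat_lit 5) (nat_lit 14) (nat_lit 5) (nat_lit 15) (nat_lit 4) (nat_lit 306) (nat_lit 249) (nat_lit 165)) (XT.lf (nat_lit 0) (nat_lit 17651793305) (nat_lit 76) (nat_lit 13860229465) (nat_lit 152) (nat_lit 10691036181) (nat_lit 13) (nat_lit 5) (nat_lit 14) (nat_lit 5) (nat_lit 15) (nat_lit 4) (nat_lit 307) (nat_lit 249) (nat_lit 164))))))))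
noncomputable def xc140 : XT := (XT.nd (nat_lit 1404) (nat_lit 228) (nat_lit 0) (XT.nd (nat_lit 702) (nat_lit 228) (nat_lit 0) (XT.nd (nat_lit 312) (nat_lit 76) (nat_lit 0) (XT.nd (nat_lit 156) (nat_lit 152) (nat_lit 0) (XT.nd (nat_lit 78) (nat_lit 0) (nat_lit 0) (XT.lf (nat_lit 0) (nat_lit 31174182459) (nat_lit 76) (nat_lit 6951645232) (nat_lit 152) (nat_lit 5813225146) (nat_lit 13) (nat_lit 5) (nat_lit 14) (nat_lit 5) (nat_lit 15) (nat_lit 4) (nat_lit 308) (nat_lit 249) (nat_lit 163)) (XT.lf (nat_lit 0) (nat_lit 45064452390) (nat_lit 152) (nat_lit 412262003) (nat_lit 0) (nat_lit 285437914) (nat_lit 13) (nat_lit 5) (nat_lit 15) (nat_lit 4) (nat_lit 13) (nat_lit 4) (nat_lit 309) (nat_lit 249) (nat_lit 162))) (XT.nd (nat_lit 78) (nat_lit 0) (nat_lit 0) (XT.lf (nat_lit 0) (nat_lit 4833296253) (nat_lit 152) (nat_lit 34901778373) (nat_lit 76) (nat_lit 7922230983) (nat_lit 11) (nat_lit 5)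 (nat_lit 13) (nat_lit 5) (nat_lit 12) (nat_lit 4) (nat_lit 310) (nat_lit 249) (nat_lit 161)) (XT.lf (nat_lit 0) (nat_lit 10614442919) (nat_lit 152) (nat_lit 23079971724) (nat_lit 76) (nat_lit 15952388332) (nat_lit 11) (nat_lit 5) (nat_lit 13) (nat_lit 5) (nat_lit 12) (nat_lit 4) (nat_lit 311) (nat_lit 249) (nat_lit 160)))) (XT.nd (nat_lit 156) (nat_lit 0) (nat_lit 0) (XT.nd (nat_lit 78) (nat_lit 76) (nat_lit 0) (XT.lf (nat_lit 0) (nat_lit 16675077075) (nat_lit 152) (nat_lit 10683808860) (nat_lit 76) (nat_lit 24377377938) (nat_lit 11) (nat_lit 5) (nat_lit 13) (nat_lit 5) (nat_lit 12) (nat_lit 4) (nat_lit 312) (nat_lit 249) (nat_lit 159)) (XT.lf (nat_lit 0) (nat_lit 2392809746) (nat_lit 76) (nat_lit 20674177524) (nat_lit 152) (nat_lit 30861808019) (nat_lit 10) (nat_lit 5) (nat_lit 11) (nat_lit 5) (nat_lit 12) (nat_lit 4) (nat_lit 313) (nat_lit 249) (nat_lit 158))) (XT.nd (nat_lit 78)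 (nat_lit 0) (nat_lit 0) (XT.lf (nat_lit 0) (nat_lit 16478496799) (nat_lit 76) (nat_lit 13472006707) (nat_lit 152) (nat_lit 26271858469) (nat_lit 10) (nat_lit 5) (nat_lit 11) (nat_lit 5) (nat_lit 12) (nat_lit 4) (nat_lit 314) (nat_lit 249) (nat_lit 157)) (XT.nd (nat_lit 78) (nat_lit 0) (nat_lit 0) (XT.lf (nat_lit 0) (nat_lit 31253534679) (nat_lit 76) (nat_lit 5916160932) (nat_lit 152) (nat_lit 21461345171) (nat_lit 10) (nat_lit 5) (nat_lit 11) (nat_lit 5) (nat_lit 12) (nat_lit 4) (nat_lit 315) (nat_lit 249) (nat_lit 156)) (XT.lf (nat_lit 0) (nat_lit 44773154945) (nat_lit 152) (nat_lit 14438867421) (nat_lit 0) (nat_lit 1946974151) (nat_lit 10) (nat_lit 5) (nat_lit 12) (nat_lit 4) (nat_lit 10) (nat_lit 4) (nat_lit 316) (nat_lit 249) (nat_lit 155)))))) (XT.nd (nat_lit 312) (nat_lit 76) (nat_lit 0) (XT.nd (nat_lit 156) (nat_lit 76) (nat_lit 0) (XT.nd (nat_lit 78) (nat_lit 76) (nat_lit 0)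 (XT.lf (nat_lit 0) (nat_lit 52845972683) (nat_lit 152) (nat_lit 964130545) (nat_lit 0) (nat_lit 9998795509) (nat_lit 10) (nat_lit 5) (nat_lit 12) (nat_lit 4) (nat_lit 10) (nat_lit 4) (nat_lit 317) (nat_lit 249) (nat_lit 154)) (XT.lf (nat_lit 0) (nat_lit 13606652951) (nat_lit 76) (nat_lit 47920787002) (nat_lit 76) (nat_lit 5053613275) (nat_lit 9) (nat_lit 4) (nat_lit 10) (nat_lit 5) (nat_lit 10) (nat_lit 4) (nat_lit 318) (nat_lit 249) (nat_lit 153))) (XT.nd (nat_lit 78) (nat_lit 0) (nat_lit 0) (XT.lf (nat_lit 0) (nat_lit 1123511901) (nat_lit 152) (nat_lit 40583018663) (nat_lit 76) (nat_lit 27783933557) (nat_lit 8) (nat_lit 5) (nat_lit 10) (nat_lit 5) (nat_lit 9) (nat_lit 4) (nat_lit 319) (nat_lit 249) (nat_lit 152)) (XT.lf (nat_lit 0) (nat_lit 7432606930) (nat_lit 152) (nat_lit 27667511317) (nat_lit 76) (nat_lit 37441444158) (nat_lit 8) (nat_lit 5) (nat_lit 10) (nat_lit 5) (nat_lit 9)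 (nat_lit 4) (nat_lit 320) (nat_lit 249) (nat_lit 151)))) (XT.nd (nat_lit 156) (nat_lit 0) (nat_lit 0) (XT.nd (nat_lit 78) (nat_lit 76) (nat_lit 0) (XT.lf (nat_lit 0) (nat_lit 14050440650) (nat_lit 152) (nat_lit 14118225965) (nat_lit 76) (nat_lit 47576891035) (nat_lit 8) (nat_lit 5) (nat_lit 10) (nat_lit 5) (nat_lit 9) (nat_lit 4) (nat_lit 321) (nat_lit 249) (nat_lit 150)) (XT.lf (nat_lit 0) (nat_lit 100308080) (nat_lit 76) (nat_lit 20894027818) (nat_lit 152) (nat_lit 58115664216) (nat_lit 7) (nat_lit 5) (nat_lit 8) (nat_lit 5) (nat_lit 9) (nat_lit 4) (nat_lit 322) (nat_lit 249) (nat_lit 149))) (XT.nd (nat_lit 78) (nat_lit 0) (nat_lit 0) (XT.lf (nat_lit 0) (nat_lit 15508679986) (nat_lit 76) (nat_lit 13009577730) (nat_lit 152) (nat_lit 54112771058) (nat_lit 7) (nat_lit 5) (nat_lit 8) (nat_lit 5) (nat_lit 9) (nat_lit 4) (nat_lit 323) (nat_lit 249) (nat_lit 148)) (XT.nd (nat_lit 78) (nat_lit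 0) (nat_lit 0) (XT.lf (nat_lit 0) (nat_lit 31676764042) (nat_lit 76) (nat_lit 4735642841) (nat_lit 152) (nat_lit 49916005818) (nat_lit 7) (nat_lit 5) (nat_lit 8) (nat_lit 5) (nat_lit 9) (nat_lit 4) (nat_lit 324) (nat_lit 249) (nat_lit 147)) (XT.lf (nat_lit 0) (nat_lit 44757210166) (nat_lit 152) (nat_lit 41629530675) (nat_lit 0) (nat_lit 3821132788) (nat_lit 7) (nat_lit 5) (nat_lit 9) (nat_lit 4) (nat_lit 7) (nat_lit 4) (nat_lit 325) (nat_lit 249) (nat_lit 146))))))) (XT.nd (nat_lit 702) (nat_lit 76) (nat_lit 0) (XT.nd (nat_lit 312) (nat_lit 76) (nat_lit 0) (XT.nd (nat_lit 156) (nat_lit 76) (nat_lit 0) (XT.nd (nat_lit 78) (nat_lit 0) (nat_lit 0) (XT.lf (nat_lit 0) (nat_lit 53591406183) (nat_lit 152) (nat_lit 28043859836) (nat_lit 0) (nat_lit 12642438849) (nat_lit 7) (nat_lit 5) (nat_lit 9) (nat_lit 4) (nat_lit 7) (nat_lit 4) (nat_lit 326) (nat_lit 249) (nat_lit 145)) (XT.lf (nat_lit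 0) (nat_lit 62862092080) (nat_lit 152) (nat_lit 13788352649) (nat_lit 0) (nat_lit 21900848597) (nat_lit 7) (nat_lit 5) (nat_lit 9) (nat_lit 4) (nat_lit 7) (nat_lit 4) (nat_lit 327) (nat_lit 249) (nat_lit 144))) (XT.nd (nat_lit 78) (nat_lit 0) (nat_lit 0) (XT.lf (nat_lit 0) (nat_lit 1209648887) (nat_lit 76) (nat_lit 71400578038) (nat_lit 76) (nat_lit 30427642986) (nat_lit 6) (nat_lit 4) (nat_lit 7) (nat_lit 5) (nat_lit 7) (nat_lit 4) (nat_lit 328) (nat_lit 249) (nat_lit 143)) (XT.lf (nat_lit 0) (nat_lit 17427398760) (nat_lit 76) (nat_lit 65647009348) (nat_lit 76) (nat_lit 24662939466) (nat_lit 6) (nat_lit 4) (nat_lit 7) (nat_lit 5) (nat_lit 7) (nat_lit 4) (nat_lit 329) (nat_lit 249) (nat_lit 142)))) (XT.nd (nat_lit 156) (nat_lit 76) (nat_lit 0) (XT.nd (nat_lit 78) (nat_lit 0) (nat_lit 0) (XT.lf (nat_lit 0) (nat_lit 34447605451) (nat_lit 76) (nat_lit 59609552108) (nat_lit 76) (nat_lit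 18614877628) (nat_lit 6) (nat_lit 4) (nat_lit 7) (nat_lit 5) (nat_lit 7) (nat_lit 4) (nat_lit 330) (nat_lit 249) (nat_lit 141)) (XT.lf (nat_lit 0) (nat_lit 52310793260) (nat_lit 76) (nat_lit 53273831420) (nat_lit 76) (nat_lit 12269057322) (nat_lit 6) (nat_lit 4) (nat_lit 7) (nat_lit 5) (nat_lit 7) (nat_lit 4) (nat_lit 331) (nat_lit 249) (nat_lit 140))) (XT.nd (nat_lit 78) (nat_lit 76) (nat_lit 0) (XT.lf (nat_lit 0) (nat_lit 71059493588) (nat_lit 76) (nat_lit 46624762235) (nat_lit 76) (nat_lit 5610369454) (nat_lit 6) (nat_lit 4) (nat_lit 7) (nat_lit 5) (nat_lit 7) (nat_lit 4) (nat_lit 332) (nat_lit 249) (nat_lit 139)) (XT.nd (nat_lit 78) (nat_lit 0) (nat_lit 0) (XT.lf (nat_lit 0) (nat_lit 1332966116) (nat_lit 152) (nat_lit 38290972894) (nat_lit 76) (nat_lit 89382805655) (nat_lit 5) (nat_lit 5) (nat_lit 7) (nat_lit 5) (nat_lit 6) (nat_lit 4) (nat_lit 333) (nat_lit 249) (nat_lit 138))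 (XT.lf (nat_lit 0) (nat_lit 8431039475) (nat_lit 152) (nat_lit 23748646937) (nat_lit 76) (nat_lit 102820382291) (nat_lit 5) (nat_lit 5) (nat_lit 7) (nat_lit 5) (nat_lit 6) (nat_lit 4) (nat_lit 334) (nat_lit 249) (nat_lit 137)))))) (XT.nd (nat_lit 312) (nat_lit 0) (nat_lit 0) (XT.nd (nat_lit 156) (nat_lit 0) (nat_lit 0) (XT.nd (nat_lit 78) (nat_lit 76) (nat_lit 0) (XT.lf (nat_lit 0) (nat_lit 15880317658) (nat_lit 152) (nat_lit 8485935642) (nat_lit 76) (nat_lit 116926993589) (nat_lit 5) (nat_lit 5) (nat_lit 7) (nat_lit 5) (nat_lit 6) (nat_lit 4) (nat_lit 335) (nat_lit 249) (nat_lit 136)) (XT.lf (nat_lit 0) (nat_lit 7782592336) (nat_lit 76) (nat_lit 16037452782) (nat_lit 152) (nat_lit 124075142459) (nat_lit 4) (nat_lit 5) (nat_lit 5) (nat_lit 5) (nat_lit 6) (nat_lit 4) (nat_lit 336) (nat_lit 249) (nat_lit 135))) (XT.nd (nat_lit 78) (nat_lit 0) (nat_lit 0) (XT.lf (nat_lit 0) (nat_lit 25152852194)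 (nat_lit 76) (nat_lit 7144166752) (nat_lit 152) (nat_lit 122523196078) (nat_lit 4) (nat_lit 5) (nat_lit 5) (nat_lit 5) (nat_lit 6) (nat_lit 4) (nat_lit 337) (nat_lit 249) (nat_lit 134)) (XT.lf (nat_lit 0) (nat_lit 41228761164) (nat_lit 152) (nat_lit 118740251231) (nat_lit 0) (nat_lit 2120938061) (nat_lit 4) (nat_lit 5) (nat_lit 6) (nat_lit 4) (nat_lit 4) (nat_lit 4) (nat_lit 338) (nat_lit 249) (nat_lit 133)))) (XT.nd (nat_lit 156) (nat_lit 0) (nat_lit 0) (XT.nd (nat_lit 78) (nat_lit 0) (nat_lit 0) (XT.lf (nat_lit 0) (nat_lit 50721035204) (nat_lit 152) (nat_lit 107389740892) (nat_lit 0) (nat_lit 11606701797) (nat_lit 4) (nat_lit 5) (nat_lit 6) (nat_lit 4) (nat_lit 4) (nat_lit 4) (nat_lit 339) (nat_lit 249) (nat_lit 132)) (XT.lf (nat_lit 0) (nat_lit 60684901255) (nat_lit 152) (nat_lit 95477266326) (nat_lit 0) (nat_lit 21564367559) (nat_lit 4) (nat_lit 5) (nat_lit 6) (nat_lit 4) (nat_lit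 4) (nat_lit 4) (nat_lit 340) (nat_lit 249) (nat_lit 131))) (XT.nd (nat_lit 78) (nat_lit 0) (nat_lit 0) (XT.lf (nat_lit 0) (nat_lit 71144082809) (nat_lit 152) (nat_lit 82974464497) (nat_lit 0) (nat_lit 32017644076) (nat_lit 4) (nat_lit 5) (nat_lit 6) (nat_lit 4) (nat_lit 4) (nat_lit 4) (nat_lit 341) (nat_lit 249) (nat_lit 130)) (XT.nd (nat_lit 78) (nat_lit 0) (nat_lit 0) (XT.lf (nat_lit 0) (nat_lit 82123482679) (nat_lit 152) (nat_lit 69851566831) (nat_lit 0) (nat_lit 42991420101) (nat_lit 4) (nat_lit 5) (nat_lit 6) (nat_lit 4) (nat_lit 4) (nat_lit 4) (nat_lit 342) (nat_lit 249) (nat_lit 129)) (XT.lf (nat_lit 0) (nat_lit 93649242292) (nat_lit 152) (nat_lit 56077328331) (nat_lit 0) (nat_lit 54511823671) (nat_lit 4) (nat_lit 5) (nat_lit 6) (nat_lit 4) (nat_lit 4) (nat_lit 4) (nat_lit 343) (nat_lit 249) (nat_lit 128))))))))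
noncomputable def xc141 : XT := (XT.nd (nat_lit 30186) (nat_lit 0) (nat_lit 4332) (XT.nd (nat_lit 702) (nat_lit 0) (nat_lit 0) (XT.nd (nat_lit 312) (nat_lit 0) (nat_lit 0) (XT.nd (nat_lit 156) (nat_lit 76) (nat_lit 0) (XT.nd (nat_lit 78) (nat_lit 0) (nat_lit 0) (XT.lf (nat_lit 0) (nat_lit 105748803934) (nat_lit 152) (nat_lit 41618953193) (nat_lit 0) (nat_lit 66606284320) (nat_lit 4) (nat_lit 5) (nat_lit 6) (nat_lit 4) (nat_lit 4) (nat_lit 4) (nat_lit 344) (nat_lit 249) (nat_lit 127)) (XT.lf (nat_lit 0) (nat_lit 118450976085) (nat_lit 152) (nat_lit 26442016714) (nat_lit 0) (nat_lit 79303598382) (nat_lit 4) (nat_lit 5) (nat_lit 6) (nat_lit 4) (nat_lit 4) (nat_lit 4) (nat_lit 345) (nat_lit 249) (nat_lit 126))) (XT.nd (nat_lit 78) (nat_lit 76) (nat_lit 0) (XT.lf (nat_lit 0) (nat_lit 131786002012) (nat_lit 152) (nat_lit 10510383330) (nat_lit 0) (nat_lit 92633997557) (nat_lit 4) (nat_lit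 5) (nat_lit 6) (nat_lit 4) (nat_lit 4) (nat_lit 4) (nat_lit 346) (nat_lit 249) (nat_lit 125)) (XT.lf (nat_lit 0) (nat_lit 6419338334) (nat_lit 76) (nat_lit 139466517303) (nat_lit 76) (nat_lit 100310106418) (nat_lit 3) (nat_lit 4) (nat_lit 4) (nat_lit 5) (nat_lit 4) (nat_lit 4) (nat_lit 347) (nat_lit 249) (nat_lit 124)))) (XT.nd (nat_lit 156) (nat_lit 0) (nat_lit 0) (XT.nd (nat_lit 78) (nat_lit 0) (nat_lit 0) (XT.lf (nat_lit 0) (nat_lit 24556554300) (nat_lit 76) (nat_lit 136310040160) (nat_lit 76) (nat_lit 97149432676) (nat_lit 3) (nat_lit 4) (nat_lit 4) (nat_lit 5) (nat_lit 4) (nat_lit 4) (nat_lit 348) (nat_lit 249) (nat_lit 123)) (XT.lf (nat_lit 0) (nat_lit 43596927677) (nat_lit 76) (nat_lit 132997436920) (nat_lit 76) (nat_lit 93832832674) (nat_lit 3) (nat_lit 4) (nat_lit 4) (nat_lit 5) (nat_lit 4) (nat_lit 4) (nat_lit 349) (nat_lit 249) (nat_lit 122))) (XT.nd (nat_lit 78) (nat_lit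 0) (nat_lit 0) (XT.lf (nat_lit 0) (nat_lit 63585792686) (nat_lit 76) (nat_lit 129520820432) (nat_lit 76) (nat_lit 90352409745) (nat_lit 3) (nat_lit 4) (nat_lit 4) (nat_lit 5) (nat_lit 4) (nat_lit 4) (nat_lit 350) (nat_lit 249) (nat_lit 121)) (XT.nd (nat_lit 78) (nat_lit 0) (nat_lit 0) (XT.lf (nat_lit 0) (nat_lit 84570741863) (nat_lit 76) (nat_lit 125871913036) (nat_lit 76) (nat_lit 86699877170) (nat_lit 3) (nat_lit 4) (nat_lit 4) (nat_lit 5) (nat_lit 4) (nat_lit 4) (nat_lit 351) (nat_lit 249) (nat_lit 120)) (XT.lf (nat_lit 0) (nat_lit 106601739374) (nat_lit 76) (nat_lit 122042026860) (nat_lit 76) (nat_lit 82866538440) (nat_lit 3) (nat_lit 4) (nat_lit 4) (nat_lit 5) (nat_lit 4) (nat_lit 4) (nat_lit 352) (nat_lit 249) (nat_lit 119)))))) (XT.nd (nat_lit 312) (nat_lit 0) (nat_lit 0) (XT.nd (nat_lit 156) (nat_lit 0) (nat_lit 0) (XT.nd (nat_lit 78) (nat_lit 0) (nat_lit 0) (XT.lf (nat_lit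 0) (nat_lit 129731239973) (nat_lit 76) (nat_lit 118022043126) (nat_lit 76) (nat_lit 78843266560) (nat_lit 3) (nat_lit 4) (nat_lit 4) (nat_lit 5) (nat_lit 4) (nat_lit 4) (nat_lit 353) (nat_lit 249) (nat_lit 118)) (XT.lf (nat_lit 0) (nat_lit 154014313900) (nat_lit 76) (nat_lit 113802390443) (nat_lit 76) (nat_lit 74620482310) (nat_lit 3) (nat_lit 4) (nat_lit 4) (nat_lit 5) (nat_lit 4) (nat_lit 4) (nat_lit 354) (nat_lit 249) (nat_lit 117))) (XT.nd (nat_lit 78) (nat_lit 0) (nat_lit 0) (XT.lf (nat_lit 0) (nat_lit 179508777999) (nat_lit 76) (nat_lit 109373022021) (nat_lit 76) (nat_lit 70188131443) (nat_lit 3) (nat_lit 4) (nat_lit 4) (nat_lit 5) (nat_lit 4) (nat_lit 4) (nat_lit 355) (nat_lit 249) (nat_lit 116)) (XT.lf (nat_lit 0) (nat_lit 206275333374) (nat_lit 76) (nat_lit 104723391744) (nat_lit 76) (nat_lit 65535660742) (nat_lit 3) (nat_lit 4) (nat_lit 4) (nat_lit 5) (nat_lit 4) (nat_lit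 4) (nat_lit 356) (nat_lit 249) (nat_lit 115)))) (XT.nd (nat_lit 156) (nat_lit 0) (nat_lit 0) (XT.nd (nat_lit 78) (nat_lit 0) (nat_lit 0) (XT.lf (nat_lit 0) (nat_lit 234377709919) (nat_lit 76) (nat_lit 99842429063) (nat_lit 76) (nat_lit 60651992895) (nat_lit 3) (nat_lit 4) (nat_lit 4) (nat_lit 5) (nat_lit 4) (nat_lit 4) (nat_lit 357) (nat_lit 249) (nat_lit 114)) (XT.lf (nat_lit 0) (nat_lit 263882818053) (nat_lit 76) (nat_lit 94718512639) (nat_lit 76) (nat_lit 55525500123) (nat_lit 3) (nat_lit 4) (nat_lit 4) (nat_lit 5) (nat_lit 4) (nat_lit 4) (nat_lit 358) (nat_lit 249) (nat_lit 113))) (XT.nd (nat_lit 78) (nat_lit 0) (nat_lit 0) (XT.lf (nat_lit 0) (nat_lit 294860908036) (nat_lit 76) (nat_lit 89339442671) (nat_lit 76) (nat_lit 50143976490) (nat_lit 3) (nat_lit 4) (nat_lit 4) (nat_lit 5) (nat_lit 4) (nat_lit 4) (nat_lit 359) (nat_lit 249) (nat_lit 112)) (XT.nd (nat_lit 78) (nat_lit 0)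 (nat_lit 0) (XT.lf (nat_lit 0) (nat_lit 327385737223) (nat_lit 76) (nat_lit 83692411849) (nat_lit 76) (nat_lit 44494608844) (nat_lit 3) (nat_lit 4) (nat_lit 4) (nat_lit 5) (nat_lit 4) (nat_lit 4) (nat_lit 360) (nat_lit 249) (nat_lit 111)) (XT.lf (nat_lit 0) (nat_lit 361534745685) (nat_lit 76) (nat_lit 77763974862) (nat_lit 76) (nat_lit 38563946311) (nat_lit 3) (nat_lit 4) (nat_lit 4) (nat_lit 5) (nat_lit 4) (nat_lit 4) (nat_lit 361) (nat_lit 249) (nat_lit 110))))))) (XT.nd (nat_lit 702) (nat_lit 2052) (nat_lit 0) (XT.nd (nat_lit 312) (nat_lit 456) (nat_lit 0) (XT.nd (nat_lit 156) (nat_lit 0) (nat_lit 0) (XT.nd (nat_lit 78) (nat_lit 532) (nat_lit 0) (XT.lf (nat_lit 0) (nat_lit 3782797529) (nat_lit 532) (nat_lit 16960738) (nat_lit 532) (nat_lit 16960738) (nat_lit 100) (nat_lit 3) (nat_lit 107) (nat_lit 3) (nat_lit 107) (nat_lit 5) (nat_lit 250) (nat_lit 250) (nat_lit 220)) (XT.lf (nat_lit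 0) (nat_lit 1244183882) (nat_lit 532) (nat_lit 4317090137) (nat_lit 608) (nat_lit 2193093467) (nat_lit 93) (nat_lit 5) (nat_lit 100) (nat_lit 3) (nat_lit 101) (nat_lit 5) (nat_lit 251) (nat_lit 250) (nat_lit 219))) (XT.nd (nat_lit 78) (nat_lit 0) (nat_lit 0) (XT.lf (nat_lit 0) (nat_lit 2538995628) (nat_lit 532) (nat_lit 845108736) (nat_lit 608) (nat_lit 4501491037) (nat_lit 93) (nat_lit 5) (nat_lit 100) (nat_lit 3) (nat_lit 101) (nat_lit 5) (nat_lit 252) (nat_lit 250) (nat_lit 218)) (XT.lf (nat_lit 76) (nat_lit 2847921856) (nat_lit 0) (nat_lit 1017832663) (nat_lit 608) (nat_lit 4159537249) (nat_lit 94) (nat_lit 5) (nat_lit 93) (nat_lit 5) (nat_lit 101) (nat_lit 5) (nat_lit 253) (nat_lit 250) (nat_lit 217)))) (XT.nd (nat_lit 156) (nat_lit 532) (nat_lit 0) (XT.nd (nat_lit 78) (nat_lit 0) (nat_lit 0) (XT.lf (nat_lit 0) (nat_lit 5222536534) (nat_lit 532) (nat_lit 1486899243) (nat_lit 608)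 (nat_lit 1464607567) (nat_lit 94) (nat_lit 5) (nat_lit 101) (nat_lit 5) (nat_lit 102) (nat_lit 5) (nat_lit 254) (nat_lit 250) (nat_lit 216)) (XT.lf (nat_lit 76) (nat_lit 2403132615) (nat_lit 0) (nat_lit 4227981028) (nat_lit 608) (nat_lit 1700163580) (nat_lit 95) (nat_lit 5) (nat_lit 94) (nat_lit 5) (nat_lit 102) (nat_lit 5) (nat_lit 255) (nat_lit 250) (nat_lit 215))) (XT.nd (nat_lit 78) (nat_lit 532) (nat_lit 0) (XT.lf (nat_lit 76) (nat_lit 6494824937) (nat_lit 0) (nat_lit 1572877626) (nat_lit 608) (nat_lit 431022061) (nat_lit 95) (nat_lit 5) (nat_lit 94) (nat_lit 5) (nat_lit 102) (nat_lit 5) (nat_lit 256) (nat_lit 250) (nat_lit 214)) (XT.nd (nat_lit 78) (nat_lit 0) (nat_lit 0) (XT.lf (nat_lit 0) (nat_lit 860333050) (nat_lit 608) (nat_lit 6569949467) (nat_lit 684) (nat_lit 1244386944) (nat_lit 87) (nat_lit 5) (nat_lit 95) (nat_lit 5) (nat_lit 96) (nat_lit 5) (nat_lit 257) (nat_lit 250)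 (nat_lit 213)) (XT.lf (nat_lit 0) (nat_lit 2199140102) (nat_lit 608) (nat_lit 2450444472) (nat_lit 684) (nat_lit 4209804726) (nat_lit 87) (nat_lit 5) (nat_lit 95) (nat_lit 5) (nat_lit 96) (nat_lit 5) (nat_lit 258) (nat_lit 250) (nat_lit 212)))))) (XT.nd (nat_lit 312) (nat_lit 1520) (nat_lit 0) (XT.nd (nat_lit 156) (nat_lit 532) (nat_lit 0) (XT.nd (nat_lit 78) (nat_lit 0) (nat_lit 76) (XT.lf (nat_lit 76) (nat_lit 1890137541) (nat_lit 0) (nat_lit 1684347090) (nat_lit 684) (nat_lit 5480570669) (nat_lit 88) (nat_lit 5) (nat_lit 87) (nat_lit 5) (nat_lit 96) (nat_lit 5) (nat_lit 259) (nat_lit 250) (nat_lit 211)) (XT.lf (nat_lit 0) (nat_lit 5025536182) (nat_lit 608) (nat_lit 2796536035) (nat_lit 76) (nat_lit 1438266368) (nat_lit 88) (nat_lit 5) (nat_lit 96) (nat_lit 5) (nat_lit 89) (nat_lit 5) (nat_lit 260) (nat_lit 250) (nat_lit 210))) (XT.nd (nat_lit 78) (nat_lit 0) (nat_lit 0) (XT.lf (nat_lit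 0) (nat_lit 1773771363) (nat_lit 608) (nat_lit 4775862299) (nat_lit 684) (nat_lit 2926400063) (nat_lit 80) (nat_lit 5) (nat_lit 88) (nat_lit 5) (nat_lit 89) (nat_lit 5) (nat_lit 261) (nat_lit 250) (nat_lit 209)) (XT.lf (nat_lit 0) (nat_lit 6624766959) (nat_lit 608) (nat_lit 1519626152) (nat_lit 684) (nat_lit 1558561805) (nat_lit 80) (nat_lit 5) (nat_lit 88) (nat_lit 5) (nat_lit 89) (nat_lit 5) (nat_lit 262) (nat_lit 250) (nat_lit 208)))) (XT.nd (nat_lit 156) (nat_lit 760) (nat_lit 0) (XT.nd (nat_lit 78) (nat_lit 76) (nat_lit 0) (XT.lf (nat_lit 0) (nat_lit 1758134125) (nat_lit 684) (nat_lit 8067595492) (nat_lit 760) (nat_lit 115306930) (nat_lit 71) (nat_lit 5) (nat_lit 80) (nat_lit 5) (nat_lit 81) (nat_lit 5) (nat_lit 263) (nat_lit 250) (nat_lit 207)) (XT.lf (nat_lit 0) (nat_lit 1383683077) (nat_lit 760) (nat_lit 3339517726) (nat_lit 76) (nat_lit 5465451039) (nat_lit 70) (nat_lit 5)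 (nat_lit 80) (nat_lit 5) (nat_lit 71) (nat_lit 5) (nat_lit 264) (nat_lit 250) (nat_lit 206))) (XT.nd (nat_lit 78) (nat_lit 380) (nat_lit 0) (XT.lf (nat_lit 0) (nat_lit 1755951250) (nat_lit 380) (nat_lit 1178056889) (nat_lit 456) (nat_lit 7515667263) (nat_lit 65) (nat_lit 5) (nat_lit 70) (nat_lit 5) (nat_lit 71) (nat_lit 5) (nat_lit 265) (nat_lit 250) (nat_lit 205)) (XT.nd (nat_lit 78) (nat_lit 380) (nat_lit 0) (XT.lf (nat_lit 0) (nat_lit 4613495937) (nat_lit 456) (nat_lit 3585557664) (nat_lit 76) (nat_lit 2522242832) (nat_lit 65) (nat_lit 5) (nat_lit 71) (nat_lit 5) (nat_lit 66) (nat_lit 5) (nat_lit 266) (nat_lit 250) (nat_lit 204)) (XT.lf (nat_lit 0) (nat_lit 1771481267) (nat_lit 380) (nat_lit 4609055277) (nat_lit 456) (nat_lit 4625905542) (nat_lit 60) (nat_lit 5) (nat_lit 65) (nat_lit 5) (nat_lit 66) (nat_lit 5) (nat_lit 267) (nat_lit 250) (nat_lit 203))))))))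
noncomputable def xc142 : XT := (XT.nd (nat_lit 1404) (nat_lit 1140) (nat_lit 0) (XT.nd (nat_lit 702) (nat_lit 988) (nat_lit 0) (XT.nd (nat_lit 312) (nat_lit 532) (nat_lit 0) (XT.nd (nat_lit 156) (nat_lit 380) (nat_lit 0) (XT.nd (nat_lit 78) (nat_lit 304) (nat_lit 0) (XT.lf (nat_lit 0) (nat_lit 7477641095) (nat_lit 380) (nat_lit 777011057) (nat_lit 456) (nat_lit 3050373379) (nat_lit 60) (nat_lit 5) (nat_lit 65) (nat_lit 5) (nat_lit 66) (nat_lit 5) (nat_lit 268) (nat_lit 250) (nat_lit 202)) (XT.lf (nat_lit 0) (nat_lit 1814715102) (nat_lit 304) (nat_lit 8446762087) (nat_lit 380) (nat_lit 1355221880) (nat_lit 56) (nat_lit 5) (nat_lit 60) (nat_lit 5) (nat_lit 61) (nat_lit 5) (nat_lit 269) (nat_lit 250) (nat_lit 201))) (XT.nd (nat_lit 78) (nat_lit 304) (nat_lit 0) (XT.lf (nat_lit 0) (nat_lit 450198599) (nat_lit 380) (nat_lit 4133307195) (nat_lit 76) (nat_lit 7358264534) (nat_lit 55) (nat_lit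 5) (nat_lit 60) (nat_lit 5) (nat_lit 56) (nat_lit 5) (nat_lit 270) (nat_lit 250) (nat_lit 200)) (XT.lf (nat_lit 0) (nat_lit 1812740382) (nat_lit 304) (nat_lit 478273961) (nat_lit 380) (nat_lit 9991532516) (nat_lit 51) (nat_lit 5) (nat_lit 55) (nat_lit 5) (nat_lit 56) (nat_lit 5) (nat_lit 271) (nat_lit 250) (nat_lit 199)))) (XT.nd (nat_lit 156) (nat_lit 304) (nat_lit 0) (XT.nd (nat_lit 78) (nat_lit 228) (nat_lit 0) (XT.lf (nat_lit 0) (nat_lit 4318291779) (nat_lit 380) (nat_lit 4541284232) (nat_lit 76) (nat_lit 3776156563) (nat_lit 51) (nat_lit 5) (nat_lit 56) (nat_lit 5) (nat_lit 52) (nat_lit 5) (nat_lit 272) (nat_lit 250) (nat_lit 198)) (XT.lf (nat_lit 0) (nat_lit 1688895726) (nat_lit 228) (nat_lit 4757429293) (nat_lit 304) (nat_lit 6560370013) (nat_lit 48) (nat_lit 5) (nat_lit 51) (nat_lit 5) (nat_lit 52) (nat_lit 5) (nat_lit 273) (nat_lit 250) (nat_lit 197))) (XT.nd (nat_lit 78) (nat_lit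 304) (nat_lit 0) (XT.lf (nat_lit 0) (nat_lit 8347925781) (nat_lit 228) (nat_lit 375954380) (nat_lit 304) (nat_lit 4670252346) (nat_lit 48) (nat_lit 5) (nat_lit 51) (nat_lit 5) (nat_lit 52) (nat_lit 5) (nat_lit 274) (nat_lit 250) (nat_lit 196)) (XT.nd (nat_lit 78) (nat_lit 0) (nat_lit 0) (XT.lf (nat_lit 0) (nat_lit 1480396940) (nat_lit 304) (nat_lit 9691710248) (nat_lit 380) (nat_lit 2626073921) (nat_lit 44) (nat_lit 5) (nat_lit 48) (nat_lit 5) (nat_lit 49) (nat_lit 5) (nat_lit 275) (nat_lit 250) (nat_lit 195)) (XT.lf (nat_lit 0) (nat_lit 8462809039) (nat_lit 304) (nat_lit 5340106150) (nat_lit 380) (nat_lit 416583671) (nat_lit 44) (nat_lit 5) (nat_lit 48) (nat_lit 5) (nat_lit 49) (nat_lit 5) (nat_lit 276) (nat_lit 250) (nat_lit 194)))))) (XT.nd (nat_lit 312) (nat_lit 456) (nat_lit 0) (XT.nd (nat_lit 156) (nat_lit 228) (nat_lit 0) (XT.nd (nat_lit 78) (nat_lit 0) (nat_lit 0) (XT.lf (nat_lit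 0) (nat_lit 1099381178) (nat_lit 228) (nat_lit 729824341) (nat_lit 304) (nat_lit 12831922105) (nat_lit 40) (nat_lit 5) (nat_lit 43) (nat_lit 5) (nat_lit 44) (nat_lit 5) (nat_lit 277) (nat_lit 250) (nat_lit 193)) (XT.lf (nat_lit 0) (nat_lit 4306864532) (nat_lit 304) (nat_lit 6733798312) (nat_lit 76) (nat_lit 4077219465) (nat_lit 40) (nat_lit 5) (nat_lit 44) (nat_lit 5) (nat_lit 41) (nat_lit 5) (nat_lit 278) (nat_lit 250) (nat_lit 192))) (XT.nd (nat_lit 78) (nat_lit 0) (nat_lit 0) (XT.lf (nat_lit 0) (nat_lit 398884116) (nat_lit 228) (nat_lit 6499434369) (nat_lit 304) (nat_lit 8699722510) (nat_lit 37) (nat_lit 5) (nat_lit 40) (nat_lit 5) (nat_lit 41) (nat_lit 5) (nat_lit 279) (nat_lit 250) (nat_lit 191)) (XT.lf (nat_lit 0) (nat_lit 8085121659) (nat_lit 228) (nat_lit 1620754727) (nat_lit 304) (nat_lit 6392063587) (nat_lit 37) (nat_lit 5) (nat_lit 40) (nat_lit 5) (nat_lit 41) (nat_lit 5)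 (nat_lit 280) (nat_lit 250) (nat_lit 190)))) (XT.nd (nat_lit 156) (nat_lit 304) (nat_lit 0) (XT.nd (nat_lit 78) (nat_lit 152) (nat_lit 0) (XT.lf (nat_lit 0) (nat_lit 12682148016) (nat_lit 304) (nat_lit 558169629) (nat_lit 76) (nat_lit 3381155578) (nat_lit 37) (nat_lit 5) (nat_lit 41) (nat_lit 5) (nat_lit 38) (nat_lit 5) (nat_lit 281) (nat_lit 250) (nat_lit 189)) (XT.lf (nat_lit 0) (nat_lit 7446369223) (nat_lit 152) (nat_lit 8478608636) (nat_lit 228) (nat_lit 1240371489) (nat_lit 35) (nat_lit 5) (nat_lit 37) (nat_lit 5) (nat_lit 38) (nat_lit 5) (nat_lit 282) (nat_lit 250) (nat_lit 188))) (XT.nd (nat_lit 78) (nat_lit 228) (nat_lit 0) (XT.lf (nat_lit 0) (nat_lit 1527264358) (nat_lit 228) (nat_lit 1925383189) (nat_lit 76) (nat_lit 14283339362) (nat_lit 34) (nat_lit 5) (nat_lit 37) (nat_lit 5) (nat_lit 35) (nat_lit 5) (nat_lit 283) (nat_lit 250) (nat_lit 187)) (XT.nd (nat_lit 78) (nat_lit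 0) (nat_lit 0) (XT.lf (nat_lit 0) (nat_lit 4498292433) (nat_lit 304) (nat_lit 11951229270) (nat_lit 76) (nat_lit 1879329363) (nat_lit 31) (nat_lit 5) (nat_lit 35) (nat_lit 5) (nat_lit 32) (nat_lit 5) (nat_lit 284) (nat_lit 250) (nat_lit 186)) (XT.lf (nat_lit 0) (nat_lit 7684394848) (nat_lit 304) (nat_lit 3878004746) (nat_lit 76) (nat_lit 7385676656) (nat_lit 31) (nat_lit 5) (nat_lit 35) (nat_lit 5) (nat_lit 32) (nat_lit 5) (nat_lit 285) (nat_lit 250) (nat_lit 185))))))) (XT.nd (nat_lit 702) (nat_lit 456) (nat_lit 0) (XT.nd (nat_lit 312) (nat_lit 304) (nat_lit 0) (XT.nd (nat_lit 156) (nat_lit 228) (nat_lit 0) (XT.nd (nat_lit 78) (nat_lit 0) (nat_lit 0) (XT.lf (nat_lit 0) (nat_lit 4717722004) (nat_lit 152) (nat_lit 6363623256) (nat_lit 228) (nat_lit 8514382164) (nat_lit 29) (nat_lit 5) (nat_lit 31) (nat_lit 5) (nat_lit 32) (nat_lit 5) (nat_lit 286) (nat_lit 250) (nat_lit 184)) (XT.lf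 (nat_lit 0) (nat_lit 13846233732) (nat_lit 152) (nat_lit 846030467) (nat_lit 228) (nat_lit 5581330787) (nat_lit 29) (nat_lit 5) (nat_lit 31) (nat_lit 5) (nat_lit 32) (nat_lit 5) (nat_lit 287) (nat_lit 250) (nat_lit 183))) (XT.nd (nat_lit 78) (nat_lit 76) (nat_lit 0) (XT.lf (nat_lit 0) (nat_lit 2414815980) (nat_lit 152) (nat_lit 16163180213) (nat_lit 228) (nat_lit 2402684358) (nat_lit 27) (nat_lit 5) (nat_lit 29) (nat_lit 5) (nat_lit 30) (nat_lit 5) (nat_lit 288) (nat_lit 250) (nat_lit 182)) (XT.lf (nat_lit 0) (nat_lit 1008939946) (nat_lit 228) (nat_lit 9856940076) (nat_lit 76) (nat_lit 10851346604) (nat_lit 26) (nat_lit 5) (nat_lit 29) (nat_lit 5) (nat_lit 27) (nat_lit 5) (nat_lit 289) (nat_lit 250) (nat_lit 181)))) (XT.nd (nat_lit 156) (nat_lit 152) (nat_lit 0) (XT.nd (nat_lit 78) (nat_lit 152) (nat_lit 0) (XT.lf (nat_lit 0) (nat_lit 4490841187) (nat_lit 228) (nat_lit 781726810) (nat_lit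 76) (nat_lit 17217073321) (nat_lit 26) (nat_lit 5) (nat_lit 29) (nat_lit 5) (nat_lit 27) (nat_lit 5) (nat_lit 290) (nat_lit 250) (nat_lit 180)) (XT.lf (nat_lit 0) (nat_lit 8280365471) (nat_lit 228) (nat_lit 14298954013) (nat_lit 76) (nat_lit 714712108) (nat_lit 24) (nat_lit 5) (nat_lit 27) (nat_lit 5) (nat_lit 25) (nat_lit 5) (nat_lit 291) (nat_lit 250) (nat_lit 179))) (XT.nd (nat_lit 78) (nat_lit 152) (nat_lit 0) (XT.lf (nat_lit 0) (nat_lit 12340930236) (nat_lit 228) (nat_lit 4965451143) (nat_lit 76) (nat_lit 6828211547) (nat_lit 24) (nat_lit 5) (nat_lit 27) (nat_lit 5) (nat_lit 25) (nat_lit 5) (nat_lit 292) (nat_lit 250) (nat_lit 178)) (XT.nd (nat_lit 78) (nat_lit 0) (nat_lit 0) (XT.lf (nat_lit 0) (nat_lit 4966366257) (nat_lit 152) (nat_lit 11698241374) (nat_lit 228) (nat_lit 8349598816) (nat_lit 22) (nat_lit 5) (nat_lit 24) (nat_lit 5) (nat_lit 25) (nat_lit 5) (nat_lit 293) (nat_lit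 250) (nat_lit 177)) (XT.lf (nat_lit 0) (nat_lit 15540289001) (nat_lit 152) (nat_lit 5731229287) (nat_lit 228) (nat_lit 4662956881) (nat_lit 22) (nat_lit 5) (nat_lit 24) (nat_lit 5) (nat_lit 25) (nat_lit 5) (nat_lit 294) (nat_lit 250) (nat_lit 176)))))) (XT.nd (nat_lit 312) (nat_lit 152) (nat_lit 0) (XT.nd (nat_lit 156) (nat_lit 152) (nat_lit 0) (XT.nd (nat_lit 78) (nat_lit 152) (nat_lit 0) (XT.lf (nat_lit 0) (nat_lit 26100736245) (nat_lit 228) (nat_lit 292474872) (nat_lit 76) (nat_lit 507973827) (nat_lit 22) (nat_lit 5) (nat_lit 25) (nat_lit 5) (nat_lit 23) (nat_lit 4) (nat_lit 295) (nat_lit 250) (nat_lit 175)) (XT.lf (nat_lit 0) (nat_lit 3397753003) (nat_lit 152) (nat_lit 17426480496) (nat_lit 76) (nat_lit 7077141179) (nat_lit 20) (nat_lit 5) (nat_lit 22) (nat_lit 5) (nat_lit 21) (nat_lit 5) (nat_lit 296) (nat_lit 250) (nat_lit 174))) (XT.nd (nat_lit 78) (nat_lit 152) (nat_lit 0) (XT.lf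 (nat_lit 0) (nat_lit 7768486996) (nat_lit 152) (nat_lit 7198909501) (nat_lit 76) (nat_lit 13984067378) (nat_lit 20) (nat_lit 5) (nat_lit 22) (nat_lit 5) (nat_lit 21) (nat_lit 5) (nat_lit 297) (nat_lit 250) (nat_lit 173)) (XT.lf (nat_lit 0) (nat_lit 3632329946) (nat_lit 152) (nat_lit 8767365380) (nat_lit 228) (nat_lit 17652286472) (nat_lit 18) (nat_lit 5) (nat_lit 20) (nat_lit 5) (nat_lit 21) (nat_lit 5) (nat_lit 298) (nat_lit 250) (nat_lit 172)))) (XT.nd (nat_lit 156) (nat_lit 152) (nat_lit 0) (XT.nd (nat_lit 78) (nat_lit 0) (nat_lit 0) (XT.lf (nat_lit 0) (nat_lit 15231480477) (nat_lit 152) (nat_lit 2138462723) (nat_lit 228) (nat_lit 13832228602) (nat_lit 18) (nat_lit 5) (nat_lit 20) (nat_lit 5) (nat_lit 21) (nat_lit 5) (nat_lit 299) (nat_lit 250) (nat_lit 171)) (XT.lf (nat_lit 0) (nat_lit 22650100290) (nat_lit 228) (nat_lit 5097594541) (nat_lit 76) (nat_lit 4659125818) (nat_lit 18)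 (nat_lit 5) (nat_lit 21) (nat_lit 5) (nat_lit 19) (nat_lit 4) (nat_lit 300) (nat_lit 250) (nat_lit 170))) (XT.nd (nat_lit 78) (nat_lit 76) (nat_lit 0) (XT.lf (nat_lit 0) (nat_lit 6469223851) (nat_lit 76) (nat_lit 21847875797) (nat_lit 152) (nat_lit 5348478839) (nat_lit 17) (nat_lit 5) (nat_lit 18) (nat_lit 5) (nat_lit 19) (nat_lit 4) (nat_lit 301) (nat_lit 250) (nat_lit 169)) (XT.nd (nat_lit 78) (nat_lit 76) (nat_lit 0) (XT.lf (nat_lit 0) (nat_lit 18769781850) (nat_lit 76) (nat_lit 15571065157) (nat_lit 152) (nat_lit 642774706) (nat_lit 17) (nat_lit 5) (nat_lit 18) (nat_lit 5) (nat_lit 19) (nat_lit 4) (nat_lit 302) (nat_lit 250) (nat_lit 168)) (XT.lf (nat_lit 0) (nat_lit 4148110594) (nat_lit 152) (nat_lit 4770287501) (nat_lit 76) (nat_lit 27446456147) (nat_lit 16) (nat_lit 5) (nat_lit 18) (nat_lit 5) (nat_lit 17) (nat_lit 5) (nat_lit 303) (nat_lit 250) (nat_lit 167))))))))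
noncomputable def xc143 : XT := (XT.nd (nat_lit 1404) (nat_lit 304) (nat_lit 0) (XT.nd (nat_lit 702) (nat_lit 228) (nat_lit 0) (XT.nd (nat_lit 312) (nat_lit 152) (nat_lit 0) (XT.nd (nat_lit 156) (nat_lit 76) (nat_lit 0) (XT.nd (nat_lit 78) (nat_lit 0) (nat_lit 0) (XT.lf (nat_lit 0) (nat_lit 7453481259) (nat_lit 152) (nat_lit 1807889732) (nat_lit 228) (nat_lit 28548043957) (nat_lit 14) (nat_lit 5) (nat_lit 16) (nat_lit 5) (nat_lit 17) (nat_lit 5) (nat_lit 304) (nat_lit 250) (nat_lit 166)) (XT.lf (nat_lit 0) (nat_lit 14788944808) (nat_lit 228) (nat_lit 18977909184) (nat_lit 76) (nat_lit 5551431492) (nat_lit 14) (nat_lit 5) (nat_lit 17) (nat_lit 5) (nat_lit 15) (nat_lit 4) (nat_lit 305) (nat_lit 250) (nat_lit 165))) (XT.nd (nat_lit 78) (nat_lit 76) (nat_lit 0) (XT.lf (nat_lit 0) (nat_lit 20611296193) (nat_lit 228) (nat_lit 7079795327) (nat_lit 76) (nat_lit 13210601716) (nat_lit 14) (nat_lit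 5) (nat_lit 17) (nat_lit 5) (nat_lit 15) (nat_lit 4) (nat_lit 306) (nat_lit 250) (nat_lit 164)) (XT.lf (nat_lit 0) (nat_lit 5573344788) (nat_lit 76) (nat_lit 21227732405) (nat_lit 152) (nat_lit 15759391563) (nat_lit 13) (nat_lit 5) (nat_lit 14) (nat_lit 5) (nat_lit 15) (nat_lit 4) (nat_lit 307) (nat_lit 250) (nat_lit 163)))) (XT.nd (nat_lit 156) (nat_lit 152) (nat_lit 0) (XT.nd (nat_lit 78) (nat_lit 0) (nat_lit 0) (XT.lf (nat_lit 0) (nat_lit 19086969680) (nat_lit 76) (nat_lit 14322803017) (nat_lit 152) (nat_lit 10886951449) (nat_lit 13) (nat_lit 5) (nat_lit 14) (nat_lit 5) (nat_lit 15) (nat_lit 4) (nat_lit 308) (nat_lit 250) (nat_lit 162)) (XT.lf (nat_lit 0) (nat_lit 33259164639) (nat_lit 76) (nat_lit 7079762808) (nat_lit 152) (nat_lit 5781375412) (nat_lit 13) (nat_lit 5) (nat_lit 14) (nat_lit 5) (nat_lit 15) (nat_lit 4) (nat_lit 309) (nat_lit 250) (nat_lit 161))) (XT.nd (nat_lit 78)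 (nat_lit 76) (nat_lit 0) (XT.lf (nat_lit 0) (nat_lit 82675031) (nat_lit 76) (nat_lit 47531752510) (nat_lit 76) (nat_lit 420649801) (nat_lit 12) (nat_lit 4) (nat_lit 13) (nat_lit 5) (nat_lit 13) (nat_lit 4) (nat_lit 310) (nat_lit 250) (nat_lit 160)) (XT.nd (nat_lit 78) (nat_lit 0) (nat_lit 0) (XT.lf (nat_lit 0) (nat_lit 5369292069) (nat_lit 152) (nat_lit 36132191124) (nat_lit 76) (nat_lit 8523658264) (nat_lit 11) (nat_lit 5) (nat_lit 13) (nat_lit 5) (nat_lit 12) (nat_lit 4) (nat_lit 311) (nat_lit 250) (nat_lit 159)) (XT.lf (nat_lit 0) (nat_lit 11425480306) (nat_lit 152) (nat_lit 23743802531) (nat_lit 76) (nat_lit 16945546540) (nat_lit 11) (nat_lit 5) (nat_lit 13) (nat_lit 5) (nat_lit 12) (nat_lit 4) (nat_lit 312) (nat_lit 250) (nat_lit 158)))))) (XT.nd (nat_lit 312) (nat_lit 152) (nat_lit 0) (XT.nd (nat_lit 156) (nat_lit 0) (nat_lit 0) (XT.nd (nat_lit 78) (nat_lit 76) (nat_lit 0) (XT.lf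 (nat_lit 0) (nat_lit 17775797826) (nat_lit 152) (nat_lit 10751172847) (nat_lit 76) (nat_lit 25782474255) (nat_lit 11) (nat_lit 5) (nat_lit 13) (nat_lit 5) (nat_lit 12) (nat_lit 4) (nat_lit 313) (nat_lit 250) (nat_lit 157)) (XT.lf (nat_lit 0) (nat_lit 2971747231) (nat_lit 76) (nat_lit 21510014503) (nat_lit 152) (nat_lit 32130131784) (nat_lit 10) (nat_lit 5) (nat_lit 11) (nat_lit 5) (nat_lit 12) (nat_lit 4) (nat_lit 314) (nat_lit 250) (nat_lit 156))) (XT.nd (nat_lit 78) (nat_lit 0) (nat_lit 0) (XT.lf (nat_lit 0) (nat_lit 17739847351) (nat_lit 76) (nat_lit 13957157617) (nat_lit 152) (nat_lit 27323768882) (nat_lit 10) (nat_lit 5) (nat_lit 11) (nat_lit 5) (nat_lit 12) (nat_lit 4) (nat_lit 315) (nat_lit 250) (nat_lit 155)) (XT.lf (nat_lit 0) (nat_lit 33232807329) (nat_lit 76) (nat_lit 6032493335) (nat_lit 152) (nat_lit 22285190991) (nat_lit 10) (nat_lit 5) (nat_lit 11) (nat_lit 5) (nat_lit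 12) (nat_lit 4) (nat_lit 316) (nat_lit 250) (nat_lit 154)))) (XT.nd (nat_lit 156) (nat_lit 152) (nat_lit 0) (XT.nd (nat_lit 78) (nat_lit 0) (nat_lit 0) (XT.lf (nat_lit 0) (nat_lit 47240310207) (nat_lit 152) (nat_lit 14755196540) (nat_lit 0) (nat_lit 2209781241) (nat_lit 10) (nat_lit 5) (nat_lit 12) (nat_lit 4) (nat_lit 10) (nat_lit 4) (nat_lit 317) (nat_lit 250) (nat_lit 153)) (XT.lf (nat_lit 0) (nat_lit 55705887998) (nat_lit 152) (nat_lit 626037785) (nat_lit 0) (nat_lit 10656314697) (nat_lit 10) (nat_lit 5) (nat_lit 12) (nat_lit 4) (nat_lit 10) (nat_lit 4) (nat_lit 318) (nat_lit 250) (nat_lit 152))) (XT.nd (nat_lit 78) (nat_lit 76) (nat_lit 0) (XT.lf (nat_lit 0) (nat_lit 14667054252) (nat_lit 76) (nat_lit 50149945617) (nat_lit 76) (nat_lit 5082234853) (nat_lit 9) (nat_lit 4) (nat_lit 10) (nat_lit 5) (nat_lit 10) (nat_lit 4) (nat_lit 319) (nat_lit 250) (nat_lit 151)) (XT.nd (nat_lit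 78) (nat_lit 0) (nat_lit 0) (XT.lf (nat_lit 0) (nat_lit 1386247302) (nat_lit 152) (nat_lit 42243177567) (nat_lit 76) (nat_lit 29325042385) (nat_lit 8) (nat_lit 5) (nat_lit 10) (nat_lit 5) (nat_lit 9) (nat_lit 4) (nat_lit 320) (nat_lit 250) (nat_lit 150)) (XT.lf (nat_lit 0) (nat_lit 8000960901) (nat_lit 152) (nat_lit 28699465902) (nat_lit 76) (nat_lit 39458194604) (nat_lit 8) (nat_lit 5) (nat_lit 10) (nat_lit 5) (nat_lit 9) (nat_lit 4) (nat_lit 321) (nat_lit 250) (nat_lit 149))))))) (XT.nd (nat_lit 702) (nat_lit 152) (nat_lit 0) (XT.nd (nat_lit 312) (nat_lit 76) (nat_lit 0) (XT.nd (nat_lit 156) (nat_lit 0) (nat_lit 0) (XT.nd (nat_lit 78) (nat_lit 76) (nat_lit 0) (XT.lf (nat_lit 0) (nat_lit 14940318516) (nat_lit 152) (nat_lit 14489450615) (nat_lit 76) (nat_lit 50093524385) (nat_lit 8) (nat_lit 5) (nat_lit 10) (nat_lit 5) (nat_lit 9) (nat_lit 4) (nat_lit 322) (nat_lit 250) (nat_lit 148))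 (XT.lf (nat_lit 0) (nat_lit 434611960) (nat_lit 76) (nat_lit 21793015975) (nat_lit 152) (nat_lit 60828527493) (nat_lit 7) (nat_lit 5) (nat_lit 8) (nat_lit 5) (nat_lit 9) (nat_lit 4) (nat_lit 323) (nat_lit 250) (nat_lit 147))) (XT.nd (nat_lit 78) (nat_lit 0) (nat_lit 0) (XT.lf (nat_lit 0) (nat_lit 16597722058) (nat_lit 76) (nat_lit 13521282109) (nat_lit 152) (nat_lit 56634676341) (nat_lit 7) (nat_lit 5) (nat_lit 8) (nat_lit 5) (nat_lit 9) (nat_lit 4) (nat_lit 324) (nat_lit 250) (nat_lit 146)) (XT.lf (nat_lit 0) (nat_lit 33559276599) (nat_lit 76) (nat_lit 4840258785) (nat_lit 152) (nat_lit 52236822042) (nat_lit 7) (nat_lit 5) (nat_lit 8) (nat_lit 5) (nat_lit 9) (nat_lit 4) (nat_lit 325) (nat_lit 250) (nat_lit 145)))) (XT.nd (nat_lit 156) (nat_lit 76) (nat_lit 0) (XT.nd (nat_lit 78) (nat_lit 0) (nat_lit 0) (XT.lf (nat_lit 0) (nat_lit 47155615094) (nat_lit 152) (nat_lit 43420448371) (nat_lit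 0) (nat_lit 4134033289) (nat_lit 7) (nat_lit 5) (nat_lit 9) (nat_lit 4) (nat_lit 7) (nat_lit 4) (nat_lit 326) (nat_lit 250) (nat_lit 144)) (XT.lf (nat_lit 0) (nat_lit 56423875940) (nat_lit 152) (nat_lit 29169330124) (nat_lit 0) (nat_lit 13390602565) (nat_lit 7) (nat_lit 5) (nat_lit 9) (nat_lit 4) (nat_lit 7) (nat_lit 4) (nat_lit 327) (nat_lit 250) (nat_lit 143))) (XT.nd (nat_lit 78) (nat_lit 76) (nat_lit 0) (XT.lf (nat_lit 0) (nat_lit 66150815205) (nat_lit 152) (nat_lit 14214224850) (nat_lit 0) (nat_lit 23106407001) (nat_lit 7) (nat_lit 5) (nat_lit 9) (nat_lit 4) (nat_lit 7) (nat_lit 4) (nat_lit 328) (nat_lit 250) (nat_lit 142)) (XT.nd (nat_lit 78) (nat_lit 0) (nat_lit 0) (XT.lf (nat_lit 0) (nat_lit 1529426030) (nat_lit 76) (nat_lit 74854044865) (nat_lit 76) (nat_lit 31799032062) (nat_lit 6) (nat_lit 4) (nat_lit 7) (nat_lit 5) (nat_lit 7) (nat_lit 4) (nat_lit 329) (nat_lit 250) (nat_lit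 141)) (XT.lf (nat_lit 0) (nat_lit 18545716030) (nat_lit 76) (nat_lit 68818348315) (nat_lit 76) (nat_lit 25753235894) (nat_lit 6) (nat_lit 4) (nat_lit 7) (nat_lit 5) (nat_lit 7) (nat_lit 4) (nat_lit 330) (nat_lit 250) (nat_lit 140)))))) (XT.nd (nat_lit 390) (nat_lit 76) (nat_lit 0) (XT.nd (nat_lit 156) (nat_lit 76) (nat_lit 0) (XT.nd (nat_lit 78) (nat_lit 0) (nat_lit 0) (XT.lf (nat_lit 0) (nat_lit 36405173658) (nat_lit 76) (nat_lit 62484304475) (nat_lit 76) (nat_lit 19409573370) (nat_lit 6) (nat_lit 4) (nat_lit 7) (nat_lit 5) (nat_lit 7) (nat_lit 4) (nat_lit 331) (nat_lit 250) (nat_lit 139)) (XT.lf (nat_lit 0) (nat_lit 55150321433) (nat_lit 76) (nat_lit 55836832288) (nat_lit 76) (nat_lit 12752940532) (nat_lit 6) (nat_lit 4) (nat_lit 7) (nat_lit 5) (nat_lit 7) (nat_lit 4) (nat_lit 332) (nat_lit 250) (nat_lit 138))) (XT.nd (nat_lit 78) (nat_lit 76) (nat_lit 0) (XT.lf (nat_lit 0) (nat_lit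 74825790658) (nat_lit 76) (nat_lit 48860104439) (nat_lit 76) (nat_lit 5767488254) (nat_lit 6) (nat_lit 4) (nat_lit 7) (nat_lit 5) (nat_lit 7) (nat_lit 4) (nat_lit 333) (nat_lit 250) (nat_lit 137)) (XT.nd (nat_lit 78) (nat_lit 0) (nat_lit 0) (XT.lf (nat_lit 0) (nat_lit 1513376433) (nat_lit 152) (nat_lit 39998503477) (nat_lit 76) (nat_lit 93939421493) (nat_lit 5) (nat_lit 5) (nat_lit 7) (nat_lit 5) (nat_lit 6) (nat_lit 4) (nat_lit 334) (nat_lit 250) (nat_lit 136)) (XT.lf (nat_lit 0) (nat_lit 8960936222) (nat_lit 152) (nat_lit 24738919225) (nat_lit 76) (nat_lit 108044711458) (nat_lit 5) (nat_lit 5) (nat_lit 7) (nat_lit 5) (nat_lit 6) (nat_lit 4) (nat_lit 335) (nat_lit 250) (nat_lit 135))))) (XT.nd (nat_lit 156) (nat_lit 0) (nat_lit 0) (XT.nd (nat_lit 78) (nat_lit 76) (nat_lit 0) (XT.lf (nat_lit 0) (nat_lit 16777519039) (nat_lit 152) (nat_lit 8722460939) (nat_lit 76) (nat_lit 122852686175)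 (nat_lit 5) (nat_lit 5) (nat_lit 7) (nat_lit 5) (nat_lit 6) (nat_lit 4) (nat_lit 336) (nat_lit 250) (nat_lit 134)) (XT.lf (nat_lit 0) (nat_lit 8356464866) (nat_lit 76) (nat_lit 16755738766) (nat_lit 152) (nat_lit 130172605697) (nat_lit 4) (nat_lit 5) (nat_lit 5) (nat_lit 5) (nat_lit 6) (nat_lit 4) (nat_lit 337) (nat_lit 250) (nat_lit 133))) (XT.nd (nat_lit 78) (nat_lit 0) (nat_lit 0) (XT.lf (nat_lit 0) (nat_lit 26586440435) (nat_lit 76) (nat_lit 7421768752) (nat_lit 152) (nat_lit 128548123611) (nat_lit 4) (nat_lit 5) (nat_lit 5) (nat_lit 5) (nat_lit 6) (nat_lit 4) (nat_lit 338) (nat_lit 250) (nat_lit 132)) (XT.nd (nat_lit 78) (nat_lit 0) (nat_lit 0) (XT.lf (nat_lit 0) (nat_lit 43383134623) (nat_lit 152) (nat_lit 124506220239) (nat_lit 0) (nat_lit 2300373953) (nat_lit 4) (nat_lit 5) (nat_lit 6) (nat_lit 4) (nat_lit 4) (nat_lit 4) (nat_lit 339) (nat_lit 250) (nat_lit 131)) (XT.lf (nat_lit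 0) (nat_lit 53345596869) (nat_lit 152) (nat_lit 112596329314) (nat_lit 0) (nat_lit 12256931162) (nat_lit 4) (nat_lit 5) (nat_lit 6) (nat_lit 4) (nat_lit 4) (nat_lit 4) (nat_lit 340) (nat_lit 250) (nat_lit 130))))))))
noncomputable def xc144 : XT := (XT.nd (nat_lit 1404) (nat_lit 0) (nat_lit 0) (XT.nd (nat_lit 702) (nat_lit 0) (nat_lit 0) (XT.nd (nat_lit 312) (nat_lit 76) (nat_lit 0) (XT.nd (nat_lit 156) (nat_lit 0) (nat_lit 0) (XT.nd (nat_lit 78) (nat_lit 0) (nat_lit 0) (XT.lf (nat_lit 0) (nat_lit 63803441466) (nat_lit 152) (nat_lit 100095988097) (nat_lit 0) (nat_lit 22709151914) (nat_lit 4) (nat_lit 5) (nat_lit 6) (nat_lit 4) (nat_lit 4) (nat_lit 4) (nat_lit 341) (nat_lit 250) (nat_lit 129)) (XT.lf (nat_lit 0) (nat_lit 74781568043) (nat_lit 152) (nat_lit 86975433869) (nat_lit 0) (nat_lit 33681922448) (nat_lit 4) (nat_lit 5) (nat_lit 6) (nat_lit 4) (nat_lit 4) (nat_lit 4) (nat_lit 342)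 (nat_lit 250) (nat_lit 128))) (XT.nd (nat_lit 78) (nat_lit 0) (nat_lit 0) (XT.lf (nat_lit 0) (nat_lit 86306114997) (nat_lit 152) (nat_lit 73203427217) (nat_lit 0) (nat_lit 45201368408) (nat_lit 4) (nat_lit 5) (nat_lit 6) (nat_lit 4) (nat_lit 4) (nat_lit 4) (nat_lit 343) (nat_lit 250) (nat_lit 127)) (XT.lf (nat_lit 0) (nat_lit 98404521725) (nat_lit 152) (nat_lit 58747177647) (nat_lit 0) (nat_lit 57294917048) (nat_lit 4) (nat_lit 5) (nat_lit 6) (nat_lit 4) (nat_lit 4) (nat_lit 4) (nat_lit 344) (nat_lit 250) (nat_lit 126)))) (XT.nd (nat_lit 156) (nat_lit 76) (nat_lit 0) (XT.nd (nat_lit 78) (nat_lit 0) (nat_lit 0) (XT.lf (nat_lit 0) (nat_lit 111105593958) (nat_lit 152) (nat_lit 43572265519) (nat_lit 0) (nat_lit 69991362529) (nat_lit 4) (nat_lit 5) (nat_lit 6) (nat_lit 4) (nat_lit 4) (nat_lit 4) (nat_lit 345) (nat_lit 250) (nat_lit 125)) (XT.lf (nat_lit 0) (nat_lit 124439572344) (nat_lit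 152) (nat_lit 27642560089) (nat_lit 0) (nat_lit 83320934485) (nat_lit 4) (nat_lit 5) (nat_lit 6) (nat_lit 4) (nat_lit 4) (nat_lit 4) (nat_lit 346) (nat_lit 250) (nat_lit 124))) (XT.nd (nat_lit 78) (nat_lit 76) (nat_lit 0) (XT.lf (nat_lit 0) (nat_lit 138438204450) (nat_lit 152) (nat_lit 10920133486) (nat_lit 0) (nat_lit 97315369991) (nat_lit 4) (nat_lit 5) (nat_lit 6) (nat_lit 4) (nat_lit 4) (nat_lit 4) (nat_lit 347) (nat_lit 250) (nat_lit 123)) (XT.nd (nat_lit 78) (nat_lit 0) (nat_lit 0) (XT.lf (nat_lit 0) (nat_lit 6854207018) (nat_lit 76) (nat_lit 146387626714) (nat_lit 76) (nat_lit 105260795494) (nat_lit 3) (nat_lit 4) (nat_lit 4) (nat_lit 5) (nat_lit 4) (nat_lit 4) (nat_lit 348) (nat_lit 250) (nat_lit 122)) (XT.lf (nat_lit 0) (nat_lit 25892859890) (nat_lit 76) (nat_lit 143075812212) (nat_lit 76) (nat_lit 101945174552) (nat_lit 3) (nat_lit 4) (nat_lit 4) (nat_lit 5) (nat_lit 4) (nat_lit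 4) (nat_lit 349) (nat_lit 250) (nat_lit 121)))))) (XT.nd (nat_lit 312) (nat_lit 0) (nat_lit 0) (XT.nd (nat_lit 156) (nat_lit 0) (nat_lit 0) (XT.nd (nat_lit 78) (nat_lit 0) (nat_lit 0) (XT.lf (nat_lit 0) (nat_lit 45880086322) (nat_lit 76) (nat_lit 139599946903) (nat_lit 76) (nat_lit 98465684062) (nat_lit 3) (nat_lit 4) (nat_lit 4) (nat_lit 5) (nat_lit 4) (nat_lit 4) (nat_lit 350) (nat_lit 250) (nat_lit 120)) (XT.lf (nat_lit 0) (nat_lit 66863474950) (nat_lit 76) (nat_lit 135951754917) (nat_lit 76) (nat_lit 94814039523) (nat_lit 3) (nat_lit 4) (nat_lit 4) (nat_lit 5) (nat_lit 4) (nat_lit 4) (nat_lit 351) (nat_lit 250) (nat_lit 119))) (XT.nd (nat_lit 78) (nat_lit 0) (nat_lit 0) (XT.lf (nat_lit 0) (nat_lit 88892986223) (nat_lit 76) (nat_lit 132122550082) (nat_lit 76) (nat_lit 90981546543) (nat_lit 3) (nat_lit 4) (nat_lit 4) (nat_lit 5) (nat_lit 4) (nat_lit 4) (nat_lit 352) (nat_lit 250)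 (nat_lit 118)) (XT.lf (nat_lit 0) (nat_lit 112021071358) (nat_lit 76) (nat_lit 128103215245) (nat_lit 76) (nat_lit 86959080138) (nat_lit 3) (nat_lit 4) (nat_lit 4) (nat_lit 5) (nat_lit 4) (nat_lit 4) (nat_lit 353) (nat_lit 250) (nat_lit 117)))) (XT.nd (nat_lit 156) (nat_lit 0) (nat_lit 0) (XT.nd (nat_lit 78) (nat_lit 0) (nat_lit 0) (XT.lf (nat_lit 0) (nat_lit 136302797224) (nat_lit 76) (nat_lit 123884180560) (nat_lit 76) (nat_lit 82737063008) (nat_lit 3) (nat_lit 4) (nat_lit 4) (nat_lit 5) (nat_lit 4) (nat_lit 4) (nat_lit 354) (nat_lit 250) (nat_lit 116)) (XT.lf (nat_lit 0) (nat_lit 161795977455) (nat_lit 76) (nat_lit 119455400707) (nat_lit 76) (nat_lit 78305442730) (nat_lit 3) (nat_lit 4) (nat_lit 4) (nat_lit 5) (nat_lit 4) (nat_lit 4) (nat_lit 355) (nat_lit 250) (nat_lit 115))) (XT.nd (nat_lit 78) (nat_lit 0) (nat_lit 0) (XT.lf (nat_lit 0) (nat_lit 188561310099) (nat_lit 76) (nat_lit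 114806330971) (nat_lit 76) (nat_lit 73653667829) (nat_lit 3) (nat_lit 4) (nat_lit 4) (nat_lit 5) (nat_lit 4) (nat_lit 4) (nat_lit 356) (nat_lit 250) (nat_lit 114)) (XT.nd (nat_lit 78) (nat_lit 0) (nat_lit 0) (XT.lf (nat_lit 0) (nat_lit 216662522138) (nat_lit 76) (nat_lit 109925902139) (nat_lit 76) (nat_lit 68770662649) (nat_lit 3) (nat_lit 4) (nat_lit 4) (nat_lit 5) (nat_lit 4) (nat_lit 4) (nat_lit 357) (nat_lit 250) (nat_lit 113)) (XT.lf (nat_lit 0) (nat_lit 246166521219) (nat_lit 76) (nat_lit 104802494143) (nat_lit 76) (nat_lit 63644800988) (nat_lit 3) (nat_lit 4) (nat_lit 4) (nat_lit 5) (nat_lit 4) (nat_lit 4) (nat_lit 358) (nat_lit 250) (nat_lit 112))))))) (XT.nd (nat_lit 29562) (nat_lit 0) (nat_lit 5092) (XT.nd (nat_lit 29172) (nat_lit 0) (nat_lit 6308) (XT.nd (nat_lit 156) (nat_lit 0) (nat_lit 0) (XT.nd (nat_lit 78) (nat_lit 0) (nat_lit 0) (XT.lf (nat_lit 0) (nat_lit 277143554961)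 (nat_lit 76) (nat_lit 99423908392) (nat_lit 76) (nat_lit 58263878413) (nat_lit 3) (nat_lit 4) (nat_lit 4) (nat_lit 5) (nat_lit 4) (nat_lit 4) (nat_lit 359) (nat_lit 250) (nat_lit 111)) (XT.lf (nat_lit 0) (nat_lit 309667378204) (nat_lit 76) (nat_lit 93777338729) (nat_lit 76) (nat_lit 52615083204) (nat_lit 3) (nat_lit 4) (nat_lit 4) (nat_lit 5) (nat_lit 4) (nat_lit 4) (nat_lit 360) (nat_lit 250) (nat_lit 110))) (XT.nd (nat_lit 28938) (nat_lit 0) (nat_lit 6840) (XT.lf (nat_lit 0) (nat_lit 343815428624) (nat_lit 76) (nat_lit 87849340941) (nat_lit 76) (nat_lit 46684965848) (nat_lit 3) (nat_lit 4) (nat_lit 4) (nat_lit 5) (nat_lit 4) (nat_lit 4) (nat_lit 361) (nat_lit 250) (nat_lit 109)) (XT.lf (nat_lit 0) (nat_lit 611122320) (nat_lit 0) (nat_lit 611122320) (nat_lit 532) (nat_lit 2718184586) (nat_lit 93) (nat_lit 5) (nat_lit 93) (nat_lit 3) (nat_lit 100) (nat_lit 3) (nat_lit 251) (nat_lit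 251) (nat_lit 218)))) (XT.nd (nat_lit 156) (nat_lit 532) (nat_lit 0) (XT.nd (nat_lit 78) (nat_lit 0) (nat_lit 0) (XT.lf (nat_lit 0) (nat_lit 3682531788) (nat_lit 532) (nat_lit 3188867389) (nat_lit 608) (nat_lit 1143656086) (nat_lit 93) (nat_lit 5) (nat_lit 100) (nat_lit 3) (nat_lit 101) (nat_lit 5) (nat_lit 252) (nat_lit 251) (nat_lit 217)) (XT.lf (nat_lit 76) (nat_lit 405694150) (nat_lit 0) (nat_lit 4529574532) (nat_lit 608) (nat_lit 3223308267) (nat_lit 94) (nat_lit 5) (nat_lit 93) (nat_lit 5) (nat_lit 101) (nat_lit 5) (nat_lit 253) (nat_lit 251) (nat_lit 216))) (XT.nd (nat_lit 78) (nat_lit 532) (nat_lit 0) (XT.lf (nat_lit 76) (nat_lit 4249745178) (nat_lit 0) (nat_lit 1984188112) (nat_lit 608) (nat_lit 2076419409) (nat_lit 94) (nat_lit 5) (nat_lit 93) (nat_lit 5) (nat_lit 101) (nat_lit 5) (nat_lit 254) (nat_lit 251) (nat_lit 215)) (XT.nd (nat_lit 78) (nat_lit 608) (nat_lit 0) (XT.lf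 (nat_lit 0) (nat_lit 7541375827) (nat_lit 532) (nat_lit 237507213) (nat_lit 608) (nat_lit 693872938) (nat_lit 94) (nat_lit 5) (nat_lit 101) (nat_lit 5) (nat_lit 102) (nat_lit 5) (nat_lit 255) (nat_lit 251) (nat_lit 214)) (XT.lf (nat_lit 0) (nat_lit 291034031) (nat_lit 608) (nat_lit 4821090910) (nat_lit 684) (nat_lit 3529712808) (nat_lit 86) (nat_lit 5) (nat_lit 94) (nat_lit 5) (nat_lit 95) (nat_lit 5) (nat_lit 256) (nat_lit 251) (nat_lit 213)))))) (XT.nd (nat_lit 312) (nat_lit 1216) (nat_lit 0) (XT.nd (nat_lit 156) (nat_lit 0) (nat_lit 76) (XT.nd (nat_lit 78) (nat_lit 0) (nat_lit 76) (XT.lf (nat_lit 0) (nat_lit 1484834999) (nat_lit 608) (nat_lit 786943599) (nat_lit 684) (nat_lit 6549952781) (nat_lit 86) (nat_lit 5) (nat_lit 94) (nat_lit 5) (nat_lit 95) (nat_lit 5) (nat_lit 257) (nat_lit 251) (nat_lit 212)) (XT.lf (nat_lit 0) (nat_lit 2746046545) (nat_lit 608) (nat_lit 5502291247) (nat_lit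 684) (nat_lit 762085897) (nat_lit 87) (nat_lit 5) (nat_lit 95) (nat_lit 5) (nat_lit 96) (nat_lit 5) (nat_lit 258) (nat_lit 251) (nat_lit 211))) (XT.nd (nat_lit 78) (nat_lit 0) (nat_lit 0) (XT.lf (nat_lit 0) (nat_lit 4064046482) (nat_lit 608) (nat_lit 1243294606) (nat_lit 684) (nat_lit 3901704110) (nat_lit 87) (nat_lit 5) (nat_lit 95) (nat_lit 5) (nat_lit 96) (nat_lit 5) (nat_lit 259) (nat_lit 251) (nat_lit 210)) (XT.lf (nat_lit 76) (nat_lit 3292870184) (nat_lit 0) (nat_lit 2152144106) (nat_lit 684) (nat_lit 3972902458) (nat_lit 88) (nat_lit 5) (nat_lit 87) (nat_lit 5) (nat_lit 96) (nat_lit 5) (nat_lit 260) (nat_lit 251) (nat_lit 209)))) (XT.nd (nat_lit 156) (nat_lit 760) (nat_lit 0) (XT.nd (nat_lit 78) (nat_lit 608) (nat_lit 0) (XT.lf (nat_lit 0) (nat_lit 6882352680) (nat_lit 608) (nat_lit 1599119183) (nat_lit 76) (nat_lit 1156558051) (nat_lit 88) (nat_lit 5) (nat_lit 96) (nat_lit 5)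 (nat_lit 89) (nat_lit 5) (nat_lit 261) (nat_lit 251) (nat_lit 208)) (XT.lf (nat_lit 0) (nat_lit 3178135139) (nat_lit 608) (nat_lit 5248607001) (nat_lit 684) (nat_lit 1440803726) (nat_lit 80) (nat_lit 5) (nat_lit 88) (nat_lit 5) (nat_lit 89) (nat_lit 5) (nat_lit 262) (nat_lit 251) (nat_lit 207))) (XT.nd (nat_lit 78) (nat_lit 760) (nat_lit 0) (XT.lf (nat_lit 0) (nat_lit 8209029315) (nat_lit 608) (nat_lit 1818418495) (nat_lit 684) (nat_lit 82283857) (nat_lit 80) (nat_lit 5) (nat_lit 88) (nat_lit 5) (nat_lit 89) (nat_lit 5) (nat_lit 263) (nat_lit 251) (nat_lit 206)) (XT.nd (nat_lit 78) (nat_lit 0) (nat_lit 0) (XT.lf (nat_lit 0) (nat_lit 1333097251) (nat_lit 760) (nat_lit 7224706986) (nat_lit 76) (nat_lit 1803710419) (nat_lit 70) (nat_lit 5) (nat_lit 80) (nat_lit 5) (nat_lit 71) (nat_lit 5) (nat_lit 264) (nat_lit 251) (nat_lit 205)) (XT.lf (nat_lit 0) (nat_lit 2834100049) (nat_lit 760) (nat_lit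 2206064774) (nat_lit 76) (nat_lit 5584902247) (nat_lit 70) (nat_lit 5) (nat_lit 80) (nat_lit 5) (nat_lit 71) (nat_lit 5) (nat_lit 265) (nat_lit 251) (nat_lit 204))))))))
noncomputable def xc145 : XT := (XT.nd (nat_lit 1404) (nat_lit 1292) (nat_lit 0) (XT.nd (nat_lit 702) (nat_lit 988) (nat_lit 0) (XT.nd (nat_lit 312) (nat_lit 912) (nat_lit 0) (XT.nd (nat_lit 156) (nat_lit 380) (nat_lit 0) (XT.nd (nat_lit 78) (nat_lit 0) (nat_lit 0) (XT.lf (nat_lit 0) (nat_lit 3123202991) (nat_lit 380) (nat_lit 1292941247) (nat_lit 456) (nat_lit 6485475795) (nat_lit 65) (nat_lit 5) (nat_lit 70) (nat_lit 5) (nat_lit 71) (nat_lit 5) (nat_lit 266) (nat_lit 251) (nat_lit 203)) (XT.lf (nat_lit 0) (nat_lit 6115181842) (nat_lit 456) (nat_lit 2478295217) (nat_lit 76) (nat_lit 2596745683) (nat_lit 65) (nat_lit 5) (nat_lit 71) (nat_lit 5) (nat_lit 66) (nat_lit 5) (nat_lit 267) (nat_lit 251) (nat_lit 202))) (XT.nd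 (nat_lit 78) (nat_lit 0) (nat_lit 0) (XT.lf (nat_lit 0) (nat_lit 3125845011) (nat_lit 380) (nat_lit 4803967655) (nat_lit 456) (nat_lit 3562021958) (nat_lit 60) (nat_lit 5) (nat_lit 65) (nat_lit 5) (nat_lit 66) (nat_lit 5) (nat_lit 268) (nat_lit 251) (nat_lit 201)) (XT.lf (nat_lit 0) (nat_lit 9057037130) (nat_lit 380) (nat_lit 782013624) (nat_lit 456) (nat_lit 1969388371) (nat_lit 60) (nat_lit 5) (nat_lit 65) (nat_lit 5) (nat_lit 66) (nat_lit 5) (nat_lit 269) (nat_lit 251) (nat_lit 200)))) (XT.nd (nat_lit 156) (nat_lit 532) (nat_lit 0) (XT.nd (nat_lit 78) (nat_lit 76) (nat_lit 0) (XT.lf (nat_lit 0) (nat_lit 3151841426) (nat_lit 304) (nat_lit 8758544946) (nat_lit 380) (nat_lit 227256473) (nat_lit 56) (nat_lit 5) (nat_lit 60) (nat_lit 5) (nat_lit 61) (nat_lit 5) (nat_lit 270) (nat_lit 251) (nat_lit 199)) (XT.lf (nat_lit 0) (nat_lit 1575047372) (nat_lit 380) (nat_lit 3113674359) (nat_lit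 76) (nat_lit 7792208913) (nat_lit 55) (nat_lit 5) (nat_lit 60) (nat_lit 5) (nat_lit 56) (nat_lit 5) (nat_lit 271) (nat_lit 251) (nat_lit 198))) (XT.nd (nat_lit 78) (nat_lit 228) (nat_lit 0) (XT.lf (nat_lit 0) (nat_lit 3109896593) (nat_lit 304) (nat_lit 364352129) (nat_lit 380) (nat_lit 9366313907) (nat_lit 51) (nat_lit 5) (nat_lit 55) (nat_lit 5) (nat_lit 56) (nat_lit 5) (nat_lit 272) (nat_lit 251) (nat_lit 197)) (XT.nd (nat_lit 78) (nat_lit 228) (nat_lit 0) (XT.lf (nat_lit 0) (nat_lit 5554049856) (nat_lit 380) (nat_lit 3567892477) (nat_lit 76) (nat_lit 4092034802) (nat_lit 51) (nat_lit 5) (nat_lit 56) (nat_lit 5) (nat_lit 52) (nat_lit 5) (nat_lit 273) (nat_lit 251) (nat_lit 196)) (XT.lf (nat_lit 0) (nat_lit 2954434286) (nat_lit 228) (nat_lit 4803926680) (nat_lit 304) (nat_lit 5846754362) (nat_lit 48) (nat_lit 5) (nat_lit 51) (nat_lit 5) (nat_lit 52) (nat_lit 5) (nat_lit 274) (nat_lit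 251) (nat_lit 195)))))) (XT.nd (nat_lit 312) (nat_lit 380) (nat_lit 0) (XT.nd (nat_lit 156) (nat_lit 304) (nat_lit 0) (XT.nd (nat_lit 78) (nat_lit 304) (nat_lit 0) (XT.lf (nat_lit 0) (nat_lit 9890173284) (nat_lit 228) (nat_lit 212491073) (nat_lit 304) (nat_lit 3911732439) (nat_lit 48) (nat_lit 5) (nat_lit 51) (nat_lit 5) (nat_lit 52) (nat_lit 5) (nat_lit 275) (nat_lit 251) (nat_lit 194)) (XT.lf (nat_lit 0) (nat_lit 2706970412) (nat_lit 304) (nat_lit 9942151768) (nat_lit 380) (nat_lit 1790844809) (nat_lit 44) (nat_lit 5) (nat_lit 48) (nat_lit 5) (nat_lit 49) (nat_lit 5) (nat_lit 276) (nat_lit 251) (nat_lit 193))) (XT.nd (nat_lit 78) (nat_lit 228) (nat_lit 0) (XT.lf (nat_lit 0) (nat_lit 467632537) (nat_lit 380) (nat_lit 4908565059) (nat_lit 76) (nat_lit 9508067489) (nat_lit 43) (nat_lit 5) (nat_lit 48) (nat_lit 5) (nat_lit 44) (nat_lit 5) (nat_lit 277) (nat_lit 251) (nat_lit 192)) (XT.lf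 (nat_lit 0) (nat_lit 2265268477) (nat_lit 228) (nat_lit 521356579) (nat_lit 304) (nat_lit 12562358216) (nat_lit 40) (nat_lit 5) (nat_lit 43) (nat_lit 5) (nat_lit 44) (nat_lit 5) (nat_lit 278) (nat_lit 251) (nat_lit 191)))) (XT.nd (nat_lit 156) (nat_lit 152) (nat_lit 0) (XT.nd (nat_lit 78) (nat_lit 228) (nat_lit 0) (XT.lf (nat_lit 0) (nat_lit 5350573242) (nat_lit 304) (nat_lit 5973064917) (nat_lit 76) (nat_lit 4506907830) (nat_lit 40) (nat_lit 5) (nat_lit 44) (nat_lit 5) (nat_lit 41) (nat_lit 5) (nat_lit 279) (nat_lit 251) (nat_lit 190)) (XT.lf (nat_lit 0) (nat_lit 1498551256) (nat_lit 228) (nat_lit 6550460161) (nat_lit 304) (nat_lit 8286916908) (nat_lit 37) (nat_lit 5) (nat_lit 40) (nat_lit 5) (nat_lit 41) (nat_lit 5) (nat_lit 280) (nat_lit 251) (nat_lit 189))) (XT.nd (nat_lit 78) (nat_lit 152) (nat_lit 0) (XT.lf (nat_lit 0) (nat_lit 9517685299) (nat_lit 228) (nat_lit 1440891581) (nat_lit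 304) (nat_lit 5904246073) (nat_lit 37) (nat_lit 5) (nat_lit 40) (nat_lit 5) (nat_lit 41) (nat_lit 5) (nat_lit 281) (nat_lit 251) (nat_lit 188)) (XT.nd (nat_lit 78) (nat_lit 0) (nat_lit 0) (XT.lf (nat_lit 0) (nat_lit 441626387) (nat_lit 152) (nat_lit 13616266977) (nat_lit 228) (nat_lit 3356006210) (nat_lit 35) (nat_lit 5) (nat_lit 37) (nat_lit 5) (nat_lit 38) (nat_lit 5) (nat_lit 282) (nat_lit 251) (nat_lit 187)) (XT.lf (nat_lit 0) (nat_lit 8815909482) (nat_lit 152) (nat_lit 8620641861) (nat_lit 228) (nat_lit 549808372) (nat_lit 35) (nat_lit 5) (nat_lit 37) (nat_lit 5) (nat_lit 38) (nat_lit 5) (nat_lit 283) (nat_lit 251) (nat_lit 186))))))) (XT.nd (nat_lit 702) (nat_lit 456) (nat_lit 0) (XT.nd (nat_lit 312) (nat_lit 380) (nat_lit 0) (XT.nd (nat_lit 156) (nat_lit 152) (nat_lit 0) (XT.nd (nat_lit 78) (nat_lit 228) (nat_lit 0) (XT.lf (nat_lit 0) (nat_lit 2297431745) (nat_lit 228) (nat_lit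 1047624741) (nat_lit 76) (nat_lit 15241687298) (nat_lit 34) (nat_lit 5) (nat_lit 37) (nat_lit 5) (nat_lit 35) (nat_lit 5) (nat_lit 284) (nat_lit 251) (nat_lit 185)) (XT.lf (nat_lit 0) (nat_lit 5403346967) (nat_lit 304) (nat_lit 11559810999) (nat_lit 76) (nat_lit 2246840788) (nat_lit 31) (nat_lit 5) (nat_lit 35) (nat_lit 5) (nat_lit 32) (nat_lit 5) (nat_lit 285) (nat_lit 251) (nat_lit 184))) (XT.nd (nat_lit 78) (nat_lit 152) (nat_lit 0) (XT.lf (nat_lit 0) (nat_lit 8716366888) (nat_lit 304) (nat_lit 3130019522) (nat_lit 76) (nat_lit 8015479496) (nat_lit 31) (nat_lit 5) (nat_lit 35) (nat_lit 5) (nat_lit 32) (nat_lit 5) (nat_lit 286) (nat_lit 251) (nat_lit 183)) (XT.lf (nat_lit 0) (nat_lit 5880301864) (nat_lit 152) (nat_lit 6386485894) (nat_lit 228) (nat_lit 8275989139) (nat_lit 29) (nat_lit 5) (nat_lit 31) (nat_lit 5) (nat_lit 32) (nat_lit 5) (nat_lit 287) (nat_lit 251) (nat_lit 182))))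 (XT.nd (nat_lit 156) (nat_lit 228) (nat_lit 0) (XT.nd (nat_lit 78) (nat_lit 152) (nat_lit 0) (XT.lf (nat_lit 0) (nat_lit 15421110904) (nat_lit 152) (nat_lit 607076253) (nat_lit 228) (nat_lit 5227909580) (nat_lit 29) (nat_lit 5) (nat_lit 31) (nat_lit 5) (nat_lit 32) (nat_lit 5) (nat_lit 288) (nat_lit 251) (nat_lit 181)) (XT.lf (nat_lit 0) (nat_lit 3430242100) (nat_lit 152) (nat_lit 16667480485) (nat_lit 228) (nat_lit 1901391131) (nat_lit 27) (nat_lit 5) (nat_lit 29) (nat_lit 5) (nat_lit 30) (nat_lit 5) (nat_lit 289) (nat_lit 251) (nat_lit 180))) (XT.nd (nat_lit 78) (nat_lit 152) (nat_lit 0) (XT.lf (nat_lit 0) (nat_lit 1632280168) (nat_lit 228) (nat_lit 9477802357) (nat_lit 76) (nat_lit 11663399743) (nat_lit 26) (nat_lit 5) (nat_lit 29) (nat_lit 5) (nat_lit 27) (nat_lit 5) (nat_lit 290) (nat_lit 251) (nat_lit 179)) (XT.nd (nat_lit 78) (nat_lit 0) (nat_lit 0) (XT.lf (nat_lit 0) (nat_lit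 9967513) (nat_lit 152) (nat_lit 5251183949) (nat_lit 228) (nat_lit 18324768247) (nat_lit 24) (nat_lit 5) (nat_lit 26) (nat_lit 5) (nat_lit 27) (nat_lit 5) (nat_lit 291) (nat_lit 251) (nat_lit 178)) (XT.lf (nat_lit 0) (nat_lit 9231216137) (nat_lit 228) (nat_lit 14173788188) (nat_lit 76) (nat_lit 1026015545) (nat_lit 24) (nat_lit 5) (nat_lit 27) (nat_lit 5) (nat_lit 25) (nat_lit 5) (nat_lit 292) (nat_lit 251) (nat_lit 177)))))) (XT.nd (nat_lit 312) (nat_lit 228) (nat_lit 0) (XT.nd (nat_lit 156) (nat_lit 76) (nat_lit 0) (XT.nd (nat_lit 78) (nat_lit 152) (nat_lit 0) (XT.lf (nat_lit 0) (nat_lit 13469245693) (nat_lit 228) (nat_lit 4413615581) (nat_lit 76) (nat_lit 7432067678) (nat_lit 24) (nat_lit 5) (nat_lit 27) (nat_lit 5) (nat_lit 25) (nat_lit 5) (nat_lit 293) (nat_lit 251) (nat_lit 176)) (XT.lf (nat_lit 0) (nat_lit 6001887719) (nat_lit 152) (nat_lit 11995163546) (nat_lit 228) (nat_lit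 8242114202) (nat_lit 22) (nat_lit 5) (nat_lit 24) (nat_lit 5) (nat_lit 25) (nat_lit 5) (nat_lit 294) (nat_lit 251) (nat_lit 175))) (XT.nd (nat_lit 78) (nat_lit 76) (nat_lit 0) (XT.lf (nat_lit 0) (nat_lit 17067020736) (nat_lit 152) (nat_lit 5743514659) (nat_lit 228) (nat_lit 4396138482) (nat_lit 22) (nat_lit 5) (nat_lit 24) (nat_lit 5) (nat_lit 25) (nat_lit 5) (nat_lit 295) (nat_lit 251) (nat_lit 174)) (XT.lf (nat_lit 0) (nat_lit 440288722) (nat_lit 76) (nat_lit 27429237915) (nat_lit 152) (nat_lit 352812741) (nat_lit 21) (nat_lit 5) (nat_lit 22) (nat_lit 5) (nat_lit 23) (nat_lit 4) (nat_lit 296) (nat_lit 251) (nat_lit 173)))) (XT.nd (nat_lit 156) (nat_lit 152) (nat_lit 0) (XT.nd (nat_lit 78) (nat_lit 0) (nat_lit 0) (XT.lf (nat_lit 0) (nat_lit 4022007017) (nat_lit 152) (nat_lit 17560662650) (nat_lit 76) (nat_lit 7690404965) (nat_lit 20) (nat_lit 5) (nat_lit 22) (nat_lit 5) (nat_lit 21)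 (nat_lit 5) (nat_lit 297) (nat_lit 251) (nat_lit 172)) (XT.lf (nat_lit 0) (nat_lit 8589641216) (nat_lit 152) (nat_lit 6856815099) (nat_lit 76) (nat_lit 14930324772) (nat_lit 20) (nat_lit 5) (nat_lit 22) (nat_lit 5) (nat_lit 21) (nat_lit 5) (nat_lit 298) (nat_lit 251) (nat_lit 171))) (XT.nd (nat_lit 78) (nat_lit 0) (nat_lit 0) (XT.lf (nat_lit 0) (nat_lit 4504663096) (nat_lit 152) (nat_lit 8937924705) (nat_lit 228) (nat_lit 18090257713) (nat_lit 18) (nat_lit 5) (nat_lit 20) (nat_lit 5) (nat_lit 21) (nat_lit 5) (nat_lit 299) (nat_lit 251) (nat_lit 170)) (XT.nd (nat_lit 78) (nat_lit 0) (nat_lit 0) (XT.lf (nat_lit 0) (nat_lit 16650879885) (nat_lit 152) (nat_lit 1990329722) (nat_lit 228) (nat_lit 14100370430) (nat_lit 18) (nat_lit 5) (nat_lit 20) (nat_lit 5) (nat_lit 21) (nat_lit 5) (nat_lit 300) (nat_lit 251) (nat_lit 169)) (XT.lf (nat_lit 0) (nat_lit 24169987578) (nat_lit 228) (nat_lit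 4710051794) (nat_lit 76) (nat_lit 5127218059) (nat_lit 18) (nat_lit 5) (nat_lit 21) (nat_lit 5) (nat_lit 19) (nat_lit 4) (nat_lit 301) (nat_lit 251) (nat_lit 168))))))))
noncomputable def xc146 : XT := (XT.nd (nat_lit 1404) (nat_lit 380) (nat_lit 0) (XT.nd (nat_lit 702) (nat_lit 228) (nat_lit 0) (XT.nd (nat_lit 312) (nat_lit 76) (nat_lit 0) (XT.nd (nat_lit 156) (nat_lit 228) (nat_lit 0) (XT.nd (nat_lit 78) (nat_lit 0) (nat_lit 0) (XT.lf (nat_lit 0) (nat_lit 7424745866) (nat_lit 76) (nat_lit 22687012505) (nat_lit 152) (nat_lit 5217649200) (nat_lit 17) (nat_lit 5) (nat_lit 18) (nat_lit 5) (nat_lit 19) (nat_lit 4) (nat_lit 302) (nat_lit 251) (nat_lit 167)) (XT.lf (nat_lit 0) (nat_lit 20310233630) (nat_lit 76) (nat_lit 16108421194) (nat_lit 152) (nat_lit 295624317) (nat_lit 17) (nat_lit 5) (nat_lit 18) (nat_lit 5) (nat_lit 19) (nat_lit 4) (nat_lit 303) (nat_lit 251) (nat_lit 166))) (XT.nd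 (nat_lit 78) (nat_lit 152) (nat_lit 0) (XT.lf (nat_lit 0) (nat_lit 4705182318) (nat_lit 152) (nat_lit 4423502277) (nat_lit 76) (nat_lit 29036488792) (nat_lit 16) (nat_lit 5) (nat_lit 18) (nat_lit 5) (nat_lit 17) (nat_lit 5) (nat_lit 304) (nat_lit 251) (nat_lit 165)) (XT.lf (nat_lit 0) (nat_lit 8402014605) (nat_lit 152) (nat_lit 1664431136) (nat_lit 228) (nat_lit 29615920352) (nat_lit 14) (nat_lit 5) (nat_lit 16) (nat_lit 5) (nat_lit 17) (nat_lit 5) (nat_lit 305) (nat_lit 251) (nat_lit 164)))) (XT.nd (nat_lit 156) (nat_lit 76) (nat_lit 0) (XT.nd (nat_lit 78) (nat_lit 0) (nat_lit 0) (XT.lf (nat_lit 0) (nat_lit 15857589480) (nat_lit 228) (nat_lit 19365159134) (nat_lit 76) (nat_lit 6044591946) (nat_lit 14) (nat_lit 5) (nat_lit 17) (nat_lit 5) (nat_lit 15) (nat_lit 4) (nat_lit 306) (nat_lit 251) (nat_lit 163)) (XT.lf (nat_lit 0) (nat_lit 21955382366) (nat_lit 228) (nat_lit 6898884608) (nat_lit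 76) (nat_lit 14076454544) (nat_lit 14) (nat_lit 5) (nat_lit 17) (nat_lit 5) (nat_lit 15) (nat_lit 4) (nat_lit 307) (nat_lit 251) (nat_lit 162))) (XT.nd (nat_lit 78) (nat_lit 0) (nat_lit 0) (XT.lf (nat_lit 0) (nat_lit 6378285085) (nat_lit 76) (nat_lit 22069654339) (nat_lit 152) (nat_lit 16224850150) (nat_lit 13) (nat_lit 5) (nat_lit 14) (nat_lit 5) (nat_lit 15) (nat_lit 4) (nat_lit 308) (nat_lit 251) (nat_lit 161)) (XT.nd (nat_lit 78) (nat_lit 0) (nat_lit 0) (XT.lf (nat_lit 0) (nat_lit 20542530600) (nat_lit 76) (nat_lit 14829929181) (nat_lit 152) (nat_lit 11124145696) (nat_lit 13) (nat_lit 5) (nat_lit 14) (nat_lit 5) (nat_lit 15) (nat_lit 4) (nat_lit 309) (nat_lit 251) (nat_lit 160)) (XT.lf (nat_lit 0) (nat_lit 35399468048) (nat_lit 76) (nat_lit 7234690008) (nat_lit 152) (nat_lit 5777917206) (nat_lit 13) (nat_lit 5) (nat_lit 14) (nat_lit 5) (nat_lit 15) (nat_lit 4) (nat_lit 310) (nat_lit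 251) (nat_lit 159)))))) (XT.nd (nat_lit 312) (nat_lit 76) (nat_lit 0) (XT.nd (nat_lit 156) (nat_lit 0) (nat_lit 0) (XT.nd (nat_lit 78) (nat_lit 76) (nat_lit 0) (XT.lf (nat_lit 0) (nat_lit 567410090) (nat_lit 76) (nat_lit 49703234872) (nat_lit 76) (nat_lit 152098561) (nat_lit 12) (nat_lit 4) (nat_lit 13) (nat_lit 5) (nat_lit 13) (nat_lit 4) (nat_lit 311) (nat_lit 251) (nat_lit 158)) (XT.lf (nat_lit 0) (nat_lit 5904723569) (nat_lit 152) (nat_lit 37471974224) (nat_lit 76) (nat_lit 9136068597) (nat_lit 11) (nat_lit 5) (nat_lit 13) (nat_lit 5) (nat_lit 12) (nat_lit 4) (nat_lit 312) (nat_lit 251) (nat_lit 157))) (XT.nd (nat_lit 78) (nat_lit 0) (nat_lit 0) (XT.lf (nat_lit 0) (nat_lit 12251008508) (nat_lit 152) (nat_lit 24486396032) (nat_lit 76) (nat_lit 17970183315) (nat_lit 11) (nat_lit 5) (nat_lit 13) (nat_lit 5) (nat_lit 12) (nat_lit 4) (nat_lit 313) (nat_lit 251) (nat_lit 156)) (XT.lf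 (nat_lit 0) (nat_lit 18906734562) (nat_lit 152) (nat_lit 10865306132) (nat_lit 76) (nat_lit 27240511728) (nat_lit 11) (nat_lit 5) (nat_lit 13) (nat_lit 5) (nat_lit 12) (nat_lit 4) (nat_lit 314) (nat_lit 251) (nat_lit 155)))) (XT.nd (nat_lit 156) (nat_lit 0) (nat_lit 0) (XT.nd (nat_lit 78) (nat_lit 0) (nat_lit 0) (XT.lf (nat_lit 0) (nat_lit 3536930508) (nat_lit 76) (nat_lit 22406039585) (nat_lit 152) (nat_lit 33487416935) (nat_lit 10) (nat_lit 5) (nat_lit 11) (nat_lit 5) (nat_lit 12) (nat_lit 4) (nat_lit 315) (nat_lit 251) (nat_lit 154)) (XT.lf (nat_lit 0) (nat_lit 19023597734) (nat_lit 76) (nat_lit 14484086314) (nat_lit 152) (nat_lit 28452603576) (nat_lit 10) (nat_lit 5) (nat_lit 11) (nat_lit 5) (nat_lit 12) (nat_lit 4) (nat_lit 316) (nat_lit 251) (nat_lit 153))) (XT.nd (nat_lit 78) (nat_lit 0) (nat_lit 0) (XT.lf (nat_lit 0) (nat_lit 35272312471) (nat_lit 76) (nat_lit 6171328303) (nat_lit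 152) (nat_lit 23173399350) (nat_lit 10) (nat_lit 5) (nat_lit 11) (nat_lit 5) (nat_lit 12) (nat_lit 4) (nat_lit 317) (nat_lit 251) (nat_lit 152)) (XT.nd (nat_lit 78) (nat_lit 0) (nat_lit 0) (XT.lf (nat_lit 0) (nat_lit 49809579699) (nat_lit 152) (nat_lit 15125052285) (nat_lit 0) (nat_lit 2470345934) (nat_lit 10) (nat_lit 5) (nat_lit 12) (nat_lit 4) (nat_lit 10) (nat_lit 4) (nat_lit 318) (nat_lit 251) (nat_lit 151)) (XT.lf (nat_lit 0) (nat_lit 58688567142) (nat_lit 152) (nat_lit 306954834) (nat_lit 0) (nat_lit 11332059603) (nat_lit 10) (nat_lit 5) (nat_lit 12) (nat_lit 4) (nat_lit 10) (nat_lit 4) (nat_lit 319) (nat_lit 251) (nat_lit 150))))))) (XT.nd (nat_lit 702) (nat_lit 152) (nat_lit 0) (XT.nd (nat_lit 312) (nat_lit 76) (nat_lit 0) (XT.nd (nat_lit 156) (nat_lit 0) (nat_lit 0) (XT.nd (nat_lit 78) (nat_lit 76) (nat_lit 0) (XT.lf (nat_lit 0) (nat_lit 15745140437) (nat_lit 76) (nat_lit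 52506077152) (nat_lit 76) (nat_lit 5133118400) (nat_lit 9) (nat_lit 4) (nat_lit 10) (nat_lit 5) (nat_lit 10) (nat_lit 4) (nat_lit 320) (nat_lit 251) (nat_lit 149)) (XT.lf (nat_lit 0) (nat_lit 1642915500) (nat_lit 152) (nat_lit 44020649798) (nat_lit 76) (nat_lit 30929083303) (nat_lit 8) (nat_lit 5) (nat_lit 10) (nat_lit 5) (nat_lit 9) (nat_lit 4) (nat_lit 321) (nat_lit 251) (nat_lit 148))) (XT.nd (nat_lit 78) (nat_lit 0) (nat_lit 0) (XT.lf (nat_lit 0) (nat_lit 8579443073) (nat_lit 152) (nat_lit 29815690009) (nat_lit 76) (nat_lit 41562331761) (nat_lit 8) (nat_lit 5) (nat_lit 10) (nat_lit 5) (nat_lit 9) (nat_lit 4) (nat_lit 322) (nat_lit 251) (nat_lit 147)) (XT.lf (nat_lit 0) (nat_lit 15857271705) (nat_lit 152) (nat_lit 14910352490) (nat_lit 76) (nat_lit 52723179106) (nat_lit 8) (nat_lit 5) (nat_lit 10) (nat_lit 5) (nat_lit 9) (nat_lit 4) (nat_lit 323) (nat_lit 251) (nat_lit 146)))) (XT.nd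 (nat_lit 156) (nat_lit 0) (nat_lit 0) (XT.nd (nat_lit 78) (nat_lit 0) (nat_lit 0) (XT.lf (nat_lit 0) (nat_lit 755016913) (nat_lit 76) (nat_lit 22750500576) (nat_lit 152) (nat_lit 63694969802) (nat_lit 7) (nat_lit 5) (nat_lit 8) (nat_lit 5) (nat_lit 9) (nat_lit 4) (nat_lit 324) (nat_lit 251) (nat_lit 145)) (XT.lf (nat_lit 0) (nat_lit 17712059927) (nat_lit 76) (nat_lit 14071473644) (nat_lit 152) (nat_lit 59299758667) (nat_lit 7) (nat_lit 5) (nat_lit 8) (nat_lit 5) (nat_lit 9) (nat_lit 4) (nat_lit 325) (nat_lit 251) (nat_lit 144))) (XT.nd (nat_lit 78) (nat_lit 0) (nat_lit 0) (XT.lf (nat_lit 0) (nat_lit 35508146873) (nat_lit 76) (nat_lit 4962393086) (nat_lit 152) (nat_lit 54689947438) (nat_lit 7) (nat_lit 5) (nat_lit 8) (nat_lit 5) (nat_lit 9) (nat_lit 4) (nat_lit 326) (nat_lit 251) (nat_lit 143)) (XT.nd (nat_lit 78) (nat_lit 0) (nat_lit 0) (XT.lf (nat_lit 0) (nat_lit 49659014370) (nat_lit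 152) (nat_lit 45327925358) (nat_lit 0) (nat_lit 4451250928) (nat_lit 7) (nat_lit 5) (nat_lit 9) (nat_lit 4) (nat_lit 7) (nat_lit 4) (nat_lit 327) (nat_lit 251) (nat_lit 142)) (XT.lf (nat_lit 0) (nat_lit 59383754043) (nat_lit 152) (nat_lit 30376800982) (nat_lit 0) (nat_lit 14165386002) (nat_lit 7) (nat_lit 5) (nat_lit 9) (nat_lit 4) (nat_lit 7) (nat_lit 4) (nat_lit 328) (nat_lit 251) (nat_lit 141)))))) (XT.nd (nat_lit 312) (nat_lit 76) (nat_lit 0) (XT.nd (nat_lit 156) (nat_lit 0) (nat_lit 0) (XT.nd (nat_lit 78) (nat_lit 76) (nat_lit 0) (XT.lf (nat_lit 0) (nat_lit 69590436257) (nat_lit 152) (nat_lit 14685892617) (nat_lit 0) (nat_lit 24361968598) (nat_lit 7) (nat_lit 5) (nat_lit 9) (nat_lit 4) (nat_lit 7) (nat_lit 4) (nat_lit 329) (nat_lit 251) (nat_lit 140)) (XT.lf (nat_lit 0) (nat_lit 1841085267) (nat_lit 76) (nat_lit 78491021870) (nat_lit 76) (nat_lit 33252935527) (nat_lit 6) (nat_lit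 4) (nat_lit 7) (nat_lit 5) (nat_lit 7) (nat_lit 4) (nat_lit 330) (nat_lit 251) (nat_lit 139))) (XT.nd (nat_lit 78) (nat_lit 0) (nat_lit 0) (XT.lf (nat_lit 0) (nat_lit 19696990341) (nat_lit 76) (nat_lit 72158575027) (nat_lit 76) (nat_lit 26911328033) (nat_lit 6) (nat_lit 4) (nat_lit 7) (nat_lit 5) (nat_lit 7) (nat_lit 4) (nat_lit 331) (nat_lit 251) (nat_lit 138)) (XT.lf (nat_lit 0) (nat_lit 38438754731) (nat_lit 76) (nat_lit 65512623790) (nat_lit 76) (nat_lit 20256652366) (nat_lit 6) (nat_lit 4) (nat_lit 7) (nat_lit 5) (nat_lit 7) (nat_lit 4) (nat_lit 332) (nat_lit 251) (nat_lit 137)))) (XT.nd (nat_lit 156) (nat_lit 76) (nat_lit 0) (XT.nd (nat_lit 78) (nat_lit 0) (nat_lit 0) (XT.lf (nat_lit 0) (nat_lit 58111001686) (nat_lit 76) (nat_lit 58537344466) (nat_lit 76) (nat_lit 13273064061) (nat_lit 6) (nat_lit 4) (nat_lit 7) (nat_lit 5) (nat_lit 7) (nat_lit 4) (nat_lit 333) (nat_lit 251) (nat_lit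 136)) (XT.lf (nat_lit 0) (nat_lit 78760569887) (nat_lit 76) (nat_lit 51216129246) (nat_lit 76) (nat_lit 5943935526) (nat_lit 6) (nat_lit 4) (nat_lit 7) (nat_lit 5) (nat_lit 7) (nat_lit 4) (nat_lit 334) (nat_lit 251) (nat_lit 135))) (XT.nd (nat_lit 78) (nat_lit 0) (nat_lit 0) (XT.lf (nat_lit 0) (nat_lit 1692230753) (nat_lit 152) (nat_lit 41810657165) (nat_lit 76) (nat_lit 98715735475) (nat_lit 5) (nat_lit 5) (nat_lit 7) (nat_lit 5) (nat_lit 6) (nat_lit 4) (nat_lit 335) (nat_lit 251) (nat_lit 134)) (XT.nd (nat_lit 78) (nat_lit 0) (nat_lit 0) (XT.lf (nat_lit 0) (nat_lit 9507254936) (nat_lit 152) (nat_lit 25797035200) (nat_lit 76) (nat_lit 113522511704) (nat_lit 5) (nat_lit 5) (nat_lit 7) (nat_lit 5) (nat_lit 6) (nat_lit 4) (nat_lit 336) (nat_lit 251) (nat_lit 133)) (XT.lf (nat_lit 0) (nat_lit 17709987279) (nat_lit 152) (nat_lit 8988269714) (nat_lit 76) (nat_lit 129067286840) (nat_lit 5)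 (nat_lit 5) (nat_lit 7) (nat_lit 5) (nat_lit 6) (nat_lit 4) (nat_lit 337) (nat_lit 251) (nat_lit 132))))))))
noncomputable def xc147 : XT := (XT.nd (nat_lit 1404) (nat_lit 0) (nat_lit 0) (XT.nd (nat_lit 702) (nat_lit 76) (nat_lit 0) (XT.nd (nat_lit 312) (nat_lit 0) (nat_lit 0) (XT.nd (nat_lit 156) (nat_lit 0) (nat_lit 0) (XT.nd (nat_lit 78) (nat_lit 0) (nat_lit 0) (XT.lf (nat_lit 0) (nat_lit 8941855377) (nat_lit 76) (nat_lit 17517710144) (nat_lit 152) (nat_lit 136584824295) (nat_lit 4) (nat_lit 5) (nat_lit 5) (nat_lit 5) (nat_lit 6) (nat_lit 4) (nat_lit 338) (nat_lit 251) (nat_lit 131)) (XT.lf (nat_lit 0) (nat_lit 28075350331) (nat_lit 76) (nat_lit 7720651894) (nat_lit 152) (nat_lit 134883709137) (nat_lit 4) (nat_lit 5) (nat_lit 5) (nat_lit 5) (nat_lit 6) (nat_lit 4) (nat_lit 339) (nat_lit 251) (nat_lit 130))) (XT.nd (nat_lit 78) (nat_lit 0) (nat_lit 0) (XT.lf (nat_lit 0) (nat_lit 45636586502)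 (nat_lit 152) (nat_lit 130576389705) (nat_lit 0) (nat_lit 2481958627) (nat_lit 4) (nat_lit 5) (nat_lit 6) (nat_lit 4) (nat_lit 4) (nat_lit 4) (nat_lit 340) (nat_lit 251) (nat_lit 129)) (XT.lf (nat_lit 0) (nat_lit 56093157806) (nat_lit 152) (nat_lit 118078391927) (nat_lit 0) (nat_lit 12933173888) (nat_lit 4) (nat_lit 5) (nat_lit 6) (nat_lit 4) (nat_lit 4) (nat_lit 4) (nat_lit 341) (nat_lit 251) (nat_lit 128)))) (XT.nd (nat_lit 156) (nat_lit 0) (nat_lit 0) (XT.nd (nat_lit 78) (nat_lit 0) (nat_lit 0) (XT.lf (nat_lit 0) (nat_lit 67070071724) (nat_lit 152) (nat_lit 104960069547) (nat_lit 0) (nat_lit 23904986812) (nat_lit 4) (nat_lit 5) (nat_lit 6) (nat_lit 4) (nat_lit 4) (nat_lit 4) (nat_lit 342) (nat_lit 251) (nat_lit 127)) (XT.lf (nat_lit 0) (nat_lit 78593463764) (nat_lit 152) (nat_lit 91190188463) (nat_lit 0) (nat_lit 35423520763) (nat_lit 4) (nat_lit 5) (nat_lit 6) (nat_lit 4) (nat_lit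 4) (nat_lit 4) (nat_lit 343) (nat_lit 251) (nat_lit 126))) (XT.nd (nat_lit 78) (nat_lit 0) (nat_lit 0) (XT.lf (nat_lit 0) (nat_lit 90690770574) (nat_lit 152) (nat_lit 76735963244) (nat_lit 0) (nat_lit 47516200822) (nat_lit 4) (nat_lit 5) (nat_lit 6) (nat_lit 4) (nat_lit 4) (nat_lit 4) (nat_lit 344) (nat_lit 251) (nat_lit 125)) (XT.nd (nat_lit 78) (nat_lit 0) (nat_lit 0) (XT.lf (nat_lit 0) (nat_lit 103390795266) (nat_lit 152) (nat_lit 61562979069) (nat_lit 0) (nat_lit 60211819084) (nat_lit 4) (nat_lit 5) (nat_lit 6) (nat_lit 4) (nat_lit 4) (nat_lit 4) (nat_lit 345) (nat_lit 251) (nat_lit 124)) (XT.lf (nat_lit 0) (nat_lit 116723775993) (nat_lit 152) (nat_lit 45635109785) (nat_lit 0) (nat_lit 73540603212) (nat_lit 4) (nat_lit 5) (nat_lit 6) (nat_lit 4) (nat_lit 4) (nat_lit 4) (nat_lit 346) (nat_lit 251) (nat_lit 123)))))) (XT.nd (nat_lit 312) (nat_lit 0) (nat_lit 0) (XT.nd (nat_lit 156)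 (nat_lit 76) (nat_lit 0) (XT.nd (nat_lit 78) (nat_lit 0) (nat_lit 0) (XT.lf (nat_lit 0) (nat_lit 130721457949) (nat_lit 152) (nat_lit 28914431893) (nat_lit 0) (nat_lit 87534288406) (nat_lit 4) (nat_lit 5) (nat_lit 6) (nat_lit 4) (nat_lit 4) (nat_lit 4) (nat_lit 347) (nat_lit 251) (nat_lit 122)) (XT.lf (nat_lit 0) (nat_lit 145417168946) (nat_lit 152) (nat_lit 11361134256) (nat_lit 0) (nat_lit 102226192964) (nat_lit 4) (nat_lit 5) (nat_lit 6) (nat_lit 4) (nat_lit 4) (nat_lit 4) (nat_lit 348) (nat_lit 251) (nat_lit 121))) (XT.nd (nat_lit 78) (nat_lit 0) (nat_lit 0) (XT.lf (nat_lit 0) (nat_lit 7300229630) (nat_lit 76) (nat_lit 153659646187) (nat_lit 76) (nat_lit 110465045023) (nat_lit 3) (nat_lit 4) (nat_lit 4) (nat_lit 5) (nat_lit 4) (nat_lit 4) (nat_lit 349) (nat_lit 251) (nat_lit 120)) (XT.lf (nat_lit 0) (nat_lit 27285895514) (nat_lit 76) (nat_lit 150184496287) (nat_lit 76) (nat_lit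 106986442570) (nat_lit 3) (nat_lit 4) (nat_lit 4) (nat_lit 5) (nat_lit 4) (nat_lit 4) (nat_lit 350) (nat_lit 251) (nat_lit 119)))) (XT.nd (nat_lit 156) (nat_lit 0) (nat_lit 0) (XT.nd (nat_lit 78) (nat_lit 0) (nat_lit 0) (XT.lf (nat_lit 0) (nat_lit 48267797904) (nat_lit 76) (nat_lit 146536985642) (nat_lit 76) (nat_lit 103335643780) (nat_lit 3) (nat_lit 4) (nat_lit 4) (nat_lit 5) (nat_lit 4) (nat_lit 4) (nat_lit 351) (nat_lit 251) (nat_lit 118)) (XT.lf (nat_lit 0) (nat_lit 70295893713) (nat_lit 76) (nat_lit 142708429705) (nat_lit 76) (nat_lit 99503956275) (nat_lit 3) (nat_lit 4) (nat_lit 4) (nat_lit 5) (nat_lit 4) (nat_lit 4) (nat_lit 352) (nat_lit 251) (nat_lit 117))) (XT.nd (nat_lit 78) (nat_lit 0) (nat_lit 0) (XT.lf (nat_lit 0) (nat_lit 93422630787) (nat_lit 76) (nat_lit 138689712865) (nat_lit 76) (nat_lit 95482256990) (nat_lit 3) (nat_lit 4) (nat_lit 4) (nat_lit 5) (nat_lit 4) (nat_lit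 4) (nat_lit 353) (nat_lit 251) (nat_lit 116)) (XT.nd (nat_lit 78) (nat_lit 0) (nat_lit 0) (XT.lf (nat_lit 0) (nat_lit 117703072786) (nat_lit 76) (nat_lit 134471266748) (nat_lit 76) (nat_lit 91260970449) (nat_lit 3) (nat_lit 4) (nat_lit 4) (nat_lit 5) (nat_lit 4) (nat_lit 4) (nat_lit 354) (nat_lit 251) (nat_lit 115)) (XT.lf (nat_lit 0) (nat_lit 143195030285) (nat_lit 76) (nat_lit 130043047436) (nat_lit 76) (nat_lit 86830045972) (nat_lit 3) (nat_lit 4) (nat_lit 4) (nat_lit 5) (nat_lit 4) (nat_lit 4) (nat_lit 355) (nat_lit 251) (nat_lit 114))))))) (XT.nd (nat_lit 29640) (nat_lit 0) (nat_lit 5776) (XT.nd (nat_lit 312) (nat_lit 0) (nat_lit 0) (XT.nd (nat_lit 156) (nat_lit 0) (nat_lit 0) (XT.nd (nat_lit 78) (nat_lit 0) (nat_lit 0) (XT.lf (nat_lit 0) (nat_lit 169959198423) (nat_lit 76) (nat_lit 125394511550) (nat_lit 76) (nat_lit 82178933737) (nat_lit 3) (nat_lit 4) (nat_lit 4) (nat_lit 5)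 (nat_lit 4) (nat_lit 4) (nat_lit 356) (nat_lit 251) (nat_lit 113)) (XT.lf (nat_lit 0) (nat_lit 198059301409) (nat_lit 76) (nat_lit 120514591146) (nat_lit 76) (nat_lit 77296559668) (nat_lit 3) (nat_lit 4) (nat_lit 4) (nat_lit 5) (nat_lit 4) (nat_lit 4) (nat_lit 357) (nat_lit 251) (nat_lit 112))) (XT.nd (nat_lit 78) (nat_lit 0) (nat_lit 0) (XT.lf (nat_lit 0) (nat_lit 227562244249) (nat_lit 76) (nat_lit 115391667367) (nat_lit 76) (nat_lit 72171299065) (nat_lit 3) (nat_lit 4) (nat_lit 4) (nat_lit 5) (nat_lit 4) (nat_lit 4) (nat_lit 358) (nat_lit 251) (nat_lit 111)) (XT.lf (nat_lit 0) (nat_lit 258538272047) (nat_lit 76) (nat_lit 110013542775) (nat_lit 76) (nat_lit 66790948927) (nat_lit 3) (nat_lit 4) (nat_lit 4) (nat_lit 5) (nat_lit 4) (nat_lit 4) (nat_lit 359) (nat_lit 251) (nat_lit 110)))) (XT.nd (nat_lit 29094) (nat_lit 0) (nat_lit 6840) (XT.nd (nat_lit 78) (nat_lit 0) (nat_lit 0) (XT.lf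 (nat_lit 0) (nat_lit 291061137248) (nat_lit 76) (nat_lit 104367412311) (nat_lit 76) (nat_lit 61142698895) (nat_lit 3) (nat_lit 4) (nat_lit 4) (nat_lit 5) (nat_lit 4) (nat_lit 4) (nat_lit 360) (nat_lit 251) (nat_lit 109)) (XT.lf (nat_lit 0) (nat_lit 325208275247) (nat_lit 76) (nat_lit 98439832808) (nat_lit 76) (nat_lit 55213100756) (nat_lit 3) (nat_lit 4) (nat_lit 4) (nat_lit 5) (nat_lit 4) (nat_lit 4) (nat_lit 361) (nat_lit 251) (nat_lit 108))) (XT.nd (nat_lit 78) (nat_lit 0) (nat_lit 0) (XT.lf (nat_lit 0) (nat_lit 1211876947) (nat_lit 0) (nat_lit 1211876947) (nat_lit 532) (nat_lit 1652760912) (nat_lit 93) (nat_lit 5) (nat_lit 93) (nat_lit 3) (nat_lit 100) (nat_lit 3) (nat_lit 252) (nat_lit 252) (nat_lit 216)) (XT.nd (nat_lit 78) (nat_lit 0) (nat_lit 0) (XT.lf (nat_lit 0) (nat_lit 6021886234) (nat_lit 532) (nat_lit 2129193066) (nat_lit 608) (nat_lit 149508228) (nat_lit 93) (nat_lit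 5) (nat_lit 100) (nat_lit 3) (nat_lit 101) (nat_lit 5) (nat_lit 253) (nat_lit 252) (nat_lit 215)) (XT.lf (nat_lit 76) (nat_lit 1625433361) (nat_lit 0) (nat_lit 5627923559) (nat_lit 608) (nat_lit 1202478726) (nat_lit 94) (nat_lit 5) (nat_lit 93) (nat_lit 5) (nat_lit 101) (nat_lit 5) (nat_lit 254) (nat_lit 252) (nat_lit 214)))))) (XT.nd (nat_lit 390) (nat_lit 456) (nat_lit 0) (XT.nd (nat_lit 156) (nat_lit 0) (nat_lit 76) (XT.nd (nat_lit 78) (nat_lit 608) (nat_lit 0) (XT.lf (nat_lit 76) (nat_lit 5604570059) (nat_lit 0) (nat_lit 2913750186) (nat_lit 608) (nat_lit 102149947) (nat_lit 94) (nat_lit 5) (nat_lit 93) (nat_lit 5) (nat_lit 101) (nat_lit 5) (nat_lit 255) (nat_lit 252) (nat_lit 213)) (XT.lf (nat_lit 76) (nat_lit 966175162) (nat_lit 0) (nat_lit 6106250) (nat_lit 684) (nat_lit 7822792663) (nat_lit 86) (nat_lit 5) (nat_lit 85) (nat_lit 5) (nat_lit 94) (nat_lit 5) (nat_lit 256) (nat_lit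 252) (nat_lit 212))) (XT.nd (nat_lit 78) (nat_lit 0) (nat_lit 0) (XT.lf (nat_lit 0) (nat_lit 2136940967) (nat_lit 608) (nat_lit 3814445325) (nat_lit 684) (nat_lit 3025131179) (nat_lit 86) (nat_lit 5) (nat_lit 94) (nat_lit 5) (nat_lit 95) (nat_lit 5) (nat_lit 257) (nat_lit 252) (nat_lit 211)) (XT.nd (nat_lit 78) (nat_lit 0) (nat_lit 76) (XT.lf (nat_lit 76) (nat_lit 373964251) (nat_lit 0) (nat_lit 2935098970) (nat_lit 684) (nat_lit 5860689305) (nat_lit 87) (nat_lit 5) (nat_lit 86) (nat_lit 5) (nat_lit 95) (nat_lit 5) (nat_lit 258) (nat_lit 252) (nat_lit 210)) (XT.lf (nat_lit 0) (nat_lit 4554729229) (nat_lit 608) (nat_lit 4511051438) (nat_lit 684) (nat_lit 306294142) (nat_lit 87) (nat_lit 5) (nat_lit 95) (nat_lit 5) (nat_lit 96) (nat_lit 5) (nat_lit 259) (nat_lit 252) (nat_lit 209))))) (XT.nd (nat_lit 156) (nat_lit 608) (nat_lit 0) (XT.nd (nat_lit 78) (nat_lit 0) (nat_lit 0) (XT.lf (nat_lit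 0) (nat_lit 5859039622) (nat_lit 608) (nat_lit 99407555) (nat_lit 684) (nat_lit 3626412126) (nat_lit 87) (nat_lit 5) (nat_lit 95) (nat_lit 5) (nat_lit 96) (nat_lit 5) (nat_lit 260) (nat_lit 252) (nat_lit 208)) (XT.lf (nat_lit 76) (nat_lit 4644113027) (nat_lit 0) (nat_lit 2607669372) (nat_lit 684) (nat_lit 2555496111) (nat_lit 88) (nat_lit 5) (nat_lit 87) (nat_lit 5) (nat_lit 96) (nat_lit 5) (nat_lit 261) (nat_lit 252) (nat_lit 207))) (XT.nd (nat_lit 78) (nat_lit 684) (nat_lit 0) (XT.lf (nat_lit 0) (nat_lit 8682742141) (nat_lit 608) (nat_lit 466155728) (nat_lit 76) (nat_lit 893640707) (nat_lit 88) (nat_lit 5) (nat_lit 96) (nat_lit 5) (nat_lit 89) (nat_lit 5) (nat_lit 262) (nat_lit 252) (nat_lit 206)) (XT.nd (nat_lit 78) (nat_lit 76) (nat_lit 0) (XT.lf (nat_lit 0) (nat_lit 4530398094) (nat_lit 608) (nat_lit 5723238338) (nat_lit 684) (nat_lit 32647685) (nat_lit 80) (nat_lit 5) (nat_lit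 88) (nat_lit 5) (nat_lit 89) (nat_lit 5) (nat_lit 263) (nat_lit 252) (nat_lit 205)) (XT.lf (nat_lit 0) (nat_lit 1280958373) (nat_lit 684) (nat_lit 808783574) (nat_lit 76) (nat_lit 8453358470) (nat_lit 79) (nat_lit 5) (nat_lit 88) (nat_lit 5) (nat_lit 80) (nat_lit 5) (nat_lit 264) (nat_lit 252) (nat_lit 204))))))))
noncomputable def xc148 : XT := (XT.nd (nat_lit 1404) (nat_lit 1444) (nat_lit 0) (XT.nd (nat_lit 702) (nat_lit 1064) (nat_lit 0) (XT.nd (nat_lit 312) (nat_lit 1064) (nat_lit 0) (XT.nd (nat_lit 156) (nat_lit 380) (nat_lit 0) (XT.nd (nat_lit 78) (nat_lit 0) (nat_lit 0) (XT.lf (nat_lit 0) (nat_lit 2715211940) (nat_lit 760) (nat_lit 6347438681) (nat_lit 76) (nat_lit 1747399423) (nat_lit 70) (nat_lit 5) (nat_lit 80) (nat_lit 5) (nat_lit 71) (nat_lit 5) (nat_lit 265) (nat_lit 252) (nat_lit 203)) (XT.lf (nat_lit 0) (nat_lit 4228623934) (nat_lit 760) (nat_lit 1136840722) (nat_lit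 76) (nat_lit 5724626866) (nat_lit 70) (nat_lit 5) (nat_lit 80) (nat_lit 5) (nat_lit 71) (nat_lit 5) (nat_lit 266) (nat_lit 252) (nat_lit 202))) (XT.nd (nat_lit 78) (nat_lit 0) (nat_lit 0) (XT.lf (nat_lit 0) (nat_lit 4439865798) (nat_lit 380) (nat_lit 1408365192) (nat_lit 456) (nat_lit 5534488967) (nat_lit 65) (nat_lit 5) (nat_lit 70) (nat_lit 5) (nat_lit 71) (nat_lit 5) (nat_lit 267) (nat_lit 252) (nat_lit 201)) (XT.lf (nat_lit 0) (nat_lit 7573785478) (nat_lit 456) (nat_lit 1435279974) (nat_lit 76) (nat_lit 2679771819) (nat_lit 65) (nat_lit 5) (nat_lit 71) (nat_lit 5) (nat_lit 66) (nat_lit 5) (nat_lit 268) (nat_lit 252) (nat_lit 200)))) (XT.nd (nat_lit 156) (nat_lit 684) (nat_lit 0) (XT.nd (nat_lit 78) (nat_lit 0) (nat_lit 0) (XT.lf (nat_lit 0) (nat_lit 4430245814) (nat_lit 380) (nat_lit 5011929861) (nat_lit 456) (nat_lit 2565357649) (nat_lit 60) (nat_lit 5) (nat_lit 65) (nat_lit 5)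 (nat_lit 66) (nat_lit 5) (nat_lit 269) (nat_lit 252) (nat_lit 199)) (XT.lf (nat_lit 0) (nat_lit 10603325704) (nat_lit 380) (nat_lit 790413184) (nat_lit 456) (nat_lit 949033593) (nat_lit 60) (nat_lit 5) (nat_lit 65) (nat_lit 5) (nat_lit 66) (nat_lit 5) (nat_lit 270) (nat_lit 252) (nat_lit 198))) (XT.nd (nat_lit 78) (nat_lit 304) (nat_lit 0) (XT.lf (nat_lit 0) (nat_lit 818864527) (nat_lit 380) (nat_lit 8263462931) (nat_lit 76) (nat_lit 3607214090) (nat_lit 55) (nat_lit 5) (nat_lit 60) (nat_lit 5) (nat_lit 56) (nat_lit 5) (nat_lit 271) (nat_lit 252) (nat_lit 197)) (XT.nd (nat_lit 78) (nat_lit 304) (nat_lit 0) (XT.lf (nat_lit 0) (nat_lit 2653653567) (nat_lit 380) (nat_lit 2157069464) (nat_lit 76) (nat_lit 8241711560) (nat_lit 55) (nat_lit 5) (nat_lit 60) (nat_lit 5) (nat_lit 56) (nat_lit 5) (nat_lit 272) (nat_lit 252) (nat_lit 196)) (XT.lf (nat_lit 0) (nat_lit 4359739896) (nat_lit 304)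 (nat_lit 257548848) (nat_lit 380) (nat_lit 8814407167) (nat_lit 51) (nat_lit 5) (nat_lit 55) (nat_lit 5) (nat_lit 56) (nat_lit 5) (nat_lit 273) (nat_lit 252) (nat_lit 195)))))) (XT.nd (nat_lit 312) (nat_lit 532) (nat_lit 0) (XT.nd (nat_lit 156) (nat_lit 304) (nat_lit 0) (XT.nd (nat_lit 78) (nat_lit 228) (nat_lit 0) (XT.lf (nat_lit 0) (nat_lit 6756780456) (nat_lit 380) (nat_lit 2657438151) (nat_lit 76) (nat_lit 4411893151) (nat_lit 51) (nat_lit 5) (nat_lit 56) (nat_lit 5) (nat_lit 52) (nat_lit 5) (nat_lit 274) (nat_lit 252) (nat_lit 194)) (XT.lf (nat_lit 0) (nat_lit 4173442870) (nat_lit 228) (nat_lit 4870541084) (nat_lit 304) (nat_lit 5194299200) (nat_lit 48) (nat_lit 5) (nat_lit 51) (nat_lit 5) (nat_lit 52) (nat_lit 5) (nat_lit 275) (nat_lit 252) (nat_lit 193))) (XT.nd (nat_lit 78) (nat_lit 304) (nat_lit 0) (XT.lf (nat_lit 0) (nat_lit 11404955157) (nat_lit 228) (nat_lit 57799502) (nat_lit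 304) (nat_lit 3207516317) (nat_lit 48) (nat_lit 5) (nat_lit 51) (nat_lit 5) (nat_lit 52) (nat_lit 5) (nat_lit 276) (nat_lit 252) (nat_lit 192)) (XT.lf (nat_lit 0) (nat_lit 3887719045) (nat_lit 304) (nat_lit 10226883854) (nat_lit 380) (nat_lit 1003713301) (nat_lit 44) (nat_lit 5) (nat_lit 48) (nat_lit 5) (nat_lit 49) (nat_lit 5) (nat_lit 277) (nat_lit 252) (nat_lit 191)))) (XT.nd (nat_lit 156) (nat_lit 228) (nat_lit 0) (XT.nd (nat_lit 78) (nat_lit 228) (nat_lit 0) (XT.lf (nat_lit 0) (nat_lit 1299218653) (nat_lit 380) (nat_lit 4129839104) (nat_lit 76) (nat_lit 10157198195) (nat_lit 43) (nat_lit 5) (nat_lit 48) (nat_lit 5) (nat_lit 44) (nat_lit 5) (nat_lit 278) (nat_lit 252) (nat_lit 190)) (XT.lf (nat_lit 0) (nat_lit 3386167492) (nat_lit 228) (nat_lit 325239394) (nat_lit 304) (nat_lit 12364027153) (nat_lit 40) (nat_lit 5) (nat_lit 43) (nat_lit 5) (nat_lit 44) (nat_lit 5) (nat_lit 279)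 (nat_lit 252) (nat_lit 189))) (XT.nd (nat_lit 78) (nat_lit 228) (nat_lit 0) (XT.lf (nat_lit 0) (nat_lit 6369453816) (nat_lit 304) (nat_lit 5276322869) (nat_lit 76) (nat_lit 4937085323) (nat_lit 40) (nat_lit 5) (nat_lit 44) (nat_lit 5) (nat_lit 41) (nat_lit 5) (nat_lit 280) (nat_lit 252) (nat_lit 188)) (XT.nd (nat_lit 78) (nat_lit 0) (nat_lit 0) (XT.lf (nat_lit 0) (nat_lit 2552819350) (nat_lit 228) (nat_lit 6629506139) (nat_lit 304) (nat_lit 7932290665) (nat_lit 37) (nat_lit 5) (nat_lit 40) (nat_lit 5) (nat_lit 41) (nat_lit 5) (nat_lit 281) (nat_lit 252) (nat_lit 187)) (XT.lf (nat_lit 0) (nat_lit 10926274831) (nat_lit 228) (nat_lit 1276291369) (nat_lit 304) (nat_lit 5467104007) (nat_lit 37) (nat_lit 5) (nat_lit 40) (nat_lit 5) (nat_lit 41) (nat_lit 5) (nat_lit 282) (nat_lit 252) (nat_lit 186))))))) (XT.nd (nat_lit 702) (nat_lit 608) (nat_lit 0) (XT.nd (nat_lit 312) (nat_lit 380) (nat_lit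 0) (XT.nd (nat_lit 156) (nat_lit 228) (nat_lit 0) (XT.nd (nat_lit 78) (nat_lit 76) (nat_lit 0) (XT.lf (nat_lit 0) (nat_lit 1413442752) (nat_lit 152) (nat_lit 14028606796) (nat_lit 228) (nat_lit 2807062052) (nat_lit 35) (nat_lit 5) (nat_lit 37) (nat_lit 5) (nat_lit 38) (nat_lit 5) (nat_lit 283) (nat_lit 252) (nat_lit 185)) (XT.lf (nat_lit 0) (nat_lit 101944249) (nat_lit 228) (nat_lit 8692314152) (nat_lit 76) (nat_lit 10057543798) (nat_lit 34) (nat_lit 5) (nat_lit 37) (nat_lit 5) (nat_lit 35) (nat_lit 5) (nat_lit 284) (nat_lit 252) (nat_lit 184))) (XT.nd (nat_lit 78) (nat_lit 228) (nat_lit 0) (XT.lf (nat_lit 0) (nat_lit 3041604165) (nat_lit 228) (nat_lit 216534224) (nat_lit 76) (nat_lit 16225250999) (nat_lit 34) (nat_lit 5) (nat_lit 37) (nat_lit 5) (nat_lit 35) (nat_lit 5) (nat_lit 285) (nat_lit 252) (nat_lit 183)) (XT.lf (nat_lit 0) (nat_lit 6290421265) (nat_lit 304) (nat_lit 11240767776)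 (nat_lit 76) (nat_lit 2607296167) (nat_lit 31) (nat_lit 5) (nat_lit 35) (nat_lit 5) (nat_lit 32) (nat_lit 5) (nat_lit 286) (nat_lit 252) (nat_lit 182)))) (XT.nd (nat_lit 156) (nat_lit 228) (nat_lit 0) (XT.nd (nat_lit 78) (nat_lit 152) (nat_lit 0) (XT.lf (nat_lit 0) (nat_lit 9739715660) (nat_lit 304) (nat_lit 2432202619) (nat_lit 76) (nat_lit 8652551890) (nat_lit 31) (nat_lit 5) (nat_lit 35) (nat_lit 5) (nat_lit 32) (nat_lit 5) (nat_lit 287) (nat_lit 252) (nat_lit 181)) (XT.lf (nat_lit 0) (nat_lit 7014855516) (nat_lit 152) (nat_lit 6437947582) (nat_lit 228) (nat_lit 8087419314) (nat_lit 29) (nat_lit 5) (nat_lit 31) (nat_lit 5) (nat_lit 32) (nat_lit 5) (nat_lit 288) (nat_lit 252) (nat_lit 180))) (XT.nd (nat_lit 78) (nat_lit 228) (nat_lit 0) (XT.lf (nat_lit 0) (nat_lit 16992679362) (nat_lit 152) (nat_lit 382322821) (nat_lit 228) (nat_lit 4915620028) (nat_lit 29) (nat_lit 5) (nat_lit 31)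 (nat_lit 5) (nat_lit 32) (nat_lit 5) (nat_lit 289) (nat_lit 252) (nat_lit 179)) (XT.nd (nat_lit 78) (nat_lit 76) (nat_lit 0) (XT.lf (nat_lit 0) (nat_lit 4413260165) (nat_lit 152) (nat_lit 17225245676) (nat_lit 228) (nat_lit 1432807676) (nat_lit 27) (nat_lit 5) (nat_lit 29) (nat_lit 5) (nat_lit 30) (nat_lit 5) (nat_lit 290) (nat_lit 252) (nat_lit 178)) (XT.lf (nat_lit 0) (nat_lit 2233525219) (nat_lit 228) (nat_lit 9160776625) (nat_lit 76) (nat_lit 12491001304) (nat_lit 26) (nat_lit 5) (nat_lit 29) (nat_lit 5) (nat_lit 27) (nat_lit 5) (nat_lit 291) (nat_lit 252) (nat_lit 177)))))) (XT.nd (nat_lit 312) (nat_lit 304) (nat_lit 0) (XT.nd (nat_lit 156) (nat_lit 152) (nat_lit 0) (XT.nd (nat_lit 78) (nat_lit 0) (nat_lit 0) (XT.lf (nat_lit 0) (nat_lit 788625030) (nat_lit 152) (nat_lit 5242619957) (nat_lit 228) (nat_lit 18707788737) (nat_lit 24) (nat_lit 5) (nat_lit 26) (nat_lit 5) (nat_lit 27)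 (nat_lit 5) (nat_lit 292) (nat_lit 252) (nat_lit 176)) (XT.lf (nat_lit 0) (nat_lit 10179699749) (nat_lit 228) (nat_lit 14120469866) (nat_lit 76) (nat_lit 1327264470) (nat_lit 24) (nat_lit 5) (nat_lit 27) (nat_lit 5) (nat_lit 25) (nat_lit 5) (nat_lit 293) (nat_lit 252) (nat_lit 175))) (XT.nd (nat_lit 78) (nat_lit 152) (nat_lit 0) (XT.lf (nat_lit 0) (nat_lit 14606443982) (nat_lit 228) (nat_lit 3908574710) (nat_lit 76) (nat_lit 8041716916) (nat_lit 24) (nat_lit 5) (nat_lit 27) (nat_lit 5) (nat_lit 25) (nat_lit 5) (nat_lit 294) (nat_lit 252) (nat_lit 174)) (XT.lf (nat_lit 0) (nat_lit 7015998567) (nat_lit 152) (nat_lit 12333706397) (nat_lit 228) (nat_lit 8178061585) (nat_lit 22) (nat_lit 5) (nat_lit 24) (nat_lit 5) (nat_lit 25) (nat_lit 5) (nat_lit 295) (nat_lit 252) (nat_lit 173)))) (XT.nd (nat_lit 156) (nat_lit 152) (nat_lit 0) (XT.nd (nat_lit 78) (nat_lit 152) (nat_lit 0) (XT.lf (nat_lit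 0) (nat_lit 18600387451) (nat_lit 152) (nat_lit 5781913891) (nat_lit 228) (nat_lit 4162461285) (nat_lit 22) (nat_lit 5) (nat_lit 24) (nat_lit 5) (nat_lit 25) (nat_lit 5) (nat_lit 296) (nat_lit 252) (nat_lit 172)) (XT.lf (nat_lit 0) (nat_lit 74133314) (nat_lit 152) (nat_lit 28463329497) (nat_lit 76) (nat_lit 1074026746) (nat_lit 20) (nat_lit 5) (nat_lit 22) (nat_lit 5) (nat_lit 21) (nat_lit 5) (nat_lit 297) (nat_lit 252) (nat_lit 171))) (XT.nd (nat_lit 78) (nat_lit 152) (nat_lit 0) (XT.lf (nat_lit 0) (nat_lit 4635231055) (nat_lit 152) (nat_lit 17770086376) (nat_lit 76) (nat_lit 8310214761) (nat_lit 20) (nat_lit 5) (nat_lit 22) (nat_lit 5) (nat_lit 21) (nat_lit 5) (nat_lit 298) (nat_lit 252) (nat_lit 170)) (XT.nd (nat_lit 78) (nat_lit 152) (nat_lit 0) (XT.lf (nat_lit 0) (nat_lit 9411622026) (nat_lit 152) (nat_lit 6562884990) (nat_lit 76) (nat_lit 15900926294) (nat_lit 20) (nat_lit 5)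 (nat_lit 22) (nat_lit 5) (nat_lit 21) (nat_lit 5) (nat_lit 299) (nat_lit 252) (nat_lit 169)) (XT.lf (nat_lit 0) (nat_lit 5356396617) (nat_lit 152) (nat_lit 9141910333) (nat_lit 228) (nat_lit 18591466215) (nat_lit 18) (nat_lit 5) (nat_lit 20) (nat_lit 5) (nat_lit 21) (nat_lit 5) (nat_lit 300) (nat_lit 252) (nat_lit 168))))))))
noncomputable def xc149 : XT := (XT.nd (nat_lit 1404) (nat_lit 380) (nat_lit 0) (XT.nd (nat_lit 702) (nat_lit 228) (nat_lit 0) (XT.nd (nat_lit 312) (nat_lit 228) (nat_lit 0) (XT.nd (nat_lit 156) (nat_lit 152) (nat_lit 0) (XT.nd (nat_lit 78) (nat_lit 0) (nat_lit 0) (XT.lf (nat_lit 0) (nat_lit 18080090894) (nat_lit 152) (nat_lit 1858502773) (nat_lit 228) (nat_lit 14421289539) (nat_lit 18) (nat_lit 5) (nat_lit 20) (nat_lit 5) (nat_lit 21) (nat_lit 5) (nat_lit 301) (nat_lit 252) (nat_lit 167)) (XT.lf (nat_lit 0) (nat_lit 25729854100) (nat_lit 228) (nat_lit 4362858261)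 (nat_lit 76) (nat_lit 5596854201) (nat_lit 18) (nat_lit 5) (nat_lit 21) (nat_lit 5) (nat_lit 19) (nat_lit 4) (nat_lit 302) (nat_lit 252) (nat_lit 166))) (XT.nd (nat_lit 78) (nat_lit 76) (nat_lit 0) (XT.lf (nat_lit 0) (nat_lit 8369280957) (nat_lit 76) (nat_lit 23591651491) (nat_lit 152) (nat_lit 5117303922) (nat_lit 17) (nat_lit 5) (nat_lit 18) (nat_lit 5) (nat_lit 19) (nat_lit 4) (nat_lit 303) (nat_lit 252) (nat_lit 165)) (XT.lf (nat_lit 0) (nat_lit 32544805) (nat_lit 152) (nat_lit 16661973298) (nat_lit 76) (nat_lit 21838647247) (nat_lit 16) (nat_lit 5) (nat_lit 18) (nat_lit 5) (nat_lit 17) (nat_lit 5) (nat_lit 304) (nat_lit 252) (nat_lit 164)))) (XT.nd (nat_lit 156) (nat_lit 76) (nat_lit 0) (XT.nd (nat_lit 78) (nat_lit 152) (nat_lit 0) (XT.lf (nat_lit 0) (nat_lit 5257598979) (nat_lit 152) (nat_lit 4113793401) (nat_lit 76) (nat_lit 30685782471) (nat_lit 16) (nat_lit 5) (nat_lit 18)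 (nat_lit 5) (nat_lit 17) (nat_lit 5) (nat_lit 305) (nat_lit 252) (nat_lit 163)) (XT.lf (nat_lit 0) (nat_lit 9344436680) (nat_lit 152) (nat_lit 1535541053) (nat_lit 228) (nat_lit 30770615867) (nat_lit 14) (nat_lit 5) (nat_lit 16) (nat_lit 5) (nat_lit 17) (nat_lit 5) (nat_lit 306) (nat_lit 252) (nat_lit 162))) (XT.nd (nat_lit 78) (nat_lit 76) (nat_lit 0) (XT.lf (nat_lit 0) (nat_lit 16949060727) (nat_lit 228) (nat_lit 19823988058) (nat_lit 76) (nat_lit 6542367013) (nat_lit 14) (nat_lit 5) (nat_lit 17) (nat_lit 5) (nat_lit 15) (nat_lit 4) (nat_lit 307) (nat_lit 252) (nat_lit 161)) (XT.nd (nat_lit 78) (nat_lit 76) (nat_lit 0) (XT.lf (nat_lit 0) (nat_lit 23337524602) (nat_lit 228) (nat_lit 6758658331) (nat_lit 76) (nat_lit 14966511052) (nat_lit 14) (nat_lit 5) (nat_lit 17) (nat_lit 5) (nat_lit 15) (nat_lit 4) (nat_lit 308) (nat_lit 252) (nat_lit 160)) (XT.lf (nat_lit 0) (nat_lit 7174544517)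 (nat_lit 76) (nat_lit 22974076116) (nat_lit 152) (nat_lit 16743565682) (nat_lit 13) (nat_lit 5) (nat_lit 14) (nat_lit 5) (nat_lit 15) (nat_lit 4) (nat_lit 309) (nat_lit 252) (nat_lit 159)))))) (XT.nd (nat_lit 312) (nat_lit 76) (nat_lit 0) (XT.nd (nat_lit 156) (nat_lit 152) (nat_lit 0) (XT.nd (nat_lit 78) (nat_lit 0) (nat_lit 0) (XT.lf (nat_lit 0) (nat_lit 22024271585) (nat_lit 76) (nat_lit 15381843792) (nat_lit 152) (nat_lit 11401755861) (nat_lit 13) (nat_lit 5) (nat_lit 14) (nat_lit 5) (nat_lit 15) (nat_lit 4) (nat_lit 310) (nat_lit 252) (nat_lit 158)) (XT.lf (nat_lit 0) (nat_lit 37602407598) (nat_lit 76) (nat_lit 7415870368) (nat_lit 152) (nat_lit 5801482476) (nat_lit 13) (nat_lit 5) (nat_lit 14) (nat_lit 5) (nat_lit 15) (nat_lit 4) (nat_lit 311) (nat_lit 252) (nat_lit 157))) (XT.nd (nat_lit 78) (nat_lit 0) (nat_lit 0) (XT.lf (nat_lit 0) (nat_lit 99662206) (nat_lit 152) (nat_lit 51901010062)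 (nat_lit 76) (nat_lit 930350114) (nat_lit 11) (nat_lit 5) (nat_lit 13) (nat_lit 5) (nat_lit 12) (nat_lit 4) (nat_lit 312) (nat_lit 252) (nat_lit 156)) (XT.lf (nat_lit 0) (nat_lit 6442106592) (nat_lit 152) (nat_lit 38922147578) (nat_lit 76) (nat_lit 9761785787) (nat_lit 11) (nat_lit 5) (nat_lit 13) (nat_lit 5) (nat_lit 12) (nat_lit 4) (nat_lit 313) (nat_lit 252) (nat_lit 155)))) (XT.nd (nat_lit 156) (nat_lit 76) (nat_lit 0) (XT.nd (nat_lit 78) (nat_lit 0) (nat_lit 0) (XT.lf (nat_lit 0) (nat_lit 13094174977) (nat_lit 152) (nat_lit 25307453589) (nat_lit 76) (nat_lit 19029562729) (nat_lit 11) (nat_lit 5) (nat_lit 13) (nat_lit 5) (nat_lit 12) (nat_lit 4) (nat_lit 314) (nat_lit 252) (nat_lit 154)) (XT.lf (nat_lit 0) (nat_lit 20071705617) (nat_lit 152) (nat_lit 11024512158) (nat_lit 76) (nat_lit 28755747074) (nat_lit 11) (nat_lit 5) (nat_lit 13) (nat_lit 5) (nat_lit 12) (nat_lit 4) (nat_lit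 315) (nat_lit 252) (nat_lit 153))) (XT.nd (nat_lit 78) (nat_lit 0) (nat_lit 0) (XT.lf (nat_lit 0) (nat_lit 4091641810) (nat_lit 76) (nat_lit 23363551866) (nat_lit 152) (nat_lit 34935736590) (nat_lit 10) (nat_lit 5) (nat_lit 11) (nat_lit 5) (nat_lit 12) (nat_lit 4) (nat_lit 316) (nat_lit 252) (nat_lit 152)) (XT.nd (nat_lit 78) (nat_lit 0) (nat_lit 0) (XT.lf (nat_lit 0) (nat_lit 20334648836) (nat_lit 76) (nat_lit 15053252821) (nat_lit 152) (nat_lit 29659946906) (nat_lit 10) (nat_lit 5) (nat_lit 11) (nat_lit 5) (nat_lit 12) (nat_lit 4) (nat_lit 317) (nat_lit 252) (nat_lit 151)) (XT.lf (nat_lit 0) (nat_lit 37378662586) (nat_lit 76) (nat_lit 6332239662) (nat_lit 152) (nat_lit 24127034223) (nat_lit 10) (nat_lit 5) (nat_lit 11) (nat_lit 5) (nat_lit 12) (nat_lit 4) (nat_lit 318) (nat_lit 252) (nat_lit 150))))))) (XT.nd (nat_lit 702) (nat_lit 152) (nat_lit 0) (XT.nd (nat_lit 312) (nat_lit 76)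 (nat_lit 0) (XT.nd (nat_lit 156) (nat_lit 152) (nat_lit 0) (XT.nd (nat_lit 78) (nat_lit 0) (nat_lit 0) (XT.lf (nat_lit 0) (nat_lit 52488044155) (nat_lit 152) (nat_lit 15547605050) (nat_lit 0) (nat_lit 2729986252) (nat_lit 10) (nat_lit 5) (nat_lit 12) (nat_lit 4) (nat_lit 10) (nat_lit 4) (nat_lit 319) (nat_lit 252) (nat_lit 149)) (XT.lf (nat_lit 0) (nat_lit 61802029281) (nat_lit 152) (nat_lit 4493196) (nat_lit 0) (nat_lit 12028303556) (nat_lit 10) (nat_lit 5) (nat_lit 12) (nat_lit 4) (nat_lit 10) (nat_lit 4) (nat_lit 320) (nat_lit 252) (nat_lit 148))) (XT.nd (nat_lit 78) (nat_lit 76) (nat_lit 0) (XT.lf (nat_lit 0) (nat_lit 16845080880) (nat_lit 76) (nat_lit 54994087816) (nat_lit 76) (nat_lit 5205440356) (nat_lit 9) (nat_lit 4) (nat_lit 10) (nat_lit 5) (nat_lit 10) (nat_lit 4) (nat_lit 321) (nat_lit 252) (nat_lit 147)) (XT.lf (nat_lit 0) (nat_lit 1894998538) (nat_lit 152) (nat_lit 45918111632)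 (nat_lit 76) (nat_lit 32600515970) (nat_lit 8) (nat_lit 5) (nat_lit 10) (nat_lit 5) (nat_lit 9) (nat_lit 4) (nat_lit 322) (nat_lit 252) (nat_lit 146)))) (XT.nd (nat_lit 156) (nat_lit 76) (nat_lit 0) (XT.nd (nat_lit 78) (nat_lit 0) (nat_lit 0) (XT.lf (nat_lit 0) (nat_lit 9170260239) (nat_lit 152) (nat_lit 31017359600) (nat_lit 76) (nat_lit 43759475494) (nat_lit 8) (nat_lit 5) (nat_lit 10) (nat_lit 5) (nat_lit 9) (nat_lit 4) (nat_lit 323) (nat_lit 252) (nat_lit 145)) (XT.lf (nat_lit 0) (nat_lit 16804273397) (nat_lit 152) (nat_lit 15380522582) (nat_lit 76) (nat_lit 55472697247) (nat_lit 8) (nat_lit 5) (nat_lit 10) (nat_lit 5) (nat_lit 9) (nat_lit 4) (nat_lit 324) (nat_lit 252) (nat_lit 144))) (XT.nd (nat_lit 78) (nat_lit 0) (nat_lit 0) (XT.lf (nat_lit 0) (nat_lit 1063674203) (nat_lit 76) (nat_lit 23768146967) (nat_lit 152) (nat_lit 66721002585) (nat_lit 7) (nat_lit 5) (nat_lit 8) (nat_lit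 5) (nat_lit 9) (nat_lit 4) (nat_lit 325) (nat_lit 252) (nat_lit 143)) (XT.nd (nat_lit 78) (nat_lit 0) (nat_lit 0) (XT.lf (nat_lit 0) (nat_lit 18855669061) (nat_lit 76) (nat_lit 14660877195) (nat_lit 152) (nat_lit 62113588784) (nat_lit 7) (nat_lit 5) (nat_lit 8) (nat_lit 5) (nat_lit 9) (nat_lit 4) (nat_lit 326) (nat_lit 252) (nat_lit 142)) (XT.lf (nat_lit 0) (nat_lit 37529274348) (nat_lit 76) (nat_lit 5101779282) (nat_lit 152) (nat_lit 57280484985) (nat_lit 7) (nat_lit 5) (nat_lit 8) (nat_lit 5) (nat_lit 9) (nat_lit 4) (nat_lit 327) (nat_lit 252) (nat_lit 141)))))) (XT.nd (nat_lit 312) (nat_lit 76) (nat_lit 0) (XT.nd (nat_lit 156) (nat_lit 76) (nat_lit 0) (XT.nd (nat_lit 78) (nat_lit 0) (nat_lit 0) (XT.lf (nat_lit 0) (nat_lit 52274045381) (nat_lit 152) (nat_lit 47355278151) (nat_lit 0) (nat_lit 4774054720) (nat_lit 7) (nat_lit 5) (nat_lit 9) (nat_lit 4) (nat_lit 7) (nat_lit 4) (nat_lit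 328) (nat_lit 252) (nat_lit 140)) (XT.lf (nat_lit 0) (nat_lit 62478732500) (nat_lit 152) (nat_lit 31667980579) (nat_lit 0) (nat_lit 14969123155) (nat_lit 7) (nat_lit 5) (nat_lit 9) (nat_lit 4) (nat_lit 7) (nat_lit 4) (nat_lit 329) (nat_lit 252) (nat_lit 139))) (XT.nd (nat_lit 78) (nat_lit 76) (nat_lit 0) (XT.lf (nat_lit 0) (nat_lit 73189758788) (nat_lit 152) (nat_lit 15203367769) (nat_lit 0) (nat_lit 25670988793) (nat_lit 7) (nat_lit 5) (nat_lit 9) (nat_lit 4) (nat_lit 7) (nat_lit 4) (nat_lit 330) (nat_lit 252) (nat_lit 138)) (XT.lf (nat_lit 0) (nat_lit 2146461921) (nat_lit 76) (nat_lit 82319677056) (nat_lit 76) (nat_lit 34792182631) (nat_lit 6) (nat_lit 4) (nat_lit 7) (nat_lit 5) (nat_lit 7) (nat_lit 4) (nat_lit 331) (nat_lit 252) (nat_lit 137)))) (XT.nd (nat_lit 156) (nat_lit 76) (nat_lit 0) (XT.nd (nat_lit 78) (nat_lit 0) (nat_lit 0) (XT.lf (nat_lit 0) (nat_lit 20885004040) (nat_lit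 76) (nat_lit 75675174343) (nat_lit 76) (nat_lit 28139370937) (nat_lit 6) (nat_lit 4) (nat_lit 7) (nat_lit 5) (nat_lit 7) (nat_lit 4) (nat_lit 332) (nat_lit 252) (nat_lit 136)) (XT.lf (nat_lit 0) (nat_lit 40554182164) (nat_lit 76) (nat_lit 68701274565) (nat_lit 76) (nat_lit 21157557844) (nat_lit 6) (nat_lit 4) (nat_lit 7) (nat_lit 5) (nat_lit 7) (nat_lit 4) (nat_lit 333) (nat_lit 252) (nat_lit 135))) (XT.nd (nat_lit 78) (nat_lit 76) (nat_lit 0) (XT.lf (nat_lit 0) (nat_lit 61200827671) (nat_lit 76) (nat_lit 61381373199) (nat_lit 76) (nat_lit 13830119988) (nat_lit 6) (nat_lit 4) (nat_lit 7) (nat_lit 5) (nat_lit 7) (nat_lit 4) (nat_lit 334) (nat_lit 252) (nat_lit 134)) (XT.nd (nat_lit 78) (nat_lit 76) (nat_lit 0) (XT.lf (nat_lit 0) (nat_lit 82874099240) (nat_lit 76) (nat_lit 53698041907) (nat_lit 76) (nat_lit 6139611087) (nat_lit 6) (nat_lit 4) (nat_lit 7) (nat_lit 5) (nat_lit 7) (nat_lit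 4) (nat_lit 335) (nat_lit 252) (nat_lit 133)) (XT.lf (nat_lit 0) (nat_lit 1870434579) (nat_lit 152) (nat_lit 43730875752) (nat_lit 76) (nat_lit 103723488604) (nat_lit 5) (nat_lit 5) (nat_lit 7) (nat_lit 5) (nat_lit 6) (nat_lit 4) (nat_lit 336) (nat_lit 252) (nat_lit 132))))))))
noncomputable def xc150 : XT := (XT.nd (nat_lit 1404) (nat_lit 0) (nat_lit 0) (XT.nd (nat_lit 702) (nat_lit 76) (nat_lit 0) (XT.nd (nat_lit 312) (nat_lit 0) (nat_lit 0) (XT.nd (nat_lit 156) (nat_lit 76) (nat_lit 0) (XT.nd (nat_lit 78) (nat_lit 0) (nat_lit 0) (XT.lf (nat_lit 0) (nat_lit 10071753195) (nat_lit 152) (nat_lit 26924682892) (nat_lit 76) (nat_lit 119267176675) (nat_lit 5) (nat_lit 5) (nat_lit 7) (nat_lit 5) (nat_lit 6) (nat_lit 4) (nat_lit 337) (nat_lit 252) (nat_lit 131)) (XT.lf (nat_lit 0) (nat_lit 18680377608) (nat_lit 152) (nat_lit 9283203135) (nat_lit 76) (nat_lit 135585926787) (nat_lit 5) (nat_lit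 5) (nat_lit 7) (nat_lit 5) (nat_lit 6) (nat_lit 4) (nat_lit 338) (nat_lit 252) (nat_lit 130))) (XT.nd (nat_lit 78) (nat_lit 0) (nat_lit 0) (XT.lf (nat_lit 0) (nat_lit 9540936597) (nat_lit 76) (nat_lit 18324828703) (nat_lit 152) (nat_lit 143326617268) (nat_lit 4) (nat_lit 5) (nat_lit 5) (nat_lit 5) (nat_lit 6) (nat_lit 4) (nat_lit 339) (nat_lit 252) (nat_lit 129)) (XT.lf (nat_lit 0) (nat_lit 29623868754) (nat_lit 76) (nat_lit 8041192157) (nat_lit 152) (nat_lit 141544610554) (nat_lit 4) (nat_lit 5) (nat_lit 5) (nat_lit 5) (nat_lit 6) (nat_lit 4) (nat_lit 340) (nat_lit 252) (nat_lit 128)))) (XT.nd (nat_lit 156) (nat_lit 0) (nat_lit 0) (XT.nd (nat_lit 78) (nat_lit 0) (nat_lit 0) (XT.lf (nat_lit 0) (nat_lit 47994874011) (nat_lit 152) (nat_lit 136964491236) (nat_lit 0) (nat_lit 2666433861) (nat_lit 4) (nat_lit 5) (nat_lit 6) (nat_lit 4) (nat_lit 4) (nat_lit 4) (nat_lit 341) (nat_lit 252)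 (nat_lit 127)) (XT.lf (nat_lit 0) (nat_lit 58970633015) (nat_lit 152) (nat_lit 123848294424) (nat_lit 0) (nat_lit 13637334776) (nat_lit 4) (nat_lit 5) (nat_lit 6) (nat_lit 4) (nat_lit 4) (nat_lit 4) (nat_lit 342) (nat_lit 252) (nat_lit 126))) (XT.nd (nat_lit 78) (nat_lit 0) (nat_lit 0) (XT.lf (nat_lit 0) (nat_lit 70492925137) (nat_lit 152) (nat_lit 110080437691) (nat_lit 0) (nat_lit 25155000146) (nat_lit 4) (nat_lit 5) (nat_lit 6) (nat_lit 4) (nat_lit 4) (nat_lit 4) (nat_lit 343) (nat_lit 252) (nat_lit 125)) (XT.nd (nat_lit 78) (nat_lit 0) (nat_lit 0) (XT.lf (nat_lit 0) (nat_lit 82589184406) (nat_lit 152) (nat_lit 95628140426) (nat_lit 0) (nat_lit 37246852986) (nat_lit 4) (nat_lit 5) (nat_lit 6) (nat_lit 4) (nat_lit 4) (nat_lit 4) (nat_lit 344) (nat_lit 252) (nat_lit 124)) (XT.lf (nat_lit 0) (nat_lit 95288211440) (nat_lit 152) (nat_lit 80456992397) (nat_lit 0) (nat_lit 49941683420)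 (nat_lit 4) (nat_lit 5) (nat_lit 6) (nat_lit 4) (nat_lit 4) (nat_lit 4) (nat_lit 345) (nat_lit 252) (nat_lit 123)))))) (XT.nd (nat_lit 312) (nat_lit 76) (nat_lit 0) (XT.nd (nat_lit 156) (nat_lit 0) (nat_lit 0) (XT.nd (nat_lit 78) (nat_lit 0) (nat_lit 0) (XT.lf (nat_lit 0) (nat_lit 108620242017) (nat_lit 152) (nat_lit 64530871823) (nat_lit 0) (nat_lit 63269717235) (nat_lit 4) (nat_lit 5) (nat_lit 6) (nat_lit 4) (nat_lit 4) (nat_lit 4) (nat_lit 346) (nat_lit 252) (nat_lit 122)) (XT.lf (nat_lit 0) (nat_lit 122617019067) (nat_lit 152) (nat_lit 47811859370) (nat_lit 0) (nat_lit 77262687846) (nat_lit 4) (nat_lit 5) (nat_lit 6) (nat_lit 4) (nat_lit 4) (nat_lit 4) (nat_lit 347) (nat_lit 252) (nat_lit 121))) (XT.nd (nat_lit 78) (nat_lit 0) (nat_lit 0) (XT.lf (nat_lit 0) (nat_lit 137311868250) (nat_lit 152) (nat_lit 30260147865) (nat_lit 0) (nat_lit 91953911848) (nat_lit 4) (nat_lit 5) (nat_lit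 6) (nat_lit 4) (nat_lit 4) (nat_lit 4) (nat_lit 348) (nat_lit 252) (nat_lit 120)) (XT.lf (nat_lit 0) (nat_lit 152739777302) (nat_lit 152) (nat_lit 11833947518) (nat_lit 0) (nat_lit 107378368347) (nat_lit 4) (nat_lit 5) (nat_lit 6) (nat_lit 4) (nat_lit 4) (nat_lit 4) (nat_lit 349) (nat_lit 252) (nat_lit 119)))) (XT.nd (nat_lit 156) (nat_lit 0) (nat_lit 0) (XT.nd (nat_lit 78) (nat_lit 0) (nat_lit 0) (XT.lf (nat_lit 0) (nat_lit 7758948378) (nat_lit 76) (nat_lit 161299669890) (nat_lit 76) (nat_lit 115934972789) (nat_lit 3) (nat_lit 4) (nat_lit 4) (nat_lit 5) (nat_lit 4) (nat_lit 4) (nat_lit 350) (nat_lit 252) (nat_lit 118)) (XT.lf (nat_lit 0) (nat_lit 28739435305) (nat_lit 76) (nat_lit 157652808143) (nat_lit 76) (nat_lit 112284979474) (nat_lit 3) (nat_lit 4) (nat_lit 4) (nat_lit 5) (nat_lit 4) (nat_lit 4) (nat_lit 351) (nat_lit 252) (nat_lit 117))) (XT.nd (nat_lit 78) (nat_lit 0) (nat_lit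 0) (XT.lf (nat_lit 0) (nat_lit 50766183052) (nat_lit 76) (nat_lit 153824870202) (nat_lit 76) (nat_lit 108454059089) (nat_lit 3) (nat_lit 4) (nat_lit 4) (nat_lit 5) (nat_lit 4) (nat_lit 4) (nat_lit 352) (nat_lit 252) (nat_lit 116)) (XT.nd (nat_lit 78) (nat_lit 0) (nat_lit 0) (XT.lf (nat_lit 0) (nat_lit 73891636259) (nat_lit 76) (nat_lit 149806741931) (nat_lit 76) (nat_lit 104433090393) (nat_lit 3) (nat_lit 4) (nat_lit 4) (nat_lit 5) (nat_lit 4) (nat_lit 4) (nat_lit 353) (nat_lit 252) (nat_lit 115)) (XT.lf (nat_lit 0) (nat_lit 98170855526) (nat_lit 76) (nat_lit 145588856356) (nat_lit 76) (nat_lit 100212499653) (nat_lit 3) (nat_lit 4) (nat_lit 4) (nat_lit 5) (nat_lit 4) (nat_lit 4) (nat_lit 354) (nat_lit 252) (nat_lit 114))))))) (XT.nd (nat_lit 29796) (nat_lit 0) (nat_lit 5776) (XT.nd (nat_lit 312) (nat_lit 0) (nat_lit 0) (XT.nd (nat_lit 156) (nat_lit 0) (nat_lit 0) (XT.nd (nat_lit 78)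 (nat_lit 0) (nat_lit 0) (XT.lf (nat_lit 0) (nat_lit 123661648520) (nat_lit 76) (nat_lit 141161170894) (nat_lit 76) (nat_lit 95782237842) (nat_lit 3) (nat_lit 4) (nat_lit 4) (nat_lit 5) (nat_lit 4) (nat_lit 4) (nat_lit 355) (nat_lit 252) (nat_lit 113)) (XT.lf (nat_lit 0) (nat_lit 150424707605) (nat_lit 76) (nat_lit 136513143435) (nat_lit 76) (nat_lit 91131756718) (nat_lit 3) (nat_lit 4) (nat_lit 4) (nat_lit 5) (nat_lit 4) (nat_lit 4) (nat_lit 356) (nat_lit 252) (nat_lit 112))) (XT.nd (nat_lit 78) (nat_lit 0) (nat_lit 0) (XT.lf (nat_lit 0) (nat_lit 178523754349) (nat_lit 76) (nat_lit 131633707248) (nat_lit 76) (nat_lit 86249983708) (nat_lit 3) (nat_lit 4) (nat_lit 4) (nat_lit 5) (nat_lit 4) (nat_lit 4) (nat_lit 357) (nat_lit 252) (nat_lit 111)) (XT.lf (nat_lit 0) (nat_lit 208025691246) (nat_lit 76) (nat_lit 126511244628) (nat_lit 76) (nat_lit 81125295541) (nat_lit 3) (nat_lit 4) (nat_lit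 4) (nat_lit 5) (nat_lit 4) (nat_lit 4) (nat_lit 358) (nat_lit 252) (nat_lit 110)))) (XT.nd (nat_lit 29250) (nat_lit 0) (nat_lit 6232) (XT.nd (nat_lit 78) (nat_lit 0) (nat_lit 0) (XT.lf (nat_lit 0) (nat_lit 239000761001) (nat_lit 76) (nat_lit 121133559235) (nat_lit 76) (nat_lit 75745490580) (nat_lit 3) (nat_lit 4) (nat_lit 4) (nat_lit 5) (nat_lit 4) (nat_lit 4) (nat_lit 359) (nat_lit 252) (nat_lit 109)) (XT.lf (nat_lit 0) (nat_lit 271522713782) (nat_lit 76) (nat_lit 115487847056) (nat_lit 76) (nat_lit 70097759765) (nat_lit 3) (nat_lit 4) (nat_lit 4) (nat_lit 5) (nat_lit 4) (nat_lit 4) (nat_lit 360) (nat_lit 252) (nat_lit 108))) (XT.nd (nat_lit 78) (nat_lit 608) (nat_lit 0) (XT.lf (nat_lit 0) (nat_lit 1789657652) (nat_lit 0) (nat_lit 1789657652) (nat_lit 532) (nat_lit 645754602) (nat_lit 93) (nat_lit 5) (nat_lit 93) (nat_lit 3) (nat_lit 100) (nat_lit 3) (nat_lit 253) (nat_lit 253) (nat_lit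 214)) (XT.nd (nat_lit 78) (nat_lit 608) (nat_lit 0) (XT.lf (nat_lit 0) (nat_lit 7467740604) (nat_lit 0) (nat_lit 822943595) (nat_lit 532) (nat_lit 319781895) (nat_lit 93) (nat_lit 5) (nat_lit 93) (nat_lit 3) (nat_lit 100) (nat_lit 3) (nat_lit 254) (nat_lit 253) (nat_lit 213)) (XT.lf (nat_lit 0) (nat_lit 693597612) (nat_lit 608) (nat_lit 5994787778) (nat_lit 684) (nat_lit 2089301597) (nat_lit 85) (nat_lit 5) (nat_lit 93) (nat_lit 5) (nat_lit 94) (nat_lit 5) (nat_lit 255) (nat_lit 253) (nat_lit 212)))))) (XT.nd (nat_lit 312) (nat_lit 456) (nat_lit 0) (XT.nd (nat_lit 156) (nat_lit 0) (nat_lit 76) (XT.nd (nat_lit 78) (nat_lit 0) (nat_lit 0) (XT.lf (nat_lit 0) (nat_lit 1720736516) (nat_lit 608) (nat_lit 2062714021) (nat_lit 684) (nat_lit 5171054438) (nat_lit 85) (nat_lit 5) (nat_lit 93) (nat_lit 5) (nat_lit 94) (nat_lit 5) (nat_lit 256) (nat_lit 253) (nat_lit 211)) (XT.lf (nat_lit 76) (nat_lit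 2099011313) (nat_lit 0) (nat_lit 676493876) (nat_lit 684) (nat_lit 6366026007) (nat_lit 86) (nat_lit 5) (nat_lit 85) (nat_lit 5) (nat_lit 94) (nat_lit 5) (nat_lit 257) (nat_lit 253) (nat_lit 210))) (XT.nd (nat_lit 78) (nat_lit 0) (nat_lit 0) (XT.lf (nat_lit 0) (nat_lit 3904881199) (nat_lit 608) (nat_lit 2873466792) (nat_lit 684) (nat_lit 2558639648) (nat_lit 86) (nat_lit 5) (nat_lit 94) (nat_lit 5) (nat_lit 95) (nat_lit 5) (nat_lit 258) (nat_lit 253) (nat_lit 209)) (XT.lf (nat_lit 76) (nat_lit 1506110024) (nat_lit 0) (nat_lit 3567783903) (nat_lit 684) (nat_lit 4469328733) (nat_lit 87) (nat_lit 5) (nat_lit 86) (nat_lit 5) (nat_lit 95) (nat_lit 5) (nat_lit 259) (nat_lit 253) (nat_lit 208)))) (XT.nd (nat_lit 156) (nat_lit 532) (nat_lit 0) (XT.nd (nat_lit 78) (nat_lit 0) (nat_lit 76) (XT.lf (nat_lit 76) (nat_lit 6169947390) (nat_lit 0) (nat_lit 130547770) (nat_lit 684) (nat_lit 3459473711)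 (nat_lit 87) (nat_lit 5) (nat_lit 86) (nat_lit 5) (nat_lit 95) (nat_lit 5) (nat_lit 260) (nat_lit 253) (nat_lit 207)) (XT.lf (nat_lit 76) (nat_lit 1022265465) (nat_lit 0) (nat_lit 6589487760) (nat_lit 684) (nat_lit 2374781718) (nat_lit 88) (nat_lit 5) (nat_lit 87) (nat_lit 5) (nat_lit 96) (nat_lit 5) (nat_lit 261) (nat_lit 253) (nat_lit 206))) (XT.nd (nat_lit 78) (nat_lit 608) (nat_lit 0) (XT.lf (nat_lit 76) (nat_lit 5952599253) (nat_lit 0) (nat_lit 3053624777) (nat_lit 684) (nat_lit 1217464596) (nat_lit 88) (nat_lit 5) (nat_lit 87) (nat_lit 5) (nat_lit 96) (nat_lit 5) (nat_lit 262) (nat_lit 253) (nat_lit 205)) (XT.nd (nat_lit 78) (nat_lit 76) (nat_lit 0) (XT.lf (nat_lit 0) (nat_lit 630882323) (nat_lit 608) (nat_lit 9816728242) (nat_lit 684) (nat_lit 26364866) (nat_lit 80) (nat_lit 5) (nat_lit 88) (nat_lit 5) (nat_lit 89) (nat_lit 5) (nat_lit 263) (nat_lit 253) (nat_lit 204)) (XT.lf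 (nat_lit 0) (nat_lit 1266427722) (nat_lit 684) (nat_lit 4913997515) (nat_lit 76) (nat_lit 4551451959) (nat_lit 79) (nat_lit 5) (nat_lit 88) (nat_lit 5) (nat_lit 80) (nat_lit 5) (nat_lit 264) (nat_lit 253) (nat_lit 203))))))))
noncomputable def xc151 : XT := (XT.nd (nat_lit 1404) (nat_lit 1444) (nat_lit 0) (XT.nd (nat_lit 702) (nat_lit 1368) (nat_lit 0) (XT.nd (nat_lit 312) (nat_lit 760) (nat_lit 0) (XT.nd (nat_lit 156) (nat_lit 380) (nat_lit 0) (XT.nd (nat_lit 78) (nat_lit 0) (nat_lit 0) (XT.lf (nat_lit 0) (nat_lit 233633650) (nat_lit 684) (nat_lit 2352744714) (nat_lit 760) (nat_lit 8418220513) (nat_lit 70) (nat_lit 5) (nat_lit 79) (nat_lit 5) (nat_lit 80) (nat_lit 5) (nat_lit 265) (nat_lit 253) (nat_lit 202)) (XT.lf (nat_lit 0) (nat_lit 4044133378) (nat_lit 760) (nat_lit 5541451290) (nat_lit 76) (nat_lit 1701892734) (nat_lit 70) (nat_lit 5) (nat_lit 80) (nat_lit 5) (nat_lit 71) (nat_lit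 5) (nat_lit 266) (nat_lit 253) (nat_lit 201))) (XT.nd (nat_lit 78) (nat_lit 380) (nat_lit 0) (XT.lf (nat_lit 0) (nat_lit 5576398789) (nat_lit 760) (nat_lit 123816735) (nat_lit 76) (nat_lit 5884309009) (nat_lit 70) (nat_lit 5) (nat_lit 80) (nat_lit 5) (nat_lit 71) (nat_lit 5) (nat_lit 267) (nat_lit 253) (nat_lit 200)) (XT.lf (nat_lit 0) (nat_lit 5714469207) (nat_lit 380) (nat_lit 1524839581) (nat_lit 456) (nat_lit 4654514441) (nat_lit 65) (nat_lit 5) (nat_lit 70) (nat_lit 5) (nat_lit 71) (nat_lit 5) (nat_lit 268) (nat_lit 253) (nat_lit 199)))) (XT.nd (nat_lit 156) (nat_lit 380) (nat_lit 0) (XT.nd (nat_lit 78) (nat_lit 380) (nat_lit 0) (XT.lf (nat_lit 0) (nat_lit 8998138736) (nat_lit 456) (nat_lit 448604059) (nat_lit 76) (nat_lit 2771301319) (nat_lit 65) (nat_lit 5) (nat_lit 71) (nat_lit 5) (nat_lit 66) (nat_lit 5) (nat_lit 269) (nat_lit 253) (nat_lit 198)) (XT.lf (nat_lit 0) (nat_lit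 5693126407) (nat_lit 380) (nat_lit 5233287191) (nat_lit 456) (nat_lit 1628078678) (nat_lit 60) (nat_lit 5) (nat_lit 65) (nat_lit 5) (nat_lit 66) (nat_lit 5) (nat_lit 270) (nat_lit 253) (nat_lit 197))) (XT.nd (nat_lit 78) (nat_lit 304) (nat_lit 0) (XT.lf (nat_lit 0) (nat_lit 17734860) (nat_lit 456) (nat_lit 784051813) (nat_lit 76) (nat_lit 12107236116) (nat_lit 59) (nat_lit 5) (nat_lit 65) (nat_lit 5) (nat_lit 60) (nat_lit 5) (nat_lit 271) (nat_lit 253) (nat_lit 196)) (XT.nd (nat_lit 78) (nat_lit 0) (nat_lit 0) (XT.lf (nat_lit 0) (nat_lit 1812049492) (nat_lit 380) (nat_lit 7617313589) (nat_lit 76) (nat_lit 3844614987) (nat_lit 55) (nat_lit 5) (nat_lit 60) (nat_lit 5) (nat_lit 56) (nat_lit 5) (nat_lit 272) (nat_lit 253) (nat_lit 195)) (XT.lf (nat_lit 0) (nat_lit 3693233139) (nat_lit 380) (nat_lit 1256044377) (nat_lit 76) (nat_lit 8708121131) (nat_lit 55) (nat_lit 5) (nat_lit 60) (nat_lit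 5) (nat_lit 56) (nat_lit 5) (nat_lit 273) (nat_lit 253) (nat_lit 194)))))) (XT.nd (nat_lit 312) (nat_lit 836) (nat_lit 0) (XT.nd (nat_lit 156) (nat_lit 228) (nat_lit 0) (XT.nd (nat_lit 78) (nat_lit 0) (nat_lit 0) (XT.lf (nat_lit 0) (nat_lit 5570333217) (nat_lit 304) (nat_lit 157028659) (nat_lit 380) (nat_lit 8329755702) (nat_lit 51) (nat_lit 5) (nat_lit 55) (nat_lit 5) (nat_lit 56) (nat_lit 5) (nat_lit 274) (nat_lit 253) (nat_lit 193)) (XT.lf (nat_lit 0) (nat_lit 7933647240) (nat_lit 380) (nat_lit 1802691964) (nat_lit 76) (nat_lit 4737028950) (nat_lit 51) (nat_lit 5) (nat_lit 56) (nat_lit 5) (nat_lit 52) (nat_lit 5) (nat_lit 275) (nat_lit 253) (nat_lit 192))) (XT.nd (nat_lit 78) (nat_lit 0) (nat_lit 0) (XT.lf (nat_lit 0) (nat_lit 5353803785) (nat_lit 228) (nat_lit 4956624211) (nat_lit 304) (nat_lit 4597059166) (nat_lit 48) (nat_lit 5) (nat_lit 51) (nat_lit 5) (nat_lit 52) (nat_lit 5)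 (nat_lit 276) (nat_lit 253) (nat_lit 191)) (XT.lf (nat_lit 0) (nat_lit 12812757226) (nat_lit 304) (nat_lit 2463880954) (nat_lit 76) (nat_lit 86400334) (nat_lit 48) (nat_lit 5) (nat_lit 52) (nat_lit 5) (nat_lit 49) (nat_lit 5) (nat_lit 277) (nat_lit 253) (nat_lit 190)))) (XT.nd (nat_lit 156) (nat_lit 456) (nat_lit 0) (XT.nd (nat_lit 78) (nat_lit 76) (nat_lit 0) (XT.lf (nat_lit 0) (nat_lit 5030313717) (nat_lit 304) (nat_lit 10545597204) (nat_lit 380) (nat_lit 258730033) (nat_lit 44) (nat_lit 5) (nat_lit 48) (nat_lit 5) (nat_lit 49) (nat_lit 5) (nat_lit 278) (nat_lit 253) (nat_lit 189)) (XT.lf (nat_lit 0) (nat_lit 2097244882) (nat_lit 380) (nat_lit 3407393003) (nat_lit 76) (nat_lit 10822633916) (nat_lit 43) (nat_lit 5) (nat_lit 48) (nat_lit 5) (nat_lit 44) (nat_lit 5) (nat_lit 279) (nat_lit 253) (nat_lit 188))) (XT.nd (nat_lit 78) (nat_lit 228) (nat_lit 0) (XT.lf (nat_lit 0) (nat_lit 4469431051)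 (nat_lit 228) (nat_lit 139973006) (nat_lit 304) (nat_lit 12232614929) (nat_lit 40) (nat_lit 5) (nat_lit 43) (nat_lit 5) (nat_lit 44) (nat_lit 5) (nat_lit 280) (nat_lit 253) (nat_lit 187)) (XT.nd (nat_lit 78) (nat_lit 228) (nat_lit 0) (XT.lf (nat_lit 0) (nat_lit 7369424840) (nat_lit 304) (nat_lit 4637286139) (nat_lit 76) (nat_lit 5369728343) (nat_lit 40) (nat_lit 5) (nat_lit 44) (nat_lit 5) (nat_lit 41) (nat_lit 5) (nat_lit 281) (nat_lit 253) (nat_lit 186)) (XT.lf (nat_lit 0) (nat_lit 3568751048) (nat_lit 228) (nat_lit 6735605454) (nat_lit 304) (nat_lit 7631424846) (nat_lit 37) (nat_lit 5) (nat_lit 40) (nat_lit 5) (nat_lit 41) (nat_lit 5) (nat_lit 282) (nat_lit 253) (nat_lit 185))))))) (XT.nd (nat_lit 702) (nat_lit 684) (nat_lit 0) (XT.nd (nat_lit 312) (nat_lit 304) (nat_lit 0) (XT.nd (nat_lit 156) (nat_lit 304) (nat_lit 0) (XT.nd (nat_lit 78) (nat_lit 152) (nat_lit 0) (XT.lf (nat_lit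 0) (nat_lit 12318579745) (nat_lit 228) (nat_lit 1125462136) (nat_lit 304) (nat_lit 5076192205) (nat_lit 37) (nat_lit 5) (nat_lit 40) (nat_lit 5) (nat_lit 41) (nat_lit 5) (nat_lit 283) (nat_lit 253) (nat_lit 184)) (XT.lf (nat_lit 0) (nat_lit 2345552573) (nat_lit 152) (nat_lit 14486523730) (nat_lit 228) (nat_lit 2297306794) (nat_lit 35) (nat_lit 5) (nat_lit 37) (nat_lit 5) (nat_lit 38) (nat_lit 5) (nat_lit 284) (nat_lit 253) (nat_lit 183))) (XT.nd (nat_lit 78) (nat_lit 228) (nat_lit 0) (XT.lf (nat_lit 0) (nat_lit 706375589) (nat_lit 228) (nat_lit 8285528190) (nat_lit 76) (nat_lit 10771353689) (nat_lit 34) (nat_lit 5) (nat_lit 37) (nat_lit 5) (nat_lit 35) (nat_lit 5) (nat_lit 285) (nat_lit 253) (nat_lit 182)) (XT.lf (nat_lit 0) (nat_lit 592952159) (nat_lit 228) (nat_lit 3180784265) (nat_lit 304) (nat_lit 16653707321) (nat_lit 31) (nat_lit 5) (nat_lit 34) (nat_lit 5) (nat_lit 35) (nat_lit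 5) (nat_lit 286) (nat_lit 253) (nat_lit 181)))) (XT.nd (nat_lit 156) (nat_lit 304) (nat_lit 0) (XT.nd (nat_lit 78) (nat_lit 0) (nat_lit 0) (XT.lf (nat_lit 0) (nat_lit 7164495117) (nat_lit 304) (nat_lit 10989170090) (nat_lit 76) (nat_lit 2962707089) (nat_lit 31) (nat_lit 5) (nat_lit 35) (nat_lit 5) (nat_lit 32) (nat_lit 5) (nat_lit 287) (nat_lit 253) (nat_lit 180)) (XT.lf (nat_lit 0) (nat_lit 10759608861) (nat_lit 304) (nat_lit 1778921250) (nat_lit 76) (nat_lit 9299509116) (nat_lit 31) (nat_lit 5) (nat_lit 35) (nat_lit 5) (nat_lit 32) (nat_lit 5) (nat_lit 288) (nat_lit 253) (nat_lit 179))) (XT.nd (nat_lit 78) (nat_lit 152) (nat_lit 0) (XT.lf (nat_lit 0) (nat_lit 8127991541) (nat_lit 152) (nat_lit 6516885681) (nat_lit 228) (nat_lit 7945423583) (nat_lit 29) (nat_lit 5) (nat_lit 31) (nat_lit 5) (nat_lit 32) (nat_lit 5) (nat_lit 289) (nat_lit 253) (nat_lit 178)) (XT.nd (nat_lit 78) (nat_lit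 152) (nat_lit 0) (XT.lf (nat_lit 0) (nat_lit 18568402140) (nat_lit 152) (nat_lit 170049171) (nat_lit 228) (nat_lit 4641051795) (nat_lit 29) (nat_lit 5) (nat_lit 31) (nat_lit 5) (nat_lit 32) (nat_lit 5) (nat_lit 290) (nat_lit 253) (nat_lit 177)) (XT.lf (nat_lit 0) (nat_lit 5369983001) (nat_lit 152) (nat_lit 17836522624) (nat_lit 228) (nat_lit 993198163) (nat_lit 27) (nat_lit 5) (nat_lit 29) (nat_lit 5) (nat_lit 30) (nat_lit 5) (nat_lit 291) (nat_lit 253) (nat_lit 176)))))) (XT.nd (nat_lit 390) (nat_lit 304) (nat_lit 0) (XT.nd (nat_lit 156) (nat_lit 152) (nat_lit 0) (XT.nd (nat_lit 78) (nat_lit 152) (nat_lit 0) (XT.lf (nat_lit 0) (nat_lit 2816522154) (nat_lit 228) (nat_lit 8901431467) (nat_lit 76) (nat_lit 13337258011) (nat_lit 26) (nat_lit 5) (nat_lit 29) (nat_lit 5) (nat_lit 27) (nat_lit 5) (nat_lit 292) (nat_lit 253) (nat_lit 175)) (XT.lf (nat_lit 0) (nat_lit 1533869562) (nat_lit 152)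 (nat_lit 5258834230) (nat_lit 228) (nat_lit 19159533799) (nat_lit 24) (nat_lit 5) (nat_lit 26) (nat_lit 5) (nat_lit 27) (nat_lit 5) (nat_lit 293) (nat_lit 253) (nat_lit 174))) (XT.nd (nat_lit 78) (nat_lit 152) (nat_lit 0) (XT.lf (nat_lit 0) (nat_lit 11130338075) (nat_lit 228) (nat_lit 14135329883) (nat_lit 76) (nat_lit 1620338030) (nat_lit 24) (nat_lit 5) (nat_lit 27) (nat_lit 5) (nat_lit 25) (nat_lit 5) (nat_lit 294) (nat_lit 253) (nat_lit 173)) (XT.nd (nat_lit 78) (nat_lit 152) (nat_lit 0) (XT.lf (nat_lit 0) (nat_lit 15757388408) (nat_lit 228) (nat_lit 3445752516) (nat_lit 76) (nat_lit 8659717369) (nat_lit 24) (nat_lit 5) (nat_lit 27) (nat_lit 5) (nat_lit 25) (nat_lit 5) (nat_lit 295) (nat_lit 253) (nat_lit 172)) (XT.lf (nat_lit 0) (nat_lit 8014432474) (nat_lit 152) (nat_lit 12713461716) (nat_lit 228) (nat_lit 8155075026) (nat_lit 22) (nat_lit 5) (nat_lit 24) (nat_lit 5) (nat_lit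 25) (nat_lit 5) (nat_lit 296) (nat_lit 253) (nat_lit 171))))) (XT.nd (nat_lit 156) (nat_lit 152) (nat_lit 0) (XT.nd (nat_lit 78) (nat_lit 152) (nat_lit 0) (XT.lf (nat_lit 0) (nat_lit 20147201089) (nat_lit 152) (nat_lit 5845361966) (nat_lit 228) (nat_lit 3959260884) (nat_lit 22) (nat_lit 5) (nat_lit 24) (nat_lit 5) (nat_lit 25) (nat_lit 5) (nat_lit 297) (nat_lit 253) (nat_lit 170)) (XT.lf (nat_lit 0) (nat_lit 470338728) (nat_lit 152) (nat_lit 29249725108) (nat_lit 76) (nat_lit 1351813367) (nat_lit 20) (nat_lit 5) (nat_lit 22) (nat_lit 5) (nat_lit 21) (nat_lit 5) (nat_lit 298) (nat_lit 253) (nat_lit 169))) (XT.nd (nat_lit 78) (nat_lit 152) (nat_lit 0) (XT.lf (nat_lit 0) (nat_lit 5240800940) (nat_lit 152) (nat_lit 18052142254) (nat_lit 76) (nat_lit 8939140055) (nat_lit 20) (nat_lit 5) (nat_lit 22) (nat_lit 5) (nat_lit 21) (nat_lit 5) (nat_lit 299) (nat_lit 253) (nat_lit 168)) (XT.nd (nat_lit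 78) (nat_lit 152) (nat_lit 0) (XT.lf (nat_lit 0) (nat_lit 10238211063) (nat_lit 152) (nat_lit 6313459296) (nat_lit 76) (nat_lit 16899224567) (nat_lit 20) (nat_lit 5) (nat_lit 22) (nat_lit 5) (nat_lit 21) (nat_lit 5) (nat_lit 300) (nat_lit 253) (nat_lit 167)) (XT.lf (nat_lit 0) (nat_lit 6192470748) (nat_lit 152) (nat_lit 9378678769) (nat_lit 228) (nat_lit 19155230562) (nat_lit 18) (nat_lit 5) (nat_lit 20) (nat_lit 5) (nat_lit 21) (nat_lit 5) (nat_lit 301) (nat_lit 253) (nat_lit 166))))))))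
noncomputable def xc152 : XT := (XT.nd (nat_lit 1404) (nat_lit 380) (nat_lit 0) (XT.nd (nat_lit 702) (nat_lit 228) (nat_lit 0) (XT.nd (nat_lit 312) (nat_lit 228) (nat_lit 0) (XT.nd (nat_lit 156) (nat_lit 152) (nat_lit 0) (XT.nd (nat_lit 78) (nat_lit 0) (nat_lit 0) (XT.lf (nat_lit 0) (nat_lit 19525290010) (nat_lit 152) (nat_lit 1741592596) (nat_lit 228) (nat_lit 14793964526) (nat_lit 18) (nat_lit 5) (nat_lit 20) (nat_lit 5) (nat_lit 21) (nat_lit 5) (nat_lit 302) (nat_lit 253) (nat_lit 165)) (XT.lf (nat_lit 0) (nat_lit 27335047160) (nat_lit 228) (nat_lit 4052478615) (nat_lit 76) (nat_lit 6070143839) (nat_lit 18) (nat_lit 5) (nat_lit 21) (nat_lit 5) (nat_lit 19) (nat_lit 4) (nat_lit 303) (nat_lit 253) (nat_lit 164))) (XT.nd (nat_lit 78) (nat_lit 76) (nat_lit 0) (XT.lf (nat_lit 0) (nat_lit 9307743007) (nat_lit 76) (nat_lit 24562878838) (nat_lit 152) (nat_lit 5045524912) (nat_lit 17) (nat_lit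 5) (nat_lit 18) (nat_lit 5) (nat_lit 19) (nat_lit 4) (nat_lit 304) (nat_lit 253) (nat_lit 163)) (XT.lf (nat_lit 0) (nat_lit 336226850) (nat_lit 152) (nat_lit 16989468162) (nat_lit 76) (nat_lit 23118645553) (nat_lit 16) (nat_lit 5) (nat_lit 18) (nat_lit 5) (nat_lit 17) (nat_lit 5) (nat_lit 305) (nat_lit 253) (nat_lit 162)))) (XT.nd (nat_lit 156) (nat_lit 76) (nat_lit 0) (XT.nd (nat_lit 78) (nat_lit 152) (nat_lit 0) (XT.lf (nat_lit 0) (nat_lit 5808150171) (nat_lit 152) (nat_lit 3837955642) (nat_lit 76) (nat_lit 32399182017) (nat_lit 16) (nat_lit 5) (nat_lit 18) (nat_lit 5) (nat_lit 17) (nat_lit 5) (nat_lit 306) (nat_lit 253) (nat_lit 161)) (XT.lf (nat_lit 0) (nat_lit 10285419372) (nat_lit 152) (nat_lit 1419926596) (nat_lit 228) (nat_lit 32013363892) (nat_lit 14) (nat_lit 5) (nat_lit 16) (nat_lit 5) (nat_lit 17) (nat_lit 5) (nat_lit 307) (nat_lit 253) (nat_lit 160))) (XT.nd (nat_lit 78)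 (nat_lit 76) (nat_lit 0) (XT.lf (nat_lit 0) (nat_lit 18067345305) (nat_lit 228) (nat_lit 20353120311) (nat_lit 76) (nat_lit 7046850868) (nat_lit 14) (nat_lit 5) (nat_lit 17) (nat_lit 5) (nat_lit 15) (nat_lit 4) (nat_lit 308) (nat_lit 253) (nat_lit 159)) (XT.nd (nat_lit 78) (nat_lit 76) (nat_lit 0) (XT.lf (nat_lit 0) (nat_lit 24762335633) (nat_lit 228) (nat_lit 6656527295) (nat_lit 76) (nat_lit 15883756133) (nat_lit 14) (nat_lit 5) (nat_lit 17) (nat_lit 5) (nat_lit 15) (nat_lit 4) (nat_lit 309) (nat_lit 253) (nat_lit 158)) (XT.lf (nat_lit 0) (nat_lit 7966237889) (nat_lit 76) (nat_lit 23942225781) (nat_lit 152) (nat_lit 17315413375) (nat_lit 13) (nat_lit 5) (nat_lit 14) (nat_lit 5) (nat_lit 15) (nat_lit 4) (nat_lit 310) (nat_lit 253) (nat_lit 157)))))) (XT.nd (nat_lit 312) (nat_lit 76) (nat_lit 0) (XT.nd (nat_lit 156) (nat_lit 152) (nat_lit 0) (XT.nd (nat_lit 78) (nat_lit 0) (nat_lit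 0) (XT.lf (nat_lit 0) (nat_lit 23537833875) (nat_lit 76) (nat_lit 15978979657) (nat_lit 152) (nat_lit 11719147854) (nat_lit 13) (nat_lit 5) (nat_lit 14) (nat_lit 5) (nat_lit 15) (nat_lit 4) (nat_lit 311) (nat_lit 253) (nat_lit 156)) (XT.lf (nat_lit 0) (nat_lit 39875241036) (nat_lit 76) (nat_lit 7622895958) (nat_lit 152) (nat_lit 5850893933) (nat_lit 13) (nat_lit 5) (nat_lit 14) (nat_lit 5) (nat_lit 15) (nat_lit 4) (nat_lit 312) (nat_lit 253) (nat_lit 155))) (XT.nd (nat_lit 78) (nat_lit 0) (nat_lit 0) (XT.lf (nat_lit 0) (nat_lit 335261359) (nat_lit 152) (nat_lit 54092798320) (nat_lit 76) (nat_lit 1137737867) (nat_lit 11) (nat_lit 5) (nat_lit 13) (nat_lit 5) (nat_lit 12) (nat_lit 4) (nat_lit 313) (nat_lit 253) (nat_lit 154)) (XT.lf (nat_lit 0) (nat_lit 6983846249) (nat_lit 152) (nat_lit 40484195676) (nat_lit 76) (nat_lit 10403084836) (nat_lit 11) (nat_lit 5) (nat_lit 13) (nat_lit 5) (nat_lit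 12) (nat_lit 4) (nat_lit 314) (nat_lit 253) (nat_lit 153)))) (XT.nd (nat_lit 156) (nat_lit 76) (nat_lit 0) (XT.nd (nat_lit 78) (nat_lit 0) (nat_lit 0) (XT.lf (nat_lit 0) (nat_lit 13958059275) (nat_lit 152) (nat_lit 26207055525) (nat_lit 76) (nat_lit 20126954922) (nat_lit 11) (nat_lit 5) (nat_lit 13) (nat_lit 5) (nat_lit 12) (nat_lit 4) (nat_lit 315) (nat_lit 253) (nat_lit 152)) (XT.lf (nat_lit 0) (nat_lit 21274505706) (nat_lit 152) (nat_lit 11227384677) (nat_lit 76) (nat_lit 30332500196) (nat_lit 11) (nat_lit 5) (nat_lit 13) (nat_lit 5) (nat_lit 12) (nat_lit 4) (nat_lit 316) (nat_lit 253) (nat_lit 151))) (XT.nd (nat_lit 78) (nat_lit 0) (nat_lit 0) (XT.lf (nat_lit 0) (nat_lit 4638958391) (nat_lit 76) (nat_lit 24384074403) (nat_lit 152) (nat_lit 36477488325) (nat_lit 10) (nat_lit 5) (nat_lit 11) (nat_lit 5) (nat_lit 12) (nat_lit 4) (nat_lit 317) (nat_lit 253) (nat_lit 150)) (XT.nd (nat_lit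 78) (nat_lit 0) (nat_lit 0) (XT.lf (nat_lit 0) (nat_lit 21677795078) (nat_lit 76) (nat_lit 15665291599) (nat_lit 152) (nat_lit 30947672733) (nat_lit 10) (nat_lit 5) (nat_lit 11) (nat_lit 5) (nat_lit 12) (nat_lit 4) (nat_lit 318) (nat_lit 253) (nat_lit 149)) (XT.lf (nat_lit 0) (nat_lit 39558466002) (nat_lit 76) (nat_lit 6514924157) (nat_lit 152) (nat_lit 25147413060) (nat_lit 10) (nat_lit 5) (nat_lit 11) (nat_lit 5) (nat_lit 12) (nat_lit 4) (nat_lit 319) (nat_lit 253) (nat_lit 148))))))) (XT.nd (nat_lit 702) (nat_lit 152) (nat_lit 0) (XT.nd (nat_lit 312) (nat_lit 76) (nat_lit 0) (XT.nd (nat_lit 156) (nat_lit 76) (nat_lit 0) (XT.nd (nat_lit 78) (nat_lit 76) (nat_lit 0) (XT.lf (nat_lit 0) (nat_lit 55282954726) (nat_lit 152) (nat_lit 16022309704) (nat_lit 0) (nat_lit 2989953157) (nat_lit 10) (nat_lit 5) (nat_lit 12) (nat_lit 4) (nat_lit 10) (nat_lit 4) (nat_lit 320) (nat_lit 253) (nat_lit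 147)) (XT.lf (nat_lit 0) (nat_lit 292919884) (nat_lit 76) (nat_lit 64766173079) (nat_lit 76) (nat_lit 12458960333) (nat_lit 9) (nat_lit 4) (nat_lit 10) (nat_lit 5) (nat_lit 10) (nat_lit 4) (nat_lit 321) (nat_lit 253) (nat_lit 146))) (XT.nd (nat_lit 78) (nat_lit 76) (nat_lit 0) (XT.lf (nat_lit 0) (nat_lit 17970948005) (nat_lit 76) (nat_lit 57619263233) (nat_lit 76) (nat_lit 5298516034) (nat_lit 9) (nat_lit 4) (nat_lit 10) (nat_lit 5) (nat_lit 10) (nat_lit 4) (nat_lit 322) (nat_lit 253) (nat_lit 145)) (XT.lf (nat_lit 0) (nat_lit 2143886573) (nat_lit 152) (nat_lit 47938669680) (nat_lit 76) (nat_lit 34343900954) (nat_lit 8) (nat_lit 5) (nat_lit 10) (nat_lit 5) (nat_lit 9) (nat_lit 4) (nat_lit 323) (nat_lit 253) (nat_lit 144)))) (XT.nd (nat_lit 156) (nat_lit 76) (nat_lit 0) (XT.nd (nat_lit 78) (nat_lit 0) (nat_lit 0) (XT.lf (nat_lit 0) (nat_lit 9775571448) (nat_lit 152) (nat_lit 32305991834)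 (nat_lit 76) (nat_lit 46055410397) (nat_lit 8) (nat_lit 5) (nat_lit 10) (nat_lit 5) (nat_lit 9) (nat_lit 4) (nat_lit 324) (nat_lit 253) (nat_lit 143)) (XT.lf (nat_lit 0) (nat_lit 17784294874) (nat_lit 152) (nat_lit 15899800381) (nat_lit 76) (nat_lit 58349152232) (nat_lit 8) (nat_lit 5) (nat_lit 10) (nat_lit 5) (nat_lit 9) (nat_lit 4) (nat_lit 325) (nat_lit 253) (nat_lit 142))) (XT.nd (nat_lit 78) (nat_lit 0) (nat_lit 0) (XT.lf (nat_lit 0) (nat_lit 1362578044) (nat_lit 76) (nat_lit 24847820856) (nat_lit 152) (nat_lit 69913092890) (nat_lit 7) (nat_lit 5) (nat_lit 8) (nat_lit 5) (nat_lit 9) (nat_lit 4) (nat_lit 326) (nat_lit 253) (nat_lit 141)) (XT.nd (nat_lit 78) (nat_lit 0) (nat_lit 0) (XT.lf (nat_lit 0) (nat_lit 20032471686) (nat_lit 76) (nat_lit 15290365380) (nat_lit 152) (nat_lit 65082163629) (nat_lit 7) (nat_lit 5) (nat_lit 8) (nat_lit 5) (nat_lit 9) (nat_lit 4) (nat_lit 327) (nat_lit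 253) (nat_lit 140)) (XT.lf (nat_lit 0) (nat_lit 39628613467) (nat_lit 76) (nat_lit 5258243794) (nat_lit 152) (nat_lit 60013933430) (nat_lit 7) (nat_lit 5) (nat_lit 8) (nat_lit 5) (nat_lit 9) (nat_lit 4) (nat_lit 328) (nat_lit 253) (nat_lit 139)))))) (XT.nd (nat_lit 312) (nat_lit 76) (nat_lit 0) (XT.nd (nat_lit 156) (nat_lit 76) (nat_lit 0) (XT.nd (nat_lit 78) (nat_lit 0) (nat_lit 0) (XT.lf (nat_lit 0) (nat_lit 55007548368) (nat_lit 152) (nat_lit 49506222580) (nat_lit 0) (nat_lit 5103679222) (nat_lit 7) (nat_lit 5) (nat_lit 9) (nat_lit 4) (nat_lit 7) (nat_lit 4) (nat_lit 329) (nat_lit 253) (nat_lit 138)) (XT.lf (nat_lit 0) (nat_lit 65716765047) (nat_lit 152) (nat_lit 33044884866) (nat_lit 0) (nat_lit 15804171471) (nat_lit 7) (nat_lit 5) (nat_lit 9) (nat_lit 4) (nat_lit 7) (nat_lit 4) (nat_lit 330) (nat_lit 253) (nat_lit 137))) (XT.nd (nat_lit 78) (nat_lit 76) (nat_lit 0) (XT.lf (nat_lit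 0) (nat_lit 76957909511) (nat_lit 152) (nat_lit 15766874499) (nat_lit 0) (nat_lit 27037006954) (nat_lit 7) (nat_lit 5) (nat_lit 9) (nat_lit 4) (nat_lit 7) (nat_lit 4) (nat_lit 331) (nat_lit 253) (nat_lit 136)) (XT.lf (nat_lit 0) (nat_lit 2447274713) (nat_lit 76) (nat_lit 86348680493) (nat_lit 76) (nat_lit 36419864622) (nat_lit 6) (nat_lit 4) (nat_lit 7) (nat_lit 5) (nat_lit 7) (nat_lit 4) (nat_lit 332) (nat_lit 253) (nat_lit 135)))) (XT.nd (nat_lit 156) (nat_lit 76) (nat_lit 0) (XT.nd (nat_lit 78) (nat_lit 0) (nat_lit 0) (XT.lf (nat_lit 0) (nat_lit 22113530143) (nat_lit 76) (nat_lit 79376094569) (nat_lit 76) (nat_lit 29439742208) (nat_lit 6) (nat_lit 4) (nat_lit 7) (nat_lit 5) (nat_lit 7) (nat_lit 4) (nat_lit 333) (nat_lit 253) (nat_lit 134)) (XT.lf (nat_lit 0) (nat_lit 42757392131) (nat_lit 76) (nat_lit 72057444492) (nat_lit 76) (nat_lit 22113914521) (nat_lit 6) (nat_lit 4) (nat_lit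 7) (nat_lit 5) (nat_lit 7) (nat_lit 4) (nat_lit 334) (nat_lit 253) (nat_lit 133))) (XT.nd (nat_lit 78) (nat_lit 76) (nat_lit 0) (XT.lf (nat_lit 0) (nat_lit 64428012729) (nat_lit 76) (nat_lit 64375304905) (nat_lit 76) (nat_lit 14424939115) (nat_lit 6) (nat_lit 4) (nat_lit 7) (nat_lit 5) (nat_lit 7) (nat_lit 4) (nat_lit 335) (nat_lit 253) (nat_lit 132)) (XT.nd (nat_lit 78) (nat_lit 76) (nat_lit 0) (XT.lf (nat_lit 0) (nat_lit 87176988654) (nat_lit 76) (nat_lit 56311385000) (nat_lit 76) (nat_lit 6354508906) (nat_lit 6) (nat_lit 4) (nat_lit 7) (nat_lit 5) (nat_lit 7) (nat_lit 4) (nat_lit 336) (nat_lit 253) (nat_lit 131)) (XT.lf (nat_lit 0) (nat_lit 2048847272) (nat_lit 152) (nat_lit 45762939474) (nat_lit 76) (nat_lit 108974938640) (nat_lit 5) (nat_lit 5) (nat_lit 7) (nat_lit 5) (nat_lit 6) (nat_lit 4) (nat_lit 337) (nat_lit 253) (nat_lit 130))))))))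
noncomputable def xc153 : XT := (XT.nd (nat_lit 1404) (nat_lit 0) (nat_lit 0) (XT.nd (nat_lit 702) (nat_lit 76) (nat_lit 0) (XT.nd (nat_lit 312) (nat_lit 0) (nat_lit 0) (XT.nd (nat_lit 156) (nat_lit 76) (nat_lit 0) (XT.nd (nat_lit 78) (nat_lit 0) (nat_lit 0) (XT.lf (nat_lit 0) (nat_lit 10656189393) (nat_lit 152) (nat_lit 28123793164) (nat_lit 76) (nat_lit 125292702753) (nat_lit 5) (nat_lit 5) (nat_lit 7) (nat_lit 5) (nat_lit 6) (nat_lit 4) (nat_lit 338) (nat_lit 253) (nat_lit 129)) (XT.lf (nat_lit 0) (nat_lit 19691395096) (nat_lit 152) (nat_lit 9607245318) (nat_lit 76) (nat_lit 142424430026) (nat_lit 5) (nat_lit 5) (nat_lit 7) (nat_lit 5) (nat_lit 6) (nat_lit 4) (nat_lit 339) (nat_lit 253) (nat_lit 128))) (XT.nd (nat_lit 78) (nat_lit 0) (nat_lit 0) (XT.lf (nat_lit 0) (nat_lit 10155841433) (nat_lit 76) (nat_lit 19178696489) (nat_lit 152) (nat_lit 150413629998) (nat_lit 4) (nat_lit 5)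 (nat_lit 5) (nat_lit 5) (nat_lit 6) (nat_lit 4) (nat_lit 340) (nat_lit 253) (nat_lit 127)) (XT.lf (nat_lit 0) (nat_lit 31236355531) (nat_lit 76) (nat_lit 8383848290) (nat_lit 152) (nat_lit 148546300002) (nat_lit 4) (nat_lit 5) (nat_lit 5) (nat_lit 5) (nat_lit 6) (nat_lit 4) (nat_lit 341) (nat_lit 253) (nat_lit 126)))) (XT.nd (nat_lit 156) (nat_lit 0) (nat_lit 0) (XT.nd (nat_lit 78) (nat_lit 0) (nat_lit 0) (XT.lf (nat_lit 0) (nat_lit 50463967539) (nat_lit 152) (nat_lit 143685080464) (nat_lit 0) (nat_lit 2854519547) (nat_lit 4) (nat_lit 5) (nat_lit 6) (nat_lit 4) (nat_lit 4) (nat_lit 4) (nat_lit 342) (nat_lit 253) (nat_lit 125)) (XT.lf (nat_lit 0) (nat_lit 61985212120) (nat_lit 152) (nat_lit 129919151684) (nat_lit 0) (nat_lit 14371357699) (nat_lit 4) (nat_lit 5) (nat_lit 6) (nat_lit 4) (nat_lit 4) (nat_lit 4) (nat_lit 343) (nat_lit 253) (nat_lit 124))) (XT.nd (nat_lit 78) (nat_lit 0)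 (nat_lit 0) (XT.lf (nat_lit 0) (nat_lit 74080473731) (nat_lit 152) (nat_lit 115468690565) (nat_lit 0) (nat_lit 26462422710) (nat_lit 4) (nat_lit 5) (nat_lit 6) (nat_lit 4) (nat_lit 4) (nat_lit 4) (nat_lit 344) (nat_lit 253) (nat_lit 123)) (XT.nd (nat_lit 78) (nat_lit 0) (nat_lit 0) (XT.lf (nat_lit 0) (nat_lit 86778550615) (nat_lit 152) (nat_lit 100299291247) (nat_lit 0) (nat_lit 39156502832) (nat_lit 4) (nat_lit 5) (nat_lit 6) (nat_lit 4) (nat_lit 4) (nat_lit 4) (nat_lit 345) (nat_lit 253) (nat_lit 122)) (XT.lf (nat_lit 0) (nat_lit 100109676287) (nat_lit 152) (nat_lit 84374836112) (nat_lit 0) (nat_lit 52483822064) (nat_lit 4) (nat_lit 5) (nat_lit 6) (nat_lit 4) (nat_lit 4) (nat_lit 4) (nat_lit 346) (nat_lit 253) (nat_lit 121)))))) (XT.nd (nat_lit 312) (nat_lit 76) (nat_lit 0) (XT.nd (nat_lit 156) (nat_lit 0) (nat_lit 0) (XT.nd (nat_lit 78) (nat_lit 0) (nat_lit 0) (XT.lf (nat_lit 0)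 (nat_lit 114105591522) (nat_lit 152) (nat_lit 67657409791) (nat_lit 0) (nat_lit 66476112119) (nat_lit 4) (nat_lit 5) (nat_lit 6) (nat_lit 4) (nat_lit 4) (nat_lit 4) (nat_lit 347) (nat_lit 253) (nat_lit 120)) (XT.lf (nat_lit 0) (nat_lit 128799619930) (nat_lit 152) (nat_lit 50107208887) (nat_lit 0) (nat_lit 81166687973) (nat_lit 4) (nat_lit 5) (nat_lit 6) (nat_lit 4) (nat_lit 4) (nat_lit 4) (nat_lit 348) (nat_lit 253) (nat_lit 119))) (XT.nd (nat_lit 78) (nat_lit 0) (nat_lit 0) (XT.lf (nat_lit 0) (nat_lit 144226747290) (nat_lit 152) (nat_lit 31682447209) (nat_lit 0) (nat_lit 96590527188) (nat_lit 4) (nat_lit 5) (nat_lit 6) (nat_lit 4) (nat_lit 4) (nat_lit 4) (nat_lit 349) (nat_lit 253) (nat_lit 118)) (XT.lf (nat_lit 0) (nat_lit 160423704860) (nat_lit 152) (nat_lit 12339256276) (nat_lit 0) (nat_lit 112784353191) (nat_lit 4) (nat_lit 5) (nat_lit 6) (nat_lit 4) (nat_lit 4) (nat_lit 4) (nat_lit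 350) (nat_lit 253) (nat_lit 117)))) (XT.nd (nat_lit 156) (nat_lit 0) (nat_lit 0) (XT.nd (nat_lit 78) (nat_lit 0) (nat_lit 0) (XT.lf (nat_lit 0) (nat_lit 8231891050) (nat_lit 76) (nat_lit 169325688663) (nat_lit 76) (nat_lit 121683354548) (nat_lit 3) (nat_lit 4) (nat_lit 4) (nat_lit 5) (nat_lit 4) (nat_lit 4) (nat_lit 351) (nat_lit 253) (nat_lit 116)) (XT.lf (nat_lit 0) (nat_lit 30257354930) (nat_lit 76) (nat_lit 165498339291) (nat_lit 76) (nat_lit 117853164752) (nat_lit 3) (nat_lit 4) (nat_lit 4) (nat_lit 5) (nat_lit 4) (nat_lit 4) (nat_lit 352) (nat_lit 253) (nat_lit 115))) (XT.nd (nat_lit 78) (nat_lit 0) (nat_lit 0) (XT.lf (nat_lit 0) (nat_lit 53381585405) (nat_lit 76) (nat_lit 161480771561) (nat_lit 76) (nat_lit 113832891857) (nat_lit 3) (nat_lit 4) (nat_lit 4) (nat_lit 5) (nat_lit 4) (nat_lit 4) (nat_lit 353) (nat_lit 253) (nat_lit 114)) (XT.nd (nat_lit 78) (nat_lit 0) (nat_lit 0)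 (XT.lf (nat_lit 0) (nat_lit 77659640167) (nat_lit 76) (nat_lit 157263419836) (nat_lit 76) (nat_lit 109612963783) (nat_lit 3) (nat_lit 4) (nat_lit 4) (nat_lit 5) (nat_lit 4) (nat_lit 4) (nat_lit 354) (nat_lit 253) (nat_lit 113)) (XT.lf (nat_lit 0) (nat_lit 103149324107) (nat_lit 76) (nat_lit 152836242801) (nat_lit 76) (nat_lit 105183333083) (nat_lit 3) (nat_lit 4) (nat_lit 4) (nat_lit 5) (nat_lit 4) (nat_lit 4) (nat_lit 355) (nat_lit 253) (nat_lit 112))))))) (XT.nd (nat_lit 29874) (nat_lit 0) (nat_lit 5092) (XT.nd (nat_lit 312) (nat_lit 0) (nat_lit 0) (XT.nd (nat_lit 156) (nat_lit 0) (nat_lit 0) (XT.nd (nat_lit 78) (nat_lit 0) (nat_lit 0) (XT.lf (nat_lit 0) (nat_lit 129911326951) (nat_lit 76) (nat_lit 148188699559) (nat_lit 76) (nat_lit 100533453018) (nat_lit 3) (nat_lit 4) (nat_lit 4) (nat_lit 5) (nat_lit 4) (nat_lit 4) (nat_lit 356) (nat_lit 253) (nat_lit 111)) (XT.lf (nat_lit 0) (nat_lit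 158009367751) (nat_lit 76) (nat_lit 143309724532) (nat_lit 76) (nat_lit 95652252444) (nat_lit 3) (nat_lit 4) (nat_lit 4) (nat_lit 5) (nat_lit 4) (nat_lit 4) (nat_lit 357) (nat_lit 253) (nat_lit 110))) (XT.nd (nat_lit 78) (nat_lit 0) (nat_lit 0) (XT.lf (nat_lit 0) (nat_lit 187510346606) (nat_lit 76) (nat_lit 138187701110) (nat_lit 76) (nat_lit 90528109454) (nat_lit 3) (nat_lit 4) (nat_lit 4) (nat_lit 5) (nat_lit 4) (nat_lit 4) (nat_lit 358) (nat_lit 253) (nat_lit 109)) (XT.lf (nat_lit 0) (nat_lit 218484503941) (nat_lit 76) (nat_lit 132810434002) (nat_lit 76) (nat_lit 85148823710) (nat_lit 3) (nat_lit 4) (nat_lit 4) (nat_lit 5) (nat_lit 4) (nat_lit 4) (nat_lit 359) (nat_lit 253) (nat_lit 108)))) (XT.nd (nat_lit 29328) (nat_lit 0) (nat_lit 6156) (XT.nd (nat_lit 29250) (nat_lit 0) (nat_lit 6156) (XT.lf (nat_lit 0) (nat_lit 251005587749) (nat_lit 76) (nat_lit 127165120190) (nat_lit 76) (nat_lit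 79501587387) (nat_lit 3) (nat_lit 4) (nat_lit 4) (nat_lit 5) (nat_lit 4) (nat_lit 4) (nat_lit 360) (nat_lit 253) (nat_lit 107)) (XT.lf (nat_lit 0) (nat_lit 300365770) (nat_lit 684) (nat_lit 2042791651) (nat_lit 684) (nat_lit 2042791651) (nat_lit 84) (nat_lit 3) (nat_lit 93) (nat_lit 3) (nat_lit 93) (nat_lit 5) (nat_lit 254) (nat_lit 254) (nat_lit 212))) (XT.nd (nat_lit 78) (nat_lit 0) (nat_lit 76) (XT.lf (nat_lit 0) (nat_lit 1497273900) (nat_lit 684) (nat_lit 234990723) (nat_lit 684) (nat_lit 7212027582) (nat_lit 84) (nat_lit 3) (nat_lit 93) (nat_lit 3) (nat_lit 93) (nat_lit 5) (nat_lit 255) (nat_lit 254) (nat_lit 211)) (XT.nd (nat_lit 78) (nat_lit 0) (nat_lit 0) (XT.lf (nat_lit 0) (nat_lit 2465954686) (nat_lit 608) (nat_lit 5244711424) (nat_lit 684) (nat_lit 1413455268) (nat_lit 85) (nat_lit 5) (nat_lit 93) (nat_lit 5) (nat_lit 94) (nat_lit 5) (nat_lit 256) (nat_lit 254) (nat_lit 210))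 (XT.lf (nat_lit 0) (nat_lit 3461704002) (nat_lit 608) (nat_lit 1166025205) (nat_lit 684) (nat_lit 4686453437) (nat_lit 85) (nat_lit 5) (nat_lit 93) (nat_lit 5) (nat_lit 94) (nat_lit 5) (nat_lit 257) (nat_lit 254) (nat_lit 209)))))) (XT.nd (nat_lit 312) (nat_lit 1140) (nat_lit 0) (XT.nd (nat_lit 156) (nat_lit 0) (nat_lit 76) (XT.nd (nat_lit 78) (nat_lit 0) (nat_lit 76) (XT.lf (nat_lit 76) (nat_lit 3187660194) (nat_lit 0) (nat_lit 1318102980) (nat_lit 684) (nat_lit 5008221829) (nat_lit 86) (nat_lit 5) (nat_lit 85) (nat_lit 5) (nat_lit 94) (nat_lit 5) (nat_lit 258) (nat_lit 254) (nat_lit 208)) (XT.lf (nat_lit 0) (nat_lit 5606785742) (nat_lit 608) (nat_lit 1990654146) (nat_lit 684) (nat_lit 2126255903) (nat_lit 86) (nat_lit 5) (nat_lit 94) (nat_lit 5) (nat_lit 95) (nat_lit 5) (nat_lit 259) (nat_lit 254) (nat_lit 207))) (XT.nd (nat_lit 78) (nat_lit 0) (nat_lit 0) (XT.lf (nat_lit 76) (nat_lit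 2591345285) (nat_lit 0) (nat_lit 4186925919) (nat_lit 684) (nat_lit 3164999217) (nat_lit 87) (nat_lit 5) (nat_lit 86) (nat_lit 5) (nat_lit 95) (nat_lit 5) (nat_lit 260) (nat_lit 254) (nat_lit 206)) (XT.lf (nat_lit 76) (nat_lit 7440282626) (nat_lit 0) (nat_lit 556839749) (nat_lit 684) (nat_lit 2177403632) (nat_lit 87) (nat_lit 5) (nat_lit 86) (nat_lit 5) (nat_lit 95) (nat_lit 5) (nat_lit 261) (nat_lit 254) (nat_lit 205)))) (XT.nd (nat_lit 156) (nat_lit 608) (nat_lit 0) (XT.nd (nat_lit 78) (nat_lit 684) (nat_lit 0) (XT.lf (nat_lit 76) (nat_lit 2098407857) (nat_lit 0) (nat_lit 7219506850) (nat_lit 684) (nat_lit 1097514784) (nat_lit 88) (nat_lit 5) (nat_lit 87) (nat_lit 5) (nat_lit 96) (nat_lit 5) (nat_lit 262) (nat_lit 254) (nat_lit 204)) (XT.lf (nat_lit 0) (nat_lit 49553262) (nat_lit 684) (nat_lit 3442146594) (nat_lit 760) (nat_lit 7176054954) (nat_lit 78) (nat_lit 5) (nat_lit 87) (nat_lit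 5) (nat_lit 88) (nat_lit 5) (nat_lit 263) (nat_lit 254) (nat_lit 203))) (XT.nd (nat_lit 78) (nat_lit 684) (nat_lit 0) (XT.lf (nat_lit 0) (nat_lit 1210927319) (nat_lit 684) (nat_lit 9259436885) (nat_lit 76) (nat_lit 461857432) (nat_lit 79) (nat_lit 5) (nat_lit 88) (nat_lit 5) (nat_lit 80) (nat_lit 5) (nat_lit 264) (nat_lit 254) (nat_lit 202)) (XT.nd (nat_lit 78) (nat_lit 684) (nat_lit 0) (XT.lf (nat_lit 0) (nat_lit 2508534247) (nat_lit 684) (nat_lit 4135527232) (nat_lit 76) (nat_lit 4562053219) (nat_lit 79) (nat_lit 5) (nat_lit 88) (nat_lit 5) (nat_lit 80) (nat_lit 5) (nat_lit 265) (nat_lit 254) (nat_lit 201)) (XT.lf (nat_lit 0) (nat_lit 1252966618) (nat_lit 684) (nat_lit 2601115437) (nat_lit 760) (nat_lit 7640573144) (nat_lit 70) (nat_lit 5) (nat_lit 79) (nat_lit 5) (nat_lit 80) (nat_lit 5) (nat_lit 266) (nat_lit 254) (nat_lit 200))))))))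
noncomputable def xc154 : XT := (XT.nd (nat_lit 1404) (nat_lit 1444) (nat_lit 0) (XT.nd (nat_lit 702) (nat_lit 1064) (nat_lit 0) (XT.nd (nat_lit 312) (nat_lit 684) (nat_lit 0) (XT.nd (nat_lit 156) (nat_lit 380) (nat_lit 0) (XT.nd (nat_lit 78) (nat_lit 380) (nat_lit 0) (XT.lf (nat_lit 0) (nat_lit 5328572102) (nat_lit 760) (nat_lit 4799603833) (nat_lit 76) (nat_lit 1666464323) (nat_lit 70) (nat_lit 5) (nat_lit 80) (nat_lit 5) (nat_lit 71) (nat_lit 5) (nat_lit 267) (nat_lit 254) (nat_lit 199)) (XT.lf (nat_lit 0) (nat_lit 868179617) (nat_lit 380) (nat_lit 6031291023) (nat_lit 456) (nat_lit 5209115704) (nat_lit 65) (nat_lit 5) (nat_lit 70) (nat_lit 5) (nat_lit 71) (nat_lit 5) (nat_lit 268) (nat_lit 254) (nat_lit 198))) (XT.nd (nat_lit 78) (nat_lit 380) (nat_lit 0) (XT.lf (nat_lit 0) (nat_lit 6954941076) (nat_lit 380) (nat_lit 1642855827) (nat_lit 456) (nat_lit 3838080097) (nat_lit 65) (nat_lit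 5) (nat_lit 70) (nat_lit 5) (nat_lit 71) (nat_lit 5) (nat_lit 269) (nat_lit 254) (nat_lit 197)) (XT.lf (nat_lit 0) (nat_lit 505170553) (nat_lit 380) (nat_lit 9899210306) (nat_lit 456) (nat_lit 2374071313) (nat_lit 60) (nat_lit 5) (nat_lit 65) (nat_lit 5) (nat_lit 66) (nat_lit 5) (nat_lit 270) (nat_lit 254) (nat_lit 196)))) (XT.nd (nat_lit 156) (nat_lit 304) (nat_lit 0) (XT.nd (nat_lit 78) (nat_lit 380) (nat_lit 0) (XT.lf (nat_lit 0) (nat_lit 6922334475) (nat_lit 380) (nat_lit 5468430768) (nat_lit 456) (nat_lit 743000204) (nat_lit 60) (nat_lit 5) (nat_lit 65) (nat_lit 5) (nat_lit 66) (nat_lit 5) (nat_lit 271) (nat_lit 254) (nat_lit 195)) (XT.lf (nat_lit 0) (nat_lit 111665977) (nat_lit 304) (nat_lit 799698029) (nat_lit 380) (nat_lit 12596159972) (nat_lit 55) (nat_lit 5) (nat_lit 59) (nat_lit 5) (nat_lit 60) (nat_lit 5) (nat_lit 272) (nat_lit 254) (nat_lit 194))) (XT.nd (nat_lit 78) (nat_lit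 304) (nat_lit 0) (XT.lf (nat_lit 0) (nat_lit 2766363295) (nat_lit 380) (nat_lit 7037342545) (nat_lit 76) (nat_lit 4088582872) (nat_lit 55) (nat_lit 5) (nat_lit 60) (nat_lit 5) (nat_lit 56) (nat_lit 5) (nat_lit 273) (nat_lit 254) (nat_lit 193)) (XT.nd (nat_lit 78) (nat_lit 304) (nat_lit 0) (XT.lf (nat_lit 0) (nat_lit 4700477013) (nat_lit 380) (nat_lit 403764002) (nat_lit 76) (nat_lit 9192800650) (nat_lit 55) (nat_lit 5) (nat_lit 60) (nat_lit 5) (nat_lit 56) (nat_lit 5) (nat_lit 274) (nat_lit 254) (nat_lit 192)) (XT.lf (nat_lit 0) (nat_lit 6749173075) (nat_lit 304) (nat_lit 62025098) (nat_lit 380) (nat_lit 7906903965) (nat_lit 51) (nat_lit 5) (nat_lit 55) (nat_lit 5) (nat_lit 56) (nat_lit 5) (nat_lit 275) (nat_lit 254) (nat_lit 191)))))) (XT.nd (nat_lit 312) (nat_lit 456) (nat_lit 0) (XT.nd (nat_lit 156) (nat_lit 380) (nat_lit 0) (XT.nd (nat_lit 78) (nat_lit 228) (nat_lit 0) (XT.lf (nat_lit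 0) (nat_lit 9091352514) (nat_lit 380) (nat_lit 997027836) (nat_lit 76) (nat_lit 5068702295) (nat_lit 51) (nat_lit 5) (nat_lit 56) (nat_lit 5) (nat_lit 52) (nat_lit 5) (nat_lit 276) (nat_lit 254) (nat_lit 190)) (XT.lf (nat_lit 0) (nat_lit 6502844333) (nat_lit 228) (nat_lit 5061649138) (nat_lit 304) (nat_lit 4049628683) (nat_lit 48) (nat_lit 5) (nat_lit 51) (nat_lit 5) (nat_lit 52) (nat_lit 5) (nat_lit 277) (nat_lit 254) (nat_lit 189))) (XT.nd (nat_lit 78) (nat_lit 380) (nat_lit 0) (XT.lf (nat_lit 0) (nat_lit 14158893832) (nat_lit 304) (nat_lit 1712922508) (nat_lit 76) (nat_lit 222373294) (nat_lit 48) (nat_lit 5) (nat_lit 52) (nat_lit 5) (nat_lit 49) (nat_lit 5) (nat_lit 278) (nat_lit 254) (nat_lit 188)) (XT.lf (nat_lit 0) (nat_lit 435185915) (nat_lit 380) (nat_lit 10455599213) (nat_lit 76) (nat_lit 5699326663) (nat_lit 43) (nat_lit 5) (nat_lit 48) (nat_lit 5) (nat_lit 44) (nat_lit 5)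 (nat_lit 279) (nat_lit 254) (nat_lit 187)))) (XT.nd (nat_lit 156) (nat_lit 228) (nat_lit 0) (XT.nd (nat_lit 78) (nat_lit 228) (nat_lit 0) (XT.lf (nat_lit 0) (nat_lit 2867018960) (nat_lit 380) (nat_lit 2735188452) (nat_lit 76) (nat_lit 11506691517) (nat_lit 43) (nat_lit 5) (nat_lit 48) (nat_lit 5) (nat_lit 44) (nat_lit 5) (nat_lit 280) (nat_lit 254) (nat_lit 186)) (XT.lf (nat_lit 0) (nat_lit 5486625652) (nat_lit 304) (nat_lit 12129062813) (nat_lit 76) (nat_lit 34674024) (nat_lit 40) (nat_lit 5) (nat_lit 44) (nat_lit 5) (nat_lit 41) (nat_lit 5) (nat_lit 281) (nat_lit 254) (nat_lit 185))) (XT.nd (nat_lit 78) (nat_lit 228) (nat_lit 0) (XT.lf (nat_lit 0) (nat_lit 8356035159) (nat_lit 304) (nat_lit 4050236275) (nat_lit 76) (nat_lit 5806730637) (nat_lit 40) (nat_lit 5) (nat_lit 44) (nat_lit 5) (nat_lit 41) (nat_lit 5) (nat_lit 282) (nat_lit 254) (nat_lit 184)) (XT.nd (nat_lit 78) (nat_lit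 0) (nat_lit 0) (XT.lf (nat_lit 0) (nat_lit 4552894478) (nat_lit 228) (nat_lit 6867963059) (nat_lit 304) (nat_lit 7380360848) (nat_lit 37) (nat_lit 5) (nat_lit 40) (nat_lit 5) (nat_lit 41) (nat_lit 5) (nat_lit 283) (nat_lit 254) (nat_lit 183)) (XT.lf (nat_lit 0) (nat_lit 13701847663) (nat_lit 228) (nat_lit 987046988) (nat_lit 304) (nat_lit 4727492063) (nat_lit 37) (nat_lit 5) (nat_lit 40) (nat_lit 5) (nat_lit 41) (nat_lit 5) (nat_lit 284) (nat_lit 254) (nat_lit 182))))))) (XT.nd (nat_lit 702) (nat_lit 608) (nat_lit 0) (XT.nd (nat_lit 312) (nat_lit 380) (nat_lit 0) (XT.nd (nat_lit 156) (nat_lit 228) (nat_lit 0) (XT.nd (nat_lit 78) (nat_lit 76) (nat_lit 0) (XT.lf (nat_lit 0) (nat_lit 3244179574) (nat_lit 152) (nat_lit 14989976079) (nat_lit 228) (nat_lit 1822504687) (nat_lit 35) (nat_lit 5) (nat_lit 37) (nat_lit 5) (nat_lit 38) (nat_lit 5) (nat_lit 285) (nat_lit 254) (nat_lit 181)) (XT.lf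 (nat_lit 0) (nat_lit 1285308089) (nat_lit 228) (nat_lit 7936628482) (nat_lit 76) (nat_lit 11501243551) (nat_lit 34) (nat_lit 5) (nat_lit 37) (nat_lit 5) (nat_lit 35) (nat_lit 5) (nat_lit 286) (nat_lit 254) (nat_lit 180))) (XT.nd (nat_lit 78) (nat_lit 0) (nat_lit 0) (XT.lf (nat_lit 0) (nat_lit 1373466593) (nat_lit 228) (nat_lit 3118407141) (nat_lit 304) (nat_lit 16929460595) (nat_lit 31) (nat_lit 5) (nat_lit 34) (nat_lit 5) (nat_lit 35) (nat_lit 5) (nat_lit 287) (nat_lit 254) (nat_lit 179)) (XT.lf (nat_lit 0) (nat_lit 8030250747) (nat_lit 304) (nat_lit 10800636690) (nat_lit 76) (nat_lit 3314965902) (nat_lit 31) (nat_lit 5) (nat_lit 35) (nat_lit 5) (nat_lit 32) (nat_lit 5) (nat_lit 288) (nat_lit 254) (nat_lit 178)))) (XT.nd (nat_lit 156) (nat_lit 228) (nat_lit 0) (XT.nd (nat_lit 78) (nat_lit 152) (nat_lit 0) (XT.lf (nat_lit 0) (nat_lit 11780952041) (nat_lit 304) (nat_lit 1165017880) (nat_lit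 76) (nat_lit 9958887866) (nat_lit 31) (nat_lit 5) (nat_lit 35) (nat_lit 5) (nat_lit 32) (nat_lit 5) (nat_lit 289) (nat_lit 254) (nat_lit 177)) (XT.lf (nat_lit 0) (nat_lit 9225904270) (nat_lit 152) (nat_lit 6622358735) (nat_lit 228) (nat_lit 7847124063) (nat_lit 29) (nat_lit 5) (nat_lit 31) (nat_lit 5) (nat_lit 32) (nat_lit 5) (nat_lit 290) (nat_lit 254) (nat_lit 176))) (XT.nd (nat_lit 78) (nat_lit 228) (nat_lit 0) (XT.lf (nat_lit 0) (nat_lit 20124569551) (nat_lit 228) (nat_lit 4370295641) (nat_lit 76) (nat_lit 30323112) (nat_lit 29) (nat_lit 5) (nat_lit 32) (nat_lit 5) (nat_lit 30) (nat_lit 5) (nat_lit 291) (nat_lit 254) (nat_lit 175)) (XT.nd (nat_lit 78) (nat_lit 76) (nat_lit 0) (XT.lf (nat_lit 0) (nat_lit 6306110112) (nat_lit 152) (nat_lit 18501604686) (nat_lit 228) (nat_lit 579139343) (nat_lit 27) (nat_lit 5) (nat_lit 29) (nat_lit 5) (nat_lit 30) (nat_lit 5) (nat_lit 292) (nat_lit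 254) (nat_lit 174)) (XT.lf (nat_lit 0) (nat_lit 3384850007) (nat_lit 228) (nat_lit 8695814614) (nat_lit 76) (nat_lit 14205215372) (nat_lit 26) (nat_lit 5) (nat_lit 29) (nat_lit 5) (nat_lit 27) (nat_lit 5) (nat_lit 293) (nat_lit 254) (nat_lit 173)))))) (XT.nd (nat_lit 312) (nat_lit 304) (nat_lit 0) (XT.nd (nat_lit 156) (nat_lit 152) (nat_lit 0) (XT.nd (nat_lit 78) (nat_lit 0) (nat_lit 0) (XT.lf (nat_lit 0) (nat_lit 2250756492) (nat_lit 152) (nat_lit 5298722223) (nat_lit 228) (nat_lit 19678830785) (nat_lit 24) (nat_lit 5) (nat_lit 26) (nat_lit 5) (nat_lit 27) (nat_lit 5) (nat_lit 294) (nat_lit 254) (nat_lit 172)) (XT.lf (nat_lit 0) (nat_lit 12087447575) (nat_lit 228) (nat_lit 14215190730) (nat_lit 76) (nat_lit 1906987891) (nat_lit 24) (nat_lit 5) (nat_lit 27) (nat_lit 5) (nat_lit 25) (nat_lit 5) (nat_lit 295) (nat_lit 254) (nat_lit 171))) (XT.nd (nat_lit 78) (nat_lit 152) (nat_lit 0)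 (XT.lf (nat_lit 0) (nat_lit 16926774587) (nat_lit 228) (nat_lit 3020987145) (nat_lit 76) (nat_lit 9288544151) (nat_lit 24) (nat_lit 5) (nat_lit 27) (nat_lit 5) (nat_lit 25) (nat_lit 5) (nat_lit 296) (nat_lit 254) (nat_lit 170)) (XT.lf (nat_lit 0) (nat_lit 9002577208) (nat_lit 152) (nat_lit 13134232307) (nat_lit 228) (nat_lit 8171092144) (nat_lit 22) (nat_lit 5) (nat_lit 24) (nat_lit 5) (nat_lit 25) (nat_lit 5) (nat_lit 297) (nat_lit 254) (nat_lit 169)))) (XT.nd (nat_lit 156) (nat_lit 152) (nat_lit 0) (XT.nd (nat_lit 78) (nat_lit 152) (nat_lit 0) (XT.lf (nat_lit 0) (nat_lit 21714011724) (nat_lit 152) (nat_lit 5932961021) (nat_lit 228) (nat_lit 3784141420) (nat_lit 22) (nat_lit 5) (nat_lit 24) (nat_lit 5) (nat_lit 25) (nat_lit 5) (nat_lit 298) (nat_lit 254) (nat_lit 168)) (XT.lf (nat_lit 0) (nat_lit 849863600) (nat_lit 152) (nat_lit 30134641419) (nat_lit 76) (nat_lit 1622655993) (nat_lit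 20) (nat_lit 5) (nat_lit 22) (nat_lit 5) (nat_lit 21) (nat_lit 5) (nat_lit 299) (nat_lit 254) (nat_lit 167))) (XT.nd (nat_lit 78) (nat_lit 152) (nat_lit 0) (XT.lf (nat_lit 0) (nat_lit 5841896163) (nat_lit 152) (nat_lit 18404682753) (nat_lit 76) (nat_lit 9579670351) (nat_lit 20) (nat_lit 5) (nat_lit 22) (nat_lit 5) (nat_lit 21) (nat_lit 5) (nat_lit 300) (nat_lit 254) (nat_lit 166)) (XT.nd (nat_lit 78) (nat_lit 152) (nat_lit 0) (XT.lf (nat_lit 0) (nat_lit 11073031309) (nat_lit 152) (nat_lit 6105259295) (nat_lit 76) (nat_lit 17928541313) (nat_lit 20) (nat_lit 5) (nat_lit 22) (nat_lit 5) (nat_lit 21) (nat_lit 5) (nat_lit 301) (nat_lit 254) (nat_lit 165)) (XT.lf (nat_lit 0) (nat_lit 7017517686) (nat_lit 152) (nat_lit 9647769550) (nat_lit 228) (nat_lit 19781192576) (nat_lit 18) (nat_lit 5) (nat_lit 20) (nat_lit 5) (nat_lit 21) (nat_lit 5) (nat_lit 302) (nat_lit 254) (nat_lit 164))))))))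
noncomputable def xc155 : XT := (XT.nd (nat_lit 1404) (nat_lit 380) (nat_lit 0) (XT.nd (nat_lit 702) (nat_lit 228) (nat_lit 0) (XT.nd (nat_lit 312) (nat_lit 228) (nat_lit 0) (XT.nd (nat_lit 156) (nat_lit 152) (nat_lit 0) (XT.nd (nat_lit 78) (nat_lit 0) (nat_lit 0) (XT.lf (nat_lit 0) (nat_lit 20992433941) (nat_lit 152) (nat_lit 1638345410) (nat_lit 228) (nat_lit 15217663215) (nat_lit 18) (nat_lit 5) (nat_lit 20) (nat_lit 5) (nat_lit 21) (nat_lit 5) (nat_lit 303) (nat_lit 254) (nat_lit 163)) (XT.lf (nat_lit 0) (nat_lit 28990870136) (nat_lit 228) (nat_lit 3775717004) (nat_lit 76) (nat_lit 6549113097) (nat_lit 18) (nat_lit 5) (nat_lit 21) (nat_lit 5) (nat_lit 19) (nat_lit 4) (nat_lit 304) (nat_lit 254) (nat_lit 162))) (XT.nd (nat_lit 78) (nat_lit 76) (nat_lit 0) (XT.lf (nat_lit 0) (nat_lit 10244783674) (nat_lit 76) (nat_lit 25602038446) (nat_lit 152) (nat_lit 5000618204) (nat_lit 17) (nat_lit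 5) (nat_lit 18) (nat_lit 5) (nat_lit 19) (nat_lit 4) (nat_lit 305) (nat_lit 254) (nat_lit 161)) (XT.lf (nat_lit 0) (nat_lit 627010806) (nat_lit 152) (nat_lit 17380344019) (nat_lit 76) (nat_lit 24445159185) (nat_lit 16) (nat_lit 5) (nat_lit 18) (nat_lit 5) (nat_lit 17) (nat_lit 5) (nat_lit 306) (nat_lit 254) (nat_lit 160)))) (XT.nd (nat_lit 156) (nat_lit 76) (nat_lit 0) (XT.nd (nat_lit 78) (nat_lit 152) (nat_lit 0) (XT.lf (nat_lit 0) (nat_lit 6359483978) (nat_lit 152) (nat_lit 3593093852) (nat_lit 76) (nat_lit 34181599550) (nat_lit 16) (nat_lit 5) (nat_lit 18) (nat_lit 5) (nat_lit 17) (nat_lit 5) (nat_lit 307) (nat_lit 254) (nat_lit 159)) (XT.lf (nat_lit 0) (nat_lit 11229405404) (nat_lit 152) (nat_lit 1316418154) (nat_lit 228) (nat_lit 33345748396) (nat_lit 14) (nat_lit 5) (nat_lit 16) (nat_lit 5) (nat_lit 17) (nat_lit 5) (nat_lit 308) (nat_lit 254) (nat_lit 158))) (XT.nd (nat_lit 78)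 (nat_lit 76) (nat_lit 0) (XT.lf (nat_lit 0) (nat_lit 19216364761) (nat_lit 228) (nat_lit 20951667800) (nat_lit 76) (nat_lit 7560069153) (nat_lit 14) (nat_lit 5) (nat_lit 17) (nat_lit 5) (nat_lit 15) (nat_lit 4) (nat_lit 309) (nat_lit 254) (nat_lit 157)) (XT.nd (nat_lit 78) (nat_lit 76) (nat_lit 0) (XT.lf (nat_lit 0) (nat_lit 26234406883) (nat_lit 228) (nat_lit 6590202682) (nat_lit 76) (nat_lit 16831158931) (nat_lit 14) (nat_lit 5) (nat_lit 17) (nat_lit 5) (nat_lit 15) (nat_lit 4) (nat_lit 310) (nat_lit 254) (nat_lit 156)) (XT.lf (nat_lit 0) (nat_lit 8757262842) (nat_lit 76) (nat_lit 24975569142) (nat_lit 152) (nat_lit 17940521377) (nat_lit 13) (nat_lit 5) (nat_lit 14) (nat_lit 5) (nat_lit 15) (nat_lit 4) (nat_lit 311) (nat_lit 254) (nat_lit 155)))))) (XT.nd (nat_lit 312) (nat_lit 76) (nat_lit 0) (XT.nd (nat_lit 156) (nat_lit 152) (nat_lit 0) (XT.nd (nat_lit 78) (nat_lit 0) (nat_lit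 0) (XT.lf (nat_lit 0) (nat_lit 25088738006) (nat_lit 76) (nat_lit 16621959185) (nat_lit 152) (nat_lit 12075902706) (nat_lit 13) (nat_lit 5) (nat_lit 14) (nat_lit 5) (nat_lit 15) (nat_lit 4) (nat_lit 312) (nat_lit 254) (nat_lit 154)) (XT.lf (nat_lit 0) (nat_lit 42225205409) (nat_lit 76) (nat_lit 7855498417) (nat_lit 152) (nat_lit 5925150496) (nat_lit 13) (nat_lit 5) (nat_lit 14) (nat_lit 5) (nat_lit 15) (nat_lit 4) (nat_lit 313) (nat_lit 254) (nat_lit 153))) (XT.nd (nat_lit 78) (nat_lit 0) (nat_lit 0) (XT.lf (nat_lit 0) (nat_lit 561199976) (nat_lit 152) (nat_lit 56431667492) (nat_lit 76) (nat_lit 1340538817) (nat_lit 11) (nat_lit 5) (nat_lit 13) (nat_lit 5) (nat_lit 12) (nat_lit 4) (nat_lit 314) (nat_lit 254) (nat_lit 152)) (XT.lf (nat_lit 0) (nat_lit 7532253370) (nat_lit 152) (nat_lit 42160052371) (nat_lit 76) (nat_lit 11062204847) (nat_lit 11) (nat_lit 5) (nat_lit 13) (nat_lit 5) (nat_lit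 12) (nat_lit 4) (nat_lit 315) (nat_lit 254) (nat_lit 151)))) (XT.nd (nat_lit 156) (nat_lit 76) (nat_lit 0) (XT.nd (nat_lit 78) (nat_lit 0) (nat_lit 0) (XT.lf (nat_lit 0) (nat_lit 14845690628) (nat_lit 152) (nat_lit 27185643455) (nat_lit 76) (nat_lit 21265651019) (nat_lit 11) (nat_lit 5) (nat_lit 13) (nat_lit 5) (nat_lit 12) (nat_lit 4) (nat_lit 316) (nat_lit 254) (nat_lit 150)) (XT.lf (nat_lit 0) (nat_lit 22518924695) (nat_lit 152) (nat_lit 11472787390) (nat_lit 76) (nat_lit 31975171254) (nat_lit 11) (nat_lit 5) (nat_lit 13) (nat_lit 5) (nat_lit 12) (nat_lit 4) (nat_lit 317) (nat_lit 254) (nat_lit 149))) (XT.nd (nat_lit 78) (nat_lit 0) (nat_lit 0) (XT.lf (nat_lit 0) (nat_lit 5181776597) (nat_lit 76) (nat_lit 25469350635) (nat_lit 152) (nat_lit 38115389867) (nat_lit 10) (nat_lit 5) (nat_lit 11) (nat_lit 5) (nat_lit 12) (nat_lit 4) (nat_lit 318) (nat_lit 254) (nat_lit 148)) (XT.nd (nat_lit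 78) (nat_lit 0) (nat_lit 0) (XT.lf (nat_lit 0) (nat_lit 23057751772) (nat_lit 76) (nat_lit 16321006190) (nat_lit 152) (nat_lit 32317939346) (nat_lit 10) (nat_lit 5) (nat_lit 11) (nat_lit 5) (nat_lit 12) (nat_lit 4) (nat_lit 319) (nat_lit 254) (nat_lit 147)) (XT.lf (nat_lit 0) (nat_lit 41818357816) (nat_lit 76) (nat_lit 6719194185) (nat_lit 152) (nat_lit 26236100833) (nat_lit 10) (nat_lit 5) (nat_lit 11) (nat_lit 5) (nat_lit 12) (nat_lit 4) (nat_lit 320) (nat_lit 254) (nat_lit 146))))))) (XT.nd (nat_lit 702) (nat_lit 152) (nat_lit 0) (XT.nd (nat_lit 312) (nat_lit 76) (nat_lit 0) (XT.nd (nat_lit 156) (nat_lit 76) (nat_lit 0) (XT.nd (nat_lit 78) (nat_lit 76) (nat_lit 0) (XT.lf (nat_lit 0) (nat_lit 58201758574) (nat_lit 152) (nat_lit 16548889498) (nat_lit 0) (nat_lit 3251439561) (nat_lit 10) (nat_lit 5) (nat_lit 12) (nat_lit 4) (nat_lit 10) (nat_lit 4) (nat_lit 321) (nat_lit 254) (nat_lit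 145)) (XT.lf (nat_lit 0) (nat_lit 577673575) (nat_lit 76) (nat_lit 67885882710) (nat_lit 76) (nat_lit 12922673740) (nat_lit 9) (nat_lit 4) (nat_lit 10) (nat_lit 5) (nat_lit 10) (nat_lit 4) (nat_lit 322) (nat_lit 254) (nat_lit 144))) (XT.nd (nat_lit 78) (nat_lit 76) (nat_lit 0) (XT.lf (nat_lit 0) (nat_lit 19126740830) (nat_lit 76) (nat_lit 60387274945) (nat_lit 76) (nat_lit 5411789827) (nat_lit 9) (nat_lit 4) (nat_lit 10) (nat_lit 5) (nat_lit 10) (nat_lit 4) (nat_lit 323) (nat_lit 254) (nat_lit 143)) (XT.lf (nat_lit 0) (nat_lit 2390888708) (nat_lit 152) (nat_lit 50085854835) (nat_lit 76) (nat_lit 36163916124) (nat_lit 8) (nat_lit 5) (nat_lit 10) (nat_lit 5) (nat_lit 9) (nat_lit 4) (nat_lit 324) (nat_lit 254) (nat_lit 142)))) (XT.nd (nat_lit 156) (nat_lit 76) (nat_lit 0) (XT.nd (nat_lit 78) (nat_lit 0) (nat_lit 0) (XT.lf (nat_lit 0) (nat_lit 10397500313) (nat_lit 152) (nat_lit 33683435873)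 (nat_lit 76) (nat_lit 48456104844) (nat_lit 8) (nat_lit 5) (nat_lit 10) (nat_lit 5) (nat_lit 9) (nat_lit 4) (nat_lit 325) (nat_lit 254) (nat_lit 141)) (XT.lf (nat_lit 0) (nat_lit 18800319420) (nat_lit 152) (nat_lit 16468261303) (nat_lit 76) (nat_lit 61359870726) (nat_lit 8) (nat_lit 5) (nat_lit 10) (nat_lit 5) (nat_lit 9) (nat_lit 4) (nat_lit 326) (nat_lit 254) (nat_lit 140))) (XT.nd (nat_lit 78) (nat_lit 0) (nat_lit 0) (XT.lf (nat_lit 0) (nat_lit 1653582348) (nat_lit 76) (nat_lit 25991587447) (nat_lit 152) (nat_lit 73278171730) (nat_lit 7) (nat_lit 5) (nat_lit 8) (nat_lit 5) (nat_lit 9) (nat_lit 4) (nat_lit 327) (nat_lit 254) (nat_lit 139)) (XT.nd (nat_lit 78) (nat_lit 0) (nat_lit 0) (XT.lf (nat_lit 0) (nat_lit 21246357558) (nat_lit 76) (nat_lit 15960955600) (nat_lit 152) (nat_lit 68211913901) (nat_lit 7) (nat_lit 5) (nat_lit 8) (nat_lit 5) (nat_lit 9) (nat_lit 4) (nat_lit 328) (nat_lit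 254) (nat_lit 138)) (XT.lf (nat_lit 0) (nat_lit 41812198700) (nat_lit 76) (nat_lit 5431700698) (nat_lit 152) (nat_lit 62896193998) (nat_lit 7) (nat_lit 5) (nat_lit 8) (nat_lit 5) (nat_lit 9) (nat_lit 4) (nat_lit 329) (nat_lit 254) (nat_lit 137)))))) (XT.nd (nat_lit 390) (nat_lit 76) (nat_lit 0) (XT.nd (nat_lit 156) (nat_lit 76) (nat_lit 0) (XT.nd (nat_lit 78) (nat_lit 0) (nat_lit 0) (XT.lf (nat_lit 0) (nat_lit 57866588569) (nat_lit 152) (nat_lit 51784872050) (nat_lit 0) (nat_lit 5441331904) (nat_lit 7) (nat_lit 5) (nat_lit 9) (nat_lit 4) (nat_lit 7) (nat_lit 4) (nat_lit 330) (nat_lit 254) (nat_lit 136)) (XT.lf (nat_lit 0) (nat_lit 69106091664) (nat_lit 152) (nat_lit 34509832292) (nat_lit 0) (nat_lit 16672921684) (nat_lit 7) (nat_lit 5) (nat_lit 9) (nat_lit 4) (nat_lit 7) (nat_lit 4) (nat_lit 331) (nat_lit 254) (nat_lit 135))) (XT.nd (nat_lit 78) (nat_lit 76) (nat_lit 0) (XT.lf (nat_lit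 0) (nat_lit 80904365333) (nat_lit 152) (nat_lit 16376840303) (nat_lit 0) (nat_lit 28463658863) (nat_lit 7) (nat_lit 5) (nat_lit 9) (nat_lit 4) (nat_lit 7) (nat_lit 4) (nat_lit 332) (nat_lit 254) (nat_lit 134)) (XT.nd (nat_lit 78) (nat_lit 0) (nat_lit 0) (XT.lf (nat_lit 0) (nat_lit 2745139307) (nat_lit 76) (nat_lit 90587220717) (nat_lit 76) (nat_lit 38139336637) (nat_lit 6) (nat_lit 4) (nat_lit 7) (nat_lit 5) (nat_lit 7) (nat_lit 4) (nat_lit 333) (nat_lit 254) (nat_lit 133)) (XT.lf (nat_lit 0) (nat_lit 23386350325) (nat_lit 76) (nat_lit 83269762345) (nat_lit 76) (nat_lit 30815042446) (nat_lit 6) (nat_lit 4) (nat_lit 7) (nat_lit 5) (nat_lit 7) (nat_lit 4) (nat_lit 334) (nat_lit 254) (nat_lit 132))))) (XT.nd (nat_lit 156) (nat_lit 76) (nat_lit 0) (XT.nd (nat_lit 78) (nat_lit 0) (nat_lit 0) (XT.lf (nat_lit 0) (nat_lit 45054446190) (nat_lit 76) (nat_lit 75588757714) (nat_lit 76) (nat_lit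 23127527512) (nat_lit 6) (nat_lit 4) (nat_lit 7) (nat_lit 5) (nat_lit 7) (nat_lit 4) (nat_lit 335) (nat_lit 254) (nat_lit 131)) (XT.lf (nat_lit 0) (nat_lit 67801017606) (nat_lit 76) (nat_lit 67525918719) (nat_lit 76) (nat_lit 15058488228) (nat_lit 6) (nat_lit 4) (nat_lit 7) (nat_lit 5) (nat_lit 7) (nat_lit 4) (nat_lit 336) (nat_lit 254) (nat_lit 130))) (XT.nd (nat_lit 78) (nat_lit 76) (nat_lit 0) (XT.lf (nat_lit 0) (nat_lit 91680223077) (nat_lit 76) (nat_lit 59062048125) (nat_lit 76) (nat_lit 6588712596) (nat_lit 6) (nat_lit 4) (nat_lit 7) (nat_lit 5) (nat_lit 7) (nat_lit 4) (nat_lit 337) (nat_lit 254) (nat_lit 129)) (XT.nd (nat_lit 78) (nat_lit 0) (nat_lit 0) (XT.lf (nat_lit 0) (nat_lit 2228288243) (nat_lit 152) (nat_lit 47910968474) (nat_lit 76) (nat_lit 114482892471) (nat_lit 5) (nat_lit 5) (nat_lit 7) (nat_lit 5) (nat_lit 6) (nat_lit 4) (nat_lit 338) (nat_lit 254) (nat_lit 128))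 (XT.lf (nat_lit 0) (nat_lit 11262330869) (nat_lit 152) (nat_lit 29396537134) (nat_lit 76) (nat_lit 131613725413) (nat_lit 5) (nat_lit 5) (nat_lit 7) (nat_lit 5) (nat_lit 6) (nat_lit 4) (nat_lit 339) (nat_lit 254) (nat_lit 127))))))))
noncomputable def xc156 : XT := (XT.nd (nat_lit 1404) (nat_lit 0) (nat_lit 0) (XT.nd (nat_lit 702) (nat_lit 76) (nat_lit 0) (XT.nd (nat_lit 312) (nat_lit 0) (nat_lit 0) (XT.nd (nat_lit 156) (nat_lit 0) (nat_lit 0) (XT.nd (nat_lit 78) (nat_lit 76) (nat_lit 0) (XT.lf (nat_lit 0) (nat_lit 20745804857) (nat_lit 152) (nat_lit 9960516452) (nat_lit 76) (nat_lit 149599353929) (nat_lit 5) (nat_lit 5) (nat_lit 7) (nat_lit 5) (nat_lit 6) (nat_lit 4) (nat_lit 340) (nat_lit 254) (nat_lit 126)) (XT.lf (nat_lit 0) (nat_lit 10788674780) (nat_lit 76) (nat_lit 20081056575) (nat_lit 152) (nat_lit 157862367613) (nat_lit 4) (nat_lit 5) (nat_lit 5) (nat_lit 5) (nat_lit 6) (nat_lit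 4) (nat_lit 341) (nat_lit 254) (nat_lit 125))) (XT.nd (nat_lit 78) (nat_lit 0) (nat_lit 0) (XT.lf (nat_lit 0) (nat_lit 32917260236) (nat_lit 76) (nat_lit 8749160001) (nat_lit 152) (nat_lit 155905097016) (nat_lit 4) (nat_lit 5) (nat_lit 5) (nat_lit 5) (nat_lit 6) (nat_lit 4) (nat_lit 342) (nat_lit 254) (nat_lit 124)) (XT.lf (nat_lit 0) (nat_lit 53050068253) (nat_lit 152) (nat_lit 150753565477) (nat_lit 0) (nat_lit 3046918081) (nat_lit 4) (nat_lit 5) (nat_lit 6) (nat_lit 4) (nat_lit 4) (nat_lit 4) (nat_lit 343) (nat_lit 254) (nat_lit 123)))) (XT.nd (nat_lit 156) (nat_lit 0) (nat_lit 0) (XT.nd (nat_lit 78) (nat_lit 0) (nat_lit 0) (XT.lf (nat_lit 0) (nat_lit 65144379714) (nat_lit 152) (nat_lit 136304853069) (nat_lit 0) (nat_lit 15137232780) (nat_lit 4) (nat_lit 5) (nat_lit 6) (nat_lit 4) (nat_lit 4) (nat_lit 4) (nat_lit 344) (nat_lit 254) (nat_lit 122)) (XT.lf (nat_lit 0) (nat_lit 77841551692)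 (nat_lit 152) (nat_lit 121137119189) (nat_lit 0) (nat_lit 27830598319) (nat_lit 4) (nat_lit 5) (nat_lit 6) (nat_lit 4) (nat_lit 4) (nat_lit 4) (nat_lit 345) (nat_lit 254) (nat_lit 121))) (XT.nd (nat_lit 78) (nat_lit 0) (nat_lit 0) (XT.lf (nat_lit 0) (nat_lit 91171815550) (nat_lit 152) (nat_lit 105214250186) (nat_lit 0) (nat_lit 41157236995) (nat_lit 4) (nat_lit 5) (nat_lit 6) (nat_lit 4) (nat_lit 4) (nat_lit 4) (nat_lit 346) (nat_lit 254) (nat_lit 120)) (XT.nd (nat_lit 78) (nat_lit 0) (nat_lit 0) (XT.lf (nat_lit 0) (nat_lit 105166910010) (nat_lit 152) (nat_lit 88498334467) (nat_lit 0) (nat_lit 55148878902) (nat_lit 4) (nat_lit 5) (nat_lit 6) (nat_lit 4) (nat_lit 4) (nat_lit 4) (nat_lit 347) (nat_lit 254) (nat_lit 119)) (XT.lf (nat_lit 0) (nat_lit 119860156726) (nat_lit 152) (nat_lit 70949572232) (nat_lit 0) (nat_lit 69838837473) (nat_lit 4) (nat_lit 5) (nat_lit 6) (nat_lit 4) (nat_lit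 4) (nat_lit 4) (nat_lit 348) (nat_lit 254) (nat_lit 118)))))) (XT.nd (nat_lit 312) (nat_lit 0) (nat_lit 0) (XT.nd (nat_lit 156) (nat_lit 76) (nat_lit 0) (XT.nd (nat_lit 78) (nat_lit 0) (nat_lit 0) (XT.lf (nat_lit 0) (nat_lit 135286539619) (nat_lit 152) (nat_lit 52526180714) (nat_lit 0) (nat_lit 85262088798) (nat_lit 4) (nat_lit 5) (nat_lit 6) (nat_lit 4) (nat_lit 4) (nat_lit 4) (nat_lit 349) (nat_lit 254) (nat_lit 117)) (XT.lf (nat_lit 0) (nat_lit 151482788172) (nat_lit 152) (nat_lit 33184294696) (nat_lit 0) (nat_lit 101455354906) (nat_lit 4) (nat_lit 5) (nat_lit 6) (nat_lit 4) (nat_lit 4) (nat_lit 4) (nat_lit 350) (nat_lit 254) (nat_lit 116))) (XT.nd (nat_lit 78) (nat_lit 76) (nat_lit 0) (XT.lf (nat_lit 0) (nat_lit 168487464881) (nat_lit 152) (nat_lit 12877862067) (nat_lit 0) (nat_lit 118457191192) (nat_lit 4) (nat_lit 5) (nat_lit 6) (nat_lit 4) (nat_lit 4) (nat_lit 4) (nat_lit 351)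 (nat_lit 254) (nat_lit 115)) (XT.lf (nat_lit 0) (nat_lit 8720578802) (nat_lit 76) (nat_lit 177756630944) (nat_lit 76) (nat_lit 127723652089) (nat_lit 3) (nat_lit 4) (nat_lit 4) (nat_lit 5) (nat_lit 4) (nat_lit 4) (nat_lit 352) (nat_lit 254) (nat_lit 114)))) (XT.nd (nat_lit 156) (nat_lit 0) (nat_lit 0) (XT.nd (nat_lit 78) (nat_lit 0) (nat_lit 0) (XT.lf (nat_lit 0) (nat_lit 31843644771) (nat_lit 76) (nat_lit 173739597064) (nat_lit 76) (nat_lit 123704041860) (nat_lit 3) (nat_lit 4) (nat_lit 4) (nat_lit 5) (nat_lit 4) (nat_lit 4) (nat_lit 353) (nat_lit 254) (nat_lit 113)) (XT.lf (nat_lit 0) (nat_lit 56120590480) (nat_lit 76) (nat_lit 169522753766) (nat_lit 76) (nat_lit 119484744898) (nat_lit 3) (nat_lit 4) (nat_lit 4) (nat_lit 5) (nat_lit 4) (nat_lit 4) (nat_lit 354) (nat_lit 254) (nat_lit 112))) (XT.nd (nat_lit 78) (nat_lit 0) (nat_lit 0) (XT.lf (nat_lit 0) (nat_lit 81609218180) (nat_lit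 76) (nat_lit 165096060948) (nat_lit 76) (nat_lit 115055715256) (nat_lit 3) (nat_lit 4) (nat_lit 4) (nat_lit 5) (nat_lit 4) (nat_lit 4) (nat_lit 355) (nat_lit 254) (nat_lit 111)) (XT.nd (nat_lit 78) (nat_lit 0) (nat_lit 0) (XT.lf (nat_lit 0) (nat_lit 108370215079) (nat_lit 76) (nat_lit 160448978866) (nat_lit 76) (nat_lit 110406407627) (nat_lit 3) (nat_lit 4) (nat_lit 4) (nat_lit 5) (nat_lit 4) (nat_lit 4) (nat_lit 356) (nat_lit 254) (nat_lit 110)) (XT.lf (nat_lit 0) (nat_lit 136467297838) (nat_lit 76) (nat_lit 155570443037) (nat_lit 76) (nat_lit 105525752230) (nat_lit 3) (nat_lit 4) (nat_lit 4) (nat_lit 5) (nat_lit 4) (nat_lit 4) (nat_lit 357) (nat_lit 254) (nat_lit 109))))))) (XT.nd (nat_lit 29952) (nat_lit 0) (nat_lit 4712) (XT.nd (nat_lit 29562) (nat_lit 0) (nat_lit 6156) (XT.nd (nat_lit 156) (nat_lit 0) (nat_lit 0) (XT.nd (nat_lit 78) (nat_lit 0) (nat_lit 0) (XT.lf (nat_lit 0) (nat_lit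 165967364271) (nat_lit 76) (nat_lit 150448837901) (nat_lit 76) (nat_lit 100402128457) (nat_lit 3) (nat_lit 4) (nat_lit 4) (nat_lit 5) (nat_lit 4) (nat_lit 4) (nat_lit 358) (nat_lit 254) (nat_lit 108)) (XT.lf (nat_lit 0) (nat_lit 196940652634) (nat_lit 76) (nat_lit 145071969159) (nat_lit 76) (nat_lit 95023337205) (nat_lit 3) (nat_lit 4) (nat_lit 4) (nat_lit 5) (nat_lit 4) (nat_lit 4) (nat_lit 359) (nat_lit 254) (nat_lit 107))) (XT.nd (nat_lit 29328) (nat_lit 0) (nat_lit 6156) (XT.lf (nat_lit 0) (nat_lit 229460908850) (nat_lit 76) (nat_lit 139427034743) (nat_lit 76) (nat_lit 89376571826) (nat_lit 3) (nat_lit 4) (nat_lit 4) (nat_lit 5) (nat_lit 4) (nat_lit 4) (nat_lit 360) (nat_lit 254) (nat_lit 106)) (XT.lf (nat_lit 0) (nat_lit 1183145069) (nat_lit 684) (nat_lit 1687965179) (nat_lit 684) (nat_lit 1687965179) (nat_lit 84) (nat_lit 3) (nat_lit 93) (nat_lit 3) (nat_lit 93) (nat_lit 5) (nat_lit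 255) (nat_lit 255) (nat_lit 210)))) (XT.nd (nat_lit 156) (nat_lit 0) (nat_lit 76) (XT.nd (nat_lit 78) (nat_lit 0) (nat_lit 76) (XT.lf (nat_lit 76) (nat_lit 644292662) (nat_lit 0) (nat_lit 2590782262) (nat_lit 684) (nat_lit 6067983979) (nat_lit 85) (nat_lit 5) (nat_lit 84) (nat_lit 3) (nat_lit 93) (nat_lit 5) (nat_lit 256) (nat_lit 255) (nat_lit 209)) (XT.lf (nat_lit 0) (nat_lit 4165376859) (nat_lit 608) (nat_lit 4554733170) (nat_lit 684) (nat_lit 776362582) (nat_lit 85) (nat_lit 5) (nat_lit 93) (nat_lit 5) (nat_lit 94) (nat_lit 5) (nat_lit 257) (nat_lit 255) (nat_lit 208))) (XT.nd (nat_lit 78) (nat_lit 0) (nat_lit 0) (XT.lf (nat_lit 0) (nat_lit 5135860096) (nat_lit 608) (nat_lit 317456155) (nat_lit 684) (nat_lit 4246713776) (nat_lit 85) (nat_lit 5) (nat_lit 93) (nat_lit 5) (nat_lit 94) (nat_lit 5) (nat_lit 258) (nat_lit 255) (nat_lit 207)) (XT.nd (nat_lit 78) (nat_lit 0) (nat_lit 76)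 (XT.lf (nat_lit 76) (nat_lit 4239286573) (nat_lit 0) (nat_lit 1935286506) (nat_lit 684) (nat_lit 3738355844) (nat_lit 86) (nat_lit 5) (nat_lit 85) (nat_lit 5) (nat_lit 94) (nat_lit 5) (nat_lit 259) (nat_lit 255) (nat_lit 206)) (XT.lf (nat_lit 0) (nat_lit 7253710502) (nat_lit 608) (nat_lit 1159133805) (nat_lit 684) (nat_lit 1724345816) (nat_lit 86) (nat_lit 5) (nat_lit 94) (nat_lit 5) (nat_lit 95) (nat_lit 5) (nat_lit 260) (nat_lit 255) (nat_lit 205)))))) (XT.nd (nat_lit 312) (nat_lit 988) (nat_lit 0) (XT.nd (nat_lit 156) (nat_lit 608) (nat_lit 0) (XT.nd (nat_lit 78) (nat_lit 0) (nat_lit 0) (XT.lf (nat_lit 76) (nat_lit 3636948612) (nat_lit 0) (nat_lit 4796048015) (nat_lit 684) (nat_lit 1937493212) (nat_lit 87) (nat_lit 5) (nat_lit 86) (nat_lit 5) (nat_lit 95) (nat_lit 5) (nat_lit 261) (nat_lit 255) (nat_lit 204)) (XT.lf (nat_lit 76) (nat_lit 8684712056) (nat_lit 0) (nat_lit 965420595)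 (nat_lit 684) (nat_lit 966506227) (nat_lit 87) (nat_lit 5) (nat_lit 86) (nat_lit 5) (nat_lit 95) (nat_lit 5) (nat_lit 262) (nat_lit 255) (nat_lit 203))) (XT.nd (nat_lit 78) (nat_lit 0) (nat_lit 0) (XT.lf (nat_lit 0) (nat_lit 110184879) (nat_lit 684) (nat_lit 7741034183) (nat_lit 760) (nat_lit 3021008964) (nat_lit 78) (nat_lit 5) (nat_lit 87) (nat_lit 5) (nat_lit 88) (nat_lit 5) (nat_lit 263) (nat_lit 255) (nat_lit 202)) (XT.lf (nat_lit 0) (nat_lit 1219356363) (nat_lit 684) (nat_lit 2686781079) (nat_lit 760) (nat_lit 7233221735) (nat_lit 78) (nat_lit 5) (nat_lit 87) (nat_lit 5) (nat_lit 88) (nat_lit 5) (nat_lit 264) (nat_lit 255) (nat_lit 201)))) (XT.nd (nat_lit 156) (nat_lit 1064) (nat_lit 0) (XT.nd (nat_lit 78) (nat_lit 0) (nat_lit 0) (XT.lf (nat_lit 0) (nat_lit 2394126198) (nat_lit 684) (nat_lit 8747008578) (nat_lit 76) (nat_lit 278310934) (nat_lit 79) (nat_lit 5) (nat_lit 88) (nat_lit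 5) (nat_lit 80) (nat_lit 5) (nat_lit 265) (nat_lit 255) (nat_lit 200)) (XT.lf (nat_lit 0) (nat_lit 3703153830) (nat_lit 684) (nat_lit 3413351068) (nat_lit 76) (nat_lit 4593356480) (nat_lit 79) (nat_lit 5) (nat_lit 88) (nat_lit 5) (nat_lit 80) (nat_lit 5) (nat_lit 266) (nat_lit 255) (nat_lit 199))) (XT.nd (nat_lit 78) (nat_lit 380) (nat_lit 0) (XT.lf (nat_lit 0) (nat_lit 2229584369) (nat_lit 684) (nat_lit 2849750337) (nat_lit 760) (nat_lit 6935474005) (nat_lit 70) (nat_lit 5) (nat_lit 79) (nat_lit 5) (nat_lit 80) (nat_lit 5) (nat_lit 267) (nat_lit 255) (nat_lit 198)) (XT.nd (nat_lit 78) (nat_lit 380) (nat_lit 0) (XT.lf (nat_lit 0) (nat_lit 6576617083) (nat_lit 760) (nat_lit 4115393528) (nat_lit 76) (nat_lit 1640469582) (nat_lit 70) (nat_lit 5) (nat_lit 80) (nat_lit 5) (nat_lit 71) (nat_lit 5) (nat_lit 268) (nat_lit 255) (nat_lit 197)) (XT.lf (nat_lit 0) (nat_lit 1820872796) (nat_lit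 380) (nat_lit 6372640590) (nat_lit 456) (nat_lit 4470371425) (nat_lit 65) (nat_lit 5) (nat_lit 70) (nat_lit 5) (nat_lit 71) (nat_lit 5) (nat_lit 269) (nat_lit 255) (nat_lit 196))))))))
noncomputable def xc157 : XT := (XT.nd (nat_lit 1404) (nat_lit 1292) (nat_lit 0) (XT.nd (nat_lit 702) (nat_lit 1064) (nat_lit 0) (XT.nd (nat_lit 312) (nat_lit 532) (nat_lit 0) (XT.nd (nat_lit 156) (nat_lit 380) (nat_lit 0) (XT.nd (nat_lit 78) (nat_lit 380) (nat_lit 0) (XT.lf (nat_lit 0) (nat_lit 8168673080) (nat_lit 380) (nat_lit 1762889110) (nat_lit 456) (nat_lit 3078364994) (nat_lit 65) (nat_lit 5) (nat_lit 70) (nat_lit 5) (nat_lit 71) (nat_lit 5) (nat_lit 270) (nat_lit 255) (nat_lit 195)) (XT.lf (nat_lit 0) (nat_lit 1430002174) (nat_lit 380) (nat_lit 10368912933) (nat_lit 456) (nat_lit 1572315443) (nat_lit 60) (nat_lit 5) (nat_lit 65) (nat_lit 5) (nat_lit 66) (nat_lit 5) (nat_lit 271) (nat_lit 255)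 (nat_lit 194))) (XT.nd (nat_lit 78) (nat_lit 304) (nat_lit 0) (XT.lf (nat_lit 0) (nat_lit 93389926) (nat_lit 456) (nat_lit 5622825644) (nat_lit 76) (nat_lit 8030215949) (nat_lit 59) (nat_lit 5) (nat_lit 65) (nat_lit 5) (nat_lit 60) (nat_lit 5) (nat_lit 272) (nat_lit 255) (nat_lit 193)) (XT.lf (nat_lit 0) (nat_lit 989939425) (nat_lit 304) (nat_lit 788780265) (nat_lit 380) (nat_lit 12360993309) (nat_lit 55) (nat_lit 5) (nat_lit 59) (nat_lit 5) (nat_lit 60) (nat_lit 5) (nat_lit 273) (nat_lit 255) (nat_lit 192)))) (XT.nd (nat_lit 156) (nat_lit 228) (nat_lit 0) (XT.nd (nat_lit 78) (nat_lit 304) (nat_lit 0) (XT.lf (nat_lit 0) (nat_lit 3688093095) (nat_lit 380) (nat_lit 6517702439) (nat_lit 76) (nat_lit 4339939122) (nat_lit 55) (nat_lit 5) (nat_lit 60) (nat_lit 5) (nat_lit 56) (nat_lit 5) (nat_lit 274) (nat_lit 255) (nat_lit 191)) (XT.lf (nat_lit 0) (nat_lit 419480687) (nat_lit 304) (nat_lit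 5268675765) (nat_lit 380) (nat_lit 9284201747) (nat_lit 51) (nat_lit 5) (nat_lit 55) (nat_lit 5) (nat_lit 56) (nat_lit 5) (nat_lit 275) (nat_lit 255) (nat_lit 190))) (XT.nd (nat_lit 78) (nat_lit 228) (nat_lit 0) (XT.lf (nat_lit 0) (nat_lit 7875525004) (nat_lit 380) (nat_lit 7513217068) (nat_lit 76) (nat_lit 27264665) (nat_lit 51) (nat_lit 5) (nat_lit 56) (nat_lit 5) (nat_lit 52) (nat_lit 5) (nat_lit 276) (nat_lit 255) (nat_lit 189)) (XT.nd (nat_lit 78) (nat_lit 228) (nat_lit 0) (XT.lf (nat_lit 0) (nat_lit 10236190355) (nat_lit 380) (nat_lit 234363377) (nat_lit 76) (nat_lit 5408143666) (nat_lit 51) (nat_lit 5) (nat_lit 56) (nat_lit 5) (nat_lit 52) (nat_lit 5) (nat_lit 277) (nat_lit 255) (nat_lit 188)) (XT.lf (nat_lit 0) (nat_lit 7627397306) (nat_lit 228) (nat_lit 5185202086) (nat_lit 304) (nat_lit 3547091123) (nat_lit 48) (nat_lit 5) (nat_lit 51) (nat_lit 5) (nat_lit 52) (nat_lit 5)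 (nat_lit 278) (nat_lit 255) (nat_lit 187)))))) (XT.nd (nat_lit 312) (nat_lit 456) (nat_lit 0) (XT.nd (nat_lit 156) (nat_lit 228) (nat_lit 0) (XT.nd (nat_lit 78) (nat_lit 380) (nat_lit 0) (XT.lf (nat_lit 0) (nat_lit 15506746682) (nat_lit 304) (nat_lit 1005686553) (nat_lit 76) (nat_lit 352905060) (nat_lit 48) (nat_lit 5) (nat_lit 52) (nat_lit 5) (nat_lit 49) (nat_lit 5) (nat_lit 279) (nat_lit 255) (nat_lit 186)) (XT.lf (nat_lit 0) (nat_lit 1090194576) (nat_lit 380) (nat_lit 10175927554) (nat_lit 76) (nat_lit 6120412906) (nat_lit 43) (nat_lit 5) (nat_lit 48) (nat_lit 5) (nat_lit 44) (nat_lit 5) (nat_lit 280) (nat_lit 255) (nat_lit 185))) (XT.nd (nat_lit 78) (nat_lit 228) (nat_lit 0) (XT.lf (nat_lit 0) (nat_lit 3613464541) (nat_lit 380) (nat_lit 2107708236) (nat_lit 76) (nat_lit 12211664103) (nat_lit 43) (nat_lit 5) (nat_lit 48) (nat_lit 5) (nat_lit 44) (nat_lit 5) (nat_lit 281) (nat_lit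 255) (nat_lit 184)) (XT.lf (nat_lit 0) (nat_lit 6349660818) (nat_lit 304) (nat_lit 11955597695) (nat_lit 76) (nat_lit 196899037) (nat_lit 40) (nat_lit 5) (nat_lit 44) (nat_lit 5) (nat_lit 41) (nat_lit 5) (nat_lit 282) (nat_lit 255) (nat_lit 183)))) (XT.nd (nat_lit 156) (nat_lit 228) (nat_lit 0) (XT.nd (nat_lit 78) (nat_lit 228) (nat_lit 0) (XT.lf (nat_lit 0) (nat_lit 9334507282) (nat_lit 304) (nat_lit 3509968795) (nat_lit 76) (nat_lit 6249916036) (nat_lit 40) (nat_lit 5) (nat_lit 44) (nat_lit 5) (nat_lit 41) (nat_lit 5) (nat_lit 283) (nat_lit 255) (nat_lit 182)) (XT.lf (nat_lit 0) (nat_lit 5511338184) (nat_lit 228) (nat_lit 7025943826) (nat_lit 304) (nat_lit 7175560079) (nat_lit 37) (nat_lit 5) (nat_lit 40) (nat_lit 5) (nat_lit 41) (nat_lit 5) (nat_lit 284) (nat_lit 255) (nat_lit 181))) (XT.nd (nat_lit 78) (nat_lit 228) (nat_lit 0) (XT.lf (nat_lit 0) (nat_lit 15082939077) (nat_lit 228)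 (nat_lit 859811350) (nat_lit 304) (nat_lit 4417372560) (nat_lit 37) (nat_lit 5) (nat_lit 40) (nat_lit 5) (nat_lit 41) (nat_lit 5) (nat_lit 285) (nat_lit 255) (nat_lit 180)) (XT.nd (nat_lit 78) (nat_lit 76) (nat_lit 0) (XT.lf (nat_lit 0) (nat_lit 4115095466) (nat_lit 152) (nat_lit 15539135801) (nat_lit 228) (nat_lit 1378784164) (nat_lit 35) (nat_lit 5) (nat_lit 37) (nat_lit 5) (nat_lit 38) (nat_lit 5) (nat_lit 286) (nat_lit 255) (nat_lit 179)) (XT.lf (nat_lit 0) (nat_lit 1842647162) (nat_lit 228) (nat_lit 7641236670) (nat_lit 76) (nat_lit 12249840583) (nat_lit 34) (nat_lit 5) (nat_lit 37) (nat_lit 5) (nat_lit 35) (nat_lit 5) (nat_lit 287) (nat_lit 255) (nat_lit 178))))))) (XT.nd (nat_lit 702) (nat_lit 532) (nat_lit 0) (XT.nd (nat_lit 312) (nat_lit 380) (nat_lit 0) (XT.nd (nat_lit 156) (nat_lit 152) (nat_lit 0) (XT.nd (nat_lit 78) (nat_lit 0) (nat_lit 0) (XT.lf (nat_lit 0) (nat_lit 2123198267)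 (nat_lit 228) (nat_lit 3073496353) (nat_lit 304) (nat_lit 17270779800) (nat_lit 31) (nat_lit 5) (nat_lit 34) (nat_lit 5) (nat_lit 35) (nat_lit 5) (nat_lit 288) (nat_lit 255) (nat_lit 177)) (XT.lf (nat_lit 0) (nat_lit 8892108748) (nat_lit 304) (nat_lit 10671288112) (nat_lit 76) (nat_lit 3665860192) (nat_lit 31) (nat_lit 5) (nat_lit 35) (nat_lit 5) (nat_lit 32) (nat_lit 5) (nat_lit 289) (nat_lit 255) (nat_lit 176))) (XT.nd (nat_lit 78) (nat_lit 152) (nat_lit 0) (XT.lf (nat_lit 0) (nat_lit 12808423895) (nat_lit 304) (nat_lit 585763619) (nat_lit 76) (nat_lit 10633161777) (nat_lit 31) (nat_lit 5) (nat_lit 35) (nat_lit 5) (nat_lit 32) (nat_lit 5) (nat_lit 290) (nat_lit 255) (nat_lit 175)) (XT.lf (nat_lit 0) (nat_lit 10314422297) (nat_lit 152) (nat_lit 6753593471) (nat_lit 228) (nat_lit 7789983033) (nat_lit 29) (nat_lit 5) (nat_lit 31) (nat_lit 5) (nat_lit 32) (nat_lit 5) (nat_lit 291) (nat_lit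 255) (nat_lit 174)))) (XT.nd (nat_lit 156) (nat_lit 228) (nat_lit 0) (XT.nd (nat_lit 78) (nat_lit 152) (nat_lit 0) (XT.lf (nat_lit 0) (nat_lit 21540760266) (nat_lit 228) (nat_lit 3973324997) (nat_lit 76) (nat_lit 216111354) (nat_lit 29) (nat_lit 5) (nat_lit 32) (nat_lit 5) (nat_lit 30) (nat_lit 5) (nat_lit 292) (nat_lit 255) (nat_lit 173)) (XT.lf (nat_lit 0) (nat_lit 7226973860) (nat_lit 152) (nat_lit 19221021365) (nat_lit 228) (nat_lit 187489755) (nat_lit 27) (nat_lit 5) (nat_lit 29) (nat_lit 5) (nat_lit 30) (nat_lit 5) (nat_lit 293) (nat_lit 255) (nat_lit 172))) (XT.nd (nat_lit 78) (nat_lit 152) (nat_lit 0) (XT.lf (nat_lit 0) (nat_lit 3941849192) (nat_lit 228) (nat_lit 8540411760) (nat_lit 76) (nat_lit 15097874744) (nat_lit 26) (nat_lit 5) (nat_lit 29) (nat_lit 5) (nat_lit 27) (nat_lit 5) (nat_lit 294) (nat_lit 255) (nat_lit 171)) (XT.nd (nat_lit 78) (nat_lit 0) (nat_lit 0) (XT.lf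 (nat_lit 0) (nat_lit 2943968649) (nat_lit 152) (nat_lit 5361342035) (nat_lit 228) (nat_lit 20264876901) (nat_lit 24) (nat_lit 5) (nat_lit 26) (nat_lit 5) (nat_lit 27) (nat_lit 5) (nat_lit 295) (nat_lit 255) (nat_lit 170)) (XT.lf (nat_lit 0) (nat_lit 13055169248) (nat_lit 228) (nat_lit 14357328364) (nat_lit 76) (nat_lit 2188852441) (nat_lit 24) (nat_lit 5) (nat_lit 27) (nat_lit 5) (nat_lit 25) (nat_lit 5) (nat_lit 296) (nat_lit 255) (nat_lit 169)))))) (XT.nd (nat_lit 390) (nat_lit 228) (nat_lit 0) (XT.nd (nat_lit 156) (nat_lit 152) (nat_lit 0) (XT.nd (nat_lit 78) (nat_lit 152) (nat_lit 0) (XT.lf (nat_lit 0) (nat_lit 18119160263) (nat_lit 228) (nat_lit 2630491833) (nat_lit 76) (nat_lit 9930604839) (nat_lit 24) (nat_lit 5) (nat_lit 27) (nat_lit 5) (nat_lit 25) (nat_lit 5) (nat_lit 297) (nat_lit 255) (nat_lit 168)) (XT.lf (nat_lit 0) (nat_lit 9985516146) (nat_lit 152) (nat_lit 13596021024)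 (nat_lit 228) (nat_lit 8224330076) (nat_lit 22) (nat_lit 5) (nat_lit 24) (nat_lit 5) (nat_lit 25) (nat_lit 5) (nat_lit 298) (nat_lit 255) (nat_lit 167))) (XT.nd (nat_lit 78) (nat_lit 152) (nat_lit 0) (XT.lf (nat_lit 0) (nat_lit 23307150480) (nat_lit 152) (nat_lit 6043968217) (nat_lit 228) (nat_lit 3634951658) (nat_lit 22) (nat_lit 5) (nat_lit 24) (nat_lit 5) (nat_lit 25) (nat_lit 5) (nat_lit 299) (nat_lit 255) (nat_lit 166)) (XT.nd (nat_lit 78) (nat_lit 0) (nat_lit 0) (XT.lf (nat_lit 0) (nat_lit 1215266472) (nat_lit 152) (nat_lit 31117500525) (nat_lit 76) (nat_lit 1888144311) (nat_lit 20) (nat_lit 5) (nat_lit 22) (nat_lit 5) (nat_lit 21) (nat_lit 5) (nat_lit 300) (nat_lit 255) (nat_lit 165)) (XT.lf (nat_lit 0) (nat_lit 6441524012) (nat_lit 152) (nat_lit 18825990257) (nat_lit 76) (nat_lit 10234230552) (nat_lit 20) (nat_lit 5) (nat_lit 22) (nat_lit 5) (nat_lit 21) (nat_lit 5) (nat_lit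 301) (nat_lit 255) (nat_lit 164))))) (XT.nd (nat_lit 156) (nat_lit 76) (nat_lit 0) (XT.nd (nat_lit 78) (nat_lit 152) (nat_lit 0) (XT.lf (nat_lit 0) (nat_lit 11919571484) (nat_lit 152) (nat_lit 5935354038) (nat_lit 76) (nat_lit 18992184268) (nat_lit 20) (nat_lit 5) (nat_lit 22) (nat_lit 5) (nat_lit 21) (nat_lit 5) (nat_lit 302) (nat_lit 255) (nat_lit 163)) (XT.lf (nat_lit 0) (nat_lit 7835897789) (nat_lit 152) (nat_lit 9948894393) (nat_lit 228) (nat_lit 20469300264) (nat_lit 18) (nat_lit 5) (nat_lit 20) (nat_lit 5) (nat_lit 21) (nat_lit 5) (nat_lit 303) (nat_lit 255) (nat_lit 162))) (XT.nd (nat_lit 78) (nat_lit 76) (nat_lit 0) (XT.lf (nat_lit 0) (nat_lit 22487297751) (nat_lit 152) (nat_lit 1547630647) (nat_lit 228) (nat_lit 15691925480) (nat_lit 18) (nat_lit 5) (nat_lit 20) (nat_lit 5) (nat_lit 21) (nat_lit 5) (nat_lit 304) (nat_lit 255) (nat_lit 161)) (XT.nd (nat_lit 78) (nat_lit 76)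 (nat_lit 0) (XT.lf (nat_lit 0) (nat_lit 30702609214) (nat_lit 228) (nat_lit 3529686036) (nat_lit 76) (nat_lit 7035718019) (nat_lit 18) (nat_lit 5) (nat_lit 21) (nat_lit 5) (nat_lit 19) (nat_lit 4) (nat_lit 305) (nat_lit 255) (nat_lit 160)) (XT.lf (nat_lit 0) (nat_lit 11184826501) (nat_lit 76) (nat_lit 26710726007) (nat_lit 152) (nat_lit 4981095414) (nat_lit 17) (nat_lit 5) (nat_lit 18) (nat_lit 5) (nat_lit 19) (nat_lit 4) (nat_lit 306) (nat_lit 255) (nat_lit 159))))))))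
noncomputable def xc158 : XT := (XT.nd (nat_lit 1404) (nat_lit 380) (nat_lit 0) (XT.nd (nat_lit 702) (nat_lit 152) (nat_lit 0) (XT.nd (nat_lit 312) (nat_lit 228) (nat_lit 0) (XT.nd (nat_lit 156) (nat_lit 152) (nat_lit 0) (XT.nd (nat_lit 78) (nat_lit 0) (nat_lit 0) (XT.lf (nat_lit 0) (nat_lit 906862582) (nat_lit 152) (nat_lit 17833399722) (nat_lit 76) (nat_lit 25822139461) (nat_lit 16) (nat_lit 5) (nat_lit 18) (nat_lit 5) (nat_lit 17) (nat_lit 5) (nat_lit 307) (nat_lit 255) (nat_lit 158)) (XT.lf (nat_lit 0) (nat_lit 6914126021) (nat_lit 152) (nat_lit 3376594737) (nat_lit 76) (nat_lit 36038034115) (nat_lit 16) (nat_lit 5) (nat_lit 18) (nat_lit 5) (nat_lit 17) (nat_lit 5) (nat_lit 308) (nat_lit 255) (nat_lit 157))) (XT.nd (nat_lit 78) (nat_lit 0) (nat_lit 0) (XT.lf (nat_lit 0) (nat_lit 12180639904) (nat_lit 152) (nat_lit 1223958091) (nat_lit 228) (nat_lit 34769694601) (nat_lit 14) (nat_lit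 5) (nat_lit 16) (nat_lit 5) (nat_lit 17) (nat_lit 5) (nat_lit 309) (nat_lit 255) (nat_lit 156)) (XT.lf (nat_lit 0) (nat_lit 20399996778) (nat_lit 228) (nat_lit 21619107402) (nat_lit 76) (nat_lit 8083991651) (nat_lit 14) (nat_lit 5) (nat_lit 17) (nat_lit 5) (nat_lit 15) (nat_lit 4) (nat_lit 310) (nat_lit 255) (nat_lit 155)))) (XT.nd (nat_lit 156) (nat_lit 152) (nat_lit 0) (XT.nd (nat_lit 78) (nat_lit 76) (nat_lit 0) (XT.lf (nat_lit 0) (nat_lit 27758330826) (nat_lit 228) (nat_lit 6557671114) (nat_lit 76) (nat_lit 17811687392) (nat_lit 14) (nat_lit 5) (nat_lit 17) (nat_lit 5) (nat_lit 15) (nat_lit 4) (nat_lit 311) (nat_lit 255) (nat_lit 154)) (XT.lf (nat_lit 0) (nat_lit 9551328305) (nat_lit 76) (nat_lit 26075805261) (nat_lit 152) (nat_lit 18619259312) (nat_lit 13) (nat_lit 5) (nat_lit 14) (nat_lit 5) (nat_lit 15) (nat_lit 4) (nat_lit 312) (nat_lit 255) (nat_lit 153))) (XT.nd (nat_lit 78)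 (nat_lit 152) (nat_lit 0) (XT.lf (nat_lit 0) (nat_lit 26682415212) (nat_lit 76) (nat_lit 17311588251) (nat_lit 152) (nat_lit 12471804381) (nat_lit 13) (nat_lit 5) (nat_lit 14) (nat_lit 5) (nat_lit 15) (nat_lit 4) (nat_lit 313) (nat_lit 255) (nat_lit 152)) (XT.nd (nat_lit 78) (nat_lit 152) (nat_lit 0) (XT.lf (nat_lit 0) (nat_lit 44659551684) (nat_lit 76) (nat_lit 8113541059) (nat_lit 152) (nat_lit 6023414249) (nat_lit 13) (nat_lit 5) (nat_lit 14) (nat_lit 5) (nat_lit 15) (nat_lit 4) (nat_lit 314) (nat_lit 255) (nat_lit 151)) (XT.lf (nat_lit 0) (nat_lit 778988364) (nat_lit 152) (nat_lit 58921486020) (nat_lit 76) (nat_lit 1539914109) (nat_lit 11) (nat_lit 5) (nat_lit 13) (nat_lit 5) (nat_lit 12) (nat_lit 4) (nat_lit 315) (nat_lit 255) (nat_lit 150)))))) (XT.nd (nat_lit 312) (nat_lit 76) (nat_lit 0) (XT.nd (nat_lit 156) (nat_lit 76) (nat_lit 0) (XT.nd (nat_lit 78) (nat_lit 0) (nat_lit 0)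 (XT.lf (nat_lit 0) (nat_lit 8089559742) (nat_lit 152) (nat_lit 43952088468) (nat_lit 76) (nat_lit 11741361137) (nat_lit 11) (nat_lit 5) (nat_lit 13) (nat_lit 5) (nat_lit 12) (nat_lit 4) (nat_lit 316) (nat_lit 255) (nat_lit 149)) (XT.lf (nat_lit 0) (nat_lit 15760064401) (nat_lit 152) (nat_lit 28244005131) (nat_lit 76) (nat_lit 22448977426) (nat_lit 11) (nat_lit 5) (nat_lit 13) (nat_lit 5) (nat_lit 12) (nat_lit 4) (nat_lit 317) (nat_lit 255) (nat_lit 148))) (XT.nd (nat_lit 78) (nat_lit 76) (nat_lit 0) (XT.lf (nat_lit 0) (nat_lit 23808765446) (nat_lit 152) (nat_lit 11759835811) (nat_lit 76) (nat_lit 33688257299) (nat_lit 11) (nat_lit 5) (nat_lit 13) (nat_lit 5) (nat_lit 12) (nat_lit 4) (nat_lit 318) (nat_lit 255) (nat_lit 147)) (XT.lf (nat_lit 0) (nat_lit 5722833941) (nat_lit 76) (nat_lit 26621341987) (nat_lit 152) (nat_lit 39852476481) (nat_lit 10) (nat_lit 5) (nat_lit 11) (nat_lit 5)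 (nat_lit 12) (nat_lit 4) (nat_lit 319) (nat_lit 255) (nat_lit 146)))) (XT.nd (nat_lit 156) (nat_lit 76) (nat_lit 0) (XT.nd (nat_lit 78) (nat_lit 0) (nat_lit 0) (XT.lf (nat_lit 0) (nat_lit 24479180802) (nat_lit 76) (nat_lit 17021364900) (nat_lit 152) (nat_lit 33773185952) (nat_lit 10) (nat_lit 5) (nat_lit 11) (nat_lit 5) (nat_lit 12) (nat_lit 4) (nat_lit 320) (nat_lit 255) (nat_lit 145)) (XT.lf (nat_lit 0) (nat_lit 44165029461) (nat_lit 76) (nat_lit 6944971418) (nat_lit 152) (nat_lit 27394905531) (nat_lit 10) (nat_lit 5) (nat_lit 11) (nat_lit 5) (nat_lit 12) (nat_lit 4) (nat_lit 321) (nat_lit 255) (nat_lit 144))) (XT.nd (nat_lit 78) (nat_lit 76) (nat_lit 0) (XT.lf (nat_lit 0) (nat_lit 61252124156) (nat_lit 152) (nat_lit 17127322008) (nat_lit 0) (nat_lit 3515588633) (nat_lit 10) (nat_lit 5) (nat_lit 12) (nat_lit 4) (nat_lit 10) (nat_lit 4) (nat_lit 322) (nat_lit 255) (nat_lit 143)) (XT.nd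 (nat_lit 78) (nat_lit 0) (nat_lit 0) (XT.lf (nat_lit 0) (nat_lit 851552896) (nat_lit 76) (nat_lit 71172604036) (nat_lit 76) (nat_lit 13424376943) (nat_lit 9) (nat_lit 4) (nat_lit 10) (nat_lit 5) (nat_lit 10) (nat_lit 4) (nat_lit 323) (nat_lit 255) (nat_lit 142)) (XT.lf (nat_lit 0) (nat_lit 20316407055) (nat_lit 76) (nat_lit 63304188397) (nat_lit 76) (nat_lit 5544826476) (nat_lit 9) (nat_lit 4) (nat_lit 10) (nat_lit 5) (nat_lit 10) (nat_lit 4) (nat_lit 324) (nat_lit 255) (nat_lit 141))))))) (XT.nd (nat_lit 702) (nat_lit 228) (nat_lit 0) (XT.nd (nat_lit 312) (nat_lit 0) (nat_lit 0) (XT.nd (nat_lit 156) (nat_lit 76) (nat_lit 0) (XT.nd (nat_lit 78) (nat_lit 0) (nat_lit 0) (XT.lf (nat_lit 0) (nat_lit 2637242946) (nat_lit 152) (nat_lit 52363618479) (nat_lit 76) (nat_lit 38065372813) (nat_lit 8) (nat_lit 5) (nat_lit 10) (nat_lit 5) (nat_lit 9) (nat_lit 4) (nat_lit 325) (nat_lit 255) (nat_lit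 140)) (XT.lf (nat_lit 0) (nat_lit 11038146569) (nat_lit 152) (nat_lit 35151865670) (nat_lit 76) (nat_lit 50967729974) (nat_lit 8) (nat_lit 5) (nat_lit 10) (nat_lit 5) (nat_lit 9) (nat_lit 4) (nat_lit 326) (nat_lit 255) (nat_lit 139))) (XT.nd (nat_lit 78) (nat_lit 76) (nat_lit 0) (XT.lf (nat_lit 0) (nat_lit 19855355620) (nat_lit 152) (nat_lit 17086205799) (nat_lit 76) (nat_lit 64512454632) (nat_lit 8) (nat_lit 5) (nat_lit 10) (nat_lit 5) (nat_lit 9) (nat_lit 4) (nat_lit 327) (nat_lit 255) (nat_lit 138)) (XT.lf (nat_lit 0) (nat_lit 1938416025) (nat_lit 76) (nat_lit 27201711534) (nat_lit 152) (nat_lit 76823644213) (nat_lit 7) (nat_lit 5) (nat_lit 8) (nat_lit 5) (nat_lit 9) (nat_lit 4) (nat_lit 328) (nat_lit 255) (nat_lit 137)))) (XT.nd (nat_lit 156) (nat_lit 0) (nat_lit 0) (XT.nd (nat_lit 78) (nat_lit 0) (nat_lit 0) (XT.lf (nat_lit 0) (nat_lit 22501203588) (nat_lit 76) (nat_lit 16673807870)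 (nat_lit 152) (nat_lit 71509713307) (nat_lit 7) (nat_lit 5) (nat_lit 8) (nat_lit 5) (nat_lit 9) (nat_lit 4) (nat_lit 329) (nat_lit 255) (nat_lit 136)) (XT.lf (nat_lit 0) (nat_lit 44086168780) (nat_lit 76) (nat_lit 5622147152) (nat_lit 152) (nat_lit 65933578660) (nat_lit 7) (nat_lit 5) (nat_lit 8) (nat_lit 5) (nat_lit 9) (nat_lit 4) (nat_lit 330) (nat_lit 255) (nat_lit 135))) (XT.nd (nat_lit 78) (nat_lit 0) (nat_lit 0) (XT.lf (nat_lit 0) (nat_lit 60858478345) (nat_lit 152) (nat_lit 54195737731) (nat_lit 0) (nat_lit 5788200061) (nat_lit 7) (nat_lit 5) (nat_lit 9) (nat_lit 4) (nat_lit 7) (nat_lit 4) (nat_lit 331) (nat_lit 255) (nat_lit 134)) (XT.nd (nat_lit 78) (nat_lit 0) (nat_lit 0) (XT.lf (nat_lit 0) (nat_lit 72655263244) (nat_lit 152) (nat_lit 36065440171) (nat_lit 0) (nat_lit 17577807350) (nat_lit 7) (nat_lit 5) (nat_lit 9) (nat_lit 4) (nat_lit 7) (nat_lit 4) (nat_lit 332) (nat_lit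 255) (nat_lit 133)) (XT.lf (nat_lit 0) (nat_lit 85038980741) (nat_lit 152) (nat_lit 17033888285) (nat_lit 0) (nat_lit 29954689028) (nat_lit 7) (nat_lit 5) (nat_lit 9) (nat_lit 4) (nat_lit 7) (nat_lit 4) (nat_lit 333) (nat_lit 255) (nat_lit 132)))))) (XT.nd (nat_lit 312) (nat_lit 152) (nat_lit 0) (XT.nd (nat_lit 156) (nat_lit 0) (nat_lit 0) (XT.nd (nat_lit 78) (nat_lit 0) (nat_lit 0) (XT.lf (nat_lit 0) (nat_lit 3041580724) (nat_lit 76) (nat_lit 95045022750) (nat_lit 76) (nat_lit 39954220734) (nat_lit 6) (nat_lit 4) (nat_lit 7) (nat_lit 5) (nat_lit 7) (nat_lit 4) (nat_lit 334) (nat_lit 255) (nat_lit 131)) (XT.lf (nat_lit 0) (nat_lit 24707272081) (nat_lit 76) (nat_lit 87365099030) (nat_lit 76) (nat_lit 32268096725) (nat_lit 6) (nat_lit 4) (nat_lit 7) (nat_lit 5) (nat_lit 7) (nat_lit 4) (nat_lit 335) (nat_lit 255) (nat_lit 130))) (XT.nd (nat_lit 78) (nat_lit 0) (nat_lit 0) (XT.lf (nat_lit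 0) (nat_lit 47451553490) (nat_lit 76) (nat_lit 79303289475) (nat_lit 76) (nat_lit 24200382132) (nat_lit 6) (nat_lit 4) (nat_lit 7) (nat_lit 5) (nat_lit 7) (nat_lit 4) (nat_lit 336) (nat_lit 255) (nat_lit 129)) (XT.lf (nat_lit 0) (nat_lit 71328578001) (nat_lit 76) (nat_lit 70840399298) (nat_lit 76) (nat_lit 15731868110) (nat_lit 6) (nat_lit 4) (nat_lit 7) (nat_lit 5) (nat_lit 7) (nat_lit 4) (nat_lit 337) (nat_lit 255) (nat_lit 128)))) (XT.nd (nat_lit 156) (nat_lit 76) (nat_lit 0) (XT.nd (nat_lit 78) (nat_lit 76) (nat_lit 0) (XT.lf (nat_lit 0) (nat_lit 96395195673) (nat_lit 76) (nat_lit 61956278762) (nat_lit 76) (nat_lit 6842391531) (nat_lit 6) (nat_lit 4) (nat_lit 7) (nat_lit 5) (nat_lit 7) (nat_lit 4) (nat_lit 338) (nat_lit 255) (nat_lit 127)) (XT.lf (nat_lit 0) (nat_lit 2409542662) (nat_lit 152) (nat_lit 50179425766) (nat_lit 76) (nat_lit 120260739497) (nat_lit 5) (nat_lit 5) (nat_lit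 7) (nat_lit 5) (nat_lit 6) (nat_lit 4) (nat_lit 339) (nat_lit 255) (nat_lit 126))) (XT.nd (nat_lit 78) (nat_lit 76) (nat_lit 0) (XT.lf (nat_lit 0) (nat_lit 11891961705) (nat_lit 152) (nat_lit 30745324817) (nat_lit 76) (nat_lit 138245556829) (nat_lit 5) (nat_lit 5) (nat_lit 7) (nat_lit 5) (nat_lit 6) (nat_lit 4) (nat_lit 340) (nat_lit 255) (nat_lit 125)) (XT.nd (nat_lit 78) (nat_lit 76) (nat_lit 0) (XT.lf (nat_lit 0) (nat_lit 21846442045) (nat_lit 152) (nat_lit 10343266871) (nat_lit 76) (nat_lit 157128031288) (nat_lit 5) (nat_lit 5) (nat_lit 7) (nat_lit 5) (nat_lit 6) (nat_lit 4) (nat_lit 341) (nat_lit 255) (nat_lit 124)) (XT.lf (nat_lit 0) (nat_lit 11441524641) (nat_lit 76) (nat_lit 21033794449) (nat_lit 152) (nat_lit 165690230769) (nat_lit 4) (nat_lit 5) (nat_lit 5) (nat_lit 5) (nat_lit 6) (nat_lit 4) (nat_lit 342) (nat_lit 255) (nat_lit 123))))))))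
noncomputable def xc159 : XT := (XT.nd (nat_lit 30732) (nat_lit 0) (nat_lit 3952) (XT.nd (nat_lit 702) (nat_lit 76) (nat_lit 0) (XT.nd (nat_lit 312) (nat_lit 0) (nat_lit 0) (XT.nd (nat_lit 156) (nat_lit 0) (nat_lit 0) (XT.nd (nat_lit 78) (nat_lit 0) (nat_lit 0) (XT.lf (nat_lit 0) (nat_lit 34671138603) (nat_lit 76) (nat_lit 9137746615) (nat_lit 152) (nat_lit 163638204034) (nat_lit 4) (nat_lit 5) (nat_lit 5) (nat_lit 5) (nat_lit 6) (nat_lit 4) (nat_lit 343) (nat_lit 255) (nat_lit 122)) (XT.lf (nat_lit 0) (nat_lit 55759625940) (nat_lit 152) (nat_lit 158186237846) (nat_lit 0) (nat_lit 3244318458) (nat_lit 4) (nat_lit 5) (nat_lit 6) (nat_lit 4) (nat_lit 4) (nat_lit 4) (nat_lit 344) (nat_lit 255) (nat_lit 121))) (XT.nd (nat_lit 78) (nat_lit 0) (nat_lit 0) (XT.lf (nat_lit 0) (nat_lit 68455936104) (nat_lit 152) (nat_lit 143020090099) (nat_lit 0) (nat_lit 15937003441) (nat_lit 4) (nat_lit 5)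 (nat_lit 6) (nat_lit 4) (nat_lit 4) (nat_lit 4) (nat_lit 345) (nat_lit 255) (nat_lit 120)) (XT.lf (nat_lit 0) (nat_lit 81785379185) (nat_lit 152) (nat_lit 127098731698) (nat_lit 0) (nat_lit 29262993970) (nat_lit 4) (nat_lit 5) (nat_lit 6) (nat_lit 4) (nat_lit 4) (nat_lit 4) (nat_lit 346) (nat_lit 255) (nat_lit 119)))) (XT.nd (nat_lit 156) (nat_lit 0) (nat_lit 0) (XT.nd (nat_lit 78) (nat_lit 0) (nat_lit 0) (XT.lf (nat_lit 0) (nat_lit 95779691954) (nat_lit 152) (nat_lit 110384254647) (nat_lit 0) (nat_lit 43254018593) (nat_lit 4) (nat_lit 5) (nat_lit 6) (nat_lit 4) (nat_lit 4) (nat_lit 4) (nat_lit 347) (nat_lit 255) (nat_lit 118)) (XT.lf (nat_lit 0) (nat_lit 110472194203) (nat_lit 152) (nat_lit 92836862572) (nat_lit 0) (nat_lit 57943389274) (nat_lit 4) (nat_lit 5) (nat_lit 6) (nat_lit 4) (nat_lit 4) (nat_lit 4) (nat_lit 348) (nat_lit 255) (nat_lit 117))) (XT.nd (nat_lit 78) (nat_lit 0)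 (nat_lit 0) (XT.lf (nat_lit 0) (nat_lit 125897868079) (nat_lit 152) (nat_lit 74414775969) (nat_lit 0) (nat_lit 73366080705) (nat_lit 4) (nat_lit 5) (nat_lit 6) (nat_lit 4) (nat_lit 4) (nat_lit 4) (nat_lit 349) (nat_lit 255) (nat_lit 116)) (XT.nd (nat_lit 78) (nat_lit 0) (nat_lit 0) (XT.lf (nat_lit 0) (nat_lit 142093441378) (nat_lit 152) (nat_lit 55074132727) (nat_lit 0) (nat_lit 89558813580) (nat_lit 4) (nat_lit 5) (nat_lit 6) (nat_lit 4) (nat_lit 4) (nat_lit 4) (nat_lit 350) (nat_lit 255) (nat_lit 115)) (XT.lf (nat_lit 0) (nat_lit 159097474988) (nat_lit 152) (nat_lit 34768883695) (nat_lit 0) (nat_lit 106560142024) (nat_lit 4) (nat_lit 5) (nat_lit 6) (nat_lit 4) (nat_lit 4) (nat_lit 4) (nat_lit 351) (nat_lit 255) (nat_lit 114)))))) (XT.nd (nat_lit 312) (nat_lit 0) (nat_lit 0) (XT.nd (nat_lit 156) (nat_lit 0) (nat_lit 0) (XT.nd (nat_lit 78) (nat_lit 76) (nat_lit 0) (XT.lf (nat_lit 0)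 (nat_lit 176950454704) (nat_lit 152) (nat_lit 13450683041) (nat_lit 0) (nat_lit 124410545392) (nat_lit 4) (nat_lit 5) (nat_lit 6) (nat_lit 4) (nat_lit 4) (nat_lit 4) (nat_lit 352) (nat_lit 255) (nat_lit 113)) (XT.lf (nat_lit 0) (nat_lit 9226533547) (nat_lit 76) (nat_lit 186612406118) (nat_lit 76) (nat_lit 134070043142) (nat_lit 3) (nat_lit 4) (nat_lit 4) (nat_lit 5) (nat_lit 4) (nat_lit 4) (nat_lit 353) (nat_lit 255) (nat_lit 112))) (XT.nd (nat_lit 78) (nat_lit 0) (nat_lit 0) (XT.lf (nat_lit 0) (nat_lit 33502423015) (nat_lit 76) (nat_lit 182396047038) (nat_lit 76) (nat_lit 129851347237) (nat_lit 3) (nat_lit 4) (nat_lit 4) (nat_lit 5) (nat_lit 4) (nat_lit 4) (nat_lit 354) (nat_lit 255) (nat_lit 111)) (XT.lf (nat_lit 0) (nat_lit 58990044770) (nat_lit 76) (nat_lit 177969815379) (nat_lit 76) (nat_lit 125422890032) (nat_lit 3) (nat_lit 4) (nat_lit 4) (nat_lit 5) (nat_lit 4) (nat_lit 4) (nat_lit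 355) (nat_lit 255) (nat_lit 110)))) (XT.nd (nat_lit 156) (nat_lit 0) (nat_lit 0) (XT.nd (nat_lit 78) (nat_lit 0) (nat_lit 0) (XT.lf (nat_lit 0) (nat_lit 85750083628) (nat_lit 76) (nat_lit 173323172495) (nat_lit 76) (nat_lit 120774127580) (nat_lit 3) (nat_lit 4) (nat_lit 4) (nat_lit 5) (nat_lit 4) (nat_lit 4) (nat_lit 356) (nat_lit 255) (nat_lit 109)) (XT.lf (nat_lit 0) (nat_lit 113846253966) (nat_lit 76) (nat_lit 168445054951) (nat_lit 76) (nat_lit 115893991400) (nat_lit 3) (nat_lit 4) (nat_lit 4) (nat_lit 5) (nat_lit 4) (nat_lit 4) (nat_lit 357) (nat_lit 255) (nat_lit 108))) (XT.nd (nat_lit 78) (nat_lit 0) (nat_lit 0) (XT.lf (nat_lit 0) (nat_lit 143345451427) (nat_lit 76) (nat_lit 163323848182) (nat_lit 76) (nat_lit 110770862119) (nat_lit 3) (nat_lit 4) (nat_lit 4) (nat_lit 5) (nat_lit 4) (nat_lit 4) (nat_lit 358) (nat_lit 255) (nat_lit 107)) (XT.nd (nat_lit 78) (nat_lit 0) (nat_lit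 0) (XT.lf (nat_lit 0) (nat_lit 174317912197) (nat_lit 76) (nat_lit 157947358836) (nat_lit 76) (nat_lit 105392541812) (nat_lit 3) (nat_lit 4) (nat_lit 4) (nat_lit 5) (nat_lit 4) (nat_lit 4) (nat_lit 359) (nat_lit 255) (nat_lit 106)) (XT.lf (nat_lit 0) (nat_lit 206837380230) (nat_lit 76) (nat_lit 152302785751) (nat_lit 76) (nat_lit 99746224952) (nat_lit 3) (nat_lit 4) (nat_lit 4) (nat_lit 5) (nat_lit 4) (nat_lit 4) (nat_lit 360) (nat_lit 255) (nat_lit 105))))))) (XT.nd (nat_lit 702) (nat_lit 1672) (nat_lit 0) (XT.nd (nat_lit 312) (nat_lit 532) (nat_lit 0) (XT.nd (nat_lit 156) (nat_lit 0) (nat_lit 76) (XT.nd (nat_lit 78) (nat_lit 0) (nat_lit 0) (XT.lf (nat_lit 0) (nat_lit 2029387139) (nat_lit 684) (nat_lit 1357881755) (nat_lit 684) (nat_lit 1357881755) (nat_lit 84) (nat_lit 3) (nat_lit 93) (nat_lit 3) (nat_lit 93) (nat_lit 5) (nat_lit 256) (nat_lit 256) (nat_lit 208)) (XT.lf (nat_lit 76)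 (nat_lit 1492100284) (nat_lit 0) (nat_lit 3416671253) (nat_lit 684) (nat_lit 4779034963) (nat_lit 85) (nat_lit 5) (nat_lit 84) (nat_lit 3) (nat_lit 93) (nat_lit 5) (nat_lit 257) (nat_lit 256) (nat_lit 207))) (XT.nd (nat_lit 78) (nat_lit 0) (nat_lit 0) (XT.lf (nat_lit 0) (nat_lit 5803237029) (nat_lit 608) (nat_lit 3918783818) (nat_lit 684) (nat_lit 173216584) (nat_lit 85) (nat_lit 5) (nat_lit 93) (nat_lit 5) (nat_lit 94) (nat_lit 5) (nat_lit 258) (nat_lit 256) (nat_lit 206)) (XT.lf (nat_lit 76) (nat_lit 505405265) (nat_lit 0) (nat_lit 6256654177) (nat_lit 684) (nat_lit 3350140585) (nat_lit 86) (nat_lit 5) (nat_lit 85) (nat_lit 5) (nat_lit 94) (nat_lit 5) (nat_lit 259) (nat_lit 256) (nat_lit 205)))) (XT.nd (nat_lit 156) (nat_lit 608) (nat_lit 0) (XT.nd (nat_lit 78) (nat_lit 0) (nat_lit 76) (XT.lf (nat_lit 76) (nat_lit 5260541940) (nat_lit 0) (nat_lit 2532076571) (nat_lit 684) (nat_lit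 2546337511) (nat_lit 86) (nat_lit 5) (nat_lit 85) (nat_lit 5) (nat_lit 94) (nat_lit 5) (nat_lit 260) (nat_lit 256) (nat_lit 204)) (XT.lf (nat_lit 0) (nat_lit 8855929336) (nat_lit 608) (nat_lit 372597935) (nat_lit 684) (nat_lit 1349589971) (nat_lit 86) (nat_lit 5) (nat_lit 94) (nat_lit 5) (nat_lit 95) (nat_lit 5) (nat_lit 261) (nat_lit 256) (nat_lit 203))) (XT.nd (nat_lit 78) (nat_lit 684) (nat_lit 0) (XT.lf (nat_lit 76) (nat_lit 4649667756) (nat_lit 0) (nat_lit 5398458852) (nat_lit 684) (nat_lit 777446361) (nat_lit 87) (nat_lit 5) (nat_lit 86) (nat_lit 5) (nat_lit 95) (nat_lit 5) (nat_lit 262) (nat_lit 256) (nat_lit 202)) (XT.nd (nat_lit 78) (nat_lit 0) (nat_lit 76) (XT.lf (nat_lit 0) (nat_lit 176403858) (nat_lit 684) (nat_lit 1179641649) (nat_lit 760) (nat_lit 9730862709) (nat_lit 77) (nat_lit 5) (nat_lit 86) (nat_lit 5) (nat_lit 87) (nat_lit 5) (nat_lit 263) (nat_lit 256) (nat_lit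 201)) (XT.lf (nat_lit 0) (nat_lit 1227432635) (nat_lit 684) (nat_lit 7244778420) (nat_lit 760) (nat_lit 2884787063) (nat_lit 78) (nat_lit 5) (nat_lit 87) (nat_lit 5) (nat_lit 88) (nat_lit 5) (nat_lit 264) (nat_lit 256) (nat_lit 200)))))) (XT.nd (nat_lit 390) (nat_lit 1140) (nat_lit 0) (XT.nd (nat_lit 156) (nat_lit 608) (nat_lit 0) (XT.nd (nat_lit 78) (nat_lit 0) (nat_lit 76) (XT.lf (nat_lit 0) (nat_lit 2339122763) (nat_lit 684) (nat_lit 1979874922) (nat_lit 760) (nat_lit 7321290109) (nat_lit 78) (nat_lit 5) (nat_lit 87) (nat_lit 5) (nat_lit 88) (nat_lit 5) (nat_lit 265) (nat_lit 256) (nat_lit 199)) (XT.lf (nat_lit 0) (nat_lit 3532111432) (nat_lit 684) (nat_lit 8299642316) (nat_lit 76) (nat_lit 104798481) (nat_lit 79) (nat_lit 5) (nat_lit 88) (nat_lit 5) (nat_lit 80) (nat_lit 5) (nat_lit 266) (nat_lit 256) (nat_lit 198))) (XT.nd (nat_lit 78) (nat_lit 684) (nat_lit 0) (XT.lf (nat_lit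 0) (nat_lit 4858100972) (nat_lit 684) (nat_lit 2741431297) (nat_lit 76) (nat_lit 4644521447) (nat_lit 79) (nat_lit 5) (nat_lit 88) (nat_lit 5) (nat_lit 80) (nat_lit 5) (nat_lit 267) (nat_lit 256) (nat_lit 197)) (XT.nd (nat_lit 78) (nat_lit 0) (nat_lit 0) (XT.lf (nat_lit 0) (nat_lit 3170060794) (nat_lit 684) (nat_lit 3099792618) (nat_lit 760) (nat_lit 6296190747) (nat_lit 70) (nat_lit 5) (nat_lit 79) (nat_lit 5) (nat_lit 80) (nat_lit 5) (nat_lit 268) (nat_lit 256) (nat_lit 196)) (XT.lf (nat_lit 0) (nat_lit 7795802928) (nat_lit 760) (nat_lit 3482895181) (nat_lit 76) (nat_lit 1623338451) (nat_lit 70) (nat_lit 5) (nat_lit 80) (nat_lit 5) (nat_lit 71) (nat_lit 5) (nat_lit 269) (nat_lit 256) (nat_lit 195))))) (XT.nd (nat_lit 156) (nat_lit 760) (nat_lit 0) (XT.nd (nat_lit 78) (nat_lit 0) (nat_lit 0) (XT.lf (nat_lit 0) (nat_lit 2736664008) (nat_lit 380) (nat_lit 6727358802) (nat_lit 456) (nat_lit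 3787586084) (nat_lit 65) (nat_lit 5) (nat_lit 70) (nat_lit 5) (nat_lit 71) (nat_lit 5) (nat_lit 270) (nat_lit 256) (nat_lit 194)) (XT.lf (nat_lit 0) (nat_lit 9362580612) (nat_lit 380) (nat_lit 1885401358) (nat_lit 456) (nat_lit 2369136660) (nat_lit 65) (nat_lit 5) (nat_lit 70) (nat_lit 5) (nat_lit 71) (nat_lit 5) (nat_lit 271) (nat_lit 256) (nat_lit 193))) (XT.nd (nat_lit 78) (nat_lit 380) (nat_lit 0) (XT.lf (nat_lit 0) (nat_lit 2317441596) (nat_lit 380) (nat_lit 10864448930) (nat_lit 456) (nat_lit 816047373) (nat_lit 60) (nat_lit 5) (nat_lit 65) (nat_lit 5) (nat_lit 66) (nat_lit 5) (nat_lit 272) (nat_lit 256) (nat_lit 192)) (XT.nd (nat_lit 78) (nat_lit 304) (nat_lit 0) (XT.lf (nat_lit 0) (nat_lit 867737846) (nat_lit 456) (nat_lit 5099434913) (nat_lit 76) (nat_lit 8426098507) (nat_lit 59) (nat_lit 5) (nat_lit 65) (nat_lit 5) (nat_lit 60) (nat_lit 5) (nat_lit 273) (nat_lit 256) (nat_lit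 191)) (XT.lf (nat_lit 0) (nat_lit 1830992087) (nat_lit 304) (nat_lit 782049060) (nat_lit 380) (nat_lit 12194485458) (nat_lit 55) (nat_lit 5) (nat_lit 59) (nat_lit 5) (nat_lit 60) (nat_lit 5) (nat_lit 274) (nat_lit 256) (nat_lit 190))))))))
noncomputable def xc160 : XT := (XT.nd (nat_lit 1404) (nat_lit 1140) (nat_lit 0) (XT.nd (nat_lit 702) (nat_lit 836) (nat_lit 0) (XT.nd (nat_lit 312) (nat_lit 608) (nat_lit 0) (XT.nd (nat_lit 156) (nat_lit 228) (nat_lit 0) (XT.nd (nat_lit 78) (nat_lit 304) (nat_lit 0) (XT.lf (nat_lit 0) (nat_lit 4583075197) (nat_lit 380) (nat_lit 6053104811) (nat_lit 76) (nat_lit 4599500348) (nat_lit 55) (nat_lit 5) (nat_lit 60) (nat_lit 5) (nat_lit 56) (nat_lit 5) (nat_lit 275) (nat_lit 256) (nat_lit 189)) (XT.lf (nat_lit 0) (nat_lit 1218187750) (nat_lit 304) (nat_lit 5443259542) (nat_lit 380) (nat_lit 9023358797) (nat_lit 51) (nat_lit 5) (nat_lit 55) (nat_lit 5)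 (nat_lit 56) (nat_lit 5) (nat_lit 276) (nat_lit 256) (nat_lit 188))) (XT.nd (nat_lit 78) (nat_lit 228) (nat_lit 0) (XT.lf (nat_lit 0) (nat_lit 8926701460) (nat_lit 380) (nat_lit 7115053302) (nat_lit 76) (nat_lit 110538618) (nat_lit 51) (nat_lit 5) (nat_lit 56) (nat_lit 5) (nat_lit 52) (nat_lit 5) (nat_lit 277) (nat_lit 256) (nat_lit 187)) (XT.lf (nat_lit 0) (nat_lit 507125463) (nat_lit 228) (nat_lit 10874887493) (nat_lit 304) (nat_lit 5257353244) (nat_lit 48) (nat_lit 5) (nat_lit 51) (nat_lit 5) (nat_lit 52) (nat_lit 5) (nat_lit 278) (nat_lit 256) (nat_lit 186)))) (XT.nd (nat_lit 156) (nat_lit 608) (nat_lit 0) (XT.nd (nat_lit 78) (nat_lit 0) (nat_lit 0) (XT.lf (nat_lit 0) (nat_lit 8733856293) (nat_lit 228) (nat_lit 5326975107) (nat_lit 304) (nat_lit 3084972668) (nat_lit 48) (nat_lit 5) (nat_lit 51) (nat_lit 5) (nat_lit 52) (nat_lit 5) (nat_lit 279) (nat_lit 256) (nat_lit 185)) (XT.lf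 (nat_lit 0) (nat_lit 16862499579) (nat_lit 304) (nat_lit 336803461) (nat_lit 76) (nat_lit 478861515) (nat_lit 48) (nat_lit 5) (nat_lit 52) (nat_lit 5) (nat_lit 49) (nat_lit 5) (nat_lit 280) (nat_lit 256) (nat_lit 184))) (XT.nd (nat_lit 78) (nat_lit 228) (nat_lit 0) (XT.lf (nat_lit 0) (nat_lit 1719080146) (nat_lit 380) (nat_lit 9956876657) (nat_lit 76) (nat_lit 6549898323) (nat_lit 43) (nat_lit 5) (nat_lit 48) (nat_lit 5) (nat_lit 44) (nat_lit 5) (nat_lit 281) (nat_lit 256) (nat_lit 183)) (XT.nd (nat_lit 78) (nat_lit 228) (nat_lit 0) (XT.lf (nat_lit 0) (nat_lit 4341162379) (nat_lit 380) (nat_lit 1519905768) (nat_lit 76) (nat_lit 12939832804) (nat_lit 43) (nat_lit 5) (nat_lit 48) (nat_lit 5) (nat_lit 44) (nat_lit 5) (nat_lit 282) (nat_lit 256) (nat_lit 182)) (XT.lf (nat_lit 0) (nat_lit 7201115635) (nat_lit 304) (nat_lit 11845968729) (nat_lit 76) (nat_lit 352314339) (nat_lit 40) (nat_lit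 5) (nat_lit 44) (nat_lit 5) (nat_lit 41) (nat_lit 5) (nat_lit 283) (nat_lit 256) (nat_lit 181)))))) (XT.nd (nat_lit 312) (nat_lit 456) (nat_lit 0) (XT.nd (nat_lit 156) (nat_lit 152) (nat_lit 0) (XT.nd (nat_lit 78) (nat_lit 228) (nat_lit 0) (XT.lf (nat_lit 0) (nat_lit 10309777195) (nat_lit 304) (nat_lit 3011744520) (nat_lit 76) (nat_lit 6701050267) (nat_lit 40) (nat_lit 5) (nat_lit 44) (nat_lit 5) (nat_lit 41) (nat_lit 5) (nat_lit 284) (nat_lit 256) (nat_lit 180)) (XT.lf (nat_lit 0) (nat_lit 6449761313) (nat_lit 228) (nat_lit 7209061982) (nat_lit 304) (nat_lit 7013867505) (nat_lit 37) (nat_lit 5) (nat_lit 40) (nat_lit 5) (nat_lit 41) (nat_lit 5) (nat_lit 285) (nat_lit 256) (nat_lit 179))) (XT.nd (nat_lit 78) (nat_lit 152) (nat_lit 0) (XT.lf (nat_lit 0) (nat_lit 16468377669) (nat_lit 228) (nat_lit 742631409) (nat_lit 304) (nat_lit 4142554923) (nat_lit 37) (nat_lit 5) (nat_lit 40) (nat_lit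 5) (nat_lit 41) (nat_lit 5) (nat_lit 286) (nat_lit 256) (nat_lit 178)) (XT.lf (nat_lit 0) (nat_lit 4963668302) (nat_lit 152) (nat_lit 16134379138) (nat_lit 228) (nat_lit 962602504) (nat_lit 35) (nat_lit 5) (nat_lit 37) (nat_lit 5) (nat_lit 38) (nat_lit 5) (nat_lit 287) (nat_lit 256) (nat_lit 177)))) (XT.nd (nat_lit 156) (nat_lit 152) (nat_lit 0) (XT.nd (nat_lit 78) (nat_lit 228) (nat_lit 0) (XT.lf (nat_lit 0) (nat_lit 2382011874) (nat_lit 228) (nat_lit 7395431623) (nat_lit 76) (nat_lit 13019733842) (nat_lit 34) (nat_lit 5) (nat_lit 37) (nat_lit 5) (nat_lit 35) (nat_lit 5) (nat_lit 288) (nat_lit 256) (nat_lit 176)) (XT.lf (nat_lit 0) (nat_lit 2847098176) (nat_lit 228) (nat_lit 3045011402) (nat_lit 304) (nat_lit 17676129379) (nat_lit 31) (nat_lit 5) (nat_lit 34) (nat_lit 5) (nat_lit 35) (nat_lit 5) (nat_lit 289) (nat_lit 256) (nat_lit 175))) (XT.nd (nat_lit 78) (nat_lit 152) (nat_lit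 0) (XT.lf (nat_lit 0) (nat_lit 9754261092) (nat_lit 304) (nat_lit 10597704751) (nat_lit 76) (nat_lit 4017086076) (nat_lit 31) (nat_lit 5) (nat_lit 35) (nat_lit 5) (nat_lit 32) (nat_lit 5) (nat_lit 290) (nat_lit 256) (nat_lit 174)) (XT.nd (nat_lit 78) (nat_lit 152) (nat_lit 0) (XT.lf (nat_lit 0) (nat_lit 13846508810) (nat_lit 304) (nat_lit 36815832) (nat_lit 76) (nat_lit 11324755937) (nat_lit 31) (nat_lit 5) (nat_lit 35) (nat_lit 5) (nat_lit 32) (nat_lit 5) (nat_lit 291) (nat_lit 256) (nat_lit 173)) (XT.lf (nat_lit 0) (nat_lit 11399052994) (nat_lit 152) (nat_lit 6909973188) (nat_lit 228) (nat_lit 7771774944) (nat_lit 29) (nat_lit 5) (nat_lit 31) (nat_lit 5) (nat_lit 32) (nat_lit 5) (nat_lit 292) (nat_lit 256) (nat_lit 172))))))) (XT.nd (nat_lit 702) (nat_lit 456) (nat_lit 0) (XT.nd (nat_lit 312) (nat_lit 304) (nat_lit 0) (XT.nd (nat_lit 156) (nat_lit 152) (nat_lit 0) (XT.nd (nat_lit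 78) (nat_lit 228) (nat_lit 0) (XT.lf (nat_lit 0) (nat_lit 22989646114) (nat_lit 228) (nat_lit 3613727822) (nat_lit 76) (nat_lit 394057137) (nat_lit 29) (nat_lit 5) (nat_lit 32) (nat_lit 5) (nat_lit 30) (nat_lit 5) (nat_lit 293) (nat_lit 256) (nat_lit 171)) (XT.lf (nat_lit 0) (nat_lit 178728722) (nat_lit 228) (nat_lit 19813773947) (nat_lit 76) (nat_lit 7955826149) (nat_lit 26) (nat_lit 5) (nat_lit 29) (nat_lit 5) (nat_lit 27) (nat_lit 5) (nat_lit 294) (nat_lit 256) (nat_lit 170))) (XT.nd (nat_lit 78) (nat_lit 152) (nat_lit 0) (XT.lf (nat_lit 0) (nat_lit 4490648395) (nat_lit 228) (nat_lit 8432109370) (nat_lit 76) (nat_lit 16018209391) (nat_lit 26) (nat_lit 5) (nat_lit 29) (nat_lit 5) (nat_lit 27) (nat_lit 5) (nat_lit 295) (nat_lit 256) (nat_lit 169)) (XT.lf (nat_lit 0) (nat_lit 3617855819) (nat_lit 152) (nat_lit 5445902291) (nat_lit 228) (nat_lit 20917217868) (nat_lit 24) (nat_lit 5)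 (nat_lit 26) (nat_lit 5) (nat_lit 27) (nat_lit 5) (nat_lit 296) (nat_lit 256) (nat_lit 168)))) (XT.nd (nat_lit 156) (nat_lit 304) (nat_lit 0) (XT.nd (nat_lit 78) (nat_lit 0) (nat_lit 0) (XT.lf (nat_lit 0) (nat_lit 14037496231) (nat_lit 228) (nat_lit 14559437955) (nat_lit 76) (nat_lit 2467469807) (nat_lit 24) (nat_lit 5) (nat_lit 27) (nat_lit 5) (nat_lit 25) (nat_lit 5) (nat_lit 297) (nat_lit 256) (nat_lit 167)) (XT.lf (nat_lit 0) (nat_lit 19338993058) (nat_lit 228) (nat_lit 2270819447) (nat_lit 76) (nat_lit 10588253885) (nat_lit 24) (nat_lit 5) (nat_lit 27) (nat_lit 5) (nat_lit 25) (nat_lit 5) (nat_lit 298) (nat_lit 256) (nat_lit 166))) (XT.nd (nat_lit 78) (nat_lit 152) (nat_lit 0) (XT.lf (nat_lit 0) (nat_lit 10968066400) (nat_lit 152) (nat_lit 14099021261) (nat_lit 228) (nat_lit 8313263882) (nat_lit 22) (nat_lit 5) (nat_lit 24) (nat_lit 5) (nat_lit 25) (nat_lit 5) (nat_lit 299) (nat_lit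 256) (nat_lit 165)) (XT.nd (nat_lit 78) (nat_lit 152) (nat_lit 0) (XT.lf (nat_lit 0) (nat_lit 24932769381) (nat_lit 152) (nat_lit 6177784899) (nat_lit 228) (nat_lit 3509763338) (nat_lit 22) (nat_lit 5) (nat_lit 24) (nat_lit 5) (nat_lit 25) (nat_lit 5) (nat_lit 300) (nat_lit 256) (nat_lit 164)) (XT.lf (nat_lit 0) (nat_lit 1568918406) (nat_lit 152) (nat_lit 32198207329) (nat_lit 76) (nat_lit 2149767415) (nat_lit 20) (nat_lit 5) (nat_lit 22) (nat_lit 5) (nat_lit 21) (nat_lit 5) (nat_lit 301) (nat_lit 256) (nat_lit 163)))))) (XT.nd (nat_lit 312) (nat_lit 304) (nat_lit 0) (XT.nd (nat_lit 156) (nat_lit 152) (nat_lit 0) (XT.nd (nat_lit 78) (nat_lit 0) (nat_lit 0) (XT.lf (nat_lit 0) (nat_lit 7042541745) (nat_lit 152) (nat_lit 19314748606) (nat_lit 76) (nat_lit 10905195307) (nat_lit 20) (nat_lit 5) (nat_lit 22) (nat_lit 5) (nat_lit 21) (nat_lit 5) (nat_lit 302) (nat_lit 256) (nat_lit 162)) (XT.lf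 (nat_lit 0) (nat_lit 12781208661) (nat_lit 152) (nat_lit 5801130155) (nat_lit 76) (nat_lit 20093463221) (nat_lit 20) (nat_lit 5) (nat_lit 22) (nat_lit 5) (nat_lit 21) (nat_lit 5) (nat_lit 303) (nat_lit 256) (nat_lit 161))) (XT.nd (nat_lit 78) (nat_lit 0) (nat_lit 0) (XT.lf (nat_lit 0) (nat_lit 8651732787) (nat_lit 152) (nat_lit 10281927652) (nat_lit 228) (nat_lit 21219792996) (nat_lit 18) (nat_lit 5) (nat_lit 20) (nat_lit 5) (nat_lit 21) (nat_lit 5) (nat_lit 304) (nat_lit 256) (nat_lit 160)) (XT.lf (nat_lit 0) (nat_lit 24015510360) (nat_lit 152) (nat_lit 1468429837) (nat_lit 228) (nat_lit 16216548153) (nat_lit 18) (nat_lit 5) (nat_lit 20) (nat_lit 5) (nat_lit 21) (nat_lit 5) (nat_lit 305) (nat_lit 256) (nat_lit 159)))) (XT.nd (nat_lit 156) (nat_lit 228) (nat_lit 0) (XT.nd (nat_lit 78) (nat_lit 76) (nat_lit 0) (XT.lf (nat_lit 0) (nat_lit 32475558787) (nat_lit 228) (nat_lit 3311778666)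 (nat_lit 76) (nat_lit 7531856996) (nat_lit 18) (nat_lit 5) (nat_lit 21) (nat_lit 5) (nat_lit 19) (nat_lit 4) (nat_lit 306) (nat_lit 256) (nat_lit 158)) (XT.lf (nat_lit 0) (nat_lit 12132098342) (nat_lit 76) (nat_lit 27890784428) (nat_lit 152) (nat_lit 4985657033) (nat_lit 17) (nat_lit 5) (nat_lit 18) (nat_lit 5) (nat_lit 19) (nat_lit 4) (nat_lit 307) (nat_lit 256) (nat_lit 157))) (XT.nd (nat_lit 78) (nat_lit 152) (nat_lit 0) (XT.lf (nat_lit 0) (nat_lit 1177603657) (nat_lit 152) (nat_lit 18347780368) (nat_lit 76) (nat_lit 27253584136) (nat_lit 16) (nat_lit 5) (nat_lit 18) (nat_lit 5) (nat_lit 17) (nat_lit 5) (nat_lit 308) (nat_lit 256) (nat_lit 156)) (XT.nd (nat_lit 78) (nat_lit 152) (nat_lit 0) (XT.lf (nat_lit 0) (nat_lit 7474497032) (nat_lit 152) (nat_lit 3186101293) (nat_lit 76) (nat_lit 37973590775) (nat_lit 16) (nat_lit 5) (nat_lit 18) (nat_lit 5) (nat_lit 17) (nat_lit 5) (nat_lit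 309) (nat_lit 256) (nat_lit 155)) (XT.lf (nat_lit 0) (nat_lit 13143199545) (nat_lit 152) (nat_lit 1141590488) (nat_lit 228) (nat_lit 36287461675) (nat_lit 14) (nat_lit 5) (nat_lit 16) (nat_lit 5) (nat_lit 17) (nat_lit 5) (nat_lit 310) (nat_lit 256) (nat_lit 154))))))))
noncomputable def xc161 : XT := (XT.nd (nat_lit 1404) (nat_lit 304) (nat_lit 0) (XT.nd (nat_lit 702) (nat_lit 228) (nat_lit 0) (XT.nd (nat_lit 312) (nat_lit 152) (nat_lit 0) (XT.nd (nat_lit 156) (nat_lit 76) (nat_lit 0) (XT.nd (nat_lit 78) (nat_lit 0) (nat_lit 0) (XT.lf (nat_lit 0) (nat_lit 21622095283) (nat_lit 228) (nat_lit 22355261150) (nat_lit 76) (nat_lit 8620544104) (nat_lit 14) (nat_lit 5) (nat_lit 17) (nat_lit 5) (nat_lit 15) (nat_lit 4) (nat_lit 311) (nat_lit 256) (nat_lit 153)) (XT.lf (nat_lit 0) (nat_lit 29338722287) (nat_lit 228) (nat_lit 6557172172) (nat_lit 76) (nat_lit 18828322115) (nat_lit 14) (nat_lit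 5) (nat_lit 17) (nat_lit 5) (nat_lit 15) (nat_lit 4) (nat_lit 312) (nat_lit 256) (nat_lit 152))) (XT.nd (nat_lit 78) (nat_lit 0) (nat_lit 0) (XT.lf (nat_lit 0) (nat_lit 10351980726) (nat_lit 76) (nat_lit 27244863244) (nat_lit 152) (nat_lit 19352228506) (nat_lit 13) (nat_lit 5) (nat_lit 14) (nat_lit 5) (nat_lit 15) (nat_lit 4) (nat_lit 313) (nat_lit 256) (nat_lit 151)) (XT.lf (nat_lit 0) (nat_lit 28324236929) (nat_lit 76) (nat_lit 18048851206) (nat_lit 152) (nat_lit 12906829103) (nat_lit 13) (nat_lit 5) (nat_lit 14) (nat_lit 5) (nat_lit 15) (nat_lit 4) (nat_lit 314) (nat_lit 256) (nat_lit 150)))) (XT.nd (nat_lit 156) (nat_lit 0) (nat_lit 0) (XT.nd (nat_lit 78) (nat_lit 152) (nat_lit 0) (XT.lf (nat_lit 0) (nat_lit 47185577799) (nat_lit 76) (nat_lit 8397011962) (nat_lit 152) (nat_lit 6144998773) (nat_lit 13) (nat_lit 5) (nat_lit 14) (nat_lit 5) (nat_lit 15) (nat_lit 4) (nat_lit 315) (nat_lit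 256) (nat_lit 149)) (XT.lf (nat_lit 0) (nat_lit 990027024) (nat_lit 152) (nat_lit 61566639825) (nat_lit 76) (nat_lit 1736953670) (nat_lit 11) (nat_lit 5) (nat_lit 13) (nat_lit 5) (nat_lit 12) (nat_lit 4) (nat_lit 316) (nat_lit 256) (nat_lit 148))) (XT.nd (nat_lit 78) (nat_lit 0) (nat_lit 0) (XT.lf (nat_lit 0) (nat_lit 8657932245) (nat_lit 152) (nat_lit 45863101943) (nat_lit 76) (nat_lit 12442756676) (nat_lit 11) (nat_lit 5) (nat_lit 13) (nat_lit 5) (nat_lit 12) (nat_lit 4) (nat_lit 317) (nat_lit 256) (nat_lit 147)) (XT.nd (nat_lit 78) (nat_lit 0) (nat_lit 0) (XT.lf (nat_lit 0) (nat_lit 16704157636) (nat_lit 152) (nat_lit 29383261628) (nat_lit 76) (nat_lit 23680309613) (nat_lit 11) (nat_lit 5) (nat_lit 13) (nat_lit 5) (nat_lit 12) (nat_lit 4) (nat_lit 318) (nat_lit 256) (nat_lit 146)) (XT.lf (nat_lit 0) (nat_lit 25147860876) (nat_lit 152) (nat_lit 12087881163) (nat_lit 76) (nat_lit 35476368560)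 (nat_lit 11) (nat_lit 5) (nat_lit 13) (nat_lit 5) (nat_lit 12) (nat_lit 4) (nat_lit 319) (nat_lit 256) (nat_lit 145)))))) (XT.nd (nat_lit 312) (nat_lit 152) (nat_lit 0) (XT.nd (nat_lit 156) (nat_lit 0) (nat_lit 0) (XT.nd (nat_lit 78) (nat_lit 0) (nat_lit 0) (XT.lf (nat_lit 0) (nat_lit 6264729392) (nat_lit 76) (nat_lit 27842226610) (nat_lit 152) (nat_lit 41692099961) (nat_lit 10) (nat_lit 5) (nat_lit 11) (nat_lit 5) (nat_lit 12) (nat_lit 4) (nat_lit 320) (nat_lit 256) (nat_lit 144)) (XT.lf (nat_lit 0) (nat_lit 25946714846) (nat_lit 76) (nat_lit 17767497453) (nat_lit 152) (nat_lit 35316130636) (nat_lit 10) (nat_lit 5) (nat_lit 11) (nat_lit 5) (nat_lit 12) (nat_lit 4) (nat_lit 321) (nat_lit 256) (nat_lit 143))) (XT.nd (nat_lit 78) (nat_lit 0) (nat_lit 0) (XT.lf (nat_lit 0) (nat_lit 46605257128) (nat_lit 76) (nat_lit 7192281235) (nat_lit 152) (nat_lit 28625874985) (nat_lit 10) (nat_lit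 5) (nat_lit 11) (nat_lit 5) (nat_lit 12) (nat_lit 4) (nat_lit 322) (nat_lit 256) (nat_lit 142)) (XT.lf (nat_lit 0) (nat_lit 64441966330) (nat_lit 152) (nat_lit 17757826916) (nat_lit 0) (nat_lit 3783501483) (nat_lit 10) (nat_lit 5) (nat_lit 12) (nat_lit 4) (nat_lit 10) (nat_lit 4) (nat_lit 323) (nat_lit 256) (nat_lit 141)))) (XT.nd (nat_lit 156) (nat_lit 76) (nat_lit 0) (XT.nd (nat_lit 78) (nat_lit 0) (nat_lit 0) (XT.lf (nat_lit 0) (nat_lit 1116348811) (nat_lit 76) (nat_lit 74633662528) (nat_lit 76) (nat_lit 13964593083) (nat_lit 9) (nat_lit 4) (nat_lit 10) (nat_lit 5) (nat_lit 10) (nat_lit 4) (nat_lit 324) (nat_lit 256) (nat_lit 140)) (XT.lf (nat_lit 0) (nat_lit 21543863855) (nat_lit 76) (nat_lit 66376472379) (nat_lit 76) (nat_lit 5697303317) (nat_lit 9) (nat_lit 4) (nat_lit 10) (nat_lit 5) (nat_lit 10) (nat_lit 4) (nat_lit 325) (nat_lit 256) (nat_lit 139))) (XT.nd (nat_lit 78) (nat_lit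 0) (nat_lit 0) (XT.lf (nat_lit 0) (nat_lit 2884125322) (nat_lit 152) (nat_lit 54776330835) (nat_lit 76) (nat_lit 40053231823) (nat_lit 8) (nat_lit 5) (nat_lit 10) (nat_lit 5) (nat_lit 9) (nat_lit 4) (nat_lit 326) (nat_lit 256) (nat_lit 138)) (XT.nd (nat_lit 78) (nat_lit 0) (nat_lit 0) (XT.lf (nat_lit 0) (nat_lit 11699596973) (nat_lit 152) (nat_lit 36713774602) (nat_lit 76) (nat_lit 53596678729) (nat_lit 8) (nat_lit 5) (nat_lit 10) (nat_lit 5) (nat_lit 9) (nat_lit 4) (nat_lit 327) (nat_lit 256) (nat_lit 137)) (XT.lf (nat_lit 0) (nat_lit 20952450139) (nat_lit 152) (nat_lit 17754150040) (nat_lit 76) (nat_lit 67814803322) (nat_lit 8) (nat_lit 5) (nat_lit 10) (nat_lit 5) (nat_lit 9) (nat_lit 4) (nat_lit 328) (nat_lit 256) (nat_lit 136))))))) (XT.nd (nat_lit 702) (nat_lit 152) (nat_lit 0) (XT.nd (nat_lit 312) (nat_lit 76) (nat_lit 0) (XT.nd (nat_lit 156) (nat_lit 0) (nat_lit 0) (XT.nd (nat_lit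 78) (nat_lit 0) (nat_lit 0) (XT.lf (nat_lit 0) (nat_lit 2218696971) (nat_lit 76) (nat_lit 28480658530) (nat_lit 152) (nat_lit 80557401386) (nat_lit 7) (nat_lit 5) (nat_lit 8) (nat_lit 5) (nat_lit 9) (nat_lit 4) (nat_lit 329) (nat_lit 256) (nat_lit 135)) (XT.lf (nat_lit 0) (nat_lit 23800892477) (nat_lit 76) (nat_lit 17430223425) (nat_lit 152) (nat_lit 74982889413) (nat_lit 7) (nat_lit 5) (nat_lit 8) (nat_lit 5) (nat_lit 9) (nat_lit 4) (nat_lit 330) (nat_lit 256) (nat_lit 134))) (XT.nd (nat_lit 78) (nat_lit 0) (nat_lit 0) (XT.lf (nat_lit 0) (nat_lit 46456790276) (nat_lit 76) (nat_lit 5829659425) (nat_lit 152) (nat_lit 69132819918) (nat_lit 7) (nat_lit 5) (nat_lit 8) (nat_lit 5) (nat_lit 9) (nat_lit 4) (nat_lit 331) (nat_lit 256) (nat_lit 133)) (XT.lf (nat_lit 0) (nat_lit 63990799403) (nat_lit 152) (nat_lit 56743730585) (nat_lit 0) (nat_lit 6145457286) (nat_lit 7) (nat_lit 5) (nat_lit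 9) (nat_lit 4) (nat_lit 7) (nat_lit 4) (nat_lit 332) (nat_lit 256) (nat_lit 132)))) (XT.nd (nat_lit 156) (nat_lit 76) (nat_lit 0) (XT.nd (nat_lit 78) (nat_lit 0) (nat_lit 0) (XT.lf (nat_lit 0) (nat_lit 76373166540) (nat_lit 152) (nat_lit 37714622625) (nat_lit 0) (nat_lit 18521314119) (nat_lit 7) (nat_lit 5) (nat_lit 9) (nat_lit 4) (nat_lit 7) (nat_lit 4) (nat_lit 333) (nat_lit 256) (nat_lit 131)) (XT.lf (nat_lit 0) (nat_lit 89372015619) (nat_lit 152) (nat_lit 17738830741) (nat_lit 0) (nat_lit 31513962909) (nat_lit 7) (nat_lit 5) (nat_lit 9) (nat_lit 4) (nat_lit 7) (nat_lit 4) (nat_lit 334) (nat_lit 256) (nat_lit 130))) (XT.nd (nat_lit 78) (nat_lit 0) (nat_lit 0) (XT.lf (nat_lit 0) (nat_lit 3338044751) (nat_lit 76) (nat_lit 99732367762) (nat_lit 76) (nat_lit 41868410015) (nat_lit 6) (nat_lit 4) (nat_lit 7) (nat_lit 5) (nat_lit 7) (nat_lit 4) (nat_lit 335) (nat_lit 256) (nat_lit 129))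 (XT.nd (nat_lit 78) (nat_lit 0) (nat_lit 0) (XT.lf (nat_lit 0) (nat_lit 26080145200) (nat_lit 76) (nat_lit 91671538625) (nat_lit 76) (nat_lit 33801957032) (nat_lit 6) (nat_lit 4) (nat_lit 7) (nat_lit 5) (nat_lit 7) (nat_lit 4) (nat_lit 336) (nat_lit 256) (nat_lit 128)) (XT.lf (nat_lit 0) (nat_lit 49955092607) (nat_lit 76) (nat_lit 83209582180) (nat_lit 76) (nat_lit 25334644544) (nat_lit 6) (nat_lit 4) (nat_lit 7) (nat_lit 5) (nat_lit 7) (nat_lit 4) (nat_lit 337) (nat_lit 256) (nat_lit 127)))))) (XT.nd (nat_lit 312) (nat_lit 76) (nat_lit 0) (XT.nd (nat_lit 156) (nat_lit 76) (nat_lit 0) (XT.nd (nat_lit 78) (nat_lit 0) (nat_lit 0) (XT.lf (nat_lit 0) (nat_lit 75019732084) (nat_lit 76) (nat_lit 74326350912) (nat_lit 76) (nat_lit 16446312283) (nat_lit 6) (nat_lit 4) (nat_lit 7) (nat_lit 5) (nat_lit 7) (nat_lit 4) (nat_lit 338) (nat_lit 256) (nat_lit 126)) (XT.lf (nat_lit 0) (nat_lit 101333741346)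 (nat_lit 76) (nat_lit 65000694271) (nat_lit 76) (nat_lit 7115797553) (nat_lit 6) (nat_lit 4) (nat_lit 7) (nat_lit 5) (nat_lit 7) (nat_lit 4) (nat_lit 339) (nat_lit 256) (nat_lit 125))) (XT.nd (nat_lit 78) (nat_lit 0) (nat_lit 0) (XT.lf (nat_lit 0) (nat_lit 2593366740) (nat_lit 152) (nat_lit 52573121651) (nat_lit 76) (nat_lit 126322486134) (nat_lit 5) (nat_lit 5) (nat_lit 7) (nat_lit 5) (nat_lit 6) (nat_lit 4) (nat_lit 340) (nat_lit 256) (nat_lit 124)) (XT.lf (nat_lit 0) (nat_lit 12546890214) (nat_lit 152) (nat_lit 32172804960) (nat_lit 76) (nat_lit 145204224825) (nat_lit 5) (nat_lit 5) (nat_lit 7) (nat_lit 5) (nat_lit 6) (nat_lit 4) (nat_lit 341) (nat_lit 256) (nat_lit 123)))) (XT.nd (nat_lit 156) (nat_lit 0) (nat_lit 0) (XT.nd (nat_lit 78) (nat_lit 76) (nat_lit 0) (XT.lf (nat_lit 0) (nat_lit 22996221693) (nat_lit 152) (nat_lit 10755872026) (nat_lit 76) (nat_lit 165028613952) (nat_lit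 5) (nat_lit 5) (nat_lit 7) (nat_lit 5) (nat_lit 6) (nat_lit 4) (nat_lit 342) (nat_lit 256) (nat_lit 122)) (XT.lf (nat_lit 0) (nat_lit 12116472640) (nat_lit 76) (nat_lit 22038939994) (nat_lit 152) (nat_lit 173915553895) (nat_lit 4) (nat_lit 5) (nat_lit 5) (nat_lit 5) (nat_lit 6) (nat_lit 4) (nat_lit 343) (nat_lit 256) (nat_lit 121))) (XT.nd (nat_lit 78) (nat_lit 0) (nat_lit 0) (XT.lf (nat_lit 0) (nat_lit 36502668644) (nat_lit 76) (nat_lit 9550306157) (nat_lit 152) (nat_lit 171763744319) (nat_lit 4) (nat_lit 5) (nat_lit 5) (nat_lit 5) (nat_lit 6) (nat_lit 4) (nat_lit 344) (nat_lit 256) (nat_lit 120)) (XT.nd (nat_lit 78) (nat_lit 0) (nat_lit 0) (XT.lf (nat_lit 0) (nat_lit 58599357146) (nat_lit 152) (nat_lit 166000306288) (nat_lit 0) (nat_lit 3447400116) (nat_lit 4) (nat_lit 5) (nat_lit 6) (nat_lit 4) (nat_lit 4) (nat_lit 4) (nat_lit 345) (nat_lit 256) (nat_lit 119)) (XT.lf (nat_lit 0)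 (nat_lit 71928018536) (nat_lit 152) (nat_lit 150080386555) (nat_lit 0) (nat_lit 16772773361) (nat_lit 4) (nat_lit 5) (nat_lit 6) (nat_lit 4) (nat_lit 4) (nat_lit 4) (nat_lit 346) (nat_lit 256) (nat_lit 118))))))))
noncomputable def xc162 : XT := (XT.nd (nat_lit 30888) (nat_lit 0) (nat_lit 3420) (XT.nd (nat_lit 702) (nat_lit 0) (nat_lit 0) (XT.nd (nat_lit 312) (nat_lit 76) (nat_lit 0) (XT.nd (nat_lit 156) (nat_lit 0) (nat_lit 0) (XT.nd (nat_lit 78) (nat_lit 0) (nat_lit 0) (XT.lf (nat_lit 0) (nat_lit 85921586837) (nat_lit 152) (nat_lit 133367279665) (nat_lit 0) (nat_lit 30763210095) (nat_lit 4) (nat_lit 5) (nat_lit 6) (nat_lit 4) (nat_lit 4) (nat_lit 4) (nat_lit 347) (nat_lit 256) (nat_lit 117)) (XT.lf (nat_lit 0) (nat_lit 100613380069) (nat_lit 152) (nat_lit 115821192505) (nat_lit 0) (nat_lit 45452020881) (nat_lit 4) (nat_lit 5) (nat_lit 6) (nat_lit 4) (nat_lit 4) (nat_lit 4) (nat_lit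 348) (nat_lit 256) (nat_lit 116))) (XT.nd (nat_lit 78) (nat_lit 0) (nat_lit 0) (XT.lf (nat_lit 0) (nat_lit 116038378691) (nat_lit 152) (nat_lit 97400348678) (nat_lit 0) (nat_lit 60874179079) (nat_lit 4) (nat_lit 5) (nat_lit 6) (nat_lit 4) (nat_lit 4) (nat_lit 4) (nat_lit 349) (nat_lit 256) (nat_lit 115)) (XT.lf (nat_lit 0) (nat_lit 132233308890) (nat_lit 152) (nat_lit 78060889032) (nat_lit 0) (nat_lit 77066404113) (nat_lit 4) (nat_lit 5) (nat_lit 6) (nat_lit 4) (nat_lit 4) (nat_lit 4) (nat_lit 350) (nat_lit 256) (nat_lit 114)))) (XT.nd (nat_lit 156) (nat_lit 76) (nat_lit 0) (XT.nd (nat_lit 78) (nat_lit 0) (nat_lit 0) (XT.lf (nat_lit 0) (nat_lit 149236730025) (nat_lit 152) (nat_lit 57756767234) (nat_lit 0) (nat_lit 94067248899) (nat_lit 4) (nat_lit 5) (nat_lit 6) (nat_lit 4) (nat_lit 4) (nat_lit 4) (nat_lit 351) (nat_lit 256) (nat_lit 113)) (XT.lf (nat_lit 0) (nat_lit 167089126431) (nat_lit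 152) (nat_lit 36439640137) (nat_lit 0) (nat_lit 111917191640) (nat_lit 4) (nat_lit 5) (nat_lit 6) (nat_lit 4) (nat_lit 4) (nat_lit 4) (nat_lit 352) (nat_lit 256) (nat_lit 112))) (XT.nd (nat_lit 78) (nat_lit 76) (nat_lit 0) (XT.lf (nat_lit 0) (nat_lit 185833003814) (nat_lit 152) (nat_lit 14058752677) (nat_lit 0) (nat_lit 130658732200) (nat_lit 4) (nat_lit 5) (nat_lit 6) (nat_lit 4) (nat_lit 4) (nat_lit 4) (nat_lit 353) (nat_lit 256) (nat_lit 111)) (XT.nd (nat_lit 78) (nat_lit 0) (nat_lit 0) (XT.lf (nat_lit 0) (nat_lit 9751284991) (nat_lit 76) (nat_lit 195913950349) (nat_lit 76) (nat_lit 140737453188) (nat_lit 3) (nat_lit 4) (nat_lit 4) (nat_lit 5) (nat_lit 4) (nat_lit 4) (nat_lit 354) (nat_lit 256) (nat_lit 110)) (XT.lf (nat_lit 0) (nat_lit 35237948705) (nat_lit 76) (nat_lit 191488157889) (nat_lit 76) (nat_lit 136309541160) (nat_lit 3) (nat_lit 4) (nat_lit 4) (nat_lit 5) (nat_lit 4)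 (nat_lit 4) (nat_lit 355) (nat_lit 256) (nat_lit 109)))))) (XT.nd (nat_lit 29796) (nat_lit 0) (nat_lit 6156) (XT.nd (nat_lit 156) (nat_lit 0) (nat_lit 0) (XT.nd (nat_lit 78) (nat_lit 0) (nat_lit 0) (XT.lf (nat_lit 0) (nat_lit 61997075142) (nat_lit 76) (nat_lit 186841933290) (nat_lit 76) (nat_lit 131661297925) (nat_lit 3) (nat_lit 4) (nat_lit 4) (nat_lit 5) (nat_lit 4) (nat_lit 4) (nat_lit 356) (nat_lit 256) (nat_lit 108)) (XT.lf (nat_lit 0) (nat_lit 90092376507) (nat_lit 76) (nat_lit 181964214113) (nat_lit 76) (nat_lit 126781656237) (nat_lit 3) (nat_lit 4) (nat_lit 4) (nat_lit 5) (nat_lit 4) (nat_lit 4) (nat_lit 357) (nat_lit 256) (nat_lit 107))) (XT.nd (nat_lit 78) (nat_lit 0) (nat_lit 0) (XT.lf (nat_lit 0) (nat_lit 119590746376) (nat_lit 76) (nat_lit 176843386740) (nat_lit 76) (nat_lit 121658997901) (nat_lit 3) (nat_lit 4) (nat_lit 4) (nat_lit 5) (nat_lit 4) (nat_lit 4) (nat_lit 358)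 (nat_lit 256) (nat_lit 106)) (XT.lf (nat_lit 0) (nat_lit 150562418963) (nat_lit 76) (nat_lit 171467258725) (nat_lit 76) (nat_lit 116281126112) (nat_lit 3) (nat_lit 4) (nat_lit 4) (nat_lit 5) (nat_lit 4) (nat_lit 4) (nat_lit 359) (nat_lit 256) (nat_lit 105)))) (XT.nd (nat_lit 156) (nat_lit 0) (nat_lit 0) (XT.nd (nat_lit 78) (nat_lit 0) (nat_lit 0) (XT.lf (nat_lit 0) (nat_lit 2844765626) (nat_lit 684) (nat_lit 1049828738) (nat_lit 684) (nat_lit 1049828738) (nat_lit 84) (nat_lit 3) (nat_lit 93) (nat_lit 3) (nat_lit 93) (nat_lit 5) (nat_lit 257) (nat_lit 257) (nat_lit 206)) (XT.lf (nat_lit 76) (nat_lit 2306472181) (nat_lit 0) (nat_lit 4219114683) (nat_lit 684) (nat_lit 3573679940) (nat_lit 85) (nat_lit 5) (nat_lit 84) (nat_lit 3) (nat_lit 93) (nat_lit 5) (nat_lit 258) (nat_lit 257) (nat_lit 205))) (XT.nd (nat_lit 78) (nat_lit 0) (nat_lit 76) (XT.lf (nat_lit 76) (nat_lit 6982896365) (nat_lit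 0) (nat_lit 413642104) (nat_lit 684) (nat_lit 2924150346) (nat_lit 85) (nat_lit 5) (nat_lit 84) (nat_lit 3) (nat_lit 93) (nat_lit 5) (nat_lit 259) (nat_lit 257) (nat_lit 204)) (XT.nd (nat_lit 78) (nat_lit 0) (nat_lit 0) (XT.lf (nat_lit 76) (nat_lit 1301428898) (nat_lit 0) (nat_lit 7045701875) (nat_lit 684) (nat_lit 2204375114) (nat_lit 86) (nat_lit 5) (nat_lit 85) (nat_lit 5) (nat_lit 94) (nat_lit 5) (nat_lit 260) (nat_lit 257) (nat_lit 203)) (XT.lf (nat_lit 76) (nat_lit 6257619865) (nat_lit 0) (nat_lit 3112218484) (nat_lit 684) (nat_lit 1422918673) (nat_lit 86) (nat_lit 5) (nat_lit 85) (nat_lit 5) (nat_lit 94) (nat_lit 5) (nat_lit 261) (nat_lit 257) (nat_lit 202))))))) (XT.nd (nat_lit 702) (nat_lit 1672) (nat_lit 0) (XT.nd (nat_lit 312) (nat_lit 532) (nat_lit 0) (XT.nd (nat_lit 156) (nat_lit 0) (nat_lit 0) (XT.nd (nat_lit 78) (nat_lit 684) (nat_lit 0) (XT.lf (nat_lit 76) (nat_lit 387142802)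 (nat_lit 0) (nat_lit 10041920635) (nat_lit 684) (nat_lit 617854829) (nat_lit 87) (nat_lit 5) (nat_lit 86) (nat_lit 5) (nat_lit 95) (nat_lit 5) (nat_lit 262) (nat_lit 257) (nat_lit 201)) (XT.lf (nat_lit 0) (nat_lit 313384282) (nat_lit 684) (nat_lit 5678586738) (nat_lit 760) (nat_lit 5317084683) (nat_lit 77) (nat_lit 5) (nat_lit 86) (nat_lit 5) (nat_lit 87) (nat_lit 5) (nat_lit 263) (nat_lit 257) (nat_lit 200))) (XT.nd (nat_lit 78) (nat_lit 0) (nat_lit 76) (XT.lf (nat_lit 0) (nat_lit 1236248496) (nat_lit 684) (nat_lit 483034479) (nat_lit 760) (nat_lit 9866320017) (nat_lit 77) (nat_lit 5) (nat_lit 86) (nat_lit 5) (nat_lit 87) (nat_lit 5) (nat_lit 264) (nat_lit 257) (nat_lit 199)) (XT.lf (nat_lit 0) (nat_lit 2297183869) (nat_lit 684) (nat_lit 6805831426) (nat_lit 760) (nat_lit 2768461928) (nat_lit 78) (nat_lit 5) (nat_lit 87) (nat_lit 5) (nat_lit 88) (nat_lit 5) (nat_lit 265) (nat_lit 257)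 (nat_lit 198)))) (XT.nd (nat_lit 156) (nat_lit 608) (nat_lit 0) (XT.nd (nat_lit 78) (nat_lit 0) (nat_lit 0) (XT.lf (nat_lit 0) (nat_lit 3416440428) (nat_lit 684) (nat_lit 1315834463) (nat_lit 760) (nat_lit 7439197959) (nat_lit 78) (nat_lit 5) (nat_lit 87) (nat_lit 5) (nat_lit 88) (nat_lit 5) (nat_lit 266) (nat_lit 257) (nat_lit 197)) (XT.lf (nat_lit 76) (nat_lit 4571346164) (nat_lit 0) (nat_lit 61947007) (nat_lit 760) (nat_lit 7851180472) (nat_lit 79) (nat_lit 5) (nat_lit 78) (nat_lit 5) (nat_lit 88) (nat_lit 5) (nat_lit 267) (nat_lit 257) (nat_lit 196))) (XT.nd (nat_lit 78) (nat_lit 684) (nat_lit 0) (XT.lf (nat_lit 0) (nat_lit 5980633641) (nat_lit 684) (nat_lit 2114251320) (nat_lit 76) (nat_lit 4714840166) (nat_lit 79) (nat_lit 5) (nat_lit 88) (nat_lit 5) (nat_lit 80) (nat_lit 5) (nat_lit 268) (nat_lit 257) (nat_lit 195)) (XT.nd (nat_lit 78) (nat_lit 0) (nat_lit 0) (XT.lf (nat_lit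 0) (nat_lit 4080488738) (nat_lit 684) (nat_lit 3352337591) (nat_lit 760) (nat_lit 5716617556) (nat_lit 70) (nat_lit 5) (nat_lit 79) (nat_lit 5) (nat_lit 80) (nat_lit 5) (nat_lit 269) (nat_lit 257) (nat_lit 194)) (XT.lf (nat_lit 0) (nat_lit 8993171296) (nat_lit 760) (nat_lit 2896706132) (nat_lit 76) (nat_lit 1614569220) (nat_lit 70) (nat_lit 5) (nat_lit 80) (nat_lit 5) (nat_lit 71) (nat_lit 5) (nat_lit 270) (nat_lit 257) (nat_lit 193)))))) (XT.nd (nat_lit 312) (nat_lit 836) (nat_lit 0) (XT.nd (nat_lit 156) (nat_lit 456) (nat_lit 0) (XT.nd (nat_lit 78) (nat_lit 0) (nat_lit 0) (XT.lf (nat_lit 0) (nat_lit 3621567568) (nat_lit 380) (nat_lit 7096457973) (nat_lit 456) (nat_lit 3154921024) (nat_lit 65) (nat_lit 5) (nat_lit 70) (nat_lit 5) (nat_lit 71) (nat_lit 5) (nat_lit 271) (nat_lit 257) (nat_lit 192)) (XT.lf (nat_lit 0) (nat_lit 10543157604) (nat_lit 380) (nat_lit 2010844027) (nat_lit 456)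 (nat_lit 1704694098) (nat_lit 65) (nat_lit 5) (nat_lit 70) (nat_lit 5) (nat_lit 71) (nat_lit 5) (nat_lit 272) (nat_lit 257) (nat_lit 191))) (XT.nd (nat_lit 78) (nat_lit 76) (nat_lit 0) (XT.lf (nat_lit 0) (nat_lit 3173394686) (nat_lit 380) (nat_lit 11386891650) (nat_lit 456) (nat_lit 99585486) (nat_lit 60) (nat_lit 5) (nat_lit 65) (nat_lit 5) (nat_lit 66) (nat_lit 5) (nat_lit 273) (nat_lit 257) (nat_lit 190)) (XT.lf (nat_lit 0) (nat_lit 1609245757) (nat_lit 456) (nat_lit 4624672406) (nat_lit 76) (nat_lit 8842298453) (nat_lit 59) (nat_lit 5) (nat_lit 65) (nat_lit 5) (nat_lit 60) (nat_lit 5) (nat_lit 274) (nat_lit 257) (nat_lit 189)))) (XT.nd (nat_lit 156) (nat_lit 532) (nat_lit 0) (XT.nd (nat_lit 78) (nat_lit 0) (nat_lit 0) (XT.lf (nat_lit 0) (nat_lit 2640506038) (nat_lit 304) (nat_lit 779273764) (nat_lit 380) (nat_lit 12092592936) (nat_lit 55) (nat_lit 5) (nat_lit 59) (nat_lit 5) (nat_lit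 60) (nat_lit 5) (nat_lit 275) (nat_lit 257) (nat_lit 188)) (XT.lf (nat_lit 0) (nat_lit 5456743648) (nat_lit 380) (nat_lit 5638768894) (nat_lit 76) (nat_lit 4868082412) (nat_lit 55) (nat_lit 5) (nat_lit 60) (nat_lit 5) (nat_lit 56) (nat_lit 5) (nat_lit 276) (nat_lit 257) (nat_lit 187))) (XT.nd (nat_lit 78) (nat_lit 228) (nat_lit 0) (XT.lf (nat_lit 0) (nat_lit 1984523922) (nat_lit 304) (nat_lit 5634832940) (nat_lit 380) (nat_lit 8816882258) (nat_lit 51) (nat_lit 5) (nat_lit 55) (nat_lit 5) (nat_lit 56) (nat_lit 5) (nat_lit 277) (nat_lit 257) (nat_lit 186)) (XT.nd (nat_lit 78) (nat_lit 228) (nat_lit 0) (XT.lf (nat_lit 0) (nat_lit 9969317898) (nat_lit 380) (nat_lit 6768924226) (nat_lit 76) (nat_lit 190360986) (nat_lit 51) (nat_lit 5) (nat_lit 56) (nat_lit 5) (nat_lit 52) (nat_lit 5) (nat_lit 278) (nat_lit 257) (nat_lit 185)) (XT.lf (nat_lit 0) (nat_lit 1223042804) (nat_lit 228) (nat_lit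 11306739408) (nat_lit 304) (nat_lit 4911198992) (nat_lit 48) (nat_lit 5) (nat_lit 51) (nat_lit 5) (nat_lit 52) (nat_lit 5) (nat_lit 279) (nat_lit 257) (nat_lit 184))))))))
noncomputable def xc163 : XT := (XT.nd (nat_lit 1404) (nat_lit 836) (nat_lit 0) (XT.nd (nat_lit 702) (nat_lit 836) (nat_lit 0) (XT.nd (nat_lit 312) (nat_lit 608) (nat_lit 0) (XT.nd (nat_lit 156) (nat_lit 76) (nat_lit 0) (XT.nd (nat_lit 78) (nat_lit 304) (nat_lit 0) (XT.lf (nat_lit 0) (nat_lit 9828226315) (nat_lit 228) (nat_lit 5486759615) (nat_lit 304) (nat_lit 2659200430) (nat_lit 48) (nat_lit 5) (nat_lit 51) (nat_lit 5) (nat_lit 52) (nat_lit 5) (nat_lit 280) (nat_lit 257) (nat_lit 183)) (XT.lf (nat_lit 0) (nat_lit 308537543) (nat_lit 304) (nat_lit 17928358175) (nat_lit 380) (nat_lit 297325636) (nat_lit 44) (nat_lit 5) (nat_lit 48) (nat_lit 5) (nat_lit 49) (nat_lit 5) (nat_lit 281) (nat_lit 257) (nat_lit 182))) (XT.nd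 (nat_lit 78) (nat_lit 0) (nat_lit 0) (XT.lf (nat_lit 0) (nat_lit 2326009974) (nat_lit 380) (nat_lit 9794541556) (nat_lit 76) (nat_lit 6989379426) (nat_lit 43) (nat_lit 5) (nat_lit 48) (nat_lit 5) (nat_lit 44) (nat_lit 5) (nat_lit 282) (nat_lit 257) (nat_lit 181)) (XT.lf (nat_lit 0) (nat_lit 5054387946) (nat_lit 380) (nat_lit 967159214) (nat_lit 76) (nat_lit 13693477956) (nat_lit 43) (nat_lit 5) (nat_lit 48) (nat_lit 5) (nat_lit 44) (nat_lit 5) (nat_lit 283) (nat_lit 257) (nat_lit 180)))) (XT.nd (nat_lit 156) (nat_lit 380) (nat_lit 0) (XT.nd (nat_lit 78) (nat_lit 0) (nat_lit 0) (XT.lf (nat_lit 0) (nat_lit 8045499558) (nat_lit 304) (nat_lit 11796626484) (nat_lit 76) (nat_lit 501966655) (nat_lit 40) (nat_lit 5) (nat_lit 44) (nat_lit 5) (nat_lit 41) (nat_lit 5) (nat_lit 284) (nat_lit 257) (nat_lit 179)) (XT.lf (nat_lit 0) (nat_lit 11286530951) (nat_lit 304) (nat_lit 2551245383) (nat_lit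 76) (nat_lit 7161851922) (nat_lit 40) (nat_lit 5) (nat_lit 44) (nat_lit 5) (nat_lit 41) (nat_lit 5) (nat_lit 285) (nat_lit 257) (nat_lit 178))) (XT.nd (nat_lit 78) (nat_lit 152) (nat_lit 0) (XT.lf (nat_lit 0) (nat_lit 7373479511) (nat_lit 228) (nat_lit 7416971739) (nat_lit 304) (nat_lit 6892478724) (nat_lit 37) (nat_lit 5) (nat_lit 40) (nat_lit 5) (nat_lit 41) (nat_lit 5) (nat_lit 286) (nat_lit 257) (nat_lit 177)) (XT.nd (nat_lit 78) (nat_lit 152) (nat_lit 0) (XT.lf (nat_lit 0) (nat_lit 17864396678) (nat_lit 228) (nat_lit 634483605) (nat_lit 304) (nat_lit 3900080616) (nat_lit 37) (nat_lit 5) (nat_lit 40) (nat_lit 5) (nat_lit 41) (nat_lit 5) (nat_lit 287) (nat_lit 257) (nat_lit 176)) (XT.lf (nat_lit 0) (nat_lit 5794906649) (nat_lit 152) (nat_lit 16776278636) (nat_lit 228) (nat_lit 570713701) (nat_lit 35) (nat_lit 5) (nat_lit 37) (nat_lit 5) (nat_lit 38) (nat_lit 5) (nat_lit 288) (nat_lit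 257) (nat_lit 175)))))) (XT.nd (nat_lit 312) (nat_lit 380) (nat_lit 0) (XT.nd (nat_lit 156) (nat_lit 152) (nat_lit 0) (XT.nd (nat_lit 78) (nat_lit 228) (nat_lit 0) (XT.lf (nat_lit 0) (nat_lit 2906765395) (nat_lit 228) (nat_lit 7195709435) (nat_lit 76) (nat_lit 13813488088) (nat_lit 34) (nat_lit 5) (nat_lit 37) (nat_lit 5) (nat_lit 35) (nat_lit 5) (nat_lit 289) (nat_lit 257) (nat_lit 174)) (XT.lf (nat_lit 0) (nat_lit 3549761471) (nat_lit 228) (nat_lit 3032037693) (nat_lit 304) (nat_lit 18144344546) (nat_lit 31) (nat_lit 5) (nat_lit 34) (nat_lit 5) (nat_lit 35) (nat_lit 5) (nat_lit 290) (nat_lit 257) (nat_lit 173))) (XT.nd (nat_lit 78) (nat_lit 152) (nat_lit 0) (XT.lf (nat_lit 0) (nat_lit 10620701499) (nat_lit 304) (nat_lit 10576889067) (nat_lit 76) (nat_lit 4370260448) (nat_lit 31) (nat_lit 5) (nat_lit 35) (nat_lit 5) (nat_lit 32) (nat_lit 5) (nat_lit 291) (nat_lit 257) (nat_lit 172))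 (XT.lf (nat_lit 0) (nat_lit 501883862) (nat_lit 152) (nat_lit 14405478919) (nat_lit 228) (nat_lit 11542012417) (nat_lit 29) (nat_lit 5) (nat_lit 31) (nat_lit 5) (nat_lit 32) (nat_lit 5) (nat_lit 292) (nat_lit 257) (nat_lit 171)))) (XT.nd (nat_lit 156) (nat_lit 380) (nat_lit 0) (XT.nd (nat_lit 78) (nat_lit 0) (nat_lit 0) (XT.lf (nat_lit 0) (nat_lit 12485023404) (nat_lit 152) (nat_lit 7091027443) (nat_lit 228) (nat_lit 7790561206) (nat_lit 29) (nat_lit 5) (nat_lit 31) (nat_lit 5) (nat_lit 32) (nat_lit 5) (nat_lit 293) (nat_lit 257) (nat_lit 170)) (XT.lf (nat_lit 0) (nat_lit 24476405366) (nat_lit 228) (nat_lit 3288052830) (nat_lit 76) (nat_lit 565361095) (nat_lit 29) (nat_lit 5) (nat_lit 32) (nat_lit 5) (nat_lit 30) (nat_lit 5) (nat_lit 294) (nat_lit 257) (nat_lit 169))) (XT.nd (nat_lit 78) (nat_lit 152) (nat_lit 0) (XT.lf (nat_lit 0) (nat_lit 522623962) (nat_lit 228) (nat_lit 20294631236)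 (nat_lit 76) (nat_lit 8511180228) (nat_lit 26) (nat_lit 5) (nat_lit 29) (nat_lit 5) (nat_lit 27) (nat_lit 5) (nat_lit 295) (nat_lit 257) (nat_lit 168)) (XT.nd (nat_lit 78) (nat_lit 152) (nat_lit 0) (XT.lf (nat_lit 0) (nat_lit 5034189199) (nat_lit 228) (nat_lit 8368161116) (nat_lit 76) (nat_lit 16969179643) (nat_lit 26) (nat_lit 5) (nat_lit 29) (nat_lit 5) (nat_lit 27) (nat_lit 5) (nat_lit 296) (nat_lit 257) (nat_lit 167)) (XT.lf (nat_lit 0) (nat_lit 4276470820) (nat_lit 152) (nat_lit 5551751286) (nat_lit 228) (nat_lit 21635729211) (nat_lit 24) (nat_lit 5) (nat_lit 26) (nat_lit 5) (nat_lit 27) (nat_lit 5) (nat_lit 297) (nat_lit 257) (nat_lit 166))))))) (XT.nd (nat_lit 702) (nat_lit 380) (nat_lit 0) (XT.nd (nat_lit 312) (nat_lit 304) (nat_lit 0) (XT.nd (nat_lit 156) (nat_lit 152) (nat_lit 0) (XT.nd (nat_lit 78) (nat_lit 0) (nat_lit 0) (XT.lf (nat_lit 0) (nat_lit 15038299406) (nat_lit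 228) (nat_lit 14819603207) (nat_lit 76) (nat_lit 2744289777) (nat_lit 24) (nat_lit 5) (nat_lit 27) (nat_lit 5) (nat_lit 25) (nat_lit 5) (nat_lit 298) (nat_lit 257) (nat_lit 165)) (XT.lf (nat_lit 0) (nat_lit 20590636391) (nat_lit 228) (nat_lit 1938830280) (nat_lit 76) (nat_lit 11263806084) (nat_lit 24) (nat_lit 5) (nat_lit 27) (nat_lit 5) (nat_lit 25) (nat_lit 5) (nat_lit 299) (nat_lit 257) (nat_lit 164))) (XT.nd (nat_lit 78) (nat_lit 0) (nat_lit 0) (XT.lf (nat_lit 0) (nat_lit 11954813889) (nat_lit 152) (nat_lit 14643608773) (nat_lit 228) (nat_lit 8436607168) (nat_lit 22) (nat_lit 5) (nat_lit 24) (nat_lit 5) (nat_lit 25) (nat_lit 5) (nat_lit 300) (nat_lit 257) (nat_lit 163)) (XT.lf (nat_lit 0) (nat_lit 26596878488) (nat_lit 152) (nat_lit 6333946953) (nat_lit 228) (nat_lit 3406851593) (nat_lit 22) (nat_lit 5) (nat_lit 24) (nat_lit 5) (nat_lit 25) (nat_lit 5) (nat_lit 301) (nat_lit 257)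 (nat_lit 162)))) (XT.nd (nat_lit 156) (nat_lit 152) (nat_lit 0) (XT.nd (nat_lit 78) (nat_lit 0) (nat_lit 0) (XT.lf (nat_lit 0) (nat_lit 1913022929) (nat_lit 152) (nat_lit 33377126111) (nat_lit 76) (nat_lit 2408925526) (nat_lit 20) (nat_lit 5) (nat_lit 22) (nat_lit 5) (nat_lit 21) (nat_lit 5) (nat_lit 302) (nat_lit 257) (nat_lit 161)) (XT.lf (nat_lit 0) (nat_lit 7647677026) (nat_lit 152) (nat_lit 19870017860) (nat_lit 76) (nat_lit 11594902444) (nat_lit 20) (nat_lit 5) (nat_lit 22) (nat_lit 5) (nat_lit 21) (nat_lit 5) (nat_lit 303) (nat_lit 257) (nat_lit 160))) (XT.nd (nat_lit 78) (nat_lit 152) (nat_lit 0) (XT.lf (nat_lit 0) (nat_lit 13661229278) (nat_lit 152) (nat_lit 5700264590) (nat_lit 76) (nat_lit 21235705308) (nat_lit 20) (nat_lit 5) (nat_lit 22) (nat_lit 5) (nat_lit 21) (nat_lit 5) (nat_lit 304) (nat_lit 257) (nat_lit 159)) (XT.nd (nat_lit 78) (nat_lit 0) (nat_lit 0) (XT.lf (nat_lit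 0) (nat_lit 9468936304) (nat_lit 152) (nat_lit 10646897994) (nat_lit 228) (nat_lit 22033188740) (nat_lit 18) (nat_lit 5) (nat_lit 20) (nat_lit 5) (nat_lit 21) (nat_lit 5) (nat_lit 305) (nat_lit 257) (nat_lit 158)) (XT.lf (nat_lit 0) (nat_lit 25582587667) (nat_lit 152) (nat_lit 1399826527) (nat_lit 228) (nat_lit 16791571840) (nat_lit 18) (nat_lit 5) (nat_lit 20) (nat_lit 5) (nat_lit 21) (nat_lit 5) (nat_lit 306) (nat_lit 257) (nat_lit 157)))))) (XT.nd (nat_lit 390) (nat_lit 76) (nat_lit 0) (XT.nd (nat_lit 156) (nat_lit 228) (nat_lit 0) (XT.nd (nat_lit 78) (nat_lit 76) (nat_lit 0) (XT.lf (nat_lit 0) (nat_lit 34315045672) (nat_lit 228) (nat_lit 3119642727) (nat_lit 76) (nat_lit 8039382341) (nat_lit 18) (nat_lit 5) (nat_lit 21) (nat_lit 5) (nat_lit 19) (nat_lit 4) (nat_lit 307) (nat_lit 257) (nat_lit 156)) (XT.lf (nat_lit 0) (nat_lit 13090658375) (nat_lit 76) (nat_lit 29144300630) (nat_lit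 152) (nat_lit 5013177389) (nat_lit 17) (nat_lit 5) (nat_lit 18) (nat_lit 5) (nat_lit 19) (nat_lit 4) (nat_lit 308) (nat_lit 257) (nat_lit 155))) (XT.nd (nat_lit 78) (nat_lit 152) (nat_lit 0) (XT.lf (nat_lit 0) (nat_lit 1440926422) (nat_lit 152) (nat_lit 18922956833) (nat_lit 76) (nat_lit 28743553776) (nat_lit 16) (nat_lit 5) (nat_lit 18) (nat_lit 5) (nat_lit 17) (nat_lit 5) (nat_lit 309) (nat_lit 257) (nat_lit 154)) (XT.nd (nat_lit 78) (nat_lit 152) (nat_lit 0) (XT.lf (nat_lit 0) (nat_lit 8042929105) (nat_lit 152) (nat_lit 3019489640) (nat_lit 76) (nat_lit 39993499298) (nat_lit 16) (nat_lit 5) (nat_lit 18) (nat_lit 5) (nat_lit 17) (nat_lit 5) (nat_lit 310) (nat_lit 257) (nat_lit 153)) (XT.lf (nat_lit 0) (nat_lit 14121019519) (nat_lit 152) (nat_lit 1068451866) (nat_lit 228) (nat_lit 37901637338) (nat_lit 14) (nat_lit 5) (nat_lit 16) (nat_lit 5) (nat_lit 17) (nat_lit 5) (nat_lit 311)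 (nat_lit 257) (nat_lit 152))))) (XT.nd (nat_lit 156) (nat_lit 76) (nat_lit 0) (XT.nd (nat_lit 78) (nat_lit 0) (nat_lit 0) (XT.lf (nat_lit 0) (nat_lit 22886509495) (nat_lit 228) (nat_lit 23160278972) (nat_lit 76) (nat_lit 9171619264) (nat_lit 14) (nat_lit 5) (nat_lit 17) (nat_lit 5) (nat_lit 15) (nat_lit 4) (nat_lit 312) (nat_lit 257) (nat_lit 151)) (XT.lf (nat_lit 0) (nat_lit 30980238827) (nat_lit 228) (nat_lit 6587178176) (nat_lit 76) (nat_lit 19884069606) (nat_lit 14) (nat_lit 5) (nat_lit 17) (nat_lit 5) (nat_lit 15) (nat_lit 4) (nat_lit 313) (nat_lit 257) (nat_lit 150))) (XT.nd (nat_lit 78) (nat_lit 0) (nat_lit 0) (XT.lf (nat_lit 0) (nat_lit 11162628293) (nat_lit 76) (nat_lit 28484900257) (nat_lit 152) (nat_lit 20140253743) (nat_lit 13) (nat_lit 5) (nat_lit 14) (nat_lit 5) (nat_lit 15) (nat_lit 4) (nat_lit 314) (nat_lit 257) (nat_lit 149)) (XT.nd (nat_lit 78) (nat_lit 0) (nat_lit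 0) (XT.lf (nat_lit 0) (nat_lit 30019542615) (nat_lit 76) (nat_lit 18834906958) (nat_lit 152) (nat_lit 13381136094) (nat_lit 13) (nat_lit 5) (nat_lit 14) (nat_lit 5) (nat_lit 15) (nat_lit 4) (nat_lit 315) (nat_lit 257) (nat_lit 148)) (XT.lf (nat_lit 0) (nat_lit 49810660345) (nat_lit 76) (nat_lit 8706017980) (nat_lit 152) (nat_lit 6289358746) (nat_lit 13) (nat_lit 5) (nat_lit 14) (nat_lit 5) (nat_lit 15) (nat_lit 4) (nat_lit 316) (nat_lit 257) (nat_lit 147))))))))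
noncomputable def xc164 : XT := (XT.nd (nat_lit 1404) (nat_lit 228) (nat_lit 0) (XT.nd (nat_lit 702) (nat_lit 152) (nat_lit 0) (XT.nd (nat_lit 312) (nat_lit 152) (nat_lit 0) (XT.nd (nat_lit 156) (nat_lit 0) (nat_lit 0) (XT.nd (nat_lit 78) (nat_lit 0) (nat_lit 0) (XT.lf (nat_lit 0) (nat_lit 1195618390) (nat_lit 152) (nat_lit 64372028056) (nat_lit 76) (nat_lit 1932684670) (nat_lit 11) (nat_lit 5) (nat_lit 13) (nat_lit 5) (nat_lit 12) (nat_lit 4) (nat_lit 317) (nat_lit 257) (nat_lit 146)) (XT.lf (nat_lit 0) (nat_lit 9239486015) (nat_lit 152) (nat_lit 47896310602) (nat_lit 76) (nat_lit 13168592906) (nat_lit 11) (nat_lit 5) (nat_lit 13) (nat_lit 5) (nat_lit 12) (nat_lit 4) (nat_lit 318) (nat_lit 257) (nat_lit 145))) (XT.nd (nat_lit 78) (nat_lit 0) (nat_lit 0) (XT.lf (nat_lit 0) (nat_lit 17680943763) (nat_lit 152) (nat_lit 30604856672) (nat_lit 76) (nat_lit 24963085471) (nat_lit 11) (nat_lit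 5) (nat_lit 13) (nat_lit 5) (nat_lit 12) (nat_lit 4) (nat_lit 319) (nat_lit 257) (nat_lit 144)) (XT.lf (nat_lit 0) (nat_lit 26540090344) (nat_lit 152) (nat_lit 12456496138) (nat_lit 76) (nat_lit 37344244490) (nat_lit 11) (nat_lit 5) (nat_lit 13) (nat_lit 5) (nat_lit 12) (nat_lit 4) (nat_lit 320) (nat_lit 257) (nat_lit 143)))) (XT.nd (nat_lit 156) (nat_lit 76) (nat_lit 0) (XT.nd (nat_lit 78) (nat_lit 0) (nat_lit 0) (XT.lf (nat_lit 0) (nat_lit 6809942056) (nat_lit 76) (nat_lit 29134399187) (nat_lit 152) (nat_lit 43637929137) (nat_lit 10) (nat_lit 5) (nat_lit 11) (nat_lit 5) (nat_lit 12) (nat_lit 4) (nat_lit 321) (nat_lit 257) (nat_lit 142)) (XT.lf (nat_lit 0) (nat_lit 27464980298) (nat_lit 76) (nat_lit 18560692561) (nat_lit 152) (nat_lit 36949769718) (nat_lit 10) (nat_lit 5) (nat_lit 11) (nat_lit 5) (nat_lit 12) (nat_lit 4) (nat_lit 322) (nat_lit 257) (nat_lit 141))) (XT.nd (nat_lit 78)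 (nat_lit 76) (nat_lit 0) (XT.lf (nat_lit 0) (nat_lit 49145929231) (nat_lit 76) (nat_lit 7461247901) (nat_lit 152) (nat_lit 29931294973) (nat_lit 10) (nat_lit 5) (nat_lit 11) (nat_lit 5) (nat_lit 12) (nat_lit 4) (nat_lit 323) (nat_lit 257) (nat_lit 140)) (XT.nd (nat_lit 78) (nat_lit 76) (nat_lit 0) (XT.lf (nat_lit 0) (nat_lit 67779471418) (nat_lit 152) (nat_lit 18440855502) (nat_lit 0) (nat_lit 4056244284) (nat_lit 10) (nat_lit 5) (nat_lit 12) (nat_lit 4) (nat_lit 10) (nat_lit 4) (nat_lit 324) (nat_lit 257) (nat_lit 139)) (XT.lf (nat_lit 0) (nat_lit 1373724773) (nat_lit 76) (nat_lit 78276845238) (nat_lit 76) (nat_lit 14543999420) (nat_lit 9) (nat_lit 4) (nat_lit 10) (nat_lit 5) (nat_lit 10) (nat_lit 4) (nat_lit 325) (nat_lit 257) (nat_lit 138)))))) (XT.nd (nat_lit 312) (nat_lit 76) (nat_lit 0) (XT.nd (nat_lit 156) (nat_lit 0) (nat_lit 0) (XT.nd (nat_lit 78) (nat_lit 76) (nat_lit 0) (XT.lf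 (nat_lit 0) (nat_lit 22813017545) (nat_lit 76) (nat_lit 69611009887) (nat_lit 76) (nat_lit 5869003418) (nat_lit 9) (nat_lit 4) (nat_lit 10) (nat_lit 5) (nat_lit 10) (nat_lit 4) (nat_lit 326) (nat_lit 257) (nat_lit 137)) (XT.lf (nat_lit 0) (nat_lit 3132658326) (nat_lit 152) (nat_lit 57328781327) (nat_lit 76) (nat_lit 42132619373) (nat_lit 8) (nat_lit 5) (nat_lit 10) (nat_lit 5) (nat_lit 9) (nat_lit 4) (nat_lit 327) (nat_lit 257) (nat_lit 136))) (XT.nd (nat_lit 78) (nat_lit 0) (nat_lit 0) (XT.lf (nat_lit 0) (nat_lit 12383935620) (nat_lit 152) (nat_lit 38371971857) (nat_lit 76) (nat_lit 56349585007) (nat_lit 8) (nat_lit 5) (nat_lit 10) (nat_lit 5) (nat_lit 9) (nat_lit 4) (nat_lit 328) (nat_lit 257) (nat_lit 135)) (XT.lf (nat_lit 0) (nat_lit 22094700073) (nat_lit 152) (nat_lit 18472818042) (nat_lit 76) (nat_lit 71275136195) (nat_lit 8) (nat_lit 5) (nat_lit 10) (nat_lit 5) (nat_lit 9) (nat_lit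 4) (nat_lit 329) (nat_lit 257) (nat_lit 134)))) (XT.nd (nat_lit 156) (nat_lit 0) (nat_lit 0) (XT.nd (nat_lit 78) (nat_lit 0) (nat_lit 0) (XT.lf (nat_lit 0) (nat_lit 2495944876) (nat_lit 76) (nat_lit 29831096372) (nat_lit 152) (nat_lit 84487833780) (nat_lit 7) (nat_lit 5) (nat_lit 8) (nat_lit 5) (nat_lit 9) (nat_lit 4) (nat_lit 330) (nat_lit 257) (nat_lit 133)) (XT.lf (nat_lit 0) (nat_lit 25149330488) (nat_lit 76) (nat_lit 18231644039) (nat_lit 152) (nat_lit 78639236097) (nat_lit 7) (nat_lit 5) (nat_lit 8) (nat_lit 5) (nat_lit 9) (nat_lit 4) (nat_lit 331) (nat_lit 257) (nat_lit 132))) (XT.nd (nat_lit 78) (nat_lit 0) (nat_lit 0) (XT.lf (nat_lit 0) (nat_lit 48930480635) (nat_lit 76) (nat_lit 6054389485) (nat_lit 152) (nat_lit 72501082069) (nat_lit 7) (nat_lit 5) (nat_lit 8) (nat_lit 5) (nat_lit 9) (nat_lit 4) (nat_lit 332) (nat_lit 257) (nat_lit 131)) (XT.nd (nat_lit 78) (nat_lit 0) (nat_lit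 0) (XT.lf (nat_lit 0) (nat_lit 67271425214) (nat_lit 152) (nat_lit 59434165157) (nat_lit 0) (nat_lit 6514269580) (nat_lit 7) (nat_lit 5) (nat_lit 9) (nat_lit 4) (nat_lit 7) (nat_lit 4) (nat_lit 333) (nat_lit 257) (nat_lit 130)) (XT.lf (nat_lit 0) (nat_lit 80269049478) (nat_lit 152) (nat_lit 39460589987) (nat_lit 0) (nat_lit 19505988806) (nat_lit 7) (nat_lit 5) (nat_lit 9) (nat_lit 4) (nat_lit 7) (nat_lit 4) (nat_lit 334) (nat_lit 257) (nat_lit 129))))))) (XT.nd (nat_lit 702) (nat_lit 76) (nat_lit 0) (XT.nd (nat_lit 312) (nat_lit 76) (nat_lit 0) (XT.nd (nat_lit 156) (nat_lit 0) (nat_lit 0) (XT.nd (nat_lit 78) (nat_lit 76) (nat_lit 0) (XT.lf (nat_lit 0) (nat_lit 93914163649) (nat_lit 152) (nat_lit 18492663927) (nat_lit 0) (nat_lit 33145479131) (nat_lit 7) (nat_lit 5) (nat_lit 9) (nat_lit 4) (nat_lit 7) (nat_lit 4) (nat_lit 335) (nat_lit 257) (nat_lit 128)) (XT.lf (nat_lit 0) (nat_lit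 3635908431) (nat_lit 76) (nat_lit 104660114382) (nat_lit 76) (nat_lit 43886073821) (nat_lit 6) (nat_lit 4) (nat_lit 7) (nat_lit 5) (nat_lit 7) (nat_lit 4) (nat_lit 336) (nat_lit 257) (nat_lit 127))) (XT.nd (nat_lit 78) (nat_lit 0) (nat_lit 0) (XT.lf (nat_lit 0) (nat_lit 27508877643) (nat_lit 76) (nat_lit 96199047205) (nat_lit 76) (nat_lit 35419905651) (nat_lit 6) (nat_lit 4) (nat_lit 7) (nat_lit 5) (nat_lit 7) (nat_lit 4) (nat_lit 337) (nat_lit 257) (nat_lit 126)) (XT.lf (nat_lit 0) (nat_lit 52571633126) (nat_lit 76) (nat_lit 87316662859) (nat_lit 76) (nat_lit 26532663216) (nat_lit 6) (nat_lit 4) (nat_lit 7) (nat_lit 5) (nat_lit 7) (nat_lit 4) (nat_lit 338) (nat_lit 257) (nat_lit 125)))) (XT.nd (nat_lit 156) (nat_lit 76) (nat_lit 0) (XT.nd (nat_lit 78) (nat_lit 0) (nat_lit 0) (XT.lf (nat_lit 0) (nat_lit 78883848107) (nat_lit 76) (nat_lit 77991812810) (nat_lit 76) (nat_lit 17203186416)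 (nat_lit 6) (nat_lit 4) (nat_lit 7) (nat_lit 5) (nat_lit 7) (nat_lit 4) (nat_lit 339) (nat_lit 257) (nat_lit 124)) (XT.lf (nat_lit 0) (nat_lit 106508170716) (nat_lit 76) (nat_lit 68202295034) (nat_lit 76) (nat_lit 7409262211) (nat_lit 6) (nat_lit 4) (nat_lit 7) (nat_lit 5) (nat_lit 7) (nat_lit 4) (nat_lit 340) (nat_lit 257) (nat_lit 123))) (XT.nd (nat_lit 78) (nat_lit 0) (nat_lit 0) (XT.lf (nat_lit 0) (nat_lit 2780492623) (nat_lit 152) (nat_lit 55097219544) (nat_lit 76) (nat_lit 132682791540) (nat_lit 5) (nat_lit 5) (nat_lit 7) (nat_lit 5) (nat_lit 6) (nat_lit 4) (nat_lit 341) (nat_lit 257) (nat_lit 122)) (XT.nd (nat_lit 78) (nat_lit 0) (nat_lit 0) (XT.lf (nat_lit 0) (nat_lit 13228956197) (nat_lit 152) (nat_lit 33681865980) (nat_lit 76) (nat_lit 152506513304) (nat_lit 5) (nat_lit 5) (nat_lit 7) (nat_lit 5) (nat_lit 6) (nat_lit 4) (nat_lit 342) (nat_lit 257) (nat_lit 121)) (XT.lf (nat_lit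 0) (nat_lit 24198148466) (nat_lit 152) (nat_lit 11198828268) (nat_lit 76) (nat_lit 173320118209) (nat_lit 5) (nat_lit 5) (nat_lit 7) (nat_lit 5) (nat_lit 6) (nat_lit 4) (nat_lit 343) (nat_lit 257) (nat_lit 120)))))) (XT.nd (nat_lit 312) (nat_lit 0) (nat_lit 0) (XT.nd (nat_lit 156) (nat_lit 0) (nat_lit 0) (XT.nd (nat_lit 78) (nat_lit 0) (nat_lit 0) (XT.lf (nat_lit 0) (nat_lit 12815603997) (nat_lit 76) (nat_lit 23098670053) (nat_lit 152) (nat_lit 182557645955) (nat_lit 4) (nat_lit 5) (nat_lit 5) (nat_lit 5) (nat_lit 6) (nat_lit 4) (nat_lit 344) (nat_lit 257) (nat_lit 119)) (XT.lf (nat_lit 0) (nat_lit 38416666576) (nat_lit 76) (nat_lit 9987614855) (nat_lit 152) (nat_lit 180300802359) (nat_lit 4) (nat_lit 5) (nat_lit 5) (nat_lit 5) (nat_lit 6) (nat_lit 4) (nat_lit 345) (nat_lit 257) (nat_lit 118))) (XT.nd (nat_lit 78) (nat_lit 0) (nat_lit 0) (XT.lf (nat_lit 0) (nat_lit 61576263696) (nat_lit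 152) (nat_lit 174213932985) (nat_lit 0) (nat_lit 3656836549) (nat_lit 4) (nat_lit 5) (nat_lit 6) (nat_lit 4) (nat_lit 4) (nat_lit 4) (nat_lit 346) (nat_lit 257) (nat_lit 117)) (XT.lf (nat_lit 0) (nat_lit 75569122980) (nat_lit 152) (nat_lit 157502131009) (nat_lit 0) (nat_lit 17646713388) (nat_lit 4) (nat_lit 5) (nat_lit 6) (nat_lit 4) (nat_lit 4) (nat_lit 4) (nat_lit 347) (nat_lit 257) (nat_lit 116)))) (XT.nd (nat_lit 156) (nat_lit 0) (nat_lit 0) (XT.nd (nat_lit 78) (nat_lit 0) (nat_lit 0) (XT.lf (nat_lit 0) (nat_lit 90260240957) (nat_lit 152) (nat_lit 139957286625) (nat_lit 0) (nat_lit 32334990941) (nat_lit 4) (nat_lit 5) (nat_lit 6) (nat_lit 4) (nat_lit 4) (nat_lit 4) (nat_lit 348) (nat_lit 257) (nat_lit 115)) (XT.lf (nat_lit 0) (nat_lit 105684596480) (nat_lit 152) (nat_lit 121537626394) (nat_lit 0) (nat_lit 47756641298) (nat_lit 4) (nat_lit 5) (nat_lit 6) (nat_lit 4) (nat_lit 4) (nat_lit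 4) (nat_lit 349) (nat_lit 257) (nat_lit 114))) (XT.nd (nat_lit 78) (nat_lit 0) (nat_lit 0) (XT.lf (nat_lit 0) (nat_lit 121878914204) (nat_lit 152) (nat_lit 102199293983) (nat_lit 0) (nat_lit 63948382674) (nat_lit 4) (nat_lit 5) (nat_lit 6) (nat_lit 4) (nat_lit 4) (nat_lit 4) (nat_lit 350) (nat_lit 257) (nat_lit 113)) (XT.nd (nat_lit 78) (nat_lit 0) (nat_lit 0) (XT.lf (nat_lit 0) (nat_lit 138881752029) (nat_lit 152) (nat_lit 81896245741) (nat_lit 0) (nat_lit 80948766833) (nat_lit 4) (nat_lit 5) (nat_lit 6) (nat_lit 4) (nat_lit 4) (nat_lit 4) (nat_lit 351) (nat_lit 257) (nat_lit 112)) (XT.lf (nat_lit 0) (nat_lit 156733592902) (nat_lit 152) (nat_lit 60580141079) (nat_lit 0) (nat_lit 98798270882) (nat_lit 4) (nat_lit 5) (nat_lit 6) (nat_lit 4) (nat_lit 4) (nat_lit 4) (nat_lit 352) (nat_lit 257) (nat_lit 111))))))))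
noncomputable def xc165 : XT := (XT.nd (nat_lit 30966) (nat_lit 0) (nat_lit 2812) (XT.nd (nat_lit 30264) (nat_lit 0) (nat_lit 5624) (XT.nd (nat_lit 312) (nat_lit 0) (nat_lit 0) (XT.nd (nat_lit 156) (nat_lit 76) (nat_lit 0) (XT.nd (nat_lit 78) (nat_lit 0) (nat_lit 0) (XT.lf (nat_lit 0) (nat_lit 175476941205) (nat_lit 152) (nat_lit 38200227366) (nat_lit 0) (nat_lit 117539393640) (nat_lit 4) (nat_lit 5) (nat_lit 6) (nat_lit 4) (nat_lit 4) (nat_lit 4) (nat_lit 353) (nat_lit 257) (nat_lit 110)) (XT.lf (nat_lit 0) (nat_lit 195156423960) (nat_lit 152) (nat_lit 14703219094) (nat_lit 0) (nat_lit 137216756826) (nat_lit 4) (nat_lit 5) (nat_lit 6) (nat_lit 4) (nat_lit 4) (nat_lit 4) (nat_lit 354) (nat_lit 257) (nat_lit 109))) (XT.nd (nat_lit 78) (nat_lit 0) (nat_lit 0) (XT.lf (nat_lit 0) (nat_lit 10296377373) (nat_lit 76) (nat_lit 205683275009) (nat_lit 76) (nat_lit 147741589239) (nat_lit 3) (nat_lit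 4) (nat_lit 4) (nat_lit 5) (nat_lit 4) (nat_lit 4) (nat_lit 355) (nat_lit 257) (nat_lit 108)) (XT.lf (nat_lit 0) (nat_lit 37054634838) (nat_lit 76) (nat_lit 201037448777) (nat_lit 76) (nat_lit 143093840496) (nat_lit 3) (nat_lit 4) (nat_lit 4) (nat_lit 5) (nat_lit 4) (nat_lit 4) (nat_lit 356) (nat_lit 257) (nat_lit 107)))) (XT.nd (nat_lit 156) (nat_lit 0) (nat_lit 0) (XT.nd (nat_lit 78) (nat_lit 0) (nat_lit 0) (XT.lf (nat_lit 0) (nat_lit 65149108611) (nat_lit 76) (nat_lit 196160108996) (nat_lit 76) (nat_lit 138214669752) (nat_lit 3) (nat_lit 4) (nat_lit 4) (nat_lit 5) (nat_lit 4) (nat_lit 4) (nat_lit 357) (nat_lit 257) (nat_lit 106)) (XT.lf (nat_lit 0) (nat_lit 94646690297) (nat_lit 76) (nat_lit 191039642953) (nat_lit 76) (nat_lit 133092459936) (nat_lit 3) (nat_lit 4) (nat_lit 4) (nat_lit 5) (nat_lit 4) (nat_lit 4) (nat_lit 358) (nat_lit 257) (nat_lit 105))) (XT.nd (nat_lit 29640) (nat_lit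 0) (nat_lit 6156) (XT.lf (nat_lit 0) (nat_lit 125617612232) (nat_lit 76) (nat_lit 185663859062) (nat_lit 76) (nat_lit 127715015307) (nat_lit 3) (nat_lit 4) (nat_lit 4) (nat_lit 5) (nat_lit 4) (nat_lit 4) (nat_lit 359) (nat_lit 257) (nat_lit 104)) (XT.nd (nat_lit 78) (nat_lit 0) (nat_lit 0) (XT.lf (nat_lit 0) (nat_lit 3634540534) (nat_lit 684) (nat_lit 761325069) (nat_lit 684) (nat_lit 761325069) (nat_lit 84) (nat_lit 3) (nat_lit 93) (nat_lit 3) (nat_lit 93) (nat_lit 5) (nat_lit 258) (nat_lit 258) (nat_lit 204)) (XT.lf (nat_lit 76) (nat_lit 3092786160) (nat_lit 0) (nat_lit 5002959185) (nat_lit 684) (nat_lit 2442335119) (nat_lit 85) (nat_lit 5) (nat_lit 84) (nat_lit 3) (nat_lit 93) (nat_lit 5) (nat_lit 259) (nat_lit 258) (nat_lit 203)))))) (XT.nd (nat_lit 312) (nat_lit 0) (nat_lit 0) (XT.nd (nat_lit 156) (nat_lit 532) (nat_lit 0) (XT.nd (nat_lit 78) (nat_lit 0) (nat_lit 76) (XT.lf (nat_lit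 76) (nat_lit 7971079631) (nat_lit 0) (nat_lit 979932560) (nat_lit 684) (nat_lit 1822711371) (nat_lit 85) (nat_lit 5) (nat_lit 84) (nat_lit 3) (nat_lit 93) (nat_lit 5) (nat_lit 260) (nat_lit 258) (nat_lit 202)) (XT.lf (nat_lit 76) (nat_lit 2065596370) (nat_lit 0) (nat_lit 7829928002) (nat_lit 684) (nat_lit 1123417000) (nat_lit 86) (nat_lit 5) (nat_lit 85) (nat_lit 5) (nat_lit 94) (nat_lit 5) (nat_lit 261) (nat_lit 258) (nat_lit 201))) (XT.nd (nat_lit 78) (nat_lit 608) (nat_lit 0) (XT.lf (nat_lit 76) (nat_lit 7236306598) (nat_lit 0) (nat_lit 3679201822) (nat_lit 684) (nat_lit 359610444) (nat_lit 86) (nat_lit 5) (nat_lit 85) (nat_lit 5) (nat_lit 94) (nat_lit 5) (nat_lit 262) (nat_lit 258) (nat_lit 200)) (XT.lf (nat_lit 0) (nat_lit 423040847) (nat_lit 684) (nat_lit 10427046218) (nat_lit 760) (nat_lit 694032918) (nat_lit 77) (nat_lit 5) (nat_lit 86) (nat_lit 5) (nat_lit 87) (nat_lit 5) (nat_lit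 263) (nat_lit 258) (nat_lit 199)))) (XT.nd (nat_lit 156) (nat_lit 0) (nat_lit 76) (XT.nd (nat_lit 78) (nat_lit 0) (nat_lit 0) (XT.lf (nat_lit 0) (nat_lit 1330029158) (nat_lit 684) (nat_lit 5242907264) (nat_lit 760) (nat_lit 5248571463) (nat_lit 77) (nat_lit 5) (nat_lit 86) (nat_lit 5) (nat_lit 87) (nat_lit 5) (nat_lit 264) (nat_lit 258) (nat_lit 198)) (XT.lf (nat_lit 76) (nat_lit 184046147) (nat_lit 0) (nat_lit 2070198404) (nat_lit 760) (nat_lit 9860018152) (nat_lit 78) (nat_lit 5) (nat_lit 77) (nat_lit 5) (nat_lit 87) (nat_lit 5) (nat_lit 265) (nat_lit 258) (nat_lit 197))) (XT.nd (nat_lit 78) (nat_lit 0) (nat_lit 0) (XT.lf (nat_lit 0) (nat_lit 3326673087) (nat_lit 684) (nat_lit 6419423755) (nat_lit 760) (nat_lit 2670545353) (nat_lit 78) (nat_lit 5) (nat_lit 87) (nat_lit 5) (nat_lit 88) (nat_lit 5) (nat_lit 266) (nat_lit 258) (nat_lit 196)) (XT.nd (nat_lit 78) (nat_lit 0) (nat_lit 0)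 (XT.lf (nat_lit 0) (nat_lit 4458338664) (nat_lit 684) (nat_lit 689531669) (nat_lit 760) (nat_lit 7586072456) (nat_lit 78) (nat_lit 5) (nat_lit 87) (nat_lit 5) (nat_lit 88) (nat_lit 5) (nat_lit 267) (nat_lit 258) (nat_lit 195)) (XT.lf (nat_lit 76) (nat_lit 5480845174) (nat_lit 0) (nat_lit 224340301) (nat_lit 760) (nat_lit 7359071996) (nat_lit 79) (nat_lit 5) (nat_lit 78) (nat_lit 5) (nat_lit 88) (nat_lit 5) (nat_lit 268) (nat_lit 258) (nat_lit 194))))))) (XT.nd (nat_lit 702) (nat_lit 1140) (nat_lit 0) (XT.nd (nat_lit 312) (nat_lit 760) (nat_lit 0) (XT.nd (nat_lit 156) (nat_lit 380) (nat_lit 0) (XT.nd (nat_lit 78) (nat_lit 684) (nat_lit 0) (XT.lf (nat_lit 0) (nat_lit 7077513505) (nat_lit 684) (nat_lit 1526765209) (nat_lit 76) (nat_lit 4803727432) (nat_lit 79) (nat_lit 5) (nat_lit 88) (nat_lit 5) (nat_lit 80) (nat_lit 5) (nat_lit 269) (nat_lit 258) (nat_lit 193)) (XT.lf (nat_lit 0) (nat_lit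 4966531228) (nat_lit 684) (nat_lit 3608440041) (nat_lit 760) (nat_lit 5191216934) (nat_lit 70) (nat_lit 5) (nat_lit 79) (nat_lit 5) (nat_lit 80) (nat_lit 5) (nat_lit 270) (nat_lit 258) (nat_lit 192))) (XT.nd (nat_lit 78) (nat_lit 380) (nat_lit 0) (XT.lf (nat_lit 0) (nat_lit 10175327115) (nat_lit 760) (nat_lit 2351896261) (nat_lit 76) (nat_lit 1613722938) (nat_lit 70) (nat_lit 5) (nat_lit 80) (nat_lit 5) (nat_lit 71) (nat_lit 5) (nat_lit 271) (nat_lit 258) (nat_lit 191)) (XT.lf (nat_lit 0) (nat_lit 4481167815) (nat_lit 380) (nat_lit 7480969064) (nat_lit 456) (nat_lit 2567048603) (nat_lit 65) (nat_lit 5) (nat_lit 70) (nat_lit 5) (nat_lit 71) (nat_lit 5) (nat_lit 272) (nat_lit 258) (nat_lit 190)))) (XT.nd (nat_lit 156) (nat_lit 304) (nat_lit 0) (XT.nd (nat_lit 78) (nat_lit 456) (nat_lit 0) (XT.lf (nat_lit 0) (nat_lit 11716526788) (nat_lit 380) (nat_lit 2139660697) (nat_lit 456) (nat_lit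 1079815973) (nat_lit 65) (nat_lit 5) (nat_lit 70) (nat_lit 5) (nat_lit 71) (nat_lit 5) (nat_lit 273) (nat_lit 258) (nat_lit 189)) (XT.lf (nat_lit 0) (nat_lit 563659125) (nat_lit 456) (nat_lit 11364183441) (nat_lit 76) (nat_lit 3430134747) (nat_lit 59) (nat_lit 5) (nat_lit 65) (nat_lit 5) (nat_lit 60) (nat_lit 5) (nat_lit 274) (nat_lit 258) (nat_lit 188))) (XT.nd (nat_lit 78) (nat_lit 304) (nat_lit 0) (XT.lf (nat_lit 0) (nat_lit 2322924389) (nat_lit 456) (nat_lit 4194015547) (nat_lit 76) (nat_lit 9279783009) (nat_lit 59) (nat_lit 5) (nat_lit 65) (nat_lit 5) (nat_lit 60) (nat_lit 5) (nat_lit 275) (nat_lit 258) (nat_lit 187)) (XT.nd (nat_lit 78) (nat_lit 0) (nat_lit 0) (XT.lf (nat_lit 0) (nat_lit 3423746165) (nat_lit 304) (nat_lit 780253100) (nat_lit 380) (nat_lit 12051765172) (nat_lit 55) (nat_lit 5) (nat_lit 59) (nat_lit 5) (nat_lit 60) (nat_lit 5) (nat_lit 276) (nat_lit 258) (nat_lit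 186)) (XT.lf (nat_lit 0) (nat_lit 6314174654) (nat_lit 380) (nat_lit 5270375223) (nat_lit 76) (nat_lit 5146504263) (nat_lit 55) (nat_lit 5) (nat_lit 60) (nat_lit 5) (nat_lit 56) (nat_lit 5) (nat_lit 277) (nat_lit 258) (nat_lit 185)))))) (XT.nd (nat_lit 312) (nat_lit 608) (nat_lit 0) (XT.nd (nat_lit 156) (nat_lit 228) (nat_lit 0) (XT.nd (nat_lit 78) (nat_lit 0) (nat_lit 0) (XT.lf (nat_lit 0) (nat_lit 2723593005) (nat_lit 304) (nat_lit 5843477463) (nat_lit 380) (nat_lit 8661223443) (nat_lit 51) (nat_lit 5) (nat_lit 55) (nat_lit 5) (nat_lit 56) (nat_lit 5) (nat_lit 278) (nat_lit 258) (nat_lit 184)) (XT.lf (nat_lit 0) (nat_lit 11008628569) (nat_lit 380) (nat_lit 6470743007) (nat_lit 76) (nat_lit 267267188) (nat_lit 51) (nat_lit 5) (nat_lit 56) (nat_lit 5) (nat_lit 52) (nat_lit 5) (nat_lit 279) (nat_lit 258) (nat_lit 183))) (XT.nd (nat_lit 78) (nat_lit 0) (nat_lit 0) (XT.lf (nat_lit 0) (nat_lit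 1910554190) (nat_lit 228) (nat_lit 11770586619) (nat_lit 304) (nat_lit 4604358112) (nat_lit 48) (nat_lit 5) (nat_lit 51) (nat_lit 5) (nat_lit 52) (nat_lit 5) (nat_lit 280) (nat_lit 258) (nat_lit 182)) (XT.lf (nat_lit 0) (nat_lit 10916170245) (nat_lit 228) (nat_lit 5664440682) (nat_lit 304) (nat_lit 2266064423) (nat_lit 48) (nat_lit 5) (nat_lit 51) (nat_lit 5) (nat_lit 52) (nat_lit 5) (nat_lit 281) (nat_lit 258) (nat_lit 181)))) (XT.nd (nat_lit 156) (nat_lit 228) (nat_lit 0) (XT.nd (nat_lit 78) (nat_lit 0) (nat_lit 0) (XT.lf (nat_lit 0) (nat_lit 193967620) (nat_lit 380) (nat_lit 18503351969) (nat_lit 76) (nat_lit 737935659) (nat_lit 43) (nat_lit 5) (nat_lit 48) (nat_lit 5) (nat_lit 44) (nat_lit 5) (nat_lit 282) (nat_lit 258) (nat_lit 180)) (XT.lf (nat_lit 0) (nat_lit 2914850899) (nat_lit 380) (nat_lit 9685466880) (nat_lit 76) (nat_lit 7440423170) (nat_lit 43) (nat_lit 5) (nat_lit 48)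 (nat_lit 5) (nat_lit 44) (nat_lit 5) (nat_lit 283) (nat_lit 258) (nat_lit 179))) (XT.nd (nat_lit 78) (nat_lit 228) (nat_lit 0) (XT.lf (nat_lit 0) (nat_lit 5757145844) (nat_lit 380) (nat_lit 445229791) (nat_lit 76) (nat_lit 14474889733) (nat_lit 43) (nat_lit 5) (nat_lit 48) (nat_lit 5) (nat_lit 44) (nat_lit 5) (nat_lit 284) (nat_lit 258) (nat_lit 178)) (XT.nd (nat_lit 78) (nat_lit 0) (nat_lit 0) (XT.lf (nat_lit 0) (nat_lit 8887074438) (nat_lit 304) (nat_lit 11804470796) (nat_lit 76) (nat_lit 646826075) (nat_lit 40) (nat_lit 5) (nat_lit 44) (nat_lit 5) (nat_lit 41) (nat_lit 5) (nat_lit 285) (nat_lit 258) (nat_lit 177)) (XT.lf (nat_lit 0) (nat_lit 12269238358) (nat_lit 304) (nat_lit 2124534307) (nat_lit 76) (nat_lit 7634002697) (nat_lit 40) (nat_lit 5) (nat_lit 44) (nat_lit 5) (nat_lit 41) (nat_lit 5) (nat_lit 286) (nat_lit 258) (nat_lit 176))))))))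
noncomputable def xc166 : XT := (XT.nd (nat_lit 1404) (nat_lit 760) (nat_lit 0) (XT.nd (nat_lit 702) (nat_lit 684) (nat_lit 0) (XT.nd (nat_lit 312) (nat_lit 380) (nat_lit 0) (XT.nd (nat_lit 156) (nat_lit 228) (nat_lit 0) (XT.nd (nat_lit 78) (nat_lit 0) (nat_lit 0) (XT.lf (nat_lit 0) (nat_lit 8287486939) (nat_lit 228) (nat_lit 7649459018) (nat_lit 304) (nat_lit 6808910228) (nat_lit 37) (nat_lit 5) (nat_lit 40) (nat_lit 5) (nat_lit 41) (nat_lit 5) (nat_lit 287) (nat_lit 258) (nat_lit 175)) (XT.lf (nat_lit 0) (nat_lit 19276981705) (nat_lit 228) (nat_lit 534435111) (nat_lit 304) (nat_lit 3687282330) (nat_lit 37) (nat_lit 5) (nat_lit 40) (nat_lit 5) (nat_lit 41) (nat_lit 5) (nat_lit 288) (nat_lit 258) (nat_lit 174))) (XT.nd (nat_lit 78) (nat_lit 76) (nat_lit 0) (XT.lf (nat_lit 0) (nat_lit 6613499992) (nat_lit 152) (nat_lit 17465596461) (nat_lit 228) (nat_lit 200139247) (nat_lit 35) (nat_lit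 5) (nat_lit 37) (nat_lit 5) (nat_lit 38) (nat_lit 5) (nat_lit 289) (nat_lit 258) (nat_lit 173)) (XT.lf (nat_lit 0) (nat_lit 3420042829) (nat_lit 228) (nat_lit 7038947270) (nat_lit 76) (nat_lit 14633656874) (nat_lit 34) (nat_lit 5) (nat_lit 37) (nat_lit 5) (nat_lit 35) (nat_lit 5) (nat_lit 290) (nat_lit 258) (nat_lit 172)))) (XT.nd (nat_lit 156) (nat_lit 152) (nat_lit 0) (XT.nd (nat_lit 78) (nat_lit 0) (nat_lit 0) (XT.lf (nat_lit 0) (nat_lit 4235465768) (nat_lit 228) (nat_lit 3033776285) (nat_lit 304) (nat_lit 18674608211) (nat_lit 31) (nat_lit 5) (nat_lit 34) (nat_lit 5) (nat_lit 35) (nat_lit 5) (nat_lit 291) (nat_lit 258) (nat_lit 171)) (XT.lf (nat_lit 0) (nat_lit 11495253447) (nat_lit 304) (nat_lit 10606231550) (nat_lit 76) (nat_lit 4726932262) (nat_lit 31) (nat_lit 5) (nat_lit 35) (nat_lit 5) (nat_lit 32) (nat_lit 5) (nat_lit 292) (nat_lit 258) (nat_lit 170))) (XT.nd (nat_lit 78)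 (nat_lit 0) (nat_lit 0) (XT.lf (nat_lit 0) (nat_lit 1018423541) (nat_lit 152) (nat_lit 14969139146) (nat_lit 228) (nat_lit 11766920194) (nat_lit 29) (nat_lit 5) (nat_lit 31) (nat_lit 5) (nat_lit 32) (nat_lit 5) (nat_lit 293) (nat_lit 258) (nat_lit 169)) (XT.nd (nat_lit 78) (nat_lit 0) (nat_lit 0) (XT.lf (nat_lit 0) (nat_lit 13577317895) (nat_lit 152) (nat_lit 7296422893) (nat_lit 228) (nat_lit 7844667510) (nat_lit 29) (nat_lit 5) (nat_lit 31) (nat_lit 5) (nat_lit 32) (nat_lit 5) (nat_lit 294) (nat_lit 258) (nat_lit 168)) (XT.lf (nat_lit 0) (nat_lit 26006145768) (nat_lit 228) (nat_lit 2993170770) (nat_lit 76) (nat_lit 731135818) (nat_lit 29) (nat_lit 5) (nat_lit 32) (nat_lit 5) (nat_lit 30) (nat_lit 5) (nat_lit 295) (nat_lit 258) (nat_lit 167)))))) (XT.nd (nat_lit 312) (nat_lit 304) (nat_lit 0) (XT.nd (nat_lit 156) (nat_lit 152) (nat_lit 0) (XT.nd (nat_lit 78) (nat_lit 0) (nat_lit 0)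 (XT.lf (nat_lit 0) (nat_lit 852572668) (nat_lit 228) (nat_lit 20846930681) (nat_lit 76) (nat_lit 9079653318) (nat_lit 26) (nat_lit 5) (nat_lit 29) (nat_lit 5) (nat_lit 27) (nat_lit 5) (nat_lit 296) (nat_lit 258) (nat_lit 166)) (XT.lf (nat_lit 0) (nat_lit 5575248667) (nat_lit 228) (nat_lit 8346157633) (nat_lit 76) (nat_lit 17953747271) (nat_lit 26) (nat_lit 5) (nat_lit 29) (nat_lit 5) (nat_lit 27) (nat_lit 5) (nat_lit 297) (nat_lit 258) (nat_lit 165))) (XT.nd (nat_lit 78) (nat_lit 0) (nat_lit 0) (XT.lf (nat_lit 0) (nat_lit 4923602489) (nat_lit 152) (nat_lit 5678367314) (nat_lit 228) (nat_lit 22420599981) (nat_lit 24) (nat_lit 5) (nat_lit 26) (nat_lit 5) (nat_lit 27) (nat_lit 5) (nat_lit 298) (nat_lit 258) (nat_lit 164)) (XT.lf (nat_lit 0) (nat_lit 16061351214) (nat_lit 228) (nat_lit 15136268949) (nat_lit 76) (nat_lit 3020684747) (nat_lit 24) (nat_lit 5) (nat_lit 27) (nat_lit 5) (nat_lit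 25) (nat_lit 5) (nat_lit 299) (nat_lit 258) (nat_lit 163)))) (XT.nd (nat_lit 156) (nat_lit 152) (nat_lit 0) (XT.nd (nat_lit 78) (nat_lit 152) (nat_lit 0) (XT.lf (nat_lit 0) (nat_lit 21878393770) (nat_lit 228) (nat_lit 1631662824) (nat_lit 76) (nat_lit 11959549227) (nat_lit 24) (nat_lit 5) (nat_lit 27) (nat_lit 5) (nat_lit 25) (nat_lit 5) (nat_lit 300) (nat_lit 258) (nat_lit 162)) (XT.lf (nat_lit 0) (nat_lit 12950145667) (nat_lit 152) (nat_lit 15230334744) (nat_lit 228) (nat_lit 8593294754) (nat_lit 22) (nat_lit 5) (nat_lit 24) (nat_lit 5) (nat_lit 25) (nat_lit 5) (nat_lit 301) (nat_lit 258) (nat_lit 161))) (XT.nd (nat_lit 78) (nat_lit 152) (nat_lit 0) (XT.lf (nat_lit 0) (nat_lit 28305380586) (nat_lit 152) (nat_lit 6512116236) (nat_lit 228) (nat_lit 3324677245) (nat_lit 22) (nat_lit 5) (nat_lit 24) (nat_lit 5) (nat_lit 25) (nat_lit 5) (nat_lit 302) (nat_lit 258) (nat_lit 160)) (XT.nd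 (nat_lit 78) (nat_lit 0) (nat_lit 0) (XT.lf (nat_lit 0) (nat_lit 2249634259) (nat_lit 152) (nat_lit 34655060344) (nat_lit 76) (nat_lit 2666940728) (nat_lit 20) (nat_lit 5) (nat_lit 22) (nat_lit 5) (nat_lit 21) (nat_lit 5) (nat_lit 303) (nat_lit 258) (nat_lit 159)) (XT.lf (nat_lit 0) (nat_lit 8259546767) (nat_lit 152) (nat_lit 20491212018) (nat_lit 76) (nat_lit 12305665590) (nat_lit 20) (nat_lit 5) (nat_lit 22) (nat_lit 5) (nat_lit 21) (nat_lit 5) (nat_lit 304) (nat_lit 258) (nat_lit 158))))))) (XT.nd (nat_lit 702) (nat_lit 304) (nat_lit 0) (XT.nd (nat_lit 312) (nat_lit 304) (nat_lit 0) (XT.nd (nat_lit 156) (nat_lit 0) (nat_lit 0) (XT.nd (nat_lit 78) (nat_lit 152) (nat_lit 0) (XT.lf (nat_lit 0) (nat_lit 14562848732) (nat_lit 152) (nat_lit 5630699976) (nat_lit 76) (nat_lit 22422269644) (nat_lit 20) (nat_lit 5) (nat_lit 22) (nat_lit 5) (nat_lit 21) (nat_lit 5) (nat_lit 305) (nat_lit 258)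 (nat_lit 157)) (XT.lf (nat_lit 0) (nat_lit 10291241965) (nat_lit 152) (nat_lit 11043981179) (nat_lit 228) (nat_lit 22910273205) (nat_lit 18) (nat_lit 5) (nat_lit 20) (nat_lit 5) (nat_lit 21) (nat_lit 5) (nat_lit 306) (nat_lit 258) (nat_lit 156))) (XT.nd (nat_lit 78) (nat_lit 0) (nat_lit 0) (XT.lf (nat_lit 0) (nat_lit 27193963570) (nat_lit 152) (nat_lit 1340997173) (nat_lit 228) (nat_lit 17417269507) (nat_lit 18) (nat_lit 5) (nat_lit 20) (nat_lit 5) (nat_lit 21) (nat_lit 5) (nat_lit 307) (nat_lit 258) (nat_lit 155)) (XT.lf (nat_lit 0) (nat_lit 36226452327) (nat_lit 228) (nat_lit 2951157859) (nat_lit 76) (nat_lit 8560111092) (nat_lit 18) (nat_lit 5) (nat_lit 21) (nat_lit 5) (nat_lit 19) (nat_lit 4) (nat_lit 308) (nat_lit 258) (nat_lit 154)))) (XT.nd (nat_lit 156) (nat_lit 152) (nat_lit 0) (XT.nd (nat_lit 78) (nat_lit 76) (nat_lit 0) (XT.lf (nat_lit 0) (nat_lit 14064424960) (nat_lit 76)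 (nat_lit 30473603625) (nat_lit 152) (nat_lit 5062691138) (nat_lit 17) (nat_lit 5) (nat_lit 18) (nat_lit 5) (nat_lit 19) (nat_lit 4) (nat_lit 309) (nat_lit 258) (nat_lit 153)) (XT.lf (nat_lit 0) (nat_lit 1698408192) (nat_lit 152) (nat_lit 19558707801) (nat_lit 76) (nat_lit 30296187639) (nat_lit 16) (nat_lit 5) (nat_lit 18) (nat_lit 5) (nat_lit 17) (nat_lit 5) (nat_lit 310) (nat_lit 258) (nat_lit 152))) (XT.nd (nat_lit 78) (nat_lit 152) (nat_lit 0) (XT.lf (nat_lit 0) (nat_lit 8621680749) (nat_lit 152) (nat_lit 2874848051) (nat_lit 76) (nat_lit 42103132525) (nat_lit 16) (nat_lit 5) (nat_lit 18) (nat_lit 5) (nat_lit 17) (nat_lit 5) (nat_lit 311) (nat_lit 258) (nat_lit 151)) (XT.nd (nat_lit 78) (nat_lit 0) (nat_lit 0) (XT.lf (nat_lit 0) (nat_lit 15117918564) (nat_lit 152) (nat_lit 1003762761) (nat_lit 228) (nat_lit 39615134243) (nat_lit 14) (nat_lit 5) (nat_lit 16) (nat_lit 5) (nat_lit 17)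 (nat_lit 5) (nat_lit 312) (nat_lit 258) (nat_lit 150)) (XT.lf (nat_lit 0) (nat_lit 24197102042) (nat_lit 228) (nat_lit 24034623773) (nat_lit 76) (nat_lit 9739087262) (nat_lit 14) (nat_lit 5) (nat_lit 17) (nat_lit 5) (nat_lit 15) (nat_lit 4) (nat_lit 313) (nat_lit 258) (nat_lit 149)))))) (XT.nd (nat_lit 312) (nat_lit 228) (nat_lit 0) (XT.nd (nat_lit 156) (nat_lit 0) (nat_lit 0) (XT.nd (nat_lit 78) (nat_lit 76) (nat_lit 0) (XT.lf (nat_lit 0) (nat_lit 32687600362) (nat_lit 228) (nat_lit 6646375992) (nat_lit 76) (nat_lit 20981975024) (nat_lit 14) (nat_lit 5) (nat_lit 17) (nat_lit 5) (nat_lit 15) (nat_lit 4) (nat_lit 314) (nat_lit 258) (nat_lit 148)) (XT.lf (nat_lit 0) (nat_lit 11986563363) (nat_lit 76) (nat_lit 29798300690) (nat_lit 152) (nat_lit 20984376464) (nat_lit 13) (nat_lit 5) (nat_lit 14) (nat_lit 5) (nat_lit 15) (nat_lit 4) (nat_lit 315) (nat_lit 258) (nat_lit 147))) (XT.nd (nat_lit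 78) (nat_lit 0) (nat_lit 0) (XT.lf (nat_lit 0) (nat_lit 31773666084) (nat_lit 76) (nat_lit 19671086039) (nat_lit 152) (nat_lit 13895059597) (nat_lit 13) (nat_lit 5) (nat_lit 14) (nat_lit 5) (nat_lit 15) (nat_lit 4) (nat_lit 316) (nat_lit 258) (nat_lit 146)) (XT.lf (nat_lit 0) (nat_lit 52542285114) (nat_lit 76) (nat_lit 9040779578) (nat_lit 152) (nat_lit 6456080682) (nat_lit 13) (nat_lit 5) (nat_lit 14) (nat_lit 5) (nat_lit 15) (nat_lit 4) (nat_lit 317) (nat_lit 258) (nat_lit 145)))) (XT.nd (nat_lit 156) (nat_lit 76) (nat_lit 0) (XT.nd (nat_lit 78) (nat_lit 0) (nat_lit 0) (XT.lf (nat_lit 0) (nat_lit 1396977555) (nat_lit 152) (nat_lit 67343061422) (nat_lit 76) (nat_lit 2128079280) (nat_lit 11) (nat_lit 5) (nat_lit 13) (nat_lit 5) (nat_lit 12) (nat_lit 4) (nat_lit 318) (nat_lit 258) (nat_lit 144)) (XT.lf (nat_lit 0) (nat_lit 9836296740) (nat_lit 152) (nat_lit 50055347049) (nat_lit 76)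 (nat_lit 13921080053) (nat_lit 11) (nat_lit 5) (nat_lit 13) (nat_lit 5) (nat_lit 12) (nat_lit 4) (nat_lit 319) (nat_lit 258) (nat_lit 143))) (XT.nd (nat_lit 78) (nat_lit 76) (nat_lit 0) (XT.lf (nat_lit 0) (nat_lit 18693406593) (nat_lit 152) (nat_lit 31910547999) (nat_lit 76) (nat_lit 26300818318) (nat_lit 11) (nat_lit 5) (nat_lit 13) (nat_lit 5) (nat_lit 12) (nat_lit 4) (nat_lit 320) (nat_lit 258) (nat_lit 142)) (XT.nd (nat_lit 78) (nat_lit 76) (nat_lit 0) (XT.lf (nat_lit 0) (nat_lit 27989395472) (nat_lit 152) (nat_lit 12865462367) (nat_lit 76) (nat_lit 39296769641) (nat_lit 11) (nat_lit 5) (nat_lit 13) (nat_lit 5) (nat_lit 12) (nat_lit 4) (nat_lit 321) (nat_lit 258) (nat_lit 141)) (XT.lf (nat_lit 0) (nat_lit 7360848405) (nat_lit 76) (nat_lit 30500471750) (nat_lit 152) (nat_lit 45693951832) (nat_lit 10) (nat_lit 5) (nat_lit 11) (nat_lit 5) (nat_lit 12) (nat_lit 4) (nat_lit 322) (nat_lit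 258) (nat_lit 140))))))))
noncomputable def xc167 : XT := (XT.nd (nat_lit 1404) (nat_lit 228) (nat_lit 0) (XT.nd (nat_lit 702) (nat_lit 76) (nat_lit 0) (XT.nd (nat_lit 312) (nat_lit 152) (nat_lit 0) (XT.nd (nat_lit 156) (nat_lit 76) (nat_lit 0) (XT.nd (nat_lit 78) (nat_lit 0) (nat_lit 0) (XT.lf (nat_lit 0) (nat_lit 29038619071) (nat_lit 76) (nat_lit 19402396336) (nat_lit 152) (nat_lit 38677378431) (nat_lit 10) (nat_lit 5) (nat_lit 11) (nat_lit 5) (nat_lit 12) (nat_lit 4) (nat_lit 323) (nat_lit 258) (nat_lit 139)) (XT.lf (nat_lit 0) (nat_lit 51794073081) (nat_lit 76) (nat_lit 7752090436) (nat_lit 152) (nat_lit 31313688509) (nat_lit 10) (nat_lit 5) (nat_lit 11) (nat_lit 5) (nat_lit 12) (nat_lit 4) (nat_lit 324) (nat_lit 258) (nat_lit 138))) (XT.nd (nat_lit 78) (nat_lit 76) (nat_lit 0) (XT.lf (nat_lit 0) (nat_lit 71273122333) (nat_lit 152) (nat_lit 19177081715) (nat_lit 0) (nat_lit 4334854890)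 (nat_lit 10) (nat_lit 5) (nat_lit 12) (nat_lit 4) (nat_lit 10) (nat_lit 4) (nat_lit 325) (nat_lit 258) (nat_lit 137)) (XT.lf (nat_lit 0) (nat_lit 1625230532) (nat_lit 76) (nat_lit 82110415013) (nat_lit 76) (nat_lit 15163423140) (nat_lit 9) (nat_lit 4) (nat_lit 10) (nat_lit 5) (nat_lit 10) (nat_lit 4) (nat_lit 326) (nat_lit 258) (nat_lit 136)))) (XT.nd (nat_lit 156) (nat_lit 76) (nat_lit 0) (XT.nd (nat_lit 78) (nat_lit 76) (nat_lit 0) (XT.lf (nat_lit 0) (nat_lit 24127782251) (nat_lit 76) (nat_lit 73015110394) (nat_lit 76) (nat_lit 6059809541) (nat_lit 9) (nat_lit 4) (nat_lit 10) (nat_lit 5) (nat_lit 10) (nat_lit 4) (nat_lit 327) (nat_lit 258) (nat_lit 135)) (XT.lf (nat_lit 0) (nat_lit 3383918670) (nat_lit 152) (nat_lit 60026180894) (nat_lit 76) (nat_lit 44308843047) (nat_lit 8) (nat_lit 5) (nat_lit 10) (nat_lit 5) (nat_lit 9) (nat_lit 4) (nat_lit 328) (nat_lit 258) (nat_lit 134))) (XT.nd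 (nat_lit 78) (nat_lit 76) (nat_lit 0) (XT.lf (nat_lit 0) (nat_lit 13093253760) (nat_lit 152) (nat_lit 40129580450) (nat_lit 76) (nat_lit 59233343025) (nat_lit 8) (nat_lit 5) (nat_lit 10) (nat_lit 5) (nat_lit 9) (nat_lit 4) (nat_lit 329) (nat_lit 258) (nat_lit 133)) (XT.nd (nat_lit 78) (nat_lit 76) (nat_lit 0) (XT.lf (nat_lit 0) (nat_lit 23285264942) (nat_lit 152) (nat_lit 19243135135) (nat_lit 76) (nat_lit 74902015641) (nat_lit 8) (nat_lit 5) (nat_lit 10) (nat_lit 5) (nat_lit 9) (nat_lit 4) (nat_lit 330) (nat_lit 258) (nat_lit 132)) (XT.lf (nat_lit 0) (nat_lit 2771592965) (nat_lit 76) (nat_lit 31255898279) (nat_lit 152) (nat_lit 88623846624) (nat_lit 7) (nat_lit 5) (nat_lit 8) (nat_lit 5) (nat_lit 9) (nat_lit 4) (nat_lit 331) (nat_lit 258) (nat_lit 131)))))) (XT.nd (nat_lit 312) (nat_lit 76) (nat_lit 0) (XT.nd (nat_lit 156) (nat_lit 0) (nat_lit 0) (XT.nd (nat_lit 78) (nat_lit 0) (nat_lit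 0) (XT.lf (nat_lit 0) (nat_lit 26550464484) (nat_lit 76) (nat_lit 19079652040) (nat_lit 152) (nat_lit 82487027574) (nat_lit 7) (nat_lit 5) (nat_lit 8) (nat_lit 5) (nat_lit 9) (nat_lit 4) (nat_lit 332) (nat_lit 258) (nat_lit 130)) (XT.lf (nat_lit 0) (nat_lit 51513830830) (nat_lit 76) (nat_lit 6296562101) (nat_lit 152) (nat_lit 76045973956) (nat_lit 7) (nat_lit 5) (nat_lit 8) (nat_lit 5) (nat_lit 9) (nat_lit 4) (nat_lit 333) (nat_lit 258) (nat_lit 129))) (XT.nd (nat_lit 78) (nat_lit 0) (nat_lit 0) (XT.lf (nat_lit 0) (nat_lit 70708543724) (nat_lit 152) (nat_lit 62272765063) (nat_lit 0) (nat_lit 6895801135) (nat_lit 7) (nat_lit 5) (nat_lit 9) (nat_lit 4) (nat_lit 7) (nat_lit 4) (nat_lit 334) (nat_lit 258) (nat_lit 128)) (XT.lf (nat_lit 0) (nat_lit 84352546951) (nat_lit 152) (nat_lit 41306849628) (nat_lit 0) (nat_lit 20534448319) (nat_lit 7) (nat_lit 5) (nat_lit 9) (nat_lit 4) (nat_lit 7)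 (nat_lit 4) (nat_lit 335) (nat_lit 258) (nat_lit 127)))) (XT.nd (nat_lit 156) (nat_lit 0) (nat_lit 0) (XT.nd (nat_lit 78) (nat_lit 76) (nat_lit 0) (XT.lf (nat_lit 0) (nat_lit 98676581354) (nat_lit 152) (nat_lit 19296563925) (nat_lit 0) (nat_lit 34853381729) (nat_lit 7) (nat_lit 5) (nat_lit 9) (nat_lit 4) (nat_lit 7) (nat_lit 4) (nat_lit 336) (nat_lit 258) (nat_lit 126)) (XT.lf (nat_lit 0) (nat_lit 3936489742) (nat_lit 76) (nat_lit 109839721671) (nat_lit 76) (nat_lit 46011663958) (nat_lit 6) (nat_lit 4) (nat_lit 7) (nat_lit 5) (nat_lit 7) (nat_lit 4) (nat_lit 337) (nat_lit 258) (nat_lit 125))) (XT.nd (nat_lit 78) (nat_lit 0) (nat_lit 0) (XT.lf (nat_lit 0) (nat_lit 28997450944) (nat_lit 76) (nat_lit 100958143918) (nat_lit 76) (nat_lit 37125459453) (nat_lit 6) (nat_lit 4) (nat_lit 7) (nat_lit 5) (nat_lit 7) (nat_lit 4) (nat_lit 338) (nat_lit 258) (nat_lit 124)) (XT.nd (nat_lit 78) (nat_lit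 0) (nat_lit 0) (XT.lf (nat_lit 0) (nat_lit 55307957085) (nat_lit 76) (nat_lit 91634062052) (nat_lit 76) (nat_lit 27796971157) (nat_lit 6) (nat_lit 4) (nat_lit 7) (nat_lit 5) (nat_lit 7) (nat_lit 4) (nat_lit 339) (nat_lit 258) (nat_lit 123)) (XT.lf (nat_lit 0) (nat_lit 82930652229) (nat_lit 76) (nat_lit 81845275879) (nat_lit 76) (nat_lit 18003988385) (nat_lit 6) (nat_lit 4) (nat_lit 7) (nat_lit 5) (nat_lit 7) (nat_lit 4) (nat_lit 340) (nat_lit 258) (nat_lit 122))))))) (XT.nd (nat_lit 702) (nat_lit 76) (nat_lit 0) (XT.nd (nat_lit 312) (nat_lit 76) (nat_lit 0) (XT.nd (nat_lit 156) (nat_lit 0) (nat_lit 0) (XT.nd (nat_lit 78) (nat_lit 76) (nat_lit 0) (XT.lf (nat_lit 0) (nat_lit 111931304697) (nat_lit 76) (nat_lit 71568478766) (nat_lit 76) (nat_lit 7723194510) (nat_lit 6) (nat_lit 4) (nat_lit 7) (nat_lit 5) (nat_lit 7) (nat_lit 4) (nat_lit 341) (nat_lit 258) (nat_lit 121)) (XT.lf (nat_lit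 0) (nat_lit 2971632943) (nat_lit 152) (nat_lit 57757243162) (nat_lit 76) (nat_lit 139357004677) (nat_lit 5) (nat_lit 5) (nat_lit 7) (nat_lit 5) (nat_lit 6) (nat_lit 4) (nat_lit 342) (nat_lit 258) (nat_lit 120))) (XT.nd (nat_lit 78) (nat_lit 0) (nat_lit 0) (XT.lf (nat_lit 0) (nat_lit 13940037996) (nat_lit 152) (nat_lit 35275637984) (nat_lit 76) (nat_lit 160170004264) (nat_lit 5) (nat_lit 5) (nat_lit 7) (nat_lit 5) (nat_lit 6) (nat_lit 4) (nat_lit 343) (nat_lit 258) (nat_lit 119)) (XT.lf (nat_lit 0) (nat_lit 25455326355) (nat_lit 152) (nat_lit 11672749400) (nat_lit 76) (nat_lit 182022472019) (nat_lit 5) (nat_lit 5) (nat_lit 7) (nat_lit 5) (nat_lit 6) (nat_lit 4) (nat_lit 344) (nat_lit 258) (nat_lit 118)))) (XT.nd (nat_lit 156) (nat_lit 0) (nat_lit 0) (XT.nd (nat_lit 78) (nat_lit 0) (nat_lit 0) (XT.lf (nat_lit 0) (nat_lit 13541017054) (nat_lit 76) (nat_lit 24215311545) (nat_lit 152) (nat_lit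 191636833799) (nat_lit 4) (nat_lit 5) (nat_lit 5) (nat_lit 5) (nat_lit 6) (nat_lit 4) (nat_lit 345) (nat_lit 258) (nat_lit 117)) (XT.lf (nat_lit 0) (nat_lit 40418102625) (nat_lit 76) (nat_lit 10450527017) (nat_lit 152) (nat_lit 189269466808) (nat_lit 4) (nat_lit 5) (nat_lit 5) (nat_lit 5) (nat_lit 6) (nat_lit 4) (nat_lit 346) (nat_lit 258) (nat_lit 116))) (XT.nd (nat_lit 78) (nat_lit 0) (nat_lit 0) (XT.lf (nat_lit 0) (nat_lit 64697651659) (nat_lit 152) (nat_lit 182846272611) (nat_lit 0) (nat_lit 3873298717) (nat_lit 4) (nat_lit 5) (nat_lit 6) (nat_lit 4) (nat_lit 4) (nat_lit 4) (nat_lit 347) (nat_lit 258) (nat_lit 115)) (XT.nd (nat_lit 78) (nat_lit 0) (nat_lit 0) (XT.lf (nat_lit 0) (nat_lit 79388126537) (nat_lit 152) (nat_lit 165302611823) (nat_lit 0) (nat_lit 18561068430) (nat_lit 4) (nat_lit 5) (nat_lit 6) (nat_lit 4) (nat_lit 4) (nat_lit 4) (nat_lit 348) (nat_lit 258) (nat_lit 114))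 (XT.lf (nat_lit 0) (nat_lit 94811869584) (nat_lit 152) (nat_lit 146884078827) (nat_lit 0) (nat_lit 33982235129) (nat_lit 4) (nat_lit 5) (nat_lit 6) (nat_lit 4) (nat_lit 4) (nat_lit 4) (nat_lit 349) (nat_lit 258) (nat_lit 113)))))) (XT.nd (nat_lit 390) (nat_lit 76) (nat_lit 0) (XT.nd (nat_lit 156) (nat_lit 0) (nat_lit 0) (XT.nd (nat_lit 78) (nat_lit 0) (nat_lit 0) (XT.lf (nat_lit 0) (nat_lit 111005603998) (nat_lit 152) (nat_lit 127546819972) (nat_lit 0) (nat_lit 50173515878) (nat_lit 4) (nat_lit 5) (nat_lit 6) (nat_lit 4) (nat_lit 4) (nat_lit 4) (nat_lit 350) (nat_lit 258) (nat_lit 112)) (XT.lf (nat_lit 0) (nat_lit 128007886289) (nat_lit 152) (nat_lit 107244794165) (nat_lit 0) (nat_lit 67173461345) (nat_lit 4) (nat_lit 5) (nat_lit 6) (nat_lit 4) (nat_lit 4) (nat_lit 4) (nat_lit 351) (nat_lit 258) (nat_lit 111))) (XT.nd (nat_lit 78) (nat_lit 0) (nat_lit 0) (XT.lf (nat_lit 0) (nat_lit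 145859198083) (nat_lit 152) (nat_lit 85929663251) (nat_lit 0) (nat_lit 85022547592) (nat_lit 4) (nat_lit 5) (nat_lit 6) (nat_lit 4) (nat_lit 4) (nat_lit 4) (nat_lit 352) (nat_lit 258) (nat_lit 110)) (XT.nd (nat_lit 78) (nat_lit 0) (nat_lit 0) (XT.lf (nat_lit 0) (nat_lit 164602042501) (nat_lit 152) (nat_lit 63550676916) (nat_lit 0) (nat_lit 103763272443) (nat_lit 4) (nat_lit 5) (nat_lit 6) (nat_lit 4) (nat_lit 4) (nat_lit 4) (nat_lit 353) (nat_lit 258) (nat_lit 109)) (XT.lf (nat_lit 0) (nat_lit 184281045365) (nat_lit 152) (nat_lit 40054551861) (nat_lit 0) (nat_lit 123440256671) (nat_lit 4) (nat_lit 5) (nat_lit 6) (nat_lit 4) (nat_lit 4) (nat_lit 4) (nat_lit 354) (nat_lit 258) (nat_lit 108))))) (XT.nd (nat_lit 156) (nat_lit 0) (nat_lit 0) (XT.nd (nat_lit 78) (nat_lit 76) (nat_lit 0) (XT.lf (nat_lit 0) (nat_lit 204943061443) (nat_lit 152) (nat_lit 15385344931) (nat_lit 0) (nat_lit 144100350238)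 (nat_lit 4) (nat_lit 5) (nat_lit 6) (nat_lit 4) (nat_lit 4) (nat_lit 4) (nat_lit 355) (nat_lit 258) (nat_lit 107)) (XT.lf (nat_lit 0) (nat_lit 10863375954) (nat_lit 76) (nat_lit 215943517800) (nat_lit 76) (nat_lit 155098975632) (nat_lit 3) (nat_lit 4) (nat_lit 4) (nat_lit 5) (nat_lit 4) (nat_lit 4) (nat_lit 356) (nat_lit 258) (nat_lit 106))) (XT.nd (nat_lit 78) (nat_lit 0) (nat_lit 0) (XT.lf (nat_lit 0) (nat_lit 38957061544) (nat_lit 76) (nat_lit 211066539350) (nat_lit 76) (nat_lit 150220253408) (nat_lit 3) (nat_lit 4) (nat_lit 4) (nat_lit 5) (nat_lit 4) (nat_lit 4) (nat_lit 357) (nat_lit 258) (nat_lit 105)) (XT.nd (nat_lit 78) (nat_lit 0) (nat_lit 0) (XT.lf (nat_lit 0) (nat_lit 68453892579) (nat_lit 76) (nat_lit 205946417430) (nat_lit 76) (nat_lit 145098470751) (nat_lit 3) (nat_lit 4) (nat_lit 4) (nat_lit 5) (nat_lit 4) (nat_lit 4) (nat_lit 358) (nat_lit 258) (nat_lit 104)) (XT.lf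 (nat_lit 0) (nat_lit 99424099609) (nat_lit 76) (nat_lit 200570961276) (nat_lit 76) (nat_lit 139721432943) (nat_lit 3) (nat_lit 4) (nat_lit 4) (nat_lit 5) (nat_lit 4) (nat_lit 4) (nat_lit 359) (nat_lit 258) (nat_lit 103))))))))
noncomputable def xc168 : XT := (XT.nd (nat_lit 1404) (nat_lit 2280) (nat_lit 0) (XT.nd (nat_lit 702) (nat_lit 1292) (nat_lit 0) (XT.nd (nat_lit 312) (nat_lit 608) (nat_lit 0) (XT.nd (nat_lit 156) (nat_lit 0) (nat_lit 0) (XT.nd (nat_lit 78) (nat_lit 0) (nat_lit 0) (XT.lf (nat_lit 0) (nat_lit 4403602370) (nat_lit 684) (nat_lit 490098709) (nat_lit 684) (nat_lit 490098709) (nat_lit 84) (nat_lit 3) (nat_lit 93) (nat_lit 3) (nat_lit 93) (nat_lit 5) (nat_lit 259) (nat_lit 259) (nat_lit 202)) (XT.lf (nat_lit 76) (nat_lit 3856033513) (nat_lit 0) (nat_lit 5772734145) (nat_lit 684) (nat_lit 1376217120) (nat_lit 85) (nat_lit 5) (nat_lit 84) (nat_lit 3) (nat_lit 93) (nat_lit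 5) (nat_lit 260) (nat_lit 259) (nat_lit 201))) (XT.nd (nat_lit 78) (nat_lit 0) (nat_lit 76) (XT.lf (nat_lit 76) (nat_lit 8949260322) (nat_lit 0) (nat_lit 1523812046) (nat_lit 684) (nat_lit 782194792) (nat_lit 85) (nat_lit 5) (nat_lit 84) (nat_lit 3) (nat_lit 93) (nat_lit 5) (nat_lit 261) (nat_lit 259) (nat_lit 200)) (XT.lf (nat_lit 76) (nat_lit 2802976894) (nat_lit 0) (nat_lit 8613207653) (nat_lit 684) (nat_lit 99155314) (nat_lit 86) (nat_lit 5) (nat_lit 85) (nat_lit 5) (nat_lit 94) (nat_lit 5) (nat_lit 262) (nat_lit 259) (nat_lit 199)))) (XT.nd (nat_lit 156) (nat_lit 0) (nat_lit 76) (XT.nd (nat_lit 78) (nat_lit 0) (nat_lit 76) (XT.lf (nat_lit 0) (nat_lit 630543775) (nat_lit 684) (nat_lit 3595066479) (nat_lit 760) (nat_lit 7560805022) (nat_lit 76) (nat_lit 5) (nat_lit 85) (nat_lit 5) (nat_lit 86) (nat_lit 5) (nat_lit 263) (nat_lit 259) (nat_lit 198)) (XT.lf (nat_lit 0) (nat_lit 1397503044)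 (nat_lit 684) (nat_lit 10263056804) (nat_lit 760) (nat_lit 410289369) (nat_lit 77) (nat_lit 5) (nat_lit 86) (nat_lit 5) (nat_lit 87) (nat_lit 5) (nat_lit 264) (nat_lit 259) (nat_lit 197))) (XT.nd (nat_lit 78) (nat_lit 0) (nat_lit 0) (XT.lf (nat_lit 0) (nat_lit 2304445049) (nat_lit 684) (nat_lit 4852346222) (nat_lit 760) (nat_lit 5207718898) (nat_lit 77) (nat_lit 5) (nat_lit 86) (nat_lit 5) (nat_lit 87) (nat_lit 5) (nat_lit 265) (nat_lit 259) (nat_lit 196)) (XT.nd (nat_lit 78) (nat_lit 0) (nat_lit 76) (XT.lf (nat_lit 76) (nat_lit 835427336) (nat_lit 0) (nat_lit 2406236066) (nat_lit 760) (nat_lit 9432027210) (nat_lit 78) (nat_lit 5) (nat_lit 77) (nat_lit 5) (nat_lit 87) (nat_lit 5) (nat_lit 266) (nat_lit 259) (nat_lit 195)) (XT.lf (nat_lit 0) (nat_lit 4322603136) (nat_lit 684) (nat_lit 6081257307) (nat_lit 760) (nat_lit 2589705571) (nat_lit 78) (nat_lit 5) (nat_lit 87) (nat_lit 5) (nat_lit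 88) (nat_lit 5) (nat_lit 267) (nat_lit 259) (nat_lit 194)))))) (XT.nd (nat_lit 312) (nat_lit 836) (nat_lit 0) (XT.nd (nat_lit 156) (nat_lit 608) (nat_lit 0) (XT.nd (nat_lit 78) (nat_lit 0) (nat_lit 0) (XT.lf (nat_lit 0) (nat_lit 5471347401) (nat_lit 684) (nat_lit 96258123) (nat_lit 760) (nat_lit 7761216984) (nat_lit 78) (nat_lit 5) (nat_lit 87) (nat_lit 5) (nat_lit 88) (nat_lit 5) (nat_lit 268) (nat_lit 259) (nat_lit 193)) (XT.lf (nat_lit 76) (nat_lit 6372512559) (nat_lit 0) (nat_lit 380043434) (nat_lit 760) (nat_lit 6924606096) (nat_lit 79) (nat_lit 5) (nat_lit 78) (nat_lit 5) (nat_lit 88) (nat_lit 5) (nat_lit 269) (nat_lit 259) (nat_lit 192))) (XT.nd (nat_lit 78) (nat_lit 684) (nat_lit 0) (XT.lf (nat_lit 0) (nat_lit 8155061000) (nat_lit 684) (nat_lit 974351835) (nat_lit 76) (nat_lit 4910712223) (nat_lit 79) (nat_lit 5) (nat_lit 88) (nat_lit 5) (nat_lit 80) (nat_lit 5) (nat_lit 270)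 (nat_lit 259) (nat_lit 191)) (XT.lf (nat_lit 0) (nat_lit 5833468269) (nat_lit 684) (nat_lit 3869121064) (nat_lit 760) (nat_lit 4714966897) (nat_lit 70) (nat_lit 5) (nat_lit 79) (nat_lit 5) (nat_lit 80) (nat_lit 5) (nat_lit 271) (nat_lit 259) (nat_lit 190)))) (XT.nd (nat_lit 156) (nat_lit 456) (nat_lit 0) (XT.nd (nat_lit 78) (nat_lit 380) (nat_lit 0) (XT.lf (nat_lit 0) (nat_lit 11348490072) (nat_lit 760) (nat_lit 1843962568) (nat_lit 76) (nat_lit 1620418389) (nat_lit 70) (nat_lit 5) (nat_lit 80) (nat_lit 5) (nat_lit 71) (nat_lit 5) (nat_lit 272) (nat_lit 259) (nat_lit 189)) (XT.lf (nat_lit 0) (nat_lit 5320665542) (nat_lit 380) (nat_lit 7881945582) (nat_lit 456) (nat_lit 2019103100) (nat_lit 65) (nat_lit 5) (nat_lit 70) (nat_lit 5) (nat_lit 71) (nat_lit 5) (nat_lit 273) (nat_lit 259) (nat_lit 188))) (XT.nd (nat_lit 78) (nat_lit 456) (nat_lit 0) (XT.lf (nat_lit 0) (nat_lit 12888485828)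 (nat_lit 380) (nat_lit 2272289508) (nat_lit 456) (nat_lit 489713502) (nat_lit 65) (nat_lit 5) (nat_lit 70) (nat_lit 5) (nat_lit 71) (nat_lit 5) (nat_lit 274) (nat_lit 259) (nat_lit 187)) (XT.nd (nat_lit 78) (nat_lit 0) (nat_lit 0) (XT.lf (nat_lit 0) (nat_lit 1194905266) (nat_lit 456) (nat_lit 11302020729) (nat_lit 76) (nat_lit 3597231612) (nat_lit 59) (nat_lit 5) (nat_lit 65) (nat_lit 5) (nat_lit 60) (nat_lit 5) (nat_lit 275) (nat_lit 259) (nat_lit 186)) (XT.lf (nat_lit 0) (nat_lit 3013416499) (nat_lit 456) (nat_lit 3803362149) (nat_lit 76) (nat_lit 9739572280) (nat_lit 59) (nat_lit 5) (nat_lit 65) (nat_lit 5) (nat_lit 60) (nat_lit 5) (nat_lit 276) (nat_lit 259) (nat_lit 185))))))) (XT.nd (nat_lit 702) (nat_lit 836) (nat_lit 0) (XT.nd (nat_lit 312) (nat_lit 836) (nat_lit 0) (XT.nd (nat_lit 156) (nat_lit 304) (nat_lit 0) (XT.nd (nat_lit 78) (nat_lit 0) (nat_lit 0) (XT.lf (nat_lit 0)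 (nat_lit 4185604518) (nat_lit 304) (nat_lit 784812827) (nat_lit 380) (nat_lit 12068904532) (nat_lit 55) (nat_lit 5) (nat_lit 59) (nat_lit 5) (nat_lit 60) (nat_lit 5) (nat_lit 277) (nat_lit 259) (nat_lit 184)) (XT.lf (nat_lit 0) (nat_lit 7160127218) (nat_lit 380) (nat_lit 4944023585) (nat_lit 76) (nat_lit 5435591589) (nat_lit 55) (nat_lit 5) (nat_lit 60) (nat_lit 5) (nat_lit 56) (nat_lit 5) (nat_lit 278) (nat_lit 259) (nat_lit 183))) (XT.nd (nat_lit 78) (nat_lit 0) (nat_lit 0) (XT.lf (nat_lit 0) (nat_lit 3440129016) (nat_lit 304) (nat_lit 6069350090) (nat_lit 380) (nat_lit 8553238875) (nat_lit 51) (nat_lit 5) (nat_lit 55) (nat_lit 5) (nat_lit 56) (nat_lit 5) (nat_lit 279) (nat_lit 259) (nat_lit 182)) (XT.lf (nat_lit 0) (nat_lit 12049622152) (nat_lit 380) (nat_lit 6216840312) (nat_lit 76) (nat_lit 341753587) (nat_lit 51) (nat_lit 5) (nat_lit 56) (nat_lit 5) (nat_lit 52) (nat_lit 5) (nat_lit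 280) (nat_lit 259) (nat_lit 181)))) (XT.nd (nat_lit 156) (nat_lit 608) (nat_lit 0) (XT.nd (nat_lit 78) (nat_lit 0) (nat_lit 0) (XT.lf (nat_lit 0) (nat_lit 2574208199) (nat_lit 228) (nat_lit 12267061746) (nat_lit 304) (nat_lit 4333532181) (nat_lit 48) (nat_lit 5) (nat_lit 51) (nat_lit 5) (nat_lit 52) (nat_lit 5) (nat_lit 281) (nat_lit 259) (nat_lit 180)) (XT.lf (nat_lit 0) (nat_lit 12003051424) (nat_lit 228) (nat_lit 5859992046) (nat_lit 304) (nat_lit 1902183038) (nat_lit 48) (nat_lit 5) (nat_lit 51) (nat_lit 5) (nat_lit 52) (nat_lit 5) (nat_lit 282) (nat_lit 259) (nat_lit 179))) (XT.nd (nat_lit 78) (nat_lit 228) (nat_lit 0) (XT.lf (nat_lit 0) (nat_lit 653704502) (nat_lit 380) (nat_lit 18858232183) (nat_lit 76) (nat_lit 871570321) (nat_lit 43) (nat_lit 5) (nat_lit 48) (nat_lit 5) (nat_lit 44) (nat_lit 5) (nat_lit 283) (nat_lit 259) (nat_lit 178)) (XT.nd (nat_lit 78) (nat_lit 228) (nat_lit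 0) (XT.lf (nat_lit 0) (nat_lit 3489201540) (nat_lit 380) (nat_lit 9626609381) (nat_lit 76) (nat_lit 7904575642) (nat_lit 43) (nat_lit 5) (nat_lit 48) (nat_lit 5) (nat_lit 44) (nat_lit 5) (nat_lit 284) (nat_lit 259) (nat_lit 177)) (XT.lf (nat_lit 0) (nat_lit 51422014) (nat_lit 228) (nat_lit 6402582151) (nat_lit 304) (nat_lit 15235759155) (nat_lit 40) (nat_lit 5) (nat_lit 43) (nat_lit 5) (nat_lit 44) (nat_lit 5) (nat_lit 285) (nat_lit 259) (nat_lit 176)))))) (XT.nd (nat_lit 312) (nat_lit 608) (nat_lit 0) (XT.nd (nat_lit 156) (nat_lit 228) (nat_lit 0) (XT.nd (nat_lit 78) (nat_lit 0) (nat_lit 0) (XT.lf (nat_lit 0) (nat_lit 9729886121) (nat_lit 304) (nat_lit 11866814960) (nat_lit 76) (nat_lit 787794215) (nat_lit 40) (nat_lit 5) (nat_lit 44) (nat_lit 5) (nat_lit 41) (nat_lit 5) (nat_lit 286) (nat_lit 259) (nat_lit 175)) (XT.lf (nat_lit 0) (nat_lit 13262184048) (nat_lit 304) (nat_lit 1728018759)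 (nat_lit 76) (nat_lit 8119156962) (nat_lit 40) (nat_lit 5) (nat_lit 44) (nat_lit 5) (nat_lit 41) (nat_lit 5) (nat_lit 287) (nat_lit 259) (nat_lit 174))) (XT.nd (nat_lit 78) (nat_lit 0) (nat_lit 0) (XT.lf (nat_lit 0) (nat_lit 9196494802) (nat_lit 228) (nat_lit 7906434183) (nat_lit 304) (nat_lit 6760972580) (nat_lit 37) (nat_lit 5) (nat_lit 40) (nat_lit 5) (nat_lit 41) (nat_lit 5) (nat_lit 288) (nat_lit 259) (nat_lit 173)) (XT.lf (nat_lit 0) (nat_lit 20711910330) (nat_lit 228) (nat_lit 441635166) (nat_lit 304) (nat_lit 3501757724) (nat_lit 37) (nat_lit 5) (nat_lit 40) (nat_lit 5) (nat_lit 41) (nat_lit 5) (nat_lit 289) (nat_lit 259) (nat_lit 172)))) (XT.nd (nat_lit 156) (nat_lit 380) (nat_lit 0) (XT.nd (nat_lit 78) (nat_lit 0) (nat_lit 0) (XT.lf (nat_lit 0) (nat_lit 146998031) (nat_lit 228) (nat_lit 18053791393) (nat_lit 76) (nat_lit 7274368213) (nat_lit 34) (nat_lit 5) (nat_lit 37) (nat_lit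 5) (nat_lit 35) (nat_lit 5) (nat_lit 290) (nat_lit 259) (nat_lit 171)) (XT.lf (nat_lit 0) (nat_lit 3924776638) (nat_lit 228) (nat_lit 6922370700) (nat_lit 76) (nat_lit 15482794938) (nat_lit 34) (nat_lit 5) (nat_lit 37) (nat_lit 5) (nat_lit 35) (nat_lit 5) (nat_lit 291) (nat_lit 259) (nat_lit 170))) (XT.nd (nat_lit 78) (nat_lit 152) (nat_lit 0) (XT.lf (nat_lit 0) (nat_lit 4908206152) (nat_lit 228) (nat_lit 3049534675) (nat_lit 304) (nat_lit 19266430629) (nat_lit 31) (nat_lit 5) (nat_lit 34) (nat_lit 5) (nat_lit 35) (nat_lit 5) (nat_lit 292) (nat_lit 259) (nat_lit 169)) (XT.nd (nat_lit 78) (nat_lit 152) (nat_lit 0) (XT.lf (nat_lit 0) (nat_lit 12381596049) (nat_lit 304) (nat_lit 10683480116) (nat_lit 76) (nat_lit 5088592972) (nat_lit 31) (nat_lit 5) (nat_lit 35) (nat_lit 5) (nat_lit 32) (nat_lit 5) (nat_lit 293) (nat_lit 259) (nat_lit 168)) (XT.lf (nat_lit 0) (nat_lit 1515100262) (nat_lit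 152) (nat_lit 15575542844) (nat_lit 228) (nat_lit 12035816912) (nat_lit 29) (nat_lit 5) (nat_lit 31) (nat_lit 5) (nat_lit 32) (nat_lit 5) (nat_lit 294) (nat_lit 259) (nat_lit 167))))))))
noncomputable def xc169 : XT := (XT.nd (nat_lit 1404) (nat_lit 608) (nat_lit 0) (XT.nd (nat_lit 702) (nat_lit 456) (nat_lit 0) (XT.nd (nat_lit 312) (nat_lit 304) (nat_lit 0) (XT.nd (nat_lit 156) (nat_lit 228) (nat_lit 0) (XT.nd (nat_lit 78) (nat_lit 0) (nat_lit 0) (XT.lf (nat_lit 0) (nat_lit 14680712879) (nat_lit 152) (nat_lit 7525955219) (nat_lit 228) (nat_lit 7932663465) (nat_lit 29) (nat_lit 5) (nat_lit 31) (nat_lit 5) (nat_lit 32) (nat_lit 5) (nat_lit 295) (nat_lit 259) (nat_lit 166)) (XT.lf (nat_lit 0) (nat_lit 27583931636) (nat_lit 228) (nat_lit 2726244545) (nat_lit 76) (nat_lit 892415210) (nat_lit 29) (nat_lit 5) (nat_lit 32) (nat_lit 5) (nat_lit 30) (nat_lit 5) (nat_lit 296) (nat_lit 259) (nat_lit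 165))) (XT.nd (nat_lit 78) (nat_lit 0) (nat_lit 0) (XT.lf (nat_lit 0) (nat_lit 1170772738) (nat_lit 228) (nat_lit 21469837654) (nat_lit 76) (nat_lit 9663263266) (nat_lit 26) (nat_lit 5) (nat_lit 29) (nat_lit 5) (nat_lit 27) (nat_lit 5) (nat_lit 297) (nat_lit 259) (nat_lit 164)) (XT.lf (nat_lit 0) (nat_lit 6116460088) (nat_lit 228) (nat_lit 8363999266) (nat_lit 76) (nat_lit 18974889189) (nat_lit 26) (nat_lit 5) (nat_lit 29) (nat_lit 5) (nat_lit 27) (nat_lit 5) (nat_lit 298) (nat_lit 259) (nat_lit 163)))) (XT.nd (nat_lit 156) (nat_lit 152) (nat_lit 0) (XT.nd (nat_lit 78) (nat_lit 0) (nat_lit 0) (XT.lf (nat_lit 0) (nat_lit 5562805858) (nat_lit 152) (nat_lit 5825350045) (nat_lit 228) (nat_lit 23272318695) (nat_lit 24) (nat_lit 5) (nat_lit 26) (nat_lit 5) (nat_lit 27) (nat_lit 5) (nat_lit 299) (nat_lit 259) (nat_lit 162)) (XT.lf (nat_lit 0) (nat_lit 17110347879) (nat_lit 228) (nat_lit 15508216711)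 (nat_lit 76) (nat_lit 3297959783) (nat_lit 24) (nat_lit 5) (nat_lit 27) (nat_lit 5) (nat_lit 25) (nat_lit 5) (nat_lit 300) (nat_lit 259) (nat_lit 161))) (XT.nd (nat_lit 78) (nat_lit 152) (nat_lit 0) (XT.lf (nat_lit 0) (nat_lit 23206531653) (nat_lit 228) (nat_lit 1346707217) (nat_lit 76) (nat_lit 12677756021) (nat_lit 24) (nat_lit 5) (nat_lit 27) (nat_lit 5) (nat_lit 25) (nat_lit 5) (nat_lit 301) (nat_lit 259) (nat_lit 160)) (XT.nd (nat_lit 78) (nat_lit 0) (nat_lit 0) (XT.lf (nat_lit 0) (nat_lit 13958279783) (nat_lit 152) (nat_lit 15859919991) (nat_lit 228) (nat_lit 8782467180) (nat_lit 22) (nat_lit 5) (nat_lit 24) (nat_lit 5) (nat_lit 25) (nat_lit 5) (nat_lit 302) (nat_lit 259) (nat_lit 159)) (XT.lf (nat_lit 0) (nat_lit 30064103742) (nat_lit 152) (nat_lit 6712073010) (nat_lit 228) (nat_lit 3261870811) (nat_lit 22) (nat_lit 5) (nat_lit 24) (nat_lit 5) (nat_lit 25) (nat_lit 5) (nat_lit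 303) (nat_lit 259) (nat_lit 158)))))) (XT.nd (nat_lit 312) (nat_lit 152) (nat_lit 0) (XT.nd (nat_lit 156) (nat_lit 152) (nat_lit 0) (XT.nd (nat_lit 78) (nat_lit 0) (nat_lit 0) (XT.lf (nat_lit 0) (nat_lit 2580673963) (nat_lit 152) (nat_lit 36033235517) (nat_lit 76) (nat_lit 2925066835) (nat_lit 20) (nat_lit 5) (nat_lit 22) (nat_lit 5) (nat_lit 21) (nat_lit 5) (nat_lit 304) (nat_lit 259) (nat_lit 157)) (XT.lf (nat_lit 0) (nat_lit 8880674572) (nat_lit 152) (nat_lit 21178079434) (nat_lit 76) (nat_lit 13039786080) (nat_lit 20) (nat_lit 5) (nat_lit 22) (nat_lit 5) (nat_lit 21) (nat_lit 5) (nat_lit 305) (nat_lit 259) (nat_lit 156))) (XT.nd (nat_lit 78) (nat_lit 152) (nat_lit 0) (XT.lf (nat_lit 0) (nat_lit 15489229708) (nat_lit 152) (nat_lit 5590622418) (nat_lit 76) (nat_lit 23656561422) (nat_lit 20) (nat_lit 5) (nat_lit 22) (nat_lit 5) (nat_lit 21) (nat_lit 5) (nat_lit 306) (nat_lit 259) (nat_lit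 155)) (XT.lf (nat_lit 0) (nat_lit 11122229321) (nat_lit 152) (nat_lit 11473493875) (nat_lit 228) (nat_lit 23852090746) (nat_lit 18) (nat_lit 5) (nat_lit 20) (nat_lit 5) (nat_lit 21) (nat_lit 5) (nat_lit 307) (nat_lit 259) (nat_lit 154)))) (XT.nd (nat_lit 156) (nat_lit 152) (nat_lit 0) (XT.nd (nat_lit 78) (nat_lit 0) (nat_lit 0) (XT.lf (nat_lit 0) (nat_lit 28855019136) (nat_lit 152) (nat_lit 1291202876) (nat_lit 228) (nat_lit 18094136678) (nat_lit 18) (nat_lit 5) (nat_lit 20) (nat_lit 5) (nat_lit 21) (nat_lit 5) (nat_lit 308) (nat_lit 259) (nat_lit 153)) (XT.lf (nat_lit 0) (nat_lit 38215239227) (nat_lit 228) (nat_lit 2804414615) (nat_lit 76) (nat_lit 9095835134) (nat_lit 18) (nat_lit 5) (nat_lit 21) (nat_lit 5) (nat_lit 19) (nat_lit 4) (nat_lit 309) (nat_lit 259) (nat_lit 152))) (XT.nd (nat_lit 78) (nat_lit 76) (nat_lit 0) (XT.lf (nat_lit 0) (nat_lit 15057200553) (nat_lit 76) (nat_lit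 31881263819) (nat_lit 152) (nat_lit 5133381141) (nat_lit 17) (nat_lit 5) (nat_lit 18) (nat_lit 5) (nat_lit 19) (nat_lit 4) (nat_lit 310) (nat_lit 259) (nat_lit 151)) (XT.nd (nat_lit 78) (nat_lit 0) (nat_lit 0) (XT.lf (nat_lit 0) (nat_lit 1951524019) (nat_lit 152) (nat_lit 20255104076) (nat_lit 76) (nat_lit 31915719175) (nat_lit 16) (nat_lit 5) (nat_lit 18) (nat_lit 5) (nat_lit 17) (nat_lit 5) (nat_lit 311) (nat_lit 259) (nat_lit 150)) (XT.lf (nat_lit 0) (nat_lit 9212950899) (nat_lit 152) (nat_lit 2750457963) (nat_lit 76) (nat_lit 44308024536) (nat_lit 16) (nat_lit 5) (nat_lit 18) (nat_lit 5) (nat_lit 17) (nat_lit 5) (nat_lit 312) (nat_lit 259) (nat_lit 149))))))) (XT.nd (nat_lit 702) (nat_lit 228) (nat_lit 0) (XT.nd (nat_lit 312) (nat_lit 152) (nat_lit 0) (XT.nd (nat_lit 156) (nat_lit 76) (nat_lit 0) (XT.nd (nat_lit 78) (nat_lit 0) (nat_lit 0) (XT.lf (nat_lit 0) (nat_lit 16137622265)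 (nat_lit 152) (nat_lit 946820108) (nat_lit 228) (nat_lit 41431188042) (nat_lit 14) (nat_lit 5) (nat_lit 16) (nat_lit 5) (nat_lit 17) (nat_lit 5) (nat_lit 313) (nat_lit 259) (nat_lit 148)) (XT.lf (nat_lit 0) (nat_lit 25557766280) (nat_lit 228) (nat_lit 24979058683) (nat_lit 76) (nat_lit 10324805375) (nat_lit 14) (nat_lit 5) (nat_lit 17) (nat_lit 5) (nat_lit 15) (nat_lit 4) (nat_lit 314) (nat_lit 259) (nat_lit 147))) (XT.nd (nat_lit 78) (nat_lit 76) (nat_lit 0) (XT.lf (nat_lit 0) (nat_lit 34465608128) (nat_lit 228) (nat_lit 6733650716) (nat_lit 76) (nat_lit 22125134489) (nat_lit 14) (nat_lit 5) (nat_lit 17) (nat_lit 5) (nat_lit 15) (nat_lit 4) (nat_lit 315) (nat_lit 259) (nat_lit 146)) (XT.lf (nat_lit 0) (nat_lit 12826983283) (nat_lit 76) (nat_lit 31187676423) (nat_lit 152) (nat_lit 21885849287) (nat_lit 13) (nat_lit 5) (nat_lit 14) (nat_lit 5) (nat_lit 15) (nat_lit 4) (nat_lit 316) (nat_lit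 259) (nat_lit 145)))) (XT.nd (nat_lit 156) (nat_lit 152) (nat_lit 0) (XT.nd (nat_lit 78) (nat_lit 0) (nat_lit 0) (XT.lf (nat_lit 0) (nat_lit 33591960580) (nat_lit 76) (nat_lit 20558888625) (nat_lit 152) (nat_lit 14449102100) (nat_lit 13) (nat_lit 5) (nat_lit 14) (nat_lit 5) (nat_lit 15) (nat_lit 4) (nat_lit 317) (nat_lit 259) (nat_lit 144)) (XT.lf (nat_lit 0) (nat_lit 55388076695) (nat_lit 76) (nat_lit 9401626446) (nat_lit 152) (nat_lit 6644874738) (nat_lit 13) (nat_lit 5) (nat_lit 14) (nat_lit 5) (nat_lit 15) (nat_lit 4) (nat_lit 318) (nat_lit 259) (nat_lit 143))) (XT.nd (nat_lit 78) (nat_lit 0) (nat_lit 0) (XT.lf (nat_lit 0) (nat_lit 1595242075) (nat_lit 152) (nat_lit 70485662986) (nat_lit 76) (nat_lit 2324061818) (nat_lit 11) (nat_lit 5) (nat_lit 13) (nat_lit 5) (nat_lit 12) (nat_lit 4) (nat_lit 319) (nat_lit 259) (nat_lit 142)) (XT.nd (nat_lit 78) (nat_lit 0) (nat_lit 0) (XT.lf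 (nat_lit 0) (nat_lit 10450412188) (nat_lit 152) (nat_lit 52344255824) (nat_lit 76) (nat_lit 14702446983) (nat_lit 11) (nat_lit 5) (nat_lit 13) (nat_lit 5) (nat_lit 12) (nat_lit 4) (nat_lit 320) (nat_lit 259) (nat_lit 141)) (XT.lf (nat_lit 0) (nat_lit 19744553696) (nat_lit 152) (nat_lit 33302400562) (nat_lit 76) (nat_lit 27697109640) (nat_lit 11) (nat_lit 5) (nat_lit 13) (nat_lit 5) (nat_lit 12) (nat_lit 4) (nat_lit 321) (nat_lit 259) (nat_lit 140)))))) (XT.nd (nat_lit 312) (nat_lit 152) (nat_lit 0) (XT.nd (nat_lit 156) (nat_lit 0) (nat_lit 0) (XT.nd (nat_lit 78) (nat_lit 76) (nat_lit 0) (XT.lf (nat_lit 0) (nat_lit 29499795506) (nat_lit 152) (nat_lit 13314759450) (nat_lit 76) (nat_lit 41338989463) (nat_lit 11) (nat_lit 5) (nat_lit 13) (nat_lit 5) (nat_lit 12) (nat_lit 4) (nat_lit 322) (nat_lit 259) (nat_lit 139)) (XT.lf (nat_lit 0) (nat_lit 7919738214) (nat_lit 76) (nat_lit 31943275478)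 (nat_lit 152) (nat_lit 47864478211) (nat_lit 10) (nat_lit 5) (nat_lit 11) (nat_lit 5) (nat_lit 12) (nat_lit 4) (nat_lit 323) (nat_lit 259) (nat_lit 138))) (XT.nd (nat_lit 78) (nat_lit 0) (nat_lit 0) (XT.lf (nat_lit 0) (nat_lit 30672309443) (nat_lit 76) (nat_lit 20294211524) (nat_lit 152) (nat_lit 40502512865) (nat_lit 10) (nat_lit 5) (nat_lit 11) (nat_lit 5) (nat_lit 12) (nat_lit 4) (nat_lit 324) (nat_lit 259) (nat_lit 137)) (XT.lf (nat_lit 0) (nat_lit 54556880943) (nat_lit 76) (nat_lit 8065119121) (nat_lit 152) (nat_lit 32775816279) (nat_lit 10) (nat_lit 5) (nat_lit 11) (nat_lit 5) (nat_lit 12) (nat_lit 4) (nat_lit 325) (nat_lit 259) (nat_lit 136)))) (XT.nd (nat_lit 156) (nat_lit 76) (nat_lit 0) (XT.nd (nat_lit 78) (nat_lit 76) (nat_lit 0) (XT.lf (nat_lit 0) (nat_lit 74931723887) (nat_lit 152) (nat_lit 19967394702) (nat_lit 0) (nat_lit 4620349010) (nat_lit 10) (nat_lit 5) (nat_lit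 12) (nat_lit 4) (nat_lit 10) (nat_lit 4) (nat_lit 326) (nat_lit 259) (nat_lit 135)) (XT.lf (nat_lit 0) (nat_lit 1872314753) (nat_lit 76) (nat_lit 86143126251) (nat_lit 76) (nat_lit 15823838060) (nat_lit 9) (nat_lit 4) (nat_lit 10) (nat_lit 5) (nat_lit 10) (nat_lit 4) (nat_lit 327) (nat_lit 259) (nat_lit 134))) (XT.nd (nat_lit 78) (nat_lit 76) (nat_lit 0) (XT.lf (nat_lit 0) (nat_lit 25492097740) (nat_lit 76) (nat_lit 76596523522) (nat_lit 76) (nat_lit 6269698840) (nat_lit 9) (nat_lit 4) (nat_lit 10) (nat_lit 5) (nat_lit 10) (nat_lit 4) (nat_lit 328) (nat_lit 259) (nat_lit 133)) (XT.nd (nat_lit 78) (nat_lit 0) (nat_lit 0) (XT.lf (nat_lit 0) (nat_lit 3638944469) (nat_lit 152) (nat_lit 62874166129) (nat_lit 76) (nat_lit 46587407836) (nat_lit 8) (nat_lit 5) (nat_lit 10) (nat_lit 5) (nat_lit 9) (nat_lit 4) (nat_lit 329) (nat_lit 259) (nat_lit 132)) (XT.lf (nat_lit 0) (nat_lit 13829659177)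 (nat_lit 152) (nat_lit 41990036796) (nat_lit 76) (nat_lit 62255126973) (nat_lit 8) (nat_lit 5) (nat_lit 10) (nat_lit 5) (nat_lit 9) (nat_lit 4) (nat_lit 330) (nat_lit 259) (nat_lit 131))))))))
noncomputable def xc170 : XT := (XT.nd (nat_lit 1404) (nat_lit 76) (nat_lit 0) (XT.nd (nat_lit 702) (nat_lit 152) (nat_lit 0) (XT.nd (nat_lit 312) (nat_lit 76) (nat_lit 0) (XT.nd (nat_lit 156) (nat_lit 0) (nat_lit 0) (XT.nd (nat_lit 78) (nat_lit 76) (nat_lit 0) (XT.lf (nat_lit 0) (nat_lit 24527378408) (nat_lit 152) (nat_lit 20066222677) (nat_lit 76) (nat_lit 78704370514) (nat_lit 8) (nat_lit 5) (nat_lit 10) (nat_lit 5) (nat_lit 9) (nat_lit 4) (nat_lit 331) (nat_lit 259) (nat_lit 130)) (XT.lf (nat_lit 0) (nat_lit 3046998776) (nat_lit 76) (nat_lit 32758146335) (nat_lit 152) (nat_lit 92974876739) (nat_lit 7) (nat_lit 5) (nat_lit 8) (nat_lit 5) (nat_lit 9) (nat_lit 4) (nat_lit 332) (nat_lit 259) (nat_lit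 129))) (XT.nd (nat_lit 78) (nat_lit 0) (nat_lit 0) (XT.lf (nat_lit 0) (nat_lit 28008298340) (nat_lit 76) (nat_lit 19975970967) (nat_lit 152) (nat_lit 86535033984) (nat_lit 7) (nat_lit 5) (nat_lit 8) (nat_lit 5) (nat_lit 9) (nat_lit 4) (nat_lit 333) (nat_lit 259) (nat_lit 128)) (XT.lf (nat_lit 0) (nat_lit 54213627735) (nat_lit 76) (nat_lit 6556472421) (nat_lit 152) (nat_lit 79775563160) (nat_lit 7) (nat_lit 5) (nat_lit 8) (nat_lit 5) (nat_lit 9) (nat_lit 4) (nat_lit 334) (nat_lit 259) (nat_lit 127)))) (XT.nd (nat_lit 156) (nat_lit 76) (nat_lit 0) (XT.nd (nat_lit 78) (nat_lit 0) (nat_lit 0) (XT.lf (nat_lit 0) (nat_lit 74310680433) (nat_lit 152) (nat_lit 65265670117) (nat_lit 0) (nat_lit 7291219833) (nat_lit 7) (nat_lit 5) (nat_lit 9) (nat_lit 4) (nat_lit 7) (nat_lit 4) (nat_lit 335) (nat_lit 259) (nat_lit 126)) (XT.lf (nat_lit 0) (nat_lit 88633707177) (nat_lit 152) (nat_lit 43257208110)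 (nat_lit 0) (nat_lit 21609388489) (nat_lit 7) (nat_lit 5) (nat_lit 9) (nat_lit 4) (nat_lit 7) (nat_lit 4) (nat_lit 336) (nat_lit 259) (nat_lit 125))) (XT.nd (nat_lit 78) (nat_lit 76) (nat_lit 0) (XT.lf (nat_lit 0) (nat_lit 103670917925) (nat_lit 152) (nat_lit 20151883551) (nat_lit 0) (nat_lit 36641972486) (nat_lit 7) (nat_lit 5) (nat_lit 9) (nat_lit 4) (nat_lit 7) (nat_lit 4) (nat_lit 337) (nat_lit 259) (nat_lit 124)) (XT.nd (nat_lit 78) (nat_lit 0) (nat_lit 0) (XT.lf (nat_lit 0) (nat_lit 4241056532) (nat_lit 76) (nat_lit 115283273805) (nat_lit 76) (nat_lit 48249921936) (nat_lit 6) (nat_lit 4) (nat_lit 7) (nat_lit 5) (nat_lit 7) (nat_lit 4) (nat_lit 338) (nat_lit 259) (nat_lit 123)) (XT.lf (nat_lit 0) (nat_lit 30549935208) (nat_lit 76) (nat_lit 105959923542) (nat_lit 76) (nat_lit 38922375073) (nat_lit 6) (nat_lit 4) (nat_lit 7) (nat_lit 5) (nat_lit 7) (nat_lit 4) (nat_lit 339) (nat_lit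 259) (nat_lit 122)))))) (XT.nd (nat_lit 312) (nat_lit 76) (nat_lit 0) (XT.nd (nat_lit 156) (nat_lit 76) (nat_lit 0) (XT.nd (nat_lit 78) (nat_lit 0) (nat_lit 0) (XT.lf (nat_lit 0) (nat_lit 58171080384) (nat_lit 76) (nat_lit 96171834134) (nat_lit 76) (nat_lit 29130288904) (nat_lit 6) (nat_lit 4) (nat_lit 7) (nat_lit 5) (nat_lit 7) (nat_lit 4) (nat_lit 340) (nat_lit 259) (nat_lit 121)) (XT.lf (nat_lit 0) (nat_lit 87170256693) (nat_lit 76) (nat_lit 85895700606) (nat_lit 76) (nat_lit 18850348936) (nat_lit 6) (nat_lit 4) (nat_lit 7) (nat_lit 5) (nat_lit 7) (nat_lit 4) (nat_lit 341) (nat_lit 259) (nat_lit 120))) (XT.nd (nat_lit 78) (nat_lit 76) (nat_lit 0) (XT.lf (nat_lit 0) (nat_lit 117616509791) (nat_lit 76) (nat_lit 75107055974) (nat_lit 76) (nat_lit 8058079122) (nat_lit 6) (nat_lit 4) (nat_lit 7) (nat_lit 5) (nat_lit 7) (nat_lit 4) (nat_lit 342) (nat_lit 259) (nat_lit 119)) (XT.lf (nat_lit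 0) (nat_lit 3167485055) (nat_lit 152) (nat_lit 60559085039) (nat_lit 76) (nat_lit 146361202810) (nat_lit 5) (nat_lit 5) (nat_lit 7) (nat_lit 5) (nat_lit 6) (nat_lit 4) (nat_lit 343) (nat_lit 259) (nat_lit 118)))) (XT.nd (nat_lit 156) (nat_lit 76) (nat_lit 0) (XT.nd (nat_lit 78) (nat_lit 0) (nat_lit 0) (XT.lf (nat_lit 0) (nat_lit 14682059386) (nat_lit 152) (nat_lit 36957495806) (nat_lit 76) (nat_lit 168213121525) (nat_lit 5) (nat_lit 5) (nat_lit 7) (nat_lit 5) (nat_lit 6) (nat_lit 4) (nat_lit 344) (nat_lit 259) (nat_lit 117)) (XT.lf (nat_lit 0) (nat_lit 26770968379) (nat_lit 152) (nat_lit 12178363940) (nat_lit 76) (nat_lit 191156564237) (nat_lit 5) (nat_lit 5) (nat_lit 7) (nat_lit 5) (nat_lit 6) (nat_lit 4) (nat_lit 345) (nat_lit 259) (nat_lit 116))) (XT.nd (nat_lit 78) (nat_lit 0) (nat_lit 0) (XT.lf (nat_lit 0) (nat_lit 14294832402) (nat_lit 76) (nat_lit 25391345141) (nat_lit 152) (nat_lit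 201174508184) (nat_lit 4) (nat_lit 5) (nat_lit 5) (nat_lit 5) (nat_lit 6) (nat_lit 4) (nat_lit 346) (nat_lit 259) (nat_lit 115)) (XT.nd (nat_lit 78) (nat_lit 0) (nat_lit 0) (XT.lf (nat_lit 0) (nat_lit 42512116801) (nat_lit 76) (nat_lit 10939975290) (nat_lit 152) (nat_lit 198690876048) (nat_lit 4) (nat_lit 5) (nat_lit 5) (nat_lit 5) (nat_lit 6) (nat_lit 4) (nat_lit 347) (nat_lit 259) (nat_lit 114)) (XT.lf (nat_lit 0) (nat_lit 67971150820) (nat_lit 152) (nat_lit 191917514112) (nat_lit 0) (nat_lit 4097458294) (nat_lit 4) (nat_lit 5) (nat_lit 6) (nat_lit 4) (nat_lit 4) (nat_lit 4) (nat_lit 348) (nat_lit 259) (nat_lit 113))))))) (XT.nd (nat_lit 702) (nat_lit 0) (nat_lit 0) (XT.nd (nat_lit 312) (nat_lit 76) (nat_lit 0) (XT.nd (nat_lit 156) (nat_lit 0) (nat_lit 0) (XT.nd (nat_lit 78) (nat_lit 0) (nat_lit 0) (XT.lf (nat_lit 0) (nat_lit 83394310557) (nat_lit 152) (nat_lit 173500054672) (nat_lit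 0) (nat_lit 19518164366) (nat_lit 4) (nat_lit 5) (nat_lit 6) (nat_lit 4) (nat_lit 4) (nat_lit 4) (nat_lit 349) (nat_lit 259) (nat_lit 112)) (XT.lf (nat_lit 0) (nat_lit 99587489438) (nat_lit 152) (nat_lit 154163818252) (nat_lit 0) (nat_lit 35709006423) (nat_lit 4) (nat_lit 5) (nat_lit 6) (nat_lit 4) (nat_lit 4) (nat_lit 4) (nat_lit 350) (nat_lit 259) (nat_lit 111))) (XT.nd (nat_lit 78) (nat_lit 0) (nat_lit 0) (XT.lf (nat_lit 0) (nat_lit 116589242650) (nat_lit 152) (nat_lit 133862766193) (nat_lit 0) (nat_lit 52708534089) (nat_lit 4) (nat_lit 5) (nat_lit 6) (nat_lit 4) (nat_lit 4) (nat_lit 4) (nat_lit 351) (nat_lit 259) (nat_lit 110)) (XT.lf (nat_lit 0) (nat_lit 134440050559) (nat_lit 152) (nat_lit 112548562657) (nat_lit 0) (nat_lit 70557222429) (nat_lit 4) (nat_lit 5) (nat_lit 6) (nat_lit 4) (nat_lit 4) (nat_lit 4) (nat_lit 352) (nat_lit 259) (nat_lit 109)))) (XT.nd (nat_lit 156) (nat_lit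 76) (nat_lit 0) (XT.nd (nat_lit 78) (nat_lit 0) (nat_lit 0) (XT.lf (nat_lit 0) (nat_lit 153182415087) (nat_lit 152) (nat_lit 90170459540) (nat_lit 0) (nat_lit 89297568321) (nat_lit 4) (nat_lit 5) (nat_lit 6) (nat_lit 4) (nat_lit 4) (nat_lit 4) (nat_lit 353) (nat_lit 259) (nat_lit 108)) (XT.lf (nat_lit 0) (nat_lit 172860960912) (nat_lit 152) (nat_lit 66675175645) (nat_lit 0) (nat_lit 108974191636) (nat_lit 4) (nat_lit 5) (nat_lit 6) (nat_lit 4) (nat_lit 4) (nat_lit 4) (nat_lit 354) (nat_lit 259) (nat_lit 107))) (XT.nd (nat_lit 78) (nat_lit 76) (nat_lit 0) (XT.lf (nat_lit 0) (nat_lit 193522541715) (nat_lit 152) (nat_lit 42006769819) (nat_lit 0) (nat_lit 129633941476) (nat_lit 4) (nat_lit 5) (nat_lit 6) (nat_lit 4) (nat_lit 4) (nat_lit 4) (nat_lit 355) (nat_lit 259) (nat_lit 106)) (XT.nd (nat_lit 78) (nat_lit 76) (nat_lit 0) (XT.lf (nat_lit 0) (nat_lit 215216351736) (nat_lit 152) (nat_lit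 16106507763) (nat_lit 0) (nat_lit 151326007723) (nat_lit 4) (nat_lit 5) (nat_lit 6) (nat_lit 4) (nat_lit 4) (nat_lit 4) (nat_lit 356) (nat_lit 259) (nat_lit 105)) (XT.lf (nat_lit 0) (nat_lit 11453873289) (nat_lit 76) (nat_lit 226718996675) (nat_lit 76) (nat_lit 162826991925) (nat_lit 3) (nat_lit 4) (nat_lit 4) (nat_lit 5) (nat_lit 4) (nat_lit 4) (nat_lit 357) (nat_lit 259) (nat_lit 104)))))) (XT.nd (nat_lit 30108) (nat_lit 0) (nat_lit 5548) (XT.nd (nat_lit 29952) (nat_lit 0) (nat_lit 5472) (XT.nd (nat_lit 29874) (nat_lit 0) (nat_lit 6156) (XT.lf (nat_lit 0) (nat_lit 40949989418) (nat_lit 76) (nat_lit 221599202493) (nat_lit 76) (nat_lit 157705616089) (nat_lit 3) (nat_lit 4) (nat_lit 4) (nat_lit 5) (nat_lit 4) (nat_lit 4) (nat_lit 358) (nat_lit 259) (nat_lit 103)) (XT.lf (nat_lit 0) (nat_lit 5156512473) (nat_lit 684) (nat_lit 234066127) (nat_lit 684) (nat_lit 234066127) (nat_lit 84) (nat_lit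 3) (nat_lit 93) (nat_lit 3) (nat_lit 93) (nat_lit 5) (nat_lit 260) (nat_lit 260) (nat_lit 200))) (XT.nd (nat_lit 78) (nat_lit 684) (nat_lit 0) (XT.lf (nat_lit 76) (nat_lit 4600860627) (nat_lit 0) (nat_lit 6532687860) (nat_lit 684) (nat_lit 367264026) (nat_lit 85) (nat_lit 5) (nat_lit 84) (nat_lit 3) (nat_lit 93) (nat_lit 5) (nat_lit 261) (nat_lit 260) (nat_lit 199)) (XT.lf (nat_lit 0) (nat_lit 198571650) (nat_lit 684) (nat_lit 1846941432) (nat_lit 760) (nat_lit 9720527293) (nat_lit 75) (nat_lit 5) (nat_lit 84) (nat_lit 3) (nat_lit 85) (nat_lit 5) (nat_lit 262) (nat_lit 260) (nat_lit 198)))) (XT.nd (nat_lit 156) (nat_lit 0) (nat_lit 76) (XT.nd (nat_lit 78) (nat_lit 0) (nat_lit 0) (XT.lf (nat_lit 0) (nat_lit 847837734) (nat_lit 684) (nat_lit 8537030716) (nat_lit 760) (nat_lit 2656077493) (nat_lit 76) (nat_lit 5) (nat_lit 85) (nat_lit 5) (nat_lit 86) (nat_lit 5) (nat_lit 263) (nat_lit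 260) (nat_lit 197)) (XT.lf (nat_lit 0) (nat_lit 1565517198) (nat_lit 684) (nat_lit 3194510371) (nat_lit 760) (nat_lit 7567858770) (nat_lit 76) (nat_lit 5) (nat_lit 85) (nat_lit 5) (nat_lit 86) (nat_lit 5) (nat_lit 264) (nat_lit 260) (nat_lit 196))) (XT.nd (nat_lit 78) (nat_lit 0) (nat_lit 0) (XT.lf (nat_lit 0) (nat_lit 2332058608) (nat_lit 684) (nat_lit 10154584497) (nat_lit 760) (nat_lit 141964658) (nat_lit 77) (nat_lit 5) (nat_lit 86) (nat_lit 5) (nat_lit 87) (nat_lit 5) (nat_lit 265) (nat_lit 260) (nat_lit 195)) (XT.nd (nat_lit 78) (nat_lit 0) (nat_lit 0) (XT.lf (nat_lit 0) (nat_lit 3243172455) (nat_lit 684) (nat_lit 4502939583) (nat_lit 760) (nat_lit 5193019910) (nat_lit 77) (nat_lit 5) (nat_lit 86) (nat_lit 5) (nat_lit 87) (nat_lit 5) (nat_lit 266) (nat_lit 260) (nat_lit 194)) (XT.lf (nat_lit 76) (nat_lit 1459673880) (nat_lit 0) (nat_lit 2737457385) (nat_lit 760) (nat_lit 9068261814)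 (nat_lit 78) (nat_lit 5) (nat_lit 77) (nat_lit 5) (nat_lit 87) (nat_lit 5) (nat_lit 267) (nat_lit 260) (nat_lit 193))))))))
noncomputable def xc171 : XT := (XT.nd (nat_lit 1404) (nat_lit 1596) (nat_lit 0) (XT.nd (nat_lit 702) (nat_lit 1216) (nat_lit 0) (XT.nd (nat_lit 312) (nat_lit 1444) (nat_lit 0) (XT.nd (nat_lit 156) (nat_lit 0) (nat_lit 0) (XT.nd (nat_lit 78) (nat_lit 0) (nat_lit 0) (XT.lf (nat_lit 0) (nat_lit 5291201678) (nat_lit 684) (nat_lit 5787462907) (nat_lit 760) (nat_lit 2524753616) (nat_lit 78) (nat_lit 5) (nat_lit 87) (nat_lit 5) (nat_lit 88) (nat_lit 5) (nat_lit 268) (nat_lit 260) (nat_lit 192)) (XT.lf (nat_lit 76) (nat_lit 483801511) (nat_lit 0) (nat_lit 5985303314) (nat_lit 760) (nat_lit 7487851502) (nat_lit 79) (nat_lit 5) (nat_lit 78) (nat_lit 5) (nat_lit 88) (nat_lit 5) (nat_lit 269) (nat_lit 260) (nat_lit 191))) (XT.nd (nat_lit 78) (nat_lit 0) (nat_lit 76) (XT.lf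 (nat_lit 76) (nat_lit 7251342384) (nat_lit 0) (nat_lit 530098773) (nat_lit 760) (nat_lit 6543018259) (nat_lit 79) (nat_lit 5) (nat_lit 78) (nat_lit 5) (nat_lit 88) (nat_lit 5) (nat_lit 270) (nat_lit 260) (nat_lit 190)) (XT.lf (nat_lit 0) (nat_lit 9219205723) (nat_lit 684) (nat_lit 452773159) (nat_lit 76) (nat_lit 5035430074) (nat_lit 79) (nat_lit 5) (nat_lit 88) (nat_lit 5) (nat_lit 80) (nat_lit 5) (nat_lit 271) (nat_lit 260) (nat_lit 189)))) (XT.nd (nat_lit 156) (nat_lit 836) (nat_lit 0) (XT.nd (nat_lit 78) (nat_lit 0) (nat_lit 0) (XT.lf (nat_lit 0) (nat_lit 6686239623) (nat_lit 684) (nat_lit 4135374416) (nat_lit 760) (nat_lit 4283313080) (nat_lit 70) (nat_lit 5) (nat_lit 79) (nat_lit 5) (nat_lit 80) (nat_lit 5) (nat_lit 272) (nat_lit 260) (nat_lit 188)) (XT.lf (nat_lit 0) (nat_lit 12518541880) (nat_lit 760) (nat_lit 1368787902) (nat_lit 76) (nat_lit 1634327565) (nat_lit 70) (nat_lit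 5) (nat_lit 80) (nat_lit 5) (nat_lit 71) (nat_lit 5) (nat_lit 273) (nat_lit 260) (nat_lit 187))) (XT.nd (nat_lit 78) (nat_lit 456) (nat_lit 0) (XT.lf (nat_lit 0) (nat_lit 6144920440) (nat_lit 380) (nat_lit 8300467410) (nat_lit 456) (nat_lit 1506636093) (nat_lit 65) (nat_lit 5) (nat_lit 70) (nat_lit 5) (nat_lit 71) (nat_lit 5) (nat_lit 274) (nat_lit 260) (nat_lit 186)) (XT.nd (nat_lit 78) (nat_lit 380) (nat_lit 0) (XT.lf (nat_lit 0) (nat_lit 67771571) (nat_lit 456) (nat_lit 2340246143) (nat_lit 76) (nat_lit 13995630443) (nat_lit 64) (nat_lit 5) (nat_lit 70) (nat_lit 5) (nat_lit 65) (nat_lit 5) (nat_lit 275) (nat_lit 260) (nat_lit 185)) (XT.lf (nat_lit 0) (nat_lit 1801646615) (nat_lit 456) (nat_lit 11295355883) (nat_lit 76) (nat_lit 3773093308) (nat_lit 59) (nat_lit 5) (nat_lit 65) (nat_lit 5) (nat_lit 60) (nat_lit 5) (nat_lit 276) (nat_lit 260) (nat_lit 184)))))) (XT.nd (nat_lit 312)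 (nat_lit 608) (nat_lit 0) (XT.nd (nat_lit 156) (nat_lit 304) (nat_lit 0) (XT.nd (nat_lit 78) (nat_lit 304) (nat_lit 0) (XT.lf (nat_lit 0) (nat_lit 3685035977) (nat_lit 456) (nat_lit 3448991321) (nat_lit 76) (nat_lit 10222741480) (nat_lit 59) (nat_lit 5) (nat_lit 65) (nat_lit 5) (nat_lit 60) (nat_lit 5) (nat_lit 277) (nat_lit 260) (nat_lit 183)) (XT.lf (nat_lit 0) (nat_lit 4930640792) (nat_lit 304) (nat_lit 792803648) (nat_lit 380) (nat_lit 12141330350) (nat_lit 55) (nat_lit 5) (nat_lit 59) (nat_lit 5) (nat_lit 60) (nat_lit 5) (nat_lit 278) (nat_lit 260) (nat_lit 182))) (XT.nd (nat_lit 78) (nat_lit 304) (nat_lit 0) (XT.lf (nat_lit 0) (nat_lit 7999080365) (nat_lit 380) (nat_lit 4656194924) (nat_lit 76) (nat_lit 5736180342) (nat_lit 55) (nat_lit 5) (nat_lit 60) (nat_lit 5) (nat_lit 56) (nat_lit 5) (nat_lit 279) (nat_lit 260) (nat_lit 181)) (XT.lf (nat_lit 0) (nat_lit 4138535794) (nat_lit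 304) (nat_lit 6312680410) (nat_lit 380) (nat_lit 8490156384) (nat_lit 51) (nat_lit 5) (nat_lit 55) (nat_lit 5) (nat_lit 56) (nat_lit 5) (nat_lit 280) (nat_lit 260) (nat_lit 180)))) (XT.nd (nat_lit 156) (nat_lit 380) (nat_lit 0) (XT.nd (nat_lit 78) (nat_lit 228) (nat_lit 0) (XT.lf (nat_lit 0) (nat_lit 13097057595) (nat_lit 380) (nat_lit 6003927366) (nat_lit 76) (nat_lit 414281666) (nat_lit 51) (nat_lit 5) (nat_lit 56) (nat_lit 5) (nat_lit 52) (nat_lit 5) (nat_lit 281) (nat_lit 260) (nat_lit 179)) (XT.lf (nat_lit 0) (nat_lit 3218225910) (nat_lit 228) (nat_lit 12796918957) (nat_lit 304) (nat_lit 4095747260) (nat_lit 48) (nat_lit 5) (nat_lit 51) (nat_lit 5) (nat_lit 52) (nat_lit 5) (nat_lit 282) (nat_lit 260) (nat_lit 178))) (XT.nd (nat_lit 78) (nat_lit 380) (nat_lit 0) (XT.lf (nat_lit 0) (nat_lit 13093972854) (nat_lit 228) (nat_lit 6073471766) (nat_lit 304) (nat_lit 1564471686) (nat_lit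 48) (nat_lit 5) (nat_lit 51) (nat_lit 5) (nat_lit 52) (nat_lit 5) (nat_lit 283) (nat_lit 260) (nat_lit 177)) (XT.nd (nat_lit 78) (nat_lit 0) (nat_lit 0) (XT.lf (nat_lit 0) (nat_lit 1094587914) (nat_lit 380) (nat_lit 19283876323) (nat_lit 76) (nat_lit 1002892945) (nat_lit 43) (nat_lit 5) (nat_lit 48) (nat_lit 5) (nat_lit 44) (nat_lit 5) (nat_lit 284) (nat_lit 260) (nat_lit 176)) (XT.lf (nat_lit 0) (nat_lit 4052421795) (nat_lit 380) (nat_lit 9615304166) (nat_lit 76) (nat_lit 8383370241) (nat_lit 43) (nat_lit 5) (nat_lit 48) (nat_lit 5) (nat_lit 44) (nat_lit 5) (nat_lit 285) (nat_lit 260) (nat_lit 175))))))) (XT.nd (nat_lit 702) (nat_lit 684) (nat_lit 0) (XT.nd (nat_lit 312) (nat_lit 456) (nat_lit 0) (XT.nd (nat_lit 156) (nat_lit 228) (nat_lit 0) (XT.nd (nat_lit 78) (nat_lit 0) (nat_lit 0) (XT.lf (nat_lit 0) (nat_lit 538683062) (nat_lit 228) (nat_lit 6615836468) (nat_lit 304) (nat_lit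 15600011025) (nat_lit 40) (nat_lit 5) (nat_lit 43) (nat_lit 5) (nat_lit 44) (nat_lit 5) (nat_lit 286) (nat_lit 260) (nat_lit 174)) (XT.lf (nat_lit 0) (nat_lit 10577793543) (nat_lit 304) (nat_lit 11981353552) (nat_lit 76) (nat_lit 925711669) (nat_lit 40) (nat_lit 5) (nat_lit 44) (nat_lit 5) (nat_lit 41) (nat_lit 5) (nat_lit 287) (nat_lit 260) (nat_lit 173))) (XT.nd (nat_lit 78) (nat_lit 228) (nat_lit 0) (XT.lf (nat_lit 0) (nat_lit 14269496218) (nat_lit 304) (nat_lit 1358417644) (nat_lit 76) (nat_lit 8618950755) (nat_lit 40) (nat_lit 5) (nat_lit 44) (nat_lit 5) (nat_lit 41) (nat_lit 5) (nat_lit 288) (nat_lit 260) (nat_lit 172)) (XT.lf (nat_lit 0) (nat_lit 10104966724) (nat_lit 228) (nat_lit 8187925702) (nat_lit 304) (nat_lit 6746746236) (nat_lit 37) (nat_lit 5) (nat_lit 40) (nat_lit 5) (nat_lit 41) (nat_lit 5) (nat_lit 289) (nat_lit 260) (nat_lit 171)))) (XT.nd (nat_lit 156) (nat_lit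 228) (nat_lit 0) (XT.nd (nat_lit 78) (nat_lit 228) (nat_lit 0) (XT.lf (nat_lit 0) (nat_lit 22174788876) (nat_lit 228) (nat_lit 355307219) (nat_lit 304) (nat_lit 3341345635) (nat_lit 37) (nat_lit 5) (nat_lit 40) (nat_lit 5) (nat_lit 41) (nat_lit 5) (nat_lit 290) (nat_lit 260) (nat_lit 170)) (XT.lf (nat_lit 0) (nat_lit 472187617) (nat_lit 228) (nat_lit 18510267693) (nat_lit 76) (nat_lit 7749948738) (nat_lit 34) (nat_lit 5) (nat_lit 37) (nat_lit 5) (nat_lit 35) (nat_lit 5) (nat_lit 291) (nat_lit 260) (nat_lit 169))) (XT.nd (nat_lit 78) (nat_lit 228) (nat_lit 0) (XT.lf (nat_lit 0) (nat_lit 4423719931) (nat_lit 228) (nat_lit 6843524216) (nat_lit 76) (nat_lit 16363470032) (nat_lit 34) (nat_lit 5) (nat_lit 37) (nat_lit 5) (nat_lit 35) (nat_lit 5) (nat_lit 292) (nat_lit 260) (nat_lit 168)) (XT.nd (nat_lit 78) (nat_lit 0) (nat_lit 0) (XT.lf (nat_lit 0) (nat_lit 5571727204) (nat_lit 228) (nat_lit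 3078718507) (nat_lit 304) (nat_lit 19919631532) (nat_lit 31) (nat_lit 5) (nat_lit 34) (nat_lit 5) (nat_lit 35) (nat_lit 5) (nat_lit 293) (nat_lit 260) (nat_lit 167)) (XT.lf (nat_lit 0) (nat_lit 13283288033) (nat_lit 304) (nat_lit 10806712615) (nat_lit 76) (nat_lit 5456686200) (nat_lit 31) (nat_lit 5) (nat_lit 35) (nat_lit 5) (nat_lit 32) (nat_lit 5) (nat_lit 294) (nat_lit 260) (nat_lit 166)))))) (XT.nd (nat_lit 390) (nat_lit 304) (nat_lit 0) (XT.nd (nat_lit 156) (nat_lit 228) (nat_lit 0) (XT.nd (nat_lit 78) (nat_lit 0) (nat_lit 0) (XT.lf (nat_lit 0) (nat_lit 1995168693) (nat_lit 152) (nat_lit 16225473492) (nat_lit 228) (nat_lit 12347857834) (nat_lit 29) (nat_lit 5) (nat_lit 31) (nat_lit 5) (nat_lit 32) (nat_lit 5) (nat_lit 295) (nat_lit 260) (nat_lit 165)) (XT.lf (nat_lit 0) (nat_lit 15799808921) (nat_lit 152) (nat_lit 7779542033) (nat_lit 228) (nat_lit 8053344330) (nat_lit 29) (nat_lit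 5) (nat_lit 31) (nat_lit 5) (nat_lit 32) (nat_lit 5) (nat_lit 296) (nat_lit 260) (nat_lit 164))) (XT.nd (nat_lit 78) (nat_lit 228) (nat_lit 0) (XT.lf (nat_lit 0) (nat_lit 29214809468) (nat_lit 228) (nat_lit 2484702112) (nat_lit 76) (nat_lit 1050163047) (nat_lit 29) (nat_lit 5) (nat_lit 32) (nat_lit 5) (nat_lit 30) (nat_lit 5) (nat_lit 297) (nat_lit 260) (nat_lit 163)) (XT.nd (nat_lit 78) (nat_lit 0) (nat_lit 0) (XT.lf (nat_lit 0) (nat_lit 1479262792) (nat_lit 228) (nat_lit 22162885490) (nat_lit 76) (nat_lit 10264002195) (nat_lit 26) (nat_lit 5) (nat_lit 29) (nat_lit 5) (nat_lit 27) (nat_lit 5) (nat_lit 298) (nat_lit 260) (nat_lit 162)) (XT.lf (nat_lit 0) (nat_lit 6660332060) (nat_lit 228) (nat_lit 8419871566) (nat_lit 76) (nat_lit 20035610569) (nat_lit 26) (nat_lit 5) (nat_lit 29) (nat_lit 5) (nat_lit 27) (nat_lit 5) (nat_lit 299) (nat_lit 260) (nat_lit 161))))) (XT.nd (nat_lit 156)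 (nat_lit 152) (nat_lit 0) (XT.nd (nat_lit 78) (nat_lit 0) (nat_lit 0) (XT.lf (nat_lit 0) (nat_lit 6197429820) (nat_lit 152) (nat_lit 5992412891) (nat_lit 228) (nat_lit 24191661356) (nat_lit 24) (nat_lit 5) (nat_lit 26) (nat_lit 5) (nat_lit 27) (nat_lit 5) (nat_lit 300) (nat_lit 260) (nat_lit 160)) (XT.lf (nat_lit 0) (nat_lit 18188930220) (nat_lit 228) (nat_lit 15934543025) (nat_lit 76) (nat_lit 3577361898) (nat_lit 24) (nat_lit 5) (nat_lit 27) (nat_lit 5) (nat_lit 25) (nat_lit 5) (nat_lit 301) (nat_lit 260) (nat_lit 159))) (XT.nd (nat_lit 78) (nat_lit 152) (nat_lit 0) (XT.lf (nat_lit 0) (nat_lit 24579301043) (nat_lit 228) (nat_lit 1081581129) (nat_lit 76) (nat_lit 13420695371) (nat_lit 24) (nat_lit 5) (nat_lit 27) (nat_lit 5) (nat_lit 25) (nat_lit 5) (nat_lit 302) (nat_lit 260) (nat_lit 158)) (XT.nd (nat_lit 78) (nat_lit 0) (nat_lit 0) (XT.lf (nat_lit 0) (nat_lit 14983292940) (nat_lit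 152) (nat_lit 16533250240) (nat_lit 228) (nat_lit 9003456923) (nat_lit 22) (nat_lit 5) (nat_lit 24) (nat_lit 5) (nat_lit 25) (nat_lit 5) (nat_lit 303) (nat_lit 260) (nat_lit 157)) (XT.lf (nat_lit 0) (nat_lit 31878831947) (nat_lit 152) (nat_lit 6933709279) (nat_lit 228) (nat_lit 3217218051) (nat_lit 22) (nat_lit 5) (nat_lit 24) (nat_lit 5) (nat_lit 25) (nat_lit 5) (nat_lit 304) (nat_lit 260) (nat_lit 156))))))))
noncomputable def xc172 : XT := (XT.nd (nat_lit 1404) (nat_lit 380) (nat_lit 0) (XT.nd (nat_lit 702) (nat_lit 380) (nat_lit 0) (XT.nd (nat_lit 312) (nat_lit 152) (nat_lit 0) (XT.nd (nat_lit 156) (nat_lit 152) (nat_lit 0) (XT.nd (nat_lit 78) (nat_lit 0) (nat_lit 0) (XT.lf (nat_lit 0) (nat_lit 2907946200) (nat_lit 152) (nat_lit 37513284737) (nat_lit 76) (nat_lit 3184498473) (nat_lit 20) (nat_lit 5) (nat_lit 22) (nat_lit 5) (nat_lit 21) (nat_lit 5) (nat_lit 305) (nat_lit 260) (nat_lit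 155)) (XT.lf (nat_lit 0) (nat_lit 9513506910) (nat_lit 152) (nat_lit 21930685733) (nat_lit 76) (nat_lit 13799564237) (nat_lit 20) (nat_lit 5) (nat_lit 22) (nat_lit 5) (nat_lit 21) (nat_lit 5) (nat_lit 306) (nat_lit 260) (nat_lit 154))) (XT.nd (nat_lit 78) (nat_lit 152) (nat_lit 0) (XT.lf (nat_lit 0) (nat_lit 16443499393) (nat_lit 152) (nat_lit 5578441470) (nat_lit 76) (nat_lit 24942045544) (nat_lit 20) (nat_lit 5) (nat_lit 22) (nat_lit 5) (nat_lit 21) (nat_lit 5) (nat_lit 307) (nat_lit 260) (nat_lit 153)) (XT.lf (nat_lit 0) (nat_lit 11965347823) (nat_lit 152) (nat_lit 11935888421) (nat_lit 228) (nat_lit 24859936899) (nat_lit 18) (nat_lit 5) (nat_lit 20) (nat_lit 5) (nat_lit 21) (nat_lit 5) (nat_lit 308) (nat_lit 260) (nat_lit 152)))) (XT.nd (nat_lit 156) (nat_lit 152) (nat_lit 0) (XT.nd (nat_lit 78) (nat_lit 0) (nat_lit 0) (XT.lf (nat_lit 0) (nat_lit 30571110127) (nat_lit 152) (nat_lit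 1249781927) (nat_lit 228) (nat_lit 18822883146) (nat_lit 18) (nat_lit 5) (nat_lit 20) (nat_lit 5) (nat_lit 21) (nat_lit 5) (nat_lit 309) (nat_lit 260) (nat_lit 151)) (XT.lf (nat_lit 0) (nat_lit 40286966525) (nat_lit 228) (nat_lit 2677695538) (nat_lit 76) (nat_lit 9648330735) (nat_lit 18) (nat_lit 5) (nat_lit 21) (nat_lit 5) (nat_lit 19) (nat_lit 4) (nat_lit 310) (nat_lit 260) (nat_lit 150))) (XT.nd (nat_lit 78) (nat_lit 76) (nat_lit 0) (XT.lf (nat_lit 0) (nat_lit 16072694907) (nat_lit 76) (nat_lit 33370093462) (nat_lit 152) (nat_lit 5224567609) (nat_lit 17) (nat_lit 5) (nat_lit 18) (nat_lit 5) (nat_lit 19) (nat_lit 4) (nat_lit 311) (nat_lit 260) (nat_lit 149)) (XT.nd (nat_lit 78) (nat_lit 0) (nat_lit 0) (XT.lf (nat_lit 0) (nat_lit 2201658423) (nat_lit 152) (nat_lit 21012495004) (nat_lit 76) (nat_lit 33606491215) (nat_lit 16) (nat_lit 5) (nat_lit 18) (nat_lit 5) (nat_lit 17) (nat_lit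 5) (nat_lit 312) (nat_lit 260) (nat_lit 148)) (XT.lf (nat_lit 0) (nat_lit 9818891970) (nat_lit 152) (nat_lit 2644776789) (nat_lit 76) (nat_lit 46613888697) (nat_lit 16) (nat_lit 5) (nat_lit 18) (nat_lit 5) (nat_lit 17) (nat_lit 5) (nat_lit 313) (nat_lit 260) (nat_lit 147)))))) (XT.nd (nat_lit 312) (nat_lit 152) (nat_lit 0) (XT.nd (nat_lit 156) (nat_lit 76) (nat_lit 0) (XT.nd (nat_lit 78) (nat_lit 0) (nat_lit 0) (XT.lf (nat_lit 0) (nat_lit 17183784805) (nat_lit 152) (nat_lit 896990327) (nat_lit 228) (nat_lit 43353357047) (nat_lit 14) (nat_lit 5) (nat_lit 16) (nat_lit 5) (nat_lit 17) (nat_lit 5) (nat_lit 314) (nat_lit 260) (nat_lit 146)) (XT.lf (nat_lit 0) (nat_lit 26972442926) (nat_lit 228) (nat_lit 25994636307) (nat_lit 76) (nat_lit 10930627276) (nat_lit 14) (nat_lit 5) (nat_lit 17) (nat_lit 5) (nat_lit 15) (nat_lit 4) (nat_lit 315) (nat_lit 260) (nat_lit 145))) (XT.nd (nat_lit 78)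 (nat_lit 76) (nat_lit 0) (XT.lf (nat_lit 0) (nat_lit 36319163137) (nat_lit 228) (nat_lit 6848071052) (nat_lit 76) (nat_lit 23316707054) (nat_lit 14) (nat_lit 5) (nat_lit 17) (nat_lit 5) (nat_lit 15) (nat_lit 4) (nat_lit 316) (nat_lit 260) (nat_lit 144)) (XT.lf (nat_lit 0) (nat_lit 13687009773) (nat_lit 76) (nat_lit 32655868134) (nat_lit 152) (nat_lit 22846131773) (nat_lit 13) (nat_lit 5) (nat_lit 14) (nat_lit 5) (nat_lit 15) (nat_lit 4) (nat_lit 317) (nat_lit 260) (nat_lit 143)))) (XT.nd (nat_lit 156) (nat_lit 152) (nat_lit 0) (XT.nd (nat_lit 78) (nat_lit 0) (nat_lit 0) (XT.lf (nat_lit 0) (nat_lit 35479822729) (nat_lit 76) (nat_lit 21499983428) (nat_lit 152) (nat_lit 15043928654) (nat_lit 13) (nat_lit 5) (nat_lit 14) (nat_lit 5) (nat_lit 15) (nat_lit 4) (nat_lit 318) (nat_lit 260) (nat_lit 142)) (XT.lf (nat_lit 0) (nat_lit 58355827310) (nat_lit 76) (nat_lit 9788993837) (nat_lit 152)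 (nat_lit 6855567474) (nat_lit 13) (nat_lit 5) (nat_lit 14) (nat_lit 5) (nat_lit 15) (nat_lit 4) (nat_lit 319) (nat_lit 260) (nat_lit 141))) (XT.nd (nat_lit 78) (nat_lit 0) (nat_lit 0) (XT.lf (nat_lit 0) (nat_lit 1791480951) (nat_lit 152) (nat_lit 73806271299) (nat_lit 76) (nat_lit 2521515315) (nat_lit 11) (nat_lit 5) (nat_lit 13) (nat_lit 5) (nat_lit 12) (nat_lit 4) (nat_lit 320) (nat_lit 260) (nat_lit 140)) (XT.nd (nat_lit 78) (nat_lit 0) (nat_lit 0) (XT.lf (nat_lit 0) (nat_lit 11083863057) (nat_lit 152) (nat_lit 54767492580) (nat_lit 76) (nat_lit 15514950672) (nat_lit 11) (nat_lit 5) (nat_lit 13) (nat_lit 5) (nat_lit 12) (nat_lit 4) (nat_lit 321) (nat_lit 260) (nat_lit 139)) (XT.lf (nat_lit 0) (nat_lit 20837429247) (nat_lit 152) (nat_lit 34782781509) (nat_lit 76) (nat_lit 29155661636) (nat_lit 11) (nat_lit 5) (nat_lit 13) (nat_lit 5) (nat_lit 12) (nat_lit 4) (nat_lit 322) (nat_lit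 260) (nat_lit 138))))))) (XT.nd (nat_lit 702) (nat_lit 152) (nat_lit 0) (XT.nd (nat_lit 312) (nat_lit 152) (nat_lit 0) (XT.nd (nat_lit 156) (nat_lit 0) (nat_lit 0) (XT.nd (nat_lit 78) (nat_lit 76) (nat_lit 0) (XT.lf (nat_lit 0) (nat_lit 31075402296) (nat_lit 152) (nat_lit 13804555441) (nat_lit 76) (nat_lit 43476126093) (nat_lit 11) (nat_lit 5) (nat_lit 13) (nat_lit 5) (nat_lit 12) (nat_lit 4) (nat_lit 323) (nat_lit 260) (nat_lit 137)) (XT.lf (nat_lit 0) (nat_lit 8488829333) (nat_lit 76) (nat_lit 33465863415) (nat_lit 152) (nat_lit 50154145467) (nat_lit 10) (nat_lit 5) (nat_lit 11) (nat_lit 5) (nat_lit 12) (nat_lit 4) (nat_lit 324) (nat_lit 260) (nat_lit 136))) (XT.nd (nat_lit 78) (nat_lit 0) (nat_lit 0) (XT.lf (nat_lit 0) (nat_lit 32370786065) (nat_lit 76) (nat_lit 21237897493) (nat_lit 152) (nat_lit 42429013122) (nat_lit 10) (nat_lit 5) (nat_lit 11) (nat_lit 5) (nat_lit 12) (nat_lit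 4) (nat_lit 325) (nat_lit 260) (nat_lit 135)) (XT.lf (nat_lit 0) (nat_lit 57441735610) (nat_lit 76) (nat_lit 8400732595) (nat_lit 152) (nat_lit 34320678154) (nat_lit 10) (nat_lit 5) (nat_lit 11) (nat_lit 5) (nat_lit 12) (nat_lit 4) (nat_lit 326) (nat_lit 260) (nat_lit 134)))) (XT.nd (nat_lit 156) (nat_lit 76) (nat_lit 0) (XT.nd (nat_lit 78) (nat_lit 76) (nat_lit 0) (XT.lf (nat_lit 0) (nat_lit 78764428391) (nat_lit 152) (nat_lit 20812892691) (nat_lit 0) (nat_lit 4913725985) (nat_lit 10) (nat_lit 5) (nat_lit 12) (nat_lit 4) (nat_lit 10) (nat_lit 4) (nat_lit 327) (nat_lit 260) (nat_lit 133)) (XT.lf (nat_lit 0) (nat_lit 2116336563) (nat_lit 76) (nat_lit 90384242190) (nat_lit 76) (nat_lit 16526362174) (nat_lit 9) (nat_lit 4) (nat_lit 10) (nat_lit 5) (nat_lit 10) (nat_lit 4) (nat_lit 328) (nat_lit 260) (nat_lit 132))) (XT.nd (nat_lit 78) (nat_lit 76) (nat_lit 0) (XT.lf (nat_lit 0) (nat_lit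 26909946505) (nat_lit 76) (nat_lit 80363454104) (nat_lit 76) (nat_lit 6498738268) (nat_lit 9) (nat_lit 4) (nat_lit 10) (nat_lit 5) (nat_lit 10) (nat_lit 4) (nat_lit 329) (nat_lit 260) (nat_lit 131)) (XT.nd (nat_lit 78) (nat_lit 0) (nat_lit 0) (XT.lf (nat_lit 0) (nat_lit 3898741911) (nat_lit 152) (nat_lit 65878805220) (nat_lit 76) (nat_lit 48974032320) (nat_lit 8) (nat_lit 5) (nat_lit 10) (nat_lit 5) (nat_lit 9) (nat_lit 4) (nat_lit 330) (nat_lit 260) (nat_lit 130)) (XT.lf (nat_lit 0) (nat_lit 14595285201) (nat_lit 152) (nat_lit 43957091765) (nat_lit 76) (nat_lit 65422411028) (nat_lit 8) (nat_lit 5) (nat_lit 10) (nat_lit 5) (nat_lit 9) (nat_lit 4) (nat_lit 331) (nat_lit 260) (nat_lit 129)))))) (XT.nd (nat_lit 312) (nat_lit 76) (nat_lit 0) (XT.nd (nat_lit 156) (nat_lit 0) (nat_lit 0) (XT.nd (nat_lit 78) (nat_lit 76) (nat_lit 0) (XT.lf (nat_lit 0) (nat_lit 25824359771) (nat_lit 152) (nat_lit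 20943393933) (nat_lit 76) (nat_lit 82691520189) (nat_lit 8) (nat_lit 5) (nat_lit 10) (nat_lit 5) (nat_lit 9) (nat_lit 4) (nat_lit 332) (nat_lit 260) (nat_lit 128)) (XT.lf (nat_lit 0) (nat_lit 3323454079) (nat_lit 76) (nat_lit 34341135867) (nat_lit 152) (nat_lit 97550911082) (nat_lit 7) (nat_lit 5) (nat_lit 8) (nat_lit 5) (nat_lit 9) (nat_lit 4) (nat_lit 333) (nat_lit 260) (nat_lit 127))) (XT.nd (nat_lit 78) (nat_lit 0) (nat_lit 0) (XT.lf (nat_lit 0) (nat_lit 29526908841) (nat_lit 76) (nat_lit 20922466863) (nat_lit 152) (nat_lit 90792538547) (nat_lit 7) (nat_lit 5) (nat_lit 8) (nat_lit 5) (nat_lit 9) (nat_lit 4) (nat_lit 334) (nat_lit 260) (nat_lit 126)) (XT.lf (nat_lit 0) (nat_lit 57036876344) (nat_lit 76) (nat_lit 6834483992) (nat_lit 152) (nat_lit 83698391664) (nat_lit 7) (nat_lit 5) (nat_lit 8) (nat_lit 5) (nat_lit 9) (nat_lit 4) (nat_lit 335) (nat_lit 260) (nat_lit 125)))) (XT.nd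 (nat_lit 156) (nat_lit 76) (nat_lit 0) (XT.nd (nat_lit 78) (nat_lit 0) (nat_lit 0) (XT.lf (nat_lit 0) (nat_lit 78086721958) (nat_lit 152) (nat_lit 68419445053) (nat_lit 0) (nat_lit 7701702495) (nat_lit 7) (nat_lit 5) (nat_lit 9) (nat_lit 4) (nat_lit 7) (nat_lit 4) (nat_lit 336) (nat_lit 260) (nat_lit 124)) (XT.lf (nat_lit 0) (nat_lit 93123018730) (nat_lit 152) (nat_lit 45315774639) (nat_lit 0) (nat_lit 22733592837) (nat_lit 7) (nat_lit 5) (nat_lit 9) (nat_lit 4) (nat_lit 7) (nat_lit 4) (nat_lit 337) (nat_lit 260) (nat_lit 123))) (XT.nd (nat_lit 78) (nat_lit 76) (nat_lit 0) (XT.lf (nat_lit 0) (nat_lit 108909345911) (nat_lit 152) (nat_lit 21060150227) (nat_lit 0) (nat_lit 38515723418) (nat_lit 7) (nat_lit 5) (nat_lit 9) (nat_lit 4) (nat_lit 7) (nat_lit 4) (nat_lit 338) (nat_lit 260) (nat_lit 122)) (XT.nd (nat_lit 78) (nat_lit 0) (nat_lit 0) (XT.lf (nat_lit 0) (nat_lit 4550834803) (nat_lit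 76) (nat_lit 121003506475) (nat_lit 76) (nat_lit 50605887221) (nat_lit 6) (nat_lit 4) (nat_lit 7) (nat_lit 5) (nat_lit 7) (nat_lit 4) (nat_lit 339) (nat_lit 260) (nat_lit 121)) (XT.lf (nat_lit 0) (nat_lit 32170503821) (nat_lit 76) (nat_lit 111216080653) (nat_lit 76) (nat_lit 40814654959) (nat_lit 6) (nat_lit 4) (nat_lit 7) (nat_lit 5) (nat_lit 7) (nat_lit 4) (nat_lit 340) (nat_lit 260) (nat_lit 120))))))))
noncomputable def xc173 : XT := (XT.nd (nat_lit 31278) (nat_lit 0) (nat_lit 4256) (XT.nd (nat_lit 702) (nat_lit 76) (nat_lit 0) (XT.nd (nat_lit 312) (nat_lit 76) (nat_lit 0) (XT.nd (nat_lit 156) (nat_lit 76) (nat_lit 0) (XT.nd (nat_lit 78) (nat_lit 0) (nat_lit 0) (XT.lf (nat_lit 0) (nat_lit 61168274263) (nat_lit 76) (nat_lit 100940579111) (nat_lit 76) (nat_lit 30535528236) (nat_lit 6) (nat_lit 4) (nat_lit 7) (nat_lit 5) (nat_lit 7) (nat_lit 4) (nat_lit 341) (nat_lit 260) (nat_lit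 119)) (XT.lf (nat_lit 0) (nat_lit 91613188441) (nat_lit 76) (nat_lit 90152536370) (nat_lit 76) (nat_lit 19744032942) (nat_lit 6) (nat_lit 4) (nat_lit 7) (nat_lit 5) (nat_lit 7) (nat_lit 4) (nat_lit 342) (nat_lit 260) (nat_lit 118))) (XT.nd (nat_lit 78) (nat_lit 76) (nat_lit 0) (XT.lf (nat_lit 0) (nat_lit 123577734246) (nat_lit 76) (nat_lit 78826266613) (nat_lit 76) (nat_lit 8414475040) (nat_lit 6) (nat_lit 4) (nat_lit 7) (nat_lit 5) (nat_lit 7) (nat_lit 4) (nat_lit 343) (nat_lit 260) (nat_lit 117)) (XT.lf (nat_lit 0) (nat_lit 3368735014) (nat_lit 152) (nat_lit 63509016361) (nat_lit 76) (nat_lit 153712231568) (nat_lit 5) (nat_lit 5) (nat_lit 7) (nat_lit 5) (nat_lit 6) (nat_lit 4) (nat_lit 344) (nat_lit 260) (nat_lit 116)))) (XT.nd (nat_lit 156) (nat_lit 76) (nat_lit 0) (XT.nd (nat_lit 78) (nat_lit 0) (nat_lit 0) (XT.lf (nat_lit 0) (nat_lit 15456996361) (nat_lit 152) (nat_lit 38731063044)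 (nat_lit 76) (nat_lit 176655176283) (nat_lit 5) (nat_lit 5) (nat_lit 7) (nat_lit 5) (nat_lit 6) (nat_lit 4) (nat_lit 345) (nat_lit 260) (nat_lit 115)) (XT.lf (nat_lit 0) (nat_lit 28148406327) (nat_lit 152) (nat_lit 12716513039) (nat_lit 76) (nat_lit 200744295956) (nat_lit 5) (nat_lit 5) (nat_lit 7) (nat_lit 5) (nat_lit 6) (nat_lit 4) (nat_lit 346) (nat_lit 260) (nat_lit 114))) (XT.nd (nat_lit 78) (nat_lit 0) (nat_lit 0) (XT.lf (nat_lit 0) (nat_lit 15079201683) (nat_lit 76) (nat_lit 26629409467) (nat_lit 152) (nat_lit 211193172546) (nat_lit 4) (nat_lit 5) (nat_lit 5) (nat_lit 5) (nat_lit 6) (nat_lit 4) (nat_lit 347) (nat_lit 260) (nat_lit 113)) (XT.nd (nat_lit 78) (nat_lit 0) (nat_lit 0) (XT.lf (nat_lit 0) (nat_lit 44704034699) (nat_lit 76) (nat_lit 11456971263) (nat_lit 152) (nat_lit 208587266472) (nat_lit 4) (nat_lit 5) (nat_lit 5) (nat_lit 5) (nat_lit 6) (nat_lit 4) (nat_lit 348)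 (nat_lit 260) (nat_lit 112)) (XT.lf (nat_lit 0) (nat_lit 71404734736) (nat_lit 152) (nat_lit 201448925301) (nat_lit 0) (nat_lit 4329990747) (nat_lit 4) (nat_lit 5) (nat_lit 6) (nat_lit 4) (nat_lit 4) (nat_lit 4) (nat_lit 349) (nat_lit 260) (nat_lit 111)))))) (XT.nd (nat_lit 312) (nat_lit 76) (nat_lit 0) (XT.nd (nat_lit 156) (nat_lit 0) (nat_lit 0) (XT.nd (nat_lit 78) (nat_lit 0) (nat_lit 0) (XT.lf (nat_lit 0) (nat_lit 87597384538) (nat_lit 152) (nat_lit 182113662628) (nat_lit 0) (nat_lit 20520415002) (nat_lit 4) (nat_lit 5) (nat_lit 6) (nat_lit 4) (nat_lit 4) (nat_lit 4) (nat_lit 350) (nat_lit 260) (nat_lit 110)) (XT.lf (nat_lit 0) (nat_lit 104598633865) (nat_lit 152) (nat_lit 161813537948) (nat_lit 0) (nat_lit 37519544761) (nat_lit 4) (nat_lit 5) (nat_lit 6) (nat_lit 4) (nat_lit 4) (nat_lit 4) (nat_lit 351) (nat_lit 260) (nat_lit 109))) (XT.nd (nat_lit 78) (nat_lit 0) (nat_lit 0) (XT.lf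 (nat_lit 0) (nat_lit 122448961883) (nat_lit 152) (nat_lit 140500217629) (nat_lit 0) (nat_lit 55367854142) (nat_lit 4) (nat_lit 5) (nat_lit 6) (nat_lit 4) (nat_lit 4) (nat_lit 4) (nat_lit 352) (nat_lit 260) (nat_lit 108)) (XT.lf (nat_lit 0) (nat_lit 141190869372) (nat_lit 152) (nat_lit 118122955672) (nat_lit 0) (nat_lit 74107839121) (nat_lit 4) (nat_lit 5) (nat_lit 6) (nat_lit 4) (nat_lit 4) (nat_lit 4) (nat_lit 353) (nat_lit 260) (nat_lit 107)))) (XT.nd (nat_lit 156) (nat_lit 76) (nat_lit 0) (XT.nd (nat_lit 78) (nat_lit 0) (nat_lit 0) (XT.lf (nat_lit 0) (nat_lit 160868979922) (nat_lit 152) (nat_lit 94628472881) (nat_lit 0) (nat_lit 93784118709) (nat_lit 4) (nat_lit 5) (nat_lit 6) (nat_lit 4) (nat_lit 4) (nat_lit 4) (nat_lit 354) (nat_lit 260) (nat_lit 106)) (XT.lf (nat_lit 0) (nat_lit 181530146178) (nat_lit 152) (nat_lit 69960830012) (nat_lit 0) (nat_lit 114443541191) (nat_lit 4) (nat_lit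 5) (nat_lit 6) (nat_lit 4) (nat_lit 4) (nat_lit 4) (nat_lit 355) (nat_lit 260) (nat_lit 105))) (XT.nd (nat_lit 78) (nat_lit 76) (nat_lit 0) (XT.lf (nat_lit 0) (nat_lit 203223561392) (nat_lit 152) (nat_lit 44061294582) (nat_lit 0) (nat_lit 136135295667) (nat_lit 4) (nat_lit 5) (nat_lit 6) (nat_lit 4) (nat_lit 4) (nat_lit 4) (nat_lit 356) (nat_lit 260) (nat_lit 104)) (XT.nd (nat_lit 78) (nat_lit 76) (nat_lit 0) (XT.lf (nat_lit 0) (nat_lit 226000876552) (nat_lit 152) (nat_lit 16868201029) (nat_lit 0) (nat_lit 158911029173) (nat_lit 4) (nat_lit 5) (nat_lit 6) (nat_lit 4) (nat_lit 4) (nat_lit 4) (nat_lit 357) (nat_lit 260) (nat_lit 103)) (XT.lf (nat_lit 0) (nat_lit 12069495332) (nat_lit 76) (nat_lit 238035266677) (nat_lit 76) (nat_lit 170943912960) (nat_lit 3) (nat_lit 4) (nat_lit 4) (nat_lit 5) (nat_lit 4) (nat_lit 4) (nat_lit 358) (nat_lit 260) (nat_lit 102))))))) (XT.nd (nat_lit 702)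 (nat_lit 1216) (nat_lit 0) (XT.nd (nat_lit 312) (nat_lit 0) (nat_lit 76) (XT.nd (nat_lit 156) (nat_lit 0) (nat_lit 0) (XT.nd (nat_lit 78) (nat_lit 0) (nat_lit 0) (XT.lf (nat_lit 0) (nat_lit 8546261) (nat_lit 0) (nat_lit 8546261) (nat_lit 684) (nat_lit 5863047293) (nat_lit 75) (nat_lit 5) (nat_lit 75) (nat_lit 3) (nat_lit 84) (nat_lit 3) (nat_lit 261) (nat_lit 261) (nat_lit 198)) (XT.lf (nat_lit 0) (nat_lit 572990783) (nat_lit 684) (nat_lit 6704126013) (nat_lit 760) (nat_lit 4748912344) (nat_lit 75) (nat_lit 5) (nat_lit 84) (nat_lit 3) (nat_lit 85) (nat_lit 5) (nat_lit 262) (nat_lit 261) (nat_lit 197))) (XT.nd (nat_lit 78) (nat_lit 0) (nat_lit 76) (XT.lf (nat_lit 0) (nat_lit 1109715024) (nat_lit 684) (nat_lit 1429952555) (nat_lit 760) (nat_lit 9766936687) (nat_lit 75) (nat_lit 5) (nat_lit 84) (nat_lit 3) (nat_lit 85) (nat_lit 5) (nat_lit 263) (nat_lit 261) (nat_lit 196)) (XT.lf (nat_lit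 0) (nat_lit 1750654605) (nat_lit 684) (nat_lit 8411206603) (nat_lit 760) (nat_lit 2435560889) (nat_lit 76) (nat_lit 5) (nat_lit 85) (nat_lit 5) (nat_lit 86) (nat_lit 5) (nat_lit 264) (nat_lit 261) (nat_lit 195)))) (XT.nd (nat_lit 156) (nat_lit 0) (nat_lit 76) (XT.nd (nat_lit 78) (nat_lit 0) (nat_lit 0) (XT.lf (nat_lit 0) (nat_lit 2463245424) (nat_lit 684) (nat_lit 2827878129) (nat_lit 760) (nat_lit 7609756014) (nat_lit 76) (nat_lit 5) (nat_lit 85) (nat_lit 5) (nat_lit 86) (nat_lit 5) (nat_lit 265) (nat_lit 261) (nat_lit 194)) (XT.lf (nat_lit 76) (nat_lit 3118117002) (nat_lit 0) (nat_lit 116656494) (nat_lit 760) (nat_lit 9983646229) (nat_lit 77) (nat_lit 5) (nat_lit 76) (nat_lit 5) (nat_lit 86) (nat_lit 5) (nat_lit 266) (nat_lit 261) (nat_lit 193))) (XT.nd (nat_lit 78) (nat_lit 0) (nat_lit 0) (XT.lf (nat_lit 0) (nat_lit 4152274529) (nat_lit 684) (nat_lit 4191103388) (nat_lit 760) (nat_lit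 5203160763) (nat_lit 77) (nat_lit 5) (nat_lit 86) (nat_lit 5) (nat_lit 87) (nat_lit 5) (nat_lit 267) (nat_lit 261) (nat_lit 192)) (XT.nd (nat_lit 78) (nat_lit 0) (nat_lit 76) (XT.lf (nat_lit 76) (nat_lit 2060979729) (nat_lit 0) (nat_lit 3065631403) (nat_lit 760) (nat_lit 8763972632) (nat_lit 78) (nat_lit 5) (nat_lit 77) (nat_lit 5) (nat_lit 87) (nat_lit 5) (nat_lit 268) (nat_lit 261) (nat_lit 191)) (XT.lf (nat_lit 0) (nat_lit 6238272769) (nat_lit 684) (nat_lit 5534561889) (nat_lit 760) (nat_lit 2474630995) (nat_lit 78) (nat_lit 5) (nat_lit 87) (nat_lit 5) (nat_lit 88) (nat_lit 5) (nat_lit 269) (nat_lit 261) (nat_lit 190)))))) (XT.nd (nat_lit 312) (nat_lit 836) (nat_lit 0) (XT.nd (nat_lit 156) (nat_lit 608) (nat_lit 0) (XT.nd (nat_lit 78) (nat_lit 0) (nat_lit 0) (XT.lf (nat_lit 76) (nat_lit 1041519393) (nat_lit 0) (nat_lit 6409381021) (nat_lit 760) (nat_lit 7169083942) (nat_lit 79) (nat_lit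 5) (nat_lit 78) (nat_lit 5) (nat_lit 88) (nat_lit 5) (nat_lit 270) (nat_lit 261) (nat_lit 189)) (XT.lf (nat_lit 76) (nat_lit 8122031224) (nat_lit 0) (nat_lit 675472799) (nat_lit 760) (nat_lit 6210016663) (nat_lit 79) (nat_lit 5) (nat_lit 78) (nat_lit 5) (nat_lit 88) (nat_lit 5) (nat_lit 271) (nat_lit 261) (nat_lit 188))) (XT.nd (nat_lit 78) (nat_lit 0) (nat_lit 0) (XT.lf (nat_lit 0) (nat_lit 43247911) (nat_lit 684) (nat_lit 10232959917) (nat_lit 760) (nat_lit 5135043618) (nat_lit 70) (nat_lit 5) (nat_lit 79) (nat_lit 5) (nat_lit 80) (nat_lit 5) (nat_lit 272) (nat_lit 261) (nat_lit 187)) (XT.lf (nat_lit 0) (nat_lit 7529483976) (nat_lit 684) (nat_lit 4408172432) (nat_lit 760) (nat_lit 3892125299) (nat_lit 70) (nat_lit 5) (nat_lit 79) (nat_lit 5) (nat_lit 80) (nat_lit 5) (nat_lit 273) (nat_lit 261) (nat_lit 186)))) (XT.nd (nat_lit 156) (nat_lit 456) (nat_lit 0) (XT.nd (nat_lit 78) (nat_lit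 380) (nat_lit 0) (XT.lf (nat_lit 0) (nat_lit 13691069702) (nat_lit 760) (nat_lit 922603447) (nat_lit 76) (nat_lit 1655171615) (nat_lit 70) (nat_lit 5) (nat_lit 80) (nat_lit 5) (nat_lit 71) (nat_lit 5) (nat_lit 274) (nat_lit 261) (nat_lit 185)) (XT.lf (nat_lit 0) (nat_lit 6958489927) (nat_lit 380) (nat_lit 8737644566) (nat_lit 456) (nat_lit 1025575914) (nat_lit 65) (nat_lit 5) (nat_lit 70) (nat_lit 5) (nat_lit 71) (nat_lit 5) (nat_lit 275) (nat_lit 261) (nat_lit 184))) (XT.nd (nat_lit 78) (nat_lit 380) (nat_lit 0) (XT.lf (nat_lit 0) (nat_lit 584097259) (nat_lit 456) (nat_lit 1956733346) (nat_lit 76) (nat_lit 14656000841) (nat_lit 64) (nat_lit 5) (nat_lit 70) (nat_lit 5) (nat_lit 65) (nat_lit 5) (nat_lit 276) (nat_lit 261) (nat_lit 183)) (XT.nd (nat_lit 78) (nat_lit 0) (nat_lit 0) (XT.lf (nat_lit 0) (nat_lit 2387870521) (nat_lit 456) (nat_lit 11341515168) (nat_lit 76) (nat_lit 3958119960)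 (nat_lit 59) (nat_lit 5) (nat_lit 65) (nat_lit 5) (nat_lit 60) (nat_lit 5) (nat_lit 277) (nat_lit 261) (nat_lit 182)) (XT.lf (nat_lit 0) (nat_lit 4341803561) (nat_lit 456) (nat_lit 3127528021) (nat_lit 76) (nat_lit 10730423303) (nat_lit 59) (nat_lit 5) (nat_lit 65) (nat_lit 5) (nat_lit 60) (nat_lit 5) (nat_lit 278) (nat_lit 261) (nat_lit 181))))))))
noncomputable def xc174 : XT := (XT.nd (nat_lit 1404) (nat_lit 988) (nat_lit 0) (XT.nd (nat_lit 702) (nat_lit 836) (nat_lit 0) (XT.nd (nat_lit 312) (nat_lit 836) (nat_lit 0) (XT.nd (nat_lit 156) (nat_lit 304) (nat_lit 0) (XT.nd (nat_lit 78) (nat_lit 0) (nat_lit 0) (XT.lf (nat_lit 0) (nat_lit 5663119362) (nat_lit 304) (nat_lit 804099321) (nat_lit 380) (nat_lit 12266746610) (nat_lit 55) (nat_lit 5) (nat_lit 59) (nat_lit 5) (nat_lit 60) (nat_lit 5) (nat_lit 279) (nat_lit 261) (nat_lit 180)) (XT.lf (nat_lit 0) (nat_lit 8835267296) (nat_lit 380)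 (nat_lit 4403716833) (nat_lit 76) (nat_lit 6049120128) (nat_lit 55) (nat_lit 5) (nat_lit 60) (nat_lit 5) (nat_lit 56) (nat_lit 5) (nat_lit 280) (nat_lit 261) (nat_lit 179))) (XT.nd (nat_lit 78) (nat_lit 0) (nat_lit 0) (XT.lf (nat_lit 0) (nat_lit 4822923198) (nat_lit 304) (nat_lit 6573768231) (nat_lit 380) (nat_lit 8469544534) (nat_lit 51) (nat_lit 5) (nat_lit 55) (nat_lit 5) (nat_lit 56) (nat_lit 5) (nat_lit 281) (nat_lit 261) (nat_lit 178)) (XT.lf (nat_lit 0) (nat_lit 14155497174) (nat_lit 380) (nat_lit 5829062544) (nat_lit 76) (nat_lit 485281826) (nat_lit 51) (nat_lit 5) (nat_lit 56) (nat_lit 5) (nat_lit 52) (nat_lit 5) (nat_lit 282) (nat_lit 261) (nat_lit 177)))) (XT.nd (nat_lit 156) (nat_lit 608) (nat_lit 0) (XT.nd (nat_lit 78) (nat_lit 0) (nat_lit 0) (XT.lf (nat_lit 0) (nat_lit 3846536119) (nat_lit 228) (nat_lit 13361031684) (nat_lit 304) (nat_lit 3888324618) (nat_lit 48) (nat_lit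 5) (nat_lit 51) (nat_lit 5) (nat_lit 52) (nat_lit 5) (nat_lit 283) (nat_lit 261) (nat_lit 176)) (XT.lf (nat_lit 0) (nat_lit 14193813318) (nat_lit 228) (nat_lit 6305018477) (nat_lit 304) (nat_lit 1250114313) (nat_lit 48) (nat_lit 5) (nat_lit 51) (nat_lit 5) (nat_lit 52) (nat_lit 5) (nat_lit 284) (nat_lit 261) (nat_lit 175))) (XT.nd (nat_lit 78) (nat_lit 228) (nat_lit 0) (XT.lf (nat_lit 0) (nat_lit 1519565099) (nat_lit 380) (nat_lit 19778893297) (nat_lit 76) (nat_lit 1132624085) (nat_lit 43) (nat_lit 5) (nat_lit 48) (nat_lit 5) (nat_lit 44) (nat_lit 5) (nat_lit 285) (nat_lit 261) (nat_lit 174)) (XT.nd (nat_lit 78) (nat_lit 228) (nat_lit 0) (XT.lf (nat_lit 0) (nat_lit 4607659826) (nat_lit 380) (nat_lit 9649234286) (nat_lit 76) (nat_lit 8878335412) (nat_lit 43) (nat_lit 5) (nat_lit 48) (nat_lit 5) (nat_lit 44) (nat_lit 5) (nat_lit 286) (nat_lit 261) (nat_lit 173)) (XT.lf (nat_lit 0) (nat_lit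 1005245286) (nat_lit 228) (nat_lit 6849689705) (nat_lit 304) (nat_lit 16019434626) (nat_lit 40) (nat_lit 5) (nat_lit 43) (nat_lit 5) (nat_lit 44) (nat_lit 5) (nat_lit 287) (nat_lit 261) (nat_lit 172)))))) (XT.nd (nat_lit 312) (nat_lit 608) (nat_lit 0) (XT.nd (nat_lit 156) (nat_lit 228) (nat_lit 0) (XT.nd (nat_lit 78) (nat_lit 0) (nat_lit 0) (XT.lf (nat_lit 0) (nat_lit 11434495570) (nat_lit 304) (nat_lit 12146133560) (nat_lit 76) (nat_lit 1061364820) (nat_lit 40) (nat_lit 5) (nat_lit 44) (nat_lit 5) (nat_lit 41) (nat_lit 5) (nat_lit 288) (nat_lit 261) (nat_lit 171)) (XT.lf (nat_lit 0) (nat_lit 15295173267) (nat_lit 304) (nat_lit 1012731222) (nat_lit 76) (nat_lit 9135010262) (nat_lit 40) (nat_lit 5) (nat_lit 44) (nat_lit 5) (nat_lit 41) (nat_lit 5) (nat_lit 289) (nat_lit 261) (nat_lit 170))) (XT.nd (nat_lit 78) (nat_lit 0) (nat_lit 0) (XT.lf (nat_lit 0) (nat_lit 11017151278) (nat_lit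 228) (nat_lit 8494074648) (nat_lit 304) (nat_lit 6764559762) (nat_lit 37) (nat_lit 5) (nat_lit 40) (nat_lit 5) (nat_lit 41) (nat_lit 5) (nat_lit 290) (nat_lit 261) (nat_lit 169)) (XT.lf (nat_lit 0) (nat_lit 23671086623) (nat_lit 228) (nat_lit 274741782) (nat_lit 304) (nat_lit 3204104549) (nat_lit 37) (nat_lit 5) (nat_lit 40) (nat_lit 5) (nat_lit 41) (nat_lit 5) (nat_lit 291) (nat_lit 261) (nat_lit 168)))) (XT.nd (nat_lit 156) (nat_lit 380) (nat_lit 0) (XT.nd (nat_lit 78) (nat_lit 0) (nat_lit 0) (XT.lf (nat_lit 0) (nat_lit 784086960) (nat_lit 228) (nat_lit 19031052488) (nat_lit 76) (nat_lit 8238908411) (nat_lit 34) (nat_lit 5) (nat_lit 37) (nat_lit 5) (nat_lit 35) (nat_lit 5) (nat_lit 292) (nat_lit 261) (nat_lit 167)) (XT.lf (nat_lit 0) (nat_lit 4919467796) (nat_lit 228) (nat_lit 6800244627) (nat_lit 76) (nat_lit 17278274235) (nat_lit 34) (nat_lit 5) (nat_lit 37) (nat_lit 5) (nat_lit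 35) (nat_lit 5) (nat_lit 293) (nat_lit 261) (nat_lit 166))) (XT.nd (nat_lit 78) (nat_lit 152) (nat_lit 0) (XT.lf (nat_lit 0) (nat_lit 6229552335) (nat_lit 228) (nat_lit 3120824136) (nat_lit 304) (nat_lit 20634324557) (nat_lit 31) (nat_lit 5) (nat_lit 34) (nat_lit 5) (nat_lit 35) (nat_lit 5) (nat_lit 294) (nat_lit 261) (nat_lit 165)) (XT.nd (nat_lit 78) (nat_lit 152) (nat_lit 0) (XT.lf (nat_lit 0) (nat_lit 14203790015) (nat_lit 304) (nat_lit 10974312185) (nat_lit 76) (nat_lit 5832616727) (nat_lit 31) (nat_lit 5) (nat_lit 35) (nat_lit 5) (nat_lit 32) (nat_lit 5) (nat_lit 295) (nat_lit 261) (nat_lit 164)) (XT.lf (nat_lit 0) (nat_lit 2461651316) (nat_lit 152) (nat_lit 16919879599) (nat_lit 228) (nat_lit 12702439003) (nat_lit 29) (nat_lit 5) (nat_lit 31) (nat_lit 5) (nat_lit 32) (nat_lit 5) (nat_lit 296) (nat_lit 261) (nat_lit 163))))))) (XT.nd (nat_lit 702) (nat_lit 456) (nat_lit 0) (XT.nd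 (nat_lit 312) (nat_lit 304) (nat_lit 0) (XT.nd (nat_lit 156) (nat_lit 228) (nat_lit 0) (XT.nd (nat_lit 78) (nat_lit 0) (nat_lit 0) (XT.lf (nat_lit 0) (nat_lit 16939060499) (nat_lit 152) (nat_lit 8057216689) (nat_lit 228) (nat_lit 8205714668) (nat_lit 29) (nat_lit 5) (nat_lit 31) (nat_lit 5) (nat_lit 32) (nat_lit 5) (nat_lit 297) (nat_lit 261) (nat_lit 162)) (XT.lf (nat_lit 0) (nat_lit 30903832255) (nat_lit 228) (nat_lit 2266211902) (nat_lit 76) (nat_lit 1205280792) (nat_lit 29) (nat_lit 5) (nat_lit 32) (nat_lit 5) (nat_lit 30) (nat_lit 5) (nat_lit 298) (nat_lit 261) (nat_lit 161))) (XT.nd (nat_lit 78) (nat_lit 0) (nat_lit 0) (XT.lf (nat_lit 0) (nat_lit 1779939234) (nat_lit 228) (nat_lit 22925955800) (nat_lit 76) (nat_lit 10883846991) (nat_lit 26) (nat_lit 5) (nat_lit 29) (nat_lit 5) (nat_lit 27) (nat_lit 5) (nat_lit 299) (nat_lit 261) (nat_lit 160)) (XT.lf (nat_lit 0) (nat_lit 7209266094)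 (nat_lit 228) (nat_lit 8512223272) (nat_lit 76) (nat_lit 21138957464) (nat_lit 26) (nat_lit 5) (nat_lit 29) (nat_lit 5) (nat_lit 27) (nat_lit 5) (nat_lit 300) (nat_lit 261) (nat_lit 159)))) (XT.nd (nat_lit 156) (nat_lit 152) (nat_lit 0) (XT.nd (nat_lit 78) (nat_lit 0) (nat_lit 0) (XT.lf (nat_lit 0) (nat_lit 6830642507) (nat_lit 152) (nat_lit 6179376250) (nat_lit 228) (nat_lit 25179681364) (nat_lit 24) (nat_lit 5) (nat_lit 26) (nat_lit 5) (nat_lit 27) (nat_lit 5) (nat_lit 301) (nat_lit 261) (nat_lit 158)) (XT.lf (nat_lit 0) (nat_lit 19300703214) (nat_lit 228) (nat_lit 16414640224) (nat_lit 76) (nat_lit 3860088611) (nat_lit 24) (nat_lit 5) (nat_lit 27) (nat_lit 5) (nat_lit 25) (nat_lit 5) (nat_lit 302) (nat_lit 261) (nat_lit 157))) (XT.nd (nat_lit 78) (nat_lit 152) (nat_lit 0) (XT.lf (nat_lit 0) (nat_lit 26000957983) (nat_lit 228) (nat_lit 834107850) (nat_lit 76) (nat_lit 14190643108)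 (nat_lit 24) (nat_lit 5) (nat_lit 27) (nat_lit 5) (nat_lit 25) (nat_lit 5) (nat_lit 303) (nat_lit 261) (nat_lit 156)) (XT.nd (nat_lit 78) (nat_lit 0) (nat_lit 0) (XT.lf (nat_lit 0) (nat_lit 16029146175) (nat_lit 152) (nat_lit 17251372389) (nat_lit 228) (nat_lit 9255776150) (nat_lit 22) (nat_lit 5) (nat_lit 24) (nat_lit 5) (nat_lit 25) (nat_lit 5) (nat_lit 304) (nat_lit 261) (nat_lit 155)) (XT.lf (nat_lit 0) (nat_lit 33755334104) (nat_lit 152) (nat_lit 7177022968) (nat_lit 228) (nat_lit 3189646935) (nat_lit 22) (nat_lit 5) (nat_lit 24) (nat_lit 5) (nat_lit 25) (nat_lit 5) (nat_lit 305) (nat_lit 261) (nat_lit 154)))))) (XT.nd (nat_lit 312) (nat_lit 152) (nat_lit 0) (XT.nd (nat_lit 156) (nat_lit 152) (nat_lit 0) (XT.nd (nat_lit 78) (nat_lit 0) (nat_lit 0) (XT.lf (nat_lit 0) (nat_lit 3233151710) (nat_lit 152) (nat_lit 39097236904) (nat_lit 76) (nat_lit 3446379447) (nat_lit 20) (nat_lit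 5) (nat_lit 22) (nat_lit 5) (nat_lit 21) (nat_lit 5) (nat_lit 306) (nat_lit 261) (nat_lit 153)) (XT.lf (nat_lit 0) (nat_lit 10160428159) (nat_lit 152) (nat_lit 22749399001) (nat_lit 76) (nat_lit 14587310116) (nat_lit 20) (nat_lit 5) (nat_lit 22) (nat_lit 5) (nat_lit 21) (nat_lit 5) (nat_lit 307) (nat_lit 261) (nat_lit 152))) (XT.nd (nat_lit 78) (nat_lit 152) (nat_lit 0) (XT.lf (nat_lit 0) (nat_lit 17428765700) (nat_lit 152) (nat_lit 5592772097) (nat_lit 76) (nat_lit 26282259885) (nat_lit 20) (nat_lit 5) (nat_lit 22) (nat_lit 5) (nat_lit 21) (nat_lit 5) (nat_lit 308) (nat_lit 261) (nat_lit 151)) (XT.lf (nat_lit 0) (nat_lit 12823939056) (nat_lit 152) (nat_lit 12431748467) (nat_lit 228) (nat_lit 25935352442) (nat_lit 18) (nat_lit 5) (nat_lit 20) (nat_lit 5) (nat_lit 21) (nat_lit 5) (nat_lit 309) (nat_lit 261) (nat_lit 150)))) (XT.nd (nat_lit 156) (nat_lit 152) (nat_lit 0) (XT.nd (nat_lit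 78) (nat_lit 0) (nat_lit 0) (XT.lf (nat_lit 0) (nat_lit 32347593103) (nat_lit 152) (nat_lit 1216143048) (nat_lit 228) (nat_lit 19604426064) (nat_lit 18) (nat_lit 5) (nat_lit 20) (nat_lit 5) (nat_lit 21) (nat_lit 5) (nat_lit 310) (nat_lit 261) (nat_lit 149)) (XT.lf (nat_lit 0) (nat_lit 42447315156) (nat_lit 228) (nat_lit 2569458041) (nat_lit 76) (nat_lit 10219367539) (nat_lit 18) (nat_lit 5) (nat_lit 21) (nat_lit 5) (nat_lit 19) (nat_lit 4) (nat_lit 311) (nat_lit 261) (nat_lit 148))) (XT.nd (nat_lit 78) (nat_lit 76) (nat_lit 0) (XT.lf (nat_lit 0) (nat_lit 17114546729) (nat_lit 76) (nat_lit 34943148204) (nat_lit 152) (nat_lit 5335698404) (nat_lit 17) (nat_lit 5) (nat_lit 18) (nat_lit 5) (nat_lit 19) (nat_lit 4) (nat_lit 312) (nat_lit 261) (nat_lit 147)) (XT.nd (nat_lit 78) (nat_lit 0) (nat_lit 0) (XT.lf (nat_lit 0) (nat_lit 2450116130) (nat_lit 152) (nat_lit 21831496827) (nat_lit 76)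 (nat_lit 35372970951) (nat_lit 16) (nat_lit 5) (nat_lit 18) (nat_lit 5) (nat_lit 17) (nat_lit 5) (nat_lit 313) (nat_lit 261) (nat_lit 146)) (XT.lf (nat_lit 0) (nat_lit 10441622080) (nat_lit 152) (nat_lit 2556422365) (nat_lit 76) (nat_lit 49026635680) (nat_lit 16) (nat_lit 5) (nat_lit 18) (nat_lit 5) (nat_lit 17) (nat_lit 5) (nat_lit 314) (nat_lit 261) (nat_lit 145))))))))
noncomputable def xc175 : XT := (XT.nd (nat_lit 1404) (nat_lit 304) (nat_lit 0) (XT.nd (nat_lit 702) (nat_lit 228) (nat_lit 0) (XT.nd (nat_lit 312) (nat_lit 152) (nat_lit 0) (XT.nd (nat_lit 156) (nat_lit 76) (nat_lit 0) (XT.nd (nat_lit 78) (nat_lit 0) (nat_lit 0) (XT.lf (nat_lit 0) (nat_lit 18260009352) (nat_lit 152) (nat_lit 853703076) (nat_lit 228) (nat_lit 45385523405) (nat_lit 14) (nat_lit 5) (nat_lit 16) (nat_lit 5) (nat_lit 17) (nat_lit 5) (nat_lit 315) (nat_lit 261) (nat_lit 144)) (XT.lf (nat_lit 0) (nat_lit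 28445136122) (nat_lit 228) (nat_lit 27082689837) (nat_lit 76) (nat_lit 11558411821) (nat_lit 14) (nat_lit 5) (nat_lit 17) (nat_lit 5) (nat_lit 15) (nat_lit 4) (nat_lit 316) (nat_lit 261) (nat_lit 143))) (XT.nd (nat_lit 78) (nat_lit 76) (nat_lit 0) (XT.lf (nat_lit 0) (nat_lit 38253284198) (nat_lit 228) (nat_lit 6988876238) (nat_lit 76) (nat_lit 24559926389) (nat_lit 14) (nat_lit 5) (nat_lit 17) (nat_lit 5) (nat_lit 15) (nat_lit 4) (nat_lit 317) (nat_lit 261) (nat_lit 142)) (XT.lf (nat_lit 0) (nat_lit 14569707042) (nat_lit 76) (nat_lit 34205947609) (nat_lit 152) (nat_lit 23866887361) (nat_lit 13) (nat_lit 5) (nat_lit 14) (nat_lit 5) (nat_lit 15) (nat_lit 4) (nat_lit 318) (nat_lit 261) (nat_lit 141)))) (XT.nd (nat_lit 156) (nat_lit 152) (nat_lit 0) (XT.nd (nat_lit 78) (nat_lit 0) (nat_lit 0) (XT.lf (nat_lit 0) (nat_lit 37442715561) (nat_lit 76) (nat_lit 22496207426) (nat_lit 152) (nat_lit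 15680362229) (nat_lit 13) (nat_lit 5) (nat_lit 14) (nat_lit 5) (nat_lit 15) (nat_lit 4) (nat_lit 319) (nat_lit 261) (nat_lit 140)) (XT.lf (nat_lit 0) (nat_lit 61453525053) (nat_lit 76) (nat_lit 10203419554) (nat_lit 152) (nat_lit 7088095507) (nat_lit 13) (nat_lit 5) (nat_lit 14) (nat_lit 5) (nat_lit 15) (nat_lit 4) (nat_lit 320) (nat_lit 261) (nat_lit 139))) (XT.nd (nat_lit 78) (nat_lit 0) (nat_lit 0) (XT.lf (nat_lit 0) (nat_lit 1986702865) (nat_lit 152) (nat_lit 77311845783) (nat_lit 76) (nat_lit 2721287595) (nat_lit 11) (nat_lit 5) (nat_lit 13) (nat_lit 5) (nat_lit 12) (nat_lit 4) (nat_lit 321) (nat_lit 261) (nat_lit 138)) (XT.nd (nat_lit 78) (nat_lit 0) (nat_lit 0) (XT.lf (nat_lit 0) (nat_lit 11738673226) (nat_lit 152) (nat_lit 57329925227) (nat_lit 76) (nat_lit 16360885362) (nat_lit 11) (nat_lit 5) (nat_lit 13) (nat_lit 5) (nat_lit 12) (nat_lit 4) (nat_lit 322) (nat_lit 261) (nat_lit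 137)) (XT.lf (nat_lit 0) (nat_lit 21975126438) (nat_lit 152) (nat_lit 36354356793) (nat_lit 76) (nat_lit 30680289629) (nat_lit 11) (nat_lit 5) (nat_lit 13) (nat_lit 5) (nat_lit 12) (nat_lit 4) (nat_lit 323) (nat_lit 261) (nat_lit 136)))))) (XT.nd (nat_lit 312) (nat_lit 152) (nat_lit 0) (XT.nd (nat_lit 156) (nat_lit 0) (nat_lit 0) (XT.nd (nat_lit 78) (nat_lit 76) (nat_lit 0) (XT.lf (nat_lit 0) (nat_lit 32720435010) (nat_lit 152) (nat_lit 14335198649) (nat_lit 76) (nat_lit 45713594217) (nat_lit 11) (nat_lit 5) (nat_lit 13) (nat_lit 5) (nat_lit 12) (nat_lit 4) (nat_lit 324) (nat_lit 261) (nat_lit 135)) (XT.lf (nat_lit 0) (nat_lit 9070281419) (nat_lit 76) (nat_lit 35071514103) (nat_lit 152) (nat_lit 52567923801) (nat_lit 10) (nat_lit 5) (nat_lit 11) (nat_lit 5) (nat_lit 12) (nat_lit 4) (nat_lit 325) (nat_lit 261) (nat_lit 134))) (XT.nd (nat_lit 78) (nat_lit 0) (nat_lit 0) (XT.lf (nat_lit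 0) (nat_lit 34138859291) (nat_lit 76) (nat_lit 22235370956) (nat_lit 152) (nat_lit 44461007646) (nat_lit 10) (nat_lit 5) (nat_lit 11) (nat_lit 5) (nat_lit 12) (nat_lit 4) (nat_lit 326) (nat_lit 261) (nat_lit 133)) (XT.lf (nat_lit 0) (nat_lit 60456235650) (nat_lit 76) (nat_lit 8759415500) (nat_lit 152) (nat_lit 35951515745) (nat_lit 10) (nat_lit 5) (nat_lit 11) (nat_lit 5) (nat_lit 12) (nat_lit 4) (nat_lit 327) (nat_lit 261) (nat_lit 132)))) (XT.nd (nat_lit 156) (nat_lit 76) (nat_lit 0) (XT.nd (nat_lit 78) (nat_lit 76) (nat_lit 0) (XT.lf (nat_lit 0) (nat_lit 82780761657) (nat_lit 152) (nat_lit 21714878146) (nat_lit 0) (nat_lit 5215974211) (nat_lit 10) (nat_lit 5) (nat_lit 12) (nat_lit 4) (nat_lit 10) (nat_lit 4) (nat_lit 328) (nat_lit 261) (nat_lit 131)) (XT.lf (nat_lit 0) (nat_lit 2358576133) (nat_lit 76) (nat_lit 94843553734) (nat_lit 76) (nat_lit 17272255985) (nat_lit 9) (nat_lit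 4) (nat_lit 10) (nat_lit 5) (nat_lit 10) (nat_lit 4) (nat_lit 329) (nat_lit 261) (nat_lit 130))) (XT.nd (nat_lit 78) (nat_lit 76) (nat_lit 0) (XT.lf (nat_lit 0) (nat_lit 28385370250) (nat_lit 76) (nat_lit 84324578651) (nat_lit 76) (nat_lit 6747080612) (nat_lit 9) (nat_lit 4) (nat_lit 10) (nat_lit 5) (nat_lit 10) (nat_lit 4) (nat_lit 330) (nat_lit 261) (nat_lit 129)) (XT.nd (nat_lit 78) (nat_lit 0) (nat_lit 0) (XT.lf (nat_lit 0) (nat_lit 4164291449) (nat_lit 152) (nat_lit 69046605604) (nat_lit 76) (nat_lit 51474665084) (nat_lit 8) (nat_lit 5) (nat_lit 10) (nat_lit 5) (nat_lit 9) (nat_lit 4) (nat_lit 331) (nat_lit 261) (nat_lit 128)) (XT.lf (nat_lit 0) (nat_lit 15392299407) (nat_lit 152) (nat_lit 46034813136) (nat_lit 76) (nat_lit 68742989817) (nat_lit 8) (nat_lit 5) (nat_lit 10) (nat_lit 5) (nat_lit 9) (nat_lit 4) (nat_lit 332) (nat_lit 261) (nat_lit 127))))))) (XT.nd (nat_lit 702) (nat_lit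 152) (nat_lit 0) (XT.nd (nat_lit 312) (nat_lit 76) (nat_lit 0) (XT.nd (nat_lit 156) (nat_lit 0) (nat_lit 0) (XT.nd (nat_lit 78) (nat_lit 76) (nat_lit 0) (XT.lf (nat_lit 0) (nat_lit 27179625327) (nat_lit 152) (nat_lit 21876151042) (nat_lit 76) (nat_lit 86873199281) (nat_lit 8) (nat_lit 5) (nat_lit 10) (nat_lit 5) (nat_lit 9) (nat_lit 4) (nat_lit 333) (nat_lit 261) (nat_lit 126)) (XT.lf (nat_lit 0) (nat_lit 3602194006) (nat_lit 76) (nat_lit 36008380610) (nat_lit 152) (nat_lit 102362506982) (nat_lit 7) (nat_lit 5) (nat_lit 8) (nat_lit 5) (nat_lit 9) (nat_lit 4) (nat_lit 334) (nat_lit 261) (nat_lit 125))) (XT.nd (nat_lit 78) (nat_lit 0) (nat_lit 0) (XT.lf (nat_lit 0) (nat_lit 31110461162) (nat_lit 76) (nat_lit 21921150158) (nat_lit 152) (nat_lit 95269356279) (nat_lit 7) (nat_lit 5) (nat_lit 8) (nat_lit 5) (nat_lit 9) (nat_lit 4) (nat_lit 335) (nat_lit 261) (nat_lit 124)) (XT.lf (nat_lit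 0) (nat_lit 59990821951) (nat_lit 76) (nat_lit 7131027194) (nat_lit 152) (nat_lit 87823492966) (nat_lit 7) (nat_lit 5) (nat_lit 8) (nat_lit 5) (nat_lit 9) (nat_lit 4) (nat_lit 336) (nat_lit 261) (nat_lit 123)))) (XT.nd (nat_lit 156) (nat_lit 76) (nat_lit 0) (XT.nd (nat_lit 78) (nat_lit 0) (nat_lit 0) (XT.lf (nat_lit 0) (nat_lit 82045940145) (nat_lit 152) (nat_lit 71741089805) (nat_lit 0) (nat_lit 8128439928) (nat_lit 7) (nat_lit 5) (nat_lit 9) (nat_lit 4) (nat_lit 7) (nat_lit 4) (nat_lit 337) (nat_lit 261) (nat_lit 122)) (XT.lf (nat_lit 0) (nat_lit 97831438323) (nat_lit 152) (nat_lit 47486965751) (nat_lit 0) (nat_lit 23909941344) (nat_lit 7) (nat_lit 5) (nat_lit 9) (nat_lit 4) (nat_lit 7) (nat_lit 4) (nat_lit 338) (nat_lit 261) (nat_lit 121))) (XT.nd (nat_lit 78) (nat_lit 76) (nat_lit 0) (XT.lf (nat_lit 0) (nat_lit 114404592879) (nat_lit 152) (nat_lit 22023064767) (nat_lit 0) (nat_lit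 40479289461) (nat_lit 7) (nat_lit 5) (nat_lit 9) (nat_lit 4) (nat_lit 7) (nat_lit 4) (nat_lit 339) (nat_lit 261) (nat_lit 120)) (XT.nd (nat_lit 78) (nat_lit 0) (nat_lit 0) (XT.lf (nat_lit 0) (nat_lit 4867016403) (nat_lit 76) (nat_lit 127013835068) (nat_lit 76) (nat_lit 53084906469) (nat_lit 6) (nat_lit 4) (nat_lit 7) (nat_lit 5) (nat_lit 7) (nat_lit 4) (nat_lit 340) (nat_lit 261) (nat_lit 119)) (XT.lf (nat_lit 0) (nat_lit 33863447925) (nat_lit 76) (nat_lit 116738935418) (nat_lit 76) (nat_lit 42806554266) (nat_lit 6) (nat_lit 4) (nat_lit 7) (nat_lit 5) (nat_lit 7) (nat_lit 4) (nat_lit 341) (nat_lit 261) (nat_lit 118)))))) (XT.nd (nat_lit 390) (nat_lit 76) (nat_lit 0) (XT.nd (nat_lit 156) (nat_lit 76) (nat_lit 0) (XT.nd (nat_lit 78) (nat_lit 0) (nat_lit 0) (XT.lf (nat_lit 0) (nat_lit 64307086941) (nat_lit 76) (nat_lit 105951465907) (nat_lit 76) (nat_lit 32015796609) (nat_lit 6) (nat_lit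 4) (nat_lit 7) (nat_lit 5) (nat_lit 7) (nat_lit 4) (nat_lit 342) (nat_lit 261) (nat_lit 117)) (XT.lf (nat_lit 0) (nat_lit 96270418306) (nat_lit 76) (nat_lit 94625742084) (nat_lit 76) (nat_lit 20686941219) (nat_lit 6) (nat_lit 4) (nat_lit 7) (nat_lit 5) (nat_lit 7) (nat_lit 4) (nat_lit 343) (nat_lit 261) (nat_lit 116))) (XT.nd (nat_lit 78) (nat_lit 76) (nat_lit 0) (XT.lf (nat_lit 0) (nat_lit 129829545190) (nat_lit 76) (nat_lit 82734797940) (nat_lit 76) (nat_lit 8793014630) (nat_lit 6) (nat_lit 4) (nat_lit 7) (nat_lit 5) (nat_lit 7) (nat_lit 4) (nat_lit 344) (nat_lit 261) (nat_lit 115)) (XT.nd (nat_lit 78) (nat_lit 0) (nat_lit 0) (XT.lf (nat_lit 0) (nat_lit 3576061294) (nat_lit 152) (nat_lit 66613698081) (nat_lit 76) (nat_lit 161427746653) (nat_lit 5) (nat_lit 5) (nat_lit 7) (nat_lit 5) (nat_lit 6) (nat_lit 4) (nat_lit 345) (nat_lit 261) (nat_lit 114)) (XT.lf (nat_lit 0) (nat_lit 16266883826)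 (nat_lit 152) (nat_lit 40600217055) (nat_lit 76) (nat_lit 185516414628) (nat_lit 5) (nat_lit 5) (nat_lit 7) (nat_lit 5) (nat_lit 6) (nat_lit 4) (nat_lit 346) (nat_lit 261) (nat_lit 113))))) (XT.nd (nat_lit 156) (nat_lit 0) (nat_lit 0) (XT.nd (nat_lit 78) (nat_lit 76) (nat_lit 0) (XT.lf (nat_lit 0) (nat_lit 29591100592) (nat_lit 152) (nat_lit 13288149033) (nat_lit 76) (nat_lit 210808634116) (nat_lit 5) (nat_lit 5) (nat_lit 7) (nat_lit 5) (nat_lit 6) (nat_lit 4) (nat_lit 347) (nat_lit 261) (nat_lit 112)) (XT.lf (nat_lit 0) (nat_lit 15896316108) (nat_lit 76) (nat_lit 27932305853) (nat_lit 152) (nat_lit 221716494623) (nat_lit 4) (nat_lit 5) (nat_lit 5) (nat_lit 5) (nat_lit 6) (nat_lit 4) (nat_lit 348) (nat_lit 261) (nat_lit 111))) (XT.nd (nat_lit 78) (nat_lit 0) (nat_lit 0) (XT.lf (nat_lit 0) (nat_lit 46999383425) (nat_lit 76) (nat_lit 12002606410) (nat_lit 152) (nat_lit 218982023557) (nat_lit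 4) (nat_lit 5) (nat_lit 5) (nat_lit 5) (nat_lit 6) (nat_lit 4) (nat_lit 349) (nat_lit 261) (nat_lit 110)) (XT.nd (nat_lit 78) (nat_lit 0) (nat_lit 0) (XT.lf (nat_lit 0) (nat_lit 75006741428) (nat_lit 152) (nat_lit 211462900349) (nat_lit 0) (nat_lit 4571578301) (nat_lit 4) (nat_lit 5) (nat_lit 6) (nat_lit 4) (nat_lit 4) (nat_lit 4) (nat_lit 350) (nat_lit 261) (nat_lit 109)) (XT.lf (nat_lit 0) (nat_lit 92007510864) (nat_lit 152) (nat_lit 191163658886) (nat_lit 0) (nat_lit 21570329101) (nat_lit 4) (nat_lit 5) (nat_lit 6) (nat_lit 4) (nat_lit 4) (nat_lit 4) (nat_lit 351) (nat_lit 261) (nat_lit 108))))))))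
noncomputable def xc176 : XT := (XT.nd (nat_lit 31356) (nat_lit 0) (nat_lit 2736) (XT.nd (nat_lit 30654) (nat_lit 0) (nat_lit 5396) (XT.nd (nat_lit 312) (nat_lit 0) (nat_lit 0) (XT.nd (nat_lit 156) (nat_lit 0) (nat_lit 0) (XT.nd (nat_lit 78) (nat_lit 0) (nat_lit 0) (XT.lf (nat_lit 0) (nat_lit 109857381844) (nat_lit 152) (nat_lit 169851179728) (nat_lit 0) (nat_lit 39418277569) (nat_lit 4) (nat_lit 5) (nat_lit 6) (nat_lit 4) (nat_lit 4) (nat_lit 4) (nat_lit 352) (nat_lit 261) (nat_lit 107)) (XT.lf (nat_lit 0) (nat_lit 128598854058) (nat_lit 152) (nat_lit 147474718875) (nat_lit 0) (nat_lit 58157918821) (nat_lit 4) (nat_lit 5) (nat_lit 6) (nat_lit 4) (nat_lit 4) (nat_lit 4) (nat_lit 353) (nat_lit 261) (nat_lit 106))) (XT.nd (nat_lit 78) (nat_lit 0) (nat_lit 0) (XT.lf (nat_lit 0) (nat_lit 148276550061) (nat_lit 152) (nat_lit 123980999041) (nat_lit 0) (nat_lit 77833871050) (nat_lit 4) (nat_lit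 5) (nat_lit 6) (nat_lit 4) (nat_lit 4) (nat_lit 4) (nat_lit 354) (nat_lit 261) (nat_lit 105)) (XT.lf (nat_lit 0) (nat_lit 168937321510) (nat_lit 152) (nat_lit 99314082797) (nat_lit 0) (nat_lit 98492981762) (nat_lit 4) (nat_lit 5) (nat_lit 6) (nat_lit 4) (nat_lit 4) (nat_lit 4) (nat_lit 355) (nat_lit 261) (nat_lit 104)))) (XT.nd (nat_lit 156) (nat_lit 0) (nat_lit 0) (XT.nd (nat_lit 78) (nat_lit 0) (nat_lit 0) (XT.lf (nat_lit 0) (nat_lit 190630360716) (nat_lit 152) (nat_lit 73415239391) (nat_lit 0) (nat_lit 120184439314) (nat_lit 4) (nat_lit 5) (nat_lit 6) (nat_lit 4) (nat_lit 4) (nat_lit 4) (nat_lit 356) (nat_lit 261) (nat_lit 103)) (XT.lf (nat_lit 0) (nat_lit 213407317775) (nat_lit 152) (nat_lit 46222804908) (nat_lit 0) (nat_lit 142959890035) (nat_lit 4) (nat_lit 5) (nat_lit 6) (nat_lit 4) (nat_lit 4) (nat_lit 4) (nat_lit 357) (nat_lit 261) (nat_lit 102))) (XT.nd (nat_lit 30030) (nat_lit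 0) (nat_lit 5396) (XT.lf (nat_lit 0) (nat_lit 237322423536) (nat_lit 152) (nat_lit 17672035459) (nat_lit 0) (nat_lit 166873561189) (nat_lit 4) (nat_lit 5) (nat_lit 6) (nat_lit 4) (nat_lit 4) (nat_lit 4) (nat_lit 358) (nat_lit 261) (nat_lit 101)) (XT.nd (nat_lit 78) (nat_lit 0) (nat_lit 0) (XT.lf (nat_lit 0) (nat_lit 236049921) (nat_lit 0) (nat_lit 236049921) (nat_lit 684) (nat_lit 5678000634) (nat_lit 75) (nat_lit 5) (nat_lit 75) (nat_lit 3) (nat_lit 84) (nat_lit 3) (nat_lit 262) (nat_lit 262) (nat_lit 196)) (XT.lf (nat_lit 0) (nat_lit 1459940123) (nat_lit 684) (nat_lit 6554250458) (nat_lit 760) (nat_lit 4567675131) (nat_lit 75) (nat_lit 5) (nat_lit 84) (nat_lit 3) (nat_lit 85) (nat_lit 5) (nat_lit 263) (nat_lit 262) (nat_lit 195)))))) (XT.nd (nat_lit 312) (nat_lit 0) (nat_lit 152) (XT.nd (nat_lit 156) (nat_lit 0) (nat_lit 76) (XT.nd (nat_lit 78) (nat_lit 0) (nat_lit 76) (XT.lf (nat_lit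 0) (nat_lit 1982629157) (nat_lit 684) (nat_lit 1039467463) (nat_lit 760) (nat_lit 9856537969) (nat_lit 75) (nat_lit 5) (nat_lit 84) (nat_lit 3) (nat_lit 85) (nat_lit 5) (nat_lit 264) (nat_lit 262) (nat_lit 194)) (XT.lf (nat_lit 0) (nat_lit 2618618161) (nat_lit 684) (nat_lit 8330473828) (nat_lit 760) (nat_lit 2236866843) (nat_lit 76) (nat_lit 5) (nat_lit 85) (nat_lit 5) (nat_lit 86) (nat_lit 5) (nat_lit 265) (nat_lit 262) (nat_lit 193))) (XT.nd (nat_lit 78) (nat_lit 0) (nat_lit 0) (XT.lf (nat_lit 0) (nat_lit 3329675148) (nat_lit 684) (nat_lit 2491850031) (nat_lit 760) (nat_lit 7685032300) (nat_lit 76) (nat_lit 5) (nat_lit 85) (nat_lit 5) (nat_lit 86) (nat_lit 5) (nat_lit 266) (nat_lit 262) (nat_lit 192)) (XT.lf (nat_lit 76) (nat_lit 3743744502) (nat_lit 0) (nat_lit 367975104) (nat_lit 760) (nat_lit 9729762928) (nat_lit 77) (nat_lit 5) (nat_lit 76) (nat_lit 5) (nat_lit 86) (nat_lit 5)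 (nat_lit 267) (nat_lit 262) (nat_lit 191)))) (XT.nd (nat_lit 156) (nat_lit 0) (nat_lit 76) (XT.nd (nat_lit 78) (nat_lit 0) (nat_lit 0) (XT.lf (nat_lit 0) (nat_lit 5037387984) (nat_lit 684) (nat_lit 3913598988) (nat_lit 760) (nat_lit 5237005747) (nat_lit 77) (nat_lit 5) (nat_lit 86) (nat_lit 5) (nat_lit 87) (nat_lit 5) (nat_lit 268) (nat_lit 262) (nat_lit 190)) (XT.lf (nat_lit 76) (nat_lit 2643232485) (nat_lit 0) (nat_lit 3392428754) (nat_lit 760) (nat_lit 8514912965) (nat_lit 78) (nat_lit 5) (nat_lit 77) (nat_lit 5) (nat_lit 87) (nat_lit 5) (nat_lit 269) (nat_lit 262) (nat_lit 189))) (XT.nd (nat_lit 78) (nat_lit 0) (nat_lit 0) (XT.lf (nat_lit 0) (nat_lit 7169244010) (nat_lit 684) (nat_lit 5319431331) (nat_lit 760) (nat_lit 2438398552) (nat_lit 78) (nat_lit 5) (nat_lit 87) (nat_lit 5) (nat_lit 88) (nat_lit 5) (nat_lit 270) (nat_lit 262) (nat_lit 188)) (XT.nd (nat_lit 78) (nat_lit 0)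 (nat_lit 0) (XT.lf (nat_lit 76) (nat_lit 1577520810) (nat_lit 0) (nat_lit 6843058725) (nat_lit 760) (nat_lit 6898821464) (nat_lit 79) (nat_lit 5) (nat_lit 78) (nat_lit 5) (nat_lit 88) (nat_lit 5) (nat_lit 271) (nat_lit 262) (nat_lit 187)) (XT.lf (nat_lit 76) (nat_lit 8989014164) (nat_lit 0) (nat_lit 817064204) (nat_lit 760) (nat_lit 5921739710) (nat_lit 79) (nat_lit 5) (nat_lit 78) (nat_lit 5) (nat_lit 88) (nat_lit 5) (nat_lit 272) (nat_lit 262) (nat_lit 186))))))) (XT.nd (nat_lit 702) (nat_lit 1140) (nat_lit 0) (XT.nd (nat_lit 312) (nat_lit 760) (nat_lit 0) (XT.nd (nat_lit 156) (nat_lit 380) (nat_lit 0) (XT.nd (nat_lit 78) (nat_lit 0) (nat_lit 0) (XT.lf (nat_lit 0) (nat_lit 530107804) (nat_lit 684) (nat_lit 10807492956) (nat_lit 760) (nat_lit 4815268718) (nat_lit 70) (nat_lit 5) (nat_lit 79) (nat_lit 5) (nat_lit 80) (nat_lit 5) (nat_lit 273) (nat_lit 262) (nat_lit 185)) (XT.lf (nat_lit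 0) (nat_lit 8367574839) (nat_lit 684) (nat_lit 4688471570) (nat_lit 760) (nat_lit 3537658153) (nat_lit 70) (nat_lit 5) (nat_lit 79) (nat_lit 5) (nat_lit 80) (nat_lit 5) (nat_lit 274) (nat_lit 262) (nat_lit 184))) (XT.nd (nat_lit 78) (nat_lit 380) (nat_lit 0) (XT.lf (nat_lit 0) (nat_lit 14871406161) (nat_lit 760) (nat_lit 501954617) (nat_lit 76) (nat_lit 1682717199) (nat_lit 70) (nat_lit 5) (nat_lit 80) (nat_lit 5) (nat_lit 71) (nat_lit 5) (nat_lit 275) (nat_lit 262) (nat_lit 183)) (XT.lf (nat_lit 0) (nat_lit 7765664732) (nat_lit 380) (nat_lit 9194620931) (nat_lit 456) (nat_lit 572190779) (nat_lit 65) (nat_lit 5) (nat_lit 70) (nat_lit 5) (nat_lit 71) (nat_lit 5) (nat_lit 276) (nat_lit 262) (nat_lit 182)))) (XT.nd (nat_lit 156) (nat_lit 304) (nat_lit 0) (XT.nd (nat_lit 78) (nat_lit 380) (nat_lit 0) (XT.lf (nat_lit 0) (nat_lit 1078551201) (nat_lit 456) (nat_lit 1600578988) (nat_lit 76)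 (nat_lit 15353053831) (nat_lit 64) (nat_lit 5) (nat_lit 70) (nat_lit 5) (nat_lit 65) (nat_lit 5) (nat_lit 277) (nat_lit 262) (nat_lit 181)) (XT.lf (nat_lit 0) (nat_lit 2957279080) (nat_lit 456) (nat_lit 11438197721) (nat_lit 76) (nat_lit 4152735242) (nat_lit 59) (nat_lit 5) (nat_lit 65) (nat_lit 5) (nat_lit 60) (nat_lit 5) (nat_lit 278) (nat_lit 262) (nat_lit 180))) (XT.nd (nat_lit 78) (nat_lit 304) (nat_lit 0) (XT.lf (nat_lit 0) (nat_lit 4987479485) (nat_lit 456) (nat_lit 2835910893) (nat_lit 76) (nat_lit 11263810454) (nat_lit 59) (nat_lit 5) (nat_lit 65) (nat_lit 5) (nat_lit 60) (nat_lit 5) (nat_lit 279) (nat_lit 262) (nat_lit 179)) (XT.nd (nat_lit 78) (nat_lit 0) (nat_lit 0) (XT.lf (nat_lit 0) (nat_lit 6387043157) (nat_lit 304) (nat_lit 818594982) (nat_lit 380) (nat_lit 12443212958) (nat_lit 55) (nat_lit 5) (nat_lit 59) (nat_lit 5) (nat_lit 60) (nat_lit 5) (nat_lit 280) (nat_lit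 262) (nat_lit 178)) (XT.lf (nat_lit 0) (nat_lit 9672706772) (nat_lit 380) (nat_lit 4183732300) (nat_lit 76) (nat_lit 6375277512) (nat_lit 55) (nat_lit 5) (nat_lit 60) (nat_lit 5) (nat_lit 56) (nat_lit 5) (nat_lit 281) (nat_lit 262) (nat_lit 177)))))) (XT.nd (nat_lit 312) (nat_lit 608) (nat_lit 0) (XT.nd (nat_lit 156) (nat_lit 228) (nat_lit 0) (XT.nd (nat_lit 78) (nat_lit 0) (nat_lit 0) (XT.lf (nat_lit 0) (nat_lit 5497140210) (nat_lit 304) (nat_lit 6852981632) (nat_lit 380) (nat_lit 8489285099) (nat_lit 51) (nat_lit 5) (nat_lit 55) (nat_lit 5) (nat_lit 56) (nat_lit 5) (nat_lit 282) (nat_lit 262) (nat_lit 176)) (XT.lf (nat_lit 0) (nat_lit 15229337066) (nat_lit 380) (nat_lit 5689621168) (nat_lit 76) (nat_lit 555156871) (nat_lit 51) (nat_lit 5) (nat_lit 56) (nat_lit 5) (nat_lit 52) (nat_lit 5) (nat_lit 283) (nat_lit 262) (nat_lit 175))) (XT.nd (nat_lit 78) (nat_lit 0) (nat_lit 0) (XT.lf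 (nat_lit 0) (nat_lit 4462807517) (nat_lit 228) (nat_lit 13960391004) (nat_lit 304) (nat_lit 3708854224) (nat_lit 48) (nat_lit 5) (nat_lit 51) (nat_lit 5) (nat_lit 52) (nat_lit 5) (nat_lit 284) (nat_lit 262) (nat_lit 174)) (XT.lf (nat_lit 0) (nat_lit 15307260738) (nat_lit 228) (nat_lit 6554848197) (nat_lit 304) (nat_lit 956537529) (nat_lit 48) (nat_lit 5) (nat_lit 51) (nat_lit 5) (nat_lit 52) (nat_lit 5) (nat_lit 285) (nat_lit 262) (nat_lit 173)))) (XT.nd (nat_lit 156) (nat_lit 228) (nat_lit 0) (XT.nd (nat_lit 78) (nat_lit 0) (nat_lit 0) (XT.lf (nat_lit 0) (nat_lit 1931369012) (nat_lit 380) (nat_lit 20342280735) (nat_lit 76) (nat_lit 1261442584) (nat_lit 43) (nat_lit 5) (nat_lit 48) (nat_lit 5) (nat_lit 44) (nat_lit 5) (nat_lit 286) (nat_lit 262) (nat_lit 172)) (XT.lf (nat_lit 0) (nat_lit 5157876778) (nat_lit 380) (nat_lit 9726403403) (nat_lit 76) (nat_lit 9391001987) (nat_lit 43) (nat_lit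 5) (nat_lit 48) (nat_lit 5) (nat_lit 44) (nat_lit 5) (nat_lit 287) (nat_lit 262) (nat_lit 171))) (XT.nd (nat_lit 78) (nat_lit 0) (nat_lit 0) (XT.lf (nat_lit 0) (nat_lit 1454263170) (nat_lit 228) (nat_lit 7104248036) (nat_lit 304) (nat_lit 16493352435) (nat_lit 40) (nat_lit 5) (nat_lit 43) (nat_lit 5) (nat_lit 44) (nat_lit 5) (nat_lit 288) (nat_lit 262) (nat_lit 170)) (XT.nd (nat_lit 78) (nat_lit 0) (nat_lit 0) (XT.lf (nat_lit 0) (nat_lit 12303555814) (nat_lit 304) (nat_lit 12359528520) (nat_lit 76) (nat_lit 1195492079) (nat_lit 40) (nat_lit 5) (nat_lit 44) (nat_lit 5) (nat_lit 41) (nat_lit 5) (nat_lit 289) (nat_lit 262) (nat_lit 169)) (XT.lf (nat_lit 0) (nat_lit 16343108564) (nat_lit 304) (nat_lit 688213766) (nat_lit 76) (nat_lit 9668959840) (nat_lit 40) (nat_lit 5) (nat_lit 44) (nat_lit 5) (nat_lit 41) (nat_lit 5) (nat_lit 290) (nat_lit 262) (nat_lit 168))))))))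
noncomputable def xc177 : XT := (XT.nd (nat_lit 1404) (nat_lit 760) (nat_lit 0) (XT.nd (nat_lit 702) (nat_lit 684) (nat_lit 0) (XT.nd (nat_lit 312) (nat_lit 380) (nat_lit 0) (XT.nd (nat_lit 156) (nat_lit 228) (nat_lit 0) (XT.nd (nat_lit 78) (nat_lit 0) (nat_lit 0) (XT.lf (nat_lit 0) (nat_lit 11937111988) (nat_lit 228) (nat_lit 8825130001) (nat_lit 304) (nat_lit 6812970257) (nat_lit 37) (nat_lit 5) (nat_lit 40) (nat_lit 5) (nat_lit 41) (nat_lit 5) (nat_lit 291) (nat_lit 262) (nat_lit 167)) (XT.lf (nat_lit 0) (nat_lit 25206167760) (nat_lit 228) (nat_lit 199289938) (nat_lit 304) (nat_lit 3088293117) (nat_lit 37) (nat_lit 5) (nat_lit 40) (nat_lit 5) (nat_lit 41) (nat_lit 5) (nat_lit 292) (nat_lit 262) (nat_lit 166))) (XT.nd (nat_lit 78) (nat_lit 0) (nat_lit 0) (XT.lf (nat_lit 0) (nat_lit 1084778802) (nat_lit 228) (nat_lit 19615504351) (nat_lit 76) (nat_lit 8742883070) (nat_lit 34) (nat_lit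 5) (nat_lit 37) (nat_lit 5) (nat_lit 35) (nat_lit 5) (nat_lit 293) (nat_lit 262) (nat_lit 165)) (XT.lf (nat_lit 0) (nat_lit 5414476895) (nat_lit 228) (nat_lit 6790637086) (nat_lit 76) (nat_lit 18229834840) (nat_lit 34) (nat_lit 5) (nat_lit 37) (nat_lit 5) (nat_lit 35) (nat_lit 5) (nat_lit 294) (nat_lit 262) (nat_lit 164)))) (XT.nd (nat_lit 156) (nat_lit 152) (nat_lit 0) (XT.nd (nat_lit 78) (nat_lit 0) (nat_lit 0) (XT.lf (nat_lit 0) (nat_lit 6885010696) (nat_lit 228) (nat_lit 3175431968) (nat_lit 304) (nat_lit 21410903776) (nat_lit 31) (nat_lit 5) (nat_lit 34) (nat_lit 5) (nat_lit 35) (nat_lit 5) (nat_lit 295) (nat_lit 262) (nat_lit 163)) (XT.lf (nat_lit 0) (nat_lit 15146485257) (nat_lit 304) (nat_lit 11184945200) (nat_lit 76) (nat_lit 6217758872) (nat_lit 31) (nat_lit 5) (nat_lit 35) (nat_lit 5) (nat_lit 32) (nat_lit 5) (nat_lit 296) (nat_lit 262) (nat_lit 162))) (XT.nd (nat_lit 78)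 (nat_lit 0) (nat_lit 0) (XT.lf (nat_lit 0) (nat_lit 2917363532) (nat_lit 152) (nat_lit 17659871249) (nat_lit 228) (nat_lit 13099182973) (nat_lit 29) (nat_lit 5) (nat_lit 31) (nat_lit 5) (nat_lit 32) (nat_lit 5) (nat_lit 297) (nat_lit 262) (nat_lit 161)) (XT.nd (nat_lit 78) (nat_lit 0) (nat_lit 0) (XT.lf (nat_lit 0) (nat_lit 18102803667) (nat_lit 152) (nat_lit 8359122924) (nat_lit 228) (nat_lit 8388973754) (nat_lit 29) (nat_lit 5) (nat_lit 31) (nat_lit 5) (nat_lit 32) (nat_lit 5) (nat_lit 298) (nat_lit 262) (nat_lit 160)) (XT.lf (nat_lit 0) (nat_lit 32656082656) (nat_lit 228) (nat_lit 2068660533) (nat_lit 76) (nat_lit 1358614757) (nat_lit 29) (nat_lit 5) (nat_lit 32) (nat_lit 5) (nat_lit 30) (nat_lit 5) (nat_lit 299) (nat_lit 262) (nat_lit 159)))))) (XT.nd (nat_lit 312) (nat_lit 304) (nat_lit 0) (XT.nd (nat_lit 156) (nat_lit 152) (nat_lit 0) (XT.nd (nat_lit 78) (nat_lit 0) (nat_lit 0)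 (XT.lf (nat_lit 0) (nat_lit 2074571844) (nat_lit 228) (nat_lit 23759261331) (nat_lit 76) (nat_lit 11524769214) (nat_lit 26) (nat_lit 5) (nat_lit 29) (nat_lit 5) (nat_lit 27) (nat_lit 5) (nat_lit 300) (nat_lit 262) (nat_lit 158)) (XT.lf (nat_lit 0) (nat_lit 7765572874) (nat_lit 228) (nat_lit 8639746571) (nat_lit 76) (nat_lit 22288029027) (nat_lit 26) (nat_lit 5) (nat_lit 29) (nat_lit 5) (nat_lit 27) (nat_lit 5) (nat_lit 301) (nat_lit 262) (nat_lit 157))) (XT.nd (nat_lit 78) (nat_lit 0) (nat_lit 0) (XT.lf (nat_lit 0) (nat_lit 7465454629) (nat_lit 152) (nat_lit 6386161584) (nat_lit 228) (nat_lit 26237701205) (nat_lit 24) (nat_lit 5) (nat_lit 26) (nat_lit 5) (nat_lit 27) (nat_lit 5) (nat_lit 302) (nat_lit 262) (nat_lit 156)) (XT.lf (nat_lit 0) (nat_lit 20449254459) (nat_lit 228) (nat_lit 16948179535) (nat_lit 76) (nat_lit 4147295869) (nat_lit 24) (nat_lit 5) (nat_lit 27) (nat_lit 5) (nat_lit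 25) (nat_lit 5) (nat_lit 303) (nat_lit 262) (nat_lit 155)))) (XT.nd (nat_lit 156) (nat_lit 152) (nat_lit 0) (XT.nd (nat_lit 78) (nat_lit 152) (nat_lit 0) (XT.lf (nat_lit 0) (nat_lit 27475783105) (nat_lit 228) (nat_lit 602296385) (nat_lit 76) (nat_lit 14989892243) (nat_lit 24) (nat_lit 5) (nat_lit 27) (nat_lit 5) (nat_lit 25) (nat_lit 5) (nat_lit 304) (nat_lit 262) (nat_lit 154)) (XT.lf (nat_lit 0) (nat_lit 17099708779) (nat_lit 152) (nat_lit 18015491699) (nat_lit 228) (nat_lit 9539105892) (nat_lit 22) (nat_lit 5) (nat_lit 24) (nat_lit 5) (nat_lit 25) (nat_lit 5) (nat_lit 305) (nat_lit 262) (nat_lit 153))) (XT.nd (nat_lit 78) (nat_lit 152) (nat_lit 0) (XT.lf (nat_lit 0) (nat_lit 35699391566) (nat_lit 152) (nat_lit 7442112870) (nat_lit 228) (nat_lit 3178215886) (nat_lit 22) (nat_lit 5) (nat_lit 24) (nat_lit 5) (nat_lit 25) (nat_lit 5) (nat_lit 306) (nat_lit 262) (nat_lit 152)) (XT.nd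 (nat_lit 78) (nat_lit 0) (nat_lit 0) (XT.lf (nat_lit 0) (nat_lit 3557900632) (nat_lit 152) (nat_lit 40787507303) (nat_lit 76) (nat_lit 3711810483) (nat_lit 20) (nat_lit 5) (nat_lit 22) (nat_lit 5) (nat_lit 21) (nat_lit 5) (nat_lit 307) (nat_lit 262) (nat_lit 151)) (XT.lf (nat_lit 0) (nat_lit 10823774650) (nat_lit 152) (nat_lit 23634877098) (nat_lit 76) (nat_lit 15405353778) (nat_lit 20) (nat_lit 5) (nat_lit 22) (nat_lit 5) (nat_lit 21) (nat_lit 5) (nat_lit 308) (nat_lit 262) (nat_lit 150))))))) (XT.nd (nat_lit 702) (nat_lit 304) (nat_lit 0) (XT.nd (nat_lit 312) (nat_lit 304) (nat_lit 0) (XT.nd (nat_lit 156) (nat_lit 0) (nat_lit 0) (XT.nd (nat_lit 78) (nat_lit 152) (nat_lit 0) (XT.lf (nat_lit 0) (nat_lit 18448132635) (nat_lit 152) (nat_lit 5632418460) (nat_lit 76) (nat_lit 27680828265) (nat_lit 20) (nat_lit 5) (nat_lit 22) (nat_lit 5) (nat_lit 21) (nat_lit 5) (nat_lit 309) (nat_lit 262)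 (nat_lit 149)) (XT.lf (nat_lit 0) (nat_lit 13701257408) (nat_lit 152) (nat_lit 12961785438) (nat_lit 228) (nat_lit 27080118884) (nat_lit 18) (nat_lit 5) (nat_lit 20) (nat_lit 5) (nat_lit 21) (nat_lit 5) (nat_lit 310) (nat_lit 262) (nat_lit 148))) (XT.nd (nat_lit 78) (nat_lit 0) (nat_lit 0) (XT.lf (nat_lit 0) (nat_lit 34189850280) (nat_lit 152) (nat_lit 1189759293) (nat_lit 228) (nat_lit 20439884338) (nat_lit 18) (nat_lit 5) (nat_lit 20) (nat_lit 5) (nat_lit 21) (nat_lit 5) (nat_lit 311) (nat_lit 262) (nat_lit 147)) (XT.lf (nat_lit 0) (nat_lit 44702107494) (nat_lit 228) (nat_lit 2478318903) (nat_lit 76) (nat_lit 10810717110) (nat_lit 18) (nat_lit 5) (nat_lit 21) (nat_lit 5) (nat_lit 19) (nat_lit 4) (nat_lit 312) (nat_lit 262) (nat_lit 146)))) (XT.nd (nat_lit 156) (nat_lit 152) (nat_lit 0) (XT.nd (nat_lit 78) (nat_lit 76) (nat_lit 0) (XT.lf (nat_lit 0) (nat_lit 18186343975) (nat_lit 76)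 (nat_lit 36603729714) (nat_lit 152) (nat_lit 5466340389) (nat_lit 17) (nat_lit 5) (nat_lit 18) (nat_lit 5) (nat_lit 19) (nat_lit 4) (nat_lit 313) (nat_lit 262) (nat_lit 145)) (XT.lf (nat_lit 0) (nat_lit 2698131947) (nat_lit 152) (nat_lit 22712982847) (nat_lit 76) (nat_lit 37219764783) (nat_lit 16) (nat_lit 5) (nat_lit 18) (nat_lit 5) (nat_lit 17) (nat_lit 5) (nat_lit 314) (nat_lit 262) (nat_lit 144))) (XT.nd (nat_lit 78) (nat_lit 152) (nat_lit 0) (XT.lf (nat_lit 0) (nat_lit 11083236527) (nat_lit 152) (nat_lit 2484158891) (nat_lit 76) (nat_lit 51552391544) (nat_lit 16) (nat_lit 5) (nat_lit 18) (nat_lit 5) (nat_lit 17) (nat_lit 5) (nat_lit 315) (nat_lit 262) (nat_lit 143)) (XT.nd (nat_lit 78) (nat_lit 0) (nat_lit 0) (XT.lf (nat_lit 0) (nat_lit 19369867242) (nat_lit 152) (nat_lit 816445584) (nat_lit 228) (nat_lit 47531895726) (nat_lit 14) (nat_lit 5) (nat_lit 16) (nat_lit 5) (nat_lit 17)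 (nat_lit 5) (nat_lit 316) (nat_lit 262) (nat_lit 142)) (XT.lf (nat_lit 0) (nat_lit 29979929027) (nat_lit 228) (nat_lit 28244825884) (nat_lit 76) (nat_lit 12210031443) (nat_lit 14) (nat_lit 5) (nat_lit 17) (nat_lit 5) (nat_lit 15) (nat_lit 4) (nat_lit 317) (nat_lit 262) (nat_lit 141)))))) (XT.nd (nat_lit 312) (nat_lit 228) (nat_lit 0) (XT.nd (nat_lit 156) (nat_lit 0) (nat_lit 0) (XT.nd (nat_lit 78) (nat_lit 76) (nat_lit 0) (XT.lf (nat_lit 0) (nat_lit 40273125645) (nat_lit 228) (nat_lit 7155464388) (nat_lit 76) (nat_lit 25858112262) (nat_lit 14) (nat_lit 5) (nat_lit 17) (nat_lit 5) (nat_lit 15) (nat_lit 4) (nat_lit 318) (nat_lit 262) (nat_lit 140)) (XT.lf (nat_lit 0) (nat_lit 15478098771) (nat_lit 76) (nat_lit 35841221014) (nat_lit 152) (nat_lit 24949981388) (nat_lit 13) (nat_lit 5) (nat_lit 14) (nat_lit 5) (nat_lit 15) (nat_lit 4) (nat_lit 319) (nat_lit 262) (nat_lit 139))) (XT.nd (nat_lit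 78) (nat_lit 0) (nat_lit 0) (XT.lf (nat_lit 0) (nat_lit 39486190746) (nat_lit 76) (nat_lit 23549566392) (nat_lit 152) (nat_lit 16359380016) (nat_lit 13) (nat_lit 5) (nat_lit 14) (nat_lit 5) (nat_lit 15) (nat_lit 4) (nat_lit 320) (nat_lit 262) (nat_lit 138)) (XT.lf (nat_lit 0) (nat_lit 64689381693) (nat_lit 76) (nat_lit 10645541575) (nat_lit 152) (nat_lit 7342499974) (nat_lit 13) (nat_lit 5) (nat_lit 14) (nat_lit 5) (nat_lit 15) (nat_lit 4) (nat_lit 321) (nat_lit 262) (nat_lit 137)))) (XT.nd (nat_lit 156) (nat_lit 76) (nat_lit 0) (XT.nd (nat_lit 78) (nat_lit 0) (nat_lit 0) (XT.lf (nat_lit 0) (nat_lit 2181863738) (nat_lit 152) (nat_lit 81009874280) (nat_lit 76) (nat_lit 2924196886) (nat_lit 11) (nat_lit 5) (nat_lit 13) (nat_lit 5) (nat_lit 12) (nat_lit 4) (nat_lit 322) (nat_lit 262) (nat_lit 136)) (XT.lf (nat_lit 0) (nat_lit 12416869486) (nat_lit 152) (nat_lit 60036836925) (nat_lit 76)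 (nat_lit 17242591449) (nat_lit 11) (nat_lit 5) (nat_lit 13) (nat_lit 5) (nat_lit 12) (nat_lit 4) (nat_lit 323) (nat_lit 262) (nat_lit 135))) (XT.nd (nat_lit 78) (nat_lit 76) (nat_lit 0) (XT.lf (nat_lit 0) (nat_lit 23160799521) (nat_lit 152) (nat_lit 38020089334) (nat_lit 76) (nat_lit 32274934415) (nat_lit 11) (nat_lit 5) (nat_lit 13) (nat_lit 5) (nat_lit 12) (nat_lit 4) (nat_lit 324) (nat_lit 262) (nat_lit 134)) (XT.nd (nat_lit 78) (nat_lit 76) (nat_lit 0) (XT.lf (nat_lit 0) (nat_lit 34439234629) (nat_lit 152) (nat_lit 14907210678) (nat_lit 76) (nat_lit 48057017075) (nat_lit 11) (nat_lit 5) (nat_lit 13) (nat_lit 5) (nat_lit 12) (nat_lit 4) (nat_lit 325) (nat_lit 262) (nat_lit 133)) (XT.lf (nat_lit 0) (nat_lit 9666208750) (nat_lit 76) (nat_lit 36763736083) (nat_lit 152) (nat_lit 55111123675) (nat_lit 10) (nat_lit 5) (nat_lit 11) (nat_lit 5) (nat_lit 12) (nat_lit 4) (nat_lit 326) (nat_lit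 262) (nat_lit 132))))))))
noncomputable def xc178 : XT := (XT.nd (nat_lit 1404) (nat_lit 152) (nat_lit 0) (XT.nd (nat_lit 702) (nat_lit 76) (nat_lit 0) (XT.nd (nat_lit 312) (nat_lit 152) (nat_lit 0) (XT.nd (nat_lit 156) (nat_lit 76) (nat_lit 0) (XT.nd (nat_lit 78) (nat_lit 0) (nat_lit 0) (XT.lf (nat_lit 0) (nat_lit 35981433932) (nat_lit 76) (nat_lit 23288707385) (nat_lit 152) (nat_lit 46602918679) (nat_lit 10) (nat_lit 5) (nat_lit 11) (nat_lit 5) (nat_lit 12) (nat_lit 4) (nat_lit 327) (nat_lit 262) (nat_lit 131)) (XT.lf (nat_lit 0) (nat_lit 63608220458) (nat_lit 76) (nat_lit 9141736637) (nat_lit 152) (nat_lit 37671815962) (nat_lit 10) (nat_lit 5) (nat_lit 11) (nat_lit 5) (nat_lit 12) (nat_lit 4) (nat_lit 328) (nat_lit 262) (nat_lit 130))) (XT.nd (nat_lit 78) (nat_lit 76) (nat_lit 0) (XT.lf (nat_lit 0) (nat_lit 86990649487) (nat_lit 152) (nat_lit 22674854091) (nat_lit 0) (nat_lit 5528076256)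 (nat_lit 10) (nat_lit 5) (nat_lit 12) (nat_lit 4) (nat_lit 10) (nat_lit 4) (nat_lit 329) (nat_lit 262) (nat_lit 129)) (XT.lf (nat_lit 0) (nat_lit 2600244387) (nat_lit 76) (nat_lit 99531399842) (nat_lit 76) (nat_lit 18062921575) (nat_lit 9) (nat_lit 4) (nat_lit 10) (nat_lit 5) (nat_lit 10) (nat_lit 4) (nat_lit 330) (nat_lit 262) (nat_lit 128)))) (XT.nd (nat_lit 156) (nat_lit 76) (nat_lit 0) (XT.nd (nat_lit 78) (nat_lit 76) (nat_lit 0) (XT.lf (nat_lit 0) (nat_lit 29922485856) (nat_lit 76) (nat_lit 88489063223) (nat_lit 76) (nat_lit 7014961110) (nat_lit 9) (nat_lit 4) (nat_lit 10) (nat_lit 5) (nat_lit 10) (nat_lit 4) (nat_lit 331) (nat_lit 262) (nat_lit 127)) (XT.lf (nat_lit 0) (nat_lit 4436553589) (nat_lit 152) (nat_lit 72384523297) (nat_lit 76) (nat_lit 54095501422) (nat_lit 8) (nat_lit 5) (nat_lit 10) (nat_lit 5) (nat_lit 9) (nat_lit 4) (nat_lit 332) (nat_lit 262) (nat_lit 126))) (XT.nd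 (nat_lit 78) (nat_lit 76) (nat_lit 0) (XT.lf (nat_lit 0) (nat_lit 16222912060) (nat_lit 152) (nat_lit 48227589424) (nat_lit 76) (nat_lit 72224999386) (nat_lit 8) (nat_lit 5) (nat_lit 10) (nat_lit 5) (nat_lit 9) (nat_lit 4) (nat_lit 333) (nat_lit 262) (nat_lit 125)) (XT.nd (nat_lit 78) (nat_lit 76) (nat_lit 0) (XT.lf (nat_lit 0) (nat_lit 28596699625) (nat_lit 152) (nat_lit 22866183005) (nat_lit 76) (nat_lit 91259583130) (nat_lit 8) (nat_lit 5) (nat_lit 10) (nat_lit 5) (nat_lit 9) (nat_lit 4) (nat_lit 334) (nat_lit 262) (nat_lit 124)) (XT.lf (nat_lit 0) (nat_lit 3884405496) (nat_lit 76) (nat_lit 37763618643) (nat_lit 152) (nat_lit 107420814050) (nat_lit 7) (nat_lit 5) (nat_lit 8) (nat_lit 5) (nat_lit 9) (nat_lit 4) (nat_lit 335) (nat_lit 262) (nat_lit 123)))))) (XT.nd (nat_lit 312) (nat_lit 76) (nat_lit 0) (XT.nd (nat_lit 156) (nat_lit 0) (nat_lit 0) (XT.nd (nat_lit 78) (nat_lit 0) (nat_lit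 0) (XT.lf (nat_lit 0) (nat_lit 32763224020) (nat_lit 76) (nat_lit 22974178145) (nat_lit 152) (nat_lit 99975854303) (nat_lit 7) (nat_lit 5) (nat_lit 8) (nat_lit 5) (nat_lit 9) (nat_lit 4) (nat_lit 336) (nat_lit 262) (nat_lit 122)) (XT.lf (nat_lit 0) (nat_lit 63082972382) (nat_lit 76) (nat_lit 7446598057) (nat_lit 152) (nat_lit 92160410671) (nat_lit 7) (nat_lit 5) (nat_lit 8) (nat_lit 5) (nat_lit 9) (nat_lit 4) (nat_lit 337) (nat_lit 262) (nat_lit 121))) (XT.nd (nat_lit 78) (nat_lit 0) (nat_lit 0) (XT.lf (nat_lit 0) (nat_lit 86198016825) (nat_lit 152) (nat_lit 75238051323) (nat_lit 0) (nat_lit 8572641796) (nat_lit 7) (nat_lit 5) (nat_lit 9) (nat_lit 4) (nat_lit 7) (nat_lit 4) (nat_lit 338) (nat_lit 262) (nat_lit 120)) (XT.lf (nat_lit 0) (nat_lit 102770419451) (nat_lit 152) (nat_lit 49775511208) (nat_lit 0) (nat_lit 25141419241) (nat_lit 7) (nat_lit 5) (nat_lit 9) (nat_lit 4) (nat_lit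 7) (nat_lit 4) (nat_lit 339) (nat_lit 262) (nat_lit 119)))) (XT.nd (nat_lit 156) (nat_lit 0) (nat_lit 0) (XT.nd (nat_lit 78) (nat_lit 76) (nat_lit 0) (XT.lf (nat_lit 0) (nat_lit 120169974154) (nat_lit 152) (nat_lit 23042501024) (nat_lit 0) (nat_lit 42537521391) (nat_lit 7) (nat_lit 5) (nat_lit 9) (nat_lit 4) (nat_lit 7) (nat_lit 4) (nat_lit 340) (nat_lit 262) (nat_lit 118)) (XT.lf (nat_lit 0) (nat_lit 5190766188) (nat_lit 76) (nat_lit 133328384663) (nat_lit 76) (nat_lit 55692643754) (nat_lit 6) (nat_lit 4) (nat_lit 7) (nat_lit 5) (nat_lit 7) (nat_lit 4) (nat_lit 341) (nat_lit 262) (nat_lit 117))) (XT.nd (nat_lit 78) (nat_lit 0) (nat_lit 0) (XT.lf (nat_lit 0) (nat_lit 35633190765) (nat_lit 76) (nat_lit 122541461085) (nat_lit 76) (nat_lit 44902588609) (nat_lit 6) (nat_lit 4) (nat_lit 7) (nat_lit 5) (nat_lit 7) (nat_lit 4) (nat_lit 342) (nat_lit 262) (nat_lit 116)) (XT.nd (nat_lit 78)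 (nat_lit 0) (nat_lit 0) (XT.lf (nat_lit 0) (nat_lit 67595365520) (nat_lit 76) (nat_lit 111216257199) (nat_lit 76) (nat_lit 33574402278) (nat_lit 6) (nat_lit 4) (nat_lit 7) (nat_lit 5) (nat_lit 7) (nat_lit 4) (nat_lit 343) (nat_lit 262) (nat_lit 115)) (XT.lf (nat_lit 0) (nat_lit 101153390871) (nat_lit 76) (nat_lit 99325808233) (nat_lit 76) (nat_lit 21681112888) (nat_lit 6) (nat_lit 4) (nat_lit 7) (nat_lit 5) (nat_lit 7) (nat_lit 4) (nat_lit 344) (nat_lit 262) (nat_lit 114))))))) (XT.nd (nat_lit 702) (nat_lit 0) (nat_lit 0) (XT.nd (nat_lit 312) (nat_lit 76) (nat_lit 0) (XT.nd (nat_lit 156) (nat_lit 0) (nat_lit 0) (XT.nd (nat_lit 78) (nat_lit 76) (nat_lit 0) (XT.lf (nat_lit 0) (nat_lit 136387166877) (nat_lit 76) (nat_lit 86841803594) (nat_lit 76) (nat_lit 9194403083) (nat_lit 6) (nat_lit 4) (nat_lit 7) (nat_lit 5) (nat_lit 7) (nat_lit 4) (nat_lit 345) (nat_lit 262) (nat_lit 113)) (XT.lf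 (nat_lit 0) (nat_lit 3790138307) (nat_lit 152) (nat_lit 69880193327) (nat_lit 76) (nat_lit 169526257348) (nat_lit 5) (nat_lit 5) (nat_lit 7) (nat_lit 5) (nat_lit 6) (nat_lit 4) (nat_lit 346) (nat_lit 262) (nat_lit 112))) (XT.nd (nat_lit 78) (nat_lit 0) (nat_lit 0) (XT.lf (nat_lit 0) (nat_lit 17113822255) (nat_lit 152) (nat_lit 42569094901) (nat_lit 76) (nat_lit 194818067133) (nat_lit 5) (nat_lit 5) (nat_lit 7) (nat_lit 5) (nat_lit 6) (nat_lit 4) (nat_lit 347) (nat_lit 262) (nat_lit 111)) (XT.lf (nat_lit 0) (nat_lit 31102650134) (nat_lit 152) (nat_lit 13894334573) (nat_lit 76) (nat_lit 221373667512) (nat_lit 5) (nat_lit 5) (nat_lit 7) (nat_lit 5) (nat_lit 6) (nat_lit 4) (nat_lit 348) (nat_lit 262) (nat_lit 110)))) (XT.nd (nat_lit 156) (nat_lit 0) (nat_lit 0) (XT.nd (nat_lit 78) (nat_lit 0) (nat_lit 0) (XT.lf (nat_lit 0) (nat_lit 16748414763) (nat_lit 76) (nat_lit 29303003606) (nat_lit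 152) (nat_lit 232769361031) (nat_lit 4) (nat_lit 5) (nat_lit 5) (nat_lit 5) (nat_lit 6) (nat_lit 4) (nat_lit 349) (nat_lit 262) (nat_lit 109)) (XT.lf (nat_lit 0) (nat_lit 49403907690) (nat_lit 76) (nat_lit 12578053359) (nat_lit 152) (nat_lit 229899735856) (nat_lit 4) (nat_lit 5) (nat_lit 5) (nat_lit 5) (nat_lit 6) (nat_lit 4) (nat_lit 350) (nat_lit 262) (nat_lit 108))) (XT.nd (nat_lit 78) (nat_lit 0) (nat_lit 0) (XT.lf (nat_lit 0) (nat_lit 78785894785) (nat_lit 152) (nat_lit 221983010250) (nat_lit 0) (nat_lit 4822912786) (nat_lit 4) (nat_lit 5) (nat_lit 6) (nat_lit 4) (nat_lit 4) (nat_lit 4) (nat_lit 351) (nat_lit 262) (nat_lit 107)) (XT.nd (nat_lit 78) (nat_lit 0) (nat_lit 0) (XT.lf (nat_lit 0) (nat_lit 96635330489) (nat_lit 152) (nat_lit 200671332195) (nat_lit 0) (nat_lit 22670517528) (nat_lit 4) (nat_lit 5) (nat_lit 6) (nat_lit 4) (nat_lit 4) (nat_lit 4) (nat_lit 352) (nat_lit 262)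 (nat_lit 106)) (XT.lf (nat_lit 0) (nat_lit 115376388156) (nat_lit 152) (nat_lit 178295634299) (nat_lit 0) (nat_lit 41409831421) (nat_lit 4) (nat_lit 5) (nat_lit 6) (nat_lit 4) (nat_lit 4) (nat_lit 4) (nat_lit 353) (nat_lit 262) (nat_lit 105)))))) (XT.nd (nat_lit 312) (nat_lit 0) (nat_lit 0) (XT.nd (nat_lit 156) (nat_lit 0) (nat_lit 0) (XT.nd (nat_lit 78) (nat_lit 0) (nat_lit 0) (XT.lf (nat_lit 0) (nat_lit 135053689352) (nat_lit 152) (nat_lit 154802641091) (nat_lit 0) (nat_lit 61085471880) (nat_lit 4) (nat_lit 5) (nat_lit 6) (nat_lit 4) (nat_lit 4) (nat_lit 4) (nat_lit 354) (nat_lit 262) (nat_lit 104)) (XT.lf (nat_lit 0) (nat_lit 155714084794) (nat_lit 152) (nat_lit 130136416871) (nat_lit 0) (nat_lit 81744285667) (nat_lit 4) (nat_lit 5) (nat_lit 6) (nat_lit 4) (nat_lit 4) (nat_lit 4) (nat_lit 355) (nat_lit 262) (nat_lit 103))) (XT.nd (nat_lit 78) (nat_lit 0) (nat_lit 0) (XT.lf (nat_lit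 0) (nat_lit 177406765899) (nat_lit 152) (nat_lit 104238232535) (nat_lit 0) (nat_lit 103435460435) (nat_lit 4) (nat_lit 5) (nat_lit 6) (nat_lit 4) (nat_lit 4) (nat_lit 4) (nat_lit 356) (nat_lit 262) (nat_lit 102)) (XT.lf (nat_lit 0) (nat_lit 200183381908) (nat_lit 152) (nat_lit 77046425739) (nat_lit 0) (nat_lit 126210641837) (nat_lit 4) (nat_lit 5) (nat_lit 6) (nat_lit 4) (nat_lit 4) (nat_lit 4) (nat_lit 357) (nat_lit 262) (nat_lit 101)))) (XT.nd (nat_lit 30186) (nat_lit 0) (nat_lit 5396) (XT.nd (nat_lit 30108) (nat_lit 0) (nat_lit 5396) (XT.lf (nat_lit 0) (nat_lit 224098162860) (nat_lit 152) (nat_lit 48496254086) (nat_lit 0) (nat_lit 150124056496) (nat_lit 4) (nat_lit 5) (nat_lit 6) (nat_lit 4) (nat_lit 4) (nat_lit 4) (nat_lit 358) (nat_lit 262) (nat_lit 100)) (XT.lf (nat_lit 0) (nat_lit 453817358) (nat_lit 0) (nat_lit 453817358) (nat_lit 684) (nat_lit 5528160056) (nat_lit 75) (nat_lit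 5) (nat_lit 75) (nat_lit 3) (nat_lit 84) (nat_lit 3) (nat_lit 263) (nat_lit 263) (nat_lit 194))) (XT.nd (nat_lit 78) (nat_lit 0) (nat_lit 0) (XT.lf (nat_lit 0) (nat_lit 2311440351) (nat_lit 684) (nat_lit 6441979439) (nat_lit 760) (nat_lit 4416301219) (nat_lit 75) (nat_lit 5) (nat_lit 84) (nat_lit 3) (nat_lit 85) (nat_lit 5) (nat_lit 264) (nat_lit 263) (nat_lit 193)) (XT.nd (nat_lit 78) (nat_lit 0) (nat_lit 76) (XT.lf (nat_lit 0) (nat_lit 2823192254) (nat_lit 684) (nat_lit 672408891) (nat_lit 760) (nat_lit 9987690897) (nat_lit 75) (nat_lit 5) (nat_lit 84) (nat_lit 3) (nat_lit 85) (nat_lit 5) (nat_lit 265) (nat_lit 263) (nat_lit 192)) (XT.lf (nat_lit 0) (nat_lit 3457422834) (nat_lit 684) (nat_lit 8292309896) (nat_lit 760) (nat_lit 2058032552) (nat_lit 76) (nat_lit 5) (nat_lit 85) (nat_lit 5) (nat_lit 86) (nat_lit 5) (nat_lit 266) (nat_lit 263) (nat_lit 191))))))))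
noncomputable def xc179 : XT := (XT.nd (nat_lit 1404) (nat_lit 2052) (nat_lit 0) (XT.nd (nat_lit 702) (nat_lit 1444) (nat_lit 0) (XT.nd (nat_lit 312) (nat_lit 456) (nat_lit 0) (XT.nd (nat_lit 156) (nat_lit 0) (nat_lit 76) (XT.nd (nat_lit 78) (nat_lit 0) (nat_lit 0) (XT.lf (nat_lit 0) (nat_lit 4170324396) (nat_lit 684) (nat_lit 2183406700) (nat_lit 760) (nat_lit 7792448075) (nat_lit 76) (nat_lit 5) (nat_lit 85) (nat_lit 5) (nat_lit 86) (nat_lit 5) (nat_lit 267) (nat_lit 263) (nat_lit 190)) (XT.lf (nat_lit 76) (nat_lit 4356983111) (nat_lit 0) (nat_lit 609036704) (nat_lit 760) (nat_lit 9533198366) (nat_lit 77) (nat_lit 5) (nat_lit 76) (nat_lit 5) (nat_lit 86) (nat_lit 5) (nat_lit 268) (nat_lit 263) (nat_lit 189))) (XT.nd (nat_lit 78) (nat_lit 0) (nat_lit 0) (XT.lf (nat_lit 0) (nat_lit 5903769608) (nat_lit 684) (nat_lit 3667501551) (nat_lit 760) (nat_lit 5293583422) (nat_lit 77) (nat_lit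 5) (nat_lit 86) (nat_lit 5) (nat_lit 87) (nat_lit 5) (nat_lit 269) (nat_lit 263) (nat_lit 188)) (XT.lf (nat_lit 76) (nat_lit 3210046054) (nat_lit 0) (nat_lit 3719434121) (nat_lit 760) (nat_lit 8317295078) (nat_lit 78) (nat_lit 5) (nat_lit 77) (nat_lit 5) (nat_lit 87) (nat_lit 5) (nat_lit 270) (nat_lit 263) (nat_lit 187)))) (XT.nd (nat_lit 156) (nat_lit 608) (nat_lit 0) (XT.nd (nat_lit 78) (nat_lit 0) (nat_lit 0) (XT.lf (nat_lit 0) (nat_lit 8089209705) (nat_lit 684) (nat_lit 5139272601) (nat_lit 760) (nat_lit 2415226423) (nat_lit 78) (nat_lit 5) (nat_lit 87) (nat_lit 5) (nat_lit 88) (nat_lit 5) (nat_lit 271) (nat_lit 263) (nat_lit 186)) (XT.lf (nat_lit 76) (nat_lit 2095331498) (nat_lit 0) (nat_lit 7287895248) (nat_lit 760) (nat_lit 6673497979) (nat_lit 79) (nat_lit 5) (nat_lit 78) (nat_lit 5) (nat_lit 88) (nat_lit 5) (nat_lit 272) (nat_lit 263) (nat_lit 185))) (XT.nd (nat_lit 78) (nat_lit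 608) (nat_lit 0) (XT.lf (nat_lit 76) (nat_lit 9856497869) (nat_lit 0) (nat_lit 955711306) (nat_lit 760) (nat_lit 5674717593) (nat_lit 79) (nat_lit 5) (nat_lit 78) (nat_lit 5) (nat_lit 88) (nat_lit 5) (nat_lit 273) (nat_lit 263) (nat_lit 184)) (XT.nd (nat_lit 78) (nat_lit 0) (nat_lit 0) (XT.lf (nat_lit 0) (nat_lit 996248112) (nat_lit 684) (nat_lit 11404906191) (nat_lit 760) (nat_lit 4533105096) (nat_lit 70) (nat_lit 5) (nat_lit 79) (nat_lit 5) (nat_lit 80) (nat_lit 5) (nat_lit 274) (nat_lit 263) (nat_lit 183)) (XT.lf (nat_lit 0) (nat_lit 9204653503) (nat_lit 684) (nat_lit 4977217614) (nat_lit 760) (nat_lit 3216515291) (nat_lit 70) (nat_lit 5) (nat_lit 79) (nat_lit 5) (nat_lit 80) (nat_lit 5) (nat_lit 275) (nat_lit 263) (nat_lit 182)))))) (XT.nd (nat_lit 312) (nat_lit 608) (nat_lit 0) (XT.nd (nat_lit 156) (nat_lit 456) (nat_lit 0) (XT.nd (nat_lit 78) (nat_lit 380) (nat_lit 0) (XT.lf (nat_lit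 0) (nat_lit 16064666242) (nat_lit 760) (nat_lit 103670033) (nat_lit 76) (nat_lit 1716773243) (nat_lit 70) (nat_lit 5) (nat_lit 80) (nat_lit 5) (nat_lit 71) (nat_lit 5) (nat_lit 276) (nat_lit 263) (nat_lit 181)) (XT.lf (nat_lit 0) (nat_lit 8570501536) (nat_lit 380) (nat_lit 9672577952) (nat_lit 456) (nat_lit 143055256) (nat_lit 65) (nat_lit 5) (nat_lit 70) (nat_lit 5) (nat_lit 71) (nat_lit 5) (nat_lit 277) (nat_lit 263) (nat_lit 180))) (XT.nd (nat_lit 78) (nat_lit 380) (nat_lit 0) (XT.lf (nat_lit 0) (nat_lit 1554473391) (nat_lit 456) (nat_lit 1268824696) (nat_lit 76) (nat_lit 16088282894) (nat_lit 64) (nat_lit 5) (nat_lit 70) (nat_lit 5) (nat_lit 65) (nat_lit 5) (nat_lit 278) (nat_lit 263) (nat_lit 179)) (XT.lf (nat_lit 0) (nat_lit 3513319935) (nat_lit 456) (nat_lit 11583447102) (nat_lit 76) (nat_lit 4357387229) (nat_lit 59) (nat_lit 5) (nat_lit 65) (nat_lit 5) (nat_lit 60) (nat_lit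 5) (nat_lit 279) (nat_lit 263) (nat_lit 178)))) (XT.nd (nat_lit 156) (nat_lit 304) (nat_lit 0) (XT.nd (nat_lit 78) (nat_lit 304) (nat_lit 0) (XT.lf (nat_lit 0) (nat_lit 5625593365) (nat_lit 456) (nat_lit 2571363100) (nat_lit 76) (nat_lit 11824158333) (nat_lit 59) (nat_lit 5) (nat_lit 65) (nat_lit 5) (nat_lit 60) (nat_lit 5) (nat_lit 280) (nat_lit 263) (nat_lit 177)) (XT.lf (nat_lit 0) (nat_lit 7106184728) (nat_lit 304) (nat_lit 836205634) (nat_lit 380) (nat_lit 12669118748) (nat_lit 55) (nat_lit 5) (nat_lit 59) (nat_lit 5) (nat_lit 60) (nat_lit 5) (nat_lit 281) (nat_lit 263) (nat_lit 176))) (XT.nd (nat_lit 78) (nat_lit 304) (nat_lit 0) (XT.lf (nat_lit 0) (nat_lit 10515232007) (nat_lit 380) (nat_lit 3993671410) (nat_lit 76) (nat_lit 6715539236) (nat_lit 55) (nat_lit 5) (nat_lit 60) (nat_lit 5) (nat_lit 56) (nat_lit 5) (nat_lit 282) (nat_lit 263) (nat_lit 175)) (XT.nd (nat_lit 78) (nat_lit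 0) (nat_lit 0) (XT.lf (nat_lit 0) (nat_lit 6164805250) (nat_lit 304) (nat_lit 7150755420) (nat_lit 380) (nat_lit 8547548301) (nat_lit 51) (nat_lit 5) (nat_lit 55) (nat_lit 5) (nat_lit 56) (nat_lit 5) (nat_lit 283) (nat_lit 263) (nat_lit 174)) (XT.lf (nat_lit 0) (nat_lit 16322835695) (nat_lit 380) (nat_lit 5583268210) (nat_lit 76) (nat_lit 624285194) (nat_lit 51) (nat_lit 5) (nat_lit 56) (nat_lit 5) (nat_lit 52) (nat_lit 5) (nat_lit 284) (nat_lit 263) (nat_lit 173))))))) (XT.nd (nat_lit 702) (nat_lit 988) (nat_lit 0) (XT.nd (nat_lit 312) (nat_lit 456) (nat_lit 0) (XT.nd (nat_lit 156) (nat_lit 380) (nat_lit 0) (XT.nd (nat_lit 78) (nat_lit 0) (nat_lit 0) (XT.lf (nat_lit 0) (nat_lit 5070478135) (nat_lit 228) (nat_lit 14596104646) (nat_lit 304) (nat_lit 3555170745) (nat_lit 48) (nat_lit 5) (nat_lit 51) (nat_lit 5) (nat_lit 52) (nat_lit 5) (nat_lit 285) (nat_lit 263) (nat_lit 172)) (XT.lf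 (nat_lit 0) (nat_lit 16438843054) (nat_lit 228) (nat_lit 6823251646) (nat_lit 304) (nat_lit 681387081) (nat_lit 48) (nat_lit 5) (nat_lit 51) (nat_lit 5) (nat_lit 52) (nat_lit 5) (nat_lit 286) (nat_lit 263) (nat_lit 171))) (XT.nd (nat_lit 78) (nat_lit 0) (nat_lit 0) (XT.lf (nat_lit 0) (nat_lit 2332541235) (nat_lit 380) (nat_lit 20973401822) (nat_lit 76) (nat_lit 1389990717) (nat_lit 43) (nat_lit 5) (nat_lit 48) (nat_lit 5) (nat_lit 44) (nat_lit 5) (nat_lit 287) (nat_lit 263) (nat_lit 170)) (XT.lf (nat_lit 0) (nat_lit 5705869448) (nat_lit 380) (nat_lit 9845111240) (nat_lit 76) (nat_lit 9922910186) (nat_lit 43) (nat_lit 5) (nat_lit 48) (nat_lit 5) (nat_lit 44) (nat_lit 5) (nat_lit 288) (nat_lit 263) (nat_lit 169)))) (XT.nd (nat_lit 156) (nat_lit 228) (nat_lit 0) (XT.nd (nat_lit 78) (nat_lit 0) (nat_lit 0) (XT.lf (nat_lit 0) (nat_lit 1888659431) (nat_lit 228) (nat_lit 7379708823) (nat_lit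 304) (nat_lit 17021372508) (nat_lit 40) (nat_lit 5) (nat_lit 43) (nat_lit 5) (nat_lit 44) (nat_lit 5) (nat_lit 289) (nat_lit 263) (nat_lit 168)) (XT.lf (nat_lit 0) (nat_lit 13188425637) (nat_lit 304) (nat_lit 12620215406) (nat_lit 76) (nat_lit 1328789602) (nat_lit 40) (nat_lit 5) (nat_lit 44) (nat_lit 5) (nat_lit 41) (nat_lit 5) (nat_lit 290) (nat_lit 263) (nat_lit 167))) (XT.nd (nat_lit 78) (nat_lit 228) (nat_lit 0) (XT.lf (nat_lit 0) (nat_lit 17417113547) (nat_lit 304) (nat_lit 382348702) (nat_lit 76) (nat_lit 10222429660) (nat_lit 40) (nat_lit 5) (nat_lit 44) (nat_lit 5) (nat_lit 41) (nat_lit 5) (nat_lit 291) (nat_lit 263) (nat_lit 166)) (XT.nd (nat_lit 78) (nat_lit 0) (nat_lit 0) (XT.lf (nat_lit 0) (nat_lit 12868755022) (nat_lit 228) (nat_lit 9181444660) (nat_lit 304) (nat_lit 6890745761) (nat_lit 37) (nat_lit 5) (nat_lit 40) (nat_lit 5) (nat_lit 41) (nat_lit 5) (nat_lit 292) (nat_lit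 263) (nat_lit 165)) (XT.lf (nat_lit 0) (nat_lit 26785321323) (nat_lit 228) (nat_lit 128357443) (nat_lit 304) (nat_lit 2992352526) (nat_lit 37) (nat_lit 5) (nat_lit 40) (nat_lit 5) (nat_lit 41) (nat_lit 5) (nat_lit 293) (nat_lit 263) (nat_lit 164)))))) (XT.nd (nat_lit 390) (nat_lit 380) (nat_lit 0) (XT.nd (nat_lit 156) (nat_lit 380) (nat_lit 0) (XT.nd (nat_lit 78) (nat_lit 0) (nat_lit 0) (XT.lf (nat_lit 0) (nat_lit 1376194608) (nat_lit 228) (nat_lit 20263308356) (nat_lit 76) (nat_lit 9263500456) (nat_lit 34) (nat_lit 5) (nat_lit 37) (nat_lit 5) (nat_lit 35) (nat_lit 5) (nat_lit 294) (nat_lit 263) (nat_lit 163)) (XT.lf (nat_lit 0) (nat_lit 5911083469) (nat_lit 228) (nat_lit 6813053500) (nat_lit 76) (nat_lit 19220824899) (nat_lit 34) (nat_lit 5) (nat_lit 37) (nat_lit 5) (nat_lit 35) (nat_lit 5) (nat_lit 295) (nat_lit 263) (nat_lit 162))) (XT.nd (nat_lit 78) (nat_lit 152) (nat_lit 0) (XT.lf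 (nat_lit 0) (nat_lit 7541261906) (nat_lit 228) (nat_lit 3242200505) (nat_lit 304) (nat_lit 22250032178) (nat_lit 31) (nat_lit 5) (nat_lit 34) (nat_lit 5) (nat_lit 35) (nat_lit 5) (nat_lit 296) (nat_lit 263) (nat_lit 161)) (XT.nd (nat_lit 78) (nat_lit 152) (nat_lit 0) (XT.lf (nat_lit 0) (nat_lit 16114699081) (nat_lit 304) (nat_lit 11437541581) (nat_lit 76) (nat_lit 6613464329) (nat_lit 31) (nat_lit 5) (nat_lit 35) (nat_lit 5) (nat_lit 32) (nat_lit 5) (nat_lit 297) (nat_lit 263) (nat_lit 160)) (XT.lf (nat_lit 0) (nat_lit 3364936606) (nat_lit 152) (nat_lit 18446717574) (nat_lit 228) (nat_lit 13537926267) (nat_lit 29) (nat_lit 5) (nat_lit 31) (nat_lit 5) (nat_lit 32) (nat_lit 5) (nat_lit 298) (nat_lit 263) (nat_lit 159))))) (XT.nd (nat_lit 156) (nat_lit 380) (nat_lit 0) (XT.nd (nat_lit 78) (nat_lit 0) (nat_lit 0) (XT.lf (nat_lit 0) (nat_lit 19295281848) (nat_lit 152) (nat_lit 8685510273)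 (nat_lit 228) (nat_lit 8602502580) (nat_lit 29) (nat_lit 5) (nat_lit 31) (nat_lit 5) (nat_lit 32) (nat_lit 5) (nat_lit 299) (nat_lit 263) (nat_lit 158)) (XT.lf (nat_lit 0) (nat_lit 34476695213) (nat_lit 228) (nat_lit 1890132594) (nat_lit 76) (nat_lit 1510962661) (nat_lit 29) (nat_lit 5) (nat_lit 32) (nat_lit 5) (nat_lit 30) (nat_lit 5) (nat_lit 300) (nat_lit 263) (nat_lit 157))) (XT.nd (nat_lit 78) (nat_lit 152) (nat_lit 0) (XT.lf (nat_lit 0) (nat_lit 2364818032) (nat_lit 228) (nat_lit 24663331193) (nat_lit 76) (nat_lit 12188744521) (nat_lit 26) (nat_lit 5) (nat_lit 29) (nat_lit 5) (nat_lit 27) (nat_lit 5) (nat_lit 301) (nat_lit 263) (nat_lit 156)) (XT.nd (nat_lit 78) (nat_lit 152) (nat_lit 0) (XT.lf (nat_lit 0) (nat_lit 8331487323) (nat_lit 228) (nat_lit 8801359418) (nat_lit 76) (nat_lit 23485989380) (nat_lit 26) (nat_lit 5) (nat_lit 29) (nat_lit 5) (nat_lit 27) (nat_lit 5) (nat_lit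 302) (nat_lit 263) (nat_lit 155)) (XT.lf (nat_lit 0) (nat_lit 8104740963) (nat_lit 152) (nat_lit 6612786236) (nat_lit 228) (nat_lit 27367305787) (nat_lit 24) (nat_lit 5) (nat_lit 26) (nat_lit 5) (nat_lit 27) (nat_lit 5) (nat_lit 303) (nat_lit 263) (nat_lit 154))))))))
noncomputable def xc180 : XT := (XT.nd (nat_lit 1404) (nat_lit 456) (nat_lit 0) (XT.nd (nat_lit 702) (nat_lit 380) (nat_lit 0) (XT.nd (nat_lit 312) (nat_lit 304) (nat_lit 0) (XT.nd (nat_lit 156) (nat_lit 152) (nat_lit 0) (XT.nd (nat_lit 78) (nat_lit 0) (nat_lit 0) (XT.lf (nat_lit 0) (nat_lit 21638171680) (nat_lit 228) (nat_lit 17535096267) (nat_lit 76) (nat_lit 4440105404) (nat_lit 24) (nat_lit 5) (nat_lit 27) (nat_lit 5) (nat_lit 25) (nat_lit 5) (nat_lit 304) (nat_lit 263) (nat_lit 153)) (XT.lf (nat_lit 0) (nat_lit 29008100354) (nat_lit 228) (nat_lit 384323352) (nat_lit 76) (nat_lit 15820762799) (nat_lit 24) (nat_lit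 5) (nat_lit 27) (nat_lit 5) (nat_lit 25) (nat_lit 5) (nat_lit 305) (nat_lit 263) (nat_lit 152))) (XT.nd (nat_lit 78) (nat_lit 0) (nat_lit 0) (XT.lf (nat_lit 0) (nat_lit 18198780653) (nat_lit 152) (nat_lit 18826969859) (nat_lit 228) (nat_lit 9853286524) (nat_lit 22) (nat_lit 5) (nat_lit 24) (nat_lit 5) (nat_lit 25) (nat_lit 5) (nat_lit 306) (nat_lit 263) (nat_lit 151)) (XT.lf (nat_lit 0) (nat_lit 37716824416) (nat_lit 152) (nat_lit 7729174299) (nat_lit 228) (nat_lit 3182103192) (nat_lit 22) (nat_lit 5) (nat_lit 24) (nat_lit 5) (nat_lit 25) (nat_lit 5) (nat_lit 307) (nat_lit 263) (nat_lit 150)))) (XT.nd (nat_lit 156) (nat_lit 152) (nat_lit 0) (XT.nd (nat_lit 78) (nat_lit 0) (nat_lit 0) (XT.lf (nat_lit 0) (nat_lit 3883724315) (nat_lit 152) (nat_lit 42586890427) (nat_lit 76) (nat_lit 3981856394) (nat_lit 20) (nat_lit 5) (nat_lit 22) (nat_lit 5) (nat_lit 21) (nat_lit 5) (nat_lit 308) (nat_lit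 263) (nat_lit 149)) (XT.lf (nat_lit 0) (nat_lit 11505847812) (nat_lit 152) (nat_lit 24588056913) (nat_lit 76) (nat_lit 16256055168) (nat_lit 20) (nat_lit 5) (nat_lit 22) (nat_lit 5) (nat_lit 21) (nat_lit 5) (nat_lit 309) (nat_lit 263) (nat_lit 148))) (XT.nd (nat_lit 78) (nat_lit 152) (nat_lit 0) (XT.lf (nat_lit 0) (nat_lit 19504714914) (nat_lit 152) (nat_lit 5696359346) (nat_lit 76) (nat_lit 29141473204) (nat_lit 20) (nat_lit 5) (nat_lit 22) (nat_lit 5) (nat_lit 21) (nat_lit 5) (nat_lit 310) (nat_lit 263) (nat_lit 147)) (XT.nd (nat_lit 78) (nat_lit 0) (nat_lit 0) (XT.lf (nat_lit 0) (nat_lit 14600489347) (nat_lit 152) (nat_lit 13526835750) (nat_lit 228) (nat_lit 28296255276) (nat_lit 18) (nat_lit 5) (nat_lit 20) (nat_lit 5) (nat_lit 21) (nat_lit 5) (nat_lit 311) (nat_lit 263) (nat_lit 146)) (XT.lf (nat_lit 0) (nat_lit 36103313337) (nat_lit 152) (nat_lit 1170162534) (nat_lit 228) (nat_lit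 21330574220) (nat_lit 18) (nat_lit 5) (nat_lit 20) (nat_lit 5) (nat_lit 21) (nat_lit 5) (nat_lit 312) (nat_lit 263) (nat_lit 145)))))) (XT.nd (nat_lit 312) (nat_lit 228) (nat_lit 0) (XT.nd (nat_lit 156) (nat_lit 76) (nat_lit 0) (XT.nd (nat_lit 78) (nat_lit 76) (nat_lit 0) (XT.lf (nat_lit 0) (nat_lit 47057327681) (nat_lit 228) (nat_lit 2403040253) (nat_lit 76) (nat_lit 11424161078) (nat_lit 18) (nat_lit 5) (nat_lit 21) (nat_lit 5) (nat_lit 19) (nat_lit 4) (nat_lit 313) (nat_lit 263) (nat_lit 144)) (XT.lf (nat_lit 0) (nat_lit 19291642953) (nat_lit 76) (nat_lit 38355389305) (nat_lit 152) (nat_lit 5616171753) (nat_lit 17) (nat_lit 5) (nat_lit 18) (nat_lit 5) (nat_lit 19) (nat_lit 4) (nat_lit 314) (nat_lit 263) (nat_lit 143))) (XT.nd (nat_lit 78) (nat_lit 0) (nat_lit 0) (XT.lf (nat_lit 0) (nat_lit 2946879824) (nat_lit 152) (nat_lit 23658075234) (nat_lit 76) (nat_lit 39151633098) (nat_lit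 16) (nat_lit 5) (nat_lit 18) (nat_lit 5) (nat_lit 17) (nat_lit 5) (nat_lit 315) (nat_lit 263) (nat_lit 142)) (XT.lf (nat_lit 0) (nat_lit 11745818619) (nat_lit 152) (nat_lit 2426884212) (nat_lit 76) (nat_lit 54197515955) (nat_lit 16) (nat_lit 5) (nat_lit 18) (nat_lit 5) (nat_lit 17) (nat_lit 5) (nat_lit 316) (nat_lit 263) (nat_lit 141)))) (XT.nd (nat_lit 156) (nat_lit 76) (nat_lit 0) (XT.nd (nat_lit 78) (nat_lit 0) (nat_lit 0) (XT.lf (nat_lit 0) (nat_lit 20516916088) (nat_lit 152) (nat_lit 784757526) (nat_lit 228) (nat_lit 49797013098) (nat_lit 14) (nat_lit 5) (nat_lit 16) (nat_lit 5) (nat_lit 17) (nat_lit 5) (nat_lit 317) (nat_lit 263) (nat_lit 140)) (XT.lf (nat_lit 0) (nat_lit 31580999038) (nat_lit 228) (nat_lit 29482918929) (nat_lit 76) (nat_lit 12887380208) (nat_lit 14) (nat_lit 5) (nat_lit 17) (nat_lit 5) (nat_lit 15) (nat_lit 4) (nat_lit 318) (nat_lit 263) (nat_lit 139))) (XT.nd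 (nat_lit 78) (nat_lit 76) (nat_lit 0) (XT.lf (nat_lit 0) (nat_lit 42383994841) (nat_lit 228) (nat_lit 7347382132) (nat_lit 76) (nat_lit 27214681869) (nat_lit 14) (nat_lit 5) (nat_lit 17) (nat_lit 5) (nat_lit 15) (nat_lit 4) (nat_lit 319) (nat_lit 263) (nat_lit 138)) (XT.nd (nat_lit 78) (nat_lit 0) (nat_lit 0) (XT.lf (nat_lit 0) (nat_lit 16415184097) (nat_lit 76) (nat_lit 37565233108) (nat_lit 152) (nat_lit 26097480148) (nat_lit 13) (nat_lit 5) (nat_lit 14) (nat_lit 5) (nat_lit 15) (nat_lit 4) (nat_lit 320) (nat_lit 263) (nat_lit 137)) (XT.lf (nat_lit 0) (nat_lit 41615910176) (nat_lit 76) (nat_lit 24662236182) (nat_lit 152) (nat_lit 17082110628) (nat_lit 13) (nat_lit 5) (nat_lit 14) (nat_lit 5) (nat_lit 15) (nat_lit 4) (nat_lit 321) (nat_lit 263) (nat_lit 136))))))) (XT.nd (nat_lit 702) (nat_lit 228) (nat_lit 0) (XT.nd (nat_lit 312) (nat_lit 76) (nat_lit 0) (XT.nd (nat_lit 156) (nat_lit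 0) (nat_lit 0) (XT.nd (nat_lit 78) (nat_lit 152) (nat_lit 0) (XT.lf (nat_lit 0) (nat_lit 68071860199) (nat_lit 76) (nat_lit 11116096244) (nat_lit 152) (nat_lit 7618921744) (nat_lit 13) (nat_lit 5) (nat_lit 14) (nat_lit 5) (nat_lit 15) (nat_lit 4) (nat_lit 322) (nat_lit 263) (nat_lit 135)) (XT.lf (nat_lit 0) (nat_lit 2377873686) (nat_lit 152) (nat_lit 84908382695) (nat_lit 76) (nat_lit 3131037035) (nat_lit 11) (nat_lit 5) (nat_lit 13) (nat_lit 5) (nat_lit 12) (nat_lit 4) (nat_lit 323) (nat_lit 263) (nat_lit 134))) (XT.nd (nat_lit 78) (nat_lit 0) (nat_lit 0) (XT.lf (nat_lit 0) (nat_lit 13120490828) (nat_lit 152) (nat_lit 62893930867) (nat_lit 76) (nat_lit 18162464169) (nat_lit 11) (nat_lit 5) (nat_lit 13) (nat_lit 5) (nat_lit 12) (nat_lit 4) (nat_lit 324) (nat_lit 263) (nat_lit 133)) (XT.lf (nat_lit 0) (nat_lit 24397675562) (nat_lit 152) (nat_lit 39783238654) (nat_lit 76) (nat_lit 33943674609)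 (nat_lit 11) (nat_lit 5) (nat_lit 13) (nat_lit 5) (nat_lit 12) (nat_lit 4) (nat_lit 325) (nat_lit 263) (nat_lit 132)))) (XT.nd (nat_lit 156) (nat_lit 0) (nat_lit 0) (XT.nd (nat_lit 78) (nat_lit 76) (nat_lit 0) (XT.lf (nat_lit 0) (nat_lit 36236278326) (nat_lit 152) (nat_lit 15521280597) (nat_lit 76) (nat_lit 50512242665) (nat_lit 11) (nat_lit 5) (nat_lit 13) (nat_lit 5) (nat_lit 12) (nat_lit 4) (nat_lit 326) (nat_lit 263) (nat_lit 131)) (XT.lf (nat_lit 0) (nat_lit 10278692213) (nat_lit 76) (nat_lit 38546273249) (nat_lit 152) (nat_lit 57789404288) (nat_lit 10) (nat_lit 5) (nat_lit 11) (nat_lit 5) (nat_lit 12) (nat_lit 4) (nat_lit 327) (nat_lit 263) (nat_lit 130))) (XT.nd (nat_lit 78) (nat_lit 0) (nat_lit 0) (XT.lf (nat_lit 0) (nat_lit 37903527558) (nat_lit 76) (nat_lit 24400143099) (nat_lit 152) (nat_lit 48859468831) (nat_lit 10) (nat_lit 5) (nat_lit 11) (nat_lit 5) (nat_lit 12) (nat_lit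 4) (nat_lit 328) (nat_lit 263) (nat_lit 129)) (XT.nd (nat_lit 78) (nat_lit 0) (nat_lit 0) (XT.lf (nat_lit 0) (nat_lit 66905795222) (nat_lit 76) (nat_lit 9548347607) (nat_lit 152) (nat_lit 39485315540) (nat_lit 10) (nat_lit 5) (nat_lit 11) (nat_lit 5) (nat_lit 12) (nat_lit 4) (nat_lit 329) (nat_lit 263) (nat_lit 128)) (XT.lf (nat_lit 0) (nat_lit 91404444770) (nat_lit 152) (nat_lit 23694521545) (nat_lit 0) (nat_lit 5851013706) (nat_lit 10) (nat_lit 5) (nat_lit 12) (nat_lit 4) (nat_lit 10) (nat_lit 4) (nat_lit 330) (nat_lit 263) (nat_lit 127)))))) (XT.nd (nat_lit 312) (nat_lit 76) (nat_lit 0) (XT.nd (nat_lit 156) (nat_lit 76) (nat_lit 0) (XT.nd (nat_lit 78) (nat_lit 0) (nat_lit 0) (XT.lf (nat_lit 0) (nat_lit 2842491933) (nat_lit 76) (nat_lit 104458689491) (nat_lit 76) (nat_lit 18899902384) (nat_lit 9) (nat_lit 4) (nat_lit 10) (nat_lit 5) (nat_lit 10) (nat_lit 4) (nat_lit 331) (nat_lit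 263) (nat_lit 126)) (XT.lf (nat_lit 0) (nat_lit 31525500936) (nat_lit 76) (nat_lit 92866582724) (nat_lit 76) (nat_lit 7302694624) (nat_lit 9) (nat_lit 4) (nat_lit 10) (nat_lit 5) (nat_lit 10) (nat_lit 4) (nat_lit 332) (nat_lit 263) (nat_lit 125))) (XT.nd (nat_lit 78) (nat_lit 0) (nat_lit 0) (XT.lf (nat_lit 0) (nat_lit 4716474300) (nat_lit 152) (nat_lit 75899973872) (nat_lit 76) (nat_lit 56843000377) (nat_lit 8) (nat_lit 5) (nat_lit 10) (nat_lit 5) (nat_lit 9) (nat_lit 4) (nat_lit 333) (nat_lit 263) (nat_lit 124)) (XT.lf (nat_lit 0) (nat_lit 17089384360) (nat_lit 152) (nat_lit 50540135001) (nat_lit 76) (nat_lit 75876938770) (nat_lit 8) (nat_lit 5) (nat_lit 10) (nat_lit 5) (nat_lit 9) (nat_lit 4) (nat_lit 334) (nat_lit 263) (nat_lit 123)))) (XT.nd (nat_lit 156) (nat_lit 0) (nat_lit 0) (XT.nd (nat_lit 78) (nat_lit 76) (nat_lit 0) (XT.lf (nat_lit 0) (nat_lit 30079226698) (nat_lit 152) (nat_lit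 23915364636) (nat_lit 76) (nat_lit 95861314110) (nat_lit 8) (nat_lit 5) (nat_lit 10) (nat_lit 5) (nat_lit 9) (nat_lit 4) (nat_lit 335) (nat_lit 263) (nat_lit 122)) (XT.lf (nat_lit 0) (nat_lit 4171235103) (nat_lit 76) (nat_lit 39610819078) (nat_lit 152) (nat_lit 112737597809) (nat_lit 7) (nat_lit 5) (nat_lit 8) (nat_lit 5) (nat_lit 9) (nat_lit 4) (nat_lit 336) (nat_lit 263) (nat_lit 121))) (XT.nd (nat_lit 78) (nat_lit 0) (nat_lit 0) (XT.lf (nat_lit 0) (nat_lit 34489584586) (nat_lit 76) (nat_lit 24083858007) (nat_lit 152) (nat_lit 104922973738) (nat_lit 7) (nat_lit 5) (nat_lit 8) (nat_lit 5) (nat_lit 9) (nat_lit 4) (nat_lit 337) (nat_lit 263) (nat_lit 120)) (XT.nd (nat_lit 78) (nat_lit 0) (nat_lit 0) (XT.lf (nat_lit 0) (nat_lit 66321120396) (nat_lit 76) (nat_lit 7781757441) (nat_lit 152) (nat_lit 96719218557) (nat_lit 7) (nat_lit 5) (nat_lit 8) (nat_lit 5) (nat_lit 9) (nat_lit 4) (nat_lit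 338) (nat_lit 263) (nat_lit 119)) (XT.lf (nat_lit 0) (nat_lit 90553069297) (nat_lit 152) (nat_lit 78918236908) (nat_lit 0) (nat_lit 9035541343) (nat_lit 7) (nat_lit 5) (nat_lit 9) (nat_lit 4) (nat_lit 7) (nat_lit 4) (nat_lit 339) (nat_lit 263) (nat_lit 118))))))))
noncomputable def xc181 : XT := (XT.nd (nat_lit 31590) (nat_lit 0) (nat_lit 4180) (XT.nd (nat_lit 702) (nat_lit 76) (nat_lit 0) (XT.nd (nat_lit 312) (nat_lit 76) (nat_lit 0) (XT.nd (nat_lit 156) (nat_lit 76) (nat_lit 0) (XT.nd (nat_lit 78) (nat_lit 0) (nat_lit 0) (XT.lf (nat_lit 0) (nat_lit 107951941977) (nat_lit 152) (nat_lit 52186461073) (nat_lit 0) (nat_lit 26431125877) (nat_lit 7) (nat_lit 5) (nat_lit 9) (nat_lit 4) (nat_lit 7) (nat_lit 4) (nat_lit 340) (nat_lit 263) (nat_lit 117)) (XT.lf (nat_lit 0) (nat_lit 126219426721) (nat_lit 152) (nat_lit 24120506364) (nat_lit 0) (nat_lit 44695479054) (nat_lit 7) (nat_lit 5) (nat_lit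 9) (nat_lit 4) (nat_lit 7) (nat_lit 4) (nat_lit 341) (nat_lit 263) (nat_lit 116))) (XT.nd (nat_lit 78) (nat_lit 0) (nat_lit 0) (XT.lf (nat_lit 0) (nat_lit 5523228729) (nat_lit 76) (nat_lit 139962021892) (nat_lit 76) (nat_lit 58435091780) (nat_lit 6) (nat_lit 4) (nat_lit 7) (nat_lit 5) (nat_lit 7) (nat_lit 4) (nat_lit 342) (nat_lit 263) (nat_lit 115)) (XT.lf (nat_lit 0) (nat_lit 37484301952) (nat_lit 76) (nat_lit 128637313184) (nat_lit 76) (nat_lit 47107542647) (nat_lit 6) (nat_lit 4) (nat_lit 7) (nat_lit 5) (nat_lit 7) (nat_lit 4) (nat_lit 343) (nat_lit 263) (nat_lit 114)))) (XT.nd (nat_lit 156) (nat_lit 76) (nat_lit 0) (XT.nd (nat_lit 78) (nat_lit 0) (nat_lit 0) (XT.lf (nat_lit 0) (nat_lit 71041278224) (nat_lit 76) (nat_lit 116747335815) (nat_lit 76) (nat_lit 35214860113) (nat_lit 6) (nat_lit 4) (nat_lit 7) (nat_lit 5) (nat_lit 7) (nat_lit 4) (nat_lit 344) (nat_lit 263) (nat_lit 113))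 (XT.lf (nat_lit 0) (nat_lit 106274055108) (nat_lit 76) (nat_lit 104263780317) (nat_lit 76) (nat_lit 22728728267) (nat_lit 6) (nat_lit 4) (nat_lit 7) (nat_lit 5) (nat_lit 7) (nat_lit 4) (nat_lit 345) (nat_lit 263) (nat_lit 112))) (XT.nd (nat_lit 78) (nat_lit 76) (nat_lit 0) (XT.lf (nat_lit 0) (nat_lit 143266520167) (nat_lit 76) (nat_lit 91156923938) (nat_lit 76) (nat_lit 9619418223) (nat_lit 6) (nat_lit 4) (nat_lit 7) (nat_lit 5) (nat_lit 7) (nat_lit 4) (nat_lit 346) (nat_lit 263) (nat_lit 111)) (XT.nd (nat_lit 78) (nat_lit 0) (nat_lit 0) (XT.lf (nat_lit 0) (nat_lit 4011639735) (nat_lit 152) (nat_lit 73315981082) (nat_lit 76) (nat_lit 178027171905) (nat_lit 5) (nat_lit 5) (nat_lit 7) (nat_lit 5) (nat_lit 6) (nat_lit 4) (nat_lit 347) (nat_lit 263) (nat_lit 110)) (XT.lf (nat_lit 0) (nat_lit 17999984331) (nat_lit 152) (nat_lit 44642100206) (nat_lit 76) (nat_lit 204582400670) (nat_lit 5)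 (nat_lit 5) (nat_lit 7) (nat_lit 5) (nat_lit 6) (nat_lit 4) (nat_lit 348) (nat_lit 263) (nat_lit 109)))))) (XT.nd (nat_lit 312) (nat_lit 0) (nat_lit 0) (XT.nd (nat_lit 156) (nat_lit 0) (nat_lit 0) (XT.nd (nat_lit 78) (nat_lit 76) (nat_lit 0) (XT.lf (nat_lit 0) (nat_lit 32686802606) (nat_lit 152) (nat_lit 14536242311) (nat_lit 76) (nat_lit 232464665345) (nat_lit 5) (nat_lit 5) (nat_lit 7) (nat_lit 5) (nat_lit 6) (nat_lit 4) (nat_lit 349) (nat_lit 263) (nat_lit 108)) (XT.lf (nat_lit 0) (nat_lit 17637792733) (nat_lit 76) (nat_lit 30744645814) (nat_lit 152) (nat_lit 244377934912) (nat_lit 4) (nat_lit 5) (nat_lit 5) (nat_lit 5) (nat_lit 6) (nat_lit 4) (nat_lit 350) (nat_lit 263) (nat_lit 107))) (XT.nd (nat_lit 78) (nat_lit 0) (nat_lit 0) (XT.lf (nat_lit 0) (nat_lit 51923586153) (nat_lit 76) (nat_lit 13184567482) (nat_lit 152) (nat_lit 241366252011) (nat_lit 4) (nat_lit 5) (nat_lit 5) (nat_lit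 5) (nat_lit 6) (nat_lit 4) (nat_lit 351) (nat_lit 263) (nat_lit 106)) (XT.lf (nat_lit 0) (nat_lit 82751326745) (nat_lit 152) (nat_lit 233034056347) (nat_lit 0) (nat_lit 5084698399) (nat_lit 4) (nat_lit 5) (nat_lit 6) (nat_lit 4) (nat_lit 4) (nat_lit 4) (nat_lit 352) (nat_lit 263) (nat_lit 105)))) (XT.nd (nat_lit 156) (nat_lit 0) (nat_lit 0) (XT.nd (nat_lit 78) (nat_lit 0) (nat_lit 0) (XT.lf (nat_lit 0) (nat_lit 101491989604) (nat_lit 152) (nat_lit 210659085077) (nat_lit 0) (nat_lit 23823700521) (nat_lit 4) (nat_lit 5) (nat_lit 6) (nat_lit 4) (nat_lit 4) (nat_lit 4) (nat_lit 353) (nat_lit 263) (nat_lit 104)) (XT.lf (nat_lit 0) (nat_lit 121168914793) (nat_lit 152) (nat_lit 187166783892) (nat_lit 0) (nat_lit 43499044056) (nat_lit 4) (nat_lit 5) (nat_lit 6) (nat_lit 4) (nat_lit 4) (nat_lit 4) (nat_lit 354) (nat_lit 263) (nat_lit 103))) (XT.nd (nat_lit 78) (nat_lit 0) (nat_lit 0) (XT.lf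 (nat_lit 0) (nat_lit 141828952133) (nat_lit 152) (nat_lit 162501218743) (nat_lit 0) (nat_lit 64157575058) (nat_lit 4) (nat_lit 5) (nat_lit 6) (nat_lit 4) (nat_lit 4) (nat_lit 4) (nat_lit 355) (nat_lit 263) (nat_lit 102)) (XT.nd (nat_lit 78) (nat_lit 0) (nat_lit 0) (XT.lf (nat_lit 0) (nat_lit 163521292189) (nat_lit 152) (nat_lit 136603662093) (nat_lit 0) (nat_lit 85848480507) (nat_lit 4) (nat_lit 5) (nat_lit 6) (nat_lit 4) (nat_lit 4) (nat_lit 4) (nat_lit 356) (nat_lit 263) (nat_lit 101)) (XT.lf (nat_lit 0) (nat_lit 186297583390) (nat_lit 152) (nat_lit 109412453094) (nat_lit 0) (nat_lit 108623405415) (nat_lit 4) (nat_lit 5) (nat_lit 6) (nat_lit 4) (nat_lit 4) (nat_lit 4) (nat_lit 357) (nat_lit 263) (nat_lit 100))))))) (XT.nd (nat_lit 702) (nat_lit 1216) (nat_lit 0) (XT.nd (nat_lit 312) (nat_lit 0) (nat_lit 76) (XT.nd (nat_lit 156) (nat_lit 0) (nat_lit 0) (XT.nd (nat_lit 78) (nat_lit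 0) (nat_lit 0) (XT.lf (nat_lit 0) (nat_lit 663324498) (nat_lit 0) (nat_lit 663324498) (nat_lit 684) (nat_lit 5411152539) (nat_lit 75) (nat_lit 5) (nat_lit 75) (nat_lit 3) (nat_lit 84) (nat_lit 3) (nat_lit 264) (nat_lit 264) (nat_lit 192)) (XT.lf (nat_lit 0) (nat_lit 3133137739) (nat_lit 684) (nat_lit 6365000368) (nat_lit 760) (nat_lit 4292664879) (nat_lit 75) (nat_lit 5) (nat_lit 84) (nat_lit 3) (nat_lit 85) (nat_lit 5) (nat_lit 265) (nat_lit 264) (nat_lit 191))) (XT.nd (nat_lit 78) (nat_lit 0) (nat_lit 76) (XT.lf (nat_lit 0) (nat_lit 3636852220) (nat_lit 684) (nat_lit 325955009) (nat_lit 760) (nat_lit 10159026489) (nat_lit 75) (nat_lit 5) (nat_lit 84) (nat_lit 3) (nat_lit 85) (nat_lit 5) (nat_lit 266) (nat_lit 264) (nat_lit 190)) (XT.lf (nat_lit 0) (nat_lit 4272356347) (nat_lit 684) (nat_lit 8294510312) (nat_lit 760) (nat_lit 1897280998) (nat_lit 76) (nat_lit 5) (nat_lit 85) (nat_lit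 5) (nat_lit 86) (nat_lit 5) (nat_lit 267) (nat_lit 264) (nat_lit 189)))) (XT.nd (nat_lit 156) (nat_lit 0) (nat_lit 76) (XT.nd (nat_lit 78) (nat_lit 0) (nat_lit 0) (XT.lf (nat_lit 0) (nat_lit 4990328588) (nat_lit 684) (nat_lit 1899800770) (nat_lit 760) (nat_lit 7930972210) (nat_lit 76) (nat_lit 5) (nat_lit 85) (nat_lit 5) (nat_lit 86) (nat_lit 5) (nat_lit 268) (nat_lit 264) (nat_lit 188)) (XT.lf (nat_lit 76) (nat_lit 4961273431) (nat_lit 0) (nat_lit 841450302) (nat_lit 760) (nat_lit 9390309342) (nat_lit 77) (nat_lit 5) (nat_lit 76) (nat_lit 5) (nat_lit 86) (nat_lit 5) (nat_lit 269) (nat_lit 264) (nat_lit 187))) (XT.nd (nat_lit 78) (nat_lit 0) (nat_lit 0) (XT.lf (nat_lit 0) (nat_lit 6756338792) (nat_lit 684) (nat_lit 3450171516) (nat_lit 760) (nat_lit 5372074283) (nat_lit 77) (nat_lit 5) (nat_lit 86) (nat_lit 5) (nat_lit 87) (nat_lit 5) (nat_lit 270) (nat_lit 264) (nat_lit 186)) (XT.nd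 (nat_lit 78) (nat_lit 0) (nat_lit 76) (XT.lf (nat_lit 76) (nat_lit 3764790484) (nat_lit 0) (nat_lit 4048157689) (nat_lit 760) (nat_lit 8167750729) (nat_lit 78) (nat_lit 5) (nat_lit 77) (nat_lit 5) (nat_lit 87) (nat_lit 5) (nat_lit 271) (nat_lit 264) (nat_lit 185)) (XT.lf (nat_lit 0) (nat_lit 9002970412) (nat_lit 684) (nat_lit 4991582901) (nat_lit 760) (nat_lit 2404384971) (nat_lit 78) (nat_lit 5) (nat_lit 87) (nat_lit 5) (nat_lit 88) (nat_lit 5) (nat_lit 272) (nat_lit 264) (nat_lit 184)))))) (XT.nd (nat_lit 312) (nat_lit 836) (nat_lit 0) (XT.nd (nat_lit 156) (nat_lit 608) (nat_lit 0) (XT.nd (nat_lit 78) (nat_lit 0) (nat_lit 0) (XT.lf (nat_lit 76) (nat_lit 2598224736) (nat_lit 0) (nat_lit 7745427050) (nat_lit 760) (nat_lit 6489926114) (nat_lit 79) (nat_lit 5) (nat_lit 78) (nat_lit 5) (nat_lit 88) (nat_lit 5) (nat_lit 273) (nat_lit 264) (nat_lit 183)) (XT.lf (nat_lit 76) (nat_lit 10728491013)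 (nat_lit 0) (nat_lit 1092198814) (nat_lit 760) (nat_lit 5465837506) (nat_lit 79) (nat_lit 5) (nat_lit 78) (nat_lit 5) (nat_lit 88) (nat_lit 5) (nat_lit 274) (nat_lit 264) (nat_lit 182))) (XT.nd (nat_lit 78) (nat_lit 0) (nat_lit 0) (XT.lf (nat_lit 0) (nat_lit 1444822348) (nat_lit 684) (nat_lit 12026887181) (nat_lit 760) (nat_lit 4285450094) (nat_lit 70) (nat_lit 5) (nat_lit 79) (nat_lit 5) (nat_lit 80) (nat_lit 5) (nat_lit 275) (nat_lit 264) (nat_lit 181)) (XT.lf (nat_lit 0) (nat_lit 10044659350) (nat_lit 684) (nat_lit 5275350571) (nat_lit 760) (nat_lit 2925617002) (nat_lit 70) (nat_lit 5) (nat_lit 79) (nat_lit 5) (nat_lit 80) (nat_lit 5) (nat_lit 276) (nat_lit 264) (nat_lit 180)))) (XT.nd (nat_lit 156) (nat_lit 380) (nat_lit 0) (XT.nd (nat_lit 78) (nat_lit 76) (nat_lit 0) (XT.lf (nat_lit 0) (nat_lit 284264958) (nat_lit 380) (nat_lit 16995954647) (nat_lit 456) (nat_lit 1477361250) (nat_lit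 65) (nat_lit 5) (nat_lit 70) (nat_lit 5) (nat_lit 71) (nat_lit 5) (nat_lit 277) (nat_lit 264) (nat_lit 179)) (XT.lf (nat_lit 0) (nat_lit 256499222) (nat_lit 456) (nat_lit 9911895185) (nat_lit 76) (nat_lit 9116009818) (nat_lit 64) (nat_lit 5) (nat_lit 70) (nat_lit 5) (nat_lit 65) (nat_lit 5) (nat_lit 278) (nat_lit 264) (nat_lit 178))) (XT.nd (nat_lit 78) (nat_lit 380) (nat_lit 0) (XT.lf (nat_lit 0) (nat_lit 2014958630) (nat_lit 456) (nat_lit 958766391) (nat_lit 76) (nat_lit 16863287851) (nat_lit 64) (nat_lit 5) (nat_lit 70) (nat_lit 5) (nat_lit 65) (nat_lit 5) (nat_lit 279) (nat_lit 264) (nat_lit 177)) (XT.nd (nat_lit 78) (nat_lit 0) (nat_lit 0) (XT.lf (nat_lit 0) (nat_lit 4059214414) (nat_lit 456) (nat_lit 11775625803) (nat_lit 76) (nat_lit 4572549311) (nat_lit 59) (nat_lit 5) (nat_lit 65) (nat_lit 5) (nat_lit 60) (nat_lit 5) (nat_lit 280) (nat_lit 264) (nat_lit 176)) (XT.lf (nat_lit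 0) (nat_lit 6259471588) (nat_lit 456) (nat_lit 2331365870) (nat_lit 76) (nat_lit 12412787889) (nat_lit 59) (nat_lit 5) (nat_lit 65) (nat_lit 5) (nat_lit 60) (nat_lit 5) (nat_lit 281) (nat_lit 264) (nat_lit 175))))))))
noncomputable def xc182 : XT := (XT.nd (nat_lit 1404) (nat_lit 988) (nat_lit 0) (XT.nd (nat_lit 702) (nat_lit 836) (nat_lit 0) (XT.nd (nat_lit 312) (nat_lit 836) (nat_lit 0) (XT.nd (nat_lit 156) (nat_lit 304) (nat_lit 0) (XT.nd (nat_lit 78) (nat_lit 0) (nat_lit 0) (XT.lf (nat_lit 0) (nat_lit 7824114746) (nat_lit 304) (nat_lit 856864806) (nat_lit 380) (nat_lit 12943159847) (nat_lit 55) (nat_lit 5) (nat_lit 59) (nat_lit 5) (nat_lit 60) (nat_lit 5) (nat_lit 282) (nat_lit 264) (nat_lit 174)) (XT.lf (nat_lit 0) (nat_lit 11366517323) (nat_lit 380) (nat_lit 3831225725) (nat_lit 76) (nat_lit 7070815380) (nat_lit 55) (nat_lit 5) (nat_lit 60) (nat_lit 5) (nat_lit 56) (nat_lit 5)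 (nat_lit 283) (nat_lit 264) (nat_lit 173))) (XT.nd (nat_lit 78) (nat_lit 0) (nat_lit 0) (XT.lf (nat_lit 0) (nat_lit 6829333974) (nat_lit 304) (nat_lit 7467589977) (nat_lit 380) (nat_lit 8642770565) (nat_lit 51) (nat_lit 5) (nat_lit 55) (nat_lit 5) (nat_lit 56) (nat_lit 5) (nat_lit 284) (nat_lit 264) (nat_lit 172)) (XT.lf (nat_lit 0) (nat_lit 17440140088) (nat_lit 380) (nat_lit 5507933646) (nat_lit 76) (nat_lit 693023698) (nat_lit 51) (nat_lit 5) (nat_lit 56) (nat_lit 5) (nat_lit 52) (nat_lit 5) (nat_lit 285) (nat_lit 264) (nat_lit 171)))) (XT.nd (nat_lit 156) (nat_lit 608) (nat_lit 0) (XT.nd (nat_lit 78) (nat_lit 0) (nat_lit 0) (XT.lf (nat_lit 0) (nat_lit 5672782307) (nat_lit 228) (nat_lit 15269396582) (nat_lit 304) (nat_lit 3425331830) (nat_lit 48) (nat_lit 5) (nat_lit 51) (nat_lit 5) (nat_lit 52) (nat_lit 5) (nat_lit 286) (nat_lit 264) (nat_lit 170)) (XT.lf (nat_lit 0) (nat_lit 17592956887)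 (nat_lit 228) (nat_lit 7110592042) (nat_lit 304) (nat_lit 422506481) (nat_lit 48) (nat_lit 5) (nat_lit 51) (nat_lit 5) (nat_lit 52) (nat_lit 5) (nat_lit 287) (nat_lit 264) (nat_lit 169))) (XT.nd (nat_lit 78) (nat_lit 228) (nat_lit 0) (XT.lf (nat_lit 0) (nat_lit 2725452897) (nat_lit 380) (nat_lit 21671964929) (nat_lit 76) (nat_lit 1518878919) (nat_lit 43) (nat_lit 5) (nat_lit 48) (nat_lit 5) (nat_lit 44) (nat_lit 5) (nat_lit 288) (nat_lit 264) (nat_lit 168)) (XT.nd (nat_lit 78) (nat_lit 228) (nat_lit 0) (XT.lf (nat_lit 0) (nat_lit 6254291111) (nat_lit 380) (nat_lit 10003931579) (nat_lit 76) (nat_lit 10475616329) (nat_lit 43) (nat_lit 5) (nat_lit 48) (nat_lit 5) (nat_lit 44) (nat_lit 5) (nat_lit 289) (nat_lit 264) (nat_lit 167)) (XT.lf (nat_lit 0) (nat_lit 2311149637) (nat_lit 228) (nat_lit 7676357199) (nat_lit 304) (nat_lit 17603373061) (nat_lit 40) (nat_lit 5) (nat_lit 43) (nat_lit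 5) (nat_lit 44) (nat_lit 5) (nat_lit 290) (nat_lit 264) (nat_lit 166)))))) (XT.nd (nat_lit 312) (nat_lit 608) (nat_lit 0) (XT.nd (nat_lit 156) (nat_lit 228) (nat_lit 0) (XT.nd (nat_lit 78) (nat_lit 0) (nat_lit 0) (XT.lf (nat_lit 0) (nat_lit 14092465542) (nat_lit 304) (nat_lit 12927154031) (nat_lit 76) (nat_lit 1461916536) (nat_lit 40) (nat_lit 5) (nat_lit 44) (nat_lit 5) (nat_lit 41) (nat_lit 5) (nat_lit 291) (nat_lit 264) (nat_lit 165)) (XT.lf (nat_lit 0) (nat_lit 18520939341) (nat_lit 304) (nat_lit 92825999) (nat_lit 76) (nat_lit 10797063004) (nat_lit 40) (nat_lit 5) (nat_lit 44) (nat_lit 5) (nat_lit 41) (nat_lit 5) (nat_lit 292) (nat_lit 264) (nat_lit 164))) (XT.nd (nat_lit 78) (nat_lit 0) (nat_lit 0) (XT.lf (nat_lit 0) (nat_lit 13815854845) (nat_lit 228) (nat_lit 9563472140) (nat_lit 304) (nat_lit 6996849480) (nat_lit 37) (nat_lit 5) (nat_lit 40) (nat_lit 5) (nat_lit 41) (nat_lit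 5) (nat_lit 293) (nat_lit 264) (nat_lit 163)) (XT.lf (nat_lit 0) (nat_lit 28413789363) (nat_lit 228) (nat_lit 61399360) (nat_lit 304) (nat_lit 2914890564) (nat_lit 37) (nat_lit 5) (nat_lit 40) (nat_lit 5) (nat_lit 41) (nat_lit 5) (nat_lit 294) (nat_lit 264) (nat_lit 162)))) (XT.nd (nat_lit 156) (nat_lit 380) (nat_lit 0) (XT.nd (nat_lit 78) (nat_lit 0) (nat_lit 0) (XT.lf (nat_lit 0) (nat_lit 1660130747) (nat_lit 228) (nat_lit 20974459069) (nat_lit 76) (nat_lit 9802388161) (nat_lit 34) (nat_lit 5) (nat_lit 37) (nat_lit 5) (nat_lit 35) (nat_lit 5) (nat_lit 295) (nat_lit 264) (nat_lit 161)) (XT.lf (nat_lit 0) (nat_lit 6411519936) (nat_lit 228) (nat_lit 6866073123) (nat_lit 76) (nat_lit 20253973460) (nat_lit 34) (nat_lit 5) (nat_lit 37) (nat_lit 5) (nat_lit 35) (nat_lit 5) (nat_lit 296) (nat_lit 264) (nat_lit 160))) (XT.nd (nat_lit 78) (nat_lit 152) (nat_lit 0) (XT.lf (nat_lit 0) (nat_lit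 8201318811) (nat_lit 228) (nat_lit 3320861041) (nat_lit 304) (nat_lit 23152631938) (nat_lit 31) (nat_lit 5) (nat_lit 34) (nat_lit 5) (nat_lit 35) (nat_lit 5) (nat_lit 297) (nat_lit 264) (nat_lit 159)) (XT.nd (nat_lit 78) (nat_lit 152) (nat_lit 0) (XT.lf (nat_lit 0) (nat_lit 17111717083) (nat_lit 304) (nat_lit 11731277272) (nat_lit 76) (nat_lit 7021069530) (nat_lit 31) (nat_lit 5) (nat_lit 35) (nat_lit 5) (nat_lit 32) (nat_lit 5) (nat_lit 298) (nat_lit 264) (nat_lit 158)) (XT.lf (nat_lit 0) (nat_lit 3806838672) (nat_lit 152) (nat_lit 19281845074) (nat_lit 228) (nat_lit 14018708427) (nat_lit 29) (nat_lit 5) (nat_lit 31) (nat_lit 5) (nat_lit 32) (nat_lit 5) (nat_lit 299) (nat_lit 264) (nat_lit 157))))))) (XT.nd (nat_lit 702) (nat_lit 456) (nat_lit 0) (XT.nd (nat_lit 312) (nat_lit 304) (nat_lit 0) (XT.nd (nat_lit 156) (nat_lit 228) (nat_lit 0) (XT.nd (nat_lit 78) (nat_lit 0) (nat_lit 0)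 (XT.lf (nat_lit 0) (nat_lit 20520669974) (nat_lit 152) (nat_lit 9036730188) (nat_lit 228) (nat_lit 8845852324) (nat_lit 29) (nat_lit 5) (nat_lit 31) (nat_lit 5) (nat_lit 32) (nat_lit 5) (nat_lit 300) (nat_lit 264) (nat_lit 156)) (XT.lf (nat_lit 0) (nat_lit 36370877751) (nat_lit 228) (nat_lit 1728892317) (nat_lit 76) (nat_lit 1663079652) (nat_lit 29) (nat_lit 5) (nat_lit 32) (nat_lit 5) (nat_lit 30) (nat_lit 5) (nat_lit 301) (nat_lit 264) (nat_lit 155))) (XT.nd (nat_lit 78) (nat_lit 0) (nat_lit 0) (XT.lf (nat_lit 0) (nat_lit 2652235891) (nat_lit 228) (nat_lit 25638998247) (nat_lit 76) (nat_lit 12877761654) (nat_lit 26) (nat_lit 5) (nat_lit 29) (nat_lit 5) (nat_lit 27) (nat_lit 5) (nat_lit 302) (nat_lit 264) (nat_lit 154)) (XT.lf (nat_lit 0) (nat_lit 8909182600) (nat_lit 228) (nat_lit 8996189765) (nat_lit 76) (nat_lit 24736079236) (nat_lit 26) (nat_lit 5) (nat_lit 29) (nat_lit 5) (nat_lit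 27) (nat_lit 5) (nat_lit 303) (nat_lit 264) (nat_lit 153)))) (XT.nd (nat_lit 156) (nat_lit 152) (nat_lit 0) (XT.nd (nat_lit 78) (nat_lit 0) (nat_lit 0) (XT.lf (nat_lit 0) (nat_lit 8751260190) (nat_lit 152) (nat_lit 6859358947) (nat_lit 228) (nat_lit 28570337310) (nat_lit 24) (nat_lit 5) (nat_lit 26) (nat_lit 5) (nat_lit 27) (nat_lit 5) (nat_lit 304) (nat_lit 264) (nat_lit 152)) (XT.lf (nat_lit 0) (nat_lit 22871059401) (nat_lit 228) (nat_lit 18175576935) (nat_lit 76) (nat_lit 4739611574) (nat_lit 24) (nat_lit 5) (nat_lit 27) (nat_lit 5) (nat_lit 25) (nat_lit 5) (nat_lit 305) (nat_lit 264) (nat_lit 151))) (XT.nd (nat_lit 78) (nat_lit 152) (nat_lit 0) (XT.lf (nat_lit 0) (nat_lit 30602295026) (nat_lit 228) (nat_lit 178516524) (nat_lit 76) (nat_lit 16685611320) (nat_lit 24) (nat_lit 5) (nat_lit 27) (nat_lit 5) (nat_lit 25) (nat_lit 5) (nat_lit 306) (nat_lit 264) (nat_lit 150)) (XT.nd (nat_lit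 78) (nat_lit 0) (nat_lit 0) (XT.lf (nat_lit 0) (nat_lit 19330113278) (nat_lit 152) (nat_lit 19687323861) (nat_lit 228) (nat_lit 10198309433) (nat_lit 22) (nat_lit 5) (nat_lit 24) (nat_lit 5) (nat_lit 25) (nat_lit 5) (nat_lit 307) (nat_lit 264) (nat_lit 149)) (XT.lf (nat_lit 0) (nat_lit 39813516677) (nat_lit 152) (nat_lit 8038495404) (nat_lit 228) (nat_lit 3200597478) (nat_lit 22) (nat_lit 5) (nat_lit 24) (nat_lit 5) (nat_lit 25) (nat_lit 5) (nat_lit 308) (nat_lit 264) (nat_lit 148)))))) (XT.nd (nat_lit 312) (nat_lit 152) (nat_lit 0) (XT.nd (nat_lit 156) (nat_lit 152) (nat_lit 0) (XT.nd (nat_lit 78) (nat_lit 0) (nat_lit 0) (XT.lf (nat_lit 0) (nat_lit 4212086177) (nat_lit 152) (nat_lit 44498554911) (nat_lit 76) (nat_lit 4257552739) (nat_lit 20) (nat_lit 5) (nat_lit 22) (nat_lit 5) (nat_lit 21) (nat_lit 5) (nat_lit 309) (nat_lit 264) (nat_lit 147)) (XT.lf (nat_lit 0) (nat_lit 12208926533)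 (nat_lit 152) (nat_lit 25610145437) (nat_lit 76) (nat_lit 17141813665) (nat_lit 20) (nat_lit 5) (nat_lit 22) (nat_lit 5) (nat_lit 21) (nat_lit 5) (nat_lit 310) (nat_lit 264) (nat_lit 146))) (XT.nd (nat_lit 78) (nat_lit 152) (nat_lit 0) (XT.lf (nat_lit 0) (nat_lit 20601651926) (nat_lit 152) (nat_lit 5783735102) (nat_lit 76) (nat_lit 30668028520) (nat_lit 20) (nat_lit 5) (nat_lit 22) (nat_lit 5) (nat_lit 21) (nat_lit 5) (nat_lit 311) (nat_lit 264) (nat_lit 145)) (XT.lf (nat_lit 0) (nat_lit 15524771474) (nat_lit 152) (nat_lit 14127858754) (nat_lit 228) (nat_lit 29586016293) (nat_lit 18) (nat_lit 5) (nat_lit 20) (nat_lit 5) (nat_lit 21) (nat_lit 5) (nat_lit 312) (nat_lit 264) (nat_lit 144)))) (XT.nd (nat_lit 156) (nat_lit 152) (nat_lit 0) (XT.nd (nat_lit 78) (nat_lit 0) (nat_lit 0) (XT.lf (nat_lit 0) (nat_lit 38093486298) (nat_lit 152) (nat_lit 1156938485) (nat_lit 228) (nat_lit 22278006029)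 (nat_lit 18) (nat_lit 5) (nat_lit 20) (nat_lit 5) (nat_lit 21) (nat_lit 5) (nat_lit 313) (nat_lit 264) (nat_lit 143)) (XT.lf (nat_lit 0) (nat_lit 49519141741) (nat_lit 228) (nat_lit 2342516897) (nat_lit 76) (nat_lit 12061498940) (nat_lit 18) (nat_lit 5) (nat_lit 21) (nat_lit 5) (nat_lit 19) (nat_lit 4) (nat_lit 314) (nat_lit 264) (nat_lit 142))) (XT.nd (nat_lit 78) (nat_lit 76) (nat_lit 0) (XT.lf (nat_lit 0) (nat_lit 20433986350) (nat_lit 76) (nat_lit 40201932563) (nat_lit 152) (nat_lit 5784975210) (nat_lit 17) (nat_lit 5) (nat_lit 18) (nat_lit 5) (nat_lit 19) (nat_lit 4) (nat_lit 315) (nat_lit 264) (nat_lit 141)) (XT.nd (nat_lit 78) (nat_lit 0) (nat_lit 0) (XT.lf (nat_lit 0) (nat_lit 3197481212) (nat_lit 152) (nat_lit 24668138402) (nat_lit 76) (nat_lit 41173505071) (nat_lit 16) (nat_lit 5) (nat_lit 18) (nat_lit 5) (nat_lit 17) (nat_lit 5) (nat_lit 316) (nat_lit 264) (nat_lit 140))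 (XT.lf (nat_lit 0) (nat_lit 12431449928) (nat_lit 152) (nat_lit 2383618333) (nat_lit 76) (nat_lit 56968620627) (nat_lit 16) (nat_lit 5) (nat_lit 18) (nat_lit 5) (nat_lit 17) (nat_lit 5) (nat_lit 317) (nat_lit 264) (nat_lit 139))))))))
noncomputable def xc183 : XT := (XT.nd (nat_lit 1404) (nat_lit 304) (nat_lit 0) (XT.nd (nat_lit 702) (nat_lit 228) (nat_lit 0) (XT.nd (nat_lit 312) (nat_lit 152) (nat_lit 0) (XT.nd (nat_lit 156) (nat_lit 76) (nat_lit 0) (XT.nd (nat_lit 78) (nat_lit 0) (nat_lit 0) (XT.lf (nat_lit 0) (nat_lit 21704716981) (nat_lit 152) (nat_lit 758226390) (nat_lit 228) (nat_lit 52185750451) (nat_lit 14) (nat_lit 5) (nat_lit 16) (nat_lit 5) (nat_lit 17) (nat_lit 5) (nat_lit 318) (nat_lit 264) (nat_lit 138)) (XT.lf (nat_lit 0) (nat_lit 33252632717) (nat_lit 228) (nat_lit 30799107280) (nat_lit 76) (nat_lit 13592381594) (nat_lit 14) (nat_lit 5) (nat_lit 17) (nat_lit 5) (nat_lit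 15) (nat_lit 4) (nat_lit 319) (nat_lit 264) (nat_lit 137))) (XT.nd (nat_lit 78) (nat_lit 76) (nat_lit 0) (XT.lf (nat_lit 0) (nat_lit 44591369562) (nat_lit 228) (nat_lit 7564315433) (nat_lit 76) (nat_lit 28633161081) (nat_lit 14) (nat_lit 5) (nat_lit 17) (nat_lit 5) (nat_lit 15) (nat_lit 4) (nat_lit 320) (nat_lit 264) (nat_lit 136)) (XT.lf (nat_lit 0) (nat_lit 17383952723) (nat_lit 76) (nat_lit 39381772354) (nat_lit 152) (nat_lit 27311650928) (nat_lit 13) (nat_lit 5) (nat_lit 14) (nat_lit 5) (nat_lit 15) (nat_lit 4) (nat_lit 321) (nat_lit 264) (nat_lit 135)))) (XT.nd (nat_lit 156) (nat_lit 152) (nat_lit 0) (XT.nd (nat_lit 78) (nat_lit 0) (nat_lit 0) (XT.lf (nat_lit 0) (nat_lit 43837667039) (nat_lit 76) (nat_lit 25836564744) (nat_lit 152) (nat_lit 17849832132) (nat_lit 13) (nat_lit 5) (nat_lit 14) (nat_lit 5) (nat_lit 15) (nat_lit 4) (nat_lit 322) (nat_lit 264) (nat_lit 134)) (XT.lf (nat_lit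 0) (nat_lit 71609702117) (nat_lit 76) (nat_lit 11615917011) (nat_lit 152) (nat_lit 7917597330) (nat_lit 13) (nat_lit 5) (nat_lit 14) (nat_lit 5) (nat_lit 15) (nat_lit 4) (nat_lit 323) (nat_lit 264) (nat_lit 133))) (XT.nd (nat_lit 78) (nat_lit 0) (nat_lit 0) (XT.lf (nat_lit 0) (nat_lit 2575603434) (nat_lit 152) (nat_lit 89015946683) (nat_lit 76) (nat_lit 3342582360) (nat_lit 11) (nat_lit 5) (nat_lit 13) (nat_lit 5) (nat_lit 12) (nat_lit 4) (nat_lit 324) (nat_lit 264) (nat_lit 132)) (XT.nd (nat_lit 78) (nat_lit 0) (nat_lit 0) (XT.lf (nat_lit 0) (nat_lit 13851597336) (nat_lit 152) (nat_lit 65907336795) (nat_lit 76) (nat_lit 19122962114) (nat_lit 11) (nat_lit 5) (nat_lit 13) (nat_lit 5) (nat_lit 12) (nat_lit 4) (nat_lit 325) (nat_lit 264) (nat_lit 131)) (XT.lf (nat_lit 0) (nat_lit 25689065975) (nat_lit 152) (nat_lit 41647361905) (nat_lit 76) (nat_lit 35690739041) (nat_lit 11) (nat_lit 5)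 (nat_lit 13) (nat_lit 5) (nat_lit 12) (nat_lit 4) (nat_lit 326) (nat_lit 264) (nat_lit 130)))))) (XT.nd (nat_lit 312) (nat_lit 152) (nat_lit 0) (XT.nd (nat_lit 156) (nat_lit 0) (nat_lit 0) (XT.nd (nat_lit 78) (nat_lit 76) (nat_lit 0) (XT.lf (nat_lit 0) (nat_lit 38116193799) (nat_lit 152) (nat_lit 16178260168) (nat_lit 76) (nat_lit 53085360229) (nat_lit 11) (nat_lit 5) (nat_lit 13) (nat_lit 5) (nat_lit 12) (nat_lit 4) (nat_lit 327) (nat_lit 264) (nat_lit 129)) (XT.lf (nat_lit 0) (nat_lit 10909790565) (nat_lit 76) (nat_lit 40423111050) (nat_lit 152) (nat_lit 60608783282) (nat_lit 10) (nat_lit 5) (nat_lit 11) (nat_lit 5) (nat_lit 12) (nat_lit 4) (nat_lit 328) (nat_lit 264) (nat_lit 128))) (XT.nd (nat_lit 78) (nat_lit 0) (nat_lit 0) (XT.lf (nat_lit 0) (nat_lit 39910288451) (nat_lit 76) (nat_lit 25572078005) (nat_lit 152) (nat_lit 51235688730) (nat_lit 10) (nat_lit 5) (nat_lit 11) (nat_lit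 5) (nat_lit 12) (nat_lit 4) (nat_lit 329) (nat_lit 264) (nat_lit 127)) (XT.lf (nat_lit 0) (nat_lit 70357355951) (nat_lit 76) (nat_lit 9979981893) (nat_lit 152) (nat_lit 41396006514) (nat_lit 10) (nat_lit 5) (nat_lit 11) (nat_lit 5) (nat_lit 12) (nat_lit 4) (nat_lit 330) (nat_lit 264) (nat_lit 126)))) (XT.nd (nat_lit 156) (nat_lit 76) (nat_lit 0) (XT.nd (nat_lit 78) (nat_lit 76) (nat_lit 0) (XT.lf (nat_lit 0) (nat_lit 96032955270) (nat_lit 152) (nat_lit 24775778008) (nat_lit 0) (nat_lit 6185771772) (nat_lit 10) (nat_lit 5) (nat_lit 12) (nat_lit 4) (nat_lit 10) (nat_lit 4) (nat_lit 331) (nat_lit 264) (nat_lit 125)) (XT.lf (nat_lit 0) (nat_lit 3086417280) (nat_lit 76) (nat_lit 109636925241) (nat_lit 76) (nat_lit 19784883654) (nat_lit 9) (nat_lit 4) (nat_lit 10) (nat_lit 5) (nat_lit 10) (nat_lit 4) (nat_lit 332) (nat_lit 264) (nat_lit 124))) (XT.nd (nat_lit 78) (nat_lit 76) (nat_lit 0)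 (XT.lf (nat_lit 0) (nat_lit 33198729078) (nat_lit 76) (nat_lit 97467341646) (nat_lit 76) (nat_lit 7610673308) (nat_lit 9) (nat_lit 4) (nat_lit 10) (nat_lit 5) (nat_lit 10) (nat_lit 4) (nat_lit 333) (nat_lit 264) (nat_lit 123)) (XT.nd (nat_lit 78) (nat_lit 0) (nat_lit 0) (XT.lf (nat_lit 0) (nat_lit 5004990107) (nat_lit 152) (nat_lit 79600845047) (nat_lit 76) (nat_lit 59723902219) (nat_lit 8) (nat_lit 5) (nat_lit 10) (nat_lit 5) (nat_lit 9) (nat_lit 4) (nat_lit 334) (nat_lit 264) (nat_lit 122)) (XT.lf (nat_lit 0) (nat_lit 17994036523) (nat_lit 152) (nat_lit 52977496495) (nat_lit 76) (nat_lit 79707692206) (nat_lit 8) (nat_lit 5) (nat_lit 10) (nat_lit 5) (nat_lit 9) (nat_lit 4) (nat_lit 335) (nat_lit 264) (nat_lit 121))))))) (XT.nd (nat_lit 702) (nat_lit 152) (nat_lit 0) (XT.nd (nat_lit 312) (nat_lit 76) (nat_lit 0) (XT.nd (nat_lit 156) (nat_lit 0) (nat_lit 0) (XT.nd (nat_lit 78) (nat_lit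 76) (nat_lit 0) (XT.lf (nat_lit 0) (nat_lit 31630981314) (nat_lit 152) (nat_lit 25025756434) (nat_lit 76) (nat_lit 100689528861) (nat_lit 8) (nat_lit 5) (nat_lit 10) (nat_lit 5) (nat_lit 9) (nat_lit 4) (nat_lit 336) (nat_lit 264) (nat_lit 120)) (XT.lf (nat_lit 0) (nat_lit 4463796254) (nat_lit 76) (nat_lit 41554189513) (nat_lit 152) (nat_lit 118325265052) (nat_lit 7) (nat_lit 5) (nat_lit 8) (nat_lit 5) (nat_lit 9) (nat_lit 4) (nat_lit 337) (nat_lit 264) (nat_lit 119))) (XT.nd (nat_lit 78) (nat_lit 0) (nat_lit 0) (XT.lf (nat_lit 0) (nat_lit 36294063239) (nat_lit 76) (nat_lit 25252650414) (nat_lit 152) (nat_lit 110122253237) (nat_lit 7) (nat_lit 5) (nat_lit 8) (nat_lit 5) (nat_lit 9) (nat_lit 4) (nat_lit 338) (nat_lit 264) (nat_lit 118)) (XT.lf (nat_lit 0) (nat_lit 69713366343) (nat_lit 76) (nat_lit 8137130557) (nat_lit 152) (nat_lit 101510542163) (nat_lit 7) (nat_lit 5) (nat_lit 8) (nat_lit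 5) (nat_lit 9) (nat_lit 4) (nat_lit 339) (nat_lit 264) (nat_lit 117)))) (XT.nd (nat_lit 156) (nat_lit 76) (nat_lit 0) (XT.nd (nat_lit 78) (nat_lit 0) (nat_lit 0) (XT.lf (nat_lit 0) (nat_lit 95121676622) (nat_lit 152) (nat_lit 82790029043) (nat_lit 0) (nat_lit 9518400004) (nat_lit 7) (nat_lit 5) (nat_lit 9) (nat_lit 4) (nat_lit 7) (nat_lit 4) (nat_lit 340) (nat_lit 264) (nat_lit 116)) (XT.lf (nat_lit 0) (nat_lit 113388542752) (nat_lit 152) (nat_lit 54725193925) (nat_lit 0) (nat_lit 27782283689) (nat_lit 7) (nat_lit 5) (nat_lit 9) (nat_lit 4) (nat_lit 7) (nat_lit 4) (nat_lit 341) (nat_lit 264) (nat_lit 115))) (XT.nd (nat_lit 78) (nat_lit 76) (nat_lit 0) (XT.lf (nat_lit 0) (nat_lit 132567544416) (nat_lit 152) (nat_lit 25259302920) (nat_lit 0) (nat_lit 46958444929) (nat_lit 7) (nat_lit 5) (nat_lit 9) (nat_lit 4) (nat_lit 7) (nat_lit 4) (nat_lit 342) (nat_lit 264) (nat_lit 114)) (XT.nd (nat_lit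 78) (nat_lit 0) (nat_lit 0) (XT.lf (nat_lit 0) (nat_lit 5865534594) (nat_lit 76) (nat_lit 146930388743) (nat_lit 76) (nat_lit 61318584090) (nat_lit 6) (nat_lit 4) (nat_lit 7) (nat_lit 5) (nat_lit 7) (nat_lit 4) (nat_lit 343) (nat_lit 264) (nat_lit 113)) (XT.lf (nat_lit 0) (nat_lit 39421511743) (nat_lit 76) (nat_lit 135040860515) (nat_lit 76) (nat_lit 49426479514) (nat_lit 6) (nat_lit 4) (nat_lit 7) (nat_lit 5) (nat_lit 7) (nat_lit 4) (nat_lit 344) (nat_lit 264) (nat_lit 112)))))) (XT.nd (nat_lit 390) (nat_lit 76) (nat_lit 0) (XT.nd (nat_lit 156) (nat_lit 76) (nat_lit 0) (XT.nd (nat_lit 78) (nat_lit 0) (nat_lit 0) (XT.lf (nat_lit 0) (nat_lit 74653337081) (nat_lit 76) (nat_lit 122557732770) (nat_lit 76) (nat_lit 36940898104) (nat_lit 6) (nat_lit 4) (nat_lit 7) (nat_lit 5) (nat_lit 7) (nat_lit 4) (nat_lit 345) (nat_lit 264) (nat_lit 111)) (XT.lf (nat_lit 0) (nat_lit 111644895907) (nat_lit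 76) (nat_lit 109451283775) (nat_lit 76) (nat_lit 23832112285) (nat_lit 6) (nat_lit 4) (nat_lit 7) (nat_lit 5) (nat_lit 7) (nat_lit 4) (nat_lit 346) (nat_lit 264) (nat_lit 110))) (XT.nd (nat_lit 78) (nat_lit 76) (nat_lit 0) (XT.lf (nat_lit 0) (nat_lit 150484263360) (nat_lit 76) (nat_lit 95690307699) (nat_lit 76) (nat_lit 10068910662) (nat_lit 6) (nat_lit 4) (nat_lit 7) (nat_lit 5) (nat_lit 7) (nat_lit 4) (nat_lit 347) (nat_lit 264) (nat_lit 109)) (XT.nd (nat_lit 78) (nat_lit 0) (nat_lit 0) (XT.lf (nat_lit 0) (nat_lit 4241241687) (nat_lit 152) (nat_lit 76928971145) (nat_lit 76) (nat_lit 186950844958) (nat_lit 5) (nat_lit 5) (nat_lit 7) (nat_lit 5) (nat_lit 6) (nat_lit 4) (nat_lit 348) (nat_lit 264) (nat_lit 108)) (XT.lf (nat_lit 0) (nat_lit 18927621610) (nat_lit 152) (nat_lit 46823910939) (nat_lit 76) (nat_lit 214832772568) (nat_lit 5) (nat_lit 5) (nat_lit 7) (nat_lit 5) (nat_lit 6) (nat_lit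 4) (nat_lit 349) (nat_lit 264) (nat_lit 107))))) (XT.nd (nat_lit 156) (nat_lit 0) (nat_lit 0) (XT.nd (nat_lit 78) (nat_lit 76) (nat_lit 0) (XT.lf (nat_lit 0) (nat_lit 34347464700) (nat_lit 152) (nat_lit 15215155115) (nat_lit 76) (nat_lit 244108138483) (nat_lit 5) (nat_lit 5) (nat_lit 7) (nat_lit 5) (nat_lit 6) (nat_lit 4) (nat_lit 350) (nat_lit 264) (nat_lit 106)) (XT.lf (nat_lit 0) (nat_lit 18566809112) (nat_lit 76) (nat_lit 32260555681) (nat_lit 152) (nat_lit 256569716764) (nat_lit 4) (nat_lit 5) (nat_lit 5) (nat_lit 5) (nat_lit 6) (nat_lit 4) (nat_lit 351) (nat_lit 264) (nat_lit 105))) (XT.nd (nat_lit 78) (nat_lit 0) (nat_lit 0) (XT.lf (nat_lit 0) (nat_lit 54564648072) (nat_lit 76) (nat_lit 13823488786) (nat_lit 152) (nat_lit 253408740903) (nat_lit 4) (nat_lit 5) (nat_lit 5) (nat_lit 5) (nat_lit 6) (nat_lit 4) (nat_lit 352) (nat_lit 264) (nat_lit 104)) (XT.nd (nat_lit 78) (nat_lit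 0) (nat_lit 0) (XT.lf (nat_lit 0) (nat_lit 86912600311) (nat_lit 152) (nat_lit 244642127042) (nat_lit 0) (nat_lit 5357654383) (nat_lit 4) (nat_lit 5) (nat_lit 6) (nat_lit 4) (nat_lit 4) (nat_lit 4) (nat_lit 353) (nat_lit 264) (nat_lit 103)) (XT.lf (nat_lit 0) (nat_lit 106589167398) (nat_lit 152) (nat_lit 221150484928) (nat_lit 0) (nat_lit 25032715132) (nat_lit 4) (nat_lit 5) (nat_lit 6) (nat_lit 4) (nat_lit 4) (nat_lit 4) (nat_lit 354) (nat_lit 264) (nat_lit 102))))))))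
noncomputable def xc184 : XT := (XT.nd (nat_lit 31668) (nat_lit 0) (nat_lit 2280) (XT.nd (nat_lit 30966) (nat_lit 0) (nat_lit 4560) (XT.nd (nat_lit 30576) (nat_lit 0) (nat_lit 5396) (XT.nd (nat_lit 156) (nat_lit 0) (nat_lit 0) (XT.nd (nat_lit 78) (nat_lit 0) (nat_lit 0) (XT.lf (nat_lit 0) (nat_lit 127248863689) (nat_lit 152) (nat_lit 196485547466) (nat_lit 0) (nat_lit 45690976816) (nat_lit 4) (nat_lit 5) (nat_lit 6) (nat_lit 4) (nat_lit 4) (nat_lit 4) (nat_lit 355) (nat_lit 264) (nat_lit 101)) (XT.lf (nat_lit 0) (nat_lit 148940878936) (nat_lit 152) (nat_lit 170588588612) (nat_lit 0) (nat_lit 67381625771) (nat_lit 4) (nat_lit 5) (nat_lit 6) (nat_lit 4) (nat_lit 4) (nat_lit 4) (nat_lit 356) (nat_lit 264) (nat_lit 100))) (XT.nd (nat_lit 30342) (nat_lit 0) (nat_lit 5396) (XT.lf (nat_lit 0) (nat_lit 171716860795) (nat_lit 152) (nat_lit 143397948943) (nat_lit 0) (nat_lit 90156306398) (nat_lit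 4) (nat_lit 5) (nat_lit 6) (nat_lit 4) (nat_lit 4) (nat_lit 4) (nat_lit 357) (nat_lit 264) (nat_lit 99)) (XT.lf (nat_lit 0) (nat_lit 865938590) (nat_lit 0) (nat_lit 865938590) (nat_lit 684) (nat_lit 5324870692) (nat_lit 75) (nat_lit 5) (nat_lit 75) (nat_lit 3) (nat_lit 84) (nat_lit 3) (nat_lit 265) (nat_lit 265) (nat_lit 190)))) (XT.nd (nat_lit 156) (nat_lit 0) (nat_lit 76) (XT.nd (nat_lit 78) (nat_lit 0) (nat_lit 0) (XT.lf (nat_lit 0) (nat_lit 3930271153) (nat_lit 684) (nat_lit 6321274837) (nat_lit 760) (nat_lit 4194870549) (nat_lit 75) (nat_lit 5) (nat_lit 84) (nat_lit 3) (nat_lit 85) (nat_lit 5) (nat_lit 266) (nat_lit 265) (nat_lit 189)) (XT.lf (nat_lit 76) (nat_lit 2568051) (nat_lit 0) (nat_lit 4426144519) (nat_lit 760) (nat_lit 10366899785) (nat_lit 76) (nat_lit 5) (nat_lit 75) (nat_lit 5) (nat_lit 85) (nat_lit 5) (nat_lit 267) (nat_lit 265) (nat_lit 188))) (XT.nd (nat_lit 78)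 (nat_lit 0) (nat_lit 0) (XT.lf (nat_lit 0) (nat_lit 5068343662) (nat_lit 684) (nat_lit 8335163194) (nat_lit 760) (nat_lit 1753003841) (nat_lit 76) (nat_lit 5) (nat_lit 85) (nat_lit 5) (nat_lit 86) (nat_lit 5) (nat_lit 268) (nat_lit 265) (nat_lit 187)) (XT.nd (nat_lit 78) (nat_lit 0) (nat_lit 0) (XT.lf (nat_lit 0) (nat_lit 5794482635) (nat_lit 684) (nat_lit 1638531157) (nat_lit 760) (nat_lit 8099767290) (nat_lit 76) (nat_lit 5) (nat_lit 85) (nat_lit 5) (nat_lit 86) (nat_lit 5) (nat_lit 269) (nat_lit 265) (nat_lit 186)) (XT.lf (nat_lit 76) (nat_lit 5559850630) (nat_lit 0) (nat_lit 1066708090) (nat_lit 760) (nat_lit 9297875655) (nat_lit 77) (nat_lit 5) (nat_lit 76) (nat_lit 5) (nat_lit 86) (nat_lit 5) (nat_lit 270) (nat_lit 265) (nat_lit 185)))))) (XT.nd (nat_lit 312) (nat_lit 988) (nat_lit 0) (XT.nd (nat_lit 156) (nat_lit 0) (nat_lit 76) (XT.nd (nat_lit 78) (nat_lit 0) (nat_lit 0) (XT.lf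 (nat_lit 0) (nat_lit 7599716460) (nat_lit 684) (nat_lit 3259228743) (nat_lit 760) (nat_lit 5471799712) (nat_lit 77) (nat_lit 5) (nat_lit 86) (nat_lit 5) (nat_lit 87) (nat_lit 5) (nat_lit 271) (nat_lit 265) (nat_lit 184)) (XT.lf (nat_lit 76) (nat_lit 4310619239) (nat_lit 0) (nat_lit 4380045721) (nat_lit 760) (nat_lit 8063295542) (nat_lit 78) (nat_lit 5) (nat_lit 77) (nat_lit 5) (nat_lit 87) (nat_lit 5) (nat_lit 272) (nat_lit 265) (nat_lit 183))) (XT.nd (nat_lit 78) (nat_lit 0) (nat_lit 0) (XT.lf (nat_lit 0) (nat_lit 9915069247) (nat_lit 684) (nat_lit 4874129547) (nat_lit 760) (nat_lit 2405236625) (nat_lit 78) (nat_lit 5) (nat_lit 87) (nat_lit 5) (nat_lit 88) (nat_lit 5) (nat_lit 273) (nat_lit 265) (nat_lit 182)) (XT.lf (nat_lit 76) (nat_lit 3089248593) (nat_lit 0) (nat_lit 8217176443) (nat_lit 760) (nat_lit 6345264356) (nat_lit 79) (nat_lit 5) (nat_lit 78) (nat_lit 5) (nat_lit 88) (nat_lit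 5) (nat_lit 274) (nat_lit 265) (nat_lit 181)))) (XT.nd (nat_lit 156) (nat_lit 456) (nat_lit 0) (XT.nd (nat_lit 78) (nat_lit 608) (nat_lit 0) (XT.lf (nat_lit 76) (nat_lit 11608832345) (nat_lit 0) (nat_lit 1227264031) (nat_lit 760) (nat_lit 5292312179) (nat_lit 79) (nat_lit 5) (nat_lit 78) (nat_lit 5) (nat_lit 88) (nat_lit 5) (nat_lit 275) (nat_lit 265) (nat_lit 180)) (XT.lf (nat_lit 0) (nat_lit 1878752201) (nat_lit 684) (nat_lit 12675157328) (nat_lit 760) (nat_lit 4069509214) (nat_lit 70) (nat_lit 5) (nat_lit 79) (nat_lit 5) (nat_lit 80) (nat_lit 5) (nat_lit 276) (nat_lit 265) (nat_lit 179))) (XT.nd (nat_lit 78) (nat_lit 456) (nat_lit 0) (XT.lf (nat_lit 0) (nat_lit 10891357780) (nat_lit 684) (nat_lit 5583809326) (nat_lit 760) (nat_lit 2662170819) (nat_lit 70) (nat_lit 5) (nat_lit 79) (nat_lit 5) (nat_lit 80) (nat_lit 5) (nat_lit 277) (nat_lit 265) (nat_lit 178)) (XT.nd (nat_lit 78) (nat_lit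 76) (nat_lit 0) (XT.lf (nat_lit 0) (nat_lit 658312840) (nat_lit 380) (nat_lit 17861496662) (nat_lit 456) (nat_lit 1155811918) (nat_lit 65) (nat_lit 5) (nat_lit 70) (nat_lit 5) (nat_lit 71) (nat_lit 5) (nat_lit 278) (nat_lit 265) (nat_lit 177)) (XT.lf (nat_lit 0) (nat_lit 633859010) (nat_lit 456) (nat_lit 10051776097) (nat_lit 76) (nat_lit 9543801559) (nat_lit 64) (nat_lit 5) (nat_lit 70) (nat_lit 5) (nat_lit 65) (nat_lit 5) (nat_lit 279) (nat_lit 265) (nat_lit 176))))))) (XT.nd (nat_lit 702) (nat_lit 1064) (nat_lit 0) (XT.nd (nat_lit 312) (nat_lit 532) (nat_lit 0) (XT.nd (nat_lit 156) (nat_lit 304) (nat_lit 0) (XT.nd (nat_lit 78) (nat_lit 380) (nat_lit 0) (XT.lf (nat_lit 0) (nat_lit 2462882587) (nat_lit 456) (nat_lit 667929618) (nat_lit 76) (nat_lit 17679777243) (nat_lit 64) (nat_lit 5) (nat_lit 70) (nat_lit 5) (nat_lit 65) (nat_lit 5) (nat_lit 280) (nat_lit 265) (nat_lit 175)) (XT.lf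 (nat_lit 0) (nat_lit 4597983281) (nat_lit 456) (nat_lit 12013392440) (nat_lit 76) (nat_lit 4798721194) (nat_lit 59) (nat_lit 5) (nat_lit 65) (nat_lit 5) (nat_lit 60) (nat_lit 5) (nat_lit 281) (nat_lit 265) (nat_lit 174))) (XT.nd (nat_lit 78) (nat_lit 304) (nat_lit 0) (XT.lf (nat_lit 0) (nat_lit 6892262450) (nat_lit 456) (nat_lit 2113634494) (nat_lit 76) (nat_lit 13031088633) (nat_lit 59) (nat_lit 5) (nat_lit 65) (nat_lit 5) (nat_lit 60) (nat_lit 5) (nat_lit 282) (nat_lit 265) (nat_lit 173)) (XT.lf (nat_lit 0) (nat_lit 8544228223) (nat_lit 304) (nat_lit 880523367) (nat_lit 380) (nat_lit 13264317986) (nat_lit 55) (nat_lit 5) (nat_lit 59) (nat_lit 5) (nat_lit 60) (nat_lit 5) (nat_lit 283) (nat_lit 265) (nat_lit 172)))) (XT.nd (nat_lit 156) (nat_lit 228) (nat_lit 0) (XT.nd (nat_lit 78) (nat_lit 304) (nat_lit 0) (XT.lf (nat_lit 0) (nat_lit 12230102795) (nat_lit 380) (nat_lit 3694325101)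 (nat_lit 76) (nat_lit 7442042482) (nat_lit 55) (nat_lit 5) (nat_lit 60) (nat_lit 5) (nat_lit 56) (nat_lit 5) (nat_lit 284) (nat_lit 265) (nat_lit 171)) (XT.lf (nat_lit 0) (nat_lit 7493964810) (nat_lit 304) (nat_lit 7804050461) (nat_lit 380) (nat_lit 8773634581) (nat_lit 51) (nat_lit 5) (nat_lit 55) (nat_lit 5) (nat_lit 56) (nat_lit 5) (nat_lit 285) (nat_lit 265) (nat_lit 170))) (XT.nd (nat_lit 78) (nat_lit 228) (nat_lit 0) (XT.lf (nat_lit 0) (nat_lit 18585310457) (nat_lit 380) (nat_lit 5461790215) (nat_lit 76) (nat_lit 761710479) (nat_lit 51) (nat_lit 5) (nat_lit 56) (nat_lit 5) (nat_lit 52) (nat_lit 5) (nat_lit 286) (nat_lit 265) (nat_lit 169)) (XT.nd (nat_lit 78) (nat_lit 0) (nat_lit 0) (XT.lf (nat_lit 0) (nat_lit 6272775404) (nat_lit 228) (nat_lit 15981607186) (nat_lit 304) (nat_lit 3317598465) (nat_lit 48) (nat_lit 5) (nat_lit 51) (nat_lit 5) (nat_lit 52) (nat_lit 5) (nat_lit 287)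 (nat_lit 265) (nat_lit 168)) (XT.lf (nat_lit 0) (nat_lit 18773894238) (nat_lit 228) (nat_lit 7417303335) (nat_lit 304) (nat_lit 177917561) (nat_lit 48) (nat_lit 5) (nat_lit 51) (nat_lit 5) (nat_lit 52) (nat_lit 5) (nat_lit 288) (nat_lit 265) (nat_lit 167)))))) (XT.nd (nat_lit 312) (nat_lit 456) (nat_lit 0) (XT.nd (nat_lit 156) (nat_lit 228) (nat_lit 0) (XT.nd (nat_lit 78) (nat_lit 0) (nat_lit 0) (XT.lf (nat_lit 0) (nat_lit 3112323819) (nat_lit 380) (nat_lit 22438005821) (nat_lit 76) (nat_lit 1648690135) (nat_lit 43) (nat_lit 5) (nat_lit 48) (nat_lit 5) (nat_lit 44) (nat_lit 5) (nat_lit 289) (nat_lit 265) (nat_lit 166)) (XT.lf (nat_lit 0) (nat_lit 6805670693) (nat_lit 380) (nat_lit 10201692582) (nat_lit 76) (nat_lit 11050699308) (nat_lit 43) (nat_lit 5) (nat_lit 48) (nat_lit 5) (nat_lit 44) (nat_lit 5) (nat_lit 290) (nat_lit 265) (nat_lit 165))) (XT.nd (nat_lit 78) (nat_lit 0) (nat_lit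 0) (XT.lf (nat_lit 0) (nat_lit 2724264702) (nat_lit 228) (nat_lit 7994563208) (nat_lit 304) (nat_lit 18239489042) (nat_lit 40) (nat_lit 5) (nat_lit 43) (nat_lit 5) (nat_lit 44) (nat_lit 5) (nat_lit 291) (nat_lit 265) (nat_lit 164)) (XT.lf (nat_lit 0) (nat_lit 15018965121) (nat_lit 304) (nat_lit 13279568744) (nat_lit 76) (nat_lit 1595499851) (nat_lit 40) (nat_lit 5) (nat_lit 44) (nat_lit 5) (nat_lit 41) (nat_lit 5) (nat_lit 292) (nat_lit 265) (nat_lit 163)))) (XT.nd (nat_lit 156) (nat_lit 228) (nat_lit 0) (XT.nd (nat_lit 78) (nat_lit 0) (nat_lit 0) (XT.lf (nat_lit 0) (nat_lit 188511964) (nat_lit 228) (nat_lit 19472728307) (nat_lit 304) (nat_lit 11208954520) (nat_lit 37) (nat_lit 5) (nat_lit 40) (nat_lit 5) (nat_lit 41) (nat_lit 5) (nat_lit 293) (nat_lit 265) (nat_lit 162)) (XT.lf (nat_lit 0) (nat_lit 14782078037) (nat_lit 228) (nat_lit 9971763884) (nat_lit 304) (nat_lit 7130425679) (nat_lit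 37) (nat_lit 5) (nat_lit 40) (nat_lit 5) (nat_lit 41) (nat_lit 5) (nat_lit 294) (nat_lit 265) (nat_lit 161))) (XT.nd (nat_lit 78) (nat_lit 228) (nat_lit 0) (XT.lf (nat_lit 0) (nat_lit 30094741269) (nat_lit 304) (nat_lit 2852614934) (nat_lit 76) (nat_lit 2018099) (nat_lit 37) (nat_lit 5) (nat_lit 41) (nat_lit 5) (nat_lit 38) (nat_lit 5) (nat_lit 295) (nat_lit 265) (nat_lit 160)) (XT.nd (nat_lit 78) (nat_lit 0) (nat_lit 0) (XT.lf (nat_lit 0) (nat_lit 1938263279) (nat_lit 228) (nat_lit 21749245782) (nat_lit 76) (nat_lit 10361181204) (nat_lit 34) (nat_lit 5) (nat_lit 37) (nat_lit 5) (nat_lit 35) (nat_lit 5) (nat_lit 296) (nat_lit 265) (nat_lit 159)) (XT.lf (nat_lit 0) (nat_lit 6917930213) (nat_lit 228) (nat_lit 6948485121) (nat_lit 76) (nat_lit 21332075595) (nat_lit 34) (nat_lit 5) (nat_lit 37) (nat_lit 5) (nat_lit 35) (nat_lit 5) (nat_lit 297) (nat_lit 265) (nat_lit 158))))))))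
noncomputable def xc185 : XT := (XT.nd (nat_lit 1404) (nat_lit 684) (nat_lit 0) (XT.nd (nat_lit 702) (nat_lit 456) (nat_lit 0) (XT.nd (nat_lit 312) (nat_lit 380) (nat_lit 0) (XT.nd (nat_lit 156) (nat_lit 152) (nat_lit 0) (XT.nd (nat_lit 78) (nat_lit 0) (nat_lit 0) (XT.lf (nat_lit 0) (nat_lit 8868068479) (nat_lit 228) (nat_lit 3411212947) (nat_lit 304) (nat_lit 24119876371) (nat_lit 31) (nat_lit 5) (nat_lit 34) (nat_lit 5) (nat_lit 35) (nat_lit 5) (nat_lit 298) (nat_lit 265) (nat_lit 157)) (XT.lf (nat_lit 0) (nat_lit 18140802301) (nat_lit 304) (nat_lit 12065558698) (nat_lit 76) (nat_lit 7441902585) (nat_lit 31) (nat_lit 5) (nat_lit 35) (nat_lit 5) (nat_lit 32) (nat_lit 5) (nat_lit 299) (nat_lit 265) (nat_lit 156))) (XT.nd (nat_lit 78) (nat_lit 0) (nat_lit 0) (XT.lf (nat_lit 0) (nat_lit 4245393972) (nat_lit 152) (nat_lit 20166836758) (nat_lit 228) (nat_lit 14541762530) (nat_lit 29) (nat_lit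 5) (nat_lit 31) (nat_lit 5) (nat_lit 32) (nat_lit 5) (nat_lit 300) (nat_lit 265) (nat_lit 155)) (XT.lf (nat_lit 0) (nat_lit 21783097155) (nat_lit 152) (nat_lit 9413232821) (nat_lit 228) (nat_lit 9118734161) (nat_lit 29) (nat_lit 5) (nat_lit 31) (nat_lit 5) (nat_lit 32) (nat_lit 5) (nat_lit 301) (nat_lit 265) (nat_lit 154)))) (XT.nd (nat_lit 156) (nat_lit 152) (nat_lit 0) (XT.nd (nat_lit 78) (nat_lit 228) (nat_lit 0) (XT.lf (nat_lit 0) (nat_lit 38343932094) (nat_lit 228) (nat_lit 1583366949) (nat_lit 76) (nat_lit 1815683846) (nat_lit 29) (nat_lit 5) (nat_lit 32) (nat_lit 5) (nat_lit 30) (nat_lit 5) (nat_lit 302) (nat_lit 265) (nat_lit 153)) (XT.lf (nat_lit 0) (nat_lit 2938296172) (nat_lit 228) (nat_lit 26687388517) (nat_lit 76) (nat_lit 13593831058) (nat_lit 26) (nat_lit 5) (nat_lit 29) (nat_lit 5) (nat_lit 27) (nat_lit 5) (nat_lit 303) (nat_lit 265) (nat_lit 152))) (XT.nd (nat_lit 78)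 (nat_lit 152) (nat_lit 0) (XT.lf (nat_lit 0) (nat_lit 9500783147) (nat_lit 228) (nat_lit 9223561498) (nat_lit 76) (nat_lit 26041627313) (nat_lit 26) (nat_lit 5) (nat_lit 29) (nat_lit 5) (nat_lit 27) (nat_lit 5) (nat_lit 304) (nat_lit 265) (nat_lit 151)) (XT.nd (nat_lit 78) (nat_lit 0) (nat_lit 0) (XT.lf (nat_lit 0) (nat_lit 9407673248) (nat_lit 152) (nat_lit 7126076009) (nat_lit 228) (nat_lit 29848891575) (nat_lit 24) (nat_lit 5) (nat_lit 26) (nat_lit 5) (nat_lit 27) (nat_lit 5) (nat_lit 305) (nat_lit 265) (nat_lit 150)) (XT.lf (nat_lit 0) (nat_lit 24151554898) (nat_lit 228) (nat_lit 18870048167) (nat_lit 76) (nat_lit 5046887753) (nat_lit 24) (nat_lit 5) (nat_lit 27) (nat_lit 5) (nat_lit 25) (nat_lit 5) (nat_lit 306) (nat_lit 265) (nat_lit 149)))))) (XT.nd (nat_lit 312) (nat_lit 152) (nat_lit 0) (XT.nd (nat_lit 156) (nat_lit 152) (nat_lit 0) (XT.nd (nat_lit 78) (nat_lit 0) (nat_lit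 0) (XT.lf (nat_lit 0) (nat_lit 17210998) (nat_lit 152) (nat_lit 32245888945) (nat_lit 228) (nat_lit 17569897790) (nat_lit 22) (nat_lit 5) (nat_lit 24) (nat_lit 5) (nat_lit 25) (nat_lit 5) (nat_lit 307) (nat_lit 265) (nat_lit 148)) (XT.lf (nat_lit 0) (nat_lit 20497429457) (nat_lit 152) (nat_lit 20598225664) (nat_lit 228) (nat_lit 10574309787) (nat_lit 22) (nat_lit 5) (nat_lit 24) (nat_lit 5) (nat_lit 25) (nat_lit 5) (nat_lit 308) (nat_lit 265) (nat_lit 147))) (XT.nd (nat_lit 78) (nat_lit 152) (nat_lit 0) (XT.lf (nat_lit 0) (nat_lit 41995440620) (nat_lit 152) (nat_lit 8370454088) (nat_lit 228) (nat_lit 3233089145) (nat_lit 22) (nat_lit 5) (nat_lit 24) (nat_lit 5) (nat_lit 25) (nat_lit 5) (nat_lit 309) (nat_lit 265) (nat_lit 146)) (XT.lf (nat_lit 0) (nat_lit 4544391753) (nat_lit 152) (nat_lit 46526040445) (nat_lit 76) (nat_lit 4539912031) (nat_lit 20) (nat_lit 5) (nat_lit 22) (nat_lit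 5) (nat_lit 21) (nat_lit 5) (nat_lit 310) (nat_lit 265) (nat_lit 145)))) (XT.nd (nat_lit 156) (nat_lit 152) (nat_lit 0) (XT.nd (nat_lit 78) (nat_lit 0) (nat_lit 0) (XT.lf (nat_lit 0) (nat_lit 12935278828) (nat_lit 152) (nat_lit 26702612508) (nat_lit 76) (nat_lit 18065077354) (nat_lit 20) (nat_lit 5) (nat_lit 22) (nat_lit 5) (nat_lit 21) (nat_lit 5) (nat_lit 311) (nat_lit 265) (nat_lit 144)) (XT.lf (nat_lit 0) (nat_lit 21742121159) (nat_lit 152) (nat_lit 5893835952) (nat_lit 76) (nat_lit 32264451856) (nat_lit 20) (nat_lit 5) (nat_lit 22) (nat_lit 5) (nat_lit 21) (nat_lit 5) (nat_lit 312) (nat_lit 265) (nat_lit 143))) (XT.nd (nat_lit 78) (nat_lit 0) (nat_lit 0) (XT.lf (nat_lit 0) (nat_lit 16477207471) (nat_lit 152) (nat_lit 14765935334) (nat_lit 228) (nat_lit 30951891487) (nat_lit 18) (nat_lit 5) (nat_lit 20) (nat_lit 5) (nat_lit 21) (nat_lit 5) (nat_lit 313) (nat_lit 265) (nat_lit 142))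 (XT.nd (nat_lit 78) (nat_lit 0) (nat_lit 0) (XT.lf (nat_lit 0) (nat_lit 40165967683) (nat_lit 152) (nat_lit 1149722212) (nat_lit 228) (nat_lit 23283881929) (nat_lit 18) (nat_lit 5) (nat_lit 20) (nat_lit 5) (nat_lit 21) (nat_lit 5) (nat_lit 314) (nat_lit 265) (nat_lit 141)) (XT.lf (nat_lit 0) (nat_lit 52093917581) (nat_lit 228) (nat_lit 2295764856) (nat_lit 76) (nat_lit 12724555571) (nat_lit 18) (nat_lit 5) (nat_lit 21) (nat_lit 5) (nat_lit 19) (nat_lit 4) (nat_lit 315) (nat_lit 265) (nat_lit 140))))))) (XT.nd (nat_lit 702) (nat_lit 304) (nat_lit 0) (XT.nd (nat_lit 312) (nat_lit 76) (nat_lit 0) (XT.nd (nat_lit 156) (nat_lit 152) (nat_lit 0) (XT.nd (nat_lit 78) (nat_lit 76) (nat_lit 0) (XT.lf (nat_lit 0) (nat_lit 21616920362) (nat_lit 76) (nat_lit 42147424921) (nat_lit 152) (nat_lit 5972632017) (nat_lit 17) (nat_lit 5) (nat_lit 18) (nat_lit 5) (nat_lit 19) (nat_lit 4) (nat_lit 316) (nat_lit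 265) (nat_lit 139)) (XT.lf (nat_lit 0) (nat_lit 3451012775) (nat_lit 152) (nat_lit 25744773808) (nat_lit 76) (nat_lit 43290493539) (nat_lit 16) (nat_lit 5) (nat_lit 18) (nat_lit 5) (nat_lit 17) (nat_lit 5) (nat_lit 317) (nat_lit 265) (nat_lit 138))) (XT.nd (nat_lit 78) (nat_lit 152) (nat_lit 0) (XT.lf (nat_lit 0) (nat_lit 13142220046) (nat_lit 152) (nat_lit 2353493046) (nat_lit 76) (nat_lit 59872588053) (nat_lit 16) (nat_lit 5) (nat_lit 18) (nat_lit 5) (nat_lit 17) (nat_lit 5) (nat_lit 318) (nat_lit 265) (nat_lit 137)) (XT.lf (nat_lit 0) (nat_lit 22936850869) (nat_lit 152) (nat_lit 736483276) (nat_lit 228) (nat_lit 54703325229) (nat_lit 14) (nat_lit 5) (nat_lit 16) (nat_lit 5) (nat_lit 17) (nat_lit 5) (nat_lit 319) (nat_lit 265) (nat_lit 136)))) (XT.nd (nat_lit 156) (nat_lit 76) (nat_lit 0) (XT.nd (nat_lit 78) (nat_lit 0) (nat_lit 0) (XT.lf (nat_lit 0) (nat_lit 34999240523) (nat_lit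 228) (nat_lit 32195790448) (nat_lit 76) (nat_lit 14326996025) (nat_lit 14) (nat_lit 5) (nat_lit 17) (nat_lit 5) (nat_lit 15) (nat_lit 4) (nat_lit 320) (nat_lit 265) (nat_lit 135)) (XT.lf (nat_lit 0) (nat_lit 46900915344) (nat_lit 228) (nat_lit 7806081494) (nat_lit 76) (nat_lit 30117195660) (nat_lit 14) (nat_lit 5) (nat_lit 17) (nat_lit 5) (nat_lit 15) (nat_lit 4) (nat_lit 321) (nat_lit 265) (nat_lit 134))) (XT.nd (nat_lit 78) (nat_lit 0) (nat_lit 0) (XT.lf (nat_lit 0) (nat_lit 18387399268) (nat_lit 76) (nat_lit 41294876927) (nat_lit 152) (nat_lit 28594962972) (nat_lit 13) (nat_lit 5) (nat_lit 14) (nat_lit 5) (nat_lit 15) (nat_lit 4) (nat_lit 322) (nat_lit 265) (nat_lit 133)) (XT.nd (nat_lit 78) (nat_lit 0) (nat_lit 0) (XT.lf (nat_lit 0) (nat_lit 46157406494) (nat_lit 76) (nat_lit 27075074843) (nat_lit 152) (nat_lit 18663970880) (nat_lit 13) (nat_lit 5) (nat_lit 14) (nat_lit 5) (nat_lit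 15) (nat_lit 4) (nat_lit 323) (nat_lit 265) (nat_lit 132)) (XT.lf (nat_lit 0) (nat_lit 75311954941) (nat_lit 76) (nat_lit 12145933682) (nat_lit 152) (nat_lit 8238855426) (nat_lit 13) (nat_lit 5) (nat_lit 14) (nat_lit 5) (nat_lit 15) (nat_lit 4) (nat_lit 324) (nat_lit 265) (nat_lit 131)))))) (XT.nd (nat_lit 312) (nat_lit 152) (nat_lit 0) (XT.nd (nat_lit 156) (nat_lit 0) (nat_lit 0) (XT.nd (nat_lit 78) (nat_lit 0) (nat_lit 0) (XT.lf (nat_lit 0) (nat_lit 2775890241) (nat_lit 152) (nat_lit 93341705336) (nat_lit 76) (nat_lit 3559592179) (nat_lit 11) (nat_lit 5) (nat_lit 13) (nat_lit 5) (nat_lit 12) (nat_lit 4) (nat_lit 325) (nat_lit 265) (nat_lit 130)) (XT.lf (nat_lit 0) (nat_lit 14612278759) (nat_lit 152) (nat_lit 69083619176) (nat_lit 76) (nat_lit 20126615650) (nat_lit 11) (nat_lit 5) (nat_lit 13) (nat_lit 5) (nat_lit 12) (nat_lit 4) (nat_lit 326) (nat_lit 265) (nat_lit 129))) (XT.nd (nat_lit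 78) (nat_lit 0) (nat_lit 0) (XT.lf (nat_lit 0) (nat_lit 27038377899) (nat_lit 152) (nat_lit 43616316230) (nat_lit 76) (nat_lit 37520519260) (nat_lit 11) (nat_lit 5) (nat_lit 13) (nat_lit 5) (nat_lit 12) (nat_lit 4) (nat_lit 327) (nat_lit 265) (nat_lit 128)) (XT.lf (nat_lit 0) (nat_lit 40083773609) (nat_lit 152) (nat_lit 16879160062) (nat_lit 76) (nat_lit 55782717065) (nat_lit 11) (nat_lit 5) (nat_lit 13) (nat_lit 5) (nat_lit 12) (nat_lit 4) (nat_lit 328) (nat_lit 265) (nat_lit 127)))) (XT.nd (nat_lit 156) (nat_lit 76) (nat_lit 0) (XT.nd (nat_lit 78) (nat_lit 0) (nat_lit 0) (XT.lf (nat_lit 0) (nat_lit 11561551060) (nat_lit 76) (nat_lit 42398483508) (nat_lit 152) (nat_lit 63575647643) (nat_lit 10) (nat_lit 5) (nat_lit 11) (nat_lit 5) (nat_lit 12) (nat_lit 4) (nat_lit 329) (nat_lit 265) (nat_lit 126)) (XT.lf (nat_lit 0) (nat_lit 42007013319) (nat_lit 76) (nat_lit 26807078958) (nat_lit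 152) (nat_lit 53736925735) (nat_lit 10) (nat_lit 5) (nat_lit 11) (nat_lit 5) (nat_lit 12) (nat_lit 4) (nat_lit 330) (nat_lit 265) (nat_lit 125))) (XT.nd (nat_lit 78) (nat_lit 76) (nat_lit 0) (XT.lf (nat_lit 0) (nat_lit 73971614649) (nat_lit 76) (nat_lit 10437454371) (nat_lit 152) (nat_lit 43408142619) (nat_lit 10) (nat_lit 5) (nat_lit 11) (nat_lit 5) (nat_lit 12) (nat_lit 4) (nat_lit 331) (nat_lit 265) (nat_lit 124)) (XT.nd (nat_lit 78) (nat_lit 76) (nat_lit 0) (XT.lf (nat_lit 0) (nat_lit 100887472206) (nat_lit 152) (nat_lit 25920716917) (nat_lit 0) (nat_lit 6533343699) (nat_lit 10) (nat_lit 5) (nat_lit 12) (nat_lit 4) (nat_lit 10) (nat_lit 4) (nat_lit 332) (nat_lit 265) (nat_lit 123)) (XT.lf (nat_lit 0) (nat_lit 3333074425) (nat_lit 76) (nat_lit 115078228443) (nat_lit 76) (nat_lit 20719693506) (nat_lit 9) (nat_lit 4) (nat_lit 10) (nat_lit 5) (nat_lit 10) (nat_lit 4) (nat_lit 333) (nat_lit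 265) (nat_lit 122))))))))
noncomputable def xc186 : XT := (XT.nd (nat_lit 1404) (nat_lit 76) (nat_lit 0) (XT.nd (nat_lit 702) (nat_lit 152) (nat_lit 0) (XT.nd (nat_lit 312) (nat_lit 76) (nat_lit 0) (XT.nd (nat_lit 156) (nat_lit 0) (nat_lit 0) (XT.nd (nat_lit 78) (nat_lit 76) (nat_lit 0) (XT.lf (nat_lit 0) (nat_lit 34946604847) (nat_lit 76) (nat_lit 102302096290) (nat_lit 76) (nat_lit 7939364754) (nat_lit 9) (nat_lit 4) (nat_lit 10) (nat_lit 5) (nat_lit 10) (nat_lit 4) (nat_lit 334) (nat_lit 265) (nat_lit 121)) (XT.lf (nat_lit 0) (nat_lit 5303032893) (nat_lit 152) (nat_lit 83495510865) (nat_lit 76) (nat_lit 62745246376) (nat_lit 8) (nat_lit 5) (nat_lit 10) (nat_lit 5) (nat_lit 9) (nat_lit 4) (nat_lit 335) (nat_lit 265) (nat_lit 120))) (XT.nd (nat_lit 78) (nat_lit 0) (nat_lit 0) (XT.lf (nat_lit 0) (nat_lit 18939255759) (nat_lit 152) (nat_lit 55545060430) (nat_lit 76) (nat_lit 83726552098)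 (nat_lit 8) (nat_lit 5) (nat_lit 10) (nat_lit 5) (nat_lit 9) (nat_lit 4) (nat_lit 336) (nat_lit 265) (nat_lit 119)) (XT.lf (nat_lit 0) (nat_lit 33255880295) (nat_lit 152) (nat_lit 26199605313) (nat_lit 76) (nat_lit 105755886525) (nat_lit 8) (nat_lit 5) (nat_lit 10) (nat_lit 5) (nat_lit 9) (nat_lit 4) (nat_lit 337) (nat_lit 265) (nat_lit 118)))) (XT.nd (nat_lit 156) (nat_lit 0) (nat_lit 0) (XT.nd (nat_lit 78) (nat_lit 0) (nat_lit 0) (XT.lf (nat_lit 0) (nat_lit 4763175994) (nat_lit 76) (nat_lit 43598184232) (nat_lit 152) (nat_lit 124196890983) (nat_lit 7) (nat_lit 5) (nat_lit 8) (nat_lit 5) (nat_lit 9) (nat_lit 4) (nat_lit 338) (nat_lit 265) (nat_lit 117)) (XT.lf (nat_lit 0) (nat_lit 38181328236) (nat_lit 76) (nat_lit 26483173643) (nat_lit 152) (nat_lit 115585854163) (nat_lit 7) (nat_lit 5) (nat_lit 8) (nat_lit 5) (nat_lit 9) (nat_lit 4) (nat_lit 339) (nat_lit 265) (nat_lit 116))) (XT.nd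 (nat_lit 78) (nat_lit 0) (nat_lit 0) (XT.lf (nat_lit 0) (nat_lit 73268141171) (nat_lit 76) (nat_lit 8513406807) (nat_lit 152) (nat_lit 106545581904) (nat_lit 7) (nat_lit 5) (nat_lit 8) (nat_lit 5) (nat_lit 9) (nat_lit 4) (nat_lit 340) (nat_lit 265) (nat_lit 115)) (XT.nd (nat_lit 78) (nat_lit 0) (nat_lit 0) (XT.lf (nat_lit 0) (nat_lit 99914906811) (nat_lit 152) (nat_lit 86862301732) (nat_lit 0) (nat_lit 10022511926) (nat_lit 7) (nat_lit 5) (nat_lit 9) (nat_lit 4) (nat_lit 7) (nat_lit 4) (nat_lit 341) (nat_lit 265) (nat_lit 114)) (XT.lf (nat_lit 0) (nat_lit 119093347373) (nat_lit 152) (nat_lit 57397426229) (nat_lit 0) (nat_lit 29198247322) (nat_lit 7) (nat_lit 5) (nat_lit 9) (nat_lit 4) (nat_lit 7) (nat_lit 4) (nat_lit 342) (nat_lit 265) (nat_lit 113)))))) (XT.nd (nat_lit 312) (nat_lit 76) (nat_lit 0) (XT.nd (nat_lit 156) (nat_lit 0) (nat_lit 0) (XT.nd (nat_lit 78) (nat_lit 76) (nat_lit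 0) (XT.lf (nat_lit 0) (nat_lit 139229614479) (nat_lit 152) (nat_lit 26461289597) (nat_lit 0) (nat_lit 49331938079) (nat_lit 7) (nat_lit 5) (nat_lit 9) (nat_lit 4) (nat_lit 7) (nat_lit 4) (nat_lit 343) (nat_lit 265) (nat_lit 112)) (XT.lf (nat_lit 0) (nat_lit 6218806269) (nat_lit 76) (nat_lit 154249938345) (nat_lit 76) (nat_lit 64349808280) (nat_lit 6) (nat_lit 4) (nat_lit 7) (nat_lit 5) (nat_lit 7) (nat_lit 4) (nat_lit 344) (nat_lit 265) (nat_lit 111))) (XT.nd (nat_lit 78) (nat_lit 0) (nat_lit 0) (XT.lf (nat_lit 0) (nat_lit 41449725374) (nat_lit 76) (nat_lit 141767217983) (nat_lit 76) (nat_lit 51864751095) (nat_lit 6) (nat_lit 4) (nat_lit 7) (nat_lit 5) (nat_lit 7) (nat_lit 4) (nat_lit 345) (nat_lit 265) (nat_lit 110)) (XT.lf (nat_lit 0) (nat_lit 78440421119) (nat_lit 76) (nat_lit 128661156973) (nat_lit 76) (nat_lit 38756464538) (nat_lit 6) (nat_lit 4) (nat_lit 7) (nat_lit 5) (nat_lit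 7) (nat_lit 4) (nat_lit 346) (nat_lit 265) (nat_lit 109)))) (XT.nd (nat_lit 156) (nat_lit 76) (nat_lit 0) (XT.nd (nat_lit 78) (nat_lit 0) (nat_lit 0) (XT.lf (nat_lit 0) (nat_lit 117278966592) (nat_lit 76) (nat_lit 114900550406) (nat_lit 76) (nat_lit 24993738403) (nat_lit 6) (nat_lit 4) (nat_lit 7) (nat_lit 5) (nat_lit 7) (nat_lit 4) (nat_lit 347) (nat_lit 265) (nat_lit 108)) (XT.lf (nat_lit 0) (nat_lit 158057834518) (nat_lit 76) (nat_lit 100452634933) (nat_lit 76) (nat_lit 10543804294) (nat_lit 6) (nat_lit 4) (nat_lit 7) (nat_lit 5) (nat_lit 7) (nat_lit 4) (nat_lit 348) (nat_lit 265) (nat_lit 107))) (XT.nd (nat_lit 78) (nat_lit 0) (nat_lit 0) (XT.lf (nat_lit 0) (nat_lit 4479625735) (nat_lit 152) (nat_lit 80727520392) (nat_lit 76) (nat_lit 196318627076) (nat_lit 5) (nat_lit 5) (nat_lit 7) (nat_lit 5) (nat_lit 6) (nat_lit 4) (nat_lit 349) (nat_lit 265) (nat_lit 106)) (XT.nd (nat_lit 78)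 (nat_lit 0) (nat_lit 0) (XT.lf (nat_lit 0) (nat_lit 19899071227) (nat_lit 152) (nat_lit 49119488095) (nat_lit 76) (nat_lit 225593687264) (nat_lit 5) (nat_lit 5) (nat_lit 7) (nat_lit 5) (nat_lit 6) (nat_lit 4) (nat_lit 350) (nat_lit 265) (nat_lit 105)) (XT.lf (nat_lit 0) (nat_lit 36088712732) (nat_lit 152) (nat_lit 15932466784) (nat_lit 76) (nat_lit 256331903566) (nat_lit 5) (nat_lit 5) (nat_lit 7) (nat_lit 5) (nat_lit 6) (nat_lit 4) (nat_lit 351) (nat_lit 265) (nat_lit 104))))))) (XT.nd (nat_lit 31122) (nat_lit 0) (nat_lit 5016) (XT.nd (nat_lit 312) (nat_lit 0) (nat_lit 0) (XT.nd (nat_lit 156) (nat_lit 0) (nat_lit 0) (XT.nd (nat_lit 78) (nat_lit 0) (nat_lit 0) (XT.lf (nat_lit 0) (nat_lit 19537894911) (nat_lit 76) (nat_lit 33854243398) (nat_lit 152) (nat_lit 269373608595) (nat_lit 4) (nat_lit 5) (nat_lit 5) (nat_lit 5) (nat_lit 6) (nat_lit 4) (nat_lit 352) (nat_lit 265) (nat_lit 103))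 (XT.lf (nat_lit 0) (nat_lit 57333590327) (nat_lit 76) (nat_lit 14496244114) (nat_lit 152) (nat_lit 266055755083) (nat_lit 4) (nat_lit 5) (nat_lit 5) (nat_lit 5) (nat_lit 6) (nat_lit 4) (nat_lit 353) (nat_lit 265) (nat_lit 102))) (XT.nd (nat_lit 78) (nat_lit 0) (nat_lit 0) (XT.lf (nat_lit 0) (nat_lit 91279733483) (nat_lit 152) (nat_lit 256834657773) (nat_lit 0) (nat_lit 5642517659) (nat_lit 4) (nat_lit 5) (nat_lit 6) (nat_lit 4) (nat_lit 4) (nat_lit 4) (nat_lit 354) (nat_lit 265) (nat_lit 101)) (XT.lf (nat_lit 0) (nat_lit 111939104965) (nat_lit 152) (nat_lit 232170318107) (nat_lit 0) (nat_lit 26300522848) (nat_lit 4) (nat_lit 5) (nat_lit 6) (nat_lit 4) (nat_lit 4) (nat_lit 4) (nat_lit 355) (nat_lit 265) (nat_lit 100)))) (XT.nd (nat_lit 30576) (nat_lit 0) (nat_lit 5396) (XT.nd (nat_lit 30498) (nat_lit 0) (nat_lit 5396) (XT.lf (nat_lit 0) (nat_lit 133630810870) (nat_lit 152) (nat_lit 206273928584)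 (nat_lit 0) (nat_lit 47990927523) (nat_lit 4) (nat_lit 5) (nat_lit 6) (nat_lit 4) (nat_lit 4) (nat_lit 4) (nat_lit 356) (nat_lit 265) (nat_lit 99)) (XT.lf (nat_lit 0) (nat_lit 1062929729) (nat_lit 0) (nat_lit 1062929729) (nat_lit 684) (nat_lit 5267450305) (nat_lit 75) (nat_lit 5) (nat_lit 75) (nat_lit 3) (nat_lit 84) (nat_lit 3) (nat_lit 266) (nat_lit 266) (nat_lit 188))) (XT.nd (nat_lit 78) (nat_lit 0) (nat_lit 0) (XT.lf (nat_lit 0) (nat_lit 4707715800) (nat_lit 684) (nat_lit 6309016085) (nat_lit 760) (nat_lit 4121233057) (nat_lit 75) (nat_lit 5) (nat_lit 84) (nat_lit 3) (nat_lit 85) (nat_lit 5) (nat_lit 267) (nat_lit 266) (nat_lit 187)) (XT.nd (nat_lit 78) (nat_lit 0) (nat_lit 76) (XT.lf (nat_lit 76) (nat_lit 325723423) (nat_lit 0) (nat_lit 4882735836) (nat_lit 760) (nat_lit 10297374476) (nat_lit 76) (nat_lit 5) (nat_lit 75) (nat_lit 5) (nat_lit 85) (nat_lit 5) (nat_lit 268) (nat_lit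 266) (nat_lit 186)) (XT.lf (nat_lit 0) (nat_lit 5849987147) (nat_lit 684) (nat_lit 8412626448) (nat_lit 760) (nat_lit 1623745908) (nat_lit 76) (nat_lit 5) (nat_lit 85) (nat_lit 5) (nat_lit 86) (nat_lit 5) (nat_lit 269) (nat_lit 266) (nat_lit 185)))))) (XT.nd (nat_lit 312) (nat_lit 456) (nat_lit 0) (XT.nd (nat_lit 156) (nat_lit 0) (nat_lit 76) (XT.nd (nat_lit 78) (nat_lit 0) (nat_lit 0) (XT.lf (nat_lit 0) (nat_lit 6587279435) (nat_lit 684) (nat_lit 1397319709) (nat_lit 760) (nat_lit 8298176487) (nat_lit 76) (nat_lit 5) (nat_lit 85) (nat_lit 5) (nat_lit 86) (nat_lit 5) (nat_lit 270) (nat_lit 266) (nat_lit 184)) (XT.lf (nat_lit 76) (nat_lit 6155769263) (nat_lit 0) (nat_lit 1286197937) (nat_lit 760) (nat_lit 9253064989) (nat_lit 77) (nat_lit 5) (nat_lit 76) (nat_lit 5) (nat_lit 86) (nat_lit 5) (nat_lit 271) (nat_lit 266) (nat_lit 183))) (XT.nd (nat_lit 78) (nat_lit 0) (nat_lit 0) (XT.lf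 (nat_lit 0) (nat_lit 8438260767) (nat_lit 684) (nat_lit 3092529092) (nat_lit 760) (nat_lit 5592212114) (nat_lit 77) (nat_lit 5) (nat_lit 86) (nat_lit 5) (nat_lit 87) (nat_lit 5) (nat_lit 272) (nat_lit 266) (nat_lit 182)) (XT.lf (nat_lit 76) (nat_lit 4850494175) (nat_lit 0) (nat_lit 4716490318) (nat_lit 760) (nat_lit 8001296852) (nat_lit 78) (nat_lit 5) (nat_lit 77) (nat_lit 5) (nat_lit 87) (nat_lit 5) (nat_lit 273) (nat_lit 266) (nat_lit 181)))) (XT.nd (nat_lit 156) (nat_lit 608) (nat_lit 0) (XT.nd (nat_lit 78) (nat_lit 0) (nat_lit 0) (XT.lf (nat_lit 0) (nat_lit 10829825262) (nat_lit 684) (nat_lit 4784926728) (nat_lit 760) (nat_lit 2417228530) (nat_lit 78) (nat_lit 5) (nat_lit 87) (nat_lit 5) (nat_lit 88) (nat_lit 5) (nat_lit 274) (nat_lit 266) (nat_lit 180)) (XT.lf (nat_lit 76) (nat_lit 3571250814) (nat_lit 0) (nat_lit 8704659338) (nat_lit 760) (nat_lit 6236987381) (nat_lit 79) (nat_lit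 5) (nat_lit 78) (nat_lit 5) (nat_lit 88) (nat_lit 5) (nat_lit 275) (nat_lit 266) (nat_lit 179))) (XT.nd (nat_lit 78) (nat_lit 608) (nat_lit 0) (XT.lf (nat_lit 76) (nat_lit 12501216621) (nat_lit 0) (nat_lit 1361602540) (nat_lit 760) (nat_lit 5151651413) (nat_lit 79) (nat_lit 5) (nat_lit 78) (nat_lit 5) (nat_lit 88) (nat_lit 5) (nat_lit 276) (nat_lit 266) (nat_lit 178)) (XT.nd (nat_lit 78) (nat_lit 0) (nat_lit 0) (XT.lf (nat_lit 0) (nat_lit 2300752156) (nat_lit 684) (nat_lit 13351478267) (nat_lit 760) (nat_lit 3882768453) (nat_lit 70) (nat_lit 5) (nat_lit 79) (nat_lit 5) (nat_lit 80) (nat_lit 5) (nat_lit 277) (nat_lit 266) (nat_lit 177)) (XT.lf (nat_lit 0) (nat_lit 11748365998) (nat_lit 684) (nat_lit 5903536052) (nat_lit 760) (nat_lit 2423644863) (nat_lit 70) (nat_lit 5) (nat_lit 79) (nat_lit 5) (nat_lit 80) (nat_lit 5) (nat_lit 278) (nat_lit 266) (nat_lit 176))))))))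
noncomputable def xc187 : XT := (XT.nd (nat_lit 1404) (nat_lit 1444) (nat_lit 0) (XT.nd (nat_lit 702) (nat_lit 1064) (nat_lit 0) (XT.nd (nat_lit 312) (nat_lit 608) (nat_lit 0) (XT.nd (nat_lit 156) (nat_lit 380) (nat_lit 0) (XT.nd (nat_lit 78) (nat_lit 76) (nat_lit 0) (XT.lf (nat_lit 0) (nat_lit 1017609102) (nat_lit 380) (nat_lit 18768852023) (nat_lit 456) (nat_lit 854947280) (nat_lit 65) (nat_lit 5) (nat_lit 70) (nat_lit 5) (nat_lit 71) (nat_lit 5) (nat_lit 279) (nat_lit 266) (nat_lit 175)) (XT.lf (nat_lit 0) (nat_lit 996195795) (nat_lit 456) (nat_lit 10231721957) (nat_lit 76) (nat_lit 9995586874) (nat_lit 64) (nat_lit 5) (nat_lit 70) (nat_lit 5) (nat_lit 65) (nat_lit 5) (nat_lit 280) (nat_lit 266) (nat_lit 174))) (XT.nd (nat_lit 78) (nat_lit 380) (nat_lit 0) (XT.lf (nat_lit 0) (nat_lit 2900925607) (nat_lit 456) (nat_lit 394047104) (nat_lit 76) (nat_lit 18539571094) (nat_lit 64) (nat_lit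 5) (nat_lit 70) (nat_lit 5) (nat_lit 65) (nat_lit 5) (nat_lit 281) (nat_lit 266) (nat_lit 173)) (XT.lf (nat_lit 0) (nat_lit 5132470334) (nat_lit 456) (nat_lit 12295681425) (nat_lit 76) (nat_lit 5036429968) (nat_lit 59) (nat_lit 5) (nat_lit 65) (nat_lit 5) (nat_lit 60) (nat_lit 5) (nat_lit 282) (nat_lit 266) (nat_lit 172)))) (XT.nd (nat_lit 156) (nat_lit 304) (nat_lit 0) (XT.nd (nat_lit 78) (nat_lit 304) (nat_lit 0) (XT.lf (nat_lit 0) (nat_lit 7526959275) (nat_lit 456) (nat_lit 1916096564) (nat_lit 76) (nat_lit 13680521841) (nat_lit 59) (nat_lit 5) (nat_lit 65) (nat_lit 5) (nat_lit 60) (nat_lit 5) (nat_lit 283) (nat_lit 266) (nat_lit 171)) (XT.lf (nat_lit 0) (nat_lit 9269768649) (nat_lit 304) (nat_lit 907148466) (nat_lit 380) (nat_lit 13631842409) (nat_lit 55) (nat_lit 5) (nat_lit 59) (nat_lit 5) (nat_lit 60) (nat_lit 5) (nat_lit 284) (nat_lit 266) (nat_lit 170))) (XT.nd (nat_lit 78)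 (nat_lit 304) (nat_lit 0) (XT.lf (nat_lit 0) (nat_lit 13109417102) (nat_lit 380) (nat_lit 3581116721) (nat_lit 76) (nat_lit 7830186632) (nat_lit 55) (nat_lit 5) (nat_lit 60) (nat_lit 5) (nat_lit 56) (nat_lit 5) (nat_lit 285) (nat_lit 266) (nat_lit 169)) (XT.nd (nat_lit 78) (nat_lit 0) (nat_lit 0) (XT.lf (nat_lit 0) (nat_lit 8161782450) (nat_lit 304) (nat_lit 8160766350) (nat_lit 380) (nat_lit 8939051446) (nat_lit 51) (nat_lit 5) (nat_lit 55) (nat_lit 5) (nat_lit 56) (nat_lit 5) (nat_lit 286) (nat_lit 266) (nat_lit 168)) (XT.lf (nat_lit 0) (nat_lit 19762343203) (nat_lit 380) (nat_lit 5443233365) (nat_lit 76) (nat_lit 830667292) (nat_lit 51) (nat_lit 5) (nat_lit 56) (nat_lit 5) (nat_lit 52) (nat_lit 5) (nat_lit 287) (nat_lit 266) (nat_lit 167)))))) (XT.nd (nat_lit 312) (nat_lit 456) (nat_lit 0) (XT.nd (nat_lit 156) (nat_lit 304) (nat_lit 0) (XT.nd (nat_lit 78) (nat_lit 76) (nat_lit 0)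 (XT.lf (nat_lit 0) (nat_lit 6873356561) (nat_lit 228) (nat_lit 16734193917) (nat_lit 304) (nat_lit 3230417203) (nat_lit 48) (nat_lit 5) (nat_lit 51) (nat_lit 5) (nat_lit 52) (nat_lit 5) (nat_lit 288) (nat_lit 266) (nat_lit 166)) (XT.lf (nat_lit 0) (nat_lit 52462563) (nat_lit 304) (nat_lit 7690537813) (nat_lit 76) (nat_lit 19932516372) (nat_lit 47) (nat_lit 5) (nat_lit 51) (nat_lit 5) (nat_lit 48) (nat_lit 5) (nat_lit 289) (nat_lit 266) (nat_lit 165))) (XT.nd (nat_lit 78) (nat_lit 0) (nat_lit 0) (XT.lf (nat_lit 0) (nat_lit 3495240035) (nat_lit 380) (nat_lit 23271872230) (nat_lit 76) (nat_lit 1779983845) (nat_lit 43) (nat_lit 5) (nat_lit 48) (nat_lit 5) (nat_lit 44) (nat_lit 5) (nat_lit 290) (nat_lit 266) (nat_lit 164)) (XT.lf (nat_lit 0) (nat_lit 7362430441) (nat_lit 380) (nat_lit 10437459229) (nat_lit 76) (nat_lit 11649766848) (nat_lit 43) (nat_lit 5) (nat_lit 48) (nat_lit 5) (nat_lit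 44) (nat_lit 5) (nat_lit 291) (nat_lit 266) (nat_lit 163)))) (XT.nd (nat_lit 156) (nat_lit 228) (nat_lit 0) (XT.nd (nat_lit 78) (nat_lit 0) (nat_lit 0) (XT.lf (nat_lit 0) (nat_lit 3130371437) (nat_lit 228) (nat_lit 8334779486) (nat_lit 304) (nat_lit 18930100525) (nat_lit 40) (nat_lit 5) (nat_lit 43) (nat_lit 5) (nat_lit 44) (nat_lit 5) (nat_lit 292) (nat_lit 266) (nat_lit 162)) (XT.lf (nat_lit 0) (nat_lit 15971161724) (nat_lit 304) (nat_lit 13676932225) (nat_lit 76) (nat_lit 1730138777) (nat_lit 40) (nat_lit 5) (nat_lit 44) (nat_lit 5) (nat_lit 41) (nat_lit 5) (nat_lit 293) (nat_lit 266) (nat_lit 161))) (XT.nd (nat_lit 78) (nat_lit 0) (nat_lit 0) (XT.lf (nat_lit 0) (nat_lit 460252277) (nat_lit 228) (nat_lit 20379810568) (nat_lit 304) (nat_lit 11563434365) (nat_lit 37) (nat_lit 5) (nat_lit 40) (nat_lit 5) (nat_lit 41) (nat_lit 5) (nat_lit 294) (nat_lit 266) (nat_lit 160)) (XT.nd (nat_lit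 78) (nat_lit 0) (nat_lit 0) (XT.lf (nat_lit 0) (nat_lit 15771005477) (nat_lit 228) (nat_lit 10406967169) (nat_lit 304) (nat_lit 7290787076) (nat_lit 37) (nat_lit 5) (nat_lit 40) (nat_lit 5) (nat_lit 41) (nat_lit 5) (nat_lit 295) (nat_lit 266) (nat_lit 159)) (XT.lf (nat_lit 0) (nat_lit 31777981422) (nat_lit 304) (nat_lit 2749002652) (nat_lit 76) (nat_lit 60553477) (nat_lit 37) (nat_lit 5) (nat_lit 41) (nat_lit 5) (nat_lit 38) (nat_lit 5) (nat_lit 296) (nat_lit 266) (nat_lit 158))))))) (XT.nd (nat_lit 702) (nat_lit 608) (nat_lit 0) (XT.nd (nat_lit 312) (nat_lit 380) (nat_lit 0) (XT.nd (nat_lit 156) (nat_lit 228) (nat_lit 0) (XT.nd (nat_lit 78) (nat_lit 0) (nat_lit 0) (XT.lf (nat_lit 0) (nat_lit 2212161471) (nat_lit 228) (nat_lit 22588239826) (nat_lit 76) (nat_lit 10941529275) (nat_lit 34) (nat_lit 5) (nat_lit 37) (nat_lit 5) (nat_lit 35) (nat_lit 5) (nat_lit 297) (nat_lit 266) (nat_lit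 157)) (XT.lf (nat_lit 0) (nat_lit 7432383894) (nat_lit 228) (nat_lit 7059272953) (nat_lit 76) (nat_lit 22458002243) (nat_lit 34) (nat_lit 5) (nat_lit 37) (nat_lit 5) (nat_lit 35) (nat_lit 5) (nat_lit 298) (nat_lit 266) (nat_lit 156))) (XT.nd (nat_lit 78) (nat_lit 0) (nat_lit 0) (XT.lf (nat_lit 0) (nat_lit 9544291610) (nat_lit 228) (nat_lit 3513119494) (nat_lit 304) (nat_lit 25153183420) (nat_lit 31) (nat_lit 5) (nat_lit 34) (nat_lit 5) (nat_lit 35) (nat_lit 5) (nat_lit 299) (nat_lit 266) (nat_lit 155)) (XT.lf (nat_lit 0) (nat_lit 19205211454) (nat_lit 304) (nat_lit 12440009026) (nat_lit 76) (nat_lit 7877289848) (nat_lit 31) (nat_lit 5) (nat_lit 35) (nat_lit 5) (nat_lit 32) (nat_lit 5) (nat_lit 300) (nat_lit 266) (nat_lit 154)))) (XT.nd (nat_lit 156) (nat_lit 228) (nat_lit 0) (XT.nd (nat_lit 78) (nat_lit 0) (nat_lit 0) (XT.lf (nat_lit 0) (nat_lit 4682800510) (nat_lit 152) (nat_lit 21103432046)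 (nat_lit 228) (nat_lit 15107507057) (nat_lit 29) (nat_lit 5) (nat_lit 31) (nat_lit 5) (nat_lit 32) (nat_lit 5) (nat_lit 301) (nat_lit 266) (nat_lit 153)) (XT.lf (nat_lit 0) (nat_lit 23086668051) (nat_lit 152) (nat_lit 9815564415) (nat_lit 228) (nat_lit 9421010298) (nat_lit 29) (nat_lit 5) (nat_lit 31) (nat_lit 5) (nat_lit 32) (nat_lit 5) (nat_lit 302) (nat_lit 266) (nat_lit 152))) (XT.nd (nat_lit 78) (nat_lit 228) (nat_lit 0) (XT.lf (nat_lit 0) (nat_lit 40401274237) (nat_lit 228) (nat_lit 1452131683) (nat_lit 76) (nat_lit 1969461427) (nat_lit 29) (nat_lit 5) (nat_lit 32) (nat_lit 5) (nat_lit 30) (nat_lit 5) (nat_lit 303) (nat_lit 266) (nat_lit 151)) (XT.nd (nat_lit 78) (nat_lit 0) (nat_lit 0) (XT.lf (nat_lit 0) (nat_lit 3224393282) (nat_lit 228) (nat_lit 27809912462) (nat_lit 76) (nat_lit 14338993196) (nat_lit 26) (nat_lit 5) (nat_lit 29) (nat_lit 5) (nat_lit 27) (nat_lit 5) (nat_lit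 304) (nat_lit 266) (nat_lit 150)) (XT.lf (nat_lit 0) (nat_lit 10108376877) (nat_lit 228) (nat_lit 9482981973) (nat_lit 76) (nat_lit 27406061618) (nat_lit 26) (nat_lit 5) (nat_lit 29) (nat_lit 5) (nat_lit 27) (nat_lit 5) (nat_lit 305) (nat_lit 266) (nat_lit 149)))))) (XT.nd (nat_lit 390) (nat_lit 304) (nat_lit 0) (XT.nd (nat_lit 156) (nat_lit 152) (nat_lit 0) (XT.nd (nat_lit 78) (nat_lit 0) (nat_lit 0) (XT.lf (nat_lit 0) (nat_lit 10076560356) (nat_lit 152) (nat_lit 7413218009) (nat_lit 228) (nat_lit 31205315654) (nat_lit 24) (nat_lit 5) (nat_lit 26) (nat_lit 5) (nat_lit 27) (nat_lit 5) (nat_lit 306) (nat_lit 266) (nat_lit 148)) (XT.lf (nat_lit 0) (nat_lit 25483343552) (nat_lit 228) (nat_lit 19619167251) (nat_lit 76) (nat_lit 5362992323) (nat_lit 24) (nat_lit 5) (nat_lit 27) (nat_lit 5) (nat_lit 25) (nat_lit 5) (nat_lit 307) (nat_lit 266) (nat_lit 147))) (XT.nd (nat_lit 78) (nat_lit 0)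 (nat_lit 0) (XT.lf (nat_lit 0) (nat_lit 209319657) (nat_lit 152) (nat_lit 33788217306) (nat_lit 228) (nat_lit 18320854472) (nat_lit 22) (nat_lit 5) (nat_lit 24) (nat_lit 5) (nat_lit 25) (nat_lit 5) (nat_lit 308) (nat_lit 266) (nat_lit 146)) (XT.nd (nat_lit 78) (nat_lit 0) (nat_lit 0) (XT.lf (nat_lit 0) (nat_lit 21704441986) (nat_lit 152) (nat_lit 21561502580) (nat_lit 228) (nat_lit 10981560316) (nat_lit 22) (nat_lit 5) (nat_lit 24) (nat_lit 5) (nat_lit 25) (nat_lit 5) (nat_lit 309) (nat_lit 266) (nat_lit 145)) (XT.lf (nat_lit 0) (nat_lit 44268680324) (nat_lit 152) (nat_lit 8725515490) (nat_lit 228) (nat_lit 3279062688) (nat_lit 22) (nat_lit 5) (nat_lit 24) (nat_lit 5) (nat_lit 25) (nat_lit 5) (nat_lit 310) (nat_lit 266) (nat_lit 144))))) (XT.nd (nat_lit 156) (nat_lit 152) (nat_lit 0) (XT.nd (nat_lit 78) (nat_lit 0) (nat_lit 0) (XT.lf (nat_lit 0) (nat_lit 4881997977) (nat_lit 152) (nat_lit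 48673256562) (nat_lit 76) (nat_lit 4829929543) (nat_lit 20) (nat_lit 5) (nat_lit 22) (nat_lit 5) (nat_lit 21) (nat_lit 5) (nat_lit 311) (nat_lit 266) (nat_lit 143)) (XT.lf (nat_lit 0) (nat_lit 13687172900) (nat_lit 152) (nat_lit 27867185128) (nat_lit 76) (nat_lit 19028352088) (nat_lit 20) (nat_lit 5) (nat_lit 22) (nat_lit 5) (nat_lit 21) (nat_lit 5) (nat_lit 312) (nat_lit 266) (nat_lit 142))) (XT.nd (nat_lit 78) (nat_lit 152) (nat_lit 0) (XT.lf (nat_lit 0) (nat_lit 22929351151) (nat_lit 152) (nat_lit 6026091554) (nat_lit 76) (nat_lit 33934837179) (nat_lit 20) (nat_lit 5) (nat_lit 22) (nat_lit 5) (nat_lit 21) (nat_lit 5) (nat_lit 313) (nat_lit 266) (nat_lit 141)) (XT.nd (nat_lit 78) (nat_lit 0) (nat_lit 0) (XT.lf (nat_lit 0) (nat_lit 17460884101) (nat_lit 152) (nat_lit 15442267150) (nat_lit 228) (nat_lit 32396605679) (nat_lit 18) (nat_lit 5) (nat_lit 20) (nat_lit 5) (nat_lit 21) (nat_lit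 5) (nat_lit 314) (nat_lit 266) (nat_lit 140)) (XT.lf (nat_lit 0) (nat_lit 42326472026) (nat_lit 152) (nat_lit 1148194084) (nat_lit 228) (nat_lit 24350094709) (nat_lit 18) (nat_lit 5) (nat_lit 20) (nat_lit 5) (nat_lit 21) (nat_lit 5) (nat_lit 315) (nat_lit 266) (nat_lit 139))))))))
noncomputable def xc188 : XT := (XT.nd (nat_lit 1404) (nat_lit 380) (nat_lit 0) (XT.nd (nat_lit 702) (nat_lit 228) (nat_lit 0) (XT.nd (nat_lit 312) (nat_lit 228) (nat_lit 0) (XT.nd (nat_lit 156) (nat_lit 76) (nat_lit 0) (XT.nd (nat_lit 78) (nat_lit 76) (nat_lit 0) (XT.lf (nat_lit 0) (nat_lit 54788244982) (nat_lit 228) (nat_lit 2261911026) (nat_lit 76) (nat_lit 13415188506) (nat_lit 18) (nat_lit 5) (nat_lit 21) (nat_lit 5) (nat_lit 19) (nat_lit 4) (nat_lit 316) (nat_lit 266) (nat_lit 138)) (XT.lf (nat_lit 0) (nat_lit 22844011000) (nat_lit 76) (nat_lit 44196198190) (nat_lit 152) (nat_lit 6179116720) (nat_lit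 17) (nat_lit 5) (nat_lit 18) (nat_lit 5) (nat_lit 19) (nat_lit 4) (nat_lit 317) (nat_lit 266) (nat_lit 137))) (XT.nd (nat_lit 78) (nat_lit 0) (nat_lit 0) (XT.lf (nat_lit 0) (nat_lit 3708513529) (nat_lit 152) (nat_lit 26889816114) (nat_lit 76) (nat_lit 45507910020) (nat_lit 16) (nat_lit 5) (nat_lit 18) (nat_lit 5) (nat_lit 17) (nat_lit 5) (nat_lit 318) (nat_lit 266) (nat_lit 136)) (XT.lf (nat_lit 0) (nat_lit 13880235920) (nat_lit 152) (nat_lit 2335742570) (nat_lit 76) (nat_lit 62916590602) (nat_lit 16) (nat_lit 5) (nat_lit 18) (nat_lit 5) (nat_lit 17) (nat_lit 5) (nat_lit 319) (nat_lit 266) (nat_lit 135)))) (XT.nd (nat_lit 156) (nat_lit 76) (nat_lit 0) (XT.nd (nat_lit 78) (nat_lit 0) (nat_lit 0) (XT.lf (nat_lit 0) (nat_lit 24216934264) (nat_lit 152) (nat_lit 719199110) (nat_lit 228) (nat_lit 57355305327) (nat_lit 14) (nat_lit 5) (nat_lit 16) (nat_lit 5) (nat_lit 17) (nat_lit 5) (nat_lit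 320) (nat_lit 266) (nat_lit 134)) (XT.lf (nat_lit 0) (nat_lit 36825371411) (nat_lit 228) (nat_lit 33675627866) (nat_lit 76) (nat_lit 15093228231) (nat_lit 14) (nat_lit 5) (nat_lit 17) (nat_lit 5) (nat_lit 15) (nat_lit 4) (nat_lit 321) (nat_lit 266) (nat_lit 133))) (XT.nd (nat_lit 78) (nat_lit 76) (nat_lit 0) (XT.lf (nat_lit 0) (nat_lit 49318502885) (nat_lit 228) (nat_lit 8072621660) (nat_lit 76) (nat_lit 31670562496) (nat_lit 14) (nat_lit 5) (nat_lit 17) (nat_lit 5) (nat_lit 15) (nat_lit 4) (nat_lit 322) (nat_lit 266) (nat_lit 132)) (XT.nd (nat_lit 78) (nat_lit 0) (nat_lit 0) (XT.lf (nat_lit 0) (nat_lit 19428536948) (nat_lit 76) (nat_lit 43308841594) (nat_lit 152) (nat_lit 29950089351) (nat_lit 13) (nat_lit 5) (nat_lit 14) (nat_lit 5) (nat_lit 15) (nat_lit 4) (nat_lit 323) (nat_lit 266) (nat_lit 131)) (XT.lf (nat_lit 0) (nat_lit 48581246073) (nat_lit 76) (nat_lit 28380467462) (nat_lit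 152) (nat_lit 19526101071) (nat_lit 13) (nat_lit 5) (nat_lit 14) (nat_lit 5) (nat_lit 15) (nat_lit 4) (nat_lit 324) (nat_lit 266) (nat_lit 130)))))) (XT.nd (nat_lit 312) (nat_lit 76) (nat_lit 0) (XT.nd (nat_lit 156) (nat_lit 0) (nat_lit 0) (XT.nd (nat_lit 78) (nat_lit 152) (nat_lit 0) (XT.lf (nat_lit 0) (nat_lit 79187999597) (nat_lit 76) (nat_lit 12707172154) (nat_lit 152) (nat_lit 8583114052) (nat_lit 13) (nat_lit 5) (nat_lit 14) (nat_lit 5) (nat_lit 15) (nat_lit 4) (nat_lit 325) (nat_lit 266) (nat_lit 129)) (XT.lf (nat_lit 0) (nat_lit 2979543378) (nat_lit 152) (nat_lit 97895376833) (nat_lit 76) (nat_lit 3782815055) (nat_lit 11) (nat_lit 5) (nat_lit 13) (nat_lit 5) (nat_lit 12) (nat_lit 4) (nat_lit 326) (nat_lit 266) (nat_lit 128))) (XT.nd (nat_lit 78) (nat_lit 0) (nat_lit 0) (XT.lf (nat_lit 0) (nat_lit 15404662817) (nat_lit 152) (nat_lit 72429787021) (nat_lit 76) (nat_lit 21176035258)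 (nat_lit 11) (nat_lit 5) (nat_lit 13) (nat_lit 5) (nat_lit 12) (nat_lit 4) (nat_lit 327) (nat_lit 266) (nat_lit 127)) (XT.lf (nat_lit 0) (nat_lit 28449125479) (nat_lit 152) (nat_lit 45694262409) (nat_lit 76) (nat_lit 39437582199) (nat_lit 11) (nat_lit 5) (nat_lit 13) (nat_lit 5) (nat_lit 12) (nat_lit 4) (nat_lit 328) (nat_lit 266) (nat_lit 126)))) (XT.nd (nat_lit 156) (nat_lit 0) (nat_lit 0) (XT.nd (nat_lit 78) (nat_lit 76) (nat_lit 0) (XT.lf (nat_lit 0) (nat_lit 42143989608) (nat_lit 152) (nat_lit 17625146986) (nat_lit 76) (nat_lit 58610935754) (nat_lit 11) (nat_lit 5) (nat_lit 13) (nat_lit 5) (nat_lit 12) (nat_lit 4) (nat_lit 329) (nat_lit 266) (nat_lit 125)) (XT.lf (nat_lit 0) (nat_lit 12236019514) (nat_lit 76) (nat_lit 44476881067) (nat_lit 152) (nat_lit 66696765804) (nat_lit 10) (nat_lit 5) (nat_lit 11) (nat_lit 5) (nat_lit 12) (nat_lit 4) (nat_lit 330) (nat_lit 266) (nat_lit 124)))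 (XT.nd (nat_lit 78) (nat_lit 0) (nat_lit 0) (XT.lf (nat_lit 0) (nat_lit 44199164842) (nat_lit 76) (nat_lit 28107883747) (nat_lit 152) (nat_lit 56368853716) (nat_lit 10) (nat_lit 5) (nat_lit 11) (nat_lit 5) (nat_lit 12) (nat_lit 4) (nat_lit 331) (nat_lit 266) (nat_lit 123)) (XT.nd (nat_lit 78) (nat_lit 0) (nat_lit 0) (XT.lf (nat_lit 0) (nat_lit 77757624769) (nat_lit 76) (nat_lit 10921661224) (nat_lit 152) (nat_lit 45526246602) (nat_lit 10) (nat_lit 5) (nat_lit 11) (nat_lit 5) (nat_lit 12) (nat_lit 4) (nat_lit 332) (nat_lit 266) (nat_lit 122)) (XT.lf (nat_lit 0) (nat_lit 105979799714) (nat_lit 152) (nat_lit 27131628055) (nat_lit 0) (nat_lit 6894735001) (nat_lit 10) (nat_lit 5) (nat_lit 12) (nat_lit 4) (nat_lit 10) (nat_lit 4) (nat_lit 333) (nat_lit 266) (nat_lit 121))))))) (XT.nd (nat_lit 702) (nat_lit 152) (nat_lit 0) (XT.nd (nat_lit 312) (nat_lit 76) (nat_lit 0) (XT.nd (nat_lit 156)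 (nat_lit 76) (nat_lit 0) (XT.nd (nat_lit 78) (nat_lit 0) (nat_lit 0) (XT.lf (nat_lit 0) (nat_lit 3583479875) (nat_lit 76) (nat_lit 120795366114) (nat_lit 76) (nat_lit 21706304639) (nat_lit 9) (nat_lit 4) (nat_lit 10) (nat_lit 5) (nat_lit 10) (nat_lit 4) (nat_lit 334) (nat_lit 266) (nat_lit 120)) (XT.lf (nat_lit 0) (nat_lit 36773698641) (nat_lit 76) (nat_lit 107382178484) (nat_lit 76) (nat_lit 8289310570) (nat_lit 9) (nat_lit 4) (nat_lit 10) (nat_lit 5) (nat_lit 10) (nat_lit 4) (nat_lit 335) (nat_lit 266) (nat_lit 119))) (XT.nd (nat_lit 78) (nat_lit 0) (nat_lit 0) (XT.lf (nat_lit 0) (nat_lit 5611534453) (nat_lit 152) (nat_lit 87592847466) (nat_lit 76) (nat_lit 65914389915) (nat_lit 8) (nat_lit 5) (nat_lit 10) (nat_lit 5) (nat_lit 9) (nat_lit 4) (nat_lit 336) (nat_lit 266) (nat_lit 118)) (XT.lf (nat_lit 0) (nat_lit 19927504180) (nat_lit 152) (nat_lit 58248562077) (nat_lit 76) (nat_lit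 87943242770) (nat_lit 8) (nat_lit 5) (nat_lit 10) (nat_lit 5) (nat_lit 9) (nat_lit 4) (nat_lit 337) (nat_lit 266) (nat_lit 117)))) (XT.nd (nat_lit 156) (nat_lit 0) (nat_lit 0) (XT.nd (nat_lit 78) (nat_lit 76) (nat_lit 0) (XT.lf (nat_lit 0) (nat_lit 34957993960) (nat_lit 152) (nat_lit 27439346175) (nat_lit 76) (nat_lit 111072598058) (nat_lit 8) (nat_lit 5) (nat_lit 10) (nat_lit 5) (nat_lit 9) (nat_lit 4) (nat_lit 338) (nat_lit 266) (nat_lit 116)) (XT.lf (nat_lit 0) (nat_lit 5070441304) (nat_lit 76) (nat_lit 45747513166) (nat_lit 152) (nat_lit 130366248165) (nat_lit 7) (nat_lit 5) (nat_lit 8) (nat_lit 5) (nat_lit 9) (nat_lit 4) (nat_lit 339) (nat_lit 266) (nat_lit 115))) (XT.nd (nat_lit 78) (nat_lit 0) (nat_lit 0) (XT.lf (nat_lit 0) (nat_lit 40156210372) (nat_lit 76) (nat_lit 27778208251) (nat_lit 152) (nat_lit 121326587475) (nat_lit 7) (nat_lit 5) (nat_lit 8) (nat_lit 5) (nat_lit 9)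 (nat_lit 4) (nat_lit 340) (nat_lit 266) (nat_lit 114)) (XT.nd (nat_lit 78) (nat_lit 0) (nat_lit 0) (XT.lf (nat_lit 0) (nat_lit 76994229871) (nat_lit 76) (nat_lit 8911339934) (nat_lit 152) (nat_lit 111836137764) (nat_lit 7) (nat_lit 5) (nat_lit 8) (nat_lit 5) (nat_lit 9) (nat_lit 4) (nat_lit 341) (nat_lit 266) (nat_lit 113)) (XT.lf (nat_lit 0) (nat_lit 104944344994) (nat_lit 152) (nat_lit 91144438349) (nat_lit 0) (nat_lit 10549208426) (nat_lit 7) (nat_lit 5) (nat_lit 9) (nat_lit 4) (nat_lit 7) (nat_lit 4) (nat_lit 342) (nat_lit 266) (nat_lit 112)))))) (XT.nd (nat_lit 312) (nat_lit 76) (nat_lit 0) (XT.nd (nat_lit 156) (nat_lit 76) (nat_lit 0) (XT.nd (nat_lit 78) (nat_lit 0) (nat_lit 0) (XT.lf (nat_lit 0) (nat_lit 125080103163) (nat_lit 152) (nat_lit 60209222807) (nat_lit 0) (nat_lit 30682512931) (nat_lit 7) (nat_lit 5) (nat_lit 9) (nat_lit 4) (nat_lit 7) (nat_lit 4) (nat_lit 343) (nat_lit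 266) (nat_lit 111)) (XT.lf (nat_lit 0) (nat_lit 146221655604) (nat_lit 152) (nat_lit 27729044807) (nat_lit 0) (nat_lit 51821728547) (nat_lit 7) (nat_lit 5) (nat_lit 9) (nat_lit 4) (nat_lit 7) (nat_lit 4) (nat_lit 344) (nat_lit 266) (nat_lit 110))) (XT.nd (nat_lit 78) (nat_lit 0) (nat_lit 0) (XT.lf (nat_lit 0) (nat_lit 6584163767) (nat_lit 76) (nat_lit 161937972826) (nat_lit 76) (nat_lit 67535820223) (nat_lit 6) (nat_lit 4) (nat_lit 7) (nat_lit 5) (nat_lit 7) (nat_lit 4) (nat_lit 345) (nat_lit 266) (nat_lit 109)) (XT.lf (nat_lit 0) (nat_lit 43574037532) (nat_lit 76) (nat_lit 148832281325) (nat_lit 76) (nat_lit 54428009154) (nat_lit 6) (nat_lit 4) (nat_lit 7) (nat_lit 5) (nat_lit 7) (nat_lit 4) (nat_lit 346) (nat_lit 266) (nat_lit 108)))) (XT.nd (nat_lit 156) (nat_lit 76) (nat_lit 0) (XT.nd (nat_lit 78) (nat_lit 0) (nat_lit 0) (XT.lf (nat_lit 0) (nat_lit 82411800166) (nat_lit 76) (nat_lit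 135072026671) (nat_lit 76) (nat_lit 40665735864) (nat_lit 6) (nat_lit 4) (nat_lit 7) (nat_lit 5) (nat_lit 7) (nat_lit 4) (nat_lit 347) (nat_lit 266) (nat_lit 107)) (XT.lf (nat_lit 0) (nat_lit 123189922531) (nat_lit 76) (nat_lit 120624446354) (nat_lit 76) (nat_lit 26216233036) (nat_lit 6) (nat_lit 4) (nat_lit 7) (nat_lit 5) (nat_lit 7) (nat_lit 4) (nat_lit 348) (nat_lit 266) (nat_lit 106))) (XT.nd (nat_lit 78) (nat_lit 76) (nat_lit 0) (XT.lf (nat_lit 0) (nat_lit 166005495396) (nat_lit 76) (nat_lit 105455141373) (nat_lit 76) (nat_lit 11045097093) (nat_lit 6) (nat_lit 4) (nat_lit 7) (nat_lit 5) (nat_lit 7) (nat_lit 4) (nat_lit 349) (nat_lit 266) (nat_lit 105)) (XT.nd (nat_lit 78) (nat_lit 0) (nat_lit 0) (XT.lf (nat_lit 0) (nat_lit 4727481819) (nat_lit 152) (nat_lit 84720450324) (nat_lit 76) (nat_lit 206152916590) (nat_lit 5) (nat_lit 5) (nat_lit 7) (nat_lit 5) (nat_lit 6) (nat_lit 4) (nat_lit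 350) (nat_lit 266) (nat_lit 104)) (XT.lf (nat_lit 0) (nat_lit 20916762691) (nat_lit 152) (nat_lit 51534085274) (nat_lit 76) (nat_lit 236890855589) (nat_lit 5) (nat_lit 5) (nat_lit 7) (nat_lit 5) (nat_lit 6) (nat_lit 4) (nat_lit 351) (nat_lit 266) (nat_lit 103))))))))
noncomputable def xc189 : XT := (XT.nd (nat_lit 31902) (nat_lit 0) (nat_lit 2280) (XT.nd (nat_lit 31200) (nat_lit 0) (nat_lit 5016) (XT.nd (nat_lit 312) (nat_lit 0) (nat_lit 0) (XT.nd (nat_lit 156) (nat_lit 0) (nat_lit 0) (XT.nd (nat_lit 78) (nat_lit 76) (nat_lit 0) (XT.lf (nat_lit 0) (nat_lit 37914803514) (nat_lit 152) (nat_lit 16689683241) (nat_lit 76) (nat_lit 269165150136) (nat_lit 5) (nat_lit 5) (nat_lit 7) (nat_lit 5) (nat_lit 6) (nat_lit 4) (nat_lit 352) (nat_lit 266) (nat_lit 102)) (XT.lf (nat_lit 0) (nat_lit 20553560944) (nat_lit 76) (nat_lit 35529413557) (nat_lit 152) (nat_lit 282819981534) (nat_lit 4) (nat_lit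 5) (nat_lit 5) (nat_lit 5) (nat_lit 6) (nat_lit 4) (nat_lit 353) (nat_lit 266) (nat_lit 101))) (XT.nd (nat_lit 78) (nat_lit 0) (nat_lit 0) (XT.lf (nat_lit 0) (nat_lit 60237194879) (nat_lit 76) (nat_lit 15204349642) (nat_lit 152) (nat_lit 279337297609) (nat_lit 4) (nat_lit 5) (nat_lit 5) (nat_lit 5) (nat_lit 6) (nat_lit 4) (nat_lit 354) (nat_lit 266) (nat_lit 100)) (XT.lf (nat_lit 0) (nat_lit 95863224153) (nat_lit 152) (nat_lit 269640494407) (nat_lit 0) (nat_lit 5940045408) (nat_lit 4) (nat_lit 5) (nat_lit 6) (nat_lit 4) (nat_lit 4) (nat_lit 4) (nat_lit 355) (nat_lit 266) (nat_lit 99)))) (XT.nd (nat_lit 30654) (nat_lit 0) (nat_lit 5396) (XT.nd (nat_lit 30576) (nat_lit 0) (nat_lit 5396) (XT.lf (nat_lit 0) (nat_lit 117554635447) (nat_lit 152) (nat_lit 243744647103) (nat_lit 0) (nat_lit 27630217434) (nat_lit 4) (nat_lit 5) (nat_lit 6) (nat_lit 4) (nat_lit 4) (nat_lit 4) (nat_lit 356) (nat_lit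 266) (nat_lit 98)) (XT.lf (nat_lit 0) (nat_lit 1255481394) (nat_lit 0) (nat_lit 1255481394) (nat_lit 684) (nat_lit 5237250103) (nat_lit 75) (nat_lit 5) (nat_lit 75) (nat_lit 3) (nat_lit 84) (nat_lit 3) (nat_lit 267) (nat_lit 267) (nat_lit 186))) (XT.nd (nat_lit 78) (nat_lit 0) (nat_lit 0) (XT.lf (nat_lit 0) (nat_lit 5470023214) (nat_lit 684) (nat_lit 6326668710) (nat_lit 760) (nat_lit 4070259772) (nat_lit 75) (nat_lit 5) (nat_lit 84) (nat_lit 3) (nat_lit 85) (nat_lit 5) (nat_lit 268) (nat_lit 267) (nat_lit 185)) (XT.nd (nat_lit 78) (nat_lit 0) (nat_lit 76) (XT.lf (nat_lit 76) (nat_lit 635004578) (nat_lit 0) (nat_lit 5340282235) (nat_lit 760) (nat_lit 10279027510) (nat_lit 76) (nat_lit 5) (nat_lit 75) (nat_lit 5) (nat_lit 85) (nat_lit 5) (nat_lit 269) (nat_lit 267) (nat_lit 184)) (XT.lf (nat_lit 0) (nat_lit 6621603332) (nat_lit 684) (nat_lit 8525507289) (nat_lit 760) (nat_lit 1508191139)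 (nat_lit 76) (nat_lit 5) (nat_lit 85) (nat_lit 5) (nat_lit 86) (nat_lit 5) (nat_lit 270) (nat_lit 267) (nat_lit 183)))))) (XT.nd (nat_lit 312) (nat_lit 456) (nat_lit 0) (XT.nd (nat_lit 156) (nat_lit 0) (nat_lit 76) (XT.nd (nat_lit 78) (nat_lit 0) (nat_lit 0) (XT.lf (nat_lit 0) (nat_lit 7372945147) (nat_lit 684) (nat_lit 1174089998) (nat_lit 760) (nat_lit 8525711918) (nat_lit 76) (nat_lit 5) (nat_lit 85) (nat_lit 5) (nat_lit 86) (nat_lit 5) (nat_lit 271) (nat_lit 267) (nat_lit 182)) (XT.lf (nat_lit 76) (nat_lit 6751926073) (nat_lit 0) (nat_lit 1501214811) (nat_lit 760) (nat_lit 9253401279) (nat_lit 77) (nat_lit 5) (nat_lit 76) (nat_lit 5) (nat_lit 86) (nat_lit 5) (nat_lit 272) (nat_lit 267) (nat_lit 181))) (XT.nd (nat_lit 78) (nat_lit 0) (nat_lit 0) (XT.lf (nat_lit 0) (nat_lit 9276099868) (nat_lit 684) (nat_lit 2948143222) (nat_lit 760) (nat_lit 5732886136) (nat_lit 77) (nat_lit 5) (nat_lit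 86) (nat_lit 5) (nat_lit 87) (nat_lit 5) (nat_lit 273) (nat_lit 267) (nat_lit 180)) (XT.lf (nat_lit 76) (nat_lit 5387208428) (nat_lit 0) (nat_lit 5058838471) (nat_lit 760) (nat_lit 7979444716) (nat_lit 78) (nat_lit 5) (nat_lit 77) (nat_lit 5) (nat_lit 87) (nat_lit 5) (nat_lit 274) (nat_lit 267) (nat_lit 179)))) (XT.nd (nat_lit 156) (nat_lit 608) (nat_lit 0) (XT.nd (nat_lit 78) (nat_lit 0) (nat_lit 0) (XT.lf (nat_lit 0) (nat_lit 11751364192) (nat_lit 684) (nat_lit 4722214520) (nat_lit 760) (nat_lit 2439885941) (nat_lit 78) (nat_lit 5) (nat_lit 87) (nat_lit 5) (nat_lit 88) (nat_lit 5) (nat_lit 275) (nat_lit 267) (nat_lit 178)) (XT.lf (nat_lit 76) (nat_lit 4046901601) (nat_lit 0) (nat_lit 9209392598) (nat_lit 760) (nat_lit 6162859250) (nat_lit 79) (nat_lit 5) (nat_lit 78) (nat_lit 5) (nat_lit 88) (nat_lit 5) (nat_lit 276) (nat_lit 267) (nat_lit 177))) (XT.nd (nat_lit 78) (nat_lit 608)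 (nat_lit 0) (XT.lf (nat_lit 76) (nat_lit 13409218638) (nat_lit 0) (nat_lit 1495873422) (nat_lit 760) (nat_lit 5041636365) (nat_lit 79) (nat_lit 5) (nat_lit 78) (nat_lit 5) (nat_lit 88) (nat_lit 5) (nat_lit 277) (nat_lit 267) (nat_lit 176)) (XT.nd (nat_lit 78) (nat_lit 0) (nat_lit 0) (XT.lf (nat_lit 0) (nat_lit 2713351982) (nat_lit 684) (nat_lit 14057658142) (nat_lit 760) (nat_lit 3722969260) (nat_lit 70) (nat_lit 5) (nat_lit 79) (nat_lit 5) (nat_lit 80) (nat_lit 5) (nat_lit 278) (nat_lit 267) (nat_lit 175)) (XT.lf (nat_lit 0) (nat_lit 12619176886) (nat_lit 684) (nat_lit 6235480436) (nat_lit 760) (nat_lit 2207743663) (nat_lit 70) (nat_lit 5) (nat_lit 79) (nat_lit 5) (nat_lit 80) (nat_lit 5) (nat_lit 279) (nat_lit 267) (nat_lit 174))))))) (XT.nd (nat_lit 702) (nat_lit 1292) (nat_lit 0) (XT.nd (nat_lit 312) (nat_lit 608) (nat_lit 0) (XT.nd (nat_lit 156) (nat_lit 380) (nat_lit 0) (XT.nd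 (nat_lit 78) (nat_lit 76) (nat_lit 0) (XT.lf (nat_lit 0) (nat_lit 1364526400) (nat_lit 380) (nat_lit 19720247483) (nat_lit 456) (nat_lit 572383775) (nat_lit 65) (nat_lit 5) (nat_lit 70) (nat_lit 5) (nat_lit 71) (nat_lit 5) (nat_lit 280) (nat_lit 267) (nat_lit 173)) (XT.lf (nat_lit 0) (nat_lit 1345909290) (nat_lit 456) (nat_lit 10450661392) (nat_lit 76) (nat_lit 10472323350) (nat_lit 64) (nat_lit 5) (nat_lit 70) (nat_lit 5) (nat_lit 65) (nat_lit 5) (nat_lit 281) (nat_lit 267) (nat_lit 172))) (XT.nd (nat_lit 78) (nat_lit 380) (nat_lit 0) (XT.lf (nat_lit 0) (nat_lit 3331594463) (nat_lit 456) (nat_lit 135038352) (nat_lit 76) (nat_lit 19444604060) (nat_lit 64) (nat_lit 5) (nat_lit 70) (nat_lit 5) (nat_lit 65) (nat_lit 5) (nat_lit 282) (nat_lit 267) (nat_lit 171)) (XT.lf (nat_lit 0) (nat_lit 5665364044) (nat_lit 456) (nat_lit 12621684873) (nat_lit 76) (nat_lit 5286231253) (nat_lit 59) (nat_lit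 5) (nat_lit 65) (nat_lit 5) (nat_lit 60) (nat_lit 5) (nat_lit 283) (nat_lit 267) (nat_lit 170)))) (XT.nd (nat_lit 156) (nat_lit 304) (nat_lit 0) (XT.nd (nat_lit 78) (nat_lit 304) (nat_lit 0) (XT.lf (nat_lit 0) (nat_lit 8166421709) (nat_lit 456) (nat_lit 1736872227) (nat_lit 76) (nat_lit 14362623920) (nat_lit 59) (nat_lit 5) (nat_lit 65) (nat_lit 5) (nat_lit 60) (nat_lit 5) (nat_lit 284) (nat_lit 267) (nat_lit 169)) (XT.lf (nat_lit 0) (nat_lit 10003850293) (nat_lit 304) (nat_lit 936722606) (nat_lit 380) (nat_lit 14045233643) (nat_lit 55) (nat_lit 5) (nat_lit 59) (nat_lit 5) (nat_lit 60) (nat_lit 5) (nat_lit 285) (nat_lit 267) (nat_lit 168))) (XT.nd (nat_lit 78) (nat_lit 304) (nat_lit 0) (XT.lf (nat_lit 0) (nat_lit 14007798765) (nat_lit 380) (nat_lit 3489946130) (nat_lit 76) (nat_lit 8236246554) (nat_lit 55) (nat_lit 5) (nat_lit 60) (nat_lit 5) (nat_lit 56) (nat_lit 5) (nat_lit 286) (nat_lit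 267) (nat_lit 167)) (XT.nd (nat_lit 78) (nat_lit 0) (nat_lit 0) (XT.lf (nat_lit 0) (nat_lit 8835739508) (nat_lit 304) (nat_lit 8538431302) (nat_lit 380) (nat_lit 9138144731) (nat_lit 51) (nat_lit 5) (nat_lit 55) (nat_lit 5) (nat_lit 56) (nat_lit 5) (nat_lit 287) (nat_lit 267) (nat_lit 166)) (XT.lf (nat_lit 0) (nat_lit 20975192538) (nat_lit 380) (nat_lit 5450863187) (nat_lit 76) (nat_lit 900201826) (nat_lit 51) (nat_lit 5) (nat_lit 56) (nat_lit 5) (nat_lit 52) (nat_lit 5) (nat_lit 288) (nat_lit 267) (nat_lit 165)))))) (XT.nd (nat_lit 390) (nat_lit 456) (nat_lit 0) (XT.nd (nat_lit 156) (nat_lit 532) (nat_lit 0) (XT.nd (nat_lit 78) (nat_lit 76) (nat_lit 0) (XT.lf (nat_lit 0) (nat_lit 7477289593) (nat_lit 228) (nat_lit 17528732522) (nat_lit 304) (nat_lit 3162404109) (nat_lit 48) (nat_lit 5) (nat_lit 51) (nat_lit 5) (nat_lit 52) (nat_lit 5) (nat_lit 289) (nat_lit 267) (nat_lit 164)) (XT.lf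 (nat_lit 0) (nat_lit 266692772) (nat_lit 304) (nat_lit 7819711011) (nat_lit 76) (nat_lit 20961823064) (nat_lit 47) (nat_lit 5) (nat_lit 51) (nat_lit 5) (nat_lit 48) (nat_lit 5) (nat_lit 290) (nat_lit 267) (nat_lit 163))) (XT.nd (nat_lit 78) (nat_lit 228) (nat_lit 0) (XT.lf (nat_lit 0) (nat_lit 3876169859) (nat_lit 380) (nat_lit 24174210619) (nat_lit 76) (nat_lit 1913299774) (nat_lit 43) (nat_lit 5) (nat_lit 48) (nat_lit 5) (nat_lit 44) (nat_lit 5) (nat_lit 291) (nat_lit 267) (nat_lit 162)) (XT.nd (nat_lit 78) (nat_lit 228) (nat_lit 0) (XT.lf (nat_lit 0) (nat_lit 7926902271) (nat_lit 380) (nat_lit 10710517693) (nat_lit 76) (nat_lit 12274461606) (nat_lit 43) (nat_lit 5) (nat_lit 48) (nat_lit 5) (nat_lit 44) (nat_lit 5) (nat_lit 292) (nat_lit 267) (nat_lit 161)) (XT.lf (nat_lit 0) (nat_lit 3531691368) (nat_lit 228) (nat_lit 8697539429) (nat_lit 304) (nat_lit 19675822814) (nat_lit 40) (nat_lit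 5) (nat_lit 43) (nat_lit 5) (nat_lit 44) (nat_lit 5) (nat_lit 293) (nat_lit 267) (nat_lit 160))))) (XT.nd (nat_lit 156) (nat_lit 228) (nat_lit 0) (XT.nd (nat_lit 78) (nat_lit 228) (nat_lit 0) (XT.lf (nat_lit 0) (nat_lit 16952257993) (nat_lit 304) (nat_lit 14118951212) (nat_lit 76) (nat_lit 1866408922) (nat_lit 40) (nat_lit 5) (nat_lit 44) (nat_lit 5) (nat_lit 41) (nat_lit 5) (nat_lit 294) (nat_lit 267) (nat_lit 159)) (XT.lf (nat_lit 0) (nat_lit 721192070) (nat_lit 228) (nat_lit 21338434516) (nat_lit 304) (nat_lit 11954787144) (nat_lit 37) (nat_lit 5) (nat_lit 40) (nat_lit 5) (nat_lit 41) (nat_lit 5) (nat_lit 295) (nat_lit 267) (nat_lit 158))) (XT.nd (nat_lit 78) (nat_lit 228) (nat_lit 0) (XT.lf (nat_lit 0) (nat_lit 16786153064) (nat_lit 228) (nat_lit 10869823546) (nat_lit 304) (nat_lit 7477403630) (nat_lit 37) (nat_lit 5) (nat_lit 40) (nat_lit 5) (nat_lit 41) (nat_lit 5) (nat_lit 296)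 (nat_lit 267) (nat_lit 157)) (XT.nd (nat_lit 78) (nat_lit 228) (nat_lit 0) (XT.lf (nat_lit 0) (nat_lit 33528788058) (nat_lit 304) (nat_lit 2663103098) (nat_lit 76) (nat_lit 116582940) (nat_lit 37) (nat_lit 5) (nat_lit 41) (nat_lit 5) (nat_lit 38) (nat_lit 5) (nat_lit 297) (nat_lit 267) (nat_lit 156)) (XT.lf (nat_lit 0) (nat_lit 2483300183) (nat_lit 228) (nat_lit 23492283794) (nat_lit 76) (nat_lit 11545103709) (nat_lit 34) (nat_lit 5) (nat_lit 37) (nat_lit 5) (nat_lit 35) (nat_lit 5) (nat_lit 298) (nat_lit 267) (nat_lit 155))))))))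
noncomputable def xc190 : XT := (XT.nd (nat_lit 1404) (nat_lit 608) (nat_lit 0) (XT.nd (nat_lit 702) (nat_lit 456) (nat_lit 0) (XT.nd (nat_lit 312) (nat_lit 380) (nat_lit 0) (XT.nd (nat_lit 156) (nat_lit 152) (nat_lit 0) (XT.nd (nat_lit 78) (nat_lit 228) (nat_lit 0) (XT.lf (nat_lit 0) (nat_lit 7956889411) (nat_lit 228) (nat_lit 7197600389) (nat_lit 76) (nat_lit 23634709945) (nat_lit 34) (nat_lit 5) (nat_lit 37) (nat_lit 5) (nat_lit 35) (nat_lit 5) (nat_lit 299) (nat_lit 267) (nat_lit 154)) (XT.lf (nat_lit 0) (nat_lit 10232680529) (nat_lit 228) (nat_lit 3626504175) (nat_lit 304) (nat_lit 26254210600) (nat_lit 31) (nat_lit 5) (nat_lit 34) (nat_lit 5) (nat_lit 35) (nat_lit 5) (nat_lit 300) (nat_lit 267) (nat_lit 153))) (XT.nd (nat_lit 78) (nat_lit 152) (nat_lit 0) (XT.lf (nat_lit 0) (nat_lit 20308210383) (nat_lit 304) (nat_lit 12854456091) (nat_lit 76) (nat_lit 8328562172) (nat_lit 31)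 (nat_lit 5) (nat_lit 35) (nat_lit 5) (nat_lit 32) (nat_lit 5) (nat_lit 301) (nat_lit 267) (nat_lit 152)) (XT.lf (nat_lit 0) (nat_lit 5121146286) (nat_lit 152) (nat_lit 22093527414) (nat_lit 228) (nat_lit 15716539008) (nat_lit 29) (nat_lit 5) (nat_lit 31) (nat_lit 5) (nat_lit 32) (nat_lit 5) (nat_lit 302) (nat_lit 267) (nat_lit 151)))) (XT.nd (nat_lit 156) (nat_lit 380) (nat_lit 0) (XT.nd (nat_lit 78) (nat_lit 0) (nat_lit 0) (XT.lf (nat_lit 0) (nat_lit 24435483120) (nat_lit 152) (nat_lit 10244365269) (nat_lit 228) (nat_lit 9752686145) (nat_lit 29) (nat_lit 5) (nat_lit 31) (nat_lit 5) (nat_lit 32) (nat_lit 5) (nat_lit 303) (nat_lit 267) (nat_lit 150)) (XT.lf (nat_lit 0) (nat_lit 42548454083) (nat_lit 228) (nat_lit 1333895987) (nat_lit 76) (nat_lit 2125071359) (nat_lit 29) (nat_lit 5) (nat_lit 32) (nat_lit 5) (nat_lit 30) (nat_lit 5) (nat_lit 304) (nat_lit 267) (nat_lit 149))) (XT.nd (nat_lit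 78) (nat_lit 152) (nat_lit 0) (XT.lf (nat_lit 0) (nat_lit 3511855397) (nat_lit 228) (nat_lit 29008257989) (nat_lit 76) (nat_lit 15115326608) (nat_lit 26) (nat_lit 5) (nat_lit 29) (nat_lit 5) (nat_lit 27) (nat_lit 5) (nat_lit 305) (nat_lit 267) (nat_lit 148)) (XT.nd (nat_lit 78) (nat_lit 152) (nat_lit 0) (XT.lf (nat_lit 0) (nat_lit 10734026625) (nat_lit 228) (nat_lit 9774130980) (nat_lit 76) (nat_lit 28832920653) (nat_lit 26) (nat_lit 5) (nat_lit 29) (nat_lit 5) (nat_lit 27) (nat_lit 5) (nat_lit 306) (nat_lit 267) (nat_lit 147)) (XT.lf (nat_lit 0) (nat_lit 10760436851) (nat_lit 152) (nat_lit 7721147118) (nat_lit 228) (nat_lit 32642206835) (nat_lit 24) (nat_lit 5) (nat_lit 26) (nat_lit 5) (nat_lit 27) (nat_lit 5) (nat_lit 307) (nat_lit 267) (nat_lit 146)))))) (XT.nd (nat_lit 312) (nat_lit 304) (nat_lit 0) (XT.nd (nat_lit 156) (nat_lit 0) (nat_lit 0) (XT.nd (nat_lit 78) (nat_lit 152) (nat_lit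 0) (XT.lf (nat_lit 0) (nat_lit 26870173686) (nat_lit 228) (nat_lit 20423814209) (nat_lit 76) (nat_lit 5688974303) (nat_lit 24) (nat_lit 5) (nat_lit 27) (nat_lit 5) (nat_lit 25) (nat_lit 5) (nat_lit 308) (nat_lit 267) (nat_lit 145)) (XT.lf (nat_lit 0) (nat_lit 393253313) (nat_lit 152) (nat_lit 35414166869) (nat_lit 228) (nat_lit 19121216282) (nat_lit 22) (nat_lit 5) (nat_lit 24) (nat_lit 5) (nat_lit 25) (nat_lit 5) (nat_lit 309) (nat_lit 267) (nat_lit 144))) (XT.nd (nat_lit 78) (nat_lit 0) (nat_lit 0) (XT.lf (nat_lit 0) (nat_lit 22954871392) (nat_lit 152) (nat_lit 22579138373) (nat_lit 228) (nat_lit 11420466034) (nat_lit 22) (nat_lit 5) (nat_lit 24) (nat_lit 5) (nat_lit 25) (nat_lit 5) (nat_lit 310) (nat_lit 267) (nat_lit 143)) (XT.lf (nat_lit 0) (nat_lit 46639454633) (nat_lit 152) (nat_lit 9104229993) (nat_lit 228) (nat_lit 3338089824) (nat_lit 22) (nat_lit 5) (nat_lit 24) (nat_lit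 5) (nat_lit 25) (nat_lit 5) (nat_lit 311) (nat_lit 267) (nat_lit 142)))) (XT.nd (nat_lit 156) (nat_lit 152) (nat_lit 0) (XT.nd (nat_lit 78) (nat_lit 0) (nat_lit 0) (XT.lf (nat_lit 0) (nat_lit 5226221810) (nat_lit 152) (nat_lit 50944483195) (nat_lit 76) (nat_lit 5128588750) (nat_lit 20) (nat_lit 5) (nat_lit 22) (nat_lit 5) (nat_lit 21) (nat_lit 5) (nat_lit 312) (nat_lit 267) (nat_lit 141)) (XT.lf (nat_lit 0) (nat_lit 14466887672) (nat_lit 152) (nat_lit 29105843246) (nat_lit 76) (nat_lit 20034210388) (nat_lit 20) (nat_lit 5) (nat_lit 22) (nat_lit 5) (nat_lit 21) (nat_lit 5) (nat_lit 313) (nat_lit 267) (nat_lit 140))) (XT.nd (nat_lit 78) (nat_lit 152) (nat_lit 0) (XT.lf (nat_lit 0) (nat_lit 24166634068) (nat_lit 152) (nat_lit 6180061714) (nat_lit 76) (nat_lit 35683427319) (nat_lit 20) (nat_lit 5) (nat_lit 22) (nat_lit 5) (nat_lit 21) (nat_lit 5) (nat_lit 314) (nat_lit 267) (nat_lit 139))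 (XT.nd (nat_lit 78) (nat_lit 0) (nat_lit 0) (XT.lf (nat_lit 0) (nat_lit 18478886363) (nat_lit 152) (nat_lit 16158176471) (nat_lit 228) (nat_lit 33923120424) (nat_lit 18) (nat_lit 5) (nat_lit 20) (nat_lit 5) (nat_lit 21) (nat_lit 5) (nat_lit 315) (nat_lit 267) (nat_lit 138)) (XT.lf (nat_lit 0) (nat_lit 44580850919) (nat_lit 152) (nat_lit 1152076135) (nat_lit 228) (nat_lit 25478727503) (nat_lit 18) (nat_lit 5) (nat_lit 20) (nat_lit 5) (nat_lit 21) (nat_lit 5) (nat_lit 316) (nat_lit 267) (nat_lit 137))))))) (XT.nd (nat_lit 702) (nat_lit 228) (nat_lit 0) (XT.nd (nat_lit 312) (nat_lit 228) (nat_lit 0) (XT.nd (nat_lit 156) (nat_lit 76) (nat_lit 0) (XT.nd (nat_lit 78) (nat_lit 76) (nat_lit 0) (XT.lf (nat_lit 0) (nat_lit 57608955664) (nat_lit 228) (nat_lit 2240183835) (nat_lit 76) (nat_lit 14135295012) (nat_lit 18) (nat_lit 5) (nat_lit 21) (nat_lit 5) (nat_lit 19) (nat_lit 4) (nat_lit 317)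 (nat_lit 267) (nat_lit 136)) (XT.lf (nat_lit 0) (nat_lit 24118859732) (nat_lit 76) (nat_lit 46352858006) (nat_lit 152) (nat_lit 6404492604) (nat_lit 17) (nat_lit 5) (nat_lit 18) (nat_lit 5) (nat_lit 19) (nat_lit 4) (nat_lit 318) (nat_lit 267) (nat_lit 135))) (XT.nd (nat_lit 78) (nat_lit 0) (nat_lit 0) (XT.lf (nat_lit 0) (nat_lit 3970991464) (nat_lit 152) (nat_lit 28105330608) (nat_lit 76) (nat_lit 47831279946) (nat_lit 16) (nat_lit 5) (nat_lit 18) (nat_lit 5) (nat_lit 17) (nat_lit 5) (nat_lit 319) (nat_lit 267) (nat_lit 134)) (XT.lf (nat_lit 0) (nat_lit 14647630819) (nat_lit 152) (nat_lit 2329695116) (nat_lit 76) (nat_lit 66108110062) (nat_lit 16) (nat_lit 5) (nat_lit 18) (nat_lit 5) (nat_lit 17) (nat_lit 5) (nat_lit 320) (nat_lit 267) (nat_lit 133)))) (XT.nd (nat_lit 156) (nat_lit 76) (nat_lit 0) (XT.nd (nat_lit 78) (nat_lit 0) (nat_lit 0) (XT.lf (nat_lit 0) (nat_lit 25548634357) (nat_lit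 152) (nat_lit 706081215) (nat_lit 228) (nat_lit 60147618291) (nat_lit 14) (nat_lit 5) (nat_lit 16) (nat_lit 5) (nat_lit 17) (nat_lit 5) (nat_lit 321) (nat_lit 267) (nat_lit 132)) (XT.lf (nat_lit 0) (nat_lit 38735727384) (nat_lit 228) (nat_lit 35241538869) (nat_lit 76) (nat_lit 15893134455) (nat_lit 14) (nat_lit 5) (nat_lit 17) (nat_lit 5) (nat_lit 15) (nat_lit 4) (nat_lit 322) (nat_lit 267) (nat_lit 131))) (XT.nd (nat_lit 78) (nat_lit 76) (nat_lit 0) (XT.lf (nat_lit 0) (nat_lit 51850225555) (nat_lit 228) (nat_lit 8363995228) (nat_lit 76) (nat_lit 33297180918) (nat_lit 14) (nat_lit 5) (nat_lit 17) (nat_lit 5) (nat_lit 15) (nat_lit 4) (nat_lit 323) (nat_lit 267) (nat_lit 130)) (XT.nd (nat_lit 78) (nat_lit 0) (nat_lit 0) (XT.lf (nat_lit 0) (nat_lit 20510410705) (nat_lit 76) (nat_lit 45428225461) (nat_lit 152) (nat_lit 31379909673) (nat_lit 13) (nat_lit 5) (nat_lit 14) (nat_lit 5) (nat_lit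 15) (nat_lit 4) (nat_lit 324) (nat_lit 267) (nat_lit 129)) (XT.lf (nat_lit 0) (nat_lit 51115495909) (nat_lit 76) (nat_lit 29755625871) (nat_lit 152) (nat_lit 20437945034) (nat_lit 13) (nat_lit 5) (nat_lit 14) (nat_lit 5) (nat_lit 15) (nat_lit 4) (nat_lit 325) (nat_lit 267) (nat_lit 128)))))) (XT.nd (nat_lit 312) (nat_lit 76) (nat_lit 0) (XT.nd (nat_lit 156) (nat_lit 0) (nat_lit 0) (XT.nd (nat_lit 78) (nat_lit 152) (nat_lit 0) (XT.lf (nat_lit 0) (nat_lit 83247578179) (nat_lit 76) (nat_lit 13300754605) (nat_lit 152) (nat_lit 8950878239) (nat_lit 13) (nat_lit 5) (nat_lit 14) (nat_lit 5) (nat_lit 15) (nat_lit 4) (nat_lit 326) (nat_lit 267) (nat_lit 127)) (XT.lf (nat_lit 0) (nat_lit 3187349232) (nat_lit 152) (nat_lit 102687276042) (nat_lit 76) (nat_lit 4012992784) (nat_lit 11) (nat_lit 5) (nat_lit 13) (nat_lit 5) (nat_lit 12) (nat_lit 4) (nat_lit 327) (nat_lit 267) (nat_lit 126))) (XT.nd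 (nat_lit 78) (nat_lit 0) (nat_lit 0) (XT.lf (nat_lit 0) (nat_lit 16230923277) (nat_lit 152) (nat_lit 75953305293) (nat_lit 76) (nat_lit 22273919855) (nat_lit 11) (nat_lit 5) (nat_lit 13) (nat_lit 5) (nat_lit 12) (nat_lit 4) (nat_lit 328) (nat_lit 267) (nat_lit 125)) (XT.lf (nat_lit 0) (nat_lit 29924941104) (nat_lit 152) (nat_lit 47885669740) (nat_lit 76) (nat_lit 41446683057) (nat_lit 11) (nat_lit 5) (nat_lit 13) (nat_lit 5) (nat_lit 12) (nat_lit 4) (nat_lit 329) (nat_lit 267) (nat_lit 124)))) (XT.nd (nat_lit 156) (nat_lit 0) (nat_lit 0) (XT.nd (nat_lit 78) (nat_lit 76) (nat_lit 0) (XT.lf (nat_lit 0) (nat_lit 44302007519) (nat_lit 152) (nat_lit 18417541679) (nat_lit 76) (nat_lit 61576931825) (nat_lit 11) (nat_lit 5) (nat_lit 13) (nat_lit 5) (nat_lit 12) (nat_lit 4) (nat_lit 330) (nat_lit 267) (nat_lit 123)) (XT.lf (nat_lit 0) (nat_lit 12935249877) (nat_lit 76) (nat_lit 46663059255)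 (nat_lit 152) (nat_lit 69979300946) (nat_lit 10) (nat_lit 5) (nat_lit 11) (nat_lit 5) (nat_lit 12) (nat_lit 4) (nat_lit 331) (nat_lit 267) (nat_lit 122))) (XT.nd (nat_lit 78) (nat_lit 0) (nat_lit 0) (XT.lf (nat_lit 0) (nat_lit 46492389168) (nat_lit 76) (nat_lit 29477405682) (nat_lit 152) (nat_lit 59137483880) (nat_lit 10) (nat_lit 5) (nat_lit 11) (nat_lit 5) (nat_lit 12) (nat_lit 4) (nat_lit 332) (nat_lit 267) (nat_lit 121)) (XT.nd (nat_lit 78) (nat_lit 0) (nat_lit 0) (XT.lf (nat_lit 0) (nat_lit 81724807039) (nat_lit 76) (nat_lit 11433580235) (nat_lit 152) (nat_lit 47755118435) (nat_lit 10) (nat_lit 5) (nat_lit 11) (nat_lit 5) (nat_lit 12) (nat_lit 4) (nat_lit 333) (nat_lit 267) (nat_lit 120)) (XT.lf (nat_lit 0) (nat_lit 111322285298) (nat_lit 152) (nat_lit 28410998838) (nat_lit 0) (nat_lit 7270967548) (nat_lit 10) (nat_lit 5) (nat_lit 12) (nat_lit 4) (nat_lit 10) (nat_lit 4) (nat_lit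 334) (nat_lit 267) (nat_lit 119))))))))
noncomputable def xc191 : XT := (XT.nd (nat_lit 1404) (nat_lit 76) (nat_lit 0) (XT.nd (nat_lit 702) (nat_lit 152) (nat_lit 0) (XT.nd (nat_lit 312) (nat_lit 76) (nat_lit 0) (XT.nd (nat_lit 156) (nat_lit 76) (nat_lit 0) (XT.nd (nat_lit 78) (nat_lit 0) (nat_lit 0) (XT.lf (nat_lit 0) (nat_lit 3838619156) (nat_lit 76) (nat_lit 126801779543) (nat_lit 76) (nat_lit 22746836613) (nat_lit 9) (nat_lit 4) (nat_lit 10) (nat_lit 5) (nat_lit 10) (nat_lit 4) (nat_lit 335) (nat_lit 267) (nat_lit 118)) (XT.lf (nat_lit 0) (nat_lit 38684731466) (nat_lit 76) (nat_lit 112719520860) (nat_lit 76) (nat_lit 8661125376) (nat_lit 9) (nat_lit 4) (nat_lit 10) (nat_lit 5) (nat_lit 10) (nat_lit 4) (nat_lit 336) (nat_lit 267) (nat_lit 117))) (XT.nd (nat_lit 78) (nat_lit 0) (nat_lit 0) (XT.lf (nat_lit 0) (nat_lit 5931430826) (nat_lit 152) (nat_lit 91902250435) (nat_lit 76) (nat_lit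 69239026618) (nat_lit 8) (nat_lit 5) (nat_lit 10) (nat_lit 5) (nat_lit 9) (nat_lit 4) (nat_lit 337) (nat_lit 267) (nat_lit 116)) (XT.lf (nat_lit 0) (nat_lit 20961326675) (nat_lit 152) (nat_lit 61094095511) (nat_lit 76) (nat_lit 92367945106) (nat_lit 8) (nat_lit 5) (nat_lit 10) (nat_lit 5) (nat_lit 9) (nat_lit 4) (nat_lit 338) (nat_lit 267) (nat_lit 115)))) (XT.nd (nat_lit 156) (nat_lit 0) (nat_lit 0) (XT.nd (nat_lit 78) (nat_lit 76) (nat_lit 0) (XT.lf (nat_lit 0) (nat_lit 36741557740) (nat_lit 152) (nat_lit 28747604274) (nat_lit 76) (nat_lit 116652456720) (nat_lit 8) (nat_lit 5) (nat_lit 10) (nat_lit 5) (nat_lit 9) (nat_lit 4) (nat_lit 339) (nat_lit 267) (nat_lit 114)) (XT.lf (nat_lit 0) (nat_lit 5386645011) (nat_lit 76) (nat_lit 48007151611) (nat_lit 152) (nat_lit 136847837338) (nat_lit 7) (nat_lit 5) (nat_lit 8) (nat_lit 5) (nat_lit 9) (nat_lit 4) (nat_lit 340) (nat_lit 267) (nat_lit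 113))) (XT.nd (nat_lit 78) (nat_lit 0) (nat_lit 0) (XT.lf (nat_lit 0) (nat_lit 42223717693) (nat_lit 76) (nat_lit 29140702270) (nat_lit 152) (nat_lit 127357942339) (nat_lit 7) (nat_lit 5) (nat_lit 8) (nat_lit 5) (nat_lit 9) (nat_lit 4) (nat_lit 341) (nat_lit 267) (nat_lit 112)) (XT.nd (nat_lit 78) (nat_lit 0) (nat_lit 0) (XT.lf (nat_lit 0) (nat_lit 80900795462) (nat_lit 76) (nat_lit 9331748460) (nat_lit 152) (nat_lit 117394635596) (nat_lit 7) (nat_lit 5) (nat_lit 8) (nat_lit 5) (nat_lit 9) (nat_lit 4) (nat_lit 342) (nat_lit 267) (nat_lit 111)) (XT.lf (nat_lit 0) (nat_lit 110222122645) (nat_lit 152) (nat_lit 95646350997) (nat_lit 0) (nat_lit 11099862412) (nat_lit 7) (nat_lit 5) (nat_lit 9) (nat_lit 4) (nat_lit 7) (nat_lit 4) (nat_lit 343) (nat_lit 267) (nat_lit 110)))))) (XT.nd (nat_lit 312) (nat_lit 76) (nat_lit 0) (XT.nd (nat_lit 156) (nat_lit 76) (nat_lit 0) (XT.nd (nat_lit 78) (nat_lit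 0) (nat_lit 0) (XT.lf (nat_lit 0) (nat_lit 131363213465) (nat_lit 152) (nat_lit 63167008453) (nat_lit 0) (nat_lit 32238727686) (nat_lit 7) (nat_lit 5) (nat_lit 9) (nat_lit 4) (nat_lit 7) (nat_lit 4) (nat_lit 344) (nat_lit 267) (nat_lit 109)) (XT.lf (nat_lit 0) (nat_lit 153560457568) (nat_lit 152) (nat_lit 29065329910) (nat_lit 0) (nat_lit 54433852221) (nat_lit 7) (nat_lit 5) (nat_lit 9) (nat_lit 4) (nat_lit 7) (nat_lit 4) (nat_lit 345) (nat_lit 267) (nat_lit 108))) (XT.nd (nat_lit 78) (nat_lit 0) (nat_lit 0) (XT.lf (nat_lit 0) (nat_lit 6962729946) (nat_lit 76) (nat_lit 170012683317) (nat_lit 76) (nat_lit 70884059333) (nat_lit 6) (nat_lit 4) (nat_lit 7) (nat_lit 5) (nat_lit 7) (nat_lit 4) (nat_lit 346) (nat_lit 267) (nat_lit 107)) (XT.lf (nat_lit 0) (nat_lit 45799747019) (nat_lit 76) (nat_lit 156252763819) (nat_lit 76) (nat_lit 57122217324) (nat_lit 6) (nat_lit 4) (nat_lit 7) (nat_lit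 5) (nat_lit 7) (nat_lit 4) (nat_lit 347) (nat_lit 267) (nat_lit 106)))) (XT.nd (nat_lit 156) (nat_lit 76) (nat_lit 0) (XT.nd (nat_lit 78) (nat_lit 0) (nat_lit 0) (XT.lf (nat_lit 0) (nat_lit 86577159326) (nat_lit 76) (nat_lit 141805502698) (nat_lit 76) (nat_lit 42673125241) (nat_lit 6) (nat_lit 4) (nat_lit 7) (nat_lit 5) (nat_lit 7) (nat_lit 4) (nat_lit 348) (nat_lit 267) (nat_lit 105)) (XT.lf (nat_lit 0) (nat_lit 129392055946) (nat_lit 76) (nat_lit 126636501713) (nat_lit 76) (nat_lit 27502380482) (nat_lit 6) (nat_lit 4) (nat_lit 7) (nat_lit 5) (nat_lit 7) (nat_lit 4) (nat_lit 349) (nat_lit 267) (nat_lit 104))) (XT.nd (nat_lit 78) (nat_lit 76) (nat_lit 0) (XT.lf (nat_lit 0) (nat_lit 174346377107) (nat_lit 76) (nat_lit 110709644196) (nat_lit 76) (nat_lit 11573862228) (nat_lit 6) (nat_lit 4) (nat_lit 7) (nat_lit 5) (nat_lit 7) (nat_lit 4) (nat_lit 350) (nat_lit 267) (nat_lit 103)) (XT.nd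 (nat_lit 78) (nat_lit 0) (nat_lit 0) (XT.lf (nat_lit 0) (nat_lit 4985511055) (nat_lit 152) (nat_lit 88917065958) (nat_lit 76) (nat_lit 216477213811) (nat_lit 5) (nat_lit 5) (nat_lit 7) (nat_lit 5) (nat_lit 6) (nat_lit 4) (nat_lit 351) (nat_lit 267) (nat_lit 102)) (XT.lf (nat_lit 0) (nat_lit 21983224773) (nat_lit 152) (nat_lit 54073259174) (nat_lit 76) (nat_lit 248751256836) (nat_lit 5) (nat_lit 5) (nat_lit 7) (nat_lit 5) (nat_lit 6) (nat_lit 4) (nat_lit 352) (nat_lit 267) (nat_lit 101))))))) (XT.nd (nat_lit 31356) (nat_lit 0) (nat_lit 4180) (XT.nd (nat_lit 30966) (nat_lit 0) (nat_lit 5396) (XT.nd (nat_lit 234) (nat_lit 0) (nat_lit 0) (XT.nd (nat_lit 156) (nat_lit 76) (nat_lit 0) (XT.lf (nat_lit 0) (nat_lit 39830185544) (nat_lit 152) (nat_lit 17488424200) (nat_lit 76) (nat_lit 282638510946) (nat_lit 5) (nat_lit 5) (nat_lit 7) (nat_lit 5) (nat_lit 6) (nat_lit 4) (nat_lit 353) (nat_lit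 267) (nat_lit 100)) (XT.lf (nat_lit 0) (nat_lit 63282546718) (nat_lit 76) (nat_lit 15949413676) (nat_lit 152) (nat_lit 293284892441) (nat_lit 4) (nat_lit 5) (nat_lit 5) (nat_lit 5) (nat_lit 6) (nat_lit 4) (nat_lit 355) (nat_lit 267) (nat_lit 98))) (XT.nd (nat_lit 30654) (nat_lit 0) (nat_lit 5396) (XT.lf (nat_lit 0) (nat_lit 100674076060) (nat_lit 152) (nat_lit 283089960166) (nat_lit 0) (nat_lit 6251017624) (nat_lit 4) (nat_lit 5) (nat_lit 6) (nat_lit 4) (nat_lit 4) (nat_lit 4) (nat_lit 356) (nat_lit 267) (nat_lit 97)) (XT.lf (nat_lit 0) (nat_lit 1444700071) (nat_lit 0) (nat_lit 1444700071) (nat_lit 684) (nat_lit 5232833498) (nat_lit 75) (nat_lit 5) (nat_lit 75) (nat_lit 3) (nat_lit 84) (nat_lit 3) (nat_lit 268) (nat_lit 268) (nat_lit 184)))) (XT.nd (nat_lit 156) (nat_lit 0) (nat_lit 76) (XT.nd (nat_lit 78) (nat_lit 0) (nat_lit 0) (XT.lf (nat_lit 0) (nat_lit 6221457820) (nat_lit 684)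 (nat_lit 6372890417) (nat_lit 760) (nat_lit 4040634494) (nat_lit 75) (nat_lit 5) (nat_lit 84) (nat_lit 3) (nat_lit 85) (nat_lit 5) (nat_lit 269) (nat_lit 268) (nat_lit 183)) (XT.lf (nat_lit 76) (nat_lit 932509895) (nat_lit 0) (nat_lit 5800865151) (nat_lit 760) (nat_lit 10309336536) (nat_lit 76) (nat_lit 5) (nat_lit 75) (nat_lit 5) (nat_lit 85) (nat_lit 5) (nat_lit 270) (nat_lit 268) (nat_lit 182))) (XT.nd (nat_lit 78) (nat_lit 0) (nat_lit 0) (XT.lf (nat_lit 0) (nat_lit 7387256584) (nat_lit 684) (nat_lit 8672643895) (nat_lit 760) (nat_lit 1405149845) (nat_lit 76) (nat_lit 5) (nat_lit 85) (nat_lit 5) (nat_lit 86) (nat_lit 5) (nat_lit 271) (nat_lit 268) (nat_lit 181)) (XT.nd (nat_lit 78) (nat_lit 0) (nat_lit 0) (XT.lf (nat_lit 0) (nat_lit 8155471534) (nat_lit 684) (nat_lit 966948062) (nat_lit 760) (nat_lit 8782044322) (nat_lit 76) (nat_lit 5) (nat_lit 85) (nat_lit 5) (nat_lit 86) (nat_lit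 5) (nat_lit 272) (nat_lit 268) (nat_lit 180)) (XT.lf (nat_lit 76) (nat_lit 7351080968) (nat_lit 0) (nat_lit 1712971223) (nat_lit 760) (nat_lit 9296736232) (nat_lit 77) (nat_lit 5) (nat_lit 76) (nat_lit 5) (nat_lit 86) (nat_lit 5) (nat_lit 273) (nat_lit 268) (nat_lit 179)))))) (XT.nd (nat_lit 390) (nat_lit 1368) (nat_lit 0) (XT.nd (nat_lit 156) (nat_lit 0) (nat_lit 76) (XT.nd (nat_lit 78) (nat_lit 0) (nat_lit 0) (XT.lf (nat_lit 0) (nat_lit 10117162061) (nat_lit 684) (nat_lit 2824337390) (nat_lit 760) (nat_lit 5893510866) (nat_lit 77) (nat_lit 5) (nat_lit 86) (nat_lit 5) (nat_lit 87) (nat_lit 5) (nat_lit 274) (nat_lit 268) (nat_lit 178)) (XT.lf (nat_lit 76) (nat_lit 5923407440) (nat_lit 0) (nat_lit 5408400474) (nat_lit 760) (nat_lit 7995725816) (nat_lit 78) (nat_lit 5) (nat_lit 77) (nat_lit 5) (nat_lit 87) (nat_lit 5) (nat_lit 275) (nat_lit 268) (nat_lit 177))) (XT.nd (nat_lit 78) (nat_lit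 0) (nat_lit 0) (XT.lf (nat_lit 0) (nat_lit 12683646839) (nat_lit 684) (nat_lit 4684439944) (nat_lit 760) (nat_lit 2472806302) (nat_lit 78) (nat_lit 5) (nat_lit 87) (nat_lit 5) (nat_lit 88) (nat_lit 5) (nat_lit 276) (nat_lit 268) (nat_lit 176)) (XT.nd (nat_lit 78) (nat_lit 0) (nat_lit 0) (XT.lf (nat_lit 76) (nat_lit 4518714478) (nat_lit 0) (nat_lit 9732901042) (nat_lit 760) (nat_lit 6120909242) (nat_lit 79) (nat_lit 5) (nat_lit 78) (nat_lit 5) (nat_lit 88) (nat_lit 5) (nat_lit 277) (nat_lit 268) (nat_lit 175)) (XT.lf (nat_lit 76) (nat_lit 14336315567) (nat_lit 0) (nat_lit 1630704059) (nat_lit 760) (nat_lit 4960296307) (nat_lit 79) (nat_lit 5) (nat_lit 78) (nat_lit 5) (nat_lit 88) (nat_lit 5) (nat_lit 278) (nat_lit 268) (nat_lit 174))))) (XT.nd (nat_lit 156) (nat_lit 836) (nat_lit 0) (XT.nd (nat_lit 78) (nat_lit 0) (nat_lit 0) (XT.lf (nat_lit 0) (nat_lit 3118917284) (nat_lit 684) (nat_lit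 14795557794) (nat_lit 760) (nat_lit 3588085871) (nat_lit 70) (nat_lit 5) (nat_lit 79) (nat_lit 5) (nat_lit 80) (nat_lit 5) (nat_lit 279) (nat_lit 268) (nat_lit 173)) (XT.lf (nat_lit 0) (nat_lit 13507181162) (nat_lit 684) (nat_lit 6580603739) (nat_lit 760) (nat_lit 2012386225) (nat_lit 70) (nat_lit 5) (nat_lit 79) (nat_lit 5) (nat_lit 80) (nat_lit 5) (nat_lit 280) (nat_lit 268) (nat_lit 172))) (XT.nd (nat_lit 78) (nat_lit 456) (nat_lit 0) (XT.lf (nat_lit 0) (nat_lit 1701266864) (nat_lit 380) (nat_lit 20718008483) (nat_lit 456) (nat_lit 305936415) (nat_lit 65) (nat_lit 5) (nat_lit 70) (nat_lit 5) (nat_lit 71) (nat_lit 5) (nat_lit 281) (nat_lit 268) (nat_lit 171)) (XT.nd (nat_lit 78) (nat_lit 380) (nat_lit 0) (XT.lf (nat_lit 0) (nat_lit 1685226255) (nat_lit 456) (nat_lit 10707755312) (nat_lit 76) (nat_lit 10975038957) (nat_lit 64) (nat_lit 5) (nat_lit 70) (nat_lit 5) (nat_lit 65) (nat_lit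 5) (nat_lit 282) (nat_lit 268) (nat_lit 170)) (XT.lf (nat_lit 0) (nat_lit 114679375) (nat_lit 380) (nat_lit 3644353373) (nat_lit 456) (nat_lit 20284040058) (nat_lit 59) (nat_lit 5) (nat_lit 64) (nat_lit 5) (nat_lit 65) (nat_lit 5) (nat_lit 283) (nat_lit 268) (nat_lit 169))))))))
noncomputable def xc192 : XT := (XT.nd (nat_lit 1404) (nat_lit 1064) (nat_lit 0) (XT.nd (nat_lit 702) (nat_lit 912) (nat_lit 0) (XT.nd (nat_lit 312) (nat_lit 912) (nat_lit 0) (XT.nd (nat_lit 156) (nat_lit 304) (nat_lit 0) (XT.nd (nat_lit 78) (nat_lit 0) (nat_lit 0) (XT.lf (nat_lit 0) (nat_lit 6199217456) (nat_lit 456) (nat_lit 12990836578) (nat_lit 76) (nat_lit 5548710423) (nat_lit 59) (nat_lit 5) (nat_lit 65) (nat_lit 5) (nat_lit 60) (nat_lit 5) (nat_lit 284) (nat_lit 268) (nat_lit 168)) (XT.lf (nat_lit 0) (nat_lit 8813395375) (nat_lit 456) (nat_lit 1574256278) (nat_lit 76) (nat_lit 15079009979) (nat_lit 59)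 (nat_lit 5) (nat_lit 65) (nat_lit 5) (nat_lit 60) (nat_lit 5) (nat_lit 285) (nat_lit 268) (nat_lit 167))) (XT.nd (nat_lit 78) (nat_lit 0) (nat_lit 0) (XT.lf (nat_lit 0) (nat_lit 10749478826) (nat_lit 304) (nat_lit 969242834) (nat_lit 380) (nat_lit 14504229216) (nat_lit 55) (nat_lit 5) (nat_lit 59) (nat_lit 5) (nat_lit 60) (nat_lit 5) (nat_lit 286) (nat_lit 268) (nat_lit 166)) (XT.lf (nat_lit 0) (nat_lit 14928515968) (nat_lit 380) (nat_lit 3419340102) (nat_lit 76) (nat_lit 8661256695) (nat_lit 55) (nat_lit 5) (nat_lit 60) (nat_lit 5) (nat_lit 56) (nat_lit 5) (nat_lit 287) (nat_lit 268) (nat_lit 165)))) (XT.nd (nat_lit 156) (nat_lit 608) (nat_lit 0) (XT.nd (nat_lit 78) (nat_lit 0) (nat_lit 0) (XT.lf (nat_lit 0) (nat_lit 9518676538) (nat_lit 304) (nat_lit 8937803330) (nat_lit 380) (nat_lit 9370236287) (nat_lit 51) (nat_lit 5) (nat_lit 55) (nat_lit 5) (nat_lit 56) (nat_lit 5) (nat_lit 288)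 (nat_lit 268) (nat_lit 164)) (XT.lf (nat_lit 0) (nat_lit 22227790873) (nat_lit 380) (nat_lit 5483468164) (nat_lit 76) (nat_lit 970609803) (nat_lit 51) (nat_lit 5) (nat_lit 56) (nat_lit 5) (nat_lit 52) (nat_lit 5) (nat_lit 289) (nat_lit 268) (nat_lit 163))) (XT.nd (nat_lit 78) (nat_lit 380) (nat_lit 0) (XT.lf (nat_lit 0) (nat_lit 8087222285) (nat_lit 228) (nat_lit 18366918725) (nat_lit 304) (nat_lit 3112330251) (nat_lit 48) (nat_lit 5) (nat_lit 51) (nat_lit 5) (nat_lit 52) (nat_lit 5) (nat_lit 290) (nat_lit 268) (nat_lit 162)) (XT.nd (nat_lit 78) (nat_lit 304) (nat_lit 0) (XT.lf (nat_lit 0) (nat_lit 471961271) (nat_lit 304) (nat_lit 7979083234) (nat_lit 76) (nat_lit 22039556733) (nat_lit 47) (nat_lit 5) (nat_lit 51) (nat_lit 5) (nat_lit 48) (nat_lit 5) (nat_lit 291) (nat_lit 268) (nat_lit 161)) (XT.lf (nat_lit 0) (nat_lit 4256978645) (nat_lit 380) (nat_lit 25145954963) (nat_lit 76) (nat_lit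 2049161349) (nat_lit 43) (nat_lit 5) (nat_lit 48) (nat_lit 5) (nat_lit 44) (nat_lit 5) (nat_lit 292) (nat_lit 268) (nat_lit 160)))))) (XT.nd (nat_lit 312) (nat_lit 456) (nat_lit 0) (XT.nd (nat_lit 156) (nat_lit 228) (nat_lit 0) (XT.nd (nat_lit 78) (nat_lit 228) (nat_lit 0) (XT.lf (nat_lit 0) (nat_lit 8501342901) (nat_lit 380) (nat_lit 11020361494) (nat_lit 76) (nat_lit 12926467150) (nat_lit 43) (nat_lit 5) (nat_lit 48) (nat_lit 5) (nat_lit 44) (nat_lit 5) (nat_lit 293) (nat_lit 268) (nat_lit 159)) (XT.lf (nat_lit 0) (nat_lit 3930317987) (nat_lit 228) (nat_lit 9083455827) (nat_lit 304) (nat_lit 20477498093) (nat_lit 40) (nat_lit 5) (nat_lit 43) (nat_lit 5) (nat_lit 44) (nat_lit 5) (nat_lit 294) (nat_lit 268) (nat_lit 158))) (XT.nd (nat_lit 78) (nat_lit 228) (nat_lit 0) (XT.lf (nat_lit 0) (nat_lit 17965438405) (nat_lit 304) (nat_lit 14605553988) (nat_lit 76) (nat_lit 2004866062) (nat_lit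 40) (nat_lit 5) (nat_lit 44) (nat_lit 5) (nat_lit 41) (nat_lit 5) (nat_lit 295) (nat_lit 268) (nat_lit 157)) (XT.lf (nat_lit 0) (nat_lit 973058639) (nat_lit 228) (nat_lit 22350601974) (nat_lit 304) (nat_lit 12383076215) (nat_lit 37) (nat_lit 5) (nat_lit 40) (nat_lit 5) (nat_lit 41) (nat_lit 5) (nat_lit 296) (nat_lit 268) (nat_lit 156)))) (XT.nd (nat_lit 156) (nat_lit 456) (nat_lit 0) (XT.nd (nat_lit 78) (nat_lit 0) (nat_lit 0) (XT.lf (nat_lit 0) (nat_lit 17830991161) (nat_lit 228) (nat_lit 11361167801) (nat_lit 304) (nat_lit 7689892587) (nat_lit 37) (nat_lit 5) (nat_lit 40) (nat_lit 5) (nat_lit 41) (nat_lit 5) (nat_lit 297) (nat_lit 268) (nat_lit 155)) (XT.lf (nat_lit 0) (nat_lit 35352082395) (nat_lit 304) (nat_lit 2593673504) (nat_lit 76) (nat_lit 170486272) (nat_lit 37) (nat_lit 5) (nat_lit 41) (nat_lit 5) (nat_lit 38) (nat_lit 5) (nat_lit 298) (nat_lit 268) (nat_lit 154))) (XT.nd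 (nat_lit 78) (nat_lit 228) (nat_lit 0) (XT.lf (nat_lit 0) (nat_lit 2753071214) (nat_lit 228) (nat_lit 24462482544) (nat_lit 76) (nat_lit 12173604218) (nat_lit 34) (nat_lit 5) (nat_lit 37) (nat_lit 5) (nat_lit 35) (nat_lit 5) (nat_lit 299) (nat_lit 268) (nat_lit 153)) (XT.nd (nat_lit 78) (nat_lit 228) (nat_lit 0) (XT.lf (nat_lit 0) (nat_lit 8493406283) (nat_lit 228) (nat_lit 7362799037) (nat_lit 76) (nat_lit 24865250512) (nat_lit 34) (nat_lit 5) (nat_lit 37) (nat_lit 5) (nat_lit 35) (nat_lit 5) (nat_lit 300) (nat_lit 268) (nat_lit 152)) (XT.lf (nat_lit 0) (nat_lit 10935855905) (nat_lit 228) (nat_lit 3751347485) (nat_lit 304) (nat_lit 27424851297) (nat_lit 31) (nat_lit 5) (nat_lit 34) (nat_lit 5) (nat_lit 35) (nat_lit 5) (nat_lit 301) (nat_lit 268) (nat_lit 151))))))) (XT.nd (nat_lit 702) (nat_lit 380) (nat_lit 0) (XT.nd (nat_lit 312) (nat_lit 532) (nat_lit 0) (XT.nd (nat_lit 156) (nat_lit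 0) (nat_lit 0) (XT.nd (nat_lit 78) (nat_lit 152) (nat_lit 0) (XT.lf (nat_lit 0) (nat_lit 21453088799) (nat_lit 304) (nat_lit 13308921857) (nat_lit 76) (nat_lit 8797060877) (nat_lit 31) (nat_lit 5) (nat_lit 35) (nat_lit 5) (nat_lit 32) (nat_lit 5) (nat_lit 302) (nat_lit 268) (nat_lit 150)) (XT.lf (nat_lit 0) (nat_lit 5562424236) (nat_lit 152) (nat_lit 23139177721) (nat_lit 228) (nat_lit 16369628180) (nat_lit 29) (nat_lit 5) (nat_lit 31) (nat_lit 5) (nat_lit 32) (nat_lit 5) (nat_lit 303) (nat_lit 268) (nat_lit 149))) (XT.nd (nat_lit 78) (nat_lit 0) (nat_lit 0) (XT.lf (nat_lit 0) (nat_lit 25833657881) (nat_lit 152) (nat_lit 10700368234) (nat_lit 228) (nat_lit 10113903520) (nat_lit 29) (nat_lit 5) (nat_lit 31) (nat_lit 5) (nat_lit 32) (nat_lit 5) (nat_lit 304) (nat_lit 268) (nat_lit 148)) (XT.lf (nat_lit 0) (nat_lit 44791174868) (nat_lit 228) (nat_lit 1227491213) (nat_lit 76) (nat_lit 2283149744)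 (nat_lit 29) (nat_lit 5) (nat_lit 32) (nat_lit 5) (nat_lit 30) (nat_lit 5) (nat_lit 305) (nat_lit 268) (nat_lit 147)))) (XT.nd (nat_lit 156) (nat_lit 304) (nat_lit 0) (XT.nd (nat_lit 78) (nat_lit 0) (nat_lit 0) (XT.lf (nat_lit 0) (nat_lit 3801953790) (nat_lit 228) (nat_lit 30284385087) (nat_lit 76) (nat_lit 15924955751) (nat_lit 26) (nat_lit 5) (nat_lit 29) (nat_lit 5) (nat_lit 27) (nat_lit 5) (nat_lit 306) (nat_lit 268) (nat_lit 146)) (XT.lf (nat_lit 0) (nat_lit 11379780932) (nat_lit 228) (nat_lit 10096851052) (nat_lit 76) (nat_lit 30325864603) (nat_lit 26) (nat_lit 5) (nat_lit 29) (nat_lit 5) (nat_lit 27) (nat_lit 5) (nat_lit 307) (nat_lit 268) (nat_lit 145))) (XT.nd (nat_lit 78) (nat_lit 152) (nat_lit 0) (XT.lf (nat_lit 0) (nat_lit 11461767970) (nat_lit 152) (nat_lit 8050304889) (nat_lit 228) (nat_lit 34162412775) (nat_lit 24) (nat_lit 5) (nat_lit 26) (nat_lit 5) (nat_lit 27) (nat_lit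 5) (nat_lit 308) (nat_lit 268) (nat_lit 144)) (XT.nd (nat_lit 78) (nat_lit 152) (nat_lit 0) (XT.lf (nat_lit 0) (nat_lit 28315870993) (nat_lit 228) (nat_lit 21285085278) (nat_lit 76) (nat_lit 6025878678) (nat_lit 24) (nat_lit 5) (nat_lit 27) (nat_lit 5) (nat_lit 25) (nat_lit 5) (nat_lit 309) (nat_lit 268) (nat_lit 143)) (XT.lf (nat_lit 0) (nat_lit 570256271) (nat_lit 152) (nat_lit 37127313941) (nat_lit 228) (nat_lit 19972351097) (nat_lit 22) (nat_lit 5) (nat_lit 24) (nat_lit 5) (nat_lit 25) (nat_lit 5) (nat_lit 310) (nat_lit 268) (nat_lit 142)))))) (XT.nd (nat_lit 312) (nat_lit 228) (nat_lit 0) (XT.nd (nat_lit 156) (nat_lit 152) (nat_lit 0) (XT.nd (nat_lit 78) (nat_lit 0) (nat_lit 0) (XT.lf (nat_lit 0) (nat_lit 24252462860) (nat_lit 152) (nat_lit 23653275033) (nat_lit 228) (nat_lit 11891559813) (nat_lit 22) (nat_lit 5) (nat_lit 24) (nat_lit 5) (nat_lit 25) (nat_lit 5) (nat_lit 311) (nat_lit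 268) (nat_lit 141)) (XT.lf (nat_lit 0) (nat_lit 49114139648) (nat_lit 152) (nat_lit 9507231722) (nat_lit 228) (nat_lit 3409823341) (nat_lit 22) (nat_lit 5) (nat_lit 24) (nat_lit 5) (nat_lit 25) (nat_lit 5) (nat_lit 312) (nat_lit 268) (nat_lit 140))) (XT.nd (nat_lit 78) (nat_lit 0) (nat_lit 0) (XT.lf (nat_lit 0) (nat_lit 5578348259) (nat_lit 152) (nat_lit 53344372937) (nat_lit 76) (nat_lit 5436866469) (nat_lit 20) (nat_lit 5) (nat_lit 22) (nat_lit 5) (nat_lit 21) (nat_lit 5) (nat_lit 313) (nat_lit 268) (nat_lit 139)) (XT.lf (nat_lit 0) (nat_lit 15276722874) (nat_lit 152) (nat_lit 30420816916) (nat_lit 76) (nat_lit 21085300223) (nat_lit 20) (nat_lit 5) (nat_lit 22) (nat_lit 5) (nat_lit 21) (nat_lit 5) (nat_lit 314) (nat_lit 268) (nat_lit 138)))) (XT.nd (nat_lit 156) (nat_lit 76) (nat_lit 0) (XT.nd (nat_lit 78) (nat_lit 152) (nat_lit 0) (XT.lf (nat_lit 0) (nat_lit 25457337979) (nat_lit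 152) (nat_lit 6355428139) (nat_lit 76) (nat_lit 37514626604) (nat_lit 20) (nat_lit 5) (nat_lit 22) (nat_lit 5) (nat_lit 21) (nat_lit 5) (nat_lit 315) (nat_lit 268) (nat_lit 137)) (XT.lf (nat_lit 0) (nat_lit 19534311911) (nat_lit 152) (nat_lit 16915106577) (nat_lit 228) (nat_lit 35534636500) (nat_lit 18) (nat_lit 5) (nat_lit 20) (nat_lit 5) (nat_lit 21) (nat_lit 5) (nat_lit 316) (nat_lit 268) (nat_lit 136))) (XT.nd (nat_lit 78) (nat_lit 76) (nat_lit 0) (XT.lf (nat_lit 0) (nat_lit 46935113684) (nat_lit 152) (nat_lit 1161128781) (nat_lit 228) (nat_lit 26672054407) (nat_lit 18) (nat_lit 5) (nat_lit 20) (nat_lit 5) (nat_lit 21) (nat_lit 5) (nat_lit 317) (nat_lit 268) (nat_lit 135)) (XT.nd (nat_lit 78) (nat_lit 76) (nat_lit 0) (XT.lf (nat_lit 0) (nat_lit 60563143523) (nat_lit 228) (nat_lit 2229904826) (nat_lit 76) (nat_lit 14886819020) (nat_lit 18) (nat_lit 5) (nat_lit 21) (nat_lit 5) (nat_lit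 19) (nat_lit 4) (nat_lit 318) (nat_lit 268) (nat_lit 134)) (XT.lf (nat_lit 0) (nat_lit 25445118530) (nat_lit 76) (nat_lit 48622292205) (nat_lit 152) (nat_lit 6648907753) (nat_lit 17) (nat_lit 5) (nat_lit 18) (nat_lit 5) (nat_lit 19) (nat_lit 4) (nat_lit 319) (nat_lit 268) (nat_lit 133))))))))
noncomputable def xc193 : XT := (XT.nd (nat_lit 1404) (nat_lit 380) (nat_lit 0) (XT.nd (nat_lit 702) (nat_lit 152) (nat_lit 0) (XT.nd (nat_lit 312) (nat_lit 228) (nat_lit 0) (XT.nd (nat_lit 156) (nat_lit 152) (nat_lit 0) (XT.nd (nat_lit 78) (nat_lit 0) (nat_lit 0) (XT.lf (nat_lit 0) (nat_lit 4239429708) (nat_lit 152) (nat_lit 29393611821) (nat_lit 76) (nat_lit 50266358161) (nat_lit 16) (nat_lit 5) (nat_lit 18) (nat_lit 5) (nat_lit 17) (nat_lit 5) (nat_lit 320) (nat_lit 268) (nat_lit 132)) (XT.lf (nat_lit 0) (nat_lit 15446572999) (nat_lit 152) (nat_lit 2334765284) (nat_lit 76) (nat_lit 69454957677)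 (nat_lit 16) (nat_lit 5) (nat_lit 18) (nat_lit 5) (nat_lit 17) (nat_lit 5) (nat_lit 321) (nat_lit 268) (nat_lit 131))) (XT.nd (nat_lit 78) (nat_lit 0) (nat_lit 0) (XT.lf (nat_lit 0) (nat_lit 26935683654) (nat_lit 152) (nat_lit 696870219) (nat_lit 228) (nat_lit 63086561744) (nat_lit 14) (nat_lit 5) (nat_lit 16) (nat_lit 5) (nat_lit 17) (nat_lit 5) (nat_lit 322) (nat_lit 268) (nat_lit 130)) (XT.lf (nat_lit 0) (nat_lit 40735178065) (nat_lit 228) (nat_lit 36896703894) (nat_lit 76) (nat_lit 16728829555) (nat_lit 14) (nat_lit 5) (nat_lit 17) (nat_lit 5) (nat_lit 15) (nat_lit 4) (nat_lit 323) (nat_lit 268) (nat_lit 129)))) (XT.nd (nat_lit 156) (nat_lit 152) (nat_lit 0) (XT.nd (nat_lit 78) (nat_lit 76) (nat_lit 0) (XT.lf (nat_lit 0) (nat_lit 54502417129) (nat_lit 228) (nat_lit 8680374115) (nat_lit 76) (nat_lit 35001124133) (nat_lit 14) (nat_lit 5) (nat_lit 17) (nat_lit 5) (nat_lit 15) (nat_lit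 4) (nat_lit 324) (nat_lit 268) (nat_lit 128)) (XT.lf (nat_lit 0) (nat_lit 21636109843) (nat_lit 76) (nat_lit 47657860578) (nat_lit 152) (nat_lit 32887513641) (nat_lit 13) (nat_lit 5) (nat_lit 14) (nat_lit 5) (nat_lit 15) (nat_lit 4) (nat_lit 325) (nat_lit 268) (nat_lit 127))) (XT.nd (nat_lit 78) (nat_lit 152) (nat_lit 0) (XT.lf (nat_lit 0) (nat_lit 53766678898) (nat_lit 76) (nat_lit 31203620348) (nat_lit 152) (nat_lit 21401374176) (nat_lit 13) (nat_lit 5) (nat_lit 14) (nat_lit 5) (nat_lit 15) (nat_lit 4) (nat_lit 326) (nat_lit 268) (nat_lit 126)) (XT.nd (nat_lit 78) (nat_lit 152) (nat_lit 0) (XT.lf (nat_lit 0) (nat_lit 87500822034) (nat_lit 76) (nat_lit 13927900130) (nat_lit 152) (nat_lit 9342738237) (nat_lit 13) (nat_lit 5) (nat_lit 14) (nat_lit 5) (nat_lit 15) (nat_lit 4) (nat_lit 327) (nat_lit 268) (nat_lit 125)) (XT.lf (nat_lit 0) (nat_lit 3400076045) (nat_lit 152) (nat_lit 107728334055)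 (nat_lit 76) (nat_lit 4250864171) (nat_lit 11) (nat_lit 5) (nat_lit 13) (nat_lit 5) (nat_lit 12) (nat_lit 4) (nat_lit 328) (nat_lit 268) (nat_lit 124)))))) (XT.nd (nat_lit 312) (nat_lit 76) (nat_lit 0) (XT.nd (nat_lit 156) (nat_lit 76) (nat_lit 0) (XT.nd (nat_lit 78) (nat_lit 0) (nat_lit 0) (XT.lf (nat_lit 0) (nat_lit 17093287871) (nat_lit 152) (nat_lit 79662107901) (nat_lit 76) (nat_lit 23423065132) (nat_lit 11) (nat_lit 5) (nat_lit 13) (nat_lit 5) (nat_lit 12) (nat_lit 4) (nat_lit 329) (nat_lit 268) (nat_lit 123)) (XT.lf (nat_lit 0) (nat_lit 31469586664) (nat_lit 152) (nat_lit 50195322126) (nat_lit 76) (nat_lit 43552778432) (nat_lit 11) (nat_lit 5) (nat_lit 13) (nat_lit 5) (nat_lit 12) (nat_lit 4) (nat_lit 330) (nat_lit 268) (nat_lit 122))) (XT.nd (nat_lit 78) (nat_lit 76) (nat_lit 0) (XT.lf (nat_lit 0) (nat_lit 46563201709) (nat_lit 152) (nat_lit 19257817714) (nat_lit 76) (nat_lit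 64687931961) (nat_lit 11) (nat_lit 5) (nat_lit 13) (nat_lit 5) (nat_lit 12) (nat_lit 4) (nat_lit 331) (nat_lit 268) (nat_lit 121)) (XT.lf (nat_lit 0) (nat_lit 13661313403) (nat_lit 76) (nat_lit 48962048168) (nat_lit 152) (nat_lit 73430825497) (nat_lit 10) (nat_lit 5) (nat_lit 11) (nat_lit 5) (nat_lit 12) (nat_lit 4) (nat_lit 332) (nat_lit 268) (nat_lit 120)))) (XT.nd (nat_lit 156) (nat_lit 76) (nat_lit 0) (XT.nd (nat_lit 78) (nat_lit 0) (nat_lit 0) (XT.lf (nat_lit 0) (nat_lit 48892533419) (nat_lit 76) (nat_lit 30918738775) (nat_lit 152) (nat_lit 62049176648) (nat_lit 10) (nat_lit 5) (nat_lit 11) (nat_lit 5) (nat_lit 12) (nat_lit 4) (nat_lit 333) (nat_lit 268) (nat_lit 119)) (XT.lf (nat_lit 0) (nat_lit 85882975765) (nat_lit 76) (nat_lit 11974271447) (nat_lit 152) (nat_lit 50099844428) (nat_lit 10) (nat_lit 5) (nat_lit 11) (nat_lit 5) (nat_lit 12) (nat_lit 4) (nat_lit 334) (nat_lit 268)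 (nat_lit 118))) (XT.nd (nat_lit 78) (nat_lit 76) (nat_lit 0) (XT.lf (nat_lit 0) (nat_lit 116927851353) (nat_lit 152) (nat_lit 29761516472) (nat_lit 0) (nat_lit 7663083542) (nat_lit 10) (nat_lit 5) (nat_lit 12) (nat_lit 4) (nat_lit 10) (nat_lit 4) (nat_lit 335) (nat_lit 268) (nat_lit 117)) (XT.nd (nat_lit 78) (nat_lit 0) (nat_lit 0) (XT.lf (nat_lit 0) (nat_lit 4099452868) (nat_lit 76) (nat_lit 133111614664) (nat_lit 76) (nat_lit 23843558708) (nat_lit 9) (nat_lit 4) (nat_lit 10) (nat_lit 5) (nat_lit 10) (nat_lit 4) (nat_lit 336) (nat_lit 268) (nat_lit 116)) (XT.lf (nat_lit 0) (nat_lit 40684589710) (nat_lit 76) (nat_lit 118326683706) (nat_lit 76) (nat_lit 9055496182) (nat_lit 9) (nat_lit 4) (nat_lit 10) (nat_lit 5) (nat_lit 10) (nat_lit 4) (nat_lit 337) (nat_lit 268) (nat_lit 115))))))) (XT.nd (nat_lit 702) (nat_lit 228) (nat_lit 0) (XT.nd (nat_lit 312) (nat_lit 0) (nat_lit 0) (XT.nd (nat_lit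 156) (nat_lit 76) (nat_lit 0) (XT.nd (nat_lit 78) (nat_lit 0) (nat_lit 0) (XT.lf (nat_lit 0) (nat_lit 6263666449) (nat_lit 152) (nat_lit 96433653747) (nat_lit 76) (nat_lit 72727206708) (nat_lit 8) (nat_lit 5) (nat_lit 10) (nat_lit 5) (nat_lit 9) (nat_lit 4) (nat_lit 338) (nat_lit 268) (nat_lit 114)) (XT.lf (nat_lit 0) (nat_lit 22043358801) (nat_lit 152) (nat_lit 64088124849) (nat_lit 76) (nat_lit 97011322132) (nat_lit 8) (nat_lit 5) (nat_lit 10) (nat_lit 5) (nat_lit 9) (nat_lit 4) (nat_lit 339) (nat_lit 268) (nat_lit 113))) (XT.nd (nat_lit 78) (nat_lit 76) (nat_lit 0) (XT.lf (nat_lit 0) (nat_lit 38610984000) (nat_lit 152) (nat_lit 30127198356) (nat_lit 76) (nat_lit 122508869813) (nat_lit 8) (nat_lit 5) (nat_lit 10) (nat_lit 5) (nat_lit 9) (nat_lit 4) (nat_lit 340) (nat_lit 268) (nat_lit 112)) (XT.lf (nat_lit 0) (nat_lit 5712831358) (nat_lit 76) (nat_lit 50382350722) (nat_lit 152) (nat_lit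 143656920148) (nat_lit 7) (nat_lit 5) (nat_lit 8) (nat_lit 5) (nat_lit 9) (nat_lit 4) (nat_lit 341) (nat_lit 268) (nat_lit 111)))) (XT.nd (nat_lit 156) (nat_lit 0) (nat_lit 0) (XT.nd (nat_lit 78) (nat_lit 0) (nat_lit 0) (XT.lf (nat_lit 0) (nat_lit 44389050336) (nat_lit 76) (nat_lit 30573776935) (nat_lit 152) (nat_lit 133694116544) (nat_lit 7) (nat_lit 5) (nat_lit 8) (nat_lit 5) (nat_lit 9) (nat_lit 4) (nat_lit 342) (nat_lit 268) (nat_lit 110)) (XT.lf (nat_lit 0) (nat_lit 84997403577) (nat_lit 76) (nat_lit 9775516409) (nat_lit 152) (nat_lit 123234155079) (nat_lit 7) (nat_lit 5) (nat_lit 8) (nat_lit 5) (nat_lit 9) (nat_lit 4) (nat_lit 343) (nat_lit 268) (nat_lit 109))) (XT.nd (nat_lit 78) (nat_lit 0) (nat_lit 0) (XT.lf (nat_lit 0) (nat_lit 115760947961) (nat_lit 152) (nat_lit 100378501410) (nat_lit 0) (nat_lit 11675892778) (nat_lit 7) (nat_lit 5) (nat_lit 9) (nat_lit 4) (nat_lit 7) (nat_lit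 4) (nat_lit 344) (nat_lit 268) (nat_lit 108)) (XT.nd (nat_lit 78) (nat_lit 0) (nat_lit 0) (XT.lf (nat_lit 0) (nat_lit 137957773362) (nat_lit 152) (nat_lit 66277580649) (nat_lit 0) (nat_lit 33870699542) (nat_lit 7) (nat_lit 5) (nat_lit 9) (nat_lit 4) (nat_lit 7) (nat_lit 4) (nat_lit 345) (nat_lit 268) (nat_lit 107)) (XT.lf (nat_lit 0) (nat_lit 161263622564) (nat_lit 152) (nat_lit 30473093332) (nat_lit 0) (nat_lit 57174626234) (nat_lit 7) (nat_lit 5) (nat_lit 9) (nat_lit 4) (nat_lit 7) (nat_lit 4) (nat_lit 346) (nat_lit 268) (nat_lit 106)))))) (XT.nd (nat_lit 312) (nat_lit 152) (nat_lit 0) (XT.nd (nat_lit 156) (nat_lit 0) (nat_lit 0) (XT.nd (nat_lit 78) (nat_lit 0) (nat_lit 0) (XT.lf (nat_lit 0) (nat_lit 7355635595) (nat_lit 76) (nat_lit 178493192176) (nat_lit 76) (nat_lit 74402364883) (nat_lit 6) (nat_lit 4) (nat_lit 7) (nat_lit 5) (nat_lit 7) (nat_lit 4) (nat_lit 347) (nat_lit 268)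 (nat_lit 105)) (XT.lf (nat_lit 0) (nat_lit 48132371657) (nat_lit 76) (nat_lit 164046235051) (nat_lit 76) (nat_lit 59953663985) (nat_lit 6) (nat_lit 4) (nat_lit 7) (nat_lit 5) (nat_lit 7) (nat_lit 4) (nat_lit 348) (nat_lit 268) (nat_lit 104))) (XT.nd (nat_lit 78) (nat_lit 0) (nat_lit 0) (XT.lf (nat_lit 0) (nat_lit 90946624233) (nat_lit 76) (nat_lit 148877523587) (nat_lit 76) (nat_lit 44783291783) (nat_lit 6) (nat_lit 4) (nat_lit 7) (nat_lit 5) (nat_lit 7) (nat_lit 4) (nat_lit 349) (nat_lit 268) (nat_lit 103)) (XT.lf (nat_lit 0) (nat_lit 135900332020) (nat_lit 76) (nat_lit 132950941803) (nat_lit 76) (nat_lit 28855128345) (nat_lit 6) (nat_lit 4) (nat_lit 7) (nat_lit 5) (nat_lit 7) (nat_lit 4) (nat_lit 350) (nat_lit 268) (nat_lit 102)))) (XT.nd (nat_lit 156) (nat_lit 76) (nat_lit 0) (XT.nd (nat_lit 78) (nat_lit 76) (nat_lit 0) (XT.lf (nat_lit 0) (nat_lit 183100527655) (nat_lit 76) (nat_lit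 116228569266) (nat_lit 76) (nat_lit 12131249471) (nat_lit 6) (nat_lit 4) (nat_lit 7) (nat_lit 5) (nat_lit 7) (nat_lit 4) (nat_lit 351) (nat_lit 268) (nat_lit 101)) (XT.lf (nat_lit 0) (nat_lit 5254428462) (nat_lit 152) (nat_lit 93327176053) (nat_lit 76) (nat_lit 227316177805) (nat_lit 5) (nat_lit 5) (nat_lit 7) (nat_lit 5) (nat_lit 6) (nat_lit 4) (nat_lit 352) (nat_lit 268) (nat_lit 100))) (XT.nd (nat_lit 156) (nat_lit 76) (nat_lit 0) (XT.lf (nat_lit 0) (nat_lit 23101092540) (nat_lit 152) (nat_lit 56742880986) (nat_lit 76) (nat_lit 261203203776) (nat_lit 5) (nat_lit 5) (nat_lit 7) (nat_lit 5) (nat_lit 6) (nat_lit 4) (nat_lit 353) (nat_lit 268) (nat_lit 99)) (XT.nd (nat_lit 30810) (nat_lit 0) (nat_lit 5396) (XT.lf (nat_lit 0) (nat_lit 22729123209) (nat_lit 76) (nat_lit 39140039913) (nat_lit 152) (nat_lit 311769431986) (nat_lit 4) (nat_lit 5) (nat_lit 5) (nat_lit 5) (nat_lit 6) (nat_lit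 4) (nat_lit 355) (nat_lit 268) (nat_lit 97)) (XT.lf (nat_lit 0) (nat_lit 1631624060) (nat_lit 0) (nat_lit 1631624060) (nat_lit 684) (nat_lit 5252952172) (nat_lit 75) (nat_lit 5) (nat_lit 75) (nat_lit 3) (nat_lit 84) (nat_lit 3) (nat_lit 269) (nat_lit 269) (nat_lit 182))))))))
noncomputable def xc194 : XT := (XT.nd (nat_lit 1404) (nat_lit 1976) (nat_lit 0) (XT.nd (nat_lit 702) (nat_lit 1520) (nat_lit 0) (XT.nd (nat_lit 312) (nat_lit 0) (nat_lit 76) (XT.nd (nat_lit 156) (nat_lit 0) (nat_lit 76) (XT.nd (nat_lit 78) (nat_lit 0) (nat_lit 0) (XT.lf (nat_lit 0) (nat_lit 6966030435) (nat_lit 684) (nat_lit 6446535638) (nat_lit 760) (nat_lit 4031202939) (nat_lit 75) (nat_lit 5) (nat_lit 84) (nat_lit 3) (nat_lit 85) (nat_lit 5) (nat_lit 270) (nat_lit 269) (nat_lit 181)) (XT.lf (nat_lit 76) (nat_lit 1220183087) (nat_lit 0) (nat_lit 6266481020) (nat_lit 760) (nat_lit 10386125495) (nat_lit 76) (nat_lit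 5) (nat_lit 75) (nat_lit 5) (nat_lit 85) (nat_lit 5) (nat_lit 271) (nat_lit 269) (nat_lit 180))) (XT.nd (nat_lit 78) (nat_lit 0) (nat_lit 0) (XT.lf (nat_lit 0) (nat_lit 8150790013) (nat_lit 684) (nat_lit 8853089007) (nat_lit 760) (nat_lit 1313547155) (nat_lit 76) (nat_lit 5) (nat_lit 85) (nat_lit 5) (nat_lit 86) (nat_lit 5) (nat_lit 272) (nat_lit 269) (nat_lit 179)) (XT.lf (nat_lit 0) (nat_lit 8938645681) (nat_lit 684) (nat_lit 774164910) (nat_lit 760) (nat_lit 9066993983) (nat_lit 76) (nat_lit 5) (nat_lit 85) (nat_lit 5) (nat_lit 86) (nat_lit 5) (nat_lit 273) (nat_lit 269) (nat_lit 178)))) (XT.nd (nat_lit 156) (nat_lit 0) (nat_lit 76) (XT.nd (nat_lit 78) (nat_lit 0) (nat_lit 76) (XT.lf (nat_lit 76) (nat_lit 7955876369) (nat_lit 0) (nat_lit 1922606787) (nat_lit 760) (nat_lit 9381223737) (nat_lit 77) (nat_lit 5) (nat_lit 76) (nat_lit 5) (nat_lit 86) (nat_lit 5) (nat_lit 274) (nat_lit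 269) (nat_lit 177)) (XT.lf (nat_lit 0) (nat_lit 10965203565) (nat_lit 684) (nat_lit 2719556081) (nat_lit 760) (nat_lit 6073882938) (nat_lit 77) (nat_lit 5) (nat_lit 86) (nat_lit 5) (nat_lit 87) (nat_lit 5) (nat_lit 275) (nat_lit 269) (nat_lit 176))) (XT.nd (nat_lit 78) (nat_lit 0) (nat_lit 76) (XT.lf (nat_lit 76) (nat_lit 6461608278) (nat_lit 0) (nat_lit 5766457758) (nat_lit 760) (nat_lit 8048399965) (nat_lit 78) (nat_lit 5) (nat_lit 77) (nat_lit 5) (nat_lit 87) (nat_lit 5) (nat_lit 276) (nat_lit 269) (nat_lit 175)) (XT.nd (nat_lit 78) (nat_lit 0) (nat_lit 0) (XT.lf (nat_lit 0) (nat_lit 13630495337) (nat_lit 684) (nat_lit 4670239898) (nat_lit 760) (nat_lit 2515653930) (nat_lit 78) (nat_lit 5) (nat_lit 87) (nat_lit 5) (nat_lit 88) (nat_lit 5) (nat_lit 277) (nat_lit 269) (nat_lit 174)) (XT.lf (nat_lit 76) (nat_lit 4989065437) (nat_lit 0) (nat_lit 10276724157) (nat_lit 760) (nat_lit 6109410060)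 (nat_lit 79) (nat_lit 5) (nat_lit 78) (nat_lit 5) (nat_lit 88) (nat_lit 5) (nat_lit 278) (nat_lit 269) (nat_lit 173)))))) (XT.nd (nat_lit 312) (nat_lit 760) (nat_lit 0) (XT.nd (nat_lit 156) (nat_lit 380) (nat_lit 0) (XT.nd (nat_lit 78) (nat_lit 608) (nat_lit 0) (XT.lf (nat_lit 76) (nat_lit 15285907760) (nat_lit 0) (nat_lit 1766694561) (nat_lit 760) (nat_lit 4905887652) (nat_lit 79) (nat_lit 5) (nat_lit 78) (nat_lit 5) (nat_lit 88) (nat_lit 5) (nat_lit 279) (nat_lit 269) (nat_lit 172)) (XT.lf (nat_lit 0) (nat_lit 3519668321) (nat_lit 684) (nat_lit 15567096903) (nat_lit 760) (nat_lit 3476304812) (nat_lit 70) (nat_lit 5) (nat_lit 79) (nat_lit 5) (nat_lit 80) (nat_lit 5) (nat_lit 280) (nat_lit 269) (nat_lit 171))) (XT.nd (nat_lit 78) (nat_lit 380) (nat_lit 0) (XT.lf (nat_lit 0) (nat_lit 14415688003) (nat_lit 684) (nat_lit 6939882707) (nat_lit 760) (nat_lit 1835686153) (nat_lit 70) (nat_lit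 5) (nat_lit 79) (nat_lit 5) (nat_lit 80) (nat_lit 5) (nat_lit 281) (nat_lit 269) (nat_lit 170)) (XT.lf (nat_lit 0) (nat_lit 2029880452) (nat_lit 380) (nat_lit 21764565257) (nat_lit 456) (nat_lit 53599179) (nat_lit 65) (nat_lit 5) (nat_lit 70) (nat_lit 5) (nat_lit 71) (nat_lit 5) (nat_lit 282) (nat_lit 269) (nat_lit 169)))) (XT.nd (nat_lit 156) (nat_lit 304) (nat_lit 0) (XT.nd (nat_lit 78) (nat_lit 380) (nat_lit 0) (XT.lf (nat_lit 0) (nat_lit 2016219088) (nat_lit 456) (nat_lit 11002381945) (nat_lit 76) (nat_lit 11504833481) (nat_lit 64) (nat_lit 5) (nat_lit 70) (nat_lit 5) (nat_lit 65) (nat_lit 5) (nat_lit 283) (nat_lit 269) (nat_lit 168)) (XT.lf (nat_lit 0) (nat_lit 357291233) (nat_lit 380) (nat_lit 3828373880) (nat_lit 456) (nat_lit 21047007810) (nat_lit 59) (nat_lit 5) (nat_lit 64) (nat_lit 5) (nat_lit 65) (nat_lit 5) (nat_lit 284) (nat_lit 269) (nat_lit 167))) (XT.nd (nat_lit 78)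 (nat_lit 304) (nat_lit 0) (XT.lf (nat_lit 0) (nat_lit 6736466500) (nat_lit 456) (nat_lit 13402797874) (nat_lit 76) (nat_lit 5824483909) (nat_lit 59) (nat_lit 5) (nat_lit 65) (nat_lit 5) (nat_lit 60) (nat_lit 5) (nat_lit 285) (nat_lit 269) (nat_lit 166)) (XT.nd (nat_lit 78) (nat_lit 304) (nat_lit 0) (XT.lf (nat_lit 0) (nat_lit 9470530069) (nat_lit 456) (nat_lit 1426701917) (nat_lit 76) (nat_lit 15831377588) (nat_lit 59) (nat_lit 5) (nat_lit 65) (nat_lit 5) (nat_lit 60) (nat_lit 5) (nat_lit 286) (nat_lit 269) (nat_lit 165)) (XT.lf (nat_lit 0) (nat_lit 11509570472) (nat_lit 304) (nat_lit 1004720029) (nat_lit 380) (nat_lit 15008791144) (nat_lit 55) (nat_lit 5) (nat_lit 59) (nat_lit 5) (nat_lit 60) (nat_lit 5) (nat_lit 287) (nat_lit 269) (nat_lit 164))))))) (XT.nd (nat_lit 702) (nat_lit 836) (nat_lit 0) (XT.nd (nat_lit 312) (nat_lit 608) (nat_lit 0) (XT.nd (nat_lit 156) (nat_lit 228) (nat_lit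 0) (XT.nd (nat_lit 78) (nat_lit 304) (nat_lit 0) (XT.lf (nat_lit 0) (nat_lit 15874785090) (nat_lit 380) (nat_lit 3367991158) (nat_lit 76) (nat_lit 9106290337) (nat_lit 55) (nat_lit 5) (nat_lit 60) (nat_lit 5) (nat_lit 56) (nat_lit 5) (nat_lit 288) (nat_lit 269) (nat_lit 163)) (XT.lf (nat_lit 0) (nat_lit 10213340574) (nat_lit 304) (nat_lit 9359705254) (nat_lit 380) (nat_lit 9634833652) (nat_lit 51) (nat_lit 5) (nat_lit 55) (nat_lit 5) (nat_lit 56) (nat_lit 5) (nat_lit 289) (nat_lit 269) (nat_lit 162))) (XT.nd (nat_lit 78) (nat_lit 228) (nat_lit 0) (XT.lf (nat_lit 0) (nat_lit 23524068134) (nat_lit 380) (nat_lit 5540010567) (nat_lit 76) (nat_lit 1042176924) (nat_lit 51) (nat_lit 5) (nat_lit 56) (nat_lit 5) (nat_lit 52) (nat_lit 5) (nat_lit 290) (nat_lit 269) (nat_lit 161)) (XT.lf (nat_lit 0) (nat_lit 8705704227) (nat_lit 228) (nat_lit 19250570400) (nat_lit 304) (nat_lit 3079108611) (nat_lit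 48) (nat_lit 5) (nat_lit 51) (nat_lit 5) (nat_lit 52) (nat_lit 5) (nat_lit 291) (nat_lit 269) (nat_lit 160)))) (XT.nd (nat_lit 156) (nat_lit 228) (nat_lit 0) (XT.nd (nat_lit 78) (nat_lit 304) (nat_lit 0) (XT.lf (nat_lit 0) (nat_lit 669649003) (nat_lit 304) (nat_lit 8167957281) (nat_lit 76) (nat_lit 23168421206) (nat_lit 47) (nat_lit 5) (nat_lit 51) (nat_lit 5) (nat_lit 48) (nat_lit 5) (nat_lit 292) (nat_lit 269) (nat_lit 159)) (XT.lf (nat_lit 0) (nat_lit 4639442355) (nat_lit 380) (nat_lit 26188317394) (nat_lit 76) (nat_lit 2188078906) (nat_lit 43) (nat_lit 5) (nat_lit 48) (nat_lit 5) (nat_lit 44) (nat_lit 5) (nat_lit 293) (nat_lit 269) (nat_lit 158))) (XT.nd (nat_lit 78) (nat_lit 228) (nat_lit 0) (XT.lf (nat_lit 0) (nat_lit 9087947930) (nat_lit 380) (nat_lit 11366679267) (nat_lit 76) (nat_lit 13607513830) (nat_lit 43) (nat_lit 5) (nat_lit 48) (nat_lit 5) (nat_lit 44) (nat_lit 5) (nat_lit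 294) (nat_lit 269) (nat_lit 157)) (XT.nd (nat_lit 78) (nat_lit 0) (nat_lit 0) (XT.lf (nat_lit 0) (nat_lit 4328232571) (nat_lit 228) (nat_lit 9493219935) (nat_lit 304) (nat_lit 21336188542) (nat_lit 40) (nat_lit 5) (nat_lit 43) (nat_lit 5) (nat_lit 44) (nat_lit 5) (nat_lit 295) (nat_lit 269) (nat_lit 156)) (XT.lf (nat_lit 0) (nat_lit 19013884940) (nat_lit 304) (nat_lit 15136879502) (nat_lit 76) (nat_lit 2146049677) (nat_lit 40) (nat_lit 5) (nat_lit 44) (nat_lit 5) (nat_lit 41) (nat_lit 5) (nat_lit 296) (nat_lit 269) (nat_lit 155)))))) (XT.nd (nat_lit 312) (nat_lit 380) (nat_lit 0) (XT.nd (nat_lit 156) (nat_lit 228) (nat_lit 0) (XT.nd (nat_lit 78) (nat_lit 0) (nat_lit 0) (XT.lf (nat_lit 0) (nat_lit 1217454850) (nat_lit 228) (nat_lit 23418468337) (nat_lit 304) (nat_lit 12848533622) (nat_lit 37) (nat_lit 5) (nat_lit 40) (nat_lit 5) (nat_lit 41) (nat_lit 5) (nat_lit 297) (nat_lit 269) (nat_lit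 154)) (XT.lf (nat_lit 0) (nat_lit 18908962889) (nat_lit 228) (nat_lit 11881927396) (nat_lit 304) (nat_lit 7928009689) (nat_lit 37) (nat_lit 5) (nat_lit 40) (nat_lit 5) (nat_lit 41) (nat_lit 5) (nat_lit 298) (nat_lit 269) (nat_lit 153))) (XT.nd (nat_lit 78) (nat_lit 228) (nat_lit 0) (XT.lf (nat_lit 0) (nat_lit 37252888269) (nat_lit 304) (nat_lit 2539606840) (nat_lit 76) (nat_lit 222615290) (nat_lit 37) (nat_lit 5) (nat_lit 41) (nat_lit 5) (nat_lit 38) (nat_lit 5) (nat_lit 299) (nat_lit 269) (nat_lit 152)) (XT.lf (nat_lit 0) (nat_lit 3022793728) (nat_lit 228) (nat_lit 25500195841) (nat_lit 76) (nat_lit 12828765448) (nat_lit 34) (nat_lit 5) (nat_lit 37) (nat_lit 5) (nat_lit 35) (nat_lit 5) (nat_lit 300) (nat_lit 269) (nat_lit 151)))) (XT.nd (nat_lit 156) (nat_lit 152) (nat_lit 0) (XT.nd (nat_lit 78) (nat_lit 228) (nat_lit 0) (XT.lf (nat_lit 0) (nat_lit 9043856553) (nat_lit 228) (nat_lit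 7554357246) (nat_lit 76) (nat_lit 26152780675) (nat_lit 34) (nat_lit 5) (nat_lit 37) (nat_lit 5) (nat_lit 35) (nat_lit 5) (nat_lit 301) (nat_lit 269) (nat_lit 150)) (XT.lf (nat_lit 0) (nat_lit 11656382350) (nat_lit 228) (nat_lit 3887684112) (nat_lit 304) (nat_lit 28667232335) (nat_lit 31) (nat_lit 5) (nat_lit 34) (nat_lit 5) (nat_lit 35) (nat_lit 5) (nat_lit 302) (nat_lit 269) (nat_lit 149))) (XT.nd (nat_lit 78) (nat_lit 152) (nat_lit 0) (XT.lf (nat_lit 0) (nat_lit 22643174437) (nat_lit 304) (nat_lit 13803613266) (nat_lit 76) (nat_lit 9284143486) (nat_lit 31) (nat_lit 5) (nat_lit 35) (nat_lit 5) (nat_lit 32) (nat_lit 5) (nat_lit 303) (nat_lit 269) (nat_lit 148)) (XT.nd (nat_lit 78) (nat_lit 0) (nat_lit 0) (XT.lf (nat_lit 0) (nat_lit 6008546024) (nat_lit 152) (nat_lit 24242598228) (nat_lit 228) (nat_lit 17067712511) (nat_lit 29) (nat_lit 5) (nat_lit 31) (nat_lit 5) (nat_lit 32) (nat_lit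 5) (nat_lit 304) (nat_lit 269) (nat_lit 147)) (XT.lf (nat_lit 0) (nat_lit 27285341324) (nat_lit 152) (nat_lit 11184397713) (nat_lit 228) (nat_lit 10504934812) (nat_lit 29) (nat_lit 5) (nat_lit 31) (nat_lit 5) (nat_lit 32) (nat_lit 5) (nat_lit 305) (nat_lit 269) (nat_lit 146))))))))
noncomputable def xc195 : XT := (XT.nd (nat_lit 1404) (nat_lit 532) (nat_lit 0) (XT.nd (nat_lit 702) (nat_lit 456) (nat_lit 0) (XT.nd (nat_lit 312) (nat_lit 304) (nat_lit 0) (XT.nd (nat_lit 156) (nat_lit 152) (nat_lit 0) (XT.nd (nat_lit 78) (nat_lit 228) (nat_lit 0) (XT.lf (nat_lit 0) (nat_lit 47135312370) (nat_lit 228) (nat_lit 1131859357) (nat_lit 76) (nat_lit 2444313868) (nat_lit 29) (nat_lit 5) (nat_lit 32) (nat_lit 5) (nat_lit 30) (nat_lit 5) (nat_lit 306) (nat_lit 269) (nat_lit 145)) (XT.lf (nat_lit 0) (nat_lit 4095911456) (nat_lit 228) (nat_lit 31640521982) (nat_lit 76) (nat_lit 16770058698) (nat_lit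 26) (nat_lit 5) (nat_lit 29) (nat_lit 5) (nat_lit 27) (nat_lit 5) (nat_lit 307) (nat_lit 269) (nat_lit 144))) (XT.nd (nat_lit 78) (nat_lit 152) (nat_lit 0) (XT.lf (nat_lit 0) (nat_lit 12047684241) (nat_lit 228) (nat_lit 10451138976) (nat_lit 76) (nat_lit 31888686556) (nat_lit 26) (nat_lit 5) (nat_lit 29) (nat_lit 5) (nat_lit 27) (nat_lit 5) (nat_lit 308) (nat_lit 269) (nat_lit 143)) (XT.lf (nat_lit 0) (nat_lit 12182982696) (nat_lit 152) (nat_lit 8401210533) (nat_lit 228) (nat_lit 35769032823) (nat_lit 24) (nat_lit 5) (nat_lit 26) (nat_lit 5) (nat_lit 27) (nat_lit 5) (nat_lit 309) (nat_lit 269) (nat_lit 142)))) (XT.nd (nat_lit 156) (nat_lit 152) (nat_lit 0) (XT.nd (nat_lit 78) (nat_lit 152) (nat_lit 0) (XT.lf (nat_lit 0) (nat_lit 29824352636) (nat_lit 228) (nat_lit 22204287713) (nat_lit 76) (nat_lit 6374751441) (nat_lit 24) (nat_lit 5) (nat_lit 27) (nat_lit 5) (nat_lit 25) (nat_lit 5)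 (nat_lit 310) (nat_lit 269) (nat_lit 141)) (XT.lf (nat_lit 0) (nat_lit 741481368) (nat_lit 152) (nat_lit 38931469867) (nat_lit 228) (nat_lit 20875797678) (nat_lit 22) (nat_lit 5) (nat_lit 24) (nat_lit 5) (nat_lit 25) (nat_lit 5) (nat_lit 311) (nat_lit 269) (nat_lit 140))) (XT.nd (nat_lit 78) (nat_lit 152) (nat_lit 0) (XT.lf (nat_lit 0) (nat_lit 25601002463) (nat_lit 152) (nat_lit 24786215193) (nat_lit 228) (nat_lit 12395498780) (nat_lit 22) (nat_lit 5) (nat_lit 24) (nat_lit 5) (nat_lit 25) (nat_lit 5) (nat_lit 312) (nat_lit 269) (nat_lit 139)) (XT.nd (nat_lit 78) (nat_lit 152) (nat_lit 0) (XT.lf (nat_lit 0) (nat_lit 51699290879) (nat_lit 152) (nat_lit 9935237507) (nat_lit 228) (nat_lit 3493991629) (nat_lit 22) (nat_lit 5) (nat_lit 24) (nat_lit 5) (nat_lit 25) (nat_lit 5) (nat_lit 313) (nat_lit 269) (nat_lit 138)) (XT.lf (nat_lit 0) (nat_lit 5939637880) (nat_lit 152) (nat_lit 55877954923)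 (nat_lit 76) (nat_lit 5755737712) (nat_lit 20) (nat_lit 5) (nat_lit 22) (nat_lit 5) (nat_lit 21) (nat_lit 5) (nat_lit 314) (nat_lit 269) (nat_lit 137)))))) (XT.nd (nat_lit 312) (nat_lit 304) (nat_lit 0) (XT.nd (nat_lit 156) (nat_lit 152) (nat_lit 0) (XT.nd (nat_lit 78) (nat_lit 0) (nat_lit 0) (XT.lf (nat_lit 0) (nat_lit 16119008739) (nat_lit 152) (nat_lit 31814584752) (nat_lit 76) (nat_lit 22184353729) (nat_lit 20) (nat_lit 5) (nat_lit 22) (nat_lit 5) (nat_lit 21) (nat_lit 5) (nat_lit 315) (nat_lit 269) (nat_lit 136)) (XT.lf (nat_lit 0) (nat_lit 26804918898) (nat_lit 152) (nat_lit 6551987156) (nat_lit 76) (nat_lit 39433013644) (nat_lit 20) (nat_lit 5) (nat_lit 22) (nat_lit 5) (nat_lit 21) (nat_lit 5) (nat_lit 316) (nat_lit 269) (nat_lit 135))) (XT.nd (nat_lit 78) (nat_lit 0) (nat_lit 0) (XT.lf (nat_lit 0) (nat_lit 20630284858) (nat_lit 152) (nat_lit 17714622706) (nat_lit 228) (nat_lit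 37234597400) (nat_lit 18) (nat_lit 5) (nat_lit 20) (nat_lit 5) (nat_lit 21) (nat_lit 5) (nat_lit 317) (nat_lit 269) (nat_lit 134)) (XT.lf (nat_lit 0) (nat_lit 49395447798) (nat_lit 152) (nat_lit 1175147887) (nat_lit 228) (nat_lit 27932541960) (nat_lit 18) (nat_lit 5) (nat_lit 20) (nat_lit 5) (nat_lit 21) (nat_lit 5) (nat_lit 318) (nat_lit 269) (nat_lit 133)))) (XT.nd (nat_lit 156) (nat_lit 228) (nat_lit 0) (XT.nd (nat_lit 78) (nat_lit 76) (nat_lit 0) (XT.lf (nat_lit 0) (nat_lit 63658185121) (nat_lit 228) (nat_lit 2230481064) (nat_lit 76) (nat_lit 15671757936) (nat_lit 18) (nat_lit 5) (nat_lit 21) (nat_lit 5) (nat_lit 19) (nat_lit 4) (nat_lit 319) (nat_lit 269) (nat_lit 132)) (XT.lf (nat_lit 0) (nat_lit 26826504444) (nat_lit 76) (nat_lit 51009680103) (nat_lit 152) (nat_lit 6912591707) (nat_lit 17) (nat_lit 5) (nat_lit 18) (nat_lit 5) (nat_lit 19) (nat_lit 4) (nat_lit 320) (nat_lit 269)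 (nat_lit 131))) (XT.nd (nat_lit 78) (nat_lit 152) (nat_lit 0) (XT.lf (nat_lit 0) (nat_lit 4514792277) (nat_lit 152) (nat_lit 30757183281) (nat_lit 76) (nat_lit 52819144748) (nat_lit 16) (nat_lit 5) (nat_lit 18) (nat_lit 5) (nat_lit 17) (nat_lit 5) (nat_lit 321) (nat_lit 269) (nat_lit 130)) (XT.nd (nat_lit 78) (nat_lit 152) (nat_lit 0) (XT.lf (nat_lit 0) (nat_lit 16279274110) (nat_lit 152) (nat_lit 2350447232) (nat_lit 76) (nat_lit 72965294779) (nat_lit 16) (nat_lit 5) (nat_lit 18) (nat_lit 5) (nat_lit 17) (nat_lit 5) (nat_lit 322) (nat_lit 269) (nat_lit 129)) (XT.lf (nat_lit 0) (nat_lit 28381894211) (nat_lit 152) (nat_lit 691337262) (nat_lit 228) (nat_lit 66178815035) (nat_lit 14) (nat_lit 5) (nat_lit 16) (nat_lit 5) (nat_lit 17) (nat_lit 5) (nat_lit 323) (nat_lit 269) (nat_lit 128))))))) (XT.nd (nat_lit 702) (nat_lit 304) (nat_lit 0) (XT.nd (nat_lit 312) (nat_lit 152) (nat_lit 0) (XT.nd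 (nat_lit 156) (nat_lit 76) (nat_lit 0) (XT.nd (nat_lit 78) (nat_lit 0) (nat_lit 0) (XT.lf (nat_lit 0) (nat_lit 42828775345) (nat_lit 228) (nat_lit 38644566828) (nat_lit 76) (nat_lit 17602494052) (nat_lit 14) (nat_lit 5) (nat_lit 17) (nat_lit 5) (nat_lit 15) (nat_lit 4) (nat_lit 324) (nat_lit 269) (nat_lit 127)) (XT.lf (nat_lit 0) (nat_lit 57281669774) (nat_lit 228) (nat_lit 9022038286) (nat_lit 76) (nat_lit 36786630834) (nat_lit 14) (nat_lit 5) (nat_lit 17) (nat_lit 5) (nat_lit 15) (nat_lit 4) (nat_lit 325) (nat_lit 269) (nat_lit 126))) (XT.nd (nat_lit 78) (nat_lit 0) (nat_lit 0) (XT.lf (nat_lit 0) (nat_lit 22808780280) (nat_lit 76) (nat_lit 50002861401) (nat_lit 152) (nat_lit 34476205410) (nat_lit 13) (nat_lit 5) (nat_lit 14) (nat_lit 5) (nat_lit 15) (nat_lit 4) (nat_lit 326) (nat_lit 269) (nat_lit 125)) (XT.lf (nat_lit 0) (nat_lit 56541550886) (nat_lit 76) (nat_lit 32727713551) (nat_lit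 152) (nat_lit 22418410586) (nat_lit 13) (nat_lit 5) (nat_lit 14) (nat_lit 5) (nat_lit 15) (nat_lit 4) (nat_lit 327) (nat_lit 269) (nat_lit 124)))) (XT.nd (nat_lit 156) (nat_lit 0) (nat_lit 0) (XT.nd (nat_lit 78) (nat_lit 152) (nat_lit 0) (XT.lf (nat_lit 0) (nat_lit 91958280320) (nat_lit 76) (nat_lit 14589925789) (nat_lit 152) (nat_lit 9759368198) (nat_lit 13) (nat_lit 5) (nat_lit 14) (nat_lit 5) (nat_lit 15) (nat_lit 4) (nat_lit 328) (nat_lit 269) (nat_lit 123)) (XT.lf (nat_lit 0) (nat_lit 3618478353) (nat_lit 152) (nat_lit 113030119656) (nat_lit 76) (nat_lit 4497168602) (nat_lit 11) (nat_lit 5) (nat_lit 13) (nat_lit 5) (nat_lit 12) (nat_lit 4) (nat_lit 329) (nat_lit 269) (nat_lit 122))) (XT.nd (nat_lit 78) (nat_lit 0) (nat_lit 0) (XT.lf (nat_lit 0) (nat_lit 17994046079) (nat_lit 152) (nat_lit 83564612247) (nat_lit 76) (nat_lit 24626371933) (nat_lit 11) (nat_lit 5) (nat_lit 13) (nat_lit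 5) (nat_lit 12) (nat_lit 4) (nat_lit 330) (nat_lit 269) (nat_lit 121)) (XT.nd (nat_lit 78) (nat_lit 0) (nat_lit 0) (XT.lf (nat_lit 0) (nat_lit 33086964868) (nat_lit 152) (nat_lit 52628325328) (nat_lit 76) (nat_lit 45761039777) (nat_lit 11) (nat_lit 5) (nat_lit 13) (nat_lit 5) (nat_lit 12) (nat_lit 4) (nat_lit 331) (nat_lit 269) (nat_lit 120)) (XT.lf (nat_lit 0) (nat_lit 48933170243) (nat_lit 152) (nat_lit 20147601072) (nat_lit 76) (nat_lit 67951492772) (nat_lit 11) (nat_lit 5) (nat_lit 13) (nat_lit 5) (nat_lit 12) (nat_lit 4) (nat_lit 332) (nat_lit 269) (nat_lit 119)))))) (XT.nd (nat_lit 390) (nat_lit 152) (nat_lit 0) (XT.nd (nat_lit 156) (nat_lit 76) (nat_lit 0) (XT.nd (nat_lit 78) (nat_lit 0) (nat_lit 0) (XT.lf (nat_lit 0) (nat_lit 14416307447) (nat_lit 76) (nat_lit 51379162776) (nat_lit 152) (nat_lit 77059336842) (nat_lit 10) (nat_lit 5) (nat_lit 11) (nat_lit 5) (nat_lit 12) (nat_lit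 4) (nat_lit 333) (nat_lit 269) (nat_lit 118)) (XT.lf (nat_lit 0) (nat_lit 51405663303) (nat_lit 76) (nat_lit 32435163523) (nat_lit 152) (nat_lit 65110654596) (nat_lit 10) (nat_lit 5) (nat_lit 11) (nat_lit 5) (nat_lit 12) (nat_lit 4) (nat_lit 334) (nat_lit 269) (nat_lit 117))) (XT.nd (nat_lit 78) (nat_lit 76) (nat_lit 0) (XT.lf (nat_lit 0) (nat_lit 90242365709) (nat_lit 76) (nat_lit 12544878170) (nat_lit 152) (nat_lit 52565807235) (nat_lit 10) (nat_lit 5) (nat_lit 11) (nat_lit 5) (nat_lit 12) (nat_lit 4) (nat_lit 335) (nat_lit 269) (nat_lit 116)) (XT.nd (nat_lit 78) (nat_lit 76) (nat_lit 0) (XT.lf (nat_lit 0) (nat_lit 122810027857) (nat_lit 152) (nat_lit 31186070928) (nat_lit 0) (nat_lit 8072149390) (nat_lit 10) (nat_lit 5) (nat_lit 12) (nat_lit 4) (nat_lit 10) (nat_lit 4) (nat_lit 336) (nat_lit 269) (nat_lit 115)) (XT.lf (nat_lit 0) (nat_lit 4366922341) (nat_lit 76) (nat_lit 139739754258)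 (nat_lit 76) (nat_lit 24998893345) (nat_lit 9) (nat_lit 4) (nat_lit 10) (nat_lit 5) (nat_lit 10) (nat_lit 4) (nat_lit 337) (nat_lit 269) (nat_lit 114))))) (XT.nd (nat_lit 156) (nat_lit 76) (nat_lit 0) (XT.nd (nat_lit 78) (nat_lit 76) (nat_lit 0) (XT.lf (nat_lit 0) (nat_lit 42778339986) (nat_lit 76) (nat_lit 124216883473) (nat_lit 76) (nat_lit 9473182137) (nat_lit 9) (nat_lit 4) (nat_lit 10) (nat_lit 5) (nat_lit 10) (nat_lit 4) (nat_lit 338) (nat_lit 269) (nat_lit 113)) (XT.lf (nat_lit 0) (nat_lit 6609198145) (nat_lit 152) (nat_lit 101197550303) (nat_lit 76) (nat_lit 76387357301) (nat_lit 8) (nat_lit 5) (nat_lit 10) (nat_lit 5) (nat_lit 9) (nat_lit 4) (nat_lit 339) (nat_lit 269) (nat_lit 112))) (XT.nd (nat_lit 78) (nat_lit 76) (nat_lit 0) (XT.lf (nat_lit 0) (nat_lit 23176334716) (nat_lit 152) (nat_lit 67237496680) (nat_lit 76) (nat_lit 101884545627) (nat_lit 8) (nat_lit 5) (nat_lit 10)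 (nat_lit 5) (nat_lit 9) (nat_lit 4) (nat_lit 340) (nat_lit 269) (nat_lit 111)) (XT.nd (nat_lit 78) (nat_lit 76) (nat_lit 0) (XT.lf (nat_lit 0) (nat_lit 40570874129) (nat_lit 152) (nat_lit 31581144550) (nat_lit 76) (nat_lit 128655891769) (nat_lit 8) (nat_lit 5) (nat_lit 10) (nat_lit 5) (nat_lit 9) (nat_lit 4) (nat_lit 341) (nat_lit 269) (nat_lit 110)) (XT.lf (nat_lit 0) (nat_lit 6050041268) (nat_lit 76) (nat_lit 52878648784) (nat_lit 152) (nat_lit 150809553859) (nat_lit 7) (nat_lit 5) (nat_lit 8) (nat_lit 5) (nat_lit 9) (nat_lit 4) (nat_lit 342) (nat_lit 269) (nat_lit 109))))))))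
noncomputable def xc196 : XT := (XT.nd (nat_lit 32292) (nat_lit 0) (nat_lit 3192) (XT.nd (nat_lit 702) (nat_lit 76) (nat_lit 0) (XT.nd (nat_lit 312) (nat_lit 76) (nat_lit 0) (XT.nd (nat_lit 156) (nat_lit 0) (nat_lit 0) (XT.nd (nat_lit 78) (nat_lit 0) (nat_lit 0) (XT.lf (nat_lit 0) (nat_lit 46657615560) (nat_lit 76) (nat_lit 32080732950) (nat_lit 152) (nat_lit 140350048756) (nat_lit 7) (nat_lit 5) (nat_lit 8) (nat_lit 5) (nat_lit 9) (nat_lit 4) (nat_lit 343) (nat_lit 269) (nat_lit 108)) (XT.lf (nat_lit 0) (nat_lit 89294047762) (nat_lit 76) (nat_lit 10243594294) (nat_lit 152) (nat_lit 129368459390) (nat_lit 7) (nat_lit 5) (nat_lit 8) (nat_lit 5) (nat_lit 9) (nat_lit 4) (nat_lit 344) (nat_lit 269) (nat_lit 107))) (XT.nd (nat_lit 78) (nat_lit 0) (nat_lit 0) (XT.lf (nat_lit 0) (nat_lit 121574137477) (nat_lit 152) (nat_lit 105351923407) (nat_lit 0) (nat_lit 12278768820) (nat_lit 7) (nat_lit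 5) (nat_lit 9) (nat_lit 4) (nat_lit 7) (nat_lit 4) (nat_lit 345) (nat_lit 269) (nat_lit 106)) (XT.lf (nat_lit 0) (nat_lit 144879606904) (nat_lit 152) (nat_lit 69548123422) (nat_lit 0) (nat_lit 35582407284) (nat_lit 7) (nat_lit 5) (nat_lit 9) (nat_lit 4) (nat_lit 7) (nat_lit 4) (nat_lit 346) (nat_lit 269) (nat_lit 105)))) (XT.nd (nat_lit 156) (nat_lit 0) (nat_lit 0) (XT.nd (nat_lit 78) (nat_lit 76) (nat_lit 0) (XT.lf (nat_lit 0) (nat_lit 169349608334) (nat_lit 152) (nat_lit 31955475371) (nat_lit 0) (nat_lit 60050664940) (nat_lit 7) (nat_lit 5) (nat_lit 9) (nat_lit 4) (nat_lit 7) (nat_lit 4) (nat_lit 347) (nat_lit 269) (nat_lit 104)) (XT.lf (nat_lit 0) (nat_lit 7764024316) (nat_lit 76) (nat_lit 187399597539) (nat_lit 76) (nat_lit 78098993408) (nat_lit 6) (nat_lit 4) (nat_lit 7) (nat_lit 5) (nat_lit 7) (nat_lit 4) (nat_lit 348) (nat_lit 269) (nat_lit 103))) (XT.nd (nat_lit 78) (nat_lit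 0) (nat_lit 0) (XT.lf (nat_lit 0) (nat_lit 50577663517) (nat_lit 76) (nat_lit 172231161807) (nat_lit 76) (nat_lit 62928976022) (nat_lit 6) (nat_lit 4) (nat_lit 7) (nat_lit 5) (nat_lit 7) (nat_lit 4) (nat_lit 349) (nat_lit 269) (nat_lit 102)) (XT.nd (nat_lit 78) (nat_lit 0) (nat_lit 0) (XT.lf (nat_lit 0) (nat_lit 95530787138) (nat_lit 76) (nat_lit 156304842627) (nat_lit 76) (nat_lit 47001150504) (nat_lit 6) (nat_lit 4) (nat_lit 7) (nat_lit 5) (nat_lit 7) (nat_lit 4) (nat_lit 350) (nat_lit 269) (nat_lit 101)) (XT.lf (nat_lit 0) (nat_lit 142730426423) (nat_lit 76) (nat_lit 139582720188) (nat_lit 76) (nat_lit 30277593459) (nat_lit 6) (nat_lit 4) (nat_lit 7) (nat_lit 5) (nat_lit 7) (nat_lit 4) (nat_lit 351) (nat_lit 269) (nat_lit 100)))))) (XT.nd (nat_lit 31200) (nat_lit 0) (nat_lit 5320) (XT.nd (nat_lit 234) (nat_lit 0) (nat_lit 0) (XT.nd (nat_lit 78) (nat_lit 76) (nat_lit 0) (XT.lf (nat_lit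 0) (nat_lit 192288961468) (nat_lit 76) (nat_lit 122024979916) (nat_lit 76) (nat_lit 12718486894) (nat_lit 6) (nat_lit 4) (nat_lit 7) (nat_lit 5) (nat_lit 7) (nat_lit 4) (nat_lit 352) (nat_lit 269) (nat_lit 99)) (XT.lf (nat_lit 0) (nat_lit 5534965627) (nat_lit 152) (nat_lit 97961114717) (nat_lit 76) (nat_lit 238695685836) (nat_lit 5) (nat_lit 5) (nat_lit 7) (nat_lit 5) (nat_lit 6) (nat_lit 4) (nat_lit 353) (nat_lit 269) (nat_lit 98))) (XT.nd (nat_lit 30888) (nat_lit 0) (nat_lit 5320) (XT.lf (nat_lit 0) (nat_lit 43947645493) (nat_lit 152) (nat_lit 19217540513) (nat_lit 76) (nat_lit 311635767941) (nat_lit 5) (nat_lit 5) (nat_lit 7) (nat_lit 5) (nat_lit 6) (nat_lit 4) (nat_lit 355) (nat_lit 269) (nat_lit 96)) (XT.lf (nat_lit 0) (nat_lit 1817231554) (nat_lit 0) (nat_lit 1817231554) (nat_lit 684) (nat_lit 5296531298) (nat_lit 75) (nat_lit 5) (nat_lit 75) (nat_lit 3) (nat_lit 84) (nat_lit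 3) (nat_lit 270) (nat_lit 270) (nat_lit 180)))) (XT.nd (nat_lit 156) (nat_lit 0) (nat_lit 76) (XT.nd (nat_lit 78) (nat_lit 0) (nat_lit 0) (XT.lf (nat_lit 0) (nat_lit 7707528985) (nat_lit 684) (nat_lit 6546640833) (nat_lit 760) (nat_lit 4040959658) (nat_lit 75) (nat_lit 5) (nat_lit 84) (nat_lit 3) (nat_lit 85) (nat_lit 5) (nat_lit 271) (nat_lit 270) (nat_lit 179)) (XT.lf (nat_lit 76) (nat_lit 1499829610) (nat_lit 0) (nat_lit 6739054606) (nat_lit 760) (nat_lit 10507538012) (nat_lit 76) (nat_lit 5) (nat_lit 75) (nat_lit 5) (nat_lit 85) (nat_lit 5) (nat_lit 272) (nat_lit 270) (nat_lit 178))) (XT.nd (nat_lit 78) (nat_lit 0) (nat_lit 0) (XT.lf (nat_lit 0) (nat_lit 8915853867) (nat_lit 684) (nat_lit 9066095310) (nat_lit 760) (nat_lit 1232412556) (nat_lit 76) (nat_lit 5) (nat_lit 85) (nat_lit 5) (nat_lit 86) (nat_lit 5) (nat_lit 273) (nat_lit 270) (nat_lit 177)) (XT.nd (nat_lit 78) (nat_lit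 0) (nat_lit 0) (XT.lf (nat_lit 0) (nat_lit 9726077349) (nat_lit 684) (nat_lit 594160634) (nat_lit 760) (nat_lit 9380522771) (nat_lit 76) (nat_lit 5) (nat_lit 85) (nat_lit 5) (nat_lit 86) (nat_lit 5) (nat_lit 274) (nat_lit 270) (nat_lit 176)) (XT.lf (nat_lit 76) (nat_lit 8568855087) (nat_lit 0) (nat_lit 2131196994) (nat_lit 760) (nat_lit 9505296890) (nat_lit 77) (nat_lit 5) (nat_lit 76) (nat_lit 5) (nat_lit 86) (nat_lit 5) (nat_lit 275) (nat_lit 270) (nat_lit 175))))))) (XT.nd (nat_lit 702) (nat_lit 1292) (nat_lit 0) (XT.nd (nat_lit 312) (nat_lit 988) (nat_lit 0) (XT.nd (nat_lit 156) (nat_lit 0) (nat_lit 76) (XT.nd (nat_lit 78) (nat_lit 0) (nat_lit 0) (XT.lf (nat_lit 0) (nat_lit 11823834175) (nat_lit 684) (nat_lit 2632406284) (nat_lit 760) (nat_lit 6273900467) (nat_lit 77) (nat_lit 5) (nat_lit 86) (nat_lit 5) (nat_lit 87) (nat_lit 5) (nat_lit 276) (nat_lit 270) (nat_lit 174)) (XT.lf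 (nat_lit 76) (nat_lit 7004217460) (nat_lit 0) (nat_lit 6134270225) (nat_lit 760) (nat_lit 8135979019) (nat_lit 78) (nat_lit 5) (nat_lit 77) (nat_lit 5) (nat_lit 87) (nat_lit 5) (nat_lit 277) (nat_lit 270) (nat_lit 173))) (XT.nd (nat_lit 78) (nat_lit 0) (nat_lit 0) (XT.lf (nat_lit 0) (nat_lit 14595617524) (nat_lit 684) (nat_lit 4678425778) (nat_lit 760) (nat_lit 2568155279) (nat_lit 78) (nat_lit 5) (nat_lit 87) (nat_lit 5) (nat_lit 88) (nat_lit 5) (nat_lit 278) (nat_lit 270) (nat_lit 172)) (XT.lf (nat_lit 76) (nat_lit 5460210533) (nat_lit 0) (nat_lit 10842422554) (nat_lit 760) (nat_lit 6126858210) (nat_lit 79) (nat_lit 5) (nat_lit 78) (nat_lit 5) (nat_lit 88) (nat_lit 5) (nat_lit 279) (nat_lit 270) (nat_lit 171)))) (XT.nd (nat_lit 156) (nat_lit 456) (nat_lit 0) (XT.nd (nat_lit 78) (nat_lit 608) (nat_lit 0) (XT.lf (nat_lit 76) (nat_lit 16261338218) (nat_lit 0) (nat_lit 1904421849) (nat_lit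 760) (nat_lit 4876875031) (nat_lit 79) (nat_lit 5) (nat_lit 78) (nat_lit 5) (nat_lit 88) (nat_lit 5) (nat_lit 280) (nat_lit 270) (nat_lit 170)) (XT.lf (nat_lit 0) (nat_lit 3917697245) (nat_lit 684) (nat_lit 16374260111) (nat_lit 760) (nat_lit 3386006354) (nat_lit 70) (nat_lit 5) (nat_lit 79) (nat_lit 5) (nat_lit 80) (nat_lit 5) (nat_lit 281) (nat_lit 270) (nat_lit 169))) (XT.nd (nat_lit 78) (nat_lit 456) (nat_lit 0) (XT.lf (nat_lit 0) (nat_lit 15347944316) (nat_lit 684) (nat_lit 7314313379) (nat_lit 760) (nat_lit 1675933605) (nat_lit 70) (nat_lit 5) (nat_lit 79) (nat_lit 5) (nat_lit 80) (nat_lit 5) (nat_lit 282) (nat_lit 270) (nat_lit 168)) (XT.nd (nat_lit 78) (nat_lit 0) (nat_lit 0) (XT.lf (nat_lit 0) (nat_lit 180504545) (nat_lit 456) (nat_lit 22678897666) (nat_lit 76) (nat_lit 2168720247) (nat_lit 64) (nat_lit 5) (nat_lit 70) (nat_lit 5) (nat_lit 65) (nat_lit 5) (nat_lit 283) (nat_lit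 270) (nat_lit 167)) (XT.lf (nat_lit 0) (nat_lit 2340822805) (nat_lit 456) (nat_lit 11334123597) (nat_lit 76) (nat_lit 12062880212) (nat_lit 64) (nat_lit 5) (nat_lit 70) (nat_lit 5) (nat_lit 65) (nat_lit 5) (nat_lit 284) (nat_lit 270) (nat_lit 166)))))) (XT.nd (nat_lit 312) (nat_lit 608) (nat_lit 0) (XT.nd (nat_lit 156) (nat_lit 304) (nat_lit 0) (XT.nd (nat_lit 78) (nat_lit 0) (nat_lit 0) (XT.lf (nat_lit 0) (nat_lit 590011023) (nat_lit 380) (nat_lit 4021427802) (nat_lit 456) (nat_lit 21871481328) (nat_lit 59) (nat_lit 5) (nat_lit 64) (nat_lit 5) (nat_lit 65) (nat_lit 5) (nat_lit 285) (nat_lit 270) (nat_lit 165)) (XT.lf (nat_lit 0) (nat_lit 7279446897) (nat_lit 456) (nat_lit 13857445220) (nat_lit 76) (nat_lit 6114200590) (nat_lit 59) (nat_lit 5) (nat_lit 65) (nat_lit 5) (nat_lit 60) (nat_lit 5) (nat_lit 286) (nat_lit 270) (nat_lit 164))) (XT.nd (nat_lit 78) (nat_lit 304) (nat_lit 0) (XT.lf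 (nat_lit 0) (nat_lit 10140396641) (nat_lit 456) (nat_lit 1292806015) (nat_lit 76) (nat_lit 16621510739) (nat_lit 59) (nat_lit 5) (nat_lit 65) (nat_lit 5) (nat_lit 60) (nat_lit 5) (nat_lit 287) (nat_lit 270) (nat_lit 163)) (XT.lf (nat_lit 0) (nat_lit 12286969816) (nat_lit 304) (nat_lit 1043178302) (nat_lit 380) (nat_lit 15559095071) (nat_lit 55) (nat_lit 5) (nat_lit 59) (nat_lit 5) (nat_lit 60) (nat_lit 5) (nat_lit 288) (nat_lit 270) (nat_lit 162)))) (XT.nd (nat_lit 156) (nat_lit 304) (nat_lit 0) (XT.nd (nat_lit 78) (nat_lit 304) (nat_lit 0) (XT.lf (nat_lit 0) (nat_lit 16849788130) (nat_lit 380) (nat_lit 3334743596) (nat_lit 76) (nat_lit 9572462728) (nat_lit 55) (nat_lit 5) (nat_lit 60) (nat_lit 5) (nat_lit 56) (nat_lit 5) (nat_lit 289) (nat_lit 270) (nat_lit 161)) (XT.lf (nat_lit 0) (nat_lit 10922402350) (nat_lit 304) (nat_lit 9805025445) (nat_lit 380) (nat_lit 9931618918) (nat_lit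 51) (nat_lit 5) (nat_lit 55) (nat_lit 5) (nat_lit 56) (nat_lit 5) (nat_lit 290) (nat_lit 270) (nat_lit 160))) (XT.nd (nat_lit 78) (nat_lit 304) (nat_lit 0) (XT.lf (nat_lit 0) (nat_lit 24867970150) (nat_lit 380) (nat_lit 5619613359) (nat_lit 76) (nat_lit 1115180674) (nat_lit 51) (nat_lit 5) (nat_lit 56) (nat_lit 5) (nat_lit 52) (nat_lit 5) (nat_lit 291) (nat_lit 270) (nat_lit 159)) (XT.nd (nat_lit 78) (nat_lit 76) (nat_lit 0) (XT.lf (nat_lit 0) (nat_lit 9335203340) (nat_lit 228) (nat_lit 20181630202) (nat_lit 304) (nat_lit 3061782271) (nat_lit 48) (nat_lit 5) (nat_lit 51) (nat_lit 5) (nat_lit 52) (nat_lit 5) (nat_lit 292) (nat_lit 270) (nat_lit 158)) (XT.lf (nat_lit 0) (nat_lit 861035915) (nat_lit 304) (nat_lit 8385806288) (nat_lit 76) (nat_lit 24351229237) (nat_lit 47) (nat_lit 5) (nat_lit 51) (nat_lit 5) (nat_lit 48) (nat_lit 5) (nat_lit 293) (nat_lit 270) (nat_lit 157))))))))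
noncomputable def xc197 : XT := (XT.nd (nat_lit 1404) (nat_lit 836) (nat_lit 0) (XT.nd (nat_lit 702) (nat_lit 760) (nat_lit 0) (XT.nd (nat_lit 312) (nat_lit 456) (nat_lit 0) (XT.nd (nat_lit 156) (nat_lit 228) (nat_lit 0) (XT.nd (nat_lit 78) (nat_lit 0) (nat_lit 0) (XT.lf (nat_lit 0) (nat_lit 5025260077) (nat_lit 380) (nat_lit 27302780594) (nat_lit 76) (nat_lit 2330552683) (nat_lit 43) (nat_lit 5) (nat_lit 48) (nat_lit 5) (nat_lit 44) (nat_lit 5) (nat_lit 294) (nat_lit 270) (nat_lit 156)) (XT.lf (nat_lit 0) (nat_lit 9688864949) (nat_lit 380) (nat_lit 11749344022) (nat_lit 76) (nat_lit 14319384600) (nat_lit 43) (nat_lit 5) (nat_lit 48) (nat_lit 5) (nat_lit 44) (nat_lit 5) (nat_lit 295) (nat_lit 270) (nat_lit 155))) (XT.nd (nat_lit 78) (nat_lit 0) (nat_lit 0) (XT.lf (nat_lit 0) (nat_lit 4727318743) (nat_lit 228) (nat_lit 9927600947) (nat_lit 304) (nat_lit 22253170799) (nat_lit 40) (nat_lit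 5) (nat_lit 43) (nat_lit 5) (nat_lit 44) (nat_lit 5) (nat_lit 296) (nat_lit 270) (nat_lit 154)) (XT.lf (nat_lit 0) (nat_lit 20100791990) (nat_lit 304) (nat_lit 15713267981) (nat_lit 76) (nat_lit 2290486231) (nat_lit 40) (nat_lit 5) (nat_lit 44) (nat_lit 5) (nat_lit 41) (nat_lit 5) (nat_lit 297) (nat_lit 270) (nat_lit 153)))) (XT.nd (nat_lit 156) (nat_lit 228) (nat_lit 0) (XT.nd (nat_lit 78) (nat_lit 0) (nat_lit 0) (XT.lf (nat_lit 0) (nat_lit 1455872516) (nat_lit 228) (nat_lit 24544345282) (nat_lit 304) (nat_lit 13351553134) (nat_lit 37) (nat_lit 5) (nat_lit 40) (nat_lit 5) (nat_lit 41) (nat_lit 5) (nat_lit 298) (nat_lit 270) (nat_lit 152)) (XT.lf (nat_lit 0) (nat_lit 20023501437) (nat_lit 228) (nat_lit 12433122364) (nat_lit 304) (nat_lit 8191641441) (nat_lit 37) (nat_lit 5) (nat_lit 40) (nat_lit 5) (nat_lit 41) (nat_lit 5) (nat_lit 299) (nat_lit 270) (nat_lit 151))) (XT.nd (nat_lit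 78) (nat_lit 228) (nat_lit 0) (XT.lf (nat_lit 0) (nat_lit 39236350600) (nat_lit 304) (nat_lit 2499920207) (nat_lit 76) (nat_lit 273296805) (nat_lit 37) (nat_lit 5) (nat_lit 41) (nat_lit 5) (nat_lit 38) (nat_lit 5) (nat_lit 300) (nat_lit 270) (nat_lit 150)) (XT.nd (nat_lit 78) (nat_lit 0) (nat_lit 0) (XT.lf (nat_lit 0) (nat_lit 3293723848) (nat_lit 228) (nat_lit 26607032545) (nat_lit 76) (nat_lit 13512363375) (nat_lit 34) (nat_lit 5) (nat_lit 37) (nat_lit 5) (nat_lit 35) (nat_lit 5) (nat_lit 301) (nat_lit 270) (nat_lit 149)) (XT.lf (nat_lit 0) (nat_lit 9610135508) (nat_lit 228) (nat_lit 7771910262) (nat_lit 76) (nat_lit 27500571761) (nat_lit 34) (nat_lit 5) (nat_lit 37) (nat_lit 5) (nat_lit 35) (nat_lit 5) (nat_lit 302) (nat_lit 270) (nat_lit 148)))))) (XT.nd (nat_lit 312) (nat_lit 380) (nat_lit 0) (XT.nd (nat_lit 156) (nat_lit 152) (nat_lit 0) (XT.nd (nat_lit 78) (nat_lit 0) (nat_lit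 0) (XT.lf (nat_lit 0) (nat_lit 12396783010) (nat_lit 228) (nat_lit 4035600520) (nat_lit 304) (nat_lit 29983712749) (nat_lit 31) (nat_lit 5) (nat_lit 34) (nat_lit 5) (nat_lit 35) (nat_lit 5) (nat_lit 303) (nat_lit 270) (nat_lit 147)) (XT.lf (nat_lit 0) (nat_lit 23881846718) (nat_lit 304) (nat_lit 14338914397) (nat_lit 76) (nat_lit 9791189268) (nat_lit 31) (nat_lit 5) (nat_lit 35) (nat_lit 5) (nat_lit 32) (nat_lit 5) (nat_lit 304) (nat_lit 270) (nat_lit 146))) (XT.nd (nat_lit 78) (nat_lit 0) (nat_lit 0) (XT.lf (nat_lit 0) (nat_lit 6461354800) (nat_lit 152) (nat_lit 25406167251) (nat_lit 228) (nat_lit 17811894437) (nat_lit 29) (nat_lit 5) (nat_lit 31) (nat_lit 5) (nat_lit 32) (nat_lit 5) (nat_lit 305) (nat_lit 270) (nat_lit 145)) (XT.lf (nat_lit 0) (nat_lit 28794733605) (nat_lit 152) (nat_lit 11697369134) (nat_lit 228) (nat_lit 10926178030) (nat_lit 29) (nat_lit 5) (nat_lit 31) (nat_lit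 5) (nat_lit 32) (nat_lit 5) (nat_lit 306) (nat_lit 270) (nat_lit 144)))) (XT.nd (nat_lit 156) (nat_lit 152) (nat_lit 0) (XT.nd (nat_lit 78) (nat_lit 228) (nat_lit 0) (XT.lf (nat_lit 0) (nat_lit 49586934005) (nat_lit 228) (nat_lit 1046042878) (nat_lit 76) (nat_lit 2609165967) (nat_lit 29) (nat_lit 5) (nat_lit 32) (nat_lit 5) (nat_lit 30) (nat_lit 5) (nat_lit 307) (nat_lit 270) (nat_lit 143)) (XT.lf (nat_lit 0) (nat_lit 4394911089) (nat_lit 228) (nat_lit 33079162722) (nat_lit 76) (nat_lit 17652874703) (nat_lit 26) (nat_lit 5) (nat_lit 29) (nat_lit 5) (nat_lit 27) (nat_lit 5) (nat_lit 308) (nat_lit 270) (nat_lit 142))) (XT.nd (nat_lit 78) (nat_lit 152) (nat_lit 0) (XT.lf (nat_lit 0) (nat_lit 12739786606) (nat_lit 228) (nat_lit 10837138439) (nat_lit 76) (nat_lit 33525323807) (nat_lit 26) (nat_lit 5) (nat_lit 29) (nat_lit 5) (nat_lit 27) (nat_lit 5) (nat_lit 309) (nat_lit 270) (nat_lit 141))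 (XT.nd (nat_lit 78) (nat_lit 0) (nat_lit 0) (XT.lf (nat_lit 0) (nat_lit 12926486776) (nat_lit 152) (nat_lit 8774459631) (nat_lit 228) (nat_lit 37465420436) (nat_lit 24) (nat_lit 5) (nat_lit 26) (nat_lit 5) (nat_lit 27) (nat_lit 5) (nat_lit 310) (nat_lit 270) (nat_lit 140)) (XT.lf (nat_lit 0) (nat_lit 31399641100) (nat_lit 228) (nat_lit 23182935813) (nat_lit 76) (nat_lit 6736644414) (nat_lit 24) (nat_lit 5) (nat_lit 27) (nat_lit 5) (nat_lit 25) (nat_lit 5) (nat_lit 311) (nat_lit 270) (nat_lit 139))))))) (XT.nd (nat_lit 702) (nat_lit 380) (nat_lit 0) (XT.nd (nat_lit 312) (nat_lit 152) (nat_lit 0) (XT.nd (nat_lit 156) (nat_lit 152) (nat_lit 0) (XT.nd (nat_lit 78) (nat_lit 0) (nat_lit 0) (XT.lf (nat_lit 0) (nat_lit 907999685) (nat_lit 152) (nat_lit 40830687559) (nat_lit 228) (nat_lit 21833264683) (nat_lit 22) (nat_lit 5) (nat_lit 24) (nat_lit 5) (nat_lit 25) (nat_lit 5) (nat_lit 312) (nat_lit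 270) (nat_lit 138)) (XT.lf (nat_lit 0) (nat_lit 27004332823) (nat_lit 152) (nat_lit 25980425190) (nat_lit 228) (nat_lit 12933061454) (nat_lit 22) (nat_lit 5) (nat_lit 24) (nat_lit 5) (nat_lit 25) (nat_lit 5) (nat_lit 313) (nat_lit 270) (nat_lit 137))) (XT.nd (nat_lit 78) (nat_lit 152) (nat_lit 0) (XT.lf (nat_lit 0) (nat_lit 54401665171) (nat_lit 152) (nat_lit 10389046275) (nat_lit 228) (nat_lit 3590393815) (nat_lit 22) (nat_lit 5) (nat_lit 24) (nat_lit 5) (nat_lit 25) (nat_lit 5) (nat_lit 314) (nat_lit 270) (nat_lit 136)) (XT.lf (nat_lit 0) (nat_lit 6311333795) (nat_lit 152) (nat_lit 58550640280) (nat_lit 76) (nat_lit 6086180306) (nat_lit 20) (nat_lit 5) (nat_lit 22) (nat_lit 5) (nat_lit 21) (nat_lit 5) (nat_lit 315) (nat_lit 270) (nat_lit 135)))) (XT.nd (nat_lit 156) (nat_lit 152) (nat_lit 0) (XT.nd (nat_lit 78) (nat_lit 0) (nat_lit 0) (XT.lf (nat_lit 0) (nat_lit 16996115386) (nat_lit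 152) (nat_lit 33289873618) (nat_lit 76) (nat_lit 23334195900) (nat_lit 20) (nat_lit 5) (nat_lit 22) (nat_lit 5) (nat_lit 21) (nat_lit 5) (nat_lit 316) (nat_lit 270) (nat_lit 134)) (XT.lf (nat_lit 0) (nat_lit 28212932663) (nat_lit 152) (nat_lit 6769643303) (nat_lit 76) (nat_lit 41443354312) (nat_lit 20) (nat_lit 5) (nat_lit 22) (nat_lit 5) (nat_lit 21) (nat_lit 5) (nat_lit 317) (nat_lit 270) (nat_lit 133))) (XT.nd (nat_lit 78) (nat_lit 0) (nat_lit 0) (XT.lf (nat_lit 0) (nat_lit 21769969034) (nat_lit 152) (nat_lit 18558413524) (nat_lit 228) (nat_lit 39026693778) (nat_lit 18) (nat_lit 5) (nat_lit 20) (nat_lit 5) (nat_lit 21) (nat_lit 5) (nat_lit 318) (nat_lit 270) (nat_lit 132)) (XT.nd (nat_lit 78) (nat_lit 0) (nat_lit 0) (XT.lf (nat_lit 0) (nat_lit 51968239172) (nat_lit 152) (nat_lit 1193962122) (nat_lit 228) (nat_lit 29262851447) (nat_lit 18) (nat_lit 5) (nat_lit 20) (nat_lit 5) (nat_lit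 21) (nat_lit 5) (nat_lit 319) (nat_lit 270) (nat_lit 131)) (XT.lf (nat_lit 0) (nat_lit 66901760519) (nat_lit 228) (nat_lit 2241398311) (nat_lit 76) (nat_lit 16492169384) (nat_lit 18) (nat_lit 5) (nat_lit 21) (nat_lit 5) (nat_lit 19) (nat_lit 4) (nat_lit 320) (nat_lit 270) (nat_lit 130)))))) (XT.nd (nat_lit 312) (nat_lit 76) (nat_lit 0) (XT.nd (nat_lit 156) (nat_lit 152) (nat_lit 0) (XT.nd (nat_lit 78) (nat_lit 76) (nat_lit 0) (XT.lf (nat_lit 0) (nat_lit 28266813781) (nat_lit 76) (nat_lit 53520502690) (nat_lit 152) (nat_lit 7195852646) (nat_lit 17) (nat_lit 5) (nat_lit 18) (nat_lit 5) (nat_lit 19) (nat_lit 4) (nat_lit 321) (nat_lit 270) (nat_lit 129)) (XT.lf (nat_lit 0) (nat_lit 4798029473) (nat_lit 152) (nat_lit 32198798335) (nat_lit 76) (nat_lit 55495901240) (nat_lit 16) (nat_lit 5) (nat_lit 18) (nat_lit 5) (nat_lit 17) (nat_lit 5) (nat_lit 322) (nat_lit 270) (nat_lit 128))) (XT.nd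 (nat_lit 78) (nat_lit 152) (nat_lit 0) (XT.lf (nat_lit 0) (nat_lit 17147997417) (nat_lit 152) (nat_lit 2376308537) (nat_lit 76) (nat_lit 76647654046) (nat_lit 16) (nat_lit 5) (nat_lit 18) (nat_lit 5) (nat_lit 17) (nat_lit 5) (nat_lit 323) (nat_lit 270) (nat_lit 127)) (XT.lf (nat_lit 0) (nat_lit 29891171575) (nat_lit 152) (nat_lit 689281477) (nat_lit 228) (nat_lit 69431452117) (nat_lit 14) (nat_lit 5) (nat_lit 16) (nat_lit 5) (nat_lit 17) (nat_lit 5) (nat_lit 324) (nat_lit 270) (nat_lit 126)))) (XT.nd (nat_lit 156) (nat_lit 76) (nat_lit 0) (XT.nd (nat_lit 78) (nat_lit 0) (nat_lit 0) (XT.lf (nat_lit 0) (nat_lit 45021768196) (nat_lit 228) (nat_lit 40488838469) (nat_lit 76) (nat_lit 18516381130) (nat_lit 14) (nat_lit 5) (nat_lit 17) (nat_lit 5) (nat_lit 15) (nat_lit 4) (nat_lit 325) (nat_lit 270) (nat_lit 125)) (XT.lf (nat_lit 0) (nat_lit 60194852390) (nat_lit 228) (nat_lit 9389371915)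 (nat_lit 76) (nat_lit 38658117018) (nat_lit 14) (nat_lit 5) (nat_lit 17) (nat_lit 5) (nat_lit 15) (nat_lit 4) (nat_lit 326) (nat_lit 270) (nat_lit 124))) (XT.nd (nat_lit 78) (nat_lit 0) (nat_lit 0) (XT.lf (nat_lit 0) (nat_lit 24031636479) (nat_lit 76) (nat_lit 52468635124) (nat_lit 152) (nat_lit 36149508729) (nat_lit 13) (nat_lit 5) (nat_lit 14) (nat_lit 5) (nat_lit 15) (nat_lit 4) (nat_lit 327) (nat_lit 270) (nat_lit 123)) (XT.nd (nat_lit 78) (nat_lit 0) (nat_lit 0) (XT.lf (nat_lit 0) (nat_lit 59447120987) (nat_lit 76) (nat_lit 34331366517) (nat_lit 152) (nat_lit 23491229257) (nat_lit 13) (nat_lit 5) (nat_lit 14) (nat_lit 5) (nat_lit 15) (nat_lit 4) (nat_lit 328) (nat_lit 270) (nat_lit 122)) (XT.lf (nat_lit 0) (nat_lit 96630949151) (nat_lit 76) (nat_lit 15288248068) (nat_lit 152) (nat_lit 10201525314) (nat_lit 13) (nat_lit 5) (nat_lit 14) (nat_lit 5) (nat_lit 15) (nat_lit 4) (nat_lit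 329) (nat_lit 270) (nat_lit 121))))))))
noncomputable def xc198 : XT := (XT.nd (nat_lit 1404) (nat_lit 76) (nat_lit 0) (XT.nd (nat_lit 702) (nat_lit 152) (nat_lit 0) (XT.nd (nat_lit 312) (nat_lit 152) (nat_lit 0) (XT.nd (nat_lit 156) (nat_lit 0) (nat_lit 0) (XT.nd (nat_lit 78) (nat_lit 0) (nat_lit 0) (XT.lf (nat_lit 0) (nat_lit 3843301141) (nat_lit 152) (nat_lit 118604862735) (nat_lit 76) (nat_lit 4752649456) (nat_lit 11) (nat_lit 5) (nat_lit 13) (nat_lit 5) (nat_lit 12) (nat_lit 4) (nat_lit 330) (nat_lit 270) (nat_lit 120)) (XT.lf (nat_lit 0) (nat_lit 18935556831) (nat_lit 152) (nat_lit 87669735332) (nat_lit 76) (nat_lit 25886854743) (nat_lit 11) (nat_lit 5) (nat_lit 13) (nat_lit 5) (nat_lit 12) (nat_lit 4) (nat_lit 331) (nat_lit 270) (nat_lit 119))) (XT.nd (nat_lit 78) (nat_lit 0) (nat_lit 0) (XT.lf (nat_lit 0) (nat_lit 34781130682) (nat_lit 152) (nat_lit 55190115378) (nat_lit 76)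 (nat_lit 48076867207) (nat_lit 11) (nat_lit 5) (nat_lit 13) (nat_lit 5) (nat_lit 12) (nat_lit 4) (nat_lit 332) (nat_lit 270) (nat_lit 118)) (XT.lf (nat_lit 0) (nat_lit 51417750250) (nat_lit 152) (nat_lit 21088670443) (nat_lit 76) (nat_lit 71375520212) (nat_lit 11) (nat_lit 5) (nat_lit 13) (nat_lit 5) (nat_lit 12) (nat_lit 4) (nat_lit 333) (nat_lit 270) (nat_lit 117)))) (XT.nd (nat_lit 156) (nat_lit 76) (nat_lit 0) (XT.nd (nat_lit 78) (nat_lit 0) (nat_lit 0) (XT.lf (nat_lit 0) (nat_lit 15202363975) (nat_lit 76) (nat_lit 53920014066) (nat_lit 152) (nat_lit 80873274270) (nat_lit 10) (nat_lit 5) (nat_lit 11) (nat_lit 5) (nat_lit 12) (nat_lit 4) (nat_lit 334) (nat_lit 270) (nat_lit 116)) (XT.lf (nat_lit 0) (nat_lit 54038080902) (nat_lit 76) (nat_lit 34030153272) (nat_lit 152) (nat_lit 68329016455) (nat_lit 10) (nat_lit 5) (nat_lit 11) (nat_lit 5) (nat_lit 12) (nat_lit 4) (nat_lit 335) (nat_lit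 270) (nat_lit 115))) (XT.nd (nat_lit 78) (nat_lit 76) (nat_lit 0) (XT.lf (nat_lit 0) (nat_lit 94813659645) (nat_lit 76) (nat_lit 13146628339) (nat_lit 152) (nat_lit 55158696767) (nat_lit 10) (nat_lit 5) (nat_lit 11) (nat_lit 5) (nat_lit 12) (nat_lit 4) (nat_lit 336) (nat_lit 270) (nat_lit 114)) (XT.nd (nat_lit 78) (nat_lit 76) (nat_lit 0) (XT.lf (nat_lit 0) (nat_lit 128982986336) (nat_lit 152) (nat_lit 32687758722) (nat_lit 0) (nat_lit 8499259508) (nat_lit 10) (nat_lit 5) (nat_lit 12) (nat_lit 4) (nat_lit 10) (nat_lit 4) (nat_lit 337) (nat_lit 270) (nat_lit 113)) (XT.lf (nat_lit 0) (nat_lit 4641954925) (nat_lit 76) (nat_lit 146701852049) (nat_lit 76) (nat_lit 26215420056) (nat_lit 9) (nat_lit 4) (nat_lit 10) (nat_lit 5) (nat_lit 10) (nat_lit 4) (nat_lit 338) (nat_lit 270) (nat_lit 112)))))) (XT.nd (nat_lit 312) (nat_lit 76) (nat_lit 0) (XT.nd (nat_lit 156) (nat_lit 0) (nat_lit 0) (XT.nd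 (nat_lit 78) (nat_lit 76) (nat_lit 0) (XT.lf (nat_lit 0) (nat_lit 44971244096) (nat_lit 76) (nat_lit 130404022959) (nat_lit 76) (nat_lit 9915014618) (nat_lit 9) (nat_lit 4) (nat_lit 10) (nat_lit 5) (nat_lit 10) (nat_lit 4) (nat_lit 339) (nat_lit 270) (nat_lit 111)) (XT.lf (nat_lit 0) (nat_lit 6968998981) (nat_lit 152) (nat_lit 106205014094) (nat_lit 76) (nat_lit 80228303631) (nat_lit 8) (nat_lit 5) (nat_lit 10) (nat_lit 5) (nat_lit 9) (nat_lit 4) (nat_lit 340) (nat_lit 270) (nat_lit 110))) (XT.nd (nat_lit 78) (nat_lit 0) (nat_lit 0) (XT.lf (nat_lit 0) (nat_lit 24363095194) (nat_lit 152) (nat_lit 70549453681) (nat_lit 76) (nat_lit 106999323827) (nat_lit 8) (nat_lit 5) (nat_lit 10) (nat_lit 5) (nat_lit 9) (nat_lit 4) (nat_lit 341) (nat_lit 270) (nat_lit 109)) (XT.lf (nat_lit 0) (nat_lit 42626030923) (nat_lit 152) (nat_lit 33112660984) (nat_lit 76) (nat_lit 135108258662) (nat_lit 8) (nat_lit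 5) (nat_lit 10) (nat_lit 5) (nat_lit 9) (nat_lit 4) (nat_lit 342) (nat_lit 270) (nat_lit 108)))) (XT.nd (nat_lit 156) (nat_lit 0) (nat_lit 0) (XT.nd (nat_lit 78) (nat_lit 0) (nat_lit 0) (XT.lf (nat_lit 0) (nat_lit 6399317338) (nat_lit 76) (nat_lit 55501883287) (nat_lit 152) (nat_lit 158322628109) (nat_lit 7) (nat_lit 5) (nat_lit 8) (nat_lit 5) (nat_lit 9) (nat_lit 4) (nat_lit 343) (nat_lit 270) (nat_lit 107)) (XT.lf (nat_lit 0) (nat_lit 49035043010) (nat_lit 76) (nat_lit 33665057277) (nat_lit 152) (nat_lit 147341452676) (nat_lit 7) (nat_lit 5) (nat_lit 8) (nat_lit 5) (nat_lit 9) (nat_lit 4) (nat_lit 344) (nat_lit 270) (nat_lit 106))) (XT.nd (nat_lit 78) (nat_lit 0) (nat_lit 0) (XT.lf (nat_lit 0) (nat_lit 93801175552) (nat_lit 76) (nat_lit 10737000371) (nat_lit 152) (nat_lit 135812026628) (nat_lit 7) (nat_lit 5) (nat_lit 8) (nat_lit 5) (nat_lit 9) (nat_lit 4) (nat_lit 345) (nat_lit 270)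 (nat_lit 105)) (XT.nd (nat_lit 78) (nat_lit 0) (nat_lit 0) (XT.lf (nat_lit 0) (nat_lit 127675648993) (nat_lit 152) (nat_lit 110578246949) (nat_lit 0) (nat_lit 12910014655) (nat_lit 7) (nat_lit 5) (nat_lit 9) (nat_lit 4) (nat_lit 7) (nat_lit 4) (nat_lit 346) (nat_lit 270) (nat_lit 104)) (XT.lf (nat_lit 0) (nat_lit 152145305955) (nat_lit 152) (nat_lit 72986222328) (nat_lit 0) (nat_lit 37378010881) (nat_lit 7) (nat_lit 5) (nat_lit 9) (nat_lit 4) (nat_lit 7) (nat_lit 4) (nat_lit 347) (nat_lit 270) (nat_lit 103))))))) (XT.nd (nat_lit 31824) (nat_lit 0) (nat_lit 4864) (XT.nd (nat_lit 312) (nat_lit 0) (nat_lit 0) (XT.nd (nat_lit 156) (nat_lit 0) (nat_lit 0) (XT.nd (nat_lit 78) (nat_lit 76) (nat_lit 0) (XT.lf (nat_lit 0) (nat_lit 177837773233) (nat_lit 152) (nat_lit 33515813649) (nat_lit 0) (nat_lit 63068896504) (nat_lit 7) (nat_lit 5) (nat_lit 9) (nat_lit 4) (nat_lit 7) (nat_lit 4) (nat_lit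 348) (nat_lit 270) (nat_lit 102)) (XT.lf (nat_lit 0) (nat_lit 8189057224) (nat_lit 76) (nat_lit 196753020276) (nat_lit 76) (nat_lit 81982637210) (nat_lit 6) (nat_lit 4) (nat_lit 7) (nat_lit 5) (nat_lit 7) (nat_lit 4) (nat_lit 349) (nat_lit 270) (nat_lit 101))) (XT.nd (nat_lit 78) (nat_lit 0) (nat_lit 0) (XT.lf (nat_lit 0) (nat_lit 53141624496) (nat_lit 76) (nat_lit 180826951194) (nat_lit 76) (nat_lit 66055133520) (nat_lit 6) (nat_lit 4) (nat_lit 7) (nat_lit 5) (nat_lit 7) (nat_lit 4) (nat_lit 350) (nat_lit 270) (nat_lit 100)) (XT.lf (nat_lit 0) (nat_lit 100340733925) (nat_lit 76) (nat_lit 164105066944) (nat_lit 76) (nat_lit 49331882978) (nat_lit 6) (nat_lit 4) (nat_lit 7) (nat_lit 5) (nat_lit 7) (nat_lit 4) (nat_lit 351) (nat_lit 270) (nat_lit 99)))) (XT.nd (nat_lit 31278) (nat_lit 0) (nat_lit 5244) (XT.nd (nat_lit 31200) (nat_lit 0) (nat_lit 5244) (XT.lf (nat_lit 0) (nat_lit 149898764345)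 (nat_lit 76) (nat_lit 146547553518) (nat_lit 76) (nat_lit 31773068321) (nat_lit 6) (nat_lit 4) (nat_lit 7) (nat_lit 5) (nat_lit 7) (nat_lit 4) (nat_lit 352) (nat_lit 270) (nat_lit 98)) (XT.lf (nat_lit 0) (nat_lit 2002448044) (nat_lit 0) (nat_lit 2002448044) (nat_lit 684) (nat_lit 5362656292) (nat_lit 75) (nat_lit 5) (nat_lit 75) (nat_lit 3) (nat_lit 84) (nat_lit 3) (nat_lit 271) (nat_lit 271) (nat_lit 178))) (XT.nd (nat_lit 78) (nat_lit 0) (nat_lit 0) (XT.lf (nat_lit 0) (nat_lit 8449546730) (nat_lit 684) (nat_lit 6672411344) (nat_lit 760) (nat_lit 4069036277) (nat_lit 75) (nat_lit 5) (nat_lit 84) (nat_lit 3) (nat_lit 85) (nat_lit 5) (nat_lit 272) (nat_lit 271) (nat_lit 177)) (XT.nd (nat_lit 78) (nat_lit 0) (nat_lit 76) (XT.lf (nat_lit 76) (nat_lit 1773131628) (nat_lit 0) (nat_lit 7220451358) (nat_lit 760) (nat_lit 10672013544) (nat_lit 76) (nat_lit 5) (nat_lit 75) (nat_lit 5) (nat_lit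 85) (nat_lit 5) (nat_lit 273) (nat_lit 271) (nat_lit 176)) (XT.lf (nat_lit 0) (nat_lit 9685931688) (nat_lit 684) (nat_lit 9311102436) (nat_lit 760) (nat_lit 1160870411) (nat_lit 76) (nat_lit 5) (nat_lit 85) (nat_lit 5) (nat_lit 86) (nat_lit 5) (nat_lit 274) (nat_lit 271) (nat_lit 175)))))) (XT.nd (nat_lit 312) (nat_lit 456) (nat_lit 0) (XT.nd (nat_lit 156) (nat_lit 0) (nat_lit 76) (XT.nd (nat_lit 78) (nat_lit 0) (nat_lit 0) (XT.lf (nat_lit 0) (nat_lit 10521224196) (nat_lit 684) (nat_lit 425489961) (nat_lit 760) (nat_lit 9722727222) (nat_lit 76) (nat_lit 5) (nat_lit 85) (nat_lit 5) (nat_lit 86) (nat_lit 5) (nat_lit 275) (nat_lit 271) (nat_lit 174)) (XT.lf (nat_lit 76) (nat_lit 9192476889) (nat_lit 0) (nat_lit 2339761258) (nat_lit 760) (nat_lit 9667647418) (nat_lit 77) (nat_lit 5) (nat_lit 76) (nat_lit 5) (nat_lit 86) (nat_lit 5) (nat_lit 276) (nat_lit 271) (nat_lit 173))) (XT.nd (nat_lit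 78) (nat_lit 0) (nat_lit 0) (XT.lf (nat_lit 0) (nat_lit 12696541014) (nat_lit 684) (nat_lit 2561643287) (nat_lit 760) (nat_lit 6493557741) (nat_lit 77) (nat_lit 5) (nat_lit 86) (nat_lit 5) (nat_lit 87) (nat_lit 5) (nat_lit 277) (nat_lit 271) (nat_lit 172)) (XT.lf (nat_lit 76) (nat_lit 7553547398) (nat_lit 0) (nat_lit 6513083127) (nat_lit 760) (nat_lit 8257207951) (nat_lit 78) (nat_lit 5) (nat_lit 77) (nat_lit 5) (nat_lit 87) (nat_lit 5) (nat_lit 278) (nat_lit 271) (nat_lit 171)))) (XT.nd (nat_lit 156) (nat_lit 608) (nat_lit 0) (XT.nd (nat_lit 78) (nat_lit 0) (nat_lit 0) (XT.lf (nat_lit 0) (nat_lit 15582629621) (nat_lit 684) (nat_lit 4707969638) (nat_lit 760) (nat_lit 2630094699) (nat_lit 78) (nat_lit 5) (nat_lit 87) (nat_lit 5) (nat_lit 88) (nat_lit 5) (nat_lit 279) (nat_lit 271) (nat_lit 170)) (XT.lf (nat_lit 76) (nat_lit 5934302078) (nat_lit 0) (nat_lit 11431584215) (nat_lit 760)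 (nat_lit 6171956356) (nat_lit 79) (nat_lit 5) (nat_lit 78) (nat_lit 5) (nat_lit 88) (nat_lit 5) (nat_lit 280) (nat_lit 271) (nat_lit 169))) (XT.nd (nat_lit 78) (nat_lit 608) (nat_lit 0) (XT.lf (nat_lit 76) (nat_lit 17265910862) (nat_lit 0) (nat_lit 2044443450) (nat_lit 760) (nat_lit 4871914245) (nat_lit 79) (nat_lit 5) (nat_lit 78) (nat_lit 5) (nat_lit 88) (nat_lit 5) (nat_lit 281) (nat_lit 271) (nat_lit 168)) (XT.nd (nat_lit 78) (nat_lit 0) (nat_lit 0) (XT.lf (nat_lit 0) (nat_lit 4314983929) (nat_lit 684) (nat_lit 17219103151) (nat_lit 760) (nat_lit 3315747762) (nat_lit 70) (nat_lit 5) (nat_lit 79) (nat_lit 5) (nat_lit 80) (nat_lit 5) (nat_lit 282) (nat_lit 271) (nat_lit 167)) (XT.lf (nat_lit 0) (nat_lit 16307152790) (nat_lit 684) (nat_lit 7704914795) (nat_lit 760) (nat_lit 1531578942) (nat_lit 70) (nat_lit 5) (nat_lit 79) (nat_lit 5) (nat_lit 80) (nat_lit 5) (nat_lit 283) (nat_lit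 271) (nat_lit 166))))))))
noncomputable def xc199 : XT := (XT.nd (nat_lit 1404) (nat_lit 1444) (nat_lit 0) (XT.nd (nat_lit 702) (nat_lit 1064) (nat_lit 0) (XT.nd (nat_lit 312) (nat_lit 608) (nat_lit 0) (XT.nd (nat_lit 156) (nat_lit 380) (nat_lit 0) (XT.nd (nat_lit 78) (nat_lit 0) (nat_lit 0) (XT.lf (nat_lit 0) (nat_lit 402665736) (nat_lit 456) (nat_lit 23604864030) (nat_lit 76) (nat_lit 2260780123) (nat_lit 64) (nat_lit 5) (nat_lit 70) (nat_lit 5) (nat_lit 65) (nat_lit 5) (nat_lit 284) (nat_lit 271) (nat_lit 165)) (XT.lf (nat_lit 0) (nat_lit 2660850577) (nat_lit 456) (nat_lit 11702754997) (nat_lit 76) (nat_lit 12650427902) (nat_lit 64) (nat_lit 5) (nat_lit 70) (nat_lit 5) (nat_lit 65) (nat_lit 5) (nat_lit 285) (nat_lit 271) (nat_lit 164))) (XT.nd (nat_lit 78) (nat_lit 0) (nat_lit 0) (XT.lf (nat_lit 0) (nat_lit 814391600) (nat_lit 380) (nat_lit 4223982392) (nat_lit 456) (nat_lit 22758364354)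 (nat_lit 59) (nat_lit 5) (nat_lit 64) (nat_lit 5) (nat_lit 65) (nat_lit 5) (nat_lit 286) (nat_lit 271) (nat_lit 163)) (XT.lf (nat_lit 0) (nat_lit 7830409784) (nat_lit 456) (nat_lit 14354859388) (nat_lit 76) (nat_lit 6418543259) (nat_lit 59) (nat_lit 5) (nat_lit 65) (nat_lit 5) (nat_lit 60) (nat_lit 5) (nat_lit 287) (nat_lit 271) (nat_lit 162)))) (XT.nd (nat_lit 156) (nat_lit 304) (nat_lit 0) (XT.nd (nat_lit 78) (nat_lit 304) (nat_lit 0) (XT.lf (nat_lit 0) (nat_lit 10825502703) (nat_lit 456) (nat_lit 1171295751) (nat_lit 76) (nat_lit 17451284028) (nat_lit 59) (nat_lit 5) (nat_lit 65) (nat_lit 5) (nat_lit 60) (nat_lit 5) (nat_lit 288) (nat_lit 271) (nat_lit 161)) (XT.lf (nat_lit 0) (nat_lit 13084466443) (nat_lit 304) (nat_lit 1084654470) (nat_lit 380) (nat_lit 16155520908) (nat_lit 55) (nat_lit 5) (nat_lit 59) (nat_lit 5) (nat_lit 60) (nat_lit 5) (nat_lit 289) (nat_lit 271) (nat_lit 160)))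 (XT.nd (nat_lit 78) (nat_lit 304) (nat_lit 0) (XT.lf (nat_lit 0) (nat_lit 17856689133) (nat_lit 380) (nat_lit 3318580893) (nat_lit 76) (nat_lit 10060934276) (nat_lit 55) (nat_lit 5) (nat_lit 60) (nat_lit 5) (nat_lit 56) (nat_lit 5) (nat_lit 290) (nat_lit 271) (nat_lit 159)) (XT.nd (nat_lit 78) (nat_lit 0) (nat_lit 0) (XT.lf (nat_lit 0) (nat_lit 11648472351) (nat_lit 304) (nat_lit 10274718828) (nat_lit 380) (nat_lit 10260438942) (nat_lit 51) (nat_lit 5) (nat_lit 55) (nat_lit 5) (nat_lit 56) (nat_lit 5) (nat_lit 291) (nat_lit 271) (nat_lit 158)) (XT.lf (nat_lit 0) (nat_lit 26263476240) (nat_lit 380) (nat_lit 5721548461) (nat_lit 76) (nat_lit 1189892001) (nat_lit 51) (nat_lit 5) (nat_lit 56) (nat_lit 5) (nat_lit 52) (nat_lit 5) (nat_lit 292) (nat_lit 271) (nat_lit 157)))))) (XT.nd (nat_lit 312) (nat_lit 456) (nat_lit 0) (XT.nd (nat_lit 156) (nat_lit 304) (nat_lit 0) (XT.nd (nat_lit 78)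 (nat_lit 76) (nat_lit 0) (XT.lf (nat_lit 0) (nat_lit 9978121242) (nat_lit 228) (nat_lit 21162168658) (nat_lit 304) (nat_lit 3059513769) (nat_lit 48) (nat_lit 5) (nat_lit 51) (nat_lit 5) (nat_lit 52) (nat_lit 5) (nat_lit 293) (nat_lit 271) (nat_lit 156)) (XT.lf (nat_lit 0) (nat_lit 1047311712) (nat_lit 304) (nat_lit 8632263172) (nat_lit 76) (nat_lit 25590910401) (nat_lit 47) (nat_lit 5) (nat_lit 51) (nat_lit 5) (nat_lit 48) (nat_lit 5) (nat_lit 294) (nat_lit 271) (nat_lit 155))) (XT.nd (nat_lit 78) (nat_lit 0) (nat_lit 0) (XT.lf (nat_lit 0) (nat_lit 5416065578) (nat_lit 380) (nat_lit 28491091806) (nat_lit 76) (nat_lit 2477075629) (nat_lit 43) (nat_lit 5) (nat_lit 48) (nat_lit 5) (nat_lit 44) (nat_lit 5) (nat_lit 295) (nat_lit 271) (nat_lit 154)) (XT.lf (nat_lit 0) (nat_lit 10306205813) (nat_lit 380) (nat_lit 12168403777) (nat_lit 76) (nat_lit 15063920793) (nat_lit 43) (nat_lit 5) (nat_lit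 48) (nat_lit 5) (nat_lit 44) (nat_lit 5) (nat_lit 296) (nat_lit 271) (nat_lit 153)))) (XT.nd (nat_lit 156) (nat_lit 228) (nat_lit 0) (XT.nd (nat_lit 78) (nat_lit 0) (nat_lit 0) (XT.lf (nat_lit 0) (nat_lit 5129375876) (nat_lit 228) (nat_lit 10387445861) (nat_lit 304) (nat_lit 23229931679) (nat_lit 40) (nat_lit 5) (nat_lit 43) (nat_lit 5) (nat_lit 44) (nat_lit 5) (nat_lit 297) (nat_lit 271) (nat_lit 152)) (XT.lf (nat_lit 0) (nat_lit 21229380616) (nat_lit 304) (nat_lit 16335252925) (nat_lit 76) (nat_lit 2438692239) (nat_lit 40) (nat_lit 5) (nat_lit 44) (nat_lit 5) (nat_lit 41) (nat_lit 5) (nat_lit 298) (nat_lit 271) (nat_lit 151))) (XT.nd (nat_lit 78) (nat_lit 0) (nat_lit 0) (XT.lf (nat_lit 0) (nat_lit 1689704622) (nat_lit 228) (nat_lit 25730704068) (nat_lit 304) (nat_lit 13892684378) (nat_lit 37) (nat_lit 5) (nat_lit 40) (nat_lit 5) (nat_lit 41) (nat_lit 5) (nat_lit 299) (nat_lit 271)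 (nat_lit 150)) (XT.nd (nat_lit 78) (nat_lit 0) (nat_lit 0) (XT.lf (nat_lit 0) (nat_lit 21178046490) (nat_lit 228) (nat_lit 13015865646) (nat_lit 304) (nat_lit 8480798358) (nat_lit 37) (nat_lit 5) (nat_lit 40) (nat_lit 5) (nat_lit 41) (nat_lit 5) (nat_lit 300) (nat_lit 271) (nat_lit 149)) (XT.lf (nat_lit 0) (nat_lit 41307753542) (nat_lit 304) (nat_lit 2473744358) (nat_lit 76) (nat_lit 322835343) (nat_lit 37) (nat_lit 5) (nat_lit 41) (nat_lit 5) (nat_lit 38) (nat_lit 5) (nat_lit 301) (nat_lit 271) (nat_lit 148))))))) (XT.nd (nat_lit 702) (nat_lit 608) (nat_lit 0) (XT.nd (nat_lit 312) (nat_lit 380) (nat_lit 0) (XT.nd (nat_lit 156) (nat_lit 228) (nat_lit 0) (XT.nd (nat_lit 78) (nat_lit 0) (nat_lit 0) (XT.lf (nat_lit 0) (nat_lit 3567063496) (nat_lit 228) (nat_lit 27784846223) (nat_lit 76) (nat_lit 14226221593) (nat_lit 34) (nat_lit 5) (nat_lit 37) (nat_lit 5) (nat_lit 35) (nat_lit 5) (nat_lit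 302) (nat_lit 271) (nat_lit 147)) (XT.lf (nat_lit 0) (nat_lit 10194121764) (nat_lit 228) (nat_lit 8015231538) (nat_lit 76) (nat_lit 28912019444) (nat_lit 34) (nat_lit 5) (nat_lit 37) (nat_lit 5) (nat_lit 35) (nat_lit 5) (nat_lit 303) (nat_lit 271) (nat_lit 146))) (XT.nd (nat_lit 78) (nat_lit 0) (nat_lit 0) (XT.lf (nat_lit 0) (nat_lit 13159553265) (nat_lit 228) (nat_lit 4195232883) (nat_lit 304) (nat_lit 31376883689) (nat_lit 31) (nat_lit 5) (nat_lit 34) (nat_lit 5) (nat_lit 35) (nat_lit 5) (nat_lit 304) (nat_lit 271) (nat_lit 145)) (XT.lf (nat_lit 0) (nat_lit 25172549992) (nat_lit 304) (nat_lit 14915379816) (nat_lit 76) (nat_lit 10319604611) (nat_lit 31) (nat_lit 5) (nat_lit 35) (nat_lit 5) (nat_lit 32) (nat_lit 5) (nat_lit 305) (nat_lit 271) (nat_lit 144)))) (XT.nd (nat_lit 156) (nat_lit 228) (nat_lit 0) (XT.nd (nat_lit 78) (nat_lit 0) (nat_lit 0) (XT.lf (nat_lit 0) (nat_lit 6922637030)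 (nat_lit 152) (nat_lit 26632429456) (nat_lit 228) (nat_lit 18603438185) (nat_lit 29) (nat_lit 5) (nat_lit 31) (nat_lit 5) (nat_lit 32) (nat_lit 5) (nat_lit 306) (nat_lit 271) (nat_lit 143)) (XT.lf (nat_lit 0) (nat_lit 30366103132) (nat_lit 152) (nat_lit 12240288869) (nat_lit 228) (nat_lit 11378152670) (nat_lit 29) (nat_lit 5) (nat_lit 31) (nat_lit 5) (nat_lit 32) (nat_lit 5) (nat_lit 307) (nat_lit 271) (nat_lit 142))) (XT.nd (nat_lit 78) (nat_lit 228) (nat_lit 0) (XT.lf (nat_lit 0) (nat_lit 52152317908) (nat_lit 228) (nat_lit 969175455) (nat_lit 76) (nat_lit 2778296742) (nat_lit 29) (nat_lit 5) (nat_lit 32) (nat_lit 5) (nat_lit 30) (nat_lit 5) (nat_lit 308) (nat_lit 271) (nat_lit 141)) (XT.nd (nat_lit 78) (nat_lit 0) (nat_lit 0) (XT.lf (nat_lit 0) (nat_lit 4700102503) (nat_lit 228) (nat_lit 34603066110) (nat_lit 76) (nat_lit 18575711698) (nat_lit 26) (nat_lit 5) (nat_lit 29) (nat_lit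 5) (nat_lit 27) (nat_lit 5) (nat_lit 309) (nat_lit 271) (nat_lit 140)) (XT.lf (nat_lit 0) (nat_lit 13458152945) (nat_lit 228) (nat_lit 11255133696) (nat_lit 76) (nat_lit 35239869293) (nat_lit 26) (nat_lit 5) (nat_lit 29) (nat_lit 5) (nat_lit 27) (nat_lit 5) (nat_lit 310) (nat_lit 271) (nat_lit 139)))))) (XT.nd (nat_lit 390) (nat_lit 304) (nat_lit 0) (XT.nd (nat_lit 156) (nat_lit 152) (nat_lit 0) (XT.nd (nat_lit 78) (nat_lit 0) (nat_lit 0) (XT.lf (nat_lit 0) (nat_lit 13694675011) (nat_lit 152) (nat_lit 9170723267) (nat_lit 228) (nat_lit 39255186671) (nat_lit 24) (nat_lit 5) (nat_lit 26) (nat_lit 5) (nat_lit 27) (nat_lit 5) (nat_lit 311) (nat_lit 271) (nat_lit 138)) (XT.lf (nat_lit 0) (nat_lit 33045877879) (nat_lit 228) (nat_lit 24222748105) (nat_lit 76) (nat_lit 7112619855) (nat_lit 24) (nat_lit 5) (nat_lit 27) (nat_lit 5) (nat_lit 25) (nat_lit 5) (nat_lit 312) (nat_lit 271) (nat_lit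 137))) (XT.nd (nat_lit 78) (nat_lit 0) (nat_lit 0) (XT.lf (nat_lit 0) (nat_lit 1070809418) (nat_lit 152) (nat_lit 42829268830) (nat_lit 228) (nat_lit 22846630522) (nat_lit 22) (nat_lit 5) (nat_lit 24) (nat_lit 5) (nat_lit 25) (nat_lit 5) (nat_lit 313) (nat_lit 271) (nat_lit 136)) (XT.nd (nat_lit 78) (nat_lit 0) (nat_lit 0) (XT.lf (nat_lit 0) (nat_lit 28466368272) (nat_lit 152) (nat_lit 27238538728) (nat_lit 228) (nat_lit 13505145578) (nat_lit 22) (nat_lit 5) (nat_lit 24) (nat_lit 5) (nat_lit 25) (nat_lit 5) (nat_lit 314) (nat_lit 271) (nat_lit 135)) (XT.lf (nat_lit 0) (nat_lit 57228242533) (nat_lit 152) (nat_lit 10869538854) (nat_lit 228) (nat_lit 3698895459) (nat_lit 22) (nat_lit 5) (nat_lit 24) (nat_lit 5) (nat_lit 25) (nat_lit 5) (nat_lit 315) (nat_lit 271) (nat_lit 134))))) (XT.nd (nat_lit 156) (nat_lit 152) (nat_lit 0) (XT.nd (nat_lit 78) (nat_lit 0) (nat_lit 0) (XT.lf (nat_lit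 0) (nat_lit 6694668304) (nat_lit 152) (nat_lit 61368229083) (nat_lit 76) (nat_lit 6429179308) (nat_lit 20) (nat_lit 5) (nat_lit 22) (nat_lit 5) (nat_lit 21) (nat_lit 5) (nat_lit 316) (nat_lit 271) (nat_lit 133)) (XT.lf (nat_lit 0) (nat_lit 17910461936) (nat_lit 152) (nat_lit 34849659479) (nat_lit 76) (nat_lit 24537753301) (nat_lit 20) (nat_lit 5) (nat_lit 22) (nat_lit 5) (nat_lit 21) (nat_lit 5) (nat_lit 317) (nat_lit 271) (nat_lit 132))) (XT.nd (nat_lit 78) (nat_lit 152) (nat_lit 0) (XT.lf (nat_lit 0) (nat_lit 29685046706) (nat_lit 152) (nat_lit 7008403735) (nat_lit 76) (nat_lit 43550614985) (nat_lit 20) (nat_lit 5) (nat_lit 22) (nat_lit 5) (nat_lit 21) (nat_lit 5) (nat_lit 318) (nat_lit 271) (nat_lit 131)) (XT.nd (nat_lit 78) (nat_lit 0) (nat_lit 0) (XT.lf (nat_lit 0) (nat_lit 22956580804) (nat_lit 152) (nat_lit 19448293096) (nat_lit 228) (nat_lit 40914868837) (nat_lit 18) (nat_lit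 5) (nat_lit 20) (nat_lit 5) (nat_lit 21) (nat_lit 5) (nat_lit 319) (nat_lit 271) (nat_lit 130)) (XT.lf (nat_lit 0) (nat_lit 54660092386) (nat_lit 152) (nat_lit 1217430606) (nat_lit 228) (nat_lit 30665841991) (nat_lit 18) (nat_lit 5) (nat_lit 20) (nat_lit 5) (nat_lit 21) (nat_lit 5) (nat_lit 320) (nat_lit 271) (nat_lit 129))))))))
noncomputable def xc200 : XT := (XT.nd (nat_lit 1404) (nat_lit 304) (nat_lit 0) (XT.nd (nat_lit 702) (nat_lit 228) (nat_lit 0) (XT.nd (nat_lit 312) (nat_lit 228) (nat_lit 0) (XT.nd (nat_lit 156) (nat_lit 76) (nat_lit 0) (XT.nd (nat_lit 78) (nat_lit 76) (nat_lit 0) (XT.lf (nat_lit 0) (nat_lit 70301874525) (nat_lit 228) (nat_lit 2262214888) (nat_lit 76) (nat_lit 17350177900) (nat_lit 18) (nat_lit 5) (nat_lit 21) (nat_lit 5) (nat_lit 19) (nat_lit 4) (nat_lit 321) (nat_lit 271) (nat_lit 128)) (XT.lf (nat_lit 0) (nat_lit 29769935981) (nat_lit 76) (nat_lit 56160553750)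 (nat_lit 152) (nat_lit 7499075076) (nat_lit 17) (nat_lit 5) (nat_lit 18) (nat_lit 5) (nat_lit 19) (nat_lit 4) (nat_lit 322) (nat_lit 271) (nat_lit 127))) (XT.nd (nat_lit 78) (nat_lit 0) (nat_lit 0) (XT.lf (nat_lit 0) (nat_lit 5090082949) (nat_lit 152) (nat_lit 33721442006) (nat_lit 76) (nat_lit 58303167282) (nat_lit 16) (nat_lit 5) (nat_lit 18) (nat_lit 5) (nat_lit 17) (nat_lit 5) (nat_lit 323) (nat_lit 271) (nat_lit 126)) (XT.lf (nat_lit 0) (nat_lit 18055065861) (nat_lit 152) (nat_lit 2411984683) (nat_lit 76) (nat_lit 80510961491) (nat_lit 16) (nat_lit 5) (nat_lit 18) (nat_lit 5) (nat_lit 17) (nat_lit 5) (nat_lit 324) (nat_lit 271) (nat_lit 125)))) (XT.nd (nat_lit 156) (nat_lit 76) (nat_lit 0) (XT.nd (nat_lit 78) (nat_lit 0) (nat_lit 0) (XT.lf (nat_lit 0) (nat_lit 31467528479) (nat_lit 152) (nat_lit 690527730) (nat_lit 228) (nat_lit 72851955635) (nat_lit 14) (nat_lit 5) (nat_lit 16)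 (nat_lit 5) (nat_lit 17) (nat_lit 5) (nat_lit 325) (nat_lit 271) (nat_lit 124)) (XT.lf (nat_lit 0) (nat_lit 47319617680) (nat_lit 228) (nat_lit 42433501073) (nat_lit 76) (nat_lit 19472823656) (nat_lit 14) (nat_lit 5) (nat_lit 17) (nat_lit 5) (nat_lit 15) (nat_lit 4) (nat_lit 326) (nat_lit 271) (nat_lit 123))) (XT.nd (nat_lit 78) (nat_lit 76) (nat_lit 0) (XT.lf (nat_lit 0) (nat_lit 63249129365) (nat_lit 228) (nat_lit 9782860206) (nat_lit 76) (nat_lit 40620188078) (nat_lit 14) (nat_lit 5) (nat_lit 17) (nat_lit 5) (nat_lit 15) (nat_lit 4) (nat_lit 327) (nat_lit 271) (nat_lit 122)) (XT.nd (nat_lit 78) (nat_lit 0) (nat_lit 0) (XT.lf (nat_lit 0) (nat_lit 25307973118) (nat_lit 76) (nat_lit 55060892869) (nat_lit 152) (nat_lit 37911172871) (nat_lit 13) (nat_lit 5) (nat_lit 14) (nat_lit 5) (nat_lit 15) (nat_lit 4) (nat_lit 328) (nat_lit 271) (nat_lit 121)) (XT.lf (nat_lit 0) (nat_lit 62490672098)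 (nat_lit 76) (nat_lit 36018245309) (nat_lit 152) (nat_lit 24622160916) (nat_lit 13) (nat_lit 5) (nat_lit 14) (nat_lit 5) (nat_lit 15) (nat_lit 4) (nat_lit 329) (nat_lit 271) (nat_lit 120)))))) (XT.nd (nat_lit 312) (nat_lit 76) (nat_lit 0) (XT.nd (nat_lit 156) (nat_lit 0) (nat_lit 0) (XT.nd (nat_lit 78) (nat_lit 152) (nat_lit 0) (XT.lf (nat_lit 0) (nat_lit 101530301430) (nat_lit 76) (nat_lit 16024384724) (nat_lit 152) (nat_lit 10670049386) (nat_lit 13) (nat_lit 5) (nat_lit 14) (nat_lit 5) (nat_lit 15) (nat_lit 4) (nat_lit 330) (nat_lit 271) (nat_lit 119)) (XT.lf (nat_lit 0) (nat_lit 4075283768) (nat_lit 152) (nat_lit 124465479655) (nat_lit 76) (nat_lit 5018057370) (nat_lit 11) (nat_lit 5) (nat_lit 13) (nat_lit 5) (nat_lit 12) (nat_lit 4) (nat_lit 331) (nat_lit 271) (nat_lit 118))) (XT.nd (nat_lit 78) (nat_lit 0) (nat_lit 0) (XT.lf (nat_lit 0) (nat_lit 19920256167) (nat_lit 152) (nat_lit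 91986911416) (nat_lit 76) (nat_lit 27207650281) (nat_lit 11) (nat_lit 5) (nat_lit 13) (nat_lit 5) (nat_lit 12) (nat_lit 4) (nat_lit 332) (nat_lit 271) (nat_lit 117)) (XT.lf (nat_lit 0) (nat_lit 36556302925) (nat_lit 152) (nat_lit 57886468116) (nat_lit 76) (nat_lit 50505903711) (nat_lit 11) (nat_lit 5) (nat_lit 13) (nat_lit 5) (nat_lit 12) (nat_lit 4) (nat_lit 333) (nat_lit 271) (nat_lit 116)))) (XT.nd (nat_lit 156) (nat_lit 0) (nat_lit 0) (XT.nd (nat_lit 78) (nat_lit 76) (nat_lit 0) (XT.lf (nat_lit 0) (nat_lit 54023033676) (nat_lit 152) (nat_lit 22082958222) (nat_lit 76) (nat_lit 74968289693) (nat_lit 11) (nat_lit 5) (nat_lit 13) (nat_lit 5) (nat_lit 12) (nat_lit 4) (nat_lit 334) (nat_lit 271) (nat_lit 115)) (XT.lf (nat_lit 0) (nat_lit 16021657825) (nat_lit 76) (nat_lit 56590521029) (nat_lit 152) (nat_lit 84881537155) (nat_lit 10) (nat_lit 5) (nat_lit 11) (nat_lit 5) (nat_lit 12) (nat_lit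 4) (nat_lit 335) (nat_lit 271) (nat_lit 114))) (XT.nd (nat_lit 78) (nat_lit 0) (nat_lit 0) (XT.lf (nat_lit 0) (nat_lit 56796342710) (nat_lit 76) (nat_lit 35707381183) (nat_lit 152) (nat_lit 71711752202) (nat_lit 10) (nat_lit 5) (nat_lit 11) (nat_lit 5) (nat_lit 12) (nat_lit 4) (nat_lit 336) (nat_lit 271) (nat_lit 113)) (XT.nd (nat_lit 78) (nat_lit 0) (nat_lit 0) (XT.lf (nat_lit 0) (nat_lit 99608016688) (nat_lit 76) (nat_lit 13780836182) (nat_lit 152) (nat_lit 57884522010) (nat_lit 10) (nat_lit 5) (nat_lit 11) (nat_lit 5) (nat_lit 12) (nat_lit 4) (nat_lit 337) (nat_lit 271) (nat_lit 112)) (XT.lf (nat_lit 0) (nat_lit 135461575186) (nat_lit 152) (nat_lit 34269887471) (nat_lit 0) (nat_lit 8945540079) (nat_lit 10) (nat_lit 5) (nat_lit 12) (nat_lit 4) (nat_lit 10) (nat_lit 4) (nat_lit 338) (nat_lit 271) (nat_lit 111))))))) (XT.nd (nat_lit 702) (nat_lit 76) (nat_lit 0) (XT.nd (nat_lit 312)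 (nat_lit 76) (nat_lit 0) (XT.nd (nat_lit 156) (nat_lit 76) (nat_lit 0) (XT.nd (nat_lit 78) (nat_lit 0) (nat_lit 0) (XT.lf (nat_lit 0) (nat_lit 4925468967) (nat_lit 76) (nat_lit 154014368758) (nat_lit 76) (nat_lit 27495879986) (nat_lit 9) (nat_lit 4) (nat_lit 10) (nat_lit 5) (nat_lit 10) (nat_lit 4) (nat_lit 339) (nat_lit 271) (nat_lit 110)) (XT.lf (nat_lit 0) (nat_lit 47268774202) (nat_lit 76) (nat_lit 136902723257) (nat_lit 76) (nat_lit 10381897661) (nat_lit 9) (nat_lit 4) (nat_lit 10) (nat_lit 5) (nat_lit 10) (nat_lit 4) (nat_lit 340) (nat_lit 271) (nat_lit 109))) (XT.nd (nat_lit 78) (nat_lit 0) (nat_lit 0) (XT.lf (nat_lit 0) (nat_lit 7344062017) (nat_lit 152) (nat_lit 111467724005) (nat_lit 76) (nat_lit 84259291117) (nat_lit 8) (nat_lit 5) (nat_lit 10) (nat_lit 5) (nat_lit 9) (nat_lit 4) (nat_lit 341) (nat_lit 271) (nat_lit 108)) (XT.lf (nat_lit 0) (nat_lit 25606595751) (nat_lit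 152) (nat_lit 74031649419) (nat_lit 76) (nat_lit 112367930308) (nat_lit 8) (nat_lit 5) (nat_lit 10) (nat_lit 5) (nat_lit 9) (nat_lit 4) (nat_lit 342) (nat_lit 271) (nat_lit 107)))) (XT.nd (nat_lit 156) (nat_lit 0) (nat_lit 0) (XT.nd (nat_lit 78) (nat_lit 76) (nat_lit 0) (XT.lf (nat_lit 0) (nat_lit 44781471323) (nat_lit 152) (nat_lit 34725173132) (nat_lit 76) (nat_lit 141881424251) (nat_lit 8) (nat_lit 5) (nat_lit 10) (nat_lit 5) (nat_lit 9) (nat_lit 4) (nat_lit 343) (nat_lit 271) (nat_lit 106)) (XT.lf (nat_lit 0) (nat_lit 6761708607) (nat_lit 76) (nat_lit 58258203814) (nat_lit 152) (nat_lit 166213903783) (nat_lit 7) (nat_lit 5) (nat_lit 8) (nat_lit 5) (nat_lit 9) (nat_lit 4) (nat_lit 344) (nat_lit 271) (nat_lit 105))) (XT.nd (nat_lit 78) (nat_lit 0) (nat_lit 0) (XT.lf (nat_lit 0) (nat_lit 51527200306) (nat_lit 76) (nat_lit 35330430486) (nat_lit 152) (nat_lit 154684853185) (nat_lit 7)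 (nat_lit 5) (nat_lit 8) (nat_lit 5) (nat_lit 9) (nat_lit 4) (nat_lit 345) (nat_lit 271) (nat_lit 104)) (XT.nd (nat_lit 78) (nat_lit 0) (nat_lit 0) (XT.lf (nat_lit 0) (nat_lit 98529715421) (nat_lit 76) (nat_lit 11256822147) (nat_lit 152) (nat_lit 142580083079) (nat_lit 7) (nat_lit 5) (nat_lit 8) (nat_lit 5) (nat_lit 9) (nat_lit 4) (nat_lit 346) (nat_lit 271) (nat_lit 103)) (XT.lf (nat_lit 0) (nat_lit 134080115924) (nat_lit 152) (nat_lit 116069723806) (nat_lit 0) (nat_lit 13571213705) (nat_lit 7) (nat_lit 5) (nat_lit 9) (nat_lit 4) (nat_lit 7) (nat_lit 4) (nat_lit 347) (nat_lit 271) (nat_lit 102)))))) (XT.nd (nat_lit 312) (nat_lit 0) (nat_lit 0) (XT.nd (nat_lit 156) (nat_lit 76) (nat_lit 0) (XT.nd (nat_lit 78) (nat_lit 0) (nat_lit 0) (XT.lf (nat_lit 0) (nat_lit 159772270760) (nat_lit 152) (nat_lit 76599880596) (nat_lit 0) (nat_lit 39261862203) (nat_lit 7) (nat_lit 5) (nat_lit 9) (nat_lit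 4) (nat_lit 7) (nat_lit 4) (nat_lit 348) (nat_lit 271) (nat_lit 101)) (XT.lf (nat_lit 0) (nat_lit 186748423330) (nat_lit 152) (nat_lit 35157649238) (nat_lit 0) (nat_lit 66236580166) (nat_lit 7) (nat_lit 5) (nat_lit 9) (nat_lit 4) (nat_lit 7) (nat_lit 4) (nat_lit 349) (nat_lit 271) (nat_lit 100))) (XT.nd (nat_lit 78) (nat_lit 0) (nat_lit 0) (XT.lf (nat_lit 0) (nat_lit 8631917516) (nat_lit 76) (nat_lit 206575653476) (nat_lit 76) (nat_lit 86062444019) (nat_lit 6) (nat_lit 4) (nat_lit 7) (nat_lit 5) (nat_lit 7) (nat_lit 4) (nat_lit 350) (nat_lit 271) (nat_lit 99)) (XT.lf (nat_lit 0) (nat_lit 55830522321) (nat_lit 76) (nat_lit 189853996074) (nat_lit 76) (nat_lit 69339485386) (nat_lit 6) (nat_lit 4) (nat_lit 7) (nat_lit 5) (nat_lit 7) (nat_lit 4) (nat_lit 351) (nat_lit 271) (nat_lit 98)))) (XT.nd (nat_lit 31356) (nat_lit 0) (nat_lit 5244) (XT.nd (nat_lit 31278) (nat_lit 0) (nat_lit 5244)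 (XT.lf (nat_lit 0) (nat_lit 105388072146) (nat_lit 76) (nat_lit 172296698692) (nat_lit 76) (nat_lit 51780948737) (nat_lit 6) (nat_lit 4) (nat_lit 7) (nat_lit 5) (nat_lit 7) (nat_lit 4) (nat_lit 352) (nat_lit 271) (nat_lit 97)) (XT.lf (nat_lit 0) (nat_lit 2188153133) (nat_lit 0) (nat_lit 2188153133) (nat_lit 684) (nat_lit 5450560924) (nat_lit 75) (nat_lit 5) (nat_lit 75) (nat_lit 3) (nat_lit 84) (nat_lit 3) (nat_lit 272) (nat_lit 272) (nat_lit 176))) (XT.nd (nat_lit 78) (nat_lit 0) (nat_lit 0) (XT.lf (nat_lit 0) (nat_lit 9195508235) (nat_lit 684) (nat_lit 6823209662) (nat_lit 760) (nat_lit 4114690936) (nat_lit 75) (nat_lit 5) (nat_lit 84) (nat_lit 3) (nat_lit 85) (nat_lit 5) (nat_lit 273) (nat_lit 272) (nat_lit 175)) (XT.nd (nat_lit 78) (nat_lit 0) (nat_lit 76) (XT.lf (nat_lit 76) (nat_lit 2041661713) (nat_lit 0) (nat_lit 7712488912) (nat_lit 760) (nat_lit 10878266042) (nat_lit 76) (nat_lit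 5) (nat_lit 75) (nat_lit 5) (nat_lit 85) (nat_lit 5) (nat_lit 274) (nat_lit 272) (nat_lit 174)) (XT.lf (nat_lit 0) (nat_lit 10464364442) (nat_lit 684) (nat_lit 9587725459) (nat_lit 760) (nat_lit 1098131371) (nat_lit 76) (nat_lit 5) (nat_lit 85) (nat_lit 5) (nat_lit 86) (nat_lit 5) (nat_lit 275) (nat_lit 272) (nat_lit 173))))))))
noncomputable def xc201 : XT := (XT.nd (nat_lit 1404) (nat_lit 1900) (nat_lit 0) (XT.nd (nat_lit 702) (nat_lit 1444) (nat_lit 0) (XT.nd (nat_lit 312) (nat_lit 456) (nat_lit 0) (XT.nd (nat_lit 156) (nat_lit 0) (nat_lit 76) (XT.nd (nat_lit 78) (nat_lit 0) (nat_lit 0) (XT.lf (nat_lit 0) (nat_lit 11327415091) (nat_lit 684) (nat_lit 266829127) (nat_lit 760) (nat_lit 10093832573) (nat_lit 76) (nat_lit 5) (nat_lit 85) (nat_lit 5) (nat_lit 86) (nat_lit 5) (nat_lit 276) (nat_lit 272) (nat_lit 172)) (XT.lf (nat_lit 76) (nat_lit 9829133884) (nat_lit 0) (nat_lit 2549270331)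 (nat_lit 760) (nat_lit 9867207280) (nat_lit 77) (nat_lit 5) (nat_lit 76) (nat_lit 5) (nat_lit 86) (nat_lit 5) (nat_lit 277) (nat_lit 272) (nat_lit 171))) (XT.nd (nat_lit 78) (nat_lit 0) (nat_lit 0) (XT.lf (nat_lit 0) (nat_lit 13586710587) (nat_lit 684) (nat_lit 2506157823) (nat_lit 760) (nat_lit 6732940618) (nat_lit 77) (nat_lit 5) (nat_lit 86) (nat_lit 5) (nat_lit 87) (nat_lit 5) (nat_lit 278) (nat_lit 272) (nat_lit 170)) (XT.lf (nat_lit 76) (nat_lit 8111831628) (nat_lit 0) (nat_lit 6904133557) (nat_lit 760) (nat_lit 8411047925) (nat_lit 78) (nat_lit 5) (nat_lit 77) (nat_lit 5) (nat_lit 87) (nat_lit 5) (nat_lit 279) (nat_lit 272) (nat_lit 169)))) (XT.nd (nat_lit 156) (nat_lit 608) (nat_lit 0) (XT.nd (nat_lit 78) (nat_lit 0) (nat_lit 0) (XT.lf (nat_lit 0) (nat_lit 16595077402) (nat_lit 684) (nat_lit 4757991767) (nat_lit 760) (nat_lit 2701310688) (nat_lit 78) (nat_lit 5) (nat_lit 87)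 (nat_lit 5) (nat_lit 88) (nat_lit 5) (nat_lit 280) (nat_lit 272) (nat_lit 168)) (XT.lf (nat_lit 76) (nat_lit 6413403594) (nat_lit 0) (nat_lit 12045830577) (nat_lit 760) (nat_lit 6243597472) (nat_lit 79) (nat_lit 5) (nat_lit 78) (nat_lit 5) (nat_lit 88) (nat_lit 5) (nat_lit 281) (nat_lit 272) (nat_lit 167))) (XT.nd (nat_lit 78) (nat_lit 608) (nat_lit 0) (XT.lf (nat_lit 76) (nat_lit 18302907749) (nat_lit 0) (nat_lit 2187301005) (nat_lit 760) (nat_lit 4889836907) (nat_lit 79) (nat_lit 5) (nat_lit 78) (nat_lit 5) (nat_lit 88) (nat_lit 5) (nat_lit 282) (nat_lit 272) (nat_lit 166)) (XT.nd (nat_lit 78) (nat_lit 0) (nat_lit 0) (XT.lf (nat_lit 0) (nat_lit 4713410514) (nat_lit 684) (nat_lit 18103759020) (nat_lit 760) (nat_lit 3264248156) (nat_lit 70) (nat_lit 5) (nat_lit 79) (nat_lit 5) (nat_lit 80) (nat_lit 5) (nat_lit 283) (nat_lit 272) (nat_lit 165)) (XT.lf (nat_lit 0) (nat_lit 17296488896)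 (nat_lit 684) (nat_lit 8112732640) (nat_lit 760) (nat_lit 1401217895) (nat_lit 70) (nat_lit 5) (nat_lit 79) (nat_lit 5) (nat_lit 80) (nat_lit 5) (nat_lit 284) (nat_lit 272) (nat_lit 164)))))) (XT.nd (nat_lit 312) (nat_lit 608) (nat_lit 0) (XT.nd (nat_lit 156) (nat_lit 380) (nat_lit 0) (XT.nd (nat_lit 78) (nat_lit 0) (nat_lit 0) (XT.lf (nat_lit 0) (nat_lit 616119625) (nat_lit 456) (nat_lit 24596464583) (nat_lit 76) (nat_lit 2358965492) (nat_lit 64) (nat_lit 5) (nat_lit 70) (nat_lit 5) (nat_lit 65) (nat_lit 5) (nat_lit 285) (nat_lit 272) (nat_lit 163)) (XT.lf (nat_lit 0) (nat_lit 2978007965) (nat_lit 456) (nat_lit 12108233082) (nat_lit 76) (nat_lit 13268802975) (nat_lit 64) (nat_lit 5) (nat_lit 70) (nat_lit 5) (nat_lit 65) (nat_lit 5) (nat_lit 286) (nat_lit 272) (nat_lit 162))) (XT.nd (nat_lit 78) (nat_lit 0) (nat_lit 0) (XT.lf (nat_lit 0) (nat_lit 1031873108) (nat_lit 380) (nat_lit 4436526817)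 (nat_lit 456) (nat_lit 23708807705) (nat_lit 59) (nat_lit 5) (nat_lit 64) (nat_lit 5) (nat_lit 65) (nat_lit 5) (nat_lit 287) (nat_lit 272) (nat_lit 161)) (XT.lf (nat_lit 0) (nat_lit 8391536206) (nat_lit 456) (nat_lit 14895316105) (nat_lit 76) (nat_lit 6738230186) (nat_lit 59) (nat_lit 5) (nat_lit 65) (nat_lit 5) (nat_lit 60) (nat_lit 5) (nat_lit 288) (nat_lit 272) (nat_lit 160)))) (XT.nd (nat_lit 156) (nat_lit 304) (nat_lit 0) (XT.nd (nat_lit 78) (nat_lit 304) (nat_lit 0) (XT.lf (nat_lit 0) (nat_lit 11528307299) (nat_lit 456) (nat_lit 1061016489) (nat_lit 76) (nat_lit 18322667053) (nat_lit 59) (nat_lit 5) (nat_lit 65) (nat_lit 5) (nat_lit 60) (nat_lit 5) (nat_lit 289) (nat_lit 272) (nat_lit 159)) (XT.lf (nat_lit 0) (nat_lit 13904810524) (nat_lit 304) (nat_lit 1129197626) (nat_lit 380) (nat_lit 16798644875) (nat_lit 55) (nat_lit 5) (nat_lit 59) (nat_lit 5) (nat_lit 60) (nat_lit 5) (nat_lit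 290) (nat_lit 272) (nat_lit 158))) (XT.nd (nat_lit 78) (nat_lit 304) (nat_lit 0) (XT.lf (nat_lit 0) (nat_lit 18898649754) (nat_lit 380) (nat_lit 3318614353) (nat_lit 76) (nat_lit 10572913790) (nat_lit 55) (nat_lit 5) (nat_lit 60) (nat_lit 5) (nat_lit 56) (nat_lit 5) (nat_lit 291) (nat_lit 272) (nat_lit 157)) (XT.nd (nat_lit 78) (nat_lit 0) (nat_lit 0) (XT.lf (nat_lit 0) (nat_lit 12394115818) (nat_lit 304) (nat_lit 10769808158) (nat_lit 380) (nat_lit 10621296788) (nat_lit 51) (nat_lit 5) (nat_lit 55) (nat_lit 5) (nat_lit 56) (nat_lit 5) (nat_lit 292) (nat_lit 272) (nat_lit 156)) (XT.lf (nat_lit 0) (nat_lit 27714616113) (nat_lit 380) (nat_lit 5845226277) (nat_lit 76) (nat_lit 1266576890) (nat_lit 51) (nat_lit 5) (nat_lit 56) (nat_lit 5) (nat_lit 52) (nat_lit 5) (nat_lit 293) (nat_lit 272) (nat_lit 155))))))) (XT.nd (nat_lit 702) (nat_lit 836) (nat_lit 0) (XT.nd (nat_lit 312) (nat_lit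 456) (nat_lit 0) (XT.nd (nat_lit 156) (nat_lit 304) (nat_lit 0) (XT.nd (nat_lit 78) (nat_lit 76) (nat_lit 0) (XT.lf (nat_lit 0) (nat_lit 10636807562) (nat_lit 228) (nat_lit 22194387699) (nat_lit 304) (nat_lit 3071575521) (nat_lit 48) (nat_lit 5) (nat_lit 51) (nat_lit 5) (nat_lit 52) (nat_lit 5) (nat_lit 294) (nat_lit 272) (nat_lit 154)) (XT.lf (nat_lit 0) (nat_lit 1229585689) (nat_lit 304) (nat_lit 8907111314) (nat_lit 76) (nat_lit 26890519143) (nat_lit 47) (nat_lit 5) (nat_lit 51) (nat_lit 5) (nat_lit 48) (nat_lit 5) (nat_lit 295) (nat_lit 272) (nat_lit 153))) (XT.nd (nat_lit 78) (nat_lit 0) (nat_lit 0) (XT.lf (nat_lit 0) (nat_lit 5813438016) (nat_lit 380) (nat_lit 29755258354) (nat_lit 76) (nat_lit 2628136042) (nat_lit 43) (nat_lit 5) (nat_lit 48) (nat_lit 5) (nat_lit 44) (nat_lit 5) (nat_lit 296) (nat_lit 272) (nat_lit 152)) (XT.lf (nat_lit 0) (nat_lit 10942058160) (nat_lit 380)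 (nat_lit 12624073449) (nat_lit 76) (nat_lit 15843027911) (nat_lit 43) (nat_lit 5) (nat_lit 48) (nat_lit 5) (nat_lit 44) (nat_lit 5) (nat_lit 297) (nat_lit 272) (nat_lit 151)))) (XT.nd (nat_lit 156) (nat_lit 228) (nat_lit 0) (XT.nd (nat_lit 78) (nat_lit 0) (nat_lit 0) (XT.lf (nat_lit 0) (nat_lit 5536131470) (nat_lit 228) (nat_lit 10873679711) (nat_lit 304) (nat_lit 24268165079) (nat_lit 40) (nat_lit 5) (nat_lit 43) (nat_lit 5) (nat_lit 44) (nat_lit 5) (nat_lit 298) (nat_lit 272) (nat_lit 150)) (XT.lf (nat_lit 0) (nat_lit 22402912257) (nat_lit 304) (nat_lit 17003554387) (nat_lit 76) (nat_lit 2591177143) (nat_lit 40) (nat_lit 5) (nat_lit 44) (nat_lit 5) (nat_lit 41) (nat_lit 5) (nat_lit 299) (nat_lit 272) (nat_lit 149))) (XT.nd (nat_lit 78) (nat_lit 0) (nat_lit 0) (XT.lf (nat_lit 0) (nat_lit 1920256502) (nat_lit 228) (nat_lit 26980179428) (nat_lit 304) (nat_lit 14472627974) (nat_lit 37)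 (nat_lit 5) (nat_lit 40) (nat_lit 5) (nat_lit 41) (nat_lit 5) (nat_lit 300) (nat_lit 272) (nat_lit 148)) (XT.nd (nat_lit 78) (nat_lit 0) (nat_lit 0) (XT.lf (nat_lit 0) (nat_lit 22376059909) (nat_lit 228) (nat_lit 13631363839) (nat_lit 304) (nat_lit 8795609111) (nat_lit 37) (nat_lit 5) (nat_lit 40) (nat_lit 5) (nat_lit 41) (nat_lit 5) (nat_lit 301) (nat_lit 272) (nat_lit 147)) (XT.lf (nat_lit 0) (nat_lit 43472538419) (nat_lit 304) (nat_lit 2460314244) (nat_lit 76) (nat_lit 371515611) (nat_lit 37) (nat_lit 5) (nat_lit 41) (nat_lit 5) (nat_lit 38) (nat_lit 5) (nat_lit 302) (nat_lit 272) (nat_lit 146)))))) (XT.nd (nat_lit 312) (nat_lit 380) (nat_lit 0) (XT.nd (nat_lit 156) (nat_lit 228) (nat_lit 0) (XT.nd (nat_lit 78) (nat_lit 0) (nat_lit 0) (XT.lf (nat_lit 0) (nat_lit 3843968557) (nat_lit 228) (nat_lit 29035732118) (nat_lit 76) (nat_lit 14972217525) (nat_lit 34) (nat_lit 5) (nat_lit 37)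 (nat_lit 5) (nat_lit 35) (nat_lit 5) (nat_lit 303) (nat_lit 272) (nat_lit 145)) (XT.lf (nat_lit 0) (nat_lit 10797686792) (nat_lit 228) (nat_lit 8284225099) (nat_lit 76) (nat_lit 30390653609) (nat_lit 34) (nat_lit 5) (nat_lit 37) (nat_lit 5) (nat_lit 35) (nat_lit 5) (nat_lit 304) (nat_lit 272) (nat_lit 144))) (XT.nd (nat_lit 78) (nat_lit 0) (nat_lit 0) (XT.lf (nat_lit 0) (nat_lit 13947173653) (nat_lit 228) (nat_lit 4366765355) (nat_lit 304) (nat_lit 32849569419) (nat_lit 31) (nat_lit 5) (nat_lit 34) (nat_lit 5) (nat_lit 35) (nat_lit 5) (nat_lit 305) (nat_lit 272) (nat_lit 143)) (XT.lf (nat_lit 0) (nat_lit 26518806460) (nat_lit 304) (nat_lit 15533729032) (nat_lit 76) (nat_lit 10870828270) (nat_lit 31) (nat_lit 5) (nat_lit 35) (nat_lit 5) (nat_lit 32) (nat_lit 5) (nat_lit 306) (nat_lit 272) (nat_lit 142)))) (XT.nd (nat_lit 156) (nat_lit 228) (nat_lit 0) (XT.nd (nat_lit 78) (nat_lit 0)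 (nat_lit 0) (XT.lf (nat_lit 0) (nat_lit 7394133498) (nat_lit 152) (nat_lit 27924099766) (nat_lit 228) (nat_lit 19443767941) (nat_lit 29) (nat_lit 5) (nat_lit 31) (nat_lit 5) (nat_lit 32) (nat_lit 5) (nat_lit 307) (nat_lit 272) (nat_lit 141)) (XT.lf (nat_lit 0) (nat_lit 32003803162) (nat_lit 152) (nat_lit 12814254586) (nat_lit 228) (nat_lit 11861496348) (nat_lit 29) (nat_lit 5) (nat_lit 31) (nat_lit 5) (nat_lit 32) (nat_lit 5) (nat_lit 308) (nat_lit 272) (nat_lit 140))) (XT.nd (nat_lit 78) (nat_lit 228) (nat_lit 0) (XT.lf (nat_lit 0) (nat_lit 54837972083) (nat_lit 228) (nat_lit 900473622) (nat_lit 76) (nat_lit 2952288655) (nat_lit 29) (nat_lit 5) (nat_lit 32) (nat_lit 5) (nat_lit 30) (nat_lit 5) (nat_lit 309) (nat_lit 272) (nat_lit 139)) (XT.nd (nat_lit 78) (nat_lit 0) (nat_lit 0) (XT.lf (nat_lit 0) (nat_lit 5012609541) (nat_lit 228) (nat_lit 36215255925) (nat_lit 76) (nat_lit 19540953755)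 (nat_lit 26) (nat_lit 5) (nat_lit 29) (nat_lit 5) (nat_lit 27) (nat_lit 5) (nat_lit 310) (nat_lit 272) (nat_lit 138)) (XT.lf (nat_lit 0) (nat_lit 14204871939) (nat_lit 228) (nat_lit 11705544200) (nat_lit 76) (nat_lit 37036583207) (nat_lit 26) (nat_lit 5) (nat_lit 29) (nat_lit 5) (nat_lit 27) (nat_lit 5) (nat_lit 311) (nat_lit 272) (nat_lit 137))))))))
noncomputable def xc202 : XT := (XT.nd (nat_lit 1404) (nat_lit 456) (nat_lit 0) (XT.nd (nat_lit 702) (nat_lit 380) (nat_lit 0) (XT.nd (nat_lit 312) (nat_lit 304) (nat_lit 0) (XT.nd (nat_lit 156) (nat_lit 152) (nat_lit 0) (XT.nd (nat_lit 78) (nat_lit 0) (nat_lit 0) (XT.lf (nat_lit 0) (nat_lit 14489942908) (nat_lit 152) (nat_lit 9590747552) (nat_lit 228) (nat_lit 41142204701) (nat_lit 24) (nat_lit 5) (nat_lit 26) (nat_lit 5) (nat_lit 27) (nat_lit 5) (nat_lit 312) (nat_lit 272) (nat_lit 136)) (XT.lf (nat_lit 0) (nat_lit 34767337055) (nat_lit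 228) (nat_lit 25325645602) (nat_lit 76) (nat_lit 7503754903) (nat_lit 24) (nat_lit 5) (nat_lit 27) (nat_lit 5) (nat_lit 25) (nat_lit 5) (nat_lit 313) (nat_lit 272) (nat_lit 135))) (XT.nd (nat_lit 78) (nat_lit 0) (nat_lit 0) (XT.lf (nat_lit 0) (nat_lit 1230843992) (nat_lit 152) (nat_lit 44931772537) (nat_lit 228) (nat_lit 23917944002) (nat_lit 22) (nat_lit 5) (nat_lit 24) (nat_lit 5) (nat_lit 25) (nat_lit 5) (nat_lit 314) (nat_lit 272) (nat_lit 134)) (XT.lf (nat_lit 0) (nat_lit 29991109641) (nat_lit 152) (nat_lit 28563361156) (nat_lit 228) (nat_lit 14112766623) (nat_lit 22) (nat_lit 5) (nat_lit 24) (nat_lit 5) (nat_lit 25) (nat_lit 5) (nat_lit 315) (nat_lit 272) (nat_lit 133)))) (XT.nd (nat_lit 156) (nat_lit 152) (nat_lit 0) (XT.nd (nat_lit 78) (nat_lit 152) (nat_lit 0) (XT.lf (nat_lit 0) (nat_lit 60186247951) (nat_lit 152) (nat_lit 11377678169) (nat_lit 228) (nat_lit 3819424771) (nat_lit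 22) (nat_lit 5) (nat_lit 24) (nat_lit 5) (nat_lit 25) (nat_lit 5) (nat_lit 316) (nat_lit 272) (nat_lit 132)) (XT.lf (nat_lit 0) (nat_lit 7090869129) (nat_lit 152) (nat_lit 64336918803) (nat_lit 76) (nat_lit 6785731231) (nat_lit 20) (nat_lit 5) (nat_lit 22) (nat_lit 5) (nat_lit 21) (nat_lit 5) (nat_lit 317) (nat_lit 272) (nat_lit 131))) (XT.nd (nat_lit 78) (nat_lit 152) (nat_lit 0) (XT.lf (nat_lit 0) (nat_lit 18864525423) (nat_lit 152) (nat_lit 36497169373) (nat_lit 76) (nat_lit 25798062830) (nat_lit 20) (nat_lit 5) (nat_lit 22) (nat_lit 5) (nat_lit 21) (nat_lit 5) (nat_lit 318) (nat_lit 272) (nat_lit 130)) (XT.nd (nat_lit 78) (nat_lit 152) (nat_lit 0) (XT.lf (nat_lit 0) (nat_lit 31225051793) (nat_lit 152) (nat_lit 7268373370) (nat_lit 76) (nat_lit 45759976081) (nat_lit 20) (nat_lit 5) (nat_lit 22) (nat_lit 5) (nat_lit 21) (nat_lit 5) (nat_lit 319) (nat_lit 272) (nat_lit 129)) (XT.lf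 (nat_lit 0) (nat_lit 24193401516) (nat_lit 152) (nat_lit 20386203348) (nat_lit 228) (nat_lit 42903324632) (nat_lit 18) (nat_lit 5) (nat_lit 20) (nat_lit 5) (nat_lit 21) (nat_lit 5) (nat_lit 320) (nat_lit 272) (nat_lit 128)))))) (XT.nd (nat_lit 312) (nat_lit 228) (nat_lit 0) (XT.nd (nat_lit 156) (nat_lit 152) (nat_lit 0) (XT.nd (nat_lit 78) (nat_lit 0) (nat_lit 0) (XT.lf (nat_lit 0) (nat_lit 57477850979) (nat_lit 152) (nat_lit 1245440800) (nat_lit 228) (nat_lit 32144574427) (nat_lit 18) (nat_lit 5) (nat_lit 20) (nat_lit 5) (nat_lit 21) (nat_lit 5) (nat_lit 321) (nat_lit 272) (nat_lit 127)) (XT.lf (nat_lit 0) (nat_lit 73866878437) (nat_lit 228) (nat_lit 2292556164) (nat_lit 76) (nat_lit 18247981621) (nat_lit 18) (nat_lit 5) (nat_lit 21) (nat_lit 5) (nat_lit 19) (nat_lit 4) (nat_lit 322) (nat_lit 272) (nat_lit 126))) (XT.nd (nat_lit 78) (nat_lit 76) (nat_lit 0) (XT.lf (nat_lit 0) (nat_lit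 31339867257) (nat_lit 76) (nat_lit 58935951891) (nat_lit 152) (nat_lit 7822717990) (nat_lit 17) (nat_lit 5) (nat_lit 18) (nat_lit 5) (nat_lit 19) (nat_lit 4) (nat_lit 323) (nat_lit 272) (nat_lit 125)) (XT.lf (nat_lit 0) (nat_lit 5391890499) (nat_lit 152) (nat_lit 35328333839) (nat_lit 76) (nat_lit 61247777782) (nat_lit 16) (nat_lit 5) (nat_lit 18) (nat_lit 5) (nat_lit 17) (nat_lit 5) (nat_lit 324) (nat_lit 272) (nat_lit 124)))) (XT.nd (nat_lit 156) (nat_lit 76) (nat_lit 0) (XT.nd (nat_lit 78) (nat_lit 152) (nat_lit 0) (XT.lf (nat_lit 0) (nat_lit 19002870014) (nat_lit 152) (nat_lit 2457174138) (nat_lit 76) (nat_lit 84564559218) (nat_lit 16) (nat_lit 5) (nat_lit 18) (nat_lit 5) (nat_lit 17) (nat_lit 5) (nat_lit 325) (nat_lit 272) (nat_lit 123)) (XT.lf (nat_lit 0) (nat_lit 33115098394) (nat_lit 152) (nat_lit 694924574) (nat_lit 228) (nat_lit 76448232249) (nat_lit 14) (nat_lit 5) (nat_lit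 16) (nat_lit 5) (nat_lit 17) (nat_lit 5) (nat_lit 326) (nat_lit 272) (nat_lit 122))) (XT.nd (nat_lit 78) (nat_lit 76) (nat_lit 0) (XT.lf (nat_lit 0) (nat_lit 49728012236) (nat_lit 228) (nat_lit 44482813932) (nat_lit 76) (nat_lit 20474241228) (nat_lit 14) (nat_lit 5) (nat_lit 17) (nat_lit 5) (nat_lit 15) (nat_lit 4) (nat_lit 327) (nat_lit 272) (nat_lit 121)) (XT.nd (nat_lit 78) (nat_lit 76) (nat_lit 0) (XT.lf (nat_lit 0) (nat_lit 66451979807) (nat_lit 228) (nat_lit 10203086841) (nat_lit 76) (nat_lit 42677651187) (nat_lit 14) (nat_lit 5) (nat_lit 17) (nat_lit 5) (nat_lit 15) (nat_lit 4) (nat_lit 328) (nat_lit 272) (nat_lit 120)) (XT.lf (nat_lit 0) (nat_lit 26641176595) (nat_lit 76) (nat_lit 57785661766) (nat_lit 152) (nat_lit 39765179321) (nat_lit 13) (nat_lit 5) (nat_lit 14) (nat_lit 5) (nat_lit 15) (nat_lit 4) (nat_lit 329) (nat_lit 272) (nat_lit 119))))))) (XT.nd (nat_lit 702) (nat_lit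 228) (nat_lit 0) (XT.nd (nat_lit 312) (nat_lit 76) (nat_lit 0) (XT.nd (nat_lit 156) (nat_lit 152) (nat_lit 0) (XT.nd (nat_lit 78) (nat_lit 0) (nat_lit 0) (XT.lf (nat_lit 0) (nat_lit 65679781724) (nat_lit 76) (nat_lit 37792228291) (nat_lit 152) (nat_lit 25813695444) (nat_lit 13) (nat_lit 5) (nat_lit 14) (nat_lit 5) (nat_lit 15) (nat_lit 4) (nat_lit 330) (nat_lit 272) (nat_lit 118)) (XT.lf (nat_lit 0) (nat_lit 106668317473) (nat_lit 76) (nat_lit 16799957024) (nat_lit 152) (nat_lit 11165862790) (nat_lit 13) (nat_lit 5) (nat_lit 14) (nat_lit 5) (nat_lit 15) (nat_lit 4) (nat_lit 331) (nat_lit 272) (nat_lit 117))) (XT.nd (nat_lit 78) (nat_lit 0) (nat_lit 0) (XT.lf (nat_lit 0) (nat_lit 4315163666) (nat_lit 152) (nat_lit 130625600607) (nat_lit 76) (nat_lit 5294153382) (nat_lit 11) (nat_lit 5) (nat_lit 13) (nat_lit 5) (nat_lit 12) (nat_lit 4) (nat_lit 332) (nat_lit 272) (nat_lit 116)) (XT.lf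 (nat_lit 0) (nat_lit 20950664889) (nat_lit 152) (nat_lit 96526111244) (nat_lit 76) (nat_lit 28592026265) (nat_lit 11) (nat_lit 5) (nat_lit 13) (nat_lit 5) (nat_lit 12) (nat_lit 4) (nat_lit 333) (nat_lit 272) (nat_lit 115)))) (XT.nd (nat_lit 156) (nat_lit 76) (nat_lit 0) (XT.nd (nat_lit 78) (nat_lit 0) (nat_lit 0) (XT.lf (nat_lit 0) (nat_lit 38416876085) (nat_lit 152) (nat_lit 60723509861) (nat_lit 76) (nat_lit 53054049821) (nat_lit 11) (nat_lit 5) (nat_lit 13) (nat_lit 5) (nat_lit 12) (nat_lit 4) (nat_lit 334) (nat_lit 272) (nat_lit 114)) (XT.lf (nat_lit 0) (nat_lit 56755383468) (nat_lit 152) (nat_lit 23132552170) (nat_lit 76) (nat_lit 78738466962) (nat_lit 11) (nat_lit 5) (nat_lit 13) (nat_lit 5) (nat_lit 12) (nat_lit 4) (nat_lit 335) (nat_lit 272) (nat_lit 113))) (XT.nd (nat_lit 78) (nat_lit 0) (nat_lit 0) (XT.lf (nat_lit 0) (nat_lit 16876414776) (nat_lit 76) (nat_lit 59396923507)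 (nat_lit 152) (nat_lit 89093504417) (nat_lit 10) (nat_lit 5) (nat_lit 11) (nat_lit 5) (nat_lit 12) (nat_lit 4) (nat_lit 336) (nat_lit 272) (nat_lit 112)) (XT.nd (nat_lit 78) (nat_lit 0) (nat_lit 0) (XT.lf (nat_lit 0) (nat_lit 59687277998) (nat_lit 76) (nat_lit 37470727791) (nat_lit 152) (nat_lit 75266759245) (nat_lit 10) (nat_lit 5) (nat_lit 11) (nat_lit 5) (nat_lit 12) (nat_lit 4) (nat_lit 337) (nat_lit 272) (nat_lit 111)) (XT.lf (nat_lit 0) (nat_lit 104637101477) (nat_lit 76) (nat_lit 14448904228) (nat_lit 152) (nat_lit 60749623761) (nat_lit 10) (nat_lit 5) (nat_lit 11) (nat_lit 5) (nat_lit 12) (nat_lit 4) (nat_lit 338) (nat_lit 272) (nat_lit 110)))))) (XT.nd (nat_lit 312) (nat_lit 76) (nat_lit 0) (XT.nd (nat_lit 156) (nat_lit 76) (nat_lit 0) (XT.nd (nat_lit 78) (nat_lit 76) (nat_lit 0) (XT.lf (nat_lit 0) (nat_lit 142261356469) (nat_lit 152) (nat_lit 35935981222) (nat_lit 0) (nat_lit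 9412152770) (nat_lit 10) (nat_lit 5) (nat_lit 12) (nat_lit 4) (nat_lit 10) (nat_lit 4) (nat_lit 339) (nat_lit 272) (nat_lit 109)) (XT.lf (nat_lit 0) (nat_lit 5218378512) (nat_lit 76) (nat_lit 161694610195) (nat_lit 76) (nat_lit 28843180950) (nat_lit 9) (nat_lit 4) (nat_lit 10) (nat_lit 5) (nat_lit 10) (nat_lit 4) (nat_lit 340) (nat_lit 272) (nat_lit 108))) (XT.nd (nat_lit 78) (nat_lit 76) (nat_lit 0) (XT.lf (nat_lit 0) (nat_lit 49676628242) (nat_lit 76) (nat_lit 143728357514) (nat_lit 76) (nat_lit 10874808700) (nat_lit 9) (nat_lit 4) (nat_lit 10) (nat_lit 5) (nat_lit 10) (nat_lit 4) (nat_lit 341) (nat_lit 272) (nat_lit 107)) (XT.lf (nat_lit 0) (nat_lit 7735403973) (nat_lit 152) (nat_lit 116997989305) (nat_lit 76) (nat_lit 88490008329) (nat_lit 8) (nat_lit 5) (nat_lit 10) (nat_lit 5) (nat_lit 9) (nat_lit 4) (nat_lit 342) (nat_lit 272) (nat_lit 106)))) (XT.nd (nat_lit 156) (nat_lit 76)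 (nat_lit 0) (XT.nd (nat_lit 78) (nat_lit 0) (nat_lit 0) (XT.lf (nat_lit 0) (nat_lit 26909914924) (nat_lit 152) (nat_lit 77692164366) (nat_lit 76) (nat_lit 118003234115) (nat_lit 8) (nat_lit 5) (nat_lit 10) (nat_lit 5) (nat_lit 9) (nat_lit 4) (nat_lit 343) (nat_lit 272) (nat_lit 105)) (XT.lf (nat_lit 0) (nat_lit 47042439542) (nat_lit 152) (nat_lit 36422319860) (nat_lit 76) (nat_lit 148991597647) (nat_lit 8) (nat_lit 5) (nat_lit 10) (nat_lit 5) (nat_lit 9) (nat_lit 4) (nat_lit 344) (nat_lit 272) (nat_lit 104))) (XT.nd (nat_lit 78) (nat_lit 0) (nat_lit 0) (XT.lf (nat_lit 0) (nat_lit 7138275128) (nat_lit 76) (nat_lit 61154085761) (nat_lit 152) (nat_lit 174502054092) (nat_lit 7) (nat_lit 5) (nat_lit 8) (nat_lit 5) (nat_lit 9) (nat_lit 4) (nat_lit 345) (nat_lit 272) (nat_lit 103)) (XT.nd (nat_lit 78) (nat_lit 0) (nat_lit 0) (XT.lf (nat_lit 0) (nat_lit 54140208979) (nat_lit 76) (nat_lit 37080734636)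 (nat_lit 152) (nat_lit 162397624529) (nat_lit 7) (nat_lit 5) (nat_lit 8) (nat_lit 5) (nat_lit 9) (nat_lit 4) (nat_lit 346) (nat_lit 272) (nat_lit 102)) (XT.lf (nat_lit 0) (nat_lit 103491104675) (nat_lit 76) (nat_lit 11804218136) (nat_lit 152) (nat_lit 149688638361) (nat_lit 7) (nat_lit 5) (nat_lit 8) (nat_lit 5) (nat_lit 9) (nat_lit 4) (nat_lit 347) (nat_lit 272) (nat_lit 101))))))))
noncomputable def xc203 : XT := (XT.nd (nat_lit 32682) (nat_lit 0) (nat_lit 2128) (XT.nd (nat_lit 31980) (nat_lit 0) (nat_lit 4864) (XT.nd (nat_lit 468) (nat_lit 0) (nat_lit 0) (XT.nd (nat_lit 156) (nat_lit 76) (nat_lit 0) (XT.nd (nat_lit 78) (nat_lit 0) (nat_lit 0) (XT.lf (nat_lit 0) (nat_lit 140802883156) (nat_lit 152) (nat_lit 121839254903) (nat_lit 0) (nat_lit 14264013226) (nat_lit 7) (nat_lit 5) (nat_lit 9) (nat_lit 4) (nat_lit 7) (nat_lit 4) (nat_lit 348) (nat_lit 272) (nat_lit 100)) (XT.lf (nat_lit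 0) (nat_lit 167778752331) (nat_lit 152) (nat_lit 80397536442) (nat_lit 0) (nat_lit 41238516109) (nat_lit 7) (nat_lit 5) (nat_lit 9) (nat_lit 4) (nat_lit 7) (nat_lit 4) (nat_lit 349) (nat_lit 272) (nat_lit 99))) (XT.nd (nat_lit 78) (nat_lit 76) (nat_lit 0) (XT.lf (nat_lit 0) (nat_lit 196102861671) (nat_lit 152) (nat_lit 36884733429) (nat_lit 0) (nat_lit 69561324218) (nat_lit 7) (nat_lit 5) (nat_lit 9) (nat_lit 4) (nat_lit 7) (nat_lit 4) (nat_lit 350) (nat_lit 272) (nat_lit 98)) (XT.lf (nat_lit 0) (nat_lit 9093814917) (nat_lit 76) (nat_lit 216890814550) (nat_lit 76) (nat_lit 90348037830) (nat_lit 6) (nat_lit 4) (nat_lit 7) (nat_lit 5) (nat_lit 7) (nat_lit 4) (nat_lit 351) (nat_lit 272) (nat_lit 97)))) (XT.nd (nat_lit 31278) (nat_lit 0) (nat_lit 5244) (XT.nd (nat_lit 31200) (nat_lit 0) (nat_lit 5244) (XT.lf (nat_lit 0) (nat_lit 165319864811) (nat_lit 76) (nat_lit 161543289304) (nat_lit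 76) (nat_lit 34997137751) (nat_lit 6) (nat_lit 4) (nat_lit 7) (nat_lit 5) (nat_lit 7) (nat_lit 4) (nat_lit 354) (nat_lit 272) (nat_lit 94)) (XT.lf (nat_lit 0) (nat_lit 2375186810) (nat_lit 0) (nat_lit 2375186810) (nat_lit 684) (nat_lit 5559616696) (nat_lit 75) (nat_lit 5) (nat_lit 75) (nat_lit 3) (nat_lit 84) (nat_lit 3) (nat_lit 273) (nat_lit 273) (nat_lit 174))) (XT.nd (nat_lit 78) (nat_lit 0) (nat_lit 0) (XT.lf (nat_lit 0) (nat_lit 9948693323) (nat_lit 684) (nat_lit 6998544975) (nat_lit 760) (nat_lit 4177298811) (nat_lit 75) (nat_lit 5) (nat_lit 84) (nat_lit 3) (nat_lit 85) (nat_lit 5) (nat_lit 274) (nat_lit 273) (nat_lit 173)) (XT.nd (nat_lit 78) (nat_lit 0) (nat_lit 76) (XT.lf (nat_lit 76) (nat_lit 2306895369) (nat_lit 0) (nat_lit 8216947813) (nat_lit 760) (nat_lit 11125264896) (nat_lit 76) (nat_lit 5) (nat_lit 75) (nat_lit 5) (nat_lit 85) (nat_lit 5) (nat_lit 275) (nat_lit 273)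 (nat_lit 172)) (XT.lf (nat_lit 0) (nat_lit 11254372841) (nat_lit 684) (nat_lit 9895744748) (nat_lit 760) (nat_lit 1043484597) (nat_lit 76) (nat_lit 5) (nat_lit 85) (nat_lit 5) (nat_lit 86) (nat_lit 5) (nat_lit 276) (nat_lit 273) (nat_lit 171)))))) (XT.nd (nat_lit 312) (nat_lit 456) (nat_lit 0) (XT.nd (nat_lit 156) (nat_lit 0) (nat_lit 76) (XT.nd (nat_lit 78) (nat_lit 0) (nat_lit 0) (XT.lf (nat_lit 0) (nat_lit 12147871729) (nat_lit 684) (nat_lit 116963932) (nat_lit 760) (nat_lit 10494187685) (nat_lit 76) (nat_lit 5) (nat_lit 85) (nat_lit 5) (nat_lit 86) (nat_lit 5) (nat_lit 277) (nat_lit 273) (nat_lit 170)) (XT.lf (nat_lit 76) (nat_lit 10481164864) (nat_lit 0) (nat_lit 2760653132) (nat_lit 760) (nat_lit 10103132262) (nat_lit 77) (nat_lit 5) (nat_lit 76) (nat_lit 5) (nat_lit 86) (nat_lit 5) (nat_lit 278) (nat_lit 273) (nat_lit 169))) (XT.nd (nat_lit 78) (nat_lit 0) (nat_lit 0) (XT.lf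 (nat_lit 0) (nat_lit 14497649311) (nat_lit 684) (nat_lit 2464964463) (nat_lit 760) (nat_lit 6992222561) (nat_lit 77) (nat_lit 5) (nat_lit 86) (nat_lit 5) (nat_lit 87) (nat_lit 5) (nat_lit 279) (nat_lit 273) (nat_lit 168)) (XT.lf (nat_lit 76) (nat_lit 8681238956) (nat_lit 0) (nat_lit 7308656582) (nat_lit 760) (nat_lit 8596661160) (nat_lit 78) (nat_lit 5) (nat_lit 77) (nat_lit 5) (nat_lit 87) (nat_lit 5) (nat_lit 280) (nat_lit 273) (nat_lit 167)))) (XT.nd (nat_lit 156) (nat_lit 608) (nat_lit 0) (XT.nd (nat_lit 78) (nat_lit 0) (nat_lit 0) (XT.lf (nat_lit 0) (nat_lit 17636456034) (nat_lit 684) (nat_lit 4827749538) (nat_lit 760) (nat_lit 2781692552) (nat_lit 78) (nat_lit 5) (nat_lit 87) (nat_lit 5) (nat_lit 88) (nat_lit 5) (nat_lit 281) (nat_lit 273) (nat_lit 166)) (XT.lf (nat_lit 76) (nat_lit 6899503626) (nat_lit 0) (nat_lit 12686822470) (nat_lit 760) (nat_lit 6340850631) (nat_lit 79) (nat_lit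 5) (nat_lit 78) (nat_lit 5) (nat_lit 88) (nat_lit 5) (nat_lit 282) (nat_lit 273) (nat_lit 165))) (XT.nd (nat_lit 78) (nat_lit 608) (nat_lit 0) (XT.lf (nat_lit 76) (nat_lit 19375605377) (nat_lit 0) (nat_lit 2333523544) (nat_lit 760) (nat_lit 4929636644) (nat_lit 79) (nat_lit 5) (nat_lit 78) (nat_lit 5) (nat_lit 88) (nat_lit 5) (nat_lit 283) (nat_lit 273) (nat_lit 164)) (XT.nd (nat_lit 78) (nat_lit 0) (nat_lit 0) (XT.lf (nat_lit 0) (nat_lit 5114774817) (nat_lit 684) (nat_lit 19030444215) (nat_lit 760) (nat_lit 3230374856) (nat_lit 70) (nat_lit 5) (nat_lit 79) (nat_lit 5) (nat_lit 80) (nat_lit 5) (nat_lit 284) (nat_lit 273) (nat_lit 163)) (XT.lf (nat_lit 0) (nat_lit 18319116938) (nat_lit 684) (nat_lit 8538842838) (nat_lit 760) (nat_lit 1283578116) (nat_lit 70) (nat_lit 5) (nat_lit 79) (nat_lit 5) (nat_lit 80) (nat_lit 5) (nat_lit 285) (nat_lit 273) (nat_lit 162))))))) (XT.nd (nat_lit 702)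 (nat_lit 1292) (nat_lit 0) (XT.nd (nat_lit 312) (nat_lit 608) (nat_lit 0) (XT.nd (nat_lit 156) (nat_lit 380) (nat_lit 0) (XT.nd (nat_lit 78) (nat_lit 0) (nat_lit 0) (XT.lf (nat_lit 0) (nat_lit 822273092) (nat_lit 456) (nat_lit 25655183370) (nat_lit 76) (nat_lit 2463441078) (nat_lit 64) (nat_lit 5) (nat_lit 70) (nat_lit 5) (nat_lit 65) (nat_lit 5) (nat_lit 286) (nat_lit 273) (nat_lit 161)) (XT.lf (nat_lit 0) (nat_lit 3293905968) (nat_lit 456) (nat_lit 12550688124) (nat_lit 76) (nat_lit 13919411993) (nat_lit 64) (nat_lit 5) (nat_lit 70) (nat_lit 5) (nat_lit 65) (nat_lit 5) (nat_lit 287) (nat_lit 273) (nat_lit 160))) (XT.nd (nat_lit 78) (nat_lit 0) (nat_lit 0) (XT.lf (nat_lit 0) (nat_lit 1243795043) (nat_lit 380) (nat_lit 4659573390) (nat_lit 456) (nat_lit 24724202860) (nat_lit 59) (nat_lit 5) (nat_lit 64) (nat_lit 5) (nat_lit 65) (nat_lit 5) (nat_lit 288) (nat_lit 273) (nat_lit 159))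 (XT.lf (nat_lit 0) (nat_lit 8964950598) (nat_lit 456) (nat_lit 15479278054) (nat_lit 76) (nat_lit 7074016765) (nat_lit 59) (nat_lit 5) (nat_lit 65) (nat_lit 5) (nat_lit 60) (nat_lit 5) (nat_lit 289) (nat_lit 273) (nat_lit 158)))) (XT.nd (nat_lit 156) (nat_lit 304) (nat_lit 0) (XT.nd (nat_lit 78) (nat_lit 304) (nat_lit 0) (XT.lf (nat_lit 0) (nat_lit 12251234646) (nat_lit 456) (nat_lit 960920783) (nat_lit 76) (nat_lit 19237729043) (nat_lit 59) (nat_lit 5) (nat_lit 65) (nat_lit 5) (nat_lit 60) (nat_lit 5) (nat_lit 290) (nat_lit 273) (nat_lit 157)) (XT.lf (nat_lit 0) (nat_lit 14750727475) (nat_lit 304) (nat_lit 1176868785) (nat_lit 380) (nat_lit 17489232830) (nat_lit 55) (nat_lit 5) (nat_lit 59) (nat_lit 5) (nat_lit 60) (nat_lit 5) (nat_lit 291) (nat_lit 273) (nat_lit 156))) (XT.nd (nat_lit 78) (nat_lit 304) (nat_lit 0) (XT.lf (nat_lit 0) (nat_lit 19978844070) (nat_lit 380) (nat_lit 3334072885)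 (nat_lit 76) (nat_lit 11109661793) (nat_lit 55) (nat_lit 5) (nat_lit 60) (nat_lit 5) (nat_lit 56) (nat_lit 5) (nat_lit 292) (nat_lit 273) (nat_lit 155)) (XT.nd (nat_lit 78) (nat_lit 0) (nat_lit 0) (XT.lf (nat_lit 0) (nat_lit 13161866824) (nat_lit 304) (nat_lit 11291385540) (nat_lit 380) (nat_lit 11014344302) (nat_lit 51) (nat_lit 5) (nat_lit 55) (nat_lit 5) (nat_lit 56) (nat_lit 5) (nat_lit 293) (nat_lit 273) (nat_lit 154)) (XT.lf (nat_lit 0) (nat_lit 29225486203) (nat_lit 380) (nat_lit 5990186361) (nat_lit 76) (nat_lit 1345497833) (nat_lit 51) (nat_lit 5) (nat_lit 56) (nat_lit 5) (nat_lit 52) (nat_lit 5) (nat_lit 294) (nat_lit 273) (nat_lit 153)))))) (XT.nd (nat_lit 390) (nat_lit 456) (nat_lit 0) (XT.nd (nat_lit 156) (nat_lit 532) (nat_lit 0) (XT.nd (nat_lit 78) (nat_lit 76) (nat_lit 0) (XT.lf (nat_lit 0) (nat_lit 11313573344) (nat_lit 228) (nat_lit 23280624642) (nat_lit 304) (nat_lit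 3097341202) (nat_lit 48) (nat_lit 5) (nat_lit 51) (nat_lit 5) (nat_lit 52) (nat_lit 5) (nat_lit 295) (nat_lit 273) (nat_lit 152)) (XT.lf (nat_lit 0) (nat_lit 1408895714) (nat_lit 304) (nat_lit 9210276388) (nat_lit 76) (nat_lit 28253243033) (nat_lit 47) (nat_lit 5) (nat_lit 51) (nat_lit 5) (nat_lit 48) (nat_lit 5) (nat_lit 296) (nat_lit 273) (nat_lit 151))) (XT.nd (nat_lit 78) (nat_lit 228) (nat_lit 0) (XT.lf (nat_lit 0) (nat_lit 6218911875) (nat_lit 380) (nat_lit 31097544588) (nat_lit 76) (nat_lit 2784220062) (nat_lit 43) (nat_lit 5) (nat_lit 48) (nat_lit 5) (nat_lit 44) (nat_lit 5) (nat_lit 297) (nat_lit 273) (nat_lit 150)) (XT.nd (nat_lit 78) (nat_lit 228) (nat_lit 0) (XT.lf (nat_lit 0) (nat_lit 11598496266) (nat_lit 380) (nat_lit 13116727899) (nat_lit 76) (nat_lit 16658681419) (nat_lit 43) (nat_lit 5) (nat_lit 48) (nat_lit 5) (nat_lit 44) (nat_lit 5) (nat_lit 298) (nat_lit 273) (nat_lit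 149)) (XT.lf (nat_lit 0) (nat_lit 5949252600) (nat_lit 228) (nat_lit 11387306152) (nat_lit 304) (nat_lit 25369769991) (nat_lit 40) (nat_lit 5) (nat_lit 43) (nat_lit 5) (nat_lit 44) (nat_lit 5) (nat_lit 299) (nat_lit 273) (nat_lit 148))))) (XT.nd (nat_lit 156) (nat_lit 228) (nat_lit 0) (XT.nd (nat_lit 78) (nat_lit 228) (nat_lit 0) (XT.lf (nat_lit 0) (nat_lit 23624701960) (nat_lit 304) (nat_lit 17719073436) (nat_lit 76) (nat_lit 2748446015) (nat_lit 40) (nat_lit 5) (nat_lit 44) (nat_lit 5) (nat_lit 41) (nat_lit 5) (nat_lit 300) (nat_lit 273) (nat_lit 147)) (XT.lf (nat_lit 0) (nat_lit 2148756083) (nat_lit 228) (nat_lit 28295574029) (nat_lit 304) (nat_lit 15092231596) (nat_lit 37) (nat_lit 5) (nat_lit 40) (nat_lit 5) (nat_lit 41) (nat_lit 5) (nat_lit 301) (nat_lit 273) (nat_lit 146))) (XT.nd (nat_lit 78) (nat_lit 228) (nat_lit 0) (XT.lf (nat_lit 0) (nat_lit 23621040767) (nat_lit 228) (nat_lit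 14280918344) (nat_lit 304) (nat_lit 9136315494) (nat_lit 37) (nat_lit 5) (nat_lit 40) (nat_lit 5) (nat_lit 41) (nat_lit 5) (nat_lit 302) (nat_lit 273) (nat_lit 145)) (XT.nd (nat_lit 78) (nat_lit 228) (nat_lit 0) (XT.lf (nat_lit 0) (nat_lit 45736321530) (nat_lit 304) (nat_lit 2458960494) (nat_lit 76) (nat_lit 419604771) (nat_lit 37) (nat_lit 5) (nat_lit 41) (nat_lit 5) (nat_lit 38) (nat_lit 5) (nat_lit 303) (nat_lit 273) (nat_lit 144)) (XT.lf (nat_lit 0) (nat_lit 4125556451) (nat_lit 228) (nat_lit 30362025376) (nat_lit 76) (nat_lit 15752288585) (nat_lit 34) (nat_lit 5) (nat_lit 37) (nat_lit 5) (nat_lit 35) (nat_lit 5) (nat_lit 304) (nat_lit 273) (nat_lit 143))))))))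
noncomputable def xc204 : XT := (XT.nd (nat_lit 1404) (nat_lit 608) (nat_lit 0) (XT.nd (nat_lit 702) (nat_lit 456) (nat_lit 0) (XT.nd (nat_lit 312) (nat_lit 380) (nat_lit 0) (XT.nd (nat_lit 156) (nat_lit 152) (nat_lit 0) (XT.nd (nat_lit 78) (nat_lit 228) (nat_lit 0) (XT.lf (nat_lit 0) (nat_lit 11422703956) (nat_lit 228) (nat_lit 8578918880) (nat_lit 76) (nat_lit 31940148369) (nat_lit 34) (nat_lit 5) (nat_lit 37) (nat_lit 5) (nat_lit 35) (nat_lit 5) (nat_lit 305) (nat_lit 273) (nat_lit 142)) (XT.lf (nat_lit 0) (nat_lit 14762122108) (nat_lit 228) (nat_lit 4550428636) (nat_lit 304) (nat_lit 34404829336) (nat_lit 31) (nat_lit 5) (nat_lit 34) (nat_lit 5) (nat_lit 35) (nat_lit 5) (nat_lit 306) (nat_lit 273) (nat_lit 141))) (XT.nd (nat_lit 78) (nat_lit 152) (nat_lit 0) (XT.lf (nat_lit 0) (nat_lit 27924228841) (nat_lit 304) (nat_lit 16194841992) (nat_lit 76) (nat_lit 11446336513) (nat_lit 31)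 (nat_lit 5) (nat_lit 35) (nat_lit 5) (nat_lit 32) (nat_lit 5) (nat_lit 307) (nat_lit 273) (nat_lit 140)) (XT.lf (nat_lit 0) (nat_lit 7877549576) (nat_lit 152) (nat_lit 29284067871) (nat_lit 228) (nat_lit 20334466856) (nat_lit 29) (nat_lit 5) (nat_lit 31) (nat_lit 5) (nat_lit 32) (nat_lit 5) (nat_lit 308) (nat_lit 273) (nat_lit 139)))) (XT.nd (nat_lit 156) (nat_lit 380) (nat_lit 0) (XT.nd (nat_lit 78) (nat_lit 0) (nat_lit 0) (XT.lf (nat_lit 0) (nat_lit 33712287990) (nat_lit 152) (nat_lit 13420455998) (nat_lit 228) (nat_lit 12376962135) (nat_lit 29) (nat_lit 5) (nat_lit 31) (nat_lit 5) (nat_lit 32) (nat_lit 5) (nat_lit 309) (nat_lit 273) (nat_lit 138)) (XT.lf (nat_lit 0) (nat_lit 57650653707) (nat_lit 228) (nat_lit 839229181) (nat_lit 76) (nat_lit 3131719030) (nat_lit 29) (nat_lit 5) (nat_lit 32) (nat_lit 5) (nat_lit 30) (nat_lit 5) (nat_lit 310) (nat_lit 273) (nat_lit 137))) (XT.nd (nat_lit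 78) (nat_lit 152) (nat_lit 0) (XT.lf (nat_lit 0) (nat_lit 5333536538) (nat_lit 228) (nat_lit 37919022358) (nat_lit 76) (nat_lit 20551068538) (nat_lit 26) (nat_lit 5) (nat_lit 29) (nat_lit 5) (nat_lit 27) (nat_lit 5) (nat_lit 311) (nat_lit 273) (nat_lit 136)) (XT.nd (nat_lit 78) (nat_lit 152) (nat_lit 0) (XT.lf (nat_lit 0) (nat_lit 14982064602) (nat_lit 228) (nat_lit 12188920112) (nat_lit 76) (nat_lit 38919904839) (nat_lit 26) (nat_lit 5) (nat_lit 29) (nat_lit 5) (nat_lit 27) (nat_lit 5) (nat_lit 312) (nat_lit 273) (nat_lit 135)) (XT.lf (nat_lit 0) (nat_lit 15314697782) (nat_lit 152) (nat_lit 10035353520) (nat_lit 228) (nat_lit 43130615341) (nat_lit 24) (nat_lit 5) (nat_lit 26) (nat_lit 5) (nat_lit 27) (nat_lit 5) (nat_lit 313) (nat_lit 273) (nat_lit 134)))))) (XT.nd (nat_lit 312) (nat_lit 304) (nat_lit 0) (XT.nd (nat_lit 156) (nat_lit 0) (nat_lit 0) (XT.nd (nat_lit 78) (nat_lit 152)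 (nat_lit 0) (XT.lf (nat_lit 0) (nat_lit 36568438857) (nat_lit 228) (nat_lit 26493751095) (nat_lit 76) (nat_lit 7911145873) (nat_lit 24) (nat_lit 5) (nat_lit 27) (nat_lit 5) (nat_lit 25) (nat_lit 5) (nat_lit 314) (nat_lit 273) (nat_lit 133)) (XT.lf (nat_lit 0) (nat_lit 1388979482) (nat_lit 152) (nat_lit 47143023536) (nat_lit 228) (nat_lit 25049425740) (nat_lit 22) (nat_lit 5) (nat_lit 24) (nat_lit 5) (nat_lit 25) (nat_lit 5) (nat_lit 315) (nat_lit 273) (nat_lit 132))) (XT.nd (nat_lit 78) (nat_lit 0) (nat_lit 0) (XT.lf (nat_lit 0) (nat_lit 31582658734) (nat_lit 152) (nat_lit 29957874330) (nat_lit 228) (nat_lit 14757056895) (nat_lit 22) (nat_lit 5) (nat_lit 24) (nat_lit 5) (nat_lit 25) (nat_lit 5) (nat_lit 316) (nat_lit 273) (nat_lit 131)) (XT.lf (nat_lit 0) (nat_lit 63283173311) (nat_lit 152) (nat_lit 11914509807) (nat_lit 228) (nat_lit 3951969287) (nat_lit 22) (nat_lit 5) (nat_lit 24)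 (nat_lit 5) (nat_lit 25) (nat_lit 5) (nat_lit 317) (nat_lit 273) (nat_lit 130)))) (XT.nd (nat_lit 156) (nat_lit 152) (nat_lit 0) (XT.nd (nat_lit 78) (nat_lit 0) (nat_lit 0) (XT.lf (nat_lit 0) (nat_lit 7501165338) (nat_lit 152) (nat_lit 67463314192) (nat_lit 76) (nat_lit 7156848139) (nat_lit 20) (nat_lit 5) (nat_lit 22) (nat_lit 5) (nat_lit 21) (nat_lit 5) (nat_lit 318) (nat_lit 273) (nat_lit 129)) (XT.lf (nat_lit 0) (nat_lit 19860849554) (nat_lit 152) (nat_lit 38235884459) (nat_lit 76) (nat_lit 27118280588) (nat_lit 20) (nat_lit 5) (nat_lit 22) (nat_lit 5) (nat_lit 21) (nat_lit 5) (nat_lit 319) (nat_lit 273) (nat_lit 128))) (XT.nd (nat_lit 78) (nat_lit 152) (nat_lit 0) (XT.lf (nat_lit 0) (nat_lit 32836873773) (nat_lit 152) (nat_lit 7549750722) (nat_lit 76) (nat_lit 48076845948) (nat_lit 20) (nat_lit 5) (nat_lit 22) (nat_lit 5) (nat_lit 21) (nat_lit 5) (nat_lit 320) (nat_lit 273) (nat_lit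 127)) (XT.nd (nat_lit 78) (nat_lit 0) (nat_lit 0) (XT.lf (nat_lit 0) (nat_lit 25483789662) (nat_lit 152) (nat_lit 21374217005) (nat_lit 228) (nat_lit 44996529280) (nat_lit 18) (nat_lit 5) (nat_lit 20) (nat_lit 5) (nat_lit 21) (nat_lit 5) (nat_lit 321) (nat_lit 273) (nat_lit 126)) (XT.lf (nat_lit 0) (nat_lit 60428617880) (nat_lit 152) (nat_lit 1277906639) (nat_lit 228) (nat_lit 33702315925) (nat_lit 18) (nat_lit 5) (nat_lit 20) (nat_lit 5) (nat_lit 21) (nat_lit 5) (nat_lit 322) (nat_lit 273) (nat_lit 125))))))) (XT.nd (nat_lit 702) (nat_lit 228) (nat_lit 0) (XT.nd (nat_lit 312) (nat_lit 228) (nat_lit 0) (XT.nd (nat_lit 156) (nat_lit 76) (nat_lit 0) (XT.nd (nat_lit 78) (nat_lit 76) (nat_lit 0) (XT.lf (nat_lit 0) (nat_lit 77605492368) (nat_lit 228) (nat_lit 2332109624) (nat_lit 76) (nat_lit 19187859003) (nat_lit 18) (nat_lit 5) (nat_lit 21) (nat_lit 5) (nat_lit 19) (nat_lit 4) (nat_lit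 323) (nat_lit 273) (nat_lit 124)) (XT.lf (nat_lit 0) (nat_lit 32980724091) (nat_lit 76) (nat_lit 61853153525) (nat_lit 152) (nat_lit 8167313444) (nat_lit 17) (nat_lit 5) (nat_lit 18) (nat_lit 5) (nat_lit 19) (nat_lit 4) (nat_lit 324) (nat_lit 273) (nat_lit 123))) (XT.nd (nat_lit 78) (nat_lit 0) (nat_lit 0) (XT.lf (nat_lit 0) (nat_lit 5704390605) (nat_lit 152) (nat_lit 37022931694) (nat_lit 76) (nat_lit 64336880626) (nat_lit 16) (nat_lit 5) (nat_lit 18) (nat_lit 5) (nat_lit 17) (nat_lit 5) (nat_lit 325) (nat_lit 273) (nat_lit 122)) (XT.lf (nat_lit 0) (nat_lit 19993875973) (nat_lit 152) (nat_lit 2511633953) (nat_lit 76) (nat_lit 88818229041) (nat_lit 16) (nat_lit 5) (nat_lit 18) (nat_lit 5) (nat_lit 17) (nat_lit 5) (nat_lit 326) (nat_lit 273) (nat_lit 121)))) (XT.nd (nat_lit 156) (nat_lit 76) (nat_lit 0) (XT.nd (nat_lit 78) (nat_lit 0) (nat_lit 0) (XT.lf (nat_lit 0) (nat_lit 34838148998)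 (nat_lit 152) (nat_lit 702342420) (nat_lit 228) (nat_lit 80228629196) (nat_lit 14) (nat_lit 5) (nat_lit 16) (nat_lit 5) (nat_lit 17) (nat_lit 5) (nat_lit 327) (nat_lit 273) (nat_lit 120)) (XT.lf (nat_lit 0) (nat_lit 52252883299) (nat_lit 228) (nat_lit 46641319985) (nat_lit 76) (nat_lit 21523147294) (nat_lit 14) (nat_lit 5) (nat_lit 17) (nat_lit 5) (nat_lit 15) (nat_lit 4) (nat_lit 328) (nat_lit 273) (nat_lit 119))) (XT.nd (nat_lit 78) (nat_lit 76) (nat_lit 0) (XT.lf (nat_lit 0) (nat_lit 69811217322) (nat_lit 228) (nat_lit 10650731999) (nat_lit 76) (nat_lit 44835528036) (nat_lit 14) (nat_lit 5) (nat_lit 17) (nat_lit 5) (nat_lit 15) (nat_lit 4) (nat_lit 329) (nat_lit 273) (nat_lit 118)) (XT.nd (nat_lit 78) (nat_lit 0) (nat_lit 0) (XT.lf (nat_lit 0) (nat_lit 28034736397) (nat_lit 76) (nat_lit 60649297918) (nat_lit 152) (nat_lit 41715749222) (nat_lit 13) (nat_lit 5) (nat_lit 14) (nat_lit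 5) (nat_lit 15) (nat_lit 4) (nat_lit 330) (nat_lit 273) (nat_lit 117)) (XT.lf (nat_lit 0) (nat_lit 69022343164) (nat_lit 76) (nat_lit 39657414052) (nat_lit 152) (nat_lit 27068485869) (nat_lit 13) (nat_lit 5) (nat_lit 14) (nat_lit 5) (nat_lit 15) (nat_lit 4) (nat_lit 331) (nat_lit 273) (nat_lit 116)))))) (XT.nd (nat_lit 312) (nat_lit 76) (nat_lit 0) (XT.nd (nat_lit 156) (nat_lit 0) (nat_lit 0) (XT.nd (nat_lit 78) (nat_lit 152) (nat_lit 0) (XT.lf (nat_lit 0) (nat_lit 112057516541) (nat_lit 76) (nat_lit 17616692348) (nat_lit 152) (nat_lit 11689970837) (nat_lit 13) (nat_lit 5) (nat_lit 14) (nat_lit 5) (nat_lit 15) (nat_lit 4) (nat_lit 332) (nat_lit 273) (nat_lit 115)) (XT.lf (nat_lit 0) (nat_lit 4563679862) (nat_lit 152) (nat_lit 137099598976) (nat_lit 76) (nat_lit 5581711975) (nat_lit 11) (nat_lit 5) (nat_lit 13) (nat_lit 5) (nat_lit 12) (nat_lit 4) (nat_lit 333) (nat_lit 273) (nat_lit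 114))) (XT.nd (nat_lit 78) (nat_lit 0) (nat_lit 0) (XT.lf (nat_lit 0) (nat_lit 22029396242) (nat_lit 152) (nat_lit 101297862843) (nat_lit 76) (nat_lit 30043390364) (nat_lit 11) (nat_lit 5) (nat_lit 13) (nat_lit 5) (nat_lit 12) (nat_lit 4) (nat_lit 334) (nat_lit 273) (nat_lit 113)) (XT.lf (nat_lit 0) (nat_lit 40367432372) (nat_lit 152) (nat_lit 63707729199) (nat_lit 76) (nat_lit 55727478774) (nat_lit 11) (nat_lit 5) (nat_lit 13) (nat_lit 5) (nat_lit 12) (nat_lit 4) (nat_lit 335) (nat_lit 273) (nat_lit 112)))) (XT.nd (nat_lit 156) (nat_lit 0) (nat_lit 0) (XT.nd (nat_lit 78) (nat_lit 76) (nat_lit 0) (XT.lf (nat_lit 0) (nat_lit 59621450245) (nat_lit 152) (nat_lit 24239697727) (nat_lit 76) (nat_lit 82695129798) (nat_lit 11) (nat_lit 5) (nat_lit 13) (nat_lit 5) (nat_lit 12) (nat_lit 4) (nat_lit 336) (nat_lit 273) (nat_lit 111)) (XT.lf (nat_lit 0) (nat_lit 17768919469) (nat_lit 76) (nat_lit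 62345795919) (nat_lit 152) (nat_lit 93519055288) (nat_lit 10) (nat_lit 5) (nat_lit 11) (nat_lit 5) (nat_lit 12) (nat_lit 4) (nat_lit 337) (nat_lit 273) (nat_lit 110))) (XT.nd (nat_lit 78) (nat_lit 0) (nat_lit 0) (XT.lf (nat_lit 0) (nat_lit 62718007569) (nat_lit 76) (nat_lit 39324289168) (nat_lit 152) (nat_lit 79002359731) (nat_lit 10) (nat_lit 5) (nat_lit 11) (nat_lit 5) (nat_lit 12) (nat_lit 4) (nat_lit 338) (nat_lit 273) (nat_lit 109)) (XT.nd (nat_lit 78) (nat_lit 0) (nat_lit 0) (XT.lf (nat_lit 0) (nat_lit 109913114333) (nat_lit 76) (nat_lit 15152325618) (nat_lit 152) (nat_lit 63760688305) (nat_lit 10) (nat_lit 5) (nat_lit 11) (nat_lit 5) (nat_lit 12) (nat_lit 4) (nat_lit 339) (nat_lit 273) (nat_lit 108)) (XT.lf (nat_lit 0) (nat_lit 149398644270) (nat_lit 152) (nat_lit 37689786521) (nat_lit 0) (nat_lit 9900298447) (nat_lit 10) (nat_lit 5) (nat_lit 12) (nat_lit 4) (nat_lit 10) (nat_lit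 4) (nat_lit 340) (nat_lit 273) (nat_lit 107))))))))
noncomputable def xc205 : XT := (XT.nd (nat_lit 32838) (nat_lit 0) (nat_lit 2736) (XT.nd (nat_lit 702) (nat_lit 0) (nat_lit 0) (XT.nd (nat_lit 312) (nat_lit 76) (nat_lit 0) (XT.nd (nat_lit 156) (nat_lit 76) (nat_lit 0) (XT.nd (nat_lit 78) (nat_lit 0) (nat_lit 0) (XT.lf (nat_lit 0) (nat_lit 5521597752) (nat_lit 76) (nat_lit 169760767462) (nat_lit 76) (nat_lit 30260403003) (nat_lit 9) (nat_lit 4) (nat_lit 10) (nat_lit 5) (nat_lit 10) (nat_lit 4) (nat_lit 341) (nat_lit 273) (nat_lit 106)) (XT.lf (nat_lit 0) (nat_lit 52200745668) (nat_lit 76) (nat_lit 150897086587) (nat_lit 76) (nat_lit 11394799617) (nat_lit 9) (nat_lit 4) (nat_lit 10) (nat_lit 5) (nat_lit 10) (nat_lit 4) (nat_lit 342) (nat_lit 273) (nat_lit 105))) (XT.nd (nat_lit 78) (nat_lit 0) (nat_lit 0) (XT.lf (nat_lit 0) (nat_lit 8144068824) (nat_lit 152) (nat_lit 122808776842) (nat_lit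 76) (nat_lit 92930610929) (nat_lit 8) (nat_lit 5) (nat_lit 10) (nat_lit 5) (nat_lit 9) (nat_lit 4) (nat_lit 343) (nat_lit 273) (nat_lit 104)) (XT.lf (nat_lit 0) (nat_lit 28276262720) (nat_lit 152) (nat_lit 81539523129) (nat_lit 76) (nat_lit 123918731233) (nat_lit 8) (nat_lit 5) (nat_lit 10) (nat_lit 5) (nat_lit 9) (nat_lit 4) (nat_lit 344) (nat_lit 273) (nat_lit 103)))) (XT.nd (nat_lit 156) (nat_lit 0) (nat_lit 0) (XT.nd (nat_lit 78) (nat_lit 76) (nat_lit 0) (XT.lf (nat_lit 0) (nat_lit 49414420615) (nat_lit 152) (nat_lit 38207960182) (nat_lit 76) (nat_lit 156455782683) (nat_lit 8) (nat_lit 5) (nat_lit 10) (nat_lit 5) (nat_lit 9) (nat_lit 4) (nat_lit 345) (nat_lit 273) (nat_lit 102)) (XT.lf (nat_lit 0) (nat_lit 7530092368) (nat_lit 76) (nat_lit 64196344931) (nat_lit 152) (nat_lit 183206707925) (nat_lit 7) (nat_lit 5) (nat_lit 8) (nat_lit 5) (nat_lit 9) (nat_lit 4) (nat_lit 346) (nat_lit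 273) (nat_lit 101))) (XT.nd (nat_lit 78) (nat_lit 0) (nat_lit 0) (XT.lf (nat_lit 0) (nat_lit 56880460841) (nat_lit 76) (nat_lit 38920061732) (nat_lit 152) (nat_lit 170498030640) (nat_lit 7) (nat_lit 5) (nat_lit 8) (nat_lit 5) (nat_lit 9) (nat_lit 4) (nat_lit 347) (nat_lit 273) (nat_lit 100)) (XT.nd (nat_lit 78) (nat_lit 0) (nat_lit 0) (XT.lf (nat_lit 0) (nat_lit 108697318398) (nat_lit 76) (nat_lit 12380419865) (nat_lit 152) (nat_lit 157154522550) (nat_lit 7) (nat_lit 5) (nat_lit 8) (nat_lit 5) (nat_lit 9) (nat_lit 4) (nat_lit 348) (nat_lit 273) (nat_lit 99)) (XT.lf (nat_lit 0) (nat_lit 147860044488) (nat_lit 152) (nat_lit 127900419377) (nat_lit 0) (nat_lit 14990128932) (nat_lit 7) (nat_lit 5) (nat_lit 9) (nat_lit 4) (nat_lit 7) (nat_lit 4) (nat_lit 349) (nat_lit 273) (nat_lit 98)))))) (XT.nd (nat_lit 31746) (nat_lit 0) (nat_lit 5168) (XT.nd (nat_lit 31590) (nat_lit 0) (nat_lit 5168)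 (XT.nd (nat_lit 78) (nat_lit 0) (nat_lit 0) (XT.lf (nat_lit 0) (nat_lit 176183896781) (nat_lit 152) (nat_lit 84388081577) (nat_lit 0) (nat_lit 43312741957) (nat_lit 7) (nat_lit 5) (nat_lit 9) (nat_lit 4) (nat_lit 7) (nat_lit 4) (nat_lit 350) (nat_lit 273) (nat_lit 97)) (XT.lf (nat_lit 0) (nat_lit 205923439834) (nat_lit 152) (nat_lit 38701035161) (nat_lit 0) (nat_lit 73051104755) (nat_lit 7) (nat_lit 5) (nat_lit 9) (nat_lit 4) (nat_lit 7) (nat_lit 4) (nat_lit 351) (nat_lit 273) (nat_lit 96))) (XT.nd (nat_lit 78) (nat_lit 0) (nat_lit 0) (XT.lf (nat_lit 0) (nat_lit 2564355239) (nat_lit 0) (nat_lit 2564355239) (nat_lit 684) (nat_lit 5689323359) (nat_lit 75) (nat_lit 5) (nat_lit 75) (nat_lit 3) (nat_lit 84) (nat_lit 3) (nat_lit 274) (nat_lit 274) (nat_lit 172)) (XT.lf (nat_lit 0) (nat_lit 10712259215) (nat_lit 684) (nat_lit 7198063907) (nat_lit 760) (nat_lit 4256343641) (nat_lit 75) (nat_lit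 5) (nat_lit 84) (nat_lit 3) (nat_lit 85) (nat_lit 5) (nat_lit 275) (nat_lit 274) (nat_lit 171)))) (XT.nd (nat_lit 156) (nat_lit 0) (nat_lit 76) (XT.nd (nat_lit 78) (nat_lit 0) (nat_lit 76) (XT.lf (nat_lit 76) (nat_lit 2570222514) (nat_lit 0) (nat_lit 8735581557) (nat_lit 760) (nat_lit 11412217984) (nat_lit 76) (nat_lit 5) (nat_lit 75) (nat_lit 5) (nat_lit 85) (nat_lit 5) (nat_lit 276) (nat_lit 274) (nat_lit 170)) (XT.lf (nat_lit 0) (nat_lit 12059078039) (nat_lit 684) (nat_lit 10235097080) (nat_lit 760) (nat_lit 996290716) (nat_lit 76) (nat_lit 5) (nat_lit 85) (nat_lit 5) (nat_lit 86) (nat_lit 5) (nat_lit 277) (nat_lit 274) (nat_lit 169))) (XT.nd (nat_lit 78) (nat_lit 0) (nat_lit 0) (XT.lf (nat_lit 76) (nat_lit 26055037) (nat_lit 0) (nat_lit 12960080455) (nat_lit 760) (nat_lit 10898612527) (nat_lit 77) (nat_lit 5) (nat_lit 76) (nat_lit 5) (nat_lit 86) (nat_lit 5) (nat_lit 278) (nat_lit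 274) (nat_lit 168)) (XT.nd (nat_lit 78) (nat_lit 0) (nat_lit 76) (XT.lf (nat_lit 76) (nat_lit 11150868717) (nat_lit 0) (nat_lit 2974803053) (nat_lit 760) (nat_lit 10374787395) (nat_lit 77) (nat_lit 5) (nat_lit 76) (nat_lit 5) (nat_lit 86) (nat_lit 5) (nat_lit 279) (nat_lit 274) (nat_lit 167)) (XT.lf (nat_lit 0) (nat_lit 15432602702) (nat_lit 684) (nat_lit 2437191144) (nat_lit 760) (nat_lit 7271661273) (nat_lit 77) (nat_lit 5) (nat_lit 86) (nat_lit 5) (nat_lit 87) (nat_lit 5) (nat_lit 280) (nat_lit 274) (nat_lit 166))))))) (XT.nd (nat_lit 702) (nat_lit 1216) (nat_lit 0) (XT.nd (nat_lit 312) (nat_lit 1368) (nat_lit 0) (XT.nd (nat_lit 156) (nat_lit 0) (nat_lit 76) (XT.nd (nat_lit 78) (nat_lit 0) (nat_lit 76) (XT.lf (nat_lit 76) (nat_lit 9263886616) (nat_lit 0) (nat_lit 7727891087) (nat_lit 760) (nat_lit 8813397474) (nat_lit 78) (nat_lit 5) (nat_lit 77) (nat_lit 5) (nat_lit 87) (nat_lit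 5) (nat_lit 281) (nat_lit 274) (nat_lit 165)) (XT.lf (nat_lit 0) (nat_lit 18710228733) (nat_lit 684) (nat_lit 4916627431) (nat_lit 760) (nat_lit 2871177479) (nat_lit 78) (nat_lit 5) (nat_lit 87) (nat_lit 5) (nat_lit 88) (nat_lit 5) (nat_lit 282) (nat_lit 274) (nat_lit 164))) (XT.nd (nat_lit 78) (nat_lit 0) (nat_lit 0) (XT.lf (nat_lit 76) (nat_lit 7394528559) (nat_lit 0) (nat_lit 13356265964) (nat_lit 760) (nat_lit 6462948297) (nat_lit 79) (nat_lit 5) (nat_lit 78) (nat_lit 5) (nat_lit 88) (nat_lit 5) (nat_lit 283) (nat_lit 274) (nat_lit 163)) (XT.lf (nat_lit 76) (nat_lit 20487290172) (nat_lit 0) (nat_lit 2483630551) (nat_lit 760) (nat_lit 4990456699) (nat_lit 79) (nat_lit 5) (nat_lit 78) (nat_lit 5) (nat_lit 88) (nat_lit 5) (nat_lit 284) (nat_lit 274) (nat_lit 162)))) (XT.nd (nat_lit 156) (nat_lit 836) (nat_lit 0) (XT.nd (nat_lit 78) (nat_lit 0) (nat_lit 0) (XT.lf (nat_lit 0) (nat_lit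 5520802698) (nat_lit 684) (nat_lit 20001465060) (nat_lit 760) (nat_lit 3213131051) (nat_lit 70) (nat_lit 5) (nat_lit 79) (nat_lit 5) (nat_lit 80) (nat_lit 5) (nat_lit 285) (nat_lit 274) (nat_lit 161)) (XT.lf (nat_lit 0) (nat_lit 19378205299) (nat_lit 684) (nat_lit 8984355107) (nat_lit 760) (nat_lit 1177506976) (nat_lit 70) (nat_lit 5) (nat_lit 79) (nat_lit 5) (nat_lit 80) (nat_lit 5) (nat_lit 286) (nat_lit 274) (nat_lit 160))) (XT.nd (nat_lit 78) (nat_lit 380) (nat_lit 0) (XT.lf (nat_lit 0) (nat_lit 1022432084) (nat_lit 456) (nat_lit 26782745765) (nat_lit 76) (nat_lit 2574393008) (nat_lit 64) (nat_lit 5) (nat_lit 70) (nat_lit 5) (nat_lit 65) (nat_lit 5) (nat_lit 287) (nat_lit 274) (nat_lit 159)) (XT.nd (nat_lit 78) (nat_lit 380) (nat_lit 0) (XT.lf (nat_lit 0) (nat_lit 3610073017) (nat_lit 456) (nat_lit 13030416080) (nat_lit 76) (nat_lit 14603744379) (nat_lit 64) (nat_lit 5) (nat_lit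 70) (nat_lit 5) (nat_lit 65) (nat_lit 5) (nat_lit 288) (nat_lit 274) (nat_lit 158)) (XT.lf (nat_lit 0) (nat_lit 1451407271) (nat_lit 380) (nat_lit 4893658846) (nat_lit 456) (nat_lit 25806176966) (nat_lit 59) (nat_lit 5) (nat_lit 64) (nat_lit 5) (nat_lit 65) (nat_lit 5) (nat_lit 289) (nat_lit 274) (nat_lit 157)))))) (XT.nd (nat_lit 312) (nat_lit 912) (nat_lit 0) (XT.nd (nat_lit 156) (nat_lit 304) (nat_lit 0) (XT.nd (nat_lit 78) (nat_lit 0) (nat_lit 0) (XT.lf (nat_lit 0) (nat_lit 9552733349) (nat_lit 456) (nat_lit 16107388118) (nat_lit 76) (nat_lit 7426697258) (nat_lit 59) (nat_lit 5) (nat_lit 65) (nat_lit 5) (nat_lit 60) (nat_lit 5) (nat_lit 290) (nat_lit 274) (nat_lit 156)) (XT.lf (nat_lit 0) (nat_lit 12996687065) (nat_lit 456) (nat_lit 870058405) (nat_lit 76) (nat_lit 20198643738) (nat_lit 59) (nat_lit 5) (nat_lit 65) (nat_lit 5) (nat_lit 60) (nat_lit 5) (nat_lit 291) (nat_lit 274)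 (nat_lit 155))) (XT.nd (nat_lit 78) (nat_lit 0) (nat_lit 0) (XT.lf (nat_lit 0) (nat_lit 15624931808) (nat_lit 304) (nat_lit 1227740594) (nat_lit 380) (nat_lit 18228234799) (nat_lit 55) (nat_lit 5) (nat_lit 59) (nat_lit 5) (nat_lit 60) (nat_lit 5) (nat_lit 292) (nat_lit 274) (nat_lit 154)) (XT.lf (nat_lit 0) (nat_lit 21100472738) (nat_lit 380) (nat_lit 3364293822) (nat_lit 76) (nat_lit 11672493919) (nat_lit 55) (nat_lit 5) (nat_lit 60) (nat_lit 5) (nat_lit 56) (nat_lit 5) (nat_lit 293) (nat_lit 274) (nat_lit 153)))) (XT.nd (nat_lit 156) (nat_lit 608) (nat_lit 0) (XT.nd (nat_lit 78) (nat_lit 0) (nat_lit 0) (XT.lf (nat_lit 0) (nat_lit 13954241539) (nat_lit 304) (nat_lit 11840614204) (nat_lit 380) (nat_lit 11439875734) (nat_lit 51) (nat_lit 5) (nat_lit 55) (nat_lit 5) (nat_lit 56) (nat_lit 5) (nat_lit 294) (nat_lit 274) (nat_lit 152)) (XT.lf (nat_lit 0) (nat_lit 30800265533) (nat_lit 380)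 (nat_lit 6156089120) (nat_lit 76) (nat_lit 1426915218) (nat_lit 51) (nat_lit 5) (nat_lit 56) (nat_lit 5) (nat_lit 52) (nat_lit 5) (nat_lit 295) (nat_lit 274) (nat_lit 151))) (XT.nd (nat_lit 78) (nat_lit 380) (nat_lit 0) (XT.lf (nat_lit 0) (nat_lit 12010703625) (nat_lit 228) (nat_lit 24423356608) (nat_lit 304) (nat_lit 3136278018) (nat_lit 48) (nat_lit 5) (nat_lit 51) (nat_lit 5) (nat_lit 52) (nat_lit 5) (nat_lit 296) (nat_lit 274) (nat_lit 150)) (XT.nd (nat_lit 78) (nat_lit 304) (nat_lit 0) (XT.lf (nat_lit 0) (nat_lit 1586216454) (nat_lit 304) (nat_lit 9541819241) (nat_lit 76) (nat_lit 29682411247) (nat_lit 47) (nat_lit 5) (nat_lit 51) (nat_lit 5) (nat_lit 48) (nat_lit 5) (nat_lit 297) (nat_lit 274) (nat_lit 149)) (XT.lf (nat_lit 0) (nat_lit 6633986229) (nat_lit 380) (nat_lit 32520470178) (nat_lit 76) (nat_lit 2945814029) (nat_lit 43) (nat_lit 5) (nat_lit 48) (nat_lit 5) (nat_lit 44)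 (nat_lit 5) (nat_lit 298) (nat_lit 274) (nat_lit 148))))))))
noncomputable def xc206 : XT := (XT.nd (nat_lit 1404) (nat_lit 836) (nat_lit 0) (XT.nd (nat_lit 702) (nat_lit 684) (nat_lit 0) (XT.nd (nat_lit 312) (nat_lit 456) (nat_lit 0) (XT.nd (nat_lit 156) (nat_lit 228) (nat_lit 0) (XT.nd (nat_lit 78) (nat_lit 228) (nat_lit 0) (XT.lf (nat_lit 0) (nat_lit 12277591327) (nat_lit 380) (nat_lit 13646896066) (nat_lit 76) (nat_lit 17512932598) (nat_lit 43) (nat_lit 5) (nat_lit 48) (nat_lit 5) (nat_lit 44) (nat_lit 5) (nat_lit 299) (nat_lit 274) (nat_lit 147)) (XT.lf (nat_lit 0) (nat_lit 6370356552) (nat_lit 228) (nat_lit 11929408381) (nat_lit 304) (nat_lit 26536849564) (nat_lit 40) (nat_lit 5) (nat_lit 43) (nat_lit 5) (nat_lit 44) (nat_lit 5) (nat_lit 300) (nat_lit 274) (nat_lit 146))) (XT.nd (nat_lit 78) (nat_lit 228) (nat_lit 0) (XT.lf (nat_lit 0) (nat_lit 24898131245) (nat_lit 304) (nat_lit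 18482887725) (nat_lit 76) (nat_lit 2911002116) (nat_lit 40) (nat_lit 5) (nat_lit 44) (nat_lit 5) (nat_lit 41) (nat_lit 5) (nat_lit 301) (nat_lit 274) (nat_lit 145)) (XT.lf (nat_lit 0) (nat_lit 2376363281) (nat_lit 228) (nat_lit 29679863505) (nat_lit 304) (nat_lit 15752486917) (nat_lit 37) (nat_lit 5) (nat_lit 40) (nat_lit 5) (nat_lit 41) (nat_lit 5) (nat_lit 302) (nat_lit 274) (nat_lit 144)))) (XT.nd (nat_lit 156) (nat_lit 456) (nat_lit 0) (XT.nd (nat_lit 78) (nat_lit 0) (nat_lit 0) (XT.lf (nat_lit 0) (nat_lit 24916539847) (nat_lit 228) (nat_lit 14965926904) (nat_lit 304) (nat_lit 9503268165) (nat_lit 37) (nat_lit 5) (nat_lit 40) (nat_lit 5) (nat_lit 41) (nat_lit 5) (nat_lit 303) (nat_lit 274) (nat_lit 143)) (XT.lf (nat_lit 0) (nat_lit 48104911929) (nat_lit 304) (nat_lit 2469101750) (nat_lit 76) (nat_lit 467354515) (nat_lit 37) (nat_lit 5) (nat_lit 41) (nat_lit 5) (nat_lit 38) (nat_lit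 5) (nat_lit 304) (nat_lit 274) (nat_lit 142))) (XT.nd (nat_lit 78) (nat_lit 228) (nat_lit 0) (XT.lf (nat_lit 0) (nat_lit 4412913154) (nat_lit 228) (nat_lit 31766300479) (nat_lit 76) (nat_lit 16568438328) (nat_lit 34) (nat_lit 5) (nat_lit 37) (nat_lit 5) (nat_lit 35) (nat_lit 5) (nat_lit 305) (nat_lit 274) (nat_lit 141)) (XT.nd (nat_lit 78) (nat_lit 228) (nat_lit 0) (XT.lf (nat_lit 0) (nat_lit 12071057136) (nat_lit 228) (nat_lit 8899458952) (nat_lit 76) (nat_lit 33564332276) (nat_lit 34) (nat_lit 5) (nat_lit 37) (nat_lit 5) (nat_lit 35) (nat_lit 5) (nat_lit 306) (nat_lit 274) (nat_lit 140)) (XT.lf (nat_lit 0) (nat_lit 15606885604) (nat_lit 228) (nat_lit 4746498834) (nat_lit 304) (nat_lit 36045961004) (nat_lit 31) (nat_lit 5) (nat_lit 34) (nat_lit 5) (nat_lit 35) (nat_lit 5) (nat_lit 307) (nat_lit 274) (nat_lit 139)))))) (XT.nd (nat_lit 312) (nat_lit 532) (nat_lit 0) (XT.nd (nat_lit 156)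 (nat_lit 0) (nat_lit 0) (XT.nd (nat_lit 78) (nat_lit 152) (nat_lit 0) (XT.lf (nat_lit 0) (nat_lit 29392532852) (nat_lit 304) (nat_lit 16899755528) (nat_lit 76) (nat_lit 12047648194) (nat_lit 31) (nat_lit 5) (nat_lit 35) (nat_lit 5) (nat_lit 32) (nat_lit 5) (nat_lit 308) (nat_lit 274) (nat_lit 138)) (XT.lf (nat_lit 0) (nat_lit 8374564835) (nat_lit 152) (nat_lit 30715403344) (nat_lit 228) (nat_lit 21277276837) (nat_lit 29) (nat_lit 5) (nat_lit 31) (nat_lit 5) (nat_lit 32) (nat_lit 5) (nat_lit 309) (nat_lit 274) (nat_lit 137))) (XT.nd (nat_lit 78) (nat_lit 0) (nat_lit 0) (XT.lf (nat_lit 0) (nat_lit 35496128847) (nat_lit 152) (nat_lit 14060176016) (nat_lit 228) (nat_lit 12925416564) (nat_lit 29) (nat_lit 5) (nat_lit 31) (nat_lit 5) (nat_lit 32) (nat_lit 5) (nat_lit 310) (nat_lit 274) (nat_lit 136)) (XT.lf (nat_lit 0) (nat_lit 60597388678) (nat_lit 228) (nat_lit 784802321) (nat_lit 76) (nat_lit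 3317162979) (nat_lit 29) (nat_lit 5) (nat_lit 32) (nat_lit 5) (nat_lit 30) (nat_lit 5) (nat_lit 311) (nat_lit 274) (nat_lit 135)))) (XT.nd (nat_lit 156) (nat_lit 304) (nat_lit 0) (XT.nd (nat_lit 78) (nat_lit 0) (nat_lit 0) (XT.lf (nat_lit 0) (nat_lit 5663974381) (nat_lit 228) (nat_lit 39717924620) (nat_lit 76) (nat_lit 21608614795) (nat_lit 26) (nat_lit 5) (nat_lit 29) (nat_lit 5) (nat_lit 27) (nat_lit 5) (nat_lit 312) (nat_lit 274) (nat_lit 134)) (XT.lf (nat_lit 0) (nat_lit 15791892609) (nat_lit 228) (nat_lit 12705938636) (nat_lit 76) (nat_lit 40894464681) (nat_lit 26) (nat_lit 5) (nat_lit 29) (nat_lit 5) (nat_lit 27) (nat_lit 5) (nat_lit 313) (nat_lit 274) (nat_lit 133))) (XT.nd (nat_lit 78) (nat_lit 152) (nat_lit 0) (XT.lf (nat_lit 0) (nat_lit 16171369387) (nat_lit 152) (nat_lit 10505437379) (nat_lit 228) (nat_lit 45224833550) (nat_lit 24) (nat_lit 5) (nat_lit 26) (nat_lit 5) (nat_lit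 27) (nat_lit 5) (nat_lit 314) (nat_lit 274) (nat_lit 132)) (XT.nd (nat_lit 78) (nat_lit 152) (nat_lit 0) (XT.lf (nat_lit 0) (nat_lit 38453763249) (nat_lit 228) (nat_lit 27729389409) (nat_lit 76) (nat_lit 8335912441) (nat_lit 24) (nat_lit 5) (nat_lit 27) (nat_lit 5) (nat_lit 25) (nat_lit 5) (nat_lit 315) (nat_lit 274) (nat_lit 131)) (XT.lf (nat_lit 0) (nat_lit 1546041419) (nat_lit 152) (nat_lit 49468122443) (nat_lit 228) (nat_lit 26243470305) (nat_lit 22) (nat_lit 5) (nat_lit 24) (nat_lit 5) (nat_lit 25) (nat_lit 5) (nat_lit 316) (nat_lit 274) (nat_lit 130))))))) (XT.nd (nat_lit 702) (nat_lit 456) (nat_lit 0) (XT.nd (nat_lit 312) (nat_lit 228) (nat_lit 0) (XT.nd (nat_lit 156) (nat_lit 152) (nat_lit 0) (XT.nd (nat_lit 78) (nat_lit 0) (nat_lit 0) (XT.lf (nat_lit 0) (nat_lit 33245232587) (nat_lit 152) (nat_lit 31425242075) (nat_lit 228) (nat_lit 15439265243) (nat_lit 22) (nat_lit 5) (nat_lit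 24) (nat_lit 5) (nat_lit 25) (nat_lit 5) (nat_lit 317) (nat_lit 274) (nat_lit 129)) (XT.lf (nat_lit 0) (nat_lit 66526799516) (nat_lit 152) (nat_lit 12481162944) (nat_lit 228) (nat_lit 4096572992) (nat_lit 22) (nat_lit 5) (nat_lit 24) (nat_lit 5) (nat_lit 25) (nat_lit 5) (nat_lit 318) (nat_lit 274) (nat_lit 128))) (XT.nd (nat_lit 78) (nat_lit 0) (nat_lit 0) (XT.lf (nat_lit 0) (nat_lit 7926792995) (nat_lit 152) (nat_lit 70754438585) (nat_lit 76) (nat_lit 7543561609) (nat_lit 20) (nat_lit 5) (nat_lit 22) (nat_lit 5) (nat_lit 21) (nat_lit 5) (nat_lit 319) (nat_lit 274) (nat_lit 127)) (XT.lf (nat_lit 0) (nat_lit 20902053355) (nat_lit 152) (nat_lit 40069544095) (nat_lit 76) (nat_lit 28501690868) (nat_lit 20) (nat_lit 5) (nat_lit 22) (nat_lit 5) (nat_lit 21) (nat_lit 5) (nat_lit 320) (nat_lit 274) (nat_lit 126)))) (XT.nd (nat_lit 156) (nat_lit 76) (nat_lit 0) (XT.nd (nat_lit 78) (nat_lit 152)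 (nat_lit 0) (XT.lf (nat_lit 0) (nat_lit 34524585389) (nat_lit 152) (nat_lit 7852824365) (nat_lit 76) (nat_lit 50506875151) (nat_lit 20) (nat_lit 5) (nat_lit 22) (nat_lit 5) (nat_lit 21) (nat_lit 5) (nat_lit 321) (nat_lit 274) (nat_lit 125)) (XT.lf (nat_lit 0) (nat_lit 26831192814) (nat_lit 152) (nat_lit 22414540997) (nat_lit 228) (nat_lit 47199225056) (nat_lit 18) (nat_lit 5) (nat_lit 20) (nat_lit 5) (nat_lit 21) (nat_lit 5) (nat_lit 322) (nat_lit 274) (nat_lit 124))) (XT.nd (nat_lit 78) (nat_lit 76) (nat_lit 0) (XT.lf (nat_lit 0) (nat_lit 63519776077) (nat_lit 152) (nat_lit 1314766869) (nat_lit 228) (nat_lit 35342545352) (nat_lit 18) (nat_lit 5) (nat_lit 20) (nat_lit 5) (nat_lit 21) (nat_lit 5) (nat_lit 323) (nat_lit 274) (nat_lit 123)) (XT.nd (nat_lit 78) (nat_lit 76) (nat_lit 0) (XT.lf (nat_lit 0) (nat_lit 81526828219) (nat_lit 228) (nat_lit 2380620459) (nat_lit 76) (nat_lit 20172175582)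 (nat_lit 18) (nat_lit 5) (nat_lit 21) (nat_lit 5) (nat_lit 19) (nat_lit 4) (nat_lit 324) (nat_lit 274) (nat_lit 122)) (XT.lf (nat_lit 0) (nat_lit 34696756641) (nat_lit 76) (nat_lit 64918966792) (nat_lit 152) (nat_lit 8533465561) (nat_lit 17) (nat_lit 5) (nat_lit 18) (nat_lit 5) (nat_lit 19) (nat_lit 4) (nat_lit 325) (nat_lit 274) (nat_lit 121)))))) (XT.nd (nat_lit 312) (nat_lit 228) (nat_lit 0) (XT.nd (nat_lit 156) (nat_lit 152) (nat_lit 0) (XT.nd (nat_lit 78) (nat_lit 0) (nat_lit 0) (XT.lf (nat_lit 0) (nat_lit 6028526762) (nat_lit 152) (nat_lit 38808936477) (nat_lit 76) (nat_lit 67577955002) (nat_lit 16) (nat_lit 5) (nat_lit 18) (nat_lit 5) (nat_lit 17) (nat_lit 5) (nat_lit 326) (nat_lit 274) (nat_lit 120)) (XT.lf (nat_lit 0) (nat_lit 21030633226) (nat_lit 152) (nat_lit 2575175839) (nat_lit 76) (nat_lit 93282217012) (nat_lit 16) (nat_lit 5) (nat_lit 18) (nat_lit 5) (nat_lit 17) (nat_lit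 5) (nat_lit 327) (nat_lit 274) (nat_lit 119))) (XT.nd (nat_lit 78) (nat_lit 0) (nat_lit 0) (XT.lf (nat_lit 0) (nat_lit 36641095618) (nat_lit 152) (nat_lit 712671892) (nat_lit 228) (nat_lit 84201952116) (nat_lit 14) (nat_lit 5) (nat_lit 16) (nat_lit 5) (nat_lit 17) (nat_lit 5) (nat_lit 328) (nat_lit 274) (nat_lit 118)) (XT.lf (nat_lit 0) (nat_lit 54900421297) (nat_lit 228) (nat_lit 48913853428) (nat_lit 76) (nat_lit 22622156363) (nat_lit 14) (nat_lit 5) (nat_lit 17) (nat_lit 5) (nat_lit 15) (nat_lit 4) (nat_lit 329) (nat_lit 274) (nat_lit 117)))) (XT.nd (nat_lit 156) (nat_lit 152) (nat_lit 0) (XT.nd (nat_lit 78) (nat_lit 76) (nat_lit 0) (XT.lf (nat_lit 0) (nat_lit 73335010410) (nat_lit 228) (nat_lit 11126570926) (nat_lit 76) (nat_lit 47099067966) (nat_lit 14) (nat_lit 5) (nat_lit 17) (nat_lit 5) (nat_lit 15) (nat_lit 4) (nat_lit 330) (nat_lit 274) (nat_lit 116)) (XT.lf (nat_lit 0) (nat_lit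 29492256411) (nat_lit 76) (nat_lit 63658500287) (nat_lit 152) (nat_lit 43767351591) (nat_lit 13) (nat_lit 5) (nat_lit 14) (nat_lit 5) (nat_lit 15) (nat_lit 4) (nat_lit 331) (nat_lit 274) (nat_lit 115))) (XT.nd (nat_lit 78) (nat_lit 152) (nat_lit 0) (XT.lf (nat_lit 0) (nat_lit 72526587174) (nat_lit 76) (nat_lit 41618129967) (nat_lit 152) (nat_lit 28389352931) (nat_lit 13) (nat_lit 5) (nat_lit 14) (nat_lit 5) (nat_lit 15) (nat_lit 4) (nat_lit 332) (nat_lit 274) (nat_lit 114)) (XT.nd (nat_lit 78) (nat_lit 152) (nat_lit 0) (XT.lf (nat_lit 0) (nat_lit 117710989370) (nat_lit 76) (nat_lit 18476427168) (nat_lit 152) (nat_lit 12243462492) (nat_lit 13) (nat_lit 5) (nat_lit 14) (nat_lit 5) (nat_lit 15) (nat_lit 4) (nat_lit 333) (nat_lit 274) (nat_lit 113)) (XT.lf (nat_lit 0) (nat_lit 4821576339) (nat_lit 152) (nat_lit 143902622770) (nat_lit 76) (nat_lit 5881524036) (nat_lit 11) (nat_lit 5) (nat_lit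 13) (nat_lit 5) (nat_lit 12) (nat_lit 4) (nat_lit 334) (nat_lit 274) (nat_lit 112))))))))
noncomputable def xc207 : XT := (XT.nd (nat_lit 32916) (nat_lit 0) (nat_lit 3648) (XT.nd (nat_lit 702) (nat_lit 152) (nat_lit 0) (XT.nd (nat_lit 312) (nat_lit 76) (nat_lit 0) (XT.nd (nat_lit 156) (nat_lit 76) (nat_lit 0) (XT.nd (nat_lit 78) (nat_lit 0) (nat_lit 0) (XT.lf (nat_lit 0) (nat_lit 23159163657) (nat_lit 152) (nat_lit 106313273933) (nat_lit 76) (nat_lit 31565299369) (nat_lit 11) (nat_lit 5) (nat_lit 13) (nat_lit 5) (nat_lit 12) (nat_lit 4) (nat_lit 335) (nat_lit 274) (nat_lit 111)) (XT.lf (nat_lit 0) (nat_lit 42412754090) (nat_lit 152) (nat_lit 66845989895) (nat_lit 76) (nat_lit 58532652225) (nat_lit 11) (nat_lit 5) (nat_lit 13) (nat_lit 5) (nat_lit 12) (nat_lit 4) (nat_lit 336) (nat_lit 274) (nat_lit 110))) (XT.nd (nat_lit 78) (nat_lit 76) (nat_lit 0) (XT.lf (nat_lit 0) (nat_lit 62628189517)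 (nat_lit 152) (nat_lit 25406800933) (nat_lit 76) (nat_lit 86847790584) (nat_lit 11) (nat_lit 5) (nat_lit 13) (nat_lit 5) (nat_lit 12) (nat_lit 4) (nat_lit 337) (nat_lit 274) (nat_lit 109)) (XT.lf (nat_lit 0) (nat_lit 18701523225) (nat_lit 76) (nat_lit 65444061893) (nat_lit 152) (nat_lit 98168591408) (nat_lit 10) (nat_lit 5) (nat_lit 11) (nat_lit 5) (nat_lit 12) (nat_lit 4) (nat_lit 338) (nat_lit 274) (nat_lit 108)))) (XT.nd (nat_lit 156) (nat_lit 76) (nat_lit 0) (XT.nd (nat_lit 78) (nat_lit 0) (nat_lit 0) (XT.lf (nat_lit 0) (nat_lit 65895962978) (nat_lit 76) (nat_lit 41272385701) (nat_lit 152) (nat_lit 82927319010) (nat_lit 10) (nat_lit 5) (nat_lit 11) (nat_lit 5) (nat_lit 12) (nat_lit 4) (nat_lit 339) (nat_lit 274) (nat_lit 107)) (XT.lf (nat_lit 0) (nat_lit 115448822459) (nat_lit 76) (nat_lit 15892686732) (nat_lit 152) (nat_lit 66924762045) (nat_lit 10) (nat_lit 5) (nat_lit 11) (nat_lit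 5) (nat_lit 12) (nat_lit 4) (nat_lit 340) (nat_lit 274) (nat_lit 106))) (XT.nd (nat_lit 78) (nat_lit 76) (nat_lit 0) (XT.lf (nat_lit 0) (nat_lit 156890544716) (nat_lit 152) (nat_lit 39535279238) (nat_lit 0) (nat_lit 10411220888) (nat_lit 10) (nat_lit 5) (nat_lit 12) (nat_lit 4) (nat_lit 10) (nat_lit 4) (nat_lit 341) (nat_lit 274) (nat_lit 105)) (XT.nd (nat_lit 78) (nat_lit 0) (nat_lit 0) (XT.lf (nat_lit 0) (nat_lit 5836045272) (nat_lit 76) (nat_lit 178231959356) (nat_lit 76) (nat_lit 31750804565) (nat_lit 9) (nat_lit 4) (nat_lit 10) (nat_lit 5) (nat_lit 10) (nat_lit 4) (nat_lit 342) (nat_lit 274) (nat_lit 104)) (XT.lf (nat_lit 0) (nat_lit 54847323553) (nat_lit 76) (nat_lit 158425896650) (nat_lit 76) (nat_lit 11942998085) (nat_lit 9) (nat_lit 4) (nat_lit 10) (nat_lit 5) (nat_lit 10) (nat_lit 4) (nat_lit 343) (nat_lit 274) (nat_lit 103)))))) (XT.nd (nat_lit 312) (nat_lit 0) (nat_lit 0)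 (XT.nd (nat_lit 156) (nat_lit 76) (nat_lit 0) (XT.nd (nat_lit 78) (nat_lit 0) (nat_lit 0) (XT.lf (nat_lit 0) (nat_lit 8571131360) (nat_lit 152) (nat_lit 128913740012) (nat_lit 76) (nat_lit 97591746629) (nat_lit 8) (nat_lit 5) (nat_lit 10) (nat_lit 5) (nat_lit 9) (nat_lit 4) (nat_lit 344) (nat_lit 274) (nat_lit 102)) (XT.lf (nat_lit 0) (nat_lit 29708989280) (nat_lit 152) (nat_lit 85582712931) (nat_lit 76) (nat_lit 130128577466) (nat_lit 8) (nat_lit 5) (nat_lit 10) (nat_lit 5) (nat_lit 9) (nat_lit 4) (nat_lit 345) (nat_lit 274) (nat_lit 101))) (XT.nd (nat_lit 78) (nat_lit 76) (nat_lit 0) (XT.lf (nat_lit 0) (nat_lit 51903154430) (nat_lit 152) (nat_lit 40086180711) (nat_lit 76) (nat_lit 164291819123) (nat_lit 8) (nat_lit 5) (nat_lit 10) (nat_lit 5) (nat_lit 9) (nat_lit 4) (nat_lit 346) (nat_lit 274) (nat_lit 100)) (XT.lf (nat_lit 0) (nat_lit 7938255475) (nat_lit 76) (nat_lit 67392153000)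 (nat_lit 152) (nat_lit 192348495592) (nat_lit 7) (nat_lit 5) (nat_lit 8) (nat_lit 5) (nat_lit 9) (nat_lit 4) (nat_lit 347) (nat_lit 274) (nat_lit 99)))) (XT.nd (nat_lit 156) (nat_lit 0) (nat_lit 0) (XT.nd (nat_lit 78) (nat_lit 0) (nat_lit 0) (XT.lf (nat_lit 0) (nat_lit 59754634825) (nat_lit 76) (nat_lit 40852722744) (nat_lit 152) (nat_lit 179005267668) (nat_lit 7) (nat_lit 5) (nat_lit 8) (nat_lit 5) (nat_lit 9) (nat_lit 4) (nat_lit 348) (nat_lit 274) (nat_lit 98)) (XT.lf (nat_lit 0) (nat_lit 114160899500) (nat_lit 76) (nat_lit 12986734121) (nat_lit 152) (nat_lit 164995425340) (nat_lit 7) (nat_lit 5) (nat_lit 8) (nat_lit 5) (nat_lit 9) (nat_lit 4) (nat_lit 349) (nat_lit 274) (nat_lit 97))) (XT.nd (nat_lit 78) (nat_lit 0) (nat_lit 0) (XT.lf (nat_lit 0) (nat_lit 155268481792) (nat_lit 152) (nat_lit 134267505407) (nat_lit 0) (nat_lit 15751349704) (nat_lit 7) (nat_lit 5) (nat_lit 9) (nat_lit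 4) (nat_lit 7) (nat_lit 4) (nat_lit 350) (nat_lit 274) (nat_lit 96)) (XT.nd (nat_lit 31590) (nat_lit 0) (nat_lit 5168) (XT.lf (nat_lit 0) (nat_lit 185007791695) (nat_lit 152) (nat_lit 88580880952) (nat_lit 0) (nat_lit 45489535556) (nat_lit 7) (nat_lit 5) (nat_lit 9) (nat_lit 4) (nat_lit 7) (nat_lit 4) (nat_lit 351) (nat_lit 274) (nat_lit 95)) (XT.lf (nat_lit 0) (nat_lit 2756436120) (nat_lit 0) (nat_lit 2756436120) (nat_lit 684) (nat_lit 5839300482) (nat_lit 75) (nat_lit 5) (nat_lit 75) (nat_lit 3) (nat_lit 84) (nat_lit 3) (nat_lit 275) (nat_lit 275) (nat_lit 170))))))) (XT.nd (nat_lit 702) (nat_lit 1520) (nat_lit 0) (XT.nd (nat_lit 312) (nat_lit 0) (nat_lit 76) (XT.nd (nat_lit 156) (nat_lit 0) (nat_lit 76) (XT.nd (nat_lit 78) (nat_lit 0) (nat_lit 0) (XT.lf (nat_lit 0) (nat_lit 11489261043) (nat_lit 684) (nat_lit 7421542325) (nat_lit 760) (nat_lit 4351410157) (nat_lit 75) (nat_lit 5)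 (nat_lit 84) (nat_lit 3) (nat_lit 85) (nat_lit 5) (nat_lit 276) (nat_lit 275) (nat_lit 169)) (XT.lf (nat_lit 76) (nat_lit 2832958018) (nat_lit 0) (nat_lit 9270126034) (nat_lit 760) (nat_lit 11738556632) (nat_lit 76) (nat_lit 5) (nat_lit 75) (nat_lit 5) (nat_lit 85) (nat_lit 5) (nat_lit 277) (nat_lit 275) (nat_lit 168))) (XT.nd (nat_lit 78) (nat_lit 0) (nat_lit 0) (XT.lf (nat_lit 0) (nat_lit 12881520880) (nat_lit 684) (nat_lit 10605867892) (nat_lit 760) (nat_lit 955975445) (nat_lit 76) (nat_lit 5) (nat_lit 85) (nat_lit 5) (nat_lit 86) (nat_lit 5) (nat_lit 278) (nat_lit 275) (nat_lit 167)) (XT.lf (nat_lit 76) (nat_lit 166067895) (nat_lit 0) (nat_lit 13680577111) (nat_lit 760) (nat_lit 11221160791) (nat_lit 77) (nat_lit 5) (nat_lit 76) (nat_lit 5) (nat_lit 86) (nat_lit 5) (nat_lit 279) (nat_lit 275) (nat_lit 166)))) (XT.nd (nat_lit 156) (nat_lit 0) (nat_lit 76) (XT.nd (nat_lit 78) (nat_lit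 0) (nat_lit 76) (XT.lf (nat_lit 76) (nat_lit 11840517015) (nat_lit 0) (nat_lit 3192583809) (nat_lit 760) (nat_lit 10681734038) (nat_lit 77) (nat_lit 5) (nat_lit 76) (nat_lit 5) (nat_lit 86) (nat_lit 5) (nat_lit 280) (nat_lit 275) (nat_lit 165)) (XT.lf (nat_lit 0) (nat_lit 16394773358) (nat_lit 684) (nat_lit 2422069710) (nat_lit 760) (nat_lit 7571595887) (nat_lit 77) (nat_lit 5) (nat_lit 86) (nat_lit 5) (nat_lit 87) (nat_lit 5) (nat_lit 281) (nat_lit 275) (nat_lit 164))) (XT.nd (nat_lit 78) (nat_lit 0) (nat_lit 76) (XT.lf (nat_lit 76) (nat_lit 9861852567) (nat_lit 0) (nat_lit 8163085347) (nat_lit 760) (nat_lit 9060782319) (nat_lit 78) (nat_lit 5) (nat_lit 77) (nat_lit 5) (nat_lit 87) (nat_lit 5) (nat_lit 282) (nat_lit 275) (nat_lit 163)) (XT.nd (nat_lit 78) (nat_lit 0) (nat_lit 0) (XT.lf (nat_lit 0) (nat_lit 19819844384) (nat_lit 684) (nat_lit 5024128113) (nat_lit 760) (nat_lit 2969747962)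 (nat_lit 78) (nat_lit 5) (nat_lit 87) (nat_lit 5) (nat_lit 88) (nat_lit 5) (nat_lit 283) (nat_lit 275) (nat_lit 162)) (XT.lf (nat_lit 76) (nat_lit 7900354536) (nat_lit 0) (nat_lit 14055918147) (nat_lit 760) (nat_lit 6609274972) (nat_lit 79) (nat_lit 5) (nat_lit 78) (nat_lit 5) (nat_lit 88) (nat_lit 5) (nat_lit 284) (nat_lit 275) (nat_lit 161)))))) (XT.nd (nat_lit 390) (nat_lit 684) (nat_lit 0) (XT.nd (nat_lit 156) (nat_lit 456) (nat_lit 0) (XT.nd (nat_lit 78) (nat_lit 608) (nat_lit 0) (XT.lf (nat_lit 76) (nat_lit 21641273298) (nat_lit 0) (nat_lit 2638134826) (nat_lit 760) (nat_lit 5071578830) (nat_lit 79) (nat_lit 5) (nat_lit 78) (nat_lit 5) (nat_lit 88) (nat_lit 5) (nat_lit 285) (nat_lit 275) (nat_lit 160)) (XT.lf (nat_lit 0) (nat_lit 5933159513) (nat_lit 684) (nat_lit 21019224149) (nat_lit 760) (nat_lit 3211644704) (nat_lit 70) (nat_lit 5) (nat_lit 79) (nat_lit 5) (nat_lit 80) (nat_lit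 5) (nat_lit 286) (nat_lit 275) (nat_lit 159))) (XT.nd (nat_lit 78) (nat_lit 456) (nat_lit 0) (XT.lf (nat_lit 0) (nat_lit 20476940974) (nat_lit 684) (nat_lit 9450416516) (nat_lit 760) (nat_lit 1081960516) (nat_lit 70) (nat_lit 5) (nat_lit 79) (nat_lit 5) (nat_lit 80) (nat_lit 5) (nat_lit 287) (nat_lit 275) (nat_lit 158)) (XT.nd (nat_lit 78) (nat_lit 0) (nat_lit 0) (XT.lf (nat_lit 0) (nat_lit 1217812498) (nat_lit 456) (nat_lit 27981115006) (nat_lit 76) (nat_lit 2692028644) (nat_lit 64) (nat_lit 5) (nat_lit 70) (nat_lit 5) (nat_lit 65) (nat_lit 5) (nat_lit 288) (nat_lit 275) (nat_lit 157)) (XT.lf (nat_lit 0) (nat_lit 3927966010) (nat_lit 456) (nat_lit 13547872076) (nat_lit 76) (nat_lit 15323375394) (nat_lit 64) (nat_lit 5) (nat_lit 70) (nat_lit 5) (nat_lit 65) (nat_lit 5) (nat_lit 289) (nat_lit 275) (nat_lit 156))))) (XT.nd (nat_lit 156) (nat_lit 304) (nat_lit 0) (XT.nd (nat_lit 78) (nat_lit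 0) (nat_lit 0) (XT.lf (nat_lit 0) (nat_lit 1655880107) (nat_lit 380) (nat_lit 5139345677) (nat_lit 456) (nat_lit 26956589183) (nat_lit 59) (nat_lit 5) (nat_lit 64) (nat_lit 5) (nat_lit 65) (nat_lit 5) (nat_lit 290) (nat_lit 275) (nat_lit 155)) (XT.lf (nat_lit 0) (nat_lit 10156932575) (nat_lit 456) (nat_lit 16780463793) (nat_lit 76) (nat_lit 7797106638) (nat_lit 59) (nat_lit 5) (nat_lit 65) (nat_lit 5) (nat_lit 60) (nat_lit 5) (nat_lit 291) (nat_lit 275) (nat_lit 154))) (XT.nd (nat_lit 78) (nat_lit 304) (nat_lit 0) (XT.lf (nat_lit 0) (nat_lit 13767057188) (nat_lit 456) (nat_lit 787567296) (nat_lit 76) (nat_lit 21207694512) (nat_lit 59) (nat_lit 5) (nat_lit 65) (nat_lit 5) (nat_lit 60) (nat_lit 5) (nat_lit 292) (nat_lit 275) (nat_lit 153)) (XT.nd (nat_lit 78) (nat_lit 0) (nat_lit 0) (XT.lf (nat_lit 0) (nat_lit 16530140266) (nat_lit 304) (nat_lit 1281897120) (nat_lit 380) (nat_lit 19016780623)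 (nat_lit 55) (nat_lit 5) (nat_lit 59) (nat_lit 5) (nat_lit 60) (nat_lit 5) (nat_lit 293) (nat_lit 275) (nat_lit 152)) (XT.lf (nat_lit 0) (nat_lit 22266776615) (nat_lit 380) (nat_lit 3408714673) (nat_lit 76) (nat_lit 12262784408) (nat_lit 55) (nat_lit 5) (nat_lit 60) (nat_lit 5) (nat_lit 56) (nat_lit 5) (nat_lit 294) (nat_lit 275) (nat_lit 151))))))))
noncomputable def xc208 : XT := (XT.nd (nat_lit 1404) (nat_lit 1140) (nat_lit 0) (XT.nd (nat_lit 702) (nat_lit 608) (nat_lit 0) (XT.nd (nat_lit 312) (nat_lit 760) (nat_lit 0) (XT.nd (nat_lit 156) (nat_lit 304) (nat_lit 0) (XT.nd (nat_lit 78) (nat_lit 0) (nat_lit 0) (XT.lf (nat_lit 0) (nat_lit 14773750781) (nat_lit 304) (nat_lit 12418730526) (nat_lit 380) (nat_lit 11898322325) (nat_lit 51) (nat_lit 5) (nat_lit 55) (nat_lit 5) (nat_lit 56) (nat_lit 5) (nat_lit 295) (nat_lit 275) (nat_lit 150)) (XT.lf (nat_lit 0) (nat_lit 32443231208) (nat_lit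 380) (nat_lit 6342708490) (nat_lit 76) (nat_lit 1511088637) (nat_lit 51) (nat_lit 5) (nat_lit 56) (nat_lit 5) (nat_lit 52) (nat_lit 5) (nat_lit 296) (nat_lit 275) (nat_lit 149))) (XT.nd (nat_lit 78) (nat_lit 76) (nat_lit 0) (XT.lf (nat_lit 0) (nat_lit 12730469295) (nat_lit 228) (nat_lit 25625205375) (nat_lit 304) (nat_lit 3187939770) (nat_lit 48) (nat_lit 5) (nat_lit 51) (nat_lit 5) (nat_lit 52) (nat_lit 5) (nat_lit 297) (nat_lit 275) (nat_lit 148)) (XT.lf (nat_lit 0) (nat_lit 1762466919) (nat_lit 304) (nat_lit 9901929734) (nat_lit 76) (nat_lit 31181503294) (nat_lit 47) (nat_lit 5) (nat_lit 51) (nat_lit 5) (nat_lit 48) (nat_lit 5) (nat_lit 298) (nat_lit 275) (nat_lit 147)))) (XT.nd (nat_lit 156) (nat_lit 456) (nat_lit 0) (XT.nd (nat_lit 78) (nat_lit 0) (nat_lit 0) (XT.lf (nat_lit 0) (nat_lit 7060133396) (nat_lit 380) (nat_lit 34026809659) (nat_lit 76) (nat_lit 3113406738) (nat_lit 43)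 (nat_lit 5) (nat_lit 48) (nat_lit 5) (nat_lit 44) (nat_lit 5) (nat_lit 299) (nat_lit 275) (nat_lit 146)) (XT.lf (nat_lit 0) (nat_lit 12981421232) (nat_lit 380) (nat_lit 14215256081) (nat_lit 76) (nat_lit 18407914473) (nat_lit 43) (nat_lit 5) (nat_lit 48) (nat_lit 5) (nat_lit 44) (nat_lit 5) (nat_lit 300) (nat_lit 275) (nat_lit 145))) (XT.nd (nat_lit 78) (nat_lit 228) (nat_lit 0) (XT.lf (nat_lit 0) (nat_lit 6801020703) (nat_lit 228) (nat_lit 12501150383) (nat_lit 304) (nat_lit 27771711157) (nat_lit 40) (nat_lit 5) (nat_lit 43) (nat_lit 5) (nat_lit 44) (nat_lit 5) (nat_lit 301) (nat_lit 275) (nat_lit 144)) (XT.nd (nat_lit 78) (nat_lit 228) (nat_lit 0) (XT.lf (nat_lit 0) (nat_lit 26226660652) (nat_lit 304) (nat_lit 19296248090) (nat_lit 76) (nat_lit 3079349319) (nat_lit 40) (nat_lit 5) (nat_lit 44) (nat_lit 5) (nat_lit 41) (nat_lit 5) (nat_lit 302) (nat_lit 275) (nat_lit 143)) (XT.lf (nat_lit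 0) (nat_lit 2604178627) (nat_lit 228) (nat_lit 31136202054) (nat_lit 304) (nat_lit 16454527354) (nat_lit 37) (nat_lit 5) (nat_lit 40) (nat_lit 5) (nat_lit 41) (nat_lit 5) (nat_lit 303) (nat_lit 275) (nat_lit 142)))))) (XT.nd (nat_lit 312) (nat_lit 380) (nat_lit 0) (XT.nd (nat_lit 156) (nat_lit 228) (nat_lit 0) (XT.nd (nat_lit 78) (nat_lit 0) (nat_lit 0) (XT.lf (nat_lit 0) (nat_lit 26266173679) (nat_lit 228) (nat_lit 15687885510) (nat_lit 304) (nat_lit 9896923089) (nat_lit 37) (nat_lit 5) (nat_lit 40) (nat_lit 5) (nat_lit 41) (nat_lit 5) (nat_lit 304) (nat_lit 275) (nat_lit 141)) (XT.lf (nat_lit 0) (nat_lit 50584329247) (nat_lit 304) (nat_lit 2490237772) (nat_lit 76) (nat_lit 515002972) (nat_lit 37) (nat_lit 5) (nat_lit 41) (nat_lit 5) (nat_lit 38) (nat_lit 5) (nat_lit 305) (nat_lit 275) (nat_lit 140))) (XT.nd (nat_lit 78) (nat_lit 0) (nat_lit 0) (XT.lf (nat_lit 0) (nat_lit 4707099747)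 (nat_lit 228) (nat_lit 33251371815) (nat_lit 76) (nat_lit 17422742615) (nat_lit 34) (nat_lit 5) (nat_lit 37) (nat_lit 5) (nat_lit 35) (nat_lit 5) (nat_lit 306) (nat_lit 275) (nat_lit 139)) (XT.lf (nat_lit 0) (nat_lit 12744648979) (nat_lit 228) (nat_lit 9246104577) (nat_lit 76) (nat_lit 35267198767) (nat_lit 34) (nat_lit 5) (nat_lit 37) (nat_lit 5) (nat_lit 35) (nat_lit 5) (nat_lit 307) (nat_lit 275) (nat_lit 138)))) (XT.nd (nat_lit 156) (nat_lit 152) (nat_lit 0) (XT.nd (nat_lit 78) (nat_lit 0) (nat_lit 0) (XT.lf (nat_lit 0) (nat_lit 16483971282) (nat_lit 228) (nat_lit 4955296578) (nat_lit 304) (nat_lit 37776504134) (nat_lit 31) (nat_lit 5) (nat_lit 34) (nat_lit 5) (nat_lit 35) (nat_lit 5) (nat_lit 308) (nat_lit 275) (nat_lit 137)) (XT.lf (nat_lit 0) (nat_lit 30927549580) (nat_lit 304) (nat_lit 17649660707) (nat_lit 76) (nat_lit 12676329793) (nat_lit 31) (nat_lit 5) (nat_lit 35) (nat_lit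 5) (nat_lit 32) (nat_lit 5) (nat_lit 309) (nat_lit 275) (nat_lit 136))) (XT.nd (nat_lit 78) (nat_lit 0) (nat_lit 0) (XT.lf (nat_lit 0) (nat_lit 8886842084) (nat_lit 152) (nat_lit 32221361338) (nat_lit 228) (nat_lit 22274099081) (nat_lit 29) (nat_lit 5) (nat_lit 31) (nat_lit 5) (nat_lit 32) (nat_lit 5) (nat_lit 310) (nat_lit 275) (nat_lit 135)) (XT.nd (nat_lit 78) (nat_lit 0) (nat_lit 0) (XT.lf (nat_lit 0) (nat_lit 37360029581) (nat_lit 152) (nat_lit 14734792272) (nat_lit 228) (nat_lit 13507838251) (nat_lit 29) (nat_lit 5) (nat_lit 31) (nat_lit 5) (nat_lit 32) (nat_lit 5) (nat_lit 311) (nat_lit 275) (nat_lit 134)) (XT.lf (nat_lit 0) (nat_lit 63685491478) (nat_lit 228) (nat_lit 736615389) (nat_lit 76) (nat_lit 3509196182) (nat_lit 29) (nat_lit 5) (nat_lit 32) (nat_lit 5) (nat_lit 30) (nat_lit 5) (nat_lit 312) (nat_lit 275) (nat_lit 133))))))) (XT.nd (nat_lit 702) (nat_lit 456) (nat_lit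 0) (XT.nd (nat_lit 312) (nat_lit 304) (nat_lit 0) (XT.nd (nat_lit 156) (nat_lit 152) (nat_lit 0) (XT.nd (nat_lit 78) (nat_lit 0) (nat_lit 0) (XT.lf (nat_lit 0) (nat_lit 6005006221) (nat_lit 228) (nat_lit 41615794678) (nat_lit 76) (nat_lit 22716249915) (nat_lit 26) (nat_lit 5) (nat_lit 29) (nat_lit 5) (nat_lit 27) (nat_lit 5) (nat_lit 313) (nat_lit 275) (nat_lit 132)) (XT.lf (nat_lit 0) (nat_lit 16636566403) (nat_lit 228) (nat_lit 13257401117) (nat_lit 76) (nat_lit 42965096849) (nat_lit 26) (nat_lit 5) (nat_lit 29) (nat_lit 5) (nat_lit 27) (nat_lit 5) (nat_lit 314) (nat_lit 275) (nat_lit 131))) (XT.nd (nat_lit 78) (nat_lit 0) (nat_lit 0) (XT.lf (nat_lit 0) (nat_lit 17062420138) (nat_lit 152) (nat_lit 11001971091) (nat_lit 228) (nat_lit 47429555901) (nat_lit 24) (nat_lit 5) (nat_lit 26) (nat_lit 5) (nat_lit 27) (nat_lit 5) (nat_lit 315) (nat_lit 275) (nat_lit 130)) (XT.lf (nat_lit 0)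 (nat_lit 40428063610) (nat_lit 228) (nat_lit 29035088594) (nat_lit 76) (nat_lit 8779201735) (nat_lit 24) (nat_lit 5) (nat_lit 27) (nat_lit 5) (nat_lit 25) (nat_lit 5) (nat_lit 316) (nat_lit 275) (nat_lit 129)))) (XT.nd (nat_lit 156) (nat_lit 152) (nat_lit 0) (XT.nd (nat_lit 78) (nat_lit 0) (nat_lit 0) (XT.lf (nat_lit 0) (nat_lit 1702811029) (nat_lit 152) (nat_lit 51912456211) (nat_lit 228) (nat_lit 27502649061) (nat_lit 22) (nat_lit 5) (nat_lit 24) (nat_lit 5) (nat_lit 25) (nat_lit 5) (nat_lit 317) (nat_lit 275) (nat_lit 128)) (XT.lf (nat_lit 0) (nat_lit 34983177588) (nat_lit 152) (nat_lit 32968816222) (nat_lit 228) (nat_lit 16160757305) (nat_lit 22) (nat_lit 5) (nat_lit 24) (nat_lit 5) (nat_lit 25) (nat_lit 5) (nat_lit 318) (nat_lit 275) (nat_lit 127))) (XT.nd (nat_lit 78) (nat_lit 152) (nat_lit 0) (XT.lf (nat_lit 0) (nat_lit 69925218893) (nat_lit 152) (nat_lit 13078851609) (nat_lit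 228) (nat_lit 4253333833) (nat_lit 22) (nat_lit 5) (nat_lit 24) (nat_lit 5) (nat_lit 25) (nat_lit 5) (nat_lit 319) (nat_lit 275) (nat_lit 126)) (XT.nd (nat_lit 78) (nat_lit 0) (nat_lit 0) (XT.lf (nat_lit 0) (nat_lit 8369000572) (nat_lit 152) (nat_lit 74217746621) (nat_lit 76) (nat_lit 7946926595) (nat_lit 20) (nat_lit 5) (nat_lit 22) (nat_lit 5) (nat_lit 21) (nat_lit 5) (nat_lit 320) (nat_lit 275) (nat_lit 125)) (XT.lf (nat_lit 0) (nat_lit 21990839764) (nat_lit 152) (nat_lit 42002150926) (nat_lit 76) (nat_lit 29951715321) (nat_lit 20) (nat_lit 5) (nat_lit 22) (nat_lit 5) (nat_lit 21) (nat_lit 5) (nat_lit 321) (nat_lit 275) (nat_lit 124)))))) (XT.nd (nat_lit 312) (nat_lit 304) (nat_lit 0) (XT.nd (nat_lit 156) (nat_lit 0) (nat_lit 0) (XT.nd (nat_lit 78) (nat_lit 152) (nat_lit 0) (XT.lf (nat_lit 0) (nat_lit 36292418221) (nat_lit 152) (nat_lit 8177969989) (nat_lit 76) (nat_lit 53055971204)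 (nat_lit 20) (nat_lit 5) (nat_lit 22) (nat_lit 5) (nat_lit 21) (nat_lit 5) (nat_lit 322) (nat_lit 275) (nat_lit 123)) (XT.lf (nat_lit 0) (nat_lit 28239159410) (nat_lit 152) (nat_lit 23509520331) (nat_lit 228) (nat_lit 49516437385) (nat_lit 18) (nat_lit 5) (nat_lit 20) (nat_lit 5) (nat_lit 21) (nat_lit 5) (nat_lit 323) (nat_lit 275) (nat_lit 122))) (XT.nd (nat_lit 78) (nat_lit 0) (nat_lit 0) (XT.lf (nat_lit 0) (nat_lit 66759009601) (nat_lit 152) (nat_lit 1355983577) (nat_lit 228) (nat_lit 37068959359) (nat_lit 18) (nat_lit 5) (nat_lit 20) (nat_lit 5) (nat_lit 21) (nat_lit 5) (nat_lit 324) (nat_lit 275) (nat_lit 121)) (XT.lf (nat_lit 0) (nat_lit 85640413379) (nat_lit 228) (nat_lit 2437887631) (nat_lit 76) (nat_lit 21203390828) (nat_lit 18) (nat_lit 5) (nat_lit 21) (nat_lit 5) (nat_lit 19) (nat_lit 4) (nat_lit 325) (nat_lit 275) (nat_lit 120)))) (XT.nd (nat_lit 156) (nat_lit 152) (nat_lit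 0) (XT.nd (nat_lit 78) (nat_lit 76) (nat_lit 0) (XT.lf (nat_lit 0) (nat_lit 36492362134) (nat_lit 76) (nat_lit 68140566462) (nat_lit 152) (nat_lit 8921849900) (nat_lit 17) (nat_lit 5) (nat_lit 18) (nat_lit 5) (nat_lit 19) (nat_lit 4) (nat_lit 326) (nat_lit 275) (nat_lit 119)) (XT.lf (nat_lit 0) (nat_lit 6365251628) (nat_lit 152) (nat_lit 40690297766) (nat_lit 76) (nat_lit 70978830389) (nat_lit 16) (nat_lit 5) (nat_lit 18) (nat_lit 5) (nat_lit 17) (nat_lit 5) (nat_lit 327) (nat_lit 275) (nat_lit 118))) (XT.nd (nat_lit 78) (nat_lit 152) (nat_lit 0) (XT.lf (nat_lit 0) (nat_lit 22115782532) (nat_lit 152) (nat_lit 2647662693) (nat_lit 76) (nat_lit 97967258946) (nat_lit 16) (nat_lit 5) (nat_lit 18) (nat_lit 5) (nat_lit 17) (nat_lit 5) (nat_lit 328) (nat_lit 275) (nat_lit 117)) (XT.nd (nat_lit 78) (nat_lit 0) (nat_lit 0) (XT.lf (nat_lit 0) (nat_lit 38528514725) (nat_lit 152) (nat_lit 725822358)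 (nat_lit 228) (nat_lit 88377484153) (nat_lit 14) (nat_lit 5) (nat_lit 16) (nat_lit 5) (nat_lit 17) (nat_lit 5) (nat_lit 329) (nat_lit 275) (nat_lit 116)) (XT.lf (nat_lit 0) (nat_lit 57677092097) (nat_lit 228) (nat_lit 51305548316) (nat_lit 76) (nat_lit 23773991351) (nat_lit 14) (nat_lit 5) (nat_lit 17) (nat_lit 5) (nat_lit 15) (nat_lit 4) (nat_lit 330) (nat_lit 275) (nat_lit 115))))))))
noncomputable def xc209 : XT := (XT.nd (nat_lit 1404) (nat_lit 0) (nat_lit 0) (XT.nd (nat_lit 702) (nat_lit 228) (nat_lit 0) (XT.nd (nat_lit 312) (nat_lit 228) (nat_lit 0) (XT.nd (nat_lit 156) (nat_lit 0) (nat_lit 0) (XT.nd (nat_lit 78) (nat_lit 76) (nat_lit 0) (XT.lf (nat_lit 0) (nat_lit 77031903536) (nat_lit 228) (nat_lit 11631473011) (nat_lit 76) (nat_lit 49473761525) (nat_lit 14) (nat_lit 5) (nat_lit 17) (nat_lit 5) (nat_lit 15) (nat_lit 4) (nat_lit 331) (nat_lit 275) (nat_lit 114)) (XT.lf (nat_lit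 0) (nat_lit 31017466233) (nat_lit 76) (nat_lit 66820325503) (nat_lit 152) (nat_lit 45924712283) (nat_lit 13) (nat_lit 5) (nat_lit 14) (nat_lit 5) (nat_lit 15) (nat_lit 4) (nat_lit 332) (nat_lit 275) (nat_lit 113))) (XT.nd (nat_lit 78) (nat_lit 0) (nat_lit 0) (XT.lf (nat_lit 0) (nat_lit 76201104153) (nat_lit 76) (nat_lit 43678941420) (nat_lit 152) (nat_lit 29779290209) (nat_lit 13) (nat_lit 5) (nat_lit 14) (nat_lit 5) (nat_lit 15) (nat_lit 4) (nat_lit 333) (nat_lit 275) (nat_lit 112)) (XT.lf (nat_lit 0) (nat_lit 123642431811) (nat_lit 76) (nat_lit 19381110388) (nat_lit 152) (nat_lit 12827511456) (nat_lit 13) (nat_lit 5) (nat_lit 14) (nat_lit 5) (nat_lit 15) (nat_lit 4) (nat_lit 334) (nat_lit 275) (nat_lit 111)))) (XT.nd (nat_lit 156) (nat_lit 76) (nat_lit 0) (XT.nd (nat_lit 78) (nat_lit 0) (nat_lit 0) (XT.lf (nat_lit 0) (nat_lit 5089605254) (nat_lit 152) (nat_lit 151050628145) (nat_lit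 76) (nat_lit 6194399749) (nat_lit 11) (nat_lit 5) (nat_lit 13) (nat_lit 5) (nat_lit 12) (nat_lit 4) (nat_lit 335) (nat_lit 275) (nat_lit 110)) (XT.lf (nat_lit 0) (nat_lit 24342788601) (nat_lit 152) (nat_lit 111584055950) (nat_lit 76) (nat_lit 33161468635) (nat_lit 11) (nat_lit 5) (nat_lit 13) (nat_lit 5) (nat_lit 12) (nat_lit 4) (nat_lit 336) (nat_lit 275) (nat_lit 109))) (XT.nd (nat_lit 78) (nat_lit 76) (nat_lit 0) (XT.lf (nat_lit 0) (nat_lit 44557836328) (nat_lit 152) (nat_lit 70145544933) (nat_lit 76) (nat_lit 61476336547) (nat_lit 11) (nat_lit 5) (nat_lit 13) (nat_lit 5) (nat_lit 12) (nat_lit 4) (nat_lit 337) (nat_lit 275) (nat_lit 108)) (XT.nd (nat_lit 78) (nat_lit 76) (nat_lit 0) (XT.lf (nat_lit 0) (nat_lit 65782879502) (nat_lit 152) (nat_lit 26636431973) (nat_lit 76) (nat_lit 91206419839) (nat_lit 11) (nat_lit 5) (nat_lit 13) (nat_lit 5) (nat_lit 12) (nat_lit 4) (nat_lit 338)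 (nat_lit 275) (nat_lit 107)) (XT.lf (nat_lit 0) (nat_lit 19676651796) (nat_lit 76) (nat_lit 68699009821) (nat_lit 152) (nat_lit 103053060304) (nat_lit 10) (nat_lit 5) (nat_lit 11) (nat_lit 5) (nat_lit 12) (nat_lit 4) (nat_lit 339) (nat_lit 275) (nat_lit 106)))))) (XT.nd (nat_lit 312) (nat_lit 152) (nat_lit 0) (XT.nd (nat_lit 156) (nat_lit 76) (nat_lit 0) (XT.nd (nat_lit 78) (nat_lit 0) (nat_lit 0) (XT.lf (nat_lit 0) (nat_lit 69228906279) (nat_lit 76) (nat_lit 43319571494) (nat_lit 152) (nat_lit 87050865270) (nat_lit 10) (nat_lit 5) (nat_lit 11) (nat_lit 5) (nat_lit 12) (nat_lit 4) (nat_lit 340) (nat_lit 275) (nat_lit 105)) (XT.lf (nat_lit 0) (nat_lit 121257592299) (nat_lit 76) (nat_lit 16671670123) (nat_lit 152) (nat_lit 70249267109) (nat_lit 10) (nat_lit 5) (nat_lit 11) (nat_lit 5) (nat_lit 12) (nat_lit 4) (nat_lit 341) (nat_lit 275) (nat_lit 104))) (XT.nd (nat_lit 78) (nat_lit 76)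 (nat_lit 0) (XT.lf (nat_lit 0) (nat_lit 164754997787) (nat_lit 152) (nat_lit 41476672125) (nat_lit 0) (nat_lit 10946210520) (nat_lit 10) (nat_lit 5) (nat_lit 12) (nat_lit 4) (nat_lit 10) (nat_lit 4) (nat_lit 342) (nat_lit 275) (nat_lit 103)) (XT.lf (nat_lit 0) (nat_lit 6162648109) (nat_lit 76) (nat_lit 187128277070) (nat_lit 76) (nat_lit 33317829066) (nat_lit 9) (nat_lit 4) (nat_lit 10) (nat_lit 5) (nat_lit 10) (nat_lit 4) (nat_lit 343) (nat_lit 275) (nat_lit 102)))) (XT.nd (nat_lit 156) (nat_lit 76) (nat_lit 0) (XT.nd (nat_lit 78) (nat_lit 76) (nat_lit 0) (XT.lf (nat_lit 0) (nat_lit 57622833134) (nat_lit 76) (nat_lit 166332638861) (nat_lit 76) (nat_lit 12520609202) (nat_lit 9) (nat_lit 4) (nat_lit 10) (nat_lit 5) (nat_lit 10) (nat_lit 4) (nat_lit 344) (nat_lit 275) (nat_lit 101)) (XT.lf (nat_lit 0) (nat_lit 9017700713) (nat_lit 152) (nat_lit 135327249532) (nat_lit 76) (nat_lit 102484581267)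 (nat_lit 8) (nat_lit 5) (nat_lit 10) (nat_lit 5) (nat_lit 9) (nat_lit 4) (nat_lit 345) (nat_lit 275) (nat_lit 100))) (XT.nd (nat_lit 78) (nat_lit 76) (nat_lit 0) (XT.lf (nat_lit 0) (nat_lit 31211593777) (nat_lit 152) (nat_lit 89831203358) (nat_lit 76) (nat_lit 136647622821) (nat_lit 8) (nat_lit 5) (nat_lit 10) (nat_lit 5) (nat_lit 9) (nat_lit 4) (nat_lit 346) (nat_lit 275) (nat_lit 99)) (XT.nd (nat_lit 78) (nat_lit 76) (nat_lit 0) (XT.lf (nat_lit 0) (nat_lit 54514650279) (nat_lit 152) (nat_lit 42061303823) (nat_lit 76) (nat_lit 172518425776) (nat_lit 8) (nat_lit 5) (nat_lit 10) (nat_lit 5) (nat_lit 9) (nat_lit 4) (nat_lit 347) (nat_lit 275) (nat_lit 98)) (XT.lf (nat_lit 0) (nat_lit 8363883432) (nat_lit 76) (nat_lit 70749053913) (nat_lit 152) (nat_lit 201949097034) (nat_lit 7) (nat_lit 5) (nat_lit 8) (nat_lit 5) (nat_lit 9) (nat_lit 4) (nat_lit 348) (nat_lit 275) (nat_lit 97))))))) (XT.nd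 (nat_lit 32370) (nat_lit 0) (nat_lit 3952) (XT.nd (nat_lit 31980) (nat_lit 0) (nat_lit 5168) (XT.nd (nat_lit 31824) (nat_lit 0) (nat_lit 5168) (XT.nd (nat_lit 78) (nat_lit 0) (nat_lit 0) (XT.lf (nat_lit 0) (nat_lit 62769714359) (nat_lit 76) (nat_lit 42883257227) (nat_lit 152) (nat_lit 187939508826) (nat_lit 7) (nat_lit 5) (nat_lit 8) (nat_lit 5) (nat_lit 9) (nat_lit 4) (nat_lit 349) (nat_lit 275) (nat_lit 96)) (XT.lf (nat_lit 0) (nat_lit 119894989992) (nat_lit 76) (nat_lit 13624545442) (nat_lit 152) (nat_lit 173229937344) (nat_lit 7) (nat_lit 5) (nat_lit 8) (nat_lit 5) (nat_lit 9) (nat_lit 4) (nat_lit 350) (nat_lit 275) (nat_lit 95))) (XT.nd (nat_lit 78) (nat_lit 0) (nat_lit 0) (XT.lf (nat_lit 0) (nat_lit 2952183657) (nat_lit 0) (nat_lit 2952183657) (nat_lit 684) (nat_lit 6009279978) (nat_lit 75) (nat_lit 5) (nat_lit 75) (nat_lit 3) (nat_lit 84) (nat_lit 3) (nat_lit 276) (nat_lit 276)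 (nat_lit 168)) (XT.lf (nat_lit 0) (nat_lit 12282670914) (nat_lit 684) (nat_lit 7668878146) (nat_lit 760) (nat_lit 4462177338) (nat_lit 75) (nat_lit 5) (nat_lit 84) (nat_lit 3) (nat_lit 85) (nat_lit 5) (nat_lit 277) (nat_lit 276) (nat_lit 167)))) (XT.nd (nat_lit 156) (nat_lit 0) (nat_lit 76) (XT.nd (nat_lit 78) (nat_lit 0) (nat_lit 76) (XT.lf (nat_lit 76) (nat_lit 3096351386) (nat_lit 0) (nat_lit 9822308436) (nat_lit 760) (nat_lit 12103922331) (nat_lit 76) (nat_lit 5) (nat_lit 75) (nat_lit 5) (nat_lit 85) (nat_lit 5) (nat_lit 278) (nat_lit 276) (nat_lit 166)) (XT.lf (nat_lit 0) (nat_lit 13724679861) (nat_lit 684) (nat_lit 11008284606) (nat_lit 760) (nat_lit 922023826) (nat_lit 76) (nat_lit 5) (nat_lit 85) (nat_lit 5) (nat_lit 86) (nat_lit 5) (nat_lit 279) (nat_lit 276) (nat_lit 165))) (XT.nd (nat_lit 78) (nat_lit 0) (nat_lit 0) (XT.lf (nat_lit 76) (nat_lit 300185444) (nat_lit 0) (nat_lit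 14430358922) (nat_lit 760) (nat_lit 11580511472) (nat_lit 77) (nat_lit 5) (nat_lit 76) (nat_lit 5) (nat_lit 86) (nat_lit 5) (nat_lit 280) (nat_lit 276) (nat_lit 164)) (XT.nd (nat_lit 78) (nat_lit 0) (nat_lit 76) (XT.lf (nat_lit 76) (nat_lit 12552365870) (nat_lit 0) (nat_lit 3414834861) (nat_lit 760) (nat_lit 11023718495) (nat_lit 77) (nat_lit 5) (nat_lit 76) (nat_lit 5) (nat_lit 86) (nat_lit 5) (nat_lit 281) (nat_lit 276) (nat_lit 163)) (XT.lf (nat_lit 0) (nat_lit 17387337896) (nat_lit 684) (nat_lit 2418927399) (nat_lit 760) (nat_lit 7892444661) (nat_lit 77) (nat_lit 5) (nat_lit 86) (nat_lit 5) (nat_lit 87) (nat_lit 5) (nat_lit 282) (nat_lit 276) (nat_lit 162)))))) (XT.nd (nat_lit 312) (nat_lit 1368) (nat_lit 0) (XT.nd (nat_lit 156) (nat_lit 0) (nat_lit 76) (XT.nd (nat_lit 78) (nat_lit 0) (nat_lit 76) (XT.lf (nat_lit 76) (nat_lit 10477187027) (nat_lit 0) (nat_lit 8615502386) (nat_lit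 760) (nat_lit 9338506216) (nat_lit 78) (nat_lit 5) (nat_lit 77) (nat_lit 5) (nat_lit 87) (nat_lit 5) (nat_lit 283) (nat_lit 276) (nat_lit 161)) (XT.lf (nat_lit 0) (nat_lit 20968754259) (nat_lit 684) (nat_lit 5149864507) (nat_lit 760) (nat_lit 3077429563) (nat_lit 78) (nat_lit 5) (nat_lit 87) (nat_lit 5) (nat_lit 88) (nat_lit 5) (nat_lit 284) (nat_lit 276) (nat_lit 160))) (XT.nd (nat_lit 78) (nat_lit 0) (nat_lit 0) (XT.lf (nat_lit 76) (nat_lit 8418818565) (nat_lit 0) (nat_lit 14787592862) (nat_lit 760) (nat_lit 6779357097) (nat_lit 79) (nat_lit 5) (nat_lit 78) (nat_lit 5) (nat_lit 88) (nat_lit 5) (nat_lit 285) (nat_lit 276) (nat_lit 159)) (XT.lf (nat_lit 76) (nat_lit 22840904870) (nat_lit 0) (nat_lit 2797545193) (nat_lit 760) (nat_lit 5172413368) (nat_lit 79) (nat_lit 5) (nat_lit 78) (nat_lit 5) (nat_lit 88) (nat_lit 5) (nat_lit 286) (nat_lit 276) (nat_lit 158)))) (XT.nd (nat_lit 156)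 (nat_lit 836) (nat_lit 0) (XT.nd (nat_lit 78) (nat_lit 0) (nat_lit 0) (XT.lf (nat_lit 0) (nat_lit 6353460737) (nat_lit 684) (nat_lit 22086226930) (nat_lit 760) (nat_lit 3225158549) (nat_lit 70) (nat_lit 5) (nat_lit 79) (nat_lit 5) (nat_lit 80) (nat_lit 5) (nat_lit 287) (nat_lit 276) (nat_lit 157)) (XT.lf (nat_lit 0) (nat_lit 21618543497) (nat_lit 684) (nat_lit 9938215032) (nat_lit 760) (nat_lit 995993408) (nat_lit 70) (nat_lit 5) (nat_lit 79) (nat_lit 5) (nat_lit 80) (nat_lit 5) (nat_lit 288) (nat_lit 276) (nat_lit 156))) (XT.nd (nat_lit 78) (nat_lit 380) (nat_lit 0) (XT.lf (nat_lit 0) (nat_lit 1409550116) (nat_lit 456) (nat_lit 29252489986) (nat_lit 76) (nat_lit 2816576550) (nat_lit 64) (nat_lit 5) (nat_lit 70) (nat_lit 5) (nat_lit 65) (nat_lit 5) (nat_lit 289) (nat_lit 276) (nat_lit 155)) (XT.nd (nat_lit 78) (nat_lit 380) (nat_lit 0) (XT.lf (nat_lit 0) (nat_lit 4248980494) (nat_lit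 456) (nat_lit 14103664947) (nat_lit 76) (nat_lit 16079969376) (nat_lit 64) (nat_lit 5) (nat_lit 70) (nat_lit 5) (nat_lit 65) (nat_lit 5) (nat_lit 290) (nat_lit 276) (nat_lit 154)) (XT.lf (nat_lit 0) (nat_lit 1858313543) (nat_lit 380) (nat_lit 5397223516) (nat_lit 456) (nat_lit 28177528273) (nat_lit 59) (nat_lit 5) (nat_lit 64) (nat_lit 5) (nat_lit 65) (nat_lit 5) (nat_lit 291) (nat_lit 276) (nat_lit 153))))))))
noncomputable def xc210 : XT := (XT.nd (nat_lit 1404) (nat_lit 1064) (nat_lit 0) (XT.nd (nat_lit 702) (nat_lit 912) (nat_lit 0) (XT.nd (nat_lit 312) (nat_lit 912) (nat_lit 0) (XT.nd (nat_lit 156) (nat_lit 304) (nat_lit 0) (XT.nd (nat_lit 78) (nat_lit 0) (nat_lit 0) (XT.lf (nat_lit 0) (nat_lit 10779575175) (nat_lit 456) (nat_lit 17499492669) (nat_lit 76) (nat_lit 8186122530) (nat_lit 59) (nat_lit 5) (nat_lit 65) (nat_lit 5) (nat_lit 60) (nat_lit 5) (nat_lit 292) (nat_lit 276)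 (nat_lit 152)) (XT.lf (nat_lit 0) (nat_lit 14564739545) (nat_lit 456) (nat_lit 712665362) (nat_lit 76) (nat_lit 22267279771) (nat_lit 59) (nat_lit 5) (nat_lit 65) (nat_lit 5) (nat_lit 60) (nat_lit 5) (nat_lit 293) (nat_lit 276) (nat_lit 151))) (XT.nd (nat_lit 78) (nat_lit 0) (nat_lit 0) (XT.lf (nat_lit 0) (nat_lit 17469084347) (nat_lit 304) (nat_lit 1339433696) (nat_lit 380) (nat_lit 19856176646) (nat_lit 55) (nat_lit 5) (nat_lit 59) (nat_lit 5) (nat_lit 60) (nat_lit 5) (nat_lit 294) (nat_lit 276) (nat_lit 150)) (XT.lf (nat_lit 0) (nat_lit 23481049904) (nat_lit 380) (nat_lit 3466865745) (nat_lit 76) (nat_lit 12881969699) (nat_lit 55) (nat_lit 5) (nat_lit 60) (nat_lit 5) (nat_lit 56) (nat_lit 5) (nat_lit 295) (nat_lit 276) (nat_lit 149)))) (XT.nd (nat_lit 156) (nat_lit 608) (nat_lit 0) (XT.nd (nat_lit 78) (nat_lit 0) (nat_lit 0) (XT.lf (nat_lit 0) (nat_lit 15622911939) (nat_lit 304)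 (nat_lit 13027046291) (nat_lit 380) (nat_lit 12390247788) (nat_lit 51) (nat_lit 5) (nat_lit 55) (nat_lit 5) (nat_lit 56) (nat_lit 5) (nat_lit 296) (nat_lit 276) (nat_lit 148)) (XT.lf (nat_lit 0) (nat_lit 34158773629) (nat_lit 380) (nat_lit 6549925468) (nat_lit 76) (nat_lit 1598278133) (nat_lit 51) (nat_lit 5) (nat_lit 56) (nat_lit 5) (nat_lit 52) (nat_lit 5) (nat_lit 297) (nat_lit 276) (nat_lit 147))) (XT.nd (nat_lit 78) (nat_lit 380) (nat_lit 0) (XT.lf (nat_lit 0) (nat_lit 13475138328) (nat_lit 228) (nat_lit 26888942685) (nat_lit 304) (nat_lit 3251960659) (nat_lit 48) (nat_lit 5) (nat_lit 51) (nat_lit 5) (nat_lit 52) (nat_lit 5) (nat_lit 298) (nat_lit 276) (nat_lit 146)) (XT.nd (nat_lit 78) (nat_lit 304) (nat_lit 0) (XT.lf (nat_lit 0) (nat_lit 1938517377) (nat_lit 304) (nat_lit 10290921487) (nat_lit 76) (nat_lit 32754158037) (nat_lit 47) (nat_lit 5) (nat_lit 51) (nat_lit 5) (nat_lit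 48) (nat_lit 5) (nat_lit 299) (nat_lit 276) (nat_lit 145)) (XT.lf (nat_lit 0) (nat_lit 7498807054) (nat_lit 380) (nat_lit 35619593201) (nat_lit 76) (nat_lit 3287491594) (nat_lit 43) (nat_lit 5) (nat_lit 48) (nat_lit 5) (nat_lit 44) (nat_lit 5) (nat_lit 300) (nat_lit 276) (nat_lit 144)))))) (XT.nd (nat_lit 312) (nat_lit 456) (nat_lit 0) (XT.nd (nat_lit 156) (nat_lit 228) (nat_lit 0) (XT.nd (nat_lit 78) (nat_lit 228) (nat_lit 0) (XT.lf (nat_lit 0) (nat_lit 13712079902) (nat_lit 380) (nat_lit 14822631323) (nat_lit 76) (nat_lit 19345847835) (nat_lit 43) (nat_lit 5) (nat_lit 48) (nat_lit 5) (nat_lit 44) (nat_lit 5) (nat_lit 301) (nat_lit 276) (nat_lit 143)) (XT.lf (nat_lit 0) (nat_lit 7242791760) (nat_lit 228) (nat_lit 13103778500) (nat_lit 304) (nat_lit 29076867340) (nat_lit 40) (nat_lit 5) (nat_lit 43) (nat_lit 5) (nat_lit 44) (nat_lit 5) (nat_lit 302) (nat_lit 276) (nat_lit 142))) (XT.nd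 (nat_lit 78) (nat_lit 228) (nat_lit 0) (XT.lf (nat_lit 0) (nat_lit 27613842070) (nat_lit 304) (nat_lit 20160576122) (nat_lit 76) (nat_lit 3253994425) (nat_lit 40) (nat_lit 5) (nat_lit 44) (nat_lit 5) (nat_lit 41) (nat_lit 5) (nat_lit 303) (nat_lit 276) (nat_lit 141)) (XT.lf (nat_lit 0) (nat_lit 2833251215) (nat_lit 228) (nat_lit 32667928596) (nat_lit 304) (nat_lit 17199626593) (nat_lit 37) (nat_lit 5) (nat_lit 40) (nat_lit 5) (nat_lit 41) (nat_lit 5) (nat_lit 304) (nat_lit 276) (nat_lit 140)))) (XT.nd (nat_lit 156) (nat_lit 456) (nat_lit 0) (XT.nd (nat_lit 78) (nat_lit 0) (nat_lit 0) (XT.lf (nat_lit 0) (nat_lit 27673638227) (nat_lit 228) (nat_lit 16448390680) (nat_lit 304) (nat_lit 10317838645) (nat_lit 37) (nat_lit 5) (nat_lit 40) (nat_lit 5) (nat_lit 41) (nat_lit 5) (nat_lit 305) (nat_lit 276) (nat_lit 139)) (XT.lf (nat_lit 0) (nat_lit 53180821646) (nat_lit 304) (nat_lit 2521943253)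 (nat_lit 76) (nat_lit 562776459) (nat_lit 37) (nat_lit 5) (nat_lit 41) (nat_lit 5) (nat_lit 38) (nat_lit 5) (nat_lit 306) (nat_lit 276) (nat_lit 138))) (XT.nd (nat_lit 78) (nat_lit 228) (nat_lit 0) (XT.lf (nat_lit 0) (nat_lit 5009158531) (nat_lit 228) (nat_lit 34820295337) (nat_lit 76) (nat_lit 18317355819) (nat_lit 34) (nat_lit 5) (nat_lit 37) (nat_lit 5) (nat_lit 35) (nat_lit 5) (nat_lit 307) (nat_lit 276) (nat_lit 137)) (XT.nd (nat_lit 78) (nat_lit 228) (nat_lit 0) (XT.lf (nat_lit 0) (nat_lit 13445408852) (nat_lit 228) (nat_lit 9619224027) (nat_lit 76) (nat_lit 37052916870) (nat_lit 34) (nat_lit 5) (nat_lit 37) (nat_lit 5) (nat_lit 35) (nat_lit 5) (nat_lit 308) (nat_lit 276) (nat_lit 136)) (XT.lf (nat_lit 0) (nat_lit 17395917145) (nat_lit 228) (nat_lit 5177186399) (nat_lit 304) (nat_lit 39600245514) (nat_lit 31) (nat_lit 5) (nat_lit 34) (nat_lit 5) (nat_lit 35) (nat_lit 5) (nat_lit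 309) (nat_lit 276) (nat_lit 135))))))) (XT.nd (nat_lit 702) (nat_lit 380) (nat_lit 0) (XT.nd (nat_lit 312) (nat_lit 532) (nat_lit 0) (XT.nd (nat_lit 156) (nat_lit 0) (nat_lit 0) (XT.nd (nat_lit 78) (nat_lit 152) (nat_lit 0) (XT.lf (nat_lit 0) (nat_lit 32533237795) (nat_lit 304) (nat_lit 18445901024) (nat_lit 76) (nat_lit 13334000423) (nat_lit 31) (nat_lit 5) (nat_lit 35) (nat_lit 5) (nat_lit 32) (nat_lit 5) (nat_lit 310) (nat_lit 276) (nat_lit 134)) (XT.lf (nat_lit 0) (nat_lit 9416035896) (nat_lit 152) (nat_lit 33805388886) (nat_lit 228) (nat_lit 23326995329) (nat_lit 29) (nat_lit 5) (nat_lit 31) (nat_lit 5) (nat_lit 32) (nat_lit 5) (nat_lit 311) (nat_lit 276) (nat_lit 133))) (XT.nd (nat_lit 78) (nat_lit 0) (nat_lit 0) (XT.lf (nat_lit 0) (nat_lit 39308842210) (nat_lit 152) (nat_lit 15445779009) (nat_lit 228) (nat_lit 14125317111) (nat_lit 29) (nat_lit 5) (nat_lit 31) (nat_lit 5) (nat_lit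 32) (nat_lit 5) (nat_lit 312) (nat_lit 276) (nat_lit 132)) (XT.lf (nat_lit 0) (nat_lit 66922585431) (nat_lit 228) (nat_lit 694147250) (nat_lit 76) (nat_lit 3708397537) (nat_lit 29) (nat_lit 5) (nat_lit 32) (nat_lit 5) (nat_lit 30) (nat_lit 5) (nat_lit 313) (nat_lit 276) (nat_lit 131)))) (XT.nd (nat_lit 156) (nat_lit 304) (nat_lit 0) (XT.nd (nat_lit 78) (nat_lit 0) (nat_lit 0) (XT.lf (nat_lit 0) (nat_lit 6357712878) (nat_lit 228) (nat_lit 43616742078) (nat_lit 76) (nat_lit 23876737586) (nat_lit 26) (nat_lit 5) (nat_lit 29) (nat_lit 5) (nat_lit 27) (nat_lit 5) (nat_lit 314) (nat_lit 276) (nat_lit 130)) (XT.lf (nat_lit 0) (nat_lit 17518353147) (nat_lit 228) (nat_lit 13844230855) (nat_lit 76) (nat_lit 45136851858) (nat_lit 26) (nat_lit 5) (nat_lit 29) (nat_lit 5) (nat_lit 27) (nat_lit 5) (nat_lit 315) (nat_lit 276) (nat_lit 129))) (XT.nd (nat_lit 78) (nat_lit 152) (nat_lit 0) (XT.lf (nat_lit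 0) (nat_lit 17990355006) (nat_lit 152) (nat_lit 11526003290) (nat_lit 228) (nat_lit 49749769000) (nat_lit 24) (nat_lit 5) (nat_lit 26) (nat_lit 5) (nat_lit 27) (nat_lit 5) (nat_lit 316) (nat_lit 276) (nat_lit 128)) (XT.nd (nat_lit 78) (nat_lit 152) (nat_lit 0) (XT.lf (nat_lit 0) (nat_lit 42496280576) (nat_lit 228) (nat_lit 30413581993) (nat_lit 76) (nat_lit 9242192364) (nat_lit 24) (nat_lit 5) (nat_lit 27) (nat_lit 5) (nat_lit 25) (nat_lit 5) (nat_lit 317) (nat_lit 276) (nat_lit 127)) (XT.lf (nat_lit 0) (nat_lit 1860030982) (nat_lit 152) (nat_lit 54481709539) (nat_lit 228) (nat_lit 28829713705) (nat_lit 22) (nat_lit 5) (nat_lit 24) (nat_lit 5) (nat_lit 25) (nat_lit 5) (nat_lit 318) (nat_lit 276) (nat_lit 126)))))) (XT.nd (nat_lit 312) (nat_lit 228) (nat_lit 0) (XT.nd (nat_lit 156) (nat_lit 152) (nat_lit 0) (XT.nd (nat_lit 78) (nat_lit 0) (nat_lit 0) (XT.lf (nat_lit 0) (nat_lit 36800983515)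 (nat_lit 152) (nat_lit 34592143241) (nat_lit 228) (nat_lit 16923016305) (nat_lit 22) (nat_lit 5) (nat_lit 24) (nat_lit 5) (nat_lit 25) (nat_lit 5) (nat_lit 319) (nat_lit 276) (nat_lit 125)) (XT.lf (nat_lit 0) (nat_lit 73486857979) (nat_lit 152) (nat_lit 13708876292) (nat_lit 228) (nat_lit 4422401605) (nat_lit 22) (nat_lit 5) (nat_lit 24) (nat_lit 5) (nat_lit 25) (nat_lit 5) (nat_lit 320) (nat_lit 276) (nat_lit 124))) (XT.nd (nat_lit 78) (nat_lit 0) (nat_lit 0) (XT.lf (nat_lit 0) (nat_lit 8829054163) (nat_lit 152) (nat_lit 77861138358) (nat_lit 76) (nat_lit 8368025220) (nat_lit 20) (nat_lit 5) (nat_lit 22) (nat_lit 5) (nat_lit 21) (nat_lit 5) (nat_lit 321) (nat_lit 276) (nat_lit 123)) (XT.lf (nat_lit 0) (nat_lit 23130004192) (nat_lit 152) (nat_lit 44037976954) (nat_lit 76) (nat_lit 31471922320) (nat_lit 20) (nat_lit 5) (nat_lit 22) (nat_lit 5) (nat_lit 21) (nat_lit 5) (nat_lit 322) (nat_lit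 276) (nat_lit 122)))) (XT.nd (nat_lit 156) (nat_lit 76) (nat_lit 0) (XT.nd (nat_lit 78) (nat_lit 152) (nat_lit 0) (XT.lf (nat_lit 0) (nat_lit 38144774790) (nat_lit 152) (nat_lit 8525647995) (nat_lit 76) (nat_lit 55730313796) (nat_lit 20) (nat_lit 5) (nat_lit 22) (nat_lit 5) (nat_lit 21) (nat_lit 5) (nat_lit 323) (nat_lit 276) (nat_lit 121)) (XT.lf (nat_lit 0) (nat_lit 29711350447) (nat_lit 152) (nat_lit 24661642409) (nat_lit 228) (nat_lit 51953484720) (nat_lit 18) (nat_lit 5) (nat_lit 20) (nat_lit 5) (nat_lit 21) (nat_lit 5) (nat_lit 324) (nat_lit 276) (nat_lit 120))) (XT.nd (nat_lit 78) (nat_lit 76) (nat_lit 0) (XT.lf (nat_lit 0) (nat_lit 70154324906) (nat_lit 152) (nat_lit 1401540910) (nat_lit 228) (nat_lit 38885479199) (nat_lit 18) (nat_lit 5) (nat_lit 20) (nat_lit 5) (nat_lit 21) (nat_lit 5) (nat_lit 325) (nat_lit 276) (nat_lit 119)) (XT.nd (nat_lit 78) (nat_lit 76) (nat_lit 0)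 (XT.lf (nat_lit 0) (nat_lit 89956215226) (nat_lit 228) (nat_lit 2503760378) (nat_lit 76) (nat_lit 22284065100) (nat_lit 18) (nat_lit 5) (nat_lit 21) (nat_lit 5) (nat_lit 19) (nat_lit 4) (nat_lit 326) (nat_lit 276) (nat_lit 118)) (XT.lf (nat_lit 0) (nat_lit 38372098300) (nat_lit 76) (nat_lit 71525509824) (nat_lit 152) (nat_lit 9333213199) (nat_lit 17) (nat_lit 5) (nat_lit 18) (nat_lit 5) (nat_lit 19) (nat_lit 4) (nat_lit 327) (nat_lit 276) (nat_lit 117))))))))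
noncomputable def xc211 : XT := (XT.nd (nat_lit 1404) (nat_lit 152) (nat_lit 0) (XT.nd (nat_lit 702) (nat_lit 152) (nat_lit 0) (XT.nd (nat_lit 312) (nat_lit 228) (nat_lit 0) (XT.nd (nat_lit 156) (nat_lit 152) (nat_lit 0) (XT.nd (nat_lit 78) (nat_lit 0) (nat_lit 0) (XT.lf (nat_lit 0) (nat_lit 6715531014) (nat_lit 152) (nat_lit 42671220333) (nat_lit 76) (nat_lit 74547706273) (nat_lit 16) (nat_lit 5) (nat_lit 18) (nat_lit 5) (nat_lit 17) (nat_lit 5) (nat_lit 328) (nat_lit 276) (nat_lit 116)) (XT.lf (nat_lit 0) (nat_lit 23252063854) (nat_lit 152) (nat_lit 2729005521) (nat_lit 76) (nat_lit 102884607002) (nat_lit 16) (nat_lit 5) (nat_lit 18) (nat_lit 5) (nat_lit 17) (nat_lit 5) (nat_lit 329) (nat_lit 276) (nat_lit 115))) (XT.nd (nat_lit 78) (nat_lit 0) (nat_lit 0) (XT.lf (nat_lit 0) (nat_lit 40505157537) (nat_lit 152) (nat_lit 741720615) (nat_lit 228) (nat_lit 92765006370) (nat_lit 14) (nat_lit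 5) (nat_lit 16) (nat_lit 5) (nat_lit 17) (nat_lit 5) (nat_lit 330) (nat_lit 276) (nat_lit 114)) (XT.lf (nat_lit 0) (nat_lit 60589653945) (nat_lit 228) (nat_lit 53821848150) (nat_lit 76) (nat_lit 24981491072) (nat_lit 14) (nat_lit 5) (nat_lit 17) (nat_lit 5) (nat_lit 15) (nat_lit 4) (nat_lit 331) (nat_lit 276) (nat_lit 113)))) (XT.nd (nat_lit 156) (nat_lit 152) (nat_lit 0) (XT.nd (nat_lit 78) (nat_lit 76) (nat_lit 0) (XT.lf (nat_lit 0) (nat_lit 80910838944) (nat_lit 228) (nat_lit 12166401346) (nat_lit 76) (nat_lit 51965354510) (nat_lit 14) (nat_lit 5) (nat_lit 17) (nat_lit 5) (nat_lit 15) (nat_lit 4) (nat_lit 332) (nat_lit 276) (nat_lit 112)) (XT.lf (nat_lit 0) (nat_lit 32614232517) (nat_lit 76) (nat_lit 70142203640) (nat_lit 152) (nat_lit 48192823737) (nat_lit 13) (nat_lit 5) (nat_lit 14) (nat_lit 5) (nat_lit 15) (nat_lit 4) (nat_lit 333) (nat_lit 276) (nat_lit 111))) (XT.nd (nat_lit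 78) (nat_lit 152) (nat_lit 0) (XT.lf (nat_lit 0) (nat_lit 80054866953) (nat_lit 76) (nat_lit 45844661693) (nat_lit 152) (nat_lit 31241469805) (nat_lit 13) (nat_lit 5) (nat_lit 14) (nat_lit 5) (nat_lit 15) (nat_lit 4) (nat_lit 334) (nat_lit 276) (nat_lit 110)) (XT.nd (nat_lit 78) (nat_lit 152) (nat_lit 0) (XT.lf (nat_lit 0) (nat_lit 129866179680) (nat_lit 76) (nat_lit 20332807051) (nat_lit 152) (nat_lit 13443377587) (nat_lit 13) (nat_lit 5) (nat_lit 14) (nat_lit 5) (nat_lit 15) (nat_lit 4) (nat_lit 335) (nat_lit 276) (nat_lit 109)) (XT.lf (nat_lit 0) (nat_lit 5368530051) (nat_lit 152) (nat_lit 158560415095) (nat_lit 76) (nat_lit 6521171448) (nat_lit 11) (nat_lit 5) (nat_lit 13) (nat_lit 5) (nat_lit 12) (nat_lit 4) (nat_lit 336) (nat_lit 276) (nat_lit 108)))))) (XT.nd (nat_lit 312) (nat_lit 76) (nat_lit 0) (XT.nd (nat_lit 156) (nat_lit 76) (nat_lit 0) (XT.nd (nat_lit 78) (nat_lit 0) (nat_lit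 0) (XT.lf (nat_lit 0) (nat_lit 25583208539) (nat_lit 152) (nat_lit 117122549740) (nat_lit 76) (nat_lit 34835781792) (nat_lit 11) (nat_lit 5) (nat_lit 13) (nat_lit 5) (nat_lit 12) (nat_lit 4) (nat_lit 337) (nat_lit 276) (nat_lit 107)) (XT.lf (nat_lit 0) (nat_lit 46807900057) (nat_lit 152) (nat_lit 73614051697) (nat_lit 76) (nat_lit 64565619779) (nat_lit 11) (nat_lit 5) (nat_lit 13) (nat_lit 5) (nat_lit 12) (nat_lit 4) (nat_lit 338) (nat_lit 276) (nat_lit 106))) (XT.nd (nat_lit 78) (nat_lit 76) (nat_lit 0) (XT.lf (nat_lit 0) (nat_lit 69093139584) (nat_lit 152) (nat_lit 27931329302) (nat_lit 76) (nat_lit 95781470740) (nat_lit 11) (nat_lit 5) (nat_lit 13) (nat_lit 5) (nat_lit 12) (nat_lit 4) (nat_lit 339) (nat_lit 276) (nat_lit 105)) (XT.lf (nat_lit 0) (nat_lit 20696813102) (nat_lit 76) (nat_lit 72118309367) (nat_lit 152) (nat_lit 108183980281) (nat_lit 10) (nat_lit 5) (nat_lit 11) (nat_lit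 5) (nat_lit 12) (nat_lit 4) (nat_lit 340) (nat_lit 276) (nat_lit 104)))) (XT.nd (nat_lit 156) (nat_lit 76) (nat_lit 0) (XT.nd (nat_lit 78) (nat_lit 0) (nat_lit 0) (XT.lf (nat_lit 0) (nat_lit 72724950371) (nat_lit 76) (nat_lit 45470644407) (nat_lit 152) (nat_lit 91382710402) (nat_lit 10) (nat_lit 5) (nat_lit 11) (nat_lit 5) (nat_lit 12) (nat_lit 4) (nat_lit 341) (nat_lit 276) (nat_lit 103)) (XT.lf (nat_lit 0) (nat_lit 127353423130) (nat_lit 76) (nat_lit 17491057761) (nat_lit 152) (nat_lit 73742017958) (nat_lit 10) (nat_lit 5) (nat_lit 11) (nat_lit 5) (nat_lit 12) (nat_lit 4) (nat_lit 342) (nat_lit 276) (nat_lit 102))) (XT.nd (nat_lit 78) (nat_lit 76) (nat_lit 0) (XT.lf (nat_lit 0) (nat_lit 173010820996) (nat_lit 152) (nat_lit 43518423125) (nat_lit 0) (nat_lit 11506608200) (nat_lit 10) (nat_lit 5) (nat_lit 12) (nat_lit 4) (nat_lit 10) (nat_lit 4) (nat_lit 343) (nat_lit 276) (nat_lit 101))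 (XT.nd (nat_lit 78) (nat_lit 0) (nat_lit 0) (XT.lf (nat_lit 0) (nat_lit 6502345660) (nat_lit 76) (nat_lit 196470831284) (nat_lit 76) (nat_lit 34965112151) (nat_lit 9) (nat_lit 4) (nat_lit 10) (nat_lit 5) (nat_lit 10) (nat_lit 4) (nat_lit 344) (nat_lit 276) (nat_lit 100)) (XT.lf (nat_lit 0) (nat_lit 60534036834) (nat_lit 76) (nat_lit 174636071147) (nat_lit 76) (nat_lit 13128917406) (nat_lit 9) (nat_lit 4) (nat_lit 10) (nat_lit 5) (nat_lit 10) (nat_lit 4) (nat_lit 345) (nat_lit 276) (nat_lit 99))))))) (XT.nd (nat_lit 32448) (nat_lit 0) (nat_lit 4332) (XT.nd (nat_lit 312) (nat_lit 0) (nat_lit 0) (XT.nd (nat_lit 156) (nat_lit 76) (nat_lit 0) (XT.nd (nat_lit 78) (nat_lit 0) (nat_lit 0) (XT.lf (nat_lit 0) (nat_lit 9484923876) (nat_lit 152) (nat_lit 142064426086) (nat_lit 76) (nat_lit 107620826027) (nat_lit 8) (nat_lit 5) (nat_lit 10) (nat_lit 5) (nat_lit 9) (nat_lit 4) (nat_lit 346) (nat_lit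 276) (nat_lit 98)) (XT.lf (nat_lit 0) (nat_lit 32787733587) (nat_lit 152) (nat_lit 94294967409) (nat_lit 76) (nat_lit 143491447483) (nat_lit 8) (nat_lit 5) (nat_lit 10) (nat_lit 5) (nat_lit 9) (nat_lit 4) (nat_lit 347) (nat_lit 276) (nat_lit 97))) (XT.nd (nat_lit 78) (nat_lit 76) (nat_lit 0) (XT.lf (nat_lit 0) (nat_lit 57255201955) (nat_lit 152) (nat_lit 44137896522) (nat_lit 76) (nat_lit 181155245656) (nat_lit 8) (nat_lit 5) (nat_lit 10) (nat_lit 5) (nat_lit 9) (nat_lit 4) (nat_lit 348) (nat_lit 276) (nat_lit 96)) (XT.lf (nat_lit 0) (nat_lit 8808123120) (nat_lit 76) (nat_lit 74274981224) (nat_lit 152) (nat_lit 212031292623) (nat_lit 7) (nat_lit 5) (nat_lit 8) (nat_lit 5) (nat_lit 9) (nat_lit 4) (nat_lit 349) (nat_lit 276) (nat_lit 95)))) (XT.nd (nat_lit 31902) (nat_lit 0) (nat_lit 5168) (XT.nd (nat_lit 31824) (nat_lit 0) (nat_lit 5168) (XT.lf (nat_lit 0) (nat_lit 65933005331) (nat_lit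 76) (nat_lit 45016443531) (nat_lit 152) (nat_lit 197321951636) (nat_lit 7) (nat_lit 5) (nat_lit 8) (nat_lit 5) (nat_lit 9) (nat_lit 4) (nat_lit 350) (nat_lit 276) (nat_lit 94)) (XT.lf (nat_lit 0) (nat_lit 3152333186) (nat_lit 0) (nat_lit 3152333186) (nat_lit 684) (nat_lit 6199099507) (nat_lit 75) (nat_lit 5) (nat_lit 75) (nat_lit 3) (nat_lit 84) (nat_lit 3) (nat_lit 277) (nat_lit 277) (nat_lit 166))) (XT.nd (nat_lit 78) (nat_lit 0) (nat_lit 0) (XT.lf (nat_lit 0) (nat_lit 13095395678) (nat_lit 684) (nat_lit 7940085051) (nat_lit 760) (nat_lit 4588412440) (nat_lit 75) (nat_lit 5) (nat_lit 84) (nat_lit 3) (nat_lit 85) (nat_lit 5) (nat_lit 278) (nat_lit 277) (nat_lit 165)) (XT.nd (nat_lit 78) (nat_lit 0) (nat_lit 76) (XT.lf (nat_lit 76) (nat_lit 3361595684) (nat_lit 0) (nat_lit 10393855694) (nat_lit 760) (nat_lit 12508155061) (nat_lit 76) (nat_lit 5) (nat_lit 75) (nat_lit 5) (nat_lit 85)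 (nat_lit 5) (nat_lit 279) (nat_lit 277) (nat_lit 164)) (XT.lf (nat_lit 0) (nat_lit 14591487948) (nat_lit 684) (nat_lit 11442710916) (nat_lit 760) (nat_lit 893975003) (nat_lit 76) (nat_lit 5) (nat_lit 85) (nat_lit 5) (nat_lit 86) (nat_lit 5) (nat_lit 280) (nat_lit 277) (nat_lit 163)))))) (XT.nd (nat_lit 390) (nat_lit 912) (nat_lit 0) (XT.nd (nat_lit 156) (nat_lit 0) (nat_lit 76) (XT.nd (nat_lit 78) (nat_lit 0) (nat_lit 0) (XT.lf (nat_lit 76) (nat_lit 429311863) (nat_lit 0) (nat_lit 15211516736) (nat_lit 760) (nat_lit 11976582526) (nat_lit 77) (nat_lit 5) (nat_lit 76) (nat_lit 5) (nat_lit 86) (nat_lit 5) (nat_lit 281) (nat_lit 277) (nat_lit 162)) (XT.lf (nat_lit 76) (nat_lit 13288667161) (nat_lit 0) (nat_lit 3642376479) (nat_lit 760) (nat_lit 11400662019) (nat_lit 77) (nat_lit 5) (nat_lit 76) (nat_lit 5) (nat_lit 86) (nat_lit 5) (nat_lit 282) (nat_lit 277) (nat_lit 161))) (XT.nd (nat_lit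 78) (nat_lit 0) (nat_lit 0) (XT.lf (nat_lit 0) (nat_lit 18413462950) (nat_lit 684) (nat_lit 2427179168) (nat_lit 760) (nat_lit 8234703157) (nat_lit 77) (nat_lit 5) (nat_lit 86) (nat_lit 5) (nat_lit 87) (nat_lit 5) (nat_lit 283) (nat_lit 277) (nat_lit 160)) (XT.nd (nat_lit 78) (nat_lit 0) (nat_lit 76) (XT.lf (nat_lit 76) (nat_lit 11111923324) (nat_lit 0) (nat_lit 9086425144) (nat_lit 760) (nat_lit 9646415455) (nat_lit 78) (nat_lit 5) (nat_lit 77) (nat_lit 5) (nat_lit 87) (nat_lit 5) (nat_lit 284) (nat_lit 277) (nat_lit 159)) (XT.lf (nat_lit 0) (nat_lit 22160427941) (nat_lit 684) (nat_lit 5293552732) (nat_lit 760) (nat_lit 3194288981) (nat_lit 78) (nat_lit 5) (nat_lit 87) (nat_lit 5) (nat_lit 88) (nat_lit 5) (nat_lit 285) (nat_lit 277) (nat_lit 158))))) (XT.nd (nat_lit 156) (nat_lit 1064) (nat_lit 0) (XT.nd (nat_lit 78) (nat_lit 0) (nat_lit 0) (XT.lf (nat_lit 76) (nat_lit 8951728929)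 (nat_lit 0) (nat_lit 15553166434) (nat_lit 760) (nat_lit 6972854092) (nat_lit 79) (nat_lit 5) (nat_lit 78) (nat_lit 5) (nat_lit 88) (nat_lit 5) (nat_lit 286) (nat_lit 277) (nat_lit 157)) (XT.lf (nat_lit 76) (nat_lit 24089587672) (nat_lit 0) (nat_lit 2962369052) (nat_lit 760) (nat_lit 5292490360) (nat_lit 79) (nat_lit 5) (nat_lit 78) (nat_lit 5) (nat_lit 88) (nat_lit 5) (nat_lit 287) (nat_lit 277) (nat_lit 156))) (XT.nd (nat_lit 78) (nat_lit 456) (nat_lit 0) (XT.lf (nat_lit 0) (nat_lit 6783281844) (nat_lit 684) (nat_lit 23205088458) (nat_lit 760) (nat_lit 3253021111) (nat_lit 70) (nat_lit 5) (nat_lit 79) (nat_lit 5) (nat_lit 80) (nat_lit 5) (nat_lit 288) (nat_lit 277) (nat_lit 155)) (XT.nd (nat_lit 78) (nat_lit 456) (nat_lit 0) (XT.lf (nat_lit 0) (nat_lit 22806278357) (nat_lit 684) (nat_lit 10448983098) (nat_lit 760) (nat_lit 918749874) (nat_lit 70) (nat_lit 5) (nat_lit 79) (nat_lit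 5) (nat_lit 80) (nat_lit 5) (nat_lit 289) (nat_lit 277) (nat_lit 154)) (XT.lf (nat_lit 0) (nat_lit 1598709701) (nat_lit 456) (nat_lit 30599304264) (nat_lit 76) (nat_lit 2948286532) (nat_lit 64) (nat_lit 5) (nat_lit 70) (nat_lit 5) (nat_lit 65) (nat_lit 5) (nat_lit 290) (nat_lit 277) (nat_lit 153))))))))
noncomputable def xc212 : XT := (XT.nd (nat_lit 1404) (nat_lit 1216) (nat_lit 0) (XT.nd (nat_lit 702) (nat_lit 1064) (nat_lit 0) (XT.nd (nat_lit 312) (nat_lit 836) (nat_lit 0) (XT.nd (nat_lit 156) (nat_lit 0) (nat_lit 0) (XT.nd (nat_lit 78) (nat_lit 380) (nat_lit 0) (XT.lf (nat_lit 0) (nat_lit 4574460071) (nat_lit 456) (nat_lit 14698552745) (nat_lit 76) (nat_lit 16875283231) (nat_lit 64) (nat_lit 5) (nat_lit 70) (nat_lit 5) (nat_lit 65) (nat_lit 5) (nat_lit 291) (nat_lit 277) (nat_lit 152)) (XT.lf (nat_lit 0) (nat_lit 2059745710) (nat_lit 380) (nat_lit 5667910593) (nat_lit 456) (nat_lit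 29471311381) (nat_lit 59) (nat_lit 5) (nat_lit 64) (nat_lit 5) (nat_lit 65) (nat_lit 5) (nat_lit 292) (nat_lit 277) (nat_lit 151))) (XT.nd (nat_lit 78) (nat_lit 0) (nat_lit 0) (XT.lf (nat_lit 0) (nat_lit 11422677264) (nat_lit 456) (nat_lit 18265628922) (nat_lit 76) (nat_lit 8594667259) (nat_lit 59) (nat_lit 5) (nat_lit 65) (nat_lit 5) (nat_lit 60) (nat_lit 5) (nat_lit 293) (nat_lit 277) (nat_lit 150)) (XT.lf (nat_lit 0) (nat_lit 15392141599) (nat_lit 456) (nat_lit 644643030) (nat_lit 76) (nat_lit 23379918619) (nat_lit 59) (nat_lit 5) (nat_lit 65) (nat_lit 5) (nat_lit 60) (nat_lit 5) (nat_lit 294) (nat_lit 277) (nat_lit 149)))) (XT.nd (nat_lit 156) (nat_lit 532) (nat_lit 0) (XT.nd (nat_lit 78) (nat_lit 0) (nat_lit 0) (XT.lf (nat_lit 0) (nat_lit 18444522300) (nat_lit 304) (nat_lit 1400456827) (nat_lit 380) (nat_lit 20747903385) (nat_lit 55) (nat_lit 5) (nat_lit 59) (nat_lit 5) (nat_lit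 60) (nat_lit 5) (nat_lit 295) (nat_lit 277) (nat_lit 148)) (XT.lf (nat_lit 0) (nat_lit 24746652929) (nat_lit 380) (nat_lit 3538363534) (nat_lit 76) (nat_lit 13531552148) (nat_lit 55) (nat_lit 5) (nat_lit 60) (nat_lit 5) (nat_lit 56) (nat_lit 5) (nat_lit 296) (nat_lit 277) (nat_lit 147))) (XT.nd (nat_lit 78) (nat_lit 228) (nat_lit 0) (XT.lf (nat_lit 0) (nat_lit 16504260364) (nat_lit 304) (nat_lit 13666951204) (nat_lit 380) (nat_lit 12916344619) (nat_lit 51) (nat_lit 5) (nat_lit 55) (nat_lit 5) (nat_lit 56) (nat_lit 5) (nat_lit 297) (nat_lit 277) (nat_lit 146)) (XT.nd (nat_lit 78) (nat_lit 228) (nat_lit 0) (XT.lf (nat_lit 0) (nat_lit 35951411504) (nat_lit 380) (nat_lit 6777722471) (nat_lit 76) (nat_lit 1688745386) (nat_lit 51) (nat_lit 5) (nat_lit 56) (nat_lit 5) (nat_lit 52) (nat_lit 5) (nat_lit 298) (nat_lit 277) (nat_lit 145)) (XT.lf (nat_lit 0) (nat_lit 14246986463) (nat_lit 228)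 (nat_lit 28217495978) (nat_lit 304) (nat_lit 3328049759) (nat_lit 48) (nat_lit 5) (nat_lit 51) (nat_lit 5) (nat_lit 52) (nat_lit 5) (nat_lit 299) (nat_lit 277) (nat_lit 144)))))) (XT.nd (nat_lit 312) (nat_lit 456) (nat_lit 0) (XT.nd (nat_lit 156) (nat_lit 228) (nat_lit 0) (XT.nd (nat_lit 78) (nat_lit 304) (nat_lit 0) (XT.lf (nat_lit 0) (nat_lit 2115195730) (nat_lit 304) (nat_lit 10709227440) (nat_lit 76) (nat_lit 34404183017) (nat_lit 47) (nat_lit 5) (nat_lit 51) (nat_lit 5) (nat_lit 48) (nat_lit 5) (nat_lit 300) (nat_lit 277) (nat_lit 143)) (XT.lf (nat_lit 0) (nat_lit 7951449891) (nat_lit 380) (nat_lit 37302108516) (nat_lit 76) (nat_lit 3468568686) (nat_lit 43) (nat_lit 5) (nat_lit 48) (nat_lit 5) (nat_lit 44) (nat_lit 5) (nat_lit 301) (nat_lit 277) (nat_lit 142))) (XT.nd (nat_lit 78) (nat_lit 228) (nat_lit 0) (XT.lf (nat_lit 0) (nat_lit 14471686263) (nat_lit 380) (nat_lit 15469987322)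 (nat_lit 76) (nat_lit 20329047381) (nat_lit 43) (nat_lit 5) (nat_lit 48) (nat_lit 5) (nat_lit 44) (nat_lit 5) (nat_lit 302) (nat_lit 277) (nat_lit 141)) (XT.lf (nat_lit 0) (nat_lit 7697194406) (nat_lit 228) (nat_lit 13738623295) (nat_lit 304) (nat_lit 30455037805) (nat_lit 40) (nat_lit 5) (nat_lit 43) (nat_lit 5) (nat_lit 44) (nat_lit 5) (nat_lit 303) (nat_lit 277) (nat_lit 140)))) (XT.nd (nat_lit 156) (nat_lit 228) (nat_lit 0) (XT.nd (nat_lit 78) (nat_lit 228) (nat_lit 0) (XT.lf (nat_lit 0) (nat_lit 29063330894) (nat_lit 304) (nat_lit 21077462639) (nat_lit 76) (nat_lit 3435449375) (nat_lit 40) (nat_lit 5) (nat_lit 44) (nat_lit 5) (nat_lit 41) (nat_lit 5) (nat_lit 304) (nat_lit 277) (nat_lit 139)) (XT.lf (nat_lit 0) (nat_lit 3064586028) (nat_lit 228) (nat_lit 34278573496) (nat_lit 304) (nat_lit 17989197829) (nat_lit 37) (nat_lit 5) (nat_lit 40) (nat_lit 5) (nat_lit 41) (nat_lit 5) (nat_lit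 305) (nat_lit 277) (nat_lit 138))) (XT.nd (nat_lit 78) (nat_lit 228) (nat_lit 0) (XT.lf (nat_lit 0) (nat_lit 29142722283) (nat_lit 228) (nat_lit 17249142091) (nat_lit 304) (nat_lit 10766673345) (nat_lit 37) (nat_lit 5) (nat_lit 40) (nat_lit 5) (nat_lit 41) (nat_lit 5) (nat_lit 306) (nat_lit 277) (nat_lit 137)) (XT.nd (nat_lit 78) (nat_lit 228) (nat_lit 0) (XT.lf (nat_lit 0) (nat_lit 55900883987) (nat_lit 304) (nat_lit 2563862268) (nat_lit 76) (nat_lit 610891099) (nat_lit 37) (nat_lit 5) (nat_lit 41) (nat_lit 5) (nat_lit 38) (nat_lit 5) (nat_lit 307) (nat_lit 277) (nat_lit 136)) (XT.lf (nat_lit 0) (nat_lit 5320118766) (nat_lit 228) (nat_lit 36476371266) (nat_lit 76) (nat_lit 19254517100) (nat_lit 34) (nat_lit 5) (nat_lit 37) (nat_lit 5) (nat_lit 35) (nat_lit 5) (nat_lit 308) (nat_lit 277) (nat_lit 135))))))) (XT.nd (nat_lit 702) (nat_lit 456) (nat_lit 0) (XT.nd (nat_lit 312) (nat_lit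 380) (nat_lit 0) (XT.nd (nat_lit 156) (nat_lit 152) (nat_lit 0) (XT.nd (nat_lit 78) (nat_lit 228) (nat_lit 0) (XT.lf (nat_lit 0) (nat_lit 14175300542) (nat_lit 228) (nat_lit 10019291097) (nat_lit 76) (nat_lit 38925842229) (nat_lit 34) (nat_lit 5) (nat_lit 37) (nat_lit 5) (nat_lit 35) (nat_lit 5) (nat_lit 309) (nat_lit 277) (nat_lit 134)) (XT.lf (nat_lit 0) (nat_lit 18345302389) (nat_lit 228) (nat_lit 5412576323) (nat_lit 304) (nat_lit 41521224839) (nat_lit 31) (nat_lit 5) (nat_lit 34) (nat_lit 5) (nat_lit 35) (nat_lit 5) (nat_lit 310) (nat_lit 277) (nat_lit 133))) (XT.nd (nat_lit 78) (nat_lit 152) (nat_lit 0) (XT.lf (nat_lit 0) (nat_lit 34213696269) (nat_lit 304) (nat_lit 19289971387) (nat_lit 76) (nat_lit 14022336852) (nat_lit 31) (nat_lit 5) (nat_lit 35) (nat_lit 5) (nat_lit 32) (nat_lit 5) (nat_lit 311) (nat_lit 277) (nat_lit 132)) (XT.lf (nat_lit 0) (nat_lit 9963800690) (nat_lit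 152) (nat_lit 35471131781) (nat_lit 228) (nat_lit 24438189807) (nat_lit 29) (nat_lit 5) (nat_lit 31) (nat_lit 5) (nat_lit 32) (nat_lit 5) (nat_lit 312) (nat_lit 277) (nat_lit 131)))) (XT.nd (nat_lit 156) (nat_lit 380) (nat_lit 0) (XT.nd (nat_lit 78) (nat_lit 0) (nat_lit 0) (XT.lf (nat_lit 0) (nat_lit 41347582416) (nat_lit 152) (nat_lit 16194709342) (nat_lit 228) (nat_lit 14779054120) (nat_lit 29) (nat_lit 5) (nat_lit 31) (nat_lit 5) (nat_lit 32) (nat_lit 5) (nat_lit 313) (nat_lit 277) (nat_lit 130)) (XT.lf (nat_lit 0) (nat_lit 70316623437) (nat_lit 228) (nat_lit 656928164) (nat_lit 76) (nat_lit 3915351695) (nat_lit 29) (nat_lit 5) (nat_lit 32) (nat_lit 5) (nat_lit 30) (nat_lit 5) (nat_lit 314) (nat_lit 277) (nat_lit 129))) (XT.nd (nat_lit 78) (nat_lit 152) (nat_lit 0) (XT.lf (nat_lit 0) (nat_lit 6723177974) (nat_lit 228) (nat_lit 45725159832) (nat_lit 76) (nat_lit 25092955577) (nat_lit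 26) (nat_lit 5) (nat_lit 29) (nat_lit 5) (nat_lit 27) (nat_lit 5) (nat_lit 315) (nat_lit 277) (nat_lit 128)) (XT.nd (nat_lit 78) (nat_lit 152) (nat_lit 0) (XT.lf (nat_lit 0) (nat_lit 18439584568) (nat_lit 228) (nat_lit 14467471588) (nat_lit 76) (nat_lit 47415009795) (nat_lit 26) (nat_lit 5) (nat_lit 29) (nat_lit 5) (nat_lit 27) (nat_lit 5) (nat_lit 316) (nat_lit 277) (nat_lit 127)) (XT.lf (nat_lit 0) (nat_lit 18957731134) (nat_lit 152) (nat_lit 12078660502) (nat_lit 228) (nat_lit 52190758860) (nat_lit 24) (nat_lit 5) (nat_lit 26) (nat_lit 5) (nat_lit 27) (nat_lit 5) (nat_lit 317) (nat_lit 277) (nat_lit 126)))))) (XT.nd (nat_lit 312) (nat_lit 304) (nat_lit 0) (XT.nd (nat_lit 156) (nat_lit 0) (nat_lit 0) (XT.nd (nat_lit 78) (nat_lit 152) (nat_lit 0) (XT.lf (nat_lit 0) (nat_lit 44663556088) (nat_lit 228) (nat_lit 31867811178) (nat_lit 76) (nat_lit 9726098392) (nat_lit 24) (nat_lit 5) (nat_lit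 27) (nat_lit 5) (nat_lit 25) (nat_lit 5) (nat_lit 318) (nat_lit 277) (nat_lit 125)) (XT.lf (nat_lit 0) (nat_lit 2018410672) (nat_lit 152) (nat_lit 57181877119) (nat_lit 228) (nat_lit 30227600470) (nat_lit 22) (nat_lit 5) (nat_lit 24) (nat_lit 5) (nat_lit 25) (nat_lit 5) (nat_lit 319) (nat_lit 277) (nat_lit 124))) (XT.nd (nat_lit 78) (nat_lit 0) (nat_lit 0) (XT.lf (nat_lit 0) (nat_lit 38703297588) (nat_lit 152) (nat_lit 36298971453) (nat_lit 228) (nat_lit 17727644339) (nat_lit 22) (nat_lit 5) (nat_lit 24) (nat_lit 5) (nat_lit 25) (nat_lit 5) (nat_lit 320) (nat_lit 277) (nat_lit 123)) (XT.lf (nat_lit 0) (nat_lit 77220500779) (nat_lit 152) (nat_lit 14372625868) (nat_lit 228) (nat_lit 4603976180) (nat_lit 22) (nat_lit 5) (nat_lit 24) (nat_lit 5) (nat_lit 25) (nat_lit 5) (nat_lit 321) (nat_lit 277) (nat_lit 122)))) (XT.nd (nat_lit 156) (nat_lit 152) (nat_lit 0) (XT.nd (nat_lit 78) (nat_lit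 0) (nat_lit 0) (XT.lf (nat_lit 0) (nat_lit 9308242529) (nat_lit 152) (nat_lit 81692974782) (nat_lit 76) (nat_lit 8807970512) (nat_lit 20) (nat_lit 5) (nat_lit 22) (nat_lit 5) (nat_lit 21) (nat_lit 5) (nat_lit 322) (nat_lit 277) (nat_lit 121)) (XT.lf (nat_lit 0) (nat_lit 24322443123) (nat_lit 152) (nat_lit 46181570569) (nat_lit 76) (nat_lit 33066036562) (nat_lit 20) (nat_lit 5) (nat_lit 22) (nat_lit 5) (nat_lit 21) (nat_lit 5) (nat_lit 323) (nat_lit 277) (nat_lit 120))) (XT.nd (nat_lit 78) (nat_lit 152) (nat_lit 0) (XT.lf (nat_lit 0) (nat_lit 40086240883) (nat_lit 152) (nat_lit 8896401602) (nat_lit 76) (nat_lit 58536370557) (nat_lit 20) (nat_lit 5) (nat_lit 22) (nat_lit 5) (nat_lit 21) (nat_lit 5) (nat_lit 324) (nat_lit 277) (nat_lit 119)) (XT.nd (nat_lit 78) (nat_lit 0) (nat_lit 0) (XT.lf (nat_lit 0) (nat_lit 31251551136) (nat_lit 152) (nat_lit 25873541819) (nat_lit 228) (nat_lit 54515989311)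 (nat_lit 18) (nat_lit 5) (nat_lit 20) (nat_lit 5) (nat_lit 21) (nat_lit 5) (nat_lit 325) (nat_lit 277) (nat_lit 118)) (XT.lf (nat_lit 0) (nat_lit 73714072739) (nat_lit 152) (nat_lit 1451443946) (nat_lit 228) (nat_lit 40796258259) (nat_lit 18) (nat_lit 5) (nat_lit 20) (nat_lit 5) (nat_lit 21) (nat_lit 5) (nat_lit 326) (nat_lit 277) (nat_lit 117))))))))
noncomputable def xc213 : XT := (XT.nd (nat_lit 1404) (nat_lit 152) (nat_lit 0) (XT.nd (nat_lit 702) (nat_lit 228) (nat_lit 0) (XT.nd (nat_lit 312) (nat_lit 228) (nat_lit 0) (XT.nd (nat_lit 156) (nat_lit 76) (nat_lit 0) (XT.nd (nat_lit 78) (nat_lit 76) (nat_lit 0) (XT.lf (nat_lit 0) (nat_lit 94484666512) (nat_lit 228) (nat_lit 2578135123) (nat_lit 76) (nat_lit 23416866751) (nat_lit 18) (nat_lit 5) (nat_lit 21) (nat_lit 5) (nat_lit 19) (nat_lit 4) (nat_lit 327) (nat_lit 277) (nat_lit 116)) (XT.lf (nat_lit 0) (nat_lit 40340696919) (nat_lit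 76) (nat_lit 75081753604) (nat_lit 152) (nat_lit 9768373453) (nat_lit 17) (nat_lit 5) (nat_lit 18) (nat_lit 5) (nat_lit 19) (nat_lit 4) (nat_lit 328) (nat_lit 277) (nat_lit 115))) (XT.nd (nat_lit 78) (nat_lit 0) (nat_lit 0) (XT.lf (nat_lit 0) (nat_lit 7080347751) (nat_lit 152) (nat_lit 44756171534) (nat_lit 76) (nat_lit 78293172643) (nat_lit 16) (nat_lit 5) (nat_lit 18) (nat_lit 5) (nat_lit 17) (nat_lit 5) (nat_lit 329) (nat_lit 277) (nat_lit 114)) (XT.lf (nat_lit 0) (nat_lit 24442324367) (nat_lit 152) (nat_lit 2819160735) (nat_lit 76) (nat_lit 108046057406) (nat_lit 16) (nat_lit 5) (nat_lit 18) (nat_lit 5) (nat_lit 17) (nat_lit 5) (nat_lit 330) (nat_lit 277) (nat_lit 113)))) (XT.nd (nat_lit 156) (nat_lit 76) (nat_lit 0) (XT.nd (nat_lit 78) (nat_lit 0) (nat_lit 0) (XT.lf (nat_lit 0) (nat_lit 42575963781) (nat_lit 152) (nat_lit 760309720) (nat_lit 228) (nat_lit 97374819510) (nat_lit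 14) (nat_lit 5) (nat_lit 16) (nat_lit 5) (nat_lit 17) (nat_lit 5) (nat_lit 331) (nat_lit 277) (nat_lit 112)) (XT.lf (nat_lit 0) (nat_lit 63645174957) (nat_lit 228) (nat_lit 56468516447) (nat_lit 76) (nat_lit 26247617919) (nat_lit 14) (nat_lit 5) (nat_lit 17) (nat_lit 5) (nat_lit 15) (nat_lit 4) (nat_lit 332) (nat_lit 277) (nat_lit 111))) (XT.nd (nat_lit 78) (nat_lit 76) (nat_lit 0) (XT.lf (nat_lit 0) (nat_lit 84981179287) (nat_lit 228) (nat_lit 12732412737) (nat_lit 76) (nat_lit 54579862515) (nat_lit 14) (nat_lit 5) (nat_lit 17) (nat_lit 5) (nat_lit 15) (nat_lit 4) (nat_lit 333) (nat_lit 277) (nat_lit 110)) (XT.nd (nat_lit 78) (nat_lit 0) (nat_lit 0) (XT.lf (nat_lit 0) (nat_lit 34286570421) (nat_lit 76) (nat_lit 73631954966) (nat_lit 152) (nat_lit 50576955482) (nat_lit 13) (nat_lit 5) (nat_lit 14) (nat_lit 5) (nat_lit 15) (nat_lit 4) (nat_lit 334) (nat_lit 277) (nat_lit 109)) (XT.lf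 (nat_lit 0) (nat_lit 84097254376) (nat_lit 76) (nat_lit 48120362534) (nat_lit 152) (nat_lit 32779248588) (nat_lit 13) (nat_lit 5) (nat_lit 14) (nat_lit 5) (nat_lit 15) (nat_lit 4) (nat_lit 335) (nat_lit 277) (nat_lit 108)))))) (XT.nd (nat_lit 312) (nat_lit 76) (nat_lit 0) (XT.nd (nat_lit 156) (nat_lit 0) (nat_lit 0) (XT.nd (nat_lit 78) (nat_lit 152) (nat_lit 0) (XT.lf (nat_lit 0) (nat_lit 136397244925) (nat_lit 76) (nat_lit 21333702410) (nat_lit 152) (nat_lit 14092408650) (nat_lit 13) (nat_lit 5) (nat_lit 14) (nat_lit 5) (nat_lit 15) (nat_lit 4) (nat_lit 336) (nat_lit 277) (nat_lit 107)) (XT.lf (nat_lit 0) (nat_lit 5659128466) (nat_lit 152) (nat_lit 166449665367) (nat_lit 76) (nat_lit 6862696425) (nat_lit 11) (nat_lit 5) (nat_lit 13) (nat_lit 5) (nat_lit 12) (nat_lit 4) (nat_lit 337) (nat_lit 277) (nat_lit 106))) (XT.nd (nat_lit 78) (nat_lit 0) (nat_lit 0) (XT.lf (nat_lit 0) (nat_lit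 26883485073) (nat_lit 152) (nat_lit 122941752958) (nat_lit 76) (nat_lit 36592300791) (nat_lit 11) (nat_lit 5) (nat_lit 13) (nat_lit 5) (nat_lit 12) (nat_lit 4) (nat_lit 338) (nat_lit 277) (nat_lit 105)) (XT.lf (nat_lit 0) (nat_lit 49168405638) (nat_lit 152) (nat_lit 77259588311) (nat_lit 76) (nat_lit 67807929254) (nat_lit 11) (nat_lit 5) (nat_lit 13) (nat_lit 5) (nat_lit 12) (nat_lit 4) (nat_lit 339) (nat_lit 277) (nat_lit 104)))) (XT.nd (nat_lit 156) (nat_lit 0) (nat_lit 0) (XT.nd (nat_lit 78) (nat_lit 76) (nat_lit 0) (XT.lf (nat_lit 0) (nat_lit 72566949495) (nat_lit 152) (nat_lit 29294404367) (nat_lit 76) (nat_lit 100583904739) (nat_lit 11) (nat_lit 5) (nat_lit 13) (nat_lit 5) (nat_lit 12) (nat_lit 4) (nat_lit 340) (nat_lit 277) (nat_lit 103)) (XT.lf (nat_lit 0) (nat_lit 21764604974) (nat_lit 76) (nat_lit 75710028967) (nat_lit 152) (nat_lit 113573466789) (nat_lit 10) (nat_lit 5) (nat_lit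 11) (nat_lit 5) (nat_lit 12) (nat_lit 4) (nat_lit 341) (nat_lit 277) (nat_lit 102))) (XT.nd (nat_lit 78) (nat_lit 0) (nat_lit 0) (XT.lf (nat_lit 0) (nat_lit 76392580000) (nat_lit 76) (nat_lit 47730656753) (nat_lit 152) (nat_lit 95933072106) (nat_lit 10) (nat_lit 5) (nat_lit 11) (nat_lit 5) (nat_lit 12) (nat_lit 4) (nat_lit 342) (nat_lit 277) (nat_lit 101)) (XT.nd (nat_lit 78) (nat_lit 0) (nat_lit 0) (XT.lf (nat_lit 0) (nat_lit 133750982012) (nat_lit 76) (nat_lit 18352734578) (nat_lit 152) (nat_lit 77411239032) (nat_lit 10) (nat_lit 5) (nat_lit 11) (nat_lit 5) (nat_lit 12) (nat_lit 4) (nat_lit 343) (nat_lit 277) (nat_lit 100)) (XT.lf (nat_lit 0) (nat_lit 181677755079) (nat_lit 152) (nat_lit 45665244410) (nat_lit 0) (nat_lit 12093809045) (nat_lit 10) (nat_lit 5) (nat_lit 12) (nat_lit 4) (nat_lit 10) (nat_lit 4) (nat_lit 344) (nat_lit 277) (nat_lit 99))))))) (XT.nd (nat_lit 32604) (nat_lit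 0) (nat_lit 4712) (XT.nd (nat_lit 312) (nat_lit 0) (nat_lit 0) (XT.nd (nat_lit 156) (nat_lit 76) (nat_lit 0) (XT.nd (nat_lit 78) (nat_lit 0) (nat_lit 0) (XT.lf (nat_lit 0) (nat_lit 6856093461) (nat_lit 76) (nat_lit 206281801746) (nat_lit 76) (nat_lit 36696489419) (nat_lit 9) (nat_lit 4) (nat_lit 10) (nat_lit 5) (nat_lit 10) (nat_lit 4) (nat_lit 345) (nat_lit 277) (nat_lit 98)) (XT.lf (nat_lit 0) (nat_lit 63588005836) (nat_lit 76) (nat_lit 183355902226) (nat_lit 76) (nat_lit 13769288668) (nat_lit 9) (nat_lit 4) (nat_lit 10) (nat_lit 5) (nat_lit 10) (nat_lit 4) (nat_lit 346) (nat_lit 277) (nat_lit 97))) (XT.nd (nat_lit 78) (nat_lit 0) (nat_lit 0) (XT.lf (nat_lit 0) (nat_lit 9973989232) (nat_lit 152) (nat_lit 149141174898) (nat_lit 76) (nat_lit 113012765919) (nat_lit 8) (nat_lit 5) (nat_lit 10) (nat_lit 5) (nat_lit 9) (nat_lit 4) (nat_lit 347) (nat_lit 277) (nat_lit 96)) (XT.lf (nat_lit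 0) (nat_lit 34441233755) (nat_lit 152) (nat_lit 98984503882) (nat_lit 76) (nat_lit 150676399468) (nat_lit 8) (nat_lit 5) (nat_lit 10) (nat_lit 5) (nat_lit 9) (nat_lit 4) (nat_lit 348) (nat_lit 277) (nat_lit 95)))) (XT.nd (nat_lit 32058) (nat_lit 0) (nat_lit 5092) (XT.nd (nat_lit 31980) (nat_lit 0) (nat_lit 5092) (XT.lf (nat_lit 0) (nat_lit 60131403470) (nat_lit 152) (nat_lit 46320780017) (nat_lit 76) (nat_lit 190222893283) (nat_lit 8) (nat_lit 5) (nat_lit 10) (nat_lit 5) (nat_lit 9) (nat_lit 4) (nat_lit 349) (nat_lit 277) (nat_lit 94)) (XT.lf (nat_lit 0) (nat_lit 3357605487) (nat_lit 0) (nat_lit 3357605487) (nat_lit 684) (nat_lit 6408696687) (nat_lit 75) (nat_lit 5) (nat_lit 75) (nat_lit 3) (nat_lit 84) (nat_lit 3) (nat_lit 278) (nat_lit 278) (nat_lit 164))) (XT.nd (nat_lit 78) (nat_lit 0) (nat_lit 0) (XT.lf (nat_lit 0) (nat_lit 13930293551) (nat_lit 684) (nat_lit 8235287034) (nat_lit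 760) (nat_lit 4729965702) (nat_lit 75) (nat_lit 5) (nat_lit 84) (nat_lit 3) (nat_lit 85) (nat_lit 5) (nat_lit 279) (nat_lit 278) (nat_lit 163)) (XT.nd (nat_lit 78) (nat_lit 0) (nat_lit 76) (XT.lf (nat_lit 76) (nat_lit 3629835765) (nat_lit 0) (nat_lit 10986502525) (nat_lit 760) (nat_lit 12951283100) (nat_lit 76) (nat_lit 5) (nat_lit 75) (nat_lit 5) (nat_lit 85) (nat_lit 5) (nat_lit 280) (nat_lit 278) (nat_lit 162)) (XT.lf (nat_lit 0) (nat_lit 15484848371) (nat_lit 684) (nat_lit 11909642000) (nat_lit 760) (nat_lit 871417504) (nat_lit 76) (nat_lit 5) (nat_lit 85) (nat_lit 5) (nat_lit 86) (nat_lit 5) (nat_lit 281) (nat_lit 278) (nat_lit 161)))))) (XT.nd (nat_lit 312) (nat_lit 456) (nat_lit 0) (XT.nd (nat_lit 156) (nat_lit 0) (nat_lit 76) (XT.nd (nat_lit 78) (nat_lit 0) (nat_lit 0) (XT.lf (nat_lit 76) (nat_lit 554285072) (nat_lit 0) (nat_lit 16026187692) (nat_lit 760) (nat_lit 12409466509)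 (nat_lit 77) (nat_lit 5) (nat_lit 76) (nat_lit 5) (nat_lit 86) (nat_lit 5) (nat_lit 282) (nat_lit 278) (nat_lit 160)) (XT.lf (nat_lit 76) (nat_lit 14051679201) (nat_lit 0) (nat_lit 3876014464) (nat_lit 760) (nat_lit 11812652127) (nat_lit 77) (nat_lit 5) (nat_lit 76) (nat_lit 5) (nat_lit 86) (nat_lit 5) (nat_lit 283) (nat_lit 278) (nat_lit 159))) (XT.nd (nat_lit 78) (nat_lit 0) (nat_lit 0) (XT.lf (nat_lit 0) (nat_lit 19476320368) (nat_lit 684) (nat_lit 2446320802) (nat_lit 760) (nat_lit 8598942862) (nat_lit 77) (nat_lit 5) (nat_lit 86) (nat_lit 5) (nat_lit 87) (nat_lit 5) (nat_lit 284) (nat_lit 278) (nat_lit 158)) (XT.lf (nat_lit 76) (nat_lit 11768088149) (nat_lit 0) (nat_lit 9577161493) (nat_lit 760) (nat_lit 9984503964) (nat_lit 78) (nat_lit 5) (nat_lit 77) (nat_lit 5) (nat_lit 87) (nat_lit 5) (nat_lit 285) (nat_lit 278) (nat_lit 157)))) (XT.nd (nat_lit 156) (nat_lit 608) (nat_lit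 0) (XT.nd (nat_lit 78) (nat_lit 0) (nat_lit 0) (XT.lf (nat_lit 0) (nat_lit 23398368584) (nat_lit 684) (nat_lit 5455005879) (nat_lit 760) (nat_lit 3320432400) (nat_lit 78) (nat_lit 5) (nat_lit 87) (nat_lit 5) (nat_lit 88) (nat_lit 5) (nat_lit 286) (nat_lit 278) (nat_lit 156)) (XT.lf (nat_lit 76) (nat_lit 9500874954) (nat_lit 0) (nat_lit 16354583422) (nat_lit 760) (nat_lit 7189550438) (nat_lit 79) (nat_lit 5) (nat_lit 78) (nat_lit 5) (nat_lit 88) (nat_lit 5) (nat_lit 287) (nat_lit 278) (nat_lit 155))) (XT.nd (nat_lit 78) (nat_lit 608) (nat_lit 0) (XT.lf (nat_lit 76) (nat_lit 25390790463) (nat_lit 0) (nat_lit 3133114806) (nat_lit 760) (nat_lit 5431451679) (nat_lit 79) (nat_lit 5) (nat_lit 78) (nat_lit 5) (nat_lit 88) (nat_lit 5) (nat_lit 288) (nat_lit 278) (nat_lit 154)) (XT.nd (nat_lit 78) (nat_lit 0) (nat_lit 0) (XT.lf (nat_lit 0) (nat_lit 7224167542) (nat_lit 684) (nat_lit 24378540324)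 (nat_lit 760) (nat_lit 3294678638) (nat_lit 70) (nat_lit 5) (nat_lit 79) (nat_lit 5) (nat_lit 80) (nat_lit 5) (nat_lit 289) (nat_lit 278) (nat_lit 153)) (XT.lf (nat_lit 0) (nat_lit 24043469995) (nat_lit 684) (nat_lit 10984001247) (nat_lit 760) (nat_lit 849455435) (nat_lit 70) (nat_lit 5) (nat_lit 79) (nat_lit 5) (nat_lit 80) (nat_lit 5) (nat_lit 290) (nat_lit 278) (nat_lit 152))))))))
noncomputable def xc214 : XT := (XT.nd (nat_lit 1404) (nat_lit 1444) (nat_lit 0) (XT.nd (nat_lit 702) (nat_lit 1064) (nat_lit 0) (XT.nd (nat_lit 312) (nat_lit 608) (nat_lit 0) (XT.nd (nat_lit 156) (nat_lit 380) (nat_lit 0) (XT.nd (nat_lit 78) (nat_lit 0) (nat_lit 0) (XT.lf (nat_lit 0) (nat_lit 1786293331) (nat_lit 456) (nat_lit 32024226192) (nat_lit 76) (nat_lit 3087429797) (nat_lit 64) (nat_lit 5) (nat_lit 70) (nat_lit 5) (nat_lit 65) (nat_lit 5) (nat_lit 291) (nat_lit 278) (nat_lit 151)) (XT.lf (nat_lit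 0) (nat_lit 4905705118) (nat_lit 456) (nat_lit 15333439159) (nat_lit 76) (nat_lit 17711170191) (nat_lit 64) (nat_lit 5) (nat_lit 70) (nat_lit 5) (nat_lit 65) (nat_lit 5) (nat_lit 292) (nat_lit 278) (nat_lit 150))) (XT.nd (nat_lit 78) (nat_lit 0) (nat_lit 0) (XT.lf (nat_lit 0) (nat_lit 2261160651) (nat_lit 380) (nat_lit 5952055240) (nat_lit 456) (nat_lit 30840483929) (nat_lit 59) (nat_lit 5) (nat_lit 64) (nat_lit 5) (nat_lit 65) (nat_lit 5) (nat_lit 293) (nat_lit 278) (nat_lit 149)) (XT.lf (nat_lit 0) (nat_lit 12088254058) (nat_lit 456) (nat_lit 19080190750) (nat_lit 76) (nat_lit 9023710012) (nat_lit 59) (nat_lit 5) (nat_lit 65) (nat_lit 5) (nat_lit 60) (nat_lit 5) (nat_lit 294) (nat_lit 278) (nat_lit 148)))) (XT.nd (nat_lit 156) (nat_lit 304) (nat_lit 0) (XT.nd (nat_lit 78) (nat_lit 304) (nat_lit 0) (XT.lf (nat_lit 0) (nat_lit 16251694326) (nat_lit 456) (nat_lit 582856497) (nat_lit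 76) (nat_lit 24548256827) (nat_lit 59) (nat_lit 5) (nat_lit 65) (nat_lit 5) (nat_lit 60) (nat_lit 5) (nat_lit 295) (nat_lit 278) (nat_lit 147)) (XT.lf (nat_lit 0) (nat_lit 19459250669) (nat_lit 304) (nat_lit 1465084155) (nat_lit 380) (nat_lit 21693614116) (nat_lit 55) (nat_lit 5) (nat_lit 59) (nat_lit 5) (nat_lit 60) (nat_lit 5) (nat_lit 296) (nat_lit 278) (nat_lit 146))) (XT.nd (nat_lit 78) (nat_lit 304) (nat_lit 0) (XT.lf (nat_lit 0) (nat_lit 26067024604) (nat_lit 380) (nat_lit 3622904842) (nat_lit 76) (nat_lit 14213103873) (nat_lit 55) (nat_lit 5) (nat_lit 60) (nat_lit 5) (nat_lit 56) (nat_lit 5) (nat_lit 297) (nat_lit 278) (nat_lit 145)) (XT.nd (nat_lit 78) (nat_lit 0) (nat_lit 0) (XT.lf (nat_lit 0) (nat_lit 17420360302) (nat_lit 304) (nat_lit 14339915634) (nat_lit 380) (nat_lit 13477431185) (nat_lit 51) (nat_lit 5) (nat_lit 55) (nat_lit 5) (nat_lit 56) (nat_lit 5) (nat_lit 298)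 (nat_lit 278) (nat_lit 144)) (XT.lf (nat_lit 0) (nat_lit 37825806745) (nat_lit 380) (nat_lit 7026178417) (nat_lit 76) (nat_lit 1782754851) (nat_lit 51) (nat_lit 5) (nat_lit 56) (nat_lit 5) (nat_lit 52) (nat_lit 5) (nat_lit 299) (nat_lit 278) (nat_lit 143)))))) (XT.nd (nat_lit 312) (nat_lit 456) (nat_lit 0) (XT.nd (nat_lit 156) (nat_lit 304) (nat_lit 0) (XT.nd (nat_lit 78) (nat_lit 76) (nat_lit 0) (XT.lf (nat_lit 0) (nat_lit 15048307412) (nat_lit 228) (nat_lit 29613954595) (nat_lit 304) (nat_lit 3415986094) (nat_lit 48) (nat_lit 5) (nat_lit 51) (nat_lit 5) (nat_lit 52) (nat_lit 5) (nat_lit 300) (nat_lit 278) (nat_lit 142)) (XT.lf (nat_lit 0) (nat_lit 2293293369) (nat_lit 304) (nat_lit 11157396185) (nat_lit 76) (nat_lit 36135564120) (nat_lit 47) (nat_lit 5) (nat_lit 51) (nat_lit 5) (nat_lit 48) (nat_lit 5) (nat_lit 301) (nat_lit 278) (nat_lit 141))) (XT.nd (nat_lit 78) (nat_lit 0) (nat_lit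 0) (XT.lf (nat_lit 0) (nat_lit 8419500829) (nat_lit 380) (nat_lit 39077903878) (nat_lit 76) (nat_lit 3657146791) (nat_lit 43) (nat_lit 5) (nat_lit 48) (nat_lit 5) (nat_lit 44) (nat_lit 5) (nat_lit 302) (nat_lit 278) (nat_lit 140)) (XT.lf (nat_lit 0) (nat_lit 15262392903) (nat_lit 380) (nat_lit 16158429484) (nat_lit 76) (nat_lit 21359928008) (nat_lit 43) (nat_lit 5) (nat_lit 48) (nat_lit 5) (nat_lit 44) (nat_lit 5) (nat_lit 303) (nat_lit 278) (nat_lit 139)))) (XT.nd (nat_lit 156) (nat_lit 228) (nat_lit 0) (XT.nd (nat_lit 78) (nat_lit 0) (nat_lit 0) (XT.lf (nat_lit 0) (nat_lit 8165739439) (nat_lit 228) (nat_lit 14407101735) (nat_lit 304) (nat_lit 31909152142) (nat_lit 40) (nat_lit 5) (nat_lit 43) (nat_lit 5) (nat_lit 44) (nat_lit 5) (nat_lit 304) (nat_lit 278) (nat_lit 138)) (XT.lf (nat_lit 0) (nat_lit 30578898093) (nat_lit 304) (nat_lit 22048667029) (nat_lit 76) (nat_lit 3624233389)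 (nat_lit 40) (nat_lit 5) (nat_lit 44) (nat_lit 5) (nat_lit 41) (nat_lit 5) (nat_lit 305) (nat_lit 278) (nat_lit 137))) (XT.nd (nat_lit 78) (nat_lit 0) (nat_lit 0) (XT.lf (nat_lit 0) (nat_lit 3299150704) (nat_lit 228) (nat_lit 35971865863) (nat_lit 304) (nat_lit 18824793690) (nat_lit 37) (nat_lit 5) (nat_lit 40) (nat_lit 5) (nat_lit 41) (nat_lit 5) (nat_lit 306) (nat_lit 278) (nat_lit 136)) (XT.nd (nat_lit 78) (nat_lit 0) (nat_lit 0) (XT.lf (nat_lit 0) (nat_lit 30677320659) (nat_lit 228) (nat_lit 18091945569) (nat_lit 304) (nat_lit 11244184126) (nat_lit 37) (nat_lit 5) (nat_lit 40) (nat_lit 5) (nat_lit 41) (nat_lit 5) (nat_lit 307) (nat_lit 278) (nat_lit 135)) (XT.lf (nat_lit 0) (nat_lit 58751276266) (nat_lit 304) (nat_lit 2615703320) (nat_lit 76) (nat_lit 659554308) (nat_lit 37) (nat_lit 5) (nat_lit 41) (nat_lit 5) (nat_lit 38) (nat_lit 5) (nat_lit 308) (nat_lit 278) (nat_lit 134)))))))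 (XT.nd (nat_lit 702) (nat_lit 608) (nat_lit 0) (XT.nd (nat_lit 312) (nat_lit 380) (nat_lit 0) (XT.nd (nat_lit 156) (nat_lit 228) (nat_lit 0) (XT.nd (nat_lit 78) (nat_lit 0) (nat_lit 0) (XT.lf (nat_lit 0) (nat_lit 5641002083) (nat_lit 228) (nat_lit 38223147800) (nat_lit 76) (nat_lit 20236556779) (nat_lit 34) (nat_lit 5) (nat_lit 37) (nat_lit 5) (nat_lit 35) (nat_lit 5) (nat_lit 309) (nat_lit 278) (nat_lit 133)) (XT.lf (nat_lit 0) (nat_lit 14936329739) (nat_lit 228) (nat_lit 10446882291) (nat_lit 76) (nat_lit 40890528458) (nat_lit 34) (nat_lit 5) (nat_lit 37) (nat_lit 5) (nat_lit 35) (nat_lit 5) (nat_lit 310) (nat_lit 278) (nat_lit 132))) (XT.nd (nat_lit 78) (nat_lit 0) (nat_lit 0) (XT.lf (nat_lit 0) (nat_lit 19334757429) (nat_lit 228) (nat_lit 5661917705) (nat_lit 304) (nat_lit 43543741456) (nat_lit 31) (nat_lit 5) (nat_lit 34) (nat_lit 5) (nat_lit 35) (nat_lit 5) (nat_lit 311) (nat_lit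 278) (nat_lit 131)) (XT.lf (nat_lit 0) (nat_lit 35973176172) (nat_lit 304) (nat_lit 20183517858) (nat_lit 76) (nat_lit 14743078554) (nat_lit 31) (nat_lit 5) (nat_lit 35) (nat_lit 5) (nat_lit 32) (nat_lit 5) (nat_lit 312) (nat_lit 278) (nat_lit 130)))) (XT.nd (nat_lit 156) (nat_lit 228) (nat_lit 0) (XT.nd (nat_lit 78) (nat_lit 0) (nat_lit 0) (XT.lf (nat_lit 0) (nat_lit 10531798434) (nat_lit 152) (nat_lit 37222442068) (nat_lit 228) (nat_lit 25610071824) (nat_lit 29) (nat_lit 5) (nat_lit 31) (nat_lit 5) (nat_lit 32) (nat_lit 5) (nat_lit 313) (nat_lit 278) (nat_lit 129)) (XT.lf (nat_lit 0) (nat_lit 43481445069) (nat_lit 152) (nat_lit 16983257854) (nat_lit 228) (nat_lit 15470361613) (nat_lit 29) (nat_lit 5) (nat_lit 31) (nat_lit 5) (nat_lit 32) (nat_lit 5) (nat_lit 314) (nat_lit 278) (nat_lit 128))) (XT.nd (nat_lit 78) (nat_lit 228) (nat_lit 0) (XT.lf (nat_lit 0) (nat_lit 73875909243) (nat_lit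 228) (nat_lit 624535163) (nat_lit 76) (nat_lit 4130651509) (nat_lit 29) (nat_lit 5) (nat_lit 32) (nat_lit 5) (nat_lit 30) (nat_lit 5) (nat_lit 315) (nat_lit 278) (nat_lit 127)) (XT.nd (nat_lit 78) (nat_lit 0) (nat_lit 0) (XT.lf (nat_lit 0) (nat_lit 7102492838) (nat_lit 228) (nat_lit 47945731338) (nat_lit 76) (nat_lit 26367903684) (nat_lit 26) (nat_lit 5) (nat_lit 29) (nat_lit 5) (nat_lit 27) (nat_lit 5) (nat_lit 316) (nat_lit 278) (nat_lit 126)) (XT.lf (nat_lit 0) (nat_lit 19402664716) (nat_lit 228) (nat_lit 15128286610) (nat_lit 76) (nat_lit 49805093931) (nat_lit 26) (nat_lit 5) (nat_lit 29) (nat_lit 5) (nat_lit 27) (nat_lit 5) (nat_lit 317) (nat_lit 278) (nat_lit 125)))))) (XT.nd (nat_lit 312) (nat_lit 304) (nat_lit 0) (XT.nd (nat_lit 156) (nat_lit 152) (nat_lit 0) (XT.nd (nat_lit 78) (nat_lit 0) (nat_lit 0) (XT.lf (nat_lit 0) (nat_lit 19967167239) (nat_lit 152) (nat_lit 12661148673)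 (nat_lit 228) (nat_lit 54758121211) (nat_lit 24) (nat_lit 5) (nat_lit 26) (nat_lit 5) (nat_lit 27) (nat_lit 5) (nat_lit 318) (nat_lit 278) (nat_lit 124)) (XT.lf (nat_lit 0) (nat_lit 46935247710) (nat_lit 228) (nat_lit 33400929706) (nat_lit 76) (nat_lit 10232173298) (nat_lit 24) (nat_lit 5) (nat_lit 27) (nat_lit 5) (nat_lit 25) (nat_lit 5) (nat_lit 319) (nat_lit 278) (nat_lit 123))) (XT.nd (nat_lit 78) (nat_lit 0) (nat_lit 0) (XT.lf (nat_lit 0) (nat_lit 2178631108) (nat_lit 152) (nat_lit 60019276737) (nat_lit 228) (nat_lit 31699434989) (nat_lit 22) (nat_lit 5) (nat_lit 24) (nat_lit 5) (nat_lit 25) (nat_lit 5) (nat_lit 320) (nat_lit 278) (nat_lit 122)) (XT.lf (nat_lit 0) (nat_lit 40694938564) (nat_lit 152) (nat_lit 38093258847) (nat_lit 228) (nat_lit 18576364170) (nat_lit 22) (nat_lit 5) (nat_lit 24) (nat_lit 5) (nat_lit 25) (nat_lit 5) (nat_lit 321) (nat_lit 278) (nat_lit 121)))) (XT.nd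 (nat_lit 156) (nat_lit 152) (nat_lit 0) (XT.nd (nat_lit 78) (nat_lit 152) (nat_lit 0) (XT.lf (nat_lit 0) (nat_lit 81135312577) (nat_lit 152) (nat_lit 15071579848) (nat_lit 228) (nat_lit 4798306049) (nat_lit 22) (nat_lit 5) (nat_lit 24) (nat_lit 5) (nat_lit 25) (nat_lit 5) (nat_lit 322) (nat_lit 278) (nat_lit 120)) (XT.lf (nat_lit 0) (nat_lit 9807882009) (nat_lit 152) (nat_lit 85722094729) (nat_lit 76) (nat_lit 9267910110) (nat_lit 20) (nat_lit 5) (nat_lit 22) (nat_lit 5) (nat_lit 21) (nat_lit 5) (nat_lit 323) (nat_lit 278) (nat_lit 119))) (XT.nd (nat_lit 78) (nat_lit 152) (nat_lit 0) (XT.lf (nat_lit 0) (nat_lit 25571162759) (nat_lit 152) (nat_lit 48437764533) (nat_lit 76) (nat_lit 34737948934) (nat_lit 20) (nat_lit 5) (nat_lit 22) (nat_lit 5) (nat_lit 21) (nat_lit 5) (nat_lit 324) (nat_lit 278) (nat_lit 118)) (XT.nd (nat_lit 78) (nat_lit 152) (nat_lit 0) (XT.lf (nat_lit 0) (nat_lit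 42121598146) (nat_lit 152) (nat_lit 9290855430) (nat_lit 76) (nat_lit 61480913414) (nat_lit 20) (nat_lit 5) (nat_lit 22) (nat_lit 5) (nat_lit 21) (nat_lit 5) (nat_lit 325) (nat_lit 278) (nat_lit 117)) (XT.lf (nat_lit 0) (nat_lit 32863682586) (nat_lit 152) (nat_lit 27148005568) (nat_lit 228) (nat_lit 57209888871) (nat_lit 18) (nat_lit 5) (nat_lit 20) (nat_lit 5) (nat_lit 21) (nat_lit 5) (nat_lit 326) (nat_lit 278) (nat_lit 116))))))))
noncomputable def xc215 : XT := (XT.nd (nat_lit 1404) (nat_lit 152) (nat_lit 0) (XT.nd (nat_lit 702) (nat_lit 228) (nat_lit 0) (XT.nd (nat_lit 312) (nat_lit 228) (nat_lit 0) (XT.nd (nat_lit 156) (nat_lit 152) (nat_lit 0) (XT.nd (nat_lit 78) (nat_lit 0) (nat_lit 0) (XT.lf (nat_lit 0) (nat_lit 77446970560) (nat_lit 152) (nat_lit 1505717722) (nat_lit 228) (nat_lit 42805690310) (nat_lit 18) (nat_lit 5) (nat_lit 20) (nat_lit 5) (nat_lit 21) (nat_lit 5) (nat_lit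 327) (nat_lit 278) (nat_lit 115)) (XT.lf (nat_lit 0) (nat_lit 99236691696) (nat_lit 228) (nat_lit 2660952743) (nat_lit 76) (nat_lit 24604579382) (nat_lit 18) (nat_lit 5) (nat_lit 21) (nat_lit 5) (nat_lit 19) (nat_lit 4) (nat_lit 328) (nat_lit 278) (nat_lit 114))) (XT.nd (nat_lit 78) (nat_lit 76) (nat_lit 0) (XT.lf (nat_lit 0) (nat_lit 42403077529) (nat_lit 76) (nat_lit 78817671932) (nat_lit 152) (nat_lit 10228220330) (nat_lit 17) (nat_lit 5) (nat_lit 18) (nat_lit 5) (nat_lit 19) (nat_lit 4) (nat_lit 329) (nat_lit 278) (nat_lit 113)) (XT.lf (nat_lit 0) (nat_lit 7460705443) (nat_lit 152) (nat_lit 46949889575) (nat_lit 76) (nat_lit 82224231327) (nat_lit 16) (nat_lit 5) (nat_lit 18) (nat_lit 5) (nat_lit 17) (nat_lit 5) (nat_lit 330) (nat_lit 278) (nat_lit 112)))) (XT.nd (nat_lit 156) (nat_lit 76) (nat_lit 0) (XT.nd (nat_lit 78) (nat_lit 152) (nat_lit 0) (XT.lf (nat_lit 0) (nat_lit 25689526590)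 (nat_lit 152) (nat_lit 2918127785) (nat_lit 76) (nat_lit 113463979373) (nat_lit 16) (nat_lit 5) (nat_lit 18) (nat_lit 5) (nat_lit 17) (nat_lit 5) (nat_lit 331) (nat_lit 278) (nat_lit 111)) (XT.lf (nat_lit 0) (nat_lit 44746075683) (nat_lit 152) (nat_lit 781547950) (nat_lit 228) (nat_lit 102217767125) (nat_lit 14) (nat_lit 5) (nat_lit 16) (nat_lit 5) (nat_lit 17) (nat_lit 5) (nat_lit 332) (nat_lit 278) (nat_lit 110))) (XT.nd (nat_lit 78) (nat_lit 76) (nat_lit 0) (XT.lf (nat_lit 0) (nat_lit 66851051225) (nat_lit 228) (nat_lit 59251648292) (nat_lit 76) (nat_lit 27575465748) (nat_lit 14) (nat_lit 5) (nat_lit 17) (nat_lit 5) (nat_lit 15) (nat_lit 4) (nat_lit 333) (nat_lit 278) (nat_lit 109)) (XT.nd (nat_lit 78) (nat_lit 76) (nat_lit 0) (XT.lf (nat_lit 0) (nat_lit 89252731127) (nat_lit 228) (nat_lit 13330658157) (nat_lit 76) (nat_lit 57323586054) (nat_lit 14) (nat_lit 5) (nat_lit 17) (nat_lit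 5) (nat_lit 15) (nat_lit 4) (nat_lit 334) (nat_lit 278) (nat_lit 108)) (XT.lf (nat_lit 0) (nat_lit 36038655204) (nat_lit 76) (nat_lit 77297807721) (nat_lit 152) (nat_lit 53082665439) (nat_lit 13) (nat_lit 5) (nat_lit 14) (nat_lit 5) (nat_lit 15) (nat_lit 4) (nat_lit 335) (nat_lit 278) (nat_lit 107)))))) (XT.nd (nat_lit 312) (nat_lit 76) (nat_lit 0) (XT.nd (nat_lit 156) (nat_lit 152) (nat_lit 0) (XT.nd (nat_lit 78) (nat_lit 0) (nat_lit 0) (XT.lf (nat_lit 0) (nat_lit 88338075439) (nat_lit 76) (nat_lit 50511385428) (nat_lit 152) (nat_lit 34396175002) (nat_lit 13) (nat_lit 5) (nat_lit 14) (nat_lit 5) (nat_lit 15) (nat_lit 4) (nat_lit 336) (nat_lit 278) (nat_lit 106)) (XT.lf (nat_lit 0) (nat_lit 143251353214) (nat_lit 76) (nat_lit 22386106357) (nat_lit 152) (nat_lit 14776042401) (nat_lit 13) (nat_lit 5) (nat_lit 14) (nat_lit 5) (nat_lit 15) (nat_lit 4) (nat_lit 337) (nat_lit 278) (nat_lit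 105))) (XT.nd (nat_lit 78) (nat_lit 0) (nat_lit 0) (XT.lf (nat_lit 0) (nat_lit 5962195468) (nat_lit 152) (nat_lit 174736982665) (nat_lit 76) (nat_lit 7219859732) (nat_lit 11) (nat_lit 5) (nat_lit 13) (nat_lit 5) (nat_lit 12) (nat_lit 4) (nat_lit 338) (nat_lit 278) (nat_lit 104)) (XT.lf (nat_lit 0) (nat_lit 28246812259) (nat_lit 152) (nat_lit 129055349206) (nat_lit 76) (nat_lit 38435276292) (nat_lit 11) (nat_lit 5) (nat_lit 13) (nat_lit 5) (nat_lit 12) (nat_lit 4) (nat_lit 339) (nat_lit 278) (nat_lit 103)))) (XT.nd (nat_lit 156) (nat_lit 76) (nat_lit 0) (XT.nd (nat_lit 78) (nat_lit 0) (nat_lit 0) (XT.lf (nat_lit 0) (nat_lit 51645066808) (nat_lit 152) (nat_lit 81090671155) (nat_lit 76) (nat_lit 71211049966) (nat_lit 11) (nat_lit 5) (nat_lit 13) (nat_lit 5) (nat_lit 12) (nat_lit 4) (nat_lit 340) (nat_lit 278) (nat_lit 102)) (XT.lf (nat_lit 0) (nat_lit 76212669244) (nat_lit 152) (nat_lit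 30728746897) (nat_lit 76) (nat_lit 105625218309) (nat_lit 11) (nat_lit 5) (nat_lit 13) (nat_lit 5) (nat_lit 12) (nat_lit 4) (nat_lit 341) (nat_lit 278) (nat_lit 101))) (XT.nd (nat_lit 78) (nat_lit 0) (nat_lit 0) (XT.lf (nat_lit 0) (nat_lit 22882722948) (nat_lit 76) (nat_lit 79482654344) (nat_lit 152) (nat_lit 119234260304) (nat_lit 10) (nat_lit 5) (nat_lit 11) (nat_lit 5) (nat_lit 12) (nat_lit 4) (nat_lit 342) (nat_lit 278) (nat_lit 100)) (XT.nd (nat_lit 78) (nat_lit 0) (nat_lit 0) (XT.lf (nat_lit 0) (nat_lit 80240673500) (nat_lit 76) (nat_lit 50104926665) (nat_lit 152) (nat_lit 100712697307) (nat_lit 10) (nat_lit 5) (nat_lit 11) (nat_lit 5) (nat_lit 12) (nat_lit 4) (nat_lit 343) (nat_lit 278) (nat_lit 99)) (XT.lf (nat_lit 0) (nat_lit 140465640160) (nat_lit 76) (nat_lit 19258692331) (nat_lit 152) (nat_lit 81265583456) (nat_lit 10) (nat_lit 5) (nat_lit 11) (nat_lit 5) (nat_lit 12) (nat_lit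 4) (nat_lit 344) (nat_lit 278) (nat_lit 98))))))) (XT.nd (nat_lit 32682) (nat_lit 0) (nat_lit 4256) (XT.nd (nat_lit 312) (nat_lit 0) (nat_lit 0) (XT.nd (nat_lit 156) (nat_lit 76) (nat_lit 0) (XT.nd (nat_lit 78) (nat_lit 76) (nat_lit 0) (XT.lf (nat_lit 0) (nat_lit 190776511798) (nat_lit 152) (nat_lit 47922112191) (nat_lit 0) (nat_lit 12709266331) (nat_lit 10) (nat_lit 5) (nat_lit 12) (nat_lit 4) (nat_lit 10) (nat_lit 4) (nat_lit 345) (nat_lit 278) (nat_lit 97)) (XT.lf (nat_lit 0) (nat_lit 7224866857) (nat_lit 76) (nat_lit 216584489473) (nat_lit 76) (nat_lit 38516004739) (nat_lit 9) (nat_lit 4) (nat_lit 10) (nat_lit 5) (nat_lit 10) (nat_lit 4) (nat_lit 346) (nat_lit 278) (nat_lit 96))) (XT.nd (nat_lit 78) (nat_lit 76) (nat_lit 0) (XT.lf (nat_lit 0) (nat_lit 66792138245) (nat_lit 76) (nat_lit 192512837946) (nat_lit 76) (nat_lit 14443172957) (nat_lit 9) (nat_lit 4) (nat_lit 10) (nat_lit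 5) (nat_lit 10) (nat_lit 4) (nat_lit 347) (nat_lit 278) (nat_lit 95)) (XT.lf (nat_lit 0) (nat_lit 10486130111) (nat_lit 152) (nat_lit 156574222311) (nat_lit 76) (nat_lit 118673289559) (nat_lit 8) (nat_lit 5) (nat_lit 10) (nat_lit 5) (nat_lit 9) (nat_lit 4) (nat_lit 348) (nat_lit 278) (nat_lit 94)))) (XT.nd (nat_lit 32136) (nat_lit 0) (nat_lit 5092) (XT.nd (nat_lit 32058) (nat_lit 0) (nat_lit 5092) (XT.lf (nat_lit 0) (nat_lit 36176096792) (nat_lit 152) (nat_lit 103910861142) (nat_lit 76) (nat_lit 158219634054) (nat_lit 8) (nat_lit 5) (nat_lit 10) (nat_lit 5) (nat_lit 9) (nat_lit 4) (nat_lit 349) (nat_lit 278) (nat_lit 93)) (XT.lf (nat_lit 0) (nat_lit 3568710834) (nat_lit 0) (nat_lit 3568710834) (nat_lit 684) (nat_lit 6638104042) (nat_lit 75) (nat_lit 5) (nat_lit 75) (nat_lit 3) (nat_lit 84) (nat_lit 3) (nat_lit 279) (nat_lit 279) (nat_lit 162))) (XT.nd (nat_lit 78) (nat_lit 0) (nat_lit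 0) (XT.lf (nat_lit 0) (nat_lit 14790189715) (nat_lit 684) (nat_lit 8554713727) (nat_lit 760) (nat_lit 4886765701) (nat_lit 75) (nat_lit 5) (nat_lit 84) (nat_lit 3) (nat_lit 85) (nat_lit 5) (nat_lit 280) (nat_lit 279) (nat_lit 161)) (XT.nd (nat_lit 78) (nat_lit 0) (nat_lit 76) (XT.lf (nat_lit 76) (nat_lit 3902175896) (nat_lit 0) (nat_lit 11601999122) (nat_lit 760) (nat_lit 13433514180) (nat_lit 76) (nat_lit 5) (nat_lit 75) (nat_lit 5) (nat_lit 85) (nat_lit 5) (nat_lit 281) (nat_lit 279) (nat_lit 160)) (XT.lf (nat_lit 0) (nat_lit 16407649543) (nat_lit 684) (nat_lit 12409700551) (nat_lit 760) (nat_lit 853984979) (nat_lit 76) (nat_lit 5) (nat_lit 85) (nat_lit 5) (nat_lit 86) (nat_lit 5) (nat_lit 282) (nat_lit 279) (nat_lit 159)))))) (XT.nd (nat_lit 390) (nat_lit 912) (nat_lit 0) (XT.nd (nat_lit 156) (nat_lit 0) (nat_lit 76) (XT.nd (nat_lit 78) (nat_lit 0) (nat_lit 0) (XT.lf (nat_lit 76)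 (nat_lit 675883785) (nat_lit 0) (nat_lit 16876562944) (nat_lit 760) (nat_lit 12879422698) (nat_lit 77) (nat_lit 5) (nat_lit 76) (nat_lit 5) (nat_lit 86) (nat_lit 5) (nat_lit 283) (nat_lit 279) (nat_lit 158)) (XT.lf (nat_lit 76) (nat_lit 14843676932) (nat_lit 0) (nat_lit 4116544584) (nat_lit 760) (nat_lit 12259935080) (nat_lit 77) (nat_lit 5) (nat_lit 76) (nat_lit 5) (nat_lit 86) (nat_lit 5) (nat_lit 284) (nat_lit 279) (nat_lit 157))) (XT.nd (nat_lit 78) (nat_lit 0) (nat_lit 0) (XT.lf (nat_lit 0) (nat_lit 20579101712) (nat_lit 684) (nat_lit 2475922715) (nat_lit 760) (nat_lit 8985810228) (nat_lit 77) (nat_lit 5) (nat_lit 86) (nat_lit 5) (nat_lit 87) (nat_lit 5) (nat_lit 285) (nat_lit 279) (nat_lit 156)) (XT.nd (nat_lit 78) (nat_lit 0) (nat_lit 76) (XT.lf (nat_lit 76) (nat_lit 12447711294) (nat_lit 0) (nat_lit 10089049129) (nat_lit 760) (nat_lit 10352906246) (nat_lit 78) (nat_lit 5) (nat_lit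 77) (nat_lit 5) (nat_lit 87) (nat_lit 5) (nat_lit 286) (nat_lit 279) (nat_lit 155)) (XT.lf (nat_lit 0) (nat_lit 24686127599) (nat_lit 684) (nat_lit 5634128518) (nat_lit 760) (nat_lit 3456004106) (nat_lit 78) (nat_lit 5) (nat_lit 87) (nat_lit 5) (nat_lit 88) (nat_lit 5) (nat_lit 287) (nat_lit 279) (nat_lit 154))))) (XT.nd (nat_lit 156) (nat_lit 1064) (nat_lit 0) (XT.nd (nat_lit 78) (nat_lit 0) (nat_lit 0) (XT.lf (nat_lit 76) (nat_lit 10068036234) (nat_lit 0) (nat_lit 17193862404) (nat_lit 760) (nat_lit 7429348723) (nat_lit 79) (nat_lit 5) (nat_lit 78) (nat_lit 5) (nat_lit 88) (nat_lit 5) (nat_lit 288) (nat_lit 279) (nat_lit 153)) (XT.lf (nat_lit 76) (nat_lit 26748060969) (nat_lit 0) (nat_lit 3310294175) (nat_lit 760) (nat_lit 5589044038) (nat_lit 79) (nat_lit 5) (nat_lit 78) (nat_lit 5) (nat_lit 88) (nat_lit 5) (nat_lit 289) (nat_lit 279) (nat_lit 152))) (XT.nd (nat_lit 78) (nat_lit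 456) (nat_lit 0) (XT.lf (nat_lit 0) (nat_lit 7677640414) (nat_lit 684) (nat_lit 25609437810) (nat_lit 760) (nat_lit 3349667873) (nat_lit 70) (nat_lit 5) (nat_lit 79) (nat_lit 5) (nat_lit 80) (nat_lit 5) (nat_lit 290) (nat_lit 279) (nat_lit 151)) (XT.nd (nat_lit 78) (nat_lit 456) (nat_lit 0) (XT.lf (nat_lit 0) (nat_lit 25333514442) (nat_lit 684) (nat_lit 11544601756) (nat_lit 760) (nat_lit 787409448) (nat_lit 70) (nat_lit 5) (nat_lit 79) (nat_lit 5) (nat_lit 80) (nat_lit 5) (nat_lit 291) (nat_lit 279) (nat_lit 150)) (XT.lf (nat_lit 0) (nat_lit 1973248039) (nat_lit 456) (nat_lit 33530160146) (nat_lit 76) (nat_lit 3234299190) (nat_lit 64) (nat_lit 5) (nat_lit 70) (nat_lit 5) (nat_lit 65) (nat_lit 5) (nat_lit 292) (nat_lit 279) (nat_lit 149))))))))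
noncomputable def xc216 : XT := (XT.nd (nat_lit 1404) (nat_lit 1216) (nat_lit 0) (XT.nd (nat_lit 702) (nat_lit 1064) (nat_lit 0) (XT.nd (nat_lit 312) (nat_lit 836) (nat_lit 0) (XT.nd (nat_lit 156) (nat_lit 0) (nat_lit 0) (XT.nd (nat_lit 78) (nat_lit 380) (nat_lit 0) (XT.lf (nat_lit 0) (nat_lit 5243980889) (nat_lit 456) (nat_lit 16009370778) (nat_lit 76) (nat_lit 18589583846) (nat_lit 64) (nat_lit 5) (nat_lit 70) (nat_lit 5) (nat_lit 65) (nat_lit 5) (nat_lit 293) (nat_lit 279) (nat_lit 148)) (XT.lf (nat_lit 0) (nat_lit 2463495469) (nat_lit 380) (nat_lit 6250337473) (nat_lit 456) (nat_lit 32287820579) (nat_lit 59) (nat_lit 5) (nat_lit 64) (nat_lit 5) (nat_lit 65) (nat_lit 5) (nat_lit 294) (nat_lit 279) (nat_lit 147))) (XT.nd (nat_lit 78) (nat_lit 0) (nat_lit 0) (XT.lf (nat_lit 0) (nat_lit 12778329282) (nat_lit 456) (nat_lit 19944658683) (nat_lit 76) (nat_lit 9474269109) (nat_lit 59) (nat_lit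 5) (nat_lit 65) (nat_lit 5) (nat_lit 60) (nat_lit 5) (nat_lit 295) (nat_lit 279) (nat_lit 146)) (XT.lf (nat_lit 0) (nat_lit 17145862396) (nat_lit 456) (nat_lit 526721603) (nat_lit 76) (nat_lit 25775073093) (nat_lit 59) (nat_lit 5) (nat_lit 65) (nat_lit 5) (nat_lit 60) (nat_lit 5) (nat_lit 296) (nat_lit 279) (nat_lit 145)))) (XT.nd (nat_lit 156) (nat_lit 532) (nat_lit 0) (XT.nd (nat_lit 78) (nat_lit 0) (nat_lit 0) (XT.lf (nat_lit 0) (nat_lit 20516115474) (nat_lit 304) (nat_lit 1533444473) (nat_lit 380) (nat_lit 22695134334) (nat_lit 55) (nat_lit 5) (nat_lit 59) (nat_lit 5) (nat_lit 60) (nat_lit 5) (nat_lit 297) (nat_lit 279) (nat_lit 144)) (XT.lf (nat_lit 0) (nat_lit 27445694681) (nat_lit 380) (nat_lit 3720261541) (nat_lit 76) (nat_lit 14928270738) (nat_lit 55) (nat_lit 5) (nat_lit 60) (nat_lit 5) (nat_lit 56) (nat_lit 5) (nat_lit 298) (nat_lit 279) (nat_lit 143))) (XT.nd (nat_lit 78)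 (nat_lit 228) (nat_lit 0) (XT.lf (nat_lit 0) (nat_lit 18373815433) (nat_lit 304) (nat_lit 15047493610) (nat_lit 380) (nat_lit 14074449533) (nat_lit 51) (nat_lit 5) (nat_lit 55) (nat_lit 5) (nat_lit 56) (nat_lit 5) (nat_lit 299) (nat_lit 279) (nat_lit 142)) (XT.nd (nat_lit 78) (nat_lit 228) (nat_lit 0) (XT.lf (nat_lit 0) (nat_lit 39786779318) (nat_lit 380) (nat_lit 7295464501) (nat_lit 76) (nat_lit 1880574858) (nat_lit 51) (nat_lit 5) (nat_lit 56) (nat_lit 5) (nat_lit 52) (nat_lit 5) (nat_lit 300) (nat_lit 279) (nat_lit 141)) (XT.lf (nat_lit 0) (nat_lit 15881422671) (nat_lit 228) (nat_lit 31081576422) (nat_lit 304) (nat_lit 3515614285) (nat_lit 48) (nat_lit 5) (nat_lit 51) (nat_lit 5) (nat_lit 52) (nat_lit 5) (nat_lit 301) (nat_lit 279) (nat_lit 140)))))) (XT.nd (nat_lit 312) (nat_lit 456) (nat_lit 0) (XT.nd (nat_lit 156) (nat_lit 228) (nat_lit 0) (XT.nd (nat_lit 78) (nat_lit 304) (nat_lit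 0) (XT.lf (nat_lit 0) (nat_lit 2473570603) (nat_lit 304) (nat_lit 11636089008) (nat_lit 76) (nat_lit 37952475616) (nat_lit 47) (nat_lit 5) (nat_lit 51) (nat_lit 5) (nat_lit 48) (nat_lit 5) (nat_lit 302) (nat_lit 279) (nat_lit 139)) (XT.lf (nat_lit 0) (nat_lit 8904401897) (nat_lit 380) (nat_lit 40950792211) (nat_lit 76) (nat_lit 3853745329) (nat_lit 43) (nat_lit 5) (nat_lit 48) (nat_lit 5) (nat_lit 44) (nat_lit 5) (nat_lit 303) (nat_lit 279) (nat_lit 138))) (XT.nd (nat_lit 78) (nat_lit 228) (nat_lit 0) (XT.lf (nat_lit 0) (nat_lit 16086394478) (nat_lit 380) (nat_lit 16889201567) (nat_lit 76) (nat_lit 22441011263) (nat_lit 43) (nat_lit 5) (nat_lit 48) (nat_lit 5) (nat_lit 44) (nat_lit 5) (nat_lit 304) (nat_lit 279) (nat_lit 137)) (XT.lf (nat_lit 0) (nat_lit 8649931457) (nat_lit 228) (nat_lit 15110719656) (nat_lit 304) (nat_lit 33442353466) (nat_lit 40) (nat_lit 5) (nat_lit 43) (nat_lit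 5) (nat_lit 44) (nat_lit 5) (nat_lit 305) (nat_lit 279) (nat_lit 136)))) (XT.nd (nat_lit 156) (nat_lit 228) (nat_lit 0) (XT.nd (nat_lit 78) (nat_lit 228) (nat_lit 0) (XT.lf (nat_lit 0) (nat_lit 32164442231) (nat_lit 304) (nat_lit 23076117395) (nat_lit 76) (nat_lit 3820875032) (nat_lit 40) (nat_lit 5) (nat_lit 44) (nat_lit 5) (nat_lit 41) (nat_lit 5) (nat_lit 306) (nat_lit 279) (nat_lit 135)) (XT.lf (nat_lit 0) (nat_lit 3537881823) (nat_lit 228) (nat_lit 37751741417) (nat_lit 304) (nat_lit 19708106816) (nat_lit 37) (nat_lit 5) (nat_lit 40) (nat_lit 5) (nat_lit 41) (nat_lit 5) (nat_lit 307) (nat_lit 279) (nat_lit 134))) (XT.nd (nat_lit 78) (nat_lit 228) (nat_lit 0) (XT.lf (nat_lit 0) (nat_lit 32281447248) (nat_lit 228) (nat_lit 18978716429) (nat_lit 304) (nat_lit 11751225182) (nat_lit 37) (nat_lit 5) (nat_lit 40) (nat_lit 5) (nat_lit 41) (nat_lit 5) (nat_lit 308) (nat_lit 279) (nat_lit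 133)) (XT.nd (nat_lit 78) (nat_lit 228) (nat_lit 0) (XT.lf (nat_lit 0) (nat_lit 61739042420) (nat_lit 304) (nat_lit 2677234916) (nat_lit 76) (nat_lit 708966178) (nat_lit 37) (nat_lit 5) (nat_lit 41) (nat_lit 5) (nat_lit 38) (nat_lit 5) (nat_lit 309) (nat_lit 279) (nat_lit 132)) (XT.lf (nat_lit 0) (nat_lit 5972827587) (nat_lit 228) (nat_lit 40064425798) (nat_lit 76) (nat_lit 21265902825) (nat_lit 34) (nat_lit 5) (nat_lit 37) (nat_lit 5) (nat_lit 35) (nat_lit 5) (nat_lit 310) (nat_lit 279) (nat_lit 131))))))) (XT.nd (nat_lit 702) (nat_lit 456) (nat_lit 0) (XT.nd (nat_lit 312) (nat_lit 380) (nat_lit 0) (XT.nd (nat_lit 156) (nat_lit 152) (nat_lit 0) (XT.nd (nat_lit 78) (nat_lit 228) (nat_lit 0) (XT.lf (nat_lit 0) (nat_lit 15730551368) (nat_lit 228) (nat_lit 10902674603) (nat_lit 76) (nat_lit 42951738888) (nat_lit 34) (nat_lit 5) (nat_lit 37) (nat_lit 5) (nat_lit 35) (nat_lit 5) (nat_lit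 311) (nat_lit 279) (nat_lit 130)) (XT.lf (nat_lit 0) (nat_lit 20366973686) (nat_lit 228) (nat_lit 5925705261) (nat_lit 304) (nat_lit 45672361974) (nat_lit 31) (nat_lit 5) (nat_lit 34) (nat_lit 5) (nat_lit 35) (nat_lit 5) (nat_lit 312) (nat_lit 279) (nat_lit 129))) (XT.nd (nat_lit 78) (nat_lit 152) (nat_lit 0) (XT.lf (nat_lit 0) (nat_lit 37816093564) (nat_lit 304) (nat_lit 21128338107) (nat_lit 76) (nat_lit 15498032808) (nat_lit 31) (nat_lit 5) (nat_lit 35) (nat_lit 5) (nat_lit 32) (nat_lit 5) (nat_lit 313) (nat_lit 279) (nat_lit 128)) (XT.lf (nat_lit 0) (nat_lit 11121706006) (nat_lit 152) (nat_lit 39063386119) (nat_lit 228) (nat_lit 26845199023) (nat_lit 29) (nat_lit 5) (nat_lit 31) (nat_lit 5) (nat_lit 32) (nat_lit 5) (nat_lit 314) (nat_lit 279) (nat_lit 127)))) (XT.nd (nat_lit 156) (nat_lit 380) (nat_lit 0) (XT.nd (nat_lit 78) (nat_lit 0) (nat_lit 0) (XT.lf (nat_lit 0) (nat_lit 45715819847)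 (nat_lit 152) (nat_lit 17813203555) (nat_lit 228) (nat_lit 16200664082) (nat_lit 29) (nat_lit 5) (nat_lit 31) (nat_lit 5) (nat_lit 32) (nat_lit 5) (nat_lit 315) (nat_lit 279) (nat_lit 126)) (XT.lf (nat_lit 0) (nat_lit 77609119339) (nat_lit 228) (nat_lit 596587855) (nat_lit 76) (nat_lit 4354900391) (nat_lit 29) (nat_lit 5) (nat_lit 32) (nat_lit 5) (nat_lit 30) (nat_lit 5) (nat_lit 316) (nat_lit 279) (nat_lit 125))) (XT.nd (nat_lit 78) (nat_lit 152) (nat_lit 0) (XT.lf (nat_lit 0) (nat_lit 7496761212) (nat_lit 228) (nat_lit 50283438326) (nat_lit 76) (nat_lit 27704711864) (nat_lit 26) (nat_lit 5) (nat_lit 29) (nat_lit 5) (nat_lit 27) (nat_lit 5) (nat_lit 317) (nat_lit 279) (nat_lit 124)) (XT.nd (nat_lit 78) (nat_lit 152) (nat_lit 0) (XT.lf (nat_lit 0) (nat_lit 20410077697) (nat_lit 228) (nat_lit 15827958485) (nat_lit 76) (nat_lit 52312884814) (nat_lit 26) (nat_lit 5) (nat_lit 29) (nat_lit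 5) (nat_lit 27) (nat_lit 5) (nat_lit 318) (nat_lit 279) (nat_lit 123)) (XT.lf (nat_lit 0) (nat_lit 21021352856) (nat_lit 152) (nat_lit 13274754991) (nat_lit 228) (nat_lit 57457772767) (nat_lit 24) (nat_lit 5) (nat_lit 26) (nat_lit 5) (nat_lit 27) (nat_lit 5) (nat_lit 319) (nat_lit 279) (nat_lit 122)))))) (XT.nd (nat_lit 312) (nat_lit 304) (nat_lit 0) (XT.nd (nat_lit 156) (nat_lit 0) (nat_lit 0) (XT.nd (nat_lit 78) (nat_lit 152) (nat_lit 0) (XT.lf (nat_lit 0) (nat_lit 49316943262) (nat_lit 228) (nat_lit 35016307683) (nat_lit 76) (nat_lit 10761713923) (nat_lit 24) (nat_lit 5) (nat_lit 27) (nat_lit 5) (nat_lit 25) (nat_lit 5) (nat_lit 320) (nat_lit 279) (nat_lit 121)) (XT.lf (nat_lit 0) (nat_lit 2341349422) (nat_lit 152) (nat_lit 63000563260) (nat_lit 228) (nat_lit 33248537799) (nat_lit 22) (nat_lit 5) (nat_lit 24) (nat_lit 5) (nat_lit 25) (nat_lit 5) (nat_lit 321) (nat_lit 279) (nat_lit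 120))) (XT.nd (nat_lit 78) (nat_lit 0) (nat_lit 0) (XT.lf (nat_lit 0) (nat_lit 42780910977) (nat_lit 152) (nat_lit 39979181491) (nat_lit 228) (nat_lit 19471021484) (nat_lit 22) (nat_lit 5) (nat_lit 24) (nat_lit 5) (nat_lit 25) (nat_lit 5) (nat_lit 322) (nat_lit 279) (nat_lit 119)) (XT.lf (nat_lit 0) (nat_lit 85240864382) (nat_lit 152) (nat_lit 15807310938) (nat_lit 228) (nat_lit 5005687167) (nat_lit 22) (nat_lit 5) (nat_lit 24) (nat_lit 5) (nat_lit 25) (nat_lit 5) (nat_lit 323) (nat_lit 279) (nat_lit 118)))) (XT.nd (nat_lit 156) (nat_lit 152) (nat_lit 0) (XT.nd (nat_lit 78) (nat_lit 0) (nat_lit 0) (XT.lf (nat_lit 0) (nat_lit 10329321328) (nat_lit 152) (nat_lit 89957833213) (nat_lit 76) (nat_lit 9749029944) (nat_lit 20) (nat_lit 5) (nat_lit 22) (nat_lit 5) (nat_lit 21) (nat_lit 5) (nat_lit 324) (nat_lit 279) (nat_lit 117)) (XT.lf (nat_lit 0) (nat_lit 26879287772) (nat_lit 152) (nat_lit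 50811684901) (nat_lit 76) (nat_lit 36491726694) (nat_lit 20) (nat_lit 5) (nat_lit 22) (nat_lit 5) (nat_lit 21) (nat_lit 5) (nat_lit 325) (nat_lit 279) (nat_lit 116))) (XT.nd (nat_lit 78) (nat_lit 152) (nat_lit 0) (XT.lf (nat_lit 0) (nat_lit 44255836982) (nat_lit 152) (nat_lit 9709714527) (nat_lit 76) (nat_lit 64571035572) (nat_lit 20) (nat_lit 5) (nat_lit 22) (nat_lit 5) (nat_lit 21) (nat_lit 5) (nat_lit 326) (nat_lit 279) (nat_lit 115)) (XT.nd (nat_lit 78) (nat_lit 0) (nat_lit 0) (XT.lf (nat_lit 0) (nat_lit 34551813557) (nat_lit 152) (nat_lit 28487978778) (nat_lit 228) (nat_lit 60041449160) (nat_lit 18) (nat_lit 5) (nat_lit 20) (nat_lit 5) (nat_lit 21) (nat_lit 5) (nat_lit 327) (nat_lit 279) (nat_lit 114)) (XT.lf (nat_lit 0) (nat_lit 81362125604) (nat_lit 152) (nat_lit 1564406400) (nat_lit 228) (nat_lit 44918418488) (nat_lit 18) (nat_lit 5) (nat_lit 20) (nat_lit 5) (nat_lit 21) (nat_lit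 5) (nat_lit 328) (nat_lit 279) (nat_lit 113))))))))
noncomputable def xc217 : XT := (XT.nd (nat_lit 1404) (nat_lit 76) (nat_lit 0) (XT.nd (nat_lit 702) (nat_lit 228) (nat_lit 0) (XT.nd (nat_lit 312) (nat_lit 228) (nat_lit 0) (XT.nd (nat_lit 156) (nat_lit 76) (nat_lit 0) (XT.nd (nat_lit 78) (nat_lit 76) (nat_lit 0) (XT.lf (nat_lit 0) (nat_lit 104223734316) (nat_lit 228) (nat_lit 2752196174) (nat_lit 76) (nat_lit 25850109297) (nat_lit 18) (nat_lit 5) (nat_lit 21) (nat_lit 5) (nat_lit 19) (nat_lit 4) (nat_lit 329) (nat_lit 279) (nat_lit 112)) (XT.lf (nat_lit 0) (nat_lit 44564361350) (nat_lit 76) (nat_lit 82742075390) (nat_lit 152) (nat_lit 10713715886) (nat_lit 17) (nat_lit 5) (nat_lit 18) (nat_lit 5) (nat_lit 19) (nat_lit 4) (nat_lit 330) (nat_lit 279) (nat_lit 111))) (XT.nd (nat_lit 78) (nat_lit 0) (nat_lit 0) (XT.lf (nat_lit 0) (nat_lit 7857632149) (nat_lit 152) (nat_lit 49257392638)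 (nat_lit 76) (nat_lit 86350318223) (nat_lit 16) (nat_lit 5) (nat_lit 18) (nat_lit 5) (nat_lit 17) (nat_lit 5) (nat_lit 331) (nat_lit 279) (nat_lit 110)) (XT.lf (nat_lit 0) (nat_lit 26996756665) (nat_lit 152) (nat_lit 3025947112) (nat_lit 76) (nat_lit 119151345322) (nat_lit 16) (nat_lit 5) (nat_lit 18) (nat_lit 5) (nat_lit 17) (nat_lit 5) (nat_lit 332) (nat_lit 279) (nat_lit 109)))) (XT.nd (nat_lit 156) (nat_lit 76) (nat_lit 0) (XT.nd (nat_lit 78) (nat_lit 0) (nat_lit 0) (XT.lf (nat_lit 0) (nat_lit 47020852222) (nat_lit 152) (nat_lit 805407881) (nat_lit 228) (nat_lit 107305260144) (nat_lit 14) (nat_lit 5) (nat_lit 16) (nat_lit 5) (nat_lit 17) (nat_lit 5) (nat_lit 333) (nat_lit 279) (nat_lit 108)) (XT.lf (nat_lit 0) (nat_lit 70215025573) (nat_lit 228) (nat_lit 62177682881) (nat_lit 76) (nat_lit 28968268000) (nat_lit 14) (nat_lit 5) (nat_lit 17) (nat_lit 5) (nat_lit 15) (nat_lit 4) (nat_lit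 334) (nat_lit 279) (nat_lit 107))) (XT.nd (nat_lit 78) (nat_lit 76) (nat_lit 0) (XT.lf (nat_lit 0) (nat_lit 93735769385) (nat_lit 228) (nat_lit 13962383612) (nat_lit 76) (nat_lit 60203126275) (nat_lit 14) (nat_lit 5) (nat_lit 17) (nat_lit 5) (nat_lit 15) (nat_lit 4) (nat_lit 335) (nat_lit 279) (nat_lit 106)) (XT.nd (nat_lit 78) (nat_lit 0) (nat_lit 0) (XT.lf (nat_lit 0) (nat_lit 37874834007) (nat_lit 76) (nat_lit 81148416933) (nat_lit 152) (nat_lit 55715812030) (nat_lit 13) (nat_lit 5) (nat_lit 14) (nat_lit 5) (nat_lit 15) (nat_lit 4) (nat_lit 336) (nat_lit 279) (nat_lit 105)) (XT.lf (nat_lit 0) (nat_lit 92787594489) (nat_lit 76) (nat_lit 53023353581) (nat_lit 152) (nat_lit 36095996436) (nat_lit 13) (nat_lit 5) (nat_lit 14) (nat_lit 5) (nat_lit 15) (nat_lit 4) (nat_lit 337) (nat_lit 279) (nat_lit 104)))))) (XT.nd (nat_lit 312) (nat_lit 76) (nat_lit 0) (XT.nd (nat_lit 156) (nat_lit 0)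 (nat_lit 0) (XT.nd (nat_lit 78) (nat_lit 152) (nat_lit 0) (XT.lf (nat_lit 0) (nat_lit 150444983045) (nat_lit 76) (nat_lit 23492458229) (nat_lit 152) (nat_lit 15495808982) (nat_lit 13) (nat_lit 5) (nat_lit 14) (nat_lit 5) (nat_lit 15) (nat_lit 4) (nat_lit 338) (nat_lit 279) (nat_lit 103)) (XT.lf (nat_lit 0) (nat_lit 6278546129) (nat_lit 152) (nat_lit 183441935226) (nat_lit 76) (nat_lit 7593576968) (nat_lit 11) (nat_lit 5) (nat_lit 13) (nat_lit 5) (nat_lit 12) (nat_lit 4) (nat_lit 339) (nat_lit 279) (nat_lit 102))) (XT.nd (nat_lit 78) (nat_lit 0) (nat_lit 0) (XT.lf (nat_lit 0) (nat_lit 29676525146) (nat_lit 152) (nat_lit 135477738978) (nat_lit 76) (nat_lit 40369158440) (nat_lit 11) (nat_lit 5) (nat_lit 13) (nat_lit 5) (nat_lit 12) (nat_lit 4) (nat_lit 340) (nat_lit 279) (nat_lit 101)) (XT.lf (nat_lit 0) (nat_lit 54243865171) (nat_lit 152) (nat_lit 85116273581) (nat_lit 76) (nat_lit 74783143734)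 (nat_lit 11) (nat_lit 5) (nat_lit 13) (nat_lit 5) (nat_lit 12) (nat_lit 4) (nat_lit 341) (nat_lit 279) (nat_lit 100)))) (XT.nd (nat_lit 156) (nat_lit 0) (nat_lit 0) (XT.nd (nat_lit 78) (nat_lit 76) (nat_lit 0) (XT.lf (nat_lit 0) (nat_lit 80039059871) (nat_lit 152) (nat_lit 32237630784) (nat_lit 76) (nat_lit 110917470910) (nat_lit 11) (nat_lit 5) (nat_lit 13) (nat_lit 5) (nat_lit 12) (nat_lit 4) (nat_lit 342) (nat_lit 279) (nat_lit 99)) (XT.lf (nat_lit 0) (nat_lit 24053968143) (nat_lit 76) (nat_lit 83445108086) (nat_lit 152) (nat_lit 125179755791) (nat_lit 10) (nat_lit 5) (nat_lit 11) (nat_lit 5) (nat_lit 12) (nat_lit 4) (nat_lit 343) (nat_lit 279) (nat_lit 98))) (XT.nd (nat_lit 78) (nat_lit 0) (nat_lit 0) (XT.lf (nat_lit 0) (nat_lit 84278525316) (nat_lit 76) (nat_lit 52599050164) (nat_lit 152) (nat_lit 105732886908) (nat_lit 10) (nat_lit 5) (nat_lit 11) (nat_lit 5) (nat_lit 12) (nat_lit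 4) (nat_lit 344) (nat_lit 279) (nat_lit 97)) (XT.nd (nat_lit 78) (nat_lit 0) (nat_lit 0) (XT.lf (nat_lit 0) (nat_lit 147513510873) (nat_lit 76) (nat_lit 20211033772) (nat_lit 152) (nat_lit 85314152853) (nat_lit 10) (nat_lit 5) (nat_lit 11) (nat_lit 5) (nat_lit 12) (nat_lit 4) (nat_lit 345) (nat_lit 279) (nat_lit 96)) (XT.lf (nat_lit 0) (nat_lit 200328823977) (nat_lit 152) (nat_lit 50294277265) (nat_lit 0) (nat_lit 13354495484) (nat_lit 10) (nat_lit 5) (nat_lit 12) (nat_lit 4) (nat_lit 10) (nat_lit 4) (nat_lit 346) (nat_lit 279) (nat_lit 95))))))) (XT.nd (nat_lit 32838) (nat_lit 0) (nat_lit 3800) (XT.nd (nat_lit 32448) (nat_lit 0) (nat_lit 5016) (XT.nd (nat_lit 32292) (nat_lit 0) (nat_lit 5016) (XT.nd (nat_lit 78) (nat_lit 0) (nat_lit 0) (XT.lf (nat_lit 0) (nat_lit 7609664598) (nat_lit 76) (nat_lit 227403371670) (nat_lit 76) (nat_lit 40427919124) (nat_lit 9) (nat_lit 4) (nat_lit 10)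 (nat_lit 5) (nat_lit 10) (nat_lit 4) (nat_lit 347) (nat_lit 279) (nat_lit 94)) (XT.lf (nat_lit 0) (nat_lit 70154177917) (nat_lit 76) (nat_lit 202128630056) (nat_lit 76) (nat_lit 15152106985) (nat_lit 9) (nat_lit 4) (nat_lit 10) (nat_lit 5) (nat_lit 10) (nat_lit 4) (nat_lit 348) (nat_lit 279) (nat_lit 93))) (XT.nd (nat_lit 78) (nat_lit 0) (nat_lit 0) (XT.lf (nat_lit 0) (nat_lit 3786352791) (nat_lit 0) (nat_lit 3786352791) (nat_lit 684) (nat_lit 6887444637) (nat_lit 75) (nat_lit 5) (nat_lit 75) (nat_lit 3) (nat_lit 84) (nat_lit 3) (nat_lit 280) (nat_lit 280) (nat_lit 160)) (XT.lf (nat_lit 0) (nat_lit 15677891025) (nat_lit 684) (nat_lit 8898696434) (nat_lit 760) (nat_lit 5058815291) (nat_lit 75) (nat_lit 5) (nat_lit 84) (nat_lit 3) (nat_lit 85) (nat_lit 5) (nat_lit 281) (nat_lit 280) (nat_lit 159)))) (XT.nd (nat_lit 156) (nat_lit 0) (nat_lit 76) (XT.nd (nat_lit 78) (nat_lit 0) (nat_lit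 76) (XT.lf (nat_lit 76) (nat_lit 4179686815) (nat_lit 0) (nat_lit 12242118553) (nat_lit 760) (nat_lit 13955227916) (nat_lit 76) (nat_lit 5) (nat_lit 75) (nat_lit 5) (nat_lit 85) (nat_lit 5) (nat_lit 282) (nat_lit 280) (nat_lit 158)) (XT.lf (nat_lit 0) (nat_lit 17362779188) (nat_lit 684) (nat_lit 12943633607) (nat_lit 760) (nat_lit 841352345) (nat_lit 76) (nat_lit 5) (nat_lit 85) (nat_lit 5) (nat_lit 86) (nat_lit 5) (nat_lit 283) (nat_lit 280) (nat_lit 157))) (XT.nd (nat_lit 78) (nat_lit 0) (nat_lit 0) (XT.lf (nat_lit 76) (nat_lit 794833946) (nat_lit 0) (nat_lit 17764895279) (nat_lit 760) (nat_lit 13386870354) (nat_lit 77) (nat_lit 5) (nat_lit 76) (nat_lit 5) (nat_lit 86) (nat_lit 5) (nat_lit 284) (nat_lit 280) (nat_lit 156)) (XT.nd (nat_lit 78) (nat_lit 0) (nat_lit 76) (XT.lf (nat_lit 76) (nat_lit 15666961704) (nat_lit 0) (nat_lit 4364756755) (nat_lit 760) (nat_lit 12742909473) (nat_lit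 77) (nat_lit 5) (nat_lit 76) (nat_lit 5) (nat_lit 86) (nat_lit 5) (nat_lit 285) (nat_lit 280) (nat_lit 155)) (XT.lf (nat_lit 0) (nat_lit 21725032149) (nat_lit 684) (nat_lit 2515624405) (nat_lit 760) (nat_lit 9396026113) (nat_lit 77) (nat_lit 5) (nat_lit 86) (nat_lit 5) (nat_lit 87) (nat_lit 5) (nat_lit 286) (nat_lit 280) (nat_lit 154)))))) (XT.nd (nat_lit 312) (nat_lit 1368) (nat_lit 0) (XT.nd (nat_lit 156) (nat_lit 0) (nat_lit 76) (XT.nd (nat_lit 78) (nat_lit 0) (nat_lit 76) (XT.lf (nat_lit 76) (nat_lit 13152834942) (nat_lit 0) (nat_lit 10623460372) (nat_lit 760) (nat_lit 10751891318) (nat_lit 78) (nat_lit 5) (nat_lit 77) (nat_lit 5) (nat_lit 87) (nat_lit 5) (nat_lit 287) (nat_lit 280) (nat_lit 153)) (XT.lf (nat_lit 0) (nat_lit 26027318864) (nat_lit 684) (nat_lit 5830911900) (nat_lit 760) (nat_lit 3601185342) (nat_lit 78) (nat_lit 5) (nat_lit 87) (nat_lit 5) (nat_lit 88) (nat_lit 5)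 (nat_lit 288) (nat_lit 280) (nat_lit 152))) (XT.nd (nat_lit 78) (nat_lit 0) (nat_lit 0) (XT.lf (nat_lit 76) (nat_lit 10654991362) (nat_lit 0) (nat_lit 18073101838) (nat_lit 760) (nat_lit 7692263563) (nat_lit 79) (nat_lit 5) (nat_lit 78) (nat_lit 5) (nat_lit 88) (nat_lit 5) (nat_lit 289) (nat_lit 280) (nat_lit 151)) (XT.lf (nat_lit 76) (nat_lit 28165038605) (nat_lit 0) (nat_lit 3494424421) (nat_lit 760) (nat_lit 5765112816) (nat_lit 79) (nat_lit 5) (nat_lit 78) (nat_lit 5) (nat_lit 88) (nat_lit 5) (nat_lit 290) (nat_lit 280) (nat_lit 150)))) (XT.nd (nat_lit 156) (nat_lit 836) (nat_lit 0) (XT.nd (nat_lit 78) (nat_lit 0) (nat_lit 0) (XT.lf (nat_lit 0) (nat_lit 8145209051) (nat_lit 684) (nat_lit 26900767269) (nat_lit 760) (nat_lit 3417609592) (nat_lit 70) (nat_lit 5) (nat_lit 79) (nat_lit 5) (nat_lit 80) (nat_lit 5) (nat_lit 291) (nat_lit 280) (nat_lit 149)) (XT.lf (nat_lit 0) (nat_lit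 26679891704) (nat_lit 684) (nat_lit 12132172386) (nat_lit 760) (nat_lit 731978325) (nat_lit 70) (nat_lit 5) (nat_lit 79) (nat_lit 5) (nat_lit 80) (nat_lit 5) (nat_lit 292) (nat_lit 280) (nat_lit 148))) (XT.nd (nat_lit 78) (nat_lit 380) (nat_lit 0) (XT.lf (nat_lit 0) (nat_lit 2160472836) (nat_lit 456) (nat_lit 35120248783) (nat_lit 76) (nat_lit 3389209527) (nat_lit 64) (nat_lit 5) (nat_lit 70) (nat_lit 5) (nat_lit 65) (nat_lit 5) (nat_lit 293) (nat_lit 280) (nat_lit 147)) (XT.nd (nat_lit 78) (nat_lit 380) (nat_lit 0) (XT.lf (nat_lit 0) (nat_lit 5590525071) (nat_lit 456) (nat_lit 16727535154) (nat_lit 76) (nat_lit 19512582446) (nat_lit 64) (nat_lit 5) (nat_lit 70) (nat_lit 5) (nat_lit 65) (nat_lit 5) (nat_lit 294) (nat_lit 280) (nat_lit 146)) (XT.lf (nat_lit 0) (nat_lit 2667646918) (nat_lit 380) (nat_lit 6563470647) (nat_lit 456) (nat_lit 33816327211) (nat_lit 59) (nat_lit 5) (nat_lit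 64) (nat_lit 5) (nat_lit 65) (nat_lit 5) (nat_lit 295) (nat_lit 280) (nat_lit 145))))))))
noncomputable def xc218 : XT := (XT.nd (nat_lit 1404) (nat_lit 1064) (nat_lit 0) (XT.nd (nat_lit 702) (nat_lit 912) (nat_lit 0) (XT.nd (nat_lit 312) (nat_lit 912) (nat_lit 0) (XT.nd (nat_lit 156) (nat_lit 304) (nat_lit 0) (XT.nd (nat_lit 78) (nat_lit 0) (nat_lit 0) (XT.lf (nat_lit 0) (nat_lit 13494944178) (nat_lit 456) (nat_lit 20860674742) (nat_lit 76) (nat_lit 9947414398) (nat_lit 59) (nat_lit 5) (nat_lit 65) (nat_lit 5) (nat_lit 60) (nat_lit 5) (nat_lit 296) (nat_lit 280) (nat_lit 144)) (XT.lf (nat_lit 0) (nat_lit 18077154023) (nat_lit 456) (nat_lit 475708279) (nat_lit 76) (nat_lit 27063285637) (nat_lit 59) (nat_lit 5) (nat_lit 65) (nat_lit 5) (nat_lit 60) (nat_lit 5) (nat_lit 297) (nat_lit 280) (nat_lit 143))) (XT.nd (nat_lit 78) (nat_lit 0) (nat_lit 0) (XT.lf (nat_lit 0) (nat_lit 21618023081)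 (nat_lit 304) (nat_lit 1605677795) (nat_lit 380) (nat_lit 23754462037) (nat_lit 55) (nat_lit 5) (nat_lit 59) (nat_lit 5) (nat_lit 60) (nat_lit 5) (nat_lit 298) (nat_lit 280) (nat_lit 142)) (XT.lf (nat_lit 0) (nat_lit 28886295829) (nat_lit 380) (nat_lit 3830275939) (nat_lit 76) (nat_lit 15678776493) (nat_lit 55) (nat_lit 5) (nat_lit 60) (nat_lit 5) (nat_lit 56) (nat_lit 5) (nat_lit 299) (nat_lit 280) (nat_lit 141)))) (XT.nd (nat_lit 156) (nat_lit 608) (nat_lit 0) (XT.nd (nat_lit 78) (nat_lit 0) (nat_lit 0) (XT.lf (nat_lit 0) (nat_lit 19367279098) (nat_lit 304) (nat_lit 15791326063) (nat_lit 380) (nat_lit 14708463881) (nat_lit 51) (nat_lit 5) (nat_lit 55) (nat_lit 5) (nat_lit 56) (nat_lit 5) (nat_lit 300) (nat_lit 280) (nat_lit 140)) (XT.lf (nat_lit 0) (nat_lit 41839322126) (nat_lit 380) (nat_lit 7585840595) (nat_lit 76) (nat_lit 1982478670) (nat_lit 51) (nat_lit 5) (nat_lit 56) (nat_lit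 5) (nat_lit 52) (nat_lit 5) (nat_lit 301) (nat_lit 280) (nat_lit 139))) (XT.nd (nat_lit 78) (nat_lit 380) (nat_lit 0) (XT.lf (nat_lit 0) (nat_lit 16748690981) (nat_lit 228) (nat_lit 32623795015) (nat_lit 304) (nat_lit 3626840701) (nat_lit 48) (nat_lit 5) (nat_lit 51) (nat_lit 5) (nat_lit 52) (nat_lit 5) (nat_lit 302) (nat_lit 280) (nat_lit 138)) (XT.nd (nat_lit 78) (nat_lit 304) (nat_lit 0) (XT.lf (nat_lit 0) (nat_lit 2656761664) (nat_lit 304) (nat_lit 12146077598) (nat_lit 76) (nat_lit 39859290590) (nat_lit 47) (nat_lit 5) (nat_lit 51) (nat_lit 5) (nat_lit 48) (nat_lit 5) (nat_lit 303) (nat_lit 280) (nat_lit 137)) (XT.lf (nat_lit 0) (nat_lit 9407604781) (nat_lit 380) (nat_lit 42924856211) (nat_lit 76) (nat_lit 4058896267) (nat_lit 43) (nat_lit 5) (nat_lit 48) (nat_lit 5) (nat_lit 44) (nat_lit 5) (nat_lit 304) (nat_lit 280) (nat_lit 136)))))) (XT.nd (nat_lit 312) (nat_lit 456) (nat_lit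 0) (XT.nd (nat_lit 156) (nat_lit 228) (nat_lit 0) (XT.nd (nat_lit 78) (nat_lit 228) (nat_lit 0) (XT.lf (nat_lit 0) (nat_lit 16945935906) (nat_lit 380) (nat_lit 17663684874) (nat_lit 76) (nat_lit 23574931990) (nat_lit 43) (nat_lit 5) (nat_lit 48) (nat_lit 5) (nat_lit 44) (nat_lit 5) (nat_lit 305) (nat_lit 280) (nat_lit 135)) (XT.lf (nat_lit 0) (nat_lit 9151276145) (nat_lit 228) (nat_lit 15851074537) (nat_lit 304) (nat_lit 35058002854) (nat_lit 40) (nat_lit 5) (nat_lit 43) (nat_lit 5) (nat_lit 44) (nat_lit 5) (nat_lit 306) (nat_lit 280) (nat_lit 134))) (XT.nd (nat_lit 78) (nat_lit 228) (nat_lit 0) (XT.lf (nat_lit 0) (nat_lit 33824001515) (nat_lit 304) (nat_lit 24161911485) (nat_lit 76) (nat_lit 4025914224) (nat_lit 40) (nat_lit 5) (nat_lit 44) (nat_lit 5) (nat_lit 41) (nat_lit 5) (nat_lit 307) (nat_lit 280) (nat_lit 133)) (XT.lf (nat_lit 0) (nat_lit 3781690729) (nat_lit 228) (nat_lit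 39622350947) (nat_lit 304) (nat_lit 20640971061) (nat_lit 37) (nat_lit 5) (nat_lit 40) (nat_lit 5) (nat_lit 41) (nat_lit 5) (nat_lit 308) (nat_lit 280) (nat_lit 132)))) (XT.nd (nat_lit 156) (nat_lit 456) (nat_lit 0) (XT.nd (nat_lit 78) (nat_lit 0) (nat_lit 0) (XT.lf (nat_lit 0) (nat_lit 33959248005) (nat_lit 228) (nat_lit 19911483163) (nat_lit 304) (nat_lit 12288747302) (nat_lit 37) (nat_lit 5) (nat_lit 40) (nat_lit 5) (nat_lit 41) (nat_lit 5) (nat_lit 309) (nat_lit 280) (nat_lit 131)) (XT.lf (nat_lit 0) (nat_lit 64871529543) (nat_lit 304) (nat_lit 2748281632) (nat_lit 76) (nat_lit 759320749) (nat_lit 37) (nat_lit 5) (nat_lit 41) (nat_lit 5) (nat_lit 38) (nat_lit 5) (nat_lit 310) (nat_lit 280) (nat_lit 130))) (XT.nd (nat_lit 78) (nat_lit 228) (nat_lit 0) (XT.lf (nat_lit 0) (nat_lit 6316616721) (nat_lit 228) (nat_lit 42004264420) (nat_lit 76) (nat_lit 22345087497) (nat_lit 34) (nat_lit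 5) (nat_lit 37) (nat_lit 5) (nat_lit 35) (nat_lit 5) (nat_lit 311) (nat_lit 280) (nat_lit 129)) (XT.nd (nat_lit 78) (nat_lit 228) (nat_lit 0) (XT.lf (nat_lit 0) (nat_lit 16560076798) (nat_lit 228) (nat_lit 11387443887) (nat_lit 76) (nat_lit 45114458718) (nat_lit 34) (nat_lit 5) (nat_lit 37) (nat_lit 5) (nat_lit 35) (nat_lit 5) (nat_lit 312) (nat_lit 280) (nat_lit 128)) (XT.lf (nat_lit 0) (nat_lit 21444713197) (nat_lit 228) (nat_lit 6204477300) (nat_lit 304) (nat_lit 47911928777) (nat_lit 31) (nat_lit 5) (nat_lit 34) (nat_lit 5) (nat_lit 35) (nat_lit 5) (nat_lit 313) (nat_lit 280) (nat_lit 127))))))) (XT.nd (nat_lit 702) (nat_lit 380) (nat_lit 0) (XT.nd (nat_lit 312) (nat_lit 532) (nat_lit 0) (XT.nd (nat_lit 156) (nat_lit 0) (nat_lit 0) (XT.nd (nat_lit 78) (nat_lit 152) (nat_lit 0) (XT.lf (nat_lit 0) (nat_lit 39747042082) (nat_lit 304) (nat_lit 22126382545) (nat_lit 76) (nat_lit 16289079869)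 (nat_lit 31) (nat_lit 5) (nat_lit 35) (nat_lit 5) (nat_lit 32) (nat_lit 5) (nat_lit 314) (nat_lit 280) (nat_lit 126)) (XT.lf (nat_lit 0) (nat_lit 11735222282) (nat_lit 152) (nat_lit 40998253337) (nat_lit 228) (nat_lit 28146301248) (nat_lit 29) (nat_lit 5) (nat_lit 31) (nat_lit 5) (nat_lit 32) (nat_lit 5) (nat_lit 315) (nat_lit 280) (nat_lit 125))) (XT.nd (nat_lit 78) (nat_lit 0) (nat_lit 0) (XT.lf (nat_lit 0) (nat_lit 48056307006) (nat_lit 152) (nat_lit 18686433172) (nat_lit 228) (nat_lit 16971499452) (nat_lit 29) (nat_lit 5) (nat_lit 31) (nat_lit 5) (nat_lit 32) (nat_lit 5) (nat_lit 316) (nat_lit 280) (nat_lit 124)) (XT.lf (nat_lit 0) (nat_lit 81525325541) (nat_lit 228) (nat_lit 572744624) (nat_lit 76) (nat_lit 4588714623) (nat_lit 29) (nat_lit 5) (nat_lit 32) (nat_lit 5) (nat_lit 30) (nat_lit 5) (nat_lit 317) (nat_lit 280) (nat_lit 123)))) (XT.nd (nat_lit 156) (nat_lit 304) (nat_lit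 0) (XT.nd (nat_lit 78) (nat_lit 0) (nat_lit 0) (XT.lf (nat_lit 0) (nat_lit 7907103792) (nat_lit 228) (nat_lit 52743569809) (nat_lit 76) (nat_lit 29106648587) (nat_lit 26) (nat_lit 5) (nat_lit 29) (nat_lit 5) (nat_lit 27) (nat_lit 5) (nat_lit 318) (nat_lit 280) (nat_lit 122)) (XT.lf (nat_lit 0) (nat_lit 21464395410) (nat_lit 228) (nat_lit 16567889329) (nat_lit 76) (nat_lit 54944434892) (nat_lit 26) (nat_lit 5) (nat_lit 29) (nat_lit 5) (nat_lit 27) (nat_lit 5) (nat_lit 319) (nat_lit 280) (nat_lit 121))) (XT.nd (nat_lit 78) (nat_lit 152) (nat_lit 0) (XT.lf (nat_lit 0) (nat_lit 22123057465) (nat_lit 152) (nat_lit 13920850005) (nat_lit 228) (nat_lit 60295963441) (nat_lit 24) (nat_lit 5) (nat_lit 26) (nat_lit 5) (nat_lit 27) (nat_lit 5) (nat_lit 320) (nat_lit 280) (nat_lit 120)) (XT.nd (nat_lit 78) (nat_lit 152) (nat_lit 0) (XT.lf (nat_lit 0) (nat_lit 51814475838) (nat_lit 228) (nat_lit 36717537118)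 (nat_lit 76) (nat_lit 11316064436) (nat_lit 24) (nat_lit 5) (nat_lit 27) (nat_lit 5) (nat_lit 25) (nat_lit 5) (nat_lit 321) (nat_lit 280) (nat_lit 119)) (XT.lf (nat_lit 0) (nat_lit 2507203069) (nat_lit 152) (nat_lit 66132743520) (nat_lit 228) (nat_lit 34878430504) (nat_lit 22) (nat_lit 5) (nat_lit 24) (nat_lit 5) (nat_lit 25) (nat_lit 5) (nat_lit 322) (nat_lit 280) (nat_lit 118)))))) (XT.nd (nat_lit 312) (nat_lit 228) (nat_lit 0) (XT.nd (nat_lit 156) (nat_lit 152) (nat_lit 0) (XT.nd (nat_lit 78) (nat_lit 0) (nat_lit 0) (XT.lf (nat_lit 0) (nat_lit 44966419550) (nat_lit 152) (nat_lit 41961142562) (nat_lit 228) (nat_lit 20413587620) (nat_lit 22) (nat_lit 5) (nat_lit 24) (nat_lit 5) (nat_lit 25) (nat_lit 5) (nat_lit 323) (nat_lit 280) (nat_lit 117)) (XT.lf (nat_lit 0) (nat_lit 89547158100) (nat_lit 152) (nat_lit 16581487910) (nat_lit 228) (nat_lit 5226462060) (nat_lit 22) (nat_lit 5) (nat_lit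 24) (nat_lit 5) (nat_lit 25) (nat_lit 5) (nat_lit 324) (nat_lit 280) (nat_lit 116))) (XT.nd (nat_lit 78) (nat_lit 0) (nat_lit 0) (XT.lf (nat_lit 0) (nat_lit 10873946323) (nat_lit 152) (nat_lit 94410041199) (nat_lit 76) (nat_lit 10252557929) (nat_lit 20) (nat_lit 5) (nat_lit 22) (nat_lit 5) (nat_lit 21) (nat_lit 5) (nat_lit 325) (nat_lit 280) (nat_lit 115)) (XT.lf (nat_lit 0) (nat_lit 28250070188) (nat_lit 152) (nat_lit 53308760884) (nat_lit 76) (nat_lit 38331623970) (nat_lit 20) (nat_lit 5) (nat_lit 22) (nat_lit 5) (nat_lit 21) (nat_lit 5) (nat_lit 326) (nat_lit 280) (nat_lit 114)))) (XT.nd (nat_lit 156) (nat_lit 76) (nat_lit 0) (XT.nd (nat_lit 78) (nat_lit 152) (nat_lit 0) (XT.lf (nat_lit 0) (nat_lit 46494169810) (nat_lit 152) (nat_lit 10153763813) (nat_lit 76) (nat_lit 67814169200) (nat_lit 20) (nat_lit 5) (nat_lit 22) (nat_lit 5) (nat_lit 21) (nat_lit 5) (nat_lit 327) (nat_lit 280)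 (nat_lit 113)) (XT.lf (nat_lit 0) (nat_lit 36320172345) (nat_lit 152) (nat_lit 29896570853) (nat_lit 228) (nat_lit 63017277488) (nat_lit 18) (nat_lit 5) (nat_lit 20) (nat_lit 5) (nat_lit 21) (nat_lit 5) (nat_lit 328) (nat_lit 280) (nat_lit 112))) (XT.nd (nat_lit 78) (nat_lit 76) (nat_lit 0) (XT.lf (nat_lit 0) (nat_lit 85469058655) (nat_lit 152) (nat_lit 1627572564) (nat_lit 228) (nat_lit 47139345002) (nat_lit 18) (nat_lit 5) (nat_lit 20) (nat_lit 5) (nat_lit 21) (nat_lit 5) (nat_lit 329) (nat_lit 280) (nat_lit 111)) (XT.nd (nat_lit 78) (nat_lit 76) (nat_lit 0) (XT.lf (nat_lit 0) (nat_lit 109457785463) (nat_lit 228) (nat_lit 2851888336) (nat_lit 76) (nat_lit 27156493171) (nat_lit 18) (nat_lit 5) (nat_lit 21) (nat_lit 5) (nat_lit 19) (nat_lit 4) (nat_lit 330) (nat_lit 280) (nat_lit 110)) (XT.lf (nat_lit 0) (nat_lit 46829885490) (nat_lit 76) (nat_lit 86864231189) (nat_lit 152) (nat_lit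 11225895593) (nat_lit 17) (nat_lit 5) (nat_lit 18) (nat_lit 5) (nat_lit 19) (nat_lit 4) (nat_lit 331) (nat_lit 280) (nat_lit 109))))))))
noncomputable def xc219 : XT := (XT.nd (nat_lit 33618) (nat_lit 0) (nat_lit 3496) (XT.nd (nat_lit 702) (nat_lit 152) (nat_lit 0) (XT.nd (nat_lit 312) (nat_lit 228) (nat_lit 0) (XT.nd (nat_lit 156) (nat_lit 152) (nat_lit 0) (XT.nd (nat_lit 78) (nat_lit 0) (nat_lit 0) (XT.lf (nat_lit 0) (nat_lit 8272183990) (nat_lit 152) (nat_lit 51683988877) (nat_lit 76) (nat_lit 90681326497) (nat_lit 16) (nat_lit 5) (nat_lit 18) (nat_lit 5) (nat_lit 17) (nat_lit 5) (nat_lit 332) (nat_lit 280) (nat_lit 108)) (XT.lf (nat_lit 0) (nat_lit 28367232817) (nat_lit 152) (nat_lit 3142698379) (nat_lit 76) (nat_lit 125121762458) (nat_lit 16) (nat_lit 5) (nat_lit 18) (nat_lit 5) (nat_lit 17) (nat_lit 5) (nat_lit 333) (nat_lit 280) (nat_lit 107))) (XT.nd (nat_lit 78) (nat_lit 0)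 (nat_lit 0) (XT.lf (nat_lit 0) (nat_lit 49405883727) (nat_lit 152) (nat_lit 831875584) (nat_lit 228) (nat_lit 112649302890) (nat_lit 14) (nat_lit 5) (nat_lit 16) (nat_lit 5) (nat_lit 17) (nat_lit 5) (nat_lit 334) (nat_lit 280) (nat_lit 106)) (XT.lf (nat_lit 0) (nat_lit 73745207043) (nat_lit 228) (nat_lit 65253417070) (nat_lit 76) (nat_lit 30429406084) (nat_lit 14) (nat_lit 5) (nat_lit 17) (nat_lit 5) (nat_lit 15) (nat_lit 4) (nat_lit 335) (nat_lit 280) (nat_lit 105)))) (XT.nd (nat_lit 156) (nat_lit 152) (nat_lit 0) (XT.nd (nat_lit 78) (nat_lit 76) (nat_lit 0) (XT.lf (nat_lit 0) (nat_lit 98441062799) (nat_lit 228) (nat_lit 14628931407) (nat_lit 76) (nat_lit 63225401335) (nat_lit 14) (nat_lit 5) (nat_lit 17) (nat_lit 5) (nat_lit 15) (nat_lit 4) (nat_lit 336) (nat_lit 280) (nat_lit 104)) (XT.lf (nat_lit 0) (nat_lit 39799637877) (nat_lit 76) (nat_lit 85192884334) (nat_lit 152) (nat_lit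 58482567092) (nat_lit 13) (nat_lit 5) (nat_lit 14) (nat_lit 5) (nat_lit 15) (nat_lit 4) (nat_lit 337) (nat_lit 280) (nat_lit 103))) (XT.nd (nat_lit 78) (nat_lit 152) (nat_lit 0) (XT.lf (nat_lit 0) (nat_lit 97456557233) (nat_lit 76) (nat_lit 55662184646) (nat_lit 152) (nat_lit 37882667173) (nat_lit 13) (nat_lit 5) (nat_lit 14) (nat_lit 5) (nat_lit 15) (nat_lit 4) (nat_lit 338) (nat_lit 280) (nat_lit 102)) (XT.nd (nat_lit 78) (nat_lit 152) (nat_lit 0) (XT.lf (nat_lit 0) (nat_lit 157995406501) (nat_lit 76) (nat_lit 24655331984) (nat_lit 152) (nat_lit 16253333636) (nat_lit 13) (nat_lit 5) (nat_lit 14) (nat_lit 5) (nat_lit 15) (nat_lit 4) (nat_lit 339) (nat_lit 280) (nat_lit 101)) (XT.lf (nat_lit 0) (nat_lit 6609018458) (nat_lit 152) (nat_lit 192585100856) (nat_lit 76) (nat_lit 7984797086) (nat_lit 11) (nat_lit 5) (nat_lit 13) (nat_lit 5) (nat_lit 12) (nat_lit 4) (nat_lit 340) (nat_lit 280)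 (nat_lit 100)))))) (XT.nd (nat_lit 312) (nat_lit 76) (nat_lit 0) (XT.nd (nat_lit 156) (nat_lit 76) (nat_lit 0) (XT.nd (nat_lit 78) (nat_lit 0) (nat_lit 0) (XT.lf (nat_lit 0) (nat_lit 31176108567) (nat_lit 152) (nat_lit 142224072469) (nat_lit 76) (nat_lit 42398608047) (nat_lit 11) (nat_lit 5) (nat_lit 13) (nat_lit 5) (nat_lit 12) (nat_lit 4) (nat_lit 341) (nat_lit 280) (nat_lit 99)) (XT.lf (nat_lit 0) (nat_lit 56971065253) (nat_lit 152) (nat_lit 89345845872) (nat_lit 76) (nat_lit 78532769192) (nat_lit 11) (nat_lit 5) (nat_lit 13) (nat_lit 5) (nat_lit 12) (nat_lit 4) (nat_lit 342) (nat_lit 280) (nat_lit 98))) (XT.nd (nat_lit 78) (nat_lit 76) (nat_lit 0) (XT.lf (nat_lit 0) (nat_lit 84055305077) (nat_lit 152) (nat_lit 33824520524) (nat_lit 76) (nat_lit 116473314238) (nat_lit 11) (nat_lit 5) (nat_lit 13) (nat_lit 5) (nat_lit 12) (nat_lit 4) (nat_lit 343) (nat_lit 280) (nat_lit 97)) (XT.lf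 (nat_lit 0) (nat_lit 25281255256) (nat_lit 76) (nat_lit 87606770314) (nat_lit 152) (nat_lit 131424033805) (nat_lit 10) (nat_lit 5) (nat_lit 11) (nat_lit 5) (nat_lit 12) (nat_lit 4) (nat_lit 344) (nat_lit 280) (nat_lit 96)))) (XT.nd (nat_lit 156) (nat_lit 76) (nat_lit 0) (XT.nd (nat_lit 78) (nat_lit 0) (nat_lit 0) (XT.lf (nat_lit 0) (nat_lit 88515869396) (nat_lit 76) (nat_lit 55218913934) (nat_lit 152) (nat_lit 111005521943) (nat_lit 10) (nat_lit 5) (nat_lit 11) (nat_lit 5) (nat_lit 12) (nat_lit 4) (nat_lit 345) (nat_lit 280) (nat_lit 95)) (XT.lf (nat_lit 0) (nat_lit 154911489098) (nat_lit 76) (nat_lit 21211977138) (nat_lit 152) (nat_lit 89566518295) (nat_lit 10) (nat_lit 5) (nat_lit 11) (nat_lit 5) (nat_lit 12) (nat_lit 4) (nat_lit 346) (nat_lit 280) (nat_lit 94))) (XT.nd (nat_lit 78) (nat_lit 76) (nat_lit 0) (XT.lf (nat_lit 0) (nat_lit 210357497910) (nat_lit 152) (nat_lit 52787276357)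 (nat_lit 0) (nat_lit 14031078159) (nat_lit 10) (nat_lit 5) (nat_lit 12) (nat_lit 4) (nat_lit 10) (nat_lit 4) (nat_lit 347) (nat_lit 280) (nat_lit 93)) (XT.nd (nat_lit 32292) (nat_lit 0) (nat_lit 5016) (XT.lf (nat_lit 0) (nat_lit 8011512361) (nat_lit 76) (nat_lit 238764159504) (nat_lit 76) (nat_lit 42436720204) (nat_lit 9) (nat_lit 4) (nat_lit 10) (nat_lit 5) (nat_lit 10) (nat_lit 4) (nat_lit 348) (nat_lit 280) (nat_lit 92)) (XT.lf (nat_lit 0) (nat_lit 4011231805) (nat_lit 0) (nat_lit 4011231805) (nat_lit 684) (nat_lit 7156928337) (nat_lit 75) (nat_lit 5) (nat_lit 75) (nat_lit 3) (nat_lit 84) (nat_lit 3) (nat_lit 281) (nat_lit 281) (nat_lit 158))))))) (XT.nd (nat_lit 702) (nat_lit 1520) (nat_lit 0) (XT.nd (nat_lit 312) (nat_lit 0) (nat_lit 76) (XT.nd (nat_lit 156) (nat_lit 0) (nat_lit 76) (XT.nd (nat_lit 78) (nat_lit 0) (nat_lit 0) (XT.lf (nat_lit 0) (nat_lit 16596199930) (nat_lit 684)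 (nat_lit 9267664835) (nat_lit 760) (nat_lit 5246188078) (nat_lit 75) (nat_lit 5) (nat_lit 84) (nat_lit 3) (nat_lit 85) (nat_lit 5) (nat_lit 282) (nat_lit 281) (nat_lit 157)) (XT.lf (nat_lit 76) (nat_lit 4463412312) (nat_lit 0) (nat_lit 12908663913) (nat_lit 760) (nat_lit 14516969382) (nat_lit 76) (nat_lit 5) (nat_lit 75) (nat_lit 5) (nat_lit 85) (nat_lit 5) (nat_lit 283) (nat_lit 281) (nat_lit 156))) (XT.nd (nat_lit 78) (nat_lit 0) (nat_lit 0) (XT.lf (nat_lit 0) (nat_lit 18353137802) (nat_lit 684) (nat_lit 13512310098) (nat_lit 760) (nat_lit 833232314) (nat_lit 76) (nat_lit 5) (nat_lit 85) (nat_lit 5) (nat_lit 86) (nat_lit 5) (nat_lit 284) (nat_lit 281) (nat_lit 155)) (XT.lf (nat_lit 76) (nat_lit 911814621) (nat_lit 0) (nat_lit 18693506654) (nat_lit 760) (nat_lit 13932383051) (nat_lit 77) (nat_lit 5) (nat_lit 76) (nat_lit 5) (nat_lit 86) (nat_lit 5) (nat_lit 285) (nat_lit 281) (nat_lit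 154)))) (XT.nd (nat_lit 156) (nat_lit 0) (nat_lit 76) (XT.nd (nat_lit 78) (nat_lit 0) (nat_lit 76) (XT.lf (nat_lit 76) (nat_lit 16523870720) (nat_lit 0) (nat_lit 4621438983) (nat_lit 760) (nat_lit 13262120831) (nat_lit 77) (nat_lit 5) (nat_lit 76) (nat_lit 5) (nat_lit 86) (nat_lit 5) (nat_lit 286) (nat_lit 281) (nat_lit 153)) (XT.lf (nat_lit 0) (nat_lit 22917383848) (nat_lit 684) (nat_lit 2565129484) (nat_lit 760) (nat_lit 9830385580) (nat_lit 77) (nat_lit 5) (nat_lit 86) (nat_lit 5) (nat_lit 87) (nat_lit 5) (nat_lit 287) (nat_lit 281) (nat_lit 152))) (XT.nd (nat_lit 78) (nat_lit 0) (nat_lit 76) (XT.lf (nat_lit 76) (nat_lit 13885522570) (nat_lit 0) (nat_lit 11181806893) (nat_lit 760) (nat_lit 11181857547) (nat_lit 78) (nat_lit 5) (nat_lit 77) (nat_lit 5) (nat_lit 87) (nat_lit 5) (nat_lit 288) (nat_lit 281) (nat_lit 151)) (XT.nd (nat_lit 78) (nat_lit 0) (nat_lit 0) (XT.lf (nat_lit 0)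 (nat_lit 27425632549) (nat_lit 684) (nat_lit 6045429792) (nat_lit 760) (nat_lit 3756193390) (nat_lit 78) (nat_lit 5) (nat_lit 87) (nat_lit 5) (nat_lit 88) (nat_lit 5) (nat_lit 289) (nat_lit 281) (nat_lit 150)) (XT.lf (nat_lit 76) (nat_lit 11263526251) (nat_lit 0) (nat_lit 18994486012) (nat_lit 760) (nat_lit 7978416337) (nat_lit 79) (nat_lit 5) (nat_lit 78) (nat_lit 5) (nat_lit 88) (nat_lit 5) (nat_lit 290) (nat_lit 281) (nat_lit 149)))))) (XT.nd (nat_lit 390) (nat_lit 684) (nat_lit 0) (XT.nd (nat_lit 156) (nat_lit 456) (nat_lit 0) (XT.nd (nat_lit 78) (nat_lit 608) (nat_lit 0) (XT.lf (nat_lit 76) (nat_lit 29645467032) (nat_lit 0) (nat_lit 3686030482) (nat_lit 760) (nat_lit 5959596643) (nat_lit 79) (nat_lit 5) (nat_lit 78) (nat_lit 5) (nat_lit 88) (nat_lit 5) (nat_lit 291) (nat_lit 281) (nat_lit 148)) (XT.lf (nat_lit 0) (nat_lit 8628375732) (nat_lit 684) (nat_lit 28255653768) (nat_lit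 760) (nat_lit 3498202837) (nat_lit 70) (nat_lit 5) (nat_lit 79) (nat_lit 5) (nat_lit 80) (nat_lit 5) (nat_lit 292) (nat_lit 281) (nat_lit 147))) (XT.nd (nat_lit 78) (nat_lit 456) (nat_lit 0) (XT.lf (nat_lit 0) (nat_lit 28086177936) (nat_lit 684) (nat_lit 12748160182) (nat_lit 760) (nat_lit 682589400) (nat_lit 70) (nat_lit 5) (nat_lit 79) (nat_lit 5) (nat_lit 80) (nat_lit 5) (nat_lit 293) (nat_lit 281) (nat_lit 146)) (XT.nd (nat_lit 78) (nat_lit 0) (nat_lit 0) (XT.lf (nat_lit 0) (nat_lit 2348825181) (nat_lit 456) (nat_lit 36797876306) (nat_lit 76) (nat_lit 3552498010) (nat_lit 64) (nat_lit 5) (nat_lit 70) (nat_lit 5) (nat_lit 65) (nat_lit 5) (nat_lit 294) (nat_lit 281) (nat_lit 145)) (XT.lf (nat_lit 0) (nat_lit 5946554852) (nat_lit 456) (nat_lit 17489259611) (nat_lit 76) (nat_lit 20482333479) (nat_lit 64) (nat_lit 5) (nat_lit 70) (nat_lit 5) (nat_lit 65) (nat_lit 5) (nat_lit 295) (nat_lit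 281) (nat_lit 144))))) (XT.nd (nat_lit 156) (nat_lit 304) (nat_lit 0) (XT.nd (nat_lit 78) (nat_lit 0) (nat_lit 0) (XT.lf (nat_lit 0) (nat_lit 2874477496) (nat_lit 380) (nat_lit 6892203181) (nat_lit 456) (nat_lit 35429243892) (nat_lit 59) (nat_lit 5) (nat_lit 64) (nat_lit 5) (nat_lit 65) (nat_lit 5) (nat_lit 296) (nat_lit 281) (nat_lit 143)) (XT.lf (nat_lit 0) (nat_lit 14240166156) (nat_lit 456) (nat_lit 21830042380) (nat_lit 76) (nat_lit 10444269775) (nat_lit 59) (nat_lit 5) (nat_lit 65) (nat_lit 5) (nat_lit 60) (nat_lit 5) (nat_lit 297) (nat_lit 281) (nat_lit 142))) (XT.nd (nat_lit 78) (nat_lit 304) (nat_lit 0) (XT.lf (nat_lit 0) (nat_lit 19048130551) (nat_lit 456) (nat_lit 429335503) (nat_lit 76) (nat_lit 28415959116) (nat_lit 59) (nat_lit 5) (nat_lit 65) (nat_lit 5) (nat_lit 60) (nat_lit 5) (nat_lit 298) (nat_lit 281) (nat_lit 141)) (XT.nd (nat_lit 78) (nat_lit 0) (nat_lit 0) (XT.lf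 (nat_lit 0) (nat_lit 22767950842) (nat_lit 304) (nat_lit 1681935469) (nat_lit 380) (nat_lit 24873768799) (nat_lit 55) (nat_lit 5) (nat_lit 59) (nat_lit 5) (nat_lit 60) (nat_lit 5) (nat_lit 299) (nat_lit 281) (nat_lit 140)) (XT.lf (nat_lit 0) (nat_lit 30392575622) (nat_lit 380) (nat_lit 3952856694) (nat_lit 76) (nat_lit 16466427081) (nat_lit 55) (nat_lit 5) (nat_lit 60) (nat_lit 5) (nat_lit 56) (nat_lit 5) (nat_lit 300) (nat_lit 281) (nat_lit 139))))))))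
noncomputable def xc220 : XT := (XT.nd (nat_lit 1404) (nat_lit 1140) (nat_lit 0) (XT.nd (nat_lit 702) (nat_lit 608) (nat_lit 0) (XT.nd (nat_lit 312) (nat_lit 760) (nat_lit 0) (XT.nd (nat_lit 156) (nat_lit 304) (nat_lit 0) (XT.nd (nat_lit 78) (nat_lit 0) (nat_lit 0) (XT.lf (nat_lit 0) (nat_lit 20403464271) (nat_lit 304) (nat_lit 16573144314) (nat_lit 380) (nat_lit 15380659748) (nat_lit 51) (nat_lit 5) (nat_lit 55) (nat_lit 5) (nat_lit 56) (nat_lit 5) (nat_lit 301) (nat_lit 281) (nat_lit 138)) (XT.lf (nat_lit 0) (nat_lit 43988615980) (nat_lit 380) (nat_lit 7897652234) (nat_lit 76) (nat_lit 2088745523) (nat_lit 51) (nat_lit 5) (nat_lit 56) (nat_lit 5) (nat_lit 52) (nat_lit 5) (nat_lit 302) (nat_lit 281) (nat_lit 137))) (XT.nd (nat_lit 78) (nat_lit 76) (nat_lit 0) (XT.lf (nat_lit 0) (nat_lit 17652517528) (nat_lit 228) (nat_lit 34244227189) (nat_lit 304) (nat_lit 3749630085) (nat_lit 48)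 (nat_lit 5) (nat_lit 51) (nat_lit 5) (nat_lit 52) (nat_lit 5) (nat_lit 303) (nat_lit 281) (nat_lit 136)) (XT.lf (nat_lit 0) (nat_lit 2843579367) (nat_lit 304) (nat_lit 12688242376) (nat_lit 76) (nat_lit 41860591803) (nat_lit 47) (nat_lit 5) (nat_lit 51) (nat_lit 5) (nat_lit 48) (nat_lit 5) (nat_lit 304) (nat_lit 281) (nat_lit 135)))) (XT.nd (nat_lit 156) (nat_lit 456) (nat_lit 0) (XT.nd (nat_lit 78) (nat_lit 0) (nat_lit 0) (XT.lf (nat_lit 0) (nat_lit 9930577120) (nat_lit 380) (nat_lit 45004454477) (nat_lit 76) (nat_lit 4273145998) (nat_lit 43) (nat_lit 5) (nat_lit 48) (nat_lit 5) (nat_lit 44) (nat_lit 5) (nat_lit 305) (nat_lit 281) (nat_lit 134)) (XT.lf (nat_lit 0) (nat_lit 17843320416) (nat_lit 380) (nat_lit 18483398122) (nat_lit 76) (nat_lit 24764445178) (nat_lit 43) (nat_lit 5) (nat_lit 48) (nat_lit 5) (nat_lit 44) (nat_lit 5) (nat_lit 306) (nat_lit 281) (nat_lit 133))) (XT.nd (nat_lit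 78) (nat_lit 228) (nat_lit 0) (XT.lf (nat_lit 0) (nat_lit 9671287221) (nat_lit 228) (nat_lit 16629858556) (nat_lit 304) (nat_lit 36759684598) (nat_lit 40) (nat_lit 5) (nat_lit 43) (nat_lit 5) (nat_lit 44) (nat_lit 5) (nat_lit 307) (nat_lit 281) (nat_lit 132)) (XT.nd (nat_lit 78) (nat_lit 228) (nat_lit 0) (XT.lf (nat_lit 0) (nat_lit 35561765920) (nat_lit 304) (nat_lit 25308318371) (nat_lit 76) (nat_lit 4239904212) (nat_lit 40) (nat_lit 5) (nat_lit 44) (nat_lit 5) (nat_lit 41) (nat_lit 5) (nat_lit 308) (nat_lit 281) (nat_lit 131)) (XT.lf (nat_lit 0) (nat_lit 4031468975) (nat_lit 228) (nat_lit 41588069363) (nat_lit 304) (nat_lit 21625363292) (nat_lit 37) (nat_lit 5) (nat_lit 40) (nat_lit 5) (nat_lit 41) (nat_lit 5) (nat_lit 309) (nat_lit 281) (nat_lit 130)))))) (XT.nd (nat_lit 312) (nat_lit 380) (nat_lit 0) (XT.nd (nat_lit 156) (nat_lit 228) (nat_lit 0) (XT.nd (nat_lit 78) (nat_lit 0)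 (nat_lit 0) (XT.lf (nat_lit 0) (nat_lit 35715013938) (nat_lit 228) (nat_lit 20892391483) (nat_lit 304) (nat_lit 12857797693) (nat_lit 37) (nat_lit 5) (nat_lit 40) (nat_lit 5) (nat_lit 41) (nat_lit 5) (nat_lit 310) (nat_lit 281) (nat_lit 129)) (XT.lf (nat_lit 0) (nat_lit 68156407610) (nat_lit 304) (nat_lit 2828720630) (nat_lit 76) (nat_lit 810807206) (nat_lit 37) (nat_lit 5) (nat_lit 41) (nat_lit 5) (nat_lit 38) (nat_lit 5) (nat_lit 311) (nat_lit 281) (nat_lit 128))) (XT.nd (nat_lit 78) (nat_lit 0) (nat_lit 0) (XT.lf (nat_lit 0) (nat_lit 6673397901) (nat_lit 228) (nat_lit 44046987692) (nat_lit 76) (nat_lit 23476754144) (nat_lit 34) (nat_lit 5) (nat_lit 37) (nat_lit 5) (nat_lit 35) (nat_lit 5) (nat_lit 312) (nat_lit 281) (nat_lit 127)) (XT.lf (nat_lit 0) (nat_lit 17427080966) (nat_lit 228) (nat_lit 11902063750) (nat_lit 76) (nat_lit 47383907628) (nat_lit 34) (nat_lit 5) (nat_lit 37) (nat_lit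 5) (nat_lit 35) (nat_lit 5) (nat_lit 313) (nat_lit 281) (nat_lit 126)))) (XT.nd (nat_lit 156) (nat_lit 152) (nat_lit 0) (XT.nd (nat_lit 78) (nat_lit 0) (nat_lit 0) (XT.lf (nat_lit 0) (nat_lit 22570818086) (nat_lit 228) (nat_lit 6498816154) (nat_lit 304) (nat_lit 50267569391) (nat_lit 31) (nat_lit 5) (nat_lit 34) (nat_lit 5) (nat_lit 35) (nat_lit 5) (nat_lit 314) (nat_lit 281) (nat_lit 125)) (XT.lf (nat_lit 0) (nat_lit 41770805833) (nat_lit 304) (nat_lit 23179756124) (nat_lit 76) (nat_lit 17118178235) (nat_lit 31) (nat_lit 5) (nat_lit 35) (nat_lit 5) (nat_lit 32) (nat_lit 5) (nat_lit 315) (nat_lit 281) (nat_lit 124))) (XT.nd (nat_lit 78) (nat_lit 0) (nat_lit 0) (XT.lf (nat_lit 0) (nat_lit 12374074984) (nat_lit 152) (nat_lit 43031565471) (nat_lit 228) (nat_lit 29516285040) (nat_lit 29) (nat_lit 5) (nat_lit 31) (nat_lit 5) (nat_lit 32) (nat_lit 5) (nat_lit 316) (nat_lit 281) (nat_lit 123))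 (XT.nd (nat_lit 78) (nat_lit 0) (nat_lit 0) (XT.lf (nat_lit 0) (nat_lit 50508733392) (nat_lit 152) (nat_lit 19604944799) (nat_lit 228) (nat_lit 17784520834) (nat_lit 29) (nat_lit 5) (nat_lit 31) (nat_lit 5) (nat_lit 32) (nat_lit 5) (nat_lit 317) (nat_lit 281) (nat_lit 122)) (XT.lf (nat_lit 0) (nat_lit 85634018335) (nat_lit 228) (nat_lit 552699204) (nat_lit 76) (nat_lit 4832725604) (nat_lit 29) (nat_lit 5) (nat_lit 32) (nat_lit 5) (nat_lit 30) (nat_lit 5) (nat_lit 318) (nat_lit 281) (nat_lit 121))))))) (XT.nd (nat_lit 702) (nat_lit 456) (nat_lit 0) (XT.nd (nat_lit 312) (nat_lit 304) (nat_lit 0) (XT.nd (nat_lit 156) (nat_lit 152) (nat_lit 0) (XT.nd (nat_lit 78) (nat_lit 0) (nat_lit 0) (XT.lf (nat_lit 0) (nat_lit 8334662628) (nat_lit 228) (nat_lit 55331732032) (nat_lit 76) (nat_lit 30577129433) (nat_lit 26) (nat_lit 5) (nat_lit 29) (nat_lit 5) (nat_lit 27) (nat_lit 5) (nat_lit 319) (nat_lit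 281) (nat_lit 120)) (XT.lf (nat_lit 0) (nat_lit 22568285320) (nat_lit 228) (nat_lit 17349601637) (nat_lit 76) (nat_lit 57706083701) (nat_lit 26) (nat_lit 5) (nat_lit 29) (nat_lit 5) (nat_lit 27) (nat_lit 5) (nat_lit 320) (nat_lit 281) (nat_lit 119))) (XT.nd (nat_lit 78) (nat_lit 0) (nat_lit 0) (XT.lf (nat_lit 0) (nat_lit 23275139559) (nat_lit 152) (nat_lit 14600890024) (nat_lit 228) (nat_lit 63279289537) (nat_lit 24) (nat_lit 5) (nat_lit 26) (nat_lit 5) (nat_lit 27) (nat_lit 5) (nat_lit 321) (nat_lit 281) (nat_lit 118)) (XT.lf (nat_lit 0) (nat_lit 54433939233) (nat_lit 228) (nat_lit 38508438056) (nat_lit 76) (nat_lit 11896620326) (nat_lit 24) (nat_lit 5) (nat_lit 27) (nat_lit 5) (nat_lit 25) (nat_lit 5) (nat_lit 322) (nat_lit 281) (nat_lit 117)))) (XT.nd (nat_lit 156) (nat_lit 152) (nat_lit 0) (XT.nd (nat_lit 78) (nat_lit 0) (nat_lit 0) (XT.lf (nat_lit 0) (nat_lit 2676813721) (nat_lit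 152) (nat_lit 69423192122) (nat_lit 228) (nat_lit 36592842564) (nat_lit 22) (nat_lit 5) (nat_lit 24) (nat_lit 5) (nat_lit 25) (nat_lit 5) (nat_lit 323) (nat_lit 281) (nat_lit 116)) (XT.lf (nat_lit 0) (nat_lit 47256883860) (nat_lit 152) (nat_lit 44043782000) (nat_lit 228) (nat_lit 21406162749) (nat_lit 22) (nat_lit 5) (nat_lit 24) (nat_lit 5) (nat_lit 25) (nat_lit 5) (nat_lit 324) (nat_lit 281) (nat_lit 115))) (XT.nd (nat_lit 78) (nat_lit 152) (nat_lit 0) (XT.lf (nat_lit 0) (nat_lit 94064652513) (nat_lit 152) (nat_lit 17395878791) (nat_lit 228) (nat_lit 5461019208) (nat_lit 22) (nat_lit 5) (nat_lit 24) (nat_lit 5) (nat_lit 25) (nat_lit 5) (nat_lit 325) (nat_lit 281) (nat_lit 114)) (XT.nd (nat_lit 78) (nat_lit 0) (nat_lit 0) (XT.lf (nat_lit 0) (nat_lit 11443184618) (nat_lit 152) (nat_lit 99089106819) (nat_lit 76) (nat_lit 10779767674) (nat_lit 20) (nat_lit 5) (nat_lit 22) (nat_lit 5)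 (nat_lit 21) (nat_lit 5) (nat_lit 326) (nat_lit 281) (nat_lit 113)) (XT.lf (nat_lit 0) (nat_lit 29686898439) (nat_lit 152) (nat_lit 55934735652) (nat_lit 76) (nat_lit 40262092643) (nat_lit 20) (nat_lit 5) (nat_lit 22) (nat_lit 5) (nat_lit 21) (nat_lit 5) (nat_lit 327) (nat_lit 281) (nat_lit 112)))))) (XT.nd (nat_lit 312) (nat_lit 304) (nat_lit 0) (XT.nd (nat_lit 156) (nat_lit 0) (nat_lit 0) (XT.nd (nat_lit 78) (nat_lit 152) (nat_lit 0) (XT.lf (nat_lit 0) (nat_lit 48842044720) (nat_lit 152) (nat_lit 10623867931) (nat_lit 76) (nat_lit 71218103826) (nat_lit 20) (nat_lit 5) (nat_lit 22) (nat_lit 5) (nat_lit 21) (nat_lit 5) (nat_lit 328) (nat_lit 281) (nat_lit 111)) (XT.lf (nat_lit 0) (nat_lit 38173158840) (nat_lit 152) (nat_lit 31377062103) (nat_lit 228) (nat_lit 66144337162) (nat_lit 18) (nat_lit 5) (nat_lit 20) (nat_lit 5) (nat_lit 21) (nat_lit 5) (nat_lit 329) (nat_lit 281) (nat_lit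 110))) (XT.nd (nat_lit 78) (nat_lit 0) (nat_lit 0) (XT.lf (nat_lit 0) (nat_lit 89777728615) (nat_lit 152) (nat_lit 1695296628) (nat_lit 228) (nat_lit 49473641585) (nat_lit 18) (nat_lit 5) (nat_lit 20) (nat_lit 5) (nat_lit 21) (nat_lit 5) (nat_lit 330) (nat_lit 281) (nat_lit 109)) (XT.lf (nat_lit 0) (nat_lit 114951413449) (nat_lit 228) (nat_lit 2960090329) (nat_lit 76) (nat_lit 28526905956) (nat_lit 18) (nat_lit 5) (nat_lit 21) (nat_lit 5) (nat_lit 19) (nat_lit 4) (nat_lit 331) (nat_lit 281) (nat_lit 108)))) (XT.nd (nat_lit 156) (nat_lit 152) (nat_lit 0) (XT.nd (nat_lit 78) (nat_lit 76) (nat_lit 0) (XT.lf (nat_lit 0) (nat_lit 49205217471) (nat_lit 76) (nat_lit 91193884497) (nat_lit 152) (nat_lit 11765869658) (nat_lit 17) (nat_lit 5) (nat_lit 18) (nat_lit 5) (nat_lit 19) (nat_lit 4) (nat_lit 332) (nat_lit 281) (nat_lit 107)) (XT.lf (nat_lit 0) (nat_lit 8705448730) (nat_lit 152) (nat_lit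 54235287284) (nat_lit 76) (nat_lit 95227630792) (nat_lit 16) (nat_lit 5) (nat_lit 18) (nat_lit 5) (nat_lit 17) (nat_lit 5) (nat_lit 333) (nat_lit 281) (nat_lit 106))) (XT.nd (nat_lit 78) (nat_lit 152) (nat_lit 0) (XT.lf (nat_lit 0) (nat_lit 29804314020) (nat_lit 152) (nat_lit 3268498978) (nat_lit 76) (nat_lit 131389505791) (nat_lit 16) (nat_lit 5) (nat_lit 18) (nat_lit 5) (nat_lit 17) (nat_lit 5) (nat_lit 334) (nat_lit 281) (nat_lit 105)) (XT.nd (nat_lit 78) (nat_lit 0) (nat_lit 0) (XT.lf (nat_lit 0) (nat_lit 51907006841) (nat_lit 152) (nat_lit 860949916) (nat_lit 228) (nat_lit 118262520633) (nat_lit 14) (nat_lit 5) (nat_lit 16) (nat_lit 5) (nat_lit 17) (nat_lit 5) (nat_lit 335) (nat_lit 281) (nat_lit 104)) (XT.lf (nat_lit 0) (nat_lit 77450091153) (nat_lit 228) (nat_lit 68486019937) (nat_lit 76) (nat_lit 31962418052) (nat_lit 14) (nat_lit 5) (nat_lit 17) (nat_lit 5) (nat_lit 15) (nat_lit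 4) (nat_lit 336) (nat_lit 281) (nat_lit 103))))))))
noncomputable def xc221 : XT := (XT.nd (nat_lit 33774) (nat_lit 0) (nat_lit 2508) (XT.nd (nat_lit 702) (nat_lit 0) (nat_lit 0) (XT.nd (nat_lit 312) (nat_lit 228) (nat_lit 0) (XT.nd (nat_lit 156) (nat_lit 0) (nat_lit 0) (XT.nd (nat_lit 78) (nat_lit 76) (nat_lit 0) (XT.lf (nat_lit 0) (nat_lit 103379900470) (nat_lit 228) (nat_lit 15331741800) (nat_lit 76) (nat_lit 66397663462) (nat_lit 14) (nat_lit 5) (nat_lit 17) (nat_lit 5) (nat_lit 15) (nat_lit 4) (nat_lit 337) (nat_lit 281) (nat_lit 102)) (XT.lf (nat_lit 0) (nat_lit 41817794075) (nat_lit 76) (nat_lit 89440779394) (nat_lit 152) (nat_lit 61389429652) (nat_lit 13) (nat_lit 5) (nat_lit 14) (nat_lit 5) (nat_lit 15) (nat_lit 4) (nat_lit 338) (nat_lit 281) (nat_lit 101))) (XT.nd (nat_lit 78) (nat_lit 0) (nat_lit 0) (XT.lf (nat_lit 0) (nat_lit 102356217765) (nat_lit 76) (nat_lit 58434104205)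 (nat_lit 152) (nat_lit 39760356918) (nat_lit 13) (nat_lit 5) (nat_lit 14) (nat_lit 5) (nat_lit 15) (nat_lit 4) (nat_lit 339) (nat_lit 281) (nat_lit 100)) (XT.lf (nat_lit 0) (nat_lit 165920731750) (nat_lit 76) (nat_lit 25877441751) (nat_lit 152) (nat_lit 17050339733) (nat_lit 13) (nat_lit 5) (nat_lit 14) (nat_lit 5) (nat_lit 15) (nat_lit 4) (nat_lit 340) (nat_lit 281) (nat_lit 99)))) (XT.nd (nat_lit 156) (nat_lit 76) (nat_lit 0) (XT.nd (nat_lit 78) (nat_lit 0) (nat_lit 0) (XT.lf (nat_lit 0) (nat_lit 6954476204) (nat_lit 152) (nat_lit 202188114510) (nat_lit 76) (nat_lit 8394505212) (nat_lit 11) (nat_lit 5) (nat_lit 13) (nat_lit 5) (nat_lit 12) (nat_lit 4) (nat_lit 341) (nat_lit 281) (nat_lit 98)) (XT.lf (nat_lit 0) (nat_lit 32749206208) (nat_lit 152) (nat_lit 149310284294) (nat_lit 76) (nat_lit 44528508232) (nat_lit 11) (nat_lit 5) (nat_lit 13) (nat_lit 5) (nat_lit 12) (nat_lit 4) (nat_lit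 342) (nat_lit 281) (nat_lit 97))) (XT.nd (nat_lit 78) (nat_lit 76) (nat_lit 0) (XT.lf (nat_lit 0) (nat_lit 59833230146) (nat_lit 152) (nat_lit 93789336452) (nat_lit 76) (nat_lit 82468902683) (nat_lit 11) (nat_lit 5) (nat_lit 13) (nat_lit 5) (nat_lit 12) (nat_lit 4) (nat_lit 343) (nat_lit 281) (nat_lit 96)) (XT.nd (nat_lit 78) (nat_lit 76) (nat_lit 0) (XT.lf (nat_lit 0) (nat_lit 88271033789) (nat_lit 152) (nat_lit 35493078252) (nat_lit 76) (nat_lit 122306022836) (nat_lit 11) (nat_lit 5) (nat_lit 13) (nat_lit 5) (nat_lit 12) (nat_lit 4) (nat_lit 344) (nat_lit 281) (nat_lit 95)) (XT.lf (nat_lit 0) (nat_lit 26567620699) (nat_lit 76) (nat_lit 91977500507) (nat_lit 152) (nat_lit 137981893295) (nat_lit 10) (nat_lit 5) (nat_lit 11) (nat_lit 5) (nat_lit 12) (nat_lit 4) (nat_lit 345) (nat_lit 281) (nat_lit 94)))))) (XT.nd (nat_lit 32682) (nat_lit 0) (nat_lit 4940) (XT.nd (nat_lit 32526) (nat_lit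 0) (nat_lit 4940) (XT.nd (nat_lit 78) (nat_lit 0) (nat_lit 0) (XT.lf (nat_lit 0) (nat_lit 92962903514) (nat_lit 76) (nat_lit 57970708847) (nat_lit 152) (nat_lit 116543091183) (nat_lit 10) (nat_lit 5) (nat_lit 11) (nat_lit 5) (nat_lit 12) (nat_lit 4) (nat_lit 346) (nat_lit 281) (nat_lit 93)) (XT.lf (nat_lit 0) (nat_lit 162677292741) (nat_lit 76) (nat_lit 22263860963) (nat_lit 152) (nat_lit 94032742441) (nat_lit 10) (nat_lit 5) (nat_lit 11) (nat_lit 5) (nat_lit 12) (nat_lit 4) (nat_lit 347) (nat_lit 281) (nat_lit 92))) (XT.nd (nat_lit 78) (nat_lit 0) (nat_lit 0) (XT.lf (nat_lit 0) (nat_lit 4244048610) (nat_lit 0) (nat_lit 4244048610) (nat_lit 684) (nat_lit 7446848647) (nat_lit 75) (nat_lit 5) (nat_lit 75) (nat_lit 3) (nat_lit 84) (nat_lit 3) (nat_lit 282) (nat_lit 282) (nat_lit 156)) (XT.lf (nat_lit 0) (nat_lit 17547927707) (nat_lit 684) (nat_lit 9662144294) (nat_lit 760) (nat_lit 5449025394)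 (nat_lit 75) (nat_lit 5) (nat_lit 84) (nat_lit 3) (nat_lit 85) (nat_lit 5) (nat_lit 283) (nat_lit 282) (nat_lit 155)))) (XT.nd (nat_lit 156) (nat_lit 0) (nat_lit 76) (XT.nd (nat_lit 78) (nat_lit 0) (nat_lit 76) (XT.lf (nat_lit 76) (nat_lit 4754375360) (nat_lit 0) (nat_lit 13603475279) (nat_lit 760) (nat_lit 15119443765) (nat_lit 76) (nat_lit 5) (nat_lit 75) (nat_lit 5) (nat_lit 85) (nat_lit 5) (nat_lit 284) (nat_lit 282) (nat_lit 154)) (XT.lf (nat_lit 0) (nat_lit 19381651521) (nat_lit 684) (nat_lit 14116719081) (nat_lit 760) (nat_lit 829372253) (nat_lit 76) (nat_lit 5) (nat_lit 85) (nat_lit 5) (nat_lit 86) (nat_lit 5) (nat_lit 285) (nat_lit 282) (nat_lit 153))) (XT.nd (nat_lit 78) (nat_lit 0) (nat_lit 0) (XT.lf (nat_lit 76) (nat_lit 1027463381) (nat_lit 0) (nat_lit 19664795692) (nat_lit 760) (nat_lit 14516683999) (nat_lit 77) (nat_lit 5) (nat_lit 76) (nat_lit 5) (nat_lit 86) (nat_lit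 5) (nat_lit 286) (nat_lit 282) (nat_lit 152)) (XT.nd (nat_lit 78) (nat_lit 0) (nat_lit 76) (XT.lf (nat_lit 76) (nat_lit 17416786188) (nat_lit 0) (nat_lit 4887381129) (nat_lit 760) (nat_lit 13818257154) (nat_lit 77) (nat_lit 5) (nat_lit 76) (nat_lit 5) (nat_lit 86) (nat_lit 5) (nat_lit 287) (nat_lit 282) (nat_lit 151)) (XT.lf (nat_lit 0) (nat_lit 24159488952) (nat_lit 684) (nat_lit 2624201250) (nat_lit 760) (nat_lit 10289758067) (nat_lit 77) (nat_lit 5) (nat_lit 86) (nat_lit 5) (nat_lit 87) (nat_lit 5) (nat_lit 288) (nat_lit 282) (nat_lit 150))))))) (XT.nd (nat_lit 702) (nat_lit 1216) (nat_lit 0) (XT.nd (nat_lit 312) (nat_lit 1368) (nat_lit 0) (XT.nd (nat_lit 156) (nat_lit 0) (nat_lit 76) (XT.nd (nat_lit 78) (nat_lit 0) (nat_lit 76) (XT.lf (nat_lit 76) (nat_lit 14647867525) (nat_lit 0) (nat_lit 11765544405) (nat_lit 760) (nat_lit 11643328351) (nat_lit 78) (nat_lit 5) (nat_lit 77) (nat_lit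 5) (nat_lit 87) (nat_lit 5) (nat_lit 289) (nat_lit 282) (nat_lit 149)) (XT.lf (nat_lit 0) (nat_lit 28884848636) (nat_lit 684) (nat_lit 6277834884) (nat_lit 760) (nat_lit 3921280865) (nat_lit 78) (nat_lit 5) (nat_lit 87) (nat_lit 5) (nat_lit 88) (nat_lit 5) (nat_lit 290) (nat_lit 282) (nat_lit 148))) (XT.nd (nat_lit 78) (nat_lit 0) (nat_lit 0) (XT.lf (nat_lit 76) (nat_lit 11895442084) (nat_lit 0) (nat_lit 19960291113) (nat_lit 760) (nat_lit 8288030665) (nat_lit 79) (nat_lit 5) (nat_lit 78) (nat_lit 5) (nat_lit 88) (nat_lit 5) (nat_lit 291) (nat_lit 282) (nat_lit 147)) (XT.lf (nat_lit 76) (nat_lit 31193206593) (nat_lit 0) (nat_lit 3885647054) (nat_lit 760) (nat_lit 6172522676) (nat_lit 79) (nat_lit 5) (nat_lit 78) (nat_lit 5) (nat_lit 88) (nat_lit 5) (nat_lit 292) (nat_lit 282) (nat_lit 146)))) (XT.nd (nat_lit 156) (nat_lit 836) (nat_lit 0) (XT.nd (nat_lit 78) (nat_lit 0) (nat_lit 0)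 (XT.lf (nat_lit 0) (nat_lit 9128643706) (nat_lit 684) (nat_lit 29677369005) (nat_lit 760) (nat_lit 3591219797) (nat_lit 70) (nat_lit 5) (nat_lit 79) (nat_lit 5) (nat_lit 80) (nat_lit 5) (nat_lit 293) (nat_lit 282) (nat_lit 145)) (XT.lf (nat_lit 0) (nat_lit 29556057486) (nat_lit 684) (nat_lit 13394075380) (nat_lit 760) (nat_lit 638725362) (nat_lit 70) (nat_lit 5) (nat_lit 79) (nat_lit 5) (nat_lit 80) (nat_lit 5) (nat_lit 294) (nat_lit 282) (nat_lit 144))) (XT.nd (nat_lit 78) (nat_lit 380) (nat_lit 0) (XT.lf (nat_lit 0) (nat_lit 2539126942) (nat_lit 456) (nat_lit 38566672691) (nat_lit 76) (nat_lit 3724524730) (nat_lit 64) (nat_lit 5) (nat_lit 70) (nat_lit 5) (nat_lit 65) (nat_lit 5) (nat_lit 295) (nat_lit 282) (nat_lit 143)) (XT.nd (nat_lit 78) (nat_lit 380) (nat_lit 0) (XT.lf (nat_lit 0) (nat_lit 6313273549) (nat_lit 456) (nat_lit 18296010753) (nat_lit 76) (nat_lit 21501118553) (nat_lit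 64) (nat_lit 5) (nat_lit 70) (nat_lit 5) (nat_lit 65) (nat_lit 5) (nat_lit 296) (nat_lit 282) (nat_lit 142)) (XT.lf (nat_lit 0) (nat_lit 3084821083) (nat_lit 380) (nat_lit 7237320372) (nat_lit 456) (nat_lit 37130048781) (nat_lit 59) (nat_lit 5) (nat_lit 64) (nat_lit 5) (nat_lit 65) (nat_lit 5) (nat_lit 297) (nat_lit 282) (nat_lit 141)))))) (XT.nd (nat_lit 390) (nat_lit 608) (nat_lit 0) (XT.nd (nat_lit 156) (nat_lit 608) (nat_lit 0) (XT.nd (nat_lit 78) (nat_lit 0) (nat_lit 0) (XT.lf (nat_lit 0) (nat_lit 15016097156) (nat_lit 456) (nat_lit 22854727175) (nat_lit 76) (nat_lit 10966015831) (nat_lit 59) (nat_lit 5) (nat_lit 65) (nat_lit 5) (nat_lit 60) (nat_lit 5) (nat_lit 298) (nat_lit 282) (nat_lit 140)) (XT.lf (nat_lit 0) (nat_lit 20061415834) (nat_lit 456) (nat_lit 387166732) (nat_lit 76) (nat_lit 29836311898) (nat_lit 59) (nat_lit 5) (nat_lit 65) (nat_lit 5) (nat_lit 60) (nat_lit 5)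 (nat_lit 299) (nat_lit 282) (nat_lit 139))) (XT.nd (nat_lit 78) (nat_lit 304) (nat_lit 0) (XT.lf (nat_lit 0) (nat_lit 23968957551) (nat_lit 304) (nat_lit 1762380347) (nat_lit 380) (nat_lit 26055401602) (nat_lit 55) (nat_lit 5) (nat_lit 59) (nat_lit 5) (nat_lit 60) (nat_lit 5) (nat_lit 300) (nat_lit 282) (nat_lit 138)) (XT.nd (nat_lit 78) (nat_lit 304) (nat_lit 0) (XT.lf (nat_lit 0) (nat_lit 31968408487) (nat_lit 380) (nat_lit 4087975228) (nat_lit 76) (nat_lit 17293115114) (nat_lit 55) (nat_lit 5) (nat_lit 60) (nat_lit 5) (nat_lit 56) (nat_lit 5) (nat_lit 301) (nat_lit 282) (nat_lit 137)) (XT.lf (nat_lit 0) (nat_lit 21485153330) (nat_lit 304) (nat_lit 17394773818) (nat_lit 380) (nat_lit 16092343686) (nat_lit 51) (nat_lit 5) (nat_lit 55) (nat_lit 5) (nat_lit 56) (nat_lit 5) (nat_lit 302) (nat_lit 282) (nat_lit 136))))) (XT.nd (nat_lit 156) (nat_lit 380) (nat_lit 0) (XT.nd (nat_lit 78)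 (nat_lit 228) (nat_lit 0) (XT.lf (nat_lit 0) (nat_lit 46240044737) (nat_lit 380) (nat_lit 8231328141) (nat_lit 76) (nat_lit 2199661639) (nat_lit 51) (nat_lit 5) (nat_lit 56) (nat_lit 5) (nat_lit 52) (nat_lit 5) (nat_lit 303) (nat_lit 282) (nat_lit 135)) (XT.lf (nat_lit 0) (nat_lit 18595362903) (nat_lit 228) (nat_lit 35946681109) (nat_lit 304) (nat_lit 3884002608) (nat_lit 48) (nat_lit 5) (nat_lit 51) (nat_lit 5) (nat_lit 52) (nat_lit 5) (nat_lit 304) (nat_lit 282) (nat_lit 134))) (XT.nd (nat_lit 78) (nat_lit 304) (nat_lit 0) (XT.lf (nat_lit 0) (nat_lit 3034719442) (nat_lit 304) (nat_lit 13263571409) (nat_lit 76) (nat_lit 43961183010) (nat_lit 47) (nat_lit 5) (nat_lit 51) (nat_lit 5) (nat_lit 48) (nat_lit 5) (nat_lit 305) (nat_lit 282) (nat_lit 133)) (XT.nd (nat_lit 78) (nat_lit 0) (nat_lit 0) (XT.lf (nat_lit 0) (nat_lit 10474808561) (nat_lit 380) (nat_lit 47194228634) (nat_lit 76) (nat_lit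 4497057191) (nat_lit 43) (nat_lit 5) (nat_lit 48) (nat_lit 5) (nat_lit 44) (nat_lit 5) (nat_lit 306) (nat_lit 282) (nat_lit 132)) (XT.lf (nat_lit 0) (nat_lit 18780917470) (nat_lit 380) (nat_lit 19349997965) (nat_lit 76) (nat_lit 26012433049) (nat_lit 43) (nat_lit 5) (nat_lit 48) (nat_lit 5) (nat_lit 44) (nat_lit 5) (nat_lit 307) (nat_lit 282) (nat_lit 131))))))))
noncomputable def xc222 : XT := (XT.nd (nat_lit 1404) (nat_lit 836) (nat_lit 0) (XT.nd (nat_lit 702) (nat_lit 684) (nat_lit 0) (XT.nd (nat_lit 312) (nat_lit 456) (nat_lit 0) (XT.nd (nat_lit 156) (nat_lit 228) (nat_lit 0) (XT.nd (nat_lit 78) (nat_lit 0) (nat_lit 0) (XT.lf (nat_lit 0) (nat_lit 10211493096) (nat_lit 228) (nat_lit 17448861953) (nat_lit 304) (nat_lit 38551212230) (nat_lit 40) (nat_lit 5) (nat_lit 43) (nat_lit 5) (nat_lit 44) (nat_lit 5) (nat_lit 308) (nat_lit 282) (nat_lit 130)) (XT.lf (nat_lit 0) (nat_lit 37382089435)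 (nat_lit 304) (nat_lit 26517780831) (nat_lit 76) (nat_lit 4463413506) (nat_lit 40) (nat_lit 5) (nat_lit 44) (nat_lit 5) (nat_lit 41) (nat_lit 5) (nat_lit 309) (nat_lit 282) (nat_lit 129))) (XT.nd (nat_lit 78) (nat_lit 0) (nat_lit 0) (XT.lf (nat_lit 0) (nat_lit 4288093407) (nat_lit 228) (nat_lit 43653505366) (nat_lit 304) (nat_lit 22663405766) (nat_lit 37) (nat_lit 5) (nat_lit 40) (nat_lit 5) (nat_lit 41) (nat_lit 5) (nat_lit 310) (nat_lit 282) (nat_lit 128)) (XT.lf (nat_lit 0) (nat_lit 37553194143) (nat_lit 228) (nat_lit 21923708709) (nat_lit 304) (nat_lit 13459520254) (nat_lit 37) (nat_lit 5) (nat_lit 40) (nat_lit 5) (nat_lit 41) (nat_lit 5) (nat_lit 311) (nat_lit 282) (nat_lit 127)))) (XT.nd (nat_lit 156) (nat_lit 228) (nat_lit 0) (XT.nd (nat_lit 78) (nat_lit 228) (nat_lit 0) (XT.lf (nat_lit 0) (nat_lit 71601689750) (nat_lit 304) (nat_lit 2918478581) (nat_lit 76) (nat_lit 863610985)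 (nat_lit 37) (nat_lit 5) (nat_lit 41) (nat_lit 5) (nat_lit 38) (nat_lit 5) (nat_lit 312) (nat_lit 282) (nat_lit 126)) (XT.lf (nat_lit 0) (nat_lit 7044210966) (nat_lit 228) (nat_lit 46197191999) (nat_lit 76) (nat_lit 24663664207) (nat_lit 34) (nat_lit 5) (nat_lit 37) (nat_lit 5) (nat_lit 35) (nat_lit 5) (nat_lit 313) (nat_lit 282) (nat_lit 125))) (XT.nd (nat_lit 78) (nat_lit 228) (nat_lit 0) (XT.lf (nat_lit 0) (nat_lit 18333809462) (nat_lit 228) (nat_lit 12447504958) (nat_lit 76) (nat_lit 49765552872) (nat_lit 34) (nat_lit 5) (nat_lit 37) (nat_lit 5) (nat_lit 35) (nat_lit 5) (nat_lit 314) (nat_lit 282) (nat_lit 124)) (XT.nd (nat_lit 78) (nat_lit 0) (nat_lit 0) (XT.lf (nat_lit 0) (nat_lit 23748219970) (nat_lit 228) (nat_lit 6809348789) (nat_lit 304) (nat_lit 52744706750) (nat_lit 31) (nat_lit 5) (nat_lit 34) (nat_lit 5) (nat_lit 35) (nat_lit 5) (nat_lit 315) (nat_lit 282) (nat_lit 123))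 (XT.lf (nat_lit 0) (nat_lit 43892372561) (nat_lit 304) (nat_lit 24290720758) (nat_lit 76) (nat_lit 17987370025) (nat_lit 31) (nat_lit 5) (nat_lit 35) (nat_lit 5) (nat_lit 32) (nat_lit 5) (nat_lit 316) (nat_lit 282) (nat_lit 122)))))) (XT.nd (nat_lit 312) (nat_lit 304) (nat_lit 0) (XT.nd (nat_lit 156) (nat_lit 228) (nat_lit 0) (XT.nd (nat_lit 78) (nat_lit 0) (nat_lit 0) (XT.lf (nat_lit 0) (nat_lit 13040027338) (nat_lit 152) (nat_lit 45168086571) (nat_lit 228) (nat_lit 30958238730) (nat_lit 29) (nat_lit 5) (nat_lit 31) (nat_lit 5) (nat_lit 32) (nat_lit 5) (nat_lit 317) (nat_lit 282) (nat_lit 121)) (XT.lf (nat_lit 0) (nat_lit 53079168734) (nat_lit 152) (nat_lit 20570851874) (nat_lit 228) (nat_lit 18641498721) (nat_lit 29) (nat_lit 5) (nat_lit 31) (nat_lit 5) (nat_lit 32) (nat_lit 5) (nat_lit 318) (nat_lit 282) (nat_lit 120))) (XT.nd (nat_lit 78) (nat_lit 228) (nat_lit 0) (XT.lf (nat_lit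 0) (nat_lit 89945131058) (nat_lit 228) (nat_lit 536177565) (nat_lit 76) (nat_lit 5087582066) (nat_lit 29) (nat_lit 5) (nat_lit 32) (nat_lit 5) (nat_lit 30) (nat_lit 5) (nat_lit 319) (nat_lit 282) (nat_lit 119)) (XT.lf (nat_lit 0) (nat_lit 8780605415) (nat_lit 228) (nat_lit 58053859435) (nat_lit 76) (nat_lit 32119725966) (nat_lit 26) (nat_lit 5) (nat_lit 29) (nat_lit 5) (nat_lit 27) (nat_lit 5) (nat_lit 320) (nat_lit 282) (nat_lit 118)))) (XT.nd (nat_lit 156) (nat_lit 152) (nat_lit 0) (XT.nd (nat_lit 78) (nat_lit 152) (nat_lit 0) (XT.lf (nat_lit 0) (nat_lit 23724518306) (nat_lit 228) (nat_lit 18174739624) (nat_lit 76) (nat_lit 60604473658) (nat_lit 26) (nat_lit 5) (nat_lit 29) (nat_lit 5) (nat_lit 27) (nat_lit 5) (nat_lit 321) (nat_lit 282) (nat_lit 117)) (XT.lf (nat_lit 0) (nat_lit 24480555694) (nat_lit 152) (nat_lit 15316419804) (nat_lit 228) (nat_lit 66414707913) (nat_lit 24) (nat_lit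 5) (nat_lit 26) (nat_lit 5) (nat_lit 27) (nat_lit 5) (nat_lit 322) (nat_lit 282) (nat_lit 116))) (XT.nd (nat_lit 78) (nat_lit 152) (nat_lit 0) (XT.lf (nat_lit 0) (nat_lit 57181703863) (nat_lit 228) (nat_lit 40393065476) (nat_lit 76) (nat_lit 12504832448) (nat_lit 24) (nat_lit 5) (nat_lit 27) (nat_lit 5) (nat_lit 25) (nat_lit 5) (nat_lit 323) (nat_lit 282) (nat_lit 115)) (XT.nd (nat_lit 78) (nat_lit 0) (nat_lit 0) (XT.lf (nat_lit 0) (nat_lit 2850790915) (nat_lit 152) (nat_lit 72879668213) (nat_lit 228) (nat_lit 38395718737) (nat_lit 22) (nat_lit 5) (nat_lit 24) (nat_lit 5) (nat_lit 25) (nat_lit 5) (nat_lit 324) (nat_lit 282) (nat_lit 114)) (XT.lf (nat_lit 0) (nat_lit 49657953299) (nat_lit 152) (nat_lit 46231986801) (nat_lit 228) (nat_lit 22450979501) (nat_lit 22) (nat_lit 5) (nat_lit 24) (nat_lit 5) (nat_lit 25) (nat_lit 5) (nat_lit 325) (nat_lit 282) (nat_lit 113))))))) (XT.nd (nat_lit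 702) (nat_lit 380) (nat_lit 0) (XT.nd (nat_lit 312) (nat_lit 304) (nat_lit 0) (XT.nd (nat_lit 156) (nat_lit 0) (nat_lit 0) (XT.nd (nat_lit 78) (nat_lit 152) (nat_lit 0) (XT.lf (nat_lit 0) (nat_lit 98804290134) (nat_lit 152) (nat_lit 18252354351) (nat_lit 228) (nat_lit 5709792659) (nat_lit 22) (nat_lit 5) (nat_lit 24) (nat_lit 5) (nat_lit 25) (nat_lit 5) (nat_lit 326) (nat_lit 282) (nat_lit 112)) (XT.lf (nat_lit 0) (nat_lit 12038510269) (nat_lit 152) (nat_lit 104005978088) (nat_lit 76) (nat_lit 11331982225) (nat_lit 20) (nat_lit 5) (nat_lit 22) (nat_lit 5) (nat_lit 21) (nat_lit 5) (nat_lit 327) (nat_lit 282) (nat_lit 111))) (XT.nd (nat_lit 78) (nat_lit 0) (nat_lit 0) (XT.lf (nat_lit 0) (nat_lit 31193306618) (nat_lit 152) (nat_lit 58695678080) (nat_lit 76) (nat_lit 42287793625) (nat_lit 20) (nat_lit 5) (nat_lit 22) (nat_lit 5) (nat_lit 21) (nat_lit 5) (nat_lit 328) (nat_lit 282) (nat_lit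 110)) (XT.lf (nat_lit 0) (nat_lit 51305159583) (nat_lit 152) (nat_lit 11120971466) (nat_lit 76) (nat_lit 74791005541) (nat_lit 20) (nat_lit 5) (nat_lit 22) (nat_lit 5) (nat_lit 21) (nat_lit 5) (nat_lit 329) (nat_lit 282) (nat_lit 109)))) (XT.nd (nat_lit 156) (nat_lit 152) (nat_lit 0) (XT.nd (nat_lit 78) (nat_lit 0) (nat_lit 0) (XT.lf (nat_lit 0) (nat_lit 40115356807) (nat_lit 152) (nat_lit 32932910862) (nat_lit 228) (nat_lit 69429962908) (nat_lit 18) (nat_lit 5) (nat_lit 20) (nat_lit 5) (nat_lit 21) (nat_lit 5) (nat_lit 330) (nat_lit 282) (nat_lit 108)) (XT.lf (nat_lit 0) (nat_lit 94298557927) (nat_lit 152) (nat_lit 1767676368) (nat_lit 228) (nat_lit 51926760701) (nat_lit 18) (nat_lit 5) (nat_lit 20) (nat_lit 5) (nat_lit 21) (nat_lit 5) (nat_lit 331) (nat_lit 282) (nat_lit 107))) (XT.nd (nat_lit 78) (nat_lit 152) (nat_lit 0) (XT.lf (nat_lit 0) (nat_lit 120717794746) (nat_lit 228) (nat_lit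 3076899903) (nat_lit 76) (nat_lit 29964669055) (nat_lit 18) (nat_lit 5) (nat_lit 21) (nat_lit 5) (nat_lit 19) (nat_lit 4) (nat_lit 332) (nat_lit 282) (nat_lit 106)) (XT.nd (nat_lit 78) (nat_lit 76) (nat_lit 0) (XT.lf (nat_lit 0) (nat_lit 51696170143) (nat_lit 76) (nat_lit 95741280989) (nat_lit 152) (nat_lit 12334824625) (nat_lit 17) (nat_lit 5) (nat_lit 18) (nat_lit 5) (nat_lit 19) (nat_lit 4) (nat_lit 333) (nat_lit 282) (nat_lit 105)) (XT.lf (nat_lit 0) (nat_lit 9158549322) (nat_lit 152) (nat_lit 56917209438) (nat_lit 76) (nat_lit 100000112532) (nat_lit 16) (nat_lit 5) (nat_lit 18) (nat_lit 5) (nat_lit 17) (nat_lit 5) (nat_lit 334) (nat_lit 282) (nat_lit 104)))))) (XT.nd (nat_lit 312) (nat_lit 228) (nat_lit 0) (XT.nd (nat_lit 156) (nat_lit 0) (nat_lit 0) (XT.nd (nat_lit 78) (nat_lit 152) (nat_lit 0) (XT.lf (nat_lit 0) (nat_lit 31311508917) (nat_lit 152) (nat_lit 3403502774) (nat_lit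 76) (nat_lit 137969552700) (nat_lit 16) (nat_lit 5) (nat_lit 18) (nat_lit 5) (nat_lit 17) (nat_lit 5) (nat_lit 335) (nat_lit 282) (nat_lit 103)) (XT.lf (nat_lit 0) (nat_lit 54530319930) (nat_lit 152) (nat_lit 892641904) (nat_lit 228) (nat_lit 124158188703) (nat_lit 14) (nat_lit 5) (nat_lit 16) (nat_lit 5) (nat_lit 17) (nat_lit 5) (nat_lit 336) (nat_lit 282) (nat_lit 102))) (XT.nd (nat_lit 78) (nat_lit 0) (nat_lit 0) (XT.lf (nat_lit 0) (nat_lit 81338580977) (nat_lit 228) (nat_lit 71883048384) (nat_lit 76) (nat_lit 33571007584) (nat_lit 14) (nat_lit 5) (nat_lit 17) (nat_lit 5) (nat_lit 15) (nat_lit 4) (nat_lit 337) (nat_lit 282) (nat_lit 101)) (XT.lf (nat_lit 0) (nat_lit 108564119557) (nat_lit 228) (nat_lit 16072355032) (nat_lit 76) (nat_lit 69727516759) (nat_lit 14) (nat_lit 5) (nat_lit 17) (nat_lit 5) (nat_lit 15) (nat_lit 4) (nat_lit 338) (nat_lit 282) (nat_lit 100)))) (XT.nd (nat_lit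 156) (nat_lit 152) (nat_lit 0) (XT.nd (nat_lit 78) (nat_lit 0) (nat_lit 0) (XT.lf (nat_lit 0) (nat_lit 43934238703) (nat_lit 76) (nat_lit 93902161532) (nat_lit 152) (nat_lit 64443240550) (nat_lit 13) (nat_lit 5) (nat_lit 14) (nat_lit 5) (nat_lit 15) (nat_lit 4) (nat_lit 339) (nat_lit 282) (nat_lit 99)) (XT.lf (nat_lit 0) (nat_lit 107498366676) (nat_lit 76) (nat_lit 61345660052) (nat_lit 152) (nat_lit 41733459921) (nat_lit 13) (nat_lit 5) (nat_lit 14) (nat_lit 5) (nat_lit 15) (nat_lit 4) (nat_lit 340) (nat_lit 282) (nat_lit 98))) (XT.nd (nat_lit 78) (nat_lit 152) (nat_lit 0) (XT.lf (nat_lit 0) (nat_lit 174239947407) (nat_lit 76) (nat_lit 27161647778) (nat_lit 152) (nat_lit 17888652108) (nat_lit 13) (nat_lit 5) (nat_lit 14) (nat_lit 5) (nat_lit 15) (nat_lit 4) (nat_lit 341) (nat_lit 282) (nat_lit 97)) (XT.nd (nat_lit 78) (nat_lit 0) (nat_lit 0) (XT.lf (nat_lit 0) (nat_lit 7315811645)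 (nat_lit 152) (nat_lit 212273718523) (nat_lit 76) (nat_lit 8823725503) (nat_lit 11) (nat_lit 5) (nat_lit 13) (nat_lit 5) (nat_lit 12) (nat_lit 4) (nat_lit 342) (nat_lit 282) (nat_lit 96)) (XT.lf (nat_lit 0) (nat_lit 34399629977) (nat_lit 152) (nat_lit 156753130210) (nat_lit 76) (nat_lit 46763976530) (nat_lit 11) (nat_lit 5) (nat_lit 13) (nat_lit 5) (nat_lit 12) (nat_lit 4) (nat_lit 343) (nat_lit 282) (nat_lit 95))))))))
noncomputable def xc223 : XT := (XT.nd (nat_lit 33852) (nat_lit 0) (nat_lit 1824) (XT.nd (nat_lit 33150) (nat_lit 0) (nat_lit 4104) (XT.nd (nat_lit 32760) (nat_lit 0) (nat_lit 4940) (XT.nd (nat_lit 156) (nat_lit 76) (nat_lit 0) (XT.nd (nat_lit 78) (nat_lit 0) (nat_lit 0) (XT.lf (nat_lit 0) (nat_lit 62837237804) (nat_lit 152) (nat_lit 98457214419) (nat_lit 76) (nat_lit 86600960090) (nat_lit 11) (nat_lit 5) (nat_lit 13) (nat_lit 5) (nat_lit 12) (nat_lit 4) (nat_lit 344)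 (nat_lit 282) (nat_lit 94)) (XT.lf (nat_lit 0) (nat_lit 92696343717) (nat_lit 152) (nat_lit 37247171350) (nat_lit 76) (nat_lit 128429526143) (nat_lit 11) (nat_lit 5) (nat_lit 13) (nat_lit 5) (nat_lit 12) (nat_lit 4) (nat_lit 345) (nat_lit 282) (nat_lit 93))) (XT.nd (nat_lit 78) (nat_lit 0) (nat_lit 0) (XT.lf (nat_lit 0) (nat_lit 27916230923) (nat_lit 76) (nat_lit 96567660501) (nat_lit 152) (nat_lit 144868886191) (nat_lit 10) (nat_lit 5) (nat_lit 11) (nat_lit 5) (nat_lit 12) (nat_lit 4) (nat_lit 346) (nat_lit 282) (nat_lit 92)) (XT.lf (nat_lit 0) (nat_lit 97630314584) (nat_lit 76) (nat_lit 60860944259) (nat_lit 152) (nat_lit 122358720248) (nat_lit 10) (nat_lit 5) (nat_lit 11) (nat_lit 5) (nat_lit 12) (nat_lit 4) (nat_lit 347) (nat_lit 282) (nat_lit 91)))) (XT.nd (nat_lit 156) (nat_lit 0) (nat_lit 0) (XT.nd (nat_lit 78) (nat_lit 0) (nat_lit 0) (XT.lf (nat_lit 0) (nat_lit 4485507471) (nat_lit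 0) (nat_lit 4485507471) (nat_lit 684) (nat_lit 7757580099) (nat_lit 75) (nat_lit 5) (nat_lit 75) (nat_lit 3) (nat_lit 84) (nat_lit 3) (nat_lit 283) (nat_lit 283) (nat_lit 154)) (XT.lf (nat_lit 0) (nat_lit 18535907114) (nat_lit 684) (nat_lit 10082753746) (nat_lit 760) (nat_lit 5667533726) (nat_lit 75) (nat_lit 5) (nat_lit 84) (nat_lit 3) (nat_lit 85) (nat_lit 5) (nat_lit 284) (nat_lit 283) (nat_lit 153))) (XT.nd (nat_lit 78) (nat_lit 0) (nat_lit 76) (XT.lf (nat_lit 76) (nat_lit 5053583862) (nat_lit 0) (nat_lit 14328436500) (nat_lit 760) (nat_lit 15763512021) (nat_lit 76) (nat_lit 5) (nat_lit 75) (nat_lit 5) (nat_lit 85) (nat_lit 5) (nat_lit 285) (nat_lit 283) (nat_lit 152)) (XT.nd (nat_lit 78) (nat_lit 0) (nat_lit 0) (XT.lf (nat_lit 0) (nat_lit 20451284509) (nat_lit 684) (nat_lit 14757968622) (nat_lit 760) (nat_lit 829551363) (nat_lit 76) (nat_lit 5) (nat_lit 85) (nat_lit 5) (nat_lit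 86) (nat_lit 5) (nat_lit 286) (nat_lit 283) (nat_lit 151)) (XT.lf (nat_lit 76) (nat_lit 1142381247) (nat_lit 0) (nat_lit 20681245187) (nat_lit 760) (nat_lit 15140642276) (nat_lit 77) (nat_lit 5) (nat_lit 76) (nat_lit 5) (nat_lit 86) (nat_lit 5) (nat_lit 287) (nat_lit 283) (nat_lit 150)))))) (XT.nd (nat_lit 312) (nat_lit 912) (nat_lit 0) (XT.nd (nat_lit 156) (nat_lit 0) (nat_lit 76) (XT.nd (nat_lit 78) (nat_lit 0) (nat_lit 76) (XT.lf (nat_lit 76) (nat_lit 18348144257) (nat_lit 0) (nat_lit 5163378481) (nat_lit 760) (nat_lit 14412145324) (nat_lit 77) (nat_lit 5) (nat_lit 76) (nat_lit 5) (nat_lit 86) (nat_lit 5) (nat_lit 288) (nat_lit 283) (nat_lit 149)) (XT.lf (nat_lit 0) (nat_lit 25454752208) (nat_lit 684) (nat_lit 2692658742) (nat_lit 760) (nat_lit 10775087882) (nat_lit 77) (nat_lit 5) (nat_lit 86) (nat_lit 5) (nat_lit 87) (nat_lit 5) (nat_lit 289) (nat_lit 283) (nat_lit 148))) (XT.nd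 (nat_lit 78) (nat_lit 0) (nat_lit 76) (XT.lf (nat_lit 76) (nat_lit 15442001334) (nat_lit 0) (nat_lit 12376177333) (nat_lit 760) (nat_lit 12136948669) (nat_lit 78) (nat_lit 5) (nat_lit 77) (nat_lit 5) (nat_lit 87) (nat_lit 5) (nat_lit 290) (nat_lit 283) (nat_lit 147)) (XT.lf (nat_lit 0) (nat_lit 30408850215) (nat_lit 684) (nat_lit 6528355746) (nat_lit 760) (nat_lit 4096735208) (nat_lit 78) (nat_lit 5) (nat_lit 87) (nat_lit 5) (nat_lit 88) (nat_lit 5) (nat_lit 291) (nat_lit 283) (nat_lit 146)))) (XT.nd (nat_lit 156) (nat_lit 1064) (nat_lit 0) (XT.nd (nat_lit 78) (nat_lit 0) (nat_lit 0) (XT.lf (nat_lit 76) (nat_lit 12552562960) (nat_lit 0) (nat_lit 20972891429) (nat_lit 760) (nat_lit 8621428580) (nat_lit 79) (nat_lit 5) (nat_lit 78) (nat_lit 5) (nat_lit 88) (nat_lit 5) (nat_lit 292) (nat_lit 283) (nat_lit 145)) (XT.lf (nat_lit 76) (nat_lit 32812246705) (nat_lit 0) (nat_lit 4093820607)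 (nat_lit 760) (nat_lit 6404002506) (nat_lit 79) (nat_lit 5) (nat_lit 78) (nat_lit 5) (nat_lit 88) (nat_lit 5) (nat_lit 293) (nat_lit 283) (nat_lit 144))) (XT.nd (nat_lit 78) (nat_lit 456) (nat_lit 0) (XT.lf (nat_lit 0) (nat_lit 9647524133) (nat_lit 684) (nat_lit 31169339540) (nat_lit 760) (nat_lit 3696501256) (nat_lit 70) (nat_lit 5) (nat_lit 79) (nat_lit 5) (nat_lit 80) (nat_lit 5) (nat_lit 294) (nat_lit 283) (nat_lit 143)) (XT.nd (nat_lit 78) (nat_lit 456) (nat_lit 0) (XT.lf (nat_lit 0) (nat_lit 31093334877) (nat_lit 684) (nat_lit 14071495421) (nat_lit 760) (nat_lit 599919220) (nat_lit 70) (nat_lit 5) (nat_lit 79) (nat_lit 5) (nat_lit 80) (nat_lit 5) (nat_lit 295) (nat_lit 283) (nat_lit 142)) (XT.lf (nat_lit 0) (nat_lit 2732169912) (nat_lit 456) (nat_lit 40430518861) (nat_lit 76) (nat_lit 3905673253) (nat_lit 64) (nat_lit 5) (nat_lit 70) (nat_lit 5) (nat_lit 65) (nat_lit 5) (nat_lit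 296) (nat_lit 283) (nat_lit 141))))))) (XT.nd (nat_lit 702) (nat_lit 1064) (nat_lit 0) (XT.nd (nat_lit 312) (nat_lit 836) (nat_lit 0) (XT.nd (nat_lit 156) (nat_lit 0) (nat_lit 0) (XT.nd (nat_lit 78) (nat_lit 380) (nat_lit 0) (XT.lf (nat_lit 0) (nat_lit 6691876867) (nat_lit 456) (nat_lit 19149394658) (nat_lit 76) (nat_lit 22571338562) (nat_lit 64) (nat_lit 5) (nat_lit 70) (nat_lit 5) (nat_lit 65) (nat_lit 5) (nat_lit 297) (nat_lit 283) (nat_lit 140)) (XT.lf (nat_lit 0) (nat_lit 3299488179) (nat_lit 380) (nat_lit 7599646283) (nat_lit 456) (nat_lit 38922462961) (nat_lit 59) (nat_lit 5) (nat_lit 64) (nat_lit 5) (nat_lit 65) (nat_lit 5) (nat_lit 298) (nat_lit 283) (nat_lit 139))) (XT.nd (nat_lit 78) (nat_lit 0) (nat_lit 0) (XT.lf (nat_lit 0) (nat_lit 15824881780) (nat_lit 456) (nat_lit 23936858251) (nat_lit 76) (nat_lit 11513892649) (nat_lit 59) (nat_lit 5) (nat_lit 65) (nat_lit 5) (nat_lit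 60) (nat_lit 5) (nat_lit 299) (nat_lit 283) (nat_lit 138)) (XT.lf (nat_lit 0) (nat_lit 21119705451) (nat_lit 456) (nat_lit 348805752) (nat_lit 76) (nat_lit 31327723708) (nat_lit 59) (nat_lit 5) (nat_lit 65) (nat_lit 5) (nat_lit 60) (nat_lit 5) (nat_lit 300) (nat_lit 283) (nat_lit 137)))) (XT.nd (nat_lit 156) (nat_lit 532) (nat_lit 0) (XT.nd (nat_lit 78) (nat_lit 0) (nat_lit 0) (XT.lf (nat_lit 0) (nat_lit 25224193788) (nat_lit 304) (nat_lit 1847186987) (nat_lit 380) (nat_lit 27301885391) (nat_lit 55) (nat_lit 5) (nat_lit 59) (nat_lit 5) (nat_lit 60) (nat_lit 5) (nat_lit 301) (nat_lit 283) (nat_lit 136)) (XT.lf (nat_lit 0) (nat_lit 33617807671) (nat_lit 380) (nat_lit 4235662605) (nat_lit 76) (nat_lit 18160824546) (nat_lit 55) (nat_lit 5) (nat_lit 60) (nat_lit 5) (nat_lit 56) (nat_lit 5) (nat_lit 302) (nat_lit 283) (nat_lit 135))) (XT.nd (nat_lit 78) (nat_lit 228) (nat_lit 0) (XT.lf (nat_lit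 0) (nat_lit 22615207681) (nat_lit 304) (nat_lit 18258138167) (nat_lit 380) (nat_lit 16844943592) (nat_lit 51) (nat_lit 5) (nat_lit 55) (nat_lit 5) (nat_lit 56) (nat_lit 5) (nat_lit 303) (nat_lit 283) (nat_lit 134)) (XT.nd (nat_lit 78) (nat_lit 228) (nat_lit 0) (XT.lf (nat_lit 0) (nat_lit 48599210654) (nat_lit 380) (nat_lit 8587378264) (nat_lit 76) (nat_lit 2315521219) (nat_lit 51) (nat_lit 5) (nat_lit 56) (nat_lit 5) (nat_lit 52) (nat_lit 5) (nat_lit 304) (nat_lit 283) (nat_lit 133)) (XT.lf (nat_lit 0) (nat_lit 19579751909) (nat_lit 228) (nat_lit 37735164879) (nat_lit 304) (nat_lit 4030031327) (nat_lit 48) (nat_lit 5) (nat_lit 51) (nat_lit 5) (nat_lit 52) (nat_lit 5) (nat_lit 305) (nat_lit 283) (nat_lit 132)))))) (XT.nd (nat_lit 390) (nat_lit 456) (nat_lit 0) (XT.nd (nat_lit 156) (nat_lit 228) (nat_lit 0) (XT.nd (nat_lit 78) (nat_lit 304) (nat_lit 0) (XT.lf (nat_lit 0) (nat_lit 3230864581)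 (nat_lit 304) (nat_lit 13873159879) (nat_lit 76) (nat_lit 46166100770) (nat_lit 47) (nat_lit 5) (nat_lit 51) (nat_lit 5) (nat_lit 48) (nat_lit 5) (nat_lit 306) (nat_lit 283) (nat_lit 131)) (XT.lf (nat_lit 0) (nat_lit 11041816640) (nat_lit 380) (nat_lit 49499111434) (nat_lit 76) (nat_lit 4731210635) (nat_lit 43) (nat_lit 5) (nat_lit 48) (nat_lit 5) (nat_lit 44) (nat_lit 5) (nat_lit 307) (nat_lit 283) (nat_lit 130))) (XT.nd (nat_lit 78) (nat_lit 228) (nat_lit 0) (XT.lf (nat_lit 0) (nat_lit 19761170630) (nat_lit 380) (nat_lit 20265280119) (nat_lit 76) (nat_lit 27321912401) (nat_lit 43) (nat_lit 5) (nat_lit 48) (nat_lit 5) (nat_lit 44) (nat_lit 5) (nat_lit 308) (nat_lit 283) (nat_lit 129)) (XT.nd (nat_lit 78) (nat_lit 0) (nat_lit 0) (XT.lf (nat_lit 0) (nat_lit 10773443274) (nat_lit 228) (nat_lit 18309976678) (nat_lit 304) (nat_lit 40436635338) (nat_lit 40) (nat_lit 5) (nat_lit 43) (nat_lit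 5) (nat_lit 44) (nat_lit 5) (nat_lit 309) (nat_lit 283) (nat_lit 128)) (XT.lf (nat_lit 0) (nat_lit 39289502496) (nat_lit 304) (nat_lit 27792918436) (nat_lit 76) (nat_lit 4697027795) (nat_lit 40) (nat_lit 5) (nat_lit 44) (nat_lit 5) (nat_lit 41) (nat_lit 5) (nat_lit 310) (nat_lit 283) (nat_lit 127))))) (XT.nd (nat_lit 156) (nat_lit 228) (nat_lit 0) (XT.nd (nat_lit 78) (nat_lit 0) (nat_lit 0) (XT.lf (nat_lit 0) (nat_lit 4552430942) (nat_lit 228) (nat_lit 45823511732) (nat_lit 304) (nat_lit 23757369080) (nat_lit 37) (nat_lit 5) (nat_lit 40) (nat_lit 5) (nat_lit 41) (nat_lit 5) (nat_lit 311) (nat_lit 283) (nat_lit 126)) (XT.lf (nat_lit 0) (nat_lit 39478408960) (nat_lit 228) (nat_lit 23007828523) (nat_lit 304) (nat_lit 14095156290) (nat_lit 37) (nat_lit 5) (nat_lit 40) (nat_lit 5) (nat_lit 41) (nat_lit 5) (nat_lit 312) (nat_lit 283) (nat_lit 125))) (XT.nd (nat_lit 78) (nat_lit 228) (nat_lit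 0) (XT.lf (nat_lit 0) (nat_lit 75215753157) (nat_lit 304) (nat_lit 3017528967) (nat_lit 76) (nat_lit 917914817) (nat_lit 37) (nat_lit 5) (nat_lit 41) (nat_lit 5) (nat_lit 38) (nat_lit 5) (nat_lit 313) (nat_lit 283) (nat_lit 124)) (XT.nd (nat_lit 78) (nat_lit 0) (nat_lit 0) (XT.lf (nat_lit 0) (nat_lit 7430111464) (nat_lit 228) (nat_lit 48459754476) (nat_lit 76) (nat_lit 25908704430) (nat_lit 34) (nat_lit 5) (nat_lit 37) (nat_lit 5) (nat_lit 35) (nat_lit 5) (nat_lit 314) (nat_lit 283) (nat_lit 123)) (XT.lf (nat_lit 0) (nat_lit 19282585601) (nat_lit 228) (nat_lit 13024835327) (nat_lit 76) (nat_lit 52265122908) (nat_lit 34) (nat_lit 5) (nat_lit 37) (nat_lit 5) (nat_lit 35) (nat_lit 5) (nat_lit 315) (nat_lit 283) (nat_lit 122))))))))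
noncomputable def xc224 : XT := (XT.nd (nat_lit 1404) (nat_lit 532) (nat_lit 0) (XT.nd (nat_lit 702) (nat_lit 456) (nat_lit 0) (XT.nd (nat_lit 312) (nat_lit 380) (nat_lit 0) (XT.nd (nat_lit 156) (nat_lit 152) (nat_lit 0) (XT.nd (nat_lit 78) (nat_lit 0) (nat_lit 0) (XT.lf (nat_lit 0) (nat_lit 24979949318) (nat_lit 228) (nat_lit 7136747591) (nat_lit 304) (nat_lit 55349070332) (nat_lit 31) (nat_lit 5) (nat_lit 34) (nat_lit 5) (nat_lit 35) (nat_lit 5) (nat_lit 316) (nat_lit 283) (nat_lit 121)) (XT.lf (nat_lit 0) (nat_lit 46116947141) (nat_lit 304) (nat_lit 25461698362) (nat_lit 76) (nat_lit 18898786488) (nat_lit 31) (nat_lit 5) (nat_lit 35) (nat_lit 5) (nat_lit 32) (nat_lit 5) (nat_lit 317) (nat_lit 283) (nat_lit 120))) (XT.nd (nat_lit 78) (nat_lit 0) (nat_lit 0) (XT.lf (nat_lit 0) (nat_lit 13734884583) (nat_lit 152) (nat_lit 47412833600) (nat_lit 228) (nat_lit 32475438138) (nat_lit 29)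 (nat_lit 5) (nat_lit 31) (nat_lit 5) (nat_lit 32) (nat_lit 5) (nat_lit 318) (nat_lit 283) (nat_lit 119)) (XT.lf (nat_lit 0) (nat_lit 55773942293) (nat_lit 152) (nat_lit 21586387515) (nat_lit 228) (nat_lit 19544323630) (nat_lit 29) (nat_lit 5) (nat_lit 31) (nat_lit 5) (nat_lit 32) (nat_lit 5) (nat_lit 319) (nat_lit 283) (nat_lit 118)))) (XT.nd (nat_lit 156) (nat_lit 152) (nat_lit 0) (XT.nd (nat_lit 78) (nat_lit 228) (nat_lit 0) (XT.lf (nat_lit 0) (nat_lit 94469064987) (nat_lit 228) (nat_lit 522935105) (nat_lit 76) (nat_lit 5353952263) (nat_lit 29) (nat_lit 5) (nat_lit 32) (nat_lit 5) (nat_lit 30) (nat_lit 5) (nat_lit 320) (nat_lit 283) (nat_lit 117)) (XT.lf (nat_lit 0) (nat_lit 9246129705) (nat_lit 228) (nat_lit 60916226603) (nat_lit 76) (nat_lit 33738174904) (nat_lit 26) (nat_lit 5) (nat_lit 29) (nat_lit 5) (nat_lit 27) (nat_lit 5) (nat_lit 321) (nat_lit 283) (nat_lit 116))) (XT.nd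 (nat_lit 78) (nat_lit 152) (nat_lit 0) (XT.lf (nat_lit 0) (nat_lit 24935976620) (nat_lit 228) (nat_lit 19045071078) (nat_lit 76) (nat_lit 63646566523) (nat_lit 26) (nat_lit 5) (nat_lit 29) (nat_lit 5) (nat_lit 27) (nat_lit 5) (nat_lit 322) (nat_lit 283) (nat_lit 115)) (XT.nd (nat_lit 78) (nat_lit 0) (nat_lit 0) (XT.lf (nat_lit 0) (nat_lit 25742369563) (nat_lit 152) (nat_lit 16069075513) (nat_lit 228) (nat_lit 69709551154) (nat_lit 24) (nat_lit 5) (nat_lit 26) (nat_lit 5) (nat_lit 27) (nat_lit 5) (nat_lit 323) (nat_lit 283) (nat_lit 114)) (XT.lf (nat_lit 0) (nat_lit 60064433198) (nat_lit 228) (nat_lit 42375716951) (nat_lit 76) (nat_lit 13142211127) (nat_lit 24) (nat_lit 5) (nat_lit 27) (nat_lit 5) (nat_lit 25) (nat_lit 5) (nat_lit 324) (nat_lit 283) (nat_lit 113)))))) (XT.nd (nat_lit 312) (nat_lit 152) (nat_lit 0) (XT.nd (nat_lit 156) (nat_lit 152) (nat_lit 0) (XT.nd (nat_lit 78) (nat_lit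 0) (nat_lit 0) (XT.lf (nat_lit 0) (nat_lit 3029735456) (nat_lit 152) (nat_lit 76510333244) (nat_lit 228) (nat_lit 40291227164) (nat_lit 22) (nat_lit 5) (nat_lit 24) (nat_lit 5) (nat_lit 25) (nat_lit 5) (nat_lit 325) (nat_lit 283) (nat_lit 112)) (XT.lf (nat_lit 0) (nat_lit 52175522388) (nat_lit 152) (nat_lit 48530901970) (nat_lit 228) (nat_lit 23550407038) (nat_lit 22) (nat_lit 5) (nat_lit 24) (nat_lit 5) (nat_lit 25) (nat_lit 5) (nat_lit 326) (nat_lit 283) (nat_lit 111))) (XT.nd (nat_lit 78) (nat_lit 152) (nat_lit 0) (XT.lf (nat_lit 0) (nat_lit 103777525045) (nat_lit 152) (nat_lit 19152891905) (nat_lit 228) (nat_lit 5973261875) (nat_lit 22) (nat_lit 5) (nat_lit 24) (nat_lit 5) (nat_lit 25) (nat_lit 5) (nat_lit 327) (nat_lit 283) (nat_lit 110)) (XT.lf (nat_lit 0) (nat_lit 12661448409) (nat_lit 152) (nat_lit 109172187130) (nat_lit 76) (nat_lit 11910577859) (nat_lit 20) (nat_lit 5) (nat_lit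 22) (nat_lit 5) (nat_lit 21) (nat_lit 5) (nat_lit 328) (nat_lit 283) (nat_lit 109)))) (XT.nd (nat_lit 156) (nat_lit 152) (nat_lit 0) (XT.nd (nat_lit 78) (nat_lit 0) (nat_lit 0) (XT.lf (nat_lit 0) (nat_lit 32772983974) (nat_lit 152) (nat_lit 61597995449) (nat_lit 76) (nat_lit 44413608566) (nat_lit 20) (nat_lit 5) (nat_lit 22) (nat_lit 5) (nat_lit 21) (nat_lit 5) (nat_lit 329) (nat_lit 283) (nat_lit 108)) (XT.lf (nat_lit 0) (nat_lit 53889476633) (nat_lit 152) (nat_lit 11646099530) (nat_lit 76) (nat_lit 78541437018) (nat_lit 20) (nat_lit 5) (nat_lit 22) (nat_lit 5) (nat_lit 21) (nat_lit 5) (nat_lit 330) (nat_lit 283) (nat_lit 107))) (XT.nd (nat_lit 78) (nat_lit 0) (nat_lit 0) (XT.lf (nat_lit 0) (nat_lit 42151546439) (nat_lit 152) (nat_lit 34567761079) (nat_lit 228) (nat_lit 72881877279) (nat_lit 18) (nat_lit 5) (nat_lit 20) (nat_lit 5) (nat_lit 21) (nat_lit 5) (nat_lit 331) (nat_lit 283)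 (nat_lit 106)) (XT.nd (nat_lit 78) (nat_lit 0) (nat_lit 0) (XT.lf (nat_lit 0) (nat_lit 99042458958) (nat_lit 152) (nat_lit 1844826542) (nat_lit 228) (nat_lit 54504447523) (nat_lit 18) (nat_lit 5) (nat_lit 20) (nat_lit 5) (nat_lit 21) (nat_lit 5) (nat_lit 332) (nat_lit 283) (nat_lit 105)) (XT.lf (nat_lit 0) (nat_lit 126770746274) (nat_lit 228) (nat_lit 3202450166) (nat_lit 76) (nat_lit 31473258791) (nat_lit 18) (nat_lit 5) (nat_lit 21) (nat_lit 5) (nat_lit 19) (nat_lit 4) (nat_lit 333) (nat_lit 283) (nat_lit 104))))))) (XT.nd (nat_lit 702) (nat_lit 152) (nat_lit 0) (XT.nd (nat_lit 312) (nat_lit 76) (nat_lit 0) (XT.nd (nat_lit 156) (nat_lit 152) (nat_lit 0) (XT.nd (nat_lit 78) (nat_lit 76) (nat_lit 0) (XT.lf (nat_lit 0) (nat_lit 54308817015) (nat_lit 76) (nat_lit 100517190633) (nat_lit 152) (nat_lit 12934025252) (nat_lit 17) (nat_lit 5) (nat_lit 18) (nat_lit 5) (nat_lit 19) (nat_lit 4)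 (nat_lit 334) (nat_lit 283) (nat_lit 103)) (XT.lf (nat_lit 0) (nat_lit 9632647450) (nat_lit 152) (nat_lit 59736002146) (nat_lit 76) (nat_lit 105010186368) (nat_lit 16) (nat_lit 5) (nat_lit 18) (nat_lit 5) (nat_lit 17) (nat_lit 5) (nat_lit 335) (nat_lit 283) (nat_lit 102))) (XT.nd (nat_lit 78) (nat_lit 152) (nat_lit 0) (XT.lf (nat_lit 0) (nat_lit 32892484993) (nat_lit 152) (nat_lit 3547899090) (nat_lit 76) (nat_lit 144877619105) (nat_lit 16) (nat_lit 5) (nat_lit 18) (nat_lit 5) (nat_lit 17) (nat_lit 5) (nat_lit 336) (nat_lit 283) (nat_lit 101)) (XT.lf (nat_lit 0) (nat_lit 57282198962) (nat_lit 152) (nat_lit 926974219) (nat_lit 228) (nat_lit 130350263253) (nat_lit 14) (nat_lit 5) (nat_lit 16) (nat_lit 5) (nat_lit 17) (nat_lit 5) (nat_lit 337) (nat_lit 283) (nat_lit 100)))) (XT.nd (nat_lit 156) (nat_lit 76) (nat_lit 0) (XT.nd (nat_lit 78) (nat_lit 0) (nat_lit 0) (XT.lf (nat_lit 0) (nat_lit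 85420009134) (nat_lit 228) (nat_lit 75452463796) (nat_lit 76) (nat_lit 35259053318) (nat_lit 14) (nat_lit 5) (nat_lit 17) (nat_lit 5) (nat_lit 15) (nat_lit 4) (nat_lit 338) (nat_lit 283) (nat_lit 99)) (XT.lf (nat_lit 0) (nat_lit 114006134209) (nat_lit 228) (nat_lit 16852413730) (nat_lit 76) (nat_lit 73222935792) (nat_lit 14) (nat_lit 5) (nat_lit 17) (nat_lit 5) (nat_lit 15) (nat_lit 4) (nat_lit 339) (nat_lit 283) (nat_lit 98))) (XT.nd (nat_lit 78) (nat_lit 0) (nat_lit 0) (XT.lf (nat_lit 0) (nat_lit 46154129707) (nat_lit 76) (nat_lit 98587603548) (nat_lit 152) (nat_lit 67651197965) (nat_lit 13) (nat_lit 5) (nat_lit 14) (nat_lit 5) (nat_lit 15) (nat_lit 4) (nat_lit 340) (nat_lit 283) (nat_lit 97)) (XT.nd (nat_lit 78) (nat_lit 0) (nat_lit 0) (XT.lf (nat_lit 0) (nat_lit 112895360314) (nat_lit 76) (nat_lit 64403737282) (nat_lit 152) (nat_lit 43806604715) (nat_lit 13) (nat_lit 5) (nat_lit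 14) (nat_lit 5) (nat_lit 15) (nat_lit 4) (nat_lit 341) (nat_lit 283) (nat_lit 96)) (XT.lf (nat_lit 0) (nat_lit 182972968876) (nat_lit 76) (nat_lit 28510962766) (nat_lit 152) (nat_lit 18770200711) (nat_lit 13) (nat_lit 5) (nat_lit 14) (nat_lit 5) (nat_lit 15) (nat_lit 4) (nat_lit 342) (nat_lit 283) (nat_lit 95)))))) (XT.nd (nat_lit 32916) (nat_lit 0) (nat_lit 4864) (XT.nd (nat_lit 156) (nat_lit 0) (nat_lit 0) (XT.nd (nat_lit 78) (nat_lit 0) (nat_lit 0) (XT.lf (nat_lit 0) (nat_lit 7693948378) (nat_lit 152) (nat_lit 222865815593) (nat_lit 76) (nat_lit 9273524052) (nat_lit 11) (nat_lit 5) (nat_lit 13) (nat_lit 5) (nat_lit 12) (nat_lit 4) (nat_lit 343) (nat_lit 283) (nat_lit 94)) (XT.lf (nat_lit 0) (nat_lit 36131369715) (nat_lit 152) (nat_lit 164570225906) (nat_lit 76) (nat_lit 49110377521) (nat_lit 11) (nat_lit 5) (nat_lit 13) (nat_lit 5) (nat_lit 12) (nat_lit 4) (nat_lit 344) (nat_lit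 283) (nat_lit 93))) (XT.nd (nat_lit 78) (nat_lit 0) (nat_lit 0) (XT.lf (nat_lit 0) (nat_lit 65990298017) (nat_lit 152) (nat_lit 103360493412) (nat_lit 76) (nat_lit 90938819680) (nat_lit 11) (nat_lit 5) (nat_lit 13) (nat_lit 5) (nat_lit 12) (nat_lit 4) (nat_lit 345) (nat_lit 283) (nat_lit 92)) (XT.lf (nat_lit 0) (nat_lit 97341825972) (nat_lit 152) (nat_lit 39090880653) (nat_lit 76) (nat_lit 134858442055) (nat_lit 11) (nat_lit 5) (nat_lit 13) (nat_lit 5) (nat_lit 12) (nat_lit 4) (nat_lit 346) (nat_lit 283) (nat_lit 91)))) (XT.nd (nat_lit 156) (nat_lit 0) (nat_lit 0) (XT.nd (nat_lit 78) (nat_lit 0) (nat_lit 0) (XT.lf (nat_lit 0) (nat_lit 4736319289) (nat_lit 0) (nat_lit 4736319289) (nat_lit 684) (nat_lit 8089576128) (nat_lit 75) (nat_lit 5) (nat_lit 75) (nat_lit 3) (nat_lit 84) (nat_lit 3) (nat_lit 284) (nat_lit 284) (nat_lit 152)) (XT.lf (nat_lit 0) (nat_lit 19563004530) (nat_lit 684)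 (nat_lit 10530204120) (nat_lit 760) (nat_lit 5901982579) (nat_lit 75) (nat_lit 5) (nat_lit 84) (nat_lit 3) (nat_lit 85) (nat_lit 5) (nat_lit 285) (nat_lit 284) (nat_lit 151))) (XT.nd (nat_lit 78) (nat_lit 0) (nat_lit 76) (XT.lf (nat_lit 76) (nat_lit 5362036056) (nat_lit 0) (nat_lit 15085481868) (nat_lit 760) (nat_lit 16450187456) (nat_lit 76) (nat_lit 5) (nat_lit 75) (nat_lit 5) (nat_lit 85) (nat_lit 5) (nat_lit 286) (nat_lit 284) (nat_lit 150)) (XT.nd (nat_lit 78) (nat_lit 0) (nat_lit 0) (XT.lf (nat_lit 0) (nat_lit 21565050922) (nat_lit 684) (nat_lit 15437285272) (nat_lit 760) (nat_lit 833578135) (nat_lit 76) (nat_lit 5) (nat_lit 85) (nat_lit 5) (nat_lit 86) (nat_lit 5) (nat_lit 287) (nat_lit 284) (nat_lit 149)) (XT.lf (nat_lit 76) (nat_lit 1257137223) (nat_lit 0) (nat_lit 21745429633) (nat_lit 760) (nat_lit 15805269925) (nat_lit 77) (nat_lit 5) (nat_lit 76) (nat_lit 5) (nat_lit 86)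 (nat_lit 5) (nat_lit 288) (nat_lit 284) (nat_lit 148))))))))
noncomputable def xc225 : XT := (XT.nd (nat_lit 1404) (nat_lit 1824) (nat_lit 0) (XT.nd (nat_lit 702) (nat_lit 1216) (nat_lit 0) (XT.nd (nat_lit 312) (nat_lit 912) (nat_lit 0) (XT.nd (nat_lit 156) (nat_lit 0) (nat_lit 76) (XT.nd (nat_lit 78) (nat_lit 0) (nat_lit 76) (XT.lf (nat_lit 76) (nat_lit 19320443769) (nat_lit 0) (nat_lit 5450235201) (nat_lit 760) (nat_lit 15044748338) (nat_lit 77) (nat_lit 5) (nat_lit 76) (nat_lit 5) (nat_lit 86) (nat_lit 5) (nat_lit 289) (nat_lit 284) (nat_lit 147)) (XT.lf (nat_lit 0) (nat_lit 26806663340) (nat_lit 684) (nat_lit 2770373248) (nat_lit 760) (nat_lit 11287395031) (nat_lit 77) (nat_lit 5) (nat_lit 86) (nat_lit 5) (nat_lit 87) (nat_lit 5) (nat_lit 290) (nat_lit 284) (nat_lit 146))) (XT.nd (nat_lit 78) (nat_lit 0) (nat_lit 76) (XT.lf (nat_lit 76) (nat_lit 16270101792) (nat_lit 0) (nat_lit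 13015263485) (nat_lit 760) (nat_lit 12663482181) (nat_lit 78) (nat_lit 5) (nat_lit 77) (nat_lit 5) (nat_lit 87) (nat_lit 5) (nat_lit 291) (nat_lit 284) (nat_lit 145)) (XT.lf (nat_lit 0) (nat_lit 32001636623) (nat_lit 684) (nat_lit 6797294275) (nat_lit 760) (nat_lit 4282878362) (nat_lit 78) (nat_lit 5) (nat_lit 87) (nat_lit 5) (nat_lit 88) (nat_lit 5) (nat_lit 292) (nat_lit 284) (nat_lit 144)))) (XT.nd (nat_lit 156) (nat_lit 1064) (nat_lit 0) (XT.nd (nat_lit 78) (nat_lit 0) (nat_lit 0) (XT.lf (nat_lit 76) (nat_lit 13236743282) (nat_lit 0) (nat_lit 22034765715) (nat_lit 760) (nat_lit 8979027340) (nat_lit 79) (nat_lit 5) (nat_lit 78) (nat_lit 5) (nat_lit 88) (nat_lit 5) (nat_lit 293) (nat_lit 284) (nat_lit 143)) (XT.lf (nat_lit 76) (nat_lit 34506718253) (nat_lit 0) (nat_lit 4311111366) (nat_lit 760) (nat_lit 6654228661) (nat_lit 79) (nat_lit 5) (nat_lit 78) (nat_lit 5) (nat_lit 88) (nat_lit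 5) (nat_lit 294) (nat_lit 284) (nat_lit 142))) (XT.nd (nat_lit 78) (nat_lit 456) (nat_lit 0) (XT.lf (nat_lit 0) (nat_lit 10186542736) (nat_lit 684) (nat_lit 32735155347) (nat_lit 760) (nat_lit 3813952595) (nat_lit 70) (nat_lit 5) (nat_lit 79) (nat_lit 5) (nat_lit 80) (nat_lit 5) (nat_lit 295) (nat_lit 284) (nat_lit 141)) (XT.nd (nat_lit 78) (nat_lit 456) (nat_lit 0) (XT.lf (nat_lit 0) (nat_lit 32701946760) (nat_lit 684) (nat_lit 14782069078) (nat_lit 760) (nat_lit 565749730) (nat_lit 70) (nat_lit 5) (nat_lit 79) (nat_lit 5) (nat_lit 80) (nat_lit 5) (nat_lit 296) (nat_lit 284) (nat_lit 140)) (XT.lf (nat_lit 0) (nat_lit 2928720923) (nat_lit 456) (nat_lit 42393552772) (nat_lit 76) (nat_lit 4096351279) (nat_lit 64) (nat_lit 5) (nat_lit 70) (nat_lit 5) (nat_lit 65) (nat_lit 5) (nat_lit 297) (nat_lit 284) (nat_lit 139)))))) (XT.nd (nat_lit 312) (nat_lit 836) (nat_lit 0) (XT.nd (nat_lit 156)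 (nat_lit 0) (nat_lit 0) (XT.nd (nat_lit 78) (nat_lit 380) (nat_lit 0) (XT.lf (nat_lit 0) (nat_lit 7083558820) (nat_lit 456) (nat_lit 20051157694) (nat_lit 76) (nat_lit 23695519170) (nat_lit 64) (nat_lit 5) (nat_lit 70) (nat_lit 5) (nat_lit 65) (nat_lit 5) (nat_lit 298) (nat_lit 284) (nat_lit 138)) (XT.lf (nat_lit 0) (nat_lit 3519270790) (nat_lit 380) (nat_lit 7980045734) (nat_lit 456) (nat_lit 40810456169) (nat_lit 59) (nat_lit 5) (nat_lit 64) (nat_lit 5) (nat_lit 65) (nat_lit 5) (nat_lit 299) (nat_lit 284) (nat_lit 137))) (XT.nd (nat_lit 78) (nat_lit 0) (nat_lit 0) (XT.lf (nat_lit 0) (nat_lit 16668715227) (nat_lit 456) (nat_lit 25078730386) (nat_lit 76) (nat_lit 12089202724) (nat_lit 59) (nat_lit 5) (nat_lit 65) (nat_lit 5) (nat_lit 60) (nat_lit 5) (nat_lit 300) (nat_lit 284) (nat_lit 136)) (XT.lf (nat_lit 0) (nat_lit 22225775825) (nat_lit 456) (nat_lit 313892917) (nat_lit 76) (nat_lit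 32893743648) (nat_lit 59) (nat_lit 5) (nat_lit 65) (nat_lit 5) (nat_lit 60) (nat_lit 5) (nat_lit 301) (nat_lit 284) (nat_lit 135)))) (XT.nd (nat_lit 156) (nat_lit 532) (nat_lit 0) (XT.nd (nat_lit 78) (nat_lit 0) (nat_lit 0) (XT.lf (nat_lit 0) (nat_lit 26536912194) (nat_lit 304) (nat_lit 1936541913) (nat_lit 380) (nat_lit 28615926334) (nat_lit 55) (nat_lit 5) (nat_lit 59) (nat_lit 5) (nat_lit 60) (nat_lit 5) (nat_lit 302) (nat_lit 284) (nat_lit 134)) (XT.lf (nat_lit 0) (nat_lit 35344937293) (nat_lit 380) (nat_lit 4396006838) (nat_lit 76) (nat_lit 19071635548) (nat_lit 55) (nat_lit 5) (nat_lit 60) (nat_lit 5) (nat_lit 56) (nat_lit 5) (nat_lit 303) (nat_lit 284) (nat_lit 133))) (XT.nd (nat_lit 78) (nat_lit 228) (nat_lit 0) (XT.lf (nat_lit 0) (nat_lit 23796577302) (nat_lit 304) (nat_lit 19165263360) (nat_lit 380) (nat_lit 17640009567) (nat_lit 51) (nat_lit 5) (nat_lit 55) (nat_lit 5) (nat_lit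 56) (nat_lit 5) (nat_lit 304) (nat_lit 284) (nat_lit 132)) (XT.nd (nat_lit 78) (nat_lit 228) (nat_lit 0) (XT.lf (nat_lit 0) (nat_lit 51071950035) (nat_lit 380) (nat_lit 8966392271) (nat_lit 76) (nat_lit 2436627436) (nat_lit 51) (nat_lit 5) (nat_lit 56) (nat_lit 5) (nat_lit 52) (nat_lit 5) (nat_lit 305) (nat_lit 284) (nat_lit 131)) (XT.lf (nat_lit 0) (nat_lit 20608282235) (nat_lit 228) (nat_lit 39613895653) (nat_lit 304) (nat_lit 4187840004) (nat_lit 48) (nat_lit 5) (nat_lit 51) (nat_lit 5) (nat_lit 52) (nat_lit 5) (nat_lit 306) (nat_lit 284) (nat_lit 130))))))) (XT.nd (nat_lit 702) (nat_lit 760) (nat_lit 0) (XT.nd (nat_lit 312) (nat_lit 456) (nat_lit 0) (XT.nd (nat_lit 156) (nat_lit 228) (nat_lit 0) (XT.nd (nat_lit 78) (nat_lit 304) (nat_lit 0) (XT.lf (nat_lit 0) (nat_lit 3432688233) (nat_lit 304) (nat_lit 14518210072) (nat_lit 76) (nat_lit 48480626770) (nat_lit 47) (nat_lit 5) (nat_lit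 51) (nat_lit 5) (nat_lit 48) (nat_lit 5) (nat_lit 307) (nat_lit 284) (nat_lit 129)) (XT.lf (nat_lit 0) (nat_lit 11633152506) (nat_lit 380) (nat_lit 51924335820) (nat_lit 76) (nat_lit 4976207070) (nat_lit 43) (nat_lit 5) (nat_lit 48) (nat_lit 5) (nat_lit 44) (nat_lit 5) (nat_lit 308) (nat_lit 284) (nat_lit 128))) (XT.nd (nat_lit 78) (nat_lit 228) (nat_lit 0) (XT.lf (nat_lit 0) (nat_lit 20786605385) (nat_lit 380) (nat_lit 21231181091) (nat_lit 76) (nat_lit 28696042215) (nat_lit 43) (nat_lit 5) (nat_lit 48) (nat_lit 5) (nat_lit 44) (nat_lit 5) (nat_lit 309) (nat_lit 284) (nat_lit 127)) (XT.lf (nat_lit 0) (nat_lit 11358714552) (nat_lit 228) (nat_lit 19215200344) (nat_lit 304) (nat_lit 42420247147) (nat_lit 40) (nat_lit 5) (nat_lit 43) (nat_lit 5) (nat_lit 44) (nat_lit 5) (nat_lit 310) (nat_lit 284) (nat_lit 126)))) (XT.nd (nat_lit 156) (nat_lit 228) (nat_lit 0) (XT.nd (nat_lit 78) (nat_lit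 228) (nat_lit 0) (XT.lf (nat_lit 0) (nat_lit 41288724640) (nat_lit 304) (nat_lit 29136531309) (nat_lit 76) (nat_lit 4941351849) (nat_lit 40) (nat_lit 5) (nat_lit 44) (nat_lit 5) (nat_lit 41) (nat_lit 5) (nat_lit 311) (nat_lit 284) (nat_lit 125)) (XT.lf (nat_lit 0) (nat_lit 4825343070) (nat_lit 228) (nat_lit 48103196250) (nat_lit 304) (nat_lit 24909675652) (nat_lit 37) (nat_lit 5) (nat_lit 40) (nat_lit 5) (nat_lit 41) (nat_lit 5) (nat_lit 312) (nat_lit 284) (nat_lit 124))) (XT.nd (nat_lit 78) (nat_lit 228) (nat_lit 0) (XT.lf (nat_lit 0) (nat_lit 41495463294) (nat_lit 228) (nat_lit 24147276075) (nat_lit 304) (nat_lit 14766045646) (nat_lit 37) (nat_lit 5) (nat_lit 40) (nat_lit 5) (nat_lit 41) (nat_lit 5) (nat_lit 313) (nat_lit 284) (nat_lit 123)) (XT.nd (nat_lit 78) (nat_lit 228) (nat_lit 0) (XT.lf (nat_lit 0) (nat_lit 79007360697) (nat_lit 304) (nat_lit 3125889731) (nat_lit 76) (nat_lit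 973899702) (nat_lit 37) (nat_lit 5) (nat_lit 41) (nat_lit 5) (nat_lit 38) (nat_lit 5) (nat_lit 314) (nat_lit 284) (nat_lit 122)) (XT.lf (nat_lit 0) (nat_lit 7832174814) (nat_lit 228) (nat_lit 50839842315) (nat_lit 76) (nat_lit 27214894311) (nat_lit 34) (nat_lit 5) (nat_lit 37) (nat_lit 5) (nat_lit 35) (nat_lit 5) (nat_lit 315) (nat_lit 284) (nat_lit 121)))))) (XT.nd (nat_lit 312) (nat_lit 380) (nat_lit 0) (XT.nd (nat_lit 156) (nat_lit 152) (nat_lit 0) (XT.nd (nat_lit 78) (nat_lit 228) (nat_lit 0) (XT.lf (nat_lit 0) (nat_lit 20275817526) (nat_lit 228) (nat_lit 13635220060) (nat_lit 76) (nat_lit 54888621587) (nat_lit 34) (nat_lit 5) (nat_lit 37) (nat_lit 5) (nat_lit 35) (nat_lit 5) (nat_lit 316) (nat_lit 284) (nat_lit 120)) (XT.lf (nat_lit 0) (nat_lit 26269144832) (nat_lit 228) (nat_lit 7481731331) (nat_lit 304) (nat_lit 58086708198) (nat_lit 31) (nat_lit 5) (nat_lit 34) (nat_lit 5) (nat_lit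 35) (nat_lit 5) (nat_lit 317) (nat_lit 284) (nat_lit 119))) (XT.nd (nat_lit 78) (nat_lit 152) (nat_lit 0) (XT.lf (nat_lit 0) (nat_lit 48449965429) (nat_lit 304) (nat_lit 26695274497) (nat_lit 76) (nat_lit 19854653668) (nat_lit 31) (nat_lit 5) (nat_lit 35) (nat_lit 5) (nat_lit 32) (nat_lit 5) (nat_lit 318) (nat_lit 284) (nat_lit 118)) (XT.lf (nat_lit 0) (nat_lit 14460500357) (nat_lit 152) (nat_lit 49771087706) (nat_lit 228) (nat_lit 34071352876) (nat_lit 29) (nat_lit 5) (nat_lit 31) (nat_lit 5) (nat_lit 32) (nat_lit 5) (nat_lit 319) (nat_lit 284) (nat_lit 117)))) (XT.nd (nat_lit 156) (nat_lit 380) (nat_lit 0) (XT.nd (nat_lit 78) (nat_lit 0) (nat_lit 0) (XT.lf (nat_lit 0) (nat_lit 58599659926) (nat_lit 152) (nat_lit 22653909202) (nat_lit 228) (nat_lit 20495009174) (nat_lit 29) (nat_lit 5) (nat_lit 31) (nat_lit 5) (nat_lit 32) (nat_lit 5) (nat_lit 320) (nat_lit 284) (nat_lit 116)) (XT.lf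 (nat_lit 0) (nat_lit 99216715403) (nat_lit 228) (nat_lit 512754117) (nat_lit 76) (nat_lit 5632526152) (nat_lit 29) (nat_lit 5) (nat_lit 32) (nat_lit 5) (nat_lit 30) (nat_lit 5) (nat_lit 321) (nat_lit 284) (nat_lit 115))) (XT.nd (nat_lit 78) (nat_lit 152) (nat_lit 0) (XT.lf (nat_lit 0) (nat_lit 9732467047) (nat_lit 228) (nat_lit 63925461240) (nat_lit 76) (nat_lit 35436387632) (nat_lit 26) (nat_lit 5) (nat_lit 29) (nat_lit 5) (nat_lit 27) (nat_lit 5) (nat_lit 322) (nat_lit 284) (nat_lit 114)) (XT.nd (nat_lit 78) (nat_lit 152) (nat_lit 0) (XT.lf (nat_lit 0) (nat_lit 26205661981) (nat_lit 228) (nat_lit 19962489686) (nat_lit 76) (nat_lit 66839660546) (nat_lit 26) (nat_lit 5) (nat_lit 29) (nat_lit 5) (nat_lit 27) (nat_lit 5) (nat_lit 323) (nat_lit 284) (nat_lit 113)) (XT.lf (nat_lit 0) (nat_lit 27063761132) (nat_lit 152) (nat_lit 16860587991) (nat_lit 228) (nat_lit 73171543764) (nat_lit 24)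 (nat_lit 5) (nat_lit 26) (nat_lit 5) (nat_lit 27) (nat_lit 5) (nat_lit 324) (nat_lit 284) (nat_lit 112))))))))
noncomputable def xc226 : XT := (XT.nd (nat_lit 1404) (nat_lit 152) (nat_lit 0) (XT.nd (nat_lit 702) (nat_lit 380) (nat_lit 0) (XT.nd (nat_lit 312) (nat_lit 304) (nat_lit 0) (XT.nd (nat_lit 156) (nat_lit 0) (nat_lit 0) (XT.nd (nat_lit 78) (nat_lit 152) (nat_lit 0) (XT.lf (nat_lit 0) (nat_lit 63089100793) (nat_lit 228) (nat_lit 44460941076) (nat_lit 76) (nat_lit 13810330351) (nat_lit 24) (nat_lit 5) (nat_lit 27) (nat_lit 5) (nat_lit 25) (nat_lit 5) (nat_lit 325) (nat_lit 284) (nat_lit 111)) (XT.lf (nat_lit 0) (nat_lit 3214242633) (nat_lit 152) (nat_lit 80323769742) (nat_lit 228) (nat_lit 42283768105) (nat_lit 22) (nat_lit 5) (nat_lit 24) (nat_lit 5) (nat_lit 25) (nat_lit 5) (nat_lit 326) (nat_lit 284) (nat_lit 110))) (XT.nd (nat_lit 78) (nat_lit 0) (nat_lit 0) (XT.lf (nat_lit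 0) (nat_lit 54815746511) (nat_lit 152) (nat_lit 50945942150) (nat_lit 228) (nat_lit 24706955564) (nat_lit 22) (nat_lit 5) (nat_lit 24) (nat_lit 5) (nat_lit 25) (nat_lit 5) (nat_lit 327) (nat_lit 284) (nat_lit 109)) (XT.lf (nat_lit 0) (nat_lit 108996351777) (nat_lit 152) (nat_lit 20099579435) (nat_lit 228) (nat_lit 6251951801) (nat_lit 22) (nat_lit 5) (nat_lit 24) (nat_lit 5) (nat_lit 25) (nat_lit 5) (nat_lit 328) (nat_lit 284) (nat_lit 108)))) (XT.nd (nat_lit 156) (nat_lit 152) (nat_lit 0) (XT.nd (nat_lit 78) (nat_lit 0) (nat_lit 0) (XT.lf (nat_lit 0) (nat_lit 13313579901) (nat_lit 152) (nat_lit 114599875977) (nat_lit 76) (nat_lit 12516987952) (nat_lit 20) (nat_lit 5) (nat_lit 22) (nat_lit 5) (nat_lit 21) (nat_lit 5) (nat_lit 329) (nat_lit 284) (nat_lit 107)) (XT.lf (nat_lit 0) (nat_lit 34429784669) (nat_lit 152) (nat_lit 64648447118) (nat_lit 76) (nat_lit 46644652042) (nat_lit 20)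 (nat_lit 5) (nat_lit 22) (nat_lit 5) (nat_lit 21) (nat_lit 5) (nat_lit 330) (nat_lit 284) (nat_lit 106))) (XT.nd (nat_lit 78) (nat_lit 152) (nat_lit 0) (XT.lf (nat_lit 0) (nat_lit 56601237604) (nat_lit 152) (nat_lit 12200358693) (nat_lit 76) (nat_lit 82478378438) (nat_lit 20) (nat_lit 5) (nat_lit 22) (nat_lit 5) (nat_lit 21) (nat_lit 5) (nat_lit 331) (nat_lit 284) (nat_lit 105)) (XT.nd (nat_lit 78) (nat_lit 0) (nat_lit 0) (XT.lf (nat_lit 0) (nat_lit 44286717223) (nat_lit 152) (nat_lit 36285450425) (nat_lit 228) (nat_lit 76508208083) (nat_lit 18) (nat_lit 5) (nat_lit 20) (nat_lit 5) (nat_lit 21) (nat_lit 5) (nat_lit 332) (nat_lit 284) (nat_lit 104)) (XT.lf (nat_lit 0) (nat_lit 104020861393) (nat_lit 152) (nat_lit 1926878624) (nat_lit 228) (nat_lit 57212752698) (nat_lit 18) (nat_lit 5) (nat_lit 20) (nat_lit 5) (nat_lit 21) (nat_lit 5) (nat_lit 333) (nat_lit 284) (nat_lit 103)))))) (XT.nd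 (nat_lit 312) (nat_lit 228) (nat_lit 0) (XT.nd (nat_lit 156) (nat_lit 76) (nat_lit 0) (XT.nd (nat_lit 78) (nat_lit 76) (nat_lit 0) (XT.lf (nat_lit 0) (nat_lit 133124759134) (nat_lit 228) (nat_lit 3336908518) (nat_lit 76) (nat_lit 33056315184) (nat_lit 18) (nat_lit 5) (nat_lit 21) (nat_lit 5) (nat_lit 19) (nat_lit 4) (nat_lit 334) (nat_lit 284) (nat_lit 102)) (XT.lf (nat_lit 0) (nat_lit 57049508084) (nat_lit 76) (nat_lit 105532932789) (nat_lit 152) (nat_lit 13564816670) (nat_lit 17) (nat_lit 5) (nat_lit 18) (nat_lit 5) (nat_lit 19) (nat_lit 4) (nat_lit 335) (nat_lit 284) (nat_lit 101))) (XT.nd (nat_lit 78) (nat_lit 0) (nat_lit 0) (XT.lf (nat_lit 0) (nat_lit 10128947090) (nat_lit 152) (nat_lit 62698250993) (nat_lit 76) (nat_lit 110269827848) (nat_lit 16) (nat_lit 5) (nat_lit 18) (nat_lit 5) (nat_lit 17) (nat_lit 5) (nat_lit 336) (nat_lit 284) (nat_lit 100)) (XT.lf (nat_lit 0) (nat_lit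 34551078069) (nat_lit 152) (nat_lit 3701911892) (nat_lit 76) (nat_lit 152130197357) (nat_lit 16) (nat_lit 5) (nat_lit 18) (nat_lit 5) (nat_lit 17) (nat_lit 5) (nat_lit 337) (nat_lit 284) (nat_lit 99)))) (XT.nd (nat_lit 156) (nat_lit 76) (nat_lit 0) (XT.nd (nat_lit 78) (nat_lit 0) (nat_lit 0) (XT.lf (nat_lit 0) (nat_lit 60169313932) (nat_lit 152) (nat_lit 963980726) (nat_lit 228) (nat_lit 136853413708) (nat_lit 14) (nat_lit 5) (nat_lit 16) (nat_lit 5) (nat_lit 17) (nat_lit 5) (nat_lit 338) (nat_lit 284) (nat_lit 98)) (XT.lf (nat_lit 0) (nat_lit 89704160710) (nat_lit 228) (nat_lit 79202649791) (nat_lit 76) (nat_lit 37030618551) (nat_lit 14) (nat_lit 5) (nat_lit 17) (nat_lit 5) (nat_lit 15) (nat_lit 4) (nat_lit 339) (nat_lit 284) (nat_lit 97))) (XT.nd (nat_lit 78) (nat_lit 76) (nat_lit 0) (XT.lf (nat_lit 0) (nat_lit 119718965795) (nat_lit 228) (nat_lit 17673665660) (nat_lit 76) (nat_lit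 76892285026) (nat_lit 14) (nat_lit 5) (nat_lit 17) (nat_lit 5) (nat_lit 15) (nat_lit 4) (nat_lit 340) (nat_lit 284) (nat_lit 96)) (XT.nd (nat_lit 78) (nat_lit 0) (nat_lit 0) (XT.lf (nat_lit 0) (nat_lit 48482860292) (nat_lit 76) (nat_lit 103508216324) (nat_lit 152) (nat_lit 71020873862) (nat_lit 13) (nat_lit 5) (nat_lit 14) (nat_lit 5) (nat_lit 15) (nat_lit 4) (nat_lit 341) (nat_lit 284) (nat_lit 95)) (XT.lf (nat_lit 0) (nat_lit 118560151281) (nat_lit 76) (nat_lit 67615574240) (nat_lit 152) (nat_lit 45984664473) (nat_lit 13) (nat_lit 5) (nat_lit 14) (nat_lit 5) (nat_lit 15) (nat_lit 4) (nat_lit 342) (nat_lit 284) (nat_lit 94))))))) (XT.nd (nat_lit 33462) (nat_lit 0) (nat_lit 4028) (XT.nd (nat_lit 33072) (nat_lit 0) (nat_lit 4864) (XT.nd (nat_lit 156) (nat_lit 0) (nat_lit 0) (XT.nd (nat_lit 78) (nat_lit 152) (nat_lit 0) (XT.lf (nat_lit 0) (nat_lit 192140686798) (nat_lit 76) (nat_lit 29928558612)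 (nat_lit 152) (nat_lit 19697024577) (nat_lit 13) (nat_lit 5) (nat_lit 14) (nat_lit 5) (nat_lit 15) (nat_lit 4) (nat_lit 343) (nat_lit 284) (nat_lit 93)) (XT.lf (nat_lit 0) (nat_lit 8089844120) (nat_lit 152) (nat_lit 233989524645) (nat_lit 76) (nat_lit 9745011840) (nat_lit 11) (nat_lit 5) (nat_lit 13) (nat_lit 5) (nat_lit 12) (nat_lit 4) (nat_lit 344) (nat_lit 284) (nat_lit 92))) (XT.nd (nat_lit 32838) (nat_lit 0) (nat_lit 4864) (XT.lf (nat_lit 0) (nat_lit 37948603269) (nat_lit 152) (nat_lit 172780087936) (nat_lit 76) (nat_lit 51573336003) (nat_lit 11) (nat_lit 5) (nat_lit 13) (nat_lit 5) (nat_lit 12) (nat_lit 4) (nat_lit 345) (nat_lit 284) (nat_lit 91)) (XT.lf (nat_lit 0) (nat_lit 4997204591) (nat_lit 0) (nat_lit 4997204591) (nat_lit 684) (nat_lit 8443367427) (nat_lit 75) (nat_lit 5) (nat_lit 75) (nat_lit 3) (nat_lit 84) (nat_lit 3) (nat_lit 285) (nat_lit 285) (nat_lit 150)))) (XT.nd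 (nat_lit 156) (nat_lit 0) (nat_lit 76) (XT.nd (nat_lit 78) (nat_lit 0) (nat_lit 0) (XT.lf (nat_lit 0) (nat_lit 20632131682) (nat_lit 684) (nat_lit 11005297262) (nat_lit 760) (nat_lit 6152702720) (nat_lit 75) (nat_lit 5) (nat_lit 84) (nat_lit 3) (nat_lit 85) (nat_lit 5) (nat_lit 286) (nat_lit 285) (nat_lit 149)) (XT.lf (nat_lit 76) (nat_lit 5680725615) (nat_lit 0) (nat_lit 15876602712) (nat_lit 760) (nat_lit 17180633186) (nat_lit 76) (nat_lit 5) (nat_lit 75) (nat_lit 5) (nat_lit 85) (nat_lit 5) (nat_lit 287) (nat_lit 285) (nat_lit 148))) (XT.nd (nat_lit 78) (nat_lit 0) (nat_lit 0) (XT.lf (nat_lit 0) (nat_lit 22726026541) (nat_lit 684) (nat_lit 16156014133) (nat_lit 760) (nat_lit 841288066) (nat_lit 76) (nat_lit 5) (nat_lit 85) (nat_lit 5) (nat_lit 86) (nat_lit 5) (nat_lit 288) (nat_lit 285) (nat_lit 147)) (XT.nd (nat_lit 78) (nat_lit 0) (nat_lit 0) (XT.lf (nat_lit 76) (nat_lit 1372272464)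 (nat_lit 0) (nat_lit 22860022825) (nat_lit 760) (nat_lit 16511719848) (nat_lit 77) (nat_lit 5) (nat_lit 76) (nat_lit 5) (nat_lit 86) (nat_lit 5) (nat_lit 289) (nat_lit 285) (nat_lit 146)) (XT.lf (nat_lit 76) (nat_lit 20336254890) (nat_lit 0) (nat_lit 5748767638) (nat_lit 760) (nat_lit 15717163304) (nat_lit 77) (nat_lit 5) (nat_lit 76) (nat_lit 5) (nat_lit 86) (nat_lit 5) (nat_lit 290) (nat_lit 285) (nat_lit 145)))))) (XT.nd (nat_lit 312) (nat_lit 988) (nat_lit 0) (XT.nd (nat_lit 156) (nat_lit 0) (nat_lit 76) (XT.nd (nat_lit 78) (nat_lit 0) (nat_lit 0) (XT.lf (nat_lit 0) (nat_lit 28218809226) (nat_lit 684) (nat_lit 2857265215) (nat_lit 760) (nat_lit 11827776351) (nat_lit 77) (nat_lit 5) (nat_lit 86) (nat_lit 5) (nat_lit 87) (nat_lit 5) (nat_lit 291) (nat_lit 285) (nat_lit 144)) (XT.lf (nat_lit 76) (nat_lit 17134400888) (nat_lit 0) (nat_lit 13684418755) (nat_lit 760) (nat_lit 13223809196)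 (nat_lit 78) (nat_lit 5) (nat_lit 77) (nat_lit 5) (nat_lit 87) (nat_lit 5) (nat_lit 292) (nat_lit 285) (nat_lit 143))) (XT.nd (nat_lit 78) (nat_lit 0) (nat_lit 0) (XT.lf (nat_lit 0) (nat_lit 33667336502) (nat_lit 684) (nat_lit 7085023607) (nat_lit 760) (nat_lit 4480066629) (nat_lit 78) (nat_lit 5) (nat_lit 87) (nat_lit 5) (nat_lit 88) (nat_lit 5) (nat_lit 293) (nat_lit 285) (nat_lit 142)) (XT.lf (nat_lit 76) (nat_lit 13949874934) (nat_lit 0) (nat_lit 23148503741) (nat_lit 760) (nat_lit 9361336829) (nat_lit 79) (nat_lit 5) (nat_lit 78) (nat_lit 5) (nat_lit 88) (nat_lit 5) (nat_lit 294) (nat_lit 285) (nat_lit 141)))) (XT.nd (nat_lit 156) (nat_lit 456) (nat_lit 0) (XT.nd (nat_lit 78) (nat_lit 608) (nat_lit 0) (XT.lf (nat_lit 76) (nat_lit 36280906060) (nat_lit 0) (nat_lit 4538095259) (nat_lit 760) (nat_lit 6923471639) (nat_lit 79) (nat_lit 5) (nat_lit 78) (nat_lit 5) (nat_lit 88) (nat_lit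 5) (nat_lit 295) (nat_lit 285) (nat_lit 140)) (XT.lf (nat_lit 0) (nat_lit 10747246196) (nat_lit 684) (nat_lit 34378578720) (nat_lit 760) (nat_lit 3943540271) (nat_lit 70) (nat_lit 5) (nat_lit 79) (nat_lit 5) (nat_lit 80) (nat_lit 5) (nat_lit 296) (nat_lit 285) (nat_lit 139))) (XT.nd (nat_lit 78) (nat_lit 456) (nat_lit 0) (XT.lf (nat_lit 0) (nat_lit 34385973930) (nat_lit 684) (nat_lit 15527520727) (nat_lit 760) (nat_lit 535837260) (nat_lit 70) (nat_lit 5) (nat_lit 79) (nat_lit 5) (nat_lit 80) (nat_lit 5) (nat_lit 297) (nat_lit 285) (nat_lit 138)) (XT.nd (nat_lit 78) (nat_lit 0) (nat_lit 0) (XT.lf (nat_lit 0) (nat_lit 3129526597) (nat_lit 456) (nat_lit 44460176414) (nat_lit 76) (nat_lit 4296991395) (nat_lit 64) (nat_lit 5) (nat_lit 70) (nat_lit 5) (nat_lit 65) (nat_lit 5) (nat_lit 298) (nat_lit 285) (nat_lit 137)) (XT.lf (nat_lit 0) (nat_lit 7489517359) (nat_lit 456) (nat_lit 21003187962)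 (nat_lit 76) (nat_lit 24876316606) (nat_lit 64) (nat_lit 5) (nat_lit 70) (nat_lit 5) (nat_lit 65) (nat_lit 5) (nat_lit 299) (nat_lit 285) (nat_lit 136))))))))
noncomputable def xc227 : XT := (XT.nd (nat_lit 1404) (nat_lit 1292) (nat_lit 0) (XT.nd (nat_lit 702) (nat_lit 988) (nat_lit 0) (XT.nd (nat_lit 312) (nat_lit 608) (nat_lit 0) (XT.nd (nat_lit 156) (nat_lit 304) (nat_lit 0) (XT.nd (nat_lit 78) (nat_lit 0) (nat_lit 0) (XT.lf (nat_lit 0) (nat_lit 3744946984) (nat_lit 380) (nat_lit 8379426375) (nat_lit 456) (nat_lit 42798253409) (nat_lit 59) (nat_lit 5) (nat_lit 64) (nat_lit 5) (nat_lit 65) (nat_lit 5) (nat_lit 300) (nat_lit 285) (nat_lit 135)) (XT.lf (nat_lit 0) (nat_lit 17549851085) (nat_lit 456) (nat_lit 26282806790) (nat_lit 76) (nat_lit 12693314055) (nat_lit 59) (nat_lit 5) (nat_lit 65) (nat_lit 5) (nat_lit 60) (nat_lit 5) (nat_lit 301) (nat_lit 285) (nat_lit 134))) (XT.nd (nat_lit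 78) (nat_lit 304) (nat_lit 0) (XT.lf (nat_lit 0) (nat_lit 23382493281) (nat_lit 456) (nat_lit 282101739) (nat_lit 76) (nat_lit 34538098636) (nat_lit 59) (nat_lit 5) (nat_lit 65) (nat_lit 5) (nat_lit 60) (nat_lit 5) (nat_lit 302) (nat_lit 285) (nat_lit 133)) (XT.lf (nat_lit 0) (nat_lit 27910477728) (nat_lit 304) (nat_lit 2030643908) (nat_lit 380) (nat_lit 30000415779) (nat_lit 55) (nat_lit 5) (nat_lit 59) (nat_lit 5) (nat_lit 60) (nat_lit 5) (nat_lit 303) (nat_lit 285) (nat_lit 132)))) (XT.nd (nat_lit 156) (nat_lit 304) (nat_lit 0) (XT.nd (nat_lit 78) (nat_lit 304) (nat_lit 0) (XT.lf (nat_lit 0) (nat_lit 37154124510) (nat_lit 380) (nat_lit 4569150584) (nat_lit 76) (nat_lit 20027729592) (nat_lit 55) (nat_lit 5) (nat_lit 60) (nat_lit 5) (nat_lit 56) (nat_lit 5) (nat_lit 304) (nat_lit 285) (nat_lit 131)) (XT.lf (nat_lit 0) (nat_lit 25032310238) (nat_lit 304) (nat_lit 20118282341) (nat_lit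 380) (nat_lit 18479215301) (nat_lit 51) (nat_lit 5) (nat_lit 55) (nat_lit 5) (nat_lit 56) (nat_lit 5) (nat_lit 305) (nat_lit 285) (nat_lit 130))) (XT.nd (nat_lit 78) (nat_lit 304) (nat_lit 0) (XT.lf (nat_lit 0) (nat_lit 53664349213) (nat_lit 380) (nat_lit 9369038499) (nat_lit 76) (nat_lit 2563293418) (nat_lit 51) (nat_lit 5) (nat_lit 56) (nat_lit 5) (nat_lit 52) (nat_lit 5) (nat_lit 306) (nat_lit 285) (nat_lit 129)) (XT.nd (nat_lit 78) (nat_lit 76) (nat_lit 0) (XT.lf (nat_lit 0) (nat_lit 21683633064) (nat_lit 228) (nat_lit 41587309284) (nat_lit 304) (nat_lit 4357601265) (nat_lit 48) (nat_lit 5) (nat_lit 51) (nat_lit 5) (nat_lit 52) (nat_lit 5) (nat_lit 307) (nat_lit 285) (nat_lit 128)) (XT.lf (nat_lit 0) (nat_lit 3640858176) (nat_lit 304) (nat_lit 15200031867) (nat_lit 76) (nat_lit 50910300704) (nat_lit 47) (nat_lit 5) (nat_lit 51) (nat_lit 5) (nat_lit 48) (nat_lit 5) (nat_lit 308)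 (nat_lit 285) (nat_lit 127)))))) (XT.nd (nat_lit 312) (nat_lit 456) (nat_lit 0) (XT.nd (nat_lit 156) (nat_lit 228) (nat_lit 0) (XT.nd (nat_lit 78) (nat_lit 0) (nat_lit 0) (XT.lf (nat_lit 0) (nat_lit 12250406535) (nat_lit 380) (nat_lit 54475444960) (nat_lit 76) (nat_lit 5232669037) (nat_lit 43) (nat_lit 5) (nat_lit 48) (nat_lit 5) (nat_lit 44) (nat_lit 5) (nat_lit 309) (nat_lit 285) (nat_lit 126)) (XT.lf (nat_lit 0) (nat_lit 21859836990) (nat_lit 380) (nat_lit 22249780478) (nat_lit 76) (nat_lit 30138131576) (nat_lit 43) (nat_lit 5) (nat_lit 48) (nat_lit 5) (nat_lit 44) (nat_lit 5) (nat_lit 310) (nat_lit 285) (nat_lit 125))) (XT.nd (nat_lit 78) (nat_lit 0) (nat_lit 0) (XT.lf (nat_lit 0) (nat_lit 11968917049) (nat_lit 228) (nat_lit 20166640481) (nat_lit 304) (nat_lit 44506592876) (nat_lit 40) (nat_lit 5) (nat_lit 43) (nat_lit 5) (nat_lit 44) (nat_lit 5) (nat_lit 311) (nat_lit 285) (nat_lit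 124)) (XT.lf (nat_lit 0) (nat_lit 43384677442) (nat_lit 304) (nat_lit 30551604542) (nat_lit 76) (nat_lit 5197011428) (nat_lit 40) (nat_lit 5) (nat_lit 44) (nat_lit 5) (nat_lit 41) (nat_lit 5) (nat_lit 312) (nat_lit 285) (nat_lit 123)))) (XT.nd (nat_lit 156) (nat_lit 228) (nat_lit 0) (XT.nd (nat_lit 78) (nat_lit 0) (nat_lit 0) (XT.lf (nat_lit 0) (nat_lit 5107690115) (nat_lit 228) (nat_lit 50497933325) (nat_lit 304) (nat_lit 26122903760) (nat_lit 37) (nat_lit 5) (nat_lit 40) (nat_lit 5) (nat_lit 41) (nat_lit 5) (nat_lit 313) (nat_lit 285) (nat_lit 122)) (XT.lf (nat_lit 0) (nat_lit 43609360165) (nat_lit 228) (nat_lit 25344713461) (nat_lit 304) (nat_lit 15473628238) (nat_lit 37) (nat_lit 5) (nat_lit 40) (nat_lit 5) (nat_lit 41) (nat_lit 5) (nat_lit 314) (nat_lit 285) (nat_lit 121))) (XT.nd (nat_lit 78) (nat_lit 228) (nat_lit 0) (XT.lf (nat_lit 0) (nat_lit 82985683273) (nat_lit 304) (nat_lit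 3243621238) (nat_lit 76) (nat_lit 1031745840) (nat_lit 37) (nat_lit 5) (nat_lit 41) (nat_lit 5) (nat_lit 38) (nat_lit 5) (nat_lit 315) (nat_lit 285) (nat_lit 120)) (XT.nd (nat_lit 78) (nat_lit 0) (nat_lit 0) (XT.lf (nat_lit 0) (nat_lit 8251500360) (nat_lit 228) (nat_lit 53342922970) (nat_lit 76) (nat_lit 28585393820) (nat_lit 34) (nat_lit 5) (nat_lit 37) (nat_lit 5) (nat_lit 35) (nat_lit 5) (nat_lit 316) (nat_lit 285) (nat_lit 119)) (XT.lf (nat_lit 0) (nat_lit 21316005360) (nat_lit 228) (nat_lit 14279922530) (nat_lit 76) (nat_lit 57642342946) (nat_lit 34) (nat_lit 5) (nat_lit 37) (nat_lit 5) (nat_lit 35) (nat_lit 5) (nat_lit 317) (nat_lit 285) (nat_lit 118))))))) (XT.nd (nat_lit 702) (nat_lit 532) (nat_lit 0) (XT.nd (nat_lit 312) (nat_lit 380) (nat_lit 0) (XT.nd (nat_lit 156) (nat_lit 152) (nat_lit 0) (XT.nd (nat_lit 78) (nat_lit 0) (nat_lit 0) (XT.lf (nat_lit 0) (nat_lit 27619062889)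 (nat_lit 228) (nat_lit 7845066297) (nat_lit 304) (nat_lit 60963999933) (nat_lit 31) (nat_lit 5) (nat_lit 34) (nat_lit 5) (nat_lit 35) (nat_lit 5) (nat_lit 318) (nat_lit 285) (nat_lit 117)) (XT.lf (nat_lit 0) (nat_lit 50897108536) (nat_lit 304) (nat_lit 27994202591) (nat_lit 76) (nat_lit 20857298240) (nat_lit 31) (nat_lit 5) (nat_lit 35) (nat_lit 5) (nat_lit 32) (nat_lit 5) (nat_lit 319) (nat_lit 285) (nat_lit 116))) (XT.nd (nat_lit 78) (nat_lit 0) (nat_lit 0) (XT.lf (nat_lit 0) (nat_lit 15218783012) (nat_lit 152) (nat_lit 52248406197) (nat_lit 228) (nat_lit 35749653246) (nat_lit 29) (nat_lit 5) (nat_lit 31) (nat_lit 5) (nat_lit 32) (nat_lit 5) (nat_lit 320) (nat_lit 285) (nat_lit 115)) (XT.lf (nat_lit 0) (nat_lit 61563221624) (nat_lit 152) (nat_lit 23775903810) (nat_lit 228) (nat_lit 21495695563) (nat_lit 29) (nat_lit 5) (nat_lit 31) (nat_lit 5) (nat_lit 32) (nat_lit 5) (nat_lit 321)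 (nat_lit 285) (nat_lit 114)))) (XT.nd (nat_lit 156) (nat_lit 152) (nat_lit 0) (XT.nd (nat_lit 78) (nat_lit 228) (nat_lit 0) (XT.lf (nat_lit 0) (nat_lit 104199498716) (nat_lit 228) (nat_lit 505441488) (nat_lit 76) (nat_lit 5924017562) (nat_lit 29) (nat_lit 5) (nat_lit 32) (nat_lit 5) (nat_lit 30) (nat_lit 5) (nat_lit 322) (nat_lit 285) (nat_lit 113)) (XT.lf (nat_lit 0) (nat_lit 10240887094) (nat_lit 228) (nat_lit 67088558163) (nat_lit 76) (nat_lit 37218460058) (nat_lit 26) (nat_lit 5) (nat_lit 29) (nat_lit 5) (nat_lit 27) (nat_lit 5) (nat_lit 323) (nat_lit 285) (nat_lit 112))) (XT.nd (nat_lit 78) (nat_lit 152) (nat_lit 0) (XT.lf (nat_lit 0) (nat_lit 27536703837) (nat_lit 228) (nat_lit 20929017848) (nat_lit 76) (nat_lit 70191408378) (nat_lit 26) (nat_lit 5) (nat_lit 29) (nat_lit 5) (nat_lit 27) (nat_lit 5) (nat_lit 324) (nat_lit 285) (nat_lit 111)) (XT.nd (nat_lit 78) (nat_lit 0) (nat_lit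 0) (XT.lf (nat_lit 0) (nat_lit 28448035894) (nat_lit 152) (nat_lit 17692786282) (nat_lit 228) (nat_lit 76808819413) (nat_lit 24) (nat_lit 5) (nat_lit 26) (nat_lit 5) (nat_lit 27) (nat_lit 5) (nat_lit 325) (nat_lit 285) (nat_lit 110)) (XT.lf (nat_lit 0) (nat_lit 66263007927) (nat_lit 228) (nat_lit 46653546659) (nat_lit 76) (nat_lit 14510832055) (nat_lit 24) (nat_lit 5) (nat_lit 27) (nat_lit 5) (nat_lit 25) (nat_lit 5) (nat_lit 326) (nat_lit 285) (nat_lit 109)))))) (XT.nd (nat_lit 390) (nat_lit 228) (nat_lit 0) (XT.nd (nat_lit 156) (nat_lit 152) (nat_lit 0) (XT.nd (nat_lit 78) (nat_lit 0) (nat_lit 0) (XT.lf (nat_lit 0) (nat_lit 3404905245) (nat_lit 152) (nat_lit 84329001165) (nat_lit 228) (nat_lit 44377983343) (nat_lit 22) (nat_lit 5) (nat_lit 24) (nat_lit 5) (nat_lit 25) (nat_lit 5) (nat_lit 327) (nat_lit 285) (nat_lit 108)) (XT.lf (nat_lit 0) (nat_lit 57585058103) (nat_lit 152) (nat_lit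 53482803959) (nat_lit 228) (nat_lit 25923281278) (nat_lit 22) (nat_lit 5) (nat_lit 24) (nat_lit 5) (nat_lit 25) (nat_lit 5) (nat_lit 328) (nat_lit 285) (nat_lit 107))) (XT.nd (nat_lit 78) (nat_lit 152) (nat_lit 0) (XT.lf (nat_lit 0) (nat_lit 114473335334) (nat_lit 152) (nat_lit 21094620027) (nat_lit 228) (nat_lit 6546433139) (nat_lit 22) (nat_lit 5) (nat_lit 24) (nat_lit 5) (nat_lit 25) (nat_lit 5) (nat_lit 329) (nat_lit 285) (nat_lit 106)) (XT.nd (nat_lit 78) (nat_lit 0) (nat_lit 0) (XT.lf (nat_lit 0) (nat_lit 13996546035) (nat_lit 152) (nat_lit 120301823963) (nat_lit 76) (nat_lit 13152706919) (nat_lit 20) (nat_lit 5) (nat_lit 22) (nat_lit 5) (nat_lit 21) (nat_lit 5) (nat_lit 330) (nat_lit 285) (nat_lit 105)) (XT.lf (nat_lit 0) (nat_lit 36167737845) (nat_lit 152) (nat_lit 67854159175) (nat_lit 76) (nat_lit 48986284234) (nat_lit 20) (nat_lit 5) (nat_lit 22) (nat_lit 5) (nat_lit 21)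 (nat_lit 5) (nat_lit 331) (nat_lit 285) (nat_lit 104))))) (XT.nd (nat_lit 156) (nat_lit 76) (nat_lit 0) (XT.nd (nat_lit 78) (nat_lit 152) (nat_lit 0) (XT.lf (nat_lit 0) (nat_lit 59446979430) (nat_lit 152) (nat_lit 12784938248) (nat_lit 76) (nat_lit 86611249350) (nat_lit 20) (nat_lit 5) (nat_lit 22) (nat_lit 5) (nat_lit 21) (nat_lit 5) (nat_lit 332) (nat_lit 285) (nat_lit 103)) (XT.lf (nat_lit 0) (nat_lit 46526081168) (nat_lit 152) (nat_lit 38090018903) (nat_lit 228) (nat_lit 80317506867) (nat_lit 18) (nat_lit 5) (nat_lit 20) (nat_lit 5) (nat_lit 21) (nat_lit 5) (nat_lit 333) (nat_lit 285) (nat_lit 102))) (XT.nd (nat_lit 78) (nat_lit 76) (nat_lit 0) (XT.lf (nat_lit 0) (nat_lit 109245740732) (nat_lit 152) (nat_lit 2013980609) (nat_lit 228) (nat_lit 60058045933) (nat_lit 18) (nat_lit 5) (nat_lit 20) (nat_lit 5) (nat_lit 21) (nat_lit 5) (nat_lit 334) (nat_lit 285) (nat_lit 101)) (XT.nd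 (nat_lit 78) (nat_lit 76) (nat_lit 0) (XT.lf (nat_lit 0) (nat_lit 139795033868) (nat_lit 228) (nat_lit 3480475798) (nat_lit 76) (nat_lit 34717651083) (nat_lit 18) (nat_lit 5) (nat_lit 21) (nat_lit 5) (nat_lit 19) (nat_lit 4) (nat_lit 335) (nat_lit 285) (nat_lit 100)) (XT.lf (nat_lit 0) (nat_lit 59924886181) (nat_lit 76) (nat_lit 110800402671) (nat_lit 152) (nat_lit 14228626805) (nat_lit 17) (nat_lit 5) (nat_lit 18) (nat_lit 5) (nat_lit 19) (nat_lit 4) (nat_lit 336) (nat_lit 285) (nat_lit 99))))))))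
noncomputable def xc228 : XT := (XT.nd (nat_lit 34242) (nat_lit 0) (nat_lit 2204) (XT.nd (nat_lit 33540) (nat_lit 0) (nat_lit 4864) (XT.nd (nat_lit 312) (nat_lit 228) (nat_lit 0) (XT.nd (nat_lit 156) (nat_lit 152) (nat_lit 0) (XT.nd (nat_lit 78) (nat_lit 0) (nat_lit 0) (XT.lf (nat_lit 0) (nat_lit 10648698089) (nat_lit 152) (nat_lit 65810894826) (nat_lit 76) (nat_lit 115791602381) (nat_lit 16) (nat_lit 5) (nat_lit 18) (nat_lit 5) (nat_lit 17) (nat_lit 5) (nat_lit 337) (nat_lit 285) (nat_lit 98)) (XT.lf (nat_lit 0) (nat_lit 36291302109) (nat_lit 152) (nat_lit 3865799185) (nat_lit 76) (nat_lit 159744595930) (nat_lit 16) (nat_lit 5) (nat_lit 18) (nat_lit 5) (nat_lit 17) (nat_lit 5) (nat_lit 338) (nat_lit 285) (nat_lit 97))) (XT.nd (nat_lit 78) (nat_lit 0) (nat_lit 0) (XT.lf (nat_lit 0) (nat_lit 63198645860) (nat_lit 152) (nat_lit 1003706108) (nat_lit 228) (nat_lit 143683056994) (nat_lit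 14) (nat_lit 5) (nat_lit 16) (nat_lit 5) (nat_lit 17) (nat_lit 5) (nat_lit 339) (nat_lit 285) (nat_lit 96)) (XT.lf (nat_lit 0) (nat_lit 94201297198) (nat_lit 228) (nat_lit 83142431084) (nat_lit 76) (nat_lit 38889961331) (nat_lit 14) (nat_lit 5) (nat_lit 17) (nat_lit 5) (nat_lit 15) (nat_lit 4) (nat_lit 340) (nat_lit 285) (nat_lit 95)))) (XT.nd (nat_lit 156) (nat_lit 152) (nat_lit 0) (XT.nd (nat_lit 78) (nat_lit 76) (nat_lit 0) (XT.lf (nat_lit 0) (nat_lit 125716274515) (nat_lit 228) (nat_lit 18537966850) (nat_lit 76) (nat_lit 80744339137) (nat_lit 14) (nat_lit 5) (nat_lit 17) (nat_lit 5) (nat_lit 15) (nat_lit 4) (nat_lit 341) (nat_lit 285) (nat_lit 94)) (XT.lf (nat_lit 0) (nat_lit 50926072784) (nat_lit 76) (nat_lit 108675674848) (nat_lit 152) (nat_lit 74560231385) (nat_lit 13) (nat_lit 5) (nat_lit 14) (nat_lit 5) (nat_lit 15) (nat_lit 4) (nat_lit 342) (nat_lit 285) (nat_lit 93))) (XT.nd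 (nat_lit 78) (nat_lit 152) (nat_lit 0) (XT.lf (nat_lit 0) (nat_lit 124506320253) (nat_lit 76) (nat_lit 70988779341) (nat_lit 152) (nat_lit 48272768011) (nat_lit 13) (nat_lit 5) (nat_lit 14) (nat_lit 5) (nat_lit 15) (nat_lit 4) (nat_lit 343) (nat_lit 285) (nat_lit 92)) (XT.nd (nat_lit 78) (nat_lit 152) (nat_lit 0) (XT.lf (nat_lit 0) (nat_lit 201765017716) (nat_lit 76) (nat_lit 31417773579) (nat_lit 152) (nat_lit 20671276106) (nat_lit 13) (nat_lit 5) (nat_lit 14) (nat_lit 5) (nat_lit 15) (nat_lit 4) (nat_lit 344) (nat_lit 285) (nat_lit 91)) (XT.lf (nat_lit 0) (nat_lit 8504493534) (nat_lit 152) (nat_lit 245671239672) (nat_lit 76) (nat_lit 10239347770) (nat_lit 11) (nat_lit 5) (nat_lit 13) (nat_lit 5) (nat_lit 12) (nat_lit 4) (nat_lit 345) (nat_lit 285) (nat_lit 90)))))) (XT.nd (nat_lit 312) (nat_lit 0) (nat_lit 76) (XT.nd (nat_lit 156) (nat_lit 0) (nat_lit 0) (XT.nd (nat_lit 78) (nat_lit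 0) (nat_lit 0) (XT.lf (nat_lit 0) (nat_lit 5268896420) (nat_lit 0) (nat_lit 5268896420) (nat_lit 684) (nat_lit 8819560736) (nat_lit 75) (nat_lit 5) (nat_lit 75) (nat_lit 3) (nat_lit 84) (nat_lit 3) (nat_lit 286) (nat_lit 286) (nat_lit 148)) (XT.lf (nat_lit 0) (nat_lit 21746257019) (nat_lit 684) (nat_lit 11508925333) (nat_lit 760) (nat_lit 6420084805) (nat_lit 75) (nat_lit 5) (nat_lit 84) (nat_lit 3) (nat_lit 85) (nat_lit 5) (nat_lit 287) (nat_lit 286) (nat_lit 147))) (XT.nd (nat_lit 78) (nat_lit 0) (nat_lit 76) (XT.lf (nat_lit 76) (nat_lit 6010646482) (nat_lit 0) (nat_lit 16703853937) (nat_lit 760) (nat_lit 17956160408) (nat_lit 76) (nat_lit 5) (nat_lit 75) (nat_lit 5) (nat_lit 85) (nat_lit 5) (nat_lit 288) (nat_lit 286) (nat_lit 146)) (XT.lf (nat_lit 0) (nat_lit 23937360134) (nat_lit 684) (nat_lit 16915619463) (nat_lit 760) (nat_lit 852541607) (nat_lit 76) (nat_lit 5) (nat_lit 85)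 (nat_lit 5) (nat_lit 86) (nat_lit 5) (nat_lit 289) (nat_lit 286) (nat_lit 145)))) (XT.nd (nat_lit 156) (nat_lit 0) (nat_lit 76) (XT.nd (nat_lit 78) (nat_lit 0) (nat_lit 0) (XT.lf (nat_lit 76) (nat_lit 1488304119) (nat_lit 0) (nat_lit 24027805564) (nat_lit 760) (nat_lit 17261284458) (nat_lit 77) (nat_lit 5) (nat_lit 76) (nat_lit 5) (nat_lit 86) (nat_lit 5) (nat_lit 290) (nat_lit 286) (nat_lit 144)) (XT.lf (nat_lit 76) (nat_lit 21398227665) (nat_lit 0) (nat_lit 6059807541) (nat_lit 760) (nat_lit 16430620153) (nat_lit 77) (nat_lit 5) (nat_lit 76) (nat_lit 5) (nat_lit 86) (nat_lit 5) (nat_lit 291) (nat_lit 286) (nat_lit 143))) (XT.nd (nat_lit 78) (nat_lit 0) (nat_lit 0) (XT.lf (nat_lit 0) (nat_lit 29694885940) (nat_lit 684) (nat_lit 2953301542) (nat_lit 760) (nat_lit 12397406954) (nat_lit 77) (nat_lit 5) (nat_lit 86) (nat_lit 5) (nat_lit 87) (nat_lit 5) (nat_lit 292) (nat_lit 286) (nat_lit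 142)) (XT.nd (nat_lit 78) (nat_lit 0) (nat_lit 76) (XT.lf (nat_lit 76) (nat_lit 18037192594) (nat_lit 0) (nat_lit 14385321866) (nat_lit 760) (nat_lit 13818925193) (nat_lit 78) (nat_lit 5) (nat_lit 77) (nat_lit 5) (nat_lit 87) (nat_lit 5) (nat_lit 293) (nat_lit 286) (nat_lit 141)) (XT.lf (nat_lit 0) (nat_lit 35410220830) (nat_lit 684) (nat_lit 7391986459) (nat_lit 760) (nat_lit 4688690685) (nat_lit 78) (nat_lit 5) (nat_lit 87) (nat_lit 5) (nat_lit 88) (nat_lit 5) (nat_lit 294) (nat_lit 286) (nat_lit 140))))))) (XT.nd (nat_lit 702) (nat_lit 1444) (nat_lit 0) (XT.nd (nat_lit 312) (nat_lit 836) (nat_lit 0) (XT.nd (nat_lit 156) (nat_lit 608) (nat_lit 0) (XT.nd (nat_lit 78) (nat_lit 0) (nat_lit 0) (XT.lf (nat_lit 76) (nat_lit 14693894294) (nat_lit 0) (nat_lit 24316813047) (nat_lit 760) (nat_lit 9768957524) (nat_lit 79) (nat_lit 5) (nat_lit 78) (nat_lit 5) (nat_lit 88) (nat_lit 5) (nat_lit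 295) (nat_lit 286) (nat_lit 139)) (XT.lf (nat_lit 76) (nat_lit 38139261471) (nat_lit 0) (nat_lit 4775365849) (nat_lit 760) (nat_lit 7212077462) (nat_lit 79) (nat_lit 5) (nat_lit 78) (nat_lit 5) (nat_lit 88) (nat_lit 5) (nat_lit 296) (nat_lit 286) (nat_lit 138))) (XT.nd (nat_lit 78) (nat_lit 0) (nat_lit 0) (XT.lf (nat_lit 0) (nat_lit 11331208345) (nat_lit 684) (nat_lit 36103553557) (nat_lit 760) (nat_lit 4085288755) (nat_lit 70) (nat_lit 5) (nat_lit 79) (nat_lit 5) (nat_lit 80) (nat_lit 5) (nat_lit 297) (nat_lit 286) (nat_lit 137)) (XT.lf (nat_lit 0) (nat_lit 36149653426) (nat_lit 684) (nat_lit 16309654764) (nat_lit 760) (nat_lit 509840048) (nat_lit 70) (nat_lit 5) (nat_lit 79) (nat_lit 5) (nat_lit 80) (nat_lit 5) (nat_lit 298) (nat_lit 286) (nat_lit 136)))) (XT.nd (nat_lit 156) (nat_lit 380) (nat_lit 0) (XT.nd (nat_lit 78) (nat_lit 0) (nat_lit 0) (XT.lf (nat_lit 0) (nat_lit 3335317782)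 (nat_lit 456) (nat_lit 46635063695) (nat_lit 76) (nat_lit 4508051896) (nat_lit 64) (nat_lit 5) (nat_lit 70) (nat_lit 5) (nat_lit 65) (nat_lit 5) (nat_lit 299) (nat_lit 286) (nat_lit 135)) (XT.lf (nat_lit 0) (nat_lit 7910959756) (nat_lit 456) (nat_lit 22007517323) (nat_lit 76) (nat_lit 26116523800) (nat_lit 64) (nat_lit 5) (nat_lit 70) (nat_lit 5) (nat_lit 65) (nat_lit 5) (nat_lit 300) (nat_lit 286) (nat_lit 134))) (XT.nd (nat_lit 78) (nat_lit 0) (nat_lit 0) (XT.lf (nat_lit 0) (nat_lit 3977285177) (nat_lit 380) (nat_lit 8798740873) (nat_lit 456) (nat_lit 44890342433) (nat_lit 59) (nat_lit 5) (nat_lit 64) (nat_lit 5) (nat_lit 65) (nat_lit 5) (nat_lit 301) (nat_lit 286) (nat_lit 133)) (XT.nd (nat_lit 78) (nat_lit 0) (nat_lit 0) (XT.lf (nat_lit 0) (nat_lit 18470609034) (nat_lit 456) (nat_lit 27551722534) (nat_lit 76) (nat_lit 13327663382) (nat_lit 59) (nat_lit 5) (nat_lit 65) (nat_lit 5)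 (nat_lit 60) (nat_lit 5) (nat_lit 302) (nat_lit 286) (nat_lit 132)) (XT.lf (nat_lit 0) (nat_lit 24592823082) (nat_lit 456) (nat_lit 253135783) (nat_lit 76) (nat_lit 36264702257) (nat_lit 59) (nat_lit 5) (nat_lit 65) (nat_lit 5) (nat_lit 60) (nat_lit 5) (nat_lit 303) (nat_lit 286) (nat_lit 131)))))) (XT.nd (nat_lit 312) (nat_lit 836) (nat_lit 0) (XT.nd (nat_lit 156) (nat_lit 304) (nat_lit 0) (XT.nd (nat_lit 78) (nat_lit 0) (nat_lit 0) (XT.lf (nat_lit 0) (nat_lit 29348377963) (nat_lit 304) (nat_lit 2129704356) (nat_lit 380) (nat_lit 31458434871) (nat_lit 55) (nat_lit 5) (nat_lit 59) (nat_lit 5) (nat_lit 60) (nat_lit 5) (nat_lit 304) (nat_lit 286) (nat_lit 130)) (XT.lf (nat_lit 0) (nat_lit 39049871871) (nat_lit 380) (nat_lit 4755289205) (nat_lit 76) (nat_lit 21031394773) (nat_lit 55) (nat_lit 5) (nat_lit 60) (nat_lit 5) (nat_lit 56) (nat_lit 5) (nat_lit 305) (nat_lit 286) (nat_lit 129)))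 (XT.nd (nat_lit 78) (nat_lit 0) (nat_lit 0) (XT.lf (nat_lit 0) (nat_lit 26325562095) (nat_lit 304) (nat_lit 21119439826) (nat_lit 380) (nat_lit 19364359972) (nat_lit 51) (nat_lit 5) (nat_lit 55) (nat_lit 5) (nat_lit 56) (nat_lit 5) (nat_lit 306) (nat_lit 286) (nat_lit 128)) (XT.lf (nat_lit 0) (nat_lit 56382760938) (nat_lit 380) (nat_lit 9796063318) (nat_lit 76) (nat_lit 2695843222) (nat_lit 51) (nat_lit 5) (nat_lit 56) (nat_lit 5) (nat_lit 52) (nat_lit 5) (nat_lit 307) (nat_lit 286) (nat_lit 127)))) (XT.nd (nat_lit 156) (nat_lit 532) (nat_lit 0) (XT.nd (nat_lit 78) (nat_lit 76) (nat_lit 0) (XT.lf (nat_lit 0) (nat_lit 22808573645) (nat_lit 228) (nat_lit 43660070529) (nat_lit 304) (nat_lit 4539535080) (nat_lit 48) (nat_lit 5) (nat_lit 51) (nat_lit 5) (nat_lit 52) (nat_lit 5) (nat_lit 308) (nat_lit 286) (nat_lit 126)) (XT.lf (nat_lit 0) (nat_lit 3856039889) (nat_lit 304) (nat_lit 15920043702)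 (nat_lit 76) (nat_lit 53460933739) (nat_lit 47) (nat_lit 5) (nat_lit 51) (nat_lit 5) (nat_lit 48) (nat_lit 5) (nat_lit 309) (nat_lit 286) (nat_lit 125))) (XT.nd (nat_lit 78) (nat_lit 228) (nat_lit 0) (XT.lf (nat_lit 0) (nat_lit 12895213849) (nat_lit 380) (nat_lit 57158303239) (nat_lit 76) (nat_lit 5501242727) (nat_lit 43) (nat_lit 5) (nat_lit 48) (nat_lit 5) (nat_lit 44) (nat_lit 5) (nat_lit 310) (nat_lit 286) (nat_lit 124)) (XT.nd (nat_lit 78) (nat_lit 228) (nat_lit 0) (XT.lf (nat_lit 0) (nat_lit 22983578351) (nat_lit 380) (nat_lit 23323303817) (nat_lit 76) (nat_lit 31651647906) (nat_lit 43) (nat_lit 5) (nat_lit 48) (nat_lit 5) (nat_lit 44) (nat_lit 5) (nat_lit 311) (nat_lit 286) (nat_lit 123)) (XT.lf (nat_lit 0) (nat_lit 12605700108) (nat_lit 228) (nat_lit 21166519100) (nat_lit 304) (nat_lit 46700478866) (nat_lit 40) (nat_lit 5) (nat_lit 43) (nat_lit 5) (nat_lit 44) (nat_lit 5) (nat_lit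 312) (nat_lit 286) (nat_lit 122))))))))
noncomputable def xc229 : XT := (XT.nd (nat_lit 1404) (nat_lit 684) (nat_lit 0) (XT.nd (nat_lit 702) (nat_lit 532) (nat_lit 0) (XT.nd (nat_lit 312) (nat_lit 608) (nat_lit 0) (XT.nd (nat_lit 156) (nat_lit 0) (nat_lit 0) (XT.nd (nat_lit 78) (nat_lit 228) (nat_lit 0) (XT.lf (nat_lit 0) (nat_lit 45582497773) (nat_lit 304) (nat_lit 32041313266) (nat_lit 76) (nat_lit 5464655185) (nat_lit 40) (nat_lit 5) (nat_lit 44) (nat_lit 5) (nat_lit 41) (nat_lit 5) (nat_lit 313) (nat_lit 286) (nat_lit 121)) (XT.lf (nat_lit 0) (nat_lit 5400335293) (nat_lit 228) (nat_lit 53013376261) (nat_lit 304) (nat_lit 27399792099) (nat_lit 37) (nat_lit 5) (nat_lit 40) (nat_lit 5) (nat_lit 41) (nat_lit 5) (nat_lit 314) (nat_lit 286) (nat_lit 120))) (XT.nd (nat_lit 78) (nat_lit 0) (nat_lit 0) (XT.lf (nat_lit 0) (nat_lit 45825314528) (nat_lit 228) (nat_lit 26602945582) (nat_lit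 304) (nat_lit 16219445985) (nat_lit 37) (nat_lit 5) (nat_lit 40) (nat_lit 5) (nat_lit 41) (nat_lit 5) (nat_lit 315) (nat_lit 286) (nat_lit 119)) (XT.lf (nat_lit 0) (nat_lit 87160323030) (nat_lit 304) (nat_lit 3370824541) (nat_lit 76) (nat_lit 1091633496) (nat_lit 37) (nat_lit 5) (nat_lit 41) (nat_lit 5) (nat_lit 38) (nat_lit 5) (nat_lit 316) (nat_lit 286) (nat_lit 118)))) (XT.nd (nat_lit 156) (nat_lit 380) (nat_lit 0) (XT.nd (nat_lit 78) (nat_lit 0) (nat_lit 0) (XT.lf (nat_lit 0) (nat_lit 8689215337) (nat_lit 228) (nat_lit 55974775277) (nat_lit 76) (nat_lit 30023511396) (nat_lit 34) (nat_lit 5) (nat_lit 37) (nat_lit 5) (nat_lit 35) (nat_lit 5) (nat_lit 317) (nat_lit 286) (nat_lit 117)) (XT.lf (nat_lit 0) (nat_lit 22405748446) (nat_lit 228) (nat_lit 14960305474) (nat_lit 76) (nat_lit 60532886650) (nat_lit 34) (nat_lit 5) (nat_lit 37) (nat_lit 5) (nat_lit 35) (nat_lit 5) (nat_lit 318)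 (nat_lit 286) (nat_lit 116))) (XT.nd (nat_lit 78) (nat_lit 152) (nat_lit 0) (XT.lf (nat_lit 0) (nat_lit 29033087068) (nat_lit 228) (nat_lit 8227567593) (nat_lit 304) (nat_lit 63987670520) (nat_lit 31) (nat_lit 5) (nat_lit 34) (nat_lit 5) (nat_lit 35) (nat_lit 5) (nat_lit 319) (nat_lit 286) (nat_lit 115)) (XT.nd (nat_lit 78) (nat_lit 152) (nat_lit 0) (XT.lf (nat_lit 0) (nat_lit 53464317555) (nat_lit 304) (nat_lit 29361408747) (nat_lit 76) (nat_lit 21909153526) (nat_lit 31) (nat_lit 5) (nat_lit 35) (nat_lit 5) (nat_lit 32) (nat_lit 5) (nat_lit 320) (nat_lit 286) (nat_lit 114)) (XT.lf (nat_lit 0) (nat_lit 16011701879) (nat_lit 152) (nat_lit 54850635219) (nat_lit 228) (nat_lit 37514217747) (nat_lit 29) (nat_lit 5) (nat_lit 31) (nat_lit 5) (nat_lit 32) (nat_lit 5) (nat_lit 321) (nat_lit 286) (nat_lit 113)))))) (XT.nd (nat_lit 312) (nat_lit 304) (nat_lit 0) (XT.nd (nat_lit 156) (nat_lit 228)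 (nat_lit 0) (XT.nd (nat_lit 78) (nat_lit 0) (nat_lit 0) (XT.lf (nat_lit 0) (nat_lit 64671839578) (nat_lit 152) (nat_lit 24954993013) (nat_lit 228) (nat_lit 22548653521) (nat_lit 29) (nat_lit 5) (nat_lit 31) (nat_lit 5) (nat_lit 32) (nat_lit 5) (nat_lit 322) (nat_lit 286) (nat_lit 112)) (XT.lf (nat_lit 0) (nat_lit 109429380720) (nat_lit 228) (nat_lit 500826638) (nat_lit 76) (nat_lit 6229166379) (nat_lit 29) (nat_lit 5) (nat_lit 32) (nat_lit 5) (nat_lit 30) (nat_lit 5) (nat_lit 323) (nat_lit 286) (nat_lit 111))) (XT.nd (nat_lit 78) (nat_lit 0) (nat_lit 0) (XT.lf (nat_lit 0) (nat_lit 10772701694) (nat_lit 228) (nat_lit 70412894336) (nat_lit 76) (nat_lit 39088682875) (nat_lit 26) (nat_lit 5) (nat_lit 29) (nat_lit 5) (nat_lit 27) (nat_lit 5) (nat_lit 324) (nat_lit 286) (nat_lit 110)) (XT.lf (nat_lit 0) (nat_lit 28932367834) (nat_lit 228) (nat_lit 21946809944) (nat_lit 76) (nat_lit 73709835763)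 (nat_lit 26) (nat_lit 5) (nat_lit 29) (nat_lit 5) (nat_lit 27) (nat_lit 5) (nat_lit 325) (nat_lit 286) (nat_lit 109)))) (XT.nd (nat_lit 156) (nat_lit 152) (nat_lit 0) (XT.nd (nat_lit 78) (nat_lit 0) (nat_lit 0) (XT.lf (nat_lit 0) (nat_lit 29898634246) (nat_lit 152) (nat_lit 18567601461) (nat_lit 228) (nat_lit 80629939259) (nat_lit 24) (nat_lit 5) (nat_lit 26) (nat_lit 5) (nat_lit 27) (nat_lit 5) (nat_lit 326) (nat_lit 286) (nat_lit 108)) (XT.lf (nat_lit 0) (nat_lit 69593801947) (nat_lit 228) (nat_lit 48958612680) (nat_lit 76) (nat_lit 15245430517) (nat_lit 24) (nat_lit 5) (nat_lit 27) (nat_lit 5) (nat_lit 25) (nat_lit 5) (nat_lit 327) (nat_lit 286) (nat_lit 107))) (XT.nd (nat_lit 78) (nat_lit 0) (nat_lit 0) (XT.lf (nat_lit 0) (nat_lit 3602316475) (nat_lit 152) (nat_lit 88535512843) (nat_lit 228) (nat_lit 46578766259) (nat_lit 22) (nat_lit 5) (nat_lit 24) (nat_lit 5) (nat_lit 25) (nat_lit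 5) (nat_lit 328) (nat_lit 286) (nat_lit 106)) (XT.nd (nat_lit 78) (nat_lit 0) (nat_lit 0) (XT.lf (nat_lit 0) (nat_lit 60490183359) (nat_lit 152) (nat_lit 56147479032) (nat_lit 228) (nat_lit 27202191769) (nat_lit 22) (nat_lit 5) (nat_lit 24) (nat_lit 5) (nat_lit 25) (nat_lit 5) (nat_lit 329) (nat_lit 286) (nat_lit 105)) (XT.lf (nat_lit 0) (nat_lit 120221642434) (nat_lit 152) (nat_lit 22140336624) (nat_lit 228) (nat_lit 6857322822) (nat_lit 22) (nat_lit 5) (nat_lit 24) (nat_lit 5) (nat_lit 25) (nat_lit 5) (nat_lit 330) (nat_lit 286) (nat_lit 104))))))) (XT.nd (nat_lit 702) (nat_lit 228) (nat_lit 0) (XT.nd (nat_lit 312) (nat_lit 152) (nat_lit 0) (XT.nd (nat_lit 156) (nat_lit 152) (nat_lit 0) (XT.nd (nat_lit 78) (nat_lit 0) (nat_lit 0) (XT.lf (nat_lit 0) (nat_lit 14712053282) (nat_lit 152) (nat_lit 126291476781) (nat_lit 76) (nat_lit 13819294255) (nat_lit 20) (nat_lit 5) (nat_lit 22) (nat_lit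 5) (nat_lit 21) (nat_lit 5) (nat_lit 331) (nat_lit 286) (nat_lit 103)) (XT.lf (nat_lit 0) (nat_lit 37991058018) (nat_lit 152) (nat_lit 71222640105) (nat_lit 76) (nat_lit 51444124150) (nat_lit 20) (nat_lit 5) (nat_lit 22) (nat_lit 5) (nat_lit 21) (nat_lit 5) (nat_lit 332) (nat_lit 286) (nat_lit 102))) (XT.nd (nat_lit 78) (nat_lit 152) (nat_lit 0) (XT.lf (nat_lit 0) (nat_lit 62433550574) (nat_lit 152) (nat_lit 13401111800) (nat_lit 76) (nat_lit 90949931537) (nat_lit 20) (nat_lit 5) (nat_lit 22) (nat_lit 5) (nat_lit 21) (nat_lit 5) (nat_lit 333) (nat_lit 286) (nat_lit 101)) (XT.lf (nat_lit 0) (nat_lit 48875086435) (nat_lit 152) (nat_lit 39985717994) (nat_lit 228) (nat_lit 84318768496) (nat_lit 18) (nat_lit 5) (nat_lit 20) (nat_lit 5) (nat_lit 21) (nat_lit 5) (nat_lit 334) (nat_lit 286) (nat_lit 100)))) (XT.nd (nat_lit 156) (nat_lit 152) (nat_lit 0) (XT.nd (nat_lit 78) (nat_lit 0) (nat_lit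 0) (XT.lf (nat_lit 0) (nat_lit 114729647968) (nat_lit 152) (nat_lit 2106296921) (nat_lit 228) (nat_lit 63047030407) (nat_lit 18) (nat_lit 5) (nat_lit 20) (nat_lit 5) (nat_lit 21) (nat_lit 5) (nat_lit 335) (nat_lit 286) (nat_lit 99)) (XT.lf (nat_lit 0) (nat_lit 146797517332) (nat_lit 228) (nat_lit 3633385624) (nat_lit 76) (nat_lit 36461261654) (nat_lit 18) (nat_lit 5) (nat_lit 21) (nat_lit 5) (nat_lit 19) (nat_lit 4) (nat_lit 336) (nat_lit 286) (nat_lit 98))) (XT.nd (nat_lit 78) (nat_lit 76) (nat_lit 0) (XT.lf (nat_lit 0) (nat_lit 62941903907) (nat_lit 76) (nat_lit 116332099215) (nat_lit 152) (nat_lit 14926969076) (nat_lit 17) (nat_lit 5) (nat_lit 18) (nat_lit 5) (nat_lit 19) (nat_lit 4) (nat_lit 337) (nat_lit 286) (nat_lit 97)) (XT.nd (nat_lit 78) (nat_lit 0) (nat_lit 0) (XT.lf (nat_lit 0) (nat_lit 11193199790) (nat_lit 152) (nat_lit 69081241185) (nat_lit 76) (nat_lit 121588695552)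 (nat_lit 16) (nat_lit 5) (nat_lit 18) (nat_lit 5) (nat_lit 17) (nat_lit 5) (nat_lit 338) (nat_lit 286) (nat_lit 96)) (XT.lf (nat_lit 0) (nat_lit 38117359402) (nat_lit 152) (nat_lit 4039852590) (nat_lit 76) (nat_lit 167738981015) (nat_lit 16) (nat_lit 5) (nat_lit 18) (nat_lit 5) (nat_lit 17) (nat_lit 5) (nat_lit 339) (nat_lit 286) (nat_lit 95)))))) (XT.nd (nat_lit 312) (nat_lit 0) (nat_lit 0) (XT.nd (nat_lit 156) (nat_lit 76) (nat_lit 0) (XT.nd (nat_lit 78) (nat_lit 0) (nat_lit 0) (XT.lf (nat_lit 0) (nat_lit 66377504441) (nat_lit 152) (nat_lit 1046205558) (nat_lit 228) (nat_lit 150855393608) (nat_lit 14) (nat_lit 5) (nat_lit 16) (nat_lit 5) (nat_lit 17) (nat_lit 5) (nat_lit 340) (nat_lit 286) (nat_lit 94)) (XT.lf (nat_lit 0) (nat_lit 98922181516) (nat_lit 228) (nat_lit 87281093503) (nat_lit 76) (nat_lit 40841544978) (nat_lit 14) (nat_lit 5) (nat_lit 17) (nat_lit 5) (nat_lit 15) (nat_lit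 4) (nat_lit 341) (nat_lit 286) (nat_lit 93))) (XT.nd (nat_lit 78) (nat_lit 76) (nat_lit 0) (XT.lf (nat_lit 0) (nat_lit 132012392487) (nat_lit 228) (nat_lit 19447285064) (nat_lit 76) (nat_lit 84788304266) (nat_lit 14) (nat_lit 5) (nat_lit 17) (nat_lit 5) (nat_lit 15) (nat_lit 4) (nat_lit 342) (nat_lit 286) (nat_lit 92)) (XT.lf (nat_lit 0) (nat_lit 53489673002) (nat_lit 76) (nat_lit 114102245627) (nat_lit 152) (nat_lit 78277643254) (nat_lit 13) (nat_lit 5) (nat_lit 14) (nat_lit 5) (nat_lit 15) (nat_lit 4) (nat_lit 343) (nat_lit 286) (nat_lit 91)))) (XT.nd (nat_lit 33150) (nat_lit 0) (nat_lit 4712) (XT.nd (nat_lit 33072) (nat_lit 0) (nat_lit 4712) (XT.lf (nat_lit 0) (nat_lit 130748109198) (nat_lit 76) (nat_lit 74531348819) (nat_lit 152) (nat_lit 50676311459) (nat_lit 13) (nat_lit 5) (nat_lit 14) (nat_lit 5) (nat_lit 15) (nat_lit 4) (nat_lit 344) (nat_lit 286) (nat_lit 90)) (XT.lf (nat_lit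 0) (nat_lit 5552143145) (nat_lit 0) (nat_lit 5552143145) (nat_lit 684) (nat_lit 9218838036) (nat_lit 75) (nat_lit 5) (nat_lit 75) (nat_lit 3) (nat_lit 84) (nat_lit 3) (nat_lit 287) (nat_lit 287) (nat_lit 146))) (XT.nd (nat_lit 78) (nat_lit 0) (nat_lit 0) (XT.lf (nat_lit 0) (nat_lit 22908416811) (nat_lit 684) (nat_lit 12042070654) (nat_lit 760) (nat_lit 6704578342) (nat_lit 75) (nat_lit 5) (nat_lit 84) (nat_lit 3) (nat_lit 85) (nat_lit 5) (nat_lit 288) (nat_lit 287) (nat_lit 145)) (XT.nd (nat_lit 78) (nat_lit 0) (nat_lit 76) (XT.lf (nat_lit 76) (nat_lit 6352797479) (nat_lit 0) (nat_lit 17569360547) (nat_lit 760) (nat_lit 18778227442) (nat_lit 76) (nat_lit 5) (nat_lit 75) (nat_lit 5) (nat_lit 85) (nat_lit 5) (nat_lit 289) (nat_lit 287) (nat_lit 144)) (XT.lf (nat_lit 0) (nat_lit 25202284617) (nat_lit 684) (nat_lit 17717685809) (nat_lit 760) (nat_lit 867222327) (nat_lit 76) (nat_lit 5)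 (nat_lit 85) (nat_lit 5) (nat_lit 86) (nat_lit 5) (nat_lit 290) (nat_lit 287) (nat_lit 143))))))))
noncomputable def xc230 : XT := (XT.nd (nat_lit 1404) (nat_lit 1900) (nat_lit 0) (XT.nd (nat_lit 702) (nat_lit 1444) (nat_lit 0) (XT.nd (nat_lit 312) (nat_lit 456) (nat_lit 0) (XT.nd (nat_lit 156) (nat_lit 0) (nat_lit 76) (XT.nd (nat_lit 78) (nat_lit 0) (nat_lit 0) (XT.lf (nat_lit 76) (nat_lit 1605728878) (nat_lit 0) (nat_lit 25251673481) (nat_lit 760) (nat_lit 18055395047) (nat_lit 77) (nat_lit 5) (nat_lit 76) (nat_lit 5) (nat_lit 86) (nat_lit 5) (nat_lit 291) (nat_lit 287) (nat_lit 142)) (XT.lf (nat_lit 76) (nat_lit 22509100527) (nat_lit 0) (nat_lit 6384205194) (nat_lit 760) (nat_lit 17186481033) (nat_lit 77) (nat_lit 5) (nat_lit 76) (nat_lit 5) (nat_lit 86) (nat_lit 5) (nat_lit 292) (nat_lit 287) (nat_lit 141))) (XT.nd (nat_lit 78) (nat_lit 0) (nat_lit 0) (XT.lf (nat_lit 0) (nat_lit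 31238710739) (nat_lit 684) (nat_lit 3058493209) (nat_lit 760) (nat_lit 12997541960) (nat_lit 77) (nat_lit 5) (nat_lit 86) (nat_lit 5) (nat_lit 87) (nat_lit 5) (nat_lit 293) (nat_lit 287) (nat_lit 140)) (XT.lf (nat_lit 76) (nat_lit 18980840578) (nat_lit 0) (nat_lit 15119719182) (nat_lit 760) (nat_lit 14449939968) (nat_lit 78) (nat_lit 5) (nat_lit 77) (nat_lit 5) (nat_lit 87) (nat_lit 5) (nat_lit 294) (nat_lit 287) (nat_lit 139)))) (XT.nd (nat_lit 156) (nat_lit 608) (nat_lit 0) (XT.nd (nat_lit 78) (nat_lit 0) (nat_lit 0) (XT.lf (nat_lit 0) (nat_lit 37234716002) (nat_lit 684) (nat_lit 7718693874) (nat_lit 760) (nat_lit 4909175763) (nat_lit 78) (nat_lit 5) (nat_lit 87) (nat_lit 5) (nat_lit 88) (nat_lit 5) (nat_lit 295) (nat_lit 287) (nat_lit 138)) (XT.lf (nat_lit 76) (nat_lit 15470789111) (nat_lit 0) (nat_lit 25542525916) (nat_lit 760) (nat_lit 10202578963) (nat_lit 79) (nat_lit 5) (nat_lit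 78) (nat_lit 5) (nat_lit 88) (nat_lit 5) (nat_lit 296) (nat_lit 287) (nat_lit 137))) (XT.nd (nat_lit 78) (nat_lit 608) (nat_lit 0) (XT.lf (nat_lit 76) (nat_lit 40086415118) (nat_lit 0) (nat_lit 5023536252) (nat_lit 760) (nat_lit 7520465681) (nat_lit 79) (nat_lit 5) (nat_lit 78) (nat_lit 5) (nat_lit 88) (nat_lit 5) (nat_lit 297) (nat_lit 287) (nat_lit 136)) (XT.nd (nat_lit 78) (nat_lit 0) (nat_lit 0) (XT.lf (nat_lit 0) (nat_lit 11940036191) (nat_lit 684) (nat_lit 37914215045) (nat_lit 760) (nat_lit 4239277882) (nat_lit 70) (nat_lit 5) (nat_lit 79) (nat_lit 5) (nat_lit 80) (nat_lit 5) (nat_lit 298) (nat_lit 287) (nat_lit 135)) (XT.lf (nat_lit 0) (nat_lit 37997390791) (nat_lit 684) (nat_lit 17130360179) (nat_lit 760) (nat_lit 487450802) (nat_lit 70) (nat_lit 5) (nat_lit 79) (nat_lit 5) (nat_lit 80) (nat_lit 5) (nat_lit 299) (nat_lit 287) (nat_lit 134)))))) (XT.nd (nat_lit 312) (nat_lit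 608) (nat_lit 0) (XT.nd (nat_lit 156) (nat_lit 380) (nat_lit 0) (XT.nd (nat_lit 78) (nat_lit 0) (nat_lit 0) (XT.lf (nat_lit 0) (nat_lit 3546813699) (nat_lit 456) (nat_lit 48923169226) (nat_lit 76) (nat_lit 4730017694) (nat_lit 64) (nat_lit 5) (nat_lit 70) (nat_lit 5) (nat_lit 65) (nat_lit 5) (nat_lit 300) (nat_lit 287) (nat_lit 133)) (XT.lf (nat_lit 0) (nat_lit 8349107770) (nat_lit 456) (nat_lit 23066323994) (nat_lit 76) (nat_lit 27419076850) (nat_lit 64) (nat_lit 5) (nat_lit 70) (nat_lit 5) (nat_lit 65) (nat_lit 5) (nat_lit 301) (nat_lit 287) (nat_lit 132))) (XT.nd (nat_lit 78) (nat_lit 0) (nat_lit 0) (XT.lf (nat_lit 0) (nat_lit 4217048159) (nat_lit 380) (nat_lit 9238989190) (nat_lit 456) (nat_lit 47091482099) (nat_lit 59) (nat_lit 5) (nat_lit 64) (nat_lit 5) (nat_lit 65) (nat_lit 5) (nat_lit 302) (nat_lit 287) (nat_lit 131)) (XT.lf (nat_lit 0) (nat_lit 19433382474) (nat_lit 456) (nat_lit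 28888288620) (nat_lit 76) (nat_lit 13993759588) (nat_lit 59) (nat_lit 5) (nat_lit 65) (nat_lit 5) (nat_lit 60) (nat_lit 5) (nat_lit 303) (nat_lit 287) (nat_lit 130)))) (XT.nd (nat_lit 156) (nat_lit 304) (nat_lit 0) (XT.nd (nat_lit 78) (nat_lit 304) (nat_lit 0) (XT.lf (nat_lit 0) (nat_lit 25859838511) (nat_lit 456) (nat_lit 226725867) (nat_lit 76) (nat_lit 38077664072) (nat_lit 59) (nat_lit 5) (nat_lit 65) (nat_lit 5) (nat_lit 60) (nat_lit 5) (nat_lit 304) (nat_lit 287) (nat_lit 129)) (XT.lf (nat_lit 0) (nat_lit 30854233459) (nat_lit 304) (nat_lit 2233947627) (nat_lit 380) (nat_lit 32993259837) (nat_lit 55) (nat_lit 5) (nat_lit 59) (nat_lit 5) (nat_lit 60) (nat_lit 5) (nat_lit 305) (nat_lit 287) (nat_lit 128))) (XT.nd (nat_lit 78) (nat_lit 304) (nat_lit 0) (XT.lf (nat_lit 0) (nat_lit 41036869896) (nat_lit 380) (nat_lit 4954669168) (nat_lit 76) (nat_lit 22085031360) (nat_lit 55) (nat_lit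 5) (nat_lit 60) (nat_lit 5) (nat_lit 56) (nat_lit 5) (nat_lit 306) (nat_lit 287) (nat_lit 127)) (XT.nd (nat_lit 78) (nat_lit 0) (nat_lit 0) (XT.lf (nat_lit 0) (nat_lit 27679605592) (nat_lit 304) (nat_lit 22171097412) (nat_lit 380) (nat_lit 20297370629) (nat_lit 51) (nat_lit 5) (nat_lit 55) (nat_lit 5) (nat_lit 56) (nat_lit 5) (nat_lit 307) (nat_lit 287) (nat_lit 126)) (XT.lf (nat_lit 0) (nat_lit 59233821220) (nat_lit 380) (nat_lit 10248290877) (nat_lit 76) (nat_lit 2834612828) (nat_lit 51) (nat_lit 5) (nat_lit 56) (nat_lit 5) (nat_lit 52) (nat_lit 5) (nat_lit 308) (nat_lit 287) (nat_lit 125))))))) (XT.nd (nat_lit 702) (nat_lit 836) (nat_lit 0) (XT.nd (nat_lit 312) (nat_lit 456) (nat_lit 0) (XT.nd (nat_lit 156) (nat_lit 304) (nat_lit 0) (XT.nd (nat_lit 78) (nat_lit 76) (nat_lit 0) (XT.lf (nat_lit 0) (nat_lit 23985971875) (nat_lit 228) (nat_lit 45837083834) (nat_lit 304) (nat_lit 4733907526)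 (nat_lit 48) (nat_lit 5) (nat_lit 51) (nat_lit 5) (nat_lit 52) (nat_lit 5) (nat_lit 309) (nat_lit 287) (nat_lit 124)) (XT.lf (nat_lit 0) (nat_lit 4078899756) (nat_lit 304) (nat_lit 16679773997) (nat_lit 76) (nat_lit 56138622603) (nat_lit 47) (nat_lit 5) (nat_lit 51) (nat_lit 5) (nat_lit 48) (nat_lit 5) (nat_lit 310) (nat_lit 287) (nat_lit 123))) (XT.nd (nat_lit 78) (nat_lit 0) (nat_lit 0) (XT.lf (nat_lit 0) (nat_lit 13569259790) (nat_lit 380) (nat_lit 59979108225) (nat_lit 76) (nat_lit 5782599865) (nat_lit 43) (nat_lit 5) (nat_lit 48) (nat_lit 5) (nat_lit 44) (nat_lit 5) (nat_lit 311) (nat_lit 287) (nat_lit 122)) (XT.lf (nat_lit 0) (nat_lit 24160647982) (nat_lit 380) (nat_lit 24454125982) (nat_lit 76) (nat_lit 33240225540) (nat_lit 43) (nat_lit 5) (nat_lit 48) (nat_lit 5) (nat_lit 44) (nat_lit 5) (nat_lit 312) (nat_lit 287) (nat_lit 121)))) (XT.nd (nat_lit 156) (nat_lit 228) (nat_lit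 0) (XT.nd (nat_lit 78) (nat_lit 0) (nat_lit 0) (XT.lf (nat_lit 0) (nat_lit 13270758090) (nat_lit 228) (nat_lit 22217177566) (nat_lit 304) (nat_lit 49006982489) (nat_lit 40) (nat_lit 5) (nat_lit 43) (nat_lit 5) (nat_lit 44) (nat_lit 5) (nat_lit 313) (nat_lit 287) (nat_lit 120)) (XT.lf (nat_lit 0) (nat_lit 47887551423) (nat_lit 304) (nat_lit 33609028359) (nat_lit 76) (nat_lit 5744956592) (nat_lit 40) (nat_lit 5) (nat_lit 44) (nat_lit 5) (nat_lit 41) (nat_lit 5) (nat_lit 314) (nat_lit 287) (nat_lit 119))) (XT.nd (nat_lit 78) (nat_lit 0) (nat_lit 0) (XT.lf (nat_lit 0) (nat_lit 5704148587) (nat_lit 228) (nat_lit 55655470262) (nat_lit 304) (nat_lit 28743244881) (nat_lit 37) (nat_lit 5) (nat_lit 40) (nat_lit 5) (nat_lit 41) (nat_lit 5) (nat_lit 315) (nat_lit 287) (nat_lit 118)) (XT.nd (nat_lit 78) (nat_lit 0) (nat_lit 0) (XT.lf (nat_lit 0) (nat_lit 48148767425) (nat_lit 228) (nat_lit 27924926373)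 (nat_lit 304) (nat_lit 17005145118) (nat_lit 37) (nat_lit 5) (nat_lit 40) (nat_lit 5) (nat_lit 41) (nat_lit 5) (nat_lit 316) (nat_lit 287) (nat_lit 117)) (XT.lf (nat_lit 0) (nat_lit 91541337452) (nat_lit 304) (nat_lit 3507639910) (nat_lit 76) (nat_lit 1153743846) (nat_lit 37) (nat_lit 5) (nat_lit 41) (nat_lit 5) (nat_lit 38) (nat_lit 5) (nat_lit 317) (nat_lit 287) (nat_lit 116)))))) (XT.nd (nat_lit 312) (nat_lit 380) (nat_lit 0) (XT.nd (nat_lit 156) (nat_lit 228) (nat_lit 0) (XT.nd (nat_lit 78) (nat_lit 0) (nat_lit 0) (XT.lf (nat_lit 0) (nat_lit 9146478788) (nat_lit 228) (nat_lit 58741501487) (nat_lit 76) (nat_lit 31532712258) (nat_lit 34) (nat_lit 5) (nat_lit 37) (nat_lit 5) (nat_lit 35) (nat_lit 5) (nat_lit 318) (nat_lit 287) (nat_lit 115)) (XT.lf (nat_lit 0) (nat_lit 23547752710) (nat_lit 228) (nat_lit 15677832600) (nat_lit 76) (nat_lit 63567174119) (nat_lit 34) (nat_lit 5) (nat_lit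 37) (nat_lit 5) (nat_lit 35) (nat_lit 5) (nat_lit 319) (nat_lit 287) (nat_lit 114))) (XT.nd (nat_lit 78) (nat_lit 0) (nat_lit 0) (XT.lf (nat_lit 0) (nat_lit 30514737824) (nat_lit 228) (nat_lit 8630100604) (nat_lit 304) (nat_lit 67164805148) (nat_lit 31) (nat_lit 5) (nat_lit 34) (nat_lit 5) (nat_lit 35) (nat_lit 5) (nat_lit 320) (nat_lit 287) (nat_lit 113)) (XT.lf (nat_lit 0) (nat_lit 56157808800) (nat_lit 304) (nat_lit 30799997122) (nat_lit 76) (nat_lit 23012765737) (nat_lit 31) (nat_lit 5) (nat_lit 35) (nat_lit 5) (nat_lit 32) (nat_lit 5) (nat_lit 321) (nat_lit 287) (nat_lit 112)))) (XT.nd (nat_lit 156) (nat_lit 228) (nat_lit 0) (XT.nd (nat_lit 78) (nat_lit 0) (nat_lit 0) (XT.lf (nat_lit 0) (nat_lit 16841293518) (nat_lit 152) (nat_lit 57583923182) (nat_lit 228) (nat_lit 39369141186) (nat_lit 29) (nat_lit 5) (nat_lit 31) (nat_lit 5) (nat_lit 32) (nat_lit 5) (nat_lit 322) (nat_lit 287)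 (nat_lit 111)) (XT.lf (nat_lit 0) (nat_lit 67933056838) (nat_lit 152) (nat_lit 26193939046) (nat_lit 228) (nat_lit 23656288627) (nat_lit 29) (nat_lit 5) (nat_lit 31) (nat_lit 5) (nat_lit 32) (nat_lit 5) (nat_lit 323) (nat_lit 287) (nat_lit 110))) (XT.nd (nat_lit 78) (nat_lit 228) (nat_lit 0) (XT.lf (nat_lit 0) (nat_lit 114918906054) (nat_lit 228) (nat_lit 498759648) (nat_lit 76) (nat_lit 6548740742) (nat_lit 29) (nat_lit 5) (nat_lit 32) (nat_lit 5) (nat_lit 30) (nat_lit 5) (nat_lit 324) (nat_lit 287) (nat_lit 109)) (XT.nd (nat_lit 78) (nat_lit 0) (nat_lit 0) (XT.lf (nat_lit 0) (nat_lit 11329268974) (nat_lit 228) (nat_lit 73906244961) (nat_lit 76) (nat_lit 41051552224) (nat_lit 26) (nat_lit 5) (nat_lit 29) (nat_lit 5) (nat_lit 27) (nat_lit 5) (nat_lit 325) (nat_lit 287) (nat_lit 108)) (XT.lf (nat_lit 0) (nat_lit 30396064506) (nat_lit 228) (nat_lit 23018156068) (nat_lit 76) (nat_lit 77403361080)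 (nat_lit 26) (nat_lit 5) (nat_lit 29) (nat_lit 5) (nat_lit 27) (nat_lit 5) (nat_lit 326) (nat_lit 287) (nat_lit 107))))))))
noncomputable def xc231 : XT := (XT.nd (nat_lit 34476) (nat_lit 0) (nat_lit 3192) (XT.nd (nat_lit 702) (nat_lit 380) (nat_lit 0) (XT.nd (nat_lit 312) (nat_lit 304) (nat_lit 0) (XT.nd (nat_lit 156) (nat_lit 152) (nat_lit 0) (XT.nd (nat_lit 78) (nat_lit 0) (nat_lit 0) (XT.lf (nat_lit 0) (nat_lit 31419141067) (nat_lit 152) (nat_lit 19487070754) (nat_lit 228) (nat_lit 84643911392) (nat_lit 24) (nat_lit 5) (nat_lit 26) (nat_lit 5) (nat_lit 27) (nat_lit 5) (nat_lit 327) (nat_lit 287) (nat_lit 106)) (XT.lf (nat_lit 0) (nat_lit 73089495331) (nat_lit 228) (nat_lit 51381499040) (nat_lit 76) (nat_lit 16015916880) (nat_lit 24) (nat_lit 5) (nat_lit 27) (nat_lit 5) (nat_lit 25) (nat_lit 5) (nat_lit 328) (nat_lit 287) (nat_lit 105))) (XT.nd (nat_lit 78) (nat_lit 0) (nat_lit 0)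 (XT.lf (nat_lit 0) (nat_lit 3807072633) (nat_lit 152) (nat_lit 92953274081) (nat_lit 228) (nat_lit 48891272597) (nat_lit 22) (nat_lit 5) (nat_lit 24) (nat_lit 5) (nat_lit 25) (nat_lit 5) (nat_lit 329) (nat_lit 287) (nat_lit 104)) (XT.lf (nat_lit 0) (nat_lit 63538159512) (nat_lit 152) (nat_lit 58946267837) (nat_lit 228) (nat_lit 28546651858) (nat_lit 22) (nat_lit 5) (nat_lit 24) (nat_lit 5) (nat_lit 25) (nat_lit 5) (nat_lit 330) (nat_lit 287) (nat_lit 103)))) (XT.nd (nat_lit 156) (nat_lit 152) (nat_lit 0) (XT.nd (nat_lit 78) (nat_lit 152) (nat_lit 0) (XT.lf (nat_lit 0) (nat_lit 126255074065) (nat_lit 152) (nat_lit 23239177125) (nat_lit 228) (nat_lit 7185284678) (nat_lit 22) (nat_lit 5) (nat_lit 24) (nat_lit 5) (nat_lit 25) (nat_lit 5) (nat_lit 331) (nat_lit 287) (nat_lit 102)) (XT.lf (nat_lit 0) (nat_lit 15461878119) (nat_lit 152) (nat_lit 132582977260) (nat_lit 76) (nat_lit 14518378687)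 (nat_lit 20) (nat_lit 5) (nat_lit 22) (nat_lit 5) (nat_lit 21) (nat_lit 5) (nat_lit 332) (nat_lit 287) (nat_lit 101))) (XT.nd (nat_lit 78) (nat_lit 152) (nat_lit 0) (XT.lf (nat_lit 0) (nat_lit 39904155845) (nat_lit 152) (nat_lit 74761797482) (nat_lit 76) (nat_lit 54024063423) (nat_lit 20) (nat_lit 5) (nat_lit 22) (nat_lit 5) (nat_lit 21) (nat_lit 5) (nat_lit 333) (nat_lit 287) (nat_lit 100)) (XT.nd (nat_lit 78) (nat_lit 152) (nat_lit 0) (XT.lf (nat_lit 0) (nat_lit 65568128032) (nat_lit 152) (nat_lit 14050239173) (nat_lit 76) (nat_lit 95504792938) (nat_lit 20) (nat_lit 5) (nat_lit 22) (nat_lit 5) (nat_lit 21) (nat_lit 5) (nat_lit 334) (nat_lit 287) (nat_lit 99)) (XT.lf (nat_lit 0) (nat_lit 51339431423) (nat_lit 152) (nat_lit 41977020353) (nat_lit 228) (nat_lit 88521451852) (nat_lit 18) (nat_lit 5) (nat_lit 20) (nat_lit 5) (nat_lit 21) (nat_lit 5) (nat_lit 335) (nat_lit 287) (nat_lit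 98)))))) (XT.nd (nat_lit 312) (nat_lit 228) (nat_lit 0) (XT.nd (nat_lit 156) (nat_lit 152) (nat_lit 0) (XT.nd (nat_lit 78) (nat_lit 0) (nat_lit 0) (XT.lf (nat_lit 0) (nat_lit 120485740525) (nat_lit 152) (nat_lit 2204008395) (nat_lit 228) (nat_lit 66186758052) (nat_lit 18) (nat_lit 5) (nat_lit 20) (nat_lit 5) (nat_lit 21) (nat_lit 5) (nat_lit 336) (nat_lit 287) (nat_lit 97)) (XT.lf (nat_lit 0) (nat_lit 154148941290) (nat_lit 228) (nat_lit 3795903916) (nat_lit 76) (nat_lit 38291334277) (nat_lit 18) (nat_lit 5) (nat_lit 21) (nat_lit 5) (nat_lit 19) (nat_lit 4) (nat_lit 337) (nat_lit 287) (nat_lit 96))) (XT.nd (nat_lit 78) (nat_lit 76) (nat_lit 0) (XT.lf (nat_lit 0) (nat_lit 66107841203) (nat_lit 76) (nat_lit 122141154434) (nat_lit 152) (nat_lit 15661445359) (nat_lit 17) (nat_lit 5) (nat_lit 18) (nat_lit 5) (nat_lit 19) (nat_lit 4) (nat_lit 338) (nat_lit 287) (nat_lit 95)) (XT.lf (nat_lit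 0) (nat_lit 11763804720) (nat_lit 152) (nat_lit 72516982716) (nat_lit 76) (nat_lit 127674944890) (nat_lit 16) (nat_lit 5) (nat_lit 18) (nat_lit 5) (nat_lit 17) (nat_lit 5) (nat_lit 339) (nat_lit 287) (nat_lit 94)))) (XT.nd (nat_lit 156) (nat_lit 76) (nat_lit 0) (XT.nd (nat_lit 78) (nat_lit 152) (nat_lit 0) (XT.lf (nat_lit 0) (nat_lit 40033651126) (nat_lit 152) (nat_lit 4224397097) (nat_lit 76) (nat_lit 176132420123) (nat_lit 16) (nat_lit 5) (nat_lit 18) (nat_lit 5) (nat_lit 17) (nat_lit 5) (nat_lit 340) (nat_lit 287) (nat_lit 93)) (XT.lf (nat_lit 0) (nat_lit 69713546364) (nat_lit 152) (nat_lit 1091544540) (nat_lit 228) (nat_lit 158387445615) (nat_lit 14) (nat_lit 5) (nat_lit 16) (nat_lit 5) (nat_lit 17) (nat_lit 5) (nat_lit 341) (nat_lit 287) (nat_lit 92))) (XT.nd (nat_lit 78) (nat_lit 76) (nat_lit 0) (XT.lf (nat_lit 0) (nat_lit 103878104159) (nat_lit 228) (nat_lit 91628405198) (nat_lit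 76) (nat_lit 42890049057) (nat_lit 14) (nat_lit 5) (nat_lit 17) (nat_lit 5) (nat_lit 15) (nat_lit 4) (nat_lit 342) (nat_lit 287) (nat_lit 91)) (XT.nd (nat_lit 78) (nat_lit 76) (nat_lit 0) (XT.lf (nat_lit 0) (nat_lit 138622358366) (nat_lit 228) (nat_lit 20403703622) (nat_lit 76) (nat_lit 89033840269) (nat_lit 14) (nat_lit 5) (nat_lit 17) (nat_lit 5) (nat_lit 15) (nat_lit 4) (nat_lit 343) (nat_lit 287) (nat_lit 90)) (XT.lf (nat_lit 0) (nat_lit 56179845159) (nat_lit 76) (nat_lit 119800815538) (nat_lit 152) (nat_lit 82181911176) (nat_lit 13) (nat_lit 5) (nat_lit 14) (nat_lit 5) (nat_lit 15) (nat_lit 4) (nat_lit 344) (nat_lit 287) (nat_lit 89))))))) (XT.nd (nat_lit 702) (nat_lit 1520) (nat_lit 0) (XT.nd (nat_lit 312) (nat_lit 0) (nat_lit 76) (XT.nd (nat_lit 156) (nat_lit 0) (nat_lit 0) (XT.nd (nat_lit 78) (nat_lit 0) (nat_lit 0) (XT.lf (nat_lit 0) (nat_lit 5847711212) (nat_lit 0) (nat_lit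 5847711212) (nat_lit 684) (nat_lit 9641956140) (nat_lit 75) (nat_lit 5) (nat_lit 75) (nat_lit 3) (nat_lit 84) (nat_lit 3) (nat_lit 288) (nat_lit 288) (nat_lit 144)) (XT.lf (nat_lit 0) (nat_lit 24121726034) (nat_lit 684) (nat_lit 12605805982) (nat_lit 760) (nat_lit 7006690975) (nat_lit 75) (nat_lit 5) (nat_lit 84) (nat_lit 3) (nat_lit 85) (nat_lit 5) (nat_lit 289) (nat_lit 288) (nat_lit 143))) (XT.nd (nat_lit 78) (nat_lit 0) (nat_lit 76) (XT.lf (nat_lit 76) (nat_lit 6708186716) (nat_lit 0) (nat_lit 18475324187) (nat_lit 760) (nat_lit 19648439506) (nat_lit 76) (nat_lit 5) (nat_lit 75) (nat_lit 5) (nat_lit 85) (nat_lit 5) (nat_lit 290) (nat_lit 288) (nat_lit 142)) (XT.lf (nat_lit 0) (nat_lit 26524128078) (nat_lit 684) (nat_lit 18563919644) (nat_lit 760) (nat_lit 885235270) (nat_lit 76) (nat_lit 5) (nat_lit 85) (nat_lit 5) (nat_lit 86) (nat_lit 5) (nat_lit 291) (nat_lit 288) (nat_lit 141))))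 (XT.nd (nat_lit 156) (nat_lit 0) (nat_lit 76) (XT.nd (nat_lit 78) (nat_lit 0) (nat_lit 0) (XT.lf (nat_lit 76) (nat_lit 1725026253) (nat_lit 0) (nat_lit 26534645037) (nat_lit 760) (nat_lit 18895621820) (nat_lit 77) (nat_lit 5) (nat_lit 76) (nat_lit 5) (nat_lit 86) (nat_lit 5) (nat_lit 292) (nat_lit 288) (nat_lit 140)) (XT.lf (nat_lit 76) (nat_lit 23671708821) (nat_lit 0) (nat_lit 6722832483) (nat_lit 760) (nat_lit 17986240342) (nat_lit 77) (nat_lit 5) (nat_lit 76) (nat_lit 5) (nat_lit 86) (nat_lit 5) (nat_lit 293) (nat_lit 288) (nat_lit 139))) (XT.nd (nat_lit 78) (nat_lit 0) (nat_lit 0) (XT.lf (nat_lit 0) (nat_lit 32854234032) (nat_lit 684) (nat_lit 3172893235) (nat_lit 760) (nat_lit 13629518521) (nat_lit 77) (nat_lit 5) (nat_lit 86) (nat_lit 5) (nat_lit 87) (nat_lit 5) (nat_lit 294) (nat_lit 288) (nat_lit 138)) (XT.nd (nat_lit 78) (nat_lit 0) (nat_lit 76) (XT.lf (nat_lit 76) (nat_lit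 19967785876) (nat_lit 0) (nat_lit 15889429607) (nat_lit 760) (nat_lit 15118077343) (nat_lit 78) (nat_lit 5) (nat_lit 77) (nat_lit 5) (nat_lit 87) (nat_lit 5) (nat_lit 295) (nat_lit 288) (nat_lit 137)) (XT.lf (nat_lit 0) (nat_lit 39145417000) (nat_lit 684) (nat_lit 8065724343) (nat_lit 760) (nat_lit 5141981983) (nat_lit 78) (nat_lit 5) (nat_lit 87) (nat_lit 5) (nat_lit 88) (nat_lit 5) (nat_lit 296) (nat_lit 288) (nat_lit 136)))))) (XT.nd (nat_lit 390) (nat_lit 684) (nat_lit 0) (XT.nd (nat_lit 156) (nat_lit 1064) (nat_lit 0) (XT.nd (nat_lit 78) (nat_lit 0) (nat_lit 0) (XT.lf (nat_lit 76) (nat_lit 16282605304) (nat_lit 0) (nat_lit 26828606603) (nat_lit 760) (nat_lit 10662978716) (nat_lit 79) (nat_lit 5) (nat_lit 78) (nat_lit 5) (nat_lit 88) (nat_lit 5) (nat_lit 297) (nat_lit 288) (nat_lit 135)) (XT.lf (nat_lit 76) (nat_lit 42127189909) (nat_lit 0) (nat_lit 5283241057) (nat_lit 760) (nat_lit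 7849127827) (nat_lit 79) (nat_lit 5) (nat_lit 78) (nat_lit 5) (nat_lit 88) (nat_lit 5) (nat_lit 298) (nat_lit 288) (nat_lit 134))) (XT.nd (nat_lit 78) (nat_lit 456) (nat_lit 0) (XT.lf (nat_lit 0) (nat_lit 12575375804) (nat_lit 684) (nat_lit 39814899775) (nat_lit 760) (nat_lit 4405640588) (nat_lit 70) (nat_lit 5) (nat_lit 79) (nat_lit 5) (nat_lit 80) (nat_lit 5) (nat_lit 299) (nat_lit 288) (nat_lit 133)) (XT.nd (nat_lit 78) (nat_lit 456) (nat_lit 0) (XT.lf (nat_lit 0) (nat_lit 39933772524) (nat_lit 684) (nat_lit 17991615309) (nat_lit 760) (nat_lit 468393639) (nat_lit 70) (nat_lit 5) (nat_lit 79) (nat_lit 5) (nat_lit 80) (nat_lit 5) (nat_lit 300) (nat_lit 288) (nat_lit 132)) (XT.lf (nat_lit 0) (nat_lit 3764725838) (nat_lit 456) (nat_lit 51329737978) (nat_lit 76) (nat_lit 4963401302) (nat_lit 64) (nat_lit 5) (nat_lit 70) (nat_lit 5) (nat_lit 65) (nat_lit 5) (nat_lit 301) (nat_lit 288)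 (nat_lit 131))))) (XT.nd (nat_lit 156) (nat_lit 304) (nat_lit 0) (XT.nd (nat_lit 78) (nat_lit 380) (nat_lit 0) (XT.lf (nat_lit 0) (nat_lit 8805202639) (nat_lit 456) (nat_lit 24181935709) (nat_lit 76) (nat_lit 28787061858) (nat_lit 64) (nat_lit 5) (nat_lit 70) (nat_lit 5) (nat_lit 65) (nat_lit 5) (nat_lit 302) (nat_lit 288) (nat_lit 130)) (XT.lf (nat_lit 0) (nat_lit 4464996916) (nat_lit 380) (nat_lit 9701220984) (nat_lit 456) (nat_lit 49406711572) (nat_lit 59) (nat_lit 5) (nat_lit 64) (nat_lit 5) (nat_lit 65) (nat_lit 5) (nat_lit 303) (nat_lit 288) (nat_lit 129))) (XT.nd (nat_lit 78) (nat_lit 304) (nat_lit 0) (XT.lf (nat_lit 0) (nat_lit 20440646145) (nat_lit 456) (nat_lit 30295496665) (nat_lit 76) (nat_lit 14693187284) (nat_lit 59) (nat_lit 5) (nat_lit 65) (nat_lit 5) (nat_lit 60) (nat_lit 5) (nat_lit 304) (nat_lit 288) (nat_lit 128)) (XT.nd (nat_lit 78) (nat_lit 304) (nat_lit 0) (XT.lf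 (nat_lit 0) (nat_lit 27186730005) (nat_lit 456) (nat_lit 202627507) (nat_lit 76) (nat_lit 39981299386) (nat_lit 59) (nat_lit 5) (nat_lit 65) (nat_lit 5) (nat_lit 60) (nat_lit 5) (nat_lit 305) (nat_lit 288) (nat_lit 127)) (XT.lf (nat_lit 0) (nat_lit 32431808258) (nat_lit 304) (nat_lit 2343611496) (nat_lit 380) (nat_lit 34608367928) (nat_lit 55) (nat_lit 5) (nat_lit 59) (nat_lit 5) (nat_lit 60) (nat_lit 5) (nat_lit 306) (nat_lit 288) (nat_lit 126))))))))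
noncomputable def xc232 : XT := (XT.nd (nat_lit 1404) (nat_lit 1140) (nat_lit 0) (XT.nd (nat_lit 702) (nat_lit 836) (nat_lit 0) (XT.nd (nat_lit 312) (nat_lit 608) (nat_lit 0) (XT.nd (nat_lit 156) (nat_lit 228) (nat_lit 0) (XT.nd (nat_lit 78) (nat_lit 304) (nat_lit 0) (XT.lf (nat_lit 0) (nat_lit 43120009928) (nat_lit 380) (nat_lit 5167586756) (nat_lit 76) (nat_lit 23191157620) (nat_lit 55) (nat_lit 5) (nat_lit 60) (nat_lit 5) (nat_lit 56) (nat_lit 5) (nat_lit 307) (nat_lit 288) (nat_lit 125)) (XT.lf (nat_lit 0) (nat_lit 29097840196) (nat_lit 304) (nat_lit 23275738990) (nat_lit 380) (nat_lit 21280305064) (nat_lit 51) (nat_lit 5) (nat_lit 55) (nat_lit 5) (nat_lit 56) (nat_lit 5) (nat_lit 308) (nat_lit 288) (nat_lit 124))) (XT.nd (nat_lit 78) (nat_lit 228) (nat_lit 0) (XT.lf (nat_lit 0) (nat_lit 62224466689) (nat_lit 380) (nat_lit 10726623238) (nat_lit 76) (nat_lit 2979951130) (nat_lit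 51) (nat_lit 5) (nat_lit 56) (nat_lit 5) (nat_lit 52) (nat_lit 5) (nat_lit 309) (nat_lit 288) (nat_lit 123)) (XT.lf (nat_lit 0) (nat_lit 25218802939) (nat_lit 228) (nat_lit 48123504719) (nat_lit 304) (nat_lit 4941029835) (nat_lit 48) (nat_lit 5) (nat_lit 51) (nat_lit 5) (nat_lit 52) (nat_lit 5) (nat_lit 310) (nat_lit 288) (nat_lit 122)))) (XT.nd (nat_lit 156) (nat_lit 228) (nat_lit 0) (XT.nd (nat_lit 78) (nat_lit 304) (nat_lit 0) (XT.lf (nat_lit 0) (nat_lit 4310108120) (nat_lit 304) (nat_lit 17480863024) (nat_lit 76) (nat_lit 58949764325) (nat_lit 47) (nat_lit 5) (nat_lit 51) (nat_lit 5) (nat_lit 48) (nat_lit 5) (nat_lit 311) (nat_lit 288) (nat_lit 121)) (XT.lf (nat_lit 0) (nat_lit 14274285364) (nat_lit 380) (nat_lit 62944403612) (nat_lit 76) (nat_lit 6077439610) (nat_lit 43) (nat_lit 5) (nat_lit 48) (nat_lit 5) (nat_lit 44) (nat_lit 5) (nat_lit 312) (nat_lit 288) (nat_lit 120))) (XT.nd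 (nat_lit 78) (nat_lit 228) (nat_lit 0) (XT.lf (nat_lit 0) (nat_lit 25393978081) (nat_lit 380) (nat_lit 25644775116) (nat_lit 76) (nat_lit 34907674676) (nat_lit 43) (nat_lit 5) (nat_lit 48) (nat_lit 5) (nat_lit 44) (nat_lit 5) (nat_lit 313) (nat_lit 288) (nat_lit 119)) (XT.nd (nat_lit 78) (nat_lit 0) (nat_lit 0) (XT.lf (nat_lit 0) (nat_lit 13965836109) (nat_lit 228) (nat_lit 23321081806) (nat_lit 304) (nat_lit 51431462841) (nat_lit 40) (nat_lit 5) (nat_lit 43) (nat_lit 5) (nat_lit 44) (nat_lit 5) (nat_lit 314) (nat_lit 288) (nat_lit 118)) (XT.lf (nat_lit 0) (nat_lit 50305447144) (nat_lit 304) (nat_lit 35258322798) (nat_lit 76) (nat_lit 6038615895) (nat_lit 40) (nat_lit 5) (nat_lit 44) (nat_lit 5) (nat_lit 41) (nat_lit 5) (nat_lit 315) (nat_lit 288) (nat_lit 117)))))) (XT.nd (nat_lit 312) (nat_lit 380) (nat_lit 0) (XT.nd (nat_lit 156) (nat_lit 228) (nat_lit 0) (XT.nd (nat_lit 78) (nat_lit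 0) (nat_lit 0) (XT.lf (nat_lit 0) (nat_lit 6020010464) (nat_lit 228) (nat_lit 58430466167) (nat_lit 304) (nat_lit 30156337443) (nat_lit 37) (nat_lit 5) (nat_lit 40) (nat_lit 5) (nat_lit 41) (nat_lit 5) (nat_lit 316) (nat_lit 288) (nat_lit 116)) (XT.lf (nat_lit 0) (nat_lit 50585400508) (nat_lit 228) (nat_lit 29313765447) (nat_lit 304) (nat_lit 17832478868) (nat_lit 37) (nat_lit 5) (nat_lit 40) (nat_lit 5) (nat_lit 41) (nat_lit 5) (nat_lit 317) (nat_lit 288) (nat_lit 115))) (XT.nd (nat_lit 78) (nat_lit 228) (nat_lit 0) (XT.lf (nat_lit 0) (nat_lit 96139264434) (nat_lit 304) (nat_lit 3654245616) (nat_lit 76) (nat_lit 1218259769) (nat_lit 37) (nat_lit 5) (nat_lit 41) (nat_lit 5) (nat_lit 38) (nat_lit 5) (nat_lit 318) (nat_lit 288) (nat_lit 114)) (XT.lf (nat_lit 0) (nat_lit 9624485434) (nat_lit 228) (nat_lit 61649540230) (nat_lit 76) (nat_lit 33116627048) (nat_lit 34) (nat_lit 5) (nat_lit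 37) (nat_lit 5) (nat_lit 35) (nat_lit 5) (nat_lit 319) (nat_lit 288) (nat_lit 113)))) (XT.nd (nat_lit 156) (nat_lit 152) (nat_lit 0) (XT.nd (nat_lit 78) (nat_lit 228) (nat_lit 0) (XT.lf (nat_lit 0) (nat_lit 24744838162) (nat_lit 228) (nat_lit 16434070582) (nat_lit 76) (nat_lit 66752465374) (nat_lit 34) (nat_lit 5) (nat_lit 37) (nat_lit 5) (nat_lit 35) (nat_lit 5) (nat_lit 320) (nat_lit 288) (nat_lit 112)) (XT.lf (nat_lit 0) (nat_lit 32067682337) (nat_lit 228) (nat_lit 9053582624) (nat_lit 304) (nat_lit 70502864999) (nat_lit 31) (nat_lit 5) (nat_lit 34) (nat_lit 5) (nat_lit 35) (nat_lit 5) (nat_lit 321) (nat_lit 288) (nat_lit 111))) (XT.nd (nat_lit 78) (nat_lit 152) (nat_lit 0) (XT.lf (nat_lit 0) (nat_lit 58984089596) (nat_lit 304) (nat_lit 32313255879) (nat_lit 76) (nat_lit 24170800427) (nat_lit 31) (nat_lit 5) (nat_lit 35) (nat_lit 5) (nat_lit 32) (nat_lit 5) (nat_lit 322) (nat_lit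 288) (nat_lit 110)) (XT.nd (nat_lit 78) (nat_lit 0) (nat_lit 0) (XT.lf (nat_lit 0) (nat_lit 17709667985) (nat_lit 152) (nat_lit 60454734944) (nat_lit 228) (nat_lit 41318743417) (nat_lit 29) (nat_lit 5) (nat_lit 31) (nat_lit 5) (nat_lit 32) (nat_lit 5) (nat_lit 323) (nat_lit 288) (nat_lit 109)) (XT.lf (nat_lit 0) (nat_lit 71354766624) (nat_lit 152) (nat_lit 27495650858) (nat_lit 228) (nat_lit 24821146079) (nat_lit 29) (nat_lit 5) (nat_lit 31) (nat_lit 5) (nat_lit 32) (nat_lit 5) (nat_lit 324) (nat_lit 288) (nat_lit 108))))))) (XT.nd (nat_lit 702) (nat_lit 456) (nat_lit 0) (XT.nd (nat_lit 312) (nat_lit 304) (nat_lit 0) (XT.nd (nat_lit 156) (nat_lit 152) (nat_lit 0) (XT.nd (nat_lit 78) (nat_lit 228) (nat_lit 0) (XT.lf (nat_lit 0) (nat_lit 120681228952) (nat_lit 228) (nat_lit 499109583) (nat_lit 76) (nat_lit 6883539271) (nat_lit 29) (nat_lit 5) (nat_lit 32) (nat_lit 5) (nat_lit 30) (nat_lit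 5) (nat_lit 325) (nat_lit 288) (nat_lit 107)) (XT.lf (nat_lit 0) (nat_lit 11911997452) (nat_lit 228) (nat_lit 77576800663) (nat_lit 76) (nat_lit 43111780816) (nat_lit 26) (nat_lit 5) (nat_lit 29) (nat_lit 5) (nat_lit 27) (nat_lit 5) (nat_lit 326) (nat_lit 288) (nat_lit 106))) (XT.nd (nat_lit 78) (nat_lit 152) (nat_lit 0) (XT.lf (nat_lit 0) (nat_lit 31931358236) (nat_lit 228) (nat_lit 24145486209) (nat_lit 76) (nat_lit 81280815782) (nat_lit 26) (nat_lit 5) (nat_lit 29) (nat_lit 5) (nat_lit 27) (nat_lit 5) (nat_lit 327) (nat_lit 288) (nat_lit 105)) (XT.lf (nat_lit 0) (nat_lit 33013295498) (nat_lit 152) (nat_lit 20453341951) (nat_lit 228) (nat_lit 88860211425) (nat_lit 24) (nat_lit 5) (nat_lit 26) (nat_lit 5) (nat_lit 27) (nat_lit 5) (nat_lit 328) (nat_lit 288) (nat_lit 104)))) (XT.nd (nat_lit 156) (nat_lit 152) (nat_lit 0) (XT.nd (nat_lit 78) (nat_lit 152) (nat_lit 0) (XT.lf (nat_lit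 0) (nat_lit 76758485550) (nat_lit 228) (nat_lit 53927858097) (nat_lit 76) (nat_lit 16824163824) (nat_lit 24) (nat_lit 5) (nat_lit 27) (nat_lit 5) (nat_lit 25) (nat_lit 5) (nat_lit 329) (nat_lit 288) (nat_lit 103)) (XT.lf (nat_lit 0) (nat_lit 4019775774) (nat_lit 152) (nat_lit 97592761455) (nat_lit 228) (nat_lit 51320931942) (nat_lit 22) (nat_lit 5) (nat_lit 24) (nat_lit 5) (nat_lit 25) (nat_lit 5) (nat_lit 330) (nat_lit 288) (nat_lit 102))) (XT.nd (nat_lit 78) (nat_lit 152) (nat_lit 0) (XT.lf (nat_lit 0) (nat_lit 66736352734) (nat_lit 152) (nat_lit 61885794248) (nat_lit 228) (nat_lit 29959789894) (nat_lit 22) (nat_lit 5) (nat_lit 24) (nat_lit 5) (nat_lit 25) (nat_lit 5) (nat_lit 331) (nat_lit 288) (nat_lit 101)) (XT.nd (nat_lit 78) (nat_lit 152) (nat_lit 0) (XT.lf (nat_lit 0) (nat_lit 132588099432) (nat_lit 152) (nat_lit 24393719809) (nat_lit 228) (nat_lit 7531030286) (nat_lit 22) (nat_lit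 5) (nat_lit 24) (nat_lit 5) (nat_lit 25) (nat_lit 5) (nat_lit 332) (nat_lit 288) (nat_lit 100)) (XT.lf (nat_lit 0) (nat_lit 16247871954) (nat_lit 152) (nat_lit 139191197905) (nat_lit 76) (nat_lit 15251662446) (nat_lit 20) (nat_lit 5) (nat_lit 22) (nat_lit 5) (nat_lit 21) (nat_lit 5) (nat_lit 333) (nat_lit 288) (nat_lit 99)))))) (XT.nd (nat_lit 312) (nat_lit 304) (nat_lit 0) (XT.nd (nat_lit 156) (nat_lit 152) (nat_lit 0) (XT.nd (nat_lit 78) (nat_lit 0) (nat_lit 0) (XT.lf (nat_lit 0) (nat_lit 41911649285) (nat_lit 152) (nat_lit 78479955720) (nat_lit 76) (nat_lit 56732280713) (nat_lit 20) (nat_lit 5) (nat_lit 22) (nat_lit 5) (nat_lit 21) (nat_lit 5) (nat_lit 334) (nat_lit 288) (nat_lit 98)) (XT.lf (nat_lit 0) (nat_lit 68858235050) (nat_lit 152) (nat_lit 14733768621) (nat_lit 76) (nat_lit 100286712698) (nat_lit 20) (nat_lit 5) (nat_lit 22) (nat_lit 5) (nat_lit 21) (nat_lit 5) (nat_lit 335)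 (nat_lit 288) (nat_lit 97))) (XT.nd (nat_lit 78) (nat_lit 0) (nat_lit 0) (XT.lf (nat_lit 0) (nat_lit 53925079335) (nat_lit 152) (nat_lit 44068630064) (nat_lit 228) (nat_lit 92935501706) (nat_lit 18) (nat_lit 5) (nat_lit 20) (nat_lit 5) (nat_lit 21) (nat_lit 5) (nat_lit 336) (nat_lit 288) (nat_lit 96)) (XT.lf (nat_lit 0) (nat_lit 126527814543) (nat_lit 152) (nat_lit 2307312333) (nat_lit 228) (nat_lit 69484645727) (nat_lit 18) (nat_lit 5) (nat_lit 20) (nat_lit 5) (nat_lit 21) (nat_lit 5) (nat_lit 337) (nat_lit 288) (nat_lit 95)))) (XT.nd (nat_lit 156) (nat_lit 228) (nat_lit 0) (XT.nd (nat_lit 78) (nat_lit 76) (nat_lit 0) (XT.lf (nat_lit 0) (nat_lit 161866862814) (nat_lit 228) (nat_lit 3968328601) (nat_lit 76) (nat_lit 40212258850) (nat_lit 18) (nat_lit 5) (nat_lit 21) (nat_lit 5) (nat_lit 19) (nat_lit 4) (nat_lit 338) (nat_lit 288) (nat_lit 94)) (XT.lf (nat_lit 0) (nat_lit 69430323605)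 (nat_lit 76) (nat_lit 128241364318) (nat_lit 152) (nat_lit 16433749217) (nat_lit 17) (nat_lit 5) (nat_lit 18) (nat_lit 5) (nat_lit 19) (nat_lit 4) (nat_lit 339) (nat_lit 288) (nat_lit 93))) (XT.nd (nat_lit 78) (nat_lit 152) (nat_lit 0) (XT.lf (nat_lit 0) (nat_lit 12361922340) (nat_lit 152) (nat_lit 76126214593) (nat_lit 76) (nat_lit 134064873141) (nat_lit 16) (nat_lit 5) (nat_lit 18) (nat_lit 5) (nat_lit 17) (nat_lit 5) (nat_lit 340) (nat_lit 288) (nat_lit 92)) (XT.nd (nat_lit 78) (nat_lit 152) (nat_lit 0) (XT.lf (nat_lit 0) (nat_lit 42044788333) (nat_lit 152) (nat_lit 4419790991) (nat_lit 76) (nat_lit 184944927802) (nat_lit 16) (nat_lit 5) (nat_lit 18) (nat_lit 5) (nat_lit 17) (nat_lit 5) (nat_lit 341) (nat_lit 288) (nat_lit 91)) (XT.lf (nat_lit 0) (nat_lit 73214794386) (nat_lit 152) (nat_lit 1139798595) (nat_lit 228) (nat_lit 166297096650) (nat_lit 14) (nat_lit 5) (nat_lit 16) (nat_lit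 5) (nat_lit 17) (nat_lit 5) (nat_lit 342) (nat_lit 288) (nat_lit 90))))))))
noncomputable def xc233 : XT := (XT.nd (nat_lit 34632) (nat_lit 0) (nat_lit 1292) (XT.nd (nat_lit 33930) (nat_lit 0) (nat_lit 3420) (XT.nd (nat_lit 33540) (nat_lit 0) (nat_lit 4712) (XT.nd (nat_lit 33384) (nat_lit 0) (nat_lit 4636) (XT.nd (nat_lit 33306) (nat_lit 0) (nat_lit 4636) (XT.lf (nat_lit 0) (nat_lit 109080910562) (nat_lit 228) (nat_lit 96194639081) (nat_lit 76) (nat_lit 45040380834) (nat_lit 14) (nat_lit 5) (nat_lit 17) (nat_lit 5) (nat_lit 15) (nat_lit 4) (nat_lit 343) (nat_lit 288) (nat_lit 89)) (XT.lf (nat_lit 0) (nat_lit 6156387848) (nat_lit 0) (nat_lit 6156387848) (nat_lit 684) (nat_lit 10089746648) (nat_lit 75) (nat_lit 5) (nat_lit 75) (nat_lit 3) (nat_lit 84) (nat_lit 3) (nat_lit 289) (nat_lit 289) (nat_lit 142))) (XT.nd (nat_lit 78) (nat_lit 0) (nat_lit 0) (XT.lf (nat_lit 0) (nat_lit 25389389100)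 (nat_lit 684) (nat_lit 13201295188) (nat_lit 760) (nat_lit 7326988078) (nat_lit 75) (nat_lit 5) (nat_lit 84) (nat_lit 3) (nat_lit 85) (nat_lit 5) (nat_lit 290) (nat_lit 289) (nat_lit 141)) (XT.lf (nat_lit 76) (nat_lit 7077835836) (nat_lit 0) (nat_lit 19424029728) (nat_lit 760) (nat_lit 20568549185) (nat_lit 76) (nat_lit 5) (nat_lit 75) (nat_lit 5) (nat_lit 85) (nat_lit 5) (nat_lit 291) (nat_lit 289) (nat_lit 140)))) (XT.nd (nat_lit 156) (nat_lit 0) (nat_lit 0) (XT.nd (nat_lit 78) (nat_lit 0) (nat_lit 0) (XT.lf (nat_lit 0) (nat_lit 27906324714) (nat_lit 684) (nat_lit 19456151494) (nat_lit 760) (nat_lit 906505493) (nat_lit 76) (nat_lit 5) (nat_lit 85) (nat_lit 5) (nat_lit 86) (nat_lit 5) (nat_lit 292) (nat_lit 289) (nat_lit 139)) (XT.lf (nat_lit 76) (nat_lit 1846661631) (nat_lit 0) (nat_lit 27879869698) (nat_lit 760) (nat_lit 19783674586) (nat_lit 77) (nat_lit 5) (nat_lit 76) (nat_lit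 5) (nat_lit 86) (nat_lit 5) (nat_lit 293) (nat_lit 289) (nat_lit 138))) (XT.nd (nat_lit 78) (nat_lit 0) (nat_lit 76) (XT.lf (nat_lit 76) (nat_lit 24888993372) (nat_lit 0) (nat_lit 7076585926) (nat_lit 760) (nat_lit 18831525383) (nat_lit 77) (nat_lit 5) (nat_lit 76) (nat_lit 5) (nat_lit 86) (nat_lit 5) (nat_lit 294) (nat_lit 289) (nat_lit 137)) (XT.nd (nat_lit 78) (nat_lit 0) (nat_lit 0) (XT.lf (nat_lit 0) (nat_lit 34545551408) (nat_lit 684) (nat_lit 3296594918) (nat_lit 760) (nat_lit 14294758133) (nat_lit 77) (nat_lit 5) (nat_lit 86) (nat_lit 5) (nat_lit 87) (nat_lit 5) (nat_lit 295) (nat_lit 289) (nat_lit 136)) (XT.lf (nat_lit 76) (nat_lit 21000554553) (nat_lit 0) (nat_lit 16696349581) (nat_lit 760) (nat_lit 15824675429) (nat_lit 78) (nat_lit 5) (nat_lit 77) (nat_lit 5) (nat_lit 87) (nat_lit 5) (nat_lit 296) (nat_lit 289) (nat_lit 135)))))) (XT.nd (nat_lit 312) (nat_lit 836) (nat_lit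 0) (XT.nd (nat_lit 156) (nat_lit 608) (nat_lit 0) (XT.nd (nat_lit 78) (nat_lit 0) (nat_lit 0) (XT.lf (nat_lit 0) (nat_lit 41147100727) (nat_lit 684) (nat_lit 8433723282) (nat_lit 760) (nat_lit 5387604830) (nat_lit 78) (nat_lit 5) (nat_lit 87) (nat_lit 5) (nat_lit 88) (nat_lit 5) (nat_lit 297) (nat_lit 289) (nat_lit 134)) (XT.lf (nat_lit 76) (nat_lit 17131453698) (nat_lit 0) (nat_lit 28178158831) (nat_lit 760) (nat_lit 11151021806) (nat_lit 79) (nat_lit 5) (nat_lit 78) (nat_lit 5) (nat_lit 88) (nat_lit 5) (nat_lit 298) (nat_lit 289) (nat_lit 133))) (XT.nd (nat_lit 78) (nat_lit 608) (nat_lit 0) (XT.lf (nat_lit 76) (nat_lit 44266614289) (nat_lit 0) (nat_lit 5555138250) (nat_lit 760) (nat_lit 8198626270) (nat_lit 79) (nat_lit 5) (nat_lit 78) (nat_lit 5) (nat_lit 88) (nat_lit 5) (nat_lit 299) (nat_lit 289) (nat_lit 132)) (XT.lf (nat_lit 0) (nat_lit 13238918112) (nat_lit 684) (nat_lit 41810156308)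 (nat_lit 760) (nat_lit 4584560996) (nat_lit 70) (nat_lit 5) (nat_lit 79) (nat_lit 5) (nat_lit 80) (nat_lit 5) (nat_lit 300) (nat_lit 289) (nat_lit 131)))) (XT.nd (nat_lit 156) (nat_lit 380) (nat_lit 0) (XT.nd (nat_lit 78) (nat_lit 456) (nat_lit 0) (XT.lf (nat_lit 0) (nat_lit 41963578786) (nat_lit 684) (nat_lit 18895492783) (nat_lit 760) (nat_lit 452421300) (nat_lit 70) (nat_lit 5) (nat_lit 79) (nat_lit 5) (nat_lit 80) (nat_lit 5) (nat_lit 301) (nat_lit 289) (nat_lit 130)) (XT.lf (nat_lit 0) (nat_lit 3989761634) (nat_lit 456) (nat_lit 53860315843) (nat_lit 76) (nat_lit 5208743906) (nat_lit 64) (nat_lit 5) (nat_lit 70) (nat_lit 5) (nat_lit 65) (nat_lit 5) (nat_lit 302) (nat_lit 289) (nat_lit 129))) (XT.nd (nat_lit 78) (nat_lit 380) (nat_lit 0) (XT.lf (nat_lit 0) (nat_lit 9280509918) (nat_lit 456) (nat_lit 25356833415) (nat_lit 76) (nat_lit 30223722131) (nat_lit 64) (nat_lit 5) (nat_lit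 70) (nat_lit 5) (nat_lit 65) (nat_lit 5) (nat_lit 303) (nat_lit 289) (nat_lit 128)) (XT.nd (nat_lit 78) (nat_lit 0) (nat_lit 0) (XT.lf (nat_lit 0) (nat_lit 4721894243) (nat_lit 380) (nat_lit 10186538118) (nat_lit 456) (nat_lit 51841360410) (nat_lit 59) (nat_lit 5) (nat_lit 64) (nat_lit 5) (nat_lit 65) (nat_lit 5) (nat_lit 304) (nat_lit 289) (nat_lit 127)) (XT.lf (nat_lit 0) (nat_lit 21494963755) (nat_lit 456) (nat_lit 31776524209) (nat_lit 76) (nat_lit 15427610563) (nat_lit 59) (nat_lit 5) (nat_lit 65) (nat_lit 5) (nat_lit 60) (nat_lit 5) (nat_lit 305) (nat_lit 289) (nat_lit 126))))))) (XT.nd (nat_lit 702) (nat_lit 912) (nat_lit 0) (XT.nd (nat_lit 312) (nat_lit 608) (nat_lit 0) (XT.nd (nat_lit 156) (nat_lit 304) (nat_lit 0) (XT.nd (nat_lit 78) (nat_lit 304) (nat_lit 0) (XT.lf (nat_lit 0) (nat_lit 28576814413) (nat_lit 456) (nat_lit 180618607) (nat_lit 76) (nat_lit 41980139513) (nat_lit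 59) (nat_lit 5) (nat_lit 65) (nat_lit 5) (nat_lit 60) (nat_lit 5) (nat_lit 306) (nat_lit 289) (nat_lit 125)) (XT.lf (nat_lit 0) (nat_lit 34085020555) (nat_lit 304) (nat_lit 2458947615) (nat_lit 380) (nat_lit 36307444011) (nat_lit 55) (nat_lit 5) (nat_lit 59) (nat_lit 5) (nat_lit 60) (nat_lit 5) (nat_lit 307) (nat_lit 289) (nat_lit 124))) (XT.nd (nat_lit 78) (nat_lit 304) (nat_lit 0) (XT.lf (nat_lit 0) (nat_lit 45304397306) (nat_lit 380) (nat_lit 5394387073) (nat_lit 76) (nat_lit 24352415903) (nat_lit 55) (nat_lit 5) (nat_lit 60) (nat_lit 5) (nat_lit 56) (nat_lit 5) (nat_lit 308) (nat_lit 289) (nat_lit 123)) (XT.lf (nat_lit 0) (nat_lit 30583801887) (nat_lit 304) (nat_lit 24435976468) (nat_lit 380) (nat_lit 22315355150) (nat_lit 51) (nat_lit 5) (nat_lit 55) (nat_lit 5) (nat_lit 56) (nat_lit 5) (nat_lit 309) (nat_lit 289) (nat_lit 122)))) (XT.nd (nat_lit 156) (nat_lit 380) (nat_lit 0)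 (XT.nd (nat_lit 78) (nat_lit 228) (nat_lit 0) (XT.lf (nat_lit 0) (nat_lit 65361952526) (nat_lit 380) (nat_lit 11232040856) (nat_lit 76) (nat_lit 3132220940) (nat_lit 51) (nat_lit 5) (nat_lit 56) (nat_lit 5) (nat_lit 52) (nat_lit 5) (nat_lit 310) (nat_lit 289) (nat_lit 121)) (XT.lf (nat_lit 0) (nat_lit 26510158025) (nat_lit 228) (nat_lit 50524751784) (nat_lit 304) (nat_lit 5161257683) (nat_lit 48) (nat_lit 5) (nat_lit 51) (nat_lit 5) (nat_lit 52) (nat_lit 5) (nat_lit 311) (nat_lit 289) (nat_lit 120))) (XT.nd (nat_lit 78) (nat_lit 304) (nat_lit 0) (XT.lf (nat_lit 0) (nat_lit 4550342212) (nat_lit 304) (nat_lit 18325065202) (nat_lit 76) (nat_lit 61901071671) (nat_lit 47) (nat_lit 5) (nat_lit 51) (nat_lit 5) (nat_lit 48) (nat_lit 5) (nat_lit 312) (nat_lit 289) (nat_lit 119)) (XT.nd (nat_lit 78) (nat_lit 0) (nat_lit 0) (XT.lf (nat_lit 0) (nat_lit 15012092679) (nat_lit 380) (nat_lit 66061093159)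 (nat_lit 76) (nat_lit 6386490503) (nat_lit 43) (nat_lit 5) (nat_lit 48) (nat_lit 5) (nat_lit 44) (nat_lit 5) (nat_lit 313) (nat_lit 289) (nat_lit 118)) (XT.lf (nat_lit 0) (nat_lit 26686622744) (nat_lit 380) (nat_lit 26897937078) (nat_lit 76) (nat_lit 36657990708) (nat_lit 43) (nat_lit 5) (nat_lit 48) (nat_lit 5) (nat_lit 44) (nat_lit 5) (nat_lit 314) (nat_lit 289) (nat_lit 117)))))) (XT.nd (nat_lit 312) (nat_lit 456) (nat_lit 0) (XT.nd (nat_lit 156) (nat_lit 228) (nat_lit 0) (XT.nd (nat_lit 78) (nat_lit 0) (nat_lit 0) (XT.lf (nat_lit 0) (nat_lit 14692735728) (nat_lit 228) (nat_lit 24480827835) (nat_lit 304) (nat_lit 53979572245) (nat_lit 40) (nat_lit 5) (nat_lit 43) (nat_lit 5) (nat_lit 44) (nat_lit 5) (nat_lit 315) (nat_lit 289) (nat_lit 116)) (XT.lf (nat_lit 0) (nat_lit 52842051157) (nat_lit 304) (nat_lit 36992978639) (nat_lit 76) (nat_lit 6346362084) (nat_lit 40) (nat_lit 5) (nat_lit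 44) (nat_lit 5) (nat_lit 41) (nat_lit 5) (nat_lit 316) (nat_lit 289) (nat_lit 115))) (XT.nd (nat_lit 78) (nat_lit 0) (nat_lit 0) (XT.lf (nat_lit 0) (nat_lit 6348815474) (nat_lit 228) (nat_lit 61344934957) (nat_lit 304) (nat_lit 31642322405) (nat_lit 37) (nat_lit 5) (nat_lit 40) (nat_lit 5) (nat_lit 41) (nat_lit 5) (nat_lit 317) (nat_lit 289) (nat_lit 114)) (XT.lf (nat_lit 0) (nat_lit 53141150998) (nat_lit 228) (nat_lit 30772735129) (nat_lit 304) (nat_lit 18703310516) (nat_lit 37) (nat_lit 5) (nat_lit 40) (nat_lit 5) (nat_lit 41) (nat_lit 5) (nat_lit 318) (nat_lit 289) (nat_lit 113)))) (XT.nd (nat_lit 156) (nat_lit 228) (nat_lit 0) (XT.nd (nat_lit 78) (nat_lit 228) (nat_lit 0) (XT.lf (nat_lit 0) (nat_lit 100965148390) (nat_lit 304) (nat_lit 3810856955) (nat_lit 76) (nat_lit 1285366617) (nat_lit 37) (nat_lit 5) (nat_lit 41) (nat_lit 5) (nat_lit 38) (nat_lit 5) (nat_lit 319) (nat_lit 289)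 (nat_lit 112)) (XT.lf (nat_lit 0) (nat_lit 10124469531) (nat_lit 228) (nat_lit 64705680434) (nat_lit 76) (nat_lit 34779060829) (nat_lit 34) (nat_lit 5) (nat_lit 37) (nat_lit 5) (nat_lit 35) (nat_lit 5) (nat_lit 320) (nat_lit 289) (nat_lit 111))) (XT.nd (nat_lit 78) (nat_lit 228) (nat_lit 0) (XT.lf (nat_lit 0) (nat_lit 25999946570) (nat_lit 228) (nat_lit 17230691437) (nat_lit 76) (nat_lit 70096376669) (nat_lit 34) (nat_lit 5) (nat_lit 37) (nat_lit 5) (nat_lit 35) (nat_lit 5) (nat_lit 321) (nat_lit 289) (nat_lit 110)) (XT.nd (nat_lit 78) (nat_lit 0) (nat_lit 0) (XT.lf (nat_lit 0) (nat_lit 33695744569) (nat_lit 228) (nat_lit 9498984649) (nat_lit 304) (nat_lit 74009704025) (nat_lit 31) (nat_lit 5) (nat_lit 34) (nat_lit 5) (nat_lit 35) (nat_lit 5) (nat_lit 322) (nat_lit 289) (nat_lit 109)) (XT.lf (nat_lit 0) (nat_lit 61949974671) (nat_lit 304) (nat_lit 33904663707) (nat_lit 76) (nat_lit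 25386049204) (nat_lit 31) (nat_lit 5) (nat_lit 35) (nat_lit 5) (nat_lit 32) (nat_lit 5) (nat_lit 323) (nat_lit 289) (nat_lit 108))))))))
noncomputable def xc234 : XT := (XT.nd (nat_lit 1404) (nat_lit 0) (nat_lit 0) (XT.nd (nat_lit 702) (nat_lit 456) (nat_lit 0) (XT.nd (nat_lit 312) (nat_lit 304) (nat_lit 0) (XT.nd (nat_lit 156) (nat_lit 228) (nat_lit 0) (XT.nd (nat_lit 78) (nat_lit 0) (nat_lit 0) (XT.lf (nat_lit 0) (nat_lit 18619015141) (nat_lit 152) (nat_lit 63469866795) (nat_lit 228) (nat_lit 43367578703) (nat_lit 29) (nat_lit 5) (nat_lit 31) (nat_lit 5) (nat_lit 32) (nat_lit 5) (nat_lit 324) (nat_lit 289) (nat_lit 107)) (XT.lf (nat_lit 0) (nat_lit 74945232342) (nat_lit 152) (nat_lit 28863190643) (nat_lit 228) (nat_lit 26045915873) (nat_lit 29) (nat_lit 5) (nat_lit 31) (nat_lit 5) (nat_lit 32) (nat_lit 5) (nat_lit 325) (nat_lit 289) (nat_lit 106))) (XT.nd (nat_lit 78) (nat_lit 228)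 (nat_lit 0) (XT.lf (nat_lit 0) (nat_lit 126730145360) (nat_lit 228) (nat_lit 501762979) (nat_lit 76) (nat_lit 7234393324) (nat_lit 29) (nat_lit 5) (nat_lit 32) (nat_lit 5) (nat_lit 30) (nat_lit 5) (nat_lit 326) (nat_lit 289) (nat_lit 105)) (XT.lf (nat_lit 0) (nat_lit 12522350185) (nat_lit 228) (nat_lit 81433185780) (nat_lit 76) (nat_lit 45274309521) (nat_lit 26) (nat_lit 5) (nat_lit 29) (nat_lit 5) (nat_lit 27) (nat_lit 5) (nat_lit 327) (nat_lit 289) (nat_lit 104)))) (XT.nd (nat_lit 156) (nat_lit 152) (nat_lit 0) (XT.nd (nat_lit 78) (nat_lit 152) (nat_lit 0) (XT.lf (nat_lit 0) (nat_lit 33541976492) (nat_lit 228) (nat_lit 25331374885) (nat_lit 76) (nat_lit 85351465775) (nat_lit 26) (nat_lit 5) (nat_lit 29) (nat_lit 5) (nat_lit 27) (nat_lit 5) (nat_lit 328) (nat_lit 289) (nat_lit 103)) (XT.lf (nat_lit 0) (nat_lit 34685000978) (nat_lit 152) (nat_lit 21468678128) (nat_lit 228) (nat_lit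 93288804275) (nat_lit 24) (nat_lit 5) (nat_lit 26) (nat_lit 5) (nat_lit 27) (nat_lit 5) (nat_lit 329) (nat_lit 289) (nat_lit 102))) (XT.nd (nat_lit 78) (nat_lit 152) (nat_lit 0) (XT.lf (nat_lit 0) (nat_lit 80609575771) (nat_lit 228) (nat_lit 56603647016) (nat_lit 76) (nat_lit 17672130383) (nat_lit 24) (nat_lit 5) (nat_lit 27) (nat_lit 5) (nat_lit 25) (nat_lit 5) (nat_lit 330) (nat_lit 289) (nat_lit 101)) (XT.nd (nat_lit 78) (nat_lit 0) (nat_lit 0) (XT.lf (nat_lit 0) (nat_lit 4241036226) (nat_lit 152) (nat_lit 102464983355) (nat_lit 228) (nat_lit 53873459913) (nat_lit 22) (nat_lit 5) (nat_lit 24) (nat_lit 5) (nat_lit 25) (nat_lit 5) (nat_lit 331) (nat_lit 289) (nat_lit 100)) (XT.lf (nat_lit 0) (nat_lit 70092476717) (nat_lit 152) (nat_lit 64973020939) (nat_lit 228) (nat_lit 31444904507) (nat_lit 22) (nat_lit 5) (nat_lit 24) (nat_lit 5) (nat_lit 25) (nat_lit 5) (nat_lit 332) (nat_lit 289)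 (nat_lit 99)))))) (XT.nd (nat_lit 312) (nat_lit 304) (nat_lit 0) (XT.nd (nat_lit 156) (nat_lit 0) (nat_lit 0) (XT.nd (nat_lit 78) (nat_lit 152) (nat_lit 0) (XT.lf (nat_lit 0) (nat_lit 139235891401) (nat_lit 152) (nat_lit 25606679112) (nat_lit 228) (nat_lit 7895320008) (nat_lit 22) (nat_lit 5) (nat_lit 24) (nat_lit 5) (nat_lit 25) (nat_lit 5) (nat_lit 333) (nat_lit 289) (nat_lit 98)) (XT.lf (nat_lit 0) (nat_lit 17071966168) (nat_lit 152) (nat_lit 146131775290) (nat_lit 76) (nat_lit 16020925681) (nat_lit 20) (nat_lit 5) (nat_lit 22) (nat_lit 5) (nat_lit 21) (nat_lit 5) (nat_lit 334) (nat_lit 289) (nat_lit 97))) (XT.nd (nat_lit 78) (nat_lit 0) (nat_lit 0) (XT.lf (nat_lit 0) (nat_lit 44018375194) (nat_lit 152) (nat_lit 82385874925) (nat_lit 76) (nat_lit 59575256761) (nat_lit 20) (nat_lit 5) (nat_lit 22) (nat_lit 5) (nat_lit 21) (nat_lit 5) (nat_lit 335) (nat_lit 289) (nat_lit 96)) (XT.lf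 (nat_lit 0) (nat_lit 72311759607) (nat_lit 152) (nat_lit 15453239355) (nat_lit 76) (nat_lit 105307107392) (nat_lit 20) (nat_lit 5) (nat_lit 22) (nat_lit 5) (nat_lit 21) (nat_lit 5) (nat_lit 336) (nat_lit 289) (nat_lit 95)))) (XT.nd (nat_lit 156) (nat_lit 152) (nat_lit 0) (XT.nd (nat_lit 78) (nat_lit 0) (nat_lit 0) (XT.lf (nat_lit 0) (nat_lit 56638273294) (nat_lit 152) (nat_lit 46265493489) (nat_lit 228) (nat_lit 97571371813) (nat_lit 18) (nat_lit 5) (nat_lit 20) (nat_lit 5) (nat_lit 21) (nat_lit 5) (nat_lit 337) (nat_lit 289) (nat_lit 94)) (XT.lf (nat_lit 0) (nat_lit 132870338595) (nat_lit 152) (nat_lit 2416422636) (nat_lit 228) (nat_lit 72948492320) (nat_lit 18) (nat_lit 5) (nat_lit 20) (nat_lit 5) (nat_lit 21) (nat_lit 5) (nat_lit 338) (nat_lit 289) (nat_lit 93))) (XT.nd (nat_lit 78) (nat_lit 152) (nat_lit 0) (XT.lf (nat_lit 0) (nat_lit 169969706598) (nat_lit 228) (nat_lit 4150989466)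 (nat_lit 76) (nat_lit 42228638558) (nat_lit 18) (nat_lit 5) (nat_lit 21) (nat_lit 5) (nat_lit 19) (nat_lit 4) (nat_lit 339) (nat_lit 289) (nat_lit 92)) (XT.nd (nat_lit 78) (nat_lit 76) (nat_lit 0) (XT.lf (nat_lit 0) (nat_lit 72917341229) (nat_lit 76) (nat_lit 134647221343) (nat_lit 152) (nat_lit 17245669413) (nat_lit 17) (nat_lit 5) (nat_lit 18) (nat_lit 5) (nat_lit 19) (nat_lit 4) (nat_lit 340) (nat_lit 289) (nat_lit 91)) (XT.lf (nat_lit 0) (nat_lit 12989022887) (nat_lit 152) (nat_lit 79917452978) (nat_lit 76) (nat_lit 140773723154) (nat_lit 16) (nat_lit 5) (nat_lit 18) (nat_lit 5) (nat_lit 17) (nat_lit 5) (nat_lit 341) (nat_lit 289) (nat_lit 90))))))) (XT.nd (nat_lit 34086) (nat_lit 0) (nat_lit 3268) (XT.nd (nat_lit 33696) (nat_lit 0) (nat_lit 4560) (XT.nd (nat_lit 33540) (nat_lit 0) (nat_lit 4484) (XT.nd (nat_lit 33462) (nat_lit 0) (nat_lit 4484) (XT.lf (nat_lit 0) (nat_lit 44155603397)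 (nat_lit 152) (nat_lit 4626425927) (nat_lit 76) (nat_lit 194197513578) (nat_lit 16) (nat_lit 5) (nat_lit 18) (nat_lit 5) (nat_lit 17) (nat_lit 5) (nat_lit 342) (nat_lit 289) (nat_lit 89)) (XT.lf (nat_lit 0) (nat_lit 6478983726) (nat_lit 0) (nat_lit 6478983726) (nat_lit 684) (nat_lit 10563116248) (nat_lit 75) (nat_lit 5) (nat_lit 75) (nat_lit 3) (nat_lit 84) (nat_lit 3) (nat_lit 290) (nat_lit 290) (nat_lit 140))) (XT.nd (nat_lit 78) (nat_lit 0) (nat_lit 0) (XT.lf (nat_lit 0) (nat_lit 26714710495) (nat_lit 684) (nat_lit 13829794331) (nat_lit 760) (nat_lit 7666092634) (nat_lit 75) (nat_lit 5) (nat_lit 84) (nat_lit 3) (nat_lit 85) (nat_lit 5) (nat_lit 291) (nat_lit 290) (nat_lit 139)) (XT.lf (nat_lit 76) (nat_lit 7462784122) (nat_lit 0) (nat_lit 20417851923) (nat_lit 760) (nat_lit 21540457553) (nat_lit 76) (nat_lit 5) (nat_lit 75) (nat_lit 5) (nat_lit 85) (nat_lit 5) (nat_lit 292) (nat_lit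 290) (nat_lit 138)))) (XT.nd (nat_lit 156) (nat_lit 0) (nat_lit 0) (XT.nd (nat_lit 78) (nat_lit 0) (nat_lit 0) (XT.lf (nat_lit 0) (nat_lit 29352425740) (nat_lit 684) (nat_lit 20396338541) (nat_lit 760) (nat_lit 930976764) (nat_lit 76) (nat_lit 5) (nat_lit 85) (nat_lit 5) (nat_lit 86) (nat_lit 5) (nat_lit 293) (nat_lit 290) (nat_lit 137)) (XT.lf (nat_lit 76) (nat_lit 1971089103) (nat_lit 0) (nat_lit 29290636343) (nat_lit 760) (nat_lit 20721404051) (nat_lit 77) (nat_lit 5) (nat_lit 76) (nat_lit 5) (nat_lit 86) (nat_lit 5) (nat_lit 294) (nat_lit 290) (nat_lit 136))) (XT.nd (nat_lit 78) (nat_lit 0) (nat_lit 76) (XT.lf (nat_lit 76) (nat_lit 26164009127) (nat_lit 0) (nat_lit 7446389661) (nat_lit 760) (nat_lit 19724097591) (nat_lit 77) (nat_lit 5) (nat_lit 76) (nat_lit 5) (nat_lit 86) (nat_lit 5) (nat_lit 295) (nat_lit 290) (nat_lit 135)) (XT.nd (nat_lit 78) (nat_lit 0) (nat_lit 0) (XT.lf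 (nat_lit 0) (nat_lit 36316915758) (nat_lit 684) (nat_lit 3429730352) (nat_lit 760) (nat_lit 14994769224) (nat_lit 77) (nat_lit 5) (nat_lit 86) (nat_lit 5) (nat_lit 87) (nat_lit 5) (nat_lit 296) (nat_lit 290) (nat_lit 134)) (XT.lf (nat_lit 76) (nat_lit 22081765394) (nat_lit 0) (nat_lit 17542458212) (nat_lit 760) (nat_lit 16571187404) (nat_lit 78) (nat_lit 5) (nat_lit 77) (nat_lit 5) (nat_lit 87) (nat_lit 5) (nat_lit 297) (nat_lit 290) (nat_lit 133)))))) (XT.nd (nat_lit 312) (nat_lit 836) (nat_lit 0) (XT.nd (nat_lit 156) (nat_lit 608) (nat_lit 0) (XT.nd (nat_lit 78) (nat_lit 0) (nat_lit 0) (XT.lf (nat_lit 0) (nat_lit 43244739552) (nat_lit 684) (nat_lit 8823402844) (nat_lit 760) (nat_lit 5646575772) (nat_lit 78) (nat_lit 5) (nat_lit 87) (nat_lit 5) (nat_lit 88) (nat_lit 5) (nat_lit 298) (nat_lit 290) (nat_lit 132)) (XT.lf (nat_lit 76) (nat_lit 18019516750) (nat_lit 0) (nat_lit 29594433572)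 (nat_lit 760) (nat_lit 11667660565) (nat_lit 79) (nat_lit 5) (nat_lit 78) (nat_lit 5) (nat_lit 88) (nat_lit 5) (nat_lit 299) (nat_lit 290) (nat_lit 131))) (XT.nd (nat_lit 78) (nat_lit 608) (nat_lit 0) (XT.lf (nat_lit 76) (nat_lit 46509935829) (nat_lit 0) (nat_lit 5839911162) (nat_lit 760) (nat_lit 8569593458) (nat_lit 79) (nat_lit 5) (nat_lit 78) (nat_lit 5) (nat_lit 88) (nat_lit 5) (nat_lit 300) (nat_lit 290) (nat_lit 130)) (XT.lf (nat_lit 0) (nat_lit 13932404623) (nat_lit 684) (nat_lit 43904756227) (nat_lit 760) (nat_lit 4776272835) (nat_lit 70) (nat_lit 5) (nat_lit 79) (nat_lit 5) (nat_lit 80) (nat_lit 5) (nat_lit 301) (nat_lit 290) (nat_lit 129)))) (XT.nd (nat_lit 156) (nat_lit 380) (nat_lit 0) (XT.nd (nat_lit 78) (nat_lit 456) (nat_lit 0) (XT.lf (nat_lit 0) (nat_lit 44091796398) (nat_lit 684) (nat_lit 19844164664) (nat_lit 760) (nat_lit 439312641) (nat_lit 70) (nat_lit 5) (nat_lit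 79) (nat_lit 5) (nat_lit 80) (nat_lit 5) (nat_lit 302) (nat_lit 290) (nat_lit 128)) (XT.lf (nat_lit 0) (nat_lit 4222627951) (nat_lit 456) (nat_lit 56520761083) (nat_lit 76) (nat_lit 5466616511) (nat_lit 64) (nat_lit 5) (nat_lit 70) (nat_lit 5) (nat_lit 65) (nat_lit 5) (nat_lit 303) (nat_lit 290) (nat_lit 127))) (XT.nd (nat_lit 78) (nat_lit 380) (nat_lit 0) (XT.lf (nat_lit 0) (nat_lit 9776324209) (nat_lit 456) (nat_lit 26593655513) (nat_lit 76) (nat_lit 31732465770) (nat_lit 64) (nat_lit 5) (nat_lit 70) (nat_lit 5) (nat_lit 65) (nat_lit 5) (nat_lit 304) (nat_lit 290) (nat_lit 126)) (XT.nd (nat_lit 78) (nat_lit 0) (nat_lit 0) (XT.lf (nat_lit 0) (nat_lit 4988508212) (nat_lit 380) (nat_lit 10696097301) (nat_lit 456) (nat_lit 54401059505) (nat_lit 59) (nat_lit 5) (nat_lit 64) (nat_lit 5) (nat_lit 65) (nat_lit 5) (nat_lit 305) (nat_lit 290) (nat_lit 125)) (XT.lf (nat_lit 0) (nat_lit 22598995665)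 (nat_lit 456) (nat_lit 33334740634) (nat_lit 76) (nat_lit 16198776955) (nat_lit 59) (nat_lit 5) (nat_lit 65) (nat_lit 5) (nat_lit 60) (nat_lit 5) (nat_lit 306) (nat_lit 290) (nat_lit 124))))))))
noncomputable def xc235 : XT := (XT.nd (nat_lit 1404) (nat_lit 1140) (nat_lit 0) (XT.nd (nat_lit 702) (nat_lit 912) (nat_lit 0) (XT.nd (nat_lit 312) (nat_lit 608) (nat_lit 0) (XT.nd (nat_lit 156) (nat_lit 304) (nat_lit 0) (XT.nd (nat_lit 78) (nat_lit 304) (nat_lit 0) (XT.lf (nat_lit 0) (nat_lit 30033544393) (nat_lit 456) (nat_lit 160497360) (nat_lit 76) (nat_lit 44078942549) (nat_lit 59) (nat_lit 5) (nat_lit 65) (nat_lit 5) (nat_lit 60) (nat_lit 5) (nat_lit 307) (nat_lit 290) (nat_lit 123)) (XT.lf (nat_lit 0) (nat_lit 35817953563) (nat_lit 304) (nat_lit 2580222021) (nat_lit 380) (nat_lit 38094387809) (nat_lit 55) (nat_lit 5) (nat_lit 59) (nat_lit 5) (nat_lit 60) (nat_lit 5) (nat_lit 308) (nat_lit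 290) (nat_lit 122))) (XT.nd (nat_lit 78) (nat_lit 304) (nat_lit 0) (XT.lf (nat_lit 0) (nat_lit 47595364909) (nat_lit 380) (nat_lit 5635463324) (nat_lit 76) (nat_lit 25571579012) (nat_lit 55) (nat_lit 5) (nat_lit 60) (nat_lit 5) (nat_lit 56) (nat_lit 5) (nat_lit 309) (nat_lit 290) (nat_lit 121)) (XT.lf (nat_lit 0) (nat_lit 32141173099) (nat_lit 304) (nat_lit 25654555815) (nat_lit 380) (nat_lit 23404850647) (nat_lit 51) (nat_lit 5) (nat_lit 55) (nat_lit 5) (nat_lit 56) (nat_lit 5) (nat_lit 310) (nat_lit 290) (nat_lit 120)))) (XT.nd (nat_lit 156) (nat_lit 380) (nat_lit 0) (XT.nd (nat_lit 78) (nat_lit 228) (nat_lit 0) (XT.lf (nat_lit 0) (nat_lit 68653871016) (nat_lit 380) (nat_lit 11765603402) (nat_lit 76) (nat_lit 3291800018) (nat_lit 51) (nat_lit 5) (nat_lit 56) (nat_lit 5) (nat_lit 52) (nat_lit 5) (nat_lit 311) (nat_lit 290) (nat_lit 119)) (XT.lf (nat_lit 0) (nat_lit 27863253173) (nat_lit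 228) (nat_lit 53046519378) (nat_lit 304) (nat_lit 5394990731) (nat_lit 48) (nat_lit 5) (nat_lit 51) (nat_lit 5) (nat_lit 52) (nat_lit 5) (nat_lit 312) (nat_lit 290) (nat_lit 118))) (XT.nd (nat_lit 78) (nat_lit 304) (nat_lit 0) (XT.lf (nat_lit 0) (nat_lit 4800288969) (nat_lit 304) (nat_lit 19214251820) (nat_lit 76) (nat_lit 64999589319) (nat_lit 47) (nat_lit 5) (nat_lit 51) (nat_lit 5) (nat_lit 48) (nat_lit 5) (nat_lit 313) (nat_lit 290) (nat_lit 117)) (XT.nd (nat_lit 78) (nat_lit 0) (nat_lit 0) (XT.lf (nat_lit 0) (nat_lit 15784550417) (nat_lit 380) (nat_lit 69336455632) (nat_lit 76) (nat_lit 6710512455) (nat_lit 43) (nat_lit 5) (nat_lit 48) (nat_lit 5) (nat_lit 44) (nat_lit 5) (nat_lit 314) (nat_lit 290) (nat_lit 116)) (XT.lf (nat_lit 0) (nat_lit 28041766361) (nat_lit 380) (nat_lit 28216460422) (nat_lit 76) (nat_lit 38495363983) (nat_lit 43) (nat_lit 5) (nat_lit 48) (nat_lit 5) (nat_lit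 44) (nat_lit 5) (nat_lit 315) (nat_lit 290) (nat_lit 115)))))) (XT.nd (nat_lit 312) (nat_lit 456) (nat_lit 0) (XT.nd (nat_lit 156) (nat_lit 228) (nat_lit 0) (XT.nd (nat_lit 78) (nat_lit 0) (nat_lit 0) (XT.lf (nat_lit 0) (nat_lit 15453320644) (nat_lit 228) (nat_lit 25699147629) (nat_lit 304) (nat_lit 56657268554) (nat_lit 40) (nat_lit 5) (nat_lit 43) (nat_lit 5) (nat_lit 44) (nat_lit 5) (nat_lit 316) (nat_lit 290) (nat_lit 114)) (XT.lf (nat_lit 0) (nat_lit 55503502155) (nat_lit 304) (nat_lit 38816994647) (nat_lit 76) (nat_lit 6668954923) (nat_lit 40) (nat_lit 5) (nat_lit 44) (nat_lit 5) (nat_lit 41) (nat_lit 5) (nat_lit 317) (nat_lit 290) (nat_lit 113))) (XT.nd (nat_lit 78) (nat_lit 0) (nat_lit 0) (XT.lf (nat_lit 0) (nat_lit 6691475738) (nat_lit 228) (nat_lit 64405783048) (nat_lit 304) (nat_lit 33204636339) (nat_lit 37) (nat_lit 5) (nat_lit 40) (nat_lit 5) (nat_lit 41) (nat_lit 5) (nat_lit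 318) (nat_lit 290) (nat_lit 112)) (XT.lf (nat_lit 0) (nat_lit 55822227109) (nat_lit 228) (nat_lit 32305277927) (nat_lit 304) (nat_lit 19619616817) (nat_lit 37) (nat_lit 5) (nat_lit 40) (nat_lit 5) (nat_lit 41) (nat_lit 5) (nat_lit 319) (nat_lit 290) (nat_lit 111)))) (XT.nd (nat_lit 156) (nat_lit 228) (nat_lit 0) (XT.nd (nat_lit 78) (nat_lit 228) (nat_lit 0) (XT.lf (nat_lit 0) (nat_lit 106030567473) (nat_lit 304) (nat_lit 3977725478) (nat_lit 76) (nat_lit 1355252962) (nat_lit 37) (nat_lit 5) (nat_lit 41) (nat_lit 5) (nat_lit 38) (nat_lit 5) (nat_lit 320) (nat_lit 290) (nat_lit 110)) (XT.lf (nat_lit 0) (nat_lit 10647708721) (nat_lit 228) (nat_lit 67917076195) (nat_lit 76) (nat_lit 36524002467) (nat_lit 34) (nat_lit 5) (nat_lit 37) (nat_lit 5) (nat_lit 35) (nat_lit 5) (nat_lit 321) (nat_lit 290) (nat_lit 109))) (XT.nd (nat_lit 78) (nat_lit 228) (nat_lit 0) (XT.lf (nat_lit 0) (nat_lit 27316149340)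 (nat_lit 228) (nat_lit 18069475284) (nat_lit 76) (nat_lit 73606898929) (nat_lit 34) (nat_lit 5) (nat_lit 37) (nat_lit 5) (nat_lit 35) (nat_lit 5) (nat_lit 322) (nat_lit 290) (nat_lit 108)) (XT.nd (nat_lit 78) (nat_lit 0) (nat_lit 0) (XT.lf (nat_lit 0) (nat_lit 35402915575) (nat_lit 228) (nat_lit 9967333332) (nat_lit 304) (nat_lit 77693586756) (nat_lit 31) (nat_lit 5) (nat_lit 34) (nat_lit 5) (nat_lit 35) (nat_lit 5) (nat_lit 323) (nat_lit 290) (nat_lit 107)) (XT.lf (nat_lit 0) (nat_lit 65062603195) (nat_lit 304) (nat_lit 35577896924) (nat_lit 76) (nat_lit 26661436704) (nat_lit 31) (nat_lit 5) (nat_lit 35) (nat_lit 5) (nat_lit 32) (nat_lit 5) (nat_lit 324) (nat_lit 290) (nat_lit 106))))))) (XT.nd (nat_lit 702) (nat_lit 456) (nat_lit 0) (XT.nd (nat_lit 312) (nat_lit 304) (nat_lit 0) (XT.nd (nat_lit 156) (nat_lit 228) (nat_lit 0) (XT.nd (nat_lit 78) (nat_lit 0) (nat_lit 0) (XT.lf (nat_lit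 0) (nat_lit 19571611029) (nat_lit 152) (nat_lit 66636462270) (nat_lit 228) (nat_lit 45520445724) (nat_lit 29) (nat_lit 5) (nat_lit 31) (nat_lit 5) (nat_lit 32) (nat_lit 5) (nat_lit 325) (nat_lit 290) (nat_lit 105)) (XT.lf (nat_lit 0) (nat_lit 78713108370) (nat_lit 152) (nat_lit 30299780781) (nat_lit 228) (nat_lit 27333438416) (nat_lit 29) (nat_lit 5) (nat_lit 31) (nat_lit 5) (nat_lit 32) (nat_lit 5) (nat_lit 326) (nat_lit 290) (nat_lit 104))) (XT.nd (nat_lit 78) (nat_lit 228) (nat_lit 0) (XT.lf (nat_lit 0) (nat_lit 133080126516) (nat_lit 228) (nat_lit 506622480) (nat_lit 76) (nat_lit 7602169308) (nat_lit 29) (nat_lit 5) (nat_lit 32) (nat_lit 5) (nat_lit 30) (nat_lit 5) (nat_lit 327) (nat_lit 290) (nat_lit 103)) (XT.lf (nat_lit 0) (nat_lit 13161848975) (nat_lit 228) (nat_lit 85484477798) (nat_lit 76) (nat_lit 47544319477) (nat_lit 26) (nat_lit 5) (nat_lit 29) (nat_lit 5) (nat_lit 27)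 (nat_lit 5) (nat_lit 328) (nat_lit 290) (nat_lit 102)))) (XT.nd (nat_lit 156) (nat_lit 152) (nat_lit 0) (XT.nd (nat_lit 78) (nat_lit 152) (nat_lit 0) (XT.lf (nat_lit 0) (nat_lit 35231819393) (nat_lit 228) (nat_lit 26578546228) (nat_lit 76) (nat_lit 89625033807) (nat_lit 26) (nat_lit 5) (nat_lit 29) (nat_lit 5) (nat_lit 27) (nat_lit 5) (nat_lit 329) (nat_lit 290) (nat_lit 101)) (XT.lf (nat_lit 0) (nat_lit 36438335567) (nat_lit 152) (nat_lit 22535462673) (nat_lit 228) (nat_lit 97940167191) (nat_lit 24) (nat_lit 5) (nat_lit 26) (nat_lit 5) (nat_lit 27) (nat_lit 5) (nat_lit 330) (nat_lit 290) (nat_lit 100))) (XT.nd (nat_lit 78) (nat_lit 152) (nat_lit 0) (XT.lf (nat_lit 0) (nat_lit 84651996458) (nat_lit 228) (nat_lit 59415140944) (nat_lit 76) (nat_lit 18561866940) (nat_lit 24) (nat_lit 5) (nat_lit 27) (nat_lit 5) (nat_lit 25) (nat_lit 5) (nat_lit 331) (nat_lit 290) (nat_lit 99)) (XT.nd (nat_lit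 78) (nat_lit 0) (nat_lit 0) (XT.lf (nat_lit 0) (nat_lit 4471475034) (nat_lit 152) (nat_lit 107581505836) (nat_lit 228) (nat_lit 56554871117) (nat_lit 22) (nat_lit 5) (nat_lit 24) (nat_lit 5) (nat_lit 25) (nat_lit 5) (nat_lit 332) (nat_lit 290) (nat_lit 98)) (XT.lf (nat_lit 0) (nat_lit 73614611979) (nat_lit 152) (nat_lit 68215265617) (nat_lit 228) (nat_lit 33005471835) (nat_lit 22) (nat_lit 5) (nat_lit 24) (nat_lit 5) (nat_lit 25) (nat_lit 5) (nat_lit 333) (nat_lit 290) (nat_lit 97)))))) (XT.nd (nat_lit 390) (nat_lit 152) (nat_lit 0) (XT.nd (nat_lit 156) (nat_lit 152) (nat_lit 0) (XT.nd (nat_lit 78) (nat_lit 152) (nat_lit 0) (XT.lf (nat_lit 0) (nat_lit 146214363519) (nat_lit 152) (nat_lit 26880911765) (nat_lit 228) (nat_lit 8278964202) (nat_lit 22) (nat_lit 5) (nat_lit 24) (nat_lit 5) (nat_lit 25) (nat_lit 5) (nat_lit 334) (nat_lit 290) (nat_lit 96)) (XT.lf (nat_lit 0) (nat_lit 17936177281)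 (nat_lit 152) (nat_lit 153421146358) (nat_lit 76) (nat_lit 16828031024) (nat_lit 20) (nat_lit 5) (nat_lit 22) (nat_lit 5) (nat_lit 21) (nat_lit 5) (nat_lit 335) (nat_lit 290) (nat_lit 95))) (XT.nd (nat_lit 78) (nat_lit 152) (nat_lit 0) (XT.lf (nat_lit 0) (nat_lit 46229401386) (nat_lit 152) (nat_lit 86488770864) (nat_lit 76) (nat_lit 62559790132) (nat_lit 20) (nat_lit 5) (nat_lit 22) (nat_lit 5) (nat_lit 21) (nat_lit 5) (nat_lit 336) (nat_lit 290) (nat_lit 94)) (XT.nd (nat_lit 78) (nat_lit 152) (nat_lit 0) (XT.lf (nat_lit 0) (nat_lit 75936973713) (nat_lit 152) (nat_lit 16210284364) (nat_lit 76) (nat_lit 110577958507) (nat_lit 20) (nat_lit 5) (nat_lit 22) (nat_lit 5) (nat_lit 21) (nat_lit 5) (nat_lit 337) (nat_lit 290) (nat_lit 93)) (XT.lf (nat_lit 0) (nat_lit 59485552031) (nat_lit 152) (nat_lit 48572810722) (nat_lit 228) (nat_lit 102440049266) (nat_lit 18) (nat_lit 5) (nat_lit 20) (nat_lit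 5) (nat_lit 21) (nat_lit 5) (nat_lit 338) (nat_lit 290) (nat_lit 92))))) (XT.nd (nat_lit 156) (nat_lit 152) (nat_lit 0) (XT.nd (nat_lit 78) (nat_lit 0) (nat_lit 0) (XT.lf (nat_lit 0) (nat_lit 139528488927) (nat_lit 152) (nat_lit 2531570015) (nat_lit 228) (nat_lit 76586496805) (nat_lit 18) (nat_lit 5) (nat_lit 20) (nat_lit 5) (nat_lit 21) (nat_lit 5) (nat_lit 339) (nat_lit 290) (nat_lit 91)) (XT.lf (nat_lit 0) (nat_lit 178476809292) (nat_lit 228) (nat_lit 4344248177) (nat_lit 76) (nat_lit 44345301112) (nat_lit 18) (nat_lit 5) (nat_lit 21) (nat_lit 5) (nat_lit 19) (nat_lit 4) (nat_lit 340) (nat_lit 290) (nat_lit 90))) (XT.nd (nat_lit 78) (nat_lit 76) (nat_lit 0) (XT.lf (nat_lit 0) (nat_lit 76577268557) (nat_lit 76) (nat_lit 141373948678) (nat_lit 152) (nat_lit 18099093687) (nat_lit 17) (nat_lit 5) (nat_lit 18) (nat_lit 5) (nat_lit 19) (nat_lit 4) (nat_lit 341) (nat_lit 290) (nat_lit 89))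 (XT.nd (nat_lit 33540) (nat_lit 0) (nat_lit 4484) (XT.lf (nat_lit 0) (nat_lit 13646641315) (nat_lit 152) (nat_lit 83899654567) (nat_lit 76) (nat_lit 147817494441) (nat_lit 16) (nat_lit 5) (nat_lit 18) (nat_lit 5) (nat_lit 17) (nat_lit 5) (nat_lit 342) (nat_lit 290) (nat_lit 88)) (XT.lf (nat_lit 0) (nat_lit 6816335620) (nat_lit 0) (nat_lit 6816335620) (nat_lit 684) (nat_lit 11063047360) (nat_lit 75) (nat_lit 5) (nat_lit 75) (nat_lit 3) (nat_lit 84) (nat_lit 3) (nat_lit 291) (nat_lit 291) (nat_lit 138))))))))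
noncomputable def xc236 : XT := (XT.nd (nat_lit 1404) (nat_lit 1976) (nat_lit 0) (XT.nd (nat_lit 702) (nat_lit 1520) (nat_lit 0) (XT.nd (nat_lit 312) (nat_lit 0) (nat_lit 76) (XT.nd (nat_lit 156) (nat_lit 0) (nat_lit 76) (XT.nd (nat_lit 78) (nat_lit 0) (nat_lit 0) (XT.lf (nat_lit 0) (nat_lit 28101105376) (nat_lit 684) (nat_lit 14492653102) (nat_lit 760) (nat_lit 8024685384) (nat_lit 75) (nat_lit 5) (nat_lit 84) (nat_lit 3) (nat_lit 85) (nat_lit 5) (nat_lit 292) (nat_lit 291) (nat_lit 137)) (XT.lf (nat_lit 76) (nat_lit 7864092484) (nat_lit 0) (nat_lit 21459262169) (nat_lit 760) (nat_lit 22566215950) (nat_lit 76) (nat_lit 5) (nat_lit 75) (nat_lit 5) (nat_lit 85) (nat_lit 5) (nat_lit 293) (nat_lit 291) (nat_lit 136))) (XT.nd (nat_lit 78) (nat_lit 0) (nat_lit 0) (XT.lf (nat_lit 0) (nat_lit 30866110330) (nat_lit 684) (nat_lit 21386567688) (nat_lit 760) (nat_lit 958610405) (nat_lit 76) (nat_lit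 5) (nat_lit 85) (nat_lit 5) (nat_lit 86) (nat_lit 5) (nat_lit 294) (nat_lit 291) (nat_lit 135)) (XT.lf (nat_lit 76) (nat_lit 2098754116) (nat_lit 0) (nat_lit 30770381911) (nat_lit 760) (nat_lit 21710803720) (nat_lit 77) (nat_lit 5) (nat_lit 76) (nat_lit 5) (nat_lit 86) (nat_lit 5) (nat_lit 295) (nat_lit 291) (nat_lit 134)))) (XT.nd (nat_lit 156) (nat_lit 0) (nat_lit 76) (XT.nd (nat_lit 78) (nat_lit 0) (nat_lit 76) (XT.lf (nat_lit 76) (nat_lit 27499933924) (nat_lit 0) (nat_lit 7833198431) (nat_lit 760) (nat_lit 20665854343) (nat_lit 77) (nat_lit 5) (nat_lit 76) (nat_lit 5) (nat_lit 86) (nat_lit 5) (nat_lit 296) (nat_lit 291) (nat_lit 133)) (XT.lf (nat_lit 0) (nat_lit 38172749555) (nat_lit 684) (nat_lit 3572469194) (nat_lit 760) (nat_lit 15731150029) (nat_lit 77) (nat_lit 5) (nat_lit 86) (nat_lit 5) (nat_lit 87) (nat_lit 5) (nat_lit 297) (nat_lit 291) (nat_lit 132))) (XT.nd (nat_lit 78)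 (nat_lit 0) (nat_lit 76) (XT.lf (nat_lit 76) (nat_lit 23214137667) (nat_lit 0) (nat_lit 18429822530) (nat_lit 760) (nat_lit 17359182786) (nat_lit 78) (nat_lit 5) (nat_lit 77) (nat_lit 5) (nat_lit 87) (nat_lit 5) (nat_lit 298) (nat_lit 291) (nat_lit 131)) (XT.nd (nat_lit 78) (nat_lit 0) (nat_lit 0) (XT.lf (nat_lit 0) (nat_lit 45443515114) (nat_lit 684) (nat_lit 9235542055) (nat_lit 760) (nat_lit 5919463020) (nat_lit 78) (nat_lit 5) (nat_lit 87) (nat_lit 5) (nat_lit 88) (nat_lit 5) (nat_lit 299) (nat_lit 291) (nat_lit 130)) (XT.lf (nat_lit 76) (nat_lit 18949055278) (nat_lit 0) (nat_lit 31080837156) (nat_lit 760) (nat_lit 12213934902) (nat_lit 79) (nat_lit 5) (nat_lit 78) (nat_lit 5) (nat_lit 88) (nat_lit 5) (nat_lit 300) (nat_lit 291) (nat_lit 129)))))) (XT.nd (nat_lit 312) (nat_lit 684) (nat_lit 0) (XT.nd (nat_lit 156) (nat_lit 456) (nat_lit 0) (XT.nd (nat_lit 78) (nat_lit 608) (nat_lit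 0) (XT.lf (nat_lit 76) (nat_lit 48862635183) (nat_lit 0) (nat_lit 6138270439) (nat_lit 760) (nat_lit 8962731521) (nat_lit 79) (nat_lit 5) (nat_lit 78) (nat_lit 5) (nat_lit 88) (nat_lit 5) (nat_lit 301) (nat_lit 291) (nat_lit 128)) (XT.lf (nat_lit 0) (nat_lit 14657633113) (nat_lit 684) (nat_lit 46103705697) (nat_lit 760) (nat_lit 4981058168) (nat_lit 70) (nat_lit 5) (nat_lit 79) (nat_lit 5) (nat_lit 80) (nat_lit 5) (nat_lit 302) (nat_lit 291) (nat_lit 127))) (XT.nd (nat_lit 78) (nat_lit 456) (nat_lit 0) (XT.lf (nat_lit 0) (nat_lit 46323632179) (nat_lit 684) (nat_lit 20839907810) (nat_lit 760) (nat_lit 428870360) (nat_lit 70) (nat_lit 5) (nat_lit 79) (nat_lit 5) (nat_lit 80) (nat_lit 5) (nat_lit 303) (nat_lit 291) (nat_lit 126)) (XT.lf (nat_lit 0) (nat_lit 4464034392) (nat_lit 456) (nat_lit 59317256687) (nat_lit 76) (nat_lit 5737621177) (nat_lit 64) (nat_lit 5) (nat_lit 70) (nat_lit 5)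 (nat_lit 65) (nat_lit 5) (nat_lit 304) (nat_lit 291) (nat_lit 125)))) (XT.nd (nat_lit 156) (nat_lit 304) (nat_lit 0) (XT.nd (nat_lit 78) (nat_lit 380) (nat_lit 0) (XT.lf (nat_lit 0) (nat_lit 10293973794) (nat_lit 456) (nat_lit 27895202621) (nat_lit 76) (nat_lit 33316873668) (nat_lit 64) (nat_lit 5) (nat_lit 70) (nat_lit 5) (nat_lit 65) (nat_lit 5) (nat_lit 305) (nat_lit 291) (nat_lit 124)) (XT.lf (nat_lit 0) (nat_lit 5265615489) (nat_lit 380) (nat_lit 11231112849) (nat_lit 456) (nat_lit 57091752910) (nat_lit 59) (nat_lit 5) (nat_lit 64) (nat_lit 5) (nat_lit 65) (nat_lit 5) (nat_lit 306) (nat_lit 291) (nat_lit 123))) (XT.nd (nat_lit 78) (nat_lit 304) (nat_lit 0) (XT.lf (nat_lit 0) (nat_lit 23755506648) (nat_lit 456) (nat_lit 34973713687) (nat_lit 76) (nat_lit 17008521576) (nat_lit 59) (nat_lit 5) (nat_lit 65) (nat_lit 5) (nat_lit 60) (nat_lit 5) (nat_lit 307) (nat_lit 291) (nat_lit 122))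 (XT.nd (nat_lit 78) (nat_lit 304) (nat_lit 0) (XT.lf (nat_lit 0) (nat_lit 31560517993) (nat_lit 456) (nat_lit 142080344) (nat_lit 76) (nat_lit 46282704698) (nat_lit 59) (nat_lit 5) (nat_lit 65) (nat_lit 5) (nat_lit 60) (nat_lit 5) (nat_lit 308) (nat_lit 291) (nat_lit 121)) (XT.lf (nat_lit 0) (nat_lit 37634866644) (nat_lit 304) (nat_lit 2707715684) (nat_lit 380) (nat_lit 39973321801) (nat_lit 55) (nat_lit 5) (nat_lit 59) (nat_lit 5) (nat_lit 60) (nat_lit 5) (nat_lit 309) (nat_lit 291) (nat_lit 120))))))) (XT.nd (nat_lit 702) (nat_lit 836) (nat_lit 0) (XT.nd (nat_lit 312) (nat_lit 608) (nat_lit 0) (XT.nd (nat_lit 156) (nat_lit 228) (nat_lit 0) (XT.nd (nat_lit 78) (nat_lit 304) (nat_lit 0) (XT.lf (nat_lit 0) (nat_lit 49998487112) (nat_lit 380) (nat_lit 5891256352) (nat_lit 76) (nat_lit 26851556887) (nat_lit 55) (nat_lit 5) (nat_lit 60) (nat_lit 5) (nat_lit 56) (nat_lit 5) (nat_lit 310)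 (nat_lit 291) (nat_lit 119)) (XT.lf (nat_lit 0) (nat_lit 33773792858) (nat_lit 304) (nat_lit 26934363447) (nat_lit 380) (nat_lit 24551263465) (nat_lit 51) (nat_lit 5) (nat_lit 55) (nat_lit 5) (nat_lit 56) (nat_lit 5) (nat_lit 311) (nat_lit 291) (nat_lit 118))) (XT.nd (nat_lit 78) (nat_lit 228) (nat_lit 0) (XT.lf (nat_lit 0) (nat_lit 72108170792) (nat_lit 380) (nat_lit 12328450923) (nat_lit 76) (nat_lit 3459082110) (nat_lit 51) (nat_lit 5) (nat_lit 56) (nat_lit 5) (nat_lit 52) (nat_lit 5) (nat_lit 312) (nat_lit 291) (nat_lit 117)) (XT.lf (nat_lit 0) (nat_lit 29281438277) (nat_lit 228) (nat_lit 55694790930) (nat_lit 304) (nat_lit 5642672389) (nat_lit 48) (nat_lit 5) (nat_lit 51) (nat_lit 5) (nat_lit 52) (nat_lit 5) (nat_lit 313) (nat_lit 291) (nat_lit 116)))) (XT.nd (nat_lit 156) (nat_lit 228) (nat_lit 0) (XT.nd (nat_lit 78) (nat_lit 304) (nat_lit 0) (XT.lf (nat_lit 0) (nat_lit 5060647769)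 (nat_lit 304) (nat_lit 20150414168) (nat_lit 76) (nat_lit 68252710793) (nat_lit 47) (nat_lit 5) (nat_lit 51) (nat_lit 5) (nat_lit 48) (nat_lit 5) (nat_lit 314) (nat_lit 291) (nat_lit 115)) (XT.lf (nat_lit 0) (nat_lit 16593599347) (nat_lit 380) (nat_lit 72778160786) (nat_lit 76) (nat_lit 7050298783) (nat_lit 43) (nat_lit 5) (nat_lit 48) (nat_lit 5) (nat_lit 44) (nat_lit 5) (nat_lit 315) (nat_lit 291) (nat_lit 114))) (XT.nd (nat_lit 78) (nat_lit 228) (nat_lit 0) (XT.lf (nat_lit 0) (nat_lit 29462732211) (nat_lit 380) (nat_lit 29603361893) (nat_lit 76) (nat_lit 40424189996) (nat_lit 43) (nat_lit 5) (nat_lit 48) (nat_lit 5) (nat_lit 44) (nat_lit 5) (nat_lit 316) (nat_lit 291) (nat_lit 113)) (XT.nd (nat_lit 78) (nat_lit 0) (nat_lit 0) (XT.lf (nat_lit 0) (nat_lit 16249522395) (nat_lit 228) (nat_lit 26978915352) (nat_lit 304) (nat_lit 59470828306) (nat_lit 40) (nat_lit 5) (nat_lit 43) (nat_lit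 5) (nat_lit 44) (nat_lit 5) (nat_lit 317) (nat_lit 291) (nat_lit 112)) (XT.lf (nat_lit 0) (nat_lit 58296226869) (nat_lit 304) (nat_lit 40734594561) (nat_lit 76) (nat_lit 7007187008) (nat_lit 40) (nat_lit 5) (nat_lit 44) (nat_lit 5) (nat_lit 41) (nat_lit 5) (nat_lit 318) (nat_lit 291) (nat_lit 111)))))) (XT.nd (nat_lit 312) (nat_lit 380) (nat_lit 0) (XT.nd (nat_lit 156) (nat_lit 228) (nat_lit 0) (XT.nd (nat_lit 78) (nat_lit 0) (nat_lit 0) (XT.lf (nat_lit 0) (nat_lit 7048924346) (nat_lit 228) (nat_lit 67620268430) (nat_lit 304) (nat_lit 34846906989) (nat_lit 37) (nat_lit 5) (nat_lit 40) (nat_lit 5) (nat_lit 41) (nat_lit 5) (nat_lit 319) (nat_lit 291) (nat_lit 110)) (XT.lf (nat_lit 0) (nat_lit 58635124008) (nat_lit 228) (nat_lit 33915014423) (nat_lit 304) (nat_lit 20583491784) (nat_lit 37) (nat_lit 5) (nat_lit 40) (nat_lit 5) (nat_lit 41) (nat_lit 5) (nat_lit 320) (nat_lit 291) (nat_lit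 109))) (XT.nd (nat_lit 78) (nat_lit 228) (nat_lit 0) (XT.lf (nat_lit 0) (nat_lit 111347661981) (nat_lit 304) (nat_lit 4155138442) (nat_lit 76) (nat_lit 1428111314) (nat_lit 37) (nat_lit 5) (nat_lit 41) (nat_lit 5) (nat_lit 38) (nat_lit 5) (nat_lit 321) (nat_lit 291) (nat_lit 108)) (XT.lf (nat_lit 0) (nat_lit 11195527912) (nat_lit 228) (nat_lit 71291262648) (nat_lit 76) (nat_lit 38355634425) (nat_lit 34) (nat_lit 5) (nat_lit 37) (nat_lit 5) (nat_lit 35) (nat_lit 5) (nat_lit 322) (nat_lit 291) (nat_lit 107)))) (XT.nd (nat_lit 156) (nat_lit 152) (nat_lit 0) (XT.nd (nat_lit 78) (nat_lit 228) (nat_lit 0) (XT.lf (nat_lit 0) (nat_lit 28696655620) (nat_lit 228) (nat_lit 18952313470) (nat_lit 76) (nat_lit 77292417050) (nat_lit 34) (nat_lit 5) (nat_lit 37) (nat_lit 5) (nat_lit 35) (nat_lit 5) (nat_lit 323) (nat_lit 291) (nat_lit 106)) (XT.lf (nat_lit 0) (nat_lit 37193364100) (nat_lit 228) (nat_lit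 10459713105) (nat_lit 304) (nat_lit 81563207164) (nat_lit 31) (nat_lit 5) (nat_lit 34) (nat_lit 5) (nat_lit 35) (nat_lit 5) (nat_lit 324) (nat_lit 291) (nat_lit 105))) (XT.nd (nat_lit 78) (nat_lit 152) (nat_lit 0) (XT.lf (nat_lit 0) (nat_lit 68329456522) (nat_lit 304) (nat_lit 37336837150) (nat_lit 76) (nat_lit 28000027849) (nat_lit 31) (nat_lit 5) (nat_lit 35) (nat_lit 5) (nat_lit 32) (nat_lit 5) (nat_lit 325) (nat_lit 291) (nat_lit 104)) (XT.nd (nat_lit 78) (nat_lit 0) (nat_lit 0) (XT.lf (nat_lit 0) (nat_lit 20569824352) (nat_lit 152) (nat_lit 69962028817) (nat_lit 228) (nat_lit 47782398247) (nat_lit 29) (nat_lit 5) (nat_lit 31) (nat_lit 5) (nat_lit 32) (nat_lit 5) (nat_lit 326) (nat_lit 291) (nat_lit 103)) (XT.lf (nat_lit 0) (nat_lit 82667461666) (nat_lit 152) (nat_lit 31808811185) (nat_lit 228) (nat_lit 28686710562) (nat_lit 29) (nat_lit 5) (nat_lit 31) (nat_lit 5) (nat_lit 32)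 (nat_lit 5) (nat_lit 327) (nat_lit 291) (nat_lit 102))))))))
noncomputable def xc237 : XT := (XT.nd (nat_lit 35022) (nat_lit 0) (nat_lit 2508) (XT.nd (nat_lit 702) (nat_lit 152) (nat_lit 0) (XT.nd (nat_lit 312) (nat_lit 304) (nat_lit 0) (XT.nd (nat_lit 156) (nat_lit 152) (nat_lit 0) (XT.nd (nat_lit 78) (nat_lit 228) (nat_lit 0) (XT.lf (nat_lit 0) (nat_lit 139746354055) (nat_lit 228) (nat_lit 513605625) (nat_lit 76) (nat_lit 7987771032) (nat_lit 29) (nat_lit 5) (nat_lit 32) (nat_lit 5) (nat_lit 30) (nat_lit 5) (nat_lit 328) (nat_lit 291) (nat_lit 101)) (XT.lf (nat_lit 0) (nat_lit 13832078639) (nat_lit 228) (nat_lit 89740227972) (nat_lit 76) (nat_lit 49927244730) (nat_lit 26) (nat_lit 5) (nat_lit 29) (nat_lit 5) (nat_lit 27) (nat_lit 5) (nat_lit 329) (nat_lit 291) (nat_lit 100))) (XT.nd (nat_lit 78) (nat_lit 152) (nat_lit 0) (XT.lf (nat_lit 0) (nat_lit 37004969615) (nat_lit 228) (nat_lit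 27889879525) (nat_lit 76) (nat_lit 94111722906) (nat_lit 26) (nat_lit 5) (nat_lit 29) (nat_lit 5) (nat_lit 27) (nat_lit 5) (nat_lit 330) (nat_lit 291) (nat_lit 99)) (XT.lf (nat_lit 0) (nat_lit 38277562585) (nat_lit 152) (nat_lit 23656204640) (nat_lit 228) (nat_lit 102825314056) (nat_lit 24) (nat_lit 5) (nat_lit 26) (nat_lit 5) (nat_lit 27) (nat_lit 5) (nat_lit 331) (nat_lit 291) (nat_lit 98)))) (XT.nd (nat_lit 156) (nat_lit 152) (nat_lit 0) (XT.nd (nat_lit 78) (nat_lit 152) (nat_lit 0) (XT.lf (nat_lit 0) (nat_lit 88895427936) (nat_lit 228) (nat_lit 62368947041) (nat_lit 76) (nat_lit 19495520413) (nat_lit 24) (nat_lit 5) (nat_lit 27) (nat_lit 5) (nat_lit 25) (nat_lit 5) (nat_lit 332) (nat_lit 291) (nat_lit 97)) (XT.lf (nat_lit 0) (nat_lit 4711726334) (nat_lit 152) (nat_lit 112954479825) (nat_lit 228) (nat_lit 59371492866) (nat_lit 22) (nat_lit 5) (nat_lit 24) (nat_lit 5) (nat_lit 25)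 (nat_lit 5) (nat_lit 333) (nat_lit 291) (nat_lit 96))) (XT.nd (nat_lit 78) (nat_lit 152) (nat_lit 0) (XT.lf (nat_lit 0) (nat_lit 77311225956) (nat_lit 152) (nat_lit 71620218133) (nat_lit 228) (nat_lit 34645153229) (nat_lit 22) (nat_lit 5) (nat_lit 24) (nat_lit 5) (nat_lit 25) (nat_lit 5) (nat_lit 334) (nat_lit 291) (nat_lit 95)) (XT.nd (nat_lit 78) (nat_lit 152) (nat_lit 0) (XT.lf (nat_lit 0) (nat_lit 153540208722) (nat_lit 152) (nat_lit 28219423291) (nat_lit 228) (nat_lit 8682824605) (nat_lit 22) (nat_lit 5) (nat_lit 24) (nat_lit 5) (nat_lit 25) (nat_lit 5) (nat_lit 335) (nat_lit 291) (nat_lit 94)) (XT.lf (nat_lit 0) (nat_lit 18842612271) (nat_lit 152) (nat_lit 161076586717) (nat_lit 76) (nat_lit 17674928321) (nat_lit 20) (nat_lit 5) (nat_lit 22) (nat_lit 5) (nat_lit 21) (nat_lit 5) (nat_lit 336) (nat_lit 291) (nat_lit 93)))))) (XT.nd (nat_lit 312) (nat_lit 0) (nat_lit 0) (XT.nd (nat_lit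 156) (nat_lit 152) (nat_lit 0) (XT.nd (nat_lit 78) (nat_lit 0) (nat_lit 0) (XT.lf (nat_lit 0) (nat_lit 48550039194) (nat_lit 152) (nat_lit 90798336114) (nat_lit 76) (nat_lit 65693013682) (nat_lit 20) (nat_lit 5) (nat_lit 22) (nat_lit 5) (nat_lit 21) (nat_lit 5) (nat_lit 337) (nat_lit 291) (nat_lit 92)) (XT.lf (nat_lit 0) (nat_lit 79742553579) (nat_lit 152) (nat_lit 17006633541) (nat_lit 76) (nat_lit 116111841236) (nat_lit 20) (nat_lit 5) (nat_lit 22) (nat_lit 5) (nat_lit 21) (nat_lit 5) (nat_lit 338) (nat_lit 291) (nat_lit 91))) (XT.nd (nat_lit 78) (nat_lit 0) (nat_lit 0) (XT.lf (nat_lit 0) (nat_lit 62473766205) (nat_lit 152) (nat_lit 50996047684) (nat_lit 228) (nat_lit 107553080177) (nat_lit 18) (nat_lit 5) (nat_lit 20) (nat_lit 5) (nat_lit 21) (nat_lit 5) (nat_lit 339) (nat_lit 291) (nat_lit 90)) (XT.lf (nat_lit 0) (nat_lit 146518186300) (nat_lit 152) (nat_lit 2653002254) (nat_lit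 228) (nat_lit 80407277310) (nat_lit 18) (nat_lit 5) (nat_lit 20) (nat_lit 5) (nat_lit 21) (nat_lit 5) (nat_lit 340) (nat_lit 291) (nat_lit 89)))) (XT.nd (nat_lit 33774) (nat_lit 0) (nat_lit 4332) (XT.nd (nat_lit 33696) (nat_lit 0) (nat_lit 4332) (XT.lf (nat_lit 0) (nat_lit 187408465959) (nat_lit 228) (nat_lit 4548498443) (nat_lit 76) (nat_lit 46567310500) (nat_lit 18) (nat_lit 5) (nat_lit 21) (nat_lit 5) (nat_lit 19) (nat_lit 4) (nat_lit 341) (nat_lit 291) (nat_lit 88)) (XT.lf (nat_lit 0) (nat_lit 7169309053) (nat_lit 0) (nat_lit 7169309053) (nat_lit 684) (nat_lit 11590599093) (nat_lit 75) (nat_lit 5) (nat_lit 75) (nat_lit 3) (nat_lit 84) (nat_lit 3) (nat_lit 292) (nat_lit 292) (nat_lit 136))) (XT.nd (nat_lit 78) (nat_lit 0) (nat_lit 0) (XT.lf (nat_lit 0) (nat_lit 29552110175) (nat_lit 684) (nat_lit 15191316646) (nat_lit 760) (nat_lit 8403505249) (nat_lit 75) (nat_lit 5) (nat_lit 84)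 (nat_lit 3) (nat_lit 85) (nat_lit 5) (nat_lit 293) (nat_lit 292) (nat_lit 135)) (XT.nd (nat_lit 78) (nat_lit 0) (nat_lit 76) (XT.lf (nat_lit 76) (nat_lit 8282847363) (nat_lit 0) (nat_lit 22550835391) (nat_lit 760) (nat_lit 23648028352) (nat_lit 76) (nat_lit 5) (nat_lit 75) (nat_lit 5) (nat_lit 85) (nat_lit 5) (nat_lit 294) (nat_lit 292) (nat_lit 134)) (XT.lf (nat_lit 0) (nat_lit 32451196619) (nat_lit 684) (nat_lit 22429059084) (nat_lit 760) (nat_lit 989384284) (nat_lit 76) (nat_lit 5) (nat_lit 85) (nat_lit 5) (nat_lit 86) (nat_lit 5) (nat_lit 295) (nat_lit 292) (nat_lit 133))))))) (XT.nd (nat_lit 702) (nat_lit 1444) (nat_lit 0) (XT.nd (nat_lit 312) (nat_lit 456) (nat_lit 0) (XT.nd (nat_lit 156) (nat_lit 0) (nat_lit 76) (XT.nd (nat_lit 78) (nat_lit 0) (nat_lit 0) (XT.lf (nat_lit 76) (nat_lit 2230095957) (nat_lit 0) (nat_lit 32322700328) (nat_lit 760) (nat_lit 22754012356) (nat_lit 77)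 (nat_lit 5) (nat_lit 76) (nat_lit 5) (nat_lit 86) (nat_lit 5) (nat_lit 296) (nat_lit 292) (nat_lit 132)) (XT.lf (nat_lit 76) (nat_lit 28900077415) (nat_lit 0) (nat_lit 8238000562) (nat_lit 760) (nat_lit 21658831299) (nat_lit 77) (nat_lit 5) (nat_lit 76) (nat_lit 5) (nat_lit 86) (nat_lit 5) (nat_lit 297) (nat_lit 292) (nat_lit 131))) (XT.nd (nat_lit 78) (nat_lit 0) (nat_lit 0) (XT.lf (nat_lit 0) (nat_lit 40117657336) (nat_lit 684) (nat_lit 3725017664) (nat_lit 760) (nat_lit 16505591742) (nat_lit 77) (nat_lit 5) (nat_lit 86) (nat_lit 5) (nat_lit 87) (nat_lit 5) (nat_lit 298) (nat_lit 292) (nat_lit 130)) (XT.lf (nat_lit 76) (nat_lit 24400498976) (nat_lit 0) (nat_lit 19360602914) (nat_lit 760) (nat_lit 18190349192) (nat_lit 78) (nat_lit 5) (nat_lit 77) (nat_lit 5) (nat_lit 87) (nat_lit 5) (nat_lit 299) (nat_lit 292) (nat_lit 129)))) (XT.nd (nat_lit 156) (nat_lit 608) (nat_lit 0) (XT.nd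 (nat_lit 78) (nat_lit 0) (nat_lit 0) (XT.lf (nat_lit 0) (nat_lit 47748832443) (nat_lit 684) (nat_lit 9670987247) (nat_lit 760) (nat_lit 6206872415) (nat_lit 78) (nat_lit 5) (nat_lit 87) (nat_lit 5) (nat_lit 88) (nat_lit 5) (nat_lit 300) (nat_lit 292) (nat_lit 128)) (XT.lf (nat_lit 76) (nat_lit 19922415244) (nat_lit 0) (nat_lit 32640939698) (nat_lit 760) (nat_lit 12790972971) (nat_lit 79) (nat_lit 5) (nat_lit 78) (nat_lit 5) (nat_lit 88) (nat_lit 5) (nat_lit 301) (nat_lit 292) (nat_lit 127))) (XT.nd (nat_lit 78) (nat_lit 608) (nat_lit 0) (XT.lf (nat_lit 76) (nat_lit 51330440468) (nat_lit 0) (nat_lit 6450956041) (nat_lit 760) (nat_lit 9378812215) (nat_lit 79) (nat_lit 5) (nat_lit 78) (nat_lit 5) (nat_lit 88) (nat_lit 5) (nat_lit 302) (nat_lit 292) (nat_lit 126)) (XT.nd (nat_lit 78) (nat_lit 0) (nat_lit 0) (XT.lf (nat_lit 0) (nat_lit 15416463303) (nat_lit 684) (nat_lit 48412257565) (nat_lit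 760) (nat_lit 5199246397) (nat_lit 70) (nat_lit 5) (nat_lit 79) (nat_lit 5) (nat_lit 80) (nat_lit 5) (nat_lit 303) (nat_lit 292) (nat_lit 125)) (XT.lf (nat_lit 0) (nat_lit 48664526677) (nat_lit 684) (nat_lit 21885109471) (nat_lit 760) (nat_lit 420918945) (nat_lit 70) (nat_lit 5) (nat_lit 79) (nat_lit 5) (nat_lit 80) (nat_lit 5) (nat_lit 304) (nat_lit 292) (nat_lit 124)))))) (XT.nd (nat_lit 312) (nat_lit 608) (nat_lit 0) (XT.nd (nat_lit 156) (nat_lit 380) (nat_lit 0) (XT.nd (nat_lit 78) (nat_lit 0) (nat_lit 0) (XT.lf (nat_lit 0) (nat_lit 4714696469) (nat_lit 456) (nat_lit 62256323648) (nat_lit 76) (nat_lit 6022392340) (nat_lit 64) (nat_lit 5) (nat_lit 70) (nat_lit 5) (nat_lit 65) (nat_lit 5) (nat_lit 305) (nat_lit 292) (nat_lit 123)) (XT.lf (nat_lit 0) (nat_lit 10834825205) (nat_lit 456) (nat_lit 29264442873) (nat_lit 76) (nat_lit 34980707928) (nat_lit 64) (nat_lit 5) (nat_lit 70) (nat_lit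 5) (nat_lit 65) (nat_lit 5) (nat_lit 306) (nat_lit 292) (nat_lit 122))) (XT.nd (nat_lit 78) (nat_lit 0) (nat_lit 0) (XT.lf (nat_lit 0) (nat_lit 5554004532) (nat_lit 380) (nat_lit 11792859586) (nat_lit 456) (nat_lit 59919710560) (nat_lit 59) (nat_lit 5) (nat_lit 64) (nat_lit 5) (nat_lit 65) (nat_lit 5) (nat_lit 307) (nat_lit 292) (nat_lit 121)) (XT.lf (nat_lit 0) (nat_lit 24967373770) (nat_lit 456) (nat_lit 36697216625) (nat_lit 76) (nat_lit 17858771484) (nat_lit 59) (nat_lit 5) (nat_lit 65) (nat_lit 5) (nat_lit 60) (nat_lit 5) (nat_lit 308) (nat_lit 292) (nat_lit 120)))) (XT.nd (nat_lit 156) (nat_lit 304) (nat_lit 0) (XT.nd (nat_lit 78) (nat_lit 304) (nat_lit 0) (XT.lf (nat_lit 0) (nat_lit 33161488455) (nat_lit 456) (nat_lit 125200793) (nat_lit 76) (nat_lit 48596672152) (nat_lit 59) (nat_lit 5) (nat_lit 65) (nat_lit 5) (nat_lit 60) (nat_lit 5) (nat_lit 309) (nat_lit 292) (nat_lit 119))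 (XT.lf (nat_lit 0) (nat_lit 39540206712) (nat_lit 304) (nat_lit 2841725107) (nat_lit 380) (nat_lit 41948599774) (nat_lit 55) (nat_lit 5) (nat_lit 59) (nat_lit 5) (nat_lit 60) (nat_lit 5) (nat_lit 310) (nat_lit 292) (nat_lit 118))) (XT.nd (nat_lit 78) (nat_lit 304) (nat_lit 0) (XT.lf (nat_lit 0) (nat_lit 52519594195) (nat_lit 380) (nat_lit 6162254418) (nat_lit 76) (nat_lit 28195403597) (nat_lit 55) (nat_lit 5) (nat_lit 60) (nat_lit 5) (nat_lit 56) (nat_lit 5) (nat_lit 311) (nat_lit 292) (nat_lit 117)) (XT.nd (nat_lit 78) (nat_lit 0) (nat_lit 0) (XT.lf (nat_lit 0) (nat_lit 35485667176) (nat_lit 304) (nat_lit 28278432949) (nat_lit 380) (nat_lit 25757212385) (nat_lit 51) (nat_lit 5) (nat_lit 55) (nat_lit 5) (nat_lit 56) (nat_lit 5) (nat_lit 312) (nat_lit 292) (nat_lit 116)) (XT.lf (nat_lit 0) (nat_lit 75733176815) (nat_lit 380) (nat_lit 12921805306) (nat_lit 76) (nat_lit 3634478022) (nat_lit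 51) (nat_lit 5) (nat_lit 56) (nat_lit 5) (nat_lit 52) (nat_lit 5) (nat_lit 313) (nat_lit 292) (nat_lit 115))))))))
noncomputable def xc238 : XT := (XT.nd (nat_lit 1404) (nat_lit 608) (nat_lit 0) (XT.nd (nat_lit 702) (nat_lit 836) (nat_lit 0) (XT.nd (nat_lit 312) (nat_lit 456) (nat_lit 0) (XT.nd (nat_lit 156) (nat_lit 304) (nat_lit 0) (XT.nd (nat_lit 78) (nat_lit 76) (nat_lit 0) (XT.lf (nat_lit 0) (nat_lit 30768206287) (nat_lit 228) (nat_lit 58475853000) (nat_lit 304) (nat_lit 5904789792) (nat_lit 48) (nat_lit 5) (nat_lit 51) (nat_lit 5) (nat_lit 52) (nat_lit 5) (nat_lit 314) (nat_lit 292) (nat_lit 114)) (XT.lf (nat_lit 0) (nat_lit 5332133083) (nat_lit 304) (nat_lit 21135667083) (nat_lit 76) (nat_lit 71668196227) (nat_lit 47) (nat_lit 5) (nat_lit 51) (nat_lit 5) (nat_lit 48) (nat_lit 5) (nat_lit 315) (nat_lit 292) (nat_lit 113))) (XT.nd (nat_lit 78) (nat_lit 0) (nat_lit 0) (XT.lf (nat_lit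 0) (nat_lit 17441257917) (nat_lit 380) (nat_lit 76394286396) (nat_lit 76) (nat_lit 7406678306) (nat_lit 43) (nat_lit 5) (nat_lit 48) (nat_lit 5) (nat_lit 44) (nat_lit 5) (nat_lit 316) (nat_lit 292) (nat_lit 112)) (XT.lf (nat_lit 0) (nat_lit 30952991300) (nat_lit 380) (nat_lit 31061832436) (nat_lit 76) (nat_lit 42449080053) (nat_lit 43) (nat_lit 5) (nat_lit 48) (nat_lit 5) (nat_lit 44) (nat_lit 5) (nat_lit 317) (nat_lit 292) (nat_lit 111)))) (XT.nd (nat_lit 156) (nat_lit 228) (nat_lit 0) (XT.nd (nat_lit 78) (nat_lit 0) (nat_lit 0) (XT.lf (nat_lit 0) (nat_lit 17083346106) (nat_lit 228) (nat_lit 28323153947) (nat_lit 304) (nat_lit 62426860718) (nat_lit 40) (nat_lit 5) (nat_lit 43) (nat_lit 5) (nat_lit 44) (nat_lit 5) (nat_lit 318) (nat_lit 292) (nat_lit 110)) (XT.lf (nat_lit 0) (nat_lit 61226956222) (nat_lit 304) (nat_lit 42750236019) (nat_lit 76) (nat_lit 7361885896) (nat_lit 40) (nat_lit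 5) (nat_lit 44) (nat_lit 5) (nat_lit 41) (nat_lit 5) (nat_lit 319) (nat_lit 292) (nat_lit 109))) (XT.nd (nat_lit 78) (nat_lit 0) (nat_lit 0) (XT.lf (nat_lit 0) (nat_lit 7422118700) (nat_lit 228) (nat_lit 70996017660) (nat_lit 304) (nat_lit 36572961030) (nat_lit 37) (nat_lit 5) (nat_lit 40) (nat_lit 5) (nat_lit 41) (nat_lit 5) (nat_lit 320) (nat_lit 292) (nat_lit 108)) (XT.nd (nat_lit 78) (nat_lit 0) (nat_lit 0) (XT.lf (nat_lit 0) (nat_lit 61586640339) (nat_lit 228) (nat_lit 35605751629) (nat_lit 304) (nat_lit 21597150842) (nat_lit 37) (nat_lit 5) (nat_lit 40) (nat_lit 5) (nat_lit 41) (nat_lit 5) (nat_lit 321) (nat_lit 292) (nat_lit 107)) (XT.lf (nat_lit 0) (nat_lit 116929164024) (nat_lit 304) (nat_lit 4343418440) (nat_lit 76) (nat_lit 1504138833) (nat_lit 37) (nat_lit 5) (nat_lit 41) (nat_lit 5) (nat_lit 38) (nat_lit 5) (nat_lit 322) (nat_lit 292) (nat_lit 106)))))) (XT.nd (nat_lit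 312) (nat_lit 380) (nat_lit 0) (XT.nd (nat_lit 156) (nat_lit 228) (nat_lit 0) (XT.nd (nat_lit 78) (nat_lit 0) (nat_lit 0) (XT.lf (nat_lit 0) (nat_lit 11769303177) (nat_lit 228) (nat_lit 74836172848) (nat_lit 76) (nat_lit 40278342979) (nat_lit 34) (nat_lit 5) (nat_lit 37) (nat_lit 5) (nat_lit 35) (nat_lit 5) (nat_lit 323) (nat_lit 292) (nat_lit 105)) (XT.lf (nat_lit 0) (nat_lit 30144820659) (nat_lit 228) (nat_lit 19881212066) (nat_lit 76) (nat_lit 81161730125) (nat_lit 34) (nat_lit 5) (nat_lit 37) (nat_lit 5) (nat_lit 35) (nat_lit 5) (nat_lit 324) (nat_lit 292) (nat_lit 104))) (XT.nd (nat_lit 78) (nat_lit 0) (nat_lit 0) (XT.lf (nat_lit 0) (nat_lit 39071447494) (nat_lit 228) (nat_lit 10977268471) (nat_lit 304) (nat_lit 85627708629) (nat_lit 31) (nat_lit 5) (nat_lit 34) (nat_lit 5) (nat_lit 35) (nat_lit 5) (nat_lit 325) (nat_lit 292) (nat_lit 103)) (XT.lf (nat_lit 0) (nat_lit 71758376664)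 (nat_lit 304) (nat_lit 39185579579) (nat_lit 76) (nat_lit 29405035418) (nat_lit 31) (nat_lit 5) (nat_lit 35) (nat_lit 5) (nat_lit 32) (nat_lit 5) (nat_lit 326) (nat_lit 292) (nat_lit 102)))) (XT.nd (nat_lit 156) (nat_lit 228) (nat_lit 0) (XT.nd (nat_lit 78) (nat_lit 0) (nat_lit 0) (XT.lf (nat_lit 0) (nat_lit 21616123072) (nat_lit 152) (nat_lit 73454455368) (nat_lit 228) (nat_lit 50158756469) (nat_lit 29) (nat_lit 5) (nat_lit 31) (nat_lit 5) (nat_lit 32) (nat_lit 5) (nat_lit 327) (nat_lit 292) (nat_lit 101)) (XT.lf (nat_lit 0) (nat_lit 86817794275) (nat_lit 152) (nat_lit 33393847087) (nat_lit 228) (nat_lit 30108892100) (nat_lit 29) (nat_lit 5) (nat_lit 31) (nat_lit 5) (nat_lit 32) (nat_lit 5) (nat_lit 328) (nat_lit 292) (nat_lit 100))) (XT.nd (nat_lit 78) (nat_lit 228) (nat_lit 0) (XT.lf (nat_lit 0) (nat_lit 146744756758) (nat_lit 228) (nat_lit 522643748) (nat_lit 76) (nat_lit 8392142130)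 (nat_lit 29) (nat_lit 5) (nat_lit 32) (nat_lit 5) (nat_lit 30) (nat_lit 5) (nat_lit 329) (nat_lit 292) (nat_lit 99)) (XT.nd (nat_lit 78) (nat_lit 0) (nat_lit 0) (XT.lf (nat_lit 0) (nat_lit 14534691383) (nat_lit 228) (nat_lit 94210483166) (nat_lit 76) (nat_lit 52428785451) (nat_lit 26) (nat_lit 5) (nat_lit 29) (nat_lit 5) (nat_lit 27) (nat_lit 5) (nat_lit 330) (nat_lit 292) (nat_lit 98)) (XT.lf (nat_lit 0) (nat_lit 38865702679) (nat_lit 228) (nat_lit 29268415211) (nat_lit 76) (nat_lit 98822240941) (nat_lit 26) (nat_lit 5) (nat_lit 29) (nat_lit 5) (nat_lit 27) (nat_lit 5) (nat_lit 331) (nat_lit 292) (nat_lit 97))))))) (XT.nd (nat_lit 34476) (nat_lit 0) (nat_lit 4332) (XT.nd (nat_lit 312) (nat_lit 304) (nat_lit 0) (XT.nd (nat_lit 156) (nat_lit 152) (nat_lit 0) (XT.nd (nat_lit 78) (nat_lit 0) (nat_lit 0) (XT.lf (nat_lit 0) (nat_lit 40207141613) (nat_lit 152) (nat_lit 24833544426) (nat_lit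 228) (nat_lit 107955821034) (nat_lit 24) (nat_lit 5) (nat_lit 26) (nat_lit 5) (nat_lit 27) (nat_lit 5) (nat_lit 332) (nat_lit 292) (nat_lit 96)) (XT.lf (nat_lit 0) (nat_lit 93350023962) (nat_lit 228) (nat_lit 65472019382) (nat_lit 76) (nat_lit 20475339631) (nat_lit 24) (nat_lit 5) (nat_lit 27) (nat_lit 5) (nat_lit 25) (nat_lit 5) (nat_lit 333) (nat_lit 292) (nat_lit 95))) (XT.nd (nat_lit 78) (nat_lit 0) (nat_lit 0) (XT.lf (nat_lit 0) (nat_lit 4962439678) (nat_lit 152) (nat_lit 118596669754) (nat_lit 228) (nat_lit 62329979702) (nat_lit 22) (nat_lit 5) (nat_lit 24) (nat_lit 5) (nat_lit 25) (nat_lit 5) (nat_lit 334) (nat_lit 292) (nat_lit 94)) (XT.lf (nat_lit 0) (nat_lit 81191193947) (nat_lit 152) (nat_lit 75195958504) (nat_lit 228) (nat_lit 36367803456) (nat_lit 22) (nat_lit 5) (nat_lit 24) (nat_lit 5) (nat_lit 25) (nat_lit 5) (nat_lit 335) (nat_lit 292) (nat_lit 93)))) (XT.nd (nat_lit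 156) (nat_lit 152) (nat_lit 0) (XT.nd (nat_lit 78) (nat_lit 152) (nat_lit 0) (XT.lf (nat_lit 0) (nat_lit 161230939818) (nat_lit 152) (nat_lit 29625374898) (nat_lit 228) (nat_lit 9107815897) (nat_lit 22) (nat_lit 5) (nat_lit 24) (nat_lit 5) (nat_lit 25) (nat_lit 5) (nat_lit 336) (nat_lit 292) (nat_lit 92)) (XT.lf (nat_lit 0) (nat_lit 19793474065) (nat_lit 152) (nat_lit 169116251011) (nat_lit 76) (nat_lit 18563659540) (nat_lit 20) (nat_lit 5) (nat_lit 22) (nat_lit 5) (nat_lit 21) (nat_lit 5) (nat_lit 337) (nat_lit 292) (nat_lit 91))) (XT.nd (nat_lit 78) (nat_lit 152) (nat_lit 0) (XT.lf (nat_lit 0) (nat_lit 50985856564) (nat_lit 152) (nat_lit 95324762404) (nat_lit 76) (nat_lit 68982411798) (nat_lit 20) (nat_lit 5) (nat_lit 22) (nat_lit 5) (nat_lit 21) (nat_lit 5) (nat_lit 338) (nat_lit 292) (nat_lit 90)) (XT.nd (nat_lit 78) (nat_lit 152) (nat_lit 0) (XT.lf (nat_lit 0) (nat_lit 83737600696)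 (nat_lit 152) (nat_lit 17844117108) (nat_lit 76) (nat_lit 121921954661) (nat_lit 20) (nat_lit 5) (nat_lit 22) (nat_lit 5) (nat_lit 21) (nat_lit 5) (nat_lit 339) (nat_lit 292) (nat_lit 89)) (XT.lf (nat_lit 0) (nat_lit 65610095398) (nat_lit 152) (nat_lit 53540948867) (nat_lit 228) (nat_lit 112922596723) (nat_lit 18) (nat_lit 5) (nat_lit 20) (nat_lit 5) (nat_lit 21) (nat_lit 5) (nat_lit 340) (nat_lit 292) (nat_lit 88)))))) (XT.nd (nat_lit 312) (nat_lit 0) (nat_lit 76) (XT.nd (nat_lit 156) (nat_lit 0) (nat_lit 0) (XT.nd (nat_lit 78) (nat_lit 0) (nat_lit 0) (XT.lf (nat_lit 0) (nat_lit 7538800946) (nat_lit 0) (nat_lit 7538800946) (nat_lit 684) (nat_lit 12146908517) (nat_lit 75) (nat_lit 5) (nat_lit 75) (nat_lit 3) (nat_lit 84) (nat_lit 3) (nat_lit 293) (nat_lit 293) (nat_lit 134)) (XT.lf (nat_lit 0) (nat_lit 31071393261) (nat_lit 684) (nat_lit 15927327729) (nat_lit 760) (nat_lit 8803349986)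 (nat_lit 75) (nat_lit 5) (nat_lit 84) (nat_lit 3) (nat_lit 85) (nat_lit 5) (nat_lit 294) (nat_lit 293) (nat_lit 133))) (XT.nd (nat_lit 78) (nat_lit 0) (nat_lit 76) (XT.lf (nat_lit 76) (nat_lit 8720164565) (nat_lit 0) (nat_lit 23695257081) (nat_lit 760) (nat_lit 24788254354) (nat_lit 76) (nat_lit 5) (nat_lit 75) (nat_lit 5) (nat_lit 85) (nat_lit 5) (nat_lit 295) (nat_lit 293) (nat_lit 132)) (XT.lf (nat_lit 0) (nat_lit 34111652843) (nat_lit 684) (nat_lit 23526170098) (nat_lit 760) (nat_lit 1023291919) (nat_lit 76) (nat_lit 5) (nat_lit 85) (nat_lit 5) (nat_lit 86) (nat_lit 5) (nat_lit 296) (nat_lit 293) (nat_lit 131)))) (XT.nd (nat_lit 156) (nat_lit 0) (nat_lit 76) (XT.nd (nat_lit 78) (nat_lit 0) (nat_lit 0) (XT.lf (nat_lit 76) (nat_lit 2365550083) (nat_lit 0) (nat_lit 33951351735) (nat_lit 760) (nat_lit 23853317010) (nat_lit 77) (nat_lit 5) (nat_lit 76) (nat_lit 5) (nat_lit 86) (nat_lit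 5) (nat_lit 297) (nat_lit 293) (nat_lit 130)) (XT.lf (nat_lit 76) (nat_lit 30367890170) (nat_lit 0) (nat_lit 8661820962) (nat_lit 760) (nat_lit 22705205279) (nat_lit 77) (nat_lit 5) (nat_lit 76) (nat_lit 5) (nat_lit 86) (nat_lit 5) (nat_lit 298) (nat_lit 293) (nat_lit 129))) (XT.nd (nat_lit 78) (nat_lit 0) (nat_lit 0) (XT.lf (nat_lit 0) (nat_lit 42156438436) (nat_lit 684) (nat_lit 3887617764) (nat_lit 760) (nat_lit 17319881953) (nat_lit 77) (nat_lit 5) (nat_lit 86) (nat_lit 5) (nat_lit 87) (nat_lit 5) (nat_lit 299) (nat_lit 293) (nat_lit 128)) (XT.nd (nat_lit 78) (nat_lit 0) (nat_lit 76) (XT.lf (nat_lit 76) (nat_lit 25643793244) (nat_lit 0) (nat_lit 20337058691) (nat_lit 760) (nat_lit 19066494559) (nat_lit 78) (nat_lit 5) (nat_lit 77) (nat_lit 5) (nat_lit 87) (nat_lit 5) (nat_lit 300) (nat_lit 293) (nat_lit 127)) (XT.lf (nat_lit 0) (nat_lit 50166334449) (nat_lit 684) (nat_lit 10130652791)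 (nat_lit 760) (nat_lit 6509448456) (nat_lit 78) (nat_lit 5) (nat_lit 87) (nat_lit 5) (nat_lit 88) (nat_lit 5) (nat_lit 301) (nat_lit 293) (nat_lit 126))))))))
noncomputable def xc239 : XT := (XT.nd (nat_lit 1404) (nat_lit 1520) (nat_lit 0) (XT.nd (nat_lit 702) (nat_lit 1444) (nat_lit 0) (XT.nd (nat_lit 312) (nat_lit 836) (nat_lit 0) (XT.nd (nat_lit 156) (nat_lit 608) (nat_lit 0) (XT.nd (nat_lit 78) (nat_lit 0) (nat_lit 0) (XT.lf (nat_lit 76) (nat_lit 20942034602) (nat_lit 0) (nat_lit 34278483902) (nat_lit 760) (nat_lit 13399992208) (nat_lit 79) (nat_lit 5) (nat_lit 78) (nat_lit 5) (nat_lit 88) (nat_lit 5) (nat_lit 302) (nat_lit 293) (nat_lit 125)) (XT.lf (nat_lit 76) (nat_lit 53919342107) (nat_lit 0) (nat_lit 6778739291) (nat_lit 760) (nat_lit 9818677195) (nat_lit 79) (nat_lit 5) (nat_lit 78) (nat_lit 5) (nat_lit 88) (nat_lit 5) (nat_lit 303) (nat_lit 293) (nat_lit 124))) (XT.nd (nat_lit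 78) (nat_lit 0) (nat_lit 0) (XT.lf (nat_lit 0) (nat_lit 16210822554) (nat_lit 684) (nat_lit 50835924034) (nat_lit 760) (nat_lit 5431213543) (nat_lit 70) (nat_lit 5) (nat_lit 79) (nat_lit 5) (nat_lit 80) (nat_lit 5) (nat_lit 304) (nat_lit 293) (nat_lit 123)) (XT.lf (nat_lit 0) (nat_lit 51120168331) (nat_lit 684) (nat_lit 22982273126) (nat_lit 760) (nat_lit 415302822) (nat_lit 70) (nat_lit 5) (nat_lit 79) (nat_lit 5) (nat_lit 80) (nat_lit 5) (nat_lit 305) (nat_lit 293) (nat_lit 122)))) (XT.nd (nat_lit 156) (nat_lit 380) (nat_lit 0) (XT.nd (nat_lit 78) (nat_lit 0) (nat_lit 0) (XT.lf (nat_lit 0) (nat_lit 4975338645) (nat_lit 456) (nat_lit 65344835183) (nat_lit 76) (nat_lit 6321598220) (nat_lit 64) (nat_lit 5) (nat_lit 70) (nat_lit 5) (nat_lit 65) (nat_lit 5) (nat_lit 306) (nat_lit 293) (nat_lit 121)) (XT.lf (nat_lit 0) (nat_lit 11400287754) (nat_lit 456) (nat_lit 30704517733) (nat_lit 76)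 (nat_lit 36727920717) (nat_lit 64) (nat_lit 5) (nat_lit 70) (nat_lit 5) (nat_lit 65) (nat_lit 5) (nat_lit 307) (nat_lit 293) (nat_lit 120))) (XT.nd (nat_lit 78) (nat_lit 0) (nat_lit 0) (XT.lf (nat_lit 0) (nat_lit 5854478699) (nat_lit 380) (nat_lit 12382675894) (nat_lit 456) (nat_lit 62891541898) (nat_lit 59) (nat_lit 5) (nat_lit 64) (nat_lit 5) (nat_lit 65) (nat_lit 5) (nat_lit 308) (nat_lit 293) (nat_lit 119)) (XT.nd (nat_lit 78) (nat_lit 0) (nat_lit 0) (XT.lf (nat_lit 0) (nat_lit 26237594423) (nat_lit 456) (nat_lit 38509235963) (nat_lit 76) (nat_lit 18751550267) (nat_lit 59) (nat_lit 5) (nat_lit 65) (nat_lit 5) (nat_lit 60) (nat_lit 5) (nat_lit 309) (nat_lit 293) (nat_lit 118)) (XT.lf (nat_lit 0) (nat_lit 34840374272) (nat_lit 456) (nat_lit 109707029) (nat_lit 76) (nat_lit 51026353577) (nat_lit 59) (nat_lit 5) (nat_lit 65) (nat_lit 5) (nat_lit 60) (nat_lit 5) (nat_lit 310) (nat_lit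 293) (nat_lit 117)))))) (XT.nd (nat_lit 312) (nat_lit 836) (nat_lit 0) (XT.nd (nat_lit 156) (nat_lit 304) (nat_lit 0) (XT.nd (nat_lit 78) (nat_lit 0) (nat_lit 0) (XT.lf (nat_lit 0) (nat_lit 41538619983) (nat_lit 304) (nat_lit 2982562962) (nat_lit 380) (nat_lit 44024816052) (nat_lit 55) (nat_lit 5) (nat_lit 59) (nat_lit 5) (nat_lit 60) (nat_lit 5) (nat_lit 311) (nat_lit 293) (nat_lit 116)) (XT.lf (nat_lit 0) (nat_lit 55164787264) (nat_lit 380) (nat_lit 6448993215) (nat_lit 76) (nat_lit 29606324675) (nat_lit 55) (nat_lit 5) (nat_lit 60) (nat_lit 5) (nat_lit 56) (nat_lit 5) (nat_lit 312) (nat_lit 293) (nat_lit 115))) (XT.nd (nat_lit 78) (nat_lit 0) (nat_lit 0) (XT.lf (nat_lit 0) (nat_lit 37280979718) (nat_lit 304) (nat_lit 29689952174) (nat_lit 380) (nat_lit 27025468239) (nat_lit 51) (nat_lit 5) (nat_lit 55) (nat_lit 5) (nat_lit 56) (nat_lit 5) (nat_lit 313) (nat_lit 293) (nat_lit 114))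 (XT.lf (nat_lit 0) (nat_lit 79537611150) (nat_lit 380) (nat_lit 13546972068) (nat_lit 76) (nat_lit 3818416714) (nat_lit 51) (nat_lit 5) (nat_lit 56) (nat_lit 5) (nat_lit 52) (nat_lit 5) (nat_lit 314) (nat_lit 293) (nat_lit 113)))) (XT.nd (nat_lit 156) (nat_lit 532) (nat_lit 0) (XT.nd (nat_lit 78) (nat_lit 76) (nat_lit 0) (XT.lf (nat_lit 0) (nat_lit 32327202629) (nat_lit 228) (nat_lit 61396310070) (nat_lit 304) (nat_lit 6181873983) (nat_lit 48) (nat_lit 5) (nat_lit 51) (nat_lit 5) (nat_lit 52) (nat_lit 5) (nat_lit 315) (nat_lit 293) (nat_lit 112)) (XT.lf (nat_lit 0) (nat_lit 5615477085) (nat_lit 304) (nat_lit 22172252892) (nat_lit 76) (nat_lit 75254190976) (nat_lit 47) (nat_lit 5) (nat_lit 51) (nat_lit 5) (nat_lit 48) (nat_lit 5) (nat_lit 316) (nat_lit 293) (nat_lit 111))) (XT.nd (nat_lit 78) (nat_lit 228) (nat_lit 0) (XT.lf (nat_lit 0) (nat_lit 18329627935) (nat_lit 380) (nat_lit 80193336381)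 (nat_lit 76) (nat_lit 7780517514) (nat_lit 43) (nat_lit 5) (nat_lit 48) (nat_lit 5) (nat_lit 44) (nat_lit 5) (nat_lit 317) (nat_lit 293) (nat_lit 110)) (XT.nd (nat_lit 78) (nat_lit 228) (nat_lit 0) (XT.lf (nat_lit 0) (nat_lit 32516171458) (nat_lit 380) (nat_lit 32595243739) (nat_lit 76) (nat_lit 44574872429) (nat_lit 43) (nat_lit 5) (nat_lit 48) (nat_lit 5) (nat_lit 44) (nat_lit 5) (nat_lit 318) (nat_lit 293) (nat_lit 109)) (XT.lf (nat_lit 0) (nat_lit 17956876306) (nat_lit 228) (nat_lit 29735042100) (nat_lit 304) (nat_lit 65532322573) (nat_lit 40) (nat_lit 5) (nat_lit 43) (nat_lit 5) (nat_lit 44) (nat_lit 5) (nat_lit 319) (nat_lit 293) (nat_lit 108))))))) (XT.nd (nat_lit 702) (nat_lit 684) (nat_lit 0) (XT.nd (nat_lit 312) (nat_lit 608) (nat_lit 0) (XT.nd (nat_lit 156) (nat_lit 0) (nat_lit 0) (XT.nd (nat_lit 78) (nat_lit 228) (nat_lit 0) (XT.lf (nat_lit 0) (nat_lit 64302742138) (nat_lit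 304) (nat_lit 44868620137) (nat_lit 76) (nat_lit 7733916278) (nat_lit 40) (nat_lit 5) (nat_lit 44) (nat_lit 5) (nat_lit 41) (nat_lit 5) (nat_lit 320) (nat_lit 293) (nat_lit 107)) (XT.lf (nat_lit 0) (nat_lit 7812043807) (nat_lit 228) (nat_lit 74541043767) (nat_lit 304) (nat_lit 38386832386) (nat_lit 37) (nat_lit 5) (nat_lit 40) (nat_lit 5) (nat_lit 41) (nat_lit 5) (nat_lit 321) (nat_lit 293) (nat_lit 106))) (XT.nd (nat_lit 78) (nat_lit 0) (nat_lit 0) (XT.lf (nat_lit 0) (nat_lit 64683895377) (nat_lit 228) (nat_lit 37381491805) (nat_lit 304) (nat_lit 22662935340) (nat_lit 37) (nat_lit 5) (nat_lit 40) (nat_lit 5) (nat_lit 41) (nat_lit 5) (nat_lit 322) (nat_lit 293) (nat_lit 105)) (XT.lf (nat_lit 0) (nat_lit 122788428522) (nat_lit 304) (nat_lit 4542923216) (nat_lit 76) (nat_lit 1583538023) (nat_lit 37) (nat_lit 5) (nat_lit 41) (nat_lit 5) (nat_lit 38) (nat_lit 5) (nat_lit 323) (nat_lit 293)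 (nat_lit 104)))) (XT.nd (nat_lit 156) (nat_lit 380) (nat_lit 0) (XT.nd (nat_lit 78) (nat_lit 0) (nat_lit 0) (XT.lf (nat_lit 0) (nat_lit 12370465724) (nat_lit 228) (nat_lit 78560155703) (nat_lit 76) (nat_lit 42296728911) (nat_lit 34) (nat_lit 5) (nat_lit 37) (nat_lit 5) (nat_lit 35) (nat_lit 5) (nat_lit 324) (nat_lit 293) (nat_lit 103)) (XT.lf (nat_lit 0) (nat_lit 31664154442) (nat_lit 228) (nat_lit 20858295728) (nat_lit 76) (nat_lit 85224072615) (nat_lit 34) (nat_lit 5) (nat_lit 37) (nat_lit 5) (nat_lit 35) (nat_lit 5) (nat_lit 325) (nat_lit 293) (nat_lit 102))) (XT.nd (nat_lit 78) (nat_lit 152) (nat_lit 0) (XT.lf (nat_lit 0) (nat_lit 41041722988) (nat_lit 228) (nat_lit 11521206463) (nat_lit 304) (nat_lit 89896705042) (nat_lit 31) (nat_lit 5) (nat_lit 34) (nat_lit 5) (nat_lit 35) (nat_lit 5) (nat_lit 326) (nat_lit 293) (nat_lit 101)) (XT.nd (nat_lit 78) (nat_lit 152) (nat_lit 0) (XT.lf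 (nat_lit 0) (nat_lit 75357585581) (nat_lit 304) (nat_lit 41128441842) (nat_lit 76) (nat_lit 30879827939) (nat_lit 31) (nat_lit 5) (nat_lit 35) (nat_lit 5) (nat_lit 32) (nat_lit 5) (nat_lit 327) (nat_lit 293) (nat_lit 100)) (XT.lf (nat_lit 0) (nat_lit 22713081155) (nat_lit 152) (nat_lit 77122030844) (nat_lit 228) (nat_lit 52655119064) (nat_lit 29) (nat_lit 5) (nat_lit 31) (nat_lit 5) (nat_lit 32) (nat_lit 5) (nat_lit 328) (nat_lit 293) (nat_lit 99)))))) (XT.nd (nat_lit 390) (nat_lit 304) (nat_lit 0) (XT.nd (nat_lit 156) (nat_lit 380) (nat_lit 0) (XT.nd (nat_lit 78) (nat_lit 0) (nat_lit 0) (XT.lf (nat_lit 0) (nat_lit 91174066779) (nat_lit 152) (nat_lit 35058637258) (nat_lit 228) (nat_lit 31603312677) (nat_lit 29) (nat_lit 5) (nat_lit 31) (nat_lit 5) (nat_lit 32) (nat_lit 5) (nat_lit 329) (nat_lit 293) (nat_lit 98)) (XT.lf (nat_lit 0) (nat_lit 154092049019) (nat_lit 228) (nat_lit 533681008)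 (nat_lit 76) (nat_lit 8816268554) (nat_lit 29) (nat_lit 5) (nat_lit 32) (nat_lit 5) (nat_lit 30) (nat_lit 5) (nat_lit 330) (nat_lit 293) (nat_lit 97))) (XT.nd (nat_lit 78) (nat_lit 152) (nat_lit 0) (XT.lf (nat_lit 0) (nat_lit 15271411269) (nat_lit 228) (nat_lit 98905808953) (nat_lit 76) (nat_lit 55054921762) (nat_lit 26) (nat_lit 5) (nat_lit 29) (nat_lit 5) (nat_lit 27) (nat_lit 5) (nat_lit 331) (nat_lit 293) (nat_lit 96)) (XT.nd (nat_lit 78) (nat_lit 152) (nat_lit 0) (XT.lf (nat_lit 0) (nat_lit 40818497639) (nat_lit 228) (nat_lit 30717361332) (nat_lit 76) (nat_lit 103767826358) (nat_lit 26) (nat_lit 5) (nat_lit 29) (nat_lit 5) (nat_lit 27) (nat_lit 5) (nat_lit 332) (nat_lit 293) (nat_lit 95)) (XT.lf (nat_lit 0) (nat_lit 42231739871) (nat_lit 152) (nat_lit 26070259791) (nat_lit 228) (nat_lit 113343853605) (nat_lit 24) (nat_lit 5) (nat_lit 26) (nat_lit 5) (nat_lit 27) (nat_lit 5) (nat_lit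 333) (nat_lit 293) (nat_lit 94))))) (XT.nd (nat_lit 156) (nat_lit 152) (nat_lit 0) (XT.nd (nat_lit 78) (nat_lit 152) (nat_lit 0) (XT.lf (nat_lit 0) (nat_lit 98026436389) (nat_lit 228) (nat_lit 68731674762) (nat_lit 76) (nat_lit 21503680942) (nat_lit 24) (nat_lit 5) (nat_lit 27) (nat_lit 5) (nat_lit 25) (nat_lit 5) (nat_lit 334) (nat_lit 293) (nat_lit 93)) (XT.lf (nat_lit 0) (nat_lit 5224282322) (nat_lit 152) (nat_lit 124521483684) (nat_lit 228) (nat_lit 65437328749) (nat_lit 22) (nat_lit 5) (nat_lit 24) (nat_lit 5) (nat_lit 25) (nat_lit 5) (nat_lit 335) (nat_lit 293) (nat_lit 92))) (XT.nd (nat_lit 78) (nat_lit 152) (nat_lit 0) (XT.lf (nat_lit 0) (nat_lit 85263820940) (nat_lit 152) (nat_lit 78950975899) (nat_lit 228) (nat_lit 38177479402) (nat_lit 22) (nat_lit 5) (nat_lit 24) (nat_lit 5) (nat_lit 25) (nat_lit 5) (nat_lit 336) (nat_lit 293) (nat_lit 91)) (XT.nd (nat_lit 78) (nat_lit 152)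 (nat_lit 0) (XT.lf (nat_lit 0) (nat_lit 169304931852) (nat_lit 152) (nat_lit 31102090756) (nat_lit 228) (nat_lit 9554907428) (nat_lit 22) (nat_lit 5) (nat_lit 24) (nat_lit 5) (nat_lit 25) (nat_lit 5) (nat_lit 337) (nat_lit 293) (nat_lit 90)) (XT.lf (nat_lit 0) (nat_lit 20791067206) (nat_lit 152) (nat_lit 177559215452) (nat_lit 76) (nat_lit 19496363880) (nat_lit 20) (nat_lit 5) (nat_lit 22) (nat_lit 5) (nat_lit 21) (nat_lit 5) (nat_lit 338) (nat_lit 293) (nat_lit 89))))))))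
noncomputable def xc240 : XT := (XT.nd (nat_lit 35334) (nat_lit 0) (nat_lit 836) (XT.nd (nat_lit 34632) (nat_lit 0) (nat_lit 2964) (XT.nd (nat_lit 34242) (nat_lit 0) (nat_lit 4256) (XT.nd (nat_lit 34086) (nat_lit 0) (nat_lit 4180) (XT.nd (nat_lit 34008) (nat_lit 0) (nat_lit 4180) (XT.lf (nat_lit 0) (nat_lit 53542691713) (nat_lit 152) (nat_lit 100078764228) (nat_lit 76) (nat_lit 72435838448) (nat_lit 20) (nat_lit 5) (nat_lit 22) (nat_lit 5) (nat_lit 21) (nat_lit 5) (nat_lit 339) (nat_lit 293) (nat_lit 88)) (XT.lf (nat_lit 0) (nat_lit 7925742301) (nat_lit 0) (nat_lit 7925742301) (nat_lit 684) (nat_lit 12733192237) (nat_lit 75) (nat_lit 5) (nat_lit 75) (nat_lit 3) (nat_lit 84) (nat_lit 3) (nat_lit 294) (nat_lit 294) (nat_lit 132))) (XT.nd (nat_lit 78) (nat_lit 0) (nat_lit 0) (XT.lf (nat_lit 0) (nat_lit 32662765716) (nat_lit 684) (nat_lit 16702329264) (nat_lit 760) (nat_lit 9225077099)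 (nat_lit 75) (nat_lit 5) (nat_lit 84) (nat_lit 3) (nat_lit 85) (nat_lit 5) (nat_lit 295) (nat_lit 294) (nat_lit 131)) (XT.lf (nat_lit 76) (nat_lit 9177193051) (nat_lit 0) (nat_lit 24895330522) (nat_lit 760) (nat_lit 25989412727) (nat_lit 76) (nat_lit 5) (nat_lit 75) (nat_lit 5) (nat_lit 85) (nat_lit 5) (nat_lit 296) (nat_lit 294) (nat_lit 130)))) (XT.nd (nat_lit 156) (nat_lit 0) (nat_lit 0) (XT.nd (nat_lit 78) (nat_lit 0) (nat_lit 0) (XT.lf (nat_lit 0) (nat_lit 35851608630) (nat_lit 684) (nat_lit 24680399745) (nat_lit 760) (nat_lit 1060341704) (nat_lit 76) (nat_lit 5) (nat_lit 85) (nat_lit 5) (nat_lit 86) (nat_lit 5) (nat_lit 297) (nat_lit 294) (nat_lit 129)) (XT.lf (nat_lit 76) (nat_lit 2505550333) (nat_lit 0) (nat_lit 35660272057) (nat_lit 760) (nat_lit 25011156590) (nat_lit 77) (nat_lit 5) (nat_lit 76) (nat_lit 5) (nat_lit 86) (nat_lit 5) (nat_lit 298) (nat_lit 294) (nat_lit 128)))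 (XT.nd (nat_lit 78) (nat_lit 0) (nat_lit 76) (XT.lf (nat_lit 76) (nat_lit 31906973009) (nat_lit 0) (nat_lit 9105724139) (nat_lit 760) (nat_lit 23807297666) (nat_lit 77) (nat_lit 5) (nat_lit 76) (nat_lit 5) (nat_lit 86) (nat_lit 5) (nat_lit 299) (nat_lit 294) (nat_lit 127)) (XT.nd (nat_lit 78) (nat_lit 0) (nat_lit 0) (XT.lf (nat_lit 0) (nat_lit 44294100026) (nat_lit 684) (nat_lit 4060546694) (nat_lit 760) (nat_lit 18175908362) (nat_lit 77) (nat_lit 5) (nat_lit 86) (nat_lit 5) (nat_lit 87) (nat_lit 5) (nat_lit 300) (nat_lit 294) (nat_lit 126)) (XT.lf (nat_lit 76) (nat_lit 26947088865) (nat_lit 0) (nat_lit 21361553921) (nat_lit 760) (nat_lit 19989549814) (nat_lit 78) (nat_lit 5) (nat_lit 77) (nat_lit 5) (nat_lit 87) (nat_lit 5) (nat_lit 301) (nat_lit 294) (nat_lit 125)))))) (XT.nd (nat_lit 312) (nat_lit 836) (nat_lit 0) (XT.nd (nat_lit 156) (nat_lit 608) (nat_lit 0) (XT.nd (nat_lit 78)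 (nat_lit 0) (nat_lit 0) (XT.lf (nat_lit 0) (nat_lit 52701916825) (nat_lit 684) (nat_lit 10615522102) (nat_lit 760) (nat_lit 6827875456) (nat_lit 78) (nat_lit 5) (nat_lit 87) (nat_lit 5) (nat_lit 88) (nat_lit 5) (nat_lit 302) (nat_lit 294) (nat_lit 124)) (XT.lf (nat_lit 76) (nat_lit 22010450252) (nat_lit 0) (nat_lit 35997394238) (nat_lit 760) (nat_lit 14042300742) (nat_lit 79) (nat_lit 5) (nat_lit 78) (nat_lit 5) (nat_lit 88) (nat_lit 5) (nat_lit 303) (nat_lit 294) (nat_lit 123))) (XT.nd (nat_lit 78) (nat_lit 608) (nat_lit 0) (XT.lf (nat_lit 76) (nat_lit 56635608183) (nat_lit 0) (nat_lit 7122424960) (nat_lit 760) (nat_lit 10283238601) (nat_lit 79) (nat_lit 5) (nat_lit 78) (nat_lit 5) (nat_lit 88) (nat_lit 5) (nat_lit 304) (nat_lit 294) (nat_lit 122)) (XT.lf (nat_lit 0) (nat_lit 17042711605) (nat_lit 684) (nat_lit 53380489933) (nat_lit 760) (nat_lit 5677381772) (nat_lit 70) (nat_lit 5)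 (nat_lit 79) (nat_lit 5) (nat_lit 80) (nat_lit 5) (nat_lit 305) (nat_lit 294) (nat_lit 121)))) (XT.nd (nat_lit 156) (nat_lit 380) (nat_lit 0) (XT.nd (nat_lit 78) (nat_lit 456) (nat_lit 0) (XT.lf (nat_lit 0) (nat_lit 53696508103) (nat_lit 684) (nat_lit 24134024589) (nat_lit 760) (nat_lit 411884680) (nat_lit 70) (nat_lit 5) (nat_lit 79) (nat_lit 5) (nat_lit 80) (nat_lit 5) (nat_lit 306) (nat_lit 294) (nat_lit 120)) (XT.lf (nat_lit 0) (nat_lit 5246697281) (nat_lit 456) (nat_lit 68590031910) (nat_lit 76) (nat_lit 6635942316) (nat_lit 64) (nat_lit 5) (nat_lit 70) (nat_lit 5) (nat_lit 65) (nat_lit 5) (nat_lit 307) (nat_lit 294) (nat_lit 119))) (XT.nd (nat_lit 78) (nat_lit 380) (nat_lit 0) (XT.lf (nat_lit 0) (nat_lit 11991818050) (nat_lit 456) (nat_lit 32218748352) (nat_lit 76) (nat_lit 38562663595) (nat_lit 64) (nat_lit 5) (nat_lit 70) (nat_lit 5) (nat_lit 65) (nat_lit 5) (nat_lit 308) (nat_lit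 294) (nat_lit 118)) (XT.nd (nat_lit 78) (nat_lit 0) (nat_lit 0) (XT.lf (nat_lit 0) (nat_lit 6167859269) (nat_lit 380) (nat_lit 13001966903) (nat_lit 456) (nat_lit 66014210430) (nat_lit 59) (nat_lit 5) (nat_lit 64) (nat_lit 5) (nat_lit 65) (nat_lit 5) (nat_lit 309) (nat_lit 294) (nat_lit 117)) (XT.lf (nat_lit 0) (nat_lit 27569294520) (nat_lit 456) (nat_lit 40413979853) (nat_lit 76) (nat_lit 19688982845) (nat_lit 59) (nat_lit 5) (nat_lit 65) (nat_lit 5) (nat_lit 60) (nat_lit 5) (nat_lit 310) (nat_lit 294) (nat_lit 116))))))) (XT.nd (nat_lit 702) (nat_lit 912) (nat_lit 0) (XT.nd (nat_lit 312) (nat_lit 608) (nat_lit 0) (XT.nd (nat_lit 156) (nat_lit 304) (nat_lit 0) (XT.nd (nat_lit 78) (nat_lit 304) (nat_lit 0) (XT.lf (nat_lit 0) (nat_lit 36601269534) (nat_lit 456) (nat_lit 95461040) (nat_lit 76) (nat_lit 53577533222) (nat_lit 59) (nat_lit 5) (nat_lit 65) (nat_lit 5) (nat_lit 60) (nat_lit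 5) (nat_lit 311) (nat_lit 294) (nat_lit 115)) (XT.lf (nat_lit 0) (nat_lit 43634964076) (nat_lit 304) (nat_lit 3130558774) (nat_lit 380) (nat_lit 46206815393) (nat_lit 55) (nat_lit 5) (nat_lit 59) (nat_lit 5) (nat_lit 60) (nat_lit 5) (nat_lit 312) (nat_lit 294) (nat_lit 114))) (XT.nd (nat_lit 78) (nat_lit 304) (nat_lit 0) (XT.lf (nat_lit 0) (nat_lit 57940453709) (nat_lit 380) (nat_lit 6752056096) (nat_lit 76) (nat_lit 31087684808) (nat_lit 55) (nat_lit 5) (nat_lit 60) (nat_lit 5) (nat_lit 56) (nat_lit 5) (nat_lit 313) (nat_lit 294) (nat_lit 113)) (XT.lf (nat_lit 0) (nat_lit 39164102793) (nat_lit 304) (nat_lit 31172270715) (nat_lit 380) (nat_lit 28358959551) (nat_lit 51) (nat_lit 5) (nat_lit 55) (nat_lit 5) (nat_lit 56) (nat_lit 5) (nat_lit 314) (nat_lit 294) (nat_lit 112)))) (XT.nd (nat_lit 156) (nat_lit 380) (nat_lit 0) (XT.nd (nat_lit 78) (nat_lit 228) (nat_lit 0) (XT.lf (nat_lit 0)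 (nat_lit 83530614606) (nat_lit 380) (nat_lit 14205342436) (nat_lit 76) (nat_lit 4011346429) (nat_lit 51) (nat_lit 5) (nat_lit 56) (nat_lit 5) (nat_lit 52) (nat_lit 5) (nat_lit 315) (nat_lit 294) (nat_lit 111)) (XT.lf (nat_lit 0) (nat_lit 33962234895) (nat_lit 228) (nat_lit 64463100105) (nat_lit 304) (nat_lit 6474500292) (nat_lit 48) (nat_lit 5) (nat_lit 51) (nat_lit 5) (nat_lit 52) (nat_lit 5) (nat_lit 316) (nat_lit 294) (nat_lit 110))) (XT.nd (nat_lit 78) (nat_lit 304) (nat_lit 0) (XT.lf (nat_lit 0) (nat_lit 5911432208) (nat_lit 304) (nat_lit 23262545768) (nat_lit 76) (nat_lit 79019245140) (nat_lit 47) (nat_lit 5) (nat_lit 51) (nat_lit 5) (nat_lit 48) (nat_lit 5) (nat_lit 317) (nat_lit 294) (nat_lit 109)) (XT.nd (nat_lit 78) (nat_lit 0) (nat_lit 0) (XT.lf (nat_lit 0) (nat_lit 19260900373) (nat_lit 380) (nat_lit 84184260039) (nat_lit 76) (nat_lit 8172722793) (nat_lit 43) (nat_lit 5)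 (nat_lit 48) (nat_lit 5) (nat_lit 44) (nat_lit 5) (nat_lit 318) (nat_lit 294) (nat_lit 108)) (XT.lf (nat_lit 0) (nat_lit 34156066737) (nat_lit 380) (nat_lit 34207155297) (nat_lit 76) (nat_lit 46806644054) (nat_lit 43) (nat_lit 5) (nat_lit 48) (nat_lit 5) (nat_lit 44) (nat_lit 5) (nat_lit 319) (nat_lit 294) (nat_lit 107)))))) (XT.nd (nat_lit 312) (nat_lit 456) (nat_lit 0) (XT.nd (nat_lit 156) (nat_lit 228) (nat_lit 0) (XT.nd (nat_lit 78) (nat_lit 0) (nat_lit 0) (XT.lf (nat_lit 0) (nat_lit 18872282837) (nat_lit 228) (nat_lit 31217921603) (nat_lit 304) (nat_lit 68794534001) (nat_lit 40) (nat_lit 5) (nat_lit 43) (nat_lit 5) (nat_lit 44) (nat_lit 5) (nat_lit 320) (nat_lit 294) (nat_lit 106)) (XT.lf (nat_lit 0) (nat_lit 67530975031) (nat_lit 304) (nat_lit 47094701772) (nat_lit 76) (nat_lit 8124182240) (nat_lit 40) (nat_lit 5) (nat_lit 44) (nat_lit 5) (nat_lit 41) (nat_lit 5) (nat_lit 321)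 (nat_lit 294) (nat_lit 105))) (XT.nd (nat_lit 78) (nat_lit 0) (nat_lit 0) (XT.lf (nat_lit 0) (nat_lit 8219715540) (nat_lit 228) (nat_lit 78263765093) (nat_lit 304) (nat_lit 40292771106) (nat_lit 37) (nat_lit 5) (nat_lit 40) (nat_lit 5) (nat_lit 41) (nat_lit 5) (nat_lit 322) (nat_lit 294) (nat_lit 104)) (XT.lf (nat_lit 0) (nat_lit 67934346854) (nat_lit 228) (nat_lit 39246441764) (nat_lit 304) (nat_lit 23783317441) (nat_lit 37) (nat_lit 5) (nat_lit 40) (nat_lit 5) (nat_lit 41) (nat_lit 5) (nat_lit 323) (nat_lit 294) (nat_lit 103)))) (XT.nd (nat_lit 156) (nat_lit 228) (nat_lit 0) (XT.nd (nat_lit 78) (nat_lit 228) (nat_lit 0) (XT.lf (nat_lit 0) (nat_lit 128939465638) (nat_lit 304) (nat_lit 4754045663) (nat_lit 76) (nat_lit 1666517417) (nat_lit 37) (nat_lit 5) (nat_lit 41) (nat_lit 5) (nat_lit 38) (nat_lit 5) (nat_lit 324) (nat_lit 294) (nat_lit 102)) (XT.lf (nat_lit 0) (nat_lit 13000505915)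 (nat_lit 228) (nat_lit 82471994972) (nat_lit 76) (nat_lit 44415618675) (nat_lit 34) (nat_lit 5) (nat_lit 37) (nat_lit 5) (nat_lit 35) (nat_lit 5) (nat_lit 325) (nat_lit 294) (nat_lit 101))) (XT.nd (nat_lit 78) (nat_lit 228) (nat_lit 0) (XT.lf (nat_lit 0) (nat_lit 33258330645) (nat_lit 228) (nat_lit 21885811929) (nat_lit 76) (nat_lit 89489136549) (nat_lit 34) (nat_lit 5) (nat_lit 37) (nat_lit 5) (nat_lit 35) (nat_lit 5) (nat_lit 326) (nat_lit 294) (nat_lit 100)) (XT.nd (nat_lit 78) (nat_lit 0) (nat_lit 0) (XT.lf (nat_lit 0) (nat_lit 43108959360) (nat_lit 228) (nat_lit 12092799274) (nat_lit 304) (nat_lit 94380303088) (nat_lit 31) (nat_lit 5) (nat_lit 34) (nat_lit 5) (nat_lit 35) (nat_lit 5) (nat_lit 327) (nat_lit 294) (nat_lit 99)) (XT.lf (nat_lit 0) (nat_lit 79135705298) (nat_lit 304) (nat_lit 43169973489) (nat_lit 76) (nat_lit 32427937930) (nat_lit 31) (nat_lit 5) (nat_lit 35) (nat_lit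 5) (nat_lit 32) (nat_lit 5) (nat_lit 328) (nat_lit 294) (nat_lit 98))))))))
noncomputable def xc241 : XT := (XT.nd (nat_lit 35412) (nat_lit 0) (nat_lit 1748) (XT.nd (nat_lit 702) (nat_lit 152) (nat_lit 0) (XT.nd (nat_lit 312) (nat_lit 304) (nat_lit 0) (XT.nd (nat_lit 156) (nat_lit 228) (nat_lit 0) (XT.nd (nat_lit 78) (nat_lit 0) (nat_lit 0) (XT.lf (nat_lit 0) (nat_lit 23863385489) (nat_lit 152) (nat_lit 80973463640) (nat_lit 228) (nat_lit 55277375943) (nat_lit 29) (nat_lit 5) (nat_lit 31) (nat_lit 5) (nat_lit 32) (nat_lit 5) (nat_lit 329) (nat_lit 294) (nat_lit 97)) (XT.lf (nat_lit 0) (nat_lit 95746722762) (nat_lit 152) (nat_lit 36807122695) (nat_lit 228) (nat_lit 33173479193) (nat_lit 29) (nat_lit 5) (nat_lit 31) (nat_lit 5) (nat_lit 32) (nat_lit 5) (nat_lit 330) (nat_lit 294) (nat_lit 96))) (XT.nd (nat_lit 78) (nat_lit 228) (nat_lit 0) (XT.lf (nat_lit 0) (nat_lit 161805771127) (nat_lit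 228) (nat_lit 546673514) (nat_lit 76) (nat_lit 9261181136) (nat_lit 29) (nat_lit 5) (nat_lit 32) (nat_lit 5) (nat_lit 30) (nat_lit 5) (nat_lit 331) (nat_lit 294) (nat_lit 95)) (XT.lf (nat_lit 0) (nat_lit 16044038810) (nat_lit 228) (nat_lit 103837314030) (nat_lit 76) (nat_lit 57811928202) (nat_lit 26) (nat_lit 5) (nat_lit 29) (nat_lit 5) (nat_lit 27) (nat_lit 5) (nat_lit 332) (nat_lit 294) (nat_lit 94)))) (XT.nd (nat_lit 156) (nat_lit 152) (nat_lit 0) (XT.nd (nat_lit 78) (nat_lit 152) (nat_lit 0) (XT.lf (nat_lit 0) (nat_lit 42868048213) (nat_lit 228) (nat_lit 32240100474) (nat_lit 76) (nat_lit 108960275154) (nat_lit 26) (nat_lit 5) (nat_lit 29) (nat_lit 5) (nat_lit 27) (nat_lit 5) (nat_lit 333) (nat_lit 294) (nat_lit 93)) (XT.lf (nat_lit 0) (nat_lit 44356244032) (nat_lit 152) (nat_lit 27369272231) (nat_lit 228) (nat_lit 119002195055) (nat_lit 24) (nat_lit 5) (nat_lit 26) (nat_lit 5)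 (nat_lit 27) (nat_lit 5) (nat_lit 334) (nat_lit 294) (nat_lit 92))) (XT.nd (nat_lit 78) (nat_lit 152) (nat_lit 0) (XT.lf (nat_lit 0) (nat_lit 102935840956) (nat_lit 228) (nat_lit 72155609440) (nat_lit 76) (nat_lit 22583014040) (nat_lit 24) (nat_lit 5) (nat_lit 27) (nat_lit 5) (nat_lit 25) (nat_lit 5) (nat_lit 335) (nat_lit 294) (nat_lit 91)) (XT.nd (nat_lit 78) (nat_lit 0) (nat_lit 0) (XT.lf (nat_lit 0) (nat_lit 5497941481) (nat_lit 152) (nat_lit 130743004982) (nat_lit 228) (nat_lit 68700895923) (nat_lit 22) (nat_lit 5) (nat_lit 24) (nat_lit 5) (nat_lit 25) (nat_lit 5) (nat_lit 336) (nat_lit 294) (nat_lit 90)) (XT.lf (nat_lit 0) (nat_lit 89538864409) (nat_lit 152) (nat_lit 82894188611) (nat_lit 228) (nat_lit 40078449311) (nat_lit 22) (nat_lit 5) (nat_lit 24) (nat_lit 5) (nat_lit 25) (nat_lit 5) (nat_lit 337) (nat_lit 294) (nat_lit 89)))))) (XT.nd (nat_lit 34320) (nat_lit 0) (nat_lit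 4180) (XT.nd (nat_lit 34164) (nat_lit 0) (nat_lit 4180) (XT.nd (nat_lit 78) (nat_lit 152) (nat_lit 0) (XT.lf (nat_lit 0) (nat_lit 177781466466) (nat_lit 152) (nat_lit 32653065692) (nat_lit 228) (nat_lit 10025125123) (nat_lit 22) (nat_lit 5) (nat_lit 24) (nat_lit 5) (nat_lit 25) (nat_lit 5) (nat_lit 338) (nat_lit 294) (nat_lit 88)) (XT.lf (nat_lit 0) (nat_lit 21837803730) (nat_lit 152) (nat_lit 186425522609) (nat_lit 76) (nat_lit 20475283084) (nat_lit 20) (nat_lit 5) (nat_lit 22) (nat_lit 5) (nat_lit 21) (nat_lit 5) (nat_lit 339) (nat_lit 294) (nat_lit 87))) (XT.nd (nat_lit 78) (nat_lit 0) (nat_lit 0) (XT.lf (nat_lit 0) (nat_lit 8331100896) (nat_lit 0) (nat_lit 8331100896) (nat_lit 684) (nat_lit 13350748261) (nat_lit 75) (nat_lit 5) (nat_lit 75) (nat_lit 3) (nat_lit 84) (nat_lit 3) (nat_lit 295) (nat_lit 295) (nat_lit 130)) (XT.lf (nat_lit 0) (nat_lit 34330192248) (nat_lit 684) (nat_lit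 17518067176) (nat_lit 760) (nat_lit 9669604980) (nat_lit 75) (nat_lit 5) (nat_lit 84) (nat_lit 3) (nat_lit 85) (nat_lit 5) (nat_lit 296) (nat_lit 295) (nat_lit 129)))) (XT.nd (nat_lit 156) (nat_lit 0) (nat_lit 76) (XT.nd (nat_lit 78) (nat_lit 0) (nat_lit 76) (XT.lf (nat_lit 76) (nat_lit 9655118697) (nat_lit 0) (nat_lit 26153984201) (nat_lit 760) (nat_lit 27254185545) (nat_lit 76) (nat_lit 5) (nat_lit 75) (nat_lit 5) (nat_lit 85) (nat_lit 5) (nat_lit 297) (nat_lit 295) (nat_lit 128)) (XT.lf (nat_lit 0) (nat_lit 37675366518) (nat_lit 684) (nat_lit 25894393558) (nat_lit 760) (nat_lit 1100556239) (nat_lit 76) (nat_lit 5) (nat_lit 85) (nat_lit 5) (nat_lit 86) (nat_lit 5) (nat_lit 298) (nat_lit 295) (nat_lit 127))) (XT.nd (nat_lit 78) (nat_lit 0) (nat_lit 0) (XT.lf (nat_lit 76) (nat_lit 2650531022) (nat_lit 0) (nat_lit 37453582925) (nat_lit 760) (nat_lit 26230125965) (nat_lit 77) (nat_lit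 5) (nat_lit 76) (nat_lit 5) (nat_lit 86) (nat_lit 5) (nat_lit 299) (nat_lit 295) (nat_lit 126)) (XT.nd (nat_lit 78) (nat_lit 0) (nat_lit 76) (XT.lf (nat_lit 76) (nat_lit 33521086584) (nat_lit 0) (nat_lit 9570817266) (nat_lit 760) (nat_lit 24967578307) (nat_lit 77) (nat_lit 5) (nat_lit 76) (nat_lit 5) (nat_lit 86) (nat_lit 5) (nat_lit 300) (nat_lit 295) (nat_lit 125)) (XT.lf (nat_lit 0) (nat_lit 46535870486) (nat_lit 684) (nat_lit 4244116470) (nat_lit 760) (nat_lit 19075662792) (nat_lit 77) (nat_lit 5) (nat_lit 86) (nat_lit 5) (nat_lit 87) (nat_lit 5) (nat_lit 301) (nat_lit 295) (nat_lit 124))))))) (XT.nd (nat_lit 702) (nat_lit 1216) (nat_lit 0) (XT.nd (nat_lit 312) (nat_lit 1368) (nat_lit 0) (XT.nd (nat_lit 156) (nat_lit 0) (nat_lit 76) (XT.nd (nat_lit 78) (nat_lit 0) (nat_lit 76) (XT.lf (nat_lit 76) (nat_lit 28313587035) (nat_lit 0) (nat_lit 22436563405) (nat_lit 760) (nat_lit 20961572001)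 (nat_lit 78) (nat_lit 5) (nat_lit 77) (nat_lit 5) (nat_lit 87) (nat_lit 5) (nat_lit 302) (nat_lit 295) (nat_lit 123)) (XT.lf (nat_lit 0) (nat_lit 55361743419) (nat_lit 684) (nat_lit 11126648930) (nat_lit 760) (nat_lit 7162878822) (nat_lit 78) (nat_lit 5) (nat_lit 87) (nat_lit 5) (nat_lit 88) (nat_lit 5) (nat_lit 303) (nat_lit 295) (nat_lit 122))) (XT.nd (nat_lit 78) (nat_lit 0) (nat_lit 0) (XT.lf (nat_lit 76) (nat_lit 23130305118) (nat_lit 0) (nat_lit 37801786526) (nat_lit 760) (nat_lit 14719299156) (nat_lit 79) (nat_lit 5) (nat_lit 78) (nat_lit 5) (nat_lit 88) (nat_lit 5) (nat_lit 304) (nat_lit 295) (nat_lit 121)) (XT.lf (nat_lit 76) (nat_lit 59485800357) (nat_lit 0) (nat_lit 7482853424) (nat_lit 760) (nat_lit 10773479938) (nat_lit 79) (nat_lit 5) (nat_lit 78) (nat_lit 5) (nat_lit 88) (nat_lit 5) (nat_lit 305) (nat_lit 295) (nat_lit 120)))) (XT.nd (nat_lit 156) (nat_lit 836) (nat_lit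 0) (XT.nd (nat_lit 78) (nat_lit 0) (nat_lit 0) (XT.lf (nat_lit 0) (nat_lit 17914210381) (nat_lit 684) (nat_lit 56052026626) (nat_lit 760) (nat_lit 5938219162) (nat_lit 70) (nat_lit 5) (nat_lit 79) (nat_lit 5) (nat_lit 80) (nat_lit 5) (nat_lit 306) (nat_lit 295) (nat_lit 119)) (XT.lf (nat_lit 0) (nat_lit 56399774647) (nat_lit 684) (nat_lit 25343118386) (nat_lit 760) (nat_lit 410543962) (nat_lit 70) (nat_lit 5) (nat_lit 79) (nat_lit 5) (nat_lit 80) (nat_lit 5) (nat_lit 307) (nat_lit 295) (nat_lit 118))) (XT.nd (nat_lit 78) (nat_lit 380) (nat_lit 0) (XT.lf (nat_lit 0) (nat_lit 5529523486) (nat_lit 456) (nat_lit 71999538013) (nat_lit 76) (nat_lit 6966164995) (nat_lit 64) (nat_lit 5) (nat_lit 70) (nat_lit 5) (nat_lit 65) (nat_lit 5) (nat_lit 308) (nat_lit 295) (nat_lit 117)) (XT.nd (nat_lit 78) (nat_lit 380) (nat_lit 0) (XT.lf (nat_lit 0) (nat_lit 12610924515) (nat_lit 456) (nat_lit 33810642442)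 (nat_lit 76) (nat_lit 40489297312) (nat_lit 64) (nat_lit 5) (nat_lit 70) (nat_lit 5) (nat_lit 65) (nat_lit 5) (nat_lit 309) (nat_lit 295) (nat_lit 116)) (XT.lf (nat_lit 0) (nat_lit 6494988409) (nat_lit 380) (nat_lit 13652207846) (nat_lit 456) (nat_lit 69295049239) (nat_lit 59) (nat_lit 5) (nat_lit 64) (nat_lit 5) (nat_lit 65) (nat_lit 5) (nat_lit 310) (nat_lit 295) (nat_lit 115)))))) (XT.nd (nat_lit 312) (nat_lit 912) (nat_lit 0) (XT.nd (nat_lit 156) (nat_lit 304) (nat_lit 0) (XT.nd (nat_lit 78) (nat_lit 0) (nat_lit 0) (XT.lf (nat_lit 0) (nat_lit 28965736911) (nat_lit 456) (nat_lit 42415887093) (nat_lit 76) (nat_lit 20673300526) (nat_lit 59) (nat_lit 5) (nat_lit 65) (nat_lit 5) (nat_lit 60) (nat_lit 5) (nat_lit 311) (nat_lit 295) (nat_lit 114)) (XT.lf (nat_lit 0) (nat_lit 38448454596) (nat_lit 456) (nat_lit 82337184) (nat_lit 76) (nat_lit 56256284683) (nat_lit 59) (nat_lit 5) (nat_lit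 65) (nat_lit 5) (nat_lit 60) (nat_lit 5) (nat_lit 312) (nat_lit 295) (nat_lit 113))) (XT.nd (nat_lit 78) (nat_lit 0) (nat_lit 0) (XT.lf (nat_lit 0) (nat_lit 45834320528) (nat_lit 304) (nat_lit 3286059651) (nat_lit 380) (nat_lit 48499703589) (nat_lit 55) (nat_lit 5) (nat_lit 59) (nat_lit 5) (nat_lit 60) (nat_lit 5) (nat_lit 313) (nat_lit 295) (nat_lit 112)) (XT.lf (nat_lit 0) (nat_lit 60853283273) (nat_lit 380) (nat_lit 7072074520) (nat_lit 76) (nat_lit 32643015896) (nat_lit 55) (nat_lit 5) (nat_lit 60) (nat_lit 5) (nat_lit 56) (nat_lit 5) (nat_lit 314) (nat_lit 295) (nat_lit 111)))) (XT.nd (nat_lit 156) (nat_lit 608) (nat_lit 0) (XT.nd (nat_lit 78) (nat_lit 0) (nat_lit 0) (XT.lf (nat_lit 0) (nat_lit 41139608694) (nat_lit 304) (nat_lit 32728907771) (nat_lit 380) (nat_lit 29760778640) (nat_lit 51) (nat_lit 5) (nat_lit 55) (nat_lit 5) (nat_lit 56) (nat_lit 5) (nat_lit 315) (nat_lit 295)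 (nat_lit 110)) (XT.lf (nat_lit 0) (nat_lit 87721769280) (nat_lit 380) (nat_lit 14898395740) (nat_lit 76) (nat_lit 4213735864) (nat_lit 51) (nat_lit 5) (nat_lit 56) (nat_lit 5) (nat_lit 52) (nat_lit 5) (nat_lit 316) (nat_lit 295) (nat_lit 109))) (XT.nd (nat_lit 78) (nat_lit 380) (nat_lit 0) (XT.lf (nat_lit 0) (nat_lit 35677282816) (nat_lit 228) (nat_lit 67683510921) (nat_lit 304) (nat_lit 6783288898) (nat_lit 48) (nat_lit 5) (nat_lit 51) (nat_lit 5) (nat_lit 52) (nat_lit 5) (nat_lit 317) (nat_lit 295) (nat_lit 108)) (XT.nd (nat_lit 78) (nat_lit 304) (nat_lit 0) (XT.lf (nat_lit 0) (nat_lit 6220773676) (nat_lit 304) (nat_lit 24409056486) (nat_lit 76) (nat_lit 82972334032) (nat_lit 47) (nat_lit 5) (nat_lit 51) (nat_lit 5) (nat_lit 48) (nat_lit 5) (nat_lit 318) (nat_lit 295) (nat_lit 107)) (XT.lf (nat_lit 0) (nat_lit 20237361302) (nat_lit 380) (nat_lit 88376472442) (nat_lit 76) (nat_lit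 8584242745) (nat_lit 43) (nat_lit 5) (nat_lit 48) (nat_lit 5) (nat_lit 44) (nat_lit 5) (nat_lit 319) (nat_lit 295) (nat_lit 106))))))))
noncomputable def xc242 : XT := (XT.nd (nat_lit 1404) (nat_lit 0) (nat_lit 0) (XT.nd (nat_lit 702) (nat_lit 684) (nat_lit 0) (XT.nd (nat_lit 312) (nat_lit 456) (nat_lit 0) (XT.nd (nat_lit 156) (nat_lit 228) (nat_lit 0) (XT.nd (nat_lit 78) (nat_lit 228) (nat_lit 0) (XT.lf (nat_lit 0) (nat_lit 35876647131) (nat_lit 380) (nat_lit 35901322015) (nat_lit 76) (nat_lit 49149722745) (nat_lit 43) (nat_lit 5) (nat_lit 48) (nat_lit 5) (nat_lit 44) (nat_lit 5) (nat_lit 320) (nat_lit 295) (nat_lit 105)) (XT.lf (nat_lit 0) (nat_lit 19831826880) (nat_lit 228) (nat_lit 32775305118) (nat_lit 304) (nat_lit 72221195213) (nat_lit 40) (nat_lit 5) (nat_lit 43) (nat_lit 5) (nat_lit 44) (nat_lit 5) (nat_lit 321) (nat_lit 295) (nat_lit 104))) (XT.nd (nat_lit 78) (nat_lit 228)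 (nat_lit 0) (XT.lf (nat_lit 0) (nat_lit 70919402046) (nat_lit 304) (nat_lit 49433700469) (nat_lit 76) (nat_lit 8533629582) (nat_lit 40) (nat_lit 5) (nat_lit 44) (nat_lit 5) (nat_lit 41) (nat_lit 5) (nat_lit 322) (nat_lit 295) (nat_lit 103)) (XT.lf (nat_lit 0) (nat_lit 8646183896) (nat_lit 228) (nat_lit 82173025127) (nat_lit 304) (nat_lit 42295252836) (nat_lit 37) (nat_lit 5) (nat_lit 40) (nat_lit 5) (nat_lit 41) (nat_lit 5) (nat_lit 323) (nat_lit 295) (nat_lit 102)))) (XT.nd (nat_lit 156) (nat_lit 456) (nat_lit 0) (XT.nd (nat_lit 78) (nat_lit 0) (nat_lit 0) (XT.lf (nat_lit 0) (nat_lit 71345809510) (nat_lit 228) (nat_lit 41205022690) (nat_lit 304) (nat_lit 24960905385) (nat_lit 37) (nat_lit 5) (nat_lit 40) (nat_lit 5) (nat_lit 41) (nat_lit 5) (nat_lit 324) (nat_lit 295) (nat_lit 101)) (XT.lf (nat_lit 0) (nat_lit 135396974693) (nat_lit 304) (nat_lit 4977213965) (nat_lit 76) (nat_lit 1753292261)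 (nat_lit 37) (nat_lit 5) (nat_lit 41) (nat_lit 5) (nat_lit 38) (nat_lit 5) (nat_lit 325) (nat_lit 295) (nat_lit 100))) (XT.nd (nat_lit 78) (nat_lit 228) (nat_lit 0) (XT.lf (nat_lit 0) (nat_lit 13660977383) (nat_lit 228) (nat_lit 86580929401) (nat_lit 76) (nat_lit 46640076088) (nat_lit 34) (nat_lit 5) (nat_lit 37) (nat_lit 5) (nat_lit 35) (nat_lit 5) (nat_lit 326) (nat_lit 295) (nat_lit 99)) (XT.nd (nat_lit 78) (nat_lit 228) (nat_lit 0) (XT.lf (nat_lit 0) (nat_lit 34931195913) (nat_lit 228) (nat_lit 22966135554) (nat_lit 76) (nat_lit 93967094785) (nat_lit 34) (nat_lit 5) (nat_lit 37) (nat_lit 5) (nat_lit 35) (nat_lit 5) (nat_lit 327) (nat_lit 295) (nat_lit 98)) (XT.lf (nat_lit 0) (nat_lit 45278149025) (nat_lit 228) (nat_lit 12693387072) (nat_lit 304) (nat_lit 99089125766) (nat_lit 31) (nat_lit 5) (nat_lit 34) (nat_lit 5) (nat_lit 35) (nat_lit 5) (nat_lit 328) (nat_lit 295) (nat_lit 97))))))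 (XT.nd (nat_lit 312) (nat_lit 532) (nat_lit 0) (XT.nd (nat_lit 156) (nat_lit 0) (nat_lit 0) (XT.nd (nat_lit 78) (nat_lit 152) (nat_lit 0) (XT.lf (nat_lit 0) (nat_lit 83101778942) (nat_lit 304) (nat_lit 45314966092) (nat_lit 76) (nat_lit 34053070513) (nat_lit 31) (nat_lit 5) (nat_lit 35) (nat_lit 5) (nat_lit 32) (nat_lit 5) (nat_lit 329) (nat_lit 295) (nat_lit 96)) (XT.lf (nat_lit 0) (nat_lit 25069842996) (nat_lit 152) (nat_lit 85017902131) (nat_lit 228) (nat_lit 58031721771) (nat_lit 29) (nat_lit 5) (nat_lit 31) (nat_lit 5) (nat_lit 32) (nat_lit 5) (nat_lit 330) (nat_lit 295) (nat_lit 95))) (XT.nd (nat_lit 78) (nat_lit 0) (nat_lit 0) (XT.lf (nat_lit 0) (nat_lit 100546714360) (nat_lit 152) (nat_lit 38643445792) (nat_lit 228) (nat_lit 34823083658) (nat_lit 29) (nat_lit 5) (nat_lit 31) (nat_lit 5) (nat_lit 32) (nat_lit 5) (nat_lit 331) (nat_lit 295) (nat_lit 94)) (XT.lf (nat_lit 0) (nat_lit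 169904331482) (nat_lit 228) (nat_lit 561588555) (nat_lit 76) (nat_lit 9727958246) (nat_lit 29) (nat_lit 5) (nat_lit 32) (nat_lit 5) (nat_lit 30) (nat_lit 5) (nat_lit 332) (nat_lit 295) (nat_lit 93)))) (XT.nd (nat_lit 156) (nat_lit 304) (nat_lit 0) (XT.nd (nat_lit 78) (nat_lit 0) (nat_lit 0) (XT.lf (nat_lit 0) (nat_lit 16854455696) (nat_lit 228) (nat_lit 109016675994) (nat_lit 76) (nat_lit 60706388877) (nat_lit 26) (nat_lit 5) (nat_lit 29) (nat_lit 5) (nat_lit 27) (nat_lit 5) (nat_lit 333) (nat_lit 295) (nat_lit 92)) (XT.lf (nat_lit 0) (nat_lit 45019274381) (nat_lit 228) (nat_lit 33840197176) (nat_lit 76) (nat_lit 114411969164) (nat_lit 26) (nat_lit 5) (nat_lit 29) (nat_lit 5) (nat_lit 27) (nat_lit 5) (nat_lit 334) (nat_lit 295) (nat_lit 91))) (XT.nd (nat_lit 78) (nat_lit 152) (nat_lit 0) (XT.lf (nat_lit 0) (nat_lit 46585772486) (nat_lit 152) (nat_lit 28733653712) (nat_lit 228) (nat_lit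 124944276482) (nat_lit 24) (nat_lit 5) (nat_lit 26) (nat_lit 5) (nat_lit 27) (nat_lit 5) (nat_lit 335) (nat_lit 295) (nat_lit 90)) (XT.nd (nat_lit 78) (nat_lit 152) (nat_lit 0) (XT.lf (nat_lit 0) (nat_lit 108089964293) (nat_lit 228) (nat_lit 75751916842) (nat_lit 76) (nat_lit 23715928054) (nat_lit 24) (nat_lit 5) (nat_lit 27) (nat_lit 5) (nat_lit 25) (nat_lit 5) (nat_lit 336) (nat_lit 295) (nat_lit 89)) (XT.lf (nat_lit 0) (nat_lit 5784126576) (nat_lit 152) (nat_lit 137276025628) (nat_lit 228) (nat_lit 72128413042) (nat_lit 22) (nat_lit 5) (nat_lit 24) (nat_lit 5) (nat_lit 25) (nat_lit 5) (nat_lit 337) (nat_lit 295) (nat_lit 88))))))) (XT.nd (nat_lit 34866) (nat_lit 0) (nat_lit 2812) (XT.nd (nat_lit 34476) (nat_lit 0) (nat_lit 4104) (XT.nd (nat_lit 34320) (nat_lit 0) (nat_lit 4028) (XT.nd (nat_lit 34242) (nat_lit 0) (nat_lit 4028) (XT.lf (nat_lit 0) (nat_lit 94026558125) (nat_lit 152)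 (nat_lit 87034965087) (nat_lit 228) (nat_lit 42075202561) (nat_lit 22) (nat_lit 5) (nat_lit 24) (nat_lit 5) (nat_lit 25) (nat_lit 5) (nat_lit 338) (nat_lit 295) (nat_lit 87)) (XT.lf (nat_lit 0) (nat_lit 8755884041) (nat_lit 0) (nat_lit 8755884041) (nat_lit 684) (nat_lit 14000958156) (nat_lit 75) (nat_lit 5) (nat_lit 75) (nat_lit 3) (nat_lit 84) (nat_lit 3) (nat_lit 296) (nat_lit 296) (nat_lit 128))) (XT.nd (nat_lit 78) (nat_lit 0) (nat_lit 0) (XT.lf (nat_lit 0) (nat_lit 36077802310) (nat_lit 684) (nat_lit 18376393618) (nat_lit 760) (nat_lit 10137914278) (nat_lit 75) (nat_lit 5) (nat_lit 84) (nat_lit 3) (nat_lit 85) (nat_lit 5) (nat_lit 297) (nat_lit 296) (nat_lit 127)) (XT.lf (nat_lit 76) (nat_lit 10155168050) (nat_lit 0) (nat_lit 27474279468) (nat_lit 760) (nat_lit 28585422878) (nat_lit 76) (nat_lit 5) (nat_lit 75) (nat_lit 5) (nat_lit 85) (nat_lit 5) (nat_lit 298) (nat_lit 296) (nat_lit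 126)))) (XT.nd (nat_lit 156) (nat_lit 0) (nat_lit 0) (XT.nd (nat_lit 78) (nat_lit 0) (nat_lit 0) (XT.lf (nat_lit 0) (nat_lit 39587413716) (nat_lit 684) (nat_lit 27170948906) (nat_lit 760) (nat_lit 1143971761) (nat_lit 76) (nat_lit 5) (nat_lit 85) (nat_lit 5) (nat_lit 86) (nat_lit 5) (nat_lit 299) (nat_lit 296) (nat_lit 125)) (XT.lf (nat_lit 76) (nat_lit 2800928930) (nat_lit 0) (nat_lit 39335601995) (nat_lit 760) (nat_lit 27512980604) (nat_lit 77) (nat_lit 5) (nat_lit 76) (nat_lit 5) (nat_lit 86) (nat_lit 5) (nat_lit 300) (nat_lit 296) (nat_lit 124))) (XT.nd (nat_lit 78) (nat_lit 0) (nat_lit 76) (XT.lf (nat_lit 76) (nat_lit 35214161254) (nat_lit 0) (nat_lit 10058253294) (nat_lit 760) (nat_lit 26188669928) (nat_lit 77) (nat_lit 5) (nat_lit 76) (nat_lit 5) (nat_lit 86) (nat_lit 5) (nat_lit 301) (nat_lit 296) (nat_lit 123)) (XT.nd (nat_lit 78) (nat_lit 0) (nat_lit 0) (XT.lf (nat_lit 0)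 (nat_lit 48887213179) (nat_lit 684) (nat_lit 4438673715) (nat_lit 760) (nat_lit 20021245490) (nat_lit 77) (nat_lit 5) (nat_lit 86) (nat_lit 5) (nat_lit 87) (nat_lit 5) (nat_lit 302) (nat_lit 296) (nat_lit 122)) (XT.lf (nat_lit 76) (nat_lit 29746630311) (nat_lit 0) (nat_lit 23564678911) (nat_lit 760) (nat_lit 21984747831) (nat_lit 78) (nat_lit 5) (nat_lit 77) (nat_lit 5) (nat_lit 87) (nat_lit 5) (nat_lit 303) (nat_lit 296) (nat_lit 121)))))) (XT.nd (nat_lit 312) (nat_lit 836) (nat_lit 0) (XT.nd (nat_lit 156) (nat_lit 608) (nat_lit 0) (XT.nd (nat_lit 78) (nat_lit 0) (nat_lit 0) (XT.lf (nat_lit 0) (nat_lit 58152262111) (nat_lit 684) (nat_lit 11665158903) (nat_lit 760) (nat_lit 7515226476) (nat_lit 78) (nat_lit 5) (nat_lit 87) (nat_lit 5) (nat_lit 88) (nat_lit 5) (nat_lit 304) (nat_lit 296) (nat_lit 120)) (XT.lf (nat_lit 76) (nat_lit 24304355388) (nat_lit 0) (nat_lit 39695977962) (nat_lit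 760) (nat_lit 15432482597) (nat_lit 79) (nat_lit 5) (nat_lit 78) (nat_lit 5) (nat_lit 88) (nat_lit 5) (nat_lit 305) (nat_lit 296) (nat_lit 119))) (XT.nd (nat_lit 78) (nat_lit 608) (nat_lit 0) (XT.lf (nat_lit 76) (nat_lit 62476790389) (nat_lit 0) (nat_lit 7860902866) (nat_lit 760) (nat_lit 11290457252) (nat_lit 79) (nat_lit 5) (nat_lit 78) (nat_lit 5) (nat_lit 88) (nat_lit 5) (nat_lit 306) (nat_lit 296) (nat_lit 118)) (XT.lf (nat_lit 0) (nat_lit 18827483890) (nat_lit 684) (nat_lit 58856906594) (nat_lit 760) (nat_lit 6214239690) (nat_lit 70) (nat_lit 5) (nat_lit 79) (nat_lit 5) (nat_lit 80) (nat_lit 5) (nat_lit 307) (nat_lit 296) (nat_lit 117)))) (XT.nd (nat_lit 156) (nat_lit 380) (nat_lit 0) (XT.nd (nat_lit 78) (nat_lit 456) (nat_lit 0) (XT.lf (nat_lit 0) (nat_lit 59236490036) (nat_lit 684) (nat_lit 26612444436) (nat_lit 760) (nat_lit 411175513) (nat_lit 70) (nat_lit 5) (nat_lit 79)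 (nat_lit 5) (nat_lit 80) (nat_lit 5) (nat_lit 308) (nat_lit 296) (nat_lit 116)) (XT.lf (nat_lit 0) (nat_lit 5824585911) (nat_lit 456) (nat_lit 75581378411) (nat_lit 76) (nat_lit 7313045185) (nat_lit 64) (nat_lit 5) (nat_lit 70) (nat_lit 5) (nat_lit 65) (nat_lit 5) (nat_lit 309) (nat_lit 296) (nat_lit 115))) (XT.nd (nat_lit 78) (nat_lit 380) (nat_lit 0) (XT.lf (nat_lit 0) (nat_lit 13259171932) (nat_lit 456) (nat_lit 35483901705) (nat_lit 76) (nat_lit 42512402120) (nat_lit 64) (nat_lit 5) (nat_lit 70) (nat_lit 5) (nat_lit 65) (nat_lit 5) (nat_lit 310) (nat_lit 296) (nat_lit 114)) (XT.nd (nat_lit 78) (nat_lit 0) (nat_lit 0) (XT.lf (nat_lit 0) (nat_lit 6836732094) (nat_lit 380) (nat_lit 14334947579) (nat_lit 456) (nat_lit 72741777471) (nat_lit 59) (nat_lit 5) (nat_lit 64) (nat_lit 5) (nat_lit 65) (nat_lit 5) (nat_lit 311) (nat_lit 296) (nat_lit 113)) (XT.lf (nat_lit 0) (nat_lit 30430330029)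 (nat_lit 456) (nat_lit 44519636773) (nat_lit 76) (nat_lit 21706846314) (nat_lit 59) (nat_lit 5) (nat_lit 65) (nat_lit 5) (nat_lit 60) (nat_lit 5) (nat_lit 312) (nat_lit 296) (nat_lit 112))))))))
noncomputable def xc243 : XT := (XT.nd (nat_lit 1404) (nat_lit 532) (nat_lit 0) (XT.nd (nat_lit 702) (nat_lit 912) (nat_lit 0) (XT.nd (nat_lit 312) (nat_lit 608) (nat_lit 0) (XT.nd (nat_lit 156) (nat_lit 304) (nat_lit 0) (XT.nd (nat_lit 78) (nat_lit 304) (nat_lit 0) (XT.lf (nat_lit 0) (nat_lit 40386407109) (nat_lit 456) (nat_lit 70221020) (nat_lit 76) (nat_lit 59068985356) (nat_lit 59) (nat_lit 5) (nat_lit 65) (nat_lit 5) (nat_lit 60) (nat_lit 5) (nat_lit 313) (nat_lit 296) (nat_lit 111)) (XT.lf (nat_lit 0) (nat_lit 48142007755) (nat_lit 304) (nat_lit 3449431059) (nat_lit 380) (nat_lit 50908858771) (nat_lit 55) (nat_lit 5) (nat_lit 59) (nat_lit 5) (nat_lit 60) (nat_lit 5) (nat_lit 314) (nat_lit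 296) (nat_lit 110))) (XT.nd (nat_lit 78) (nat_lit 304) (nat_lit 0) (XT.lf (nat_lit 0) (nat_lit 63910284740) (nat_lit 380) (nat_lit 7409728695) (nat_lit 76) (nat_lit 34276025509) (nat_lit 55) (nat_lit 5) (nat_lit 60) (nat_lit 5) (nat_lit 56) (nat_lit 5) (nat_lit 315) (nat_lit 296) (nat_lit 109)) (XT.lf (nat_lit 0) (nat_lit 43212281430) (nat_lit 304) (nat_lit 34363560436) (nat_lit 380) (nat_lit 31234188194) (nat_lit 51) (nat_lit 5) (nat_lit 55) (nat_lit 5) (nat_lit 56) (nat_lit 5) (nat_lit 316) (nat_lit 296) (nat_lit 108)))) (XT.nd (nat_lit 156) (nat_lit 380) (nat_lit 0) (XT.nd (nat_lit 78) (nat_lit 228) (nat_lit 0) (XT.lf (nat_lit 0) (nat_lit 92121122092) (nat_lit 380) (nat_lit 15627702086) (nat_lit 76) (nat_lit 4426075368) (nat_lit 51) (nat_lit 5) (nat_lit 56) (nat_lit 5) (nat_lit 52) (nat_lit 5) (nat_lit 317) (nat_lit 296) (nat_lit 107)) (XT.lf (nat_lit 0) (nat_lit 37476508567) (nat_lit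 228) (nat_lit 71065197406) (nat_lit 304) (nat_lit 7108905579) (nat_lit 48) (nat_lit 5) (nat_lit 51) (nat_lit 5) (nat_lit 52) (nat_lit 5) (nat_lit 318) (nat_lit 296) (nat_lit 106))) (XT.nd (nat_lit 78) (nat_lit 304) (nat_lit 0) (XT.lf (nat_lit 0) (nat_lit 6544302026) (nat_lit 304) (nat_lit 25614437591) (nat_lit 76) (nat_lit 87122879654) (nat_lit 47) (nat_lit 5) (nat_lit 51) (nat_lit 5) (nat_lit 48) (nat_lit 5) (nat_lit 319) (nat_lit 296) (nat_lit 105)) (XT.nd (nat_lit 78) (nat_lit 0) (nat_lit 0) (XT.lf (nat_lit 0) (nat_lit 21261397992) (nat_lit 380) (nat_lit 92779876020) (nat_lit 76) (nat_lit 9016070585) (nat_lit 43) (nat_lit 5) (nat_lit 48) (nat_lit 5) (nat_lit 44) (nat_lit 5) (nat_lit 320) (nat_lit 296) (nat_lit 104)) (XT.lf (nat_lit 0) (nat_lit 37682068655) (nat_lit 380) (nat_lit 37681702359) (nat_lit 76) (nat_lit 51609700028) (nat_lit 43) (nat_lit 5) (nat_lit 48) (nat_lit 5) (nat_lit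 44) (nat_lit 5) (nat_lit 321) (nat_lit 296) (nat_lit 103)))))) (XT.nd (nat_lit 312) (nat_lit 456) (nat_lit 0) (XT.nd (nat_lit 156) (nat_lit 228) (nat_lit 0) (XT.nd (nat_lit 78) (nat_lit 0) (nat_lit 0) (XT.lf (nat_lit 0) (nat_lit 20837867114) (nat_lit 228) (nat_lit 34410884374) (nat_lit 304) (nat_lit 75820404192) (nat_lit 40) (nat_lit 5) (nat_lit 43) (nat_lit 5) (nat_lit 44) (nat_lit 5) (nat_lit 322) (nat_lit 296) (nat_lit 102)) (XT.lf (nat_lit 0) (nat_lit 74476146084) (nat_lit 304) (nat_lit 51891112121) (nat_lit 76) (nat_lit 8963248230) (nat_lit 40) (nat_lit 5) (nat_lit 44) (nat_lit 5) (nat_lit 41) (nat_lit 5) (nat_lit 323) (nat_lit 296) (nat_lit 101))) (XT.nd (nat_lit 78) (nat_lit 0) (nat_lit 0) (XT.lf (nat_lit 0) (nat_lit 9092536247) (nat_lit 228) (nat_lit 86278113372) (nat_lit 304) (nat_lit 44398988880) (nat_lit 37) (nat_lit 5) (nat_lit 40) (nat_lit 5) (nat_lit 41) (nat_lit 5) (nat_lit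 324) (nat_lit 296) (nat_lit 100)) (XT.lf (nat_lit 0) (nat_lit 74926474419) (nat_lit 228) (nat_lit 43261880480) (nat_lit 304) (nat_lit 26198449132) (nat_lit 37) (nat_lit 5) (nat_lit 40) (nat_lit 5) (nat_lit 41) (nat_lit 5) (nat_lit 325) (nat_lit 296) (nat_lit 99)))) (XT.nd (nat_lit 156) (nat_lit 228) (nat_lit 0) (XT.nd (nat_lit 78) (nat_lit 228) (nat_lit 0) (XT.lf (nat_lit 0) (nat_lit 142176379684) (nat_lit 304) (nat_lit 5212891913) (nat_lit 76) (nat_lit 1844085194) (nat_lit 37) (nat_lit 5) (nat_lit 41) (nat_lit 5) (nat_lit 38) (nat_lit 5) (nat_lit 326) (nat_lit 296) (nat_lit 98)) (XT.lf (nat_lit 0) (nat_lit 14353501238) (nat_lit 228) (nat_lit 90896673993) (nat_lit 76) (nat_lit 48975414567) (nat_lit 34) (nat_lit 5) (nat_lit 37) (nat_lit 5) (nat_lit 35) (nat_lit 5) (nat_lit 327) (nat_lit 296) (nat_lit 97))) (XT.nd (nat_lit 78) (nat_lit 228) (nat_lit 0) (XT.lf (nat_lit 0) (nat_lit 36686779505)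 (nat_lit 228) (nat_lit 24101773877) (nat_lit 76) (nat_lit 98668625405) (nat_lit 34) (nat_lit 5) (nat_lit 37) (nat_lit 5) (nat_lit 35) (nat_lit 5) (nat_lit 328) (nat_lit 296) (nat_lit 96)) (XT.nd (nat_lit 78) (nat_lit 0) (nat_lit 0) (XT.lf (nat_lit 0) (nat_lit 47554520602) (nat_lit 228) (nat_lit 13324380993) (nat_lit 304) (nat_lit 104034337178) (nat_lit 31) (nat_lit 5) (nat_lit 34) (nat_lit 5) (nat_lit 35) (nat_lit 5) (nat_lit 329) (nat_lit 296) (nat_lit 95)) (XT.lf (nat_lit 0) (nat_lit 87265292723) (nat_lit 304) (nat_lit 47568463990) (nat_lit 76) (nat_lit 35759112416) (nat_lit 31) (nat_lit 5) (nat_lit 35) (nat_lit 5) (nat_lit 32) (nat_lit 5) (nat_lit 330) (nat_lit 296) (nat_lit 94))))))) (XT.nd (nat_lit 35022) (nat_lit 0) (nat_lit 3496) (XT.nd (nat_lit 312) (nat_lit 152) (nat_lit 0) (XT.nd (nat_lit 156) (nat_lit 228) (nat_lit 0) (XT.nd (nat_lit 78) (nat_lit 0) (nat_lit 0) (XT.lf (nat_lit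 0) (nat_lit 26335387965) (nat_lit 152) (nat_lit 89264956249) (nat_lit 228) (nat_lit 60924670245) (nat_lit 29) (nat_lit 5) (nat_lit 31) (nat_lit 5) (nat_lit 32) (nat_lit 5) (nat_lit 331) (nat_lit 296) (nat_lit 93)) (XT.lf (nat_lit 0) (nat_lit 105585528953) (nat_lit 152) (nat_lit 40571959997) (nat_lit 228) (nat_lit 36556011541) (nat_lit 29) (nat_lit 5) (nat_lit 31) (nat_lit 5) (nat_lit 32) (nat_lit 5) (nat_lit 332) (nat_lit 296) (nat_lit 92))) (XT.nd (nat_lit 78) (nat_lit 228) (nat_lit 0) (XT.lf (nat_lit 0) (nat_lit 178407050821) (nat_lit 228) (nat_lit 578403915) (nat_lit 76) (nat_lit 10217728542) (nat_lit 29) (nat_lit 5) (nat_lit 32) (nat_lit 5) (nat_lit 30) (nat_lit 5) (nat_lit 333) (nat_lit 296) (nat_lit 91)) (XT.lf (nat_lit 0) (nat_lit 17704629678) (nat_lit 228) (nat_lit 114456168535) (nat_lit 76) (nat_lit 63745213323) (nat_lit 26) (nat_lit 5) (nat_lit 29) (nat_lit 5) (nat_lit 27)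 (nat_lit 5) (nat_lit 334) (nat_lit 296) (nat_lit 90)))) (XT.nd (nat_lit 156) (nat_lit 0) (nat_lit 0) (XT.nd (nat_lit 78) (nat_lit 152) (nat_lit 0) (XT.lf (nat_lit 0) (nat_lit 47277334478) (nat_lit 228) (nat_lit 35521405836) (nat_lit 76) (nat_lit 120135905719) (nat_lit 26) (nat_lit 5) (nat_lit 29) (nat_lit 5) (nat_lit 27) (nat_lit 5) (nat_lit 335) (nat_lit 296) (nat_lit 89)) (XT.lf (nat_lit 0) (nat_lit 48925688096) (nat_lit 152) (nat_lit 30166633784) (nat_lit 228) (nat_lit 131184208377) (nat_lit 24) (nat_lit 5) (nat_lit 26) (nat_lit 5) (nat_lit 27) (nat_lit 5) (nat_lit 336) (nat_lit 296) (nat_lit 88))) (XT.nd (nat_lit 34398) (nat_lit 0) (nat_lit 3876) (XT.lf (nat_lit 0) (nat_lit 113501112204) (nat_lit 228) (nat_lit 79529106271) (nat_lit 76) (nat_lit 24905137891) (nat_lit 24) (nat_lit 5) (nat_lit 27) (nat_lit 5) (nat_lit 25) (nat_lit 5) (nat_lit 337) (nat_lit 296) (nat_lit 87)) (XT.nd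 (nat_lit 78) (nat_lit 0) (nat_lit 0) (XT.lf (nat_lit 0) (nat_lit 9201141372) (nat_lit 0) (nat_lit 9201141372) (nat_lit 684) (nat_lit 14685289495) (nat_lit 75) (nat_lit 5) (nat_lit 75) (nat_lit 3) (nat_lit 84) (nat_lit 3) (nat_lit 297) (nat_lit 297) (nat_lit 126)) (XT.lf (nat_lit 0) (nat_lit 37909901451) (nat_lit 684) (nat_lit 19279270518) (nat_lit 760) (nat_lit 10631049491) (nat_lit 75) (nat_lit 5) (nat_lit 84) (nat_lit 3) (nat_lit 85) (nat_lit 5) (nat_lit 298) (nat_lit 297) (nat_lit 125)))))) (XT.nd (nat_lit 390) (nat_lit 380) (nat_lit 0) (XT.nd (nat_lit 156) (nat_lit 0) (nat_lit 76) (XT.nd (nat_lit 78) (nat_lit 0) (nat_lit 76) (XT.lf (nat_lit 76) (nat_lit 10678612092) (nat_lit 0) (nat_lit 28859418436) (nat_lit 760) (nat_lit 29986148041) (nat_lit 76) (nat_lit 5) (nat_lit 75) (nat_lit 5) (nat_lit 85) (nat_lit 5) (nat_lit 299) (nat_lit 297) (nat_lit 124)) (XT.lf (nat_lit 0) (nat_lit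 41592434172) (nat_lit 684) (nat_lit 28513020768) (nat_lit 760) (nat_lit 1190637660) (nat_lit 76) (nat_lit 5) (nat_lit 85) (nat_lit 5) (nat_lit 86) (nat_lit 5) (nat_lit 300) (nat_lit 297) (nat_lit 123))) (XT.nd (nat_lit 78) (nat_lit 0) (nat_lit 0) (XT.lf (nat_lit 76) (nat_lit 2957185225) (nat_lit 0) (nat_lit 41310853680) (nat_lit 760) (nat_lit 28862641734) (nat_lit 77) (nat_lit 5) (nat_lit 76) (nat_lit 5) (nat_lit 86) (nat_lit 5) (nat_lit 301) (nat_lit 297) (nat_lit 122)) (XT.nd (nat_lit 78) (nat_lit 0) (nat_lit 76) (XT.lf (nat_lit 76) (nat_lit 36990307267) (nat_lit 0) (nat_lit 10569234136) (nat_lit 760) (nat_lit 27473353043) (nat_lit 77) (nat_lit 5) (nat_lit 76) (nat_lit 5) (nat_lit 86) (nat_lit 5) (nat_lit 302) (nat_lit 297) (nat_lit 121)) (XT.lf (nat_lit 0) (nat_lit 51353840657) (nat_lit 684) (nat_lit 4644599619) (nat_lit 760) (nat_lit 21014869721) (nat_lit 77) (nat_lit 5) (nat_lit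 86) (nat_lit 5) (nat_lit 87) (nat_lit 5) (nat_lit 303) (nat_lit 297) (nat_lit 120))))) (XT.nd (nat_lit 156) (nat_lit 532) (nat_lit 0) (XT.nd (nat_lit 78) (nat_lit 0) (nat_lit 76) (XT.lf (nat_lit 76) (nat_lit 31249711418) (nat_lit 0) (nat_lit 24748615655) (nat_lit 760) (nat_lit 23061397676) (nat_lit 78) (nat_lit 5) (nat_lit 77) (nat_lit 5) (nat_lit 87) (nat_lit 5) (nat_lit 304) (nat_lit 297) (nat_lit 119)) (XT.lf (nat_lit 0) (nat_lit 61080221267) (nat_lit 684) (nat_lit 12232251340) (nat_lit 760) (nat_lit 7885730396) (nat_lit 78) (nat_lit 5) (nat_lit 87) (nat_lit 5) (nat_lit 88) (nat_lit 5) (nat_lit 305) (nat_lit 297) (nat_lit 118))) (XT.nd (nat_lit 78) (nat_lit 608) (nat_lit 0) (XT.lf (nat_lit 76) (nat_lit 25535477932) (nat_lit 0) (nat_lit 41684497595) (nat_lit 760) (nat_lit 16183443219) (nat_lit 79) (nat_lit 5) (nat_lit 78) (nat_lit 5) (nat_lit 88) (nat_lit 5) (nat_lit 306) (nat_lit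 297) (nat_lit 117)) (XT.nd (nat_lit 78) (nat_lit 608) (nat_lit 0) (XT.lf (nat_lit 76) (nat_lit 65615777313) (nat_lit 0) (nat_lit 8257491566) (nat_lit 760) (nat_lit 11835300584) (nat_lit 79) (nat_lit 5) (nat_lit 78) (nat_lit 5) (nat_lit 88) (nat_lit 5) (nat_lit 307) (nat_lit 297) (nat_lit 116)) (XT.lf (nat_lit 0) (nat_lit 19784788234) (nat_lit 684) (nat_lit 61801818714) (nat_lit 760) (nat_lit 6506003439) (nat_lit 70) (nat_lit 5) (nat_lit 79) (nat_lit 5) (nat_lit 80) (nat_lit 5) (nat_lit 308) (nat_lit 297) (nat_lit 115))))))))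
noncomputable def xc244 : XT := (XT.nd (nat_lit 1404) (nat_lit 836) (nat_lit 0) (XT.nd (nat_lit 702) (nat_lit 1064) (nat_lit 0) (XT.nd (nat_lit 312) (nat_lit 608) (nat_lit 0) (XT.nd (nat_lit 156) (nat_lit 380) (nat_lit 0) (XT.nd (nat_lit 78) (nat_lit 456) (nat_lit 0) (XT.lf (nat_lit 0) (nat_lit 62213486109) (nat_lit 684) (nat_lit 27945035029) (nat_lit 760) (nat_lit 413688350) (nat_lit 70) (nat_lit 5) (nat_lit 79) (nat_lit 5) (nat_lit 80) (nat_lit 5) (nat_lit 309) (nat_lit 297) (nat_lit 114)) (XT.lf (nat_lit 0) (nat_lit 6132673484) (nat_lit 456) (nat_lit 79343996990) (nat_lit 76) (nat_lit 7677402151) (nat_lit 64) (nat_lit 5) (nat_lit 70) (nat_lit 5) (nat_lit 65) (nat_lit 5) (nat_lit 310) (nat_lit 297) (nat_lit 113))) (XT.nd (nat_lit 78) (nat_lit 380) (nat_lit 0) (XT.lf (nat_lit 0) (nat_lit 13938186030) (nat_lit 456) (nat_lit 37242429798) (nat_lit 76) (nat_lit 44636788614) (nat_lit 64)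 (nat_lit 5) (nat_lit 70) (nat_lit 5) (nat_lit 65) (nat_lit 5) (nat_lit 311) (nat_lit 297) (nat_lit 112)) (XT.lf (nat_lit 0) (nat_lit 7193982997) (nat_lit 380) (nat_lit 15051812274) (nat_lit 456) (nat_lit 76362517838) (nat_lit 59) (nat_lit 5) (nat_lit 64) (nat_lit 5) (nat_lit 65) (nat_lit 5) (nat_lit 312) (nat_lit 297) (nat_lit 111)))) (XT.nd (nat_lit 156) (nat_lit 608) (nat_lit 0) (XT.nd (nat_lit 78) (nat_lit 0) (nat_lit 0) (XT.lf (nat_lit 0) (nat_lit 31966636800) (nat_lit 456) (nat_lit 46730158590) (nat_lit 76) (nat_lit 22792080476) (nat_lit 59) (nat_lit 5) (nat_lit 65) (nat_lit 5) (nat_lit 60) (nat_lit 5) (nat_lit 313) (nat_lit 297) (nat_lit 110)) (XT.lf (nat_lit 0) (nat_lit 42419813436) (nat_lit 456) (nat_lit 59008241) (nat_lit 76) (nat_lit 62022331621) (nat_lit 59) (nat_lit 5) (nat_lit 65) (nat_lit 5) (nat_lit 60) (nat_lit 5) (nat_lit 314) (nat_lit 297) (nat_lit 109))) (XT.nd (nat_lit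 78) (nat_lit 304) (nat_lit 0) (XT.lf (nat_lit 0) (nat_lit 50563594492) (nat_lit 304) (nat_lit 3621057645) (nat_lit 380) (nat_lit 53439943434) (nat_lit 55) (nat_lit 5) (nat_lit 59) (nat_lit 5) (nat_lit 60) (nat_lit 5) (nat_lit 315) (nat_lit 297) (nat_lit 108)) (XT.nd (nat_lit 78) (nat_lit 304) (nat_lit 0) (XT.lf (nat_lit 0) (nat_lit 67118803335) (nat_lit 380) (nat_lit 7765748417) (nat_lit 76) (nat_lit 35990605758) (nat_lit 55) (nat_lit 5) (nat_lit 60) (nat_lit 5) (nat_lit 56) (nat_lit 5) (nat_lit 316) (nat_lit 297) (nat_lit 107)) (XT.lf (nat_lit 0) (nat_lit 45387128880) (nat_lit 304) (nat_lit 36080112403) (nat_lit 380) (nat_lit 32782628327) (nat_lit 51) (nat_lit 5) (nat_lit 55) (nat_lit 5) (nat_lit 56) (nat_lit 5) (nat_lit 317) (nat_lit 297) (nat_lit 106)))))) (XT.nd (nat_lit 312) (nat_lit 456) (nat_lit 0) (XT.nd (nat_lit 156) (nat_lit 380) (nat_lit 0) (XT.nd (nat_lit 78) (nat_lit 228)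 (nat_lit 0) (XT.lf (nat_lit 0) (nat_lit 96739209351) (nat_lit 380) (nat_lit 16394925340) (nat_lit 76) (nat_lit 4648878194) (nat_lit 51) (nat_lit 5) (nat_lit 56) (nat_lit 5) (nat_lit 52) (nat_lit 5) (nat_lit 318) (nat_lit 297) (nat_lit 105)) (XT.lf (nat_lit 0) (nat_lit 39364267430) (nat_lit 228) (nat_lit 74616199625) (nat_lit 304) (nat_lit 7452062638) (nat_lit 48) (nat_lit 5) (nat_lit 51) (nat_lit 5) (nat_lit 52) (nat_lit 5) (nat_lit 319) (nat_lit 297) (nat_lit 104))) (XT.nd (nat_lit 78) (nat_lit 304) (nat_lit 0) (XT.lf (nat_lit 0) (nat_lit 6882845623) (nat_lit 304) (nat_lit 26881488976) (nat_lit 76) (nat_lit 91480773224) (nat_lit 47) (nat_lit 5) (nat_lit 51) (nat_lit 5) (nat_lit 48) (nat_lit 5) (nat_lit 320) (nat_lit 297) (nat_lit 103)) (XT.lf (nat_lit 0) (nat_lit 22335505194) (nat_lit 380) (nat_lit 97404883385) (nat_lit 76) (nat_lit 9469246634) (nat_lit 43) (nat_lit 5) (nat_lit 48)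 (nat_lit 5) (nat_lit 44) (nat_lit 5) (nat_lit 321) (nat_lit 297) (nat_lit 102)))) (XT.nd (nat_lit 156) (nat_lit 228) (nat_lit 0) (XT.nd (nat_lit 78) (nat_lit 228) (nat_lit 0) (XT.lf (nat_lit 0) (nat_lit 39576683804) (nat_lit 380) (nat_lit 39552467062) (nat_lit 76) (nat_lit 54192444572) (nat_lit 43) (nat_lit 5) (nat_lit 48) (nat_lit 5) (nat_lit 44) (nat_lit 5) (nat_lit 322) (nat_lit 297) (nat_lit 101)) (XT.lf (nat_lit 0) (nat_lit 21892866039) (nat_lit 228) (nat_lit 36128538797) (nat_lit 304) (nat_lit 79600675392) (nat_lit 40) (nat_lit 5) (nat_lit 43) (nat_lit 5) (nat_lit 44) (nat_lit 5) (nat_lit 323) (nat_lit 297) (nat_lit 100))) (XT.nd (nat_lit 78) (nat_lit 228) (nat_lit 0) (XT.lf (nat_lit 0) (nat_lit 78209725666) (nat_lit 304) (nat_lit 54472721359) (nat_lit 76) (nat_lit 9414074741) (nat_lit 40) (nat_lit 5) (nat_lit 44) (nat_lit 5) (nat_lit 41) (nat_lit 5) (nat_lit 324) (nat_lit 297)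 (nat_lit 99)) (XT.nd (nat_lit 78) (nat_lit 0) (nat_lit 0) (XT.lf (nat_lit 0) (nat_lit 9559900615) (nat_lit 228) (nat_lit 90588787284) (nat_lit 304) (nat_lit 46608936874) (nat_lit 37) (nat_lit 5) (nat_lit 40) (nat_lit 5) (nat_lit 41) (nat_lit 5) (nat_lit 325) (nat_lit 297) (nat_lit 98)) (XT.lf (nat_lit 0) (nat_lit 78684929146) (nat_lit 228) (nat_lit 45421896641) (nat_lit 304) (nat_lit 27498846398) (nat_lit 37) (nat_lit 5) (nat_lit 40) (nat_lit 5) (nat_lit 41) (nat_lit 5) (nat_lit 326) (nat_lit 297) (nat_lit 97))))))) (XT.nd (nat_lit 702) (nat_lit 0) (nat_lit 0) (XT.nd (nat_lit 312) (nat_lit 380) (nat_lit 0) (XT.nd (nat_lit 156) (nat_lit 228) (nat_lit 0) (XT.nd (nat_lit 78) (nat_lit 228) (nat_lit 0) (XT.lf (nat_lit 0) (nat_lit 149293866474) (nat_lit 304) (nat_lit 5461579367) (nat_lit 76) (nat_lit 1939126932) (nat_lit 37) (nat_lit 5) (nat_lit 41) (nat_lit 5) (nat_lit 38) (nat_lit 5) (nat_lit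 327) (nat_lit 297) (nat_lit 96)) (XT.lf (nat_lit 0) (nat_lit 15079770392) (nat_lit 228) (nat_lit 95429442498) (nat_lit 76) (nat_lit 51427209944) (nat_lit 34) (nat_lit 5) (nat_lit 37) (nat_lit 5) (nat_lit 35) (nat_lit 5) (nat_lit 328) (nat_lit 297) (nat_lit 95))) (XT.nd (nat_lit 78) (nat_lit 228) (nat_lit 0) (XT.lf (nat_lit 0) (nat_lit 38529303329) (nat_lit 228) (nat_lit 25295371908) (nat_lit 76) (nat_lit 103604937293) (nat_lit 34) (nat_lit 5) (nat_lit 37) (nat_lit 5) (nat_lit 35) (nat_lit 5) (nat_lit 329) (nat_lit 297) (nat_lit 94)) (XT.lf (nat_lit 0) (nat_lit 49943551961) (nat_lit 228) (nat_lit 13987266316) (nat_lit 304) (nat_lit 109227668661) (nat_lit 31) (nat_lit 5) (nat_lit 34) (nat_lit 5) (nat_lit 35) (nat_lit 5) (nat_lit 330) (nat_lit 297) (nat_lit 93)))) (XT.nd (nat_lit 156) (nat_lit 228) (nat_lit 0) (XT.nd (nat_lit 78) (nat_lit 152) (nat_lit 0) (XT.lf (nat_lit 0) (nat_lit 91636198932)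 (nat_lit 304) (nat_lit 49935775711) (nat_lit 76) (nat_lit 37550141395) (nat_lit 31) (nat_lit 5) (nat_lit 35) (nat_lit 5) (nat_lit 32) (nat_lit 5) (nat_lit 331) (nat_lit 297) (nat_lit 92)) (XT.lf (nat_lit 0) (nat_lit 27663089625) (nat_lit 152) (nat_lit 93724720171) (nat_lit 228) (nat_lit 63963069187) (nat_lit 29) (nat_lit 5) (nat_lit 31) (nat_lit 5) (nat_lit 32) (nat_lit 5) (nat_lit 332) (nat_lit 297) (nat_lit 91))) (XT.nd (nat_lit 78) (nat_lit 228) (nat_lit 0) (XT.lf (nat_lit 0) (nat_lit 110875217079) (nat_lit 152) (nat_lit 42597240006) (nat_lit 228) (nat_lit 38376350623) (nat_lit 29) (nat_lit 5) (nat_lit 31) (nat_lit 5) (nat_lit 32) (nat_lit 5) (nat_lit 333) (nat_lit 297) (nat_lit 90)) (XT.nd (nat_lit 78) (nat_lit 228) (nat_lit 0) (XT.lf (nat_lit 0) (nat_lit 187334208591) (nat_lit 228) (nat_lit 597107269) (nat_lit 76) (nat_lit 10731673821) (nat_lit 29) (nat_lit 5) (nat_lit 32) (nat_lit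 5) (nat_lit 30) (nat_lit 5) (nat_lit 334) (nat_lit 297) (nat_lit 89)) (XT.lf (nat_lit 0) (nat_lit 18596619617) (nat_lit 228) (nat_lit 120168690105) (nat_lit 76) (nat_lit 66935653129) (nat_lit 26) (nat_lit 5) (nat_lit 29) (nat_lit 5) (nat_lit 27) (nat_lit 5) (nat_lit 335) (nat_lit 297) (nat_lit 88)))))) (XT.nd (nat_lit 34788) (nat_lit 0) (nat_lit 3800) (XT.nd (nat_lit 34632) (nat_lit 0) (nat_lit 3724) (XT.nd (nat_lit 34554) (nat_lit 0) (nat_lit 3724) (XT.lf (nat_lit 0) (nat_lit 49647637827) (nat_lit 228) (nat_lit 37287679122) (nat_lit 76) (nat_lit 126145728758) (nat_lit 26) (nat_lit 5) (nat_lit 29) (nat_lit 5) (nat_lit 27) (nat_lit 5) (nat_lit 336) (nat_lit 297) (nat_lit 87)) (XT.lf (nat_lit 0) (nat_lit 9667967719) (nat_lit 0) (nat_lit 9667967719) (nat_lit 684) (nat_lit 15405298578) (nat_lit 75) (nat_lit 5) (nat_lit 75) (nat_lit 3) (nat_lit 84) (nat_lit 3) (nat_lit 298) (nat_lit 298)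 (nat_lit 124))) (XT.nd (nat_lit 78) (nat_lit 0) (nat_lit 0) (XT.lf (nat_lit 0) (nat_lit 39830982941) (nat_lit 684) (nat_lit 20228773471) (nat_lit 760) (nat_lit 11150120787) (nat_lit 75) (nat_lit 5) (nat_lit 84) (nat_lit 3) (nat_lit 85) (nat_lit 5) (nat_lit 299) (nat_lit 298) (nat_lit 123)) (XT.lf (nat_lit 76) (nat_lit 11226770034) (nat_lit 0) (nat_lit 30312752165) (nat_lit 760) (nat_lit 31459563396) (nat_lit 76) (nat_lit 5) (nat_lit 75) (nat_lit 5) (nat_lit 85) (nat_lit 5) (nat_lit 300) (nat_lit 298) (nat_lit 122)))) (XT.nd (nat_lit 156) (nat_lit 0) (nat_lit 0) (XT.nd (nat_lit 78) (nat_lit 0) (nat_lit 0) (XT.lf (nat_lit 0) (nat_lit 43695320978) (nat_lit 684) (nat_lit 29923727967) (nat_lit 760) (nat_lit 1240616083) (nat_lit 76) (nat_lit 5) (nat_lit 85) (nat_lit 5) (nat_lit 86) (nat_lit 5) (nat_lit 301) (nat_lit 298) (nat_lit 121)) (XT.lf (nat_lit 76) (nat_lit 3119747296) (nat_lit 0)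 (nat_lit 43384080342) (nat_lit 760) (nat_lit 30282202030) (nat_lit 77) (nat_lit 5) (nat_lit 76) (nat_lit 5) (nat_lit 86) (nat_lit 5) (nat_lit 302) (nat_lit 298) (nat_lit 120))) (XT.nd (nat_lit 78) (nat_lit 0) (nat_lit 76) (XT.lf (nat_lit 76) (nat_lit 38853825307) (nat_lit 0) (nat_lit 11105013917) (nat_lit 760) (nat_lit 28824571371) (nat_lit 77) (nat_lit 5) (nat_lit 76) (nat_lit 5) (nat_lit 86) (nat_lit 5) (nat_lit 303) (nat_lit 298) (nat_lit 119)) (XT.nd (nat_lit 78) (nat_lit 0) (nat_lit 0) (XT.lf (nat_lit 0) (nat_lit 53941729352) (nat_lit 684) (nat_lit 4862310071) (nat_lit 760) (nat_lit 22058866683) (nat_lit 77) (nat_lit 5) (nat_lit 86) (nat_lit 5) (nat_lit 87) (nat_lit 5) (nat_lit 304) (nat_lit 298) (nat_lit 118)) (XT.lf (nat_lit 76) (nat_lit 32826482333) (nat_lit 0) (nat_lit 25991219045) (nat_lit 760) (nat_lit 24193979990) (nat_lit 78) (nat_lit 5) (nat_lit 77) (nat_lit 5) (nat_lit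 87) (nat_lit 5) (nat_lit 305) (nat_lit 298) (nat_lit 117))))))))
noncomputable def xc245 : XT := (XT.nd (nat_lit 1404) (nat_lit 1064) (nat_lit 0) (XT.nd (nat_lit 702) (nat_lit 1216) (nat_lit 0) (XT.nd (nat_lit 312) (nat_lit 836) (nat_lit 0) (XT.nd (nat_lit 156) (nat_lit 608) (nat_lit 0) (XT.nd (nat_lit 78) (nat_lit 0) (nat_lit 0) (XT.lf (nat_lit 0) (nat_lit 64152686799) (nat_lit 684) (nat_lit 12829201314) (nat_lit 760) (nat_lit 8275248296) (nat_lit 78) (nat_lit 5) (nat_lit 87) (nat_lit 5) (nat_lit 88) (nat_lit 5) (nat_lit 306) (nat_lit 298) (nat_lit 116)) (XT.lf (nat_lit 76) (nat_lit 26826677928) (nat_lit 0) (nat_lit 43772097290) (nat_lit 760) (nat_lit 16973872970) (nat_lit 79) (nat_lit 5) (nat_lit 78) (nat_lit 5) (nat_lit 88) (nat_lit 5) (nat_lit 307) (nat_lit 298) (nat_lit 115))) (XT.nd (nat_lit 78) (nat_lit 608) (nat_lit 0) (XT.lf (nat_lit 76) (nat_lit 68910305321) (nat_lit 0) (nat_lit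 8673580255) (nat_lit 760) (nat_lit 12409215698) (nat_lit 79) (nat_lit 5) (nat_lit 78) (nat_lit 5) (nat_lit 88) (nat_lit 5) (nat_lit 308) (nat_lit 298) (nat_lit 114)) (XT.lf (nat_lit 0) (nat_lit 20788476760) (nat_lit 684) (nat_lit 64893784289) (nat_lit 760) (nat_lit 6814117003) (nat_lit 70) (nat_lit 5) (nat_lit 79) (nat_lit 5) (nat_lit 80) (nat_lit 5) (nat_lit 309) (nat_lit 298) (nat_lit 113)))) (XT.nd (nat_lit 156) (nat_lit 380) (nat_lit 0) (XT.nd (nat_lit 78) (nat_lit 456) (nat_lit 0) (XT.lf (nat_lit 0) (nat_lit 65337921476) (nat_lit 684) (nat_lit 29344072152) (nat_lit 760) (nat_lit 418004569) (nat_lit 70) (nat_lit 5) (nat_lit 79) (nat_lit 5) (nat_lit 80) (nat_lit 5) (nat_lit 310) (nat_lit 298) (nat_lit 112)) (XT.lf (nat_lit 0) (nat_lit 6454598112) (nat_lit 456) (nat_lit 83296275894) (nat_lit 76) (nat_lit 8060097390) (nat_lit 64) (nat_lit 5) (nat_lit 70) (nat_lit 5) (nat_lit 65) (nat_lit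 5) (nat_lit 311) (nat_lit 298) (nat_lit 111))) (XT.nd (nat_lit 78) (nat_lit 380) (nat_lit 0) (XT.lf (nat_lit 0) (nat_lit 14649658145) (nat_lit 456) (nat_lit 39090340864) (nat_lit 76) (nat_lit 46867509123) (nat_lit 64) (nat_lit 5) (nat_lit 70) (nat_lit 5) (nat_lit 65) (nat_lit 5) (nat_lit 312) (nat_lit 298) (nat_lit 110)) (XT.nd (nat_lit 78) (nat_lit 0) (nat_lit 0) (XT.lf (nat_lit 0) (nat_lit 7567663371) (nat_lit 380) (nat_lit 15804509296) (nat_lit 456) (nat_lit 80165815152) (nat_lit 59) (nat_lit 5) (nat_lit 64) (nat_lit 5) (nat_lit 65) (nat_lit 5) (nat_lit 313) (nat_lit 298) (nat_lit 109)) (XT.lf (nat_lit 0) (nat_lit 33578383850) (nat_lit 456) (nat_lit 49052643824) (nat_lit 76) (nat_lit 23931586402) (nat_lit 59) (nat_lit 5) (nat_lit 65) (nat_lit 5) (nat_lit 60) (nat_lit 5) (nat_lit 314) (nat_lit 298) (nat_lit 108)))))) (XT.nd (nat_lit 312) (nat_lit 608) (nat_lit 0) (XT.nd (nat_lit 156)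 (nat_lit 304) (nat_lit 0) (XT.nd (nat_lit 78) (nat_lit 304) (nat_lit 0) (XT.lf (nat_lit 0) (nat_lit 44553580498) (nat_lit 456) (nat_lit 48603705) (nat_lit 76) (nat_lit 65123354775) (nat_lit 59) (nat_lit 5) (nat_lit 65) (nat_lit 5) (nat_lit 60) (nat_lit 5) (nat_lit 315) (nat_lit 298) (nat_lit 107)) (XT.lf (nat_lit 0) (nat_lit 53104913762) (nat_lit 304) (nat_lit 3801344118) (nat_lit 380) (nat_lit 56098917228) (nat_lit 55) (nat_lit 5) (nat_lit 59) (nat_lit 5) (nat_lit 60) (nat_lit 5) (nat_lit 316) (nat_lit 298) (nat_lit 106))) (XT.nd (nat_lit 78) (nat_lit 304) (nat_lit 0) (XT.lf (nat_lit 0) (nat_lit 70486538837) (nat_lit 380) (nat_lit 8140914102) (nat_lit 76) (nat_lit 37790842597) (nat_lit 55) (nat_lit 5) (nat_lit 60) (nat_lit 5) (nat_lit 56) (nat_lit 5) (nat_lit 317) (nat_lit 298) (nat_lit 105)) (XT.lf (nat_lit 0) (nat_lit 47669395419) (nat_lit 304) (nat_lit 37882643145) (nat_lit 380)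 (nat_lit 34409724118) (nat_lit 51) (nat_lit 5) (nat_lit 55) (nat_lit 5) (nat_lit 56) (nat_lit 5) (nat_lit 318) (nat_lit 298) (nat_lit 104)))) (XT.nd (nat_lit 156) (nat_lit 380) (nat_lit 0) (XT.nd (nat_lit 78) (nat_lit 228) (nat_lit 0) (XT.lf (nat_lit 0) (nat_lit 101587082431) (nat_lit 380) (nat_lit 17201826390) (nat_lit 76) (nat_lit 4882681793) (nat_lit 51) (nat_lit 5) (nat_lit 56) (nat_lit 5) (nat_lit 52) (nat_lit 5) (nat_lit 319) (nat_lit 298) (nat_lit 103)) (XT.lf (nat_lit 0) (nat_lit 41345118837) (nat_lit 228) (nat_lit 78344961850) (nat_lit 304) (nat_lit 7813519992) (nat_lit 48) (nat_lit 5) (nat_lit 51) (nat_lit 5) (nat_lit 52) (nat_lit 5) (nat_lit 320) (nat_lit 298) (nat_lit 102))) (XT.nd (nat_lit 78) (nat_lit 304) (nat_lit 0) (XT.lf (nat_lit 0) (nat_lit 7237263184) (nat_lit 304) (nat_lit 28213163884) (nat_lit 76) (nat_lit 96056398813) (nat_lit 47) (nat_lit 5) (nat_lit 51) (nat_lit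 5) (nat_lit 48) (nat_lit 5) (nat_lit 321) (nat_lit 298) (nat_lit 101)) (XT.nd (nat_lit 78) (nat_lit 0) (nat_lit 0) (XT.lf (nat_lit 0) (nat_lit 23462291613) (nat_lit 380) (nat_lit 102262441446) (nat_lit 76) (nat_lit 9944860911) (nat_lit 43) (nat_lit 5) (nat_lit 48) (nat_lit 5) (nat_lit 44) (nat_lit 5) (nat_lit 322) (nat_lit 298) (nat_lit 100)) (XT.lf (nat_lit 0) (nat_lit 41565052431) (nat_lit 380) (nat_lit 41518008407) (nat_lit 76) (nat_lit 56904116272) (nat_lit 43) (nat_lit 5) (nat_lit 48) (nat_lit 5) (nat_lit 44) (nat_lit 5) (nat_lit 323) (nat_lit 298) (nat_lit 99))))))) (XT.nd (nat_lit 702) (nat_lit 152) (nat_lit 0) (XT.nd (nat_lit 312) (nat_lit 456) (nat_lit 0) (XT.nd (nat_lit 156) (nat_lit 228) (nat_lit 0) (XT.nd (nat_lit 78) (nat_lit 0) (nat_lit 0) (XT.lf (nat_lit 0) (nat_lit 22999396478) (nat_lit 228) (nat_lit 37932344607) (nat_lit 304) (nat_lit 83570959494) (nat_lit 40) (nat_lit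 5) (nat_lit 43) (nat_lit 5) (nat_lit 44) (nat_lit 5) (nat_lit 324) (nat_lit 298) (nat_lit 98)) (XT.lf (nat_lit 0) (nat_lit 82129075692) (nat_lit 304) (nat_lit 57184614689) (nat_lit 76) (nat_lit 9887194895) (nat_lit 40) (nat_lit 5) (nat_lit 44) (nat_lit 5) (nat_lit 41) (nat_lit 5) (nat_lit 325) (nat_lit 298) (nat_lit 97))) (XT.nd (nat_lit 78) (nat_lit 0) (nat_lit 0) (XT.lf (nat_lit 0) (nat_lit 10049448985) (nat_lit 228) (nat_lit 95115295350) (nat_lit 304) (nat_lit 48930312108) (nat_lit 37) (nat_lit 5) (nat_lit 40) (nat_lit 5) (nat_lit 41) (nat_lit 5) (nat_lit 326) (nat_lit 298) (nat_lit 96)) (XT.lf (nat_lit 0) (nat_lit 82630178783) (nat_lit 228) (nat_lit 47690199760) (nat_lit 304) (nat_lit 28865149090) (nat_lit 37) (nat_lit 5) (nat_lit 40) (nat_lit 5) (nat_lit 41) (nat_lit 5) (nat_lit 327) (nat_lit 298) (nat_lit 95)))) (XT.nd (nat_lit 156) (nat_lit 228) (nat_lit 0) (XT.nd (nat_lit 78)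 (nat_lit 228) (nat_lit 0) (XT.lf (nat_lit 0) (nat_lit 156766421754) (nat_lit 304) (nat_lit 5723812854) (nat_lit 76) (nat_lit 2038656955) (nat_lit 37) (nat_lit 5) (nat_lit 41) (nat_lit 5) (nat_lit 38) (nat_lit 5) (nat_lit 328) (nat_lit 298) (nat_lit 94)) (XT.lf (nat_lit 0) (nat_lit 15841554006) (nat_lit 228) (nat_lit 100189971135) (nat_lit 76) (nat_lit 54001313886) (nat_lit 34) (nat_lit 5) (nat_lit 37) (nat_lit 5) (nat_lit 35) (nat_lit 5) (nat_lit 329) (nat_lit 298) (nat_lit 93))) (XT.nd (nat_lit 78) (nat_lit 228) (nat_lit 0) (XT.lf (nat_lit 0) (nat_lit 40463192395) (nat_lit 228) (nat_lit 26549718135) (nat_lit 76) (nat_lit 108787796963) (nat_lit 34) (nat_lit 5) (nat_lit 37) (nat_lit 5) (nat_lit 35) (nat_lit 5) (nat_lit 330) (nat_lit 298) (nat_lit 92)) (XT.nd (nat_lit 78) (nat_lit 0) (nat_lit 0) (XT.lf (nat_lit 0) (nat_lit 52450983825) (nat_lit 228) (nat_lit 14683605844) (nat_lit 304)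 (nat_lit 114681446311) (nat_lit 31) (nat_lit 5) (nat_lit 34) (nat_lit 5) (nat_lit 35) (nat_lit 5) (nat_lit 331) (nat_lit 298) (nat_lit 91)) (XT.lf (nat_lit 0) (nat_lit 96224940010) (nat_lit 304) (nat_lit 52422486057) (nat_lit 76) (nat_lit 39430436092) (nat_lit 31) (nat_lit 5) (nat_lit 35) (nat_lit 5) (nat_lit 32) (nat_lit 5) (nat_lit 332) (nat_lit 298) (nat_lit 90)))))) (XT.nd (nat_lit 34944) (nat_lit 0) (nat_lit 3496) (XT.nd (nat_lit 156) (nat_lit 0) (nat_lit 0) (XT.nd (nat_lit 78) (nat_lit 0) (nat_lit 0) (XT.lf (nat_lit 0) (nat_lit 29056159990) (nat_lit 152) (nat_lit 98407796188) (nat_lit 228) (nat_lit 67154116460) (nat_lit 29) (nat_lit 5) (nat_lit 31) (nat_lit 5) (nat_lit 32) (nat_lit 5) (nat_lit 333) (nat_lit 298) (nat_lit 89)) (XT.lf (nat_lit 0) (nat_lit 116428421631) (nat_lit 152) (nat_lit 44724092490) (nat_lit 228) (nat_lit 40288400357) (nat_lit 29) (nat_lit 5) (nat_lit 31) (nat_lit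 5) (nat_lit 32) (nat_lit 5) (nat_lit 334) (nat_lit 298) (nat_lit 88))) (XT.nd (nat_lit 34710) (nat_lit 0) (nat_lit 3496) (XT.lf (nat_lit 0) (nat_lit 196707091563) (nat_lit 228) (nat_lit 617695656) (nat_lit 76) (nat_lit 11271031981) (nat_lit 29) (nat_lit 5) (nat_lit 32) (nat_lit 5) (nat_lit 30) (nat_lit 5) (nat_lit 335) (nat_lit 298) (nat_lit 87)) (XT.lf (nat_lit 0) (nat_lit 10157506040) (nat_lit 0) (nat_lit 10157506040) (nat_lit 684) (nat_lit 16162633447) (nat_lit 75) (nat_lit 5) (nat_lit 75) (nat_lit 3) (nat_lit 84) (nat_lit 3) (nat_lit 299) (nat_lit 299) (nat_lit 122)))) (XT.nd (nat_lit 156) (nat_lit 0) (nat_lit 76) (XT.nd (nat_lit 78) (nat_lit 0) (nat_lit 0) (XT.lf (nat_lit 0) (nat_lit 41845739723) (nat_lit 684) (nat_lit 21227095978) (nat_lit 760) (nat_lit 11696306029) (nat_lit 75) (nat_lit 5) (nat_lit 84) (nat_lit 3) (nat_lit 85) (nat_lit 5) (nat_lit 300) (nat_lit 299) (nat_lit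 121)) (XT.lf (nat_lit 76) (nat_lit 11801013151) (nat_lit 0) (nat_lit 31837789145) (nat_lit 760) (nat_lit 33009056717) (nat_lit 76) (nat_lit 5) (nat_lit 75) (nat_lit 5) (nat_lit 85) (nat_lit 5) (nat_lit 301) (nat_lit 299) (nat_lit 120))) (XT.nd (nat_lit 78) (nat_lit 0) (nat_lit 0) (XT.lf (nat_lit 0) (nat_lit 45901189156) (nat_lit 684) (nat_lit 31406359862) (nat_lit 760) (nat_lit 1293981617) (nat_lit 76) (nat_lit 5) (nat_lit 85) (nat_lit 5) (nat_lit 86) (nat_lit 5) (nat_lit 302) (nat_lit 299) (nat_lit 119)) (XT.nd (nat_lit 78) (nat_lit 0) (nat_lit 0) (XT.lf (nat_lit 76) (nat_lit 3289070543) (nat_lit 0) (nat_lit 45560253954) (nat_lit 760) (nat_lit 31774931822) (nat_lit 77) (nat_lit 5) (nat_lit 76) (nat_lit 5) (nat_lit 86) (nat_lit 5) (nat_lit 303) (nat_lit 299) (nat_lit 118)) (XT.lf (nat_lit 76) (nat_lit 40809217412) (nat_lit 0) (nat_lit 11666902322) (nat_lit 760) (nat_lit 30245437740)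 (nat_lit 77) (nat_lit 5) (nat_lit 76) (nat_lit 5) (nat_lit 86) (nat_lit 5) (nat_lit 304) (nat_lit 299) (nat_lit 117))))))))
noncomputable def xc246 : XT := (XT.nd (nat_lit 1404) (nat_lit 1368) (nat_lit 0) (XT.nd (nat_lit 702) (nat_lit 1292) (nat_lit 0) (XT.nd (nat_lit 312) (nat_lit 988) (nat_lit 0) (XT.nd (nat_lit 156) (nat_lit 0) (nat_lit 76) (XT.nd (nat_lit 78) (nat_lit 0) (nat_lit 0) (XT.lf (nat_lit 0) (nat_lit 56657134787) (nat_lit 684) (nat_lit 5092255933) (nat_lit 760) (nat_lit 23155690721) (nat_lit 77) (nat_lit 5) (nat_lit 86) (nat_lit 5) (nat_lit 87) (nat_lit 5) (nat_lit 305) (nat_lit 299) (nat_lit 116)) (XT.lf (nat_lit 76) (nat_lit 34480763677) (nat_lit 0) (nat_lit 27295471703) (nat_lit 760) (nat_lit 25385096159) (nat_lit 78) (nat_lit 5) (nat_lit 77) (nat_lit 5) (nat_lit 87) (nat_lit 5) (nat_lit 306) (nat_lit 299) (nat_lit 115))) (XT.nd (nat_lit 78) (nat_lit 0) (nat_lit 0)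 (XT.lf (nat_lit 0) (nat_lit 67377059885) (nat_lit 684) (nat_lit 13457361975) (nat_lit 760) (nat_lit 8684685432) (nat_lit 78) (nat_lit 5) (nat_lit 87) (nat_lit 5) (nat_lit 88) (nat_lit 5) (nat_lit 307) (nat_lit 299) (nat_lit 114)) (XT.lf (nat_lit 76) (nat_lit 28181096722) (nat_lit 0) (nat_lit 45963763212) (nat_lit 760) (nat_lit 17805566699) (nat_lit 79) (nat_lit 5) (nat_lit 78) (nat_lit 5) (nat_lit 88) (nat_lit 5) (nat_lit 308) (nat_lit 299) (nat_lit 113)))) (XT.nd (nat_lit 156) (nat_lit 456) (nat_lit 0) (XT.nd (nat_lit 78) (nat_lit 608) (nat_lit 0) (XT.lf (nat_lit 76) (nat_lit 72368282394) (nat_lit 0) (nat_lit 9110174561) (nat_lit 760) (nat_lit 13013486084) (nat_lit 79) (nat_lit 5) (nat_lit 78) (nat_lit 5) (nat_lit 88) (nat_lit 5) (nat_lit 309) (nat_lit 299) (nat_lit 112)) (XT.lf (nat_lit 0) (nat_lit 21841006371) (nat_lit 684) (nat_lit 68140173857) (nat_lit 760) (nat_lit 7139234092)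 (nat_lit 70) (nat_lit 5) (nat_lit 79) (nat_lit 5) (nat_lit 80) (nat_lit 5) (nat_lit 310) (nat_lit 299) (nat_lit 111))) (XT.nd (nat_lit 78) (nat_lit 456) (nat_lit 0) (XT.lf (nat_lit 0) (nat_lit 68617299239) (nat_lit 684) (nat_lit 30812895144) (nat_lit 760) (nat_lit 424058359) (nat_lit 70) (nat_lit 5) (nat_lit 79) (nat_lit 5) (nat_lit 80) (nat_lit 5) (nat_lit 311) (nat_lit 299) (nat_lit 110)) (XT.nd (nat_lit 78) (nat_lit 0) (nat_lit 0) (XT.lf (nat_lit 0) (nat_lit 6791197364) (nat_lit 456) (nat_lit 87447555952) (nat_lit 76) (nat_lit 8462036620) (nat_lit 64) (nat_lit 5) (nat_lit 70) (nat_lit 5) (nat_lit 65) (nat_lit 5) (nat_lit 312) (nat_lit 299) (nat_lit 109)) (XT.lf (nat_lit 0) (nat_lit 15395349954) (nat_lit 456) (nat_lit 41031968634) (nat_lit 76) (nat_lit 49209869683) (nat_lit 64) (nat_lit 5) (nat_lit 70) (nat_lit 5) (nat_lit 65) (nat_lit 5) (nat_lit 313) (nat_lit 299) (nat_lit 108))))))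 (XT.nd (nat_lit 312) (nat_lit 608) (nat_lit 0) (XT.nd (nat_lit 156) (nat_lit 304) (nat_lit 0) (XT.nd (nat_lit 78) (nat_lit 0) (nat_lit 0) (XT.lf (nat_lit 0) (nat_lit 7958727921) (nat_lit 380) (nat_lit 16594831277) (nat_lit 456) (nat_lit 84160655952) (nat_lit 59) (nat_lit 5) (nat_lit 64) (nat_lit 5) (nat_lit 65) (nat_lit 5) (nat_lit 314) (nat_lit 299) (nat_lit 107)) (XT.lf (nat_lit 0) (nat_lit 35269471034) (nat_lit 456) (nat_lit 51492557017) (nat_lit 76) (nat_lit 25128076744) (nat_lit 59) (nat_lit 5) (nat_lit 65) (nat_lit 5) (nat_lit 60) (nat_lit 5) (nat_lit 315) (nat_lit 299) (nat_lit 106))) (XT.nd (nat_lit 78) (nat_lit 304) (nat_lit 0) (XT.lf (nat_lit 0) (nat_lit 46792848086) (nat_lit 456) (nat_lit 38920558) (nat_lit 76) (nat_lit 68379437773) (nat_lit 59) (nat_lit 5) (nat_lit 65) (nat_lit 5) (nat_lit 60) (nat_lit 5) (nat_lit 316) (nat_lit 299) (nat_lit 105)) (XT.lf (nat_lit 0) (nat_lit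 55772077406) (nat_lit 304) (nat_lit 3990716168) (nat_lit 380) (nat_lit 58892050501) (nat_lit 55) (nat_lit 5) (nat_lit 59) (nat_lit 5) (nat_lit 60) (nat_lit 5) (nat_lit 317) (nat_lit 299) (nat_lit 104)))) (XT.nd (nat_lit 156) (nat_lit 304) (nat_lit 0) (XT.nd (nat_lit 78) (nat_lit 304) (nat_lit 0) (XT.lf (nat_lit 0) (nat_lit 74021564496) (nat_lit 380) (nat_lit 8536058006) (nat_lit 76) (nat_lit 39681025591) (nat_lit 55) (nat_lit 5) (nat_lit 60) (nat_lit 5) (nat_lit 56) (nat_lit 5) (nat_lit 318) (nat_lit 299) (nat_lit 103)) (XT.lf (nat_lit 0) (nat_lit 50064575026) (nat_lit 304) (nat_lit 39775437543) (nat_lit 380) (nat_lit 36119293657) (nat_lit 51) (nat_lit 5) (nat_lit 55) (nat_lit 5) (nat_lit 56) (nat_lit 5) (nat_lit 319) (nat_lit 299) (nat_lit 102))) (XT.nd (nat_lit 78) (nat_lit 304) (nat_lit 0) (XT.lf (nat_lit 0) (nat_lit 106676334613) (nat_lit 380) (nat_lit 18050266720) (nat_lit 76)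 (nat_lit 5128049161) (nat_lit 51) (nat_lit 5) (nat_lit 56) (nat_lit 5) (nat_lit 52) (nat_lit 5) (nat_lit 320) (nat_lit 299) (nat_lit 101)) (XT.nd (nat_lit 78) (nat_lit 76) (nat_lit 0) (XT.lf (nat_lit 0) (nat_lit 43423837849) (nat_lit 228) (nat_lit 82260352567) (nat_lit 304) (nat_lit 8194086442) (nat_lit 48) (nat_lit 5) (nat_lit 51) (nat_lit 5) (nat_lit 52) (nat_lit 5) (nat_lit 321) (nat_lit 299) (nat_lit 100)) (XT.lf (nat_lit 0) (nat_lit 7608446325) (nat_lit 304) (nat_lit 29612575330) (nat_lit 76) (nat_lit 100860658144) (nat_lit 47) (nat_lit 5) (nat_lit 51) (nat_lit 5) (nat_lit 48) (nat_lit 5) (nat_lit 322) (nat_lit 299) (nat_lit 99))))))) (XT.nd (nat_lit 702) (nat_lit 380) (nat_lit 0) (XT.nd (nat_lit 312) (nat_lit 456) (nat_lit 0) (XT.nd (nat_lit 156) (nat_lit 228) (nat_lit 0) (XT.nd (nat_lit 78) (nat_lit 0) (nat_lit 0) (XT.lf (nat_lit 0) (nat_lit 24644486609) (nat_lit 380) (nat_lit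 107364056843) (nat_lit 76) (nat_lit 10444055835) (nat_lit 43) (nat_lit 5) (nat_lit 48) (nat_lit 5) (nat_lit 44) (nat_lit 5) (nat_lit 323) (nat_lit 299) (nat_lit 98)) (XT.lf (nat_lit 0) (nat_lit 43651953068) (nat_lit 380) (nat_lit 43582950089) (nat_lit 76) (nat_lit 59751181017) (nat_lit 43) (nat_lit 5) (nat_lit 48) (nat_lit 5) (nat_lit 44) (nat_lit 5) (nat_lit 324) (nat_lit 299) (nat_lit 97))) (XT.nd (nat_lit 78) (nat_lit 0) (nat_lit 0) (XT.lf (nat_lit 0) (nat_lit 24160148286) (nat_lit 228) (nat_lit 39826584395) (nat_lit 304) (nat_lit 87740664232) (nat_lit 40) (nat_lit 5) (nat_lit 43) (nat_lit 5) (nat_lit 44) (nat_lit 5) (nat_lit 325) (nat_lit 299) (nat_lit 96)) (XT.lf (nat_lit 0) (nat_lit 86243569154) (nat_lit 304) (nat_lit 60033194414) (nat_lit 76) (nat_lit 10383746400) (nat_lit 40) (nat_lit 5) (nat_lit 44) (nat_lit 5) (nat_lit 41) (nat_lit 5) (nat_lit 326) (nat_lit 299) (nat_lit 95))))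 (XT.nd (nat_lit 156) (nat_lit 228) (nat_lit 0) (XT.nd (nat_lit 78) (nat_lit 0) (nat_lit 0) (XT.lf (nat_lit 0) (nat_lit 10562400653) (nat_lit 228) (nat_lit 99868401343) (nat_lit 304) (nat_lit 51368599496) (nat_lit 37) (nat_lit 5) (nat_lit 40) (nat_lit 5) (nat_lit 41) (nat_lit 5) (nat_lit 327) (nat_lit 299) (nat_lit 94)) (XT.lf (nat_lit 0) (nat_lit 86771667931) (nat_lit 228) (nat_lit 50072177582) (nat_lit 304) (nat_lit 30300570147) (nat_lit 37) (nat_lit 5) (nat_lit 40) (nat_lit 5) (nat_lit 41) (nat_lit 5) (nat_lit 328) (nat_lit 299) (nat_lit 93))) (XT.nd (nat_lit 78) (nat_lit 228) (nat_lit 0) (XT.lf (nat_lit 0) (nat_lit 164611873867) (nat_lit 304) (nat_lit 6000166326) (nat_lit 76) (nat_lit 2142924204) (nat_lit 37) (nat_lit 5) (nat_lit 41) (nat_lit 5) (nat_lit 38) (nat_lit 5) (nat_lit 329) (nat_lit 299) (nat_lit 92)) (XT.nd (nat_lit 78) (nat_lit 0) (nat_lit 0) (XT.lf (nat_lit 0) (nat_lit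 16640702087) (nat_lit 228) (nat_lit 105189543626) (nat_lit 76) (nat_lit 56703867967) (nat_lit 34) (nat_lit 5) (nat_lit 37) (nat_lit 5) (nat_lit 35) (nat_lit 5) (nat_lit 330) (nat_lit 299) (nat_lit 91)) (XT.lf (nat_lit 0) (nat_lit 42493085711) (nat_lit 228) (nat_lit 27867750645) (nat_lit 76) (nat_lit 114229556702) (nat_lit 34) (nat_lit 5) (nat_lit 37) (nat_lit 5) (nat_lit 35) (nat_lit 5) (nat_lit 331) (nat_lit 299) (nat_lit 90)))))) (XT.nd (nat_lit 35100) (nat_lit 0) (nat_lit 3496) (XT.nd (nat_lit 156) (nat_lit 152) (nat_lit 0) (XT.nd (nat_lit 78) (nat_lit 0) (nat_lit 0) (XT.lf (nat_lit 0) (nat_lit 55082833938) (nat_lit 228) (nat_lit 15415043471) (nat_lit 304) (nat_lit 120408619958) (nat_lit 31) (nat_lit 5) (nat_lit 34) (nat_lit 5) (nat_lit 35) (nat_lit 5) (nat_lit 332) (nat_lit 299) (nat_lit 89)) (XT.lf (nat_lit 0) (nat_lit 101042473752) (nat_lit 304) (nat_lit 55034468918) (nat_lit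 76) (nat_lit 41404486356) (nat_lit 31) (nat_lit 5) (nat_lit 35) (nat_lit 5) (nat_lit 32) (nat_lit 5) (nat_lit 333) (nat_lit 299) (nat_lit 88))) (XT.nd (nat_lit 34866) (nat_lit 0) (nat_lit 3496) (XT.lf (nat_lit 0) (nat_lit 30517961988) (nat_lit 152) (nat_lit 103325319793) (nat_lit 228) (nat_lit 70505376762) (nat_lit 29) (nat_lit 5) (nat_lit 31) (nat_lit 5) (nat_lit 32) (nat_lit 5) (nat_lit 334) (nat_lit 299) (nat_lit 87)) (XT.lf (nat_lit 0) (nat_lit 10670950444) (nat_lit 0) (nat_lit 10670950444) (nat_lit 684) (nat_lit 16959037173) (nat_lit 75) (nat_lit 5) (nat_lit 75) (nat_lit 3) (nat_lit 84) (nat_lit 3) (nat_lit 300) (nat_lit 300) (nat_lit 120)))) (XT.nd (nat_lit 156) (nat_lit 0) (nat_lit 76) (XT.nd (nat_lit 78) (nat_lit 0) (nat_lit 0) (XT.lf (nat_lit 0) (nat_lit 43959076718) (nat_lit 684) (nat_lit 22276554028) (nat_lit 760) (nat_lit 12270853033) (nat_lit 75) (nat_lit 5) (nat_lit 84)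 (nat_lit 3) (nat_lit 85) (nat_lit 5) (nat_lit 301) (nat_lit 300) (nat_lit 119)) (XT.lf (nat_lit 76) (nat_lit 12402768674) (nat_lit 0) (nat_lit 33438204110) (nat_lit 760) (nat_lit 34638208102) (nat_lit 76) (nat_lit 5) (nat_lit 75) (nat_lit 5) (nat_lit 85) (nat_lit 5) (nat_lit 302) (nat_lit 300) (nat_lit 118))) (XT.nd (nat_lit 78) (nat_lit 0) (nat_lit 0) (XT.lf (nat_lit 0) (nat_lit 48215388868) (nat_lit 684) (nat_lit 32964383521) (nat_lit 760) (nat_lit 1350821043) (nat_lit 76) (nat_lit 5) (nat_lit 85) (nat_lit 5) (nat_lit 86) (nat_lit 5) (nat_lit 303) (nat_lit 300) (nat_lit 117)) (XT.nd (nat_lit 78) (nat_lit 0) (nat_lit 0) (XT.lf (nat_lit 76) (nat_lit 3465620108) (nat_lit 0) (nat_lit 47844588279) (nat_lit 760) (nat_lit 33344285843) (nat_lit 77) (nat_lit 5) (nat_lit 76) (nat_lit 5) (nat_lit 86) (nat_lit 5) (nat_lit 304) (nat_lit 300) (nat_lit 116)) (XT.lf (nat_lit 76) (nat_lit 42861198319)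 (nat_lit 0) (nat_lit 12256268036) (nat_lit 760) (nat_lit 31739240512) (nat_lit 77) (nat_lit 5) (nat_lit 76) (nat_lit 5) (nat_lit 86) (nat_lit 5) (nat_lit 305) (nat_lit 300) (nat_lit 115))))))))
noncomputable def xc247 : XT := (XT.nd (nat_lit 1404) (nat_lit 1216) (nat_lit 0) (XT.nd (nat_lit 702) (nat_lit 1292) (nat_lit 0) (XT.nd (nat_lit 312) (nat_lit 988) (nat_lit 0) (XT.nd (nat_lit 156) (nat_lit 0) (nat_lit 76) (XT.nd (nat_lit 78) (nat_lit 0) (nat_lit 0) (XT.lf (nat_lit 0) (nat_lit 59506607370) (nat_lit 684) (nat_lit 5334923477) (nat_lit 760) (nat_lit 24307924875) (nat_lit 77) (nat_lit 5) (nat_lit 86) (nat_lit 5) (nat_lit 87) (nat_lit 5) (nat_lit 306) (nat_lit 300) (nat_lit 114)) (XT.lf (nat_lit 76) (nat_lit 36216554449) (nat_lit 0) (nat_lit 28664500805) (nat_lit 760) (nat_lit 26637495792) (nat_lit 78) (nat_lit 5) (nat_lit 77) (nat_lit 5) (nat_lit 87) (nat_lit 5) (nat_lit 307) (nat_lit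 300) (nat_lit 113))) (XT.nd (nat_lit 78) (nat_lit 0) (nat_lit 0) (XT.lf (nat_lit 0) (nat_lit 70761095416) (nat_lit 684) (nat_lit 14118167122) (nat_lit 760) (nat_lit 9114996549) (nat_lit 78) (nat_lit 5) (nat_lit 87) (nat_lit 5) (nat_lit 88) (nat_lit 5) (nat_lit 308) (nat_lit 300) (nat_lit 112)) (XT.lf (nat_lit 76) (nat_lit 29602019946) (nat_lit 0) (nat_lit 48264727843) (nat_lit 760) (nat_lit 18680425607) (nat_lit 79) (nat_lit 5) (nat_lit 78) (nat_lit 5) (nat_lit 88) (nat_lit 5) (nat_lit 309) (nat_lit 300) (nat_lit 111)))) (XT.nd (nat_lit 156) (nat_lit 456) (nat_lit 0) (XT.nd (nat_lit 78) (nat_lit 608) (nat_lit 0) (XT.lf (nat_lit 76) (nat_lit 75997999741) (nat_lit 0) (nat_lit 9568327545) (nat_lit 760) (nat_lit 13649475219) (nat_lit 79) (nat_lit 5) (nat_lit 78) (nat_lit 5) (nat_lit 88) (nat_lit 5) (nat_lit 310) (nat_lit 300) (nat_lit 110)) (XT.lf (nat_lit 0) (nat_lit 22944944013) (nat_lit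 684) (nat_lit 71548724821) (nat_lit 760) (nat_lit 7482056332) (nat_lit 70) (nat_lit 5) (nat_lit 79) (nat_lit 5) (nat_lit 80) (nat_lit 5) (nat_lit 311) (nat_lit 300) (nat_lit 109))) (XT.nd (nat_lit 78) (nat_lit 456) (nat_lit 0) (XT.lf (nat_lit 0) (nat_lit 72059485460) (nat_lit 684) (nat_lit 32355008730) (nat_lit 760) (nat_lit 431795120) (nat_lit 70) (nat_lit 5) (nat_lit 79) (nat_lit 5) (nat_lit 80) (nat_lit 5) (nat_lit 312) (nat_lit 300) (nat_lit 108)) (XT.nd (nat_lit 78) (nat_lit 0) (nat_lit 0) (XT.lf (nat_lit 0) (nat_lit 7143337138) (nat_lit 456) (nat_lit 91807658251) (nat_lit 76) (nat_lit 8884171883) (nat_lit 64) (nat_lit 5) (nat_lit 70) (nat_lit 5) (nat_lit 65) (nat_lit 5) (nat_lit 313) (nat_lit 300) (nat_lit 107)) (XT.lf (nat_lit 0) (nat_lit 16177098314) (nat_lit 456) (nat_lit 43071876115) (nat_lit 76) (nat_lit 51669442627) (nat_lit 64) (nat_lit 5) (nat_lit 70) (nat_lit 5) (nat_lit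 65) (nat_lit 5) (nat_lit 314) (nat_lit 300) (nat_lit 106)))))) (XT.nd (nat_lit 312) (nat_lit 608) (nat_lit 0) (XT.nd (nat_lit 156) (nat_lit 304) (nat_lit 0) (XT.nd (nat_lit 78) (nat_lit 0) (nat_lit 0) (XT.lf (nat_lit 0) (nat_lit 8368166704) (nat_lit 380) (nat_lit 17424660384) (nat_lit 456) (nat_lit 88356489242) (nat_lit 59) (nat_lit 5) (nat_lit 64) (nat_lit 5) (nat_lit 65) (nat_lit 5) (nat_lit 315) (nat_lit 300) (nat_lit 105)) (XT.lf (nat_lit 0) (nat_lit 37043981313) (nat_lit 456) (nat_lit 54055648361) (nat_lit 76) (nat_lit 26384399876) (nat_lit 59) (nat_lit 5) (nat_lit 65) (nat_lit 5) (nat_lit 60) (nat_lit 5) (nat_lit 316) (nat_lit 300) (nat_lit 104))) (XT.nd (nat_lit 78) (nat_lit 304) (nat_lit 0) (XT.lf (nat_lit 0) (nat_lit 49143001659) (nat_lit 456) (nat_lit 29879437) (nat_lit 76) (nat_lit 71798332799) (nat_lit 59) (nat_lit 5) (nat_lit 65) (nat_lit 5) (nat_lit 60) (nat_lit 5) (nat_lit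 317) (nat_lit 300) (nat_lit 103)) (XT.lf (nat_lit 0) (nat_lit 58571491213) (nat_lit 304) (nat_lit 4189621450) (nat_lit 380) (nat_lit 61825938660) (nat_lit 55) (nat_lit 5) (nat_lit 59) (nat_lit 5) (nat_lit 60) (nat_lit 5) (nat_lit 318) (nat_lit 300) (nat_lit 102)))) (XT.nd (nat_lit 156) (nat_lit 304) (nat_lit 0) (XT.nd (nat_lit 78) (nat_lit 304) (nat_lit 0) (XT.lf (nat_lit 0) (nat_lit 77732346772) (nat_lit 380) (nat_lit 8952065622) (nat_lit 76) (nat_lit 41665658152) (nat_lit 55) (nat_lit 5) (nat_lit 60) (nat_lit 5) (nat_lit 56) (nat_lit 5) (nat_lit 319) (nat_lit 300) (nat_lit 101)) (XT.lf (nat_lit 0) (nat_lit 52578424944) (nat_lit 304) (nat_lit 41762996034) (nat_lit 380) (nat_lit 37915356602) (nat_lit 51) (nat_lit 5) (nat_lit 55) (nat_lit 5) (nat_lit 56) (nat_lit 5) (nat_lit 320) (nat_lit 300) (nat_lit 100))) (XT.nd (nat_lit 78) (nat_lit 304) (nat_lit 0) (XT.lf (nat_lit 0) (nat_lit 112019129177)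 (nat_lit 380) (nat_lit 18942212265) (nat_lit 76) (nat_lit 5385570238) (nat_lit 51) (nat_lit 5) (nat_lit 56) (nat_lit 5) (nat_lit 52) (nat_lit 5) (nat_lit 321) (nat_lit 300) (nat_lit 99)) (XT.nd (nat_lit 78) (nat_lit 76) (nat_lit 0) (XT.lf (nat_lit 0) (nat_lit 45605427085) (nat_lit 228) (nat_lit 86371685501) (nat_lit 304) (nat_lit 8594621105) (nat_lit 48) (nat_lit 5) (nat_lit 51) (nat_lit 5) (nat_lit 52) (nat_lit 5) (nat_lit 322) (nat_lit 300) (nat_lit 98)) (XT.lf (nat_lit 0) (nat_lit 7997322139) (nat_lit 304) (nat_lit 31083002963) (nat_lit 76) (nat_lit 105904996620) (nat_lit 47) (nat_lit 5) (nat_lit 51) (nat_lit 5) (nat_lit 48) (nat_lit 5) (nat_lit 323) (nat_lit 300) (nat_lit 97))))))) (XT.nd (nat_lit 702) (nat_lit 228) (nat_lit 0) (XT.nd (nat_lit 312) (nat_lit 456) (nat_lit 0) (XT.nd (nat_lit 156) (nat_lit 228) (nat_lit 0) (XT.nd (nat_lit 78) (nat_lit 0) (nat_lit 0) (XT.lf (nat_lit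 0) (nat_lit 25884947145) (nat_lit 380) (nat_lit 112721822792) (nat_lit 76) (nat_lit 10968029037) (nat_lit 43) (nat_lit 5) (nat_lit 48) (nat_lit 5) (nat_lit 44) (nat_lit 5) (nat_lit 324) (nat_lit 300) (nat_lit 96)) (XT.lf (nat_lit 0) (nat_lit 45842394726) (nat_lit 380) (nat_lit 45752157695) (nat_lit 76) (nat_lit 62740426173) (nat_lit 43) (nat_lit 5) (nat_lit 48) (nat_lit 5) (nat_lit 44) (nat_lit 5) (nat_lit 325) (nat_lit 300) (nat_lit 95))) (XT.nd (nat_lit 78) (nat_lit 0) (nat_lit 0) (XT.lf (nat_lit 0) (nat_lit 25377935278) (nat_lit 228) (nat_lit 41815757205) (nat_lit 304) (nat_lit 92119676368) (nat_lit 40) (nat_lit 5) (nat_lit 43) (nat_lit 5) (nat_lit 44) (nat_lit 5) (nat_lit 326) (nat_lit 300) (nat_lit 94)) (XT.lf (nat_lit 0) (nat_lit 90563039835) (nat_lit 304) (nat_lit 63025193355) (nat_lit 76) (nat_lit 10904921712) (nat_lit 40) (nat_lit 5) (nat_lit 44) (nat_lit 5) (nat_lit 41) (nat_lit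 5) (nat_lit 327) (nat_lit 300) (nat_lit 93)))) (XT.nd (nat_lit 156) (nat_lit 228) (nat_lit 0) (XT.nd (nat_lit 78) (nat_lit 0) (nat_lit 0) (XT.lf (nat_lit 0) (nat_lit 11100025647) (nat_lit 228) (nat_lit 104859409824) (nat_lit 304) (nat_lit 53929566235) (nat_lit 37) (nat_lit 5) (nat_lit 40) (nat_lit 5) (nat_lit 41) (nat_lit 5) (nat_lit 328) (nat_lit 300) (nat_lit 92)) (XT.lf (nat_lit 0) (nat_lit 91119303671) (nat_lit 228) (nat_lit 52573489713) (nat_lit 304) (nat_lit 31808490810) (nat_lit 37) (nat_lit 5) (nat_lit 40) (nat_lit 5) (nat_lit 41) (nat_lit 5) (nat_lit 329) (nat_lit 300) (nat_lit 91))) (XT.nd (nat_lit 78) (nat_lit 228) (nat_lit 0) (XT.lf (nat_lit 0) (nat_lit 172848935611) (nat_lit 304) (nat_lit 6291252039) (nat_lit 76) (nat_lit 2252187784) (nat_lit 37) (nat_lit 5) (nat_lit 41) (nat_lit 5) (nat_lit 38) (nat_lit 5) (nat_lit 330) (nat_lit 300) (nat_lit 90)) (XT.nd (nat_lit 78) (nat_lit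 0) (nat_lit 0) (XT.lf (nat_lit 0) (nat_lit 17479150235) (nat_lit 228) (nat_lit 110440017573) (nat_lit 76) (nat_lit 59541318404) (nat_lit 34) (nat_lit 5) (nat_lit 37) (nat_lit 5) (nat_lit 35) (nat_lit 5) (nat_lit 331) (nat_lit 300) (nat_lit 89)) (XT.lf (nat_lit 0) (nat_lit 44623847657) (nat_lit 228) (nat_lit 29252563669) (nat_lit 76) (nat_lit 119943184098) (nat_lit 34) (nat_lit 5) (nat_lit 37) (nat_lit 5) (nat_lit 35) (nat_lit 5) (nat_lit 332) (nat_lit 300) (nat_lit 88)))))) (XT.nd (nat_lit 35334) (nat_lit 0) (nat_lit 3420) (XT.nd (nat_lit 35100) (nat_lit 0) (nat_lit 3344) (XT.nd (nat_lit 35022) (nat_lit 0) (nat_lit 3344) (XT.lf (nat_lit 0) (nat_lit 57845411846) (nat_lit 228) (nat_lit 16183307967) (nat_lit 304) (nat_lit 126422793659) (nat_lit 31) (nat_lit 5) (nat_lit 34) (nat_lit 5) (nat_lit 35) (nat_lit 5) (nat_lit 333) (nat_lit 300) (nat_lit 87)) (XT.lf (nat_lit 0) (nat_lit 11209549306)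 (nat_lit 0) (nat_lit 11209549306) (nat_lit 684) (nat_lit 17796351439) (nat_lit 75) (nat_lit 5) (nat_lit 75) (nat_lit 3) (nat_lit 84) (nat_lit 3) (nat_lit 301) (nat_lit 301) (nat_lit 118))) (XT.nd (nat_lit 78) (nat_lit 0) (nat_lit 0) (XT.lf (nat_lit 0) (nat_lit 46176123532) (nat_lit 684) (nat_lit 23379591028) (nat_lit 760) (nat_lit 12875082037) (nat_lit 75) (nat_lit 5) (nat_lit 84) (nat_lit 3) (nat_lit 85) (nat_lit 5) (nat_lit 302) (nat_lit 301) (nat_lit 117)) (XT.nd (nat_lit 78) (nat_lit 0) (nat_lit 76) (XT.lf (nat_lit 76) (nat_lit 13033523767) (nat_lit 0) (nat_lit 35117847202) (nat_lit 760) (nat_lit 36350797463) (nat_lit 76) (nat_lit 5) (nat_lit 75) (nat_lit 5) (nat_lit 85) (nat_lit 5) (nat_lit 303) (nat_lit 301) (nat_lit 116)) (XT.lf (nat_lit 0) (nat_lit 50643519085) (nat_lit 684) (nat_lit 34601451374) (nat_lit 760) (nat_lit 1411233157) (nat_lit 76) (nat_lit 5) (nat_lit 85) (nat_lit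 5) (nat_lit 86) (nat_lit 5) (nat_lit 304) (nat_lit 301) (nat_lit 115))))) (XT.nd (nat_lit 156) (nat_lit 0) (nat_lit 76) (XT.nd (nat_lit 78) (nat_lit 0) (nat_lit 0) (XT.lf (nat_lit 76) (nat_lit 3649872577) (nat_lit 0) (nat_lit 50242551596) (nat_lit 760) (nat_lit 34993910501) (nat_lit 77) (nat_lit 5) (nat_lit 76) (nat_lit 5) (nat_lit 86) (nat_lit 5) (nat_lit 305) (nat_lit 301) (nat_lit 114)) (XT.lf (nat_lit 76) (nat_lit 45014707247) (nat_lit 0) (nat_lit 12874542298) (nat_lit 760) (nat_lit 33309450506) (nat_lit 77) (nat_lit 5) (nat_lit 76) (nat_lit 5) (nat_lit 86) (nat_lit 5) (nat_lit 306) (nat_lit 301) (nat_lit 113))) (XT.nd (nat_lit 78) (nat_lit 0) (nat_lit 0) (XT.lf (nat_lit 0) (nat_lit 62497008799) (nat_lit 684) (nat_lit 5590834954) (nat_lit 760) (nat_lit 25518286759) (nat_lit 77) (nat_lit 5) (nat_lit 86) (nat_lit 5) (nat_lit 87) (nat_lit 5) (nat_lit 307) (nat_lit 301) (nat_lit 112))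 (XT.nd (nat_lit 78) (nat_lit 0) (nat_lit 76) (XT.lf (nat_lit 76) (nat_lit 38038042115) (nat_lit 0) (nat_lit 30101585724) (nat_lit 760) (nat_lit 27954082441) (nat_lit 78) (nat_lit 5) (nat_lit 77) (nat_lit 5) (nat_lit 87) (nat_lit 5) (nat_lit 308) (nat_lit 301) (nat_lit 111)) (XT.lf (nat_lit 0) (nat_lit 74312921195) (nat_lit 684) (nat_lit 14813134026) (nat_lit 760) (nat_lit 9567187958) (nat_lit 78) (nat_lit 5) (nat_lit 87) (nat_lit 5) (nat_lit 88) (nat_lit 5) (nat_lit 309) (nat_lit 301) (nat_lit 110))))))))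
noncomputable def xc248 : XT := (XT.nd (nat_lit 1404) (nat_lit 456) (nat_lit 0) (XT.nd (nat_lit 702) (nat_lit 1444) (nat_lit 0) (XT.nd (nat_lit 312) (nat_lit 836) (nat_lit 0) (XT.nd (nat_lit 156) (nat_lit 608) (nat_lit 0) (XT.nd (nat_lit 78) (nat_lit 0) (nat_lit 0) (XT.lf (nat_lit 76) (nat_lit 31092885921) (nat_lit 0) (nat_lit 50680482574) (nat_lit 760) (nat_lit 19600461012) (nat_lit 79) (nat_lit 5) (nat_lit 78) (nat_lit 5) (nat_lit 88) (nat_lit 5) (nat_lit 310) (nat_lit 301) (nat_lit 109)) (XT.lf (nat_lit 76) (nat_lit 79808152088) (nat_lit 0) (nat_lit 10049142341) (nat_lit 760) (nat_lit 14318629099) (nat_lit 79) (nat_lit 5) (nat_lit 78) (nat_lit 5) (nat_lit 88) (nat_lit 5) (nat_lit 311) (nat_lit 301) (nat_lit 108))) (XT.nd (nat_lit 78) (nat_lit 0) (nat_lit 0) (XT.lf (nat_lit 0) (nat_lit 24102973365) (nat_lit 684) (nat_lit 75127559947) (nat_lit 760) (nat_lit 7843334237) (nat_lit 70)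 (nat_lit 5) (nat_lit 79) (nat_lit 5) (nat_lit 80) (nat_lit 5) (nat_lit 312) (nat_lit 301) (nat_lit 107)) (XT.lf (nat_lit 0) (nat_lit 75672728449) (nat_lit 684) (nat_lit 33974091438) (nat_lit 760) (nat_lit 441170674) (nat_lit 70) (nat_lit 5) (nat_lit 79) (nat_lit 5) (nat_lit 80) (nat_lit 5) (nat_lit 313) (nat_lit 301) (nat_lit 106)))) (XT.nd (nat_lit 156) (nat_lit 380) (nat_lit 0) (XT.nd (nat_lit 78) (nat_lit 0) (nat_lit 0) (XT.lf (nat_lit 0) (nat_lit 7511914340) (nat_lit 456) (nat_lit 96386906925) (nat_lit 76) (nat_lit 9327503772) (nat_lit 64) (nat_lit 5) (nat_lit 70) (nat_lit 5) (nat_lit 65) (nat_lit 5) (nat_lit 314) (nat_lit 301) (nat_lit 105)) (XT.lf (nat_lit 0) (nat_lit 16996820226) (nat_lit 456) (nat_lit 45214865884) (nat_lit 76) (nat_lit 54252079801) (nat_lit 64) (nat_lit 5) (nat_lit 70) (nat_lit 5) (nat_lit 65) (nat_lit 5) (nat_lit 315) (nat_lit 301) (nat_lit 104))) (XT.nd (nat_lit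 78) (nat_lit 0) (nat_lit 0) (XT.lf (nat_lit 0) (nat_lit 8797008044) (nat_lit 380) (nat_lit 18295972807) (nat_lit 456) (nat_lit 92763248391) (nat_lit 59) (nat_lit 5) (nat_lit 64) (nat_lit 5) (nat_lit 65) (nat_lit 5) (nat_lit 316) (nat_lit 301) (nat_lit 103)) (XT.nd (nat_lit 78) (nat_lit 0) (nat_lit 0) (XT.lf (nat_lit 0) (nat_lit 38906191015) (nat_lit 456) (nat_lit 56747966828) (nat_lit 76) (nat_lit 27703546667) (nat_lit 59) (nat_lit 5) (nat_lit 65) (nat_lit 5) (nat_lit 60) (nat_lit 5) (nat_lit 317) (nat_lit 301) (nat_lit 102)) (XT.lf (nat_lit 0) (nat_lit 51609685682) (nat_lit 456) (nat_lit 21407741) (nat_lit 76) (nat_lit 75388179723) (nat_lit 59) (nat_lit 5) (nat_lit 65) (nat_lit 5) (nat_lit 60) (nat_lit 5) (nat_lit 318) (nat_lit 301) (nat_lit 101)))))) (XT.nd (nat_lit 312) (nat_lit 836) (nat_lit 0) (XT.nd (nat_lit 156) (nat_lit 304) (nat_lit 0) (XT.nd (nat_lit 78) (nat_lit 0) (nat_lit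 0) (XT.lf (nat_lit 0) (nat_lit 61509870705) (nat_lit 304) (nat_lit 4398530616) (nat_lit 380) (nat_lit 64907517347) (nat_lit 55) (nat_lit 5) (nat_lit 59) (nat_lit 5) (nat_lit 60) (nat_lit 5) (nat_lit 319) (nat_lit 301) (nat_lit 100)) (XT.lf (nat_lit 0) (nat_lit 81627765972) (nat_lit 380) (nat_lit 9389877263) (nat_lit 76) (nat_lit 43749468300) (nat_lit 55) (nat_lit 5) (nat_lit 60) (nat_lit 5) (nat_lit 56) (nat_lit 5) (nat_lit 320) (nat_lit 301) (nat_lit 99))) (XT.nd (nat_lit 78) (nat_lit 0) (nat_lit 0) (XT.lf (nat_lit 0) (nat_lit 55216979903) (nat_lit 304) (nat_lit 43850045258) (nat_lit 380) (nat_lit 39802143263) (nat_lit 51) (nat_lit 5) (nat_lit 55) (nat_lit 5) (nat_lit 56) (nat_lit 5) (nat_lit 321) (nat_lit 301) (nat_lit 98)) (XT.lf (nat_lit 0) (nat_lit 117628228795) (nat_lit 380) (nat_lit 19879737580) (nat_lit 76) (nat_lit 5655863371) (nat_lit 51) (nat_lit 5) (nat_lit 56) (nat_lit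 5) (nat_lit 52) (nat_lit 5) (nat_lit 322) (nat_lit 301) (nat_lit 97)))) (XT.nd (nat_lit 156) (nat_lit 532) (nat_lit 0) (XT.nd (nat_lit 78) (nat_lit 76) (nat_lit 0) (XT.lf (nat_lit 0) (nat_lit 47895129136) (nat_lit 228) (nat_lit 90688741709) (nat_lit 304) (nat_lit 9016035009) (nat_lit 48) (nat_lit 5) (nat_lit 51) (nat_lit 5) (nat_lit 52) (nat_lit 5) (nat_lit 323) (nat_lit 301) (nat_lit 96)) (XT.lf (nat_lit 0) (nat_lit 8404855818) (nat_lit 304) (nat_lit 32627900383) (nat_lit 76) (nat_lit 111201430641) (nat_lit 47) (nat_lit 5) (nat_lit 51) (nat_lit 5) (nat_lit 48) (nat_lit 5) (nat_lit 324) (nat_lit 301) (nat_lit 95))) (XT.nd (nat_lit 78) (nat_lit 228) (nat_lit 0) (XT.lf (nat_lit 0) (nat_lit 27186664983) (nat_lit 380) (nat_lit 118348447362) (nat_lit 76) (nat_lit 11518036304) (nat_lit 43) (nat_lit 5) (nat_lit 48) (nat_lit 5) (nat_lit 44) (nat_lit 5) (nat_lit 325) (nat_lit 301) (nat_lit 94))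 (XT.nd (nat_lit 78) (nat_lit 228) (nat_lit 0) (XT.lf (nat_lit 0) (nat_lit 48141629206) (nat_lit 380) (nat_lit 48030749799) (nat_lit 76) (nat_lit 65878976829) (nat_lit 43) (nat_lit 5) (nat_lit 48) (nat_lit 5) (nat_lit 44) (nat_lit 5) (nat_lit 326) (nat_lit 301) (nat_lit 93)) (XT.lf (nat_lit 0) (nat_lit 26655702406) (nat_lit 228) (nat_lit 43904589138) (nat_lit 304) (nat_lit 96718384834) (nat_lit 40) (nat_lit 5) (nat_lit 43) (nat_lit 5) (nat_lit 44) (nat_lit 5) (nat_lit 327) (nat_lit 301) (nat_lit 92))))))) (XT.nd (nat_lit 35724) (nat_lit 0) (nat_lit 2736) (XT.nd (nat_lit 312) (nat_lit 228) (nat_lit 0) (XT.nd (nat_lit 156) (nat_lit 0) (nat_lit 0) (XT.nd (nat_lit 78) (nat_lit 228) (nat_lit 0) (XT.lf (nat_lit 0) (nat_lit 95097806089) (nat_lit 304) (nat_lit 66167690411) (nat_lit 76) (nat_lit 11451970965) (nat_lit 40) (nat_lit 5) (nat_lit 44) (nat_lit 5) (nat_lit 41) (nat_lit 5) (nat_lit 328)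 (nat_lit 301) (nat_lit 91)) (XT.lf (nat_lit 0) (nat_lit 11663648208) (nat_lit 228) (nat_lit 110100192935) (nat_lit 304) (nat_lit 56619275171) (nat_lit 37) (nat_lit 5) (nat_lit 40) (nat_lit 5) (nat_lit 41) (nat_lit 5) (nat_lit 329) (nat_lit 301) (nat_lit 90))) (XT.nd (nat_lit 78) (nat_lit 0) (nat_lit 0) (XT.lf (nat_lit 0) (nat_lit 95683479597) (nat_lit 228) (nat_lit 55200080979) (nat_lit 304) (nat_lit 33392468327) (nat_lit 37) (nat_lit 5) (nat_lit 40) (nat_lit 5) (nat_lit 41) (nat_lit 5) (nat_lit 330) (nat_lit 301) (nat_lit 89)) (XT.lf (nat_lit 0) (nat_lit 181497249104) (nat_lit 304) (nat_lit 6597721576) (nat_lit 76) (nat_lit 2366717690) (nat_lit 37) (nat_lit 5) (nat_lit 41) (nat_lit 5) (nat_lit 38) (nat_lit 5) (nat_lit 331) (nat_lit 301) (nat_lit 88)))) (XT.nd (nat_lit 35178) (nat_lit 0) (nat_lit 3116) (XT.nd (nat_lit 78) (nat_lit 0) (nat_lit 0) (XT.lf (nat_lit 0) (nat_lit 18358924567)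 (nat_lit 228) (nat_lit 115953852253) (nat_lit 76) (nat_lit 62520431525) (nat_lit 34) (nat_lit 5) (nat_lit 37) (nat_lit 5) (nat_lit 35) (nat_lit 5) (nat_lit 332) (nat_lit 301) (nat_lit 87)) (XT.lf (nat_lit 0) (nat_lit 46860579868) (nat_lit 228) (nat_lit 30707414520) (nat_lit 76) (nat_lit 125942293019) (nat_lit 34) (nat_lit 5) (nat_lit 37) (nat_lit 5) (nat_lit 35) (nat_lit 5) (nat_lit 333) (nat_lit 301) (nat_lit 86))) (XT.nd (nat_lit 78) (nat_lit 0) (nat_lit 0) (XT.lf (nat_lit 0) (nat_lit 11774608485) (nat_lit 0) (nat_lit 11774608485) (nat_lit 684) (nat_lit 18676520401) (nat_lit 75) (nat_lit 5) (nat_lit 75) (nat_lit 3) (nat_lit 84) (nat_lit 3) (nat_lit 302) (nat_lit 302) (nat_lit 116)) (XT.nd (nat_lit 78) (nat_lit 0) (nat_lit 0) (XT.lf (nat_lit 0) (nat_lit 48502247603) (nat_lit 684) (nat_lit 24538783094) (nat_lit 760) (nat_lit 13510388385) (nat_lit 75) (nat_lit 5) (nat_lit 84) (nat_lit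 3) (nat_lit 85) (nat_lit 5) (nat_lit 303) (nat_lit 302) (nat_lit 115)) (XT.lf (nat_lit 76) (nat_lit 13694829577) (nat_lit 0) (nat_lit 36880753518) (nat_lit 760) (nat_lit 38150812580) (nat_lit 76) (nat_lit 5) (nat_lit 75) (nat_lit 5) (nat_lit 85) (nat_lit 5) (nat_lit 304) (nat_lit 302) (nat_lit 114)))))) (XT.nd (nat_lit 312) (nat_lit 456) (nat_lit 0) (XT.nd (nat_lit 156) (nat_lit 0) (nat_lit 0) (XT.nd (nat_lit 78) (nat_lit 0) (nat_lit 0) (XT.lf (nat_lit 0) (nat_lit 53191441774) (nat_lit 684) (nat_lit 36321409364) (nat_lit 760) (nat_lit 1475328657) (nat_lit 76) (nat_lit 5) (nat_lit 85) (nat_lit 5) (nat_lit 86) (nat_lit 5) (nat_lit 305) (nat_lit 302) (nat_lit 113)) (XT.lf (nat_lit 76) (nat_lit 3842317646) (nat_lit 0) (nat_lit 52759879995) (nat_lit 760) (nat_lit 36727651710) (nat_lit 77) (nat_lit 5) (nat_lit 76) (nat_lit 5) (nat_lit 86) (nat_lit 5) (nat_lit 306) (nat_lit 302) (nat_lit 112)))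 (XT.nd (nat_lit 78) (nat_lit 0) (nat_lit 76) (XT.lf (nat_lit 76) (nat_lit 47274920172) (nat_lit 0) (nat_lit 13523222574) (nat_lit 760) (nat_lit 34959728445) (nat_lit 77) (nat_lit 5) (nat_lit 76) (nat_lit 5) (nat_lit 86) (nat_lit 5) (nat_lit 307) (nat_lit 302) (nat_lit 111)) (XT.lf (nat_lit 0) (nat_lit 65635529134) (nat_lit 684) (nat_lit 5860549312) (nat_lit 760) (nat_lit 26789634784) (nat_lit 77) (nat_lit 5) (nat_lit 86) (nat_lit 5) (nat_lit 87) (nat_lit 5) (nat_lit 308) (nat_lit 302) (nat_lit 110)))) (XT.nd (nat_lit 156) (nat_lit 532) (nat_lit 0) (XT.nd (nat_lit 78) (nat_lit 0) (nat_lit 76) (XT.lf (nat_lit 76) (nat_lit 39949613103) (nat_lit 0) (nat_lit 31610166034) (nat_lit 760) (nat_lit 29337919769) (nat_lit 78) (nat_lit 5) (nat_lit 77) (nat_lit 5) (nat_lit 87) (nat_lit 5) (nat_lit 309) (nat_lit 302) (nat_lit 109)) (XT.lf (nat_lit 0) (nat_lit 78041057965) (nat_lit 684) (nat_lit 15543866507)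 (nat_lit 760) (nat_lit 10042319767) (nat_lit 78) (nat_lit 5) (nat_lit 87) (nat_lit 5) (nat_lit 88) (nat_lit 5) (nat_lit 310) (nat_lit 302) (nat_lit 108))) (XT.nd (nat_lit 78) (nat_lit 608) (nat_lit 0) (XT.lf (nat_lit 76) (nat_lit 32657294370) (nat_lit 0) (nat_lit 53216790911) (nat_lit 760) (nat_lit 20567798461) (nat_lit 79) (nat_lit 5) (nat_lit 78) (nat_lit 5) (nat_lit 88) (nat_lit 5) (nat_lit 311) (nat_lit 302) (nat_lit 107)) (XT.nd (nat_lit 78) (nat_lit 608) (nat_lit 0) (XT.lf (nat_lit 76) (nat_lit 83807858884) (nat_lit 0) (nat_lit 10553774895) (nat_lit 760) (nat_lit 15022479029) (nat_lit 79) (nat_lit 5) (nat_lit 78) (nat_lit 5) (nat_lit 88) (nat_lit 5) (nat_lit 312) (nat_lit 302) (nat_lit 106)) (XT.lf (nat_lit 0) (nat_lit 25317901763) (nat_lit 684) (nat_lit 78885206774) (nat_lit 760) (nat_lit 8223868376) (nat_lit 70) (nat_lit 5) (nat_lit 79) (nat_lit 5) (nat_lit 80) (nat_lit 5) (nat_lit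 313) (nat_lit 302) (nat_lit 105))))))))
noncomputable def xc249 : XT := (XT.nd (nat_lit 1404) (nat_lit 0) (nat_lit 0) (XT.nd (nat_lit 702) (nat_lit 1064) (nat_lit 0) (XT.nd (nat_lit 312) (nat_lit 608) (nat_lit 0) (XT.nd (nat_lit 156) (nat_lit 380) (nat_lit 0) (XT.nd (nat_lit 78) (nat_lit 456) (nat_lit 0) (XT.lf (nat_lit 0) (nat_lit 79465678900) (nat_lit 684) (nat_lit 35674004420) (nat_lit 760) (nat_lit 452150567) (nat_lit 70) (nat_lit 5) (nat_lit 79) (nat_lit 5) (nat_lit 80) (nat_lit 5) (nat_lit 314) (nat_lit 302) (nat_lit 104)) (XT.lf (nat_lit 0) (nat_lit 7897859577) (nat_lit 456) (nat_lit 101196153188) (nat_lit 76) (nat_lit 9793083764) (nat_lit 64) (nat_lit 5) (nat_lit 70) (nat_lit 5) (nat_lit 65) (nat_lit 5) (nat_lit 315) (nat_lit 302) (nat_lit 103))) (XT.nd (nat_lit 78) (nat_lit 380) (nat_lit 0) (XT.lf (nat_lit 0) (nat_lit 17856517922) (nat_lit 456) (nat_lit 47465991004) (nat_lit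 76) (nat_lit 56963926461) (nat_lit 64) (nat_lit 5) (nat_lit 70) (nat_lit 5) (nat_lit 65) (nat_lit 5) (nat_lit 316) (nat_lit 302) (nat_lit 102)) (XT.lf (nat_lit 0) (nat_lit 9246321489) (nat_lit 380) (nat_lit 19210843469) (nat_lit 456) (nat_lit 97391374246) (nat_lit 59) (nat_lit 5) (nat_lit 64) (nat_lit 5) (nat_lit 65) (nat_lit 5) (nat_lit 317) (nat_lit 302) (nat_lit 101)))) (XT.nd (nat_lit 156) (nat_lit 608) (nat_lit 0) (XT.nd (nat_lit 78) (nat_lit 0) (nat_lit 0) (XT.lf (nat_lit 0) (nat_lit 40860580508) (nat_lit 456) (nat_lit 59575874057) (nat_lit 76) (nat_lit 29088657604) (nat_lit 59) (nat_lit 5) (nat_lit 65) (nat_lit 5) (nat_lit 60) (nat_lit 5) (nat_lit 318) (nat_lit 302) (nat_lit 100)) (XT.lf (nat_lit 0) (nat_lit 54198817530) (nat_lit 456) (nat_lit 13438974) (nat_lit 76) (nat_lit 79157525474) (nat_lit 59) (nat_lit 5) (nat_lit 65) (nat_lit 5) (nat_lit 60) (nat_lit 5) (nat_lit 319)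 (nat_lit 302) (nat_lit 99))) (XT.nd (nat_lit 78) (nat_lit 304) (nat_lit 0) (XT.lf (nat_lit 0) (nat_lit 64594257602) (nat_lit 304) (nat_lit 4617938410) (nat_lit 380) (nat_lit 68144078479) (nat_lit 55) (nat_lit 5) (nat_lit 59) (nat_lit 5) (nat_lit 60) (nat_lit 5) (nat_lit 320) (nat_lit 302) (nat_lit 98)) (XT.nd (nat_lit 78) (nat_lit 304) (nat_lit 0) (XT.lf (nat_lit 0) (nat_lit 85717137818) (nat_lit 380) (nat_lit 9850489819) (nat_lit 76) (nat_lit 45937419937) (nat_lit 55) (nat_lit 5) (nat_lit 60) (nat_lit 5) (nat_lit 56) (nat_lit 5) (nat_lit 321) (nat_lit 302) (nat_lit 97)) (XT.lf (nat_lit 0) (nat_lit 57986566958) (nat_lit 304) (nat_lit 46041549265) (nat_lit 380) (nat_lit 41784104241) (nat_lit 51) (nat_lit 5) (nat_lit 55) (nat_lit 5) (nat_lit 56) (nat_lit 5) (nat_lit 322) (nat_lit 302) (nat_lit 96)))))) (XT.nd (nat_lit 312) (nat_lit 456) (nat_lit 0) (XT.nd (nat_lit 156) (nat_lit 380) (nat_lit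 0) (XT.nd (nat_lit 78) (nat_lit 228) (nat_lit 0) (XT.lf (nat_lit 0) (nat_lit 123517026320) (nat_lit 380) (nat_lit 20865030311) (nat_lit 76) (nat_lit 5939576831) (nat_lit 51) (nat_lit 5) (nat_lit 56) (nat_lit 5) (nat_lit 52) (nat_lit 5) (nat_lit 323) (nat_lit 302) (nat_lit 95)) (XT.lf (nat_lit 0) (nat_lit 50298439512) (nat_lit 228) (nat_lit 95221792792) (nat_lit 304) (nat_lit 9459292858) (nat_lit 48) (nat_lit 5) (nat_lit 51) (nat_lit 5) (nat_lit 52) (nat_lit 5) (nat_lit 324) (nat_lit 302) (nat_lit 94))) (XT.nd (nat_lit 78) (nat_lit 304) (nat_lit 0) (XT.lf (nat_lit 0) (nat_lit 8832053323) (nat_lit 304) (nat_lit 34250902905) (nat_lit 76) (nat_lit 116762576268) (nat_lit 47) (nat_lit 5) (nat_lit 51) (nat_lit 5) (nat_lit 48) (nat_lit 5) (nat_lit 325) (nat_lit 302) (nat_lit 93)) (XT.lf (nat_lit 0) (nat_lit 28552774178) (nat_lit 380) (nat_lit 124257283272) (nat_lit 76) (nat_lit 12095394641)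 (nat_lit 43) (nat_lit 5) (nat_lit 48) (nat_lit 5) (nat_lit 44) (nat_lit 5) (nat_lit 326) (nat_lit 302) (nat_lit 92)))) (XT.nd (nat_lit 156) (nat_lit 228) (nat_lit 0) (XT.nd (nat_lit 78) (nat_lit 228) (nat_lit 0) (XT.lf (nat_lit 0) (nat_lit 50555163948) (nat_lit 380) (nat_lit 50424109710) (nat_lit 76) (nat_lit 69174312834) (nat_lit 43) (nat_lit 5) (nat_lit 48) (nat_lit 5) (nat_lit 44) (nat_lit 5) (nat_lit 327) (nat_lit 302) (nat_lit 91)) (XT.lf (nat_lit 0) (nat_lit 27996533209) (nat_lit 228) (nat_lit 46098044511) (nat_lit 304) (nat_lit 101547705116) (nat_lit 40) (nat_lit 5) (nat_lit 43) (nat_lit 5) (nat_lit 44) (nat_lit 5) (nat_lit 328) (nat_lit 302) (nat_lit 90))) (XT.nd (nat_lit 78) (nat_lit 228) (nat_lit 0) (XT.lf (nat_lit 0) (nat_lit 99858695724) (nat_lit 304) (nat_lit 69468126984) (nat_lit 76) (nat_lit 12026205039) (nat_lit 40) (nat_lit 5) (nat_lit 44) (nat_lit 5) (nat_lit 41) (nat_lit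 5) (nat_lit 329) (nat_lit 302) (nat_lit 89)) (XT.nd (nat_lit 78) (nat_lit 0) (nat_lit 0) (XT.lf (nat_lit 0) (nat_lit 12254650373) (nat_lit 228) (nat_lit 115603218564) (nat_lit 304) (nat_lit 59444098907) (nat_lit 37) (nat_lit 5) (nat_lit 40) (nat_lit 5) (nat_lit 41) (nat_lit 5) (nat_lit 330) (nat_lit 302) (nat_lit 88)) (XT.lf (nat_lit 0) (nat_lit 100475100962) (nat_lit 228) (nat_lit 57958195487) (nat_lit 304) (nat_lit 35056244103) (nat_lit 37) (nat_lit 5) (nat_lit 40) (nat_lit 5) (nat_lit 41) (nat_lit 5) (nat_lit 331) (nat_lit 302) (nat_lit 87))))))) (XT.nd (nat_lit 35880) (nat_lit 0) (nat_lit 1672) (XT.nd (nat_lit 35490) (nat_lit 0) (nat_lit 2964) (XT.nd (nat_lit 35334) (nat_lit 0) (nat_lit 2888) (XT.nd (nat_lit 35256) (nat_lit 0) (nat_lit 2888) (XT.lf (nat_lit 0) (nat_lit 190577432840) (nat_lit 304) (nat_lit 6920267007) (nat_lit 76) (nat_lit 2486795541) (nat_lit 37) (nat_lit 5) (nat_lit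 41) (nat_lit 5) (nat_lit 38) (nat_lit 5) (nat_lit 332) (nat_lit 302) (nat_lit 86)) (XT.lf (nat_lit 0) (nat_lit 12367494659) (nat_lit 0) (nat_lit 12367494659) (nat_lit 684) (nat_lit 19601594847) (nat_lit 75) (nat_lit 5) (nat_lit 75) (nat_lit 3) (nat_lit 84) (nat_lit 3) (nat_lit 303) (nat_lit 303) (nat_lit 114))) (XT.nd (nat_lit 78) (nat_lit 0) (nat_lit 0) (XT.lf (nat_lit 0) (nat_lit 50943067824) (nat_lit 684) (nat_lit 25756844712) (nat_lit 760) (nat_lit 14178245443) (nat_lit 75) (nat_lit 5) (nat_lit 84) (nat_lit 3) (nat_lit 85) (nat_lit 5) (nat_lit 304) (nat_lit 303) (nat_lit 113)) (XT.lf (nat_lit 76) (nat_lit 14388305407) (nat_lit 0) (nat_lit 38731153059) (nat_lit 760) (nat_lit 40042457739) (nat_lit 76) (nat_lit 5) (nat_lit 75) (nat_lit 5) (nat_lit 85) (nat_lit 5) (nat_lit 305) (nat_lit 303) (nat_lit 112)))) (XT.nd (nat_lit 156) (nat_lit 0) (nat_lit 0) (XT.nd (nat_lit 78) (nat_lit 0)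 (nat_lit 0) (XT.lf (nat_lit 0) (nat_lit 55865296614) (nat_lit 684) (nat_lit 38128305611) (nat_lit 760) (nat_lit 1543230094) (nat_lit 76) (nat_lit 5) (nat_lit 85) (nat_lit 5) (nat_lit 86) (nat_lit 5) (nat_lit 306) (nat_lit 303) (nat_lit 111)) (XT.lf (nat_lit 76) (nat_lit 4043459778) (nat_lit 0) (nat_lit 55402591291) (nat_lit 760) (nat_lit 38549563261) (nat_lit 77) (nat_lit 5) (nat_lit 76) (nat_lit 5) (nat_lit 86) (nat_lit 5) (nat_lit 307) (nat_lit 303) (nat_lit 110))) (XT.nd (nat_lit 78) (nat_lit 0) (nat_lit 76) (XT.lf (nat_lit 76) (nat_lit 49647262609) (nat_lit 0) (nat_lit 14203876365) (nat_lit 760) (nat_lit 36693932929) (nat_lit 77) (nat_lit 5) (nat_lit 76) (nat_lit 5) (nat_lit 86) (nat_lit 5) (nat_lit 308) (nat_lit 303) (nat_lit 109)) (XT.nd (nat_lit 78) (nat_lit 0) (nat_lit 0) (XT.lf (nat_lit 0) (nat_lit 68929704589) (nat_lit 684) (nat_lit 6144663046) (nat_lit 760) (nat_lit 28124974743)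 (nat_lit 77) (nat_lit 5) (nat_lit 86) (nat_lit 5) (nat_lit 87) (nat_lit 5) (nat_lit 309) (nat_lit 303) (nat_lit 108)) (XT.lf (nat_lit 76) (nat_lit 41955863720) (nat_lit 0) (nat_lit 33193849867) (nat_lit 760) (nat_lit 30792238167) (nat_lit 78) (nat_lit 5) (nat_lit 77) (nat_lit 5) (nat_lit 87) (nat_lit 5) (nat_lit 310) (nat_lit 303) (nat_lit 107)))))) (XT.nd (nat_lit 312) (nat_lit 836) (nat_lit 0) (XT.nd (nat_lit 156) (nat_lit 608) (nat_lit 0) (XT.nd (nat_lit 78) (nat_lit 0) (nat_lit 0) (XT.lf (nat_lit 0) (nat_lit 81954440306) (nat_lit 684) (nat_lit 16312058272) (nat_lit 760) (nat_lit 10541508236) (nat_lit 78) (nat_lit 5) (nat_lit 87) (nat_lit 5) (nat_lit 88) (nat_lit 5) (nat_lit 311) (nat_lit 303) (nat_lit 106)) (XT.lf (nat_lit 76) (nat_lit 34299015462) (nat_lit 0) (nat_lit 55879702301) (nat_lit 760) (nat_lit 21584682170) (nat_lit 79) (nat_lit 5) (nat_lit 78) (nat_lit 5) (nat_lit 88)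 (nat_lit 5) (nat_lit 312) (nat_lit 303) (nat_lit 105))) (XT.nd (nat_lit 78) (nat_lit 608) (nat_lit 0) (XT.lf (nat_lit 76) (nat_lit 88006686470) (nat_lit 0) (nat_lit 11083436825) (nat_lit 760) (nat_lit 15762644681) (nat_lit 79) (nat_lit 5) (nat_lit 78) (nat_lit 5) (nat_lit 88) (nat_lit 5) (nat_lit 313) (nat_lit 303) (nat_lit 104)) (XT.lf (nat_lit 0) (nat_lit 26592667355) (nat_lit 684) (nat_lit 82830617979) (nat_lit 760) (nat_lit 8624510708) (nat_lit 70) (nat_lit 5) (nat_lit 79) (nat_lit 5) (nat_lit 80) (nat_lit 5) (nat_lit 314) (nat_lit 303) (nat_lit 103)))) (XT.nd (nat_lit 156) (nat_lit 380) (nat_lit 0) (XT.nd (nat_lit 78) (nat_lit 456) (nat_lit 0) (XT.lf (nat_lit 0) (nat_lit 83447410944) (nat_lit 684) (nat_lit 37458800704) (nat_lit 760) (nat_lit 464709441) (nat_lit 70) (nat_lit 5) (nat_lit 79) (nat_lit 5) (nat_lit 80) (nat_lit 5) (nat_lit 315) (nat_lit 303) (nat_lit 102)) (XT.lf (nat_lit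 0) (nat_lit 8302139875) (nat_lit 456) (nat_lit 106246800682) (nat_lit 76) (nat_lit 10282016685) (nat_lit 64) (nat_lit 5) (nat_lit 70) (nat_lit 5) (nat_lit 65) (nat_lit 5) (nat_lit 316) (nat_lit 303) (nat_lit 101))) (XT.nd (nat_lit 78) (nat_lit 380) (nat_lit 0) (XT.lf (nat_lit 0) (nat_lit 18758284123) (nat_lit 456) (nat_lit 49830566586) (nat_lit 76) (nat_lit 59811435862) (nat_lit 64) (nat_lit 5) (nat_lit 70) (nat_lit 5) (nat_lit 65) (nat_lit 5) (nat_lit 317) (nat_lit 303) (nat_lit 100)) (XT.nd (nat_lit 78) (nat_lit 0) (nat_lit 0) (XT.lf (nat_lit 0) (nat_lit 9717220821) (nat_lit 380) (nat_lit 20171450968) (nat_lit 456) (nat_lit 102251839498) (nat_lit 59) (nat_lit 5) (nat_lit 64) (nat_lit 5) (nat_lit 65) (nat_lit 5) (nat_lit 318) (nat_lit 303) (nat_lit 99)) (XT.lf (nat_lit 0) (nat_lit 42911845309) (nat_lit 456) (nat_lit 62546059041) (nat_lit 76) (nat_lit 30543030260) (nat_lit 59) (nat_lit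 5) (nat_lit 65) (nat_lit 5) (nat_lit 60) (nat_lit 5) (nat_lit 319) (nat_lit 303) (nat_lit 98))))))))
noncomputable def xc250 : XT := (XT.nd (nat_lit 36738) (nat_lit 0) (nat_lit 760) (XT.nd (nat_lit 702) (nat_lit 456) (nat_lit 0) (XT.nd (nat_lit 312) (nat_lit 608) (nat_lit 0) (XT.nd (nat_lit 156) (nat_lit 304) (nat_lit 0) (XT.nd (nat_lit 78) (nat_lit 304) (nat_lit 0) (XT.lf (nat_lit 0) (nat_lit 56916602002) (nat_lit 456) (nat_lit 5912143) (nat_lit 76) (nat_lit 83115344392) (nat_lit 59) (nat_lit 5) (nat_lit 65) (nat_lit 5) (nat_lit 60) (nat_lit 5) (nat_lit 320) (nat_lit 303) (nat_lit 97)) (XT.lf (nat_lit 0) (nat_lit 67832037023) (nat_lit 304) (nat_lit 4848364822) (nat_lit 380) (nat_lit 71543287179) (nat_lit 55) (nat_lit 5) (nat_lit 59) (nat_lit 5) (nat_lit 60) (nat_lit 5) (nat_lit 321) (nat_lit 303) (nat_lit 96))) (XT.nd (nat_lit 78) (nat_lit 304) (nat_lit 0) (XT.lf (nat_lit 0) (nat_lit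 90010236022) (nat_lit 380) (nat_lit 10334958702) (nat_lit 76) (nat_lit 48234724695) (nat_lit 55) (nat_lit 5) (nat_lit 60) (nat_lit 5) (nat_lit 56) (nat_lit 5) (nat_lit 322) (nat_lit 303) (nat_lit 95)) (XT.lf (nat_lit 0) (nat_lit 60893820984) (nat_lit 304) (nat_lit 48342721281) (nat_lit 380) (nat_lit 43865920624) (nat_lit 51) (nat_lit 5) (nat_lit 55) (nat_lit 5) (nat_lit 56) (nat_lit 5) (nat_lit 323) (nat_lit 303) (nat_lit 94)))) (XT.nd (nat_lit 156) (nat_lit 380) (nat_lit 0) (XT.nd (nat_lit 78) (nat_lit 228) (nat_lit 0) (XT.lf (nat_lit 0) (nat_lit 129699577033) (nat_lit 380) (nat_lit 21900395978) (nat_lit 76) (nat_lit 6237390404) (nat_lit 51) (nat_lit 5) (nat_lit 56) (nat_lit 5) (nat_lit 52) (nat_lit 5) (nat_lit 324) (nat_lit 303) (nat_lit 93)) (XT.lf (nat_lit 0) (nat_lit 52821120145) (nat_lit 228) (nat_lit 99981625287) (nat_lit 304) (nat_lit 9925414960) (nat_lit 48) (nat_lit 5) (nat_lit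 51) (nat_lit 5) (nat_lit 52) (nat_lit 5) (nat_lit 325) (nat_lit 303) (nat_lit 92))) (XT.nd (nat_lit 78) (nat_lit 304) (nat_lit 0) (XT.lf (nat_lit 0) (nat_lit 9279964120) (nat_lit 304) (nat_lit 35955835808) (nat_lit 76) (nat_lit 122601679317) (nat_lit 47) (nat_lit 5) (nat_lit 51) (nat_lit 5) (nat_lit 48) (nat_lit 5) (nat_lit 326) (nat_lit 303) (nat_lit 91)) (XT.nd (nat_lit 78) (nat_lit 0) (nat_lit 0) (XT.lf (nat_lit 0) (nat_lit 29986558870) (nat_lit 380) (nat_lit 130462359266) (nat_lit 76) (nat_lit 12701485480) (nat_lit 43) (nat_lit 5) (nat_lit 48) (nat_lit 5) (nat_lit 44) (nat_lit 5) (nat_lit 327) (nat_lit 303) (nat_lit 90)) (XT.lf (nat_lit 0) (nat_lit 53088775463) (nat_lit 380) (nat_lit 52937897891) (nat_lit 76) (nat_lit 72634286674) (nat_lit 43) (nat_lit 5) (nat_lit 48) (nat_lit 5) (nat_lit 44) (nat_lit 5) (nat_lit 328) (nat_lit 303) (nat_lit 89)))))) (XT.nd (nat_lit 35646) (nat_lit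 0) (nat_lit 2888) (XT.nd (nat_lit 156) (nat_lit 228) (nat_lit 0) (XT.nd (nat_lit 78) (nat_lit 0) (nat_lit 0) (XT.lf (nat_lit 0) (nat_lit 29403657541) (nat_lit 228) (nat_lit 48401337590) (nat_lit 304) (nat_lit 106619104922) (nat_lit 40) (nat_lit 5) (nat_lit 43) (nat_lit 5) (nat_lit 44) (nat_lit 5) (nat_lit 329) (nat_lit 303) (nat_lit 88)) (XT.lf (nat_lit 0) (nat_lit 104857072080) (nat_lit 304) (nat_lit 72934324311) (nat_lit 76) (nat_lit 12628998761) (nat_lit 40) (nat_lit 5) (nat_lit 44) (nat_lit 5) (nat_lit 41) (nat_lit 5) (nat_lit 330) (nat_lit 303) (nat_lit 87))) (XT.nd (nat_lit 35412) (nat_lit 0) (nat_lit 2888) (XT.lf (nat_lit 0) (nat_lit 12874475640) (nat_lit 228) (nat_lit 121381579929) (nat_lit 304) (nat_lit 62410734671) (nat_lit 37) (nat_lit 5) (nat_lit 40) (nat_lit 5) (nat_lit 41) (nat_lit 5) (nat_lit 331) (nat_lit 303) (nat_lit 86)) (XT.lf (nat_lit 0) (nat_lit 12989638779) (nat_lit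 0) (nat_lit 12989638779) (nat_lit 684) (nat_lit 20573736654) (nat_lit 75) (nat_lit 5) (nat_lit 75) (nat_lit 3) (nat_lit 84) (nat_lit 3) (nat_lit 304) (nat_lit 304) (nat_lit 112)))) (XT.nd (nat_lit 156) (nat_lit 0) (nat_lit 76) (XT.nd (nat_lit 78) (nat_lit 0) (nat_lit 0) (XT.lf (nat_lit 0) (nat_lit 53504468690) (nat_lit 684) (nat_lit 27036634759) (nat_lit 760) (nat_lit 14880207728) (nat_lit 75) (nat_lit 5) (nat_lit 84) (nat_lit 3) (nat_lit 85) (nat_lit 5) (nat_lit 305) (nat_lit 304) (nat_lit 111)) (XT.lf (nat_lit 76) (nat_lit 15115642992) (nat_lit 0) (nat_lit 40673481110) (nat_lit 760) (nat_lit 42030162965) (nat_lit 76) (nat_lit 5) (nat_lit 75) (nat_lit 5) (nat_lit 85) (nat_lit 5) (nat_lit 306) (nat_lit 304) (nat_lit 110))) (XT.nd (nat_lit 78) (nat_lit 0) (nat_lit 0) (XT.lf (nat_lit 0) (nat_lit 58671516322) (nat_lit 684) (nat_lit 40026399602) (nat_lit 760) (nat_lit 1615071875) (nat_lit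 76) (nat_lit 5) (nat_lit 85) (nat_lit 5) (nat_lit 86) (nat_lit 5) (nat_lit 307) (nat_lit 304) (nat_lit 109)) (XT.nd (nat_lit 78) (nat_lit 0) (nat_lit 0) (XT.lf (nat_lit 76) (nat_lit 4253819842) (nat_lit 0) (nat_lit 58176999582) (nat_lit 760) (nat_lit 40463915769) (nat_lit 77) (nat_lit 5) (nat_lit 76) (nat_lit 5) (nat_lit 86) (nat_lit 5) (nat_lit 308) (nat_lit 304) (nat_lit 108)) (XT.lf (nat_lit 76) (nat_lit 52137422954) (nat_lit 0) (nat_lit 14918145161) (nat_lit 760) (nat_lit 38516128951) (nat_lit 77) (nat_lit 5) (nat_lit 76) (nat_lit 5) (nat_lit 86) (nat_lit 5) (nat_lit 309) (nat_lit 304) (nat_lit 107))))))) (XT.nd (nat_lit 702) (nat_lit 1292) (nat_lit 0) (XT.nd (nat_lit 312) (nat_lit 988) (nat_lit 0) (XT.nd (nat_lit 156) (nat_lit 0) (nat_lit 76) (XT.nd (nat_lit 78) (nat_lit 0) (nat_lit 0) (XT.lf (nat_lit 0) (nat_lit 72387436076) (nat_lit 684) (nat_lit 6443811181) (nat_lit 760) (nat_lit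 29527466763) (nat_lit 77) (nat_lit 5) (nat_lit 86) (nat_lit 5) (nat_lit 87) (nat_lit 5) (nat_lit 310) (nat_lit 304) (nat_lit 106)) (XT.lf (nat_lit 76) (nat_lit 44061611520) (nat_lit 0) (nat_lit 34856422661) (nat_lit 760) (nat_lit 32320441829) (nat_lit 78) (nat_lit 5) (nat_lit 77) (nat_lit 5) (nat_lit 87) (nat_lit 5) (nat_lit 311) (nat_lit 304) (nat_lit 105))) (XT.nd (nat_lit 78) (nat_lit 0) (nat_lit 0) (XT.lf (nat_lit 0) (nat_lit 86062438459) (nat_lit 684) (nat_lit 17119496505) (nat_lit 760) (nat_lit 11065928302) (nat_lit 78) (nat_lit 5) (nat_lit 87) (nat_lit 5) (nat_lit 88) (nat_lit 5) (nat_lit 312) (nat_lit 304) (nat_lit 104)) (XT.lf (nat_lit 76) (nat_lit 36021999227) (nat_lit 0) (nat_lit 58675566640) (nat_lit 760) (nat_lit 22653479803) (nat_lit 79) (nat_lit 5) (nat_lit 78) (nat_lit 5) (nat_lit 88) (nat_lit 5) (nat_lit 313) (nat_lit 304) (nat_lit 103)))) (XT.nd (nat_lit 156) (nat_lit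 456) (nat_lit 0) (XT.nd (nat_lit 78) (nat_lit 608) (nat_lit 0) (XT.lf (nat_lit 76) (nat_lit 92414671262) (nat_lit 0) (nat_lit 11639398403) (nat_lit 760) (nat_lit 16540837415) (nat_lit 79) (nat_lit 5) (nat_lit 78) (nat_lit 5) (nat_lit 88) (nat_lit 5) (nat_lit 314) (nat_lit 304) (nat_lit 102)) (XT.lf (nat_lit 0) (nat_lit 27930346530) (nat_lit 684) (nat_lit 86973192748) (nat_lit 760) (nat_lit 9046166097) (nat_lit 70) (nat_lit 5) (nat_lit 79) (nat_lit 5) (nat_lit 80) (nat_lit 5) (nat_lit 315) (nat_lit 304) (nat_lit 101))) (XT.nd (nat_lit 78) (nat_lit 456) (nat_lit 0) (XT.lf (nat_lit 0) (nat_lit 87627444165) (nat_lit 684) (nat_lit 39332734901) (nat_lit 760) (nat_lit 478830488) (nat_lit 70) (nat_lit 5) (nat_lit 79) (nat_lit 5) (nat_lit 80) (nat_lit 5) (nat_lit 316) (nat_lit 304) (nat_lit 100)) (XT.nd (nat_lit 78) (nat_lit 0) (nat_lit 0) (XT.lf (nat_lit 0) (nat_lit 8725761445) (nat_lit 456)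 (nat_lit 111550832175) (nat_lit 76) (nat_lit 10795463308) (nat_lit 64) (nat_lit 5) (nat_lit 70) (nat_lit 5) (nat_lit 65) (nat_lit 5) (nat_lit 317) (nat_lit 304) (nat_lit 99)) (XT.lf (nat_lit 0) (nat_lit 19704307448) (nat_lit 456) (nat_lit 52314182020) (nat_lit 76) (nat_lit 62801384598) (nat_lit 64) (nat_lit 5) (nat_lit 70) (nat_lit 5) (nat_lit 65) (nat_lit 5) (nat_lit 318) (nat_lit 304) (nat_lit 98)))))) (XT.nd (nat_lit 312) (nat_lit 608) (nat_lit 0) (XT.nd (nat_lit 156) (nat_lit 304) (nat_lit 0) (XT.nd (nat_lit 78) (nat_lit 0) (nat_lit 0) (XT.lf (nat_lit 0) (nat_lit 10210867131) (nat_lit 380) (nat_lit 21180082769) (nat_lit 456) (nat_lit 107356174366) (nat_lit 59) (nat_lit 5) (nat_lit 64) (nat_lit 5) (nat_lit 65) (nat_lit 5) (nat_lit 319) (nat_lit 304) (nat_lit 97)) (XT.lf (nat_lit 0) (nat_lit 45064907666) (nat_lit 456) (nat_lit 65665553631) (nat_lit 76) (nat_lit 32070127149) (nat_lit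 59) (nat_lit 5) (nat_lit 65) (nat_lit 5) (nat_lit 60) (nat_lit 5) (nat_lit 320) (nat_lit 304) (nat_lit 96))) (XT.nd (nat_lit 78) (nat_lit 0) (nat_lit 0) (XT.lf (nat_lit 0) (nat_lit 1269413) (nat_lit 304) (nat_lit 59768296881) (nat_lit 380) (nat_lit 87269809993) (nat_lit 55) (nat_lit 5) (nat_lit 59) (nat_lit 5) (nat_lit 60) (nat_lit 5) (nat_lit 321) (nat_lit 304) (nat_lit 95)) (XT.lf (nat_lit 0) (nat_lit 71230955465) (nat_lit 304) (nat_lit 5090356298) (nat_lit 380) (nat_lit 75113199633) (nat_lit 55) (nat_lit 5) (nat_lit 59) (nat_lit 5) (nat_lit 60) (nat_lit 5) (nat_lit 322) (nat_lit 304) (nat_lit 94)))) (XT.nd (nat_lit 156) (nat_lit 304) (nat_lit 0) (XT.nd (nat_lit 78) (nat_lit 304) (nat_lit 0) (XT.lf (nat_lit 0) (nat_lit 94517315907) (nat_lit 380) (nat_lit 10844399964) (nat_lit 76) (nat_lit 50646854365) (nat_lit 55) (nat_lit 5) (nat_lit 60) (nat_lit 5) (nat_lit 56) (nat_lit 5) (nat_lit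 323) (nat_lit 304) (nat_lit 93)) (XT.lf (nat_lit 0) (nat_lit 63945700857) (nat_lit 304) (nat_lit 50759036077) (nat_lit 380) (nat_lit 46052514768) (nat_lit 51) (nat_lit 5) (nat_lit 55) (nat_lit 5) (nat_lit 56) (nat_lit 5) (nat_lit 324) (nat_lit 304) (nat_lit 92))) (XT.nd (nat_lit 78) (nat_lit 304) (nat_lit 0) (XT.lf (nat_lit 0) (nat_lit 136190632435) (nat_lit 380) (nat_lit 22988263080) (nat_lit 76) (nat_lit 6550017050) (nat_lit 51) (nat_lit 5) (nat_lit 56) (nat_lit 5) (nat_lit 52) (nat_lit 5) (nat_lit 325) (nat_lit 304) (nat_lit 91)) (XT.nd (nat_lit 78) (nat_lit 76) (nat_lit 0) (XT.lf (nat_lit 0) (nat_lit 55469213483) (nat_lit 228) (nat_lit 104979566284) (nat_lit 304) (nat_lit 10415479321) (nat_lit 48) (nat_lit 5) (nat_lit 51) (nat_lit 5) (nat_lit 52) (nat_lit 5) (nat_lit 326) (nat_lit 304) (nat_lit 90)) (XT.lf (nat_lit 0) (nat_lit 9749683986) (nat_lit 304) (nat_lit 37746723070) (nat_lit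 76) (nat_lit 128732646944) (nat_lit 47) (nat_lit 5) (nat_lit 51) (nat_lit 5) (nat_lit 48) (nat_lit 5) (nat_lit 327) (nat_lit 304) (nat_lit 89))))))))
noncomputable def xc251 : XT := (XT.nd (nat_lit 36894) (nat_lit 0) (nat_lit 228) (XT.nd (nat_lit 36192) (nat_lit 0) (nat_lit 1824) (XT.nd (nat_lit 35802) (nat_lit 0) (nat_lit 2660) (XT.nd (nat_lit 156) (nat_lit 228) (nat_lit 0) (XT.nd (nat_lit 78) (nat_lit 0) (nat_lit 0) (XT.lf (nat_lit 0) (nat_lit 31491461401) (nat_lit 380) (nat_lit 136978413129) (nat_lit 76) (nat_lit 13337758038) (nat_lit 43) (nat_lit 5) (nat_lit 48) (nat_lit 5) (nat_lit 44) (nat_lit 5) (nat_lit 328) (nat_lit 304) (nat_lit 88)) (XT.lf (nat_lit 0) (nat_lit 55748523367) (nat_lit 380) (nat_lit 55578065071) (nat_lit 76) (nat_lit 76267142230) (nat_lit 43) (nat_lit 5) (nat_lit 48) (nat_lit 5) (nat_lit 44) (nat_lit 5) (nat_lit 329) (nat_lit 304) (nat_lit 87))) (XT.nd (nat_lit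 35568) (nat_lit 0) (nat_lit 2660) (XT.lf (nat_lit 0) (nat_lit 30880459621) (nat_lit 228) (nat_lit 50819944926) (nat_lit 304) (nat_lit 111944631188) (nat_lit 40) (nat_lit 5) (nat_lit 43) (nat_lit 5) (nat_lit 44) (nat_lit 5) (nat_lit 330) (nat_lit 304) (nat_lit 86)) (XT.lf (nat_lit 0) (nat_lit 13642539664) (nat_lit 0) (nat_lit 13642539664) (nat_lit 684) (nat_lit 21595223545) (nat_lit 75) (nat_lit 5) (nat_lit 75) (nat_lit 3) (nat_lit 84) (nat_lit 3) (nat_lit 305) (nat_lit 305) (nat_lit 110)))) (XT.nd (nat_lit 156) (nat_lit 0) (nat_lit 76) (XT.nd (nat_lit 78) (nat_lit 0) (nat_lit 0) (XT.lf (nat_lit 0) (nat_lit 56192615004) (nat_lit 684) (nat_lit 28381162925) (nat_lit 760) (nat_lit 15617914271) (nat_lit 75) (nat_lit 5) (nat_lit 84) (nat_lit 3) (nat_lit 85) (nat_lit 5) (nat_lit 306) (nat_lit 305) (nat_lit 109)) (XT.lf (nat_lit 76) (nat_lit 15878610914) (nat_lit 0) (nat_lit 42712389088) (nat_lit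 760) (nat_lit 44118593871) (nat_lit 76) (nat_lit 5) (nat_lit 75) (nat_lit 5) (nat_lit 85) (nat_lit 5) (nat_lit 307) (nat_lit 305) (nat_lit 108))) (XT.nd (nat_lit 78) (nat_lit 0) (nat_lit 0) (XT.lf (nat_lit 0) (nat_lit 61616842593) (nat_lit 684) (nat_lit 42020171928) (nat_lit 760) (nat_lit 1691000322) (nat_lit 76) (nat_lit 5) (nat_lit 85) (nat_lit 5) (nat_lit 86) (nat_lit 5) (nat_lit 308) (nat_lit 305) (nat_lit 107)) (XT.nd (nat_lit 78) (nat_lit 0) (nat_lit 0) (XT.lf (nat_lit 76) (nat_lit 4473936752) (nat_lit 0) (nat_lit 61089730492) (nat_lit 760) (nat_lit 42475206201) (nat_lit 77) (nat_lit 5) (nat_lit 76) (nat_lit 5) (nat_lit 86) (nat_lit 5) (nat_lit 309) (nat_lit 305) (nat_lit 106)) (XT.lf (nat_lit 76) (nat_lit 54751366405) (nat_lit 0) (nat_lit 15667748544) (nat_lit 760) (nat_lit 40430596964) (nat_lit 77) (nat_lit 5) (nat_lit 76) (nat_lit 5) (nat_lit 86) (nat_lit 5) (nat_lit 310) (nat_lit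 305) (nat_lit 105)))))) (XT.nd (nat_lit 312) (nat_lit 988) (nat_lit 0) (XT.nd (nat_lit 156) (nat_lit 0) (nat_lit 76) (XT.nd (nat_lit 78) (nat_lit 0) (nat_lit 0) (XT.lf (nat_lit 0) (nat_lit 76017008566) (nat_lit 684) (nat_lit 6758668391) (nat_lit 760) (nat_lit 31000432648) (nat_lit 77) (nat_lit 5) (nat_lit 86) (nat_lit 5) (nat_lit 87) (nat_lit 5) (nat_lit 311) (nat_lit 305) (nat_lit 104)) (XT.lf (nat_lit 76) (nat_lit 46271907165) (nat_lit 0) (nat_lit 36601856312) (nat_lit 760) (nat_lit 33926116306) (nat_lit 78) (nat_lit 5) (nat_lit 77) (nat_lit 5) (nat_lit 87) (nat_lit 5) (nat_lit 312) (nat_lit 305) (nat_lit 103))) (XT.nd (nat_lit 78) (nat_lit 0) (nat_lit 0) (XT.lf (nat_lit 0) (nat_lit 90374881142) (nat_lit 684) (nat_lit 17968065725) (nat_lit 760) (nat_lit 11616816240) (nat_lit 78) (nat_lit 5) (nat_lit 87) (nat_lit 5) (nat_lit 88) (nat_lit 5) (nat_lit 313) (nat_lit 305) (nat_lit 102))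 (XT.lf (nat_lit 76) (nat_lit 37830385349) (nat_lit 0) (nat_lit 61611049483) (nat_lit 760) (nat_lit 23776687602) (nat_lit 79) (nat_lit 5) (nat_lit 78) (nat_lit 5) (nat_lit 88) (nat_lit 5) (nat_lit 314) (nat_lit 305) (nat_lit 101)))) (XT.nd (nat_lit 156) (nat_lit 456) (nat_lit 0) (XT.nd (nat_lit 78) (nat_lit 608) (nat_lit 0) (XT.lf (nat_lit 76) (nat_lit 97042344026) (nat_lit 0) (nat_lit 12222991667) (nat_lit 760) (nat_lit 17358863866) (nat_lit 79) (nat_lit 5) (nat_lit 78) (nat_lit 5) (nat_lit 88) (nat_lit 5) (nat_lit 315) (nat_lit 305) (nat_lit 100)) (XT.lf (nat_lit 0) (nat_lit 29334161642) (nat_lit 684) (nat_lit 91322799206) (nat_lit 760) (nat_lit 9489793996) (nat_lit 70) (nat_lit 5) (nat_lit 79) (nat_lit 5) (nat_lit 80) (nat_lit 5) (nat_lit 316) (nat_lit 305) (nat_lit 99))) (XT.nd (nat_lit 78) (nat_lit 456) (nat_lit 0) (XT.lf (nat_lit 0) (nat_lit 92015766644) (nat_lit 684) (nat_lit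 41300273379) (nat_lit 760) (nat_lit 494504960) (nat_lit 70) (nat_lit 5) (nat_lit 79) (nat_lit 5) (nat_lit 80) (nat_lit 5) (nat_lit 317) (nat_lit 305) (nat_lit 98)) (XT.nd (nat_lit 78) (nat_lit 0) (nat_lit 0) (XT.lf (nat_lit 0) (nat_lit 9169772488) (nat_lit 456) (nat_lit 117120837693) (nat_lit 76) (nat_lit 11334643085) (nat_lit 64) (nat_lit 5) (nat_lit 70) (nat_lit 5) (nat_lit 65) (nat_lit 5) (nat_lit 318) (nat_lit 305) (nat_lit 97)) (XT.lf (nat_lit 0) (nat_lit 20696878031) (nat_lit 456) (nat_lit 54922713891) (nat_lit 76) (nat_lit 65940888696) (nat_lit 64) (nat_lit 5) (nat_lit 70) (nat_lit 5) (nat_lit 65) (nat_lit 5) (nat_lit 319) (nat_lit 305) (nat_lit 96))))))) (XT.nd (nat_lit 702) (nat_lit 304) (nat_lit 0) (XT.nd (nat_lit 312) (nat_lit 608) (nat_lit 0) (XT.nd (nat_lit 156) (nat_lit 304) (nat_lit 0) (XT.nd (nat_lit 78) (nat_lit 0) (nat_lit 0) (XT.lf (nat_lit 0) (nat_lit 10728471955)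 (nat_lit 380) (nat_lit 22239140651) (nat_lit 456) (nat_lit 112716493644) (nat_lit 59) (nat_lit 5) (nat_lit 64) (nat_lit 5) (nat_lit 65) (nat_lit 5) (nat_lit 320) (nat_lit 305) (nat_lit 95)) (XT.lf (nat_lit 0) (nat_lit 47324928642) (nat_lit 456) (nat_lit 68941748899) (nat_lit 76) (nat_lit 33673583960) (nat_lit 59) (nat_lit 5) (nat_lit 65) (nat_lit 5) (nat_lit 60) (nat_lit 5) (nat_lit 321) (nat_lit 305) (nat_lit 94))) (XT.nd (nat_lit 78) (nat_lit 0) (nat_lit 0) (XT.lf (nat_lit 0) (nat_lit 8301065) (nat_lit 304) (nat_lit 62756305281) (nat_lit 380) (nat_lit 91626393917) (nat_lit 55) (nat_lit 5) (nat_lit 59) (nat_lit 5) (nat_lit 60) (nat_lit 5) (nat_lit 322) (nat_lit 305) (nat_lit 93)) (XT.lf (nat_lit 0) (nat_lit 74799139602) (nat_lit 304) (nat_lit 5344487024) (nat_lit 380) (nat_lit 78862281924) (nat_lit 55) (nat_lit 5) (nat_lit 59) (nat_lit 5) (nat_lit 60) (nat_lit 5) (nat_lit 323) (nat_lit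 305) (nat_lit 92)))) (XT.nd (nat_lit 156) (nat_lit 304) (nat_lit 0) (XT.nd (nat_lit 78) (nat_lit 304) (nat_lit 0) (XT.lf (nat_lit 0) (nat_lit 99249139148) (nat_lit 380) (nat_lit 11379992595) (nat_lit 76) (nat_lit 53179553940) (nat_lit 55) (nat_lit 5) (nat_lit 60) (nat_lit 5) (nat_lit 56) (nat_lit 5) (nat_lit 324) (nat_lit 305) (nat_lit 91)) (XT.lf (nat_lit 0) (nat_lit 67149506375) (nat_lit 304) (nat_lit 53296242967) (nat_lit 380) (nat_lit 48349061698) (nat_lit 51) (nat_lit 5) (nat_lit 55) (nat_lit 5) (nat_lit 56) (nat_lit 5) (nat_lit 325) (nat_lit 305) (nat_lit 90))) (XT.nd (nat_lit 78) (nat_lit 304) (nat_lit 0) (XT.lf (nat_lit 0) (nat_lit 143005675668) (nat_lit 380) (nat_lit 24131188527) (nat_lit 76) (nat_lit 6878204637) (nat_lit 51) (nat_lit 5) (nat_lit 56) (nat_lit 5) (nat_lit 52) (nat_lit 5) (nat_lit 326) (nat_lit 305) (nat_lit 89)) (XT.nd (nat_lit 78) (nat_lit 76) (nat_lit 0) (XT.lf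 (nat_lit 0) (nat_lit 58249057224) (nat_lit 228) (nat_lit 110227510342) (nat_lit 304) (nat_lit 10930623912) (nat_lit 48) (nat_lit 5) (nat_lit 51) (nat_lit 5) (nat_lit 52) (nat_lit 5) (nat_lit 327) (nat_lit 305) (nat_lit 88)) (XT.lf (nat_lit 0) (nat_lit 10242357900) (nat_lit 304) (nat_lit 39627796613) (nat_lit 76) (nat_lit 135170080798) (nat_lit 47) (nat_lit 5) (nat_lit 51) (nat_lit 5) (nat_lit 48) (nat_lit 5) (nat_lit 328) (nat_lit 305) (nat_lit 87)))))) (XT.nd (nat_lit 36036) (nat_lit 0) (nat_lit 2508) (XT.nd (nat_lit 35802) (nat_lit 0) (nat_lit 2432) (XT.nd (nat_lit 35724) (nat_lit 0) (nat_lit 2432) (XT.lf (nat_lit 0) (nat_lit 33071090787) (nat_lit 380) (nat_lit 143820926438) (nat_lit 76) (nat_lit 14005732819) (nat_lit 43) (nat_lit 5) (nat_lit 48) (nat_lit 5) (nat_lit 44) (nat_lit 5) (nat_lit 329) (nat_lit 305) (nat_lit 86)) (XT.lf (nat_lit 0) (nat_lit 14327767731) (nat_lit 0) (nat_lit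 14327767731) (nat_lit 684) (nat_lit 22668454163) (nat_lit 75) (nat_lit 5) (nat_lit 75) (nat_lit 3) (nat_lit 84) (nat_lit 3) (nat_lit 306) (nat_lit 306) (nat_lit 108))) (XT.nd (nat_lit 78) (nat_lit 0) (nat_lit 0) (XT.lf (nat_lit 0) (nat_lit 59013967186) (nat_lit 684) (nat_lit 29793596517) (nat_lit 760) (nat_lit 16393092212) (nat_lit 75) (nat_lit 5) (nat_lit 84) (nat_lit 3) (nat_lit 85) (nat_lit 5) (nat_lit 307) (nat_lit 306) (nat_lit 107)) (XT.nd (nat_lit 78) (nat_lit 0) (nat_lit 76) (XT.lf (nat_lit 76) (nat_lit 16679059167) (nat_lit 0) (nat_lit 44852755864) (nat_lit 760) (nat_lit 46312662119) (nat_lit 76) (nat_lit 5) (nat_lit 75) (nat_lit 5) (nat_lit 85) (nat_lit 5) (nat_lit 308) (nat_lit 306) (nat_lit 106)) (XT.lf (nat_lit 0) (nat_lit 64708342732) (nat_lit 684) (nat_lit 44114334579) (nat_lit 760) (nat_lit 1771173788) (nat_lit 76) (nat_lit 5) (nat_lit 85) (nat_lit 5) (nat_lit 86) (nat_lit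 5) (nat_lit 309) (nat_lit 306) (nat_lit 105))))) (XT.nd (nat_lit 156) (nat_lit 0) (nat_lit 76) (XT.nd (nat_lit 78) (nat_lit 0) (nat_lit 0) (XT.lf (nat_lit 76) (nat_lit 4704369116) (nat_lit 0) (nat_lit 64147737135) (nat_lit 760) (nat_lit 44588168002) (nat_lit 77) (nat_lit 5) (nat_lit 76) (nat_lit 5) (nat_lit 86) (nat_lit 5) (nat_lit 310) (nat_lit 306) (nat_lit 104)) (XT.lf (nat_lit 76) (nat_lit 57495349512) (nat_lit 0) (nat_lit 16454488465) (nat_lit 760) (nat_lit 42441842518) (nat_lit 77) (nat_lit 5) (nat_lit 76) (nat_lit 5) (nat_lit 86) (nat_lit 5) (nat_lit 311) (nat_lit 306) (nat_lit 103))) (XT.nd (nat_lit 78) (nat_lit 0) (nat_lit 0) (XT.lf (nat_lit 0) (nat_lit 79827111318) (nat_lit 684) (nat_lit 7089950247) (nat_lit 760) (nat_lit 32547363620) (nat_lit 77) (nat_lit 5) (nat_lit 86) (nat_lit 5) (nat_lit 87) (nat_lit 5) (nat_lit 312) (nat_lit 306) (nat_lit 102)) (XT.nd (nat_lit 78) (nat_lit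 0) (nat_lit 76) (XT.lf (nat_lit 76) (nat_lit 48592046804) (nat_lit 0) (nat_lit 38434318759) (nat_lit 760) (nat_lit 35613036529) (nat_lit 78) (nat_lit 5) (nat_lit 77) (nat_lit 5) (nat_lit 87) (nat_lit 5) (nat_lit 313) (nat_lit 306) (nat_lit 101)) (XT.lf (nat_lit 0) (nat_lit 94902079404) (nat_lit 684) (nat_lit 18859751908) (nat_lit 760) (nat_lit 12195472493) (nat_lit 78) (nat_lit 5) (nat_lit 87) (nat_lit 5) (nat_lit 88) (nat_lit 5) (nat_lit 314) (nat_lit 306) (nat_lit 100))))))))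
noncomputable def xc252 : XT := (XT.nd (nat_lit 37206) (nat_lit 0) (nat_lit 228) (XT.nd (nat_lit 702) (nat_lit 532) (nat_lit 0) (XT.nd (nat_lit 312) (nat_lit 1140) (nat_lit 0) (XT.nd (nat_lit 156) (nat_lit 608) (nat_lit 0) (XT.nd (nat_lit 78) (nat_lit 0) (nat_lit 0) (XT.lf (nat_lit 76) (nat_lit 39728513379) (nat_lit 0) (nat_lit 64693148000) (nat_lit 760) (nat_lit 24956935868) (nat_lit 79) (nat_lit 5) (nat_lit 78) (nat_lit 5) (nat_lit 88) (nat_lit 5) (nat_lit 315) (nat_lit 306) (nat_lit 99)) (XT.lf (nat_lit 76) (nat_lit 101900755287) (nat_lit 0) (nat_lit 12835613672) (nat_lit 760) (nat_lit 18218629807) (nat_lit 79) (nat_lit 5) (nat_lit 78) (nat_lit 5) (nat_lit 88) (nat_lit 5) (nat_lit 316) (nat_lit 306) (nat_lit 98))) (XT.nd (nat_lit 78) (nat_lit 0) (nat_lit 0) (XT.lf (nat_lit 0) (nat_lit 30807489030) (nat_lit 684) (nat_lit 95889797960) (nat_lit 760) (nat_lit 9956410313) (nat_lit 70)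 (nat_lit 5) (nat_lit 79) (nat_lit 5) (nat_lit 80) (nat_lit 5) (nat_lit 317) (nat_lit 306) (nat_lit 97)) (XT.lf (nat_lit 0) (nat_lit 96622859078) (nat_lit 684) (nat_lit 43366104948) (nat_lit 760) (nat_lit 511731748) (nat_lit 70) (nat_lit 5) (nat_lit 79) (nat_lit 5) (nat_lit 80) (nat_lit 5) (nat_lit 318) (nat_lit 306) (nat_lit 96)))) (XT.nd (nat_lit 156) (nat_lit 684) (nat_lit 0) (XT.nd (nat_lit 78) (nat_lit 0) (nat_lit 0) (XT.lf (nat_lit 0) (nat_lit 9635266075) (nat_lit 456) (nat_lit 122970044121) (nat_lit 76) (nat_lit 11900837018) (nat_lit 64) (nat_lit 5) (nat_lit 70) (nat_lit 5) (nat_lit 65) (nat_lit 5) (nat_lit 319) (nat_lit 306) (nat_lit 95)) (XT.lf (nat_lit 0) (nat_lit 21738393325) (nat_lit 456) (nat_lit 57662339627) (nat_lit 76) (nat_lit 69237420539) (nat_lit 64) (nat_lit 5) (nat_lit 70) (nat_lit 5) (nat_lit 65) (nat_lit 5) (nat_lit 320) (nat_lit 306) (nat_lit 94))) (XT.nd (nat_lit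 78) (nat_lit 304) (nat_lit 0) (XT.lf (nat_lit 0) (nat_lit 11271300513) (nat_lit 380) (nat_lit 23351146430) (nat_lit 456) (nat_lit 118345525184) (nat_lit 59) (nat_lit 5) (nat_lit 64) (nat_lit 5) (nat_lit 65) (nat_lit 5) (nat_lit 321) (nat_lit 306) (nat_lit 93)) (XT.nd (nat_lit 78) (nat_lit 304) (nat_lit 0) (XT.lf (nat_lit 0) (nat_lit 49697320736) (nat_lit 456) (nat_lit 72382412385) (nat_lit 76) (nat_lit 35357218218) (nat_lit 59) (nat_lit 5) (nat_lit 65) (nat_lit 5) (nat_lit 60) (nat_lit 5) (nat_lit 322) (nat_lit 306) (nat_lit 92)) (XT.lf (nat_lit 0) (nat_lit 15036465) (nat_lit 304) (nat_lit 65893751889) (nat_lit 380) (nat_lit 96201449145) (nat_lit 55) (nat_lit 5) (nat_lit 59) (nat_lit 5) (nat_lit 60) (nat_lit 5) (nat_lit 323) (nat_lit 306) (nat_lit 91)))))) (XT.nd (nat_lit 312) (nat_lit 228) (nat_lit 0) (XT.nd (nat_lit 156) (nat_lit 304) (nat_lit 0) (XT.nd (nat_lit 78) (nat_lit 0) (nat_lit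 0) (XT.lf (nat_lit 0) (nat_lit 78545115959) (nat_lit 304) (nat_lit 5611360274) (nat_lit 380) (nat_lit 82799429860) (nat_lit 55) (nat_lit 5) (nat_lit 59) (nat_lit 5) (nat_lit 60) (nat_lit 5) (nat_lit 324) (nat_lit 306) (nat_lit 90)) (XT.lf (nat_lit 0) (nat_lit 104216999685) (nat_lit 380) (nat_lit 11942981006) (nat_lit 76) (nat_lit 55838855316) (nat_lit 55) (nat_lit 5) (nat_lit 60) (nat_lit 5) (nat_lit 56) (nat_lit 5) (nat_lit 325) (nat_lit 306) (nat_lit 89))) (XT.nd (nat_lit 78) (nat_lit 0) (nat_lit 0) (XT.lf (nat_lit 0) (nat_lit 70512895957) (nat_lit 304) (nat_lit 55960379456) (nat_lit 380) (nat_lit 50761001125) (nat_lit 51) (nat_lit 5) (nat_lit 55) (nat_lit 5) (nat_lit 56) (nat_lit 5) (nat_lit 326) (nat_lit 306) (nat_lit 88)) (XT.lf (nat_lit 0) (nat_lit 150160958644) (nat_lit 380) (nat_lit 25331863412) (nat_lit 76) (nat_lit 7222737759) (nat_lit 51) (nat_lit 5) (nat_lit 56) (nat_lit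 5) (nat_lit 52) (nat_lit 5) (nat_lit 327) (nat_lit 306) (nat_lit 87)))) (XT.nd (nat_lit 35958) (nat_lit 0) (nat_lit 2052) (XT.nd (nat_lit 35880) (nat_lit 0) (nat_lit 2052) (XT.lf (nat_lit 0) (nat_lit 61167299715) (nat_lit 228) (nat_lit 115737947758) (nat_lit 304) (nat_lit 11472049098) (nat_lit 48) (nat_lit 5) (nat_lit 51) (nat_lit 5) (nat_lit 52) (nat_lit 5) (nat_lit 328) (nat_lit 306) (nat_lit 86)) (XT.lf (nat_lit 0) (nat_lit 15046968893) (nat_lit 0) (nat_lit 15046968893) (nat_lit 684) (nat_lit 23795953462) (nat_lit 75) (nat_lit 5) (nat_lit 75) (nat_lit 3) (nat_lit 84) (nat_lit 3) (nat_lit 307) (nat_lit 307) (nat_lit 106))) (XT.nd (nat_lit 78) (nat_lit 0) (nat_lit 0) (XT.lf (nat_lit 0) (nat_lit 61975297231) (nat_lit 684) (nat_lit 31277267676) (nat_lit 760) (nat_lit 17207560635) (nat_lit 75) (nat_lit 5) (nat_lit 84) (nat_lit 3) (nat_lit 85) (nat_lit 5) (nat_lit 308) (nat_lit 307) (nat_lit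 105)) (XT.nd (nat_lit 78) (nat_lit 0) (nat_lit 76) (XT.lf (nat_lit 76) (nat_lit 17518923878) (nat_lit 0) (nat_lit 47099699617) (nat_lit 760) (nat_lit 48617536545) (nat_lit 76) (nat_lit 5) (nat_lit 75) (nat_lit 5) (nat_lit 85) (nat_lit 5) (nat_lit 309) (nat_lit 307) (nat_lit 104)) (XT.lf (nat_lit 0) (nat_lit 67953426997) (nat_lit 684) (nat_lit 46313841834) (nat_lit 760) (nat_lit 1855762818) (nat_lit 76) (nat_lit 5) (nat_lit 85) (nat_lit 5) (nat_lit 86) (nat_lit 5) (nat_lit 310) (nat_lit 307) (nat_lit 103))))))) (XT.nd (nat_lit 702) (nat_lit 1444) (nat_lit 0) (XT.nd (nat_lit 312) (nat_lit 456) (nat_lit 0) (XT.nd (nat_lit 156) (nat_lit 0) (nat_lit 76) (XT.nd (nat_lit 78) (nat_lit 0) (nat_lit 0) (XT.lf (nat_lit 76) (nat_lit 4945696894) (nat_lit 0) (nat_lit 67358316844) (nat_lit 760) (nat_lit 46807781836) (nat_lit 77) (nat_lit 5) (nat_lit 76) (nat_lit 5) (nat_lit 86) (nat_lit 5) (nat_lit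 311) (nat_lit 307) (nat_lit 102)) (XT.lf (nat_lit 76) (nat_lit 60375935389) (nat_lit 0) (nat_lit 17280253700) (nat_lit 760) (nat_lit 44554606486) (nat_lit 77) (nat_lit 5) (nat_lit 76) (nat_lit 5) (nat_lit 86) (nat_lit 5) (nat_lit 312) (nat_lit 307) (nat_lit 101))) (XT.nd (nat_lit 78) (nat_lit 0) (nat_lit 0) (XT.lf (nat_lit 0) (nat_lit 83826859014) (nat_lit 684) (nat_lit 7438414595) (nat_lit 760) (nat_lit 34171928481) (nat_lit 77) (nat_lit 5) (nat_lit 86) (nat_lit 5) (nat_lit 87) (nat_lit 5) (nat_lit 313) (nat_lit 307) (nat_lit 100)) (XT.lf (nat_lit 76) (nat_lit 51027585000) (nat_lit 0) (nat_lit 40358184022) (nat_lit 760) (nat_lit 37385175347) (nat_lit 78) (nat_lit 5) (nat_lit 77) (nat_lit 5) (nat_lit 87) (nat_lit 5) (nat_lit 314) (nat_lit 307) (nat_lit 99)))) (XT.nd (nat_lit 156) (nat_lit 608) (nat_lit 0) (XT.nd (nat_lit 78) (nat_lit 0) (nat_lit 0) (XT.lf (nat_lit 0) (nat_lit 99654851587)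 (nat_lit 684) (nat_lit 19796646893) (nat_lit 760) (nat_lit 12803264657) (nat_lit 78) (nat_lit 5) (nat_lit 87) (nat_lit 5) (nat_lit 88) (nat_lit 5) (nat_lit 315) (nat_lit 307) (nat_lit 98)) (XT.lf (nat_lit 76) (nat_lit 41720933390) (nat_lit 0) (nat_lit 67929207705) (nat_lit 760) (nat_lit 26196994803) (nat_lit 79) (nat_lit 5) (nat_lit 78) (nat_lit 5) (nat_lit 88) (nat_lit 5) (nat_lit 316) (nat_lit 307) (nat_lit 97))) (XT.nd (nat_lit 78) (nat_lit 608) (nat_lit 0) (XT.lf (nat_lit 76) (nat_lit 107001501949) (nat_lit 0) (nat_lit 13478729885) (nat_lit 760) (nat_lit 19122144290) (nat_lit 79) (nat_lit 5) (nat_lit 78) (nat_lit 5) (nat_lit 88) (nat_lit 5) (nat_lit 317) (nat_lit 307) (nat_lit 96)) (XT.nd (nat_lit 78) (nat_lit 0) (nat_lit 0) (XT.lf (nat_lit 0) (nat_lit 32353867387) (nat_lit 684) (nat_lit 100685066810) (nat_lit 760) (nat_lit 10447089438) (nat_lit 70) (nat_lit 5) (nat_lit 79) (nat_lit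 5) (nat_lit 80) (nat_lit 5) (nat_lit 318) (nat_lit 307) (nat_lit 95)) (XT.lf (nat_lit 0) (nat_lit 101459720037) (nat_lit 684) (nat_lit 45535152054) (nat_lit 760) (nat_lit 530517011) (nat_lit 70) (nat_lit 5) (nat_lit 79) (nat_lit 5) (nat_lit 80) (nat_lit 5) (nat_lit 319) (nat_lit 307) (nat_lit 94)))))) (XT.nd (nat_lit 312) (nat_lit 608) (nat_lit 0) (XT.nd (nat_lit 156) (nat_lit 380) (nat_lit 0) (XT.nd (nat_lit 78) (nat_lit 0) (nat_lit 0) (XT.lf (nat_lit 0) (nat_lit 10123383086) (nat_lit 456) (nat_lit 129112346366) (nat_lit 76) (nat_lit 12495390687) (nat_lit 64) (nat_lit 5) (nat_lit 70) (nat_lit 5) (nat_lit 65) (nat_lit 5) (nat_lit 320) (nat_lit 307) (nat_lit 93)) (XT.lf (nat_lit 0) (nat_lit 22831364141) (nat_lit 456) (nat_lit 60539551884) (nat_lit 76) (nat_lit 72698826631) (nat_lit 64) (nat_lit 5) (nat_lit 70) (nat_lit 5) (nat_lit 65) (nat_lit 5) (nat_lit 321) (nat_lit 307) (nat_lit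 92))) (XT.nd (nat_lit 78) (nat_lit 0) (nat_lit 0) (XT.lf (nat_lit 0) (nat_lit 11840675026) (nat_lit 380) (nat_lit 24518747967) (nat_lit 456) (nat_lit 124256639863) (nat_lit 59) (nat_lit 5) (nat_lit 64) (nat_lit 5) (nat_lit 65) (nat_lit 5) (nat_lit 322) (nat_lit 307) (nat_lit 91)) (XT.lf (nat_lit 0) (nat_lit 52187761070) (nat_lit 456) (nat_lit 75995706285) (nat_lit 76) (nat_lit 37125038367) (nat_lit 59) (nat_lit 5) (nat_lit 65) (nat_lit 5) (nat_lit 60) (nat_lit 5) (nat_lit 323) (nat_lit 307) (nat_lit 90)))) (XT.nd (nat_lit 156) (nat_lit 304) (nat_lit 0) (XT.nd (nat_lit 78) (nat_lit 0) (nat_lit 0) (XT.lf (nat_lit 0) (nat_lit 21521029) (nat_lit 304) (nat_lit 69188105102) (nat_lit 380) (nat_lit 101005839546) (nat_lit 55) (nat_lit 5) (nat_lit 59) (nat_lit 5) (nat_lit 60) (nat_lit 5) (nat_lit 324) (nat_lit 307) (nat_lit 89)) (XT.lf (nat_lit 0) (nat_lit 82477831510) (nat_lit 304) (nat_lit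 5891609829) (nat_lit 380) (nat_lit 86933989870) (nat_lit 55) (nat_lit 5) (nat_lit 59) (nat_lit 5) (nat_lit 60) (nat_lit 5) (nat_lit 325) (nat_lit 307) (nat_lit 88))) (XT.nd (nat_lit 78) (nat_lit 304) (nat_lit 0) (XT.lf (nat_lit 0) (nat_lit 109432750874) (nat_lit 380) (nat_lit 12534677704) (nat_lit 76) (nat_lit 58631091669) (nat_lit 55) (nat_lit 5) (nat_lit 60) (nat_lit 5) (nat_lit 56) (nat_lit 5) (nat_lit 326) (nat_lit 307) (nat_lit 87)) (XT.nd (nat_lit 78) (nat_lit 0) (nat_lit 0) (XT.lf (nat_lit 0) (nat_lit 74043905165) (nat_lit 304) (nat_lit 58757785586) (nat_lit 380) (nat_lit 53294050130) (nat_lit 51) (nat_lit 5) (nat_lit 55) (nat_lit 5) (nat_lit 56) (nat_lit 5) (nat_lit 327) (nat_lit 307) (nat_lit 86)) (XT.lf (nat_lit 0) (nat_lit 157673540992) (nat_lit 380) (nat_lit 26593119130) (nat_lit 76) (nat_lit 7584439625) (nat_lit 51) (nat_lit 5) (nat_lit 56) (nat_lit 5) (nat_lit 52) (nat_lit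 5) (nat_lit 328) (nat_lit 307) (nat_lit 85))))))))
noncomputable def xc253 : XT := (XT.nd (nat_lit 1404) (nat_lit 0) (nat_lit 0) (XT.nd (nat_lit 702) (nat_lit 1520) (nat_lit 0) (XT.nd (nat_lit 312) (nat_lit 0) (nat_lit 76) (XT.nd (nat_lit 156) (nat_lit 0) (nat_lit 0) (XT.nd (nat_lit 78) (nat_lit 0) (nat_lit 0) (XT.lf (nat_lit 0) (nat_lit 15801868607) (nat_lit 0) (nat_lit 15801868607) (nat_lit 684) (nat_lit 24980378428) (nat_lit 75) (nat_lit 5) (nat_lit 75) (nat_lit 3) (nat_lit 84) (nat_lit 3) (nat_lit 308) (nat_lit 308) (nat_lit 104)) (XT.lf (nat_lit 0) (nat_lit 65083705344) (nat_lit 684) (nat_lit 32835681022) (nat_lit 760) (nat_lit 18063234642) (nat_lit 75) (nat_lit 5) (nat_lit 84) (nat_lit 3) (nat_lit 85) (nat_lit 5) (nat_lit 309) (nat_lit 308) (nat_lit 103))) (XT.nd (nat_lit 78) (nat_lit 0) (nat_lit 76) (XT.lf (nat_lit 76) (nat_lit 18400232206) (nat_lit 0) (nat_lit 49458590231) (nat_lit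 760) (nat_lit 51038654932) (nat_lit 76) (nat_lit 5) (nat_lit 75) (nat_lit 5) (nat_lit 85) (nat_lit 5) (nat_lit 310) (nat_lit 308) (nat_lit 102)) (XT.lf (nat_lit 0) (nat_lit 71359866718) (nat_lit 684) (nat_lit 48623901750) (nat_lit 760) (nat_lit 1944950360) (nat_lit 76) (nat_lit 5) (nat_lit 85) (nat_lit 5) (nat_lit 86) (nat_lit 5) (nat_lit 311) (nat_lit 308) (nat_lit 101)))) (XT.nd (nat_lit 156) (nat_lit 0) (nat_lit 76) (XT.nd (nat_lit 78) (nat_lit 0) (nat_lit 0) (XT.lf (nat_lit 76) (nat_lit 5198523073) (nat_lit 0) (nat_lit 70729128696) (nat_lit 760) (nat_lit 49139286968) (nat_lit 77) (nat_lit 5) (nat_lit 76) (nat_lit 5) (nat_lit 86) (nat_lit 5) (nat_lit 312) (nat_lit 308) (nat_lit 100)) (XT.lf (nat_lit 76) (nat_lit 63400009620) (nat_lit 0) (nat_lit 18147024490) (nat_lit 760) (nat_lit 46773875896) (nat_lit 77) (nat_lit 5) (nat_lit 76) (nat_lit 5) (nat_lit 86) (nat_lit 5) (nat_lit 313)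 (nat_lit 308) (nat_lit 99))) (XT.nd (nat_lit 78) (nat_lit 0) (nat_lit 0) (XT.lf (nat_lit 0) (nat_lit 88025813874) (nat_lit 684) (nat_lit 7804863067) (nat_lit 760) (nat_lit 35877982211) (nat_lit 77) (nat_lit 5) (nat_lit 86) (nat_lit 5) (nat_lit 87) (nat_lit 5) (nat_lit 314) (nat_lit 308) (nat_lit 98)) (XT.nd (nat_lit 78) (nat_lit 0) (nat_lit 76) (XT.lf (nat_lit 76) (nat_lit 53584348246) (nat_lit 0) (nat_lit 42378042724) (nat_lit 760) (nat_lit 39246712564) (nat_lit 78) (nat_lit 5) (nat_lit 77) (nat_lit 5) (nat_lit 87) (nat_lit 5) (nat_lit 315) (nat_lit 308) (nat_lit 97)) (XT.lf (nat_lit 0) (nat_lit 104644549461) (nat_lit 684) (nat_lit 20780953061) (nat_lit 760) (nat_lit 13441630647) (nat_lit 78) (nat_lit 5) (nat_lit 87) (nat_lit 5) (nat_lit 88) (nat_lit 5) (nat_lit 316) (nat_lit 308) (nat_lit 96)))))) (XT.nd (nat_lit 312) (nat_lit 1140) (nat_lit 0) (XT.nd (nat_lit 156) (nat_lit 608) (nat_lit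 0) (XT.nd (nat_lit 78) (nat_lit 0) (nat_lit 0) (XT.lf (nat_lit 76) (nat_lit 43812417105) (nat_lit 0) (nat_lit 71326940023) (nat_lit 760) (nat_lit 27499780726) (nat_lit 79) (nat_lit 5) (nat_lit 78) (nat_lit 5) (nat_lit 88) (nat_lit 5) (nat_lit 317) (nat_lit 308) (nat_lit 95)) (XT.lf (nat_lit 76) (nat_lit 112356755185) (nat_lit 0) (nat_lit 14153877743) (nat_lit 760) (nat_lit 20071524059) (nat_lit 79) (nat_lit 5) (nat_lit 78) (nat_lit 5) (nat_lit 88) (nat_lit 5) (nat_lit 318) (nat_lit 308) (nat_lit 94))) (XT.nd (nat_lit 78) (nat_lit 0) (nat_lit 0) (XT.lf (nat_lit 0) (nat_lit 33977006476) (nat_lit 684) (nat_lit 105720026682) (nat_lit 760) (nat_lit 10962966458) (nat_lit 70) (nat_lit 5) (nat_lit 79) (nat_lit 5) (nat_lit 80) (nat_lit 5) (nat_lit 319) (nat_lit 308) (nat_lit 93)) (XT.lf (nat_lit 0) (nat_lit 106537892438) (nat_lit 684) (nat_lit 47812582544) (nat_lit 760) (nat_lit 550873860) (nat_lit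 70) (nat_lit 5) (nat_lit 79) (nat_lit 5) (nat_lit 80) (nat_lit 5) (nat_lit 320) (nat_lit 308) (nat_lit 92)))) (XT.nd (nat_lit 156) (nat_lit 684) (nat_lit 0) (XT.nd (nat_lit 78) (nat_lit 0) (nat_lit 0) (XT.lf (nat_lit 0) (nat_lit 10635315240) (nat_lit 456) (nat_lit 135562340137) (nat_lit 76) (nat_lit 13119717426) (nat_lit 64) (nat_lit 5) (nat_lit 70) (nat_lit 5) (nat_lit 65) (nat_lit 5) (nat_lit 321) (nat_lit 308) (nat_lit 91)) (XT.lf (nat_lit 0) (nat_lit 23978420920) (nat_lit 456) (nat_lit 63561173718) (nat_lit 76) (nat_lit 76333346252) (nat_lit 64) (nat_lit 5) (nat_lit 70) (nat_lit 5) (nat_lit 65) (nat_lit 5) (nat_lit 322) (nat_lit 308) (nat_lit 90))) (XT.nd (nat_lit 78) (nat_lit 304) (nat_lit 0) (XT.lf (nat_lit 0) (nat_lit 12437978153) (nat_lit 380) (nat_lit 25744725470) (nat_lit 456) (nat_lit 130463883121) (nat_lit 59) (nat_lit 5) (nat_lit 64) (nat_lit 5) (nat_lit 65) (nat_lit 5)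 (nat_lit 323) (nat_lit 308) (nat_lit 89)) (XT.nd (nat_lit 78) (nat_lit 304) (nat_lit 0) (XT.lf (nat_lit 0) (nat_lit 54802205175) (nat_lit 456) (nat_lit 79790206593) (nat_lit 76) (nat_lit 38981253313) (nat_lit 59) (nat_lit 5) (nat_lit 65) (nat_lit 5) (nat_lit 60) (nat_lit 5) (nat_lit 324) (nat_lit 308) (nat_lit 88)) (XT.lf (nat_lit 0) (nat_lit 27796844) (nat_lit 304) (nat_lit 72647207063) (nat_lit 380) (nat_lit 106050977730) (nat_lit 55) (nat_lit 5) (nat_lit 59) (nat_lit 5) (nat_lit 60) (nat_lit 5) (nat_lit 325) (nat_lit 308) (nat_lit 87))))))) (XT.nd (nat_lit 36738) (nat_lit 0) (nat_lit 304) (XT.nd (nat_lit 36348) (nat_lit 0) (nat_lit 1520) (XT.nd (nat_lit 36192) (nat_lit 0) (nat_lit 1520) (XT.nd (nat_lit 78) (nat_lit 0) (nat_lit 0) (XT.lf (nat_lit 0) (nat_lit 86606675242) (nat_lit 304) (nat_lit 6185901469) (nat_lit 380) (nat_lit 91275780989) (nat_lit 55) (nat_lit 5) (nat_lit 59) (nat_lit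 5) (nat_lit 60) (nat_lit 5) (nat_lit 326) (nat_lit 308) (nat_lit 86)) (XT.lf (nat_lit 0) (nat_lit 114908833956) (nat_lit 380) (nat_lit 13156466146) (nat_lit 76) (nat_lit 61562912545) (nat_lit 55) (nat_lit 5) (nat_lit 60) (nat_lit 5) (nat_lit 56) (nat_lit 5) (nat_lit 327) (nat_lit 308) (nat_lit 85))) (XT.nd (nat_lit 78) (nat_lit 0) (nat_lit 0) (XT.lf (nat_lit 0) (nat_lit 16594276115) (nat_lit 0) (nat_lit 16594276115) (nat_lit 684) (nat_lit 26224524146) (nat_lit 75) (nat_lit 5) (nat_lit 75) (nat_lit 3) (nat_lit 84) (nat_lit 3) (nat_lit 309) (nat_lit 309) (nat_lit 102)) (XT.lf (nat_lit 0) (nat_lit 68346637325) (nat_lit 684) (nat_lit 34472521728) (nat_lit 760) (nat_lit 18962129684) (nat_lit 75) (nat_lit 5) (nat_lit 84) (nat_lit 3) (nat_lit 85) (nat_lit 5) (nat_lit 310) (nat_lit 309) (nat_lit 101)))) (XT.nd (nat_lit 156) (nat_lit 0) (nat_lit 76) (XT.nd (nat_lit 78) (nat_lit 0) (nat_lit 76)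 (XT.lf (nat_lit 76) (nat_lit 19325107430) (nat_lit 0) (nat_lit 51935062267) (nat_lit 760) (nat_lit 53581736486) (nat_lit 76) (nat_lit 5) (nat_lit 75) (nat_lit 5) (nat_lit 85) (nat_lit 5) (nat_lit 311) (nat_lit 309) (nat_lit 100)) (XT.lf (nat_lit 0) (nat_lit 74935813225) (nat_lit 684) (nat_lit 51049988288) (nat_lit 760) (nat_lit 2038932029) (nat_lit 76) (nat_lit 5) (nat_lit 85) (nat_lit 5) (nat_lit 86) (nat_lit 5) (nat_lit 312) (nat_lit 309) (nat_lit 99))) (XT.nd (nat_lit 78) (nat_lit 0) (nat_lit 0) (XT.lf (nat_lit 76) (nat_lit 5463475380) (nat_lit 0) (nat_lit 74268211898) (nat_lit 760) (nat_lit 51588193303) (nat_lit 77) (nat_lit 5) (nat_lit 76) (nat_lit 5) (nat_lit 86) (nat_lit 5) (nat_lit 313) (nat_lit 309) (nat_lit 98)) (XT.nd (nat_lit 78) (nat_lit 0) (nat_lit 76) (XT.lf (nat_lit 76) (nat_lit 66574796914) (nat_lit 0) (nat_lit 19056877397) (nat_lit 760) (nat_lit 49104895392) (nat_lit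 77) (nat_lit 5) (nat_lit 76) (nat_lit 5) (nat_lit 86) (nat_lit 5) (nat_lit 314) (nat_lit 309) (nat_lit 97)) (XT.lf (nat_lit 0) (nat_lit 92434008794) (nat_lit 684) (nat_lit 8190142721) (nat_lit 760) (nat_lit 37669575023) (nat_lit 77) (nat_lit 5) (nat_lit 86) (nat_lit 5) (nat_lit 87) (nat_lit 5) (nat_lit 315) (nat_lit 309) (nat_lit 96)))))) (XT.nd (nat_lit 390) (nat_lit 836) (nat_lit 0) (XT.nd (nat_lit 156) (nat_lit 532) (nat_lit 0) (XT.nd (nat_lit 78) (nat_lit 0) (nat_lit 76) (XT.lf (nat_lit 76) (nat_lit 56268449101) (nat_lit 0) (nat_lit 44498713115) (nat_lit 760) (nat_lit 41202044519) (nat_lit 78) (nat_lit 5) (nat_lit 77) (nat_lit 5) (nat_lit 87) (nat_lit 5) (nat_lit 316) (nat_lit 309) (nat_lit 95)) (XT.lf (nat_lit 0) (nat_lit 109883085592) (nat_lit 684) (nat_lit 21814988308) (nat_lit 760) (nat_lit 14112082028) (nat_lit 78) (nat_lit 5) (nat_lit 87) (nat_lit 5) (nat_lit 88) (nat_lit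 5) (nat_lit 317) (nat_lit 309) (nat_lit 94))) (XT.nd (nat_lit 78) (nat_lit 608) (nat_lit 0) (XT.lf (nat_lit 76) (nat_lit 46007969521) (nat_lit 0) (nat_lit 74894440705) (nat_lit 760) (nat_lit 28868362671) (nat_lit 79) (nat_lit 5) (nat_lit 78) (nat_lit 5) (nat_lit 88) (nat_lit 5) (nat_lit 318) (nat_lit 309) (nat_lit 93)) (XT.nd (nat_lit 78) (nat_lit 608) (nat_lit 0) (XT.lf (nat_lit 76) (nat_lit 117979289668) (nat_lit 0) (nat_lit 14862670374) (nat_lit 760) (nat_lit 21068998271) (nat_lit 79) (nat_lit 5) (nat_lit 78) (nat_lit 5) (nat_lit 88) (nat_lit 5) (nat_lit 319) (nat_lit 309) (nat_lit 92)) (XT.lf (nat_lit 0) (nat_lit 35680796228) (nat_lit 684) (nat_lit 111006668862) (nat_lit 760) (nat_lit 11505239541) (nat_lit 70) (nat_lit 5) (nat_lit 79) (nat_lit 5) (nat_lit 80) (nat_lit 5) (nat_lit 320) (nat_lit 309) (nat_lit 91))))) (XT.nd (nat_lit 156) (nat_lit 380) (nat_lit 0) (XT.nd (nat_lit 78)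 (nat_lit 456) (nat_lit 0) (XT.lf (nat_lit 0) (nat_lit 111869491277) (nat_lit 684) (nat_lit 50203822000) (nat_lit 760) (nat_lit 572822086) (nat_lit 70) (nat_lit 5) (nat_lit 79) (nat_lit 5) (nat_lit 80) (nat_lit 5) (nat_lit 321) (nat_lit 309) (nat_lit 90)) (XT.lf (nat_lit 0) (nat_lit 11172308212) (nat_lit 456) (nat_lit 142335356420) (nat_lit 76) (nat_lit 13775301669) (nat_lit 64) (nat_lit 5) (nat_lit 70) (nat_lit 5) (nat_lit 65) (nat_lit 5) (nat_lit 322) (nat_lit 309) (nat_lit 89))) (XT.nd (nat_lit 78) (nat_lit 380) (nat_lit 0) (XT.lf (nat_lit 0) (nat_lit 25182320262) (nat_lit 456) (nat_lit 66734374573) (nat_lit 76) (nat_lit 80149631061) (nat_lit 64) (nat_lit 5) (nat_lit 70) (nat_lit 5) (nat_lit 65) (nat_lit 5) (nat_lit 323) (nat_lit 309) (nat_lit 88)) (XT.nd (nat_lit 78) (nat_lit 0) (nat_lit 0) (XT.lf (nat_lit 0) (nat_lit 13064656540) (nat_lit 380) (nat_lit 27031998119) (nat_lit 456)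 (nat_lit 136982008130) (nat_lit 59) (nat_lit 5) (nat_lit 64) (nat_lit 5) (nat_lit 65) (nat_lit 5) (nat_lit 324) (nat_lit 309) (nat_lit 87)) (XT.lf (nat_lit 0) (nat_lit 57546901422) (nat_lit 456) (nat_lit 83774923266) (nat_lit 76) (nat_lit 40930282444) (nat_lit 59) (nat_lit 5) (nat_lit 65) (nat_lit 5) (nat_lit 60) (nat_lit 5) (nat_lit 325) (nat_lit 309) (nat_lit 86))))))))
noncomputable def xc254 : XT := (XT.nd (nat_lit 73944) (nat_lit 0) (nat_lit 684) (XT.nd (nat_lit 36894) (nat_lit 0) (nat_lit 304) (XT.nd (nat_lit 36504) (nat_lit 0) (nat_lit 1596) (XT.nd (nat_lit 36348) (nat_lit 0) (nat_lit 1520) (XT.nd (nat_lit 36270) (nat_lit 0) (nat_lit 1520) (XT.lf (nat_lit 0) (nat_lit 33903026) (nat_lit 304) (nat_lit 76279292319) (nat_lit 380) (nat_lit 111348851974) (nat_lit 55) (nat_lit 5) (nat_lit 59) (nat_lit 5) (nat_lit 60) (nat_lit 5) (nat_lit 326) (nat_lit 309) (nat_lit 85)) (XT.lf (nat_lit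 0) (nat_lit 17426088856) (nat_lit 0) (nat_lit 17426088856) (nat_lit 684) (nat_lit 27531330213) (nat_lit 75) (nat_lit 5) (nat_lit 75) (nat_lit 3) (nat_lit 84) (nat_lit 3) (nat_lit 310) (nat_lit 310) (nat_lit 100))) (XT.nd (nat_lit 78) (nat_lit 0) (nat_lit 0) (XT.lf (nat_lit 0) (nat_lit 71771902718) (nat_lit 684) (nat_lit 36191664055) (nat_lit 760) (nat_lit 19906366156) (nat_lit 75) (nat_lit 5) (nat_lit 84) (nat_lit 3) (nat_lit 85) (nat_lit 5) (nat_lit 311) (nat_lit 310) (nat_lit 99)) (XT.lf (nat_lit 76) (nat_lit 20295774242) (nat_lit 0) (nat_lit 54535028555) (nat_lit 760) (nat_lit 56252795018) (nat_lit 76) (nat_lit 5) (nat_lit 75) (nat_lit 5) (nat_lit 85) (nat_lit 5) (nat_lit 312) (nat_lit 310) (nat_lit 98)))) (XT.nd (nat_lit 156) (nat_lit 0) (nat_lit 0) (XT.nd (nat_lit 78) (nat_lit 0) (nat_lit 0) (XT.lf (nat_lit 0) (nat_lit 78689817646) (nat_lit 684) (nat_lit 53597854097) (nat_lit 760)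 (nat_lit 2137916410) (nat_lit 76) (nat_lit 5) (nat_lit 85) (nat_lit 5) (nat_lit 86) (nat_lit 5) (nat_lit 313) (nat_lit 310) (nat_lit 97)) (XT.lf (nat_lit 76) (nat_lit 5741208019) (nat_lit 0) (nat_lit 77984005048) (nat_lit 760) (nat_lit 54160294112) (nat_lit 77) (nat_lit 5) (nat_lit 76) (nat_lit 5) (nat_lit 86) (nat_lit 5) (nat_lit 314) (nat_lit 310) (nat_lit 96))) (XT.nd (nat_lit 78) (nat_lit 0) (nat_lit 76) (XT.lf (nat_lit 76) (nat_lit 69907878540) (nat_lit 0) (nat_lit 20011990367) (nat_lit 760) (nat_lit 51553179346) (nat_lit 77) (nat_lit 5) (nat_lit 76) (nat_lit 5) (nat_lit 86) (nat_lit 5) (nat_lit 315) (nat_lit 310) (nat_lit 95)) (XT.nd (nat_lit 78) (nat_lit 0) (nat_lit 0) (XT.lf (nat_lit 0) (nat_lit 97061971570) (nat_lit 684) (nat_lit 8595147817) (nat_lit 760) (nat_lit 39550961894) (nat_lit 77) (nat_lit 5) (nat_lit 86) (nat_lit 5) (nat_lit 87) (nat_lit 5) (nat_lit 316) (nat_lit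 310) (nat_lit 94)) (XT.lf (nat_lit 76) (nat_lit 59086300983) (nat_lit 0) (nat_lit 46725252630) (nat_lit 760) (nat_lit 43255794207) (nat_lit 78) (nat_lit 5) (nat_lit 77) (nat_lit 5) (nat_lit 87) (nat_lit 5) (nat_lit 317) (nat_lit 310) (nat_lit 93)))))) (XT.nd (nat_lit 312) (nat_lit 836) (nat_lit 0) (XT.nd (nat_lit 156) (nat_lit 608) (nat_lit 0) (XT.nd (nat_lit 78) (nat_lit 0) (nat_lit 0) (XT.lf (nat_lit 0) (nat_lit 115382962009) (nat_lit 684) (nat_lit 22901191324) (nat_lit 760) (nat_lit 14816207533) (nat_lit 78) (nat_lit 5) (nat_lit 87) (nat_lit 5) (nat_lit 88) (nat_lit 5) (nat_lit 318) (nat_lit 310) (nat_lit 92)) (XT.lf (nat_lit 76) (nat_lit 48312841067) (nat_lit 0) (nat_lit 78640209162) (nat_lit 760) (nat_lit 30305969385) (nat_lit 79) (nat_lit 5) (nat_lit 78) (nat_lit 5) (nat_lit 88) (nat_lit 5) (nat_lit 319) (nat_lit 310) (nat_lit 91))) (XT.nd (nat_lit 78) (nat_lit 608) (nat_lit 0)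 (XT.lf (nat_lit 76) (nat_lit 123882514219) (nat_lit 0) (nat_lit 15606800485) (nat_lit 760) (nat_lit 22116913499) (nat_lit 79) (nat_lit 5) (nat_lit 78) (nat_lit 5) (nat_lit 88) (nat_lit 5) (nat_lit 320) (nat_lit 310) (nat_lit 90)) (XT.lf (nat_lit 0) (nat_lit 37469316246) (nat_lit 684) (nat_lit 116557583571) (nat_lit 760) (nat_lit 12075172502) (nat_lit 70) (nat_lit 5) (nat_lit 79) (nat_lit 5) (nat_lit 80) (nat_lit 5) (nat_lit 321) (nat_lit 310) (nat_lit 89)))) (XT.nd (nat_lit 156) (nat_lit 380) (nat_lit 0) (XT.nd (nat_lit 78) (nat_lit 456) (nat_lit 0) (XT.lf (nat_lit 0) (nat_lit 117467232705) (nat_lit 684) (nat_lit 52714566687) (nat_lit 760) (nat_lit 596387937) (nat_lit 70) (nat_lit 5) (nat_lit 79) (nat_lit 5) (nat_lit 80) (nat_lit 5) (nat_lit 322) (nat_lit 310) (nat_lit 88)) (XT.lf (nat_lit 0) (nat_lit 11735664857) (nat_lit 456) (nat_lit 149447497735) (nat_lit 76) (nat_lit 14463702463)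 (nat_lit 64) (nat_lit 5) (nat_lit 70) (nat_lit 5) (nat_lit 65) (nat_lit 5) (nat_lit 323) (nat_lit 310) (nat_lit 87))) (XT.nd (nat_lit 78) (nat_lit 380) (nat_lit 0) (XT.lf (nat_lit 0) (nat_lit 26445951736) (nat_lit 456) (nat_lit 70066687105) (nat_lit 76) (nat_lit 84156765673) (nat_lit 64) (nat_lit 5) (nat_lit 70) (nat_lit 5) (nat_lit 65) (nat_lit 5) (nat_lit 324) (nat_lit 310) (nat_lit 86)) (XT.nd (nat_lit 36426) (nat_lit 0) (nat_lit 1216) (XT.lf (nat_lit 0) (nat_lit 13722224496) (nat_lit 380) (nat_lit 28383631019) (nat_lit 456) (nat_lit 143826510670) (nat_lit 59) (nat_lit 5) (nat_lit 64) (nat_lit 5) (nat_lit 65) (nat_lit 5) (nat_lit 325) (nat_lit 310) (nat_lit 85)) (XT.lf (nat_lit 0) (nat_lit 18299297096) (nat_lit 0) (nat_lit 18299297096) (nat_lit 684) (nat_lit 28903887527) (nat_lit 75) (nat_lit 5) (nat_lit 75) (nat_lit 3) (nat_lit 84) (nat_lit 3) (nat_lit 311) (nat_lit 311) (nat_lit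 98))))))) (XT.nd (nat_lit 702) (nat_lit 836) (nat_lit 0) (XT.nd (nat_lit 312) (nat_lit 0) (nat_lit 76) (XT.nd (nat_lit 156) (nat_lit 0) (nat_lit 76) (XT.nd (nat_lit 78) (nat_lit 0) (nat_lit 0) (XT.lf (nat_lit 0) (nat_lit 75367693796) (nat_lit 684) (nat_lit 37997180355) (nat_lit 760) (nat_lit 20898174247) (nat_lit 75) (nat_lit 5) (nat_lit 84) (nat_lit 3) (nat_lit 85) (nat_lit 5) (nat_lit 312) (nat_lit 311) (nat_lit 97)) (XT.lf (nat_lit 76) (nat_lit 21314564261) (nat_lit 0) (nat_lit 57264694426) (nat_lit 760) (nat_lit 59058152871) (nat_lit 76) (nat_lit 5) (nat_lit 75) (nat_lit 5) (nat_lit 85) (nat_lit 5) (nat_lit 313) (nat_lit 311) (nat_lit 96))) (XT.nd (nat_lit 78) (nat_lit 0) (nat_lit 0) (XT.lf (nat_lit 0) (nat_lit 82630851622) (nat_lit 684) (nat_lit 56273543986) (nat_lit 760) (nat_lit 2242125408) (nat_lit 76) (nat_lit 5) (nat_lit 85) (nat_lit 5) (nat_lit 86) (nat_lit 5) (nat_lit 314)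 (nat_lit 311) (nat_lit 95)) (XT.lf (nat_lit 76) (nat_lit 6032403449) (nat_lit 0) (nat_lit 81885366348) (nat_lit 760) (nat_lit 56861679470) (nat_lit 77) (nat_lit 5) (nat_lit 76) (nat_lit 5) (nat_lit 86) (nat_lit 5) (nat_lit 315) (nat_lit 311) (nat_lit 94)))) (XT.nd (nat_lit 156) (nat_lit 0) (nat_lit 76) (XT.nd (nat_lit 78) (nat_lit 0) (nat_lit 76) (XT.lf (nat_lit 76) (nat_lit 73407210590) (nat_lit 0) (nat_lit 21014648026) (nat_lit 760) (nat_lit 54124524649) (nat_lit 77) (nat_lit 5) (nat_lit 76) (nat_lit 5) (nat_lit 86) (nat_lit 5) (nat_lit 316) (nat_lit 311) (nat_lit 93)) (XT.lf (nat_lit 0) (nat_lit 101920750273) (nat_lit 684) (nat_lit 9020821724) (nat_lit 760) (nat_lit 41526612591) (nat_lit 77) (nat_lit 5) (nat_lit 86) (nat_lit 5) (nat_lit 87) (nat_lit 5) (nat_lit 317) (nat_lit 311) (nat_lit 92))) (XT.nd (nat_lit 78) (nat_lit 0) (nat_lit 76) (XT.lf (nat_lit 76) (nat_lit 62044633652)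 (nat_lit 0) (nat_lit 49062970009) (nat_lit 760) (nat_lit 45412821978) (nat_lit 78) (nat_lit 5) (nat_lit 77) (nat_lit 5) (nat_lit 87) (nat_lit 5) (nat_lit 318) (nat_lit 311) (nat_lit 91)) (XT.nd (nat_lit 78) (nat_lit 0) (nat_lit 0) (XT.lf (nat_lit 0) (nat_lit 121157300258) (nat_lit 684) (nat_lit 24042127172) (nat_lit 760) (nat_lit 15555676780) (nat_lit 78) (nat_lit 5) (nat_lit 87) (nat_lit 5) (nat_lit 88) (nat_lit 5) (nat_lit 319) (nat_lit 311) (nat_lit 90)) (XT.lf (nat_lit 76) (nat_lit 50732540328) (nat_lit 0) (nat_lit 82573168756) (nat_lit 760) (nat_lit 31815996725) (nat_lit 79) (nat_lit 5) (nat_lit 78) (nat_lit 5) (nat_lit 88) (nat_lit 5) (nat_lit 320) (nat_lit 311) (nat_lit 89)))))) (XT.nd (nat_lit 36816) (nat_lit 0) (nat_lit 836) (XT.nd (nat_lit 156) (nat_lit 456) (nat_lit 0) (XT.nd (nat_lit 78) (nat_lit 608) (nat_lit 0) (XT.lf (nat_lit 76) (nat_lit 130080503936) (nat_lit 0) (nat_lit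 16388044448) (nat_lit 760) (nat_lit 23217739050) (nat_lit 79) (nat_lit 5) (nat_lit 78) (nat_lit 5) (nat_lit 88) (nat_lit 5) (nat_lit 321) (nat_lit 311) (nat_lit 88)) (XT.lf (nat_lit 0) (nat_lit 39346845738) (nat_lit 684) (nat_lit 122385989974) (nat_lit 760) (nat_lit 12674097553) (nat_lit 70) (nat_lit 5) (nat_lit 79) (nat_lit 5) (nat_lit 80) (nat_lit 5) (nat_lit 322) (nat_lit 311) (nat_lit 87))) (XT.nd (nat_lit 78) (nat_lit 456) (nat_lit 0) (XT.lf (nat_lit 0) (nat_lit 123344464511) (nat_lit 684) (nat_lit 55350797140) (nat_lit 760) (nat_lit 621603930) (nat_lit 70) (nat_lit 5) (nat_lit 79) (nat_lit 5) (nat_lit 80) (nat_lit 5) (nat_lit 323) (nat_lit 311) (nat_lit 86)) (XT.lf (nat_lit 0) (nat_lit 12326748539) (nat_lit 456) (nat_lit 156915676244) (nat_lit 76) (nat_lit 15186557165) (nat_lit 64) (nat_lit 5) (nat_lit 70) (nat_lit 5) (nat_lit 65) (nat_lit 5) (nat_lit 324) (nat_lit 311) (nat_lit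 85)))) (XT.nd (nat_lit 156) (nat_lit 0) (nat_lit 0) (XT.nd (nat_lit 78) (nat_lit 0) (nat_lit 0) (XT.lf (nat_lit 0) (nat_lit 19215988751) (nat_lit 0) (nat_lit 19215988751) (nat_lit 684) (nat_lit 30345445444) (nat_lit 75) (nat_lit 5) (nat_lit 75) (nat_lit 3) (nat_lit 84) (nat_lit 3) (nat_lit 312) (nat_lit 312) (nat_lit 96)) (XT.lf (nat_lit 0) (nat_lit 79142605419) (nat_lit 684) (nat_lit 39893350573) (nat_lit 760) (nat_lit 21939899090) (nat_lit 75) (nat_lit 5) (nat_lit 84) (nat_lit 3) (nat_lit 85) (nat_lit 5) (nat_lit 313) (nat_lit 312) (nat_lit 95))) (XT.nd (nat_lit 78) (nat_lit 0) (nat_lit 76) (XT.lf (nat_lit 76) (nat_lit 22383921778) (nat_lit 0) (nat_lit 60130572634) (nat_lit 760) (nat_lit 62004455618) (nat_lit 76) (nat_lit 5) (nat_lit 75) (nat_lit 5) (nat_lit 85) (nat_lit 5) (nat_lit 314) (nat_lit 312) (nat_lit 94)) (XT.nd (nat_lit 78) (nat_lit 0) (nat_lit 0) (XT.lf (nat_lit 0) (nat_lit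 86768328981) (nat_lit 684) (nat_lit 59083409107) (nat_lit 760) (nat_lit 2351794652) (nat_lit 76) (nat_lit 5) (nat_lit 85) (nat_lit 5) (nat_lit 86) (nat_lit 5) (nat_lit 315) (nat_lit 312) (nat_lit 93)) (XT.lf (nat_lit 76) (nat_lit 6337774214) (nat_lit 0) (nat_lit 85981594800) (nat_lit 760) (nat_lit 59698750429) (nat_lit 77) (nat_lit 5) (nat_lit 76) (nat_lit 5) (nat_lit 86) (nat_lit 5) (nat_lit 316) (nat_lit 312) (nat_lit 92))))))))
noncomputable def xc255 : XT := (XT.nd (nat_lit 74880) (nat_lit 0) (nat_lit 380) (XT.nd (nat_lit 37362) (nat_lit 0) (nat_lit 380) (XT.nd (nat_lit 312) (nat_lit 456) (nat_lit 0) (XT.nd (nat_lit 156) (nat_lit 0) (nat_lit 76) (XT.nd (nat_lit 78) (nat_lit 0) (nat_lit 76) (XT.lf (nat_lit 76) (nat_lit 77081143113) (nat_lit 0) (nat_lit 22067247222) (nat_lit 760) (nat_lit 56825024202) (nat_lit 77) (nat_lit 5) (nat_lit 76) (nat_lit 5) (nat_lit 86) (nat_lit 5) (nat_lit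 317) (nat_lit 312) (nat_lit 91)) (XT.lf (nat_lit 0) (nat_lit 107021939827) (nat_lit 684) (nat_lit 9468158971) (nat_lit 760) (nat_lit 43601222225) (nat_lit 77) (nat_lit 5) (nat_lit 86) (nat_lit 5) (nat_lit 87) (nat_lit 5) (nat_lit 318) (nat_lit 312) (nat_lit 90))) (XT.nd (nat_lit 78) (nat_lit 0) (nat_lit 76) (XT.lf (nat_lit 76) (nat_lit 65150509435) (nat_lit 0) (nat_lit 51517438008) (nat_lit 760) (nat_lit 47678236828) (nat_lit 78) (nat_lit 5) (nat_lit 77) (nat_lit 5) (nat_lit 87) (nat_lit 5) (nat_lit 319) (nat_lit 312) (nat_lit 89)) (XT.lf (nat_lit 0) (nat_lit 127219872888) (nat_lit 684) (nat_lit 25240493196) (nat_lit 760) (nat_lit 16332244174) (nat_lit 78) (nat_lit 5) (nat_lit 87) (nat_lit 5) (nat_lit 88) (nat_lit 5) (nat_lit 320) (nat_lit 312) (nat_lit 88)))) (XT.nd (nat_lit 156) (nat_lit 608) (nat_lit 0) (XT.nd (nat_lit 78) (nat_lit 0) (nat_lit 0) (XT.lf (nat_lit 76) (nat_lit 53272847350)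 (nat_lit 0) (nat_lit 86702688088) (nat_lit 760) (nat_lit 33402015492) (nat_lit 79) (nat_lit 5) (nat_lit 78) (nat_lit 5) (nat_lit 88) (nat_lit 5) (nat_lit 321) (nat_lit 312) (nat_lit 87)) (XT.lf (nat_lit 76) (nat_lit 136588033901) (nat_lit 0) (nat_lit 17208266569) (nat_lit 760) (nat_lit 24374072603) (nat_lit 79) (nat_lit 5) (nat_lit 78) (nat_lit 5) (nat_lit 88) (nat_lit 5) (nat_lit 322) (nat_lit 312) (nat_lit 86))) (XT.nd (nat_lit 36738) (nat_lit 0) (nat_lit 380) (XT.lf (nat_lit 0) (nat_lit 41317873902) (nat_lit 684) (nat_lit 128505767682) (nat_lit 760) (nat_lit 13303418236) (nat_lit 70) (nat_lit 5) (nat_lit 79) (nat_lit 5) (nat_lit 80) (nat_lit 5) (nat_lit 323) (nat_lit 312) (nat_lit 85)) (XT.nd (nat_lit 78) (nat_lit 0) (nat_lit 0) (XT.lf (nat_lit 0) (nat_lit 20178354446) (nat_lit 0) (nat_lit 20178354446) (nat_lit 684) (nat_lit 31859419340) (nat_lit 75) (nat_lit 5) (nat_lit 75) (nat_lit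 3) (nat_lit 84) (nat_lit 3) (nat_lit 313) (nat_lit 313) (nat_lit 94)) (XT.lf (nat_lit 0) (nat_lit 83105655810) (nat_lit 684) (nat_lit 41884672251) (nat_lit 760) (nat_lit 23034006182) (nat_lit 75) (nat_lit 5) (nat_lit 84) (nat_lit 3) (nat_lit 85) (nat_lit 5) (nat_lit 314) (nat_lit 313) (nat_lit 93)))))) (XT.nd (nat_lit 312) (nat_lit 0) (nat_lit 0) (XT.nd (nat_lit 156) (nat_lit 0) (nat_lit 76) (XT.nd (nat_lit 78) (nat_lit 0) (nat_lit 76) (XT.lf (nat_lit 76) (nat_lit 23506409752) (nat_lit 0) (nat_lit 63139498985) (nat_lit 760) (nat_lit 65098687563) (nat_lit 76) (nat_lit 5) (nat_lit 75) (nat_lit 5) (nat_lit 85) (nat_lit 5) (nat_lit 315) (nat_lit 313) (nat_lit 92)) (XT.lf (nat_lit 0) (nat_lit 91112128449) (nat_lit 684) (nat_lit 62034121895) (nat_lit 760) (nat_lit 2467173929) (nat_lit 76) (nat_lit 5) (nat_lit 85) (nat_lit 5) (nat_lit 86) (nat_lit 5) (nat_lit 316) (nat_lit 313) (nat_lit 91)))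 (XT.nd (nat_lit 78) (nat_lit 0) (nat_lit 0) (XT.lf (nat_lit 76) (nat_lit 6658064824) (nat_lit 0) (nat_lit 90282452439) (nat_lit 760) (nat_lit 62678233970) (nat_lit 77) (nat_lit 5) (nat_lit 76) (nat_lit 5) (nat_lit 86) (nat_lit 5) (nat_lit 317) (nat_lit 313) (nat_lit 90)) (XT.lf (nat_lit 76) (nat_lit 80938440172) (nat_lit 0) (nat_lit 23172302820) (nat_lit 760) (nat_lit 59661081144) (nat_lit 77) (nat_lit 5) (nat_lit 76) (nat_lit 5) (nat_lit 86) (nat_lit 5) (nat_lit 318) (nat_lit 313) (nat_lit 89)))) (XT.nd (nat_lit 156) (nat_lit 152) (nat_lit 0) (XT.nd (nat_lit 78) (nat_lit 0) (nat_lit 0) (XT.lf (nat_lit 0) (nat_lit 112377709870) (nat_lit 684) (nat_lit 9938207428) (nat_lit 760) (nat_lit 45779722343) (nat_lit 77) (nat_lit 5) (nat_lit 86) (nat_lit 5) (nat_lit 87) (nat_lit 5) (nat_lit 319) (nat_lit 313) (nat_lit 88)) (XT.lf (nat_lit 76) (nat_lit 68411340213) (nat_lit 0) (nat_lit 54094506733)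 (nat_lit 760) (nat_lit 50057408308) (nat_lit 78) (nat_lit 5) (nat_lit 77) (nat_lit 5) (nat_lit 87) (nat_lit 5) (nat_lit 320) (nat_lit 313) (nat_lit 87))) (XT.nd (nat_lit 78) (nat_lit 228) (nat_lit 0) (XT.lf (nat_lit 0) (nat_lit 133585136481) (nat_lit 684) (nat_lit 26499125263) (nat_lit 760) (nat_lit 17147753032) (nat_lit 78) (nat_lit 5) (nat_lit 87) (nat_lit 5) (nat_lit 88) (nat_lit 5) (nat_lit 321) (nat_lit 313) (nat_lit 86)) (XT.nd (nat_lit 36894) (nat_lit 228) (nat_lit 0) (XT.lf (nat_lit 76) (nat_lit 55939827592) (nat_lit 0) (nat_lit 91038603349) (nat_lit 760) (nat_lit 35067779695) (nat_lit 79) (nat_lit 5) (nat_lit 78) (nat_lit 5) (nat_lit 88) (nat_lit 5) (nat_lit 322) (nat_lit 313) (nat_lit 85)) (XT.lf (nat_lit 0) (nat_lit 21188692811) (nat_lit 0) (nat_lit 21188692811) (nat_lit 684) (nat_lit 33449398583) (nat_lit 75) (nat_lit 5) (nat_lit 75) (nat_lit 3) (nat_lit 84) (nat_lit 3)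 (nat_lit 314) (nat_lit 314) (nat_lit 92))))))) (XT.nd (nat_lit 37674) (nat_lit 0) (nat_lit 0) (XT.nd (nat_lit 312) (nat_lit 0) (nat_lit 0) (XT.nd (nat_lit 156) (nat_lit 0) (nat_lit 76) (XT.nd (nat_lit 78) (nat_lit 0) (nat_lit 0) (XT.lf (nat_lit 0) (nat_lit 87266308323) (nat_lit 684) (nat_lit 43975871079) (nat_lit 760) (nat_lit 24183087113) (nat_lit 75) (nat_lit 5) (nat_lit 84) (nat_lit 3) (nat_lit 85) (nat_lit 5) (nat_lit 315) (nat_lit 314) (nat_lit 91)) (XT.lf (nat_lit 76) (nat_lit 24684716076) (nat_lit 0) (nat_lit 66298648737) (nat_lit 760) (nat_lit 68348188077) (nat_lit 76) (nat_lit 5) (nat_lit 75) (nat_lit 5) (nat_lit 85) (nat_lit 5) (nat_lit 316) (nat_lit 314) (nat_lit 90))) (XT.nd (nat_lit 78) (nat_lit 0) (nat_lit 0) (XT.lf (nat_lit 0) (nat_lit 95672617429) (nat_lit 684) (nat_lit 65132691783) (nat_lit 760) (nat_lit 2588527678) (nat_lit 76) (nat_lit 5) (nat_lit 85) (nat_lit 5)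 (nat_lit 86) (nat_lit 5) (nat_lit 317) (nat_lit 314) (nat_lit 89)) (XT.lf (nat_lit 76) (nat_lit 6994053687) (nat_lit 0) (nat_lit 94798187668) (nat_lit 760) (nat_lit 65807198747) (nat_lit 77) (nat_lit 5) (nat_lit 76) (nat_lit 5) (nat_lit 86) (nat_lit 5) (nat_lit 318) (nat_lit 314) (nat_lit 88)))) (XT.nd (nat_lit 156) (nat_lit 76) (nat_lit 0) (XT.nd (nat_lit 78) (nat_lit 0) (nat_lit 76) (XT.lf (nat_lit 76) (nat_lit 84988300869) (nat_lit 0) (nat_lit 24332453777) (nat_lit 760) (nat_lit 62639423848) (nat_lit 77) (nat_lit 5) (nat_lit 76) (nat_lit 5) (nat_lit 86) (nat_lit 5) (nat_lit 319) (nat_lit 314) (nat_lit 87)) (XT.lf (nat_lit 0) (nat_lit 118000833960) (nat_lit 684) (nat_lit 10432070641) (nat_lit 760) (nat_lit 48067292593) (nat_lit 77) (nat_lit 5) (nat_lit 86) (nat_lit 5) (nat_lit 87) (nat_lit 5) (nat_lit 320) (nat_lit 314) (nat_lit 86))) (XT.nd (nat_lit 37050) (nat_lit 152) (nat_lit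 0) (XT.lf (nat_lit 76) (nat_lit 71834905234) (nat_lit 0) (nat_lit 56800317625) (nat_lit 760) (nat_lit 52555979075) (nat_lit 78) (nat_lit 5) (nat_lit 77) (nat_lit 5) (nat_lit 87) (nat_lit 5) (nat_lit 321) (nat_lit 314) (nat_lit 85)) (XT.nd (nat_lit 78) (nat_lit 0) (nat_lit 0) (XT.lf (nat_lit 0) (nat_lit 22249416016) (nat_lit 0) (nat_lit 22249416016) (nat_lit 684) (nat_lit 35119154930) (nat_lit 75) (nat_lit 5) (nat_lit 75) (nat_lit 3) (nat_lit 84) (nat_lit 3) (nat_lit 315) (nat_lit 315) (nat_lit 90)) (XT.lf (nat_lit 0) (nat_lit 91634494237) (nat_lit 684) (nat_lit 46171911993) (nat_lit 760) (nat_lit 25389865617) (nat_lit 75) (nat_lit 5) (nat_lit 84) (nat_lit 3) (nat_lit 85) (nat_lit 5) (nat_lit 316) (nat_lit 315) (nat_lit 89)))))) (XT.nd (nat_lit 37518) (nat_lit 0) (nat_lit 0) (XT.nd (nat_lit 156) (nat_lit 0) (nat_lit 0) (XT.nd (nat_lit 78) (nat_lit 0) (nat_lit 76) (XT.lf (nat_lit 76)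 (nat_lit 25921660122) (nat_lit 0) (nat_lit 69615553784) (nat_lit 760) (nat_lit 71760668805) (nat_lit 76) (nat_lit 5) (nat_lit 75) (nat_lit 5) (nat_lit 85) (nat_lit 5) (nat_lit 317) (nat_lit 315) (nat_lit 88)) (XT.lf (nat_lit 0) (nat_lit 100460676923) (nat_lit 684) (nat_lit 68386481740) (nat_lit 760) (nat_lit 2716135515) (nat_lit 76) (nat_lit 5) (nat_lit 85) (nat_lit 5) (nat_lit 86) (nat_lit 5) (nat_lit 318) (nat_lit 315) (nat_lit 87))) (XT.nd (nat_lit 78) (nat_lit 76) (nat_lit 0) (XT.lf (nat_lit 76) (nat_lit 7346555122) (nat_lit 0) (nat_lit 99539559733) (nat_lit 760) (nat_lit 69093071681) (nat_lit 77) (nat_lit 5) (nat_lit 76) (nat_lit 5) (nat_lit 86) (nat_lit 5) (nat_lit 319) (nat_lit 315) (nat_lit 86)) (XT.nd (nat_lit 37206) (nat_lit 76) (nat_lit 0) (XT.lf (nat_lit 76) (nat_lit 89240381389) (nat_lit 0) (nat_lit 25550469497) (nat_lit 760) (nat_lit 65767121703) (nat_lit 77) (nat_lit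 5) (nat_lit 76) (nat_lit 5) (nat_lit 86) (nat_lit 5) (nat_lit 320) (nat_lit 315) (nat_lit 85)) (XT.lf (nat_lit 0) (nat_lit 23363055583) (nat_lit 0) (nat_lit 23363055583) (nat_lit 684) (nat_lit 36872651377) (nat_lit 75) (nat_lit 5) (nat_lit 75) (nat_lit 3) (nat_lit 84) (nat_lit 3) (nat_lit 316) (nat_lit 316) (nat_lit 88))))) (XT.nd (nat_lit 156) (nat_lit 0) (nat_lit 0) (XT.nd (nat_lit 78) (nat_lit 0) (nat_lit 0) (XT.lf (nat_lit 0) (nat_lit 96220636633) (nat_lit 684) (nat_lit 48478010868) (nat_lit 760) (nat_lit 26657203929) (nat_lit 75) (nat_lit 5) (nat_lit 84) (nat_lit 3) (nat_lit 85) (nat_lit 5) (nat_lit 317) (nat_lit 316) (nat_lit 87)) (XT.lf (nat_lit 76) (nat_lit 27220199584) (nat_lit 0) (nat_lit 73098120689) (nat_lit 760) (nat_lit 75344231792) (nat_lit 76) (nat_lit 5) (nat_lit 75) (nat_lit 5) (nat_lit 85) (nat_lit 5) (nat_lit 318) (nat_lit 316) (nat_lit 86))) (XT.nd (nat_lit 37362)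 (nat_lit 76) (nat_lit 0) (XT.lf (nat_lit 0) (nat_lit 105487727661) (nat_lit 684) (nat_lit 71803225663) (nat_lit 760) (nat_lit 2850292815) (nat_lit 76) (nat_lit 5) (nat_lit 85) (nat_lit 5) (nat_lit 86) (nat_lit 5) (nat_lit 319) (nat_lit 316) (nat_lit 85)) (XT.nd (nat_lit 78) (nat_lit 0) (nat_lit 0) (XT.lf (nat_lit 0) (nat_lit 24532268468) (nat_lit 0) (nat_lit 24532268468) (nat_lit 684) (nat_lit 38714051475) (nat_lit 75) (nat_lit 5) (nat_lit 75) (nat_lit 3) (nat_lit 84) (nat_lit 3) (nat_lit 317) (nat_lit 317) (nat_lit 86)) (XT.lf (nat_lit 0) (nat_lit 101035675435) (nat_lit 684) (nat_lit 50899646808) (nat_lit 760) (nat_lit 27988109506) (nat_lit 75) (nat_lit 5) (nat_lit 84) (nat_lit 3) (nat_lit 85) (nat_lit 5) (nat_lit 318) (nat_lit 317) (nat_lit 85))))))))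

set_option maxRecDepth 10000000 in
noncomputable def Tp : PT := (PT.nd (nat_lit 4623840) (PT.nd (nat_lit 4286256) (PT.nd (nat_lit 3949296) (PT.nd (nat_lit 3649620) pc0 pc1) (PT.nd (nat_lit 187278) pc2 pc3)) (PT.nd (nat_lit 187902) (PT.nd (nat_lit 112320) pc4 pc5) (PT.nd (nat_lit 75036) pc6 pc7))) (PT.nd (nat_lit 224016) (PT.nd (nat_lit 112632) (PT.nd (nat_lit 74100) pc8 pc9) (PT.nd (nat_lit 38376) pc10 pc11)) (PT.nd (nat_lit 112008) (PT.nd (nat_lit 37908) pc12 pc13) (PT.nd (nat_lit 112008) pc14 pc15))))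

set_option maxRecDepth 10000000 in
noncomputable def Tx : XT := (XT.nd (nat_lit 6669312) (nat_lit 0) (nat_lit 76) XT.nil (XT.nd (nat_lit 5248776) (nat_lit 0) (nat_lit 0) (XT.nd (nat_lit 2548572) (nat_lit 0) (nat_lit 152) (XT.nd (nat_lit 1793454) (nat_lit 0) (nat_lit 0) (XT.nd (nat_lit 1236690) (nat_lit 0) (nat_lit 0) (XT.nd (nat_lit 861510) (nat_lit 0) (nat_lit 0) (XT.nd (nat_lit 599196) (nat_lit 0) (nat_lit 0) (XT.nd (nat_lit 411996) (nat_lit 0) (nat_lit 0) (XT.nd (nat_lit 298896) (nat_lit 0) (nat_lit 0) (XT.nd (nat_lit 187278) (nat_lit 0) (nat_lit 0) xc0 xc1) (XT.nd (nat_lit 38766) (nat_lit 0) (nat_lit 0) xc2 xc3)) (XT.nd (nat_lit 111618) (nat_lit 0) (nat_lit 0) (XT.nd (nat_lit 73632) (nat_lit 0) (nat_lit 0) xc4 xc5) (XT.nd (nat_lit 37830) (nat_lit 0) (nat_lit 0) xc6 xc7))) (XT.nd (nat_lit 149214) (nat_lit 0) (nat_lit 0) (XT.nd (nat_lit 74880) (nat_lit 0) (nat_lit 0) (XT.nd (nat_lit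 37518) (nat_lit 0) (nat_lit 0) xc8 xc9) (XT.nd (nat_lit 37206) (nat_lit 0) (nat_lit 0) xc10 xc11)) (XT.nd (nat_lit 73632) (nat_lit 0) (nat_lit 0) (XT.nd (nat_lit 36894) (nat_lit 0) (nat_lit 0) xc12 xc13) (XT.nd (nat_lit 2808) (nat_lit 0) (nat_lit 0) xc14 xc15)))) (XT.nd (nat_lit 222378) (nat_lit 0) (nat_lit 0) (XT.nd (nat_lit 111852) (nat_lit 0) (nat_lit 0) (XT.nd (nat_lit 72774) (nat_lit 0) (nat_lit 0) (XT.nd (nat_lit 36426) (nat_lit 0) (nat_lit 0) xc16 xc17) (XT.nd (nat_lit 2808) (nat_lit 0) (nat_lit 0) xc18 xc19)) (XT.nd (nat_lit 38844) (nat_lit 0) (nat_lit 0) (XT.nd (nat_lit 36036) (nat_lit 0) (nat_lit 0) xc20 xc21) (XT.nd (nat_lit 35880) (nat_lit 0) (nat_lit 0) xc22 xc23))) (XT.nd (nat_lit 76674) (nat_lit 0) (nat_lit 0) (XT.nd (nat_lit 38376) (nat_lit 0) (nat_lit 0) (XT.nd (nat_lit 2808) (nat_lit 0) (nat_lit 0) xc24 xc25) (XT.nd (nat_lit 2808) (nat_lit 0) (nat_lit 0) xc26 xc27))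 (XT.nd (nat_lit 38142) (nat_lit 0) (nat_lit 0) (XT.nd (nat_lit 35256) (nat_lit 0) (nat_lit 0) xc28 xc29) (XT.nd (nat_lit 35100) (nat_lit 0) (nat_lit 0) xc30 xc31))))) (XT.nd (nat_lit 297960) (nat_lit 0) (nat_lit 0) (XT.nd (nat_lit 150228) (nat_lit 0) (nat_lit 0) (XT.nd (nat_lit 75426) (nat_lit 0) (nat_lit 0) (XT.nd (nat_lit 37752) (nat_lit 0) (nat_lit 0) (XT.nd (nat_lit 34944) (nat_lit 0) (nat_lit 0) xc32 xc33) (XT.nd (nat_lit 34788) (nat_lit 0) (nat_lit 0) xc34 xc35)) (XT.nd (nat_lit 37440) (nat_lit 0) (nat_lit 0) (XT.nd (nat_lit 34632) (nat_lit 0) (nat_lit 0) xc36 xc37) (XT.nd (nat_lit 34476) (nat_lit 0) (nat_lit 0) xc38 xc39))) (XT.nd (nat_lit 74178) (nat_lit 0) (nat_lit 0) (XT.nd (nat_lit 37128) (nat_lit 0) (nat_lit 0) (XT.nd (nat_lit 34320) (nat_lit 0) (nat_lit 0) xc40 xc41) (XT.nd (nat_lit 34164) (nat_lit 0) (nat_lit 0) xc42 xc43)) (XT.nd (nat_lit 36816) (nat_lit 0) (nat_lit 0)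 (XT.nd (nat_lit 34008) (nat_lit 0) (nat_lit 152) xc44 xc45) (XT.nd (nat_lit 33852) (nat_lit 0) (nat_lit 152) xc46 xc47)))) (XT.nd (nat_lit 115050) (nat_lit 0) (nat_lit 0) (XT.nd (nat_lit 73086) (nat_lit 0) (nat_lit 0) (XT.nd (nat_lit 36582) (nat_lit 0) (nat_lit 0) (XT.nd (nat_lit 2808) (nat_lit 0) (nat_lit 0) xc48 xc49) (XT.nd (nat_lit 2808) (nat_lit 0) (nat_lit 0) xc50 xc51)) (XT.nd (nat_lit 36270) (nat_lit 0) (nat_lit 0) (XT.nd (nat_lit 2808) (nat_lit 152) (nat_lit 0) xc52 xc53) (XT.nd (nat_lit 2808) (nat_lit 228) (nat_lit 0) xc54 xc55))) (XT.nd (nat_lit 72150) (nat_lit 0) (nat_lit 0) (XT.nd (nat_lit 36114) (nat_lit 0) (nat_lit 0) (XT.nd (nat_lit 33306) (nat_lit 0) (nat_lit 152) xc56 xc57) (XT.nd (nat_lit 33150) (nat_lit 0) (nat_lit 228) xc58 xc59)) (XT.nd (nat_lit 35880) (nat_lit 0) (nat_lit 0) (XT.nd (nat_lit 2808) (nat_lit 0) (nat_lit 0) xc60 xc61) (XT.nd (nat_lit 2808) (nat_lit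 152) (nat_lit 0) xc62 xc63)))))) (XT.nd (nat_lit 411528) (nat_lit 0) (nat_lit 0) (XT.nd (nat_lit 193362) (nat_lit 0) (nat_lit 0) (XT.nd (nat_lit 111930) (nat_lit 0) (nat_lit 0) (XT.nd (nat_lit 41184) (nat_lit 0) (nat_lit 0) (XT.nd (nat_lit 5616) (nat_lit 152) (nat_lit 0) (XT.nd (nat_lit 2808) (nat_lit 228) (nat_lit 0) xc64 xc65) (XT.nd (nat_lit 32682) (nat_lit 0) (nat_lit 228) xc66 xc67)) (XT.nd (nat_lit 35412) (nat_lit 0) (nat_lit 0) (XT.nd (nat_lit 2808) (nat_lit 0) (nat_lit 0) xc68 xc69) (XT.nd (nat_lit 2808) (nat_lit 152) (nat_lit 0) xc70 xc71))) (XT.nd (nat_lit 40794) (nat_lit 0) (nat_lit 0) (XT.nd (nat_lit 5616) (nat_lit 152) (nat_lit 0) (XT.nd (nat_lit 2808) (nat_lit 532) (nat_lit 0) xc72 xc73) (XT.nd (nat_lit 32292) (nat_lit 0) (nat_lit 456) xc74 xc75)) (XT.nd (nat_lit 34944) (nat_lit 0) (nat_lit 152) (XT.nd (nat_lit 2808) (nat_lit 152) (nat_lit 0) xc76 xc77) (XT.nd (nat_lit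 2808) (nat_lit 304) (nat_lit 0) xc78 xc79)))) (XT.nd (nat_lit 109668) (nat_lit 0) (nat_lit 0) (XT.nd (nat_lit 69498) (nat_lit 0) (nat_lit 0) (XT.nd (nat_lit 34788) (nat_lit 0) (nat_lit 0) (XT.nd (nat_lit 31980) (nat_lit 0) (nat_lit 456) xc80 xc81) (XT.nd (nat_lit 2808) (nat_lit 152) (nat_lit 0) xc82 xc83)) (XT.nd (nat_lit 5616) (nat_lit 152) (nat_lit 0) (XT.nd (nat_lit 2808) (nat_lit 304) (nat_lit 0) xc84 xc85) (XT.nd (nat_lit 31668) (nat_lit 0) (nat_lit 456) xc86 xc87))) (XT.nd (nat_lit 40014) (nat_lit 0) (nat_lit 0) (XT.nd (nat_lit 34320) (nat_lit 0) (nat_lit 152) (XT.nd (nat_lit 2808) (nat_lit 152) (nat_lit 0) xc88 xc89) (XT.nd (nat_lit 2808) (nat_lit 532) (nat_lit 0) xc90 xc91)) (XT.nd (nat_lit 34320) (nat_lit 0) (nat_lit 0) (XT.nd (nat_lit 31434) (nat_lit 0) (nat_lit 760) xc92 xc93) (XT.nd (nat_lit 2808) (nat_lit 152) (nat_lit 0) xc94 xc95))))) (XT.nd (nat_lit 157560) (nat_lit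 0) (nat_lit 0) (XT.nd (nat_lit 79092) (nat_lit 0) (nat_lit 0) (XT.nd (nat_lit 39624) (nat_lit 0) (nat_lit 0) (XT.nd (nat_lit 5616) (nat_lit 228) (nat_lit 0) (XT.nd (nat_lit 2808) (nat_lit 760) (nat_lit 0) xc96 xc97) (XT.nd (nat_lit 31122) (nat_lit 0) (nat_lit 1596) xc98 xc99)) (XT.nd (nat_lit 5616) (nat_lit 76) (nat_lit 0) (XT.nd (nat_lit 2808) (nat_lit 304) (nat_lit 0) xc100 xc101) (XT.nd (nat_lit 30966) (nat_lit 0) (nat_lit 608) xc102 xc103))) (XT.nd (nat_lit 39312) (nat_lit 0) (nat_lit 0) (XT.nd (nat_lit 33618) (nat_lit 0) (nat_lit 228) (XT.nd (nat_lit 2808) (nat_lit 152) (nat_lit 0) xc104 xc105) (XT.nd (nat_lit 2808) (nat_lit 760) (nat_lit 0) xc106 xc107)) (XT.nd (nat_lit 33462) (nat_lit 0) (nat_lit 152) (XT.nd (nat_lit 30654) (nat_lit 0) (nat_lit 2128) xc108 xc109) (XT.nd (nat_lit 2808) (nat_lit 304) (nat_lit 0) xc110 xc111)))) (XT.nd (nat_lit 106782) (nat_lit 0) (nat_lit 76) (XT.nd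 (nat_lit 67314) (nat_lit 0) (nat_lit 0) (XT.nd (nat_lit 33540) (nat_lit 0) (nat_lit 0) (XT.nd (nat_lit 30732) (nat_lit 0) (nat_lit 912) xc112 xc113) (XT.nd (nat_lit 2808) (nat_lit 228) (nat_lit 0) xc114 xc115)) (XT.nd (nat_lit 5616) (nat_lit 380) (nat_lit 0) (XT.nd (nat_lit 2808) (nat_lit 1064) (nat_lit 0) xc116 xc117) (XT.nd (nat_lit 2808) (nat_lit 76) (nat_lit 0) xc118 xc119))) (XT.nd (nat_lit 39546) (nat_lit 0) (nat_lit 0) (XT.nd (nat_lit 5616) (nat_lit 76) (nat_lit 0) (XT.nd (nat_lit 2808) (nat_lit 380) (nat_lit 0) xc120 xc121) (XT.nd (nat_lit 31044) (nat_lit 0) (nat_lit 836) xc122 xc123)) (XT.nd (nat_lit 34008) (nat_lit 0) (nat_lit 152) (XT.nd (nat_lit 2808) (nat_lit 152) (nat_lit 0) xc124 xc125) (XT.nd (nat_lit 2808) (nat_lit 1064) (nat_lit 0) xc126 xc127))))))) (XT.nd (nat_lit 859092) (nat_lit 0) (nat_lit 76) (XT.nd (nat_lit 408174) (nat_lit 0) (nat_lit 0) (XT.nd (nat_lit 188214)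 (nat_lit 0) (nat_lit 0) (XT.nd (nat_lit 108108) (nat_lit 0) (nat_lit 0) (XT.nd (nat_lit 39702) (nat_lit 0) (nat_lit 0) (XT.nd (nat_lit 34008) (nat_lit 0) (nat_lit 0) (XT.nd (nat_lit 31200) (nat_lit 0) (nat_lit 1596) xc128 xc129) (XT.nd (nat_lit 2808) (nat_lit 304) (nat_lit 0) xc130 xc131)) (XT.nd (nat_lit 34086) (nat_lit 0) (nat_lit 0) (XT.nd (nat_lit 31278) (nat_lit 0) (nat_lit 456) xc132 xc133) (XT.nd (nat_lit 2808) (nat_lit 0) (nat_lit 0) xc134 xc135))) (XT.nd (nat_lit 40014) (nat_lit 0) (nat_lit 0) (XT.nd (nat_lit 5616) (nat_lit 0) (nat_lit 0) (XT.nd (nat_lit 2808) (nat_lit 608) (nat_lit 0) xc136 xc137) (XT.nd (nat_lit 31512) (nat_lit 0) (nat_lit 760) xc138 xc139)) (XT.nd (nat_lit 34398) (nat_lit 0) (nat_lit 76) (XT.nd (nat_lit 2808) (nat_lit 76) (nat_lit 0) xc140 xc141) (XT.nd (nat_lit 2808) (nat_lit 912) (nat_lit 0) xc142 xc143)))) (XT.nd (nat_lit 109512) (nat_lit 0) (nat_lit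 0) (XT.nd (nat_lit 69108) (nat_lit 0) (nat_lit 0) (XT.nd (nat_lit 34476) (nat_lit 0) (nat_lit 0) (XT.nd (nat_lit 31668) (nat_lit 0) (nat_lit 1140) xc144 xc145) (XT.nd (nat_lit 2808) (nat_lit 152) (nat_lit 0) xc146 xc147)) (XT.nd (nat_lit 5616) (nat_lit 152) (nat_lit 0) (XT.nd (nat_lit 2808) (nat_lit 988) (nat_lit 0) xc148 xc149) (XT.nd (nat_lit 31902) (nat_lit 0) (nat_lit 1140) xc150 xc151))) (XT.nd (nat_lit 40482) (nat_lit 0) (nat_lit 0) (XT.nd (nat_lit 34788) (nat_lit 0) (nat_lit 152) (XT.nd (nat_lit 2808) (nat_lit 152) (nat_lit 0) xc152 xc153) (XT.nd (nat_lit 2808) (nat_lit 988) (nat_lit 0) xc154 xc155)) (XT.nd (nat_lit 34944) (nat_lit 0) (nat_lit 0) (XT.nd (nat_lit 32058) (nat_lit 0) (nat_lit 1064) xc156 xc157) (XT.nd (nat_lit 2808) (nat_lit 76) (nat_lit 0) xc158 xc159))))) (XT.nd (nat_lit 193596) (nat_lit 0) (nat_lit 76) (XT.nd (nat_lit 111306) (nat_lit 0) (nat_lit 0) (XT.nd (nat_lit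 40794) (nat_lit 0) (nat_lit 0) (XT.nd (nat_lit 5616) (nat_lit 76) (nat_lit 0) (XT.nd (nat_lit 2808) (nat_lit 760) (nat_lit 0) xc160 xc161) (XT.nd (nat_lit 32292) (nat_lit 0) (nat_lit 760) xc162 xc163)) (XT.nd (nat_lit 35178) (nat_lit 0) (nat_lit 0) (XT.nd (nat_lit 2808) (nat_lit 76) (nat_lit 0) xc164 xc165) (XT.nd (nat_lit 2808) (nat_lit 532) (nat_lit 0) xc166 xc167))) (XT.nd (nat_lit 41106) (nat_lit 0) (nat_lit 0) (XT.nd (nat_lit 5616) (nat_lit 380) (nat_lit 0) (XT.nd (nat_lit 2808) (nat_lit 1596) (nat_lit 0) xc168 xc169) (XT.nd (nat_lit 32604) (nat_lit 0) (nat_lit 1444) xc170 xc171)) (XT.nd (nat_lit 35490) (nat_lit 0) (nat_lit 76) (XT.nd (nat_lit 2808) (nat_lit 228) (nat_lit 0) xc172 xc173) (XT.nd (nat_lit 2808) (nat_lit 912) (nat_lit 0) xc174 xc175)))) (XT.nd (nat_lit 112788) (nat_lit 0) (nat_lit 0) (XT.nd (nat_lit 71292) (nat_lit 0) (nat_lit 0) (XT.nd (nat_lit 35568) (nat_lit 0)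 (nat_lit 0) (XT.nd (nat_lit 32760) (nat_lit 0) (nat_lit 456) xc176 xc177) (XT.nd (nat_lit 32838) (nat_lit 0) (nat_lit 1520) xc178 xc179)) (XT.nd (nat_lit 35802) (nat_lit 0) (nat_lit 0) (XT.nd (nat_lit 2808) (nat_lit 228) (nat_lit 0) xc180 xc181) (XT.nd (nat_lit 2808) (nat_lit 912) (nat_lit 0) xc182 xc183))) (XT.nd (nat_lit 71994) (nat_lit 0) (nat_lit 0) (XT.nd (nat_lit 35880) (nat_lit 0) (nat_lit 0) (XT.nd (nat_lit 33072) (nat_lit 0) (nat_lit 380) xc184 xc185) (XT.nd (nat_lit 33228) (nat_lit 0) (nat_lit 1064) xc186 xc187)) (XT.nd (nat_lit 36192) (nat_lit 0) (nat_lit 0) (XT.nd (nat_lit 2808) (nat_lit 76) (nat_lit 0) xc188 xc189) (XT.nd (nat_lit 2808) (nat_lit 456) (nat_lit 0) xc190 xc191)))))) (XT.nd (nat_lit 565266) (nat_lit 0) (nat_lit 532) (XT.nd (nat_lit 263484) (nat_lit 0) (nat_lit 228) (XT.nd (nat_lit 115440) (nat_lit 0) (nat_lit 152) (XT.nd (nat_lit 42120) (nat_lit 0) (nat_lit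 76) (XT.nd (nat_lit 36426) (nat_lit 0) (nat_lit 228) (XT.nd (nat_lit 2808) (nat_lit 988) (nat_lit 0) xc192 xc193) (XT.nd (nat_lit 2808) (nat_lit 1672) (nat_lit 0) xc194 xc195)) (XT.nd (nat_lit 36504) (nat_lit 0) (nat_lit 76) (XT.nd (nat_lit 33696) (nat_lit 0) (nat_lit 608) xc196 xc197) (XT.nd (nat_lit 33930) (nat_lit 0) (nat_lit 912) xc198 xc199))) (XT.nd (nat_lit 73788) (nat_lit 0) (nat_lit 76) (XT.nd (nat_lit 36816) (nat_lit 0) (nat_lit 0) (XT.nd (nat_lit 34008) (nat_lit 0) (nat_lit 1520) xc200 xc201) (XT.nd (nat_lit 2808) (nat_lit 76) (nat_lit 0) xc202 xc203)) (XT.nd (nat_lit 37050) (nat_lit 0) (nat_lit 0) (XT.nd (nat_lit 2808) (nat_lit 228) (nat_lit 0) xc204 xc205) (XT.nd (nat_lit 2808) (nat_lit 304) (nat_lit 0) xc206 xc207)))) (XT.nd (nat_lit 149916) (nat_lit 0) (nat_lit 152) (XT.nd (nat_lit 74724) (nat_lit 0) (nat_lit 76) (XT.nd (nat_lit 37284) (nat_lit 0) (nat_lit 0) (XT.nd (nat_lit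 2808) (nat_lit 532) (nat_lit 0) xc208 xc209) (XT.nd (nat_lit 2808) (nat_lit 760) (nat_lit 0) xc210 xc211)) (XT.nd (nat_lit 37518) (nat_lit 0) (nat_lit 0) (XT.nd (nat_lit 2808) (nat_lit 760) (nat_lit 0) xc212 xc213) (XT.nd (nat_lit 2808) (nat_lit 760) (nat_lit 0) xc214 xc215))) (XT.nd (nat_lit 75660) (nat_lit 0) (nat_lit 76) (XT.nd (nat_lit 37752) (nat_lit 0) (nat_lit 0) (XT.nd (nat_lit 2808) (nat_lit 684) (nat_lit 0) xc216 xc217) (XT.nd (nat_lit 2808) (nat_lit 608) (nat_lit 0) xc218 xc219)) (XT.nd (nat_lit 38064) (nat_lit 0) (nat_lit 0) (XT.nd (nat_lit 2808) (nat_lit 304) (nat_lit 0) xc220 xc221) (XT.nd (nat_lit 2808) (nat_lit 76) (nat_lit 0) xc222 xc223))))) (XT.nd (nat_lit 376974) (nat_lit 0) (nat_lit 684) (XT.nd (nat_lit 186888) (nat_lit 0) (nat_lit 228) (XT.nd (nat_lit 76674) (nat_lit 0) (nat_lit 0) (XT.nd (nat_lit 38220) (nat_lit 0) (nat_lit 0) (XT.nd (nat_lit 35412) (nat_lit 0)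 (nat_lit 988) xc224 xc225) (XT.nd (nat_lit 35568) (nat_lit 0) (nat_lit 456) xc226 xc227)) (XT.nd (nat_lit 71448) (nat_lit 0) (nat_lit 152) (XT.nd (nat_lit 35646) (nat_lit 0) (nat_lit 152) xc228 xc229) (XT.nd (nat_lit 2808) (nat_lit 988) (nat_lit 0) xc230 xc231))) (XT.nd (nat_lit 111384) (nat_lit 0) (nat_lit 304) (XT.nd (nat_lit 38844) (nat_lit 0) (nat_lit 152) (XT.nd (nat_lit 2808) (nat_lit 0) (nat_lit 0) xc232 xc233) (XT.nd (nat_lit 36192) (nat_lit 0) (nat_lit 0) xc234 xc235)) (XT.nd (nat_lit 39234) (nat_lit 0) (nat_lit 0) (XT.nd (nat_lit 2808) (nat_lit 836) (nat_lit 0) xc236 xc237) (XT.nd (nat_lit 36582) (nat_lit 0) (nat_lit 152) xc238 xc239)))) (XT.nd (nat_lit 297882) (nat_lit 0) (nat_lit 1064) (XT.nd (nat_lit 147732) (nat_lit 0) (nat_lit 456) (XT.nd (nat_lit 73554) (nat_lit 0) (nat_lit 152) (XT.nd (nat_lit 36738) (nat_lit 0) (nat_lit 0) xc240 xc241) (XT.nd (nat_lit 36972) (nat_lit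 0) (nat_lit 152) xc242 xc243)) (XT.nd (nat_lit 74724) (nat_lit 0) (nat_lit 228) (XT.nd (nat_lit 37284) (nat_lit 0) (nat_lit 228) xc244 xc245) (XT.nd (nat_lit 37596) (nat_lit 0) (nat_lit 152) xc246 xc247))) (XT.nd (nat_lit 187980) (nat_lit 0) (nat_lit 1064) (XT.nd (nat_lit 75816) (nat_lit 0) (nat_lit 228) (XT.nd (nat_lit 37830) (nat_lit 0) (nat_lit 228) xc248 xc249) (XT.nd (nat_lit 38142) (nat_lit 0) (nat_lit 228) xc250 xc251)) (XT.nd (nat_lit 113412) (nat_lit 0) (nat_lit 532) (XT.nd (nat_lit 74490) (nat_lit 0) (nat_lit 532) xc252 xc253) (XT.nd (nat_lit 111852) (nat_lit 0) (nat_lit 1140) xc254 xc255)))))))) XT.nil))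

set_option maxRecDepth 10000000 in
noncomputable def Te : XT := XT.nil

set_option maxRecDepth 10000000 in
noncomputable def Tz : ZL := (ZL.cons (nat_lit 76) (nat_lit 6) (nat_lit 188083189331839887782) (ZL.cons (nat_lit 152) (nat_lit 6) (nat_lit 184158492003571771692) (ZL.cons (nat_lit 228) (nat_lit 3) (nat_lit 91973545313484061020) (ZL.cons (nat_lit 304) (nat_lit 6) (nat_lit 180037559808890249798) (ZL.cons (nat_lit 380) (nat_lit 6) (nat_lit 176345288470896561830) (ZL.cons (nat_lit 456) (nat_lit 3) (nat_lit 88071976913256066796) (ZL.cons (nat_lit 532) (nat_lit 6) (nat_lit 172468403566003189466) (ZL.cons (nat_lit 608) (nat_lit 6) (nat_lit 169002157717219348504) (ZL.cons (nat_lit 684) (nat_lit 3) (nat_lit 84405205218426613186) (ZL.cons (nat_lit 760) (nat_lit 6) (nat_lit 165362599575996315494) (ZL.cons (nat_lit 836) (nat_lit 6) (nat_lit 162116761909954226092) (ZL.cons (nat_lit 912) (nat_lit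 3) (nat_lit 80967072726231340602) (ZL.cons (nat_lit 988) (nat_lit 6) (nat_lit 158708632360610032220) (ZL.cons (nat_lit 1064) (nat_lit 6) (nat_lit 155678380507362528902) (ZL.cons (nat_lit 1140) (nat_lit 3) (nat_lit 77752230035828147838) (ZL.cons (nat_lit 1216) (nat_lit 6) (nat_lit 152836175007355296240) (ZL.cons (nat_lit 1292) (nat_lit 6) (nat_lit 152496616061452650416) (ZL.cons (nat_lit 1368) (nat_lit 6) (nat_lit 149677938796641468720) (ZL.cons (nat_lit 1444) (nat_lit 3) (nat_lit 74756150143222528061) (ZL.cons (nat_lit 1520) (nat_lit 6) (nat_lit 147041717140877962052) (ZL.cons (nat_lit 1596) (nat_lit 6) (nat_lit 146718327668589727936) (ZL.cons (nat_lit 1672) (nat_lit 6) (nat_lit 144108045892129867456) (ZL.cons (nat_lit 1748) (nat_lit 3) (nat_lit 71975147465019022969) (ZL.cons (nat_lit 1824) (nat_lit 6) (nat_lit 141675240000454855970) (ZL.cons (nat_lit 1900) (nat_lit 6) (nat_lit 141367250026847013954)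 (ZL.cons (nat_lit 1976) (nat_lit 6) (nat_lit 139414117598584514880) (ZL.cons (nat_lit 2052) (nat_lit 6) (nat_lit 138963042852104272392) (ZL.cons (nat_lit 2128) (nat_lit 3) (nat_lit 69406401920294125947) (ZL.cons (nat_lit 2204) (nat_lit 6) (nat_lit 136731949103012814718) (ZL.cons (nat_lit 2280) (nat_lit 6) (nat_lit 136438625318624393748) (ZL.cons (nat_lit 2356) (nat_lit 6) (nat_lit 134668656651598613652) (ZL.cons (nat_lit 2432) (nat_lit 6) (nat_lit 134239061654950763662) (ZL.cons (nat_lit 2508) (nat_lit 3) (nat_lit 67047988441039181595) (ZL.cons (nat_lit 2584) (nat_lit 6) (nat_lit 132768252896786873480) (ZL.cons (nat_lit 2660) (nat_lit 6) (nat_lit 132208875793225281564) (ZL.cons (nat_lit 2736) (nat_lit 6) (nat_lit 131929519808093452072) (ZL.cons (nat_lit 2812) (nat_lit 6) (nat_lit 130343233957586696308) (ZL.cons (nat_lit 2888) (nat_lit 6) (nat_lit 129934095865541124890) (ZL.cons (nat_lit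 2964) (nat_lit 3) (nat_lit 64898912326640847935) (ZL.cons (nat_lit 3040) (nat_lit 6) (nat_lit 128637694143664439834) (ZL.cons (nat_lit 3116) (nat_lit 6) (nat_lit 128104954045034352296) (ZL.cons (nat_lit 3192) (nat_lit 6) (nat_lit 127838900725861181350) (ZL.cons (nat_lit 3268) (nat_lit 6) (nat_lit 127088195542377744862) (ZL.cons (nat_lit 3344) (nat_lit 6) (nat_lit 126437739247000499118) (ZL.cons (nat_lit 3420) (nat_lit 6) (nat_lit 126048083921242812052) (ZL.cons (nat_lit 3496) (nat_lit 3) (nat_lit 62959150907164535063) (ZL.cons (nat_lit 3572) (nat_lit 6) (nat_lit 125691048871342595454) (ZL.cons (nat_lit 3648) (nat_lit 6) (nat_lit 124928481912396627606) (ZL.cons (nat_lit 3724) (nat_lit 6) (nat_lit 124421110389891782334) (ZL.cons (nat_lit 3800) (nat_lit 6) (nat_lit 124167726276393524288) (ZL.cons (nat_lit 3876) (nat_lit 6) (nat_lit 123573588571378442832) (ZL.cons (nat_lit 3952) (nat_lit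 6) (nat_lit 122954106385304875456) (ZL.cons (nat_lit 4028) (nat_lit 6) (nat_lit 122583006075059459204) (ZL.cons (nat_lit 4104) (nat_lit 3) (nat_lit 61229702034237471542) (ZL.cons (nat_lit 4180) (nat_lit 6) (nat_lit 122369833287419711020) (ZL.cons (nat_lit 4256) (nat_lit 6) (nat_lit 121643579040804503544) (ZL.cons (nat_lit 4332) (nat_lit 6) (nat_lit 121160368066990365188) (ZL.cons (nat_lit 4408) (nat_lit 6) (nat_lit 120919049863658690862) (ZL.cons (nat_lit 4484) (nat_lit 6) (nat_lit 121314349976511006620) (ZL.cons (nat_lit 4560) (nat_lit 6) (nat_lit 120486408053189475242) (ZL.cons (nat_lit 4636) (nat_lit 6) (nat_lit 119896425018833696786) (ZL.cons (nat_lit 4712) (nat_lit 6) (nat_lit 119542996151933300356) (ZL.cons (nat_lit 4788) (nat_lit 3) (nat_lit 59712639977593071075) (ZL.cons (nat_lit 4864) (nat_lit 6) (nat_lit 120404625583150166048) (ZL.cons (nat_lit 4940) (nat_lit 6) (nat_lit 119479838253441659524)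 (ZL.cons (nat_lit 5016) (nat_lit 6) (nat_lit 118788167542379557166) (ZL.cons (nat_lit 5092) (nat_lit 6) (nat_lit 118327966614937520636) (ZL.cons (nat_lit 5168) (nat_lit 6) (nat_lit 118098139754621640326) (ZL.cons (nat_lit 5244) (nat_lit 6) (nat_lit 119638494096876806356) (ZL.cons (nat_lit 5320) (nat_lit 6) (nat_lit 118621473046799752072) (ZL.cons (nat_lit 5396) (nat_lit 6) (nat_lit 117832956929350674568) (ZL.cons (nat_lit 5472) (nat_lit 6) (nat_lit 117271068325202314136) (ZL.cons (nat_lit 5548) (nat_lit 6) (nat_lit 116934469404344793726) (ZL.cons (nat_lit 5624) (nat_lit 3) (nat_lit 58411179370388035811) (ZL.cons (nat_lit 5700) (nat_lit 6) (nat_lit 116493286487343670884) (ZL.cons (nat_lit 5776) (nat_lit 6) (nat_lit 116634380242911250604) (ZL.cons (nat_lit 5852) (nat_lit 6) (nat_lit 116916903691559666186) (ZL.cons (nat_lit 5928) (nat_lit 6) (nat_lit 117341529508166651950) (ZL.cons (nat_lit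 6004) (nat_lit 6) (nat_lit 117909268706581272150) (ZL.cons (nat_lit 6080) (nat_lit 6) (nat_lit 117028518868763646886) (ZL.cons (nat_lit 6156) (nat_lit 6) (nat_lit 116369784858228311308) (ZL.cons (nat_lit 6232) (nat_lit 6) (nat_lit 115931498260664466996) (ZL.cons (nat_lit 6308) (nat_lit 6) (nat_lit 115712615536554104792) (ZL.cons (nat_lit 6384) (nat_lit 3) (nat_lit 57606606454472465742) (ZL.cons (nat_lit 6460) (nat_lit 6) (nat_lit 115285480442284423536) (ZL.cons (nat_lit 6536) (nat_lit 6) (nat_lit 115502455107858469910) (ZL.cons (nat_lit 6612) (nat_lit 6) (nat_lit 115864653512013675478) (ZL.cons (nat_lit 6688) (nat_lit 6) (nat_lit 116372938031902790728) (ZL.cons (nat_lit 6764) (nat_lit 6) (nat_lit 115621970300998907390) (ZL.cons (nat_lit 6840) (nat_lit 6) (nat_lit 115086838297048087932) (ZL.cons (nat_lit 6916) (nat_lit 6) (nat_lit 114766267896231401826) (ZL.cons (nat_lit 6992) (nat_lit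 3) (nat_lit 57329747917844880863) (ZL.cons (nat_lit 7068) (nat_lit 6) (nat_lit 114135188970799426062) (ZL.cons (nat_lit 7144) (nat_lit 6) (nat_lit 114283337414145384768) (ZL.cons (nat_lit 7220) (nat_lit 6) (nat_lit 114579987035226221128) (ZL.cons (nat_lit 7296) (nat_lit 6) (nat_lit 115025844142663556182) (ZL.cons (nat_lit 7372) (nat_lit 6) (nat_lit 114398478418344188964) (ZL.cons (nat_lit 7448) (nat_lit 6) (nat_lit 113981062611140527712) (ZL.cons (nat_lit 7524) (nat_lit 6) (nat_lit 113772602873892563710) (ZL.cons (nat_lit 7600) (nat_lit 3) (nat_lit 56590383519619218380) (ZL.cons (nat_lit 7676) (nat_lit 6) (nat_lit 113256647949244903414) (ZL.cons (nat_lit 7752) (nat_lit 6) (nat_lit 113484471348097652106) (ZL.cons (nat_lit 7828) (nat_lit 6) (nat_lit 113864779672460617952) (ZL.cons (nat_lit 7904) (nat_lit 6) (nat_lit 113355130144888408940) (ZL.cons (nat_lit 7980) (nat_lit 6) (nat_lit 113049825001253469792)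 (ZL.cons (nat_lit 8056) (nat_lit 3) (nat_lit 56474068662273572945) (ZL.cons (nat_lit 8132) (nat_lit 6) (nat_lit 112419942214431072318) (ZL.cons (nat_lit 8208) (nat_lit 6) (nat_lit 112575498079944328958) (ZL.cons (nat_lit 8284) (nat_lit 6) (nat_lit 112886980182079207136) (ZL.cons (nat_lit 8360) (nat_lit 6) (nat_lit 112489441318075720228) (ZL.cons (nat_lit 8436) (nat_lit 6) (nat_lit 112290908234982421180) (ZL.cons (nat_lit 8512) (nat_lit 3) (nat_lit 55885614026596214990) (ZL.cons (nat_lit 8588) (nat_lit 6) (nat_lit 111850903008699219966) (ZL.cons (nat_lit 8664) (nat_lit 6) (nat_lit 112090117577494606092) (ZL.cons (nat_lit 8740) (nat_lit 6) (nat_lit 111799350774032759284) (ZL.cons (nat_lit 8816) (nat_lit 3) (nat_lit 55851252683822892069) (ZL.cons (nat_lit 8892) (nat_lit 6) (nat_lit 111308960908002217728) (ZL.cons (nat_lit 8968) (nat_lit 6) (nat_lit 111472294566791137200) (ZL.cons (nat_lit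 9044) (nat_lit 6) (nat_lit 111283215440035614294) (ZL.cons (nat_lit 9120) (nat_lit 3) (nat_lit 55474190719759164689) (ZL.cons (nat_lit 9196) (nat_lit 6) (nat_lit 111032040142800458864) (ZL.cons (nat_lit 9272) (nat_lit 3) (nat_lit 55469903211215955552) (ZL.cons (nat_lit 9348) (nat_lit 6) (nat_lit 110768306080703545660) (ZL.cons (nat_lit 9424) (nat_lit 1) (nat_lit 18446744073709551617) ZL.nil))))))))))))))))))))))))))))))))))))))))))))))))))))))))))))))))))))))))))))))))))))))))))))))))))))))))))))))))))))))))))))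

noncomputable def vl : XL := ⟨(nat_lit 0), (nat_lit 76), (nat_lit 172428874), (nat_lit 228), (nat_lit 293455570), (nat_lit 76), (nat_lit 172428874), (nat_lit 1), (nat_lit 5), (nat_lit 3), (nat_lit 4), (nat_lit 1), (nat_lit 4), (nat_lit 0), (nat_lit 0), (nat_lit 0)⟩

noncomputable def cp0 : Nat := (nat_lit 2123318988472609160487516927216522798192848168314338460517385594483974773555853129454069011286297130777959025198967259464869981114666581943081300809129383133565422432150186732001009773341308479777271703774956406428583818924489188554863272477739068893837550310710621359003671387460432599278938893168277347279164575651555889391900732576101055099650370144868346762201607429377732438314165722053563792610137706834808338459624771357731453163786397966200914828538527529203053402154070921619019433584223428688552132381017548107869034355798260141147566437746488381246443469644488346666799078357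4873026342509303390193145941583798607581305082625198988528335698229732451299491439793190572283815937103459455777179066088809610550485025275918229244108010223688072326770613324160062589170130226270847109713939844308470431589184039046735640882429176050242384106160118883412434762477835016079996615756730374016325198579081697280226849316331183578012475380317403184631900698014785215636237897983192843210054721118034957621691278230862104933324348873415468819914084903346255479822819379349129985912767589340416949682664967868799712303990163085195492418866764367587552073683849569814664793235256085741610670363100311933352090339218645638581774220729258256620256882919341905879337956906144820219602204065108464901926606675325968019974755078238308226652613907766886046585331737574690708443564708092468791929092779453959870721941432846440684564331849860547654545310807636365384255616931687684757103159297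6075965259799470372960873345798736012258394787288882876710941166348287265759658849082817028002656166245102324111740400780159114749907855536686351048084430489664816039519295949831775362408631318406987361141766938864070755512142443891158414886332040060441557934397423558344903268932208159635297127606588649374246455450356226219440678891409529232603735864393478243337399343373471157647256638748385711348911264431836913494971838473053649482805989269998262204491136848646301773002535434881257924352845676684282442383927840664854680040222335027067553614530571623421746031559185266969965005991494386638875713375539032255051489085297836005300505689343764697255269429991321355299532447963102065774093744397623929588451558583509220014204553606911481158320200126709579749831940626777920710247626187409162889955865984284721428187777897213451263086627056110929786504138470757056741165168098392151947596767309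983649475015573826337252820866161344572280724729455524479237813343229555185595956271405901261181257889641988258211817230448155183950378865612094800720040938307920454068081653790206056271810673265933921998146976947027198481682956602649749260300957745217034407599599547242980601873743563410048113617943489006509652932375940070121459488881572292311457706047689191049826879166414827801543070240418849447096176734662968338124232279916285419771733417463198874078798976731421640079966208)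

noncomputable def cp1 : Nat := (nat_lit 2790011087638202183323676742333879635718837315322508635294949372097186242309636218397044173003356904804920176184525651117863735673882672316875744900281865781458748680948030656127747520634218456450886819714649363999011079189264549200192776423895693607151556246751126250564528581958177167447182387189066607379030142433252446102325959358106884096674113670196489382927981696330393101827354306754133824579134277020299499061659852251901064925248628893989892600560896562493864134078684024185237486435486524900083734538119813742548518582006303535862018946865911101241776241944188537787206559604850509134855379484641585692963007088577732228075341001851045429939855519102260405437294442885048844627470805125856232576724340977048084673451215013780192627577451065768150994045213262891149952268477416767646118630265871263003607702457792587705535459577048039939476685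6145844795160670466798248815798294878765316049922210356316167131762482519197161747374357269679237764639295357056404806317318474457686836628962054947836277650829803902357654326202503931306686711801127406782530054814296874456624589191793889753629131677962819856936767725718990930411682097838835483330755672454920007039469773590133735734828842903559453960163680141911169211267040516776465506588870901472300728054726663293989007872533694061711050561766076038946156940552232766207042179347528940189866847061656360079025999812420967971494169051482987328066211231918411425120967910072748282811022269836350166182557965925591033266779676356407895769048142412736672370516751171971363980650757294801694167002158430326427793540083300728707749790908917449191769125381024255305429213416663287442335916439562439973880377769456501837761185457614916286128159922264504482419382072839574923783900609915841995851147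3284833175300432731382378085894025532215586401547165723446344803265649714188256919430580824033633480804959680784881528225067789261192923393037707588930635079193347857488129372443944889114806948969512683719591130118049838601749696474039299963204001635949129339535163714565675876330988170982109893109620257177086221860399683328559781454257625469953397046087513720698852815126355673781559692324950816714943220424530837655879097882359224278983225127049411842617874372709272170923166131170700074147138695438833124755281202968800542584652171687521810680449394445622339499261863327861820193170113938173376977595036522580776635739087234377180391646433881376902946435336619154446867005113194160832162332354575288651645416809998121467704294103692304416053874117522107827666777692223589041873612737785994399693256443565054861888826848454497464685442031964345346341810666063118464202235183302575346223470703515455105362536073424744116621593887716208090213848477645938458960018139080545331145002327398260929246847570836296089265229285321328752233475627837641863479021639341751582846219696336677522887343682210425779257344)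

noncomputable def rc0 : Nat := (nat_lit 2290254622321678911219628186685829100394640354313671561843189553578972534204719821170020069491679662805743307089349131477249218288107241213799725569764492451815380330603896108544148375278823986010080962484054306477337145129921235671164422272578962525999891331354094043466180112811272033959391904433120507868135464931232088408955837163524556216319940814950153226336204618743373876111137523571608030886805137209288393470051173826950224648130879114026639102556788250798835318032713480812236480560328564508353804069741122902580796021769293645863436224591275120850615487454927120879929252863114069451328292265524991907829502298030244261883543791187188152461775325412415592429719424817136077472155567950879452155749739776047045916359384295559751296647503067196025984242880177078563386902707512219587355292287005494086523504797111688128001128386350456783459963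0720943565412102158552191609332687530251486086524335635885167430716294813259219663852690105294956397226005892224667936986839678796997145454551151311992999910127698684579083493525181824625825233080340556961552014118862718757330185994853682158999503925087926183231844736702573291388772728004802301335503252923294923924309008929854823868069854655951109446204020575594556751467722642100972073681559850792964865127044130982737330495001615566515968545148260099310681292256844029384980543457610503698100110420551592293314643753439575095351251365043382720365252960059253632015410274919514619090679650312510282286793656983946835869475221507936283573415664669389341922945702231623321470229261875607108116520632465452168313918492817375004546774617609726341035797086626170142593257365444036406883744713797099732889312849178032579754929080147189543961245396086054783865673143596660280570431089448091483994106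5028843690723840774881733041931865547255315906408160159204178334200721885455244887268567851424181136167496999038418961921720816267193772552432144485785033904176258625501276627738433967318884227719436981264643708108566296845427710674719459033740854302668729905412424844078191707143278136562671518162635503913733984548120392144503147835910032820153397537232226637487297436512651257029074525989014314026422657621770002770279062712523915842047145527574127799286113930425302482588862355916509029662397674558197996092943298894064968564819362079488823638839471900229775646090834472296759027646248316600027288992836036408631232121860428212137560861363147324587037292143482202900868855684505694658608784019001949792733025264560257733035509333996359365140130546031725996313109541111469970828517294447885651707584785013817212472932563077476342141635275482189700059243130478325747124948166571586756705495501655870031157380046420449978064136586160656135339123963943693775807733600756605613985881677708406678161087076777684305686031941958954509782482585805887184842259692529978258177474761939481033414495728653489229791232)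

noncomputable def rc1 : Nat := (nat_lit 2568513909410294973406292169719188644508823397655055040772945411037423452846527898823343817882393744153591511528700249307014146808355408573106971422711781726189071691193166040255244453773280894951475928355191344839745429309384582076013184469212934799184701207941001832042048312055756099067397072173096161195983001134940436211354274405096318769256178677709305755409714214628812624572828009138521559222548900158021108812425428881325587316439674706849623178442449589609650608854425903527779073239242296222008652793766260535947998460454262109677597700365362557353306889763236458807980034773272636968729955879332647147314227393812709509685035055745254348954286484601680703141964220599996280967439858923937245457126801337185472354493204136164359285461799898507401058183644981307186898296024810363657324283196181263428429755673299985391974030300982137253944056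4776366538989966548866677250580354806211916202279239729924267127502222639947289225057445080907239887123272903341965499439784651993021599684697402496957822016728642357825612135589438094256970728127351479381091625339740691150399093737513401951892875634198708987495086309342245306895220321616191711713630450782785014115278221392493064721146798165868805309706700391125857258058788354612852291403666582089809615703907606777247206178878832383410955742403242785257044040878503549128845651253687990341495923451609687069923664609484607296932524039086623559381284204223594829883556712138897370752969125619768784229660173316860051925441358237384288991852671695013433818194417715195413903432452375507920066991379220055959726375246504344475638466359425364302525521523825538252077616794150945601408250139270680257605031755941127757244834044641055580681976645947159076458993392105449993411318456930929468453091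4907394821098766194912178753984313482492152842738930415063496730284100605470952952075229016461926629103194759589888925079252482074445502496785694794809745237316297836833271400452322148699013158665458002021402619323990552725433435423735115202421072076398600837276209423953644964388215752555902802716450532337850064530571757593172577373117665537724856547002289457527043943718872265311592850315743048499780144052534939829506559061972042061170523039011105981100863811862093250712130915065507260029318934711056559604635738165051908595394639764524587185623498408829423261194086235646143391984906099867816647262074663754458649550506094401920261849734145804750380536450243347855706239443234190759362736027983061521883710403409241329781640926003221843937067095615301515172711749609940887378609017216742097041088061507518793107978214597090353361405420062548911133751182838031243794655204834184296489471372436307276131001147631220226281755938140638984878722457604845959524339663760257461978936899694608087432100933479262316342741342173917350667672307299833288677408145085329126905281715972540950416817569629929744629760)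

noncomputable def rc2 : Nat := (nat_lit 2790011087638202183323676742333879635718837315322508635294949372097186242309636218397044173003356904804920176184525651117863735673882672316875744900281865781458748680948030656127747520634218456450886819714649363999011079189264549200192776423895693607151556246751126250564528581958177167447182387189066607379030142433252446102325959358106884096674113670196489382927981696330393101827354306754133824579134277020299499061659852251901064925248628893989892600560896562493864134078684024185237486435486524900083734538119813742548518582006303535862018946865911101241776241944188537787206559604850509134855379484641585692963007088577732228075341001851045429939855519102260405437294442885048844627470805125856232576724340977048084673451215013780192627577451065768150994045213262891149952268477416767646118630265871263003607702457792587705535459577048039939476685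6145844795160670466798248815798294878765316049922210356316167131762482519197161747374357269679237764639295357056404806317318474457686836628962054947836277650829803902357654326202503931306686711801127406782530054814296874456624589191793889753629131677962819856936767725718990930411682097838835483330755672454920007039469773590133735734828842903559453960163680141911169211267040516776465506588870901472300728054726663293989007872533694061711050561766076038946156940552232766207042179347528940189866847061656360079025999812420967971494169051482987328066211231918411425120967910072748282811022269836350166182557965925591033266779676356407895769048142412736672370516751171971363980650757294801694167002158430326427793540083300728707749790908917449191769125381024255305429213416663287442335916439562439973880377769456501837761185457614916286128159922264504482419382072839574923783900609915841995851147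3284833175300432731382378085894025532215586401547165723446344803265649714188256919430580824033633480804959680784881528225067789261192923393037707588930635079193347857488129372443944889114806948969512683719591130118049838601749696474039299963204001635949129339535163714565675876330988170982109893109620257177086221860399683328559781454257625469953397046087513720698852815126355673781559692324950816714943220424530837655879097882359224278983225127049411842617874372709272170923166131170700074147138695438833124755281202968800542584652171687521810680449394445622339499261863327861820193170113938173376977595036522580776635739087234377180391646433881376902946435336619154446867005113194160832162332354575288651645416809998121467704294103692304416053874117522107827666777692223589041873612737785994399693256443565054861888826848454497464685442031964345346341810666063118464202235183302575346223470703515455105362536073424744116621593887716208090213848477645938458960018139080545331145002327398260929246847570836296089265229285321328752233475627837641863479021639341751582846219696336677522887343682210425779257344)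

end Vale.Agent.Lib.P154.PChain.BR.S4
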